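import Crest.Agent.H3.Snaky.Cert

set_option autoImplicit false
set_option maxRecDepth 100000

namespace Crest.Agent.H3.Snaky.CR

open T

def q2 : Q := Q.p (nat_lit 0x4000010000040000100000400000000000000000000000000000000000) (nat_lit 0x200000800002000000000000000000000000000000) (nat_lit 2)
theorem c2 : QOK q2 := cut [] trivial (nd (nat_lit 143) (nat_lit 0) (cs (lf (nat_lit 34) (nat_lit 142)) (lf (nat_lit 35) (nat_lit 120)))) q2 (by decide +kernel)
def q11 : Q := Q.p (nat_lit 0x300000e0000000000000000000000000000000000000000000000) (nat_lit 0x40000018000000000000000000000000000000000000000000000) (nat_lit 2)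
theorem c11 : QOK q11 := cut [] trivial (nd (nat_lit 184) (nat_lit 0) (cs (lf (nat_lit 5) (nat_lit 184)) (lf (nat_lit 0) (nat_lit 183)))) q11 (by decide +kernel)
def q25 : Q := Q.p (nat_lit 0x3000004000010000040000000000000000000000000000000000000000000000) (nat_lit 0x8000000000080000300000800000000000000000000000000000000000) (nat_lit 3)
theorem c25 : QOK q25 := cut [] trivial (nd (nat_lit 165) (nat_lit 0) (cs (nd (nat_lit 164) (nat_lit 0) (cs (lf (nat_lit 28) (nat_lit 164)) (lf (nat_lit 35) (nat_lit 142)))) (lf (nat_lit 34) (nat_lit 164)))) q25 (by decide +kernel)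
def q29 : Q := Q.p (nat_lit 0x3000004000010000040000000000000000000000000000000000000000000000) (nat_lit 0x20000080000a000000000000000100000000000000000000000000000000000000000) (nat_lit 3)
theorem c29 : QOK q29 := cut [] trivial (nd (nat_lit 251) (nat_lit 0) (cs (lf (nat_lit 41) (nat_lit 185)) (nd (nat_lit 164) (nat_lit 0) (cs (lf (nat_lit 28) (nat_lit 164)) (lf (nat_lit 40) (nat_lit 163)))))) q29 (by decide +kernel)
def q33 : Q := Q.p (nat_lit 0x2000008000030000040000000000000000000000000000000000000000000000) (nat_lit 0x80000100000400000000000000000000000000000000000) (nat_lit 2)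
theorem c33 : QOK q33 := cut [] trivial (nd (nat_lit 164) (nat_lit 0) (cs (lf (nat_lit 24) (nat_lit 142)) (lf (nat_lit 45) (nat_lit 164)))) q33 (by decide +kernel)
def q37 : Q := Q.p (nat_lit 0x70000060000000000000000000000000000000000000000000000) (nat_lit 0x8000018000000000000000000000000000000000000000000000) (nat_lit 2)
theorem c37 : QOK q37 := cut [] trivial (nd (nat_lit 184) (nat_lit 0) (cs (lf (nat_lit 0) (nat_lit 183)) (lf (nat_lit 21) (nat_lit 184)))) q37 (by decide +kernel)
def q42 : Q := Q.p (nat_lit 0x70000300000000000000000000000000000000000000000000000) (nat_lit 0x80000c00000000000000000000000000000000000000000000000) (nat_lit 2)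
theorem c42 : QOK q42 := cut [] trivial (nd (nat_lit 190) (nat_lit 0) (cs (lf (nat_lit 15) (nat_lit 186)) (lf (nat_lit 6) (nat_lit 187)))) q42 (by decide +kernel)
def q47 : Q := Q.p (nat_lit 0xfc000040000000000000000000000000000000000000000000000) (nat_lit 0x102000080000000000000000000000000000000000000000000000) (nat_lit 2)
theorem c47 : QOK q47 := cut [] trivial (nd (nat_lit 187) (nat_lit 0) (cs (lf (nat_lit 18) (nat_lit 186)) (lf (nat_lit 12) (nat_lit 183)))) q47 (by decide +kernel)
def q59 : Q := Q.p (nat_lit 0x70000300000000000000000000000000000000000000000000000) (nat_lit 0xc80000000000000000000000000000000000000000000000) (nat_lit 2)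
theorem c59 : QOK q59 := cut [] trivial (nd (nat_lit 190) (nat_lit 0) (cs (lf (nat_lit 6) (nat_lit 187)) (lf (nat_lit 9) (nat_lit 186)))) q59 (by decide +kernel)
def q62 : Q := Q.p (nat_lit 0x780000c0000000000000000000000000000000000000000000000) (nat_lit 0x70000180000000000000000000000000000000000000000000000000000) (nat_lit 3)
theorem c62 : QOK q62 := cut [] trivial (nd (nat_lit 233) (nat_lit 0) (cs (lf (nat_lit 4) (nat_lit 207)) (nd (nat_lit 211) (nat_lit 0) (cs (lf (nat_lit 18) (nat_lit 186)) (lf (nat_lit 5) (nat_lit 208)))))) q62 (by decide +kernel)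
def q71 : Q := Q.p (nat_lit 0x70000200000000000000000000000000000000000000000000000) (nat_lit 0x80000d80000000000000000000000000000000000000000000000) (nat_lit 3)
theorem c71 : QOK q71 := cut [] trivial (nd (nat_lit 190) (nat_lit 0) (cs (lf (nat_lit 15) (nat_lit 186)) (nd (nat_lit 188) (nat_lit 0) (cs (lf (nat_lit 6) (nat_lit 187)) (lf (nat_lit 9) (nat_lit 186)))))) q71 (by decide +kernel)
def q74 : Q := Q.p (nat_lit 0x70000060000000000000000000000000000000000000000000000) (nat_lit 0x98000000000000000000000000000000000000000000000) (nat_lit 2)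
theorem c74 : QOK q74 := cut [] trivial (nd (nat_lit 184) (nat_lit 0) (cs (lf (nat_lit 0) (nat_lit 183)) (lf (nat_lit 3) (nat_lit 184)))) q74 (by decide +kernel)
def q77 : Q := Q.p (nat_lit 0x1000038000010000000000000000000000000000000000000000000000) (nat_lit 0x800004000008000000000000000000000000000000000000000000000) (nat_lit 2)
theorem c77 : QOK q77 := cut [] trivial (nd (nat_lit 206) (nat_lit 0) (cs (lf (nat_lit 11) (nat_lit 205)) (lf (nat_lit 23) (nat_lit 183)))) q77 (by decide +kernel)
def q85 : Q := Q.p (nat_lit 0x7c000000000000000000000000000000000000000000000000000) (nat_lit 0x380000000000000000000000000000000000000000000000) (nat_lit 2)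
theorem c85 : QOK q85 := cut [] trivial (nd (nat_lit 188) (nat_lit 0) (cs (lf (nat_lit 17) (nat_lit 185)) (lf (nat_lit 16) (nat_lit 184)))) q85 (by decide +kernel)
def q90 : Q := Q.p (nat_lit 0x2000018000060000000000000000000000000000000000000000000000) (nat_lit 0x800000000000000000000100000400000000000000000000000000000000000) (nat_lit 2)
theorem c90 : QOK q90 := cut [] trivial (nd (nat_lit 164) (nat_lit 0) (cs (lf (nat_lit 30) (nat_lit 163)) (lf (nat_lit 36) (nat_lit 141)))) q90 (by decide +kernel)
def q96 : Q := Q.p (nat_lit 0x78000010000000000000000000000000000000000000000000000) (nat_lit 0x4000388000000000000000000000000000000000000000000000) (nat_lit 3)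
theorem c96 : QOK q96 := cut [] trivial (nd (nat_lit 188) (nat_lit 0) (cs (lf (nat_lit 17) (nat_lit 185)) (nd (nat_lit 206) (nat_lit 0) (cs (lf (nat_lit 23) (nat_lit 183)) (lf (nat_lit 16) (nat_lit 184)))))) q96 (by decide +kernel)
def q100 : Q := Q.p (nat_lit 0xf8000000000000000000000000000000000000000000000000000) (nat_lit 0x700000000000000000000000000000000000000000000000) (nat_lit 2)
theorem c100 : QOK q100 := cut [] trivial (nd (nat_lit 189) (nat_lit 0) (cs (lf (nat_lit 17) (nat_lit 186)) (lf (nat_lit 16) (nat_lit 185)))) q100 (by decide +kernel)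
def q107 : Q := Q.p (nat_lit 0x2000018000078000000000000000000000000000000000000000000000000000) (nat_lit 0x300000400000000000000000000000000000000000000000) (nat_lit 2)
theorem c107 : QOK q107 := cut [] trivial (nd (nat_lit 188) (nat_lit 0) (cs (lf (nat_lit 17) (nat_lit 185)) (lf (nat_lit 36) (nat_lit 165)))) q107 (by decide +kernel)
def q113 : Q := Q.p (nat_lit 0x3e000000000000000000000000000000000000000000000000000) (nat_lit 0x1c000000000000000000000000000000000000000000000) (nat_lit 2)
theorem c113 : QOK q113 := cut [] trivial (nd (nat_lit 183) (nat_lit 0) (cs (lf (nat_lit 22) (nat_lit 183)) (lf (nat_lit 23) (nat_lit 182)))) q113 (by decide +kernel)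
def q126 : Q := Q.p (nat_lit 0x1f000000000000000000000000000000000000000000000000000) (nat_lit 0xe000000000000000000000000000000000000000000000) (nat_lit 2)
theorem c126 : QOK q126 := cut [] trivial (nd (nat_lit 182) (nat_lit 0) (cs (lf (nat_lit 23) (nat_lit 181)) (lf (nat_lit 22) (nat_lit 182)))) q126 (by decide +kernel)
def q136 : Q := Q.p (nat_lit 0x38000050000000000000000000000000000000000000000000000) (nat_lit 0x4000028000000000000000000000000000000000000000000000) (nat_lit 2)
theorem c136 : QOK q136 := cut [] trivial (nd (nat_lit 183) (nat_lit 0) (cs (lf (nat_lit 21) (nat_lit 183)) (lf (nat_lit 2) (nat_lit 183)))) q136 (by decide +kernel)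
def q137 : Q := Q.p (nat_lit 0xf8000000000000000000000000000000000000000000000000000) (nat_lit 0x70000000000000000000000000000000000000000000000000000000000) (nat_lit 2)
theorem c137 : QOK q137 := cut [] trivial (nd (nat_lit 233) (nat_lit 0) (cs (lf (nat_lit 4) (nat_lit 207)) (lf (nat_lit 5) (nat_lit 208)))) q137 (by decide +kernel)
def q149 : Q := Q.p (nat_lit 0x38000050000000000000000000000000000000000000000000000) (nat_lit 0x40000028000000000000000000000000000000000000000000000) (nat_lit 2)
theorem c149 : QOK q149 := cut [] trivial (nd (nat_lit 185) (nat_lit 0) (cs (lf (nat_lit 0) (nat_lit 183)) (lf (nat_lit 18) (nat_lit 184)))) q149 (by decide +kernel)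
def q153 : Q := Q.p (nat_lit 0x1f000000000000000000000000000000000000000000000000000) (nat_lit 0xe00000000000000000000000000000000000000000000000000000000) (nat_lit 2)
theorem c153 : QOK q153 := cut [] trivial (nd (nat_lit 226) (nat_lit 0) (cs (lf (nat_lit 11) (nat_lit 203)) (lf (nat_lit 10) (nat_lit 204)))) q153 (by decide +kernel)
def q159 : Q := Q.p (nat_lit 0x2000038000060000000000000000000000000000000000000000000000) (nat_lit 0x10000c0000000000000000000000000000000000000000000000000000) (nat_lit 2)
theorem c159 : QOK q159 := cut [] trivial (nd (nat_lit 210) (nat_lit 0) (cs (lf (nat_lit 18) (nat_lit 185)) (lf (nat_lit 11) (nat_lit 206)))) q159 (by decide +kernel)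
def q167 : Q := Q.p (nat_lit 0x38000060000000000000000000000000000000000000000000000) (nat_lit 0xc0000010000000000000000000000000000000000000000000000) (nat_lit 2)
theorem c167 : QOK q167 := cut [] trivial (nd (nat_lit 210) (nat_lit 0) (cs (lf (nat_lit 18) (nat_lit 185)) (lf (nat_lit 23) (nat_lit 184)))) q167 (by decide +kernel)
def q173 : Q := Q.p (nat_lit 0x7c000000000000000000000000000000000000000000000000000) (nat_lit 0x38000000000000000000000000000000000000000000000) (nat_lit 2)
theorem c173 : QOK q173 := cut [] trivial (nd (nat_lit 184) (nat_lit 0) (cs (lf (nat_lit 23) (nat_lit 183)) (lf (nat_lit 22) (nat_lit 184)))) q173 (by decide +kernel)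
def q201 : Q := Q.p (nat_lit 0x80000f0000200000000000000000000000000000000000000000000000) (nat_lit 0x40000100000f0000700003900000000000000000000000000000000000000000000000) (nat_lit 7)
theorem c201 : QOK q201 := cut [] trivial (nd (nat_lit 234) (nat_lit 0) (cs (nd (nat_lit 212) (nat_lit 0) (cs (nd (nat_lit 256) (nat_lit 0) (cs (nd (nat_lit 213) (nat_lit 0) (cs (nd (nat_lit 192) (nat_lit 0) (cs (nd (nat_lit 214) (nat_lit 0) (cs (lf (nat_lit 17) (nat_lit 189)) (lf (nat_lit 23) (nat_lit 188)))) (lf (nat_lit 16) (nat_lit 188)))) (lf (nat_lit 10) (nat_lit 209)))) (lf (nat_lit 42) (nat_lit 189)))) (lf (nat_lit 5) (nat_lit 209)))) (lf (nat_lit 4) (nat_lit 208)))) q201 (by decide +kernel)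
def q207 : Q := Q.p (nat_lit 0x2000008000060000100000000000000000000000000000000000000000000000) (nat_lit 0x10000000000000000400001000000000000000000000000000000000000) (nat_lit 2)
theorem c207 : QOK q207 := cut [] trivial (nd (nat_lit 166) (nat_lit 0) (cs (lf (nat_lit 36) (nat_lit 143)) (lf (nat_lit 39) (nat_lit 165)))) q207 (by decide +kernel)
def q212 : Q := Q.p (nat_lit 0x800000000078000040000000000000000000000000000000000000000000000) (nat_lit 0x200000000003000000000000000000000000000000000000000000000000000000000) (nat_lit 2)
theorem c212 : QOK q212 := cut [] trivial (nd (nat_lit 229) (nat_lit 0) (cs (lf (nat_lit 11) (nat_lit 206)) (lf (nat_lit 30) (nat_lit 185)))) q212 (by decide +kernel)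
def q228 : Q := Q.p (nat_lit 0x200000c0000300000000000000000000000000000000000000000000000) (nat_lit 0x8000000000000000000000400001000000000000000000000000000000000000) (nat_lit 2)
theorem c228 : QOK q228 := cut [] trivial (nd (nat_lit 166) (nat_lit 0) (cs (lf (nat_lit 24) (nat_lit 144)) (lf (nat_lit 42) (nat_lit 166)))) q228 (by decide +kernel)
def q235 : Q := Q.p (nat_lit 0x3800003000000000000000000000000000000000000000000000000000000000000000) (nat_lit 0x400000c00000000000000000000000000000000000000000000000000000000000000) (nat_lit 2)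
theorem c235 : QOK q235 := cut [] trivial (nd (nat_lit 251) (nat_lit 0) (cs (lf (nat_lit 0) (nat_lit 250)) (lf (nat_lit 21) (nat_lit 251)))) q235 (by decide +kernel)
def q265 : Q := Q.p (nat_lit 0x300000e0000200000800000000000000000000000000000000000) (nat_lit 0x100000c0000000000000000000000000000000000000000000000000000) (nat_lit 2)
theorem c265 : QOK q265 := cut [] trivial (nd (nat_lit 210) (nat_lit 0) (cs (lf (nat_lit 18) (nat_lit 185)) (lf (nat_lit 29) (nat_lit 143)))) q265 (by decide +kernel)
def q282 : Q := Q.p (nat_lit 0x1000002000018000060000000000000000000000000000000000000000000000) (nat_lit 0x600000800000000000000000000000000000000000000000000000000000000000000) (nat_lit 2)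
theorem c282 : QOK q282 := cut [] trivial (nd (nat_lit 251) (nat_lit 0) (cs (lf (nat_lit 30) (nat_lit 185)) (lf (nat_lit 29) (nat_lit 185)))) q282 (by decide +kernel)
def q288 : Q := Q.p (nat_lit 0x80000380000c0000000000000000000000000000000000000000000000) (nat_lit 0x10000006000000000000000000000000000000000000000000000000000) (nat_lit 2)
theorem c288 : QOK q288 := cut [] trivial (nd (nat_lit 206) (nat_lit 0) (cs (lf (nat_lit 12) (nat_lit 183)) (lf (nat_lit 5) (nat_lit 206)))) q288 (by decide +kernel)
def q312 : Q := Q.p (nat_lit 0x3000008000028000028000000000000000000000000000000000000000000000) (nat_lit 0x40000100000580000e00013c00002000080000000000000000000000000000000000000000000000) (nat_lit 8)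
theorem c312 : QOK q312 := cut [] trivial (nd (nat_lit 274) (nat_lit 0) (cs (nd (nat_lit 296) (nat_lit 0) (cs (nd (nat_lit 251) (nat_lit 0) (cs (nd (nat_lit 250) (nat_lit 0) (cs (nd (nat_lit 227) (nat_lit 0) (cs (nd (nat_lit 249) (nat_lit 0) (cs (nd (nat_lit 272) (nat_lit 0) (cs (lf (nat_lit 25) (nat_lit 183)) (lf (nat_lit 11) (nat_lit 249)))) (lf (nat_lit 23) (nat_lit 226)))) (lf (nat_lit 22) (nat_lit 227)))) (lf (nat_lit 17) (nat_lit 228)))) (lf (nat_lit 26) (nat_lit 185)))) (lf (nat_lit 30) (nat_lit 230)))) (lf (nat_lit 36) (nat_lit 186)))) q312 (by decide +kernel)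
def q326 : Q := Q.p (nat_lit 0x700000c0000000000000000000000000000000000000000000000) (nat_lit 0x180000020000000000000000000000000000000000000000000000) (nat_lit 2)
theorem c326 : QOK q326 := cut [] trivial (nd (nat_lit 211) (nat_lit 0) (cs (lf (nat_lit 18) (nat_lit 186)) (lf (nat_lit 23) (nat_lit 185)))) q326 (by decide +kernel)
def q335 : Q := Q.p (nat_lit 0xc000030000040000000000000000000000000000000000000000) (nat_lit 0x2000000000000000000000100000400000000000000000000000000000) (nat_lit 2)
theorem c335 : QOK q335 := cut [] trivial (nd (nat_lit 140) (nat_lit 0) (cs (lf (nat_lit 24) (nat_lit 118)) (lf (nat_lit 29) (nat_lit 140)))) q335 (by decide +kernel)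
def q356 : Q := Q.p (nat_lit 0x300001c0000000000000000000000000000000000000000000000) (nat_lit 0x8000600000000000000000000000000000000000000000000000) (nat_lit 2)
theorem c356 : QOK q356 := cut [] trivial (nd (nat_lit 189) (nat_lit 0) (cs (lf (nat_lit 6) (nat_lit 186)) (lf (nat_lit 11) (nat_lit 185)))) q356 (by decide +kernel)
def q367 : Q := Q.p (nat_lit 0x1000004000010000040000000000000000000000000000000000000000000000) (nat_lit 0x80000600000800000000020000080000200000000000000000000000000000000000000000) (nat_lit 4)
theorem c367 : QOK q367 := cut [] trivial (nd (nat_lit 273) (nat_lit 0) (cs (nd (nat_lit 187) (nat_lit 0) (cs (lf (nat_lit 35) (nat_lit 164)) (nd (nat_lit 274) (nat_lit 0) (cs (lf (nat_lit 34) (nat_lit 186)) (lf (nat_lit 41) (nat_lit 207)))))) (lf (nat_lit 40) (nat_lit 185)))) q367 (by decide +kernel)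
def q371 : Q := Q.p (nat_lit 0x1000004000010000040000000000000000000000000000000000000000000000) (nat_lit 0x80000600000800000000008000020000080000000000000000000000000000000000000000) (nat_lit 4)
theorem c371 : QOK q371 := cut [] trivial (nd (nat_lit 273) (nat_lit 0) (cs (lf (nat_lit 40) (nat_lit 185)) (nd (nat_lit 185) (nat_lit 0) (cs (lf (nat_lit 47) (nat_lit 163)) (nd (nat_lit 274) (nat_lit 0) (cs (lf (nat_lit 41) (nat_lit 207)) (lf (nat_lit 46) (nat_lit 185)))))))) q371 (by decide +kernel)
def q376 : Q := Q.p (nat_lit 0x10000040000100001c0000000000000000000000000000000000000000000000) (nat_lit 0x8000220001c80000000000000000000000000000000000000000) (nat_lit 4)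
theorem c376 : QOK q376 := cut [] trivial (nd (nat_lit 189) (nat_lit 0) (cs (lf (nat_lit 11) (nat_lit 185)) (nd (nat_lit 167) (nat_lit 0) (cs (nd (nat_lit 185) (nat_lit 0) (cs (lf (nat_lit 47) (nat_lit 163)) (lf (nat_lit 16) (nat_lit 163)))) (lf (nat_lit 17) (nat_lit 164)))))) q376 (by decide +kernel)
def q379 : Q := Q.p (nat_lit 0xc0000300000800000000000000000000000000000000000000000) (nat_lit 0x10000000000000000000002000008000000000000000000000000000000) (nat_lit 2)
theorem c379 : QOK q379 := cut [] trivial (nd (nat_lit 145) (nat_lit 0) (cs (lf (nat_lit 36) (nat_lit 122)) (lf (nat_lit 41) (nat_lit 144)))) q379 (by decide +kernel)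
def q394 : Q := Q.p (nat_lit 0x20000000000000001e0000000000000000000000000000000000000000000000) (nat_lit 0x80000e0000010000c00000000000000000000000000000000000000000) (nat_lit 4)
theorem c394 : QOK q394 := cut [] trivial (nd (nat_lit 166) (nat_lit 0) (cs (nd (nat_lit 210) (nat_lit 0) (cs (nd (nat_lit 209) (nat_lit 0) (cs (lf (nat_lit 31) (nat_lit 165)) (lf (nat_lit 0) (nat_lit 184)))) (lf (nat_lit 5) (nat_lit 185)))) (lf (nat_lit 17) (nat_lit 163)))) q394 (by decide +kernel)
def q409 : Q := Q.p (nat_lit 0x100001c0000000000000000000000000000000000000000000000) (nat_lit 0xfe8001e00007000000000000000000000000000000000000000000) (nat_lit 8)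
theorem c409 : QOK q409 := cut [] trivial (nd (nat_lit 189) (nat_lit 0) (cs (lf (nat_lit 11) (nat_lit 185)) (nd (nat_lit 211) (nat_lit 0) (cs (lf (nat_lit 5) (nat_lit 186)) (nd (nat_lit 190) (nat_lit 0) (cs (nd (nat_lit 169) (nat_lit 0) (cs (nd (nat_lit 191) (nat_lit 0) (cs (nd (nat_lit 192) (nat_lit 0) (cs (nd (nat_lit 214) (nat_lit 0) (cs (lf (nat_lit 5) (nat_lit 189)) (lf (nat_lit 4) (nat_lit 188)))) (lf (nat_lit 11) (nat_lit 188)))) (lf (nat_lit 17) (nat_lit 166)))) (lf (nat_lit 16) (nat_lit 165)))) (lf (nat_lit 10) (nat_lit 186)))))))) q409 (by decide +kernel)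
def q419 : Q := Q.p (nat_lit 0x180000e0000000000000000000000000000000000000000000000) (nat_lit 0x4000300000000000000000000000000000000000000000000000) (nat_lit 2)
theorem c419 : QOK q419 := cut [] trivial (nd (nat_lit 188) (nat_lit 0) (cs (lf (nat_lit 6) (nat_lit 185)) (lf (nat_lit 11) (nat_lit 184)))) q419 (by decide +kernel)
def q426 : Q := Q.p (nat_lit 0x380000c000000000000000000000000000000000000000000000000000000000) (nat_lit 0x400030000000000000000000000000000000000000000000000000000000000) (nat_lit 2)
theorem c426 : QOK q426 := cut [] trivial (nd (nat_lit 232) (nat_lit 0) (cs (lf (nat_lit 12) (nat_lit 228)) (lf (nat_lit 6) (nat_lit 229)))) q426 (by decide +kernel)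
def q432 : Q := Q.p (nat_lit 0x1000004000010000040000100000000000000000000000000000000000000000) (nat_lit 0x80000200000800000000000000000000000000000000000) (nat_lit 2)
theorem c432 : QOK q432 := cut [] trivial (nd (nat_lit 165) (nat_lit 0) (cs (lf (nat_lit 35) (nat_lit 142)) (lf (nat_lit 34) (nat_lit 164)))) q432 (by decide +kernel)
def q441 : Q := Q.p (nat_lit 0x3000004000010000040000000000000000000000000000000000000000000000) (nat_lit 0x8000000000020000180000200000000000000000000000000000000000) (nat_lit 3)
theorem c441 : QOK q441 := cut [] trivial (nd (nat_lit 163) (nat_lit 0) (cs (lf (nat_lit 46) (nat_lit 163)) (nd (nat_lit 164) (nat_lit 0) (cs (lf (nat_lit 28) (nat_lit 164)) (lf (nat_lit 47) (nat_lit 141)))))) q441 (by decide +kernel)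
def q448 : Q := Q.p (nat_lit 0x4000010000040000100000000000000000000000000000000000000000) (nat_lit 0x280000e00002800000000000000000000000000000) (nat_lit 4)
theorem c448 : QOK q448 := cut [] trivial (nd (nat_lit 141) (nat_lit 0) (cs (nd (nat_lit 143) (nat_lit 0) (cs (lf (nat_lit 34) (nat_lit 142)) (nd (nat_lit 142) (nat_lit 0) (cs (lf (nat_lit 35) (nat_lit 120)) (lf (nat_lit 47) (nat_lit 119)))))) (lf (nat_lit 46) (nat_lit 141)))) q448 (by decide +kernel)
def q454 : Q := Q.p (nat_lit 0x70000300000000000000000000000000000000000000000) (nat_lit 0x80000c00000000000000000000000000000000000000000) (nat_lit 2)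
theorem c454 : QOK q454 := cut [] trivial (nd (nat_lit 166) (nat_lit 0) (cs (lf (nat_lit 15) (nat_lit 162)) (lf (nat_lit 6) (nat_lit 163)))) q454 (by decide +kernel)
def q459 : Q := Q.p (nat_lit 0x400003c0000000000000000000000000000000000000000) (nat_lit 0x180000020000000000000000000000000000000000000000) (nat_lit 2)
theorem c459 : QOK q459 := cut [] trivial (nd (nat_lit 187) (nat_lit 0) (cs (lf (nat_lit 5) (nat_lit 162)) (lf (nat_lit 0) (nat_lit 161)))) q459 (by decide +kernel)
def q466 : Q := Q.p (nat_lit 0x7000030000000000000000000000000000000000000000000000000000) (nat_lit 0xc8000000000000000000000000000000000000000000000000000) (nat_lit 2)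
theorem c466 : QOK q466 := cut [] trivial (nd (nat_lit 210) (nat_lit 0) (cs (lf (nat_lit 9) (nat_lit 206)) (lf (nat_lit 6) (nat_lit 207)))) q466 (by decide +kernel)
def q490 : Q := Q.p (nat_lit 0x4000010000050000300000000000000000000000000000000000000000) (nat_lit 0x280000c0000200000000000000000000000000000000000) (nat_lit 3)
theorem c490 : QOK q490 := cut [] trivial (nd (nat_lit 183) (nat_lit 0) (cs (nd (nat_lit 163) (nat_lit 0) (cs (lf (nat_lit 47) (nat_lit 141)) (lf (nat_lit 9) (nat_lit 161)))) (lf (nat_lit 14) (nat_lit 161)))) q490 (by decide +kernel)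
def q493 : Q := Q.p (nat_lit 0x2000010000040000100000200000000000000000000000000000000000) (nat_lit 0x8000000000000000400000800000000000000000000000000000) (nat_lit 2)
theorem c493 : QOK q493 := cut [] trivial (nd (nat_lit 142) (nat_lit 0) (cs (lf (nat_lit 40) (nat_lit 141)) (lf (nat_lit 47) (nat_lit 119)))) q493 (by decide +kernel)
def q497 : Q := Q.p (nat_lit 0x1000004000010000040000100000000000000000000000000000000000000000) (nat_lit 0x20000080000200000000000000000000000000000000000) (nat_lit 2)
theorem c497 : QOK q497 := cut [] trivial (nd (nat_lit 163) (nat_lit 0) (cs (lf (nat_lit 46) (nat_lit 163)) (lf (nat_lit 47) (nat_lit 141)))) q497 (by decide +kernel)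
def q502 : Q := Q.p (nat_lit 0x2000008000010000040000100000000000000000000000000000000000000000) (nat_lit 0x800000000000000020000080000000000000000000000000000000000000000000000) (nat_lit 2)
theorem c502 : QOK q502 := cut [] trivial (nd (nat_lit 209) (nat_lit 0) (cs (lf (nat_lit 45) (nat_lit 164)) (lf (nat_lit 42) (nat_lit 186)))) q502 (by decide +kernel)
def q507 : Q := Q.p (nat_lit 0x200000c000010000040000000000000000000000000000000000000000000000) (nat_lit 0x200000800001000000000000000000000000000000000000000000000000000000000000000) (nat_lit 2)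
theorem c507 : QOK q507 := cut [] trivial (nd (nat_lit 275) (nat_lit 0) (cs (lf (nat_lit 42) (nat_lit 208)) (lf (nat_lit 27) (nat_lit 186)))) q507 (by decide +kernel)
def q510 : Q := Q.p (nat_lit 0x800002000008000010000040000000000000000000000000000000000000000000000) (nat_lit 0x200000000001000004000000000000000000000000000000000000000000000000000000000) (nat_lit 2)
theorem c510 : QOK q510 := cut [] trivial (nd (nat_lit 230) (nat_lit 0) (cs (lf (nat_lit 42) (nat_lit 208)) (lf (nat_lit 27) (nat_lit 186)))) q510 (by decide +kernel)
def q513 : Q := Q.p (nat_lit 0x2000008000010000040000100000000000000000000000000000000000000000) (nat_lit 0x20000080000000000400000000000000000000000000000000000) (nat_lit 2)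
theorem c513 : QOK q513 := cut [] trivial (nd (nat_lit 209) (nat_lit 0) (cs (lf (nat_lit 24) (nat_lit 142)) (lf (nat_lit 45) (nat_lit 164)))) q513 (by decide +kernel)
def q520 : Q := Q.p (nat_lit 0x8000040000100000400002000000000000000000000000000000) (nat_lit 0x20000000000000001000008000000000000000000000000) (nat_lit 2)
theorem c520 : QOK q520 := cut [] trivial (nd (nat_lit 120) (nat_lit 0) (cs (lf (nat_lit 40) (nat_lit 119)) (lf (nat_lit 35) (nat_lit 98)))) q520 (by decide +kernel)
def q526 : Q := Q.p (nat_lit 0x1c0000c0000000000000000000000000000000000000000000000) (nat_lit 0x320000000000000000000000000000000000000000000000) (nat_lit 2)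
theorem c526 : QOK q526 := cut [] trivial (nd (nat_lit 188) (nat_lit 0) (cs (lf (nat_lit 6) (nat_lit 185)) (lf (nat_lit 9) (nat_lit 184)))) q526 (by decide +kernel)
def q529 : Q := Q.p (nat_lit 0x1c0000c0000000000000000000000000000000000000000000000) (nat_lit 0x20000300000000000000000000000000000000000000000000000) (nat_lit 2)
theorem c529 : QOK q529 := cut [] trivial (nd (nat_lit 188) (nat_lit 0) (cs (lf (nat_lit 6) (nat_lit 185)) (lf (nat_lit 15) (nat_lit 184)))) q529 (by decide +kernel)
def q534 : Q := Q.p (nat_lit 0x1c000008000000000000000000000000000000000000000000000) (nat_lit 0x22000016000000000000000000000000000000000000000000000) (nat_lit 3)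
theorem c534 : QOK q534 := cut [] trivial (nd (nat_lit 182) (nat_lit 0) (cs (lf (nat_lit 21) (nat_lit 182)) (nd (nat_lit 184) (nat_lit 0) (cs (lf (nat_lit 18) (nat_lit 183)) (lf (nat_lit 0) (nat_lit 181)))))) q534 (by decide +kernel)
def q537 : Q := Q.p (nat_lit 0x18000058000100000000000000000000000000000000000000000) (nat_lit 0x24000200000000000000000000000000000000000000000) (nat_lit 2)
theorem c537 : QOK q537 := cut [] trivial (nd (nat_lit 185) (nat_lit 0) (cs (lf (nat_lit 17) (nat_lit 161)) (lf (nat_lit 0) (nat_lit 182)))) q537 (by decide +kernel)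
def q541 : Q := Q.p (nat_lit 0x4000018000040000100000000000000000000000000000000000) (nat_lit 0x800002000000000000000000000400000000000000000000000000000) (nat_lit 2)
theorem c541 : QOK q541 := cut [] trivial (nd (nat_lit 205) (nat_lit 0) (cs (lf (nat_lit 36) (nat_lit 117)) (lf (nat_lit 41) (nat_lit 139)))) q541 (by decide +kernel)
def q556 : Q := Q.p (nat_lit 0x10000040000100000400001000000000000000000000000000000) (nat_lit 0x200000800002000000000000000000000000) (nat_lit 2)
theorem c556 : QOK q556 := cut [] trivial (nd (nat_lit 119) (nat_lit 0) (cs (lf (nat_lit 47) (nat_lit 97)) (lf (nat_lit 46) (nat_lit 119)))) q556 (by decide +kernel)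
def q561 : Q := Q.p (nat_lit 0x380000c0000000000000000000000000000000000000000000000) (nat_lit 0x4000300000000000000000000000000000000000000000000000) (nat_lit 2)
theorem c561 : QOK q561 := cut [] trivial (nd (nat_lit 188) (nat_lit 0) (cs (lf (nat_lit 6) (nat_lit 185)) (lf (nat_lit 12) (nat_lit 184)))) q561 (by decide +kernel)
def q565 : Q := Q.p (nat_lit 0x4000010000340000100000000000000000000000000000000000) (nat_lit 0x80000080000200000000000000000000000000000) (nat_lit 2)
theorem c565 : QOK q565 := cut [] trivial (nd (nat_lit 139) (nat_lit 0) (cs (lf (nat_lit 20) (nat_lit 139)) (lf (nat_lit 47) (nat_lit 117)))) q565 (by decide +kernel)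
def q581 : Q := Q.p (nat_lit 0x500001c0000600000000000000000000000000000000000000000) (nat_lit 0x10000000000000000000000800002000000000000000000000000000000) (nat_lit 2)
theorem c581 : QOK q581 := cut [] trivial (nd (nat_lit 143) (nat_lit 0) (cs (lf (nat_lit 36) (nat_lit 120)) (lf (nat_lit 42) (nat_lit 143)))) q581 (by decide +kernel)
def q596 : Q := Q.p (nat_lit 0x18000060000580000000000000000000000000000000000000000) (nat_lit 0x200000300000c00000000000000000000000000000) (nat_lit 3)
theorem c596 : QOK q596 := cut [] trivial (nd (nat_lit 141) (nat_lit 0) (cs (nd (nat_lit 140) (nat_lit 0) (cs (lf (nat_lit 19) (nat_lit 140)) (lf (nat_lit 47) (nat_lit 118)))) (lf (nat_lit 24) (nat_lit 119)))) q596 (by decide +kernel)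
def q611 : Q := Q.p (nat_lit 0x4000010000040000100000400000000000000000000000000000000000) (nat_lit 0x80000200000800000000000000000000000000000) (nat_lit 2)
theorem c611 : QOK q611 := cut [] trivial (nd (nat_lit 141) (nat_lit 0) (cs (lf (nat_lit 47) (nat_lit 119)) (lf (nat_lit 46) (nat_lit 141)))) q611 (by decide +kernel)
def q615 : Q := Q.p (nat_lit 0x10000040000100000400001000000000000000000000000000000) (nat_lit 0x800002000008000000000000000000000000) (nat_lit 2)
theorem c615 : QOK q615 := cut [] trivial (nd (nat_lit 121) (nat_lit 0) (cs (lf (nat_lit 35) (nat_lit 98)) (lf (nat_lit 34) (nat_lit 120)))) q615 (by decide +kernel)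
def q622 : Q := Q.p (nat_lit 0x300000e00000000000000000000000000000000000) (nat_lit 0x400000180000000000000000000000000000000000) (nat_lit 2)
theorem c622 : QOK q622 := cut [] trivial (nd (nat_lit 140) (nat_lit 0) (cs (lf (nat_lit 5) (nat_lit 140)) (lf (nat_lit 0) (nat_lit 139)))) q622 (by decide +kernel)
def q635 : Q := Q.p (nat_lit 0x4000010000040000100000000000000000000000000000000000000000) (nat_lit 0x18000020000000000a0000280000a00000000000000000000000000000000000) (nat_lit 5)
theorem c635 : QOK q635 := cut [] trivial (nd (nat_lit 229) (nat_lit 0) (cs (lf (nat_lit 41) (nat_lit 163)) (nd (nat_lit 165) (nat_lit 0) (cs (lf (nat_lit 35) (nat_lit 142)) (nd (nat_lit 163) (nat_lit 0) (cs (lf (nat_lit 47) (nat_lit 141)) (nd (nat_lit 252) (nat_lit 0) (cs (lf (nat_lit 34) (nat_lit 164)) (lf (nat_lit 46) (nat_lit 163)))))))))) q635 (by decide +kernel)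
def q638 : Q := Q.p (nat_lit 0x200000c000010000040000000000000000000000000000000000000000000000) (nat_lit 0x200000800000000000000020000000000000000000000000000000000000000000000000000) (nat_lit 2)
theorem c638 : QOK q638 := cut [] trivial (nd (nat_lit 275) (nat_lit 0) (cs (lf (nat_lit 42) (nat_lit 208)) (lf (nat_lit 45) (nat_lit 186)))) q638 (by decide +kernel)
def q643 : Q := Q.p (nat_lit 0x10000000000300000c0000000000000000000000000000000000000000000000) (nat_lit 0x400000000004000000000000000200000000000000000000000000000000000000000) (nat_lit 2)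
theorem c643 : QOK q643 := cut [] trivial (nd (nat_lit 230) (nat_lit 0) (cs (lf (nat_lit 30) (nat_lit 186)) (lf (nat_lit 35) (nat_lit 164)))) q643 (by decide +kernel)
def q646 : Q := Q.p (nat_lit 0xc0000e00000000000000000000000000000000000000000) (nat_lit 0x130000000000000000000000000000000000000000000000) (nat_lit 2)
theorem c646 : QOK q646 := cut [] trivial (nd (nat_lit 185) (nat_lit 0) (cs (lf (nat_lit 12) (nat_lit 162)) (lf (nat_lit 15) (nat_lit 163)))) q646 (by decide +kernel)
def q658 : Q := Q.p (nat_lit 0x3000000000030000040000000000000000000000000000000000000000000000) (nat_lit 0x80000000000c000000000000000000000000000000000000000000000000000000000) (nat_lit 2)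
theorem c658 : QOK q658 := cut [] trivial (nd (nat_lit 275) (nat_lit 0) (cs (lf (nat_lit 44) (nat_lit 186)) (lf (nat_lit 26) (nat_lit 186)))) q658 (by decide +kernel)
def q660 : Q := Q.p (nat_lit 0x2000000000030000040000100000000000000000000000000000000000000000) (nat_lit 0x8000000000080000000000400000000000000000000000000000000000) (nat_lit 2)
theorem c660 : QOK q660 := cut [] trivial (nd (nat_lit 231) (nat_lit 0) (cs (lf (nat_lit 24) (nat_lit 142)) (lf (nat_lit 45) (nat_lit 164)))) q660 (by decide +kernel)
def q664 : Q := Q.p (nat_lit 0x1f000000000000000000000000000000000000000000000000000) (nat_lit 0xe000000000000000000000000000000000000000000000000000000000) (nat_lit 2)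
theorem c664 : QOK q664 := cut [] trivial (nd (nat_lit 230) (nat_lit 0) (cs (lf (nat_lit 4) (nat_lit 204)) (lf (nat_lit 5) (nat_lit 205)))) q664 (by decide +kernel)
def q674 : Q := Q.p (nat_lit 0x6000038000000000000000000000000000000000000000000000000000) (nat_lit 0x10000c0000000000000000000000000000000000000000000000000000) (nat_lit 2)
theorem c674 : QOK q674 := cut [] trivial (nd (nat_lit 210) (nat_lit 0) (cs (lf (nat_lit 11) (nat_lit 206)) (lf (nat_lit 6) (nat_lit 207)))) q674 (by decide +kernel)
def q684 : Q := Q.p (nat_lit 0x3c000000000000000000000000000000000000000000000000000) (nat_lit 0x3800040000380000000000000000000000000000000000000000000000) (nat_lit 4)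
theorem c684 : QOK q684 := cut [] trivial (nd (nat_lit 188) (nat_lit 0) (cs (lf (nat_lit 16) (nat_lit 184)) (nd (nat_lit 228) (nat_lit 0) (cs (lf (nat_lit 11) (nat_lit 205)) (nd (nat_lit 210) (nat_lit 0) (cs (lf (nat_lit 10) (nat_lit 206)) (lf (nat_lit 17) (nat_lit 185)))))))) q684 (by decide +kernel)
def q687 : Q := Q.p (nat_lit 0x2000008000060000100000000000000000000000000000000000000000000000) (nat_lit 0x80000400001000000000000000000000000000000000000) (nat_lit 2)
theorem c687 : QOK q687 := cut [] trivial (nd (nat_lit 166) (nat_lit 0) (cs (lf (nat_lit 36) (nat_lit 143)) (lf (nat_lit 33) (nat_lit 165)))) q687 (by decide +kernel)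
def q691 : Q := Q.p (nat_lit 0x400000e0000400000000000000000000000000000000000000000000000) (nat_lit 0x80000100000800000000000000000000000000000000000000000000000) (nat_lit 2)
theorem c691 : QOK q691 := cut [] trivial (nd (nat_lit 212) (nat_lit 0) (cs (lf (nat_lit 5) (nat_lit 209)) (lf (nat_lit 17) (nat_lit 187)))) q691 (by decide +kernel)
def q700 : Q := Q.p (nat_lit 0x1c00003000000000000000000000000000000000000000000000000000000000000000) (nat_lit 0x2000000c00000000000000000000000000000000000000000000000000000000000000) (nat_lit 2)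
theorem c700 : QOK q700 := cut [] trivial (nd (nat_lit 251) (nat_lit 0) (cs (lf (nat_lit 0) (nat_lit 250)) (lf (nat_lit 18) (nat_lit 251)))) q700 (by decide +kernel)
def q713 : Q := Q.p (nat_lit 0x500000800002000008000000000000000000000000000000000000000000000000000000000) (nat_lit 0x140000200000000000000000000000000000000000000000000000000000000000000000000000000) (nat_lit 2)
theorem c713 : QOK q713 := cut [] trivial (nd (nat_lit 297) (nat_lit 0) (cs (lf (nat_lit 29) (nat_lit 231)) (lf (nat_lit 41) (nat_lit 230)))) q713 (by decide +kernel)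
def q731 : Q := Q.p (nat_lit 0x400000800002000008000010000000000000000000000000000000000000000000000000000) (nat_lit 0x100000200000000000000004000000000000000000000000000000000000000000000000000000000) (nat_lit 2)
theorem c731 : QOK q731 := cut [] trivial (nd (nat_lit 297) (nat_lit 0) (cs (lf (nat_lit 29) (nat_lit 231)) (lf (nat_lit 46) (nat_lit 208)))) q731 (by decide +kernel)
def q735 : Q := Q.p (nat_lit 0x6000018000020000000000000000000000000000000000000000000000) (nat_lit 0x1000000000000000000000080000200000000000000000000000000000000000) (nat_lit 2)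
theorem c735 : QOK q735 := cut [] trivial (nd (nat_lit 163) (nat_lit 0) (cs (lf (nat_lit 29) (nat_lit 163)) (lf (nat_lit 24) (nat_lit 141)))) q735 (by decide +kernel)
def q742 : Q := Q.p (nat_lit 0x38000180000000000000000000000000000000000000000000000) (nat_lit 0x40000600000000000000000000000000000000000000000000000) (nat_lit 2)
theorem c742 : QOK q742 := cut [] trivial (nd (nat_lit 189) (nat_lit 0) (cs (lf (nat_lit 6) (nat_lit 186)) (lf (nat_lit 15) (nat_lit 185)))) q742 (by decide +kernel)
def q756 : Q := Q.p (nat_lit 0xc000070000000000000000000000000000000000000000000000000000) (nat_lit 0x2000180000000000000000000000000000000000000000000000000000) (nat_lit 2)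
theorem c756 : QOK q756 := cut [] trivial (nd (nat_lit 211) (nat_lit 0) (cs (lf (nat_lit 11) (nat_lit 207)) (lf (nat_lit 6) (nat_lit 208)))) q756 (by decide +kernel)
def q794 : Q := Q.p (nat_lit 0x400003c000000000000000000000000000000000000000000000000000) (nat_lit 0x800000200001c000000000000000000000000000000000000000000000) (nat_lit 3)
theorem c794 : QOK q794 := cut [] trivial (nd (nat_lit 183) (nat_lit 0) (cs (lf (nat_lit 22) (nat_lit 183)) (nd (nat_lit 205) (nat_lit 0) (cs (lf (nat_lit 23) (nat_lit 182)) (lf (nat_lit 5) (nat_lit 205)))))) q794 (by decide +kernel)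
def q796 : Q := Q.p (nat_lit 0x4000030000080000200000000000000000000000000000000000000000) (nat_lit 0x400001000008000000000000000000000000000000000000000000000000000000000) (nat_lit 2)
theorem c796 : QOK q796 := cut [] trivial (nd (nat_lit 252) (nat_lit 0) (cs (lf (nat_lit 30) (nat_lit 186)) (lf (nat_lit 39) (nat_lit 164)))) q796 (by decide +kernel)
def q802 : Q := Q.p (nat_lit 0x4000010000040000100000400000000000000000000000000000) (nat_lit 0x200000800002000000000000000000000000) (nat_lit 2)
theorem c802 : QOK q802 := cut [] trivial (nd (nat_lit 119) (nat_lit 0) (cs (lf (nat_lit 34) (nat_lit 118)) (lf (nat_lit 35) (nat_lit 96)))) q802 (by decide +kernel)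
def q809 : Q := Q.p (nat_lit 0x400001c0000100000c0000000000000000000000000000000000000000) (nat_lit 0x1000000000020000000000200000000000000000000000000000000000) (nat_lit 2)
theorem c809 : QOK q809 := cut [] trivial (nd (nat_lit 141) (nat_lit 0) (cs (lf (nat_lit 26) (nat_lit 141)) (lf (nat_lit 30) (nat_lit 140)))) q809 (by decide +kernel)
def q812 : Q := Q.p (nat_lit 0xc0000e00000000000000000000000000000000000) (nat_lit 0x130000000000000000000000000000000000000000) (nat_lit 2)
theorem c812 : QOK q812 := cut [] trivial (nd (nat_lit 161) (nat_lit 0) (cs (lf (nat_lit 15) (nat_lit 139)) (lf (nat_lit 12) (nat_lit 138)))) q812 (by decide +kernel)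
def q823 : Q := Q.p (nat_lit 0x200000c000010000040000000000000000000000000000000000000000) (nat_lit 0x200000800001000000000000000000000000000000000000000000000000000000000) (nat_lit 2)
theorem c823 : QOK q823 := cut [] trivial (nd (nat_lit 251) (nat_lit 0) (cs (lf (nat_lit 42) (nat_lit 184)) (lf (nat_lit 27) (nat_lit 162)))) q823 (by decide +kernel)
def q830 : Q := Q.p (nat_lit 0x1000004000018000000000080000000000000000000000000000000000000000) (nat_lit 0x2000000000020000000000200000000000000000000000000000000000) (nat_lit 2)
theorem c830 : QOK q830 := cut [] trivial (nd (nat_lit 185) (nat_lit 0) (cs (lf (nat_lit 24) (nat_lit 141)) (lf (nat_lit 27) (nat_lit 163)))) q830 (by decide +kernel)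
def q859 : Q := Q.p (nat_lit 0x4000010000040000200000000000000000000000000000000000) (nat_lit 0x1000000000000000080000100000800002000000000000000000000000) (nat_lit 3)
theorem c859 : QOK q859 := cut [] trivial (nd (nat_lit 119) (nat_lit 0) (cs (nd (nat_lit 163) (nat_lit 0) (cs (lf (nat_lit 30) (nat_lit 140)) (lf (nat_lit 36) (nat_lit 96)))) (lf (nat_lit 33) (nat_lit 118)))) q859 (by decide +kernel)
def q862 : Q := Q.p (nat_lit 0x4000010000040000100000400000000000000000000000000000) (nat_lit 0x80000200000800000000000000000000000) (nat_lit 2)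
theorem c862 : QOK q862 := cut [] trivial (nd (nat_lit 117) (nat_lit 0) (cs (lf (nat_lit 46) (nat_lit 117)) (lf (nat_lit 47) (nat_lit 95)))) q862 (by decide +kernel)
def q872 : Q := Q.p (nat_lit 0x40000300000b0000180000000000000000000000000000000000000000) (nat_lit 0x600000800000000000000000000000000000000000) (nat_lit 2)
theorem c872 : QOK q872 := cut [] trivial (nd (nat_lit 165) (nat_lit 0) (cs (lf (nat_lit 36) (nat_lit 142)) (lf (nat_lit 6) (nat_lit 162)))) q872 (by decide +kernel)
def q889 : Q := Q.p (nat_lit 0x1000004000010000040000000000000000000000000000000000000000) (nat_lit 0xa0000380000a00000000000000000000000000000) (nat_lit 4)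
theorem c889 : QOK q889 := cut [] trivial (nd (nat_lit 139) (nat_lit 0) (cs (lf (nat_lit 46) (nat_lit 139)) (nd (nat_lit 141) (nat_lit 0) (cs (nd (nat_lit 140) (nat_lit 0) (cs (lf (nat_lit 47) (nat_lit 117)) (lf (nat_lit 35) (nat_lit 118)))) (lf (nat_lit 34) (nat_lit 140)))))) q889 (by decide +kernel)
def q895 : Q := Q.p (nat_lit 0x400003c000000000000000000000000000000000000000000000000000) (nat_lit 0x9c00002000000000000000000000000000000000000000000000000000) (nat_lit 3)
theorem c895 : QOK q895 := cut [] trivial (nd (nat_lit 227) (nat_lit 0) (cs (lf (nat_lit 10) (nat_lit 205)) (nd (nat_lit 205) (nat_lit 0) (cs (lf (nat_lit 11) (nat_lit 204)) (lf (nat_lit 5) (nat_lit 205)))))) q895 (by decide +kernel)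
def q898 : Q := Q.p (nat_lit 0xf800000000000000000000000000000000000000000000000000) (nat_lit 0x7000000000000000000000000000000000000000000000) (nat_lit 2)
theorem c898 : QOK q898 := cut [] trivial (nd (nat_lit 181) (nat_lit 0) (cs (lf (nat_lit 22) (nat_lit 181)) (lf (nat_lit 23) (nat_lit 180)))) q898 (by decide +kernel)
def q904 : Q := Q.p (nat_lit 0x4000018000020000080000000000000000000000000000000000000000) (nat_lit 0x400001000002000000000000000000000000000000000000000000000000000000000) (nat_lit 2)
theorem c904 : QOK q904 := cut [] trivial (nd (nat_lit 252) (nat_lit 0) (cs (lf (nat_lit 42) (nat_lit 185)) (lf (nat_lit 27) (nat_lit 163)))) q904 (by decide +kernel)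
def q907 : Q := Q.p (nat_lit 0x40000500001c000020000000000000000000000000000000000000000000000) (nat_lit 0x10000080000200000000000000000000000000000000000) (nat_lit 2)
theorem c907 : QOK q907 := cut [] trivial (nd (nat_lit 163) (nat_lit 0) (cs (lf (nat_lit 24) (nat_lit 141)) (lf (nat_lit 33) (nat_lit 162)))) q907 (by decide +kernel)
def q917 : Q := Q.p (nat_lit 0x2000000000078000000000000000000000000000000000000000000000000000) (nat_lit 0x800000000008000004000380000400000000000000000000000000000000000000000) (nat_lit 4)
theorem c917 : QOK q917 := cut [] trivial (nd (nat_lit 188) (nat_lit 0) (cs (lf (nat_lit 17) (nat_lit 185)) (nd (nat_lit 187) (nat_lit 0) (cs (lf (nat_lit 12) (nat_lit 184)) (nd (nat_lit 231) (nat_lit 0) (cs (lf (nat_lit 35) (nat_lit 165)) (lf (nat_lit 30) (nat_lit 187)))))))) q917 (by decide +kernel)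
def q922 : Q := Q.p (nat_lit 0x4000070000180000400000000000000000000000000000000000000000) (nat_lit 0x200001800006000000000000000000000000000000) (nat_lit 3)
theorem c922 : QOK q922 := cut [] trivial (nd (nat_lit 144) (nat_lit 0) (cs (nd (nat_lit 143) (nat_lit 0) (cs (lf (nat_lit 37) (nat_lit 142)) (lf (nat_lit 47) (nat_lit 121)))) (lf (nat_lit 36) (nat_lit 121)))) q922 (by decide +kernel)
def q929 : Q := Q.p (nat_lit 0x300003800000000000000000000000000000000000000000000000000000000000000) (nat_lit 0xc0000400000000000000000000000000000000000000000000000000000000000000) (nat_lit 2)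
theorem c929 : QOK q929 := cut [] trivial (nd (nat_lit 271) (nat_lit 0) (cs (lf (nat_lit 12) (nat_lit 248)) (lf (nat_lit 9) (nat_lit 249)))) q929 (by decide +kernel)
def q942 : Q := Q.p (nat_lit 0x700000800006000008000000000000000000000000000000000000000000000000000) (nat_lit 0x800000700000000000000020000000000000000000000000000000000000000000000) (nat_lit 3)
theorem c942 : QOK q942 := cut [] trivial (nd (nat_lit 250) (nat_lit 0) (cs (nd (nat_lit 249) (nat_lit 0) (cs (lf (nat_lit 18) (nat_lit 249)) (lf (nat_lit 12) (nat_lit 226)))) (lf (nat_lit 36) (nat_lit 184)))) q942 (by decide +kernel)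
def q975 : Q := Q.p (nat_lit 0x100000400001000004000010000000000000000000000000000000000000000) (nat_lit 0x2000008000020000000000000000000000000000000000) (nat_lit 2)
theorem c975 : QOK q975 := cut [] trivial (nd (nat_lit 159) (nat_lit 0) (cs (lf (nat_lit 47) (nat_lit 137)) (lf (nat_lit 46) (nat_lit 159)))) q975 (by decide +kernel)
def q986 : Q := Q.p (nat_lit 0x10000040000180000400000000000000000000000000000000000000000000000000000000) (nat_lit 0x4000000000000000000000200000800000000000000000000000000000000000000000000000000) (nat_lit 2)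
theorem c986 : QOK q986 := cut [] trivial (nd (nat_lit 225) (nat_lit 0) (cs (lf (nat_lit 47) (nat_lit 203)) (lf (nat_lit 42) (nat_lit 225)))) q986 (by decide +kernel)
def q1013 : Q := Q.p (nat_lit 0x200000800006000038000000000000000000000000000000000000000000000000000) (nat_lit 0x1000004000010000000000000000a0000000000000000000000000000000000000000000000) (nat_lit 3)
theorem c1013 : QOK q1013 := cut [] trivial (nd (nat_lit 274) (nat_lit 0) (cs (lf (nat_lit 29) (nat_lit 207)) (nd (nat_lit 252) (nat_lit 0) (cs (lf (nat_lit 35) (nat_lit 186)) (lf (nat_lit 47) (nat_lit 185)))))) q1013 (by decide +kernel)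
def q1017 : Q := Q.p (nat_lit 0x800002000000000078000000000000000000000000000000000000000000000000000) (nat_lit 0x8000000000300000000000000000000000000000000000000000000000) (nat_lit 2)
theorem c1017 : QOK q1017 := cut [] trivial (nd (nat_lit 188) (nat_lit 0) (cs (lf (nat_lit 17) (nat_lit 185)) (lf (nat_lit 32) (nat_lit 187)))) q1017 (by decide +kernel)
def q1022 : Q := Q.p (nat_lit 0xe00000800002000008000000000000000000000000000000000000000000000000000) (nat_lit 0x40001100000600000000000000000000000000000000000000000000000000000000000000) (nat_lit 3)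
theorem c1022 : QOK q1022 := cut [] trivial (nd (nat_lit 250) (nat_lit 0) (cs (nd (nat_lit 272) (nat_lit 0) (cs (lf (nat_lit 41) (nat_lit 206)) (lf (nat_lit 23) (nat_lit 249)))) (lf (nat_lit 18) (nat_lit 250)))) q1022 (by decide +kernel)
def q1026 : Q := Q.p (nat_lit 0x1000006000018000000000000000000000000000000000000000000000000000) (nat_lit 0x400000000000000000000020000080000000000000000000000000000000000000000) (nat_lit 2)
theorem c1026 : QOK q1026 := cut [] trivial (nd (nat_lit 185) (nat_lit 0) (cs (lf (nat_lit 42) (nat_lit 185)) (lf (nat_lit 24) (nat_lit 163)))) q1026 (by decide +kernel)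
def q1038 : Q := Q.p (nat_lit 0xc00000000004000018000000000000000000000000000000000000000000000000000) (nat_lit 0x200000000001000000000000000020000000000000000000000000000000000000000000000) (nat_lit 2)
theorem c1038 : QOK q1038 := cut [] trivial (nd (nat_lit 252) (nat_lit 0) (cs (lf (nat_lit 47) (nat_lit 185)) (lf (nat_lit 29) (nat_lit 208)))) q1038 (by decide +kernel)
def q1054 : Q := Q.p (nat_lit 0x300002800006000038000000000000000000000000000000000000000000000000000) (nat_lit 0x100000480001000000000000000080000000000000000000000000000000000000000000000) (nat_lit 3)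
theorem c1054 : QOK q1054 := cut [] trivial (nd (nat_lit 274) (nat_lit 0) (cs (lf (nat_lit 29) (nat_lit 207)) (nd (nat_lit 252) (nat_lit 0) (cs (lf (nat_lit 35) (nat_lit 186)) (lf (nat_lit 12) (nat_lit 249)))))) q1054 (by decide +kernel)
def q1058 : Q := Q.p (nat_lit 0x1c00006000000000000000000000000000000000000000000000000000000000) (nat_lit 0x300008000000000000000000000000000000000000000000000000000000000) (nat_lit 2)
theorem c1058 : QOK q1058 := cut [] trivial (nd (nat_lit 249) (nat_lit 0) (cs (lf (nat_lit 12) (nat_lit 226)) (lf (nat_lit 17) (nat_lit 227)))) q1058 (by decide +kernel)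
def q1061 : Q := Q.p (nat_lit 0x1000006000038000000000000000000000000000000000000000000000000000) (nat_lit 0x100000400000000000000000000080000000000000000000000000000000000000000000000) (nat_lit 2)
theorem c1061 : QOK q1061 := cut [] trivial (nd (nat_lit 274) (nat_lit 0) (cs (lf (nat_lit 35) (nat_lit 186)) (lf (nat_lit 42) (nat_lit 207)))) q1061 (by decide +kernel)
def q1066 : Q := Q.p (nat_lit 0x40000300000c000000000000000000000000000000000000000000000000000) (nat_lit 0x100000000000000000000020000080000000000000000000000000000000000000000) (nat_lit 2)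
theorem c1066 : QOK q1066 := cut [] trivial (nd (nat_lit 185) (nat_lit 0) (cs (lf (nat_lit 30) (nat_lit 184)) (lf (nat_lit 36) (nat_lit 162)))) q1066 (by decide +kernel)
def q1071 : Q := Q.p (nat_lit 0x400007000000000000000000000000000000000000000000000000000000000) (nat_lit 0xb80008000000000000000000000000000000000000000000000000000000000) (nat_lit 3)
theorem c1071 : QOK q1071 := cut [] trivial (nd (nat_lit 249) (nat_lit 0) (cs (nd (nat_lit 248) (nat_lit 0) (cs (lf (nat_lit 15) (nat_lit 226)) (lf (nat_lit 12) (nat_lit 225)))) (lf (nat_lit 6) (nat_lit 227)))) q1071 (by decide +kernel)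
def q1075 : Q := Q.p (nat_lit 0x3e000000000000000000000000000000000000000000000000000) (nat_lit 0x1c00000000000000000000000000000000000000000000000000000000) (nat_lit 2)
theorem c1075 : QOK q1075 := cut [] trivial (nd (nat_lit 227) (nat_lit 0) (cs (lf (nat_lit 11) (nat_lit 204)) (lf (nat_lit 10) (nat_lit 205)))) q1075 (by decide +kernel)
def q1079 : Q := Q.p (nat_lit 0x600001c000000000000000000000000000000000000000000000000000) (nat_lit 0x8000003000000000000000000000000000000000000000000000000000) (nat_lit 2)
theorem c1079 : QOK q1079 := cut [] trivial (nd (nat_lit 205) (nat_lit 0) (cs (lf (nat_lit 5) (nat_lit 205)) (lf (nat_lit 0) (nat_lit 204)))) q1079 (by decide +kernel)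
def q1081 : Q := Q.p (nat_lit 0x1c00006800000000000000000000000000000000000000000000000000000000) (nat_lit 0x300000400000000000000000000000000000000000000000000000000000000) (nat_lit 2)
theorem c1081 : QOK q1081 := cut [] trivial (nd (nat_lit 249) (nat_lit 0) (cs (lf (nat_lit 23) (nat_lit 226)) (lf (nat_lit 12) (nat_lit 226)))) q1081 (by decide +kernel)
def q1099 : Q := Q.p (nat_lit 0x800003400008000020000000000000000000000000000000000000000000000000000) (nat_lit 0x400001000000800000000000000000000000000000000000000000000000000000000000000) (nat_lit 2)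
theorem c1099 : QOK q1099 := cut [] trivial (nd (nat_lit 276) (nat_lit 0) (cs (lf (nat_lit 29) (nat_lit 209)) (lf (nat_lit 1) (nat_lit 250)))) q1099 (by decide +kernel)
def q1107 : Q := Q.p (nat_lit 0xf00000000002000008000000000000000000000000000000000000000000000000000) (nat_lit 0x60000000000800000000000000000000000000000000000000000000000000000000000000) (nat_lit 2)
theorem c1107 : QOK q1107 := cut [] trivial (nd (nat_lit 294) (nat_lit 0) (cs (lf (nat_lit 11) (nat_lit 271)) (lf (nat_lit 38) (nat_lit 206)))) q1107 (by decide +kernel)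
def q1118 : Q := Q.p (nat_lit 0xf0000180000000000000000000000000000000000000000000000) (nat_lit 0xe0000300000000000000000000000000000000000000000000000000000) (nat_lit 3)
theorem c1118 : QOK q1118 := cut [] trivial (nd (nat_lit 234) (nat_lit 0) (cs (lf (nat_lit 4) (nat_lit 208)) (nd (nat_lit 212) (nat_lit 0) (cs (lf (nat_lit 5) (nat_lit 209)) (lf (nat_lit 18) (nat_lit 187)))))) q1118 (by decide +kernel)
def q1132 : Q := Q.p (nat_lit 0x100000c000030000000000000000000000000000000000000000000000) (nat_lit 0x400000000000000000000080000200000000000000000000000000000000000) (nat_lit 2)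
theorem c1132 : QOK q1132 := cut [] trivial (nd (nat_lit 163) (nat_lit 0) (cs (lf (nat_lit 30) (nat_lit 162)) (lf (nat_lit 36) (nat_lit 140)))) q1132 (by decide +kernel)
def q1140 : Q := Q.p (nat_lit 0x800003000004000010000000000000000000000000000000000000000000000000000) (nat_lit 0x80000200000400000000000000000000000000000000000000000000000000000000000000000000) (nat_lit 2)
theorem c1140 : QOK q1140 := cut [] trivial (nd (nat_lit 297) (nat_lit 0) (cs (lf (nat_lit 42) (nat_lit 230)) (lf (nat_lit 27) (nat_lit 208)))) q1140 (by decide +kernel)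
def q1155 : Q := Q.p (nat_lit 0x400001e000000000000000000000000000000000000000000000000000) (nat_lit 0x2e00001000000000000000000000000000000000000000000000000000) (nat_lit 3)
theorem c1155 : QOK q1155 := cut [] trivial (nd (nat_lit 226) (nat_lit 0) (cs (lf (nat_lit 10) (nat_lit 204)) (nd (nat_lit 204) (nat_lit 0) (cs (lf (nat_lit 11) (nat_lit 203)) (lf (nat_lit 4) (nat_lit 204)))))) q1155 (by decide +kernel)
def q1158 : Q := Q.p (nat_lit 0x4000018000060000000000000000000000000000000000000000000000) (nat_lit 0x1000000000000000000000080000200000000000000000000000000000000000) (nat_lit 2)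
theorem c1158 : QOK q1158 := cut [] trivial (nd (nat_lit 163) (nat_lit 0) (cs (lf (nat_lit 24) (nat_lit 141)) (lf (nat_lit 42) (nat_lit 163)))) q1158 (by decide +kernel)
def q1161 : Q := Q.p (nat_lit 0x1f0000000000000000000000000000000000000000000000000000) (nat_lit 0xe0000000000000000000000000000000000000000000000000000000000) (nat_lit 2)
theorem c1161 : QOK q1161 := cut [] trivial (nd (nat_lit 234) (nat_lit 0) (cs (lf (nat_lit 5) (nat_lit 209)) (lf (nat_lit 4) (nat_lit 208)))) q1161 (by decide +kernel)
def q1167 : Q := Q.p (nat_lit 0x4000070000040000000000000000000000000000000000000000000000) (nat_lit 0x2000080000020000000000000000000000000000000000000000000000) (nat_lit 2)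
theorem c1167 : QOK q1167 := cut [] trivial (nd (nat_lit 211) (nat_lit 0) (cs (lf (nat_lit 23) (nat_lit 185)) (lf (nat_lit 11) (nat_lit 207)))) q1167 (by decide +kernel)
def q1169 : Q := Q.p (nat_lit 0x30000070000000000000000000000000000000000000000000000) (nat_lit 0xc8000000000000000000000000000000000000000000000000000) (nat_lit 2)
theorem c1169 : QOK q1169 := cut [] trivial (nd (nat_lit 210) (nat_lit 0) (cs (lf (nat_lit 21) (nat_lit 184)) (lf (nat_lit 18) (nat_lit 185)))) q1169 (by decide +kernel)
def q1173 : Q := Q.p (nat_lit 0x4000010000060000080000000000000000000000000000000000000000) (nat_lit 0x100000200000800000000000000000000000000000) (nat_lit 2)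
theorem c1173 : QOK q1173 := cut [] trivial (nd (nat_lit 141) (nat_lit 0) (cs (lf (nat_lit 24) (nat_lit 119)) (lf (nat_lit 45) (nat_lit 141)))) q1173 (by decide +kernel)
def q1177 : Q := Q.p (nat_lit 0x6000070000000000000000000000000000000000000000000000000000) (nat_lit 0x1800008000000000000000000000000000000000000000000000000000) (nat_lit 2)
theorem c1177 : QOK q1177 := cut [] trivial (nd (nat_lit 228) (nat_lit 0) (cs (lf (nat_lit 9) (nat_lit 206)) (lf (nat_lit 12) (nat_lit 205)))) q1177 (by decide +kernel)
def q1186 : Q := Q.p (nat_lit 0xf00000800000000000000000000000000000000000000000000000000000000000000) (nat_lit 0x1000000600000000000000000000000000000000000000000000000000000000000000) (nat_lit 2)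
theorem c1186 : QOK q1186 := cut [] trivial (nd (nat_lit 250) (nat_lit 0) (cs (lf (nat_lit 23) (nat_lit 249)) (lf (nat_lit 18) (nat_lit 250)))) q1186 (by decide +kernel)
def q1193 : Q := Q.p (nat_lit 0xf80000000000000000000000000000000000000000000000000000000000000000000) (nat_lit 0x70000000000000000000000000000000000000000000000000000000000000000000000000) (nat_lit 2)
theorem c1193 : QOK q1193 := cut [] trivial (nd (nat_lit 293) (nat_lit 0) (cs (lf (nat_lit 10) (nat_lit 271)) (lf (nat_lit 11) (nat_lit 270)))) q1193 (by decide +kernel)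
def q1202 : Q := Q.p (nat_lit 0xf80000000000000000000000000000000000000000000000000000000000000000000) (nat_lit 0x700000000000000000000000000000000000000000000000000000000000000) (nat_lit 2)
theorem c1202 : QOK q1202 := cut [] trivial (nd (nat_lit 249) (nat_lit 0) (cs (lf (nat_lit 23) (nat_lit 248)) (lf (nat_lit 22) (nat_lit 249)))) q1202 (by decide +kernel)
def q1208 : Q := Q.p (nat_lit 0x1f00000000000000000000000000000000000000000000000000000000000000000000) (nat_lit 0xe0000000000000000000000000000000000000000000000000000000000000000000000000) (nat_lit 2)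
theorem c1208 : QOK q1208 := cut [] trivial (nd (nat_lit 294) (nat_lit 0) (cs (lf (nat_lit 11) (nat_lit 271)) (lf (nat_lit 10) (nat_lit 272)))) q1208 (by decide +kernel)
def q1223 : Q := Q.p (nat_lit 0x200000800002000004000010000000000000000000000000000000000000000000000000000) (nat_lit 0x80000000000400001000000000000000000000000000000000000000000000000000000000000000) (nat_lit 2)
theorem c1223 : QOK q1223 := cut [] trivial (nd (nat_lit 252) (nat_lit 0) (cs (lf (nat_lit 42) (nat_lit 230)) (lf (nat_lit 27) (nat_lit 208)))) q1223 (by decide +kernel)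
def q1231 : Q := Q.p (nat_lit 0x38000030000000000000000000000000000000000000000000000) (nat_lit 0x400000c000000000000000000000000000000000000000000000) (nat_lit 2)
theorem c1231 : QOK q1231 := cut [] trivial (nd (nat_lit 183) (nat_lit 0) (cs (lf (nat_lit 21) (nat_lit 183)) (lf (nat_lit 0) (nat_lit 182)))) q1231 (by decide +kernel)
def q1238 : Q := Q.p (nat_lit 0x200000800002000008000020000000000000000000000000000000000000000000000) (nat_lit 0x40000100000400000000000000000000000000000000000000000000000000000000000000) (nat_lit 2)
theorem c1238 : QOK q1238 := cut [] trivial (nd (nat_lit 272) (nat_lit 0) (cs (lf (nat_lit 41) (nat_lit 206)) (lf (nat_lit 40) (nat_lit 184)))) q1238 (by decide +kernel)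
def q1245 : Q := Q.p (nat_lit 0x800006000018000020000000000000000000000000000000000000000000000) (nat_lit 0x180000600001000000000000000000000000000000000000000000000000000000000000000) (nat_lit 3)
theorem c1245 : QOK q1245 := cut [] trivial (nd (nat_lit 273) (nat_lit 0) (cs (lf (nat_lit 30) (nat_lit 207)) (nd (nat_lit 274) (nat_lit 0) (cs (lf (nat_lit 29) (nat_lit 207)) (lf (nat_lit 43) (nat_lit 185)))))) q1245 (by decide +kernel)
def q1251 : Q := Q.p (nat_lit 0x6000030000000000000000000000000000000000000000000000000000) (nat_lit 0x98000c0000000000000000000000000000000000000000000000000000) (nat_lit 3)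
theorem c1251 : QOK q1251 := cut [] trivial (nd (nat_lit 210) (nat_lit 0) (cs (lf (nat_lit 6) (nat_lit 207)) (nd (nat_lit 228) (nat_lit 0) (cs (lf (nat_lit 12) (nat_lit 205)) (lf (nat_lit 15) (nat_lit 206)))))) q1251 (by decide +kernel)
def q1252 : Q := Q.p (nat_lit 0x400001000006000010000000000000000000000000000000000000000000000000000) (nat_lit 0x100000000000000000000008000020000000000000000000000000000000000000000000000) (nat_lit 2)
theorem c1252 : QOK q1252 := cut [] trivial (nd (nat_lit 207) (nat_lit 0) (cs (lf (nat_lit 47) (nat_lit 185)) (lf (nat_lit 42) (nat_lit 207)))) q1252 (by decide +kernel)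
def q1257 : Q := Q.p (nat_lit 0x1c00003000000000000000000000000000000000000000000000000000000000000000) (nat_lit 0x6000000800000000000000000000000000000000000000000000000000000000000000) (nat_lit 2)
theorem c1257 : QOK q1257 := cut [] trivial (nd (nat_lit 277) (nat_lit 0) (cs (lf (nat_lit 18) (nat_lit 252)) (lf (nat_lit 23) (nat_lit 251)))) q1257 (by decide +kernel)
def q1266 : Q := Q.p (nat_lit 0x7000006000000000000000000000000000000000000000000000000000) (nat_lit 0x9800000000000000000000000000000000000000000000000000) (nat_lit 2)
theorem c1266 : QOK q1266 := cut [] trivial (nd (nat_lit 204) (nat_lit 0) (cs (lf (nat_lit 0) (nat_lit 203)) (lf (nat_lit 3) (nat_lit 204)))) q1266 (by decide +kernel)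
def q1270 : Q := Q.p (nat_lit 0x3000034000010000000000000000000000000000000000000000000000) (nat_lit 0x800000000008000008000040000100000000000000000000000000000000000) (nat_lit 3)
theorem c1270 : QOK q1270 := cut [] trivial (nd (nat_lit 162) (nat_lit 0) (cs (lf (nat_lit 29) (nat_lit 162)) (nd (nat_lit 207) (nat_lit 0) (cs (lf (nat_lit 23) (nat_lit 183)) (lf (nat_lit 24) (nat_lit 140)))))) q1270 (by decide +kernel)
def q1271 : Q := Q.p (nat_lit 0x1000004000010000040000100000000000000000000000000000000000) (nat_lit 0x20000080000200000000000000000000000000000) (nat_lit 2)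
theorem c1271 : QOK q1271 := cut [] trivial (nd (nat_lit 139) (nat_lit 0) (cs (lf (nat_lit 47) (nat_lit 117)) (lf (nat_lit 46) (nat_lit 139)))) q1271 (by decide +kernel)
def q1277 : Q := Q.p (nat_lit 0x1000004000018000020000000000000000000000000000000000000000) (nat_lit 0x2000000000000000080000200000000000000000000000000000) (nat_lit 2)
theorem c1277 : QOK q1277 := cut [] trivial (nd (nat_lit 139) (nat_lit 0) (cs (lf (nat_lit 24) (nat_lit 117)) (lf (nat_lit 27) (nat_lit 139)))) q1277 (by decide +kernel)
def q1287 : Q := Q.p (nat_lit 0x1000004000018000020000000000000000000000000000000000000000) (nat_lit 0x40000080000200000000000000000000000000000) (nat_lit 2)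
theorem c1287 : QOK q1287 := cut [] trivial (nd (nat_lit 139) (nat_lit 0) (cs (lf (nat_lit 24) (nat_lit 117)) (lf (nat_lit 45) (nat_lit 139)))) q1287 (by decide +kernel)
def q1298 : Q := Q.p (nat_lit 0x800003000004000010000000000000000000000000000000000000000000000000000) (nat_lit 0x80000200000000000000008000000000000000000000000000000000000000000000000000000000) (nat_lit 2)
theorem c1298 : QOK q1298 := cut [] trivial (nd (nat_lit 297) (nat_lit 0) (cs (lf (nat_lit 42) (nat_lit 230)) (lf (nat_lit 45) (nat_lit 208)))) q1298 (by decide +kernel)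
def q1301 : Q := Q.p (nat_lit 0x1e00002000000000020000000000000000000000000000000000000000000000000000) (nat_lit 0xc00000000000000008000000000000000000000000000000000000000000000000000000000) (nat_lit 2)
theorem c1301 : QOK q1301 := cut [] trivial (nd (nat_lit 298) (nat_lit 0) (cs (lf (nat_lit 5) (nat_lit 273)) (lf (nat_lit 25) (nat_lit 209)))) q1301 (by decide +kernel)
def q1308 : Q := Q.p (nat_lit 0x800001c00003000000000000000000000000000000000000000000000000000000000000000) (nat_lit 0x1000006000000000000000000000000000000000000000000000000000000000000000000000) (nat_lit 2)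
theorem c1308 : QOK q1308 := cut [] trivial (nd (nat_lit 277) (nat_lit 0) (cs (lf (nat_lit 18) (nat_lit 252)) (lf (nat_lit 5) (nat_lit 274)))) q1308 (by decide +kernel)
def q1320 : Q := Q.p (nat_lit 0x80000400001000004000020000000000000000000000000000000000000000000000000000) (nat_lit 0x20000100000000000000008000000000000000000000000000000000000000000000000000000000) (nat_lit 2)
theorem c1320 : QOK q1320 := cut [] trivial (nd (nat_lit 296) (nat_lit 0) (cs (lf (nat_lit 41) (nat_lit 229)) (lf (nat_lit 34) (nat_lit 208)))) q1320 (by decide +kernel)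
def q1337 : Q := Q.p (nat_lit 0x100000400001000004000010000000000000000000000000000000000000000000000000000) (nat_lit 0x80000200000800000000000000000000000000000000000000000000000000000000000000000000) (nat_lit 2)
theorem c1337 : QOK q1337 := cut [] trivial (nd (nat_lit 297) (nat_lit 0) (cs (lf (nat_lit 29) (nat_lit 230)) (lf (nat_lit 28) (nat_lit 208)))) q1337 (by decide +kernel)
def q1345 : Q := Q.p (nat_lit 0x300003c000000000080000000000000000000000000000000000000000) (nat_lit 0x18000040000300000000000000000000000000000000000) (nat_lit 3)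
theorem c1345 : QOK q1345 := cut [] trivial (nd (nat_lit 184) (nat_lit 0) (cs (lf (nat_lit 23) (nat_lit 183)) (nd (nat_lit 162) (nat_lit 0) (cs (lf (nat_lit 35) (nat_lit 140)) (lf (nat_lit 24) (nat_lit 140)))))) q1345 (by decide +kernel)
def q1362 : Q := Q.p (nat_lit 0xf00000c00002000000000000000000000000000000000000000000000000000000000) (nat_lit 0x10000060000000000000000000000000000000000000000000000000000000000000000000000000) (nat_lit 2)
theorem c1362 : QOK q1362 := cut [] trivial (nd (nat_lit 294) (nat_lit 0) (cs (lf (nat_lit 11) (nat_lit 271)) (lf (nat_lit 30) (nat_lit 228)))) q1362 (by decide +kernel)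
def q1382 : Q := Q.p (nat_lit 0x200000c000030000000000000000000000000000000000000000000000000000) (nat_lit 0x800000000000000000000040000100000000000000000000000000000000000000000) (nat_lit 2)
theorem c1382 : QOK q1382 := cut [] trivial (nd (nat_lit 186) (nat_lit 0) (cs (lf (nat_lit 42) (nat_lit 186)) (lf (nat_lit 24) (nat_lit 164)))) q1382 (by decide +kernel)
def q1383 : Q := Q.p (nat_lit 0x6000018000020000100000000000000000000000000000000000000000) (nat_lit 0x80000600000000000000000000000000000000000) (nat_lit 2)
theorem c1383 : QOK q1383 := cut [] trivial (nd (nat_lit 163) (nat_lit 0) (cs (lf (nat_lit 24) (nat_lit 141)) (lf (nat_lit 35) (nat_lit 141)))) q1383 (by decide +kernel)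
def q1388 : Q := Q.p (nat_lit 0xd000038000000000000000000000000000000000000000000000000000) (nat_lit 0x800006000000000000000000000000000000000000000000000000000) (nat_lit 2)
theorem c1388 : QOK q1388 := cut [] trivial (nd (nat_lit 206) (nat_lit 0) (cs (lf (nat_lit 11) (nat_lit 205)) (lf (nat_lit 0) (nat_lit 205)))) q1388 (by decide +kernel)
def q1393 : Q := Q.p (nat_lit 0xc000078000000000000000000000000000000000000000000000000000) (nat_lit 0x6000038000000000000000000000000000000000000000000000) (nat_lit 3)
theorem c1393 : QOK q1393 := cut [] trivial (nd (nat_lit 184) (nat_lit 0) (cs (lf (nat_lit 22) (nat_lit 184)) (nd (nat_lit 206) (nat_lit 0) (cs (lf (nat_lit 23) (nat_lit 183)) (lf (nat_lit 0) (nat_lit 205)))))) q1393 (by decide +kernel)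
def q1397 : Q := Q.p (nat_lit 0x280000f0000000000000000000000000000000000000000000000000000) (nat_lit 0x8000000000008000700000400001000000000000000000000000000000000000) (nat_lit 4)
theorem c1397 : QOK q1397 := cut [] trivial (nd (nat_lit 189) (nat_lit 0) (cs (lf (nat_lit 17) (nat_lit 186)) (nd (nat_lit 188) (nat_lit 0) (cs (lf (nat_lit 12) (nat_lit 185)) (nd (nat_lit 166) (nat_lit 0) (cs (lf (nat_lit 36) (nat_lit 143)) (lf (nat_lit 42) (nat_lit 166)))))))) q1397 (by decide +kernel)
def q1410 : Q := Q.p (nat_lit 0x1000004000018000020000000000000000000000000000000000000000000000) (nat_lit 0x2000000000000000080000200000000000000000000000000000000000) (nat_lit 2)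
theorem c1410 : QOK q1410 := cut [] trivial (nd (nat_lit 163) (nat_lit 0) (cs (lf (nat_lit 24) (nat_lit 141)) (lf (nat_lit 27) (nat_lit 163)))) q1410 (by decide +kernel)
def q1464 : Q := Q.p (nat_lit 0x3c000000000000000000000000000000000000000000000000000) (nat_lit 0x20001dc000000000000000000000000000000000000000000000) (nat_lit 4)
theorem c1464 : QOK q1464 := cut [] trivial (nd (nat_lit 183) (nat_lit 0) (cs (lf (nat_lit 22) (nat_lit 183)) (nd (nat_lit 187) (nat_lit 0) (cs (lf (nat_lit 17) (nat_lit 184)) (nd (nat_lit 205) (nat_lit 0) (cs (lf (nat_lit 23) (nat_lit 182)) (lf (nat_lit 16) (nat_lit 183)))))))) q1464 (by decide +kernel)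
def q1467 : Q := Q.p (nat_lit 0x38000180000000000000000000000000000000000000000000000) (nat_lit 0x640000000000000000000000000000000000000000000000) (nat_lit 2)
theorem c1467 : QOK q1467 := cut [] trivial (nd (nat_lit 189) (nat_lit 0) (cs (lf (nat_lit 6) (nat_lit 186)) (lf (nat_lit 9) (nat_lit 185)))) q1467 (by decide +kernel)
def q1472 : Q := Q.p (nat_lit 0x2000008000030000080000000000000000000000000000000000000000000000) (nat_lit 0x800000000000000000000040000100000000000000000000000000000000000000000) (nat_lit 2)
theorem c1472 : QOK q1472 := cut [] trivial (nd (nat_lit 186) (nat_lit 0) (cs (lf (nat_lit 42) (nat_lit 186)) (lf (nat_lit 47) (nat_lit 164)))) q1472 (by decide +kernel)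
def q1481 : Q := Q.p (nat_lit 0x70000220000000000000000000000000000000000000000000000) (nat_lit 0x80000440000000000000000000000000000000000000000000000) (nat_lit 2)
theorem c1481 : QOK q1481 := cut [] trivial (nd (nat_lit 211) (nat_lit 0) (cs (lf (nat_lit 17) (nat_lit 186)) (lf (nat_lit 22) (nat_lit 185)))) q1481 (by decide +kernel)
def q1490 : Q := Q.p (nat_lit 0x3000038000000000000000000000000000000000000000000000000000) (nat_lit 0xc00004000000000000000000000000000000000000000000000000000) (nat_lit 2)
theorem c1490 : QOK q1490 := cut [] trivial (nd (nat_lit 227) (nat_lit 0) (cs (lf (nat_lit 12) (nat_lit 204)) (lf (nat_lit 9) (nat_lit 205)))) q1490 (by decide +kernel)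
def q1495 : Q := Q.p (nat_lit 0x40000100000c000020000000000000000000000000000000000000000000000) (nat_lit 0x2000000000000000080000200000000000000000000000000000000000) (nat_lit 2)
theorem c1495 : QOK q1495 := cut [] trivial (nd (nat_lit 163) (nat_lit 0) (cs (lf (nat_lit 36) (nat_lit 140)) (lf (nat_lit 39) (nat_lit 162)))) q1495 (by decide +kernel)
def q1497 : Q := Q.p (nat_lit 0x100000c000010000040000000000000000000000000000000000000000) (nat_lit 0x800002000000000000000000000100000000000000000000000000000000000) (nat_lit 2)
theorem c1497 : QOK q1497 := cut [] trivial (nd (nat_lit 229) (nat_lit 0) (cs (lf (nat_lit 29) (nat_lit 162)) (lf (nat_lit 24) (nat_lit 140)))) q1497 (by decide +kernel)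
def q1515 : Q := Q.p (nat_lit 0x800003e000040000000000000000000000000000000000000000000000) (nat_lit 0x8000030000c1000020000100000400000000000000000000000000000000000) (nat_lit 5)
theorem c1515 : QOK q1515 := cut [] trivial (nd (nat_lit 164) (nat_lit 0) (cs (lf (nat_lit 24) (nat_lit 142)) (nd (nat_lit 185) (nat_lit 0) (cs (lf (nat_lit 12) (nat_lit 182)) (nd (nat_lit 210) (nat_lit 0) (cs (lf (nat_lit 18) (nat_lit 185)) (nd (nat_lit 229) (nat_lit 0) (cs (lf (nat_lit 30) (nat_lit 163)) (lf (nat_lit 11) (nat_lit 206)))))))))) q1515 (by decide +kernel)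
def q1533 : Q := Q.p (nat_lit 0x80000300001c000000000000000000000000000000000000000000000000000) (nat_lit 0x80000200000000000000000000040000000000000000000000000000000000000000000000) (nat_lit 2)
theorem c1533 : QOK q1533 := cut [] trivial (nd (nat_lit 273) (nat_lit 0) (cs (lf (nat_lit 35) (nat_lit 185)) (lf (nat_lit 42) (nat_lit 206)))) q1533 (by decide +kernel)
def q1545 : Q := Q.p (nat_lit 0x40000100003c000000000000000000000000000000000000000000000000000) (nat_lit 0x100000000000000000000038000080000000000000000000000000000000000000000) (nat_lit 3)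
theorem c1545 : QOK q1545 := cut [] trivial (nd (nat_lit 185) (nat_lit 0) (cs (lf (nat_lit 30) (nat_lit 184)) (nd (nat_lit 184) (nat_lit 0) (cs (lf (nat_lit 23) (nat_lit 183)) (lf (nat_lit 35) (nat_lit 162)))))) q1545 (by decide +kernel)
def q1548 : Q := Q.p (nat_lit 0x3e000000000000000000000000000000000000000000000000000) (nat_lit 0x1c0000000000000000000000000000000000000000000000) (nat_lit 2)
theorem c1548 : QOK q1548 := cut [] trivial (nd (nat_lit 187) (nat_lit 0) (cs (lf (nat_lit 17) (nat_lit 184)) (lf (nat_lit 16) (nat_lit 183)))) q1548 (by decide +kernel)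
def q1553 : Q := Q.p (nat_lit 0x20000000000300000c0000000000000000000000000000000000000000000000) (nat_lit 0x800000000008000000000000000100000000000000000000000000000000000000000) (nat_lit 2)
theorem c1553 : QOK q1553 := cut [] trivial (nd (nat_lit 231) (nat_lit 0) (cs (lf (nat_lit 42) (nat_lit 186)) (lf (nat_lit 47) (nat_lit 164)))) q1553 (by decide +kernel)
def q1558 : Q := Q.p (nat_lit 0x38000030000000000000000000000000000000000000000000000) (nat_lit 0x4c000000000000000000000000000000000000000000000) (nat_lit 2)
theorem c1558 : QOK q1558 := cut [] trivial (nd (nat_lit 183) (nat_lit 0) (cs (lf (nat_lit 0) (nat_lit 182)) (lf (nat_lit 3) (nat_lit 183)))) q1558 (by decide +kernel)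
def q1562 : Q := Q.p (nat_lit 0x2000008000030000040000000000000000000000000000000000000000000000) (nat_lit 0x4000000000000000100000400000000000000000000000000000000000) (nat_lit 2)
theorem c1562 : QOK q1562 := cut [] trivial (nd (nat_lit 164) (nat_lit 0) (cs (lf (nat_lit 24) (nat_lit 142)) (lf (nat_lit 27) (nat_lit 164)))) q1562 (by decide +kernel)
def q1565 : Q := Q.p (nat_lit 0x1000008000020000080000100000000000000000000000000000000000000000) (nat_lit 0x4000000000000000200000400000000000000000000000000000000000) (nat_lit 2)
theorem c1565 : QOK q1565 := cut [] trivial (nd (nat_lit 165) (nat_lit 0) (cs (lf (nat_lit 40) (nat_lit 164)) (lf (nat_lit 47) (nat_lit 142)))) q1565 (by decide +kernel)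
def q1570 : Q := Q.p (nat_lit 0x10000000000100001e0000000000000000000000000000000000000000000000) (nat_lit 0x40000000000000000c0000000000000000000000000000000000000000) (nat_lit 2)
theorem c1570 : QOK q1570 := cut [] trivial (nd (nat_lit 163) (nat_lit 0) (cs (lf (nat_lit 23) (nat_lit 162)) (lf (nat_lit 43) (nat_lit 163)))) q1570 (by decide +kernel)
def q1578 : Q := Q.p (nat_lit 0x2000008000020000080000200000000000000000000000000000000000000000) (nat_lit 0x40000100000400000000000000000000000000000000000) (nat_lit 2)
theorem c1578 : QOK q1578 := cut [] trivial (nd (nat_lit 164) (nat_lit 0) (cs (lf (nat_lit 47) (nat_lit 142)) (lf (nat_lit 46) (nat_lit 164)))) q1578 (by decide +kernel)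
def q1582 : Q := Q.p (nat_lit 0x8000030000080000200000000000000000000000000000000000000000) (nat_lit 0x1000004000000000000000000000800000000000000000000000000000000000) (nat_lit 2)
theorem c1582 : QOK q1582 := cut [] trivial (nd (nat_lit 230) (nat_lit 0) (cs (lf (nat_lit 36) (nat_lit 142)) (lf (nat_lit 41) (nat_lit 164)))) q1582 (by decide +kernel)
def q1586 : Q := Q.p (nat_lit 0x400002000008000020000100000000000000000000000000000000000000000000000) (nat_lit 0x1000000000000000080000400000000000000000000000000000000000000000) (nat_lit 2)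
theorem c1586 : QOK q1586 := cut [] trivial (nd (nat_lit 187) (nat_lit 0) (cs (lf (nat_lit 35) (nat_lit 165)) (lf (nat_lit 40) (nat_lit 186)))) q1586 (by decide +kernel)
def q1591 : Q := Q.p (nat_lit 0x800002000008000020000080000000000000000000000000000000000000000000000) (nat_lit 0x40000100000400000000000000000000000000000000000000000) (nat_lit 2)
theorem c1591 : QOK q1591 := cut [] trivial (nd (nat_lit 188) (nat_lit 0) (cs (lf (nat_lit 35) (nat_lit 165)) (lf (nat_lit 34) (nat_lit 187)))) q1591 (by decide +kernel)
def q1600 : Q := Q.p (nat_lit 0x3e0000000000000000000000000000000000000000000000000000) (nat_lit 0x1c00000000000000000000000000000000000000000000000) (nat_lit 2)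
theorem c1600 : QOK q1600 := cut [] trivial (nd (nat_lit 191) (nat_lit 0) (cs (lf (nat_lit 17) (nat_lit 188)) (lf (nat_lit 16) (nat_lit 187)))) q1600 (by decide +kernel)
def q1613 : Q := Q.p (nat_lit 0x18000020000080000200000000000000000000000000000000000) (nat_lit 0x40000000000400001800004000000000000000000000000) (nat_lit 3)
theorem c1613 : QOK q1613 := cut [] trivial (nd (nat_lit 120) (nat_lit 0) (cs (nd (nat_lit 119) (nat_lit 0) (cs (lf (nat_lit 28) (nat_lit 119)) (lf (nat_lit 35) (nat_lit 97)))) (lf (nat_lit 34) (nat_lit 119)))) q1613 (by decide +kernel)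
def q1618 : Q := Q.p (nat_lit 0x8000020000080000200000800000000000000000000000000000) (nat_lit 0x100000400001000000000000000000000000) (nat_lit 2)
theorem c1618 : QOK q1618 := cut [] trivial (nd (nat_lit 118) (nat_lit 0) (cs (lf (nat_lit 47) (nat_lit 96)) (lf (nat_lit 46) (nat_lit 118)))) q1618 (by decide +kernel)
def q1622 : Q := Q.p (nat_lit 0x6000038000020000080000000000000000000000000000000000000000) (nat_lit 0x400001800000000000000000000000000000000000000000000000000000000) (nat_lit 2)
theorem c1622 : QOK q1622 := cut [] trivial (nd (nat_lit 228) (nat_lit 0) (cs (lf (nat_lit 12) (nat_lit 205)) (lf (nat_lit 41) (nat_lit 162)))) q1622 (by decide +kernel)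
def q1638 : Q := Q.p (nat_lit 0x8000020000080000400000000000000000000000000000000000) (nat_lit 0x2000000000000000100000200001000004000000000000000000000000) (nat_lit 3)
theorem c1638 : QOK q1638 := cut [] trivial (nd (nat_lit 120) (nat_lit 0) (cs (nd (nat_lit 164) (nat_lit 0) (cs (lf (nat_lit 30) (nat_lit 141)) (lf (nat_lit 36) (nat_lit 97)))) (lf (nat_lit 33) (nat_lit 119)))) q1638 (by decide +kernel)
def q1643 : Q := Q.p (nat_lit 0x8000020000180000400000000000000000000000000000000000) (nat_lit 0x40000000000000001000004000000000000000000000000) (nat_lit 2)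
theorem c1643 : QOK q1643 := cut [] trivial (nd (nat_lit 120) (nat_lit 0) (cs (lf (nat_lit 36) (nat_lit 97)) (lf (nat_lit 39) (nat_lit 119)))) q1643 (by decide +kernel)
def q1649 : Q := Q.p (nat_lit 0x180000c00000000000000000000000000000000000) (nat_lit 0x260003000000000000000000000000000000000000) (nat_lit 3)
theorem c1649 : QOK q1649 := cut [] trivial (nd (nat_lit 144) (nat_lit 0) (cs (nd (nat_lit 162) (nat_lit 0) (cs (lf (nat_lit 15) (nat_lit 140)) (lf (nat_lit 12) (nat_lit 139)))) (lf (nat_lit 6) (nat_lit 141)))) q1649 (by decide +kernel)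
def q1662 : Q := Q.p (nat_lit 0x18000060000080000100000000000000000000000000000000000) (nat_lit 0x200000c00000000000000000000000000000) (nat_lit 2)
theorem c1662 : QOK q1662 := cut [] trivial (nd (nat_lit 141) (nat_lit 0) (cs (lf (nat_lit 47) (nat_lit 118)) (lf (nat_lit 24) (nat_lit 119)))) q1662 (by decide +kernel)
def q1668 : Q := Q.p (nat_lit 0x2000000000030000040000100000000000000000000000000000000000000000) (nat_lit 0xc000000000080000000000000000000000000000000000000000000000) (nat_lit 2)
theorem c1668 : QOK q1668 := cut [] trivial (nd (nat_lit 231) (nat_lit 0) (cs (lf (nat_lit 45) (nat_lit 164)) (lf (nat_lit 27) (nat_lit 164)))) q1668 (by decide +kernel)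
def q1678 : Q := Q.p (nat_lit 0x200000000003c000000000000000000000000000000000000000000000000000) (nat_lit 0xa0000020001c0000100000400001000000000000000000000000000000) (nat_lit 5)
theorem c1678 : QOK q1678 := cut [] trivial (nd (nat_lit 187) (nat_lit 0) (cs (lf (nat_lit 17) (nat_lit 184)) (nd (nat_lit 186) (nat_lit 0) (cs (lf (nat_lit 12) (nat_lit 183)) (nd (nat_lit 164) (nat_lit 0) (cs (lf (nat_lit 43) (nat_lit 164)) (nd (nat_lit 142) (nat_lit 0) (cs (lf (nat_lit 41) (nat_lit 141)) (lf (nat_lit 24) (nat_lit 120)))))))))) q1678 (by decide +kernel)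
def q1680 : Q := Q.p (nat_lit 0x38000018000000000000000000000000000000000000000000000) (nat_lit 0x40000024000000000000000000000000000000000000000000000) (nat_lit 2)
theorem c1680 : QOK q1680 := cut [] trivial (nd (nat_lit 185) (nat_lit 0) (cs (lf (nat_lit 18) (nat_lit 184)) (lf (nat_lit 0) (nat_lit 182)))) q1680 (by decide +kernel)
def q1683 : Q := Q.p (nat_lit 0xe0000180000000000000000000000000000000000000000000000) (nat_lit 0x300000040000000000000000000000000000000000000000000000) (nat_lit 2)
theorem c1683 : QOK q1683 := cut [] trivial (nd (nat_lit 212) (nat_lit 0) (cs (lf (nat_lit 18) (nat_lit 187)) (lf (nat_lit 23) (nat_lit 186)))) q1683 (by decide +kernel)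
def q1698 : Q := Q.p (nat_lit 0x300001c00000000000000000000000000000000000) (nat_lit 0x80006000000000000000000000000000000000000) (nat_lit 2)
theorem c1698 : QOK q1698 := cut [] trivial (nd (nat_lit 145) (nat_lit 0) (cs (lf (nat_lit 6) (nat_lit 142)) (lf (nat_lit 11) (nat_lit 141)))) q1698 (by decide +kernel)
def q1718 : Q := Q.p (nat_lit 0x200000800002000008000020000000000000000000000000000000000000000000000) (nat_lit 0x100000400001000000000000000000000000000000000000000000000000000000000000000) (nat_lit 2)
theorem c1718 : QOK q1718 := cut [] trivial (nd (nat_lit 274) (nat_lit 0) (cs (lf (nat_lit 29) (nat_lit 207)) (lf (nat_lit 28) (nat_lit 185)))) q1718 (by decide +kernel)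
def q1726 : Q := Q.p (nat_lit 0x3000038000000000000000000000000000000000000000000000000000) (nat_lit 0x4c00000000000000000000000000000000000000000000000000000000) (nat_lit 2)
theorem c1726 : QOK q1726 := cut [] trivial (nd (nat_lit 227) (nat_lit 0) (cs (lf (nat_lit 12) (nat_lit 204)) (lf (nat_lit 15) (nat_lit 205)))) q1726 (by decide +kernel)
def q1749 : Q := Q.p (nat_lit 0x2000008000020000080000000000000000000000000000000000000000) (nat_lit 0x140000700001400000000000000000000000000000) (nat_lit 4)
theorem c1749 : QOK q1749 := cut [] trivial (nd (nat_lit 140) (nat_lit 0) (cs (lf (nat_lit 46) (nat_lit 140)) (nd (nat_lit 142) (nat_lit 0) (cs (lf (nat_lit 34) (nat_lit 141)) (nd (nat_lit 141) (nat_lit 0) (cs (lf (nat_lit 47) (nat_lit 118)) (lf (nat_lit 35) (nat_lit 119)))))))) q1749 (by decide +kernel)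
def q1752 : Q := Q.p (nat_lit 0x100000400001000004000010000000000000000000000000) (nat_lit 0x2000008000020000000000000000000) (nat_lit 2)
theorem c1752 : QOK q1752 := cut [] trivial (nd (nat_lit 99) (nat_lit 0) (cs (lf (nat_lit 47) (nat_lit 77)) (lf (nat_lit 46) (nat_lit 99)))) q1752 (by decide +kernel)
def q1773 : Q := Q.p (nat_lit 0x800002000018000040000000000000000000000000000000000000000000000) (nat_lit 0x4000000000000000100000400000000000000000000000000000000000) (nat_lit 2)
theorem c1773 : QOK q1773 := cut [] trivial (nd (nat_lit 164) (nat_lit 0) (cs (lf (nat_lit 36) (nat_lit 141)) (lf (nat_lit 39) (nat_lit 163)))) q1773 (by decide +kernel)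
def q1786 : Q := Q.p (nat_lit 0x60000180000400000800000000000000000000000000000000000) (nat_lit 0x1000006000000000000000000000000000000) (nat_lit 2)
theorem c1786 : QOK q1786 := cut [] trivial (nd (nat_lit 144) (nat_lit 0) (cs (lf (nat_lit 47) (nat_lit 121)) (lf (nat_lit 36) (nat_lit 121)))) q1786 (by decide +kernel)
def q1796 : Q := Q.p (nat_lit 0x38000160000000000000000000000000000000000000000000000) (nat_lit 0xc0000200000000000000000000000000000000000000000000000) (nat_lit 2)
theorem c1796 : QOK q1796 := cut [] trivial (nd (nat_lit 210) (nat_lit 0) (cs (lf (nat_lit 18) (nat_lit 185)) (lf (nat_lit 17) (nat_lit 185)))) q1796 (by decide +kernel)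
def q1797 : Q := Q.p (nat_lit 0x18000160000000000000000000000000000000000000000000000) (nat_lit 0x4000280000000000000000000000000000000000000000000000) (nat_lit 2)
theorem c1797 : QOK q1797 := cut [] trivial (nd (nat_lit 187) (nat_lit 0) (cs (lf (nat_lit 6) (nat_lit 185)) (lf (nat_lit 11) (nat_lit 184)))) q1797 (by decide +kernel)
def q1799 : Q := Q.p (nat_lit 0x18000060000080000000000000000000000000000000000000000) (nat_lit 0x4000000000000000000000200000800000000000000000000000000000) (nat_lit 2)
theorem c1799 : QOK q1799 := cut [] trivial (nd (nat_lit 141) (nat_lit 0) (cs (lf (nat_lit 24) (nat_lit 119)) (lf (nat_lit 29) (nat_lit 141)))) q1799 (by decide +kernel)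
def q1804 : Q := Q.p (nat_lit 0x78000080000000000000000000000000000000000000000000000) (nat_lit 0x4000300000000000000000000000000000000000000000000000) (nat_lit 2)
theorem c1804 : QOK q1804 := cut [] trivial (nd (nat_lit 188) (nat_lit 0) (cs (lf (nat_lit 17) (nat_lit 185)) (lf (nat_lit 12) (nat_lit 184)))) q1804 (by decide +kernel)
def q1812 : Q := Q.p (nat_lit 0x1c0000180000000000000000000000000000000000000000) (nat_lit 0x20000060000000000000000000000000000000000000000) (nat_lit 2)
theorem c1812 : QOK q1812 := cut [] trivial (nd (nat_lit 162) (nat_lit 0) (cs (lf (nat_lit 0) (nat_lit 161)) (lf (nat_lit 21) (nat_lit 162)))) q1812 (by decide +kernel)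
def q1819 : Q := Q.p (nat_lit 0x1000004000030000040000000000000000000000000000000000000000000000) (nat_lit 0x400000000000000000000080000200000000000000000000000000000000000000000) (nat_lit 2)
theorem c1819 : QOK q1819 := cut [] trivial (nd (nat_lit 187) (nat_lit 0) (cs (lf (nat_lit 30) (nat_lit 186)) (lf (nat_lit 35) (nat_lit 164)))) q1819 (by decide +kernel)
def q1823 : Q := Q.p (nat_lit 0x1000004000018000040000000000000000000000000000000000000000000000) (nat_lit 0x400000000000000000000020000080000000000000000000000000000000000000000) (nat_lit 2)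
theorem c1823 : QOK q1823 := cut [] trivial (nd (nat_lit 185) (nat_lit 0) (cs (lf (nat_lit 47) (nat_lit 163)) (lf (nat_lit 42) (nat_lit 185)))) q1823 (by decide +kernel)
def q1827 : Q := Q.p (nat_lit 0x800002000018000040000000000000000000000000000000000000000000000) (nat_lit 0x20000100000400000000000000000000000000000000000) (nat_lit 2)
theorem c1827 : QOK q1827 := cut [] trivial (nd (nat_lit 164) (nat_lit 0) (cs (lf (nat_lit 36) (nat_lit 141)) (lf (nat_lit 33) (nat_lit 163)))) q1827 (by decide +kernel)
def q1829 : Q := Q.p (nat_lit 0x800002000018000040000000000000000000000000000000000000000000000) (nat_lit 0x4000000000020000100000000000000000000000000000000000000000) (nat_lit 2)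
theorem c1829 : QOK q1829 := cut [] trivial (nd (nat_lit 164) (nat_lit 0) (cs (lf (nat_lit 39) (nat_lit 163)) (lf (nat_lit 33) (nat_lit 163)))) q1829 (by decide +kernel)
def q1835 : Q := Q.p (nat_lit 0x3800002000008000020000000000000000000000000000000000000000000000) (nat_lit 0x100000400001800000000000000080000000000000000000000000000000000000000) (nat_lit 3)
theorem c1835 : QOK q1835 := cut [] trivial (nd (nat_lit 250) (nat_lit 0) (cs (lf (nat_lit 41) (nat_lit 184)) (nd (nat_lit 228) (nat_lit 0) (cs (lf (nat_lit 36) (nat_lit 162)) (lf (nat_lit 23) (nat_lit 227)))))) q1835 (by decide +kernel)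
def q1884 : Q := Q.p (nat_lit 0x6000018000020000080000000000000000000000000000000000000000) (nat_lit 0xc0000300000c00000000000000040000100000400000000000000000000000000000000000) (nat_lit 5)
theorem c1884 : QOK q1884 := cut [] trivial (nd (nat_lit 164) (nat_lit 0) (cs (lf (nat_lit 35) (nat_lit 141)) (nd (nat_lit 251) (nat_lit 0) (cs (nd (nat_lit 272) (nat_lit 0) (cs (lf (nat_lit 40) (nat_lit 184)) (nd (nat_lit 273) (nat_lit 0) (cs (lf (nat_lit 41) (nat_lit 206)) (lf (nat_lit 30) (nat_lit 207)))))) (lf (nat_lit 37) (nat_lit 163)))))) q1884 (by decide +kernel)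
def q1889 : Q := Q.p (nat_lit 0x38000100000400001000000000000000000000000000000000000) (nat_lit 0x4000080000000000000004000000000000000000000000000000) (nat_lit 2)
theorem c1889 : QOK q1889 := cut [] trivial (nd (nat_lit 187) (nat_lit 0) (cs (lf (nat_lit 12) (nat_lit 184)) (lf (nat_lit 36) (nat_lit 121)))) q1889 (by decide +kernel)
def q1916 : Q := Q.p (nat_lit 0x18000060000100000000000000000000000000000000000000000) (nat_lit 0x2000000000000000000000400001000000000000000000000000000000) (nat_lit 2)
theorem c1916 : QOK q1916 := cut [] trivial (nd (nat_lit 142) (nat_lit 0) (cs (lf (nat_lit 41) (nat_lit 141)) (lf (nat_lit 36) (nat_lit 119)))) q1916 (by decide +kernel)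
def q1926 : Q := Q.p (nat_lit 0x180000e00000000000000000000000000000000000) (nat_lit 0x40003000000000000000000000000000000000000) (nat_lit 2)
theorem c1926 : QOK q1926 := cut [] trivial (nd (nat_lit 144) (nat_lit 0) (cs (lf (nat_lit 6) (nat_lit 141)) (lf (nat_lit 11) (nat_lit 140)))) q1926 (by decide +kernel)
def q1934 : Q := Q.p (nat_lit 0xc0000700000000000000000000000000000000000) (nat_lit 0x20001800000000000000000000000000000000000) (nat_lit 2)
theorem c1934 : QOK q1934 := cut [] trivial (nd (nat_lit 143) (nat_lit 0) (cs (lf (nat_lit 6) (nat_lit 140)) (lf (nat_lit 11) (nat_lit 139)))) q1934 (by decide +kernel)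
def q1942 : Q := Q.p (nat_lit 0x20000080000200000800002000000000000000000000000000000) (nat_lit 0x400001000004000000000000000000000000) (nat_lit 2)
theorem c1942 : QOK q1942 := cut [] trivial (nd (nat_lit 120) (nat_lit 0) (cs (lf (nat_lit 46) (nat_lit 120)) (lf (nat_lit 47) (nat_lit 98)))) q1942 (by decide +kernel)
def q1974 : Q := Q.p (nat_lit 0x20000180000300000c0000000000000000000000000000000000000000) (nat_lit 0x1000004000000000040000700001c00000000000000000000000000000000000) (nat_lit 5)
theorem c1974 : QOK q1974 := cut [] trivial (nd (nat_lit 230) (nat_lit 0) (cs (lf (nat_lit 29) (nat_lit 163)) (nd (nat_lit 164) (nat_lit 0) (cs (lf (nat_lit 35) (nat_lit 141)) (nd (nat_lit 165) (nat_lit 0) (cs (lf (nat_lit 6) (nat_lit 162)) (nd (nat_lit 143) (nat_lit 0) (cs (lf (nat_lit 32) (nat_lit 142)) (lf (nat_lit 17) (nat_lit 140)))))))))) q1974 (by decide +kernel)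
def q1989 : Q := Q.p (nat_lit 0xc000030000080000000000000000000000000000000000000000000000) (nat_lit 0x1000000000000000000000200000800000000000000000000000000000000000) (nat_lit 2)
theorem c1989 : QOK q1989 := cut [] trivial (nd (nat_lit 165) (nat_lit 0) (cs (lf (nat_lit 36) (nat_lit 142)) (lf (nat_lit 41) (nat_lit 164)))) q1989 (by decide +kernel)
def q1996 : Q := Q.p (nat_lit 0x880001c00000000000000000000000000000000000000000000000000000000000000) (nat_lit 0x440000200000000000000000000000000000000000000000000000000000000000000) (nat_lit 2)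
theorem c1996 : QOK q1996 := cut [] trivial (nd (nat_lit 249) (nat_lit 0) (cs (lf (nat_lit 4) (nat_lit 249)) (lf (nat_lit 11) (nat_lit 248)))) q1996 (by decide +kernel)
def q2003 : Q := Q.p (nat_lit 0x800002000038000060000000000000000000000000000000000000000000000) (nat_lit 0x18000040000000000000000000000000000000000000000) (nat_lit 2)
theorem c2003 : QOK q2003 := cut [] trivial (nd (nat_lit 184) (nat_lit 0) (cs (lf (nat_lit 0) (nat_lit 183)) (lf (nat_lit 47) (nat_lit 162)))) q2003 (by decide +kernel)
def q2006 : Q := Q.p (nat_lit 0x800002000038000020000000000000000000000000000000000000000000000) (nat_lit 0x40000010000040000000000000000000000000000000000000000) (nat_lit 2)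
theorem c2006 : QOK q2006 := cut [] trivial (nd (nat_lit 184) (nat_lit 0) (cs (lf (nat_lit 18) (nat_lit 184)) (lf (nat_lit 47) (nat_lit 162)))) q2006 (by decide +kernel)
def q2019 : Q := Q.p (nat_lit 0x80000200000c000010000000000000000000000000000000000000000000000) (nat_lit 0x20000040000100000000000000000000000000000000000) (nat_lit 2)
theorem c2019 : QOK q2019 := cut [] trivial (nd (nat_lit 162) (nat_lit 0) (cs (lf (nat_lit 24) (nat_lit 140)) (lf (nat_lit 45) (nat_lit 162)))) q2019 (by decide +kernel)
def q2028 : Q := Q.p (nat_lit 0x70000480000000000000000000000000000000000000000000000000000000000000000000000000) (nat_lit 0x80000300000000000000000000000000000000000000000000000000000000000000000000000000) (nat_lit 2)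
theorem c2028 : QOK q2028 := cut [] trivial (nd (nat_lit 297) (nat_lit 0) (cs (lf (nat_lit 15) (nat_lit 294)) (lf (nat_lit 8) (nat_lit 294)))) q2028 (by decide +kernel)
def q2047 : Q := Q.p (nat_lit 0x80000240000800002000000000000000000000000000000000000000000000000000000000000000) (nat_lit 0x50000160000180000000000000000000000000000000000000000000000000000000000000000000000000) (nat_lit 4)
theorem c2047 : QOK q2047 := cut [] trivial (nd (nat_lit 318) (nat_lit 0) (cs (nd (nat_lit 320) (nat_lit 0) (cs (nd (nat_lit 295) (nat_lit 0) (cs (lf (nat_lit 21) (nat_lit 294)) (lf (nat_lit 2) (nat_lit 294)))) (lf (nat_lit 29) (nat_lit 253)))) (lf (nat_lit 41) (nat_lit 252)))) q2047 (by decide +kernel)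
def q2057 : Q := Q.p (nat_lit 0x1f00000000000000000000000000000000000000000000000000000000000000000000) (nat_lit 0xe00000000000000000000000000000000000000000000000000000000000000000000000000) (nat_lit 2)
theorem c2057 : QOK q2057 := cut [] trivial (nd (nat_lit 298) (nat_lit 0) (cs (lf (nat_lit 5) (nat_lit 273)) (lf (nat_lit 4) (nat_lit 272)))) q2057 (by decide +kernel)
def q2063 : Q := Q.p (nat_lit 0x3e00000000000000000000000000000000000000000000000000000000000000) (nat_lit 0x1c00000000000000000000000000000000000000000000000000000000) (nat_lit 2)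
theorem c2063 : QOK q2063 := cut [] trivial (nd (nat_lit 227) (nat_lit 0) (cs (lf (nat_lit 23) (nat_lit 226)) (lf (nat_lit 22) (nat_lit 227)))) q2063 (by decide +kernel)
def q2067 : Q := Q.p (nat_lit 0x800001c00000800000000000000000000000000000000000000000000000000000000) (nat_lit 0x400000200000400000000000000000000000000000000000000000000000000000000) (nat_lit 2)
theorem c2067 : QOK q2067 := cut [] trivial (nd (nat_lit 249) (nat_lit 0) (cs (lf (nat_lit 23) (nat_lit 226)) (lf (nat_lit 4) (nat_lit 249)))) q2067 (by decide +kernel)
def q2069 : Q := Q.p (nat_lit 0x400001000034000010000000000000000000000000000000000000000000000) (nat_lit 0x8000008000020000000000000000000000000000000000000000) (nat_lit 2)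
theorem c2069 : QOK q2069 := cut [] trivial (nd (nat_lit 183) (nat_lit 0) (cs (lf (nat_lit 20) (nat_lit 183)) (lf (nat_lit 47) (nat_lit 161)))) q2069 (by decide +kernel)
def q2073 : Q := Q.p (nat_lit 0xc00001000004000010000000000000000000000000000000000000000000000) (nat_lit 0x20000000000200000c0000200000000000000000000000000000000000) (nat_lit 3)
theorem c2073 : QOK q2073 := cut [] trivial (nd (nat_lit 163) (nat_lit 0) (cs (lf (nat_lit 34) (nat_lit 162)) (nd (nat_lit 162) (nat_lit 0) (cs (lf (nat_lit 35) (nat_lit 140)) (lf (nat_lit 28) (nat_lit 162)))))) q2073 (by decide +kernel)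
def q2081 : Q := Q.p (nat_lit 0x3c00001000014000000000000000000000000000000000000000000000000000) (nat_lit 0xc000038000000000200000a000068000000000000000000000000000000000000000000000) (nat_lit 6)
theorem c2081 : QOK q2081 := cut [] trivial (nd (nat_lit 272) (nat_lit 0) (cs (lf (nat_lit 11) (nat_lit 249)) (nd (nat_lit 273) (nat_lit 0) (cs (nd (nat_lit 183) (nat_lit 0) (cs (nd (nat_lit 207) (nat_lit 0) (cs (lf (nat_lit 35) (nat_lit 184)) (nd (nat_lit 229) (nat_lit 0) (cs (lf (nat_lit 41) (nat_lit 206)) (lf (nat_lit 35) (nat_lit 185)))))) (lf (nat_lit 46) (nat_lit 183)))) (lf (nat_lit 29) (nat_lit 206)))))) q2081 (by decide +kernel)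
def q2082 : Q := Q.p (nat_lit 0x100000400001000004000010000000000000000000000000000000000000000000000) (nat_lit 0x2000008000020000000000000000000000000000000000000000) (nat_lit 2)
theorem c2082 : QOK q2082 := cut [] trivial (nd (nat_lit 183) (nat_lit 0) (cs (lf (nat_lit 47) (nat_lit 161)) (lf (nat_lit 46) (nat_lit 183)))) q2082 (by decide +kernel)
def q2094 : Q := Q.p (nat_lit 0x1c000060000000000000000000000000000000000000000000000) (nat_lit 0x3000080000000000000000000000000000000000000000000000) (nat_lit 2)
theorem c2094 : QOK q2094 := cut [] trivial (nd (nat_lit 205) (nat_lit 0) (cs (lf (nat_lit 12) (nat_lit 182)) (lf (nat_lit 17) (nat_lit 183)))) q2094 (by decide +kernel)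
def q2098 : Q := Q.p (nat_lit 0x800003800002000008000020000000000000000000000000000000000000000000000) (nat_lit 0x1100000400000000000000000000000000000000000000000000000000000000000000) (nat_lit 2)
theorem c2098 : QOK q2098 := cut [] trivial (nd (nat_lit 250) (nat_lit 0) (cs (lf (nat_lit 41) (nat_lit 184)) (lf (nat_lit 5) (nat_lit 250)))) q2098 (by decide +kernel)
def q2107 : Q := Q.p (nat_lit 0x400001e0000000000800002000000000000000000000000000000) (nat_lit 0xc00001000000000000000000000000000000000000) (nat_lit 2)
theorem c2107 : QOK q2107 := cut [] trivial (nd (nat_lit 166) (nat_lit 0) (cs (lf (nat_lit 17) (nat_lit 163)) (lf (nat_lit 45) (nat_lit 121)))) q2107 (by decide +kernel)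
def q2122 : Q := Q.p (nat_lit 0x18000060000080000800002000000000000000000000000000000) (nat_lit 0x700005c00000000000000000000000000000) (nat_lit 4)
theorem c2122 : QOK q2122 := cut [] trivial (nd (nat_lit 141) (nat_lit 0) (cs (lf (nat_lit 24) (nat_lit 119)) (nd (nat_lit 142) (nat_lit 0) (cs (lf (nat_lit 35) (nat_lit 119)) (nd (nat_lit 140) (nat_lit 0) (cs (lf (nat_lit 47) (nat_lit 118)) (lf (nat_lit 17) (nat_lit 118)))))))) q2122 (by decide +kernel)
def q2145 : Q := Q.p (nat_lit 0x2000008000030000040000000000000000000000000000000000000000) (nat_lit 0x80000100000400000000000000000000000000000) (nat_lit 2)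
theorem c2145 : QOK q2145 := cut [] trivial (nd (nat_lit 140) (nat_lit 0) (cs (lf (nat_lit 24) (nat_lit 118)) (lf (nat_lit 45) (nat_lit 140)))) q2145 (by decide +kernel)
def q2158 : Q := Q.p (nat_lit 0x40000300000c0000000000000000000000000000000000000000) (nat_lit 0x1000000000000000000000200000800000000000000000000000000000) (nat_lit 2)
theorem c2158 : QOK q2158 := cut [] trivial (nd (nat_lit 141) (nat_lit 0) (cs (lf (nat_lit 30) (nat_lit 140)) (lf (nat_lit 36) (nat_lit 118)))) q2158 (by decide +kernel)
def q2178 : Q := Q.p (nat_lit 0xc00001000000000030000000000000000000000000000000000000000000000000000) (nat_lit 0x200000000000000004000000000080000000000000000000000000000000000000000000000) (nat_lit 2)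
theorem c2178 : QOK q2178 := cut [] trivial (nd (nat_lit 230) (nat_lit 0) (cs (lf (nat_lit 35) (nat_lit 186)) (lf (nat_lit 29) (nat_lit 208)))) q2178 (by decide +kernel)
def q2179 : Q := Q.p (nat_lit 0xe00003400000000000000000000000000000000000000000000000000000000000000) (nat_lit 0x180000200000000000000000000000000000000000000000000000000000000000000) (nat_lit 2)
theorem c2179 : QOK q2179 := cut [] trivial (nd (nat_lit 272) (nat_lit 0) (cs (lf (nat_lit 23) (nat_lit 249)) (lf (nat_lit 12) (nat_lit 249)))) q2179 (by decide +kernel)
def q2185 : Q := Q.p (nat_lit 0x3e00000000000000000000000000000000000000000000000000000000000000000000) (nat_lit 0x1c0000000000000000000000000000000000000000000000000000000000000000000000000) (nat_lit 2)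
theorem c2185 : QOK q2185 := cut [] trivial (nd (nat_lit 295) (nat_lit 0) (cs (lf (nat_lit 11) (nat_lit 272)) (lf (nat_lit 10) (nat_lit 273)))) q2185 (by decide +kernel)
def q2204 : Q := Q.p (nat_lit 0x2000008000020000080000200000000000000000000000000000000000000000) (nat_lit 0x100000400001000000000000000000000000000000000000) (nat_lit 2)
theorem c2204 : QOK q2204 := cut [] trivial (nd (nat_lit 166) (nat_lit 0) (cs (lf (nat_lit 35) (nat_lit 143)) (lf (nat_lit 34) (nat_lit 165)))) q2204 (by decide +kernel)
def q2219 : Q := Q.p (nat_lit 0x80000e0000040000000000000000000000000000000000000000000000) (nat_lit 0x4000100000080000000000000000000000000000000000000000000000) (nat_lit 2)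
theorem c2219 : QOK q2219 := cut [] trivial (nd (nat_lit 212) (nat_lit 0) (cs (lf (nat_lit 22) (nat_lit 186)) (lf (nat_lit 11) (nat_lit 208)))) q2219 (by decide +kernel)
def q2224 : Q := Q.p (nat_lit 0x300000c0000200000000000000000000000000000000000000000) (nat_lit 0x4000000000000000000000800002000000000000000000000000000000) (nat_lit 2)
theorem c2224 : QOK q2224 := cut [] trivial (nd (nat_lit 143) (nat_lit 0) (cs (lf (nat_lit 36) (nat_lit 120)) (lf (nat_lit 41) (nat_lit 142)))) q2224 (by decide +kernel)
def q2242 : Q := Q.p (nat_lit 0x1f0000000000000000000000000000000000000000) (nat_lit 0xe000000000000000000000000000000000000000000000) (nat_lit 2)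
theorem c2242 : QOK q2242 := cut [] trivial (nd (nat_lit 182) (nat_lit 0) (cs (lf (nat_lit 10) (nat_lit 160)) (lf (nat_lit 11) (nat_lit 159)))) q2242 (by decide +kernel)
def q2254 : Q := Q.p (nat_lit 0x400003c0000000000000000000000000000000000000000) (nat_lit 0x3a0000c00007000000000000000000000000000000000000) (nat_lit 5)
theorem c2254 : QOK q2254 := cut [] trivial (nd (nat_lit 188) (nat_lit 0) (cs (lf (nat_lit 4) (nat_lit 162)) (nd (nat_lit 166) (nat_lit 0) (cs (lf (nat_lit 5) (nat_lit 163)) (nd (nat_lit 145) (nat_lit 0) (cs (nd (nat_lit 167) (nat_lit 0) (cs (lf (nat_lit 17) (nat_lit 142)) (lf (nat_lit 11) (nat_lit 163)))) (lf (nat_lit 16) (nat_lit 141)))))))) q2254 (by decide +kernel)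
def q2263 : Q := Q.p (nat_lit 0x3c0000080000000000000000000000000000000000) (nat_lit 0x1c000020000040000000000000000000000000000000000) (nat_lit 3)
theorem c2263 : QOK q2263 := cut [] trivial (nd (nat_lit 183) (nat_lit 0) (cs (lf (nat_lit 10) (nat_lit 161)) (nd (nat_lit 161) (nat_lit 0) (cs (lf (nat_lit 23) (nat_lit 138)) (lf (nat_lit 11) (nat_lit 160)))))) q2263 (by decide +kernel)
def q2268 : Q := Q.p (nat_lit 0x1f0000000000000000000000000000000000000000) (nat_lit 0xe0000000000000000000000000000000000) (nat_lit 2)
theorem c2268 : QOK q2268 := cut [] trivial (nd (nat_lit 138) (nat_lit 0) (cs (lf (nat_lit 22) (nat_lit 138)) (lf (nat_lit 23) (nat_lit 137)))) q2268 (by decide +kernel)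
def q2276 : Q := Q.p (nat_lit 0x2000008000030000040000000000000000000000000000000000000000000000) (nat_lit 0x4000000000080000100000000000000000000000000000000000000000) (nat_lit 2)
theorem c2276 : QOK q2276 := cut [] trivial (nd (nat_lit 164) (nat_lit 0) (cs (lf (nat_lit 45) (nat_lit 164)) (lf (nat_lit 27) (nat_lit 164)))) q2276 (by decide +kernel)
def q2282 : Q := Q.p (nat_lit 0x40000000003c000020000000000000000000000000000000000000000000000) (nat_lit 0x100000000001800000000000000000000000000000000000000000000000000000000) (nat_lit 2)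
theorem c2282 : QOK q2282 := cut [] trivial (nd (nat_lit 228) (nat_lit 0) (cs (lf (nat_lit 11) (nat_lit 205)) (lf (nat_lit 30) (nat_lit 184)))) q2282 (by decide +kernel)
def q2286 : Q := Q.p (nat_lit 0xc00000000018000060000000000000000000000000000000000000000000000) (nat_lit 0x300000000002000000000000000000000000000000000000000000000000000000000) (nat_lit 2)
theorem c2286 : QOK q2286 := cut [] trivial (nd (nat_lit 229) (nat_lit 0) (cs (lf (nat_lit 30) (nat_lit 185)) (lf (nat_lit 41) (nat_lit 184)))) q2286 (by decide +kernel)
def q2288 : Q := Q.p (nat_lit 0x1800000000018000060000000000000000000000000000000000000000000000) (nat_lit 0x600000000002000000000000000000000000000000000000000000000000000000000) (nat_lit 2)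
theorem c2288 : QOK q2288 := cut [] trivial (nd (nat_lit 229) (nat_lit 0) (cs (lf (nat_lit 30) (nat_lit 185)) (lf (nat_lit 29) (nat_lit 185)))) q2288 (by decide +kernel)
def q2301 : Q := Q.p (nat_lit 0x100000c000030000000000000000000000000000000000000000000000) (nat_lit 0x100000400000000000000000000080000000000000000000000000000000000000000) (nat_lit 2)
theorem c2301 : QOK q2301 := cut [] trivial (nd (nat_lit 250) (nat_lit 0) (cs (lf (nat_lit 30) (nat_lit 184)) (lf (nat_lit 35) (nat_lit 162)))) q2301 (by decide +kernel)
def q2310 : Q := Q.p (nat_lit 0x6000070000000000000000000000000000000000000000000000) (nat_lit 0x9800000000000000000000000000000000000000000000000000) (nat_lit 2)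
theorem c2310 : QOK q2310 := cut [] trivial (nd (nat_lit 204) (nat_lit 0) (cs (lf (nat_lit 15) (nat_lit 182)) (lf (nat_lit 12) (nat_lit 181)))) q2310 (by decide +kernel)
def q2333 : Q := Q.p (nat_lit 0x8000020000080000200000800000000000000000000000000000000000) (nat_lit 0x400001000004000000000000000000000000000000) (nat_lit 2)
theorem c2333 : QOK q2333 := cut [] trivial (nd (nat_lit 144) (nat_lit 0) (cs (lf (nat_lit 35) (nat_lit 121)) (lf (nat_lit 34) (nat_lit 143)))) q2333 (by decide +kernel)
def q2352 : Q := Q.p (nat_lit 0x400003000008000000000000000000000000000000000000000000000000000) (nat_lit 0x40000100000800000000000000020000080000000000000000000000000000000000000000) (nat_lit 3)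
theorem c2352 : QOK q2352 := cut [] trivial (nd (nat_lit 272) (nat_lit 0) (cs (lf (nat_lit 30) (nat_lit 206)) (nd (nat_lit 185) (nat_lit 0) (cs (lf (nat_lit 36) (nat_lit 162)) (lf (nat_lit 39) (nat_lit 184)))))) q2352 (by decide +kernel)
def q2368 : Q := Q.p (nat_lit 0x2000008000160000080000000000000000000000000000000000000000) (nat_lit 0x80000040000100000000000000000000000000000000000) (nat_lit 2)
theorem c2368 : QOK q2368 := cut [] trivial (nd (nat_lit 162) (nat_lit 0) (cs (lf (nat_lit 47) (nat_lit 140)) (lf (nat_lit 19) (nat_lit 162)))) q2368 (by decide +kernel)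
def q2390 : Q := Q.p (nat_lit 0x140000200000800002000000000000000000000000000000000000000000000000000000000000000) (nat_lit 0x50000080000000000000000000000000000000000000000000000000000000000000000000000000000000) (nat_lit 2)
theorem c2390 : QOK q2390 := cut [] trivial (nd (nat_lit 319) (nat_lit 0) (cs (lf (nat_lit 29) (nat_lit 253)) (lf (nat_lit 41) (nat_lit 252)))) q2390 (by decide +kernel)
def q2409 : Q := Q.p (nat_lit 0x1c000060000080000000000000000000000000000000000000000) (nat_lit 0x1000000000000000000000200000800000000000000000000000000000) (nat_lit 2)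
theorem c2409 : QOK q2409 := cut [] trivial (nd (nat_lit 141) (nat_lit 0) (cs (lf (nat_lit 24) (nat_lit 119)) (lf (nat_lit 41) (nat_lit 140)))) q2409 (by decide +kernel)
def q2411 : Q := Q.p (nat_lit 0x1c000018000000000000000000000000000000000000000000000) (nat_lit 0x26000000000000000000000000000000000000000000000) (nat_lit 2)
theorem c2411 : QOK q2411 := cut [] trivial (nd (nat_lit 182) (nat_lit 0) (cs (lf (nat_lit 0) (nat_lit 181)) (lf (nat_lit 3) (nat_lit 182)))) q2411 (by decide +kernel)
def q2415 : Q := Q.p (nat_lit 0x80000000003c000010000000000000000000000000000000000000000000000) (nat_lit 0x3800040000000000040000000000000000000000000000000000000000) (nat_lit 3)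
theorem c2415 : QOK q2415 := cut [] trivial (nd (nat_lit 228) (nat_lit 0) (cs (lf (nat_lit 11) (nat_lit 205)) (nd (nat_lit 229) (nat_lit 0) (cs (lf (nat_lit 6) (nat_lit 206)) (lf (nat_lit 24) (nat_lit 162)))))) q2415 (by decide +kernel)
def q2419 : Q := Q.p (nat_lit 0x80000000000c000010000040000000000000000000000000000000000000000) (nat_lit 0x3000000000020000000000000000000000000000000000000000000000) (nat_lit 2)
theorem c2419 : QOK q2419 := cut [] trivial (nd (nat_lit 229) (nat_lit 0) (cs (lf (nat_lit 27) (nat_lit 162)) (lf (nat_lit 45) (nat_lit 162)))) q2419 (by decide +kernel)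
def q2432 : Q := Q.p (nat_lit 0x80000200000e0000300000000000000000000000000000000000) (nat_lit 0xc00001000000000000000000000000000000) (nat_lit 2)
theorem c2432 : QOK q2432 := cut [] trivial (nd (nat_lit 142) (nat_lit 0) (cs (lf (nat_lit 35) (nat_lit 119)) (lf (nat_lit 6) (nat_lit 139)))) q2432 (by decide +kernel)
def q2453 : Q := Q.p (nat_lit 0x1f0000000000000000000000000000000000000000000000000000) (nat_lit 0xe00000000000000000000000000000000000000000000000) (nat_lit 2)
theorem c2453 : QOK q2453 := cut [] trivial (nd (nat_lit 190) (nat_lit 0) (cs (lf (nat_lit 17) (nat_lit 187)) (lf (nat_lit 16) (nat_lit 186)))) q2453 (by decide +kernel)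
def q2460 : Q := Q.p (nat_lit 0x8000038000200000c0000100000000000000000000000000000000000000000000000) (nat_lit 0x7400008000000000000000000000000000000000000000000000000000000000000000) (nat_lit 3)
theorem c2460 : QOK q2460 := cut [] trivial (nd (nat_lit 277) (nat_lit 0) (cs (lf (nat_lit 43) (nat_lit 188)) (nd (nat_lit 276) (nat_lit 0) (cs (lf (nat_lit 21) (nat_lit 251)) (lf (nat_lit 18) (nat_lit 252)))))) q2460 (by decide +kernel)
def q2478 : Q := Q.p (nat_lit 0x1000004000010000040000100000000000000000000000000000000000) (nat_lit 0x80000200000800000000000000000000000000000) (nat_lit 2)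
theorem c2478 : QOK q2478 := cut [] trivial (nd (nat_lit 141) (nat_lit 0) (cs (lf (nat_lit 35) (nat_lit 118)) (lf (nat_lit 34) (nat_lit 140)))) q2478 (by decide +kernel)
def q2493 : Q := Q.p (nat_lit 0x40000d0000040000300000000000000000000000000000000000) (nat_lit 0x20000038000480000200000000000000000000000000000) (nat_lit 4)
theorem c2493 : QOK q2493 := cut [] trivial (nd (nat_lit 161) (nat_lit 0) (cs (lf (nat_lit 20) (nat_lit 161)) (nd (nat_lit 160) (nat_lit 0) (cs (nd (nat_lit 139) (nat_lit 0) (cs (lf (nat_lit 47) (nat_lit 117)) (lf (nat_lit 6) (nat_lit 138)))) (lf (nat_lit 12) (nat_lit 137)))))) q2493 (by decide +kernel)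
def q2500 : Q := Q.p (nat_lit 0x3c0000d0000040000000000000000000000000000000000000000) (nat_lit 0x1800000000020000020000080000000000000000000000000000000000) (nat_lit 3)
theorem c2500 : QOK q2500 := cut [] trivial (nd (nat_lit 161) (nat_lit 0) (cs (lf (nat_lit 20) (nat_lit 161)) (nd (nat_lit 228) (nat_lit 0) (cs (lf (nat_lit 11) (nat_lit 205)) (lf (nat_lit 47) (nat_lit 139)))))) q2500 (by decide +kernel)
def q2511 : Q := Q.p (nat_lit 0x400001000004000010000040000000000000000000000000000000000000000) (nat_lit 0x8000020000080000000000000000000000000000000000) (nat_lit 2)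
theorem c2511 : QOK q2511 := cut [] trivial (nd (nat_lit 161) (nat_lit 0) (cs (lf (nat_lit 47) (nat_lit 139)) (lf (nat_lit 46) (nat_lit 161)))) q2511 (by decide +kernel)
def q2524 : Q := Q.p (nat_lit 0x4000020000080000200000400000000000000000000000000000000000000000000000000000000000000000000) (nat_lit 0x1000008000000000000000100000000000000000000000000000000000000000000000000000000000000000000000000) (nat_lit 2)
theorem c2524 : QOK q2524 := cut [] trivial (nd (nat_lit 363) (nat_lit 0) (cs (lf (nat_lit 46) (nat_lit 274)) (lf (nat_lit 41) (nat_lit 296)))) q2524 (by decide +kernel)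
def q2534 : Q := Q.p (nat_lit 0x10000020000080000200000400000000000000000000000000000000000000000000000000000000000000000000) (nat_lit 0x4000008000000000000000100000000000000000000000000000000000000000000000000000000000000000000000000) (nat_lit 2)
theorem c2534 : QOK q2534 := cut [] trivial (nd (nat_lit 363) (nat_lit 0) (cs (lf (nat_lit 46) (nat_lit 274)) (lf (nat_lit 29) (nat_lit 297)))) q2534 (by decide +kernel)
def q2544 : Q := Q.p (nat_lit 0x1c0000600000000000000000000000000000000000000000000000000000000000000000000000000) (nat_lit 0x20001800000000000000000000000000000000000000000000000000000000000000000000000000) (nat_lit 2)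
theorem c2544 : QOK q2544 := cut [] trivial (nd (nat_lit 299) (nat_lit 0) (cs (lf (nat_lit 12) (nat_lit 295)) (lf (nat_lit 6) (nat_lit 296)))) q2544 (by decide +kernel)
def q2555 : Q := Q.p (nat_lit 0x600000e00000000000000000000000000000000000000000000000000000000000000000000) (nat_lit 0x1800001000000000000000000000000000000000000000000000000000000000000000000000) (nat_lit 2)
theorem c2555 : QOK q2555 := cut [] trivial (nd (nat_lit 299) (nat_lit 0) (cs (lf (nat_lit 18) (nat_lit 274)) (lf (nat_lit 3) (nat_lit 273)))) q2555 (by decide +kernel)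
def q2560 : Q := Q.p (nat_lit 0x700000c00000000000000000000000000000000000000000000000000000000000000000000) (nat_lit 0x800000300000000000000000000000000000000000000000000000000000000000000000000) (nat_lit 2)
theorem c2560 : QOK q2560 := cut [] trivial (nd (nat_lit 273) (nat_lit 0) (cs (lf (nat_lit 0) (nat_lit 272)) (lf (nat_lit 18) (nat_lit 273)))) q2560 (by decide +kernel)
def q2575 : Q := Q.p (nat_lit 0x80000200000800002000000000000000000000000000000000000000000000000000000000000000) (nat_lit 0x200000c000030000140000500001400001000008000000000000000000000000000000000000000000000000000000000) (nat_lit 7)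
theorem c2575 : QOK q2575 := cut [] trivial (nd (nat_lit 340) (nat_lit 0) (cs (lf (nat_lit 40) (nat_lit 252)) (nd (nat_lit 341) (nat_lit 0) (cs (lf (nat_lit 41) (nat_lit 274)) (nd (nat_lit 274) (nat_lit 0) (cs (lf (nat_lit 47) (nat_lit 252)) (nd (nat_lit 363) (nat_lit 0) (cs (lf (nat_lit 46) (nat_lit 274)) (nd (nat_lit 298) (nat_lit 0) (cs (nd (nat_lit 320) (nat_lit 0) (cs (lf (nat_lit 24) (nat_lit 231)) (lf (nat_lit 30) (nat_lit 297)))) (lf (nat_lit 35) (nat_lit 275)))))))))))) q2575 (by decide +kernel)
def q2577 : Q := Q.p (nat_lit 0x50000080000200000800000000000000000000000000000000000000000000000000000000000000000000) (nat_lit 0x14000020000000000000000000000000000000000000000000000000000000000000000000000000000000000000) (nat_lit 2)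
theorem c2577 : QOK q2577 := cut [] trivial (nd (nat_lit 341) (nat_lit 0) (cs (lf (nat_lit 29) (nat_lit 275)) (lf (nat_lit 41) (nat_lit 274)))) q2577 (by decide +kernel)
def q2581 : Q := Q.p (nat_lit 0xe0000600000000000000000000000000000000000000000000000000000000000000000000000000) (nat_lit 0x1900000000000000000000000000000000000000000000000000000000000000000000000000) (nat_lit 2)
theorem c2581 : QOK q2581 := cut [] trivial (nd (nat_lit 299) (nat_lit 0) (cs (lf (nat_lit 6) (nat_lit 296)) (lf (nat_lit 9) (nat_lit 295)))) q2581 (by decide +kernel)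
def q2586 : Q := Q.p (nat_lit 0x1f0000000000000000000000000000000000000000000000000000000000000000000000000000000) (nat_lit 0xe0000000000000000000000000000000000000000000000000000000000000000000000000) (nat_lit 2)
theorem c2586 : QOK q2586 := cut [] trivial (nd (nat_lit 294) (nat_lit 0) (cs (lf (nat_lit 23) (nat_lit 293)) (lf (nat_lit 22) (nat_lit 294)))) q2586 (by decide +kernel)
def q2598 : Q := Q.p (nat_lit 0x3c0000200000000000000000000000000000000000000000000000000000000000000000000000000) (nat_lit 0x380000400000100000000000000000000000000000000000000000000000000000000000000000000000000) (nat_lit 3)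
theorem c2598 : QOK q2598 := cut [] trivial (nd (nat_lit 344) (nat_lit 0) (cs (nd (nat_lit 322) (nat_lit 0) (cs (lf (nat_lit 5) (nat_lit 319)) (lf (nat_lit 23) (nat_lit 296)))) (lf (nat_lit 4) (nat_lit 318)))) q2598 (by decide +kernel)
def q2609 : Q := Q.p (nat_lit 0x20000080000200000800002000000000000000000000000000000000000000000000000000000000000000) (nat_lit 0x10000040000100000000000000000000000000000000000000000000000000000000000000000000000000000000) (nat_lit 2)
theorem c2609 : QOK q2609 := cut [] trivial (nd (nat_lit 342) (nat_lit 0) (cs (lf (nat_lit 29) (nat_lit 275)) (lf (nat_lit 28) (nat_lit 253)))) q2609 (by decide +kernel)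
def q2614 : Q := Q.p (nat_lit 0x20000080000200000800002000000000000000000000000000000000000000000000000000000000000000) (nat_lit 0x4000010000040000000000000000000000000000000000000000000000000000000000000000000000000000000) (nat_lit 2)
theorem c2614 : QOK q2614 := cut [] trivial (nd (nat_lit 340) (nat_lit 0) (cs (lf (nat_lit 41) (nat_lit 274)) (lf (nat_lit 40) (nat_lit 252)))) q2614 (by decide +kernel)
def q2622 : Q := Q.p (nat_lit 0x3c00000800000000000000000000000000000000000000000000000000000000) (nat_lit 0x1c0000200000400000000000000000000000000000000000000000000000000000000) (nat_lit 3)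
theorem c2622 : QOK q2622 := cut [] trivial (nd (nat_lit 271) (nat_lit 0) (cs (lf (nat_lit 10) (nat_lit 249)) (nd (nat_lit 249) (nat_lit 0) (cs (lf (nat_lit 23) (nat_lit 226)) (lf (nat_lit 11) (nat_lit 248)))))) q2622 (by decide +kernel)
def q2645 : Q := Q.p (nat_lit 0x1c0000c00000000000000000000000000000000000000000) (nat_lit 0x3200000000000000000000000000000000000000000) (nat_lit 2)
theorem c2645 : QOK q2645 := cut [] trivial (nd (nat_lit 168) (nat_lit 0) (cs (lf (nat_lit 9) (nat_lit 164)) (lf (nat_lit 6) (nat_lit 165)))) q2645 (by decide +kernel)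
def q2658 : Q := Q.p (nat_lit 0x1800004000010000040000000000000000000000000000000000000000) (nat_lit 0x2000000000080000300000800000000000000000000000000000) (nat_lit 3)
theorem c2658 : QOK q2658 := cut [] trivial (nd (nat_lit 141) (nat_lit 0) (cs (lf (nat_lit 34) (nat_lit 140)) (nd (nat_lit 140) (nat_lit 0) (cs (lf (nat_lit 35) (nat_lit 118)) (lf (nat_lit 40) (nat_lit 139)))))) q2658 (by decide +kernel)
def q2663 : Q := Q.p (nat_lit 0x1000004000030000000000000000000000000000000000000000000000) (nat_lit 0x4000000000000000000000c0000200000800000000000000000000000000000) (nat_lit 3)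
theorem c2663 : QOK q2663 := cut [] trivial (nd (nat_lit 163) (nat_lit 0) (cs (lf (nat_lit 30) (nat_lit 162)) (nd (nat_lit 141) (nat_lit 0) (cs (lf (nat_lit 36) (nat_lit 118)) (lf (nat_lit 33) (nat_lit 140)))))) q2663 (by decide +kernel)
def q2664 : Q := Q.p (nat_lit 0x1800000000008000030000000000000000000000000000000000000000000000) (nat_lit 0x400000000002000000000000000040000000000000000000000000000000000000000) (nat_lit 2)
theorem c2664 : QOK q2664 := cut [] trivial (nd (nat_lit 229) (nat_lit 0) (cs (lf (nat_lit 29) (nat_lit 185)) (lf (nat_lit 47) (nat_lit 162)))) q2664 (by decide +kernel)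
def q2690 : Q := Q.p (nat_lit 0x2000018000060000080000000000000000000000000000000000000000) (nat_lit 0x300000c00001000000000000000000000000000000000000000000000000000000000) (nat_lit 3)
theorem c2690 : QOK q2690 := cut [] trivial (nd (nat_lit 250) (nat_lit 0) (cs (lf (nat_lit 40) (nat_lit 162)) (nd (nat_lit 251) (nat_lit 0) (cs (lf (nat_lit 30) (nat_lit 185)) (lf (nat_lit 41) (nat_lit 184)))))) q2690 (by decide +kernel)
def q2702 : Q := Q.p (nat_lit 0x100001c000060000100000400000000000000000000000000000000000) (nat_lit 0x80000200000800000000000000000000000000000) (nat_lit 2)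
theorem c2702 : QOK q2702 := cut [] trivial (nd (nat_lit 141) (nat_lit 0) (cs (lf (nat_lit 47) (nat_lit 119)) (lf (nat_lit 37) (nat_lit 140)))) q2702 (by decide +kernel)

end Crest.Agent.H3.Snaky.CR
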