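import Crest.Agent.H3.Snaky.Cert

set_option autoImplicit false
set_option maxRecDepth 100000

namespace Crest.Agent.H3.Snaky.CR

open T

def q2709 : Q := Q.p (nat_lit 0x20000080000340000800000000000000000000000000000000000) (nat_lit 0x80001000004000000000000000000000000000000) (nat_lit 2)
theorem c2709 : QOK q2709 := cut [] trivial (nd (nat_lit 144) (nat_lit 0) (cs (lf (nat_lit 35) (nat_lit 121)) (lf (nat_lit 13) (nat_lit 140)))) q2709 (by decide +kernel)
def q2724 : Q := Q.p (nat_lit 0x3c000020000000000200000000000000000000000000000000000) (nat_lit 0x1800000000000000080000000000000000000000000000000000000000) (nat_lit 2)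
theorem c2724 : QOK q2724 := cut [] trivial (nd (nat_lit 228) (nat_lit 0) (cs (lf (nat_lit 11) (nat_lit 205)) (lf (nat_lit 37) (nat_lit 140)))) q2724 (by decide +kernel)
def q2760 : Q := Q.p (nat_lit 0x3e0000000000000000000000000000000000000000) (nat_lit 0x1c0000000000000000000000000000000000) (nat_lit 2)
theorem c2760 : QOK q2760 := cut [] trivial (nd (nat_lit 139) (nat_lit 0) (cs (lf (nat_lit 23) (nat_lit 138)) (lf (nat_lit 22) (nat_lit 139)))) q2760 (by decide +kernel)
def q2769 : Q := Q.p (nat_lit 0x1c0000180000000000000000000000000000000000000000) (nat_lit 0x260000000000000000000000000000000000000000) (nat_lit 2)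
theorem c2769 : QOK q2769 := cut [] trivial (nd (nat_lit 162) (nat_lit 0) (cs (lf (nat_lit 0) (nat_lit 161)) (lf (nat_lit 3) (nat_lit 162)))) q2769 (by decide +kernel)
def q2771 : Q := Q.p (nat_lit 0x700000c0000000000000000000000000000000000000000000000) (nat_lit 0x80000030000000000000000000000000000000000000000000000) (nat_lit 2)
theorem c2771 : QOK q2771 := cut [] trivial (nd (nat_lit 185) (nat_lit 0) (cs (lf (nat_lit 18) (nat_lit 185)) (lf (nat_lit 0) (nat_lit 184)))) q2771 (by decide +kernel)
def q2797 : Q := Q.p (nat_lit 0x40000100000400001000004000000000000000000000000) (nat_lit 0x20000080000200000000000000000000000000000000000000000) (nat_lit 2)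
theorem c2797 : QOK q2797 := cut [] trivial (nd (nat_lit 187) (nat_lit 0) (cs (lf (nat_lit 28) (nat_lit 98)) (lf (nat_lit 29) (nat_lit 120)))) q2797 (by decide +kernel)
def q2806 : Q := Q.p (nat_lit 0x100000c0000300000000000000000000000000000000000000000) (nat_lit 0x1000004000000000000000000000800000000000000000000000000000000000) (nat_lit 2)
theorem c2806 : QOK q2806 := cut [] trivial (nd (nat_lit 230) (nat_lit 0) (cs (lf (nat_lit 35) (nat_lit 142)) (lf (nat_lit 30) (nat_lit 164)))) q2806 (by decide +kernel)
def q2868 : Q := Q.p (nat_lit 0x2000018000040000100000000000000000000000000000000000000000) (nat_lit 0x200000800000000000000020000000000000000000000000000000000000000000000) (nat_lit 2)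
theorem c2868 : QOK q2868 := cut [] trivial (nd (nat_lit 251) (nat_lit 0) (cs (lf (nat_lit 30) (nat_lit 185)) (lf (nat_lit 33) (nat_lit 163)))) q2868 (by decide +kernel)
def q2879 : Q := Q.p (nat_lit 0x10000040000180000200000000000000000000000000000000000) (nat_lit 0x20000000000000000800002000000000000000000000000) (nat_lit 2)
theorem c2879 : QOK q2879 := cut [] trivial (nd (nat_lit 119) (nat_lit 0) (cs (lf (nat_lit 24) (nat_lit 97)) (lf (nat_lit 27) (nat_lit 119)))) q2879 (by decide +kernel)
def q2881 : Q := Q.p (nat_lit 0x10000040000100000200000800000000000000000000000000000) (nat_lit 0x20000080000000000000002000000000000000000000000) (nat_lit 2)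
theorem c2881 : QOK q2881 := cut [] trivial (nd (nat_lit 163) (nat_lit 0) (cs (lf (nat_lit 24) (nat_lit 97)) (lf (nat_lit 27) (nat_lit 119)))) q2881 (by decide +kernel)
def q2890 : Q := Q.p (nat_lit 0x40000780000000000000000000000000000000000000000) (nat_lit 0x30000800000000000000000000000000000000000000000) (nat_lit 2)
theorem c2890 : QOK q2890 := cut [] trivial (nd (nat_lit 185) (nat_lit 0) (cs (lf (nat_lit 6) (nat_lit 163)) (lf (nat_lit 11) (nat_lit 162)))) q2890 (by decide +kernel)
def q2900 : Q := Q.p (nat_lit 0x4000010000140000180000000000000000000000000000000000000000) (nat_lit 0x280000240000800000000000000000000000000000000000) (nat_lit 3)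
theorem c2900 : QOK q2900 := cut [] trivial (nd (nat_lit 187) (nat_lit 0) (cs (lf (nat_lit 18) (nat_lit 163)) (nd (nat_lit 165) (nat_lit 0) (cs (lf (nat_lit 35) (nat_lit 142)) (lf (nat_lit 0) (nat_lit 162)))))) q2900 (by decide +kernel)
def q2920 : Q := Q.p (nat_lit 0x20000040000300000c0000000000000000000000000000000000000000000000) (nat_lit 0xc00001000000000000000000000000000000000000000000000000000000000000000) (nat_lit 2)
theorem c2920 : QOK q2920 := cut [] trivial (nd (nat_lit 252) (nat_lit 0) (cs (lf (nat_lit 30) (nat_lit 186)) (lf (nat_lit 29) (nat_lit 186)))) q2920 (by decide +kernel)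
def q2923 : Q := Q.p (nat_lit 0x20000070000020000000000000000000000000000000000000000000000) (nat_lit 0x40000080000040000000000000000000000000000000000000000000000) (nat_lit 2)
theorem c2923 : QOK q2923 := cut [] trivial (nd (nat_lit 211) (nat_lit 0) (cs (lf (nat_lit 5) (nat_lit 208)) (lf (nat_lit 22) (nat_lit 185)))) q2923 (by decide +kernel)
def q2928 : Q := Q.p (nat_lit 0x18000070000000000000000000000000000000000000000000000000000) (nat_lit 0x2000000c000000000000000000000000000000000000000000000000000) (nat_lit 2)
theorem c2928 : QOK q2928 := cut [] trivial (nd (nat_lit 207) (nat_lit 0) (cs (lf (nat_lit 5) (nat_lit 207)) (lf (nat_lit 0) (nat_lit 206)))) q2928 (by decide +kernel)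
def q2937 : Q := Q.p (nat_lit 0x800003c000000000000000000000000000000000000000000000000000) (nat_lit 0x5c00002000000000000000000000000000000000000000000000000000) (nat_lit 3)
theorem c2937 : QOK q2937 := cut [] trivial (nd (nat_lit 227) (nat_lit 0) (cs (lf (nat_lit 10) (nat_lit 205)) (nd (nat_lit 205) (nat_lit 0) (cs (lf (nat_lit 11) (nat_lit 204)) (lf (nat_lit 4) (nat_lit 205)))))) q2937 (by decide +kernel)
def q2952 : Q := Q.p (nat_lit 0xc000038000000000000000000000000000000000000000000000000000) (nat_lit 0x10000006000000000000000000000000000000000000000000000000000) (nat_lit 2)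
theorem c2952 : QOK q2952 := cut [] trivial (nd (nat_lit 206) (nat_lit 0) (cs (lf (nat_lit 5) (nat_lit 206)) (lf (nat_lit 0) (nat_lit 205)))) q2952 (by decide +kernel)
def q2961 : Q := Q.p (nat_lit 0x2000008000060000000000000000000000000000000000000000000000000000) (nat_lit 0x800000000010000000000180000400000000000000000000000000000000000000000) (nat_lit 3)
theorem c2961 : QOK q2961 := cut [] trivial (nd (nat_lit 188) (nat_lit 0) (cs (lf (nat_lit 30) (nat_lit 187)) (nd (nat_lit 166) (nat_lit 0) (cs (lf (nat_lit 39) (nat_lit 165)) (lf (nat_lit 33) (nat_lit 165)))))) q2961 (by decide +kernel)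
def q2964 : Q := Q.p (nat_lit 0x2000008000070000000000000000000000000000000000000000000000000000) (nat_lit 0x800000000000000008000780000400000000000000000000000000000000000000000) (nat_lit 4)
theorem c2964 : QOK q2964 := cut [] trivial (nd (nat_lit 188) (nat_lit 0) (cs (lf (nat_lit 30) (nat_lit 187)) (nd (nat_lit 189) (nat_lit 0) (cs (lf (nat_lit 12) (nat_lit 185)) (nd (nat_lit 187) (nat_lit 0) (cs (lf (nat_lit 6) (nat_lit 186)) (lf (nat_lit 35) (nat_lit 165)))))))) q2964 (by decide +kernel)
def q2969 : Q := Q.p (nat_lit 0x300001e0000000000000000000000000000000000000000000000) (nat_lit 0x180000e0000000000000000000000000000000000000000) (nat_lit 3)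
theorem c2969 : QOK q2969 := cut [] trivial (nd (nat_lit 162) (nat_lit 0) (cs (lf (nat_lit 22) (nat_lit 162)) (nd (nat_lit 184) (nat_lit 0) (cs (lf (nat_lit 0) (nat_lit 183)) (lf (nat_lit 23) (nat_lit 161)))))) q2969 (by decide +kernel)
def q2992 : Q := Q.p (nat_lit 0x1000000000018000060000000000000000000000000000000000000000000000) (nat_lit 0x400000000004000000000000000080000000000000000000000000000000000000000) (nat_lit 2)
theorem c2992 : QOK q2992 := cut [] trivial (nd (nat_lit 230) (nat_lit 0) (cs (lf (nat_lit 47) (nat_lit 163)) (lf (nat_lit 42) (nat_lit 185)))) q2992 (by decide +kernel)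
def q2994 : Q := Q.p (nat_lit 0x800002000008000020000080000000000000000000000000000000000000000) (nat_lit 0x100000400001000000000000000000000000000000000000000000000000000000000) (nat_lit 2)
theorem c2994 : QOK q2994 := cut [] trivial (nd (nat_lit 250) (nat_lit 0) (cs (lf (nat_lit 41) (nat_lit 184)) (lf (nat_lit 40) (nat_lit 162)))) q2994 (by decide +kernel)
def q3005 : Q := Q.p (nat_lit 0x1a000018000060000000000000000000000000000000000000000000000) (nat_lit 0x300000c00004000000000000000000000000000000000000000000000000000000000) (nat_lit 3)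
theorem c3005 : QOK q3005 := cut [] trivial (nd (nat_lit 251) (nat_lit 0) (cs (lf (nat_lit 30) (nat_lit 185)) (nd (nat_lit 250) (nat_lit 0) (cs (lf (nat_lit 41) (nat_lit 184)) (lf (nat_lit 8) (nat_lit 228)))))) q3005 (by decide +kernel)
def q3026 : Q := Q.p (nat_lit 0x300000c00002000000000000000000000000000000000000) (nat_lit 0x40000000000000000000008000020000000000000000000000000) (nat_lit 2)
theorem c3026 : QOK q3026 := cut [] trivial (nd (nat_lit 123) (nat_lit 0) (cs (lf (nat_lit 41) (nat_lit 122)) (lf (nat_lit 36) (nat_lit 100)))) q3026 (by decide +kernel)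
def q3036 : Q := Q.p (nat_lit 0x180000600001000000000000000000000000000000000000) (nat_lit 0x20000000000000000000004000010000000000000000000000000) (nat_lit 2)
theorem c3036 : QOK q3036 := cut [] trivial (nd (nat_lit 122) (nat_lit 0) (cs (lf (nat_lit 36) (nat_lit 99)) (lf (nat_lit 41) (nat_lit 121)))) q3036 (by decide +kernel)
def q3044 : Q := Q.p (nat_lit 0x4000010000040000700000000000000000000000000000000000000000) (nat_lit 0x20000880007200000000000000000000000000000000000) (nat_lit 4)
theorem c3044 : QOK q3044 := cut [] trivial (nd (nat_lit 167) (nat_lit 0) (cs (lf (nat_lit 11) (nat_lit 163)) (nd (nat_lit 145) (nat_lit 0) (cs (lf (nat_lit 17) (nat_lit 142)) (nd (nat_lit 163) (nat_lit 0) (cs (lf (nat_lit 47) (nat_lit 141)) (lf (nat_lit 16) (nat_lit 141)))))))) q3044 (by decide +kernel)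
def q3047 : Q := Q.p (nat_lit 0x1f00000000000000000000000000000000000000000) (nat_lit 0xe00000000000000000000000000000000000000000000000) (nat_lit 2)
theorem c3047 : QOK q3047 := cut [] trivial (nd (nat_lit 190) (nat_lit 0) (cs (lf (nat_lit 5) (nat_lit 165)) (lf (nat_lit 4) (nat_lit 164)))) q3047 (by decide +kernel)
def q3065 : Q := Q.p (nat_lit 0x3000010000140000780001000000000000000000000000000000000000) (nat_lit 0x40000000006c0000b0000000000000004000000000000000000000000000000) (nat_lit 5)
theorem c3065 : QOK q3065 := cut [] trivial (nd (nat_lit 185) (nat_lit 0) (cs (lf (nat_lit 11) (nat_lit 162)) (nd (nat_lit 207) (nat_lit 0) (cs (lf (nat_lit 41) (nat_lit 162)) (nd (nat_lit 187) (nat_lit 0) (cs (lf (nat_lit 11) (nat_lit 184)) (nd (nat_lit 209) (nat_lit 0) (cs (lf (nat_lit 36) (nat_lit 121)) (lf (nat_lit 6) (nat_lit 206)))))))))) q3065 (by decide +kernel)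
def q3075 : Q := Q.p (nat_lit 0x7800000000000000000000000000000000000000000000000000000000) (nat_lit 0x380000400003800000000000000000000000000000000000000000000000000) (nat_lit 4)
theorem c3075 : QOK q3075 := cut [] trivial (nd (nat_lit 204) (nat_lit 0) (cs (nd (nat_lit 248) (nat_lit 0) (cs (nd (nat_lit 226) (nat_lit 0) (cs (lf (nat_lit 23) (nat_lit 203)) (lf (nat_lit 11) (nat_lit 225)))) (lf (nat_lit 10) (nat_lit 226)))) (lf (nat_lit 22) (nat_lit 204)))) q3075 (by decide +kernel)
def q3090 : Q := Q.p (nat_lit 0x7800002000000000780000000000000000000000000000000000000000) (nat_lit 0x4000010000070000000000c000338000020003000000000000000000000000000000000000) (nat_lit 8)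
theorem c3090 : QOK q3090 := cut [] trivial (nd (nat_lit 248) (nat_lit 0) (cs (lf (nat_lit 10) (nat_lit 226)) (nd (nat_lit 144) (nat_lit 0) (cs (lf (nat_lit 17) (nat_lit 141)) (nd (nat_lit 188) (nat_lit 0) (cs (lf (nat_lit 5) (nat_lit 163)) (nd (nat_lit 185) (nat_lit 0) (cs (lf (nat_lit 11) (nat_lit 162)) (nd (nat_lit 250) (nat_lit 0) (cs (nd (nat_lit 183) (nat_lit 0) (cs (nd (nat_lit 272) (nat_lit 0) (cs (lf (nat_lit 45) (nat_lit 183)) (lf (nat_lit 42) (nat_lit 205)))) (lf (nat_lit 24) (nat_lit 161)))) (lf (nat_lit 38) (nat_lit 162)))))))))))) q3090 (by decide +kernel)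
def q3095 : Q := Q.p (nat_lit 0x7800010000000000000000000000000000000000000000000000000000) (nat_lit 0x380000400008000000000000000000000000000000000000000000000000000) (nat_lit 3)
theorem c3095 : QOK q3095 := cut [] trivial (nd (nat_lit 248) (nat_lit 0) (cs (lf (nat_lit 10) (nat_lit 226)) (nd (nat_lit 226) (nat_lit 0) (cs (lf (nat_lit 11) (nat_lit 225)) (lf (nat_lit 16) (nat_lit 204)))))) q3095 (by decide +kernel)
def q3119 : Q := Q.p (nat_lit 0x200000000003c000040000000000000000000000000000000000000000000000) (nat_lit 0x800000000018000000000000000000000000000000000000000000000000000000000) (nat_lit 2)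
theorem c3119 : QOK q3119 := cut [] trivial (nd (nat_lit 231) (nat_lit 0) (cs (lf (nat_lit 42) (nat_lit 186)) (lf (nat_lit 5) (nat_lit 206)))) q3119 (by decide +kernel)
def q3128 : Q := Q.p (nat_lit 0x18000060000080000400000000000000000000000000000000000) (nat_lit 0x200001800000000000000000000000000000) (nat_lit 2)
theorem c3128 : QOK q3128 := cut [] trivial (nd (nat_lit 141) (nat_lit 0) (cs (lf (nat_lit 24) (nat_lit 119)) (lf (nat_lit 35) (nat_lit 119)))) q3128 (by decide +kernel)
def q3130 : Q := Q.p (nat_lit 0x700000c0000000000000000000000000000000000000000) (nat_lit 0x80000030000000000000000000000000000000000000000) (nat_lit 2)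
theorem c3130 : QOK q3130 := cut [] trivial (nd (nat_lit 161) (nat_lit 0) (cs (lf (nat_lit 18) (nat_lit 161)) (lf (nat_lit 0) (nat_lit 160)))) q3130 (by decide +kernel)
def q3140 : Q := Q.p (nat_lit 0x2000008000068000180000000000000000000000000000000000000000) (nat_lit 0x4000070000100000000000000000000000000000000000) (nat_lit 3)
theorem c3140 : QOK q3140 := cut [] trivial (nd (nat_lit 162) (nat_lit 0) (cs (lf (nat_lit 47) (nat_lit 140)) (nd (nat_lit 161) (nat_lit 0) (cs (lf (nat_lit 11) (nat_lit 160)) (lf (nat_lit 0) (nat_lit 160)))))) q3140 (by decide +kernel)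
def q3148 : Q := Q.p (nat_lit 0x1c0000300000000000000000000000000000000000) (nat_lit 0x2000000c0000000000000000000000000000000000) (nat_lit 2)
theorem c3148 : QOK q3148 := cut [] trivial (nd (nat_lit 139) (nat_lit 0) (cs (lf (nat_lit 18) (nat_lit 139)) (lf (nat_lit 0) (nat_lit 138)))) q3148 (by decide +kernel)
def q3158 : Q := Q.p (nat_lit 0x8000038000060000080000000000000000000000000000000000000000) (nat_lit 0x100000600001800000000000000000000000000000) (nat_lit 3)
theorem c3158 : QOK q3158 := cut [] trivial (nd (nat_lit 141) (nat_lit 0) (cs (lf (nat_lit 24) (nat_lit 119)) (nd (nat_lit 142) (nat_lit 0) (cs (lf (nat_lit 25) (nat_lit 142)) (lf (nat_lit 35) (nat_lit 119)))))) q3158 (by decide +kernel)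
def q3163 : Q := Q.p (nat_lit 0x18000060000080000400000000000000000000000000000000000000000) (nat_lit 0x200001800000000000000000000000000000000000) (nat_lit 2)
theorem c3163 : QOK q3163 := cut [] trivial (nd (nat_lit 165) (nat_lit 0) (cs (lf (nat_lit 35) (nat_lit 143)) (lf (nat_lit 24) (nat_lit 143)))) q3163 (by decide +kernel)
def q3175 : Q := Q.p (nat_lit 0x18000070000000000000000000000000000000000000000000000) (nat_lit 0x2000000c000000000000000000000000000000000000000000000) (nat_lit 2)
theorem c3175 : QOK q3175 := cut [] trivial (nd (nat_lit 183) (nat_lit 0) (cs (lf (nat_lit 0) (nat_lit 182)) (lf (nat_lit 5) (nat_lit 183)))) q3175 (by decide +kernel)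
def q3184 : Q := Q.p (nat_lit 0x3c00000000008000020000000000000000000000000000000000000000000000) (nat_lit 0x180000000002000000000000000000000000000000000000000000000000000000000) (nat_lit 2)
theorem c3184 : QOK q3184 := cut [] trivial (nd (nat_lit 272) (nat_lit 0) (cs (lf (nat_lit 11) (nat_lit 249)) (lf (nat_lit 38) (nat_lit 184)))) q3184 (by decide +kernel)
def q3187 : Q := Q.p (nat_lit 0x3c00004000000000000000000000000000000000000000000000000000000000) (nat_lit 0x200018000000000000000000000000000000000000000000000000000000000) (nat_lit 2)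
theorem c3187 : QOK q3187 := cut [] trivial (nd (nat_lit 231) (nat_lit 0) (cs (lf (nat_lit 17) (nat_lit 228)) (lf (nat_lit 12) (nat_lit 227)))) q3187 (by decide +kernel)
def q3196 : Q := Q.p (nat_lit 0xc0000380000000000000000000000000000000000000000) (nat_lit 0x100000060000000000000000000000000000000000000000) (nat_lit 2)
theorem c3196 : QOK q3196 := cut [] trivial (nd (nat_lit 162) (nat_lit 0) (cs (lf (nat_lit 5) (nat_lit 162)) (lf (nat_lit 0) (nat_lit 161)))) q3196 (by decide +kernel)
def q3210 : Q := Q.p (nat_lit 0x1e000004000000000000000000000000000000000000000000000) (nat_lit 0xe00001000002000000000000000000000000000000000000000000000) (nat_lit 3)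
theorem c3210 : QOK q3210 := cut [] trivial (nd (nat_lit 226) (nat_lit 0) (cs (lf (nat_lit 10) (nat_lit 204)) (nd (nat_lit 204) (nat_lit 0) (cs (lf (nat_lit 23) (nat_lit 181)) (lf (nat_lit 11) (nat_lit 203)))))) q3210 (by decide +kernel)
def q3222 : Q := Q.p (nat_lit 0x800006000010000040000000000000000000000000000000000000000) (nat_lit 0x80000200001000000000000000000000000000000000000000000000000000000000) (nat_lit 2)
theorem c3222 : QOK q3222 := cut [] trivial (nd (nat_lit 249) (nat_lit 0) (cs (lf (nat_lit 39) (nat_lit 161)) (lf (nat_lit 30) (nat_lit 183)))) q3222 (by decide +kernel)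
def q3227 : Q := Q.p (nat_lit 0x800006000008000020000000000000000000000000000000000000000) (nat_lit 0x400001000000000000000000000080000000000000000000000000000000000) (nat_lit 2)
theorem c3227 : QOK q3227 := cut [] trivial (nd (nat_lit 228) (nat_lit 0) (cs (lf (nat_lit 29) (nat_lit 161)) (lf (nat_lit 24) (nat_lit 139)))) q3227 (by decide +kernel)
def q3252 : Q := Q.p (nat_lit 0x80001e000000000040000000000000000000000000000000000000000) (nat_lit 0x20000000000000001c000000000100000000000000000000000000000000000) (nat_lit 3)
theorem c3252 : QOK q3252 := cut [] trivial (nd (nat_lit 183) (nat_lit 0) (cs (lf (nat_lit 23) (nat_lit 182)) (nd (nat_lit 184) (nat_lit 0) (cs (lf (nat_lit 36) (nat_lit 139)) (lf (nat_lit 30) (nat_lit 161)))))) q3252 (by decide +kernel)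
def q3262 : Q := Q.p (nat_lit 0x400000d00002000008000000000000000000000000000000000000000000000000000000000) (nat_lit 0x100000200000200000000000000000000000000000000000000000000000000000000000000000000) (nat_lit 2)
theorem c3262 : QOK q3262 := cut [] trivial (nd (nat_lit 297) (nat_lit 0) (cs (lf (nat_lit 29) (nat_lit 231)) (lf (nat_lit 1) (nat_lit 272)))) q3262 (by decide +kernel)
def q3279 : Q := Q.p (nat_lit 0x800006000018000000000000000000000000000000000000000000000) (nat_lit 0x200000000000000000000040000100000000000000000000000000000000000) (nat_lit 2)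
theorem c3279 : QOK q3279 := cut [] trivial (nd (nat_lit 162) (nat_lit 0) (cs (lf (nat_lit 36) (nat_lit 139)) (lf (nat_lit 30) (nat_lit 161)))) q3279 (by decide +kernel)
def q3286 : Q := Q.p (nat_lit 0x3c000000000000000000000000000000000000000000000000000) (nat_lit 0x38000040000038000000000000000000000000000000000000000000000) (nat_lit 4)
theorem c3286 : QOK q3286 := cut [] trivial (nd (nat_lit 232) (nat_lit 0) (cs (nd (nat_lit 184) (nat_lit 0) (cs (lf (nat_lit 23) (nat_lit 183)) (nd (nat_lit 210) (nat_lit 0) (cs (lf (nat_lit 5) (nat_lit 207)) (lf (nat_lit 22) (nat_lit 184)))))) (lf (nat_lit 4) (nat_lit 206)))) q3286 (by decide +kernel)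
def q3293 : Q := Q.p (nat_lit 0x80001c000000000000000000000000000000000000000000000000000) (nat_lit 0x3600002000000000000000000000000000000000000000000000000000) (nat_lit 3)
theorem c3293 : QOK q3293 := cut [] trivial (nd (nat_lit 226) (nat_lit 0) (cs (nd (nat_lit 228) (nat_lit 0) (cs (lf (nat_lit 15) (nat_lit 204)) (lf (nat_lit 12) (nat_lit 203)))) (lf (nat_lit 9) (nat_lit 204)))) q3293 (by decide +kernel)
def q3307 : Q := Q.p (nat_lit 0x1e000000000000000000000000000000000000000000000000000) (nat_lit 0x70000180007e000000000000000000000000000000000000000000000) (nat_lit 6)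
theorem c3307 : QOK q3307 := cut [] trivial (nd (nat_lit 182) (nat_lit 0) (cs (lf (nat_lit 22) (nat_lit 182)) (nd (nat_lit 204) (nat_lit 0) (cs (lf (nat_lit 23) (nat_lit 181)) (nd (nat_lit 225) (nat_lit 0) (cs (nd (nat_lit 203) (nat_lit 0) (cs (nd (nat_lit 185) (nat_lit 0) (cs (lf (nat_lit 16) (nat_lit 181)) (lf (nat_lit 17) (nat_lit 182)))) (lf (nat_lit 11) (nat_lit 202)))) (lf (nat_lit 10) (nat_lit 203)))))))) q3307 (by decide +kernel)
def q3308 : Q := Q.p (nat_lit 0x1c000030000000000000000000000000000000000000000000000) (nat_lit 0x60000008000000000000000000000000000000000000000000000) (nat_lit 2)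
theorem c3308 : QOK q3308 := cut [] trivial (nd (nat_lit 209) (nat_lit 0) (cs (lf (nat_lit 23) (nat_lit 183)) (lf (nat_lit 18) (nat_lit 184)))) q3308 (by decide +kernel)
def q3320 : Q := Q.p (nat_lit 0x300000c000010000000000000000000000000000000000000000000000) (nat_lit 0x800000000000000000000040000100000000000000000000000000000000000) (nat_lit 2)
theorem c3320 : QOK q3320 := cut [] trivial (nd (nat_lit 162) (nat_lit 0) (cs (lf (nat_lit 29) (nat_lit 162)) (lf (nat_lit 24) (nat_lit 140)))) q3320 (by decide +kernel)
def q3337 : Q := Q.p (nat_lit 0xf800000000000000000000000000000000000000000000000000) (nat_lit 0x7000000000000000000000000000000000000000000000000000000000) (nat_lit 2)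
theorem c3337 : QOK q3337 := cut [] trivial (nd (nat_lit 229) (nat_lit 0) (cs (lf (nat_lit 4) (nat_lit 203)) (lf (nat_lit 5) (nat_lit 204)))) q3337 (by decide +kernel)
def q3343 : Q := Q.p (nat_lit 0x300001c000000000000000000000000000000000000000000000000000) (nat_lit 0x800060000000000000000000000000000000000000000000000000000) (nat_lit 2)
theorem c3343 : QOK q3343 := cut [] trivial (nd (nat_lit 209) (nat_lit 0) (cs (lf (nat_lit 11) (nat_lit 205)) (lf (nat_lit 6) (nat_lit 206)))) q3343 (by decide +kernel)
def q3356 : Q := Q.p (nat_lit 0x80000300001c000000000000000000000000000000000000000000000000000) (nat_lit 0x60000018000040000000000000000000000000000000000000000) (nat_lit 3)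
theorem c3356 : QOK q3356 := cut [] trivial (nd (nat_lit 209) (nat_lit 0) (cs (lf (nat_lit 6) (nat_lit 206)) (nd (nat_lit 184) (nat_lit 0) (cs (lf (nat_lit 23) (nat_lit 183)) (lf (nat_lit 24) (nat_lit 162)))))) q3356 (by decide +kernel)
def q3368 : Q := Q.p (nat_lit 0xc00001c000000000000000000000000000000000000000000000000000) (nat_lit 0x32000000000000000000000000000000000000000000000000000000000) (nat_lit 2)
theorem c3368 : QOK q3368 := cut [] trivial (nd (nat_lit 232) (nat_lit 0) (cs (lf (nat_lit 18) (nat_lit 207)) (lf (nat_lit 21) (nat_lit 206)))) q3368 (by decide +kernel)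
def q3383 : Q := Q.p (nat_lit 0x400001000004000010000040000000000000000000000000000000000000000) (nat_lit 0x20000080000200000000000000000000000000000000000) (nat_lit 2)
theorem c3383 : QOK q3383 := cut [] trivial (nd (nat_lit 163) (nat_lit 0) (cs (lf (nat_lit 35) (nat_lit 140)) (lf (nat_lit 34) (nat_lit 162)))) q3383 (by decide +kernel)
def q3390 : Q := Q.p (nat_lit 0x2c00001000018000000000000000000000000000000000000000000000000000) (nat_lit 0x1000002e00000000000000000000000000000000000000000000000000000000) (nat_lit 3)
theorem c3390 : QOK q3390 := cut [] trivial (nd (nat_lit 227) (nat_lit 0) (cs (nd (nat_lit 226) (nat_lit 0) (cs (lf (nat_lit 15) (nat_lit 204)) (lf (nat_lit 0) (nat_lit 225)))) (lf (nat_lit 19) (nat_lit 227)))) q3390 (by decide +kernel)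
def q3391 : Q := Q.p (nat_lit 0x40000100000c000020000000000000000000000000000000000000000000000) (nat_lit 0x10000080000200000000000000000000000000000000000) (nat_lit 2)
theorem c3391 : QOK q3391 := cut [] trivial (nd (nat_lit 163) (nat_lit 0) (cs (lf (nat_lit 33) (nat_lit 162)) (lf (nat_lit 36) (nat_lit 140)))) q3391 (by decide +kernel)
def q3408 : Q := Q.p (nat_lit 0x7c000000000000000000000000000000000000000000000000000) (nat_lit 0x38000000000000000000000000000000000000000000000000000000000) (nat_lit 2)
theorem c3408 : QOK q3408 := cut [] trivial (nd (nat_lit 232) (nat_lit 0) (cs (lf (nat_lit 5) (nat_lit 207)) (lf (nat_lit 4) (nat_lit 206)))) q3408 (by decide +kernel)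
def q3424 : Q := Q.p (nat_lit 0x400001000006000008000000000000000000000000000000000000000000000) (nat_lit 0x10000020000080000000000000000000000000000000000) (nat_lit 2)
theorem c3424 : QOK q3424 := cut [] trivial (nd (nat_lit 161) (nat_lit 0) (cs (lf (nat_lit 24) (nat_lit 139)) (lf (nat_lit 45) (nat_lit 161)))) q3424 (by decide +kernel)
def q3427 : Q := Q.p (nat_lit 0x200000800006000008000000000000000000000000000000000000000000000) (nat_lit 0x80000000000000000000010000040000000000000000000000000000000000000000) (nat_lit 2)
theorem c3427 : QOK q3427 := cut [] trivial (nd (nat_lit 184) (nat_lit 0) (cs (lf (nat_lit 30) (nat_lit 183)) (lf (nat_lit 35) (nat_lit 161)))) q3427 (by decide +kernel)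
def q3431 : Q := Q.p (nat_lit 0x800002000008000020000080000000000000000000000000000000000) (nat_lit 0x10000040000100000000000000000000000000000) (nat_lit 2)
theorem c3431 : QOK q3431 := cut [] trivial (nd (nat_lit 138) (nat_lit 0) (cs (lf (nat_lit 47) (nat_lit 116)) (lf (nat_lit 46) (nat_lit 138)))) q3431 (by decide +kernel)
def q3476 : Q := Q.p (nat_lit 0x400003000004000008000000000000000000000000000000000000000000000000000) (nat_lit 0x200000c000030000000000000000a000000000000000000000000000000000000000000000000000000000) (nat_lit 4)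
theorem c3476 : QOK q3476 := cut [] trivial (nd (nat_lit 296) (nat_lit 0) (cs (nd (nat_lit 319) (nat_lit 0) (cs (nd (nat_lit 318) (nat_lit 0) (cs (lf (nat_lit 29) (nat_lit 252)) (lf (nat_lit 35) (nat_lit 230)))) (lf (nat_lit 28) (nat_lit 230)))) (lf (nat_lit 46) (nat_lit 207)))) q3476 (by decide +kernel)
def q3484 : Q := Q.p (nat_lit 0x600000e0000000000000000000000000000000000000000) (nat_lit 0x190000000000000000000000000000000000000000000000) (nat_lit 2)
theorem c3484 : QOK q3484 := cut [] trivial (nd (nat_lit 187) (nat_lit 0) (cs (lf (nat_lit 18) (nat_lit 162)) (lf (nat_lit 21) (nat_lit 161)))) q3484 (by decide +kernel)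
def q3493 : Q := Q.p (nat_lit 0x2000008000060000180000000000000000000000000000000000000000) (nat_lit 0x80000070000100000000000000000000000000000000000) (nat_lit 3)
theorem c3493 : QOK q3493 := cut [] trivial (nd (nat_lit 162) (nat_lit 0) (cs (lf (nat_lit 47) (nat_lit 140)) (nd (nat_lit 161) (nat_lit 0) (cs (lf (nat_lit 5) (nat_lit 161)) (lf (nat_lit 0) (nat_lit 160)))))) q3493 (by decide +kernel)
def q3504 : Q := Q.p (nat_lit 0x200000800006000010000000000000000000000000000000000000000000000) (nat_lit 0x1000000000000000040000100000000000000000000000000000000000) (nat_lit 2)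
theorem c3504 : QOK q3504 := cut [] trivial (nd (nat_lit 162) (nat_lit 0) (cs (lf (nat_lit 39) (nat_lit 161)) (lf (nat_lit 36) (nat_lit 139)))) q3504 (by decide +kernel)
def q3521 : Q := Q.p (nat_lit 0x8000030000040000000000000000000000000000000000000000) (nat_lit 0x800002000000000000000080000100000400000000000000000000000000000) (nat_lit 3)
theorem c3521 : QOK q3521 := cut [] trivial (nd (nat_lit 140) (nat_lit 0) (cs (lf (nat_lit 24) (nat_lit 118)) (nd (nat_lit 229) (nat_lit 0) (cs (lf (nat_lit 42) (nat_lit 162)) (lf (nat_lit 45) (nat_lit 140)))))) q3521 (by decide +kernel)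
def q3528 : Q := Q.p (nat_lit 0x2400001800004000010000000000000000000000000000000000000000000000) (nat_lit 0x200001800000000000000000000000000000000000000000000000000000000000000) (nat_lit 2)
theorem c3528 : QOK q3528 := cut [] trivial (nd (nat_lit 251) (nat_lit 0) (cs (lf (nat_lit 29) (nat_lit 184)) (lf (nat_lit 19) (nat_lit 227)))) q3528 (by decide +kernel)
def q3538 : Q := Q.p (nat_lit 0x8000030000040000100000000000000000000000000000000000) (nat_lit 0x800002000004000000000000000000000000000000000000000000000000000) (nat_lit 2)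
theorem c3538 : QOK q3538 := cut [] trivial (nd (nat_lit 229) (nat_lit 0) (cs (lf (nat_lit 42) (nat_lit 162)) (lf (nat_lit 27) (nat_lit 140)))) q3538 (by decide +kernel)
def q3551 : Q := Q.p (nat_lit 0xc000030000060000180000000000000000000000000000000000) (nat_lit 0x80000e00003800000000000000000000000000000) (nat_lit 4)
theorem c3551 : QOK q3551 := cut [] trivial (nd (nat_lit 141) (nat_lit 0) (cs (lf (nat_lit 35) (nat_lit 118)) (nd (nat_lit 142) (nat_lit 0) (cs (lf (nat_lit 6) (nat_lit 139)) (nd (nat_lit 120) (nat_lit 0) (cs (lf (nat_lit 17) (nat_lit 117)) (lf (nat_lit 32) (nat_lit 119)))))))) q3551 (by decide +kernel)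
def q3563 : Q := Q.p (nat_lit 0x4000078000000000000000000000000000000000000000000000) (nat_lit 0x400001000000000000000070000080000200000000000000000000000000000) (nat_lit 4)
theorem c3563 : QOK q3563 := cut [] trivial (nd (nat_lit 161) (nat_lit 0) (cs (lf (nat_lit 23) (nat_lit 160)) (nd (nat_lit 139) (nat_lit 0) (cs (lf (nat_lit 24) (nat_lit 117)) (nd (nat_lit 228) (nat_lit 0) (cs (lf (nat_lit 42) (nat_lit 161)) (lf (nat_lit 45) (nat_lit 139)))))))) q3563 (by decide +kernel)
def q3578 : Q := Q.p (nat_lit 0x2000018000060000000000000000000000000000000000000000) (nat_lit 0x800000000000000000000100000400000000000000000000000000000) (nat_lit 2)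
theorem c3578 : QOK q3578 := cut [] trivial (nd (nat_lit 140) (nat_lit 0) (cs (lf (nat_lit 36) (nat_lit 117)) (lf (nat_lit 30) (nat_lit 139)))) q3578 (by decide +kernel)
def q3606 : Q := Q.p (nat_lit 0x1c000070000000000000000000000000000000000000000000000) (nat_lit 0x300000c000370000f80003e00000000000000000000000000000) (nat_lit 10)
theorem c3606 : QOK q3606 := cut [] trivial (nd (nat_lit 183) (nat_lit 0) (cs (lf (nat_lit 0) (nat_lit 182)) (nd (nat_lit 204) (nat_lit 0) (cs (nd (nat_lit 161) (nat_lit 0) (cs (lf (nat_lit 23) (nat_lit 160)) (nd (nat_lit 164) (nat_lit 0) (cs (lf (nat_lit 17) (nat_lit 161)) (nd (nat_lit 142) (nat_lit 0) (cs (lf (nat_lit 36) (nat_lit 119)) (nd (nat_lit 117) (nat_lit 0) (cs (nd (nat_lit 141) (nat_lit 0) (cs (lf (nat_lit 47) (nat_lit 119)) (nd (nat_lit 143) (nat_lit 0) (cs (lf (nat_lit 35) (nat_lit 120)) (nd (nat_lit 140) (nat_lit 0) (cs (lf (nat_lit 10) (nat_lit 139)) (lf (nat_lit 22) (nat_lit 117)))))))) (lf (nat_lit 25) (nat_lit 117)))))))))) (lf (nat_lit 13) (nat_lit 182)))))) q3606 (by decide +kernel)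
def q3621 : Q := Q.p (nat_lit 0x700000600000000000000000000000000000000000) (nat_lit 0x80000180000000000000000000000000000000000) (nat_lit 2)
theorem c3621 : QOK q3621 := cut [] trivial (nd (nat_lit 140) (nat_lit 0) (cs (lf (nat_lit 0) (nat_lit 139)) (lf (nat_lit 21) (nat_lit 140)))) q3621 (by decide +kernel)
def q3639 : Q := Q.p (nat_lit 0x80000200000800002000008000000000000000000000000000000000000000000000) (nat_lit 0x10000040000100000000000000000000000000000000000000000000000000000000000000) (nat_lit 2)
theorem c3639 : QOK q3639 := cut [] trivial (nd (nat_lit 270) (nat_lit 0) (cs (lf (nat_lit 41) (nat_lit 204)) (lf (nat_lit 40) (nat_lit 182)))) q3639 (by decide +kernel)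
def q3650 : Q := Q.p (nat_lit 0x200000800002000008000000000000000000000000000000000000000000000) (nat_lit 0x40000180000400000000001000004000010000000000000000000000000000000000000000) (nat_lit 4)
theorem c3650 : QOK q3650 := cut [] trivial (nd (nat_lit 182) (nat_lit 0) (cs (lf (nat_lit 47) (nat_lit 160)) (nd (nat_lit 272) (nat_lit 0) (cs (nd (nat_lit 271) (nat_lit 0) (cs (lf (nat_lit 46) (nat_lit 182)) (lf (nat_lit 29) (nat_lit 205)))) (lf (nat_lit 28) (nat_lit 183)))))) q3650 (by decide +kernel)
def q3654 : Q := Q.p (nat_lit 0x100000800002000008000010000000000000000000000000000000000000000) (nat_lit 0x400000000000000020000040000000000000000000000000000000000) (nat_lit 2)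
theorem c3654 : QOK q3654 := cut [] trivial (nd (nat_lit 161) (nat_lit 0) (cs (lf (nat_lit 40) (nat_lit 160)) (lf (nat_lit 47) (nat_lit 138)))) q3654 (by decide +kernel)
def q3662 : Q := Q.p (nat_lit 0x80000300000c00000000000000000000000000000000000000000000000000000000) (nat_lit 0x8000020000000000000000000001000000000000000000000000000000000000000000000000000) (nat_lit 2)
theorem c3662 : QOK q3662 := cut [] trivial (nd (nat_lit 293) (nat_lit 0) (cs (lf (nat_lit 42) (nat_lit 226)) (lf (nat_lit 47) (nat_lit 204)))) q3662 (by decide +kernel)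
def q3674 : Q := Q.p (nat_lit 0x1a000048000000000000000000000000000000000000000000000) (nat_lit 0x4000084000000000000000000000000000000000000000000000) (nat_lit 2)
theorem c3674 : QOK q3674 := cut [] trivial (nd (nat_lit 206) (nat_lit 0) (cs (lf (nat_lit 23) (nat_lit 182)) (lf (nat_lit 17) (nat_lit 183)))) q3674 (by decide +kernel)
def q3687 : Q := Q.p (nat_lit 0x300001c000010000040000000000000000000000000000000000000000) (nat_lit 0x200000c00000000000000000000000000000000000000000000000000000000) (nat_lit 2)
theorem c3687 : QOK q3687 := cut [] trivial (nd (nat_lit 227) (nat_lit 0) (cs (lf (nat_lit 12) (nat_lit 204)) (lf (nat_lit 41) (nat_lit 161)))) q3687 (by decide +kernel)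
def q3701 : Q := Q.p (nat_lit 0x300001c0000000000000000000000000000000000000000) (nat_lit 0x8000600000000000000000000000000000000000000000) (nat_lit 2)
theorem c3701 : QOK q3701 := cut [] trivial (nd (nat_lit 165) (nat_lit 0) (cs (lf (nat_lit 11) (nat_lit 161)) (lf (nat_lit 6) (nat_lit 162)))) q3701 (by decide +kernel)
def q3721 : Q := Q.p (nat_lit 0x600003c0000000000000000000000000000000000000000) (nat_lit 0xc00003800000000000000000000000000000000000) (nat_lit 3)
theorem c3721 : QOK q3721 := cut [] trivial (nd (nat_lit 144) (nat_lit 0) (cs (nd (nat_lit 166) (nat_lit 0) (cs (lf (nat_lit 6) (nat_lit 163)) (lf (nat_lit 17) (nat_lit 141)))) (lf (nat_lit 16) (nat_lit 140)))) q3721 (by decide +kernel)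
def q3733 : Q := Q.p (nat_lit 0x70000060000000000000000000000000000000000000000) (nat_lit 0x98000000000000000000000000000000000000000) (nat_lit 2)
theorem c3733 : QOK q3733 := cut [] trivial (nd (nat_lit 160) (nat_lit 0) (cs (lf (nat_lit 0) (nat_lit 159)) (lf (nat_lit 3) (nat_lit 160)))) q3733 (by decide +kernel)
def q3738 : Q := Q.p (nat_lit 0xe00000c0000000000000000000000000000000000000000) (nat_lit 0x130000000000000000000000000000000000000000) (nat_lit 2)
theorem c3738 : QOK q3738 := cut [] trivial (nd (nat_lit 161) (nat_lit 0) (cs (lf (nat_lit 0) (nat_lit 160)) (lf (nat_lit 3) (nat_lit 161)))) q3738 (by decide +kernel)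
def q3742 : Q := Q.p (nat_lit 0x80000200000c0000100000000000000000000000000000000000) (nat_lit 0x10000000000000000400001000000000000000000000000) (nat_lit 2)
theorem c3742 : QOK q3742 := cut [] trivial (nd (nat_lit 118) (nat_lit 0) (cs (lf (nat_lit 24) (nat_lit 96)) (lf (nat_lit 27) (nat_lit 118)))) q3742 (by decide +kernel)
def q3745 : Q := Q.p (nat_lit 0x1c000060000000000000000000000000000000000000000000000) (nat_lit 0x2000180000000000000000000000000000000000000000000000) (nat_lit 2)
theorem c3745 : QOK q3745 := cut [] trivial (nd (nat_lit 187) (nat_lit 0) (cs (lf (nat_lit 12) (nat_lit 183)) (lf (nat_lit 6) (nat_lit 184)))) q3745 (by decide +kernel)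
def q3749 : Q := Q.p (nat_lit 0x2000018000060000000000000000000000000000000000000000000000) (nat_lit 0x200000800000000000000000000100000000000000000000000000000000000000000) (nat_lit 2)
theorem c3749 : QOK q3749 := cut [] trivial (nd (nat_lit 251) (nat_lit 0) (cs (lf (nat_lit 30) (nat_lit 185)) (lf (nat_lit 35) (nat_lit 163)))) q3749 (by decide +kernel)
def q3762 : Q := Q.p (nat_lit 0x3e00000000000000000000000000000000000000000000000000000000000000) (nat_lit 0x1c0000000000000000000000000000000000000000000000000000000000000000000) (nat_lit 2)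
theorem c3762 : QOK q3762 := cut [] trivial (nd (nat_lit 271) (nat_lit 0) (cs (lf (nat_lit 11) (nat_lit 248)) (lf (nat_lit 10) (nat_lit 249)))) q3762 (by decide +kernel)
def q3776 : Q := Q.p (nat_lit 0x3c00002000008000000000000000000000000000000000000000000000000000) (nat_lit 0x1c00000200000000000000020000000000000000000000000000000000000000000000) (nat_lit 3)
theorem c3776 : QOK q3776 := cut [] trivial (nd (nat_lit 275) (nat_lit 0) (cs (lf (nat_lit 5) (nat_lit 250)) (nd (nat_lit 274) (nat_lit 0) (cs (lf (nat_lit 0) (nat_lit 249)) (lf (nat_lit 24) (nat_lit 185)))))) q3776 (by decide +kernel)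
def q3778 : Q := Q.p (nat_lit 0x100000c00000000018000040000000000000000000000000000000000000000000000) (nat_lit 0x200000000002000000000020000000000000000000000000000000000000000000000) (nat_lit 2)
theorem c3778 : QOK q3778 := cut [] trivial (nd (nat_lit 229) (nat_lit 0) (cs (lf (nat_lit 30) (nat_lit 185)) (lf (nat_lit 36) (nat_lit 184)))) q3778 (by decide +kernel)
def q3781 : Q := Q.p (nat_lit 0x100003c00002000008000000000000000000000000000000000000000000000000000) (nat_lit 0x40000000000000001800000000000000000000000000000000000000000000000000000000) (nat_lit 2)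
theorem c3781 : QOK q3781 := cut [] trivial (nd (nat_lit 228) (nat_lit 0) (cs (lf (nat_lit 30) (nat_lit 206)) (lf (nat_lit 23) (nat_lit 227)))) q3781 (by decide +kernel)
def q3800 : Q := Q.p (nat_lit 0x2000000000010000040000180000000000000000000000000000000000000000) (nat_lit 0xc000000000000000000000200000000000000000000000000000000000) (nat_lit 2)
theorem c3800 : QOK q3800 := cut [] trivial (nd (nat_lit 230) (nat_lit 0) (cs (lf (nat_lit 28) (nat_lit 164)) (lf (nat_lit 47) (nat_lit 141)))) q3800 (by decide +kernel)
def q3817 : Q := Q.p (nat_lit 0x4000018000040000100000000000000000000000000000000000000000) (nat_lit 0x800002000000000000000000000400000000000000000000000000000000000) (nat_lit 2)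
theorem c3817 : QOK q3817 := cut [] trivial (nd (nat_lit 229) (nat_lit 0) (cs (lf (nat_lit 41) (nat_lit 163)) (lf (nat_lit 36) (nat_lit 141)))) q3817 (by decide +kernel)
def q3827 : Q := Q.p (nat_lit 0x1000038000010000000000000000000000000000000000000000000000) (nat_lit 0x2000040000020000000000000000000000000000000000000000000000) (nat_lit 2)
theorem c3827 : QOK q3827 := cut [] trivial (nd (nat_lit 210) (nat_lit 0) (cs (lf (nat_lit 10) (nat_lit 206)) (lf (nat_lit 22) (nat_lit 184)))) q3827 (by decide +kernel)
def q3842 : Q := Q.p (nat_lit 0x200001800004000010000000000000000000000000000000000000000000000) (nat_lit 0x20000080000400000000000000000000000000000000000000000000000000000000000000) (nat_lit 2)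
theorem c3842 : QOK q3842 := cut [] trivial (nd (nat_lit 271) (nat_lit 0) (cs (lf (nat_lit 39) (nat_lit 183)) (lf (nat_lit 30) (nat_lit 205)))) q3842 (by decide +kernel)
def q3858 : Q := Q.p (nat_lit 0x180001c000000000000000000000000000000000000000000000000000) (nat_lit 0x2600000000000000000000000000000000000000000000000000000000) (nat_lit 2)
theorem c3858 : QOK q3858 := cut [] trivial (nd (nat_lit 226) (nat_lit 0) (cs (lf (nat_lit 15) (nat_lit 204)) (lf (nat_lit 12) (nat_lit 203)))) q3858 (by decide +kernel)
def q3869 : Q := Q.p (nat_lit 0x40000100000c0000200000000000000000000000000000000000) (nat_lit 0x20000000000000000800002000000000000000000000000) (nat_lit 2)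
theorem c3869 : QOK q3869 := cut [] trivial (nd (nat_lit 119) (nat_lit 0) (cs (lf (nat_lit 36) (nat_lit 96)) (lf (nat_lit 39) (nat_lit 118)))) q3869 (by decide +kernel)
def q3892 : Q := Q.p (nat_lit 0x6000018000020000100000000000000000000000000000000000) (nat_lit 0x80000600000000000000000000000000000) (nat_lit 2)
theorem c3892 : QOK q3892 := cut [] trivial (nd (nat_lit 139) (nat_lit 0) (cs (lf (nat_lit 24) (nat_lit 117)) (lf (nat_lit 35) (nat_lit 117)))) q3892 (by decide +kernel)
def q3899 : Q := Q.p (nat_lit 0x80000200000c000010000000000000000000000000000000000000000000000) (nat_lit 0x1000000000000000040000100000000000000000000000000000000000) (nat_lit 2)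
theorem c3899 : QOK q3899 := cut [] trivial (nd (nat_lit 162) (nat_lit 0) (cs (lf (nat_lit 27) (nat_lit 162)) (lf (nat_lit 24) (nat_lit 140)))) q3899 (by decide +kernel)
def q3906 : Q := Q.p (nat_lit 0x1c000040000000000000000000000000000000000000000000000) (nat_lit 0x220001a0000000000000000000000000000000000000000000000) (nat_lit 3)
theorem c3906 : QOK q3906 := cut [] trivial (nd (nat_lit 187) (nat_lit 0) (cs (lf (nat_lit 12) (nat_lit 183)) (nd (nat_lit 188) (nat_lit 0) (cs (lf (nat_lit 9) (nat_lit 184)) (lf (nat_lit 15) (nat_lit 184)))))) q3906 (by decide +kernel)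
def q3913 : Q := Q.p (nat_lit 0x200000e000040000000000000000000000000000000000000000000000) (nat_lit 0x4000001000020000000000000000000000000000000000000000000000) (nat_lit 2)
theorem c3913 : QOK q3913 := cut [] trivial (nd (nat_lit 204) (nat_lit 0) (cs (lf (nat_lit 16) (nat_lit 182)) (lf (nat_lit 5) (nat_lit 204)))) q3913 (by decide +kernel)
def q3917 : Q := Q.p (nat_lit 0x200001800004000000000000000000000000000000000000000000000000000) (nat_lit 0x20000080000400000000000000010000040000000000000000000000000000000000000000) (nat_lit 3)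
theorem c3917 : QOK q3917 := cut [] trivial (nd (nat_lit 271) (nat_lit 0) (cs (lf (nat_lit 30) (nat_lit 205)) (nd (nat_lit 184) (nat_lit 0) (cs (lf (nat_lit 36) (nat_lit 161)) (lf (nat_lit 39) (nat_lit 183)))))) q3917 (by decide +kernel)
def q3930 : Q := Q.p (nat_lit 0x300000c000000000080000000000000000000000000000000000000000) (nat_lit 0x400000000000000020000000000200000000000000000000000000000000000) (nat_lit 2)
theorem c3930 : QOK q3930 := cut [] trivial (nd (nat_lit 185) (nat_lit 0) (cs (lf (nat_lit 41) (nat_lit 162)) (lf (nat_lit 36) (nat_lit 140)))) q3930 (by decide +kernel)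
def q3931 : Q := Q.p (nat_lit 0x40000100000c0000100000000000000000000000000000000000000000) (nat_lit 0x1000000000000000000000200000800000000000000000000000000000000000) (nat_lit 2)
theorem c3931 : QOK q3931 := cut [] trivial (nd (nat_lit 165) (nat_lit 0) (cs (lf (nat_lit 35) (nat_lit 142)) (lf (nat_lit 30) (nat_lit 164)))) q3931 (by decide +kernel)
def q3937 : Q := Q.p (nat_lit 0xe00000c0000000000000000000000000000000000000000) (nat_lit 0x10000030000000000000000000000000000000000000000) (nat_lit 2)
theorem c3937 : QOK q3937 := cut [] trivial (nd (nat_lit 161) (nat_lit 0) (cs (lf (nat_lit 0) (nat_lit 160)) (lf (nat_lit 21) (nat_lit 161)))) q3937 (by decide +kernel)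
def q3964 : Q := Q.p (nat_lit 0x7c00000000000000000000000000000000000000000000000000) (nat_lit 0x3800000000000000000000000000000000000000000000) (nat_lit 2)
theorem c3964 : QOK q3964 := cut [] trivial (nd (nat_lit 180) (nat_lit 0) (cs (lf (nat_lit 23) (nat_lit 179)) (lf (nat_lit 22) (nat_lit 180)))) q3964 (by decide +kernel)
def q3983 : Q := Q.p (nat_lit 0x80000200000c000010000000000000000000000000000000000000000000000000000) (nat_lit 0x1000000000000000040000100000000000000000000000000000000000000000) (nat_lit 2)
theorem c3983 : QOK q3983 := cut [] trivial (nd (nat_lit 186) (nat_lit 0) (cs (lf (nat_lit 27) (nat_lit 186)) (lf (nat_lit 24) (nat_lit 164)))) q3983 (by decide +kernel)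
def q3985 : Q := Q.p (nat_lit 0x80000200000c000010000000000000000000000000000000000000000000000000000) (nat_lit 0x20000040000100000000000000000000000000000000000000000) (nat_lit 2)
theorem c3985 : QOK q3985 := cut [] trivial (nd (nat_lit 186) (nat_lit 0) (cs (lf (nat_lit 24) (nat_lit 164)) (lf (nat_lit 45) (nat_lit 186)))) q3985 (by decide +kernel)
def q3987 : Q := Q.p (nat_lit 0x1c000018000000000000000000000000000000000000000000000000000) (nat_lit 0x2000006000000000000000000000000000000000000000000000000000) (nat_lit 2)
theorem c3987 : QOK q3987 := cut [] trivial (nd (nat_lit 206) (nat_lit 0) (cs (lf (nat_lit 0) (nat_lit 205)) (lf (nat_lit 21) (nat_lit 206)))) q3987 (by decide +kernel)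
def q3994 : Q := Q.p (nat_lit 0x1c000018000000000000000000000000000000000000000000000000000) (nat_lit 0x26000000000000000000000000000000000000000000000000000) (nat_lit 2)
theorem c3994 : QOK q3994 := cut [] trivial (nd (nat_lit 206) (nat_lit 0) (cs (lf (nat_lit 0) (nat_lit 205)) (lf (nat_lit 3) (nat_lit 206)))) q3994 (by decide +kernel)
def q3997 : Q := Q.p (nat_lit 0x40000180000e000000000000000000000000000000000000000000000000000) (nat_lit 0x40000100000000000000000000020000000000000000000000000000000000000000000000) (nat_lit 2)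
theorem c3997 : QOK q3997 := cut [] trivial (nd (nat_lit 272) (nat_lit 0) (cs (lf (nat_lit 35) (nat_lit 184)) (lf (nat_lit 42) (nat_lit 205)))) q3997 (by decide +kernel)
def q4009 : Q := Q.p (nat_lit 0x100000400003c000000000000000000000000000000000000000000000000000) (nat_lit 0x18000000000180000200000000000000000000000000000000000000000) (nat_lit 3)
theorem c4009 : QOK q4009 := cut [] trivial (nd (nat_lit 187) (nat_lit 0) (cs (lf (nat_lit 17) (nat_lit 184)) (nd (nat_lit 231) (nat_lit 0) (cs (lf (nat_lit 5) (nat_lit 206)) (lf (nat_lit 36) (nat_lit 164)))))) q4009 (by decide +kernel)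
def q4011 : Q := Q.p (nat_lit 0xc00001c000000000000000000000000000000000000000000000000000) (nat_lit 0x30000020000000000000000000000000000000000000000000000000000) (nat_lit 2)
theorem c4011 : QOK q4011 := cut [] trivial (nd (nat_lit 232) (nat_lit 0) (cs (lf (nat_lit 18) (nat_lit 207)) (lf (nat_lit 3) (nat_lit 206)))) q4011 (by decide +kernel)
def q4013 : Q := Q.p (nat_lit 0x340000c000010000000000000000000000000000000000000000000000000000) (nat_lit 0x200001800000a00000000000000000000000000000000000000000000000000000000000000) (nat_lit 3)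
theorem c4013 : QOK q4013 := cut [] trivial (nd (nat_lit 275) (nat_lit 0) (cs (lf (nat_lit 42) (nat_lit 208)) (nd (nat_lit 251) (nat_lit 0) (cs (lf (nat_lit 5) (nat_lit 250)) (lf (nat_lit 12) (nat_lit 227)))))) q4013 (by decide +kernel)
def q4029 : Q := Q.p (nat_lit 0x300000500001c000000000000000000000000000000000000000000000000000) (nat_lit 0xb00003e0000b80000e0000ae00000000020000000000000000000000000000000000000000000000) (nat_lit 11)
theorem c4029 : QOK q4029 := cut [] trivial (nd (nat_lit 227) (nat_lit 0) (cs (lf (nat_lit 2) (nat_lit 227)) (nd (nat_lit 225) (nat_lit 0) (cs (lf (nat_lit 13) (nat_lit 203)) (nd (nat_lit 250) (nat_lit 0) (cs (lf (nat_lit 20) (nat_lit 227)) (nd (nat_lit 272) (nat_lit 0) (cs (lf (nat_lit 35) (nat_lit 184)) (nd (nat_lit 271) (nat_lit 0) (cs (lf (nat_lit 41) (nat_lit 205)) (nd (nat_lit 295) (nat_lit 0) (cs (nd (nat_lit 294) (nat_lit 0) (cs (nd (nat_lit 249) (nat_lit 0) (cs (nd (nat_lit 297) (nat_lit 0) (cs (nd (nat_lit 275) (nat_lit 0) (cs (lf (nat_lit 42) (nat_lit 230)) (lf (nat_lit 45) (nat_lit 208)))) (lf (nat_lit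 19) (nat_lit 271)))) (lf (nat_lit 42) (nat_lit 227)))) (lf (nat_lit 29) (nat_lit 228)))) (lf (nat_lit 28) (nat_lit 206)))))))))))))) q4029 (by decide +kernel)
def q4030 : Q := Q.p (nat_lit 0x300000500001c000000000000000000000000000000000000000000000000000) (nat_lit 0x2800020000000000000000000000000000000000000000000000000000) (nat_lit 2)
theorem c4030 : QOK q4030 := cut [] trivial (nd (nat_lit 227) (nat_lit 0) (cs (lf (nat_lit 6) (nat_lit 205)) (lf (nat_lit 2) (nat_lit 227)))) q4030 (by decide +kernel)
def q4036 : Q := Q.p (nat_lit 0xc00003000004000018000000000000000000000000000000000000000000000000000) (nat_lit 0x100000000000000038000024000080000000000000000000000000000000000000000000000) (nat_lit 4)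
theorem c4036 : QOK q4036 := cut [] trivial (nd (nat_lit 209) (nat_lit 0) (cs (lf (nat_lit 35) (nat_lit 186)) (nd (nat_lit 231) (nat_lit 0) (cs (lf (nat_lit 41) (nat_lit 208)) (nd (nat_lit 232) (nat_lit 0) (cs (lf (nat_lit 0) (nat_lit 206)) (lf (nat_lit 18) (nat_lit 207)))))))) q4036 (by decide +kernel)
def q4049 : Q := Q.p (nat_lit 0x40000100000600002000000000000000000000000000000000000000000000000000000000000000) (nat_lit 0x10000000000000000800000800000000000000000000000000000000000000000000000000000000000000) (nat_lit 2)
theorem c4049 : QOK q4049 := cut [] trivial (nd (nat_lit 340) (nat_lit 0) (cs (lf (nat_lit 34) (nat_lit 252)) (lf (nat_lit 47) (nat_lit 251)))) q4049 (by decide +kernel)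
def q4058 : Q := Q.p (nat_lit 0x1000004000018000020000000000000000000000000000000000000000000000) (nat_lit 0x40000080000200000000000000000000000000000000000) (nat_lit 2)
theorem c4058 : QOK q4058 := cut [] trivial (nd (nat_lit 163) (nat_lit 0) (cs (lf (nat_lit 24) (nat_lit 141)) (lf (nat_lit 45) (nat_lit 163)))) q4058 (by decide +kernel)
def q4061 : Q := Q.p (nat_lit 0x40000300000c000008000000000000000000000000000000000000000000000000000) (nat_lit 0x40000100000000000000002000000000000000000000000000000000000000000000000000000000) (nat_lit 2)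
theorem c4061 : QOK q4061 := cut [] trivial (nd (nat_lit 296) (nat_lit 0) (cs (lf (nat_lit 30) (nat_lit 230)) (lf (nat_lit 46) (nat_lit 207)))) q4061 (by decide +kernel)
def q4071 : Q := Q.p (nat_lit 0x3c000040000000000000000000000000000000000000000000000) (nat_lit 0x2000180000000000000000000000000000000000000000000000) (nat_lit 2)
theorem c4071 : QOK q4071 := cut [] trivial (nd (nat_lit 187) (nat_lit 0) (cs (lf (nat_lit 12) (nat_lit 183)) (lf (nat_lit 17) (nat_lit 184)))) q4071 (by decide +kernel)
def q4073 : Q := Q.p (nat_lit 0x380000c0000000000000000000000000000000000000000000000) (nat_lit 0x6000100000000000000000000000000000000000000000000000) (nat_lit 2)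
theorem c4073 : QOK q4073 := cut [] trivial (nd (nat_lit 206) (nat_lit 0) (cs (lf (nat_lit 12) (nat_lit 183)) (lf (nat_lit 17) (nat_lit 184)))) q4073 (by decide +kernel)
def q4099 : Q := Q.p (nat_lit 0x18000038000000000000000000000000000000000000000000000000000) (nat_lit 0x60000040000000000000000000000000000000000000000000000000000) (nat_lit 2)
theorem c4099 : QOK q4099 := cut [] trivial (nd (nat_lit 233) (nat_lit 0) (cs (lf (nat_lit 18) (nat_lit 208)) (lf (nat_lit 3) (nat_lit 207)))) q4099 (by decide +kernel)
def q4115 : Q := Q.p (nat_lit 0x40000100000c000010000040000000000000000000000000000000000000000) (nat_lit 0x200000a0000180000600000000000000000000000000000) (nat_lit 4)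
theorem c4115 : QOK q4115 := cut [] trivial (nd (nat_lit 139) (nat_lit 0) (cs (lf (nat_lit 46) (nat_lit 139)) (nd (nat_lit 140) (nat_lit 0) (cs (lf (nat_lit 47) (nat_lit 117)) (nd (nat_lit 185) (nat_lit 0) (cs (lf (nat_lit 24) (nat_lit 118)) (lf (nat_lit 35) (nat_lit 162)))))))) q4115 (by decide +kernel)
def q4119 : Q := Q.p (nat_lit 0xf80000000000000000000000000000000000000000000000000000000000000) (nat_lit 0x700000000000000000000000000000000000000000000000000000000) (nat_lit 2)
theorem c4119 : QOK q4119 := cut [] trivial (nd (nat_lit 225) (nat_lit 0) (cs (lf (nat_lit 22) (nat_lit 225)) (lf (nat_lit 23) (nat_lit 224)))) q4119 (by decide +kernel)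
def q4134 : Q := Q.p (nat_lit 0x40000100000c000010000000000000000000000000000000000000000000000) (nat_lit 0x20000000000200000e0000380000200000000000000000000000000000) (nat_lit 5)
theorem c4134 : QOK q4134 := cut [] trivial (nd (nat_lit 163) (nat_lit 0) (cs (lf (nat_lit 34) (nat_lit 162)) (nd (nat_lit 162) (nat_lit 0) (cs (lf (nat_lit 35) (nat_lit 140)) (nd (nat_lit 139) (nat_lit 0) (cs (lf (nat_lit 46) (nat_lit 139)) (nd (nat_lit 140) (nat_lit 0) (cs (lf (nat_lit 29) (nat_lit 140)) (lf (nat_lit 47) (nat_lit 117)))))))))) q4134 (by decide +kernel)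
def q4142 : Q := Q.p (nat_lit 0x100003400001000004000000000000000000000000000000000000000000000000000) (nat_lit 0x20000080000800000000000000000000000000000000000000000000000000000000000000) (nat_lit 2)
theorem c4142 : QOK q4142 := cut [] trivial (nd (nat_lit 271) (nat_lit 0) (cs (lf (nat_lit 41) (nat_lit 205)) (lf (nat_lit 8) (nat_lit 249)))) q4142 (by decide +kernel)
def q4155 : Q := Q.p (nat_lit 0x40000100000400001000004000000000000000000000000000000000000000000000000000) (nat_lit 0x8000020000080000000000000000000000000000000000000000000000000000000000000000000) (nat_lit 2)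
theorem c4155 : QOK q4155 := cut [] trivial (nd (nat_lit 293) (nat_lit 0) (cs (lf (nat_lit 41) (nat_lit 227)) (lf (nat_lit 40) (nat_lit 205)))) q4155 (by decide +kernel)
def q4159 : Q := Q.p (nat_lit 0x100000c00001000004000000000000000000000000000000000000000000000000000) (nat_lit 0x80000200000000000000000000010000000000000000000000000000000000000000000000) (nat_lit 2)
theorem c4159 : QOK q4159 := cut [] trivial (nd (nat_lit 273) (nat_lit 0) (cs (lf (nat_lit 24) (nat_lit 184)) (lf (nat_lit 29) (nat_lit 206)))) q4159 (by decide +kernel)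
def q4163 : Q := Q.p (nat_lit 0x180001c000000000000000000000000000000000000000000000000000) (nat_lit 0x600002000000000000000000000000000000000000000000000000000) (nat_lit 2)
theorem c4163 : QOK q4163 := cut [] trivial (nd (nat_lit 226) (nat_lit 0) (cs (lf (nat_lit 12) (nat_lit 203)) (lf (nat_lit 9) (nat_lit 204)))) q4163 (by decide +kernel)
def q4172 : Q := Q.p (nat_lit 0xc00001c000000000000000000000000000000000000000000000000000) (nat_lit 0x12000020000000000000000000000000000000000000000000000000000) (nat_lit 2)
theorem c4172 : QOK q4172 := cut [] trivial (nd (nat_lit 232) (nat_lit 0) (cs (lf (nat_lit 21) (nat_lit 206)) (lf (nat_lit 3) (nat_lit 206)))) q4172 (by decide +kernel)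
def q4198 : Q := Q.p (nat_lit 0xc00003000008000000000000000000000000000000000000000000000000000000000) (nat_lit 0x40000100000000000000000000020000000000000000000000000000000000000000000000000000) (nat_lit 2)
theorem c4198 : QOK q4198 := cut [] trivial (nd (nat_lit 296) (nat_lit 0) (cs (lf (nat_lit 30) (nat_lit 230)) (lf (nat_lit 36) (nat_lit 208)))) q4198 (by decide +kernel)
def q4210 : Q := Q.p (nat_lit 0x340000f000018000000000000000000000000000000000000000000000000000) (nat_lit 0x240001980000800000000000000000000000000000000000000000000000000000000000000) (nat_lit 4)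
theorem c4210 : QOK q4210 := cut [] trivial (nd (nat_lit 272) (nat_lit 0) (cs (lf (nat_lit 30) (nat_lit 206)) (nd (nat_lit 251) (nat_lit 0) (cs (lf (nat_lit 11) (nat_lit 249)) (nd (nat_lit 275) (nat_lit 0) (cs (lf (nat_lit 42) (nat_lit 208)) (lf (nat_lit 5) (nat_lit 250)))))))) q4210 (by decide +kernel)
def q4231 : Q := Q.p (nat_lit 0x300000e000040000000000000000000000000000000000000000000000000000) (nat_lit 0x1800020000000000000000000000000000000000000000000000000000) (nat_lit 2)
theorem c4231 : QOK q4231 := cut [] trivial (nd (nat_lit 228) (nat_lit 0) (cs (lf (nat_lit 0) (nat_lit 227)) (lf (nat_lit 16) (nat_lit 206)))) q4231 (by decide +kernel)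
def q4240 : Q := Q.p (nat_lit 0x4000018000020000000000000000000000000000000000000000000000) (nat_lit 0x400001000000000000000040000080000200000000000000000000000000000000000) (nat_lit 3)
theorem c4240 : QOK q4240 := cut [] trivial (nd (nat_lit 163) (nat_lit 0) (cs (lf (nat_lit 24) (nat_lit 141)) (nd (nat_lit 252) (nat_lit 0) (cs (lf (nat_lit 42) (nat_lit 185)) (lf (nat_lit 45) (nat_lit 163)))))) q4240 (by decide +kernel)
def q4242 : Q := Q.p (nat_lit 0xc0000e000000000000000000000000000000000000000000000000000000000) (nat_lit 0x300001000000000000000000000000000000000000000000000000000000000) (nat_lit 2)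
theorem c4242 : QOK q4242 := cut [] trivial (nd (nat_lit 249) (nat_lit 0) (cs (lf (nat_lit 12) (nat_lit 226)) (lf (nat_lit 9) (nat_lit 227)))) q4242 (by decide +kernel)
def q4253 : Q := Q.p (nat_lit 0x200000c000030000000000000000000000000000000000000000000000) (nat_lit 0x800000000000000000000040000100000000000000000000000000000000000) (nat_lit 2)
theorem c4253 : QOK q4253 := cut [] trivial (nd (nat_lit 162) (nat_lit 0) (cs (lf (nat_lit 42) (nat_lit 162)) (lf (nat_lit 24) (nat_lit 140)))) q4253 (by decide +kernel)
def q4265 : Q := Q.p (nat_lit 0x7000018000000000000000000000000000000000000000000000000000) (nat_lit 0xc00020000000000000000000000000000000000000000000000000000) (nat_lit 2)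
theorem c4265 : QOK q4265 := cut [] trivial (nd (nat_lit 227) (nat_lit 0) (cs (lf (nat_lit 12) (nat_lit 204)) (lf (nat_lit 17) (nat_lit 205)))) q4265 (by decide +kernel)
def q4284 : Q := Q.p (nat_lit 0xf8000000000000000000000000000000000000000000000000000) (nat_lit 0x7000000000000000000000000000000000000000000000000000000000) (nat_lit 2)
theorem c4284 : QOK q4284 := cut [] trivial (nd (nat_lit 229) (nat_lit 0) (cs (lf (nat_lit 11) (nat_lit 206)) (lf (nat_lit 10) (nat_lit 207)))) q4284 (by decide +kernel)
def q4294 : Q := Q.p (nat_lit 0x78000000000000000000000000000000000000000000000000000) (nat_lit 0x38000004000038000000000000000000000000000000000000000000000) (nat_lit 4)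
theorem c4294 : QOK q4294 := cut [] trivial (nd (nat_lit 184) (nat_lit 0) (cs (lf (nat_lit 22) (nat_lit 184)) (nd (nat_lit 232) (nat_lit 0) (cs (lf (nat_lit 5) (nat_lit 207)) (nd (nat_lit 206) (nat_lit 0) (cs (lf (nat_lit 23) (nat_lit 183)) (lf (nat_lit 4) (nat_lit 206)))))))) q4294 (by decide +kernel)
def q4296 : Q := Q.p (nat_lit 0x8000020000080000200000800000000000000000000000000000000000) (nat_lit 0x100000400001000000000000000000000000000000) (nat_lit 2)
theorem c4296 : QOK q4296 := cut [] trivial (nd (nat_lit 142) (nat_lit 0) (cs (lf (nat_lit 47) (nat_lit 120)) (lf (nat_lit 46) (nat_lit 142)))) q4296 (by decide +kernel)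
def q4304 : Q := Q.p (nat_lit 0x2000008000030000080000200000800000000000000000000000000000000000) (nat_lit 0x800000000000000000000040000000000000002000000000000000000000000000000) (nat_lit 2)
theorem c4304 : QOK q4304 := cut [] trivial (nd (nat_lit 186) (nat_lit 0) (cs (lf (nat_lit 42) (nat_lit 186)) (lf (nat_lit 36) (nat_lit 120)))) q4304 (by decide +kernel)
def q4327 : Q := Q.p (nat_lit 0x4000078000000000000000000000000000000000000000000000000000) (nat_lit 0x3000080000000000000000000000000000000000000000000000000000) (nat_lit 2)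
theorem c4327 : QOK q4327 := cut [] trivial (nd (nat_lit 229) (nat_lit 0) (cs (lf (nat_lit 11) (nat_lit 206)) (lf (nat_lit 6) (nat_lit 207)))) q4327 (by decide +kernel)
def q4363 : Q := Q.p (nat_lit 0x40000400001c000030000000000000000000000000000000000000000000000) (nat_lit 0x1000000000000000080000200000000000000000000000000000000000) (nat_lit 2)
theorem c4363 : QOK q4363 := cut [] trivial (nd (nat_lit 163) (nat_lit 0) (cs (lf (nat_lit 24) (nat_lit 141)) (lf (nat_lit 31) (nat_lit 162)))) q4363 (by decide +kernel)
def q4408 : Q := Q.p (nat_lit 0x20000000000300001c0000000000000000000000000000000000000000000000) (nat_lit 0x800000000008000000000000000400000000000000000000000000000000000000000) (nat_lit 2)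
theorem c4408 : QOK q4408 := cut [] trivial (nd (nat_lit 231) (nat_lit 0) (cs (lf (nat_lit 42) (nat_lit 186)) (lf (nat_lit 35) (nat_lit 165)))) q4408 (by decide +kernel)
def q4411 : Q := Q.p (nat_lit 0x2000008000020000100000000000000000000000000000000000000000000000) (nat_lit 0x10000040000080000400001000000000000000000000000000000000000) (nat_lit 3)
theorem c4411 : QOK q4411 := cut [] trivial (nd (nat_lit 166) (nat_lit 0) (cs (lf (nat_lit 33) (nat_lit 165)) (nd (nat_lit 210) (nat_lit 0) (cs (lf (nat_lit 36) (nat_lit 143)) (lf (nat_lit 39) (nat_lit 165)))))) q4411 (by decide +kernel)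
def q4414 : Q := Q.p (nat_lit 0x38000140000000000000000000000000000000000000000000000) (nat_lit 0x40000280000000000000000000000000000000000000000000000) (nat_lit 2)
theorem c4414 : QOK q4414 := cut [] trivial (nd (nat_lit 189) (nat_lit 0) (cs (lf (nat_lit 15) (nat_lit 185)) (lf (nat_lit 8) (nat_lit 185)))) q4414 (by decide +kernel)
def q4419 : Q := Q.p (nat_lit 0x100000400003000004000000000000000000000000000000000000000000000000000000000) (nat_lit 0x40000000000000000000008000020000000000000000000000000000000000000000000000000000) (nat_lit 2)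
theorem c4419 : QOK q4419 := cut [] trivial (nd (nat_lit 231) (nat_lit 0) (cs (lf (nat_lit 30) (nat_lit 230)) (lf (nat_lit 35) (nat_lit 208)))) q4419 (by decide +kernel)
def q4430 : Q := Q.p (nat_lit 0x80000200000d0000200000000000000000000000000000000000000000) (nat_lit 0x20000400001000000000000000000000000000000000000) (nat_lit 2)
theorem c4430 : QOK q4430 := cut [] trivial (nd (nat_lit 166) (nat_lit 0) (cs (lf (nat_lit 35) (nat_lit 143)) (lf (nat_lit 13) (nat_lit 162)))) q4430 (by decide +kernel)
def q4439 : Q := Q.p (nat_lit 0x2000008000078000000000000000000000000000000000000000000000000000) (nat_lit 0x30000000000300000400000000000000000000000000000000000000000) (nat_lit 3)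
theorem c4439 : QOK q4439 := cut [] trivial (nd (nat_lit 188) (nat_lit 0) (cs (lf (nat_lit 17) (nat_lit 185)) (nd (nat_lit 232) (nat_lit 0) (cs (lf (nat_lit 5) (nat_lit 207)) (lf (nat_lit 36) (nat_lit 165)))))) q4439 (by decide +kernel)
def q4454 : Q := Q.p (nat_lit 0x10000040000300000800000000000000000000000000000000000) (nat_lit 0x80000000000000002000008000000000000000000000000) (nat_lit 2)
theorem c4454 : QOK q4454 := cut [] trivial (nd (nat_lit 121) (nat_lit 0) (cs (lf (nat_lit 39) (nat_lit 120)) (lf (nat_lit 36) (nat_lit 98)))) q4454 (by decide +kernel)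
def q4465 : Q := Q.p (nat_lit 0x100000c00003c0000000000000000000000000000000000000000) (nat_lit 0x1800002000000000000000000000000000000) (nat_lit 2)
theorem c4465 : QOK q4465 := cut [] trivial (nd (nat_lit 143) (nat_lit 0) (cs (lf (nat_lit 36) (nat_lit 120)) (lf (nat_lit 17) (nat_lit 140)))) q4465 (by decide +kernel)
def q4473 : Q := Q.p (nat_lit 0x18000060000100000800000000000000000000000000000000000) (nat_lit 0x400003000000000000000000000000000000) (nat_lit 2)
theorem c4473 : QOK q4473 := cut [] trivial (nd (nat_lit 142) (nat_lit 0) (cs (lf (nat_lit 35) (nat_lit 120)) (lf (nat_lit 36) (nat_lit 119)))) q4473 (by decide +kernel)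
def q4475 : Q := Q.p (nat_lit 0x10000040000100000400001000000000000000000000000000000000000) (nat_lit 0x800002000008000000000000000000000000000000) (nat_lit 2)
theorem c4475 : QOK q4475 := cut [] trivial (nd (nat_lit 145) (nat_lit 0) (cs (lf (nat_lit 35) (nat_lit 122)) (lf (nat_lit 34) (nat_lit 144)))) q4475 (by decide +kernel)
def q4504 : Q := Q.p (nat_lit 0x180000700000000000000000000000000000000000) (nat_lit 0x2000000c0000000000000000000000000000000000) (nat_lit 2)
theorem c4504 : QOK q4504 := cut [] trivial (nd (nat_lit 139) (nat_lit 0) (cs (lf (nat_lit 0) (nat_lit 138)) (lf (nat_lit 5) (nat_lit 139)))) q4504 (by decide +kernel)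
def q4511 : Q := Q.p (nat_lit 0x80000200001a0000600000000000000000000000000000000000) (nat_lit 0x100001c0000400000000000000000000000000000) (nat_lit 3)
theorem c4511 : QOK q4511 := cut [] trivial (nd (nat_lit 140) (nat_lit 0) (cs (lf (nat_lit 47) (nat_lit 118)) (nd (nat_lit 139) (nat_lit 0) (cs (lf (nat_lit 0) (nat_lit 138)) (lf (nat_lit 11) (nat_lit 138)))))) q4511 (by decide +kernel)
def q4529 : Q := Q.p (nat_lit 0x80000600001c0000000000000000000000000000000000000000) (nat_lit 0x800002000000000000000000000100000000000000000000000000000000000) (nat_lit 2)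
theorem c4529 : QOK q4529 := cut [] trivial (nd (nat_lit 229) (nat_lit 0) (cs (lf (nat_lit 30) (nat_lit 163)) (lf (nat_lit 47) (nat_lit 140)))) q4529 (by decide +kernel)
def q4532 : Q := Q.p (nat_lit 0x1c0000c00000000000000000000000000000000000) (nat_lit 0x200003000000000000000000000000000000000000) (nat_lit 2)
theorem c4532 : QOK q4532 := cut [] trivial (nd (nat_lit 144) (nat_lit 0) (cs (lf (nat_lit 15) (nat_lit 140)) (lf (nat_lit 6) (nat_lit 141)))) q4532 (by decide +kernel)
def q4542 : Q := Q.p (nat_lit 0x300000c0000180000600000000000000000000000000000000000) (nat_lit 0x20000380000e000000000000000000000000000000) (nat_lit 4)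
theorem c4542 : QOK q4542 := cut [] trivial (nd (nat_lit 143) (nat_lit 0) (cs (lf (nat_lit 35) (nat_lit 120)) (nd (nat_lit 144) (nat_lit 0) (cs (lf (nat_lit 6) (nat_lit 141)) (nd (nat_lit 122) (nat_lit 0) (cs (lf (nat_lit 32) (nat_lit 121)) (lf (nat_lit 17) (nat_lit 119)))))))) q4542 (by decide +kernel)
def q4561 : Q := Q.p (nat_lit 0x18000060000480000000000000000000000000000000000000000) (nat_lit 0x2000000000000000300000700001c00000000000000000000000000000) (nat_lit 5)
theorem c4561 : QOK q4561 := cut [] trivial (nd (nat_lit 141) (nat_lit 0) (cs (lf (nat_lit 24) (nat_lit 119)) (nd (nat_lit 140) (nat_lit 0) (cs (lf (nat_lit 47) (nat_lit 118)) (nd (nat_lit 142) (nat_lit 0) (cs (lf (nat_lit 35) (nat_lit 119)) (nd (nat_lit 164) (nat_lit 0) (cs (lf (nat_lit 41) (nat_lit 141)) (lf (nat_lit 19) (nat_lit 140)))))))))) q4561 (by decide +kernel)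
def q4572 : Q := Q.p (nat_lit 0x200000800002c0000800000000000000000000000000000000000) (nat_lit 0x100001000004000000000000000000000000000000) (nat_lit 2)
theorem c4572 : QOK q4572 := cut [] trivial (nd (nat_lit 144) (nat_lit 0) (cs (lf (nat_lit 35) (nat_lit 121)) (lf (nat_lit 14) (nat_lit 140)))) q4572 (by decide +kernel)
def q4625 : Q := Q.p (nat_lit 0x10000040000100000400001000000000000000000000000000000000000) (nat_lit 0x200000800002000000000000000000000000000000) (nat_lit 2)
theorem c4625 : QOK q4625 := cut [] trivial (nd (nat_lit 143) (nat_lit 0) (cs (lf (nat_lit 47) (nat_lit 121)) (lf (nat_lit 46) (nat_lit 143)))) q4625 (by decide +kernel)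
def q4637 : Q := Q.p (nat_lit 0x40000100000400001000004000000000000000000000000000000) (nat_lit 0x2000008000020000000000000000000000000) (nat_lit 2)
theorem c4637 : QOK q4637 := cut [] trivial (nd (nat_lit 123) (nat_lit 0) (cs (lf (nat_lit 34) (nat_lit 122)) (lf (nat_lit 35) (nat_lit 100)))) q4637 (by decide +kernel)
def q4655 : Q := Q.p (nat_lit 0x40000100000400001000004000000000000000000000000000000) (nat_lit 0x800002000008000000000000000000000000) (nat_lit 2)
theorem c4655 : QOK q4655 := cut [] trivial (nd (nat_lit 121) (nat_lit 0) (cs (lf (nat_lit 46) (nat_lit 121)) (lf (nat_lit 47) (nat_lit 99)))) q4655 (by decide +kernel)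
def q4663 : Q := Q.p (nat_lit 0x78000140000400000000000000000000000000000000000000000) (nat_lit 0x300000000000b0000800002000000000000000000000000000000000000) (nat_lit 4)
theorem c4663 : QOK q4663 := cut [] trivial (nd (nat_lit 185) (nat_lit 0) (cs (lf (nat_lit 23) (nat_lit 184)) (nd (nat_lit 232) (nat_lit 0) (cs (lf (nat_lit 5) (nat_lit 207)) (nd (nat_lit 167) (nat_lit 0) (cs (lf (nat_lit 35) (nat_lit 144)) (lf (nat_lit 14) (nat_lit 163)))))))) q4663 (by decide +kernel)
def q4691 : Q := Q.p (nat_lit 0x2000000000040000180000400000000000000000000000000000000000000000) (nat_lit 0x18000020000000000000000000000000000000000000000000000000000) (nat_lit 2)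
theorem c4691 : QOK q4691 := cut [] trivial (nd (nat_lit 231) (nat_lit 0) (cs (lf (nat_lit 39) (nat_lit 165)) (lf (nat_lit 32) (nat_lit 165)))) q4691 (by decide +kernel)
def q4697 : Q := Q.p (nat_lit 0x1e0000040000000000000000000000000000000000000000) (nat_lit 0xe000010000020000000000000000000000000000000000000000) (nat_lit 3)
theorem c4697 : QOK q4697 := cut [] trivial (nd (nat_lit 206) (nat_lit 0) (cs (lf (nat_lit 10) (nat_lit 184)) (nd (nat_lit 184) (nat_lit 0) (cs (lf (nat_lit 23) (nat_lit 161)) (lf (nat_lit 11) (nat_lit 183)))))) q4697 (by decide +kernel)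
def q4702 : Q := Q.p (nat_lit 0x80000300000c00000000000000000000000000000000000000000) (nat_lit 0x20000000000000000000001000004000000000000000000000000000000) (nat_lit 2)
theorem c4702 : QOK q4702 := cut [] trivial (nd (nat_lit 144) (nat_lit 0) (cs (lf (nat_lit 42) (nat_lit 144)) (lf (nat_lit 24) (nat_lit 122)))) q4702 (by decide +kernel)
def q4709 : Q := Q.p (nat_lit 0x200000b0000200000800000000000000000000000000000000000000000) (nat_lit 0x10000040000040000000000000000000000000000000000000000000000000000) (nat_lit 2)
theorem c4709 : QOK q4709 := cut [] trivial (nd (nat_lit 234) (nat_lit 0) (cs (lf (nat_lit 2) (nat_lit 208)) (lf (nat_lit 29) (nat_lit 167)))) q4709 (by decide +kernel)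
def q4726 : Q := Q.p (nat_lit 0x20000000000100003c0000000000000000000000000000000000000000000000) (nat_lit 0x8000020000420001c00000000000000000000000000000000000000000) (nat_lit 4)
theorem c4726 : QOK q4726 := cut [] trivial (nd (nat_lit 167) (nat_lit 0) (cs (lf (nat_lit 17) (nat_lit 164)) (nd (nat_lit 166) (nat_lit 0) (cs (lf (nat_lit 12) (nat_lit 163)) (nd (nat_lit 209) (nat_lit 0) (cs (lf (nat_lit 6) (nat_lit 186)) (lf (nat_lit 31) (nat_lit 165)))))))) q4726 (by decide +kernel)
def q4748 : Q := Q.p (nat_lit 0x3000000000010000060000000000000000000000000000000000000000000000) (nat_lit 0x800000000004000000000000000080000000000000000000000000000000000000000) (nat_lit 2)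
theorem c4748 : QOK q4748 := cut [] trivial (nd (nat_lit 230) (nat_lit 0) (cs (lf (nat_lit 47) (nat_lit 163)) (lf (nat_lit 29) (nat_lit 186)))) q4748 (by decide +kernel)
def q4752 : Q := Q.p (nat_lit 0x10000078000000000000000000000000000000000000000000000) (nat_lit 0xb800004000000000000000000000000000000000000000000000) (nat_lit 3)
theorem c4752 : QOK q4752 := cut [] trivial (nd (nat_lit 204) (nat_lit 0) (cs (lf (nat_lit 10) (nat_lit 182)) (nd (nat_lit 182) (nat_lit 0) (cs (lf (nat_lit 4) (nat_lit 182)) (lf (nat_lit 11) (nat_lit 181)))))) q4752 (by decide +kernel)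
def q4767 : Q := Q.p (nat_lit 0x10000078000000000000000000000000000000000000000000000) (nat_lit 0x8000004000038000000000000000000000000000000000000000) (nat_lit 3)
theorem c4767 : QOK q4767 := cut [] trivial (nd (nat_lit 160) (nat_lit 0) (cs (lf (nat_lit 22) (nat_lit 160)) (nd (nat_lit 182) (nat_lit 0) (cs (lf (nat_lit 4) (nat_lit 182)) (lf (nat_lit 23) (nat_lit 159)))))) q4767 (by decide +kernel)
def q4769 : Q := Q.p (nat_lit 0x7c000000000000000000000000000000000000000000000) (nat_lit 0x38000000000000000000000000000000000000000) (nat_lit 2)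
theorem c4769 : QOK q4769 := cut [] trivial (nd (nat_lit 160) (nat_lit 0) (cs (lf (nat_lit 22) (nat_lit 160)) (lf (nat_lit 23) (nat_lit 159)))) q4769 (by decide +kernel)
def q4791 : Q := Q.p (nat_lit 0x2000004000010000040000000000000000000000000000000000000000000000) (nat_lit 0x200000800001000008000020000000000000000000000000000000000000000000000000000) (nat_lit 3)
theorem c4791 : QOK q4791 := cut [] trivial (nd (nat_lit 275) (nat_lit 0) (cs (lf (nat_lit 27) (nat_lit 186)) (nd (nat_lit 231) (nat_lit 0) (cs (lf (nat_lit 42) (nat_lit 208)) (lf (nat_lit 45) (nat_lit 186)))))) q4791 (by decide +kernel)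
def q4810 : Q := Q.p (nat_lit 0xf80000000000000000000000000000000000000000) (nat_lit 0x700000000000000000000000000000000000000000000000) (nat_lit 2)
theorem c4810 : QOK q4810 := cut [] trivial (nd (nat_lit 189) (nat_lit 0) (cs (lf (nat_lit 5) (nat_lit 164)) (lf (nat_lit 4) (nat_lit 163)))) q4810 (by decide +kernel)
def q4820 : Q := Q.p (nat_lit 0x100000f00000c0000000000000000000000000000000000000000) (nat_lit 0x1000006000000000000000200000800000000000000000000000000000) (nat_lit 3)
theorem c4820 : QOK q4820 := cut [] trivial (nd (nat_lit 206) (nat_lit 0) (cs (lf (nat_lit 11) (nat_lit 183)) (nd (nat_lit 141) (nat_lit 0) (cs (lf (nat_lit 24) (nat_lit 119)) (lf (nat_lit 30) (nat_lit 140)))))) q4820 (by decide +kernel)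
def q4852 : Q := Q.p (nat_lit 0x380001800000000000000000000000000000000000) (nat_lit 0x400006000000000000000000000000000000000000) (nat_lit 2)
theorem c4852 : QOK q4852 := cut [] trivial (nd (nat_lit 145) (nat_lit 0) (cs (lf (nat_lit 6) (nat_lit 142)) (lf (nat_lit 15) (nat_lit 141)))) q4852 (by decide +kernel)
def q4864 : Q := Q.p (nat_lit 0x40000100000400001000000000000000000000000000000) (nat_lit 0x20000080000200000000000800006000008000000000000000000) (nat_lit 4)
theorem c4864 : QOK q4864 := cut [] trivial (nd (nat_lit 97) (nat_lit 0) (cs (lf (nat_lit 46) (nat_lit 97)) (nd (nat_lit 187) (nat_lit 0) (cs (lf (nat_lit 29) (nat_lit 120)) (nd (nat_lit 98) (nat_lit 0) (cs (lf (nat_lit 28) (nat_lit 98)) (lf (nat_lit 47) (nat_lit 75)))))))) q4864 (by decide +kernel)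
def q4876 : Q := Q.p (nat_lit 0x18000070000100000000000000000000000000000000000000000) (nat_lit 0xc000200000000000000000000000000000000000000000) (nat_lit 2)
theorem c4876 : QOK q4876 := cut [] trivial (nd (nat_lit 183) (nat_lit 0) (cs (lf (nat_lit 17) (nat_lit 161)) (lf (nat_lit 0) (nat_lit 182)))) q4876 (by decide +kernel)
def q4891 : Q := Q.p (nat_lit 0x1f0000000000000000000000000000000000000000000000) (nat_lit 0xe0000000000000000000000000000000000000000) (nat_lit 2)
theorem c4891 : QOK q4891 := cut [] trivial (nd (nat_lit 162) (nat_lit 0) (cs (lf (nat_lit 23) (nat_lit 161)) (lf (nat_lit 22) (nat_lit 162)))) q4891 (by decide +kernel)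
def q4907 : Q := Q.p (nat_lit 0x100000400001000004000010000000000000000000) (nat_lit 0x2000008000020000000000000) (nat_lit 2)
theorem c4907 : QOK q4907 := cut [] trivial (nd (nat_lit 75) (nat_lit 0) (cs (lf (nat_lit 47) (nat_lit 53)) (lf (nat_lit 46) (nat_lit 75)))) q4907 (by decide +kernel)
def q4927 : Q := Q.p (nat_lit 0x10000040000100000400001000000000000000000000000000000) (nat_lit 0x40000200000a0000280000200000000004000010000000000000000000) (nat_lit 5)
theorem c4927 : QOK q4927 := cut [] trivial (nd (nat_lit 187) (nat_lit 0) (cs (lf (nat_lit 29) (nat_lit 120)) (nd (nat_lit 98) (nat_lit 0) (cs (lf (nat_lit 28) (nat_lit 98)) (nd (nat_lit 163) (nat_lit 0) (cs (nd (nat_lit 141) (nat_lit 0) (cs (lf (nat_lit 42) (nat_lit 141)) (lf (nat_lit 36) (nat_lit 75)))) (lf (nat_lit 41) (nat_lit 97)))))))) q4927 (by decide +kernel)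
def q4939 : Q := Q.p (nat_lit 0x1800006000008000000000000000000000000000000000000000000000) (nat_lit 0x400000000000000000000020000080000000000000000000000000000000000) (nat_lit 2)
theorem c4939 : QOK q4939 := cut [] trivial (nd (nat_lit 161) (nat_lit 0) (cs (lf (nat_lit 29) (nat_lit 161)) (lf (nat_lit 24) (nat_lit 139)))) q4939 (by decide +kernel)
def q4949 : Q := Q.p (nat_lit 0xc00001c0000000000000000000000000000000000000000) (nat_lit 0x320000000000000000000000000000000000000000000000) (nat_lit 2)
theorem c4949 : QOK q4949 := cut [] trivial (nd (nat_lit 188) (nat_lit 0) (cs (lf (nat_lit 21) (nat_lit 162)) (lf (nat_lit 18) (nat_lit 163)))) q4949 (by decide +kernel)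
def q4958 : Q := Q.p (nat_lit 0x1f0000000000000000000000000000000000000000000000) (nat_lit 0xe000000000000000000000000000000000000000000000000000) (nat_lit 2)
theorem c4958 : QOK q4958 := cut [] trivial (nd (nat_lit 206) (nat_lit 0) (cs (lf (nat_lit 11) (nat_lit 183)) (lf (nat_lit 10) (nat_lit 184)))) q4958 (by decide +kernel)
def q4969 : Q := Q.p (nat_lit 0x3e0000000000000000000000000000000000000000000000) (nat_lit 0x1c00000000000000000000000000000000000000000) (nat_lit 2)
theorem c4969 : QOK q4969 := cut [] trivial (nd (nat_lit 167) (nat_lit 0) (cs (lf (nat_lit 16) (nat_lit 163)) (lf (nat_lit 17) (nat_lit 164)))) q4969 (by decide +kernel)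
def q4978 : Q := Q.p (nat_lit 0x100000400001800002000000000000000000000000000000) (nat_lit 0x4000008000020000000000000000000) (nat_lit 2)
theorem c4978 : QOK q4978 := cut [] trivial (nd (nat_lit 99) (nat_lit 0) (cs (lf (nat_lit 45) (nat_lit 99)) (lf (nat_lit 24) (nat_lit 77)))) q4978 (by decide +kernel)
def q4998 : Q := Q.p (nat_lit 0x60000180000400000000000000000000000000000000000) (nat_lit 0x8000000000000000000001000004000000000000000000000000) (nat_lit 2)
theorem c4998 : QOK q4998 := cut [] trivial (nd (nat_lit 120) (nat_lit 0) (cs (lf (nat_lit 36) (nat_lit 97)) (lf (nat_lit 41) (nat_lit 119)))) q4998 (by decide +kernel)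
def q5014 : Q := Q.p (nat_lit 0x400001000007000018000000000000000000000000000000000000000000000000000) (nat_lit 0x60000080000000000000000000000000000000000000000000000) (nat_lit 2)
theorem c5014 : QOK q5014 := cut [] trivial (nd (nat_lit 209) (nat_lit 0) (cs (lf (nat_lit 35) (nat_lit 186)) (lf (nat_lit 6) (nat_lit 206)))) q5014 (by decide +kernel)
def q5022 : Q := Q.p (nat_lit 0x7000018000000000000000000000000000000000000000000000000000) (nat_lit 0x800060000000000000000000000000000000000000000000000000000) (nat_lit 2)
theorem c5022 : QOK q5022 := cut [] trivial (nd (nat_lit 209) (nat_lit 0) (cs (lf (nat_lit 12) (nat_lit 205)) (lf (nat_lit 6) (nat_lit 206)))) q5022 (by decide +kernel)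
def q5047 : Q := Q.p (nat_lit 0x40000100000600001000000000000000000000000000000000000000000000000000000000000000) (nat_lit 0x2000018000020000000000000000800000000000000000000000000000000000000000000000000000000000000) (nat_lit 3)
theorem c5047 : QOK q5047 := cut [] trivial (nd (nat_lit 339) (nat_lit 0) (cs (nd (nat_lit 340) (nat_lit 0) (cs (lf (nat_lit 47) (nat_lit 251)) (lf (nat_lit 41) (nat_lit 273)))) (lf (nat_lit 40) (nat_lit 251)))) q5047 (by decide +kernel)
def q5064 : Q := Q.p (nat_lit 0xe000018000040000000000000000000000000000000000000000000000) (nat_lit 0x200000c00030000000000000000000000000000000000000000000000000000000000) (nat_lit 3)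
theorem c5064 : QOK q5064 := cut [] trivial (nd (nat_lit 251) (nat_lit 0) (cs (lf (nat_lit 30) (nat_lit 185)) (nd (nat_lit 232) (nat_lit 0) (cs (lf (nat_lit 18) (nat_lit 207)) (lf (nat_lit 11) (nat_lit 228)))))) q5064 (by decide +kernel)
def q5067 : Q := Q.p (nat_lit 0x700001a000000000000000000000000000000000000000000000000000) (nat_lit 0xc00001000000000000000000000000000000000000000000000000000) (nat_lit 2)
theorem c5067 : QOK q5067 := cut [] trivial (nd (nat_lit 227) (nat_lit 0) (cs (lf (nat_lit 12) (nat_lit 204)) (lf (nat_lit 23) (nat_lit 204)))) q5067 (by decide +kernel)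
def q5069 : Q := Q.p (nat_lit 0xf800000000000000000000000000000000000000000000000000000000) (nat_lit 0x700000000000000000000000000000000000000000000000000000000000000) (nat_lit 2)
theorem c5069 : QOK q5069 := cut [] trivial (nd (nat_lit 249) (nat_lit 0) (cs (lf (nat_lit 10) (nat_lit 227)) (lf (nat_lit 11) (nat_lit 226)))) q5069 (by decide +kernel)
def q5088 : Q := Q.p (nat_lit 0x800002000008000020000080000000000000000000000000000000000000000) (nat_lit 0x10000040000100000000000000000000000000000000000) (nat_lit 2)
theorem c5088 : QOK q5088 := cut [] trivial (nd (nat_lit 162) (nat_lit 0) (cs (lf (nat_lit 47) (nat_lit 140)) (lf (nat_lit 46) (nat_lit 162)))) q5088 (by decide +kernel)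
def q5105 : Q := Q.p (nat_lit 0x6000018000020000040000000000000000000000000000000000000000) (nat_lit 0x80000300000000000000000000000000000000000) (nat_lit 2)
theorem c5105 : QOK q5105 := cut [] trivial (nd (nat_lit 163) (nat_lit 0) (cs (lf (nat_lit 24) (nat_lit 141)) (lf (nat_lit 47) (nat_lit 140)))) q5105 (by decide +kernel)
def q5111 : Q := Q.p (nat_lit 0x180000300000e0000000000000000000000000000000000000000) (nat_lit 0xe000018000000000000000000000000000000000000000) (nat_lit 3)
theorem c5111 : QOK q5111 := cut [] trivial (nd (nat_lit 160) (nat_lit 0) (cs (lf (nat_lit 0) (nat_lit 159)) (nd (nat_lit 182) (nat_lit 0) (cs (lf (nat_lit 11) (nat_lit 159)) (lf (nat_lit 1) (nat_lit 182)))))) q5111 (by decide +kernel)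
def q5134 : Q := Q.p (nat_lit 0x4000018000070000000000000000000000000000000000000000000000) (nat_lit 0x800000700008c000030000000000000000000000000000000000000000) (nat_lit 5)
theorem c5134 : QOK q5134 := cut [] trivial (nd (nat_lit 183) (nat_lit 0) (cs (lf (nat_lit 0) (nat_lit 182)) (nd (nat_lit 160) (nat_lit 0) (cs (lf (nat_lit 22) (nat_lit 160)) (nd (nat_lit 205) (nat_lit 0) (cs (lf (nat_lit 11) (nat_lit 182)) (nd (nat_lit 206) (nat_lit 0) (cs (lf (nat_lit 5) (nat_lit 205)) (lf (nat_lit 6) (nat_lit 183)))))))))) q5134 (by decide +kernel)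
def q5137 : Q := Q.p (nat_lit 0x2000006000018000040000000000000000000000000000000000000000000000) (nat_lit 0x8000000000000000100000400000000000000000000000000000000000) (nat_lit 2)
theorem c5137 : QOK q5137 := cut [] trivial (nd (nat_lit 164) (nat_lit 0) (cs (lf (nat_lit 28) (nat_lit 164)) (lf (nat_lit 36) (nat_lit 141)))) q5137 (by decide +kernel)
def q5139 : Q := Q.p (nat_lit 0x800006000018000000000000000000000000000000000000000000000000000) (nat_lit 0x80000200000000000000000000040000000000000000000000000000000000000000000000) (nat_lit 2)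
theorem c5139 : QOK q5139 := cut [] trivial (nd (nat_lit 273) (nat_lit 0) (cs (lf (nat_lit 30) (nat_lit 207)) (lf (nat_lit 35) (nat_lit 185)))) q5139 (by decide +kernel)
def q5143 : Q := Q.p (nat_lit 0xe000018000000000000000000000000000000000000000000000000000) (nat_lit 0x10000006000000000000000000000000000000000000000000000000000) (nat_lit 2)
theorem c5143 : QOK q5143 := cut [] trivial (nd (nat_lit 206) (nat_lit 0) (cs (lf (nat_lit 0) (nat_lit 205)) (lf (nat_lit 18) (nat_lit 206)))) q5143 (by decide +kernel)
def q5149 : Q := Q.p (nat_lit 0x2000006000018000020000080000000000000000000000000000000000000000) (nat_lit 0x800008000000000040000100000400000000000000000000000000000000000) (nat_lit 3)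
theorem c5149 : QOK q5149 := cut [] trivial (nd (nat_lit 164) (nat_lit 0) (cs (lf (nat_lit 35) (nat_lit 141)) (nd (nat_lit 186) (nat_lit 0) (cs (lf (nat_lit 28) (nat_lit 164)) (lf (nat_lit 30) (nat_lit 163)))))) q5149 (by decide +kernel)
def q5153 : Q := Q.p (nat_lit 0x600001800002000000000000000000000000000000000000000000000000000) (nat_lit 0x100000000000000000000008000020000000000000000000000000000000000000000) (nat_lit 2)
theorem c5153 : QOK q5153 := cut [] trivial (nd (nat_lit 183) (nat_lit 0) (cs (lf (nat_lit 24) (nat_lit 161)) (lf (nat_lit 29) (nat_lit 183)))) q5153 (by decide +kernel)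
def q5161 : Q := Q.p (nat_lit 0x7000018000000000000000000000000000000000000000000000000000) (nat_lit 0x700038c00004000000000000000000000000000000000000000000000000000) (nat_lit 5)
theorem c5161 : QOK q5161 := cut [] trivial (nd (nat_lit 227) (nat_lit 0) (cs (lf (nat_lit 12) (nat_lit 204)) (nd (nat_lit 249) (nat_lit 0) (cs (lf (nat_lit 11) (nat_lit 226)) (nd (nat_lit 231) (nat_lit 0) (cs (lf (nat_lit 10) (nat_lit 227)) (nd (nat_lit 232) (nat_lit 0) (cs (lf (nat_lit 18) (nat_lit 207)) (lf (nat_lit 23) (nat_lit 206)))))))))) q5161 (by decide +kernel)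
def q5166 : Q := Q.p (nat_lit 0x1000006000008000020000000000000000000000000000000000000000) (nat_lit 0x100000400000000000000010000000000000000000000000000000000000000000000) (nat_lit 2)
theorem c5166 : QOK q5166 := cut [] trivial (nd (nat_lit 250) (nat_lit 0) (cs (lf (nat_lit 42) (nat_lit 183)) (lf (nat_lit 45) (nat_lit 161)))) q5166 (by decide +kernel)
def q5174 : Q := Q.p (nat_lit 0x400007000018000040000100000000000000000000000000000000000000000) (nat_lit 0x20000080000200000000000000000000000000000000000) (nat_lit 2)
theorem c5174 : QOK q5174 := cut [] trivial (nd (nat_lit 163) (nat_lit 0) (cs (lf (nat_lit 47) (nat_lit 141)) (lf (nat_lit 37) (nat_lit 162)))) q5174 (by decide +kernel)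
def q5181 : Q := Q.p (nat_lit 0x200001800006000000000000000000000000000000000000000000000000000) (nat_lit 0x80000000000000000000010000040000000000000000000000000000000000000000) (nat_lit 2)
theorem c5181 : QOK q5181 := cut [] trivial (nd (nat_lit 184) (nat_lit 0) (cs (lf (nat_lit 30) (nat_lit 183)) (lf (nat_lit 36) (nat_lit 161)))) q5181 (by decide +kernel)
def q5208 : Q := Q.p (nat_lit 0x18000070000000000000000000000000000000000000000) (nat_lit 0x2000000c000000000000000000000000000000000000000) (nat_lit 2)
theorem c5208 : QOK q5208 := cut [] trivial (nd (nat_lit 159) (nat_lit 0) (cs (lf (nat_lit 0) (nat_lit 158)) (lf (nat_lit 5) (nat_lit 159)))) q5208 (by decide +kernel)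
def q5226 : Q := Q.p (nat_lit 0x780000e000000000000000000000000000000000000000000000000000) (nat_lit 0x3e0000f80000f00000000000000020000000000000000000000000000000000000000000000) (nat_lit 8)
theorem c5226 : QOK q5226 := cut [] trivial (nd (nat_lit 249) (nat_lit 0) (cs (lf (nat_lit 11) (nat_lit 226)) (nd (nat_lit 271) (nat_lit 0) (cs (lf (nat_lit 30) (nat_lit 205)) (nd (nat_lit 272) (nat_lit 0) (cs (lf (nat_lit 29) (nat_lit 205)) (nd (nat_lit 250) (nat_lit 0) (cs (lf (nat_lit 35) (nat_lit 184)) (nd (nat_lit 273) (nat_lit 0) (cs (lf (nat_lit 29) (nat_lit 206)) (nd (nat_lit 274) (nat_lit 0) (cs (lf (nat_lit 18) (nat_lit 249)) (nd (nat_lit 296) (nat_lit 0) (cs (lf (nat_lit 5) (nat_lit 271)) (lf (nat_lit 26) (nat_lit 207)))))))))))))))) q5226 (by decide +kernel)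
def q5247 : Q := Q.p (nat_lit 0x2400006000018000020000000000000000000000000000000000000000000000) (nat_lit 0x380001f00000b00018000000000000000000000000000000000000000000000000000000000) (nat_lit 7)
theorem c5247 : QOK q5247 := cut [] trivial (nd (nat_lit 251) (nat_lit 0) (cs (lf (nat_lit 41) (nat_lit 184)) (nd (nat_lit 248) (nat_lit 0) (cs (lf (nat_lit 13) (nat_lit 226)) (nd (nat_lit 273) (nat_lit 0) (cs (lf (nat_lit 30) (nat_lit 207)) (nd (nat_lit 274) (nat_lit 0) (cs (lf (nat_lit 29) (nat_lit 207)) (nd (nat_lit 231) (nat_lit 0) (cs (lf (nat_lit 6) (nat_lit 228)) (nd (nat_lit 275) (nat_lit 0) (cs (lf (nat_lit 42) (nat_lit 208)) (lf (nat_lit 18) (nat_lit 250)))))))))))))) q5247 (by decide +kernel)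
def q5253 : Q := Q.p (nat_lit 0x80000200000c000010000000000000000000000000000000000000000) (nat_lit 0x1000000000000000040000100000000000000000000000000000) (nat_lit 2)
theorem c5253 : QOK q5253 := cut [] trivial (nd (nat_lit 138) (nat_lit 0) (cs (lf (nat_lit 24) (nat_lit 116)) (lf (nat_lit 27) (nat_lit 138)))) q5253 (by decide +kernel)
def q5258 : Q := Q.p (nat_lit 0x800002000008000020000080000000000000000000000000000000000) (nat_lit 0x100000400001000000000000000000000000000000000000000000000000000) (nat_lit 2)
theorem c5258 : QOK q5258 := cut [] trivial (nd (nat_lit 226) (nat_lit 0) (cs (lf (nat_lit 40) (nat_lit 138)) (lf (nat_lit 41) (nat_lit 160)))) q5258 (by decide +kernel)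
def q5267 : Q := Q.p (nat_lit 0x800002000008000020000000000000000000000000000000000000000) (nat_lit 0x100000400001000000000040000180000400000000000000000000000000000) (nat_lit 4)
theorem c5267 : QOK q5267 := cut [] trivial (nd (nat_lit 226) (nat_lit 0) (cs (lf (nat_lit 41) (nat_lit 160)) (nd (nat_lit 139) (nat_lit 0) (cs (lf (nat_lit 40) (nat_lit 138)) (nd (nat_lit 140) (nat_lit 0) (cs (lf (nat_lit 35) (nat_lit 117)) (lf (nat_lit 34) (nat_lit 139)))))))) q5267 (by decide +kernel)
def q5269 : Q := Q.p (nat_lit 0x200000800002000008000020000000000000000000000000000000000000000) (nat_lit 0x4000010000040000000000000000000000000000000000) (nat_lit 2)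
theorem c5269 : QOK q5269 := cut [] trivial (nd (nat_lit 160) (nat_lit 0) (cs (lf (nat_lit 47) (nat_lit 138)) (lf (nat_lit 46) (nat_lit 160)))) q5269 (by decide +kernel)
def q5275 : Q := Q.p (nat_lit 0x800002000018000040000000000000000000000000000000000000000) (nat_lit 0x20000100000400000000000000000000000000000) (nat_lit 2)
theorem c5275 : QOK q5275 := cut [] trivial (nd (nat_lit 140) (nat_lit 0) (cs (lf (nat_lit 36) (nat_lit 117)) (lf (nat_lit 33) (nat_lit 139)))) q5275 (by decide +kernel)
def q5282 : Q := Q.p (nat_lit 0x300000600001e000000000000000000000000000000000000000000000000000) (nat_lit 0x1c00000000000000000000000000000000000000000000000000000000) (nat_lit 2)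
theorem c5282 : QOK q5282 := cut [] trivial (nd (nat_lit 227) (nat_lit 0) (cs (lf (nat_lit 11) (nat_lit 204)) (lf (nat_lit 1) (nat_lit 227)))) q5282 (by decide +kernel)
def q5296 : Q := Q.p (nat_lit 0x2000007000018000000000000000000000000000000000000000000000000000) (nat_lit 0x1000000c00000000000000000000000000000000000000000000000000000000) (nat_lit 2)
theorem c5296 : QOK q5296 := cut [] trivial (nd (nat_lit 227) (nat_lit 0) (cs (lf (nat_lit 12) (nat_lit 204)) (lf (nat_lit 4) (nat_lit 227)))) q5296 (by decide +kernel)
def q5304 : Q := Q.p (nat_lit 0xc00003800000000000000000000000000000000000000000000000000000000000000) (nat_lit 0x1000000600000000000000000000000000000000000000000000000000000000000000) (nat_lit 2)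
theorem c5304 : QOK q5304 := cut [] trivial (nd (nat_lit 250) (nat_lit 0) (cs (lf (nat_lit 5) (nat_lit 250)) (lf (nat_lit 0) (nat_lit 249)))) q5304 (by decide +kernel)
def q5313 : Q := Q.p (nat_lit 0x200000800002000008000020000000000000000000000000000000000000000000000) (nat_lit 0x4000010000040000000000000000000000000000000000000000) (nat_lit 2)
theorem c5313 : QOK q5313 := cut [] trivial (nd (nat_lit 184) (nat_lit 0) (cs (lf (nat_lit 47) (nat_lit 162)) (lf (nat_lit 46) (nat_lit 184)))) q5313 (by decide +kernel)
def q5380 : Q := Q.p (nat_lit 0x2000018000020000080000000000000000000000000000000000000000) (nat_lit 0x1000004000000000000000000000200000000000000000000000000000000000) (nat_lit 2)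
theorem c5380 : QOK q5380 := cut [] trivial (nd (nat_lit 230) (nat_lit 0) (cs (lf (nat_lit 29) (nat_lit 163)) (lf (nat_lit 24) (nat_lit 141)))) q5380 (by decide +kernel)
def q5390 : Q := Q.p (nat_lit 0x100000400003000008000000000000000000000000000000000000000000000000000) (nat_lit 0x4000020000080000000000000000000000000000000000000000) (nat_lit 2)
theorem c5390 : QOK q5390 := cut [] trivial (nd (nat_lit 185) (nat_lit 0) (cs (lf (nat_lit 36) (nat_lit 162)) (lf (nat_lit 33) (nat_lit 184)))) q5390 (by decide +kernel)
def q5397 : Q := Q.p (nat_lit 0x2000018000040000100000000000000000000000000000000000000000) (nat_lit 0x200000800004000000000000000000000000000000000000000000000000000000000) (nat_lit 2)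
theorem c5397 : QOK q5397 := cut [] trivial (nd (nat_lit 251) (nat_lit 0) (cs (lf (nat_lit 30) (nat_lit 185)) (lf (nat_lit 39) (nat_lit 163)))) q5397 (by decide +kernel)
def q5402 : Q := Q.p (nat_lit 0x300000e000000000000000000000000000000000000000000000000000) (nat_lit 0x4000001800000000000000000000000000000000000000000000000000) (nat_lit 2)
theorem c5402 : QOK q5402 := cut [] trivial (nd (nat_lit 204) (nat_lit 0) (cs (lf (nat_lit 0) (nat_lit 203)) (lf (nat_lit 5) (nat_lit 204)))) q5402 (by decide +kernel)
def q5413 : Q := Q.p (nat_lit 0x2000003000018000000000000000000000000000000000000000000000000000) (nat_lit 0x80000200001c00004c00004000050000000000000000000000000000000000000000000000) (nat_lit 6)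
theorem c5413 : QOK q5413 := cut [] trivial (nd (nat_lit 227) (nat_lit 0) (cs (lf (nat_lit 12) (nat_lit 204)) (nd (nat_lit 252) (nat_lit 0) (cs (lf (nat_lit 3) (nat_lit 227)) (nd (nat_lit 251) (nat_lit 0) (cs (nd (nat_lit 273) (nat_lit 0) (cs (lf (nat_lit 35) (nat_lit 185)) (nd (nat_lit 206) (nat_lit 0) (cs (lf (nat_lit 47) (nat_lit 184)) (lf (nat_lit 42) (nat_lit 206)))))) (lf (nat_lit 21) (nat_lit 227)))))))) q5413 (by decide +kernel)
def q5415 : Q := Q.p (nat_lit 0x8000040000300000c000000000000000000000000000000000000000000000000000) (nat_lit 0x60000100000000000000000000000000000000000000000000000000000000000000000000) (nat_lit 2)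
theorem c5415 : QOK q5415 := cut [] trivial (nd (nat_lit 272) (nat_lit 0) (cs (lf (nat_lit 30) (nat_lit 206)) (lf (nat_lit 41) (nat_lit 205)))) q5415 (by decide +kernel)
def q5427 : Q := Q.p (nat_lit 0x800002000008000020000080000000000000000000000000000000000000000) (nat_lit 0x40000100000400000000000000000000000000000000000) (nat_lit 2)
theorem c5427 : QOK q5427 := cut [] trivial (nd (nat_lit 164) (nat_lit 0) (cs (lf (nat_lit 35) (nat_lit 141)) (lf (nat_lit 34) (nat_lit 163)))) q5427 (by decide +kernel)
def q5436 : Q := Q.p (nat_lit 0x100000800002000008000010000000000000000000000000000000000000000000000) (nat_lit 0x400000000000000020000040000000000000000000000000000000000000000) (nat_lit 2)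
theorem c5436 : QOK q5436 := cut [] trivial (nd (nat_lit 185) (nat_lit 0) (cs (lf (nat_lit 40) (nat_lit 184)) (lf (nat_lit 47) (nat_lit 162)))) q5436 (by decide +kernel)
def q5464 : Q := Q.p (nat_lit 0x7c0000000000000000000000000000000000000000000000000000000000000000000) (nat_lit 0x380000000000000000000000000000000000000000000000000000000000000) (nat_lit 2)
theorem c5464 : QOK q5464 := cut [] trivial (nd (nat_lit 248) (nat_lit 0) (cs (lf (nat_lit 23) (nat_lit 247)) (lf (nat_lit 22) (nat_lit 248)))) q5464 (by decide +kernel)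
def q5481 : Q := Q.p (nat_lit 0x1800002000008000020000000000000000000000000000000000000000000000) (nat_lit 0x4000000000040000180000400000000000000000000000000000000000) (nat_lit 3)
theorem c5481 : QOK q5481 := cut [] trivial (nd (nat_lit 164) (nat_lit 0) (cs (lf (nat_lit 34) (nat_lit 163)) (nd (nat_lit 163) (nat_lit 0) (cs (lf (nat_lit 35) (nat_lit 141)) (lf (nat_lit 28) (nat_lit 163)))))) q5481 (by decide +kernel)
def q5492 : Q := Q.p (nat_lit 0x200002800002000008000000000000000000000000000000000000000000000000000) (nat_lit 0x140000580001000000000000000020000000000000000000000000000000000000000000000) (nat_lit 4)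
theorem c5492 : QOK q5492 := cut [] trivial (nd (nat_lit 272) (nat_lit 0) (cs (lf (nat_lit 41) (nat_lit 206)) (nd (nat_lit 274) (nat_lit 0) (cs (lf (nat_lit 29) (nat_lit 207)) (nd (nat_lit 252) (nat_lit 0) (cs (lf (nat_lit 12) (nat_lit 249)) (lf (nat_lit 24) (nat_lit 185)))))))) q5492 (by decide +kernel)
def q5525 : Q := Q.p (nat_lit 0x200000800002000038000020000000000000000000000000000000000000000000000) (nat_lit 0x80000000000400005800000000000000080000200000000000000000000000000000000000) (nat_lit 4)
theorem c5525 : QOK q5525 := cut [] trivial (nd (nat_lit 230) (nat_lit 0) (cs (lf (nat_lit 30) (nat_lit 207)) (nd (nat_lit 228) (nat_lit 0) (cs (lf (nat_lit 12) (nat_lit 205)) (nd (nat_lit 163) (nat_lit 0) (cs (lf (nat_lit 24) (nat_lit 141)) (lf (nat_lit 41) (nat_lit 162)))))))) q5525 (by decide +kernel)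
def q5533 : Q := Q.p (nat_lit 0x1000004000010000040000100000000000000000000000000000000000000000) (nat_lit 0x200000800002000000000000000000000000000000000000000000000000000000000) (nat_lit 2)
theorem c5533 : QOK q5533 := cut [] trivial (nd (nat_lit 251) (nat_lit 0) (cs (lf (nat_lit 41) (nat_lit 185)) (lf (nat_lit 40) (nat_lit 163)))) q5533 (by decide +kernel)
def q5546 : Q := Q.p (nat_lit 0x180000600001c0000000000000000000000000000000000000000) (nat_lit 0xb00002c0002700001c0000300000c0000000000000000000000000000000000) (nat_lit 9)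
theorem c5546 : QOK q5546 := cut [] trivial (nd (nat_lit 161) (nat_lit 0) (cs (lf (nat_lit 0) (nat_lit 160)) (nd (nat_lit 229) (nat_lit 0) (cs (lf (nat_lit 30) (nat_lit 163)) (nd (nat_lit 138) (nat_lit 0) (cs (lf (nat_lit 22) (nat_lit 138)) (nd (nat_lit 183) (nat_lit 0) (cs (lf (nat_lit 11) (nat_lit 160)) (nd (nat_lit 184) (nat_lit 0) (cs (lf (nat_lit 5) (nat_lit 183)) (nd (nat_lit 205) (nat_lit 0) (cs (lf (nat_lit 11) (nat_lit 182)) (nd (nat_lit 227) (nat_lit 0) (cs (lf (nat_lit 30) (nat_lit 161)) (nd (nat_lit 226) (nat_lit 0) (cs (lf (nat_lit 41) (nat_lit 160)) (lf (nat_lit 8) (nat_lit 204)))))))))))))))))) q5546 (by decide +kernel)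
def q5549 : Q := Q.p (nat_lit 0x8000078000060000000000000000000000000000000000000000) (nat_lit 0x800003000000000000000100000400000000000000000000000000000) (nat_lit 3)
theorem c5549 : QOK q5549 := cut [] trivial (nd (nat_lit 205) (nat_lit 0) (cs (lf (nat_lit 11) (nat_lit 182)) (nd (nat_lit 140) (nat_lit 0) (cs (lf (nat_lit 24) (nat_lit 118)) (lf (nat_lit 30) (nat_lit 139)))))) q5549 (by decide +kernel)
def q5569 : Q := Q.p (nat_lit 0x2000000000018000040000100000400000000000000000000000000000000000) (nat_lit 0x80000e00001800004000000000020000080000a00002800000000000000000000000000000) (nat_lit 7)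
theorem c5569 : QOK q5569 := cut [] trivial (nd (nat_lit 121) (nat_lit 0) (cs (lf (nat_lit 34) (nat_lit 120)) (nd (nat_lit 141) (nat_lit 0) (cs (lf (nat_lit 47) (nat_lit 119)) (nd (nat_lit 230) (nat_lit 0) (cs (lf (nat_lit 46) (nat_lit 141)) (nd (nat_lit 252) (nat_lit 0) (cs (lf (nat_lit 29) (nat_lit 186)) (nd (nat_lit 273) (nat_lit 0) (cs (lf (nat_lit 40) (nat_lit 185)) (nd (nat_lit 274) (nat_lit 0) (cs (lf (nat_lit 41) (nat_lit 207)) (lf (nat_lit 47) (nat_lit 185)))))))))))))) q5569 (by decide +kernel)
def q5630 : Q := Q.p (nat_lit 0x200001a000018000060000000000000000000000000000000000000000000000) (nat_lit 0x300001c00000000000000000000000000000000000000000000000000000000000000) (nat_lit 3)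
theorem c5630 : QOK q5630 := cut [] trivial (nd (nat_lit 251) (nat_lit 0) (cs (lf (nat_lit 30) (nat_lit 185)) (nd (nat_lit 250) (nat_lit 0) (cs (lf (nat_lit 41) (nat_lit 184)) (lf (nat_lit 14) (nat_lit 228)))))) q5630 (by decide +kernel)
def q5668 : Q := Q.p (nat_lit 0x20000000000100003c0000000000000000000000000000000000000000) (nat_lit 0xc000020000000000180000000000000000000000000000000000) (nat_lit 3)
theorem c5668 : QOK q5668 := cut [] trivial (nd (nat_lit 140) (nat_lit 0) (cs (lf (nat_lit 23) (nat_lit 139)) (nd (nat_lit 207) (nat_lit 0) (cs (lf (nat_lit 27) (nat_lit 140)) (lf (nat_lit 44) (nat_lit 140)))))) q5668 (by decide +kernel)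
def q5701 : Q := Q.p (nat_lit 0x18000060000000000600000000000000000000000000000000000) (nat_lit 0x100000000001800000000000000000000000000000) (nat_lit 2)
theorem c5701 : QOK q5701 := cut [] trivial (nd (nat_lit 164) (nat_lit 0) (cs (lf (nat_lit 47) (nat_lit 119)) (lf (nat_lit 36) (nat_lit 119)))) q5701 (by decide +kernel)
def q5702 : Q := Q.p (nat_lit 0x10000040000000000e00000000000000000000000000000000000) (nat_lit 0x100000000002800000000000000000000000000000) (nat_lit 2)
theorem c5702 : QOK q5702 := cut [] trivial (nd (nat_lit 164) (nat_lit 0) (cs (lf (nat_lit 35) (nat_lit 120)) (lf (nat_lit 47) (nat_lit 119)))) q5702 (by decide +kernel)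
def q5707 : Q := Q.p (nat_lit 0xe00000800000000000000000000000000000) (nat_lit 0x1100000700000000000000000000000000000) (nat_lit 3)
theorem c5707 : QOK q5707 := cut [] trivial (nd (nat_lit 118) (nat_lit 0) (cs (nd (nat_lit 117) (nat_lit 0) (cs (lf (nat_lit 0) (nat_lit 116)) (lf (nat_lit 21) (nat_lit 117)))) (lf (nat_lit 18) (nat_lit 118)))) q5707 (by decide +kernel)
def q5711 : Q := Q.p (nat_lit 0xf80000000000000000000000000000000000) (nat_lit 0x700000000000000000000000000000) (nat_lit 2)
theorem c5711 : QOK q5711 := cut [] trivial (nd (nat_lit 117) (nat_lit 0) (cs (lf (nat_lit 22) (nat_lit 117)) (lf (nat_lit 23) (nat_lit 116)))) q5711 (by decide +kernel)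
def q5723 : Q := Q.p (nat_lit 0x3e00000000000000000000000000000000000) (nat_lit 0x1c00000000000000000000000000000) (nat_lit 2)
theorem c5723 : QOK q5723 := cut [] trivial (nd (nat_lit 119) (nat_lit 0) (cs (lf (nat_lit 23) (nat_lit 118)) (lf (nat_lit 22) (nat_lit 119)))) q5723 (by decide +kernel)
def q5746 : Q := Q.p (nat_lit 0x800001c00008000000000000000000000000000000) (nat_lit 0x1000002000010000000000000000000000000000000) (nat_lit 2)
theorem c5746 : QOK q5746 := cut [] trivial (nd (nat_lit 145) (nat_lit 0) (cs (lf (nat_lit 5) (nat_lit 142)) (lf (nat_lit 17) (nat_lit 120)))) q5746 (by decide +kernel)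
def q5768 : Q := Q.p (nat_lit 0xf80000000000000000000000000000000000) (nat_lit 0x7000000000000000000000000000000) (nat_lit 2)
theorem c5768 : QOK q5768 := cut [] trivial (nd (nat_lit 121) (nat_lit 0) (cs (lf (nat_lit 17) (nat_lit 118)) (lf (nat_lit 16) (nat_lit 117)))) q5768 (by decide +kernel)
def q5780 : Q := Q.p (nat_lit 0x1e00000000000000000000000000000000000) (nat_lit 0x10000ee00000000000000000000000000000) (nat_lit 4)
theorem c5780 : QOK q5780 := cut [] trivial (nd (nat_lit 118) (nat_lit 0) (cs (lf (nat_lit 22) (nat_lit 118)) (nd (nat_lit 122) (nat_lit 0) (cs (lf (nat_lit 17) (nat_lit 119)) (nd (nat_lit 140) (nat_lit 0) (cs (lf (nat_lit 23) (nat_lit 117)) (lf (nat_lit 16) (nat_lit 118)))))))) q5780 (by decide +kernel)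
def q5802 : Q := Q.p (nat_lit 0x18000060000000000c00000000000000000000000000000000000) (nat_lit 0x100000000003000000000000000000000000000000) (nat_lit 2)
theorem c5802 : QOK q5802 := cut [] trivial (nd (nat_lit 164) (nat_lit 0) (cs (lf (nat_lit 35) (nat_lit 120)) (lf (nat_lit 36) (nat_lit 119)))) q5802 (by decide +kernel)
def q5805 : Q := Q.p (nat_lit 0x18000060000000000600000000000000000000000000000000000) (nat_lit 0x80000000001800000000000000000000000000000) (nat_lit 2)
theorem c5805 : QOK q5805 := cut [] trivial (nd (nat_lit 163) (nat_lit 0) (cs (lf (nat_lit 24) (nat_lit 119)) (lf (nat_lit 35) (nat_lit 119)))) q5805 (by decide +kernel)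
def q5807 : Q := Q.p (nat_lit 0x10000060000000000600000000000000000000000000000000000) (nat_lit 0x180000000000800000000000000000000000000000) (nat_lit 2)
theorem c5807 : QOK q5807 := cut [] trivial (nd (nat_lit 119) (nat_lit 0) (cs (lf (nat_lit 44) (nat_lit 119)) (lf (nat_lit 26) (nat_lit 119)))) q5807 (by decide +kernel)
def q5824 : Q := Q.p (nat_lit 0x18000060000080000200000000000000000000000000000000000) (nat_lit 0x2000000000000000700000580001400000000000000000000000000000) (nat_lit 5)
theorem c5824 : QOK q5824 := cut [] trivial (nd (nat_lit 140) (nat_lit 0) (cs (lf (nat_lit 47) (nat_lit 118)) (nd (nat_lit 142) (nat_lit 0) (cs (lf (nat_lit 35) (nat_lit 119)) (nd (nat_lit 164) (nat_lit 0) (cs (lf (nat_lit 41) (nat_lit 141)) (nd (nat_lit 165) (nat_lit 0) (cs (lf (nat_lit 0) (nat_lit 139)) (lf (nat_lit 18) (nat_lit 140)))))))))) q5824 (by decide +kernel)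
def q5832 : Q := Q.p (nat_lit 0x18000060000180000000000000000000000000000000000000000) (nat_lit 0x6400003c0000c00000000000000000000000000000) (nat_lit 5)
theorem c5832 : QOK q5832 := cut [] trivial (nd (nat_lit 141) (nat_lit 0) (cs (lf (nat_lit 24) (nat_lit 119)) (nd (nat_lit 140) (nat_lit 0) (cs (lf (nat_lit 47) (nat_lit 118)) (nd (nat_lit 139) (nat_lit 0) (cs (lf (nat_lit 0) (nat_lit 138)) (nd (nat_lit 165) (nat_lit 0) (cs (lf (nat_lit 18) (nat_lit 140)) (lf (nat_lit 21) (nat_lit 139)))))))))) q5832 (by decide +kernel)
def q5850 : Q := Q.p (nat_lit 0x70000060000000000000000000000000000000000000000000000) (nat_lit 0x8000090000000000000000000000000000000000000000000000) (nat_lit 2)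
theorem c5850 : QOK q5850 := cut [] trivial (nd (nat_lit 184) (nat_lit 0) (cs (lf (nat_lit 21) (nat_lit 184)) (lf (nat_lit 3) (nat_lit 184)))) q5850 (by decide +kernel)
def q5853 : Q := Q.p (nat_lit 0x4000010000060000080000000000000000000000000000000000) (nat_lit 0x100000200000800000000000000000000000) (nat_lit 2)
theorem c5853 : QOK q5853 := cut [] trivial (nd (nat_lit 117) (nat_lit 0) (cs (lf (nat_lit 24) (nat_lit 95)) (lf (nat_lit 45) (nat_lit 117)))) q5853 (by decide +kernel)
def q5865 : Q := Q.p (nat_lit 0x10000070000040000100000800000000000000000000000000000) (nat_lit 0x4000000000080000200000000000000000000000000000000000) (nat_lit 2)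
theorem c5865 : QOK q5865 := cut [] trivial (nd (nat_lit 141) (nat_lit 0) (cs (lf (nat_lit 26) (nat_lit 119)) (lf (nat_lit 30) (nat_lit 118)))) q5865 (by decide +kernel)
def q5868 : Q := Q.p (nat_lit 0x10000040000100000400001000000000000000000000000) (nat_lit 0x200000800002000000000000000000) (nat_lit 2)
theorem c5868 : QOK q5868 := cut [] trivial (nd (nat_lit 95) (nat_lit 0) (cs (lf (nat_lit 46) (nat_lit 95)) (lf (nat_lit 47) (nat_lit 73)))) q5868 (by decide +kernel)
def q5874 : Q := Q.p (nat_lit 0x10000040000100000800000000000000000000000000000) (nat_lit 0x4000000000000000200000400002000008000000000000000000) (nat_lit 3)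
theorem c5874 : QOK q5874 := cut [] trivial (nd (nat_lit 97) (nat_lit 0) (cs (nd (nat_lit 141) (nat_lit 0) (cs (lf (nat_lit 30) (nat_lit 118)) (lf (nat_lit 36) (nat_lit 74)))) (lf (nat_lit 33) (nat_lit 96)))) q5874 (by decide +kernel)
def q5877 : Q := Q.p (nat_lit 0x10000040000100000400000800000000000000000000000) (nat_lit 0x80000300000a000000000000000000) (nat_lit 3)
theorem c5877 : QOK q5877 := cut [] trivial (nd (nat_lit 97) (nat_lit 0) (cs (lf (nat_lit 34) (nat_lit 96)) (nd (nat_lit 96) (nat_lit 0) (cs (lf (nat_lit 35) (nat_lit 74)) (lf (nat_lit 47) (nat_lit 73)))))) q5877 (by decide +kernel)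
def q5880 : Q := Q.p (nat_lit 0x80002c00001000004000000000000000000000000000000000000000000000000000) (nat_lit 0x20000100001000000000000000000000000000000000000000000000000000000000000000) (nat_lit 2)
theorem c5880 : QOK q5880 := cut [] trivial (nd (nat_lit 272) (nat_lit 0) (cs (lf (nat_lit 7) (nat_lit 249)) (lf (nat_lit 41) (nat_lit 205)))) q5880 (by decide +kernel)
def q5938 : Q := Q.p (nat_lit 0x2000018000070000000000000000000000000000000000000000000000) (nat_lit 0x200000800000000000000000000040000000000000000000000000000000000000000) (nat_lit 2)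
theorem c5938 : QOK q5938 := cut [] trivial (nd (nat_lit 251) (nat_lit 0) (cs (lf (nat_lit 30) (nat_lit 185)) (lf (nat_lit 47) (nat_lit 162)))) q5938 (by decide +kernel)
def q5952 : Q := Q.p (nat_lit 0x2000004000018000060000000000000000000000000000000000000000000000) (nat_lit 0xc00001000000000000000000000000000000000000000000000000000000000000000) (nat_lit 2)
theorem c5952 : QOK q5952 := cut [] trivial (nd (nat_lit 252) (nat_lit 0) (cs (lf (nat_lit 29) (nat_lit 186)) (lf (nat_lit 42) (nat_lit 185)))) q5952 (by decide +kernel)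
def q5964 : Q := Q.p (nat_lit 0xc000030000040000200000000000000000000000000000000000) (nat_lit 0x100000c00000000000000000000000000000) (nat_lit 2)
theorem c5964 : QOK q5964 := cut [] trivial (nd (nat_lit 140) (nat_lit 0) (cs (lf (nat_lit 24) (nat_lit 118)) (lf (nat_lit 35) (nat_lit 118)))) q5964 (by decide +kernel)
def q5968 : Q := Q.p (nat_lit 0x4000018000060000000000000000000000000000000000000000) (nat_lit 0x1000000000000000000000080000200000000000000000000000000000) (nat_lit 2)
theorem c5968 : QOK q5968 := cut [] trivial (nd (nat_lit 139) (nat_lit 0) (cs (lf (nat_lit 24) (nat_lit 117)) (lf (nat_lit 42) (nat_lit 139)))) q5968 (by decide +kernel)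
def q5989 : Q := Q.p (nat_lit 0x4000018000070000040000000000000000000000000000000000000000) (nat_lit 0x200008c0000700000c000000000000000000000000000000000000000000000) (nat_lit 5)
theorem c5989 : QOK q5989 := cut [] trivial (nd (nat_lit 183) (nat_lit 0) (cs (lf (nat_lit 0) (nat_lit 182)) (nd (nat_lit 205) (nat_lit 0) (cs (lf (nat_lit 11) (nat_lit 182)) (nd (nat_lit 227) (nat_lit 0) (cs (lf (nat_lit 30) (nat_lit 161)) (nd (nat_lit 206) (nat_lit 0) (cs (lf (nat_lit 11) (nat_lit 204)) (lf (nat_lit 5) (nat_lit 205)))))))))) q5989 (by decide +kernel)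
def q6003 : Q := Q.p (nat_lit 0x200004800002000008000000000000000000000000000000000000000000000) (nat_lit 0x140000d00003000000000000000000000000000000000000000000000000000000000) (nat_lit 4)
theorem c6003 : QOK q6003 := cut [] trivial (nd (nat_lit 250) (nat_lit 0) (cs (lf (nat_lit 29) (nat_lit 183)) (nd (nat_lit 248) (nat_lit 0) (cs (lf (nat_lit 41) (nat_lit 182)) (nd (nat_lit 229) (nat_lit 0) (cs (lf (nat_lit 15) (nat_lit 226)) (lf (nat_lit 8) (nat_lit 226)))))))) q6003 (by decide +kernel)
def q6043 : Q := Q.p (nat_lit 0xe0000440000000000000000000000000000000000000000000000) (nat_lit 0x100000880000000000000000000000000000000000000000000000) (nat_lit 2)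
theorem c6043 : QOK q6043 := cut [] trivial (nd (nat_lit 212) (nat_lit 0) (cs (lf (nat_lit 17) (nat_lit 187)) (lf (nat_lit 22) (nat_lit 186)))) q6043 (by decide +kernel)
def q6086 : Q := Q.p (nat_lit 0x40000300000c000000000000000000000000000000000000000000000000000) (nat_lit 0x40000100000000000000000000020000000000000000000000000000000000000000000000) (nat_lit 2)
theorem c6086 : QOK q6086 := cut [] trivial (nd (nat_lit 272) (nat_lit 0) (cs (lf (nat_lit 30) (nat_lit 206)) (lf (nat_lit 35) (nat_lit 184)))) q6086 (by decide +kernel)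
def q6106 : Q := Q.p (nat_lit 0x1e000018000040000000000000000000000000000000000000000) (nat_lit 0x200000c00000000000000000000000000000000000000000000000000000000) (nat_lit 2)
theorem c6106 : QOK q6106 := cut [] trivial (nd (nat_lit 227) (nat_lit 0) (cs (lf (nat_lit 11) (nat_lit 204)) (lf (nat_lit 30) (nat_lit 161)))) q6106 (by decide +kernel)
def q6133 : Q := Q.p (nat_lit 0x2000000000030000040000100000000000000000000000000000000000000000) (nat_lit 0x800000000008000000000080000000000000000000000000000000000000000000000) (nat_lit 2)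
theorem c6133 : QOK q6133 := cut [] trivial (nd (nat_lit 231) (nat_lit 0) (cs (lf (nat_lit 45) (nat_lit 164)) (lf (nat_lit 42) (nat_lit 186)))) q6133 (by decide +kernel)
def q6150 : Q := Q.p (nat_lit 0x140000e00000000000000000000000000000000000) (nat_lit 0x620000180000000000000000000000000000000000) (nat_lit 3)
theorem c6150 : QOK q6150 := cut [] trivial (nd (nat_lit 140) (nat_lit 0) (cs (lf (nat_lit 11) (nat_lit 139)) (nd (nat_lit 165) (nat_lit 0) (cs (lf (nat_lit 5) (nat_lit 140)) (lf (nat_lit 0) (nat_lit 139)))))) q6150 (by decide +kernel)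
def q6157 : Q := Q.p (nat_lit 0x20000000000000001e00000000000000000000000000000000000) (nat_lit 0x80000e0000010000c000000000000000000000000000000) (nat_lit 4)
theorem c6157 : QOK q6157 := cut [] trivial (nd (nat_lit 122) (nat_lit 0) (cs (lf (nat_lit 17) (nat_lit 119)) (nd (nat_lit 166) (nat_lit 0) (cs (lf (nat_lit 5) (nat_lit 141)) (nd (nat_lit 165) (nat_lit 0) (cs (lf (nat_lit 31) (nat_lit 121)) (lf (nat_lit 0) (nat_lit 140)))))))) q6157 (by decide +kernel)
def q6164 : Q := Q.p (nat_lit 0x10000040000160000c00000000000000000000000000000000000) (nat_lit 0x300000800000000000000000000000000000) (nat_lit 2)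
theorem c6164 : QOK q6164 := cut [] trivial (nd (nat_lit 141) (nat_lit 0) (cs (lf (nat_lit 47) (nat_lit 119)) (lf (nat_lit 9) (nat_lit 139)))) q6164 (by decide +kernel)
def q6174 : Q := Q.p (nat_lit 0x60000380000000000000000000000000000000000000000) (nat_lit 0x10000c00000000000000000000000000000000000000000) (nat_lit 2)
theorem c6174 : QOK q6174 := cut [] trivial (nd (nat_lit 166) (nat_lit 0) (cs (lf (nat_lit 6) (nat_lit 163)) (lf (nat_lit 11) (nat_lit 162)))) q6174 (by decide +kernel)
def q6184 : Q := Q.p (nat_lit 0x20000080000200000c0000000000000000000000000000000000000000) (nat_lit 0x100000c00001000000000010000000000000000000000000000000000000000000000) (nat_lit 3)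
theorem c6184 : QOK q6184 := cut [] trivial (nd (nat_lit 250) (nat_lit 0) (cs (lf (nat_lit 40) (nat_lit 162)) (nd (nat_lit 251) (nat_lit 0) (cs (lf (nat_lit 41) (nat_lit 184)) (lf (nat_lit 46) (nat_lit 162)))))) q6184 (by decide +kernel)
def q6216 : Q := Q.p (nat_lit 0x8000000000080000f0000000000000000000000000000000000000000000000) (nat_lit 0x2000000000000000060000000000000000000000000000000000000000) (nat_lit 2)
theorem c6216 : QOK q6216 := cut [] trivial (nd (nat_lit 162) (nat_lit 0) (cs (lf (nat_lit 23) (nat_lit 161)) (lf (nat_lit 43) (nat_lit 162)))) q6216 (by decide +kernel)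
def q6230 : Q := Q.p (nat_lit 0x800002000018000020000000000000000000000000000000000000000000000) (nat_lit 0x200000000000000000000040000100000000000000000000000000000000000000000) (nat_lit 2)
theorem c6230 : QOK q6230 := cut [] trivial (nd (nat_lit 186) (nat_lit 0) (cs (lf (nat_lit 30) (nat_lit 185)) (lf (nat_lit 35) (nat_lit 163)))) q6230 (by decide +kernel)
def q6232 : Q := Q.p (nat_lit 0x800003000008000020000000000000000000000000000000000000000000000000000) (nat_lit 0x100000400000000000000000000080000000000000000000000000000000000000000000000) (nat_lit 2)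
theorem c6232 : QOK q6232 := cut [] trivial (nd (nat_lit 274) (nat_lit 0) (cs (lf (nat_lit 36) (nat_lit 186)) (lf (nat_lit 41) (nat_lit 208)))) q6232 (by decide +kernel)
def q6239 : Q := Q.p (nat_lit 0x800000000018000060000000000000000000000000000000000000000000000) (nat_lit 0x200000000002000000000000000100000000000000000000000000000000000000000) (nat_lit 2)
theorem c6239 : QOK q6239 := cut [] trivial (nd (nat_lit 229) (nat_lit 0) (cs (lf (nat_lit 30) (nat_lit 185)) (lf (nat_lit 35) (nat_lit 163)))) q6239 (by decide +kernel)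
def q6257 : Q := Q.p (nat_lit 0x3800000000018000020000000000000000000000000000000000000000000000) (nat_lit 0x1de000070001bc0000200001c000040000000000000000000000000000000000000000) (nat_lit 11)
theorem c6257 : QOK q6257 := cut [] trivial (nd (nat_lit 229) (nat_lit 0) (cs (lf (nat_lit 29) (nat_lit 185)) (nd (nat_lit 184) (nat_lit 0) (cs (lf (nat_lit 47) (nat_lit 162)) (nd (nat_lit 183) (nat_lit 0) (cs (lf (nat_lit 0) (nat_lit 182)) (nd (nat_lit 250) (nat_lit 0) (cs (lf (nat_lit 41) (nat_lit 184)) (nd (nat_lit 275) (nat_lit 0) (cs (lf (nat_lit 5) (nat_lit 250)) (nd (nat_lit 231) (nat_lit 0) (cs (lf (nat_lit 17) (nat_lit 228)) (nd (nat_lit 227) (nat_lit 0) (cs (lf (nat_lit 22) (nat_lit 227)) (nd (nat_lit 249) (nat_lit 0) (cs (lf (nat_lit 23) (nat_lit 226)) (nd (nat_lit 270) (nat_lit 0) (cs (nd (nat_lit 248) (nat_lit 0) (cs (lf (nat_lit 37) (nat_lit 182)) (lf (nat_lit 11) (nat_lit 247)))) (lf (nat_lit 10) (nat_lit 248)))))))))))))))))))) q6257 (by decide +kernel)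
def q6262 : Q := Q.p (nat_lit 0x1c00008800000000000000000000000000000000000000000000000000000000) (nat_lit 0x200004400000000000000000000000000000000000000000000000000000000) (nat_lit 2)
theorem c6262 : QOK q6262 := cut [] trivial (nd (nat_lit 249) (nat_lit 0) (cs (lf (nat_lit 23) (nat_lit 226)) (lf (nat_lit 16) (nat_lit 227)))) q6262 (by decide +kernel)
def q6269 : Q := Q.p (nat_lit 0x1800000000018000020000000000000000000000000000000000000000000000) (nat_lit 0x400000000006000000000000000000000000000000000000000000000000000000000) (nat_lit 2)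
theorem c6269 : QOK q6269 := cut [] trivial (nd (nat_lit 274) (nat_lit 0) (cs (lf (nat_lit 26) (nat_lit 185)) (lf (nat_lit 44) (nat_lit 185)))) q6269 (by decide +kernel)
def q6275 : Q := Q.p (nat_lit 0x1800000000018000040000000000000000000000000000000000000000000000) (nat_lit 0x200000000006000000000000000000000000000000000000000000000000000000000) (nat_lit 2)
theorem c6275 : QOK q6275 := cut [] trivial (nd (nat_lit 273) (nat_lit 0) (cs (lf (nat_lit 32) (nat_lit 185)) (lf (nat_lit 38) (nat_lit 185)))) q6275 (by decide +kernel)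
def q6285 : Q := Q.p (nat_lit 0x200000e0000000000000000000000000000000000000000) (nat_lit 0x57000018000000000000000000000000000000000000000) (nat_lit 4)
theorem c6285 : QOK q6285 := cut [] trivial (nd (nat_lit 160) (nat_lit 0) (cs (nd (nat_lit 181) (nat_lit 0) (cs (lf (nat_lit 10) (nat_lit 159)) (nd (nat_lit 159) (nat_lit 0) (cs (lf (nat_lit 4) (nat_lit 159)) (lf (nat_lit 11) (nat_lit 158)))))) (lf (nat_lit 5) (nat_lit 160)))) q6285 (by decide +kernel)
def q6290 : Q := Q.p (nat_lit 0x200001e0000000000000000000000000000000000000000) (nat_lit 0x1d0000600003800000000000000000000000000000000000) (nat_lit 5)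
theorem c6290 : QOK q6290 := cut [] trivial (nd (nat_lit 187) (nat_lit 0) (cs (nd (nat_lit 165) (nat_lit 0) (cs (lf (nat_lit 5) (nat_lit 162)) (nd (nat_lit 144) (nat_lit 0) (cs (lf (nat_lit 16) (nat_lit 140)) (nd (nat_lit 166) (nat_lit 0) (cs (lf (nat_lit 17) (nat_lit 141)) (lf (nat_lit 11) (nat_lit 162)))))))) (lf (nat_lit 4) (nat_lit 161)))) q6290 (by decide +kernel)
def q6296 : Q := Q.p (nat_lit 0x40000e0000040000000000000000000000000000000000) (nat_lit 0x2000010000020000000000000000000000000000000000) (nat_lit 2)
theorem c6296 : QOK q6296 := cut [] trivial (nd (nat_lit 160) (nat_lit 0) (cs (lf (nat_lit 23) (nat_lit 137)) (lf (nat_lit 11) (nat_lit 159)))) q6296 (by decide +kernel)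
def q6302 : Q := Q.p (nat_lit 0xf8000000000000000000000000000000000000000) (nat_lit 0x70000000000000000000000000000000000) (nat_lit 2)
theorem c6302 : QOK q6302 := cut [] trivial (nd (nat_lit 137) (nat_lit 0) (cs (lf (nat_lit 23) (nat_lit 136)) (lf (nat_lit 22) (nat_lit 137)))) q6302 (by decide +kernel)
def q6312 : Q := Q.p (nat_lit 0x40000100000c000020000000000000000000000000000000000000000) (nat_lit 0x2000000000000000080000200000000000000000000000000000) (nat_lit 2)
theorem c6312 : QOK q6312 := cut [] trivial (nd (nat_lit 139) (nat_lit 0) (cs (lf (nat_lit 36) (nat_lit 116)) (lf (nat_lit 39) (nat_lit 138)))) q6312 (by decide +kernel)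
def q6326 : Q := Q.p (nat_lit 0x18000068000000000000000000000000000000000000000000000) (nat_lit 0x20000014000000000000000000000000000000000000000000000) (nat_lit 2)
theorem c6326 : QOK q6326 := cut [] trivial (nd (nat_lit 184) (nat_lit 0) (cs (lf (nat_lit 0) (nat_lit 182)) (lf (nat_lit 5) (nat_lit 183)))) q6326 (by decide +kernel)
def q6330 : Q := Q.p (nat_lit 0x600000e0000000000000000000000000000000000000000) (nat_lit 0x180000100000000000000000000000000000000000000000) (nat_lit 2)
theorem c6330 : QOK q6330 := cut [] trivial (nd (nat_lit 187) (nat_lit 0) (cs (lf (nat_lit 18) (nat_lit 162)) (lf (nat_lit 3) (nat_lit 161)))) q6330 (by decide +kernel)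
def q6347 : Q := Q.p (nat_lit 0x100000380001000000000000000000000000000000000000) (nat_lit 0x200000400002000000000000000000000000000000000000) (nat_lit 2)
theorem c6347 : QOK q6347 := cut [] trivial (nd (nat_lit 166) (nat_lit 0) (cs (lf (nat_lit 5) (nat_lit 163)) (lf (nat_lit 17) (nat_lit 141)))) q6347 (by decide +kernel)
def q6360 : Q := Q.p (nat_lit 0x20000780000000000000000000000000000000000000000) (nat_lit 0x740000800000000000000000000000000000000000000000) (nat_lit 3)
theorem c6360 : QOK q6360 := cut [] trivial (nd (nat_lit 189) (nat_lit 0) (cs (lf (nat_lit 4) (nat_lit 163)) (nd (nat_lit 167) (nat_lit 0) (cs (lf (nat_lit 5) (nat_lit 164)) (lf (nat_lit 10) (nat_lit 163)))))) q6360 (by decide +kernel)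

end Crest.Agent.H3.Snaky.CR
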