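import Crest.Agent.H3.Snaky.Cert

set_option autoImplicit false
set_option maxRecDepth 100000

namespace Crest.Agent.H3.Snaky.CR

open T

def q44099 : Q := Q.p (nat_lit 0x8000020000080000200000800000000000000000000000000000000000000000000000000000000) (nat_lit 0x100000400001000000000000000000000000000000000000000000000000000) (nat_lit 2)
theorem c44099 : QOK q44099 := cut [] trivial (nd (nat_lit 226) (nat_lit 0) (cs (lf (nat_lit 47) (nat_lit 204)) (lf (nat_lit 46) (nat_lit 226)))) q44099 (by decide +kernel)
def q44111 : Q := Q.p (nat_lit 0x1c0000180000000000000000000000000000000000000000000000000000000000000000000) (nat_lit 0x20000060000000000000000000000000000000000000000000000000000000000000000000) (nat_lit 2)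
theorem c44111 : QOK q44111 := cut [] trivial (nd (nat_lit 270) (nat_lit 0) (cs (lf (nat_lit 0) (nat_lit 269)) (lf (nat_lit 21) (nat_lit 270)))) q44111 (by decide +kernel)
def q44153 : Q := Q.p (nat_lit 0xc0000780000000000000000000000000000000000000000000000000000000000000000000000000) (nat_lit 0x1800007000000000000000000000000000000000000000000000000000000000000000000000) (nat_lit 3)
theorem c44153 : QOK q44153 := cut [] trivial (nd (nat_lit 277) (nat_lit 0) (cs (lf (nat_lit 16) (nat_lit 273)) (nd (nat_lit 299) (nat_lit 0) (cs (lf (nat_lit 6) (nat_lit 296)) (lf (nat_lit 17) (nat_lit 274)))))) q44153 (by decide +kernel)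
def q44158 : Q := Q.p (nat_lit 0xa00001000004000010000000000000000000000000000000000000000000000000000000000000000000000000000000) (nat_lit 0x280000400000000000000000000000000000000000000000000000000000000000000000000000000000000000000000000000) (nat_lit 2)
theorem c44158 : QOK q44158 := cut [] trivial (nd (nat_lit 382) (nat_lit 0) (cs (lf (nat_lit 29) (nat_lit 316)) (lf (nat_lit 41) (nat_lit 315)))) q44158 (by decide +kernel)
def q44179 : Q := Q.p (nat_lit 0xc00001c0000000000000000000000000000000000000000000000000000000000000000000000000) (nat_lit 0x120000200000000000000000000000000000000000000000000000000000000000000000000000000) (nat_lit 2)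
theorem c44179 : QOK q44179 := cut [] trivial (nd (nat_lit 320) (nat_lit 0) (cs (lf (nat_lit 21) (nat_lit 294)) (lf (nat_lit 3) (nat_lit 294)))) q44179 (by decide +kernel)
def q44321 : Q := Q.p (nat_lit 0x20000040000100000400000800000000000000000000000000000000000000000000000000000000000000) (nat_lit 0x8000010000000000000000200000000000000000000000000000000000000000000000000000000000000000000) (nat_lit 2)
theorem c44321 : QOK q44321 := cut [] trivial (nd (nat_lit 340) (nat_lit 0) (cs (lf (nat_lit 29) (nat_lit 274)) (lf (nat_lit 46) (nat_lit 251)))) q44321 (by decide +kernel)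
def q44360 : Q := Q.p (nat_lit 0x10000050000100000400000000000000000000000000000000000000000000000000000000000000000000000000) (nat_lit 0xa000068000028000000000000000000000000000000000000000000000000000000000000000000000000000000000000) (nat_lit 4)
theorem c44360 : QOK q44360 := cut [] trivial (nd (nat_lit 363) (nat_lit 0) (cs (lf (nat_lit 41) (nat_lit 297)) (nd (nat_lit 365) (nat_lit 0) (cs (lf (nat_lit 29) (nat_lit 298)) (nd (nat_lit 341) (nat_lit 0) (cs (lf (nat_lit 0) (nat_lit 339)) (lf (nat_lit 18) (nat_lit 340)))))))) q44360 (by decide +kernel)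
def q44364 : Q := Q.p (nat_lit 0x10000040000100000400001000000000000000000000000000000000000000000000000000000000000000000000) (nat_lit 0x2000008000020000000000000000000000000000000000000000000000000000000000000000000000000000000000000) (nat_lit 2)
theorem c44364 : QOK q44364 := cut [] trivial (nd (nat_lit 363) (nat_lit 0) (cs (lf (nat_lit 41) (nat_lit 297)) (lf (nat_lit 40) (nat_lit 275)))) q44364 (by decide +kernel)
def q44386 : Q := Q.p (nat_lit 0x800003400008000000000000000000000000000000000000000000000000000000000) (nat_lit 0x1000000800010000000000000000000000000000000000000000000000000000000000) (nat_lit 2)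
theorem c44386 : QOK q44386 := cut [] trivial (nd (nat_lit 251) (nat_lit 0) (cs (lf (nat_lit 17) (nat_lit 228)) (lf (nat_lit 5) (nat_lit 250)))) q44386 (by decide +kernel)
def q44432 : Q := Q.p (nat_lit 0x50000080000200000800000000000000000000000000000000000000000000000000000000000000) (nat_lit 0x14000020000000000000000000000000000000000000000000000000000000000000000000000000000000) (nat_lit 2)
theorem c44432 : QOK q44432 := cut [] trivial (nd (nat_lit 317) (nat_lit 0) (cs (lf (nat_lit 41) (nat_lit 250)) (lf (nat_lit 29) (nat_lit 251)))) q44432 (by decide +kernel)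
def q44444 : Q := Q.p (nat_lit 0x40000080000300000c00000000000000000000000000000000000000000000000000000000000000) (nat_lit 0x18000020000000000000000000000000000000000000000000000000000000000000000000000000000000) (nat_lit 2)
theorem c44444 : QOK q44444 := cut [] trivial (nd (nat_lit 317) (nat_lit 0) (cs (lf (nat_lit 29) (nat_lit 251)) (lf (nat_lit 42) (nat_lit 250)))) q44444 (by decide +kernel)
def q44471 : Q := Q.p (nat_lit 0x20000040000300000c00000000000000000000000000000000000000000000000000000000000000) (nat_lit 0xc000010000000000000000000000000000000000000000000000000000000000000000000000000000000) (nat_lit 2)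
theorem c44471 : QOK q44471 := cut [] trivial (nd (nat_lit 316) (nat_lit 0) (cs (lf (nat_lit 30) (nat_lit 250)) (lf (nat_lit 29) (nat_lit 250)))) q44471 (by decide +kernel)
def q44496 : Q := Q.p (nat_lit 0x100003400001000004000000000000000000000000000000000000000000000000000) (nat_lit 0xa0000680000000000000000000000000000000000000000000000000000000000000000000) (nat_lit 3)
theorem c44496 : QOK q44496 := cut [] trivial (nd (nat_lit 273) (nat_lit 0) (cs (lf (nat_lit 29) (nat_lit 206)) (nd (nat_lit 271) (nat_lit 0) (cs (lf (nat_lit 41) (nat_lit 205)) (lf (nat_lit 15) (nat_lit 249)))))) q44496 (by decide +kernel)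
def q44498 : Q := Q.p (nat_lit 0xc0000380000000000000000000000000000000000000000000000000000000000000000000) (nat_lit 0x100000060000000000000000000000000000000000000000000000000000000000000000000) (nat_lit 2)
theorem c44498 : QOK q44498 := cut [] trivial (nd (nat_lit 270) (nat_lit 0) (cs (lf (nat_lit 5) (nat_lit 270)) (lf (nat_lit 0) (nat_lit 269)))) q44498 (by decide +kernel)
def q44501 : Q := Q.p (nat_lit 0x1c0000100000400001000000000000000000000000000000000000000000000000000000000) (nat_lit 0x80002200000c0000000000000000000000000000000000000000000000000000000000000000000) (nat_lit 3)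
theorem c44501 : QOK q44501 := cut [] trivial (nd (nat_lit 271) (nat_lit 0) (cs (lf (nat_lit 18) (nat_lit 271)) (nd (nat_lit 293) (nat_lit 0) (cs (lf (nat_lit 41) (nat_lit 227)) (lf (nat_lit 23) (nat_lit 270)))))) q44501 (by decide +kernel)
def q44502 : Q := Q.p (nat_lit 0x180000180003000000000000000000000000000000000000000000000000000000000000000) (nat_lit 0x640000000000000000000000000000000000000000000000000000000000000000000) (nat_lit 2)
theorem c44502 : QOK q44502 := cut [] trivial (nd (nat_lit 273) (nat_lit 0) (cs (lf (nat_lit 15) (nat_lit 249)) (lf (nat_lit 0) (nat_lit 270)))) q44502 (by decide +kernel)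
def q44506 : Q := Q.p (nat_lit 0x1e0000400003000000000000000000000000000000000000000000000000000000000000000) (nat_lit 0xc0000000000000000000008000000000000000000000000000000000000000000000000000000000) (nat_lit 2)
theorem c44506 : QOK q44506 := cut [] trivial (nd (nat_lit 318) (nat_lit 0) (cs (lf (nat_lit 35) (nat_lit 230)) (lf (nat_lit 5) (nat_lit 293)))) q44506 (by decide +kernel)
def q44539 : Q := Q.p (nat_lit 0x10000040000000000e000040000000000000000000000000000000000000000000000) (nat_lit 0x1000001000020000000000000000000000000000000000000000000000) (nat_lit 2)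
theorem c44539 : QOK q44539 := cut [] trivial (nd (nat_lit 185) (nat_lit 0) (cs (lf (nat_lit 12) (nat_lit 182)) (lf (nat_lit 32) (nat_lit 184)))) q44539 (by decide +kernel)
def q44542 : Q := Q.p (nat_lit 0x10000040000000001e000000000000000000000000000000000000000000000000000) (nat_lit 0x200000c0000000000c000000000000000000000000000000000000000000000) (nat_lit 3)
theorem c44542 : QOK q44542 := cut [] trivial (nd (nat_lit 227) (nat_lit 0) (cs (lf (nat_lit 11) (nat_lit 204)) (nd (nat_lit 183) (nat_lit 0) (cs (lf (nat_lit 23) (nat_lit 182)) (lf (nat_lit 27) (nat_lit 183)))))) q44542 (by decide +kernel)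
def q44549 : Q := Q.p (nat_lit 0x100000400001000004000040000000000000000000000000000000000000000000000) (nat_lit 0x80000b80000e0000080000000000000000000000000000000000) (nat_lit 5)
theorem c44549 : QOK q44549 := cut [] trivial (nd (nat_lit 185) (nat_lit 0) (cs (lf (nat_lit 34) (nat_lit 184)) (nd (nat_lit 184) (nat_lit 0) (cs (lf (nat_lit 35) (nat_lit 162)) (nd (nat_lit 161) (nat_lit 0) (cs (lf (nat_lit 46) (nat_lit 161)) (nd (nat_lit 162) (nat_lit 0) (cs (lf (nat_lit 47) (nat_lit 139)) (lf (nat_lit 18) (nat_lit 161)))))))))) q44549 (by decide +kernel)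
def q44553 : Q := Q.p (nat_lit 0x7800001000000000000000000000000000000000000000000000) (nat_lit 0x380000400000800000000000000000000000000000000000000000000) (nat_lit 3)
theorem c44553 : QOK q44553 := cut [] trivial (nd (nat_lit 224) (nat_lit 0) (cs (lf (nat_lit 10) (nat_lit 202)) (nd (nat_lit 202) (nat_lit 0) (cs (lf (nat_lit 23) (nat_lit 179)) (lf (nat_lit 11) (nat_lit 201)))))) q44553 (by decide +kernel)
def q44557 : Q := Q.p (nat_lit 0x7800000000000000000000000000000000000000000000000000) (nat_lit 0x40003b800000000000000000000000000000000000000000000) (nat_lit 4)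
theorem c44557 : QOK q44557 := cut [] trivial (nd (nat_lit 180) (nat_lit 0) (cs (lf (nat_lit 22) (nat_lit 180)) (nd (nat_lit 184) (nat_lit 0) (cs (lf (nat_lit 17) (nat_lit 181)) (nd (nat_lit 202) (nat_lit 0) (cs (lf (nat_lit 23) (nat_lit 179)) (lf (nat_lit 16) (nat_lit 180)))))))) q44557 (by decide +kernel)
def q44559 : Q := Q.p (nat_lit 0x1800002000008000020000000000000000000000000000000000) (nat_lit 0x4000000000040000180000400000000000000000000000) (nat_lit 3)
theorem c44559 : QOK q44559 := cut [] trivial (nd (nat_lit 116) (nat_lit 0) (cs (lf (nat_lit 34) (nat_lit 115)) (nd (nat_lit 115) (nat_lit 0) (cs (lf (nat_lit 35) (nat_lit 93)) (lf (nat_lit 28) (nat_lit 115)))))) q44559 (by decide +kernel)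
def q44565 : Q := Q.p (nat_lit 0x100000600000000007000000000000000000000000000000000000000000000000000) (nat_lit 0x8000000000080000000001c000000000000000000000000000000000000000000000) (nat_lit 3)
theorem c44565 : QOK q44565 := cut [] trivial (nd (nat_lit 227) (nat_lit 0) (cs (lf (nat_lit 24) (nat_lit 183)) (nd (nat_lit 271) (nat_lit 0) (cs (lf (nat_lit 47) (nat_lit 182)) (lf (nat_lit 35) (nat_lit 183)))))) q44565 (by decide +kernel)
def q44566 : Q := Q.p (nat_lit 0x100000400003000008000000000000000000000000000000000000000000000) (nat_lit 0x4000020000080000000000000000000000000000000000) (nat_lit 2)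
theorem c44566 : QOK q44566 := cut [] trivial (nd (nat_lit 161) (nat_lit 0) (cs (lf (nat_lit 36) (nat_lit 138)) (lf (nat_lit 33) (nat_lit 160)))) q44566 (by decide +kernel)
def q44569 : Q := Q.p (nat_lit 0x10000380000100000000000000000000000000000000000000000000000000000000) (nat_lit 0x8000040000080000000000000000000000000000000000000000000000000000000) (nat_lit 2)
theorem c44569 : QOK q44569 := cut [] trivial (nd (nat_lit 246) (nat_lit 0) (cs (lf (nat_lit 11) (nat_lit 245)) (lf (nat_lit 23) (nat_lit 223)))) q44569 (by decide +kernel)
def q44577 : Q := Q.p (nat_lit 0x60000700000000000000000000000000000000000000000000000000000000000000) (nat_lit 0x98000000000000000000000000000000000000000000000000000000000000000000) (nat_lit 2)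
theorem c44577 : QOK q44577 := cut [] trivial (nd (nat_lit 268) (nat_lit 0) (cs (lf (nat_lit 12) (nat_lit 245)) (lf (nat_lit 15) (nat_lit 246)))) q44577 (by decide +kernel)
def q44580 : Q := Q.p (nat_lit 0x80000300000400001000000000000000000000000000000000000000000000000000) (nat_lit 0x8000020000040000000000000000000000000000000000000000000000000000000000000000000) (nat_lit 2)
theorem c44580 : QOK q44580 := cut [] trivial (nd (nat_lit 293) (nat_lit 0) (cs (lf (nat_lit 42) (nat_lit 226)) (lf (nat_lit 27) (nat_lit 204)))) q44580 (by decide +kernel)
def q44583 : Q := Q.p (nat_lit 0x7c0000000000000000000000000000000000000000000000000000000000000) (nat_lit 0x380000000000000000000000000000000000000000000000000000000) (nat_lit 2)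
theorem c44583 : QOK q44583 := cut [] trivial (nd (nat_lit 224) (nat_lit 0) (cs (lf (nat_lit 23) (nat_lit 223)) (lf (nat_lit 22) (nat_lit 224)))) q44583 (by decide +kernel)
def q44591 : Q := Q.p (nat_lit 0x1c0000680000000000000000000000000000000000000000000000000000000000000) (nat_lit 0x30000040000000000000000000000000000000000000000000000000000000000000) (nat_lit 2)
theorem c44591 : QOK q44591 := cut [] trivial (nd (nat_lit 269) (nat_lit 0) (cs (lf (nat_lit 23) (nat_lit 246)) (lf (nat_lit 12) (nat_lit 246)))) q44591 (by decide +kernel)
def q44606 : Q := Q.p (nat_lit 0x100000400001800002000000000000000000000000000000000000000000000) (nat_lit 0x4000008000020000000000000000000000000000000000) (nat_lit 2)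
theorem c44606 : QOK q44606 := cut [] trivial (nd (nat_lit 159) (nat_lit 0) (cs (lf (nat_lit 24) (nat_lit 137)) (lf (nat_lit 45) (nat_lit 159)))) q44606 (by decide +kernel)
def q44610 : Q := Q.p (nat_lit 0x100000500000400001000004000000000000000000000000000000000000000000000) (nat_lit 0x2a0000280000000000000000000000000000000000000000000000000000000000000) (nat_lit 3)
theorem c44610 : QOK q44610 := cut [] trivial (nd (nat_lit 249) (nat_lit 0) (cs (lf (nat_lit 29) (nat_lit 182)) (nd (nat_lit 247) (nat_lit 0) (cs (lf (nat_lit 41) (nat_lit 181)) (lf (nat_lit 5) (nat_lit 247)))))) q44610 (by decide +kernel)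
def q44614 : Q := Q.p (nat_lit 0x1c0003100000000000000000000000000000000000000000000000000000000000000) (nat_lit 0x600000080000000000000000000000000000000000000000000000000000000000000) (nat_lit 2)
theorem c44614 : QOK q44614 := cut [] trivial (nd (nat_lit 273) (nat_lit 0) (cs (lf (nat_lit 23) (nat_lit 247)) (lf (nat_lit 15) (nat_lit 249)))) q44614 (by decide +kernel)
def q44651 : Q := Q.p (nat_lit 0x100000580000000007800000000000000000000000000000000000000000000000000) (nat_lit 0x280000240000800000000030000000000000000000000000000000000000000000000) (nat_lit 4)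
theorem c44651 : QOK q44651 := cut [] trivial (nd (nat_lit 184) (nat_lit 0) (cs (lf (nat_lit 17) (nat_lit 181)) (nd (nat_lit 249) (nat_lit 0) (cs (lf (nat_lit 5) (nat_lit 247)) (nd (nat_lit 271) (nat_lit 0) (cs (lf (nat_lit 32) (nat_lit 183)) (lf (nat_lit 0) (nat_lit 246)))))))) q44651 (by decide +kernel)
def q44658 : Q := Q.p (nat_lit 0x100000000001800002000008000000000000000000000000000000000000000) (nat_lit 0x40000000000400000000004000000000000000000000000000000000000000000000) (nat_lit 2)
theorem c44658 : QOK q44658 := cut [] trivial (nd (nat_lit 226) (nat_lit 0) (cs (lf (nat_lit 42) (nat_lit 181)) (lf (nat_lit 45) (nat_lit 159)))) q44658 (by decide +kernel)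
def q44678 : Q := Q.p (nat_lit 0x3c00000000000000000000000000000000000000000000000000) (nat_lit 0xee0000300001c00000000000000000000000000000000000000000000) (nat_lit 6)
theorem c44678 : QOK q44678 := cut [] trivial (nd (nat_lit 179) (nat_lit 0) (cs (lf (nat_lit 22) (nat_lit 179)) (nd (nat_lit 201) (nat_lit 0) (cs (lf (nat_lit 23) (nat_lit 178)) (nd (nat_lit 222) (nat_lit 0) (cs (lf (nat_lit 10) (nat_lit 200)) (nd (nat_lit 200) (nat_lit 0) (cs (lf (nat_lit 11) (nat_lit 199)) (nd (nat_lit 226) (nat_lit 0) (cs (lf (nat_lit 5) (nat_lit 201)) (lf (nat_lit 4) (nat_lit 200)))))))))))) q44678 (by decide +kernel)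
def q44688 : Q := Q.p (nat_lit 0x180000200000800002000000000000000000000000000000000000000000000) (nat_lit 0x400000000004000018000040000000000000000000000000000000000) (nat_lit 3)
theorem c44688 : QOK q44688 := cut [] trivial (nd (nat_lit 160) (nat_lit 0) (cs (lf (nat_lit 34) (nat_lit 159)) (nd (nat_lit 159) (nat_lit 0) (cs (lf (nat_lit 28) (nat_lit 159)) (lf (nat_lit 35) (nat_lit 137)))))) q44688 (by decide +kernel)
def q44702 : Q := Q.p (nat_lit 0x8000020000080000200000800000000000000000000000000000000000000000000000000) (nat_lit 0x4000010000040000000000000000000000000000000000000000000000000000000000000000000) (nat_lit 2)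
theorem c44702 : QOK q44702 := cut [] trivial (nd (nat_lit 292) (nat_lit 0) (cs (lf (nat_lit 29) (nat_lit 225)) (lf (nat_lit 28) (nat_lit 203)))) q44702 (by decide +kernel)
def q44706 : Q := Q.p (nat_lit 0x80000200001800004000000000000000000000000000000000000000000000) (nat_lit 0x2000010000040000000000000000000000000000000000) (nat_lit 2)
theorem c44706 : QOK q44706 := cut [] trivial (nd (nat_lit 160) (nat_lit 0) (cs (lf (nat_lit 36) (nat_lit 137)) (lf (nat_lit 33) (nat_lit 159)))) q44706 (by decide +kernel)
def q44712 : Q := Q.p (nat_lit 0x1000005c0000000000000000000000000000000000000000000000000000000000000) (nat_lit 0x280000200000000000000000000000000000000000000000000000000000000000000) (nat_lit 2)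
theorem c44712 : QOK q44712 := cut [] trivial (nd (nat_lit 249) (nat_lit 0) (cs (lf (nat_lit 5) (nat_lit 247)) (lf (nat_lit 4) (nat_lit 246)))) q44712 (by decide +kernel)
def q44740 : Q := Q.p (nat_lit 0x100000780000000000000000000000000000000000000000000000000000000000000) (nat_lit 0xb8000040000000000000000000000000000000000000000000000000000000000000) (nat_lit 3)
theorem c44740 : QOK q44740 := cut [] trivial (nd (nat_lit 268) (nat_lit 0) (cs (lf (nat_lit 10) (nat_lit 246)) (nd (nat_lit 246) (nat_lit 0) (cs (lf (nat_lit 11) (nat_lit 245)) (lf (nat_lit 4) (nat_lit 246)))))) q44740 (by decide +kernel)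
def q44748 : Q := Q.p (nat_lit 0x100000400000000003e00000000000000000000000000000000000000000000000000) (nat_lit 0x200000c0000000000c000000000000000000000000000000000000000000000) (nat_lit 3)
theorem c44748 : QOK q44748 := cut [] trivial (nd (nat_lit 227) (nat_lit 0) (cs (lf (nat_lit 4) (nat_lit 201)) (nd (nat_lit 183) (nat_lit 0) (cs (lf (nat_lit 16) (nat_lit 179)) (lf (nat_lit 27) (nat_lit 183)))))) q44748 (by decide +kernel)
def q44761 : Q := Q.p (nat_lit 0x200000800003000004000000000000000000000000000000000000000000000) (nat_lit 0x400000000000000010000040000000000000000000000000000000000) (nat_lit 2)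
theorem c44761 : QOK q44761 := cut [] trivial (nd (nat_lit 160) (nat_lit 0) (cs (lf (nat_lit 24) (nat_lit 138)) (lf (nat_lit 27) (nat_lit 160)))) q44761 (by decide +kernel)
def q44764 : Q := Q.p (nat_lit 0x780000000001000004000000000000000000000000000000000000000000000) (nat_lit 0x30000000000400000000000000000000000000000000000000000000000000000000) (nat_lit 2)
theorem c44764 : QOK q44764 := cut [] trivial (nd (nat_lit 269) (nat_lit 0) (cs (lf (nat_lit 11) (nat_lit 246)) (lf (nat_lit 38) (nat_lit 181)))) q44764 (by decide +kernel)
def q44778 : Q := Q.p (nat_lit 0x100000480000200000800002000000000000000000000000000000000000000000000) (nat_lit 0x270000340000000000000000000000000000000000000000000000000000000000000) (nat_lit 4)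
theorem c44778 : QOK q44778 := cut [] trivial (nd (nat_lit 248) (nat_lit 0) (cs (lf (nat_lit 29) (nat_lit 181)) (nd (nat_lit 249) (nat_lit 0) (cs (lf (nat_lit 5) (nat_lit 247)) (nd (nat_lit 268) (nat_lit 0) (cs (lf (nat_lit 10) (nat_lit 246)) (lf (nat_lit 40) (nat_lit 180)))))))) q44778 (by decide +kernel)
def q44915 : Q := Q.p (nat_lit 0x100000400000000016000000000000000000000000000000000000000000000000000) (nat_lit 0x200001c0000800000c000000000000000000000000000000000000000000000) (nat_lit 4)
theorem c44915 : QOK q44915 := cut [] trivial (nd (nat_lit 183) (nat_lit 0) (cs (lf (nat_lit 44) (nat_lit 183)) (nd (nat_lit 227) (nat_lit 0) (cs (lf (nat_lit 27) (nat_lit 183)) (nd (nat_lit 207) (nat_lit 0) (cs (lf (nat_lit 23) (nat_lit 182)) (lf (nat_lit 11) (nat_lit 204)))))))) q44915 (by decide +kernel)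
def q44922 : Q := Q.p (nat_lit 0x70000100000000000000000000000000000000000000000000000000000000000000000000) (nat_lit 0x88000e00000000000000000000000000000000000000000000000000000000000000000000) (nat_lit 3)
theorem c44922 : QOK q44922 := cut [] trivial (nd (nat_lit 273) (nat_lit 0) (cs (lf (nat_lit 12) (nat_lit 269)) (nd (nat_lit 274) (nat_lit 0) (cs (lf (nat_lit 15) (nat_lit 270)) (lf (nat_lit 6) (nat_lit 271)))))) q44922 (by decide +kernel)
def q44926 : Q := Q.p (nat_lit 0x7c000000000000000000000000000000000000000000000000000000000000000000000000) (nat_lit 0x38000000000000000000000000000000000000000000000000000000000000000000) (nat_lit 2)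
theorem c44926 : QOK q44926 := cut [] trivial (nd (nat_lit 268) (nat_lit 0) (cs (lf (nat_lit 22) (nat_lit 268)) (lf (nat_lit 23) (nat_lit 267)))) q44926 (by decide +kernel)
def q44948 : Q := Q.p (nat_lit 0x1e0000000003000000000000000000000000000000000000000000000000000000000000000) (nat_lit 0xc0000000000c00000000008000000000000000000000000000000000000000000000000000000000) (nat_lit 3)
theorem c44948 : QOK q44948 := cut [] trivial (nd (nat_lit 318) (nat_lit 0) (cs (lf (nat_lit 5) (nat_lit 293)) (nd (nat_lit 274) (nat_lit 0) (cs (lf (nat_lit 35) (nat_lit 230)) (lf (nat_lit 17) (nat_lit 271)))))) q44948 (by decide +kernel)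
def q44960 : Q := Q.p (nat_lit 0x780000000000000000000000000000000000000000000000000000000000000000000000000) (nat_lit 0x700000800007000000000000000000000000000000000000000000000000000000000000000000000) (nat_lit 4)
theorem c44960 : QOK q44960 := cut [] trivial (nd (nat_lit 277) (nat_lit 0) (cs (lf (nat_lit 16) (nat_lit 273)) (nd (nat_lit 321) (nat_lit 0) (cs (lf (nat_lit 4) (nat_lit 295)) (nd (nat_lit 299) (nat_lit 0) (cs (lf (nat_lit 5) (nat_lit 296)) (lf (nat_lit 17) (nat_lit 274)))))))) q44960 (by decide +kernel)
def q44965 : Q := Q.p (nat_lit 0x40000160000180000000000000000000000000000000000000000000000000000000000000000000000000) (nat_lit 0x380001e0000b0000080000000000000000000000000000000000000000000000000000000000000000000000000000000) (nat_lit 6)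
theorem c44965 : QOK q44965 := cut [] trivial (nd (nat_lit 343) (nat_lit 0) (cs (lf (nat_lit 2) (nat_lit 317)) (nd (nat_lit 340) (nat_lit 0) (cs (lf (nat_lit 20) (nat_lit 317)) (nd (nat_lit 362) (nat_lit 0) (cs (lf (nat_lit 42) (nat_lit 295)) (nd (nat_lit 361) (nat_lit 0) (cs (lf (nat_lit 41) (nat_lit 295)) (nd (nat_lit 363) (nat_lit 0) (cs (lf (nat_lit 15) (nat_lit 339)) (lf (nat_lit 29) (nat_lit 296)))))))))))) q44965 (by decide +kernel)
def q44975 : Q := Q.p (nat_lit 0xe0000180000000000000000000000000000000000000000000000000000000000000000000000000) (nat_lit 0x700031c000e00000000000000000000000000000000000000000000000000000000000000000000000000) (nat_lit 6)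
theorem c44975 : QOK q44975 := cut [] trivial (nd (nat_lit 320) (nat_lit 0) (cs (lf (nat_lit 18) (nat_lit 295)) (nd (nat_lit 298) (nat_lit 0) (cs (lf (nat_lit 17) (nat_lit 295)) (nd (nat_lit 316) (nat_lit 0) (cs (lf (nat_lit 16) (nat_lit 294)) (nd (nat_lit 337) (nat_lit 0) (cs (lf (nat_lit 10) (nat_lit 315)) (nd (nat_lit 315) (nat_lit 0) (cs (lf (nat_lit 12) (nat_lit 292)) (lf (nat_lit 11) (nat_lit 314)))))))))))) q44975 (by decide +kernel)
def q45010 : Q := Q.p (nat_lit 0x400001c0000100000400001000000000000000000000000000000000000000000000000000000000) (nat_lit 0x88000020000000000000000000000000000000000000000000000000000000000000000000000000) (nat_lit 2)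
theorem c45010 : QOK q45010 := cut [] trivial (nd (nat_lit 293) (nat_lit 0) (cs (lf (nat_lit 41) (nat_lit 227)) (lf (nat_lit 5) (nat_lit 293)))) q45010 (by decide +kernel)
def q45015 : Q := Q.p (nat_lit 0x1c0000100000400001000000000000000000000000000000000000000000000000000000000) (nat_lit 0x2000018000220000000000000000000000000000000000000000000000000000000000000000000000000) (nat_lit 3)
theorem c45015 : QOK q45015 := cut [] trivial (nd (nat_lit 315) (nat_lit 0) (cs (lf (nat_lit 40) (nat_lit 227)) (nd (nat_lit 316) (nat_lit 0) (cs (lf (nat_lit 41) (nat_lit 249)) (lf (nat_lit 6) (nat_lit 293)))))) q45015 (by decide +kernel)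
def q45023 : Q := Q.p (nat_lit 0x7c0000000000000000000000000000000000000000000000000000000000000000000000000) (nat_lit 0x380000000000000000000000000000000000000000000000000000000000000000000000000000000) (nat_lit 2)
theorem c45023 : QOK q45023 := cut [] trivial (nd (nat_lit 320) (nat_lit 0) (cs (lf (nat_lit 5) (nat_lit 295)) (lf (nat_lit 4) (nat_lit 294)))) q45023 (by decide +kernel)
def q45025 : Q := Q.p (nat_lit 0x400003c0000000002000000000000000000000000000000000000000000000000000000000000000) (nat_lit 0x1800000000008000000000000000000000000000000000000000000000000000000000) (nat_lit 2)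
theorem c45025 : QOK q45025 := cut [] trivial (nd (nat_lit 275) (nat_lit 0) (cs (lf (nat_lit 17) (nat_lit 272)) (lf (nat_lit 36) (nat_lit 230)))) q45025 (by decide +kernel)
def q45028 : Q := Q.p (nat_lit 0x40000300000800002000000000000000000000000000000000000000000000000000000000000000) (nat_lit 0x4000010000000000000000400000000000000000000000000000000000000000000000000000000000000000000) (nat_lit 2)
theorem c45028 : QOK q45028 := cut [] trivial (nd (nat_lit 340) (nat_lit 0) (cs (lf (nat_lit 30) (nat_lit 274)) (lf (nat_lit 33) (nat_lit 252)))) q45028 (by decide +kernel)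
def q45060 : Q := Q.p (nat_lit 0xe000008000000000000000000000000000000000000000000000000000000000000000000000000000000000000) (nat_lit 0x10000017000000000000000000000000000000000000000000000000000000000000000000000000000000000000) (nat_lit 3)
theorem c45060 : QOK q45060 := cut [] trivial (nd (nat_lit 338) (nat_lit 0) (cs (lf (nat_lit 18) (nat_lit 338)) (nd (nat_lit 337) (nat_lit 0) (cs (lf (nat_lit 0) (nat_lit 336)) (lf (nat_lit 3) (nat_lit 337)))))) q45060 (by decide +kernel)
def q45066 : Q := Q.p (nat_lit 0xf000000000000000000000000000000000000000000000000000000000000000000000000000000000000000000) (nat_lit 0x6000000800077000000000000000000000000000000000000000000000000000000000000000000000000000000000000) (nat_lit 5)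
theorem c45066 : QOK q45066 := cut [] trivial (nd (nat_lit 337) (nat_lit 0) (cs (lf (nat_lit 22) (nat_lit 337)) (nd (nat_lit 385) (nat_lit 0) (cs (lf (nat_lit 5) (nat_lit 360)) (nd (nat_lit 341) (nat_lit 0) (cs (lf (nat_lit 17) (nat_lit 338)) (nd (nat_lit 359) (nat_lit 0) (cs (lf (nat_lit 23) (nat_lit 336)) (lf (nat_lit 16) (nat_lit 337)))))))))) q45066 (by decide +kernel)
def q45070 : Q := Q.p (nat_lit 0xf000018000000000000000000000000000000000000000000000000000000000000000000000000000000000000) (nat_lit 0xe000030000000000000000000000000000000000000000000000000000000000000000000000000000000000000000000) (nat_lit 3)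
theorem c45070 : QOK q45070 := cut [] trivial (nd (nat_lit 364) (nat_lit 0) (cs (lf (nat_lit 18) (nat_lit 339)) (nd (nat_lit 386) (nat_lit 0) (cs (lf (nat_lit 5) (nat_lit 361)) (lf (nat_lit 4) (nat_lit 360)))))) q45070 (by decide +kernel)
def q45078 : Q := Q.p (nat_lit 0x800002000008000020000080000000000000000000000000000000000000000000000000000000000000000000000000) (nat_lit 0x400001000004000000000000000000000000000000000000000000000000000000000000000000000000000000000000000000) (nat_lit 2)
theorem c45078 : QOK q45078 := cut [] trivial (nd (nat_lit 384) (nat_lit 0) (cs (lf (nat_lit 29) (nat_lit 317)) (lf (nat_lit 28) (nat_lit 295)))) q45078 (by decide +kernel)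
def q45087 : Q := Q.p (nat_lit 0x40000100000400001000000000000000000000000000000000000000000000000000000000) (nat_lit 0x2000018000020000000000200000800002000000000000000000000000000000000000000000000000000) (nat_lit 4)
theorem c45087 : QOK q45087 := cut [] trivial (nd (nat_lit 227) (nat_lit 0) (cs (lf (nat_lit 47) (nat_lit 205)) (nd (nat_lit 315) (nat_lit 0) (cs (lf (nat_lit 40) (nat_lit 227)) (nd (nat_lit 316) (nat_lit 0) (cs (lf (nat_lit 41) (nat_lit 249)) (lf (nat_lit 46) (nat_lit 227)))))))) q45087 (by decide +kernel)
def q45089 : Q := Q.p (nat_lit 0x100000400001000002000008000000000000000000000000000000000000000000000) (nat_lit 0x40000000000000000800000000000000020000000000000000000000000000000000000000) (nat_lit 2)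
theorem c45089 : QOK q45089 := cut [] trivial (nd (nat_lit 227) (nat_lit 0) (cs (lf (nat_lit 42) (nat_lit 205)) (lf (nat_lit 24) (nat_lit 161)))) q45089 (by decide +kernel)
def q45092 : Q := Q.p (nat_lit 0x40000100000400001000012000040000000000000000000000000000000000000000000000) (nat_lit 0x200000c0000a0000000000000000000000000000000000000000000000) (nat_lit 3)
theorem c45092 : QOK q45092 := cut [] trivial (nd (nat_lit 207) (nat_lit 0) (cs (lf (nat_lit 34) (nat_lit 206)) (nd (nat_lit 206) (nat_lit 0) (cs (lf (nat_lit 17) (nat_lit 183)) (lf (nat_lit 35) (nat_lit 184)))))) q45092 (by decide +kernel)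
def q45095 : Q := Q.p (nat_lit 0x100000400001000016000040000000000000000000000000000000000000000000000) (nat_lit 0x80000a0000000000000000000000000000000000000000000000) (nat_lit 2)
theorem c45095 : QOK q45095 := cut [] trivial (nd (nat_lit 207) (nat_lit 0) (cs (lf (nat_lit 17) (nat_lit 183)) (lf (nat_lit 35) (nat_lit 184)))) q45095 (by decide +kernel)
def q45099 : Q := Q.p (nat_lit 0x100000600001000004000000000000000000000000000000000000000000000000000) (nat_lit 0x20000080000000000000000000010000000000000000000000000000000000000000000000) (nat_lit 2)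
theorem c45099 : QOK q45099 := cut [] trivial (nd (nat_lit 271) (nat_lit 0) (cs (lf (nat_lit 41) (nat_lit 205)) (lf (nat_lit 36) (nat_lit 183)))) q45099 (by decide +kernel)
def q45106 : Q := Q.p (nat_lit 0x380000c0000000000000000000000000000000000000000000000000000000000000000000000000) (nat_lit 0x4000300000000000000000000000000000000000000000000000000000000000000000000000000) (nat_lit 2)
theorem c45106 : QOK q45106 := cut [] trivial (nd (nat_lit 296) (nat_lit 0) (cs (lf (nat_lit 6) (nat_lit 293)) (lf (nat_lit 12) (nat_lit 292)))) q45106 (by decide +kernel)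
def q45111 : Q := Q.p (nat_lit 0x80000100000400001000008000000000000000000000000000000000000000000000000000) (nat_lit 0x200000000000000004000020000000000000000000000000000000000000000000000) (nat_lit 2)
theorem c45111 : QOK q45111 := cut [] trivial (nd (nat_lit 206) (nat_lit 0) (cs (lf (nat_lit 35) (nat_lit 184)) (lf (nat_lit 28) (nat_lit 206)))) q45111 (by decide +kernel)
def q45119 : Q := Q.p (nat_lit 0x1e0000000000000000000000000000000000000000000000000000000000000000000000000) (nat_lit 0xe0000100000e0000000000000000000000000000000000000000000000000000000000000000000) (nat_lit 4)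
theorem c45119 : QOK q45119 := cut [] trivial (nd (nat_lit 270) (nat_lit 0) (cs (lf (nat_lit 22) (nat_lit 270)) (nd (nat_lit 314) (nat_lit 0) (cs (lf (nat_lit 10) (nat_lit 292)) (nd (nat_lit 292) (nat_lit 0) (cs (lf (nat_lit 23) (nat_lit 269)) (lf (nat_lit 11) (nat_lit 291)))))))) q45119 (by decide +kernel)
def q45149 : Q := Q.p (nat_lit 0x8000060000100000400000000000000000000000000000000000000000000000000000000000000) (nat_lit 0x800002000010000000000000000000000000000000000000000000000000000000000000000000000000000000) (nat_lit 2)
theorem c45149 : QOK q45149 := cut [] trivial (nd (nat_lit 337) (nat_lit 0) (cs (lf (nat_lit 30) (nat_lit 271)) (lf (nat_lit 39) (nat_lit 249)))) q45149 (by decide +kernel)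
def q45153 : Q := Q.p (nat_lit 0x1c000040000100000400000000000000000000000000000000000000000000000000000000000000) (nat_lit 0x20003a0000000000200000800000000000000000000000000000000000000000000000000000000) (nat_lit 4)
theorem c45153 : QOK q45153 := cut [] trivial (nd (nat_lit 227) (nat_lit 0) (cs (lf (nat_lit 46) (nat_lit 227)) (nd (nat_lit 295) (nat_lit 0) (cs (lf (nat_lit 12) (nat_lit 291)) (nd (nat_lit 296) (nat_lit 0) (cs (lf (nat_lit 6) (nat_lit 293)) (lf (nat_lit 9) (nat_lit 292)))))))) q45153 (by decide +kernel)
def q45154 : Q := Q.p (nat_lit 0x10000040000100000000003000000000000000000000000000000000000000000000000000000000000000) (nat_lit 0xc00000000008000000000000000000000000000000000000000000000000000000000) (nat_lit 2)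
theorem c45154 : QOK q45154 := cut [] trivial (nd (nat_lit 274) (nat_lit 0) (cs (lf (nat_lit 35) (nat_lit 230)) (lf (nat_lit 34) (nat_lit 252)))) q45154 (by decide +kernel)
def q45166 : Q := Q.p (nat_lit 0x38000060000000000000000000000000000000000000000000000000000000000000000000000000) (nat_lit 0x40000018000000000000000000000000000000000000000000000000000000000000000000000000) (nat_lit 2)
theorem c45166 : QOK q45166 := cut [] trivial (nd (nat_lit 292) (nat_lit 0) (cs (lf (nat_lit 18) (nat_lit 292)) (lf (nat_lit 0) (nat_lit 291)))) q45166 (by decide +kernel)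
def q45173 : Q := Q.p (nat_lit 0x3e0000000000000000000000000000000000000000000000000000000000000000000000000) (nat_lit 0x1c00000000000000000000000000000000000000000000000000000000000000000000) (nat_lit 2)
theorem c45173 : QOK q45173 := cut [] trivial (nd (nat_lit 275) (nat_lit 0) (cs (lf (nat_lit 16) (nat_lit 271)) (lf (nat_lit 17) (nat_lit 272)))) q45173 (by decide +kernel)
def q45179 : Q := Q.p (nat_lit 0x200000d00000400000000000000000000000000000000000000000000000000000000000000) (nat_lit 0x400000200000200000000000000000000000000000000000000000000000000000000000000) (nat_lit 2)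
theorem c45179 : QOK q45179 := cut [] trivial (nd (nat_lit 273) (nat_lit 0) (cs (lf (nat_lit 23) (nat_lit 249)) (lf (nat_lit 5) (nat_lit 272)))) q45179 (by decide +kernel)
def q45192 : Q := Q.p (nat_lit 0x40000180000600000000000000000000000000000000000000000000000000000000000000) (nat_lit 0x4000010000000000000000000000800000000000000000000000000000000000000000000000000000000) (nat_lit 2)
theorem c45192 : QOK q45192 := cut [] trivial (nd (nat_lit 316) (nat_lit 0) (cs (lf (nat_lit 47) (nat_lit 227)) (lf (nat_lit 42) (nat_lit 249)))) q45192 (by decide +kernel)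
def q45209 : Q := Q.p (nat_lit 0x400001000004000010000040000000000000000000000000000000000000000000000000000000000000000000) (nat_lit 0x200000800002000000000000000000000000000000000000000000000000000000000000000000000000000000000000) (nat_lit 2)
theorem c45209 : QOK q45209 := cut [] trivial (nd (nat_lit 359) (nat_lit 0) (cs (lf (nat_lit 29) (nat_lit 292)) (lf (nat_lit 28) (nat_lit 270)))) q45209 (by decide +kernel)
def q45229 : Q := Q.p (nat_lit 0x3c0000100000000000000000000000000000000000000000000000000000000000000000000) (nat_lit 0x400003a00000000000000000000000000000000000000000000000000000000000000000000) (nat_lit 3)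
theorem c45229 : QOK q45229 := cut [] trivial (nd (nat_lit 276) (nat_lit 0) (cs (nd (nat_lit 298) (nat_lit 0) (cs (lf (nat_lit 17) (nat_lit 273)) (lf (nat_lit 22) (nat_lit 272)))) (lf (nat_lit 16) (nat_lit 272)))) q45229 (by decide +kernel)
def q45240 : Q := Q.p (nat_lit 0x70000020000000000000000000000000000000000000000000000000000000000000000000) (nat_lit 0x800000d8000000000000000000000000000000000000000000000000000000000000000000) (nat_lit 3)
theorem c45240 : QOK q45240 := cut [] trivial (nd (nat_lit 270) (nat_lit 0) (cs (lf (nat_lit 18) (nat_lit 269)) (nd (nat_lit 268) (nat_lit 0) (cs (lf (nat_lit 0) (nat_lit 267)) (lf (nat_lit 3) (nat_lit 268)))))) q45240 (by decide +kernel)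
def q45254 : Q := Q.p (nat_lit 0x70000030000000000000000000000000000000000000000000000000000000000000000000) (nat_lit 0xc8000000000000000000000000000000000000000000000000000000000000000000) (nat_lit 2)
theorem c45254 : QOK q45254 := cut [] trivial (nd (nat_lit 270) (nat_lit 0) (cs (lf (nat_lit 0) (nat_lit 267)) (lf (nat_lit 3) (nat_lit 268)))) q45254 (by decide +kernel)
def q45259 : Q := Q.p (nat_lit 0xc000070000000000000000000000000000000000000000000000000000000000000000000000000) (nat_lit 0x2000180000000000000000000000000000000000000000000000000000000000000000000000000) (nat_lit 2)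
theorem c45259 : QOK q45259 := cut [] trivial (nd (nat_lit 295) (nat_lit 0) (cs (lf (nat_lit 11) (nat_lit 291)) (lf (nat_lit 6) (nat_lit 292)))) q45259 (by decide +kernel)
def q45270 : Q := Q.p (nat_lit 0x8000020000380000600000000000000000000000000000000000000000000000000000000000000) (nat_lit 0x180000400000000000000000000000000000000000000000000000000000000) (nat_lit 2)
theorem c45270 : QOK q45270 := cut [] trivial (nd (nat_lit 248) (nat_lit 0) (cs (lf (nat_lit 0) (nat_lit 247)) (lf (nat_lit 47) (nat_lit 226)))) q45270 (by decide +kernel)
def q45291 : Q := Q.p (nat_lit 0x8000038000100000000000000000000000000000000000000000000000000000000000000000000) (nat_lit 0x10000004000080000000000000000000000000000000000000000000000000000000000000000000) (nat_lit 2)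
theorem c45291 : QOK q45291 := cut [] trivial (nd (nat_lit 290) (nat_lit 0) (cs (lf (nat_lit 5) (nat_lit 290)) (lf (nat_lit 16) (nat_lit 268)))) q45291 (by decide +kernel)
def q45294 : Q := Q.p (nat_lit 0x8000060000100000400000000000000000000000000000000000000000000000000000000000000) (nat_lit 0x800002000000000000000080000000000000000000000000000000000000000000000000000000000000000000) (nat_lit 2)
theorem c45294 : QOK q45294 := cut [] trivial (nd (nat_lit 337) (nat_lit 0) (cs (lf (nat_lit 33) (nat_lit 249)) (lf (nat_lit 30) (nat_lit 271)))) q45294 (by decide +kernel)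
def q45320 : Q := Q.p (nat_lit 0x100003680000000000000000000000000000000000000000000000000000000000000) (nat_lit 0xe80000100000000000000000000000000000000000000000000000000000000000000) (nat_lit 3)
theorem c45320 : QOK q45320 := cut [] trivial (nd (nat_lit 273) (nat_lit 0) (cs (lf (nat_lit 1) (nat_lit 247)) (nd (nat_lit 274) (nat_lit 0) (cs (lf (nat_lit 18) (nat_lit 249)) (lf (nat_lit 12) (nat_lit 249)))))) q45320 (by decide +kernel)
def q45348 : Q := Q.p (nat_lit 0x100000600000800002000000000000000000000000000000000000000000000000000) (nat_lit 0x10000040000000000000001000000000000000000000000000000000000000000000000000000000) (nat_lit 2)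
theorem c45348 : QOK q45348 := cut [] trivial (nd (nat_lit 294) (nat_lit 0) (cs (lf (nat_lit 42) (nat_lit 227)) (lf (nat_lit 45) (nat_lit 205)))) q45348 (by decide +kernel)
def q45350 : Q := Q.p (nat_lit 0x100000600000800002000000000000000000000000000000000000000000000000000) (nat_lit 0x10000040000080000000000000000000000000000000000000000000000000000000000000000000) (nat_lit 2)
theorem c45350 : QOK q45350 := cut [] trivial (nd (nat_lit 294) (nat_lit 0) (cs (lf (nat_lit 42) (nat_lit 227)) (lf (nat_lit 27) (nat_lit 205)))) q45350 (by decide +kernel)
def q45355 : Q := Q.p (nat_lit 0xf0000100000000001000000000000000000000000000000000000000000000000000000000000000) (nat_lit 0x60000000000000000400000000000000000000000000000000000000000000000000000000000000000000) (nat_lit 2)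
theorem c45355 : QOK q45355 := cut [] trivial (nd (nat_lit 341) (nat_lit 0) (cs (lf (nat_lit 5) (nat_lit 316)) (lf (nat_lit 25) (nat_lit 252)))) q45355 (by decide +kernel)
def q45358 : Q := Q.p (nat_lit 0xc0000300000000002000000000000000000000000000000000000000000000000000000000000000) (nat_lit 0x10000000000000000800000000008000000000000000000000000000000000000000000000000000000000) (nat_lit 2)
theorem c45358 : QOK q45358 := cut [] trivial (nd (nat_lit 275) (nat_lit 0) (cs (lf (nat_lit 41) (nat_lit 252)) (lf (nat_lit 36) (nat_lit 230)))) q45358 (by decide +kernel)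
def q45362 : Q := Q.p (nat_lit 0x78000000000100000400000000000000000000000000000000000000000000000000000000000000) (nat_lit 0x3000000000040000000000000000000000000000000000000000000000000000000000000000000000000) (nat_lit 2)
theorem c45362 : QOK q45362 := cut [] trivial (nd (nat_lit 337) (nat_lit 0) (cs (lf (nat_lit 11) (nat_lit 314)) (lf (nat_lit 38) (nat_lit 249)))) q45362 (by decide +kernel)
def q45366 : Q := Q.p (nat_lit 0x2000070000000000100000400000000000000000000000000000000000000000000000000000000000000) (nat_lit 0x1000008000040000000000000000000000000000000000000000000000000000000000000000000000000) (nat_lit 2)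
theorem c45366 : QOK q45366 := cut [] trivial (nd (nat_lit 315) (nat_lit 0) (cs (lf (nat_lit 11) (nat_lit 314)) (lf (nat_lit 38) (nat_lit 249)))) q45366 (by decide +kernel)
def q45367 : Q := Q.p (nat_lit 0x500003600000000000000000000000000000000000000000000000000000000000000) (nat_lit 0xa80000000000000000000000000000000000000000000000000000000000000000000) (nat_lit 2)
theorem c45367 : QOK q45367 := cut [] trivial (nd (nat_lit 273) (nat_lit 0) (cs (lf (nat_lit 18) (nat_lit 249)) (lf (nat_lit 12) (nat_lit 249)))) q45367 (by decide +kernel)
def q45374 : Q := Q.p (nat_lit 0xf0000000000000003000000000000000000000000000000000000000000000000000000000000000) (nat_lit 0x70000000000600000c00000000000000000000000000000000000000000000000000000000000000000000) (nat_lit 4)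
theorem c45374 : QOK q45374 := cut [] trivial (nd (nat_lit 297) (nat_lit 0) (cs (lf (nat_lit 17) (nat_lit 294)) (nd (nat_lit 275) (nat_lit 0) (cs (lf (nat_lit 41) (nat_lit 252)) (nd (nat_lit 341) (nat_lit 0) (cs (lf (nat_lit 46) (nat_lit 252)) (lf (nat_lit 5) (nat_lit 316)))))))) q45374 (by decide +kernel)
def q45384 : Q := Q.p (nat_lit 0xf0000000000100003600000000000000000000000000000000000000000000000000000000000000) (nat_lit 0x30000000000600000e00000000000000000000000000000000000000000000000000000000000000000000) (nat_lit 4)
theorem c45384 : QOK q45384 := cut [] trivial (nd (nat_lit 297) (nat_lit 0) (cs (lf (nat_lit 17) (nat_lit 294)) (nd (nat_lit 275) (nat_lit 0) (cs (lf (nat_lit 41) (nat_lit 252)) (nd (nat_lit 274) (nat_lit 0) (cs (lf (nat_lit 42) (nat_lit 252)) (lf (nat_lit 20) (nat_lit 249)))))))) q45384 (by decide +kernel)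
def q45389 : Q := Q.p (nat_lit 0xf0000000000100003200000000000000000000000000000000000000000000000000000000000000) (nat_lit 0x66000000000140000680000000000000000000000000000000000000000000000000000000000000000000) (nat_lit 5)
theorem c45389 : QOK q45389 := cut [] trivial (nd (nat_lit 341) (nat_lit 0) (cs (lf (nat_lit 5) (nat_lit 316)) (nd (nat_lit 274) (nat_lit 0) (cs (lf (nat_lit 26) (nat_lit 252)) (nd (nat_lit 271) (nat_lit 0) (cs (lf (nat_lit 14) (nat_lit 249)) (nd (nat_lit 338) (nat_lit 0) (cs (lf (nat_lit 11) (nat_lit 315)) (lf (nat_lit 44) (nat_lit 249)))))))))) q45389 (by decide +kernel)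
def q45416 : Q := Q.p (nat_lit 0xf0000000000100000600000000000000000000000000000000000000000000000000000000000000) (nat_lit 0x7380000c0000180002e0000180000200000000000000000000000000000000000000000000000000000000) (nat_lit 9)
theorem c45416 : QOK q45416 := cut [] trivial (nd (nat_lit 341) (nat_lit 0) (cs (lf (nat_lit 5) (nat_lit 316)) (nd (nat_lit 315) (nat_lit 0) (cs (lf (nat_lit 4) (nat_lit 315)) (nd (nat_lit 336) (nat_lit 0) (cs (lf (nat_lit 10) (nat_lit 314)) (nd (nat_lit 314) (nat_lit 0) (cs (lf (nat_lit 11) (nat_lit 313)) (nd (nat_lit 292) (nat_lit 0) (cs (lf (nat_lit 23) (nat_lit 291)) (nd (nat_lit 270) (nat_lit 0) (cs (lf (nat_lit 34) (nat_lit 248)) (nd (nat_lit 247) (nat_lit 0) (cs (nd (nat_lit 248) (nat_lit 0) (cs (lf (nat_lit 5) (nat_lit 247)) (lf (nat_lit 47) (nat_lit 225)))) (lf (nat_lit 46) (nat_lit 247)))))))))))))))) q45416 (by decide +kernel)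
def q45418 : Q := Q.p (nat_lit 0xf0000200000000002000000000000000000000000000000000000000000000000000000000000000) (nat_lit 0xe0000100000000000800000000000000000000000000000000000000000000000000000000000000000000) (nat_lit 3)
theorem c45418 : QOK q45418 := cut [] trivial (nd (nat_lit 342) (nat_lit 0) (cs (lf (nat_lit 4) (nat_lit 316)) (nd (nat_lit 320) (nat_lit 0) (cs (lf (nat_lit 5) (nat_lit 317)) (lf (nat_lit 25) (nat_lit 253)))))) q45418 (by decide +kernel)
def q45437 : Q := Q.p (nat_lit 0x60000000000400003000000000000000000000000000000000000000000000000000000000000000) (nat_lit 0x8000000000100000000000000008000000000000000000000000000000000000000000000000000000000) (nat_lit 2)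
theorem c45437 : QOK q45437 := cut [] trivial (nd (nat_lit 296) (nat_lit 0) (cs (lf (nat_lit 35) (nat_lit 230)) (lf (nat_lit 41) (nat_lit 251)))) q45437 (by decide +kernel)
def q45445 : Q := Q.p (nat_lit 0xf0000000000100001600000000000000000000000000000000000000000000000000000000000000) (nat_lit 0x60000000000300000e00000000000000000000000000000000000000000000000000000000000000000000) (nat_lit 4)
theorem c45445 : QOK q45445 := cut [] trivial (nd (nat_lit 341) (nat_lit 0) (cs (lf (nat_lit 5) (nat_lit 316)) (nd (nat_lit 274) (nat_lit 0) (cs (lf (nat_lit 26) (nat_lit 252)) (nd (nat_lit 275) (nat_lit 0) (cs (lf (nat_lit 44) (nat_lit 252)) (lf (nat_lit 20) (nat_lit 249)))))))) q45445 (by decide +kernel)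
def q45451 : Q := Q.p (nat_lit 0x2c0000c0000300000000000000000000000000000000000000000000000000000000000000000000000000) (nat_lit 0x6000018000010000000000000000000000000000000000000000000000000000000000000000000000000000000000000) (nat_lit 3)
theorem c45451 : QOK q45451 := cut [] trivial (nd (nat_lit 363) (nat_lit 0) (cs (lf (nat_lit 42) (nat_lit 296)) (nd (nat_lit 364) (nat_lit 0) (cs (lf (nat_lit 29) (nat_lit 297)) (lf (nat_lit 2) (nat_lit 338)))))) q45451 (by decide +kernel)
def q45467 : Q := Q.p (nat_lit 0x2000070000000000000000000000000000000000000000000000000000000000000000000000000000000) (nat_lit 0x5800088000000000000000000000000000000000000000000000000000000000000000000000000000000) (nat_lit 3)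
theorem c45467 : QOK q45467 := cut [] trivial (nd (nat_lit 336) (nat_lit 0) (cs (nd (nat_lit 338) (nat_lit 0) (cs (lf (nat_lit 6) (nat_lit 315)) (lf (nat_lit 12) (nat_lit 313)))) (lf (nat_lit 9) (nat_lit 314)))) q45467 (by decide +kernel)
def q45472 : Q := Q.p (nat_lit 0x200000f0000000000000000000000000000000000000000000000000000000000000000000000000000000) (nat_lit 0x17000008000000000000000000000000000000000000000000000000000000000000000000000000000000) (nat_lit 3)
theorem c45472 : QOK q45472 := cut [] trivial (nd (nat_lit 337) (nat_lit 0) (cs (lf (nat_lit 10) (nat_lit 315)) (nd (nat_lit 315) (nat_lit 0) (cs (lf (nat_lit 11) (nat_lit 314)) (lf (nat_lit 4) (nat_lit 315)))))) q45472 (by decide +kernel)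
def q45483 : Q := Q.p (nat_lit 0xf8000000000000000000000000000000000000000000000000000000000000000000000000000000) (nat_lit 0x700000000000000000000000000000000000000000000000000000000000000000000000000) (nat_lit 2)
theorem c45483 : QOK q45483 := cut [] trivial (nd (nat_lit 297) (nat_lit 0) (cs (lf (nat_lit 17) (nat_lit 294)) (lf (nat_lit 16) (nat_lit 293)))) q45483 (by decide +kernel)
def q45488 : Q := Q.p (nat_lit 0x8000020000180000400000000000000000000000000000000000000000000000000000000) (nat_lit 0x40000000000000001000004000000000000000000000000000000000000000000000) (nat_lit 2)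
theorem c45488 : QOK q45488 := cut [] trivial (nd (nat_lit 204) (nat_lit 0) (cs (lf (nat_lit 36) (nat_lit 181)) (lf (nat_lit 39) (nat_lit 203)))) q45488 (by decide +kernel)
def q45497 : Q := Q.p (nat_lit 0x8000020000780000000000000000000000000000000000000000000000000000000000000) (nat_lit 0x2000000000000000000000700001000000000000000000000000000000000000000000000000000) (nat_lit 3)
theorem c45497 : QOK q45497 := cut [] trivial (nd (nat_lit 226) (nat_lit 0) (cs (lf (nat_lit 30) (nat_lit 225)) (nd (nat_lit 225) (nat_lit 0) (cs (lf (nat_lit 23) (nat_lit 224)) (lf (nat_lit 35) (nat_lit 203)))))) q45497 (by decide +kernel)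
def q45510 : Q := Q.p (nat_lit 0x800004000018000060000000000000000000000000000000000000000000000000000000000000000000000000000000) (nat_lit 0x600001000000000000000000000000000000000000000000000000000000000000000000000000000000000000000000000000) (nat_lit 2)
theorem c45510 : QOK q45510 := cut [] trivial (nd (nat_lit 384) (nat_lit 0) (cs (lf (nat_lit 41) (nat_lit 317)) (lf (nat_lit 42) (nat_lit 317)))) q45510 (by decide +kernel)
def q45526 : Q := Q.p (nat_lit 0x3c000060000000000000001000000000000000000000000000000000000000000000000000000000000000) (nat_lit 0x80000200001c000000000000000100000400000000000000000000000000000000000000000000000000000000000000000000) (nat_lit 4)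
theorem c45526 : QOK q45526 := cut [] trivial (nd (nat_lit 363) (nat_lit 0) (cs (lf (nat_lit 5) (nat_lit 338)) (nd (nat_lit 385) (nat_lit 0) (cs (lf (nat_lit 42) (nat_lit 318)) (nd (nat_lit 296) (nat_lit 0) (cs (lf (nat_lit 37) (nat_lit 251)) (lf (nat_lit 27) (nat_lit 296)))))))) q45526 (by decide +kernel)
def q45532 : Q := Q.p (nat_lit 0x38000030000000000000000000000000000000000000000000000000000000000000000000000000000000) (nat_lit 0x400000c000000000000000000000000000000000000000000000000000000000000000000000000000000) (nat_lit 2)
theorem c45532 : QOK q45532 := cut [] trivial (nd (nat_lit 315) (nat_lit 0) (cs (lf (nat_lit 0) (nat_lit 314)) (lf (nat_lit 21) (nat_lit 315)))) q45532 (by decide +kernel)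
def q45543 : Q := Q.p (nat_lit 0x780000800000000000000000000000000000000000000000000000000000000) (nat_lit 0x40003000000000000000000000000000000000000000000000000000000000) (nat_lit 2)
theorem c45543 : QOK q45543 := cut [] trivial (nd (nat_lit 228) (nat_lit 0) (cs (lf (nat_lit 12) (nat_lit 224)) (lf (nat_lit 17) (nat_lit 225)))) q45543 (by decide +kernel)
def q45579 : Q := Q.p (nat_lit 0x80001a00000800000000000000000000000000000000000000000000000000) (nat_lit 0x40000400000400000000000000000000000000000000000000000000000000) (nat_lit 2)
theorem c45579 : QOK q45579 := cut [] trivial (nd (nat_lit 226) (nat_lit 0) (cs (lf (nat_lit 11) (nat_lit 224)) (lf (nat_lit 23) (nat_lit 202)))) q45579 (by decide +kernel)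
def q45593 : Q := Q.p (nat_lit 0x200000800002000014000000000000000000000000000000000000000) (nat_lit 0x8000050000000000000000000000000000000000) (nat_lit 2)
theorem c45593 : QOK q45593 := cut [] trivial (nd (nat_lit 159) (nat_lit 0) (cs (lf (nat_lit 47) (nat_lit 136)) (lf (nat_lit 35) (nat_lit 137)))) q45593 (by decide +kernel)
def q45596 : Q := Q.p (nat_lit 0x10000080000200000800001000000000000000000000000000000000000000000000) (nat_lit 0x4000020000000000000000400000000000000000000000000000000000000000000000000) (nat_lit 2)
theorem c45596 : QOK q45596 := cut [] trivial (nd (nat_lit 269) (nat_lit 0) (cs (lf (nat_lit 41) (nat_lit 202)) (lf (nat_lit 46) (nat_lit 180)))) q45596 (by decide +kernel)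
def q45621 : Q := Q.p (nat_lit 0x80000300000800002000000000000000000000000000000000000000000000) (nat_lit 0x10000040000000000000000000008000000000000000000000000000000000000000) (nat_lit 2)
theorem c45621 : QOK q45621 := cut [] trivial (nd (nat_lit 246) (nat_lit 0) (cs (lf (nat_lit 41) (nat_lit 180)) (lf (nat_lit 36) (nat_lit 158)))) q45621 (by decide +kernel)
def q45625 : Q := Q.p (nat_lit 0x80000300000400001000000000000000000000000000000000000000000000) (nat_lit 0x8000020000040000000000000000000000000000000000000000000000000000000000000) (nat_lit 2)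
theorem c45625 : QOK q45625 := cut [] trivial (nd (nat_lit 269) (nat_lit 0) (cs (lf (nat_lit 42) (nat_lit 202)) (lf (nat_lit 27) (nat_lit 180)))) q45625 (by decide +kernel)
def q45629 : Q := Q.p (nat_lit 0x20000080000200000800000000000000000000000000000000000000000000000000) (nat_lit 0x500001c000050000000000000000000000000000000000000000000000000000000000000000000) (nat_lit 4)
theorem c45629 : QOK q45629 := cut [] trivial (nd (nat_lit 292) (nat_lit 0) (cs (lf (nat_lit 28) (nat_lit 203)) (nd (nat_lit 290) (nat_lit 0) (cs (lf (nat_lit 40) (nat_lit 202)) (nd (nat_lit 291) (nat_lit 0) (cs (lf (nat_lit 29) (nat_lit 225)) (lf (nat_lit 41) (nat_lit 224)))))))) q45629 (by decide +kernel)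
def q45646 : Q := Q.p (nat_lit 0x600000000006000010000000000000000000000000000000000000000000000) (nat_lit 0x80000000001800000000000000000000000000000000000000000000000000000000) (nat_lit 2)
theorem c45646 : QOK q45646 := cut [] trivial (nd (nat_lit 271) (nat_lit 0) (cs (lf (nat_lit 38) (nat_lit 183)) (lf (nat_lit 32) (nat_lit 183)))) q45646 (by decide +kernel)
def q45664 : Q := Q.p (nat_lit 0x1a0000680000000000000000000000000000000000000000000000000000000000000) (nat_lit 0x50000040000000000000000000000000000000000000000000000000000000000000) (nat_lit 2)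
theorem c45664 : QOK q45664 := cut [] trivial (nd (nat_lit 270) (nat_lit 0) (cs (lf (nat_lit 23) (nat_lit 246)) (lf (nat_lit 12) (nat_lit 246)))) q45664 (by decide +kernel)
def q45679 : Q := Q.p (nat_lit 0x20000080000200000800000000000000000000000000000000000000000000000000) (nat_lit 0x4000018000040000000000100000400001000000000000000000000000000000000000000000000) (nat_lit 4)
theorem c45679 : QOK q45679 := cut [] trivial (nd (nat_lit 292) (nat_lit 0) (cs (lf (nat_lit 28) (nat_lit 203)) (nd (nat_lit 202) (nat_lit 0) (cs (lf (nat_lit 47) (nat_lit 180)) (nd (nat_lit 291) (nat_lit 0) (cs (lf (nat_lit 29) (nat_lit 225)) (lf (nat_lit 46) (nat_lit 202)))))))) q45679 (by decide +kernel)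
def q45682 : Q := Q.p (nat_lit 0x20000080000300000800000000000000000000000000000000000000000000000000) (nat_lit 0x8000000000000000000000400001000000000000000000000000000000000000000000000) (nat_lit 2)
theorem c45682 : QOK q45682 := cut [] trivial (nd (nat_lit 202) (nat_lit 0) (cs (lf (nat_lit 42) (nat_lit 202)) (lf (nat_lit 47) (nat_lit 180)))) q45682 (by decide +kernel)
def q45687 : Q := Q.p (nat_lit 0x20000080000200000800002000000000000000000000000000000000000000000000) (nat_lit 0x400001000004000000000000000000000000000000000000000) (nat_lit 2)
theorem c45687 : QOK q45687 := cut [] trivial (nd (nat_lit 180) (nat_lit 0) (cs (lf (nat_lit 47) (nat_lit 158)) (lf (nat_lit 46) (nat_lit 180)))) q45687 (by decide +kernel)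
def q45696 : Q := Q.p (nat_lit 0x20000080000300000400000000000000000000000000000000000000000000000000) (nat_lit 0x40000000000000001000004000000000000000000000000000000000000000) (nat_lit 2)
theorem c45696 : QOK q45696 := cut [] trivial (nd (nat_lit 180) (nat_lit 0) (cs (lf (nat_lit 24) (nat_lit 158)) (lf (nat_lit 27) (nat_lit 180)))) q45696 (by decide +kernel)
def q45748 : Q := Q.p (nat_lit 0x10000040000200000800002000000000000000000000000000000000000000000000000000) (nat_lit 0x4000000000000000100000400000000000000000000000000000000000000000000000000000000) (nat_lit 2)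
theorem c45748 : QOK q45748 := cut [] trivial (nd (nat_lit 248) (nat_lit 0) (cs (lf (nat_lit 30) (nat_lit 226)) (lf (nat_lit 33) (nat_lit 204)))) q45748 (by decide +kernel)
def q45751 : Q := Q.p (nat_lit 0x40000300000800002000000000000000000000000000000000000000000000000000) (nat_lit 0x4000010000000000000000400000000000000000000000000000000000000000000000000000000) (nat_lit 2)
theorem c45751 : QOK q45751 := cut [] trivial (nd (nat_lit 292) (nat_lit 0) (cs (lf (nat_lit 30) (nat_lit 226)) (lf (nat_lit 33) (nat_lit 204)))) q45751 (by decide +kernel)
def q45753 : Q := Q.p (nat_lit 0x160000680000000000000000000000000000000000000000000000000000000000000) (nat_lit 0x90000040000000000000000000000000000000000000000000000000000000000000) (nat_lit 2)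
theorem c45753 : QOK q45753 := cut [] trivial (nd (nat_lit 271) (nat_lit 0) (cs (lf (nat_lit 23) (nat_lit 246)) (lf (nat_lit 12) (nat_lit 246)))) q45753 (by decide +kernel)
def q45756 : Q := Q.p (nat_lit 0x20000080000300000400000000000000000000000000000000000000000000000000) (nat_lit 0x800001000004000000000000000000000000000000000000000) (nat_lit 2)
theorem c45756 : QOK q45756 := cut [] trivial (nd (nat_lit 180) (nat_lit 0) (cs (lf (nat_lit 24) (nat_lit 158)) (lf (nat_lit 45) (nat_lit 180)))) q45756 (by decide +kernel)
def q45763 : Q := Q.p (nat_lit 0x1e0000080000300000000000000000000000000000000000000000000000000000000) (nat_lit 0xc000000000000000000000400000000000000000000000000000000000000000000000000) (nat_lit 2)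
theorem c45763 : QOK q45763 := cut [] trivial (nd (nat_lit 291) (nat_lit 0) (cs (lf (nat_lit 11) (nat_lit 268)) (lf (nat_lit 47) (nat_lit 202)))) q45763 (by decide +kernel)
def q45768 : Q := Q.p (nat_lit 0x4000030000080000200000000000000000000000000000000000000000000000000000000) (nat_lit 0x400001000008000000000000000000000000000000000000000000000000000000000000000000000000) (nat_lit 2)
theorem c45768 : QOK q45768 := cut [] trivial (nd (nat_lit 312) (nat_lit 0) (cs (lf (nat_lit 30) (nat_lit 246)) (lf (nat_lit 39) (nat_lit 224)))) q45768 (by decide +kernel)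
def q45781 : Q := Q.p (nat_lit 0x20000080000600001000000000000000000000000000000000000000000000000000) (nat_lit 0x800004000010000000000000000000000000000000000000000) (nat_lit 2)
theorem c45781 : QOK q45781 := cut [] trivial (nd (nat_lit 182) (nat_lit 0) (cs (lf (nat_lit 36) (nat_lit 159)) (lf (nat_lit 33) (nat_lit 181)))) q45781 (by decide +kernel)
def q45791 : Q := Q.p (nat_lit 0x20000080000200000800002000000000000000000000000000000000000000000000) (nat_lit 0x1000004000010000000000000000000000000000000000000000) (nat_lit 2)
theorem c45791 : QOK q45791 := cut [] trivial (nd (nat_lit 182) (nat_lit 0) (cs (lf (nat_lit 35) (nat_lit 159)) (lf (nat_lit 34) (nat_lit 181)))) q45791 (by decide +kernel)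
def q45847 : Q := Q.p (nat_lit 0x20000080000300000400000000000000000000000000000000000000000000000000000000000000) (nat_lit 0x40000000000000001000004000000000000000000000000000000000000000000000000000) (nat_lit 2)
theorem c45847 : QOK q45847 := cut [] trivial (nd (nat_lit 228) (nat_lit 0) (cs (lf (nat_lit 24) (nat_lit 206)) (lf (nat_lit 27) (nat_lit 228)))) q45847 (by decide +kernel)
def q45867 : Q := Q.p (nat_lit 0x80000e0000200000800002000000000000000000000000000000000000000000000000000000000000000) (nat_lit 0x44000100000000000000000000000000000000000000000000000000000000000000000000000000000000) (nat_lit 2)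
theorem c45867 : QOK q45867 := cut [] trivial (nd (nat_lit 320) (nat_lit 0) (cs (lf (nat_lit 29) (nat_lit 253)) (lf (nat_lit 11) (nat_lit 316)))) q45867 (by decide +kernel)
def q45874 : Q := Q.p (nat_lit 0x800002000008000020000080000000000000000000000000000000000000000000000000000000000000000000000000) (nat_lit 0x100000400001000000000000000000000000000000000000000000000000000000000000000000000000000000000000000000) (nat_lit 2)
theorem c45874 : QOK q45874 := cut [] trivial (nd (nat_lit 382) (nat_lit 0) (cs (lf (nat_lit 41) (nat_lit 316)) (lf (nat_lit 40) (nat_lit 294)))) q45874 (by decide +kernel)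
def q45880 : Q := Q.p (nat_lit 0x800002000008000020000000000100000400000000000000000000000000000000000000000000000000000000000000) (nat_lit 0x400001000004000000000000000080000200000000000000000000000000000000000000000000000000000000000000000000) (nat_lit 3)
theorem c45880 : QOK q45880 := cut [] trivial (nd (nat_lit 384) (nat_lit 0) (cs (lf (nat_lit 29) (nat_lit 317)) (nd (nat_lit 295) (nat_lit 0) (cs (lf (nat_lit 28) (nat_lit 295)) (lf (nat_lit 45) (nat_lit 250)))))) q45880 (by decide +kernel)
def q45888 : Q := Q.p (nat_lit 0x40000000000400000e00002000000000000000000000000000000000000000000000000000000000000000) (nat_lit 0x100000800001000000000000000000000000000000000000000000000000000000000000000000000) (nat_lit 2)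
theorem c45888 : QOK q45888 := cut [] trivial (nd (nat_lit 276) (nat_lit 0) (cs (lf (nat_lit 5) (nat_lit 273)) (lf (nat_lit 43) (nat_lit 253)))) q45888 (by decide +kernel)
def q45908 : Q := Q.p (nat_lit 0x800002000008000020000000000000000000000000000000000000000000000000000000000000000000000000000000) (nat_lit 0x140000700001400000000000000000000000000000000000000000000000000000000000000000000000000000000000000000000000) (nat_lit 4)
theorem c45908 : QOK q45908 := cut [] trivial (nd (nat_lit 406) (nat_lit 0) (cs (nd (nat_lit 404) (nat_lit 0) (cs (lf (nat_lit 40) (nat_lit 316)) (nd (nat_lit 405) (nat_lit 0) (cs (lf (nat_lit 41) (nat_lit 338)) (lf (nat_lit 29) (nat_lit 339)))))) (lf (nat_lit 28) (nat_lit 317)))) q45908 (by decide +kernel)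
def q45915 : Q := Q.p (nat_lit 0x200000800002000008000000000000000000000000000000000000000000000000000000000000000000000000000000000000) (nat_lit 0x100000c0000100000000001000004000010000000000000000000000000000000000000000000000000000000000000000000000000000000) (nat_lit 4)
theorem c45915 : QOK q45915 := cut [] trivial (nd (nat_lit 426) (nat_lit 0) (cs (nd (nat_lit 338) (nat_lit 0) (cs (lf (nat_lit 47) (nat_lit 316)) (nd (nat_lit 427) (nat_lit 0) (cs (lf (nat_lit 46) (nat_lit 338)) (lf (nat_lit 41) (nat_lit 360)))))) (lf (nat_lit 40) (nat_lit 338)))) q45915 (by decide +kernel)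
def q45925 : Q := Q.p (nat_lit 0x400002000008000020000000000100000400000000000000000000000000000000000000000000000000000000000000) (nat_lit 0x1000000000000000080000200000000000000000000000000000000000000000000000000000000000000000000) (nat_lit 2)
theorem c45925 : QOK q45925 := cut [] trivial (nd (nat_lit 295) (nat_lit 0) (cs (lf (nat_lit 40) (nat_lit 294)) (lf (nat_lit 45) (nat_lit 250)))) q45925 (by decide +kernel)
def q45928 : Q := Q.p (nat_lit 0x3000008000020000000000100000400000000000000000000000000000000000000000000000000000000000000) (nat_lit 0x400000000000000000000080000200000000000000000000000000000000000000000000000000000000000000000000) (nat_lit 2)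
theorem c45928 : QOK q45928 := cut [] trivial (nd (nat_lit 295) (nat_lit 0) (cs (lf (nat_lit 41) (nat_lit 294)) (lf (nat_lit 45) (nat_lit 250)))) q45928 (by decide +kernel)
def q45931 : Q := Q.p (nat_lit 0x3800008000000000000000000000000000000000000000000000000000000000000000000000000000000000000) (nat_lit 0x400074000000000000000000000000000000000000000000000000000000000000000000000000000000000000) (nat_lit 3)
theorem c45931 : QOK q45931 := cut [] trivial (nd (nat_lit 340) (nat_lit 0) (cs (lf (nat_lit 12) (nat_lit 336)) (nd (nat_lit 341) (nat_lit 0) (cs (lf (nat_lit 6) (nat_lit 338)) (lf (nat_lit 9) (nat_lit 337)))))) q45931 (by decide +kernel)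
def q45934 : Q := Q.p (nat_lit 0x1000006000008000020000000000000000000000000000000000000000000000000000000000000000000000000000000) (nat_lit 0x100000400000000000000010000000000000000000000000000000000000000000000000000000000000000000000000000000000000) (nat_lit 2)
theorem c45934 : QOK q45934 := cut [] trivial (nd (nat_lit 406) (nat_lit 0) (cs (lf (nat_lit 42) (nat_lit 339)) (lf (nat_lit 45) (nat_lit 317)))) q45934 (by decide +kernel)
def q45937 : Q := Q.p (nat_lit 0xf000008000000000000000000000000000000000000000000000000000000000000000000000000000000000000) (nat_lit 0x100000e4000000000000000000000000000000000000000000000000000000000000000000000000000000000000) (nat_lit 3)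
theorem c45937 : QOK q45937 := cut [] trivial (nd (nat_lit 342) (nat_lit 0) (cs (lf (nat_lit 16) (nat_lit 338)) (nd (nat_lit 364) (nat_lit 0) (cs (lf (nat_lit 23) (nat_lit 338)) (lf (nat_lit 17) (nat_lit 339)))))) q45937 (by decide +kernel)
def q45945 : Q := Q.p (nat_lit 0x3c00008000000000000000000000000000000000000000000000000000000000000000000000000000000000000) (nat_lit 0x200005c00000000000000000000000000000000000000000000000000000000000000000000000000000000000) (nat_lit 3)
theorem c45945 : QOK q45945 := cut [] trivial (nd (nat_lit 335) (nat_lit 0) (cs (nd (nat_lit 357) (nat_lit 0) (cs (lf (nat_lit 16) (nat_lit 335)) (lf (nat_lit 23) (nat_lit 334)))) (lf (nat_lit 22) (nat_lit 335)))) q45945 (by decide +kernel)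
def q45949 : Q := Q.p (nat_lit 0x3c00008000000000000000000000000000000000000000000000000000000000000000000000000000000000000) (nat_lit 0x1c0000200004000000000000000000000000000000000000000000000000000000000000000000000000000000000000) (nat_lit 3)
theorem c45949 : QOK q45949 := cut [] trivial (nd (nat_lit 379) (nat_lit 0) (cs (nd (nat_lit 357) (nat_lit 0) (cs (lf (nat_lit 16) (nat_lit 335)) (lf (nat_lit 11) (nat_lit 356)))) (lf (nat_lit 10) (nat_lit 357)))) q45949 (by decide +kernel)
def q45963 : Q := Q.p (nat_lit 0x3800008000000000000000000000000000000000000000000000000000000000000000000000000000000000000) (nat_lit 0x4400070000000000000000000000000000000000000000000000000000000000000000000000000000000000000) (nat_lit 3)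
theorem c45963 : QOK q45963 := cut [] trivial (nd (nat_lit 340) (nat_lit 0) (cs (lf (nat_lit 12) (nat_lit 336)) (nd (nat_lit 341) (nat_lit 0) (cs (lf (nat_lit 6) (nat_lit 338)) (lf (nat_lit 15) (nat_lit 337)))))) q45963 (by decide +kernel)
def q45983 : Q := Q.p (nat_lit 0x3000008000020000000000100003400000000000000000000000000000000000000000000000000000000000000) (nat_lit 0x4800074000080000680000e80000200000000000000000000000000000000000000000000000000000000000000) (nat_lit 8)
theorem c45983 : QOK q45983 := cut [] trivial (nd (nat_lit 273) (nat_lit 0) (cs (lf (nat_lit 44) (nat_lit 250)) (nd (nat_lit 274) (nat_lit 0) (cs (lf (nat_lit 12) (nat_lit 249)) (nd (nat_lit 275) (nat_lit 0) (cs (lf (nat_lit 23) (nat_lit 249)) (nd (nat_lit 297) (nat_lit 0) (cs (lf (nat_lit 5) (nat_lit 272)) (nd (nat_lit 341) (nat_lit 0) (cs (lf (nat_lit 43) (nat_lit 252)) (nd (nat_lit 340) (nat_lit 0) (cs (lf (nat_lit 6) (nat_lit 338)) (nd (nat_lit 359) (nat_lit 0) (cs (lf (nat_lit 9) (nat_lit 337)) (lf (nat_lit 15) (nat_lit 337)))))))))))))))) q45983 (by decide +kernel)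
def q45998 : Q := Q.p (nat_lit 0x1e00000000000000000000000000000000000000000000000000000000000000000000000000000000000000000000000) (nat_lit 0xe0000100000e00000000000000000000000000000000000000000000000000000000000000000000000000000000000000000) (nat_lit 4)
theorem c45998 : QOK q45998 := cut [] trivial (nd (nat_lit 402) (nat_lit 0) (cs (nd (nat_lit 380) (nat_lit 0) (cs (nd (nat_lit 358) (nat_lit 0) (cs (lf (nat_lit 23) (nat_lit 357)) (lf (nat_lit 22) (nat_lit 358)))) (lf (nat_lit 11) (nat_lit 379)))) (lf (nat_lit 10) (nat_lit 380)))) q45998 (by decide +kernel)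
def q46005 : Q := Q.p (nat_lit 0x1e00002000000000000000000000000000000000000000000000000000000000000000000000000000000000000000000) (nat_lit 0x380000600001d000000000000000000000000000000000000000000000000000000000000000000000000000000000000000000) (nat_lit 5)
theorem c46005 : QOK q46005 := cut [] trivial (nd (nat_lit 363) (nat_lit 0) (cs (nd (nat_lit 385) (nat_lit 0) (cs (nd (nat_lit 408) (nat_lit 0) (cs (lf (nat_lit 4) (nat_lit 382)) (nd (nat_lit 386) (nat_lit 0) (cs (lf (nat_lit 23) (nat_lit 360)) (lf (nat_lit 5) (nat_lit 383)))))) (lf (nat_lit 17) (nat_lit 360)))) (lf (nat_lit 16) (nat_lit 359)))) q46005 (by decide +kernel)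
def q46013 : Q := Q.p (nat_lit 0x3800003000000000000000000000000000000000000000000000000000000000000000000000000000000000000000000) (nat_lit 0x400000c00000000000000000000000000000000000000000000000000000000000000000000000000000000000000000) (nat_lit 2)
theorem c46013 : QOK q46013 := cut [] trivial (nd (nat_lit 359) (nat_lit 0) (cs (lf (nat_lit 0) (nat_lit 358)) (lf (nat_lit 21) (nat_lit 359)))) q46013 (by decide +kernel)
def q46038 : Q := Q.p (nat_lit 0x300000f00000c000000000000000000000000000000000000000000000000000000000000000000000000000000000000) (nat_lit 0x70000180000600000000000000000000000000000000000000000000000000000000000000000000000000) (nat_lit 4)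
theorem c46038 : QOK q46038 := cut [] trivial (nd (nat_lit 341) (nat_lit 0) (cs (lf (nat_lit 17) (nat_lit 338)) (nd (nat_lit 319) (nat_lit 0) (cs (nd (nat_lit 320) (nat_lit 0) (cs (lf (nat_lit 35) (nat_lit 297)) (lf (nat_lit 14) (nat_lit 316)))) (lf (nat_lit 36) (nat_lit 296)))))) q46038 (by decide +kernel)
def q46044 : Q := Q.p (nat_lit 0x3800018000000000000000000000000000000000000000000000000000000000000000000000000000000000000000000) (nat_lit 0x4000060000000000000000000000000000000000000000000000000000000000000000000000000000000000000000000) (nat_lit 2)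
theorem c46044 : QOK q46044 := cut [] trivial (nd (nat_lit 365) (nat_lit 0) (cs (lf (nat_lit 6) (nat_lit 362)) (lf (nat_lit 15) (nat_lit 361)))) q46044 (by decide +kernel)
def q46081 : Q := Q.p (nat_lit 0x800002000008000020000000000000000000000000000000000000000000000000000000000000000000000000000000) (nat_lit 0x100000600001c0000300001400005000014000010000000000000000000000000000000000000000000000000000000000000000000000000000000) (nat_lit 8)
theorem c46081 : QOK q46081 := cut [] trivial (nd (nat_lit 404) (nat_lit 0) (cs (lf (nat_lit 40) (nat_lit 316)) (nd (nat_lit 405) (nat_lit 0) (cs (lf (nat_lit 41) (nat_lit 338)) (nd (nat_lit 338) (nat_lit 0) (cs (lf (nat_lit 47) (nat_lit 316)) (nd (nat_lit 427) (nat_lit 0) (cs (lf (nat_lit 46) (nat_lit 338)) (nd (nat_lit 362) (nat_lit 0) (cs (nd (nat_lit 450) (nat_lit 0) (cs (nd (nat_lit 449) (nat_lit 0) (cs (lf (nat_lit 29) (nat_lit 383)) (lf (nat_lit 34) (nat_lit 361)))) (lf (nat_lit 28) (nat_lit 361)))) (lf (nat_lit 35) (nat_lit 339)))))))))))) q46081 (by decide +kernel)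
def q46083 : Q := Q.p (nat_lit 0x6000008000020000000000100000400000000000000000000000000000000000000000000000000000000000000) (nat_lit 0x1000000000000000000000080000200000000000000000000000000000000000000000000000000000000000000000000) (nat_lit 2)
theorem c46083 : QOK q46083 := cut [] trivial (nd (nat_lit 295) (nat_lit 0) (cs (lf (nat_lit 29) (nat_lit 295)) (lf (nat_lit 45) (nat_lit 250)))) q46083 (by decide +kernel)
def q46084 : Q := Q.p (nat_lit 0x6000068000020000000000000000000000000000000000000000000000000000000000000000000000000000000) (nat_lit 0x90000010000000000000000000000000000000000000000000000000000000000000000000000000000000) (nat_lit 2)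
theorem c46084 : QOK q46084 := cut [] trivial (nd (nat_lit 340) (nat_lit 0) (cs (lf (nat_lit 23) (nat_lit 316)) (lf (nat_lit 6) (nat_lit 339)))) q46084 (by decide +kernel)
def q46092 : Q := Q.p (nat_lit 0xe00000c000000000000000000000000000000000000000000000000000000000000000000000000000000000000) (nat_lit 0x1000003000000000000000000000000000000000000000000000000000000000000000000000000000000000000) (nat_lit 2)
theorem c46092 : QOK q46092 := cut [] trivial (nd (nat_lit 337) (nat_lit 0) (cs (lf (nat_lit 0) (nat_lit 336)) (lf (nat_lit 21) (nat_lit 337)))) q46092 (by decide +kernel)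
def q46121 : Q := Q.p (nat_lit 0xf000008000000000000000000000000000000000000000000000000000000000000000000000000000000000000) (nat_lit 0xe0000300001d0000000000000000000000000000000000000000000000000000000000000000000000000000000000000) (nat_lit 5)
theorem c46121 : QOK q46121 := cut [] trivial (nd (nat_lit 386) (nat_lit 0) (cs (lf (nat_lit 4) (nat_lit 360)) (nd (nat_lit 364) (nat_lit 0) (cs (lf (nat_lit 5) (nat_lit 361)) (nd (nat_lit 343) (nat_lit 0) (cs (lf (nat_lit 16) (nat_lit 339)) (nd (nat_lit 365) (nat_lit 0) (cs (lf (nat_lit 17) (nat_lit 340)) (lf (nat_lit 22) (nat_lit 339)))))))))) q46121 (by decide +kernel)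
def q46138 : Q := Q.p (nat_lit 0xf000000000000000000000000000000000000000000000000000000000000000000000000000000000000000000) (nat_lit 0xe0000100000e0000000000000000000000000000000000000000000000000000000000000000000000000000000000000) (nat_lit 4)
theorem c46138 : QOK q46138 := cut [] trivial (nd (nat_lit 342) (nat_lit 0) (cs (lf (nat_lit 16) (nat_lit 338)) (nd (nat_lit 386) (nat_lit 0) (cs (lf (nat_lit 4) (nat_lit 360)) (nd (nat_lit 364) (nat_lit 0) (cs (lf (nat_lit 5) (nat_lit 361)) (lf (nat_lit 17) (nat_lit 339)))))))) q46138 (by decide +kernel)
def q46166 : Q := Q.p (nat_lit 0xf000000000000000000000000000000000000000000000000000000000000000000000000000000000000000000) (nat_lit 0x7700000800000000000000000000000000000000000000000000000000000000000000000000000000000000000000000) (nat_lit 4)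
theorem c46166 : QOK q46166 := cut [] trivial (nd (nat_lit 381) (nat_lit 0) (cs (lf (nat_lit 10) (nat_lit 359)) (nd (nat_lit 359) (nat_lit 0) (cs (lf (nat_lit 11) (nat_lit 358)) (nd (nat_lit 385) (nat_lit 0) (cs (lf (nat_lit 5) (nat_lit 360)) (lf (nat_lit 4) (nat_lit 359)))))))) q46166 (by decide +kernel)
def q46178 : Q := Q.p (nat_lit 0x3000008000020000000000000000000000000000000000000000000000000000000000000000000000000000000) (nat_lit 0x40000100000400000000004000000000080000000000000000000000000000000000000000000000000000000000000000000000000) (nat_lit 3)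
theorem c46178 : QOK q46178 := cut [] trivial (nd (nat_lit 382) (nat_lit 0) (cs (lf (nat_lit 36) (nat_lit 294)) (nd (nat_lit 404) (nat_lit 0) (cs (lf (nat_lit 33) (nat_lit 316)) (lf (nat_lit 30) (nat_lit 338)))))) q46178 (by decide +kernel)
def q46180 : Q := Q.p (nat_lit 0x3000018000000000000000000000000000000000000000000000000000000000000000000000000000000000000) (nat_lit 0xc00064000000000000000000000000000000000000000000000000000000000000000000000000000000000000) (nat_lit 3)
theorem c46180 : QOK q46180 := cut [] trivial (nd (nat_lit 341) (nat_lit 0) (cs (lf (nat_lit 6) (nat_lit 338)) (nd (nat_lit 359) (nat_lit 0) (cs (lf (nat_lit 12) (nat_lit 336)) (lf (nat_lit 9) (nat_lit 337)))))) q46180 (by decide +kernel)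
def q46181 : Q := Q.p (nat_lit 0x4000010000068000100000000000000000000000000000000000000000000000000000000000000000000000000) (nat_lit 0x10000200000800000000000000000000000000000000000000000000000000000000000000000000) (nat_lit 2)
theorem c46181 : QOK q46181 := cut [] trivial (nd (nat_lit 297) (nat_lit 0) (cs (lf (nat_lit 13) (nat_lit 293)) (lf (nat_lit 35) (nat_lit 274)))) q46181 (by decide +kernel)
def q46218 : Q := Q.p (nat_lit 0x1000002000008000020000100000000000000000000000000000000000000000000000000000000000000000000000000) (nat_lit 0x4000000000000000080000400000000000000000000000000000000000000000000000000000000000000000000) (nat_lit 2)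
theorem c46218 : QOK q46218 := cut [] trivial (nd (nat_lit 295) (nat_lit 0) (cs (lf (nat_lit 28) (nat_lit 295)) (lf (nat_lit 35) (nat_lit 273)))) q46218 (by decide +kernel)
def q46224 : Q := Q.p (nat_lit 0x200000800003000008000000000000000000000000000000000000000000000000000000000000000000000000000000000000) (nat_lit 0x80000000000000000000004000010000000000000000000000000000000000000000000000000000000000000000000000000000000) (nat_lit 2)
theorem c46224 : QOK q46224 := cut [] trivial (nd (nat_lit 338) (nat_lit 0) (cs (lf (nat_lit 47) (nat_lit 316)) (lf (nat_lit 42) (nat_lit 338)))) q46224 (by decide +kernel)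
def q46235 : Q := Q.p (nat_lit 0x2000008000060000000000000001000000000000000000000000000000000000000000000000000000000000000) (nat_lit 0x800000000000000000000100000400000000000000000000000000000000000000000000000000000000000000000000) (nat_lit 2)
theorem c46235 : QOK q46235 := cut [] trivial (nd (nat_lit 296) (nat_lit 0) (cs (lf (nat_lit 30) (nat_lit 295)) (lf (nat_lit 37) (nat_lit 251)))) q46235 (by decide +kernel)
def q46237 : Q := Q.p (nat_lit 0xc0000e0000000000000000000000000000000000000000000000000000000000000000000000000000000) (nat_lit 0x3000010000000000000000000000000000000000000000000000000000000000000000000000000000000) (nat_lit 2)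
theorem c46237 : QOK q46237 := cut [] trivial (nd (nat_lit 337) (nat_lit 0) (cs (lf (nat_lit 12) (nat_lit 314)) (lf (nat_lit 9) (nat_lit 315)))) q46237 (by decide +kernel)
def q46243 : Q := Q.p (nat_lit 0x200001c000060000000000000000000000000000000000000000000000000000000000000000000000000000000) (nat_lit 0x300000c00001c00020000000000080000000000000000000000000000000000000000000000000000000000000000000000000) (nat_lit 5)
theorem c46243 : QOK q46243 := cut [] trivial (nd (nat_lit 383) (nat_lit 0) (cs (lf (nat_lit 30) (nat_lit 317)) (nd (nat_lit 382) (nat_lit 0) (cs (lf (nat_lit 41) (nat_lit 316)) (nd (nat_lit 360) (nat_lit 0) (cs (lf (nat_lit 36) (nat_lit 294)) (nd (nat_lit 359) (nat_lit 0) (cs (lf (nat_lit 12) (nat_lit 336)) (lf (nat_lit 6) (nat_lit 337)))))))))) q46243 (by decide +kernel)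
def q46256 : Q := Q.p (nat_lit 0x38000060000000000000000000000000000000000000000000000000000000000000000000000000000000) (nat_lit 0xc0000010000000000000000000000000000000000000000000000000000000000000000000000000000000) (nat_lit 2)
theorem c46256 : QOK q46256 := cut [] trivial (nd (nat_lit 342) (nat_lit 0) (cs (lf (nat_lit 18) (nat_lit 317)) (lf (nat_lit 23) (nat_lit 316)))) q46256 (by decide +kernel)
def q46281 : Q := Q.p (nat_lit 0xc000060000000000000000000000000000000000000000000000000000000000000000000000000000000) (nat_lit 0x13000180000000000000000000000000000000000000000000000000000000000000000000000000000000) (nat_lit 3)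
theorem c46281 : QOK q46281 := cut [] trivial (nd (nat_lit 319) (nat_lit 0) (cs (lf (nat_lit 6) (nat_lit 316)) (nd (nat_lit 337) (nat_lit 0) (cs (lf (nat_lit 15) (nat_lit 315)) (lf (nat_lit 12) (nat_lit 314)))))) q46281 (by decide +kernel)
def q46289 : Q := Q.p (nat_lit 0x80000200000800002000008000000000000000000000000000000000000000000000000000000000000000000000000000000000000) (nat_lit 0x1000004000010000000000000000000000000000000000000000000000000000000000000000000000000000000) (nat_lit 2)
theorem c46289 : QOK q46289 := cut [] trivial (nd (nat_lit 338) (nat_lit 0) (cs (lf (nat_lit 47) (nat_lit 316)) (lf (nat_lit 46) (nat_lit 338)))) q46289 (by decide +kernel)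
def q46312 : Q := Q.p (nat_lit 0x800002000008000060000000000000000000000000000000000000000000000000000000000000000000000000000000) (nat_lit 0x140000700001c0000200000000001000017000190000000000000000000000000000000000000000000000000000000000000000000000000000000) (nat_lit 9)
theorem c46312 : QOK q46312 := cut [] trivial (nd (nat_lit 405) (nat_lit 0) (cs (lf (nat_lit 34) (nat_lit 317)) (nd (nat_lit 338) (nat_lit 0) (cs (lf (nat_lit 47) (nat_lit 316)) (nd (nat_lit 319) (nat_lit 0) (cs (lf (nat_lit 6) (nat_lit 316)) (nd (nat_lit 336) (nat_lit 0) (cs (nd (nat_lit 427) (nat_lit 0) (cs (lf (nat_lit 46) (nat_lit 338)) (nd (nat_lit 450) (nat_lit 0) (cs (lf (nat_lit 28) (nat_lit 361)) (nd (nat_lit 448) (nat_lit 0) (cs (nd (nat_lit 449) (nat_lit 0) (cs (lf (nat_lit 29) (nat_lit 383)) (lf (nat_lit 41) (nat_lit 382)))) (lf (nat_lit 40) (nat_lit 360)))))))) (lf (nat_lit 13) (nat_lit 314)))))))))) q46312 (by decide +kernel)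
def q46320 : Q := Q.p (nat_lit 0x58000060000000000000000000000000000000000000000000000000000000000000000000000000000000) (nat_lit 0xa0000010000000000000000000000000000000000000000000000000000000000000000000000000000000) (nat_lit 2)
theorem c46320 : QOK q46320 := cut [] trivial (nd (nat_lit 341) (nat_lit 0) (cs (lf (nat_lit 18) (nat_lit 317)) (lf (nat_lit 23) (nat_lit 316)))) q46320 (by decide +kernel)
def q46335 : Q := Q.p (nat_lit 0xc00009000004000010000000000000000000000000000000000000000000000000000000000000000000000000000000) (nat_lit 0x80001200006000000000000000000000000000000000000000000000000000000000000000000000000000000000000000000) (nat_lit 3)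
theorem c46335 : QOK q46335 := cut [] trivial (nd (nat_lit 381) (nat_lit 0) (cs (lf (nat_lit 41) (nat_lit 315)) (nd (nat_lit 362) (nat_lit 0) (cs (lf (nat_lit 15) (nat_lit 359)) (lf (nat_lit 8) (nat_lit 359)))))) q46335 (by decide +kernel)
def q46362 : Q := Q.p (nat_lit 0x1000002000018000060000000000000000000000000000000000000000000000000000000000000000000000000000000) (nat_lit 0x600000800000000000000000000000000000000000000000000000000000000000000000000000000000000000000000000000) (nat_lit 2)
theorem c46362 : QOK q46362 := cut [] trivial (nd (nat_lit 383) (nat_lit 0) (cs (lf (nat_lit 30) (nat_lit 317)) (lf (nat_lit 29) (nat_lit 317)))) q46362 (by decide +kernel)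
def q46371 : Q := Q.p (nat_lit 0x3000009000020000080000000000000000000000000000000000000000000000000000000000000000000000000000000) (nat_lit 0x1000004800006000000000000000000000000000000000000000000000000000000000000000000000000000000000000000000) (nat_lit 3)
theorem c46371 : QOK q46371 := cut [] trivial (nd (nat_lit 386) (nat_lit 0) (cs (lf (nat_lit 29) (nat_lit 319)) (nd (nat_lit 361) (nat_lit 0) (cs (lf (nat_lit 21) (nat_lit 360)) (lf (nat_lit 2) (nat_lit 360)))))) q46371 (by decide +kernel)
def q46394 : Q := Q.p (nat_lit 0x80000e0000000000000002000000000000000000000000000000000000000000000000000000000000000) (nat_lit 0x14000310000e00000800000000000000000000000000000000000000000000000000000000000000000000) (nat_lit 5)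
theorem c46394 : QOK q46394 := cut [] trivial (nd (nat_lit 320) (nat_lit 0) (cs (lf (nat_lit 11) (nat_lit 316)) (nd (nat_lit 298) (nat_lit 0) (cs (lf (nat_lit 17) (nat_lit 295)) (nd (nat_lit 297) (nat_lit 0) (cs (lf (nat_lit 12) (nat_lit 294)) (nd (nat_lit 340) (nat_lit 0) (cs (lf (nat_lit 6) (nat_lit 317)) (lf (nat_lit 37) (nat_lit 252)))))))))) q46394 (by decide +kernel)
def q46411 : Q := Q.p (nat_lit 0xf00000c000020000000000000000000000000000000000000000000000000000000000000000000000000000000) (nat_lit 0x100000600000000000000000000000000000000000000000000000000000000000000000000000000000000000000000000000) (nat_lit 2)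
theorem c46411 : QOK q46411 := cut [] trivial (nd (nat_lit 382) (nat_lit 0) (cs (lf (nat_lit 11) (nat_lit 359)) (lf (nat_lit 30) (nat_lit 316)))) q46411 (by decide +kernel)
def q46421 : Q := Q.p (nat_lit 0x800002c0000e0000100000000000000000000000000000000000000000000000000000000000000000000000000) (nat_lit 0x800017000040000010000000000000000000000000000000000000000000000000000000000000000000000000000000) (nat_lit 4)
theorem c46421 : QOK q46421 := cut [] trivial (nd (nat_lit 361) (nat_lit 0) (cs (lf (nat_lit 30) (nat_lit 295)) (nd (nat_lit 362) (nat_lit 0) (cs (lf (nat_lit 18) (nat_lit 338)) (nd (nat_lit 342) (nat_lit 0) (cs (lf (nat_lit 0) (nat_lit 316)) (lf (nat_lit 12) (nat_lit 338)))))))) q46421 (by decide +kernel)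
def q46427 : Q := Q.p (nat_lit 0xa00002c0000e0000000000000000000000000000000000000000000000000000000000000000000000000000000) (nat_lit 0x180000600005800050000018000000000000000000000000000000000000000000000000000000000000000000000000000000) (nat_lit 6)
theorem c46427 : QOK q46427 := cut [] trivial (nd (nat_lit 316) (nat_lit 0) (cs (lf (nat_lit 5) (nat_lit 316)) (nd (nat_lit 340) (nat_lit 0) (cs (lf (nat_lit 0) (nat_lit 315)) (nd (nat_lit 360) (nat_lit 0) (cs (lf (nat_lit 11) (nat_lit 337)) (nd (nat_lit 382) (nat_lit 0) (cs (lf (nat_lit 30) (nat_lit 316)) (nd (nat_lit 381) (nat_lit 0) (cs (lf (nat_lit 41) (nat_lit 315)) (lf (nat_lit 7) (nat_lit 359)))))))))))) q46427 (by decide +kernel)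
def q46430 : Q := Q.p (nat_lit 0x800002c0000e0000000000000000000000000000000000000000000000000000000000000000000000000000000) (nat_lit 0x10000050000018000000000000000000000000000000000000000000000000000000000000000000000000000000) (nat_lit 3)
theorem c46430 : QOK q46430 := cut [] trivial (nd (nat_lit 316) (nat_lit 0) (cs (lf (nat_lit 5) (nat_lit 316)) (nd (nat_lit 340) (nat_lit 0) (cs (lf (nat_lit 23) (nat_lit 315)) (lf (nat_lit 5) (nat_lit 338)))))) q46430 (by decide +kernel)
def q46441 : Q := Q.p (nat_lit 0x6800018000060000000000000000000000000000000000000000000000000000000000000000000000000000000) (nat_lit 0xc00003000001000000000000000000000000000000000000000000000000000000000000000000000000000000000000000000) (nat_lit 3)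
theorem c46441 : QOK q46441 := cut [] trivial (nd (nat_lit 384) (nat_lit 0) (cs (lf (nat_lit 42) (nat_lit 317)) (nd (nat_lit 385) (nat_lit 0) (cs (lf (nat_lit 29) (nat_lit 318)) (lf (nat_lit 1) (nat_lit 359)))))) q46441 (by decide +kernel)
def q46451 : Q := Q.p (nat_lit 0xe000060000000000000000000000000000000000000000000000000000000000000000000000000000000) (nat_lit 0x190000000000000000000000000000000000000000000000000000000000000000000000000000000) (nat_lit 2)
theorem c46451 : QOK q46451 := cut [] trivial (nd (nat_lit 319) (nat_lit 0) (cs (lf (nat_lit 6) (nat_lit 316)) (lf (nat_lit 9) (nat_lit 315)))) q46451 (by decide +kernel)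
def q46472 : Q := Q.p (nat_lit 0x600000e000000000000000000000000000000000000000000000000000000000000000000000000000000000000) (nat_lit 0x18000010000000000000000000000000000000000000000000000000000000000000000000000000000000000000) (nat_lit 2)
theorem c46472 : QOK q46472 := cut [] trivial (nd (nat_lit 363) (nat_lit 0) (cs (lf (nat_lit 18) (nat_lit 338)) (lf (nat_lit 3) (nat_lit 337)))) q46472 (by decide +kernel)
def q46496 : Q := Q.p (nat_lit 0xe000040000000000000000000000000000000000000000000000000000000000000000000000000000000000000) (nat_lit 0x110001a0000000000000000000000000000000000000000000000000000000000000000000000000000000000000) (nat_lit 3)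
theorem c46496 : QOK q46496 := cut [] trivial (nd (nat_lit 341) (nat_lit 0) (cs (lf (nat_lit 12) (nat_lit 338)) (nd (nat_lit 343) (nat_lit 0) (cs (lf (nat_lit 15) (nat_lit 339)) (lf (nat_lit 6) (nat_lit 340)))))) q46496 (by decide +kernel)
def q46503 : Q := Q.p (nat_lit 0xe000048000020000000000000000000000000000000000000000000000000000000000000000000000000000000) (nat_lit 0x40000f700031c00090000000000000000000000000000000000000000000000000000000000000000000000000000000000000) (nat_lit 8)
theorem c46503 : QOK q46503 := cut [] trivial (nd (nat_lit 364) (nat_lit 0) (cs (lf (nat_lit 17) (nat_lit 339)) (nd (nat_lit 340) (nat_lit 0) (cs (lf (nat_lit 18) (nat_lit 339)) (nd (nat_lit 384) (nat_lit 0) (cs (lf (nat_lit 42) (nat_lit 317)) (nd (nat_lit 386) (nat_lit 0) (cs (lf (nat_lit 5) (nat_lit 361)) (nd (nat_lit 360) (nat_lit 0) (cs (lf (nat_lit 4) (nat_lit 360)) (nd (nat_lit 381) (nat_lit 0) (cs (lf (nat_lit 10) (nat_lit 359)) (nd (nat_lit 359) (nat_lit 0) (cs (lf (nat_lit 11) (nat_lit 358)) (lf (nat_lit 12) (nat_lit 336)))))))))))))))) q46503 (by decide +kernel)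
def q46512 : Q := Q.p (nat_lit 0xe000040000000000000000000000000000000000000000000000000000000000000000000000000000000000000) (nat_lit 0x100001b0000000000000000000000000000000000000000000000000000000000000000000000000000000000000) (nat_lit 3)
theorem c46512 : QOK q46512 := cut [] trivial (nd (nat_lit 343) (nat_lit 0) (cs (lf (nat_lit 15) (nat_lit 339)) (nd (nat_lit 341) (nat_lit 0) (cs (lf (nat_lit 6) (nat_lit 340)) (lf (nat_lit 9) (nat_lit 339)))))) q46512 (by decide +kernel)
def q46521 : Q := Q.p (nat_lit 0x2000008000020000000000100000400000000000000000000000000000000000000000000000000000000000000) (nat_lit 0x40000700001c00004000010000040000180000200000000000000000000000000000000000000000000000000000000000000000000) (nat_lit 7)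
theorem c46521 : QOK q46521 := cut [] trivial (nd (nat_lit 295) (nat_lit 0) (cs (lf (nat_lit 45) (nat_lit 250)) (nd (nat_lit 384) (nat_lit 0) (cs (lf (nat_lit 28) (nat_lit 295)) (nd (nat_lit 383) (nat_lit 0) (cs (lf (nat_lit 29) (nat_lit 317)) (nd (nat_lit 404) (nat_lit 0) (cs (lf (nat_lit 40) (nat_lit 316)) (nd (nat_lit 318) (nat_lit 0) (cs (lf (nat_lit 35) (nat_lit 295)) (nd (nat_lit 405) (nat_lit 0) (cs (lf (nat_lit 41) (nat_lit 338)) (lf (nat_lit 34) (nat_lit 317)))))))))))))) q46521 (by decide +kernel)
def q46559 : Q := Q.p (nat_lit 0x100000c0000200000800000000000000000000000000000000000000000000000000000000) (nat_lit 0x1000004000020000000000000000000000000000000000000000000000000000000000000000000000000) (nat_lit 2)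
theorem c46559 : QOK q46559 := cut [] trivial (nd (nat_lit 314) (nat_lit 0) (cs (lf (nat_lit 30) (nat_lit 248)) (lf (nat_lit 39) (nat_lit 226)))) q46559 (by decide +kernel)
def q46561 : Q := Q.p (nat_lit 0x40000180000600000000000000000000000000000000000000000000000000000000000000) (nat_lit 0x10000000000000000000000800002000000000000000000000000000000000000000000000000000) (nat_lit 2)
theorem c46561 : QOK q46561 := cut [] trivial (nd (nat_lit 227) (nat_lit 0) (cs (lf (nat_lit 42) (nat_lit 227)) (lf (nat_lit 24) (nat_lit 205)))) q46561 (by decide +kernel)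
def q46565 : Q := Q.p (nat_lit 0x8000020000080000200000800000000000000000000000000000000000000000000000000000000) (nat_lit 0x1000004000010000000000000000000000000000000000000000000000000000000000000000000000000) (nat_lit 2)
theorem c46565 : QOK q46565 := cut [] trivial (nd (nat_lit 314) (nat_lit 0) (cs (lf (nat_lit 41) (nat_lit 248)) (lf (nat_lit 40) (nat_lit 226)))) q46565 (by decide +kernel)
def q46572 : Q := Q.p (nat_lit 0x20000080000200000800002000000000000000000000000000000000000000000000000000) (nat_lit 0x400001000004000000000000000000000000000000000000000000000) (nat_lit 2)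
theorem c46572 : QOK q46572 := cut [] trivial (nd (nat_lit 204) (nat_lit 0) (cs (lf (nat_lit 47) (nat_lit 182)) (lf (nat_lit 46) (nat_lit 204)))) q46572 (by decide +kernel)
def q46575 : Q := Q.p (nat_lit 0x10000020000180000600000000000000000000000000000000000000000000000000000000000000) (nat_lit 0x6000008000000000000000000000000000000000000000000000000000000000000000000000000000000) (nat_lit 2)
theorem c46575 : QOK q46575 := cut [] trivial (nd (nat_lit 315) (nat_lit 0) (cs (lf (nat_lit 30) (nat_lit 249)) (lf (nat_lit 29) (nat_lit 249)))) q46575 (by decide +kernel)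
def q46580 : Q := Q.p (nat_lit 0x8000020000680000200000000000000000000000000000000000000000000000000000000) (nat_lit 0x100000100000400000000000000000000000000000000000000000000000000) (nat_lit 2)
theorem c46580 : QOK q46580 := cut [] trivial (nd (nat_lit 224) (nat_lit 0) (cs (lf (nat_lit 47) (nat_lit 202)) (lf (nat_lit 20) (nat_lit 224)))) q46580 (by decide +kernel)
def q46589 : Q := Q.p (nat_lit 0x10000040000100000400001000000000000000000000000000000000000000000000000000) (nat_lit 0x200000800002000000000000000000000000000000000000000000000) (nat_lit 2)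
theorem c46589 : QOK q46589 := cut [] trivial (nd (nat_lit 203) (nat_lit 0) (cs (lf (nat_lit 46) (nat_lit 203)) (lf (nat_lit 47) (nat_lit 181)))) q46589 (by decide +kernel)
def q46597 : Q := Q.p (nat_lit 0x40000180000200000800000000000000000000000000000000000000000000000000) (nat_lit 0x4000010000000000000000400000000000000000000000000000000000000000000000000000000) (nat_lit 2)
theorem c46597 : QOK q46597 := cut [] trivial (nd (nat_lit 292) (nat_lit 0) (cs (lf (nat_lit 42) (nat_lit 225)) (lf (nat_lit 45) (nat_lit 203)))) q46597 (by decide +kernel)
def q46617 : Q := Q.p (nat_lit 0x2000008000060000100000000000000000000000000000000000000000000000000000000000000) (nat_lit 0x10000000000000000400001000000000000000000000000000000000000000000000000000) (nat_lit 2)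
theorem c46617 : QOK q46617 := cut [] trivial (nd (nat_lit 226) (nat_lit 0) (cs (lf (nat_lit 36) (nat_lit 203)) (lf (nat_lit 39) (nat_lit 225)))) q46617 (by decide +kernel)
def q46629 : Q := Q.p (nat_lit 0x300001c0000100000400000000000000000000000000000000000000000000000000000000000000) (nat_lit 0x200000c000000000000000000000000000000000000000000000000000000000000000000000000000000) (nat_lit 2)
theorem c46629 : QOK q46629 := cut [] trivial (nd (nat_lit 315) (nat_lit 0) (cs (lf (nat_lit 41) (nat_lit 249)) (lf (nat_lit 12) (nat_lit 292)))) q46629 (by decide +kernel)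
def q46639 : Q := Q.p (nat_lit 0x4000010000040000280000000000000000000000000000000000000000000000000000000000000000000) (nat_lit 0x10000000000000000a0000000000000000000000000000000000000000000000000000000000000000000000000) (nat_lit 2)
theorem c46639 : QOK q46639 := cut [] trivial (nd (nat_lit 360) (nat_lit 0) (cs (lf (nat_lit 34) (nat_lit 272)) (lf (nat_lit 46) (nat_lit 271)))) q46639 (by decide +kernel)
def q46651 : Q := Q.p (nat_lit 0x70000060000000000000000000000000000000000000000000000000000000000000000000000000) (nat_lit 0x98000000000000000000000000000000000000000000000000000000000000000000000000) (nat_lit 2)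
theorem c46651 : QOK q46651 := cut [] trivial (nd (nat_lit 292) (nat_lit 0) (cs (lf (nat_lit 0) (nat_lit 291)) (lf (nat_lit 3) (nat_lit 292)))) q46651 (by decide +kernel)
def q46659 : Q := Q.p (nat_lit 0x10000040000180000400000000000000000000000000000000000000000000000000000000000000) (nat_lit 0x4000000000000000000000200000800000000000000000000000000000000000000000000000000000000) (nat_lit 2)
theorem c46659 : QOK q46659 := cut [] trivial (nd (nat_lit 249) (nat_lit 0) (cs (lf (nat_lit 47) (nat_lit 227)) (lf (nat_lit 42) (nat_lit 249)))) q46659 (by decide +kernel)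
def q46663 : Q := Q.p (nat_lit 0x38000140000000000000000000000000000000000000000000000000000000000000000000000000) (nat_lit 0x700000c0000220000000000000000000000000000000000000000000000000000000000000000000000000) (nat_lit 4)
theorem c46663 : QOK q46663 := cut [] trivial (nd (nat_lit 318) (nat_lit 0) (cs (lf (nat_lit 17) (nat_lit 293)) (nd (nat_lit 341) (nat_lit 0) (cs (lf (nat_lit 4) (nat_lit 315)) (nd (nat_lit 319) (nat_lit 0) (cs (lf (nat_lit 23) (nat_lit 293)) (lf (nat_lit 5) (nat_lit 316)))))))) q46663 (by decide +kernel)
def q46687 : Q := Q.p (nat_lit 0x18000068000080000200000000000000000000000000000000000000000000000000000000000000) (nat_lit 0x1000007000004000000000000000000000000000000000000000000000000000000000000000000000000) (nat_lit 3)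
theorem c46687 : QOK q46687 := cut [] trivial (nd (nat_lit 314) (nat_lit 0) (cs (lf (nat_lit 41) (nat_lit 248)) (nd (nat_lit 313) (nat_lit 0) (cs (lf (nat_lit 23) (nat_lit 290)) (lf (nat_lit 12) (nat_lit 290)))))) q46687 (by decide +kernel)
def q46700 : Q := Q.p (nat_lit 0x3c0000000000000000000000000000000000000000000000000000000000000000000) (nat_lit 0x1c00000200001c0000000000000000000000000000000000000000000000000000000000000) (nat_lit 4)
theorem c46700 : QOK q46700 := cut [] trivial (nd (nat_lit 247) (nat_lit 0) (cs (lf (nat_lit 22) (nat_lit 247)) (nd (nat_lit 295) (nat_lit 0) (cs (lf (nat_lit 5) (nat_lit 270)) (nd (nat_lit 269) (nat_lit 0) (cs (lf (nat_lit 4) (nat_lit 269)) (lf (nat_lit 23) (nat_lit 246)))))))) q46700 (by decide +kernel)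
def q46701 : Q := Q.p (nat_lit 0x40000100000c0000200000000000000000000000000000000000000000000000000000000000000) (nat_lit 0x100000800002000000000000000000000000000000000000000000000000000) (nat_lit 2)
theorem c46701 : QOK q46701 := cut [] trivial (nd (nat_lit 227) (nat_lit 0) (cs (lf (nat_lit 36) (nat_lit 204)) (lf (nat_lit 33) (nat_lit 226)))) q46701 (by decide +kernel)
def q46705 : Q := Q.p (nat_lit 0x3800024000000000000000000000000000000000000000000000000000000000000000000000000000000) (nat_lit 0x4000018000000000000000000000000000000000000000000000000000000000000000000000000000000) (nat_lit 2)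
theorem c46705 : QOK q46705 := cut [] trivial (nd (nat_lit 316) (nat_lit 0) (cs (lf (nat_lit 15) (nat_lit 313)) (lf (nat_lit 8) (nat_lit 313)))) q46705 (by decide +kernel)
def q46715 : Q := Q.p (nat_lit 0x4000010000040000100000400000000000000000000000000000000000000000000000000000000) (nat_lit 0x200000800002000000000000000000000000000000000000000000000000000) (nat_lit 2)
theorem c46715 : QOK q46715 := cut [] trivial (nd (nat_lit 227) (nat_lit 0) (cs (lf (nat_lit 35) (nat_lit 204)) (lf (nat_lit 34) (nat_lit 226)))) q46715 (by decide +kernel)
def q46728 : Q := Q.p (nat_lit 0x2c000010000040000100000000000000000000000000000000000000000000000000000000000000) (nat_lit 0x200001800012000000000000000000000000000000000000000000000000000000000000000000000000000000) (nat_lit 3)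
theorem c46728 : QOK q46728 := cut [] trivial (nd (nat_lit 335) (nat_lit 0) (cs (nd (nat_lit 336) (nat_lit 0) (cs (lf (nat_lit 41) (nat_lit 269)) (lf (nat_lit 7) (nat_lit 313)))) (lf (nat_lit 40) (nat_lit 247)))) q46728 (by decide +kernel)
def q46745 : Q := Q.p (nat_lit 0x10000040000100000400001000000000000000000000000000000000000000000000000000) (nat_lit 0x800002000008000000000000000000000000000000000000000000000) (nat_lit 2)
theorem c46745 : QOK q46745 := cut [] trivial (nd (nat_lit 205) (nat_lit 0) (cs (lf (nat_lit 35) (nat_lit 182)) (lf (nat_lit 34) (nat_lit 204)))) q46745 (by decide +kernel)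
def q46759 : Q := Q.p (nat_lit 0x3c0000100000400000000000000000000000000000000000000000000000000000000) (nat_lit 0x8000038000000000000000000001000000000000000000000000000000000000000000000000000) (nat_lit 3)
theorem c46759 : QOK q46759 := cut [] trivial (nd (nat_lit 292) (nat_lit 0) (cs (lf (nat_lit 11) (nat_lit 269)) (nd (nat_lit 293) (nat_lit 0) (cs (lf (nat_lit 29) (nat_lit 226)) (lf (nat_lit 24) (nat_lit 204)))))) q46759 (by decide +kernel)
def q46765 : Q := Q.p (nat_lit 0x1f0000000000000000000000000000000000000000000000000000000000000000000) (nat_lit 0xe0000000000000000000000000000000000000000000000000000000000000) (nat_lit 2)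
theorem c46765 : QOK q46765 := cut [] trivial (nd (nat_lit 246) (nat_lit 0) (cs (lf (nat_lit 22) (nat_lit 246)) (lf (nat_lit 23) (nat_lit 245)))) q46765 (by decide +kernel)
def q46774 : Q := Q.p (nat_lit 0x1e0000400000000000000000000000000000000000000000000000000000000000000) (nat_lit 0xe000010000200000000000000000000000000000000000000000000000000000000000000) (nat_lit 3)
theorem c46774 : QOK q46774 := cut [] trivial (nd (nat_lit 290) (nat_lit 0) (cs (lf (nat_lit 10) (nat_lit 268)) (nd (nat_lit 268) (nat_lit 0) (cs (lf (nat_lit 16) (nat_lit 246)) (lf (nat_lit 11) (nat_lit 267)))))) q46774 (by decide +kernel)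
def q46780 : Q := Q.p (nat_lit 0x40000080000200000800004000000000000000000000000000000000000000000000) (nat_lit 0x100000000000000002000010000000000000000000000000000000000000000) (nat_lit 2)
theorem c46780 : QOK q46780 := cut [] trivial (nd (nat_lit 181) (nat_lit 0) (cs (lf (nat_lit 35) (nat_lit 159)) (lf (nat_lit 28) (nat_lit 181)))) q46780 (by decide +kernel)
def q46783 : Q := Q.p (nat_lit 0x8000020000080000200000800000000000000000000000000000000000000000000000000) (nat_lit 0x100000400001000000000000000000000000000000000000000000000) (nat_lit 2)
theorem c46783 : QOK q46783 := cut [] trivial (nd (nat_lit 202) (nat_lit 0) (cs (lf (nat_lit 47) (nat_lit 180)) (lf (nat_lit 46) (nat_lit 202)))) q46783 (by decide +kernel)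
def q46803 : Q := Q.p (nat_lit 0x100001c0003000000000000000000000000000000000000000000000000000000000000000) (nat_lit 0x8000600000000000000000000000000000000000000000000000000000000000000000000) (nat_lit 2)
theorem c46803 : QOK q46803 := cut [] trivial (nd (nat_lit 273) (nat_lit 0) (cs (lf (nat_lit 11) (nat_lit 269)) (lf (nat_lit 15) (nat_lit 249)))) q46803 (by decide +kernel)
def q46804 : Q := Q.p (nat_lit 0xc0000100001c0000400000000000000000000000000000000000000000000000000000000000000) (nat_lit 0x2000000000020000000000100000000000000000000000000000000000000000000000000000000000000) (nat_lit 2)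
theorem c46804 : QOK q46804 := cut [] trivial (nd (nat_lit 337) (nat_lit 0) (cs (lf (nat_lit 24) (nat_lit 248)) (lf (nat_lit 32) (nat_lit 249)))) q46804 (by decide +kernel)
def q46807 : Q := Q.p (nat_lit 0xe00000c000000000000000000000000000000000000000000000000000000000000000000000000000000) (nat_lit 0x13000000000000000000000000000000000000000000000000000000000000000000000000000000) (nat_lit 2)
theorem c46807 : QOK q46807 := cut [] trivial (nd (nat_lit 313) (nat_lit 0) (cs (lf (nat_lit 0) (nat_lit 312)) (lf (nat_lit 3) (nat_lit 313)))) q46807 (by decide +kernel)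
def q46818 : Q := Q.p (nat_lit 0x1e000010000040000000000000000000000000000000000000000000000000000000000000000000) (nat_lit 0xc00000000000000000000100000000000000000000000000000000000000000000000000000000000000) (nat_lit 2)
theorem c46818 : QOK q46818 := cut [] trivial (nd (nat_lit 335) (nat_lit 0) (cs (lf (nat_lit 11) (nat_lit 312)) (lf (nat_lit 36) (nat_lit 247)))) q46818 (by decide +kernel)
def q46832 : Q := Q.p (nat_lit 0x28000030000080000200000000000000000000000000000000000000000000000000000000000000) (nat_lit 0x4000050000000000000000000000000000000000000000000000000000000000000000000000000000000) (nat_lit 2)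
theorem c46832 : QOK q46832 := cut [] trivial (nd (nat_lit 316) (nat_lit 0) (cs (lf (nat_lit 18) (nat_lit 292)) (lf (nat_lit 29) (nat_lit 249)))) q46832 (by decide +kernel)
def q46838 : Q := Q.p (nat_lit 0x40000100000c0000200000000000000000000000000000000000000000000000000000000000000) (nat_lit 0x20000000000000000800002000000000000000000000000000000000000000000000000000) (nat_lit 2)
theorem c46838 : QOK q46838 := cut [] trivial (nd (nat_lit 227) (nat_lit 0) (cs (lf (nat_lit 36) (nat_lit 204)) (lf (nat_lit 39) (nat_lit 226)))) q46838 (by decide +kernel)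
def q46840 : Q := Q.p (nat_lit 0x20000040000100001c0000400000000000000000000000000000000000000000000000000000000000000) (nat_lit 0x8000020000000000100000000000000000000000000000000000000000000000000000000000000) (nat_lit 2)
theorem c46840 : QOK q46840 := cut [] trivial (nd (nat_lit 315) (nat_lit 0) (cs (lf (nat_lit 24) (nat_lit 248)) (lf (nat_lit 32) (nat_lit 249)))) q46840 (by decide +kernel)
def q46853 : Q := Q.p (nat_lit 0x2000004000010000040000000000000000000000000000000000000000000000000000000000000000000) (nat_lit 0xa0000180000a000000000000000100000000000000000000000000000000000000000000000000000000000000) (nat_lit 4)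
theorem c46853 : QOK q46853 := cut [] trivial (nd (nat_lit 336) (nat_lit 0) (cs (lf (nat_lit 29) (nat_lit 270)) (nd (nat_lit 335) (nat_lit 0) (cs (lf (nat_lit 41) (nat_lit 269)) (nd (nat_lit 248) (nat_lit 0) (cs (lf (nat_lit 28) (nat_lit 248)) (lf (nat_lit 40) (nat_lit 247)))))))) q46853 (by decide +kernel)
def q46855 : Q := Q.p (nat_lit 0x3000004000010000180000400000000000000000000000000000000000000000000000000000000000000) (nat_lit 0x400000000008000020000000000000000000000000000000000000000000000000000000000000000000000000) (nat_lit 2)
theorem c46855 : QOK q46855 := cut [] trivial (nd (nat_lit 293) (nat_lit 0) (cs (lf (nat_lit 30) (nat_lit 270)) (lf (nat_lit 31) (nat_lit 249)))) q46855 (by decide +kernel)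
def q46863 : Q := Q.p (nat_lit 0x4000010000040000100000400000000000000000000000000000000000000000000000000000000) (nat_lit 0x800002000008000000000000000000000000000000000000000000000000000000000000000000000000) (nat_lit 2)
theorem c46863 : QOK q46863 := cut [] trivial (nd (nat_lit 313) (nat_lit 0) (cs (lf (nat_lit 41) (nat_lit 247)) (lf (nat_lit 40) (nat_lit 225)))) q46863 (by decide +kernel)
def q46883 : Q := Q.p (nat_lit 0x1000004000010000040000100000000000000000000000000000000000000000000000000000000000000) (nat_lit 0x800002000008000000000000000000000000000000000000000000000000000000000000000000000000000000) (nat_lit 2)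
theorem c46883 : QOK q46883 := cut [] trivial (nd (nat_lit 337) (nat_lit 0) (cs (lf (nat_lit 29) (nat_lit 270)) (lf (nat_lit 28) (nat_lit 248)))) q46883 (by decide +kernel)
def q46888 : Q := Q.p (nat_lit 0x10000040000300000c0000000000000000000000000000000000000000000000000000000000000000000) (nat_lit 0x20000080000a000000000000000100000400001000000000000000000000000000000000000000000000000000) (nat_lit 4)
theorem c46888 : QOK q46888 := cut [] trivial (nd (nat_lit 335) (nat_lit 0) (cs (lf (nat_lit 41) (nat_lit 269)) (nd (nat_lit 248) (nat_lit 0) (cs (lf (nat_lit 40) (nat_lit 247)) (nd (nat_lit 226) (nat_lit 0) (cs (lf (nat_lit 29) (nat_lit 226)) (lf (nat_lit 24) (nat_lit 204)))))))) q46888 (by decide +kernel)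
def q46902 : Q := Q.p (nat_lit 0xf00000000000000000000000000000000000000000000000000000000) (nat_lit 0x70000080000700000000000000000000000000000000000000000000000000) (nat_lit 4)
theorem c46902 : QOK q46902 := cut [] trivial (nd (nat_lit 245) (nat_lit 0) (cs (lf (nat_lit 10) (nat_lit 223)) (nd (nat_lit 223) (nat_lit 0) (cs (lf (nat_lit 11) (nat_lit 222)) (nd (nat_lit 201) (nat_lit 0) (cs (lf (nat_lit 22) (nat_lit 201)) (lf (nat_lit 23) (nat_lit 200)))))))) q46902 (by decide +kernel)
def q46908 : Q := Q.p (nat_lit 0x1000004000010000040000100000000000000000000000000000000000000000000000000000000000000) (nat_lit 0x200000800002000000000000000000000000000000000000000000000000000000000000000000000000000000) (nat_lit 2)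
theorem c46908 : QOK q46908 := cut [] trivial (nd (nat_lit 335) (nat_lit 0) (cs (lf (nat_lit 41) (nat_lit 269)) (lf (nat_lit 40) (nat_lit 247)))) q46908 (by decide +kernel)
def q46918 : Q := Q.p (nat_lit 0x300000c0000100000800000000000000000000000000000000000000000000000000000000) (nat_lit 0x600001800006000000000000000200000000000000000000000000000000000000000000000000000000000000) (nat_lit 4)
theorem c46918 : QOK q46918 := cut [] trivial (nd (nat_lit 314) (nat_lit 0) (cs (nd (nat_lit 335) (nat_lit 0) (cs (lf (nat_lit 40) (nat_lit 247)) (nd (nat_lit 336) (nat_lit 0) (cs (lf (nat_lit 41) (nat_lit 269)) (lf (nat_lit 30) (nat_lit 270)))))) (lf (nat_lit 37) (nat_lit 226)))) q46918 (by decide +kernel)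
def q46924 : Q := Q.p (nat_lit 0x40000100000c00002000000000000000000000000000000000000000000000000000) (nat_lit 0x1000008000020000000000000000000000000000000000000000) (nat_lit 2)
theorem c46924 : QOK q46924 := cut [] trivial (nd (nat_lit 183) (nat_lit 0) (cs (lf (nat_lit 36) (nat_lit 160)) (lf (nat_lit 33) (nat_lit 182)))) q46924 (by decide +kernel)
def q46929 : Q := Q.p (nat_lit 0x40000100000c00002000000000000000000000000000000000000000000000000000) (nat_lit 0x200000000000000008000020000000000000000000000000000000000000000) (nat_lit 2)
theorem c46929 : QOK q46929 := cut [] trivial (nd (nat_lit 183) (nat_lit 0) (cs (lf (nat_lit 36) (nat_lit 160)) (lf (nat_lit 39) (nat_lit 182)))) q46929 (by decide +kernel)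
def q46946 : Q := Q.p (nat_lit 0xc0000100000400000000000000000000000000000000000000000000000000000000) (nat_lit 0x2000000000020000000000300000c000020000000000000000000000000000000000000000) (nat_lit 4)
theorem c46946 : QOK q46946 := cut [] trivial (nd (nat_lit 204) (nat_lit 0) (cs (lf (nat_lit 29) (nat_lit 204)) (nd (nat_lit 183) (nat_lit 0) (cs (lf (nat_lit 34) (nat_lit 182)) (nd (nat_lit 182) (nat_lit 0) (cs (lf (nat_lit 28) (nat_lit 182)) (lf (nat_lit 35) (nat_lit 160)))))))) q46946 (by decide +kernel)
def q46953 : Q := Q.p (nat_lit 0x10000040000700000c00000000000000000000000000000000000000000000000000000000) (nat_lit 0x300000800000000000000000000000000000000000000000000000000) (nat_lit 2)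
theorem c46953 : QOK q46953 := cut [] trivial (nd (nat_lit 225) (nat_lit 0) (cs (lf (nat_lit 47) (nat_lit 203)) (lf (nat_lit 0) (nat_lit 224)))) q46953 (by decide +kernel)
def q46958 : Q := Q.p (nat_lit 0x1c0000600000800000000000000000000000000000000000000000000000000000000) (nat_lit 0x10000000000000000000002000008000000000000000000000000000000000000000000000) (nat_lit 2)
theorem c46958 : QOK q46958 := cut [] trivial (nd (nat_lit 205) (nat_lit 0) (cs (lf (nat_lit 41) (nat_lit 204)) (lf (nat_lit 24) (nat_lit 183)))) q46958 (by decide +kernel)
def q46965 : Q := Q.p (nat_lit 0x8000020000180000600000000010000000000000000000000000000000000000000000000000000) (nat_lit 0x1000004000000000000000100000f0000f000018000000000000000000000000000000000000000000000) (nat_lit 7)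
theorem c46965 : QOK q46965 := cut [] trivial (nd (nat_lit 314) (nat_lit 0) (cs (lf (nat_lit 41) (nat_lit 248)) (nd (nat_lit 226) (nat_lit 0) (cs (lf (nat_lit 46) (nat_lit 226)) (nd (nat_lit 227) (nat_lit 0) (cs (lf (nat_lit 47) (nat_lit 204)) (nd (nat_lit 224) (nat_lit 0) (cs (lf (nat_lit 1) (nat_lit 224)) (nd (nat_lit 205) (nat_lit 0) (cs (lf (nat_lit 24) (nat_lit 183)) (nd (nat_lit 206) (nat_lit 0) (cs (lf (nat_lit 7) (nat_lit 204)) (lf (nat_lit 35) (nat_lit 183)))))))))))))) q46965 (by decide +kernel)
def q46968 : Q := Q.p (nat_lit 0x180000600000800001000000000000000000000000000000000000000000000000000) (nat_lit 0x200000c000000000000000000000000000000000000000000000) (nat_lit 2)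
theorem c46968 : QOK q46968 := cut [] trivial (nd (nat_lit 205) (nat_lit 0) (cs (lf (nat_lit 47) (nat_lit 182)) (lf (nat_lit 24) (nat_lit 183)))) q46968 (by decide +kernel)
def q46976 : Q := Q.p (nat_lit 0x80000200000800012000040000000000000000000000000000000000000000000000) (nat_lit 0xd0000b4000000000000000000000000000000000000000000000) (nat_lit 4)
theorem c46976 : QOK q46976 := cut [] trivial (nd (nat_lit 204) (nat_lit 0) (cs (lf (nat_lit 47) (nat_lit 182)) (nd (nat_lit 206) (nat_lit 0) (cs (lf (nat_lit 35) (nat_lit 183)) (nd (nat_lit 207) (nat_lit 0) (cs (lf (nat_lit 16) (nat_lit 182)) (lf (nat_lit 17) (nat_lit 183)))))))) q46976 (by decide +kernel)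
def q46983 : Q := Q.p (nat_lit 0x4000000000040000780000000000000000000000000000000000000000000000000000000000000) (nat_lit 0x10000000000000000300000000000000000000000000000000000000000000000000000000) (nat_lit 2)
theorem c46983 : QOK q46983 := cut [] trivial (nd (nat_lit 225) (nat_lit 0) (cs (lf (nat_lit 23) (nat_lit 224)) (lf (nat_lit 43) (nat_lit 225)))) q46983 (by decide +kernel)
def q47001 : Q := Q.p (nat_lit 0x180001c0000000000000000000000000000000000000000000000000000000000000000000) (nat_lit 0x26000000000000000000000000000000000000000000000000000000000000000000000000) (nat_lit 2)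
theorem c47001 : QOK q47001 := cut [] trivial (nd (nat_lit 290) (nat_lit 0) (cs (lf (nat_lit 15) (nat_lit 268)) (lf (nat_lit 12) (nat_lit 267)))) q47001 (by decide +kernel)
def q47007 : Q := Q.p (nat_lit 0x100001c0000600000000000000000000000000000000000000000000000000000000000000) (nat_lit 0x100000400000c0000300000c0000200000000000000000000000000000000000000000000000000000000) (nat_lit 5)
theorem c47007 : QOK q47007 := cut [] trivial (nd (nat_lit 269) (nat_lit 0) (cs (lf (nat_lit 12) (nat_lit 246)) (nd (nat_lit 314) (nat_lit 0) (cs (lf (nat_lit 30) (nat_lit 248)) (nd (nat_lit 291) (nat_lit 0) (cs (lf (nat_lit 11) (nat_lit 268)) (nd (nat_lit 247) (nat_lit 0) (cs (lf (nat_lit 23) (nat_lit 246)) (lf (nat_lit 24) (nat_lit 225)))))))))) q47007 (by decide +kernel)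
def q47014 : Q := Q.p (nat_lit 0x40000680000200000800000000000000000000000000000000000000000000000000) (nat_lit 0x100000100000000002000000000000000000000000000000000000000000000) (nat_lit 2)
theorem c47014 : QOK q47014 := cut [] trivial (nd (nat_lit 248) (nat_lit 0) (cs (lf (nat_lit 23) (nat_lit 224)) (lf (nat_lit 24) (nat_lit 181)))) q47014 (by decide +kernel)
def q47024 : Q := Q.p (nat_lit 0x80000e0000200000800001000000000000000000000000000000000000000000000000000) (nat_lit 0x20000000000100000400000000000000000000000000000000000000000000000000000000) (nat_lit 2)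
theorem c47024 : QOK q47024 := cut [] trivial (nd (nat_lit 226) (nat_lit 0) (cs (lf (nat_lit 42) (nat_lit 204)) (lf (nat_lit 38) (nat_lit 203)))) q47024 (by decide +kernel)
def q47034 : Q := Q.p (nat_lit 0x20000180000600000800000000000000000000000000000000000000000000000000000000) (nat_lit 0x300000c000010000000000000000000000000000000000000000000000000000000000000000000000000) (nat_lit 3)
theorem c47034 : QOK q47034 := cut [] trivial (nd (nat_lit 314) (nat_lit 0) (cs (lf (nat_lit 40) (nat_lit 226)) (nd (nat_lit 315) (nat_lit 0) (cs (lf (nat_lit 30) (nat_lit 249)) (lf (nat_lit 41) (nat_lit 248)))))) q47034 (by decide +kernel)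
def q47042 : Q := Q.p (nat_lit 0x680000a00000000000000000000000000000000000000000000000000000000) (nat_lit 0x100000500000000000000000000000000000000000000000000000000000000) (nat_lit 2)
theorem c47042 : QOK q47042 := cut [] trivial (nd (nat_lit 224) (nat_lit 0) (cs (lf (nat_lit 2) (nat_lit 224)) (lf (nat_lit 20) (nat_lit 224)))) q47042 (by decide +kernel)
def q47058 : Q := Q.p (nat_lit 0x7000018000000000000000000000000000000000000000000000000000000000000000000000000) (nat_lit 0xc00020000000000000000000000000000000000000000000000000000000000000000000000000) (nat_lit 2)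
theorem c47058 : QOK q47058 := cut [] trivial (nd (nat_lit 311) (nat_lit 0) (cs (lf (nat_lit 17) (nat_lit 289)) (lf (nat_lit 12) (nat_lit 288)))) q47058 (by decide +kernel)
def q47064 : Q := Q.p (nat_lit 0x2000008000060000100000000000000000000000000000000000000000000000000000000000000) (nat_lit 0x80000400001000000000000000000000000000000000000000000000000000) (nat_lit 2)
theorem c47064 : QOK q47064 := cut [] trivial (nd (nat_lit 226) (nat_lit 0) (cs (lf (nat_lit 33) (nat_lit 225)) (lf (nat_lit 36) (nat_lit 203)))) q47064 (by decide +kernel)
def q47071 : Q := Q.p (nat_lit 0x400001a0000600000000000000000000000000000000000000000000000000000000000000) (nat_lit 0x80000050000000000000000000000000000000000000000000000000000000000000000000) (nat_lit 2)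
theorem c47071 : QOK q47071 := cut [] trivial (nd (nat_lit 270) (nat_lit 0) (cs (lf (nat_lit 12) (nat_lit 246)) (lf (nat_lit 5) (nat_lit 269)))) q47071 (by decide +kernel)
def q47072 : Q := Q.p (nat_lit 0x1a0000680000000000000000000000000000000000000000000000000000000000000) (nat_lit 0x10000140000000000000000000000000000000000000000000000000000000000000) (nat_lit 2)
theorem c47072 : QOK q47072 := cut [] trivial (nd (nat_lit 248) (nat_lit 0) (cs (lf (nat_lit 11) (nat_lit 246)) (lf (nat_lit 0) (nat_lit 246)))) q47072 (by decide +kernel)
def q47077 : Q := Q.p (nat_lit 0x20000080000200000800000000000000000000000000000000000000000000000000) (nat_lit 0x100000c000010000000000400001000004000000000000000000000000000000000000000000000) (nat_lit 4)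
theorem c47077 : QOK q47077 := cut [] trivial (nd (nat_lit 204) (nat_lit 0) (cs (lf (nat_lit 35) (nat_lit 181)) (nd (nat_lit 290) (nat_lit 0) (cs (lf (nat_lit 40) (nat_lit 202)) (nd (nat_lit 291) (nat_lit 0) (cs (lf (nat_lit 41) (nat_lit 224)) (lf (nat_lit 34) (nat_lit 203)))))))) q47077 (by decide +kernel)
def q47089 : Q := Q.p (nat_lit 0x20000180000600000000000000000000000000000000000000000000000000000000) (nat_lit 0x2000008000000000000000000001000000000000000000000000000000000000000000000000000) (nat_lit 2)
theorem c47089 : QOK q47089 := cut [] trivial (nd (nat_lit 291) (nat_lit 0) (cs (lf (nat_lit 30) (nat_lit 225)) (lf (nat_lit 35) (nat_lit 203)))) q47089 (by decide +kernel)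
def q47097 : Q := Q.p (nat_lit 0x2000008000020000080000200000000000000000000000000000000000000000000000000000000) (nat_lit 0x400001000004000000000000000000000000000000000000000000000000000000000000000000000000) (nat_lit 2)
theorem c47097 : QOK q47097 := cut [] trivial (nd (nat_lit 312) (nat_lit 0) (cs (lf (nat_lit 41) (nat_lit 246)) (lf (nat_lit 40) (nat_lit 224)))) q47097 (by decide +kernel)
def q47107 : Q := Q.p (nat_lit 0x8000060000180000000000000000000000000000000000000000000000000000000000000) (nat_lit 0x2000000000000000000000400001000000000000000000000000000000000000000000000000000) (nat_lit 2)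
theorem c47107 : QOK q47107 := cut [] trivial (nd (nat_lit 226) (nat_lit 0) (cs (lf (nat_lit 30) (nat_lit 225)) (lf (nat_lit 36) (nat_lit 203)))) q47107 (by decide +kernel)
def q47110 : Q := Q.p (nat_lit 0x10000060000780000000000000000000000000000000000000000000000000000000000000) (nat_lit 0x300000800000000000000000000000000000000000000000000000000) (nat_lit 2)
theorem c47110 : QOK q47110 := cut [] trivial (nd (nat_lit 225) (nat_lit 0) (cs (lf (nat_lit 23) (nat_lit 224)) (lf (nat_lit 24) (nat_lit 203)))) q47110 (by decide +kernel)
def q47118 : Q := Q.p (nat_lit 0x18000000000180000600000000000000000000000000000000000000000000000000000000000000) (nat_lit 0x6000000000040000000000000000000000000000000000000000000000000000000000000000000000000) (nat_lit 2)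
theorem c47118 : QOK q47118 := cut [] trivial (nd (nat_lit 294) (nat_lit 0) (cs (lf (nat_lit 41) (nat_lit 249)) (lf (nat_lit 42) (nat_lit 249)))) q47118 (by decide +kernel)
def q47126 : Q := Q.p (nat_lit 0x3c000040000000000000000000000000000000000000000000000000000000000000000000000000) (nat_lit 0x2000180000000000000000000000000000000000000000000000000000000000000000000000000) (nat_lit 2)
theorem c47126 : QOK q47126 := cut [] trivial (nd (nat_lit 295) (nat_lit 0) (cs (lf (nat_lit 12) (nat_lit 291)) (lf (nat_lit 17) (nat_lit 292)))) q47126 (by decide +kernel)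
def q47132 : Q := Q.p (nat_lit 0x1c0000000000c0000200000000000000000000000000000000000000000000000000000000000000) (nat_lit 0x100002200001e000000000000000000000000000000000000000000000000000000000000000000000000) (nat_lit 4)
theorem c47132 : QOK q47132 := cut [] trivial (nd (nat_lit 292) (nat_lit 0) (cs (lf (nat_lit 30) (nat_lit 248)) (nd (nat_lit 291) (nat_lit 0) (cs (lf (nat_lit 18) (nat_lit 291)) (nd (nat_lit 290) (nat_lit 0) (cs (lf (nat_lit 12) (nat_lit 267)) (lf (nat_lit 21) (nat_lit 290)))))))) q47132 (by decide +kernel)
def q47145 : Q := Q.p (nat_lit 0x1f000000000000000000000000000000000000000000000000000000000000000000000000000000) (nat_lit 0xe000000000000000000000000000000000000000000000000000000000000000000000000) (nat_lit 2)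
theorem c47145 : QOK q47145 := cut [] trivial (nd (nat_lit 290) (nat_lit 0) (cs (lf (nat_lit 23) (nat_lit 289)) (lf (nat_lit 22) (nat_lit 290)))) q47145 (by decide +kernel)
def q47157 : Q := Q.p (nat_lit 0x40000100001c0000300000000000000000000000000000000000000000000000000000000000000) (nat_lit 0xc0000200000000000000000000000000000000000000000000000000000000) (nat_lit 2)
theorem c47157 : QOK q47157 := cut [] trivial (nd (nat_lit 247) (nat_lit 0) (cs (lf (nat_lit 0) (nat_lit 246)) (lf (nat_lit 47) (nat_lit 225)))) q47157 (by decide +kernel)
def q47162 : Q := Q.p (nat_lit 0x3c000000000100000400000000000000000000000000000000000000000000000000000000000000) (nat_lit 0x18000000000040000000000000000000000000000000000000000000000000000000000000000000000000) (nat_lit 2)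
theorem c47162 : QOK q47162 := cut [] trivial (nd (nat_lit 339) (nat_lit 0) (cs (lf (nat_lit 5) (nat_lit 314)) (lf (nat_lit 26) (nat_lit 250)))) q47162 (by decide +kernel)
def q47178 : Q := Q.p (nat_lit 0x18000000000180000200000000000000000000000000000000000000000000000000000000000000) (nat_lit 0x4000000000060000000000000000000000000000000000000000000000000000000000000000000000000) (nat_lit 2)
theorem c47178 : QOK q47178 := cut [] trivial (nd (nat_lit 338) (nat_lit 0) (cs (lf (nat_lit 44) (nat_lit 249)) (lf (nat_lit 26) (nat_lit 249)))) q47178 (by decide +kernel)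
def q47185 : Q := Q.p (nat_lit 0x400001c0000600000000000000000000000000000000000000000000000000000000000000) (nat_lit 0x80000030000000000000000000000000000000000000000000000000000000000000000000) (nat_lit 2)
theorem c47185 : QOK q47185 := cut [] trivial (nd (nat_lit 269) (nat_lit 0) (cs (lf (nat_lit 12) (nat_lit 246)) (lf (nat_lit 5) (nat_lit 269)))) q47185 (by decide +kernel)
def q47186 : Q := Q.p (nat_lit 0x180000e0000080000200000000000000000000000000000000000000000000000000000000000000) (nat_lit 0x1000006000000000000000000000000000000000000000000000000000000000000000000000000000000) (nat_lit 2)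
theorem c47186 : QOK q47186 := cut [] trivial (nd (nat_lit 314) (nat_lit 0) (cs (lf (nat_lit 12) (nat_lit 291)) (lf (nat_lit 41) (nat_lit 248)))) q47186 (by decide +kernel)
def q47192 : Q := Q.p (nat_lit 0x100000e0000100000400000000000000000000000000000000000000000000000000000000000000) (nat_lit 0x8000060000018000000000000000000000000000000000000000000000000000000000000000000000000) (nat_lit 3)
theorem c47192 : QOK q47192 := cut [] trivial (nd (nat_lit 317) (nat_lit 0) (cs (lf (nat_lit 29) (nat_lit 250)) (nd (nat_lit 292) (nat_lit 0) (cs (lf (nat_lit 0) (nat_lit 291)) (lf (nat_lit 5) (nat_lit 292)))))) q47192 (by decide +kernel)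
def q47208 : Q := Q.p (nat_lit 0x10000048000100000400000000000000000000000000000000000000000000000000000000000000) (nat_lit 0xa00002c000030000000000000000000000000000000000000000000000000000000000000000000000000) (nat_lit 4)
theorem c47208 : QOK q47208 := cut [] trivial (nd (nat_lit 315) (nat_lit 0) (cs (lf (nat_lit 41) (nat_lit 249)) (nd (nat_lit 317) (nat_lit 0) (cs (lf (nat_lit 29) (nat_lit 250)) (nd (nat_lit 292) (nat_lit 0) (cs (lf (nat_lit 21) (nat_lit 291)) (lf (nat_lit 2) (nat_lit 291)))))))) q47208 (by decide +kernel)
def q47212 : Q := Q.p (nat_lit 0x10000068000100000400000000000000000000000000000000000000000000000000000000000000) (nat_lit 0x8000020000010000000000000000000000000000000000000000000000000000000000000000000000000) (nat_lit 2)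
theorem c47212 : QOK q47212 := cut [] trivial (nd (nat_lit 317) (nat_lit 0) (cs (lf (nat_lit 29) (nat_lit 250)) (lf (nat_lit 1) (nat_lit 291)))) q47212 (by decide +kernel)
def q47221 : Q := Q.p (nat_lit 0x1e000000000040000100000000000000000000000000000000000000000000000000000000000000) (nat_lit 0xc00000000010000000000000000000000000000000000000000000000000000000000000000000000000) (nat_lit 2)
theorem c47221 : QOK q47221 := cut [] trivial (nd (nat_lit 335) (nat_lit 0) (cs (lf (nat_lit 11) (nat_lit 312)) (lf (nat_lit 38) (nat_lit 247)))) q47221 (by decide +kernel)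
def q47255 : Q := Q.p (nat_lit 0x600003800000000000000000000000000000000000000000000000000) (nat_lit 0x10000c000000000000000000000000000000000000000000000000000) (nat_lit 2)
theorem c47255 : QOK q47255 := cut [] trivial (nd (nat_lit 206) (nat_lit 0) (cs (lf (nat_lit 11) (nat_lit 202)) (lf (nat_lit 6) (nat_lit 203)))) q47255 (by decide +kernel)
def q47277 : Q := Q.p (nat_lit 0x2000008000020000000000500000000000000000000000000000000000000000000000000000000) (nat_lit 0x1c0000000000000000000000000000000000000000000000000000000000000) (nat_lit 2)
theorem c47277 : QOK q47277 := cut [] trivial (nd (nat_lit 247) (nat_lit 0) (cs (lf (nat_lit 46) (nat_lit 224)) (lf (nat_lit 34) (nat_lit 225)))) q47277 (by decide +kernel)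
def q47289 : Q := Q.p (nat_lit 0x800002000008000020000080000000000000000000000000000000000000000000000000000000000000) (nat_lit 0x400001000004000000000000000000000000000000000000000000000000000000000000000000000000000000) (nat_lit 2)
theorem c47289 : QOK q47289 := cut [] trivial (nd (nat_lit 336) (nat_lit 0) (cs (lf (nat_lit 29) (nat_lit 269)) (lf (nat_lit 28) (nat_lit 247)))) q47289 (by decide +kernel)
def q47299 : Q := Q.p (nat_lit 0x2000018000060000000000000000000000000000000000000000000000000000000000000000000) (nat_lit 0x200000800000000000000000000100000000000000000000000000000000000000000000000000000000000000) (nat_lit 2)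
theorem c47299 : QOK q47299 := cut [] trivial (nd (nat_lit 335) (nat_lit 0) (cs (lf (nat_lit 30) (nat_lit 269)) (lf (nat_lit 35) (nat_lit 247)))) q47299 (by decide +kernel)
def q47306 : Q := Q.p (nat_lit 0x40000180000600000000000000000000000000000000000000000000000000000000) (nat_lit 0x10000000000000000000000800002000000000000000000000000000000000000000000000) (nat_lit 2)
theorem c47306 : QOK q47306 := cut [] trivial (nd (nat_lit 203) (nat_lit 0) (cs (lf (nat_lit 24) (nat_lit 181)) (lf (nat_lit 42) (nat_lit 203)))) q47306 (by decide +kernel)
def q47311 : Q := Q.p (nat_lit 0x100001e0000000000200000000000000000000000000000000000000000000000000000000) (nat_lit 0xc0000000000800000000000000000000000000000000000000000000000000) (nat_lit 2)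
theorem c47311 : QOK q47311 := cut [] trivial (nd (nat_lit 247) (nat_lit 0) (cs (lf (nat_lit 23) (nat_lit 246)) (lf (nat_lit 24) (nat_lit 203)))) q47311 (by decide +kernel)
def q47323 : Q := Q.p (nat_lit 0x78000000000000000000000000000000000000000000000000000000000000000000000000000000) (nat_lit 0x77000080000000000000000000000000000000000000000000000000000000000000000000000000000000) (nat_lit 4)
theorem c47323 : QOK q47323 := cut [] trivial (nd (nat_lit 341) (nat_lit 0) (cs (lf (nat_lit 4) (nat_lit 315)) (nd (nat_lit 337) (nat_lit 0) (cs (lf (nat_lit 11) (nat_lit 314)) (nd (nat_lit 319) (nat_lit 0) (cs (lf (nat_lit 5) (nat_lit 316)) (lf (nat_lit 10) (nat_lit 315)))))))) q47323 (by decide +kernel)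
def q47340 : Q := Q.p (nat_lit 0x3c000000000000000000000000000000000000000000000000000000000000000000000000000000) (nat_lit 0x1c00000200001c000000000000000000000000000000000000000000000000000000000000000000000000) (nat_lit 4)
theorem c47340 : QOK q47340 := cut [] trivial (nd (nat_lit 291) (nat_lit 0) (cs (lf (nat_lit 22) (nat_lit 291)) (nd (nat_lit 339) (nat_lit 0) (cs (lf (nat_lit 5) (nat_lit 314)) (nd (nat_lit 313) (nat_lit 0) (cs (lf (nat_lit 23) (nat_lit 290)) (lf (nat_lit 4) (nat_lit 313)))))))) q47340 (by decide +kernel)
def q47341 : Q := Q.p (nat_lit 0x3e000000000000000000000000000000000000000000000000000000000000000000000000000000) (nat_lit 0x1c00000000000000000000000000000000000000000000000000000000000000000000000000000000000) (nat_lit 2)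
theorem c47341 : QOK q47341 := cut [] trivial (nd (nat_lit 335) (nat_lit 0) (cs (lf (nat_lit 11) (nat_lit 312)) (lf (nat_lit 10) (nat_lit 313)))) q47341 (by decide +kernel)
def q47349 : Q := Q.p (nat_lit 0x18000000000100000600000000000000000000000000000000000000000000000000000000000000) (nat_lit 0x2000000000040000000000000000800000000000000000000000000000000000000000000000000000000) (nat_lit 2)
theorem c47349 : QOK q47349 := cut [] trivial (nd (nat_lit 294) (nat_lit 0) (cs (lf (nat_lit 41) (nat_lit 249)) (lf (nat_lit 47) (nat_lit 227)))) q47349 (by decide +kernel)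
def q47395 : Q := Q.p (nat_lit 0x20000680000300000000000000000000000000000000000000000000000000000000) (nat_lit 0x8000000000000000c00001400000000000000000000000000000000000000000000000000) (nat_lit 3)
theorem c47395 : QOK q47395 := cut [] trivial (nd (nat_lit 226) (nat_lit 0) (cs (nd (nat_lit 291) (nat_lit 0) (cs (lf (nat_lit 47) (nat_lit 202)) (lf (nat_lit 35) (nat_lit 203)))) (lf (nat_lit 3) (nat_lit 224)))) q47395 (by decide +kernel)
def q47397 : Q := Q.p (nat_lit 0x20000680000200000000000000000000000000000000000000000000000000000000) (nat_lit 0x10000100000100000000000000000000000000000000000000000000000000000000) (nat_lit 2)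
theorem c47397 : QOK q47397 := cut [] trivial (nd (nat_lit 248) (nat_lit 0) (cs (lf (nat_lit 23) (nat_lit 224)) (lf (nat_lit 11) (nat_lit 246)))) q47397 (by decide +kernel)
def q47401 : Q := Q.p (nat_lit 0x200003800040000000000000000000000000000000000000000000000) (nat_lit 0x10000c000030000000000000000000000000000000000000000000000) (nat_lit 3)
theorem c47401 : QOK q47401 := cut [] trivial (nd (nat_lit 206) (nat_lit 0) (cs (lf (nat_lit 11) (nat_lit 202)) (nd (nat_lit 185) (nat_lit 0) (cs (lf (nat_lit 16) (nat_lit 181)) (lf (nat_lit 15) (nat_lit 182)))))) q47401 (by decide +kernel)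
def q47409 : Q := Q.p (nat_lit 0x8000040000180000600000000000000000000000000000000000000000000000000000000000000) (nat_lit 0x6000010000000000000000000000000000000000000000000000000000000000000000000000000000000) (nat_lit 2)
theorem c47409 : QOK q47409 := cut [] trivial (nd (nat_lit 316) (nat_lit 0) (cs (lf (nat_lit 41) (nat_lit 249)) (lf (nat_lit 42) (nat_lit 249)))) q47409 (by decide +kernel)
def q47420 : Q := Q.p (nat_lit 0x180000600000000002000000000000000000000000000000000000000000000000000) (nat_lit 0x40000000000000000800000000008000000000000000000000000000000000000000000000) (nat_lit 2)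
theorem c47420 : QOK q47420 := cut [] trivial (nd (nat_lit 227) (nat_lit 0) (cs (lf (nat_lit 29) (nat_lit 205)) (lf (nat_lit 24) (nat_lit 183)))) q47420 (by decide +kernel)
def q47428 : Q := Q.p (nat_lit 0x180000680000200000000000000000000000000000000000000000000000000000000) (nat_lit 0x140000100000000000000000000000000000000000000000000000000000000) (nat_lit 2)
theorem c47428 : QOK q47428 := cut [] trivial (nd (nat_lit 248) (nat_lit 0) (cs (lf (nat_lit 23) (nat_lit 224)) (lf (nat_lit 0) (nat_lit 246)))) q47428 (by decide +kernel)
def q47435 : Q := Q.p (nat_lit 0xa0000680000000000000000000000000000000000000000000000000000000000000) (nat_lit 0x50000100000000000000000000000000000000000000000000000000000000000000) (nat_lit 2)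
theorem c47435 : QOK q47435 := cut [] trivial (nd (nat_lit 268) (nat_lit 0) (cs (lf (nat_lit 8) (nat_lit 246)) (lf (nat_lit 14) (nat_lit 246)))) q47435 (by decide +kernel)
def q47437 : Q := Q.p (nat_lit 0x1a0000280000000000000000000000000000000000000000000000000000000000000) (nat_lit 0x40000140000000000000000000000000000000000000000000000000000000000000) (nat_lit 2)
theorem c47437 : QOK q47437 := cut [] trivial (nd (nat_lit 246) (nat_lit 0) (cs (lf (nat_lit 2) (nat_lit 246)) (lf (nat_lit 20) (nat_lit 246)))) q47437 (by decide +kernel)
def q47440 : Q := Q.p (nat_lit 0x680001a0000000000000000000000000000000000000000000000000000000000000000000) (nat_lit 0x14000010000000000000000000000000000000000000000000000000000000000000000000) (nat_lit 2)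
theorem c47440 : QOK q47440 := cut [] trivial (nd (nat_lit 292) (nat_lit 0) (cs (lf (nat_lit 12) (nat_lit 268)) (lf (nat_lit 23) (nat_lit 268)))) q47440 (by decide +kernel)
def q47444 : Q := Q.p (nat_lit 0x8000030000080000100000000000000000000000000000000000000000000000000000000) (nat_lit 0x2000000000000000040000000000400000000000000000000000000000000000000000000000000) (nat_lit 2)
theorem c47444 : QOK q47444 := cut [] trivial (nd (nat_lit 246) (nat_lit 0) (cs (lf (nat_lit 42) (nat_lit 224)) (lf (nat_lit 24) (nat_lit 202)))) q47444 (by decide +kernel)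
def q47451 : Q := Q.p (nat_lit 0x8000030000040000100000000000000000000000000000000000000000000000000000000) (nat_lit 0x800002000004000000000000000000000000000000000000000000000000000000000000000000000000) (nat_lit 2)
theorem c47451 : QOK q47451 := cut [] trivial (nd (nat_lit 313) (nat_lit 0) (cs (lf (nat_lit 42) (nat_lit 246)) (lf (nat_lit 27) (nat_lit 224)))) q47451 (by decide +kernel)
def q47467 : Q := Q.p (nat_lit 0x30000070000000000000000000000000000000000000000000000000000000000000000000000000) (nat_lit 0xc0000080000000000000000000000000000000000000000000000000000000000000000000000000) (nat_lit 2)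
theorem c47467 : QOK q47467 := cut [] trivial (nd (nat_lit 318) (nat_lit 0) (cs (lf (nat_lit 18) (nat_lit 293)) (lf (nat_lit 3) (nat_lit 292)))) q47467 (by decide +kernel)
def q47483 : Q := Q.p (nat_lit 0xc0000e0000000000000000000000000000000000000000000000000000000000000000000000000) (nat_lit 0x3000010000000000000000000000000000000000000000000000000000000000000000000000000) (nat_lit 2)
theorem c47483 : QOK q47483 := cut [] trivial (nd (nat_lit 313) (nat_lit 0) (cs (lf (nat_lit 12) (nat_lit 290)) (lf (nat_lit 9) (nat_lit 291)))) q47483 (by decide +kernel)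
def q47513 : Q := Q.p (nat_lit 0x100001c0000300000000000000000000000000000000000000000000000000000000000000) (nat_lit 0x1800006000008000200000000000400000000000000000000000000000000000000000000000000000000) (nat_lit 4)
theorem c47513 : QOK q47513 := cut [] trivial (nd (nat_lit 314) (nat_lit 0) (cs (lf (nat_lit 30) (nat_lit 248)) (nd (nat_lit 313) (nat_lit 0) (cs (lf (nat_lit 41) (nat_lit 247)) (nd (nat_lit 291) (nat_lit 0) (cs (lf (nat_lit 36) (nat_lit 225)) (lf (nat_lit 6) (nat_lit 269)))))))) q47513 (by decide +kernel)
def q47533 : Q := Q.p (nat_lit 0x58000180000600000000000000000000000000000000000000000000000000000000000000) (nat_lit 0xc000030000020000000000000000000000000000000000000000000000000000000000000000000000000) (nat_lit 3)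
theorem c47533 : QOK q47533 := cut [] trivial (nd (nat_lit 316) (nat_lit 0) (cs (lf (nat_lit 42) (nat_lit 249)) (nd (nat_lit 317) (nat_lit 0) (cs (lf (nat_lit 29) (nat_lit 250)) (lf (nat_lit 2) (nat_lit 291)))))) q47533 (by decide +kernel)
def q47554 : Q := Q.p (nat_lit 0xe0000180000000000000000000000000000000000000000000000000000000000000000000) (nat_lit 0x100000060000000000000000000000000000000000000000000000000000000000000000000) (nat_lit 2)
theorem c47554 : QOK q47554 := cut [] trivial (nd (nat_lit 270) (nat_lit 0) (cs (lf (nat_lit 0) (nat_lit 269)) (lf (nat_lit 18) (nat_lit 270)))) q47554 (by decide +kernel)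
def q47555 : Q := Q.p (nat_lit 0x200000c0000100000400000000000000000000000000000000000000000000000000000000000000) (nat_lit 0x2000008000000000000000200000000000000000000000000000000000000000000000000000000000000000000) (nat_lit 2)
theorem c47555 : QOK q47555 := cut [] trivial (nd (nat_lit 339) (nat_lit 0) (cs (lf (nat_lit 42) (nat_lit 272)) (lf (nat_lit 45) (nat_lit 250)))) q47555 (by decide +kernel)
def q47563 : Q := Q.p (nat_lit 0x70000180000000000000000000000000000000000000000000000000000000000000000000) (nat_lit 0xc000200000000000000000000000000000000000000000000000000000000000000000000) (nat_lit 2)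
theorem c47563 : QOK q47563 := cut [] trivial (nd (nat_lit 291) (nat_lit 0) (cs (lf (nat_lit 12) (nat_lit 268)) (lf (nat_lit 17) (nat_lit 269)))) q47563 (by decide +kernel)
def q47611 : Q := Q.p (nat_lit 0x10000040000300001c0000400000000000000000000000000000000000000000000000000000000000000) (nat_lit 0x800002000008000000000000000000000000000000000000000000000000000000000000000000000000000000) (nat_lit 2)
theorem c47611 : QOK q47611 := cut [] trivial (nd (nat_lit 337) (nat_lit 0) (cs (lf (nat_lit 29) (nat_lit 270)) (lf (nat_lit 31) (nat_lit 249)))) q47611 (by decide +kernel)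

end Crest.Agent.H3.Snaky.CR
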