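import Crest.Agent.H3.Snaky.Cert

set_option autoImplicit false
set_option maxRecDepth 100000

namespace Crest.Agent.H3.Snaky.CR

open T

def q47620 : Q := Q.p (nat_lit 0x400000e0000400000000000000000000000000000000000000000000000000000000000000) (nat_lit 0x20000010000200000000000000000000000000000000000000000000000000000000000000) (nat_lit 2)
theorem c47620 : QOK q47620 := cut [] trivial (nd (nat_lit 268) (nat_lit 0) (cs (lf (nat_lit 16) (nat_lit 246)) (lf (nat_lit 4) (nat_lit 268)))) q47620 (by decide +kernel)
def q47646 : Q := Q.p (nat_lit 0x40000100000400001000004000000000000000000000000000000000000000000000) (nat_lit 0x2000008000020000000000000000000000000000000000000000) (nat_lit 2)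
theorem c47646 : QOK q47646 := cut [] trivial (nd (nat_lit 183) (nat_lit 0) (cs (lf (nat_lit 35) (nat_lit 160)) (lf (nat_lit 34) (nat_lit 182)))) q47646 (by decide +kernel)
def q47655 : Q := Q.p (nat_lit 0x40000100000c0000100000400000000000000000000000000000000000000000000000000000000) (nat_lit 0x200000a00001800006000000000000000000000000000000000000000000000) (nat_lit 4)
theorem c47655 : QOK q47655 := cut [] trivial (nd (nat_lit 203) (nat_lit 0) (cs (lf (nat_lit 46) (nat_lit 203)) (nd (nat_lit 204) (nat_lit 0) (cs (lf (nat_lit 47) (nat_lit 181)) (nd (nat_lit 249) (nat_lit 0) (cs (lf (nat_lit 24) (nat_lit 182)) (lf (nat_lit 35) (nat_lit 226)))))))) q47655 (by decide +kernel)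
def q47661 : Q := Q.p (nat_lit 0x100003800001000000000000000000000000000000000000000000000000000000000000000000000000) (nat_lit 0x80000400000800000000000000000000000000000000000000000000000000000000000000000000000) (nat_lit 2)
theorem c47661 : QOK q47661 := cut [] trivial (nd (nat_lit 310) (nat_lit 0) (cs (lf (nat_lit 23) (nat_lit 287)) (lf (nat_lit 11) (nat_lit 309)))) q47661 (by decide +kernel)
def q47675 : Q := Q.p (nat_lit 0xf000000000000000000000000000000000000000000000000000000000000000000000000000000) (nat_lit 0x700000800007000000000000000000000000000000000000000000000000000000000000000000000000) (nat_lit 4)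
theorem c47675 : QOK q47675 := cut [] trivial (nd (nat_lit 289) (nat_lit 0) (cs (nd (nat_lit 333) (nat_lit 0) (cs (lf (nat_lit 10) (nat_lit 311)) (nd (nat_lit 311) (nat_lit 0) (cs (lf (nat_lit 11) (nat_lit 310)) (lf (nat_lit 23) (nat_lit 288)))))) (lf (nat_lit 22) (nat_lit 289)))) q47675 (by decide +kernel)
def q47693 : Q := Q.p (nat_lit 0xe0000400000000000000000000000000000000000000000000000000000000000000) (nat_lit 0x77000018000200000000000000000000000000000000000000000000000000000000000000) (nat_lit 5)
theorem c47693 : QOK q47693 := cut [] trivial (nd (nat_lit 268) (nat_lit 0) (cs (lf (nat_lit 16) (nat_lit 246)) (nd (nat_lit 289) (nat_lit 0) (cs (nd (nat_lit 267) (nat_lit 0) (cs (nd (nat_lit 293) (nat_lit 0) (cs (lf (nat_lit 5) (nat_lit 268)) (lf (nat_lit 4) (nat_lit 267)))) (lf (nat_lit 11) (nat_lit 266)))) (lf (nat_lit 10) (nat_lit 267)))))) q47693 (by decide +kernel)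
def q47716 : Q := Q.p (nat_lit 0x240000b0000000000000000000000000000000000000000000000000000000000000000000000000) (nat_lit 0x42000040000000000000000000000000000000000000000000000000000000000000000000000000) (nat_lit 2)
theorem c47716 : QOK q47716 := cut [] trivial (nd (nat_lit 294) (nat_lit 0) (cs (lf (nat_lit 11) (nat_lit 291)) (lf (nat_lit 5) (nat_lit 292)))) q47716 (by decide +kernel)
def q47766 : Q := Q.p (nat_lit 0xf8000000000000000000000000000000000000000000000000000000000000000000) (nat_lit 0x70000000000000000000000000000000000000000000000000000000000000) (nat_lit 2)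
theorem c47766 : QOK q47766 := cut [] trivial (nd (nat_lit 245) (nat_lit 0) (cs (lf (nat_lit 22) (nat_lit 245)) (lf (nat_lit 23) (nat_lit 244)))) q47766 (by decide +kernel)
def q47780 : Q := Q.p (nat_lit 0xc000034000040000100000000000000000000000000000000000000000000000000000000000000) (nat_lit 0x800003800002000000000000000000000000000000000000000000000000000000000000000000000000) (nat_lit 3)
theorem c47780 : QOK q47780 := cut [] trivial (nd (nat_lit 313) (nat_lit 0) (cs (lf (nat_lit 41) (nat_lit 247)) (nd (nat_lit 312) (nat_lit 0) (cs (lf (nat_lit 23) (nat_lit 289)) (lf (nat_lit 12) (nat_lit 289)))))) q47780 (by decide +kernel)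
def q47801 : Q := Q.p (nat_lit 0xe000030000000000000000000000000000000000000000000000000000000000000000000000000) (nat_lit 0x10000c0000000000000000000000000000000000000000000000000000000000000000000000000) (nat_lit 2)
theorem c47801 : QOK q47801 := cut [] trivial (nd (nat_lit 294) (nat_lit 0) (cs (lf (nat_lit 12) (nat_lit 290)) (lf (nat_lit 6) (nat_lit 291)))) q47801 (by decide +kernel)
def q47828 : Q := Q.p (nat_lit 0x200000f0000000000000000000000000000000000000000000000000000000000000000000) (nat_lit 0x17000008000000000000000000000000000000000000000000000000000000000000000000) (nat_lit 3)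
theorem c47828 : QOK q47828 := cut [] trivial (nd (nat_lit 267) (nat_lit 0) (cs (lf (nat_lit 4) (nat_lit 267)) (nd (nat_lit 289) (nat_lit 0) (cs (lf (nat_lit 11) (nat_lit 266)) (lf (nat_lit 10) (nat_lit 267)))))) q47828 (by decide +kernel)
def q47835 : Q := Q.p (nat_lit 0x80000200000c0000100000000000000000000000000000000000000000000000000000000000000) (nat_lit 0x10000000000000000400001000000000000000000000000000000000000000000000000000) (nat_lit 2)
theorem c47835 : QOK q47835 := cut [] trivial (nd (nat_lit 226) (nat_lit 0) (cs (lf (nat_lit 24) (nat_lit 204)) (lf (nat_lit 27) (nat_lit 226)))) q47835 (by decide +kernel)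
def q47845 : Q := Q.p (nat_lit 0x180000000000800006000000000000000000000000000000000000000000000000000) (nat_lit 0x40000000000200000000000000010000000000000000000000000000000000000000000000) (nat_lit 2)
theorem c47845 : QOK q47845 := cut [] trivial (nd (nat_lit 249) (nat_lit 0) (cs (lf (nat_lit 29) (nat_lit 205)) (lf (nat_lit 35) (nat_lit 183)))) q47845 (by decide +kernel)
def q47866 : Q := Q.p (nat_lit 0xe0000400000180000400000000000000000000000000000000000000000000000000000000000000) (nat_lit 0x7000018000220000000000000000000000000000000000000000000000000000000000000000000000000) (nat_lit 4)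
theorem c47866 : QOK q47866 := cut [] trivial (nd (nat_lit 316) (nat_lit 0) (cs (lf (nat_lit 16) (nat_lit 294)) (nd (nat_lit 337) (nat_lit 0) (cs (lf (nat_lit 10) (nat_lit 315)) (nd (nat_lit 315) (nat_lit 0) (cs (lf (nat_lit 11) (nat_lit 314)) (lf (nat_lit 32) (nat_lit 249)))))))) q47866 (by decide +kernel)
def q47902 : Q := Q.p (nat_lit 0x400001000004000030000000000000000000000000000000000000000000000000000000000000000000000000000000) (nat_lit 0x20000180000200000000008000000000000000000000000000000000000000000000000000000000000000000000000000000000000) (nat_lit 3)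
theorem c47902 : QOK q47902 := cut [] trivial (nd (nat_lit 403) (nat_lit 0) (cs (nd (nat_lit 404) (nat_lit 0) (cs (lf (nat_lit 41) (nat_lit 337)) (lf (nat_lit 34) (nat_lit 316)))) (lf (nat_lit 40) (nat_lit 315)))) q47902 (by decide +kernel)
def q47931 : Q := Q.p (nat_lit 0x780000800002000000000000000000000000000000000000000000000000000000000000000) (nat_lit 0x40000300000000003000000000000000000000000000000000000000000000000000000000000000000000) (nat_lit 3)
theorem c47931 : QOK q47931 := cut [] trivial (nd (nat_lit 320) (nat_lit 0) (cs (lf (nat_lit 5) (nat_lit 295)) (nd (nat_lit 276) (nat_lit 0) (cs (lf (nat_lit 42) (nat_lit 253)) (lf (nat_lit 17) (nat_lit 273)))))) q47931 (by decide +kernel)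
def q47944 : Q := Q.p (nat_lit 0xf0000000000100000400000000000000000000000000000000000000000000000000000000000000) (nat_lit 0x7000008000030000080000000000000000000000000000000000000000000000000000000000000000000) (nat_lit 4)
theorem c47944 : QOK q47944 := cut [] trivial (nd (nat_lit 337) (nat_lit 0) (cs (lf (nat_lit 10) (nat_lit 315)) (nd (nat_lit 315) (nat_lit 0) (cs (lf (nat_lit 11) (nat_lit 314)) (nd (nat_lit 293) (nat_lit 0) (cs (lf (nat_lit 23) (nat_lit 292)) (lf (nat_lit 33) (nat_lit 249)))))))) q47944 (by decide +kernel)
def q47948 : Q := Q.p (nat_lit 0x6000018000020000080000000000000000000000000000000000000000000000000000000000000000000000000) (nat_lit 0x400001c00020000000000000000000000000000000000000000000000000000000000000000000000000000000000000) (nat_lit 3)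
theorem c47948 : QOK q47948 := cut [] trivial (nd (nat_lit 360) (nat_lit 0) (cs (lf (nat_lit 41) (nat_lit 294)) (nd (nat_lit 359) (nat_lit 0) (cs (lf (nat_lit 17) (nat_lit 337)) (lf (nat_lit 12) (nat_lit 336)))))) q47948 (by decide +kernel)
def q47976 : Q := Q.p (nat_lit 0x20000180000e0000000000000002000000000000000000000000000000000000000000000000000000000000000) (nat_lit 0x600001800004000000000000000200000800000000000000000000000000000000000000000000000000000000000000000000) (nat_lit 4)
theorem c47976 : QOK q47976 := cut [] trivial (nd (nat_lit 383) (nat_lit 0) (cs (lf (nat_lit 30) (nat_lit 317)) (nd (nat_lit 384) (nat_lit 0) (cs (lf (nat_lit 29) (nat_lit 317)) (nd (nat_lit 297) (nat_lit 0) (cs (lf (nat_lit 37) (nat_lit 252)) (lf (nat_lit 31) (nat_lit 296)))))))) q47976 (by decide +kernel)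
def q47981 : Q := Q.p (nat_lit 0x8000078000000000000000000000000000000000000000000000000000000000000000000000000000000) (nat_lit 0x30000004000000000000000000000000000000000000000000000000000000000000000000000000000000) (nat_lit 2)
theorem c47981 : QOK q47981 := cut [] trivial (nd (nat_lit 340) (nat_lit 0) (cs (lf (nat_lit 5) (nat_lit 315)) (lf (nat_lit 0) (nat_lit 314)))) q47981 (by decide +kernel)
def q48031 : Q := Q.p (nat_lit 0x600000e0000000000000000000000000000000000000000000000000000000000000000000000000000000) (nat_lit 0x180000100000000000000000000000000000000000000000000000000000000000000000000000000000000) (nat_lit 2)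
theorem c48031 : QOK q48031 := cut [] trivial (nd (nat_lit 343) (nat_lit 0) (cs (lf (nat_lit 18) (nat_lit 318)) (lf (nat_lit 3) (nat_lit 317)))) q48031 (by decide +kernel)
def q48059 : Q := Q.p (nat_lit 0x14000058000000000000000000000000000000000000000000000000000000000000000000000000000000000000) (nat_lit 0x28000020000000000000000000000000000000000000000000000000000000000000000000000000000000000000) (nat_lit 2)
theorem c48059 : QOK q48059 := cut [] trivial (nd (nat_lit 365) (nat_lit 0) (cs (lf (nat_lit 20) (nat_lit 339)) (lf (nat_lit 2) (nat_lit 339)))) q48059 (by decide +kernel)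
def q48073 : Q := Q.p (nat_lit 0x8000060000000000100003400000000000000000000000000000000000000000000000000000000000000) (nat_lit 0x180000680000000000000000000000000000000000000000000000000000000000000000000) (nat_lit 3)
theorem c48073 : QOK q48073 := cut [] trivial (nd (nat_lit 273) (nat_lit 0) (cs (lf (nat_lit 44) (nat_lit 250)) (nd (nat_lit 274) (nat_lit 0) (cs (lf (nat_lit 12) (nat_lit 249)) (lf (nat_lit 38) (nat_lit 251)))))) q48073 (by decide +kernel)
def q48075 : Q := Q.p (nat_lit 0x700000a000060000000000000000000000000000000000000000000000000000000000000000000000000000000) (nat_lit 0x800005000000000000000000000000000000000000000000000000000000000000000000000000000000000000) (nat_lit 2)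
theorem c48075 : QOK q48075 := cut [] trivial (nd (nat_lit 336) (nat_lit 0) (cs (lf (nat_lit 21) (nat_lit 336)) (lf (nat_lit 14) (nat_lit 314)))) q48075 (by decide +kernel)
def q48093 : Q := Q.p (nat_lit 0x30000380000000000000000000000000000000000000000000000000000000000000000000) (nat_lit 0xc000040000000000000000000000000000000000000000000000000000000000000000000) (nat_lit 2)
theorem c48093 : QOK q48093 := cut [] trivial (nd (nat_lit 291) (nat_lit 0) (cs (lf (nat_lit 12) (nat_lit 268)) (lf (nat_lit 9) (nat_lit 269)))) q48093 (by decide +kernel)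
def q48099 : Q := Q.p (nat_lit 0x1a000068000000000000000000000000000000000000000000000000000000000000000000000000000000) (nat_lit 0x5000004000000000000000000000000000000000000000000000000000000000000000000000000000000) (nat_lit 2)
theorem c48099 : QOK q48099 := cut [] trivial (nd (nat_lit 338) (nat_lit 0) (cs (lf (nat_lit 23) (nat_lit 314)) (lf (nat_lit 12) (nat_lit 314)))) q48099 (by decide +kernel)
def q48105 : Q := Q.p (nat_lit 0x18000068000000000000000000000000000000000000000000000000000000000000000000000000000000) (nat_lit 0x20000014000000000000000000000000000000000000000000000000000000000000000000000000000000) (nat_lit 2)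
theorem c48105 : QOK q48105 := cut [] trivial (nd (nat_lit 316) (nat_lit 0) (cs (lf (nat_lit 5) (nat_lit 315)) (lf (nat_lit 0) (nat_lit 314)))) q48105 (by decide +kernel)
def q48126 : Q := Q.p (nat_lit 0xa000068000000000000000000000000000000000000000000000000000000000000000000000000000000) (nat_lit 0x5000010000000000000000000000000000000000000000000000000000000000000000000000000000000) (nat_lit 2)
theorem c48126 : QOK q48126 := cut [] trivial (nd (nat_lit 336) (nat_lit 0) (cs (lf (nat_lit 14) (nat_lit 314)) (lf (nat_lit 8) (nat_lit 314)))) q48126 (by decide +kernel)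
def q48136 : Q := Q.p (nat_lit 0x2000008000030000040000000000000000000000000000000000000000000000000000000000000000000) (nat_lit 0x4000000000000000100000400000000000000000000000000000000000000000000000000000000) (nat_lit 2)
theorem c48136 : QOK q48136 := cut [] trivial (nd (nat_lit 248) (nat_lit 0) (cs (lf (nat_lit 24) (nat_lit 226)) (lf (nat_lit 27) (nat_lit 248)))) q48136 (by decide +kernel)
def q48164 : Q := Q.p (nat_lit 0xe000008000060000000000000001000000000000000000000000000000000000000000000000000000000000000) (nat_lit 0x20000310000f0000010000300000c00000000000000000000000000000000000000000000000000000000000000000000) (nat_lit 7)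
theorem c48164 : QOK q48164 := cut [] trivial (nd (nat_lit 296) (nat_lit 0) (cs (lf (nat_lit 37) (nat_lit 251)) (nd (nat_lit 340) (nat_lit 0) (cs (lf (nat_lit 29) (nat_lit 296)) (nd (nat_lit 275) (nat_lit 0) (cs (lf (nat_lit 34) (nat_lit 274)) (nd (nat_lit 364) (nat_lit 0) (cs (lf (nat_lit 18) (nat_lit 339)) (nd (nat_lit 342) (nat_lit 0) (cs (lf (nat_lit 17) (nat_lit 339)) (nd (nat_lit 341) (nat_lit 0) (cs (lf (nat_lit 23) (nat_lit 316)) (lf (nat_lit 12) (nat_lit 338)))))))))))))) q48164 (by decide +kernel)
def q48245 : Q := Q.p (nat_lit 0x60000080000700000e0000000000000000000000000000000000000000000000000000000000000000000000000000000) (nat_lit 0x400009000007000000000000000080000000000000000000000000000000000000000000000000000000000000000000000000) (nat_lit 4)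
theorem c48245 : QOK q48245 := cut [] trivial (nd (nat_lit 384) (nat_lit 0) (cs (lf (nat_lit 41) (nat_lit 318)) (nd (nat_lit 362) (nat_lit 0) (cs (lf (nat_lit 47) (nat_lit 295)) (nd (nat_lit 361) (nat_lit 0) (cs (lf (nat_lit 18) (nat_lit 361)) (lf (nat_lit 12) (nat_lit 338)))))))) q48245 (by decide +kernel)
def q48254 : Q := Q.p (nat_lit 0x20000080000300000e0000000000100000400000000000000000000000000000000000000000000000000000000000000) (nat_lit 0x40000100001400000e000000000080000200000000000000000000000000000000000000000000000000000000000000000000) (nat_lit 5)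
theorem c48254 : QOK q48254 := cut [] trivial (nd (nat_lit 384) (nat_lit 0) (cs (lf (nat_lit 41) (nat_lit 318)) (nd (nat_lit 295) (nat_lit 0) (cs (lf (nat_lit 43) (nat_lit 295)) (nd (nat_lit 339) (nat_lit 0) (cs (lf (nat_lit 45) (nat_lit 250)) (nd (nat_lit 338) (nat_lit 0) (cs (lf (nat_lit 5) (nat_lit 338)) (lf (nat_lit 12) (nat_lit 315)))))))))) q48254 (by decide +kernel)
def q48352 : Q := Q.p (nat_lit 0x40000d00003000000000000000000000000000000000000000000000000000000000000000) (nat_lit 0x20000280000000000000000000000000000000000000000000000000000000000000000000) (nat_lit 2)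
theorem c48352 : QOK q48352 := cut [] trivial (nd (nat_lit 273) (nat_lit 0) (cs (lf (nat_lit 12) (nat_lit 249)) (lf (nat_lit 11) (nat_lit 271)))) q48352 (by decide +kernel)
def q48364 : Q := Q.p (nat_lit 0x60000100000100003400001000000000000000000000000000000000000000000000000000000000) (nat_lit 0x20000380000ec0000680000000008000000000000000000000000000000000000000000000000000000000) (nat_lit 7)
theorem c48364 : QOK q48364 := cut [] trivial (nd (nat_lit 295) (nat_lit 0) (cs (lf (nat_lit 27) (nat_lit 228)) (nd (nat_lit 274) (nat_lit 0) (cs (lf (nat_lit 35) (nat_lit 230)) (nd (nat_lit 319) (nat_lit 0) (cs (lf (nat_lit 29) (nat_lit 252)) (nd (nat_lit 273) (nat_lit 0) (cs (lf (nat_lit 12) (nat_lit 249)) (nd (nat_lit 298) (nat_lit 0) (cs (nd (nat_lit 320) (nat_lit 0) (cs (lf (nat_lit 17) (nat_lit 295)) (lf (nat_lit 18) (nat_lit 295)))) (lf (nat_lit 19) (nat_lit 272)))))))))))) q48364 (by decide +kernel)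
def q48367 : Q := Q.p (nat_lit 0xf8000000000000000000000000000000000000000000000000000000000000000000000000000000) (nat_lit 0x70000000000000000000000000000000000000000000000000000000000000000000000000000000000000) (nat_lit 2)
theorem c48367 : QOK q48367 := cut [] trivial (nd (nat_lit 341) (nat_lit 0) (cs (lf (nat_lit 5) (nat_lit 316)) (lf (nat_lit 4) (nat_lit 315)))) q48367 (by decide +kernel)
def q48387 : Q := Q.p (nat_lit 0x30000180003000000000000000000000000000000000000000000000000000000000000000) (nat_lit 0xc000640000000000000000000000000000000000000000000000000000000000000000000) (nat_lit 3)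
theorem c48387 : QOK q48387 := cut [] trivial (nd (nat_lit 291) (nat_lit 0) (cs (lf (nat_lit 12) (nat_lit 268)) (nd (nat_lit 273) (nat_lit 0) (cs (lf (nat_lit 15) (nat_lit 249)) (lf (nat_lit 9) (nat_lit 269)))))) q48387 (by decide +kernel)
def q48392 : Q := Q.p (nat_lit 0x10000078000000000000002000000000000000000000000000000000000000000000000000000000000000) (nat_lit 0x80000700000800000000000000000000000000000000000000000000000000000000000000000000) (nat_lit 3)
theorem c48392 : QOK q48392 := cut [] trivial (nd (nat_lit 297) (nat_lit 0) (cs (lf (nat_lit 16) (nat_lit 293)) (nd (nat_lit 319) (nat_lit 0) (cs (lf (nat_lit 17) (nat_lit 294)) (lf (nat_lit 37) (nat_lit 252)))))) q48392 (by decide +kernel)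
def q48434 : Q := Q.p (nat_lit 0x38000000000100000400000000000000000000000000000000000000000000000000000000000000) (nat_lit 0x1dc00006000040000000000000000000000000000000000000000000000000000000000000000000000000) (nat_lit 5)
theorem c48434 : QOK q48434 := cut [] trivial (nd (nat_lit 339) (nat_lit 0) (cs (lf (nat_lit 26) (nat_lit 250)) (nd (nat_lit 314) (nat_lit 0) (cs (lf (nat_lit 5) (nat_lit 314)) (nd (nat_lit 335) (nat_lit 0) (cs (lf (nat_lit 10) (nat_lit 313)) (nd (nat_lit 313) (nat_lit 0) (cs (lf (nat_lit 11) (nat_lit 312)) (lf (nat_lit 4) (nat_lit 313)))))))))) q48434 (by decide +kernel)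
def q48442 : Q := Q.p (nat_lit 0x800002000008000020000000000000000000000000000000000000000000000000000000000000000000000000) (nat_lit 0x40000300000400000000004000010000040000000000000000000000000000000000000000000000000000000000000000000) (nat_lit 4)
theorem c48442 : QOK q48442 := cut [] trivial (nd (nat_lit 380) (nat_lit 0) (cs (nd (nat_lit 292) (nat_lit 0) (cs (nd (nat_lit 381) (nat_lit 0) (cs (lf (nat_lit 46) (nat_lit 292)) (lf (nat_lit 41) (nat_lit 314)))) (lf (nat_lit 47) (nat_lit 270)))) (lf (nat_lit 40) (nat_lit 292)))) q48442 (by decide +kernel)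
def q48448 : Q := Q.p (nat_lit 0xe00002000000000000000000000000000000000000000000000000000000000000000000000000000000000000) (nat_lit 0x10001d000000000000000000000000000000000000000000000000000000000000000000000000000000000000) (nat_lit 3)
theorem c48448 : QOK q48448 := cut [] trivial (nd (nat_lit 338) (nat_lit 0) (cs (nd (nat_lit 339) (nat_lit 0) (cs (lf (nat_lit 9) (nat_lit 335)) (lf (nat_lit 6) (nat_lit 336)))) (lf (nat_lit 12) (nat_lit 334)))) q48448 (by decide +kernel)
def q48463 : Q := Q.p (nat_lit 0xe00002000008000020000000000000000000000000000000000000000000000000000000000000000000000000) (nat_lit 0x4e0001100000e00000000000000000000000000000000000000000000000000000000000000000000000000000000000) (nat_lit 5)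
theorem c48463 : QOK q48463 := cut [] trivial (nd (nat_lit 360) (nat_lit 0) (cs (lf (nat_lit 29) (nat_lit 293)) (nd (nat_lit 378) (nat_lit 0) (cs (lf (nat_lit 10) (nat_lit 356)) (nd (nat_lit 356) (nat_lit 0) (cs (nd (nat_lit 334) (nat_lit 0) (cs (lf (nat_lit 23) (nat_lit 333)) (lf (nat_lit 22) (nat_lit 334)))) (lf (nat_lit 11) (nat_lit 355)))))))) q48463 (by decide +kernel)
def q48467 : Q := Q.p (nat_lit 0x500000800002000008000000000000000000000000000000000000000000000000000000000000000000000000000000) (nat_lit 0x140000200000000000000000000000000000000000000000000000000000000000000000000000000000000000000000000000) (nat_lit 2)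
theorem c48467 : QOK q48467 := cut [] trivial (nd (nat_lit 381) (nat_lit 0) (cs (lf (nat_lit 29) (nat_lit 315)) (lf (nat_lit 41) (nat_lit 314)))) q48467 (by decide +kernel)
def q48481 : Q := Q.p (nat_lit 0x38000000000100001400000000000000000000000000000000000000000000000000000000000000) (nat_lit 0x370000c0000340000400000000000000000000000000000000000000000000000000000000000000000000) (nat_lit 6)
theorem c48481 : QOK q48481 := cut [] trivial (nd (nat_lit 337) (nat_lit 0) (cs (lf (nat_lit 38) (nat_lit 249)) (nd (nat_lit 318) (nat_lit 0) (cs (lf (nat_lit 11) (nat_lit 314)) (nd (nat_lit 296) (nat_lit 0) (cs (lf (nat_lit 17) (nat_lit 293)) (nd (nat_lit 319) (nat_lit 0) (cs (lf (nat_lit 10) (nat_lit 315)) (nd (nat_lit 341) (nat_lit 0) (cs (lf (nat_lit 25) (nat_lit 252)) (lf (nat_lit 4) (nat_lit 315)))))))))))) q48481 (by decide +kernel)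
def q48495 : Q := Q.p (nat_lit 0xe00009000000000000000000000000000000000000000000000000000000000000000000000000000000000000) (nat_lit 0x1000006000000000000000000000000000000000000000000000000000000000000000000000000000000000000) (nat_lit 2)
theorem c48495 : QOK q48495 := cut [] trivial (nd (nat_lit 338) (nat_lit 0) (cs (lf (nat_lit 8) (nat_lit 335)) (lf (nat_lit 15) (nat_lit 335)))) q48495 (by decide +kernel)
def q48522 : Q := Q.p (nat_lit 0x100000c000030000000000000000000000000000000000000000000000000000000000000000000000000) (nat_lit 0x100000400000000000000000000080000000000000000000000000000000000000000000000000000000000000000000) (nat_lit 2)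
theorem c48522 : QOK q48522 := cut [] trivial (nd (nat_lit 358) (nat_lit 0) (cs (lf (nat_lit 30) (nat_lit 292)) (lf (nat_lit 35) (nat_lit 270)))) q48522 (by decide +kernel)
def q48547 : Q := Q.p (nat_lit 0x3c0000000002000000000000000000000000000000000000000000000000000000000000000) (nat_lit 0x1c0000400001800000000008000000000000000000000000000000000000000000000000000000000) (nat_lit 4)
theorem c48547 : QOK q48547 := cut [] trivial (nd (nat_lit 275) (nat_lit 0) (cs (lf (nat_lit 17) (nat_lit 272)) (nd (nat_lit 231) (nat_lit 0) (cs (lf (nat_lit 41) (nat_lit 230)) (nd (nat_lit 320) (nat_lit 0) (cs (lf (nat_lit 28) (nat_lit 231)) (lf (nat_lit 4) (nat_lit 294)))))))) q48547 (by decide +kernel)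
def q48590 : Q := Q.p (nat_lit 0x70000140000500000000000000000000000000000000000000000000000000000000000000) (nat_lit 0x8000000000000000000001400000000000000000000000000000000000000000000000000000000) (nat_lit 2)
theorem c48590 : QOK q48590 := cut [] trivial (nd (nat_lit 315) (nat_lit 0) (cs (lf (nat_lit 36) (nat_lit 227)) (lf (nat_lit 24) (nat_lit 226)))) q48590 (by decide +kernel)
def q48593 : Q := Q.p (nat_lit 0x30000000000300000800000000000000000000000000000000000000000000000000000000) (nat_lit 0x40000000000c0000000000000000000000000000000000000000000000000000000000000000000) (nat_lit 2)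
theorem c48593 : QOK q48593 := cut [] trivial (nd (nat_lit 314) (nat_lit 0) (cs (lf (nat_lit 38) (nat_lit 226)) (lf (nat_lit 32) (nat_lit 226)))) q48593 (by decide +kernel)
def q48605 : Q := Q.p (nat_lit 0x180000400001000004000000000000000000000000000000000000000000000000000) (nat_lit 0x200000000008000030000080000000000000000000000000000000000000000) (nat_lit 3)
theorem c48605 : QOK q48605 := cut [] trivial (nd (nat_lit 185) (nat_lit 0) (cs (lf (nat_lit 34) (nat_lit 184)) (nd (nat_lit 184) (nat_lit 0) (cs (lf (nat_lit 35) (nat_lit 162)) (lf (nat_lit 40) (nat_lit 183)))))) q48605 (by decide +kernel)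
def q48638 : Q := Q.p (nat_lit 0x8000040000100000400000000000000000000000000000000000000000000000000000000000000) (nat_lit 0x800002000010000020000080000000000000000000000000000000000000000000000000000000000000000000) (nat_lit 3)
theorem c48638 : QOK q48638 := cut [] trivial (nd (nat_lit 337) (nat_lit 0) (cs (lf (nat_lit 39) (nat_lit 249)) (nd (nat_lit 293) (nat_lit 0) (cs (lf (nat_lit 33) (nat_lit 249)) (lf (nat_lit 30) (nat_lit 271)))))) q48638 (by decide +kernel)
def q48654 : Q := Q.p (nat_lit 0x800004000010000040000080000000000000000000000000000000000000000000000000000000000000000000) (nat_lit 0x200001000000000000000020000000000000000000000000000000000000000000000000000000000000000000000000) (nat_lit 2)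
theorem c48654 : QOK q48654 := cut [] trivial (nd (nat_lit 360) (nat_lit 0) (cs (lf (nat_lit 41) (nat_lit 293)) (lf (nat_lit 46) (nat_lit 271)))) q48654 (by decide +kernel)
def q48669 : Q := Q.p (nat_lit 0x160000500000000000000000000000000000000000000000000000000000000000000000000) (nat_lit 0x2800008c0000000000000000000000000000000000000000000000000000000000000000000) (nat_lit 3)
theorem c48669 : QOK q48669 := cut [] trivial (nd (nat_lit 295) (nat_lit 0) (cs (lf (nat_lit 17) (nat_lit 271)) (nd (nat_lit 271) (nat_lit 0) (cs (lf (nat_lit 23) (nat_lit 270)) (lf (nat_lit 18) (nat_lit 271)))))) q48669 (by decide +kernel)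
def q48673 : Q := Q.p (nat_lit 0x60000700000000000000000000000000000000000000000000000000000000000000000000) (nat_lit 0x98000000000000000000000000000000000000000000000000000000000000000000000000) (nat_lit 2)
theorem c48673 : QOK q48673 := cut [] trivial (nd (nat_lit 292) (nat_lit 0) (cs (lf (nat_lit 12) (nat_lit 269)) (lf (nat_lit 15) (nat_lit 270)))) q48673 (by decide +kernel)
def q48692 : Q := Q.p (nat_lit 0x80003a0000000000000000000000000000000000000000000000000000000000000000000) (nat_lit 0x14000040000000000000000000000000000000000000000000000000000000000000000000) (nat_lit 2)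
theorem c48692 : QOK q48692 := cut [] trivial (nd (nat_lit 270) (nat_lit 0) (cs (lf (nat_lit 10) (nat_lit 269)) (lf (nat_lit 11) (nat_lit 268)))) q48692 (by decide +kernel)
def q48695 : Q := Q.p (nat_lit 0x8000020000180000400000000000000000000000000000000000000000000000000000000000000) (nat_lit 0x200001000004000000000000000000000000000000000000000000000000000) (nat_lit 2)
theorem c48695 : QOK q48695 := cut [] trivial (nd (nat_lit 228) (nat_lit 0) (cs (lf (nat_lit 36) (nat_lit 205)) (lf (nat_lit 33) (nat_lit 227)))) q48695 (by decide +kernel)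
def q48699 : Q := Q.p (nat_lit 0xc000020000080000200000000000000000000000000000000000000000000000000000000) (nat_lit 0x10000000000400001800004000000000000000000000000000000000000000000000) (nat_lit 3)
theorem c48699 : QOK q48699 := cut [] trivial (nd (nat_lit 204) (nat_lit 0) (cs (lf (nat_lit 34) (nat_lit 203)) (nd (nat_lit 203) (nat_lit 0) (cs (lf (nat_lit 40) (nat_lit 202)) (lf (nat_lit 35) (nat_lit 181)))))) q48699 (by decide +kernel)
def q48703 : Q := Q.p (nat_lit 0x28000380000000000000000000000000000000000000000000000000000000000000000000) (nat_lit 0x54000000000000000000000000000000000000000000000000000000000000000000000000) (nat_lit 2)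
theorem c48703 : QOK q48703 := cut [] trivial (nd (nat_lit 292) (nat_lit 0) (cs (lf (nat_lit 12) (nat_lit 268)) (lf (nat_lit 15) (nat_lit 269)))) q48703 (by decide +kernel)
def q48725 : Q := Q.p (nat_lit 0x2000008000020000080000200000000000000000000000000000000000000000000000000000000) (nat_lit 0x40000100000400000000000000000000000000000000000000000000000000) (nat_lit 2)
theorem c48725 : QOK q48725 := cut [] trivial (nd (nat_lit 224) (nat_lit 0) (cs (lf (nat_lit 47) (nat_lit 202)) (lf (nat_lit 46) (nat_lit 224)))) q48725 (by decide +kernel)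
def q48731 : Q := Q.p (nat_lit 0x480000700000000000000000000000000000000000000000000000000000000) (nat_lit 0x260001800000000000000000000000000000000000000000000000000000000) (nat_lit 3)
theorem c48731 : QOK q48731 := cut [] trivial (nd (nat_lit 227) (nat_lit 0) (cs (lf (nat_lit 4) (nat_lit 224)) (nd (nat_lit 246) (nat_lit 0) (cs (lf (nat_lit 11) (nat_lit 223)) (lf (nat_lit 6) (nat_lit 224)))))) q48731 (by decide +kernel)
def q48747 : Q := Q.p (nat_lit 0x200000e00000000000000000000000000000000000000000000000000) (nat_lit 0x570000180000000000000000000000000000000000000000000000000) (nat_lit 4)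
theorem c48747 : QOK q48747 := cut [] trivial (nd (nat_lit 200) (nat_lit 0) (cs (lf (nat_lit 5) (nat_lit 200)) (nd (nat_lit 221) (nat_lit 0) (cs (nd (nat_lit 199) (nat_lit 0) (cs (lf (nat_lit 4) (nat_lit 199)) (lf (nat_lit 11) (nat_lit 198)))) (lf (nat_lit 10) (nat_lit 199)))))) q48747 (by decide +kernel)
def q48753 : Q := Q.p (nat_lit 0x20000080000200000e00000000000000000000000000000000000000000000000000) (nat_lit 0x4000010000000001dc0003000004c00000000000000000000000000000000000000000000) (nat_lit 7)
theorem c48753 : QOK q48753 := cut [] trivial (nd (nat_lit 204) (nat_lit 0) (cs (lf (nat_lit 35) (nat_lit 181)) (nd (nat_lit 268) (nat_lit 0) (cs (lf (nat_lit 41) (nat_lit 202)) (nd (nat_lit 178) (nat_lit 0) (cs (lf (nat_lit 22) (nat_lit 178)) (nd (nat_lit 223) (nat_lit 0) (cs (lf (nat_lit 11) (nat_lit 200)) (nd (nat_lit 227) (nat_lit 0) (cs (lf (nat_lit 4) (nat_lit 201)) (nd (nat_lit 205) (nat_lit 0) (cs (lf (nat_lit 5) (nat_lit 202)) (lf (nat_lit 10) (nat_lit 201)))))))))))))) q48753 (by decide +kernel)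
def q48757 : Q := Q.p (nat_lit 0x1e00000000000000000000000000000000000000000000000000) (nat_lit 0xe0000100000e00000000000000000000000000000000000000000000) (nat_lit 4)
theorem c48757 : QOK q48757 := cut [] trivial (nd (nat_lit 178) (nat_lit 0) (cs (lf (nat_lit 22) (nat_lit 178)) (nd (nat_lit 222) (nat_lit 0) (cs (lf (nat_lit 10) (nat_lit 200)) (nd (nat_lit 200) (nat_lit 0) (cs (lf (nat_lit 23) (nat_lit 177)) (lf (nat_lit 11) (nat_lit 199)))))))) q48757 (by decide +kernel)
def q48761 : Q := Q.p (nat_lit 0xf80000000000000000000000000000000000000000000000000) (nat_lit 0x700000000000000000000000000000000000000000000) (nat_lit 2)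
theorem c48761 : QOK q48761 := cut [] trivial (nd (nat_lit 177) (nat_lit 0) (cs (lf (nat_lit 22) (nat_lit 177)) (lf (nat_lit 23) (nat_lit 176)))) q48761 (by decide +kernel)
def q48770 : Q := Q.p (nat_lit 0x800002000008000020000080000000000000000000000000000000000000000000000000000000000000) (nat_lit 0x100000400001000000000000000000000000000000000000000000000000000000000000000000000000000000) (nat_lit 2)
theorem c48770 : QOK q48770 := cut [] trivial (nd (nat_lit 334) (nat_lit 0) (cs (lf (nat_lit 41) (nat_lit 268)) (lf (nat_lit 40) (nat_lit 246)))) q48770 (by decide +kernel)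
def q48778 : Q := Q.p (nat_lit 0x80000300000c0000000000000000000000000000000000000000000000000000000000000) (nat_lit 0x800002000000000000000000000100000000000000000000000000000000000000000000000000000000) (nat_lit 2)
theorem c48778 : QOK q48778 := cut [] trivial (nd (nat_lit 313) (nat_lit 0) (cs (lf (nat_lit 42) (nat_lit 246)) (lf (nat_lit 47) (nat_lit 224)))) q48778 (by decide +kernel)
def q48788 : Q := Q.p (nat_lit 0x8000020000080000200000800000000000000000000000000000000000000000000000000) (nat_lit 0x1000004000010000000000000000000000000000000000000000000000000000000000000000000) (nat_lit 2)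
theorem c48788 : QOK q48788 := cut [] trivial (nd (nat_lit 290) (nat_lit 0) (cs (lf (nat_lit 41) (nat_lit 224)) (lf (nat_lit 40) (nat_lit 202)))) q48788 (by decide +kernel)
def q48794 : Q := Q.p (nat_lit 0x20000080000200000800000000000000000000000000000000000000000000000000) (nat_lit 0x100000c000010000000000100000400001000000000000000000000000000000000000000000000) (nat_lit 4)
theorem c48794 : QOK q48794 := cut [] trivial (nd (nat_lit 202) (nat_lit 0) (cs (lf (nat_lit 47) (nat_lit 180)) (nd (nat_lit 290) (nat_lit 0) (cs (lf (nat_lit 40) (nat_lit 202)) (nd (nat_lit 291) (nat_lit 0) (cs (lf (nat_lit 41) (nat_lit 224)) (lf (nat_lit 46) (nat_lit 202)))))))) q48794 (by decide +kernel)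
def q48802 : Q := Q.p (nat_lit 0x40000200000800002000010000000000000000000000000000000000000000) (nat_lit 0x100000000000000008000040000000000000000000000000000000000) (nat_lit 2)
theorem c48802 : QOK q48802 := cut [] trivial (nd (nat_lit 159) (nat_lit 0) (cs (lf (nat_lit 40) (nat_lit 158)) (lf (nat_lit 35) (nat_lit 137)))) q48802 (by decide +kernel)
def q48817 : Q := Q.p (nat_lit 0x600001c00000000000000000000000000000000000000000000000000) (nat_lit 0x800000300000000000000000000000000000000000000000000000000) (nat_lit 2)
theorem c48817 : QOK q48817 := cut [] trivial (nd (nat_lit 201) (nat_lit 0) (cs (lf (nat_lit 5) (nat_lit 201)) (lf (nat_lit 0) (nat_lit 200)))) q48817 (by decide +kernel)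
def q48834 : Q := Q.p (nat_lit 0x80000200000c0000100000000000000000000000000000000000000000000000000000000) (nat_lit 0x10000000000000000400001000000000000000000000000000000000000000000000) (nat_lit 2)
theorem c48834 : QOK q48834 := cut [] trivial (nd (nat_lit 202) (nat_lit 0) (cs (lf (nat_lit 24) (nat_lit 180)) (lf (nat_lit 27) (nat_lit 202)))) q48834 (by decide +kernel)
def q48839 : Q := Q.p (nat_lit 0x80001a0000080000000000000000000000000000000000000000000000000000000000000) (nat_lit 0x4000040000040000000000000000000000000000000000000000000000000000000000000) (nat_lit 2)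
theorem c48839 : QOK q48839 := cut [] trivial (nd (nat_lit 270) (nat_lit 0) (cs (lf (nat_lit 11) (nat_lit 268)) (lf (nat_lit 23) (nat_lit 246)))) q48839 (by decide +kernel)
def q48841 : Q := Q.p (nat_lit 0x28000380000000000000000000000000000000000000000000000000000000000000000000) (nat_lit 0x50000040000000000000000000000000000000000000000000000000000000000000000000) (nat_lit 2)
theorem c48841 : QOK q48841 := cut [] trivial (nd (nat_lit 292) (nat_lit 0) (cs (lf (nat_lit 9) (nat_lit 269)) (lf (nat_lit 15) (nat_lit 269)))) q48841 (by decide +kernel)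
def q48857 : Q := Q.p (nat_lit 0x2000008000020000080000000000000000000000000000000000000000000000000000000000000) (nat_lit 0x1000004000010000000000040000300000400000000000000000000000000000000000000000000000000) (nat_lit 4)
theorem c48857 : QOK q48857 := cut [] trivial (nd (nat_lit 224) (nat_lit 0) (cs (lf (nat_lit 46) (nat_lit 224)) (nd (nat_lit 314) (nat_lit 0) (cs (lf (nat_lit 29) (nat_lit 247)) (nd (nat_lit 225) (nat_lit 0) (cs (lf (nat_lit 47) (nat_lit 202)) (lf (nat_lit 28) (nat_lit 225)))))))) q48857 (by decide +kernel)
def q48861 : Q := Q.p (nat_lit 0xc0001a0000080000200000000000000000000000000000000000000000000000000000000) (nat_lit 0x4000030000000000000000000000000000000000000000000000000000000000000000000000000) (nat_lit 2)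
theorem c48861 : QOK q48861 := cut [] trivial (nd (nat_lit 292) (nat_lit 0) (cs (lf (nat_lit 29) (nat_lit 225)) (lf (nat_lit 15) (nat_lit 268)))) q48861 (by decide +kernel)
def q48874 : Q := Q.p (nat_lit 0xe000028000020000080000000000000000000000000000000000000000000000000000000000000) (nat_lit 0x400001000040000000000000000000000000000000000000000000000000000000000000000000000000) (nat_lit 2)
theorem c48874 : QOK q48874 := cut [] trivial (nd (nat_lit 312) (nat_lit 0) (cs (lf (nat_lit 41) (nat_lit 246)) (lf (nat_lit 17) (nat_lit 290)))) q48874 (by decide +kernel)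
def q48877 : Q := Q.p (nat_lit 0xf000008000000000000000000000000000000000000000000000000000000000000000000000000) (nat_lit 0x10000006000000000000000000000000000000000000000000000000000000000000000000000000) (nat_lit 2)
theorem c48877 : QOK q48877 := cut [] trivial (nd (nat_lit 290) (nat_lit 0) (cs (lf (nat_lit 23) (nat_lit 289)) (lf (nat_lit 18) (nat_lit 290)))) q48877 (by decide +kernel)
def q48884 : Q := Q.p (nat_lit 0x18000380000000000000000000000000000000000000000000000000000000000000000000) (nat_lit 0x64000000000000000000000000000000000000000000000000000000000000000000000000) (nat_lit 2)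
theorem c48884 : QOK q48884 := cut [] trivial (nd (nat_lit 293) (nat_lit 0) (cs (lf (nat_lit 12) (nat_lit 268)) (lf (nat_lit 15) (nat_lit 269)))) q48884 (by decide +kernel)
def q48896 : Q := Q.p (nat_lit 0x2000008000020000080000000000000000000000000000000000000000000000000000000000000) (nat_lit 0x1000004000014000010000040000600001c00007000004000000000000000000000000000000000000000) (nat_lit 8)
theorem c48896 : QOK q48896 := cut [] trivial (nd (nat_lit 314) (nat_lit 0) (cs (lf (nat_lit 29) (nat_lit 247)) (nd (nat_lit 225) (nat_lit 0) (cs (lf (nat_lit 28) (nat_lit 225)) (nd (nat_lit 204) (nat_lit 0) (cs (lf (nat_lit 34) (nat_lit 203)) (nd (nat_lit 203) (nat_lit 0) (cs (lf (nat_lit 35) (nat_lit 181)) (nd (nat_lit 180) (nat_lit 0) (cs (lf (nat_lit 46) (nat_lit 180)) (nd (nat_lit 268) (nat_lit 0) (cs (lf (nat_lit 41) (nat_lit 202)) (nd (nat_lit 181) (nat_lit 0) (cs (lf (nat_lit 47) (nat_lit 158)) (lf (nat_lit 40) (nat_lit 180)))))))))))))))) q48896 (by decide +kernel)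
def q48900 : Q := Q.p (nat_lit 0x400000800002000008000010000000000000000000000000000000000000000000000000000000000000000000) (nat_lit 0x100000200000000000000004000000000000000000000000000000000000000000000000000000000000000000000000) (nat_lit 2)
theorem c48900 : QOK q48900 := cut [] trivial (nd (nat_lit 357) (nat_lit 0) (cs (lf (nat_lit 46) (nat_lit 268)) (lf (nat_lit 29) (nat_lit 291)))) q48900 (by decide +kernel)
def q48920 : Q := Q.p (nat_lit 0x180000400000300006000000000000000000000000000000000000000000000000000) (nat_lit 0x200000c00000000018000000000000000000000000000000000000000000000) (nat_lit 3)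
theorem c48920 : QOK q48920 := cut [] trivial (nd (nat_lit 227) (nat_lit 0) (cs (lf (nat_lit 14) (nat_lit 202)) (nd (nat_lit 249) (nat_lit 0) (cs (lf (nat_lit 24) (nat_lit 183)) (lf (nat_lit 35) (nat_lit 183)))))) q48920 (by decide +kernel)
def q48924 : Q := Q.p (nat_lit 0x20000080000200007000000000000000000000000000000000000000000000000000) (nat_lit 0xc00007000000000000000000000000000000000000000000000) (nat_lit 3)
theorem c48924 : QOK q48924 := cut [] trivial (nd (nat_lit 203) (nat_lit 0) (cs (lf (nat_lit 35) (nat_lit 181)) (nd (nat_lit 180) (nat_lit 0) (cs (lf (nat_lit 22) (nat_lit 180)) (lf (nat_lit 46) (nat_lit 180)))))) q48924 (by decide +kernel)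
def q48934 : Q := Q.p (nat_lit 0x200000e0000400000000000000000000000000000000000000000000000000000000000000) (nat_lit 0x40000010000200000000000000000000000000000000000000000000000000000000000000) (nat_lit 2)
theorem c48934 : QOK q48934 := cut [] trivial (nd (nat_lit 268) (nat_lit 0) (cs (lf (nat_lit 5) (nat_lit 268)) (lf (nat_lit 16) (nat_lit 246)))) q48934 (by decide +kernel)
def q48938 : Q := Q.p (nat_lit 0x8000020000080000200007000000000000000000000000000000000000000000000000000) (nat_lit 0x100000c00000000000000000000000000000000000000000000000000) (nat_lit 2)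
theorem c48938 : QOK q48938 := cut [] trivial (nd (nat_lit 224) (nat_lit 0) (cs (lf (nat_lit 9) (nat_lit 202)) (lf (nat_lit 47) (nat_lit 202)))) q48938 (by decide +kernel)
def q48949 : Q := Q.p (nat_lit 0x8000030000180000600000000000000000000000000000000000000000000000000000000000000) (nat_lit 0x1d000074000040000000000000000000000000000000000000000000000000000000000000000000000000) (nat_lit 5)
theorem c48949 : QOK q48949 := cut [] trivial (nd (nat_lit 316) (nat_lit 0) (cs (lf (nat_lit 29) (nat_lit 249)) (nd (nat_lit 317) (nat_lit 0) (cs (lf (nat_lit 18) (nat_lit 292)) (nd (nat_lit 339) (nat_lit 0) (cs (lf (nat_lit 26) (nat_lit 250)) (nd (nat_lit 314) (nat_lit 0) (cs (lf (nat_lit 5) (nat_lit 314)) (lf (nat_lit 41) (nat_lit 248)))))))))) q48949 (by decide +kernel)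
def q48953 : Q := Q.p (nat_lit 0x20000180000400001000000000000000000000000000000000000000000000000000000000) (nat_lit 0x2000008000040000000000000000000000000000000000000000000000000000000000000000000000000) (nat_lit 2)
theorem c48953 : QOK q48953 := cut [] trivial (nd (nat_lit 315) (nat_lit 0) (cs (lf (nat_lit 30) (nat_lit 249)) (lf (nat_lit 39) (nat_lit 227)))) q48953 (by decide +kernel)
def q48962 : Q := Q.p (nat_lit 0xe00000c000000000000000000000000000000000000000000000000000000000000000000000000) (nat_lit 0x1000003000000000000000000000000000000000000000000000000000000000000000000000000) (nat_lit 2)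
theorem c48962 : QOK q48962 := cut [] trivial (nd (nat_lit 289) (nat_lit 0) (cs (lf (nat_lit 0) (nat_lit 288)) (lf (nat_lit 21) (nat_lit 289)))) q48962 (by decide +kernel)
def q48968 : Q := Q.p (nat_lit 0x200000c000020000080000000004000000000000000000000000000000000000000000000000000) (nat_lit 0x10000040000700003c00000000000000000000000000000000000000000000000000) (nat_lit 5)
theorem c48968 : QOK q48968 := cut [] trivial (nd (nat_lit 224) (nat_lit 0) (cs (lf (nat_lit 46) (nat_lit 224)) (nd (nat_lit 225) (nat_lit 0) (cs (lf (nat_lit 47) (nat_lit 202)) (nd (nat_lit 203) (nat_lit 0) (cs (lf (nat_lit 40) (nat_lit 202)) (nd (nat_lit 204) (nat_lit 0) (cs (lf (nat_lit 7) (nat_lit 202)) (lf (nat_lit 34) (nat_lit 203)))))))))) q48968 (by decide +kernel)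
def q48971 : Q := Q.p (nat_lit 0x200000c000020000080000000000000000000000000000000000000000000000000000000000000) (nat_lit 0x400001000000000000000000000200000000000000000000000000000000000000000000000000000000) (nat_lit 2)
theorem c48971 : QOK q48971 := cut [] trivial (nd (nat_lit 312) (nat_lit 0) (cs (lf (nat_lit 41) (nat_lit 246)) (lf (nat_lit 36) (nat_lit 224)))) q48971 (by decide +kernel)
def q49041 : Q := Q.p (nat_lit 0x180000600000000006000000000000000000000000000000000000000000000000000) (nat_lit 0x800000000018000000000000000000000000000000000000000000000) (nat_lit 2)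
theorem c49041 : QOK q49041 := cut [] trivial (nd (nat_lit 227) (nat_lit 0) (cs (lf (nat_lit 24) (nat_lit 183)) (lf (nat_lit 35) (nat_lit 183)))) q49041 (by decide +kernel)
def q49044 : Q := Q.p (nat_lit 0x68000180003000000000000000000000000000000000000000000000000000000000000000) (nat_lit 0x10000600000000000000000000000000000000000000000000000000000000000000000000) (nat_lit 2)
theorem c49044 : QOK q49044 := cut [] trivial (nd (nat_lit 273) (nat_lit 0) (cs (lf (nat_lit 15) (nat_lit 249)) (lf (nat_lit 13) (nat_lit 269)))) q49044 (by decide +kernel)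
def q49053 : Q := Q.p (nat_lit 0x1c000048000100000400000000000000000000000000000000000000000000000000000000000000) (nat_lit 0x8000020000010000000000000000000000000000000000000000000000000000000000000000000000000) (nat_lit 2)
theorem c49053 : QOK q49053 := cut [] trivial (nd (nat_lit 317) (nat_lit 0) (cs (lf (nat_lit 29) (nat_lit 250)) (lf (nat_lit 22) (nat_lit 291)))) q49053 (by decide +kernel)
def q49066 : Q := Q.p (nat_lit 0x18000038000000000000000000000000000000000000000000000000000000000000000000000000) (nat_lit 0x60000040000000000000000000000000000000000000000000000000000000000000000000000000) (nat_lit 2)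
theorem c49066 : QOK q49066 := cut [] trivial (nd (nat_lit 317) (nat_lit 0) (cs (lf (nat_lit 18) (nat_lit 292)) (lf (nat_lit 3) (nat_lit 291)))) q49066 (by decide +kernel)
def q49110 : Q := Q.p (nat_lit 0x40000180000400001000000000000000000000000000000000000000000000000000000000) (nat_lit 0x200000e000038000020000000000200002000008000000000000000000000000000000000000000000000000000) (nat_lit 6)
theorem c49110 : QOK q49110 := cut [] trivial (nd (nat_lit 315) (nat_lit 0) (cs (lf (nat_lit 40) (nat_lit 227)) (nd (nat_lit 207) (nat_lit 0) (cs (lf (nat_lit 34) (nat_lit 206)) (nd (nat_lit 316) (nat_lit 0) (cs (lf (nat_lit 41) (nat_lit 249)) (nd (nat_lit 339) (nat_lit 0) (cs (lf (nat_lit 28) (nat_lit 250)) (nd (nat_lit 338) (nat_lit 0) (cs (lf (nat_lit 29) (nat_lit 272)) (lf (nat_lit 47) (nat_lit 249)))))))))))) q49110 (by decide +kernel)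
def q49123 : Q := Q.p (nat_lit 0x200000800002000008000020000000000000000000000000000000000000000000000000000000000000000000) (nat_lit 0x40000100000400000000000000000000000000000000000000000000000000000000000000000000000000000000000) (nat_lit 2)
theorem c49123 : QOK q49123 := cut [] trivial (nd (nat_lit 356) (nat_lit 0) (cs (lf (nat_lit 41) (nat_lit 290)) (lf (nat_lit 40) (nat_lit 268)))) q49123 (by decide +kernel)
def q49144 : Q := Q.p (nat_lit 0x680001a0000000000000000000000000000000000000000000000000000000000000000000) (nat_lit 0x4000050000000000000000000000000000000000000000000000000000000000000000000) (nat_lit 2)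
theorem c49144 : QOK q49144 := cut [] trivial (nd (nat_lit 270) (nat_lit 0) (cs (lf (nat_lit 11) (nat_lit 268)) (lf (nat_lit 0) (nat_lit 268)))) q49144 (by decide +kernel)
def q49170 : Q := Q.p (nat_lit 0x80000200000c0000100000000000000000000000000000000000000000000000000000000) (nat_lit 0x200000400001000000000000000000000000000000000000000000000) (nat_lit 2)
theorem c49170 : QOK q49170 := cut [] trivial (nd (nat_lit 202) (nat_lit 0) (cs (lf (nat_lit 24) (nat_lit 180)) (lf (nat_lit 45) (nat_lit 202)))) q49170 (by decide +kernel)
def q49175 : Q := Q.p (nat_lit 0x680000a0000000000000000000000000000000000000000000000000000000000000000000) (nat_lit 0x10000050000000000000000000000000000000000000000000000000000000000000000000) (nat_lit 2)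
theorem c49175 : QOK q49175 := cut [] trivial (nd (nat_lit 268) (nat_lit 0) (cs (lf (nat_lit 20) (nat_lit 268)) (lf (nat_lit 2) (nat_lit 268)))) q49175 (by decide +kernel)
def q49189 : Q := Q.p (nat_lit 0x20000180000400001000000000000000000000000000000000000000000000000000000000) (nat_lit 0x2000008000000000000000200000000000000000000000000000000000000000000000000000000000000) (nat_lit 2)
theorem c49189 : QOK q49189 := cut [] trivial (nd (nat_lit 315) (nat_lit 0) (cs (lf (nat_lit 30) (nat_lit 249)) (lf (nat_lit 33) (nat_lit 227)))) q49189 (by decide +kernel)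
def q49197 : Q := Q.p (nat_lit 0x1200000c0000200000800000000000000000000000000000000000000000000000000) (nat_lit 0x100000c0000000000000000000000000000000000000000000000000000000000000000000) (nat_lit 2)
theorem c49197 : QOK q49197 := cut [] trivial (nd (nat_lit 270) (nat_lit 0) (cs (lf (nat_lit 29) (nat_lit 203)) (lf (nat_lit 19) (nat_lit 246)))) q49197 (by decide +kernel)
def q49201 : Q := Q.p (nat_lit 0x1400000c0000200000800000000000000000000000000000000000000000000000000) (nat_lit 0x100000a0000000000000000000000000000000000000000000000000000000000000000000) (nat_lit 2)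
theorem c49201 : QOK q49201 := cut [] trivial (nd (nat_lit 269) (nat_lit 0) (cs (lf (nat_lit 29) (nat_lit 203)) (lf (nat_lit 19) (nat_lit 246)))) q49201 (by decide +kernel)
def q49208 : Q := Q.p (nat_lit 0x100000200000800002000004000000000000000000000000000000000000000) (nat_lit 0x400000000000000008000010000000000000000000000000000000000) (nat_lit 2)
theorem c49208 : QOK q49208 := cut [] trivial (nd (nat_lit 159) (nat_lit 0) (cs (lf (nat_lit 47) (nat_lit 136)) (lf (nat_lit 28) (nat_lit 159)))) q49208 (by decide +kernel)
def q49216 : Q := Q.p (nat_lit 0xc0000600000000000000000000000000000000000000000000000000000000) (nat_lit 0x30001900000000000000000000000000000000000000000000000000000000) (nat_lit 3)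
theorem c49216 : QOK q49216 := cut [] trivial (nd (nat_lit 227) (nat_lit 0) (cs (lf (nat_lit 6) (nat_lit 224)) (nd (nat_lit 245) (nat_lit 0) (cs (lf (nat_lit 12) (nat_lit 222)) (lf (nat_lit 9) (nat_lit 223)))))) q49216 (by decide +kernel)
def q49225 : Q := Q.p (nat_lit 0x40000100000680001000000000000000000000000000000000000000000000000000) (nat_lit 0x100002000008000000000000000000000000000000000000000000000) (nat_lit 2)
theorem c49225 : QOK q49225 := cut [] trivial (nd (nat_lit 205) (nat_lit 0) (cs (lf (nat_lit 35) (nat_lit 182)) (lf (nat_lit 13) (nat_lit 201)))) q49225 (by decide +kernel)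
def q49239 : Q := Q.p (nat_lit 0xe0000600000000000000000000000000000000000000000000000000000000) (nat_lit 0x1900000000000000000000000000000000000000000000000000000000) (nat_lit 2)
theorem c49239 : QOK q49239 := cut [] trivial (nd (nat_lit 227) (nat_lit 0) (cs (lf (nat_lit 6) (nat_lit 224)) (lf (nat_lit 9) (nat_lit 223)))) q49239 (by decide +kernel)
def q49242 : Q := Q.p (nat_lit 0xe0000600000000000000000000000000000000000000000000000000000000) (nat_lit 0x100001800000000000000000000000000000000000000000000000000000000) (nat_lit 2)
theorem c49242 : QOK q49242 := cut [] trivial (nd (nat_lit 227) (nat_lit 0) (cs (lf (nat_lit 6) (nat_lit 224)) (lf (nat_lit 15) (nat_lit 223)))) q49242 (by decide +kernel)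
def q49246 : Q := Q.p (nat_lit 0x70000220000000000000000000000000000000000000000000000000000000) (nat_lit 0x8000110000000000000000000000000000000000000000000000000000000) (nat_lit 2)
theorem c49246 : QOK q49246 := cut [] trivial (nd (nat_lit 243) (nat_lit 0) (cs (lf (nat_lit 16) (nat_lit 221)) (lf (nat_lit 23) (nat_lit 220)))) q49246 (by decide +kernel)
def q49253 : Q := Q.p (nat_lit 0x2000070000020000000000000000000000000000000000000000000000000000000) (nat_lit 0x1000008000010000000000000000000000000000000000000000000000000000000) (nat_lit 2)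
theorem c49253 : QOK q49253 := cut [] trivial (nd (nat_lit 243) (nat_lit 0) (cs (lf (nat_lit 23) (nat_lit 220)) (lf (nat_lit 11) (nat_lit 242)))) q49253 (by decide +kernel)
def q49261 : Q := Q.p (nat_lit 0xf0000000000000000000000000000000000000000000000000000000000000) (nat_lit 0xe0001000000e0000000000000000000000000000000000000000000000000000000) (nat_lit 4)
theorem c49261 : QOK q49261 := cut [] trivial (nd (nat_lit 266) (nat_lit 0) (cs (nd (nat_lit 222) (nat_lit 0) (cs (nd (nat_lit 248) (nat_lit 0) (cs (lf (nat_lit 10) (nat_lit 244)) (lf (nat_lit 22) (nat_lit 222)))) (lf (nat_lit 23) (nat_lit 221)))) (lf (nat_lit 11) (nat_lit 243)))) q49261 (by decide +kernel)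
def q49270 : Q := Q.p (nat_lit 0xe0000680000800000000000000000000000000000000000000000000000000) (nat_lit 0x100000c0000100000040000000000000000000000000000000000000000000000000000000) (nat_lit 3)
theorem c49270 : QOK q49270 := cut [] trivial (nd (nat_lit 248) (nat_lit 0) (cs (lf (nat_lit 23) (nat_lit 222)) (nd (nat_lit 270) (nat_lit 0) (cs (lf (nat_lit 42) (nat_lit 203)) (lf (nat_lit 5) (nat_lit 245)))))) q49270 (by decide +kernel)
def q49273 : Q := Q.p (nat_lit 0x680000a00000000000000000000000000000000000000000000000000) (nat_lit 0x100000500000000000000000000000000000000000000000000000000) (nat_lit 2)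
theorem c49273 : QOK q49273 := cut [] trivial (nd (nat_lit 200) (nat_lit 0) (cs (lf (nat_lit 20) (nat_lit 200)) (lf (nat_lit 2) (nat_lit 200)))) q49273 (by decide +kernel)
def q49284 : Q := Q.p (nat_lit 0x60000080000200000800000000000000000000000000000000000000000000) (nat_lit 0x100000000001000006000010000000000000000000000000000000000) (nat_lit 3)
theorem c49284 : QOK q49284 := cut [] trivial (nd (nat_lit 158) (nat_lit 0) (cs (nd (nat_lit 157) (nat_lit 0) (cs (lf (nat_lit 28) (nat_lit 157)) (lf (nat_lit 35) (nat_lit 135)))) (lf (nat_lit 34) (nat_lit 157)))) q49284 (by decide +kernel)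
def q49300 : Q := Q.p (nat_lit 0xe0000600000000000000000000000000000000000000000000000000000000) (nat_lit 0x100000900000000000000000000000000000000000000000000000000000000) (nat_lit 2)
theorem c49300 : QOK q49300 := cut [] trivial (nd (nat_lit 227) (nat_lit 0) (cs (lf (nat_lit 9) (nat_lit 223)) (lf (nat_lit 15) (nat_lit 223)))) q49300 (by decide +kernel)
def q49308 : Q := Q.p (nat_lit 0x100000c0000200000800000000000000000000000000000000000000000000000000) (nat_lit 0x1000004000000000000000100000000000000000000000000000000000000000000000000000000) (nat_lit 2)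
theorem c49308 : QOK q49308 := cut [] trivial (nd (nat_lit 290) (nat_lit 0) (cs (lf (nat_lit 33) (nat_lit 202)) (lf (nat_lit 30) (nat_lit 224)))) q49308 (by decide +kernel)
def q49312 : Q := Q.p (nat_lit 0x380000c0000000000000000000000000000000000000000000000000000000000000) (nat_lit 0x6000100000000000000000000000000000000000000000000000000000000000000) (nat_lit 2)
theorem c49312 : QOK q49312 := cut [] trivial (nd (nat_lit 266) (nat_lit 0) (cs (lf (nat_lit 17) (nat_lit 244)) (lf (nat_lit 12) (nat_lit 243)))) q49312 (by decide +kernel)
def q49315 : Q := Q.p (nat_lit 0x10000060000080000200000000000000000000000000000000000000000000000000000000) (nat_lit 0x1000004000000000000000100000000000000000000000000000000000000000000000000000000000000) (nat_lit 2)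
theorem c49315 : QOK q49315 := cut [] trivial (nd (nat_lit 314) (nat_lit 0) (cs (lf (nat_lit 45) (nat_lit 225)) (lf (nat_lit 42) (nat_lit 247)))) q49315 (by decide +kernel)
def q49320 : Q := Q.p (nat_lit 0x780000c0000000000000000000000000000000000000000000000000000000000000) (nat_lit 0x38000006000000000000000000000000000000000000000000000000000000000000000000) (nat_lit 3)
theorem c49320 : QOK q49320 := cut [] trivial (nd (nat_lit 292) (nat_lit 0) (cs (lf (nat_lit 5) (nat_lit 267)) (nd (nat_lit 266) (nat_lit 0) (cs (lf (nat_lit 12) (nat_lit 243)) (lf (nat_lit 4) (nat_lit 266)))))) q49320 (by decide +kernel)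
def q49330 : Q := Q.p (nat_lit 0xc0000300000400000000000000000000000000000000000000000000000000) (nat_lit 0x20000000000000000000001000004000000000000000000000000000000000000000) (nat_lit 2)
theorem c49330 : QOK q49330 := cut [] trivial (nd (nat_lit 180) (nat_lit 0) (cs (lf (nat_lit 24) (nat_lit 158)) (lf (nat_lit 29) (nat_lit 180)))) q49330 (by decide +kernel)
def q49336 : Q := Q.p (nat_lit 0x2000010000040000100000200000000000000000000000000000000000000000000000000) (nat_lit 0x8000000000000000400000800000000000000000000000000000000000000000000) (nat_lit 2)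
theorem c49336 : QOK q49336 := cut [] trivial (nd (nat_lit 202) (nat_lit 0) (cs (lf (nat_lit 47) (nat_lit 179)) (lf (nat_lit 40) (nat_lit 201)))) q49336 (by decide +kernel)
def q49341 : Q := Q.p (nat_lit 0x4000010000040000100000400000000000000000000000000000000000000000000000000) (nat_lit 0x800002000008000000000000000000000000000000000000000000000000000000000000000000) (nat_lit 2)
theorem c49341 : QOK q49341 := cut [] trivial (nd (nat_lit 289) (nat_lit 0) (cs (lf (nat_lit 40) (nat_lit 201)) (lf (nat_lit 41) (nat_lit 223)))) q49341 (by decide +kernel)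
def q49346 : Q := Q.p (nat_lit 0xc0000380000000000000000000000000000000000000000000000000000000) (nat_lit 0x100000060000000000000000000000000000000000000000000000000000000) (nat_lit 2)
theorem c49346 : QOK q49346 := cut [] trivial (nd (nat_lit 222) (nat_lit 0) (cs (lf (nat_lit 0) (nat_lit 221)) (lf (nat_lit 5) (nat_lit 222)))) q49346 (by decide +kernel)
def q49354 : Q := Q.p (nat_lit 0x40000100000c0000200000000000000000000000000000000000000000000000000000000) (nat_lit 0x20000000000000000800002000000000000000000000000000000000000000000000) (nat_lit 2)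
theorem c49354 : QOK q49354 := cut [] trivial (nd (nat_lit 203) (nat_lit 0) (cs (lf (nat_lit 36) (nat_lit 180)) (lf (nat_lit 39) (nat_lit 202)))) q49354 (by decide +kernel)
def q49358 : Q := Q.p (nat_lit 0x80000200000c00000000000000000000000000000000000000000000000000) (nat_lit 0x20000000000100000000001000004000010000000000000000000000000000000000) (nat_lit 3)
theorem c49358 : QOK q49358 := cut [] trivial (nd (nat_lit 180) (nat_lit 0) (cs (lf (nat_lit 42) (nat_lit 180)) (nd (nat_lit 158) (nat_lit 0) (cs (lf (nat_lit 24) (nat_lit 136)) (lf (nat_lit 27) (nat_lit 158)))))) q49358 (by decide +kernel)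
def q49361 : Q := Q.p (nat_lit 0x1c000100000400000000000000000000000000000000000000000000000000000000000000) (nat_lit 0x18000060000280000000001000000000000000000000000000000000000000000000000000000000) (nat_lit 4)
theorem c49361 : QOK q49361 := cut [] trivial (nd (nat_lit 293) (nat_lit 0) (cs (lf (nat_lit 16) (nat_lit 268)) (nd (nat_lit 294) (nat_lit 0) (cs (lf (nat_lit 17) (nat_lit 269)) (nd (nat_lit 315) (nat_lit 0) (cs (lf (nat_lit 36) (nat_lit 227)) (lf (nat_lit 5) (nat_lit 290)))))))) q49361 (by decide +kernel)
def q49366 : Q := Q.p (nat_lit 0x40000600001e00000800000000000000000000000000000000000000000000) (nat_lit 0x1c0002000000000002000000000000000000000000000000000000000) (nat_lit 3)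
theorem c49366 : QOK q49366 := cut [] trivial (nd (nat_lit 223) (nat_lit 0) (cs (lf (nat_lit 11) (nat_lit 200)) (nd (nat_lit 224) (nat_lit 0) (cs (lf (nat_lit 17) (nat_lit 201)) (lf (nat_lit 24) (nat_lit 157)))))) q49366 (by decide +kernel)
def q49378 : Q := Q.p (nat_lit 0xe00000c00000000000000000000000000000000000000000000000000) (nat_lit 0x1300000000000000000000000000000000000000000000000000) (nat_lit 2)
theorem c49378 : QOK q49378 := cut [] trivial (nd (nat_lit 201) (nat_lit 0) (cs (lf (nat_lit 0) (nat_lit 200)) (lf (nat_lit 3) (nat_lit 201)))) q49378 (by decide +kernel)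
def q49381 : Q := Q.p (nat_lit 0xc0000700000400001000000000000000000000000000000000000000000000) (nat_lit 0x8000030000000000000000000000000000000000000000000000000000000000000) (nat_lit 2)
theorem c49381 : QOK q49381 := cut [] trivial (nd (nat_lit 245) (nat_lit 0) (cs (lf (nat_lit 41) (nat_lit 179)) (lf (nat_lit 12) (nat_lit 222)))) q49381 (by decide +kernel)
def q49384 : Q := Q.p (nat_lit 0xe00001800000000000000000000000000000000000000000000) (nat_lit 0x3000000400000000000000000000000000000000000000000000) (nat_lit 2)
theorem c49384 : QOK q49384 := cut [] trivial (nd (nat_lit 204) (nat_lit 0) (cs (lf (nat_lit 23) (nat_lit 178)) (lf (nat_lit 18) (nat_lit 179)))) q49384 (by decide +kernel)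
def q49400 : Q := Q.p (nat_lit 0x80000200001800006000000000000000000000000000000000000000000000) (nat_lit 0x2000001c00004000000000000000000000000000000000000000) (nat_lit 3)
theorem c49400 : QOK q49400 := cut [] trivial (nd (nat_lit 180) (nat_lit 0) (cs (lf (nat_lit 47) (nat_lit 158)) (nd (nat_lit 179) (nat_lit 0) (cs (lf (nat_lit 5) (nat_lit 179)) (lf (nat_lit 0) (nat_lit 178)))))) q49400 (by decide +kernel)
def q49406 : Q := Q.p (nat_lit 0x300000d0000100000400000000000000000000000000000000000000000000000000) (nat_lit 0x200000e000008000000000000000000000000000000000000000000000000000000000000) (nat_lit 3)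
theorem c49406 : QOK q49406 := cut [] trivial (nd (nat_lit 267) (nat_lit 0) (cs (lf (nat_lit 41) (nat_lit 201)) (nd (nat_lit 266) (nat_lit 0) (cs (lf (nat_lit 12) (nat_lit 243)) (lf (nat_lit 23) (nat_lit 243)))))) q49406 (by decide +kernel)
def q49411 : Q := Q.p (nat_lit 0x300001c00000000000000000000000000000000000000000000000000) (nat_lit 0x80006000000000000000000000000000000000000000000000000000) (nat_lit 2)
theorem c49411 : QOK q49411 := cut [] trivial (nd (nat_lit 205) (nat_lit 0) (cs (lf (nat_lit 11) (nat_lit 201)) (lf (nat_lit 6) (nat_lit 202)))) q49411 (by decide +kernel)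
def q49432 : Q := Q.p (nat_lit 0x80000600000c0000000000000000000000000000000000000000000000000000000000000) (nat_lit 0x800002000000000000000100000500000000000000000000000000000000000000000000000000000000) (nat_lit 3)
theorem c49432 : QOK q49432 := cut [] trivial (nd (nat_lit 313) (nat_lit 0) (cs (lf (nat_lit 47) (nat_lit 224)) (nd (nat_lit 248) (nat_lit 0) (cs (lf (nat_lit 30) (nat_lit 247)) (lf (nat_lit 35) (nat_lit 225)))))) q49432 (by decide +kernel)
def q49464 : Q := Q.p (nat_lit 0x28000180003000000000000000000000000000000000000000000000000000000000000000) (nat_lit 0x54000600000000000000000000000000000000000000000000000000000000000000000000) (nat_lit 3)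
theorem c49464 : QOK q49464 := cut [] trivial (nd (nat_lit 292) (nat_lit 0) (cs (lf (nat_lit 12) (nat_lit 268)) (nd (nat_lit 273) (nat_lit 0) (cs (lf (nat_lit 15) (nat_lit 249)) (lf (nat_lit 15) (nat_lit 269)))))) q49464 (by decide +kernel)
def q49469 : Q := Q.p (nat_lit 0x8000020000180000400000000000000000000000000000000000000000000000000000000000000) (nat_lit 0x40000000000000001000004000000000000000000000000000000000000000000000000000) (nat_lit 2)
theorem c49469 : QOK q49469 := cut [] trivial (nd (nat_lit 228) (nat_lit 0) (cs (lf (nat_lit 36) (nat_lit 205)) (lf (nat_lit 39) (nat_lit 227)))) q49469 (by decide +kernel)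
def q49490 : Q := Q.p (nat_lit 0x1000004000010000040000100000000000000000000000000000000000000000000000000000000) (nat_lit 0x200000800002000000000000000000000000000000000000000000000000000000000000000000000000) (nat_lit 2)
theorem c49490 : QOK q49490 := cut [] trivial (nd (nat_lit 311) (nat_lit 0) (cs (lf (nat_lit 40) (nat_lit 223)) (lf (nat_lit 41) (nat_lit 245)))) q49490 (by decide +kernel)
def q49504 : Q := Q.p (nat_lit 0xc000038000000000000000000000000000000000000000000000000000000000000000000000000) (nat_lit 0x10000006000000000000000000000000000000000000000000000000000000000000000000000000) (nat_lit 2)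
theorem c49504 : QOK q49504 := cut [] trivial (nd (nat_lit 290) (nat_lit 0) (cs (lf (nat_lit 5) (nat_lit 290)) (lf (nat_lit 0) (nat_lit 289)))) q49504 (by decide +kernel)
def q49516 : Q := Q.p (nat_lit 0x2000008000020000080000200000000000000000000000000000000000000000000000000000000) (nat_lit 0x100000400001000000000000000000000000000000000000000000000000000) (nat_lit 2)
theorem c49516 : QOK q49516 := cut [] trivial (nd (nat_lit 226) (nat_lit 0) (cs (lf (nat_lit 35) (nat_lit 203)) (lf (nat_lit 34) (nat_lit 225)))) q49516 (by decide +kernel)
def q49524 : Q := Q.p (nat_lit 0x1000002000008000020000040000000000000000000000000000000000000000000000000000000000000) (nat_lit 0x400000800000000000000010000000000000000000000000000000000000000000000000000000000000000000) (nat_lit 2)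
theorem c49524 : QOK q49524 := cut [] trivial (nd (nat_lit 335) (nat_lit 0) (cs (lf (nat_lit 29) (nat_lit 269)) (lf (nat_lit 46) (nat_lit 246)))) q49524 (by decide +kernel)
def q49532 : Q := Q.p (nat_lit 0x18000060000100000400000000000000000000000000000000000000000000000000000000) (nat_lit 0x8000060000018000000000000000000000000000000000000000000000000000000000000000000) (nat_lit 3)
theorem c49532 : QOK q49532 := cut [] trivial (nd (nat_lit 293) (nat_lit 0) (cs (lf (nat_lit 29) (nat_lit 226)) (nd (nat_lit 268) (nat_lit 0) (cs (lf (nat_lit 0) (nat_lit 267)) (lf (nat_lit 18) (nat_lit 268)))))) q49532 (by decide +kernel)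
def q49548 : Q := Q.p (nat_lit 0x8000060000080000200000000000000000000000000000000000000000000000000000000) (nat_lit 0x4000010000000000000000000000800000000000000000000000000000000000000000000000000) (nat_lit 2)
theorem c49548 : QOK q49548 := cut [] trivial (nd (nat_lit 292) (nat_lit 0) (cs (lf (nat_lit 24) (nat_lit 203)) (lf (nat_lit 29) (nat_lit 225)))) q49548 (by decide +kernel)
def q49588 : Q := Q.p (nat_lit 0x80000600000c0000000000000000000000000000000000000000000000000000000000000) (nat_lit 0x800002000000000010000100000100000000000000000000000000000000000000000000000000000000) (nat_lit 3)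
theorem c49588 : QOK q49588 := cut [] trivial (nd (nat_lit 313) (nat_lit 0) (cs (lf (nat_lit 47) (nat_lit 224)) (nd (nat_lit 335) (nat_lit 0) (cs (lf (nat_lit 35) (nat_lit 247)) (lf (nat_lit 46) (nat_lit 246)))))) q49588 (by decide +kernel)
def q49602 : Q := Q.p (nat_lit 0xf0000000000000000000000000000000000000000000000000000000000000) (nat_lit 0x7000008000700000000000000000000000000000000000000000000000000000000) (nat_lit 4)
theorem c49602 : QOK q49602 := cut [] trivial (nd (nat_lit 265) (nat_lit 0) (cs (lf (nat_lit 10) (nat_lit 243)) (nd (nat_lit 243) (nat_lit 0) (cs (lf (nat_lit 11) (nat_lit 242)) (nd (nat_lit 225) (nat_lit 0) (cs (lf (nat_lit 16) (nat_lit 221)) (lf (nat_lit 17) (nat_lit 222)))))))) q49602 (by decide +kernel)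
def q49610 : Q := Q.p (nat_lit 0xf0000000000000000000000000000000000000000000000000000000000000) (nat_lit 0xe000100000e00000000000000000000000000000000000000000000000000000000) (nat_lit 4)
theorem c49610 : QOK q49610 := cut [] trivial (nd (nat_lit 226) (nat_lit 0) (cs (nd (nat_lit 266) (nat_lit 0) (cs (lf (nat_lit 11) (nat_lit 243)) (nd (nat_lit 248) (nat_lit 0) (cs (lf (nat_lit 10) (nat_lit 244)) (lf (nat_lit 17) (nat_lit 223)))))) (lf (nat_lit 16) (nat_lit 222)))) q49610 (by decide +kernel)
def q49615 : Q := Q.p (nat_lit 0xf0000000000000000000000000000000000000000000000000000000000000) (nat_lit 0x100000ee0000000000000000000000000000000000000000000000000000000) (nat_lit 4)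
theorem c49615 : QOK q49615 := cut [] trivial (nd (nat_lit 226) (nat_lit 0) (cs (lf (nat_lit 16) (nat_lit 222)) (nd (nat_lit 222) (nat_lit 0) (cs (lf (nat_lit 23) (nat_lit 221)) (nd (nat_lit 248) (nat_lit 0) (cs (lf (nat_lit 22) (nat_lit 222)) (lf (nat_lit 17) (nat_lit 223)))))))) q49615 (by decide +kernel)
def q49621 : Q := Q.p (nat_lit 0x80000e0000000000000000000000000000000000000000000000000000000000000) (nat_lit 0x17000100000000000000000000000000000000000000000000000000000000000000) (nat_lit 3)
theorem c49621 : QOK q49621 := cut [] trivial (nd (nat_lit 266) (nat_lit 0) (cs (nd (nat_lit 265) (nat_lit 0) (cs (lf (nat_lit 15) (nat_lit 243)) (lf (nat_lit 12) (nat_lit 242)))) (lf (nat_lit 6) (nat_lit 244)))) q49621 (by decide +kernel)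
def q49624 : Q := Q.p (nat_lit 0x2000008000060000080000000000000000000000000000000000000000000000000000000) (nat_lit 0x800000000000000000000100000400000000000000000000000000000000000000000000000000) (nat_lit 2)
theorem c49624 : QOK q49624 := cut [] trivial (nd (nat_lit 224) (nat_lit 0) (cs (lf (nat_lit 30) (nat_lit 223)) (lf (nat_lit 35) (nat_lit 201)))) q49624 (by decide +kernel)
def q49640 : Q := Q.p (nat_lit 0x8000020000080000200000000000000000000000000000000000000000000000000) (nat_lit 0x500001c00005000000000000000000000000000000000000000) (nat_lit 4)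
theorem c49640 : QOK q49640 := cut [] trivial (nd (nat_lit 180) (nat_lit 0) (cs (nd (nat_lit 179) (nat_lit 0) (cs (nd (nat_lit 178) (nat_lit 0) (cs (lf (nat_lit 47) (nat_lit 156)) (lf (nat_lit 46) (nat_lit 178)))) (lf (nat_lit 35) (nat_lit 157)))) (lf (nat_lit 34) (nat_lit 179)))) q49640 (by decide +kernel)
def q49646 : Q := Q.p (nat_lit 0xe00000c0000000000000000000000000000000000000000000000000000000) (nat_lit 0x130000000000000000000000000000000000000000000000000000000) (nat_lit 2)
theorem c49646 : QOK q49646 := cut [] trivial (nd (nat_lit 221) (nat_lit 0) (cs (lf (nat_lit 0) (nat_lit 220)) (lf (nat_lit 3) (nat_lit 221)))) q49646 (by decide +kernel)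
def q49651 : Q := Q.p (nat_lit 0x2000008000060000100000000000000000000000000000000000000000000000000000000) (nat_lit 0x10000000000000000400001000000000000000000000000000000000000000000000) (nat_lit 2)
theorem c49651 : QOK q49651 := cut [] trivial (nd (nat_lit 202) (nat_lit 0) (cs (lf (nat_lit 36) (nat_lit 179)) (lf (nat_lit 39) (nat_lit 201)))) q49651 (by decide +kernel)
def q49655 : Q := Q.p (nat_lit 0x20000080000e0000080000000000000000000000000000000000000000000000000000000) (nat_lit 0x160000500000000000000000000000000000000000000000000000000) (nat_lit 3)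
theorem c49655 : QOK q49655 := cut [] trivial (nd (nat_lit 224) (nat_lit 0) (cs (lf (nat_lit 35) (nat_lit 201)) (nd (nat_lit 222) (nat_lit 0) (cs (lf (nat_lit 0) (nat_lit 221)) (lf (nat_lit 47) (nat_lit 200)))))) q49655 (by decide +kernel)
def q49659 : Q := Q.p (nat_lit 0x2000008000020000080000000000000000000000000000000000000000000000000000000) (nat_lit 0x1400005000014000000000000000200000000000000000000000000000000000000000000000000) (nat_lit 4)
theorem c49659 : QOK q49659 := cut [] trivial (nd (nat_lit 290) (nat_lit 0) (cs (lf (nat_lit 29) (nat_lit 223)) (nd (nat_lit 201) (nat_lit 0) (cs (nd (nat_lit 288) (nat_lit 0) (cs (lf (nat_lit 40) (nat_lit 200)) (lf (nat_lit 41) (nat_lit 222)))) (lf (nat_lit 28) (nat_lit 201)))))) q49659 (by decide +kernel)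
def q49661 : Q := Q.p (nat_lit 0x2000008000020000080000200000000000000000000000000000000000000000000000000) (nat_lit 0x40000100000400000000000000000000000000000000000000000000) (nat_lit 2)
theorem c49661 : QOK q49661 := cut [] trivial (nd (nat_lit 200) (nat_lit 0) (cs (lf (nat_lit 47) (nat_lit 178)) (lf (nat_lit 46) (nat_lit 200)))) q49661 (by decide +kernel)
def q49667 : Q := Q.p (nat_lit 0x18000060000080000100000000000000000000000000000000000000000000000000) (nat_lit 0x200000c00000000000000000000000000000000000000000000) (nat_lit 2)
theorem c49667 : QOK q49667 := cut [] trivial (nd (nat_lit 201) (nat_lit 0) (cs (lf (nat_lit 47) (nat_lit 178)) (lf (nat_lit 24) (nat_lit 179)))) q49667 (by decide +kernel)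
def q49680 : Q := Q.p (nat_lit 0x1c00006000000000000000000000000000000000000000000000000000000000000000000000000) (nat_lit 0x200018000000000000000000000000000000000000000000000000000000000000000000000000) (nat_lit 2)
theorem c49680 : QOK q49680 := cut [] trivial (nd (nat_lit 291) (nat_lit 0) (cs (lf (nat_lit 12) (nat_lit 287)) (lf (nat_lit 6) (nat_lit 288)))) q49680 (by decide +kernel)
def q49694 : Q := Q.p (nat_lit 0x2000008000060000000000000000000000000000000000000000000000000000000000000) (nat_lit 0x800000000000000000000180000400001000000000000000000000000000000000000000000000) (nat_lit 3)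
theorem c49694 : QOK q49694 := cut [] trivial (nd (nat_lit 224) (nat_lit 0) (cs (lf (nat_lit 30) (nat_lit 223)) (nd (nat_lit 202) (nat_lit 0) (cs (lf (nat_lit 36) (nat_lit 179)) (lf (nat_lit 33) (nat_lit 201)))))) q49694 (by decide +kernel)
def q49700 : Q := Q.p (nat_lit 0x80000200000c0000000000000000000000000000000000000000000000000000000) (nat_lit 0x2000000000000000000000300000400001000000000000000000000000000000000000000) (nat_lit 3)
theorem c49700 : QOK q49700 := cut [] trivial (nd (nat_lit 200) (nat_lit 0) (cs (nd (nat_lit 178) (nat_lit 0) (cs (lf (nat_lit 24) (nat_lit 156)) (lf (nat_lit 45) (nat_lit 178)))) (lf (nat_lit 42) (nat_lit 200)))) q49700 (by decide +kernel)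
def q49708 : Q := Q.p (nat_lit 0x8000060000080000200000000000000000000000000000000000000000000000000) (nat_lit 0x100001c00007000010000000000100000000000000000000000000000000000000000000000000000000) (nat_lit 5)
theorem c49708 : QOK q49708 := cut [] trivial (nd (nat_lit 290) (nat_lit 0) (cs (lf (nat_lit 28) (nat_lit 201)) (nd (nat_lit 289) (nat_lit 0) (cs (lf (nat_lit 29) (nat_lit 223)) (nd (nat_lit 310) (nat_lit 0) (cs (lf (nat_lit 40) (nat_lit 222)) (nd (nat_lit 311) (nat_lit 0) (cs (lf (nat_lit 41) (nat_lit 244)) (lf (nat_lit 35) (nat_lit 223)))))))))) q49708 (by decide +kernel)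
def q49732 : Q := Q.p (nat_lit 0xe0000040000000000000000000000000000000000000000000000000000000) (nat_lit 0x100001b0000000000000000000000000000000000000000000000000000000) (nat_lit 3)
theorem c49732 : QOK q49732 := cut [] trivial (nd (nat_lit 221) (nat_lit 0) (cs (lf (nat_lit 21) (nat_lit 221)) (nd (nat_lit 223) (nat_lit 0) (cs (lf (nat_lit 0) (nat_lit 220)) (lf (nat_lit 3) (nat_lit 221)))))) q49732 (by decide +kernel)
def q49745 : Q := Q.p (nat_lit 0x1000006000008000020000000000000000000000000000000000000000000000000000000000000) (nat_lit 0x100000400000800000000000000000000000000000000000000000000000000000000000000000000000000000) (nat_lit 2)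
theorem c49745 : QOK q49745 := cut [] trivial (nd (nat_lit 334) (nat_lit 0) (cs (lf (nat_lit 42) (nat_lit 267)) (lf (nat_lit 27) (nat_lit 245)))) q49745 (by decide +kernel)
def q49753 : Q := Q.p (nat_lit 0x8000060000100000000000000000000000000000000000000000000000000000000) (nat_lit 0x800002000000000000000080000400001000000000000000000000000000000000000000000000) (nat_lit 3)
theorem c49753 : QOK q49753 := cut [] trivial (nd (nat_lit 202) (nat_lit 0) (cs (lf (nat_lit 36) (nat_lit 179)) (nd (nat_lit 289) (nat_lit 0) (cs (lf (nat_lit 30) (nat_lit 223)) (lf (nat_lit 33) (nat_lit 201)))))) q49753 (by decide +kernel)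
def q49760 : Q := Q.p (nat_lit 0xc0000e0000000000000000000000000000000000000000000000000000000000000) (nat_lit 0x3000010000000000000000000000000000000000000000000000000000000000000) (nat_lit 2)
theorem c49760 : QOK q49760 := cut [] trivial (nd (nat_lit 265) (nat_lit 0) (cs (lf (nat_lit 12) (nat_lit 242)) (lf (nat_lit 9) (nat_lit 243)))) q49760 (by decide +kernel)
def q49791 : Q := Q.p (nat_lit 0x100000400000000016000040000000000000000000000000000000000000000000000) (nat_lit 0x10000080000a8000000000000000000000000000000000000000000000) (nat_lit 3)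
theorem c49791 : QOK q49791 := cut [] trivial (nd (nat_lit 207) (nat_lit 0) (cs (lf (nat_lit 17) (nat_lit 183)) (nd (nat_lit 228) (nat_lit 0) (cs (lf (nat_lit 47) (nat_lit 183)) (lf (nat_lit 35) (nat_lit 184)))))) q49791 (by decide +kernel)
def q49827 : Q := Q.p (nat_lit 0x4000010000040000100000000000000000000000000000000000000000000000000) (nat_lit 0x280000e00002800000000000000000000000000000000000000) (nat_lit 4)
theorem c49827 : QOK q49827 := cut [] trivial (nd (nat_lit 179) (nat_lit 0) (cs (nd (nat_lit 178) (nat_lit 0) (cs (nd (nat_lit 177) (nat_lit 0) (cs (lf (nat_lit 47) (nat_lit 155)) (lf (nat_lit 46) (nat_lit 177)))) (lf (nat_lit 35) (nat_lit 156)))) (lf (nat_lit 34) (nat_lit 178)))) q49827 (by decide +kernel)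
def q49843 : Q := Q.p (nat_lit 0x10000040000100000400001000000000000000000000000000000000000000) (nat_lit 0x200000800002000000000000000000000000000000000) (nat_lit 2)
theorem c49843 : QOK q49843 := cut [] trivial (nd (nat_lit 155) (nat_lit 0) (cs (lf (nat_lit 47) (nat_lit 133)) (lf (nat_lit 46) (nat_lit 155)))) q49843 (by decide +kernel)
def q49852 : Q := Q.p (nat_lit 0xe0000300000400000000000000000000000000000000000000000000000000) (nat_lit 0x8000000000000000000001000004000000000000000000000000000000000000000) (nat_lit 2)
theorem c49852 : QOK q49852 := cut [] trivial (nd (nat_lit 180) (nat_lit 0) (cs (lf (nat_lit 41) (nat_lit 179)) (lf (nat_lit 24) (nat_lit 158)))) q49852 (by decide +kernel)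
def q49857 : Q := Q.p (nat_lit 0xc0000300000400000800000000000000000000000000000000000000000000) (nat_lit 0x1000006000000000000000000000000000000000000000) (nat_lit 2)
theorem c49857 : QOK q49857 := cut [] trivial (nd (nat_lit 180) (nat_lit 0) (cs (lf (nat_lit 47) (nat_lit 157)) (lf (nat_lit 24) (nat_lit 158)))) q49857 (by decide +kernel)
def q49865 : Q := Q.p (nat_lit 0xe0000300000800002000000000000000000000000000000000000000000000) (nat_lit 0x800000000000000060001d000014000000000000000000000000000000000000000) (nat_lit 5)
theorem c49865 : QOK q49865 := cut [] trivial (nd (nat_lit 182) (nat_lit 0) (cs (lf (nat_lit 35) (nat_lit 159)) (nd (nat_lit 180) (nat_lit 0) (cs (lf (nat_lit 47) (nat_lit 158)) (nd (nat_lit 202) (nat_lit 0) (cs (lf (nat_lit 41) (nat_lit 179)) (nd (nat_lit 183) (nat_lit 0) (cs (lf (nat_lit 11) (nat_lit 179)) (lf (nat_lit 6) (nat_lit 180)))))))))) q49865 (by decide +kernel)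
def q49872 : Q := Q.p (nat_lit 0xe0000040000000000000000000000000000000000000000000000000000000) (nat_lit 0x1100000b0000000000000000000000000000000000000000000000000000000) (nat_lit 3)
theorem c49872 : QOK q49872 := cut [] trivial (nd (nat_lit 221) (nat_lit 0) (cs (lf (nat_lit 21) (nat_lit 221)) (nd (nat_lit 223) (nat_lit 0) (cs (lf (nat_lit 18) (nat_lit 222)) (lf (nat_lit 0) (nat_lit 220)))))) q49872 (by decide +kernel)
def q49895 : Q := Q.p (nat_lit 0x100000400000680001800000000000000000000000000000000000000000000000000) (nat_lit 0x310000e000008000000000000000000000000000000000000000000000) (nat_lit 4)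
theorem c49895 : QOK q49895 := cut [] trivial (nd (nat_lit 205) (nat_lit 0) (cs (lf (nat_lit 13) (nat_lit 201)) (nd (nat_lit 206) (nat_lit 0) (cs (lf (nat_lit 6) (nat_lit 203)) (nd (nat_lit 228) (nat_lit 0) (cs (lf (nat_lit 47) (nat_lit 183)) (lf (nat_lit 5) (nat_lit 203)))))))) q49895 (by decide +kernel)
def q49900 : Q := Q.p (nat_lit 0x100000400001800006000000000000000000000000000000000000000000000) (nat_lit 0x400038000020000000000000000000000000000000000000000) (nat_lit 3)
theorem c49900 : QOK q49900 := cut [] trivial (nd (nat_lit 183) (nat_lit 0) (cs (lf (nat_lit 35) (nat_lit 160)) (nd (nat_lit 184) (nat_lit 0) (cs (lf (nat_lit 11) (nat_lit 180)) (lf (nat_lit 6) (nat_lit 181)))))) q49900 (by decide +kernel)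
def q49911 : Q := Q.p (nat_lit 0x1f0000000000000000000000000000000000000000000000000000000000000) (nat_lit 0xe0000000000000000000000000000000000000000000000000000000) (nat_lit 2)
theorem c49911 : QOK q49911 := cut [] trivial (nd (nat_lit 222) (nat_lit 0) (cs (lf (nat_lit 22) (nat_lit 222)) (lf (nat_lit 23) (nat_lit 221)))) q49911 (by decide +kernel)
def q49920 : Q := Q.p (nat_lit 0xf0000000000000000000000000000000000000000000000000000000000000) (nat_lit 0x77000008000000000000000000000000000000000000000000000000000000000000) (nat_lit 4)
theorem c49920 : QOK q49920 := cut [] trivial (nd (nat_lit 265) (nat_lit 0) (cs (lf (nat_lit 10) (nat_lit 243)) (nd (nat_lit 243) (nat_lit 0) (cs (lf (nat_lit 11) (nat_lit 242)) (nd (nat_lit 269) (nat_lit 0) (cs (lf (nat_lit 4) (nat_lit 243)) (lf (nat_lit 5) (nat_lit 244)))))))) q49920 (by decide +kernel)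
def q49923 : Q := Q.p (nat_lit 0xf0000000000000000000000000000000000000000000000000000000000000) (nat_lit 0x70000008000070000000000000000000000000000000000000000000000000000000) (nat_lit 4)
theorem c49923 : QOK q49923 := cut [] trivial (nd (nat_lit 221) (nat_lit 0) (cs (lf (nat_lit 22) (nat_lit 221)) (nd (nat_lit 269) (nat_lit 0) (cs (lf (nat_lit 5) (nat_lit 244)) (nd (nat_lit 243) (nat_lit 0) (cs (lf (nat_lit 23) (nat_lit 220)) (lf (nat_lit 4) (nat_lit 243)))))))) q49923 (by decide +kernel)
def q49927 : Q := Q.p (nat_lit 0xf0000000000000000000000000000000000000000000000000000000000000) (nat_lit 0xee000100000000000000000000000000000000000000000000000000000000000000) (nat_lit 4)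
theorem c49927 : QOK q49927 := cut [] trivial (nd (nat_lit 270) (nat_lit 0) (cs (lf (nat_lit 4) (nat_lit 244)) (nd (nat_lit 266) (nat_lit 0) (cs (lf (nat_lit 11) (nat_lit 243)) (nd (nat_lit 248) (nat_lit 0) (cs (lf (nat_lit 10) (nat_lit 244)) (lf (nat_lit 5) (nat_lit 245)))))))) q49927 (by decide +kernel)
def q49938 : Q := Q.p (nat_lit 0x1000002000008000060000000000000000000000000000000000000000000000000000000000000) (nat_lit 0x40000700000c00000000010000000000000000000000000000000000000000000000000000000000000000000) (nat_lit 4)
theorem c49938 : QOK q49938 := cut [] trivial (nd (nat_lit 311) (nat_lit 0) (cs (lf (nat_lit 29) (nat_lit 245)) (nd (nat_lit 332) (nat_lit 0) (cs (nd (nat_lit 333) (nat_lit 0) (cs (lf (nat_lit 41) (nat_lit 266)) (lf (nat_lit 34) (nat_lit 245)))) (lf (nat_lit 40) (nat_lit 244)))))) q49938 (by decide +kernel)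
def q49943 : Q := Q.p (nat_lit 0x1200000e0000000000000000000000000000000000000000000000000000000000000) (nat_lit 0xc0000010000000000000000000000000000000000000000000000000000000000000) (nat_lit 2)
theorem c49943 : QOK q49943 := cut [] trivial (nd (nat_lit 270) (nat_lit 0) (cs (lf (nat_lit 19) (nat_lit 246)) (lf (nat_lit 0) (nat_lit 244)))) q49943 (by decide +kernel)
def q49944 : Q := Q.p (nat_lit 0x800002000008000020000080000000000000000000000000000000000000000000000000000000) (nat_lit 0x400001000004000000000000000000000000000000000000000000000000000000000000000000000000) (nat_lit 2)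
theorem c49944 : QOK q49944 := cut [] trivial (nd (nat_lit 312) (nat_lit 0) (cs (lf (nat_lit 28) (nat_lit 223)) (lf (nat_lit 29) (nat_lit 245)))) q49944 (by decide +kernel)
def q49950 : Q := Q.p (nat_lit 0x200000c0000100000400000000000000000000000000000000000000000000000000) (nat_lit 0x2000008000010000000000000000000000000000000000000000000000000000000000000000000) (nat_lit 2)
theorem c49950 : QOK q49950 := cut [] trivial (nd (nat_lit 291) (nat_lit 0) (cs (lf (nat_lit 42) (nat_lit 224)) (lf (nat_lit 27) (nat_lit 202)))) q49950 (by decide +kernel)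
def q49960 : Q := Q.p (nat_lit 0x2000008000060000080000000000000000000000000000000000000000000000000000000) (nat_lit 0x100000700001c00001000010000000000000000000000000000000000000000000000000000000000000000000) (nat_lit 5)
theorem c49960 : QOK q49960 := cut [] trivial (nd (nat_lit 310) (nat_lit 0) (cs (lf (nat_lit 40) (nat_lit 222)) (nd (nat_lit 311) (nat_lit 0) (cs (lf (nat_lit 41) (nat_lit 244)) (nd (nat_lit 333) (nat_lit 0) (cs (lf (nat_lit 34) (nat_lit 245)) (nd (nat_lit 334) (nat_lit 0) (cs (lf (nat_lit 29) (nat_lit 267)) (lf (nat_lit 28) (nat_lit 245)))))))))) q49960 (by decide +kernel)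
def q49985 : Q := Q.p (nat_lit 0x60000080000200000800000000000000000000000000000000000000000000) (nat_lit 0x100000000000400003000004000000000000000000000000000000000) (nat_lit 3)
theorem c49985 : QOK q49985 := cut [] trivial (nd (nat_lit 157) (nat_lit 0) (cs (lf (nat_lit 28) (nat_lit 157)) (nd (nat_lit 156) (nat_lit 0) (cs (lf (nat_lit 46) (nat_lit 156)) (lf (nat_lit 47) (nat_lit 134)))))) q49985 (by decide +kernel)
def q49989 : Q := Q.p (nat_lit 0x20000080000600001000000000000000000000000000000000000000000000) (nat_lit 0x800004000010000000000000000000000000000000000) (nat_lit 2)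
theorem c49989 : QOK q49989 := cut [] trivial (nd (nat_lit 158) (nat_lit 0) (cs (lf (nat_lit 33) (nat_lit 157)) (lf (nat_lit 36) (nat_lit 135)))) q49989 (by decide +kernel)
def q49994 : Q := Q.p (nat_lit 0x20000080000200000800000000000000000000000000000000000000000000) (nat_lit 0x1400007000014000000000000000000000000000000000) (nat_lit 4)
theorem c49994 : QOK q49994 := cut [] trivial (nd (nat_lit 156) (nat_lit 0) (cs (lf (nat_lit 46) (nat_lit 156)) (nd (nat_lit 158) (nat_lit 0) (cs (lf (nat_lit 34) (nat_lit 157)) (nd (nat_lit 157) (nat_lit 0) (cs (lf (nat_lit 35) (nat_lit 135)) (lf (nat_lit 47) (nat_lit 134)))))))) q49994 (by decide +kernel)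
def q50001 : Q := Q.p (nat_lit 0x100000c0000180000600000000000000000000000000000000000000000000000000) (nat_lit 0x60001800002000000000000000000000000000000000000000000000) (nat_lit 3)
theorem c50001 : QOK q50001 := cut [] trivial (nd (nat_lit 222) (nat_lit 0) (cs (lf (nat_lit 0) (nat_lit 221)) (nd (nat_lit 203) (nat_lit 0) (cs (lf (nat_lit 35) (nat_lit 180)) (lf (nat_lit 6) (nat_lit 200)))))) q50001 (by decide +kernel)
def q50013 : Q := Q.p (nat_lit 0x300000e0000000000000000000000000000000000000000000000000000000000000) (nat_lit 0x40000018000000000000000000000000000000000000000000000000000000000000) (nat_lit 2)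
theorem c50013 : QOK q50013 := cut [] trivial (nd (nat_lit 244) (nat_lit 0) (cs (lf (nat_lit 5) (nat_lit 244)) (lf (nat_lit 0) (nat_lit 243)))) q50013 (by decide +kernel)
def q50022 : Q := Q.p (nat_lit 0x600003800000000000000000000000000000000000000000000) (nat_lit 0x10000c000000000000000000000000000000000000000000000) (nat_lit 2)
theorem c50022 : QOK q50022 := cut [] trivial (nd (nat_lit 182) (nat_lit 0) (cs (lf (nat_lit 11) (nat_lit 178)) (lf (nat_lit 6) (nat_lit 179)))) q50022 (by decide +kernel)
def q50059 : Q := Q.p (nat_lit 0x600001e0000000000000000000000000000000000000000000000000000000000000) (nat_lit 0x8000000000000000c00001000004000000000000000000000000000000000000000000000) (nat_lit 3)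
theorem c50059 : QOK q50059 := cut [] trivial (nd (nat_lit 226) (nat_lit 0) (cs (lf (nat_lit 17) (nat_lit 223)) (nd (nat_lit 204) (nat_lit 0) (cs (lf (nat_lit 41) (nat_lit 203)) (lf (nat_lit 36) (nat_lit 181)))))) q50059 (by decide +kernel)
def q50074 : Q := Q.p (nat_lit 0x1800000e0000000000000000000000000000000000000000000000000000000000000) (nat_lit 0x60000100000000000000000000000000000000000000000000000000000000000000) (nat_lit 2)
theorem c50074 : QOK q50074 := cut [] trivial (nd (nat_lit 270) (nat_lit 0) (cs (lf (nat_lit 21) (nat_lit 246)) (lf (nat_lit 3) (nat_lit 245)))) q50074 (by decide +kernel)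
def q50077 : Q := Q.p (nat_lit 0xe0001800000000000000000000000000000000000000000000000000000000) (nat_lit 0x100000600000000000000000000000000000000000000000000000000000000) (nat_lit 2)
theorem c50077 : QOK q50077 := cut [] trivial (nd (nat_lit 226) (nat_lit 0) (cs (lf (nat_lit 15) (nat_lit 223)) (lf (nat_lit 9) (nat_lit 224)))) q50077 (by decide +kernel)
def q50090 : Q := Q.p (nat_lit 0x10000000000100000e0000000000000000000000000000000000000000000000000000000000000) (nat_lit 0x4000000000000000280000000000000000000000000000000000000000000000000000000) (nat_lit 2)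
theorem c50090 : QOK q50090 := cut [] trivial (nd (nat_lit 290) (nat_lit 0) (cs (lf (nat_lit 35) (nat_lit 224)) (lf (nat_lit 47) (nat_lit 223)))) q50090 (by decide +kernel)
def q50110 : Q := Q.p (nat_lit 0x100000c000020000080000000000000000000000000000000000000000000000000000000000000) (nat_lit 0x100000400002000000000000000000000000000000000000000000000000000000000000000000000000000000) (nat_lit 2)
theorem c50110 : QOK q50110 := cut [] trivial (nd (nat_lit 334) (nat_lit 0) (cs (lf (nat_lit 30) (nat_lit 268)) (lf (nat_lit 39) (nat_lit 246)))) q50110 (by decide +kernel)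
def q50138 : Q := Q.p (nat_lit 0x200000c0000200000400000000000000000000000000000000000000000000000000) (nat_lit 0x100000800001000000000000000000000000000000000000000000000) (nat_lit 2)
theorem c50138 : QOK q50138 := cut [] trivial (nd (nat_lit 180) (nat_lit 0) (cs (lf (nat_lit 45) (nat_lit 180)) (lf (nat_lit 26) (nat_lit 180)))) q50138 (by decide +kernel)
def q50162 : Q := Q.p (nat_lit 0x180001c000000000000000000000000000000000000000000000) (nat_lit 0x2600000000000000000000000000000000000000000000000000) (nat_lit 2)
theorem c50162 : QOK q50162 := cut [] trivial (nd (nat_lit 202) (nat_lit 0) (cs (lf (nat_lit 12) (nat_lit 179)) (lf (nat_lit 15) (nat_lit 180)))) q50162 (by decide +kernel)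
def q50175 : Q := Q.p (nat_lit 0x80000600001000000000000000000000000000000000000000000000000000) (nat_lit 0x8000020000100000000000000004000010000000000000000000000000000000000000000) (nat_lit 3)
theorem c50175 : QOK q50175 := cut [] trivial (nd (nat_lit 182) (nat_lit 0) (cs (lf (nat_lit 36) (nat_lit 159)) (nd (nat_lit 269) (nat_lit 0) (cs (lf (nat_lit 39) (nat_lit 181)) (lf (nat_lit 30) (nat_lit 203)))))) q50175 (by decide +kernel)
def q50178 : Q := Q.p (nat_lit 0xf8000000000000000000000000000000000000000000000000000000000000) (nat_lit 0x70000000000000000000000000000000000000000000000000000000) (nat_lit 2)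
theorem c50178 : QOK q50178 := cut [] trivial (nd (nat_lit 221) (nat_lit 0) (cs (lf (nat_lit 23) (nat_lit 220)) (lf (nat_lit 22) (nat_lit 221)))) q50178 (by decide +kernel)
def q50184 : Q := Q.p (nat_lit 0x80000200000c0000200000000000000000000000000000000000000000000000000000000) (nat_lit 0x2000000000000000000000100000400000000000000000000000000000000000000000000000000) (nat_lit 2)
theorem c50184 : QOK q50184 := cut [] trivial (nd (nat_lit 224) (nat_lit 0) (cs (lf (nat_lit 42) (nat_lit 224)) (lf (nat_lit 47) (nat_lit 202)))) q50184 (by decide +kernel)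
def q50204 : Q := Q.p (nat_lit 0x200000c0000100000400000000000000000000000000000000000000000000) (nat_lit 0x2000008000000000000000200000000000000000000000000000000000000000000000000) (nat_lit 2)
theorem c50204 : QOK q50204 := cut [] trivial (nd (nat_lit 267) (nat_lit 0) (cs (lf (nat_lit 45) (nat_lit 178)) (lf (nat_lit 42) (nat_lit 200)))) q50204 (by decide +kernel)
def q50211 : Q := Q.p (nat_lit 0x7c0000000000000000000000000000000000000000000000000000000) (nat_lit 0x3800000000000000000000000000000000000000000000000000) (nat_lit 2)
theorem c50211 : QOK q50211 := cut [] trivial (nd (nat_lit 204) (nat_lit 0) (cs (lf (nat_lit 17) (nat_lit 201)) (lf (nat_lit 16) (nat_lit 200)))) q50211 (by decide +kernel)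
def q50214 : Q := Q.p (nat_lit 0xc0000380000100000000000000000000000000000000000000000000000000) (nat_lit 0x60000080000000000000000000000000000000000000000000000000) (nat_lit 2)
theorem c50214 : QOK q50214 := cut [] trivial (nd (nat_lit 222) (nat_lit 0) (cs (lf (nat_lit 0) (nat_lit 221)) (lf (nat_lit 23) (nat_lit 199)))) q50214 (by decide +kernel)
def q50224 : Q := Q.p (nat_lit 0x20000080000300000400000000000000000000000000000000000000000000) (nat_lit 0x800001000004000000000000000000000000000000000) (nat_lit 2)
theorem c50224 : QOK q50224 := cut [] trivial (nd (nat_lit 156) (nat_lit 0) (cs (lf (nat_lit 24) (nat_lit 134)) (lf (nat_lit 45) (nat_lit 156)))) q50224 (by decide +kernel)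
def q50233 : Q := Q.p (nat_lit 0x80000600000600001000004000000000000000000000000000000000000000) (nat_lit 0x900002000000000000000000000000000000000000000000000) (nat_lit 2)
theorem c50233 : QOK q50233 := cut [] trivial (nd (nat_lit 203) (nat_lit 0) (cs (lf (nat_lit 0) (nat_lit 200)) (lf (nat_lit 45) (nat_lit 158)))) q50233 (by decide +kernel)
def q50237 : Q := Q.p (nat_lit 0x700003000000000000000000000000000000000000000000000) (nat_lit 0xc800000000000000000000000000000000000000000000) (nat_lit 2)
theorem c50237 : QOK q50237 := cut [] trivial (nd (nat_lit 182) (nat_lit 0) (cs (lf (nat_lit 6) (nat_lit 179)) (lf (nat_lit 9) (nat_lit 178)))) q50237 (by decide +kernel)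
def q50310 : Q := Q.p (nat_lit 0xc0000600000000000000000000000000000000000000000000000000000000) (nat_lit 0x130001800000000000000000000000000000000000000000000000000000000) (nat_lit 3)
theorem c50310 : QOK q50310 := cut [] trivial (nd (nat_lit 227) (nat_lit 0) (cs (lf (nat_lit 6) (nat_lit 224)) (nd (nat_lit 245) (nat_lit 0) (cs (lf (nat_lit 12) (nat_lit 222)) (lf (nat_lit 15) (nat_lit 223)))))) q50310 (by decide +kernel)
def q50332 : Q := Q.p (nat_lit 0x700001800000000000000000000000000000000000000000000000000) (nat_lit 0x80006000000000000000000000000000000000000000000000000000) (nat_lit 2)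
theorem c50332 : QOK q50332 := cut [] trivial (nd (nat_lit 205) (nat_lit 0) (cs (lf (nat_lit 12) (nat_lit 201)) (lf (nat_lit 6) (nat_lit 202)))) q50332 (by decide +kernel)
def q50351 : Q := Q.p (nat_lit 0x80000200000800001000000000000000000000000000000000000000000000) (nat_lit 0x20000000000000000400002000004000010000000000000000000000000000000000) (nat_lit 3)
theorem c50351 : QOK q50351 := cut [] trivial (nd (nat_lit 158) (nat_lit 0) (cs (lf (nat_lit 45) (nat_lit 158)) (nd (nat_lit 202) (nat_lit 0) (cs (lf (nat_lit 42) (nat_lit 180)) (lf (nat_lit 24) (nat_lit 136)))))) q50351 (by decide +kernel)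
def q50353 : Q := Q.p (nat_lit 0x200000c0000600000000000000000000000000000000000000000000000000000000) (nat_lit 0x2000008000000000100000100001000000000000000000000000000000000000000000000000000) (nat_lit 3)
theorem c50353 : QOK q50353 := cut [] trivial (nd (nat_lit 291) (nat_lit 0) (cs (lf (nat_lit 35) (nat_lit 203)) (nd (nat_lit 313) (nat_lit 0) (cs (lf (nat_lit 34) (nat_lit 225)) (lf (nat_lit 47) (nat_lit 224)))))) q50353 (by decide +kernel)
def q50374 : Q := Q.p (nat_lit 0x7800000000000000000000000000000000000000000000) (nat_lit 0x380000400003800000000000000000000000000000000000000) (nat_lit 4)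
theorem c50374 : QOK q50374 := cut [] trivial (nd (nat_lit 156) (nat_lit 0) (cs (nd (nat_lit 200) (nat_lit 0) (cs (nd (nat_lit 178) (nat_lit 0) (cs (lf (nat_lit 11) (nat_lit 177)) (lf (nat_lit 23) (nat_lit 155)))) (lf (nat_lit 10) (nat_lit 178)))) (lf (nat_lit 22) (nat_lit 156)))) q50374 (by decide +kernel)
def q50401 : Q := Q.p (nat_lit 0xc0000300000800001000000000000000000000000000000000000000000000) (nat_lit 0x200000c000000000000000000000000000000000000000) (nat_lit 2)
theorem c50401 : QOK q50401 := cut [] trivial (nd (nat_lit 181) (nat_lit 0) (cs (lf (nat_lit 47) (nat_lit 158)) (lf (nat_lit 36) (nat_lit 158)))) q50401 (by decide +kernel)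
def q50423 : Q := Q.p (nat_lit 0x40000080000200000800000000000000000000000000000000000000000000000000) (nat_lit 0x4000010000020000100000400000000000000000000000000000000000000000000000000000000) (nat_lit 3)
theorem c50423 : QOK q50423 := cut [] trivial (nd (nat_lit 292) (nat_lit 0) (cs (nd (nat_lit 248) (nat_lit 0) (cs (lf (nat_lit 42) (nat_lit 225)) (lf (nat_lit 45) (nat_lit 203)))) (lf (nat_lit 27) (nat_lit 203)))) q50423 (by decide +kernel)
def q50426 : Q := Q.p (nat_lit 0x1400000c0000000000000000000000000000000000000000000000000000000000000) (nat_lit 0x2a0000120000000000000000000000000000000000000000000000000000000000000) (nat_lit 3)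
theorem c50426 : QOK q50426 := cut [] trivial (nd (nat_lit 271) (nat_lit 0) (cs (lf (nat_lit 21) (nat_lit 246)) (nd (nat_lit 248) (nat_lit 0) (cs (lf (nat_lit 18) (nat_lit 247)) (lf (nat_lit 0) (nat_lit 245)))))) q50426 (by decide +kernel)
def q50437 : Q := Q.p (nat_lit 0x100000c0000300000c00000000000000000000000000000000000000000000000000) (nat_lit 0x1000000e0001380000e00000000000000000000000000000000000000000000) (nat_lit 6)
theorem c50437 : QOK q50437 := cut [] trivial (nd (nat_lit 201) (nat_lit 0) (cs (lf (nat_lit 47) (nat_lit 179)) (nd (nat_lit 200) (nat_lit 0) (cs (lf (nat_lit 0) (nat_lit 199)) (nd (nat_lit 177) (nat_lit 0) (cs (lf (nat_lit 22) (nat_lit 177)) (nd (nat_lit 222) (nat_lit 0) (cs (lf (nat_lit 11) (nat_lit 199)) (nd (nat_lit 223) (nat_lit 0) (cs (lf (nat_lit 5) (nat_lit 222)) (lf (nat_lit 6) (nat_lit 200)))))))))))) q50437 (by decide +kernel)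
def q50445 : Q := Q.p (nat_lit 0x18000040000300000c00000000000000000000000000000000000000000000000000) (nat_lit 0x300000e0000380000e00000000000000000000000000000000000000000000) (nat_lit 6)
theorem c50445 : QOK q50445 := cut [] trivial (nd (nat_lit 201) (nat_lit 0) (cs (lf (nat_lit 47) (nat_lit 179)) (nd (nat_lit 200) (nat_lit 0) (cs (lf (nat_lit 0) (nat_lit 199)) (nd (nat_lit 178) (nat_lit 0) (cs (lf (nat_lit 23) (nat_lit 177)) (nd (nat_lit 222) (nat_lit 0) (cs (lf (nat_lit 11) (nat_lit 199)) (nd (nat_lit 245) (nat_lit 0) (cs (lf (nat_lit 27) (nat_lit 178)) (lf (nat_lit 44) (nat_lit 178)))))))))))) q50445 (by decide +kernel)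
def q50453 : Q := Q.p (nat_lit 0x100000c0000200000800000000000000000000000000000000000000000000000000) (nat_lit 0x1000004000020000000000000000000000000000000000000000000000000000000000000000000) (nat_lit 2)
theorem c50453 : QOK q50453 := cut [] trivial (nd (nat_lit 290) (nat_lit 0) (cs (lf (nat_lit 30) (nat_lit 224)) (lf (nat_lit 39) (nat_lit 202)))) q50453 (by decide +kernel)
def q50473 : Q := Q.p (nat_lit 0xc0000380000000000000000000000000000000000000000000000000000000) (nat_lit 0x38001c60007180000000000000000000000000000000000000000000000000) (nat_lit 7)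
theorem c50473 : QOK q50473 := cut [] trivial (nd (nat_lit 222) (nat_lit 0) (cs (lf (nat_lit 0) (nat_lit 221)) (nd (nat_lit 199) (nat_lit 0) (cs (lf (nat_lit 22) (nat_lit 199)) (nd (nat_lit 244) (nat_lit 0) (cs (nd (nat_lit 226) (nat_lit 0) (cs (lf (nat_lit 13) (nat_lit 222)) (nd (nat_lit 227) (nat_lit 0) (cs (lf (nat_lit 6) (nat_lit 224)) (nd (nat_lit 205) (nat_lit 0) (cs (lf (nat_lit 17) (nat_lit 202)) (lf (nat_lit 16) (nat_lit 201)))))))) (lf (nat_lit 11) (nat_lit 221)))))))) q50473 (by decide +kernel)
def q50503 : Q := Q.p (nat_lit 0x60000180000200000000000000000000000000000000000000000000000000) (nat_lit 0x10000000000000000000000800002000000000000000000000000000000000000000) (nat_lit 2)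
theorem c50503 : QOK q50503 := cut [] trivial (nd (nat_lit 179) (nat_lit 0) (cs (lf (nat_lit 29) (nat_lit 179)) (lf (nat_lit 24) (nat_lit 157)))) q50503 (by decide +kernel)
def q50539 : Q := Q.p (nat_lit 0x80000300000c0000200000000000000000000000000000000000000000000000000000000) (nat_lit 0x1800006000010000000000000000000000000000000000000000000000000000000000000000000000000) (nat_lit 3)
theorem c50539 : QOK q50539 := cut [] trivial (nd (nat_lit 314) (nat_lit 0) (cs (lf (nat_lit 28) (nat_lit 225)) (nd (nat_lit 313) (nat_lit 0) (cs (lf (nat_lit 29) (nat_lit 247)) (lf (nat_lit 42) (nat_lit 246)))))) q50539 (by decide +kernel)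
def q50554 : Q := Q.p (nat_lit 0x4000010000040000100000400000000000000000000000000000000000000000000000000) (nat_lit 0x80000200000800000000000000000000000000000000000000000000) (nat_lit 2)
theorem c50554 : QOK q50554 := cut [] trivial (nd (nat_lit 201) (nat_lit 0) (cs (lf (nat_lit 47) (nat_lit 179)) (lf (nat_lit 46) (nat_lit 201)))) q50554 (by decide +kernel)
def q50585 : Q := Q.p (nat_lit 0xc000030000080000200000000000000000000000000000000000000000000000000000000) (nat_lit 0x400003000000c000000000000000000000000000000000000000000000000000000000000000000) (nat_lit 3)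
theorem c50585 : QOK q50585 := cut [] trivial (nd (nat_lit 292) (nat_lit 0) (cs (lf (nat_lit 29) (nat_lit 225)) (nd (nat_lit 267) (nat_lit 0) (cs (lf (nat_lit 18) (nat_lit 267)) (lf (nat_lit 0) (nat_lit 266)))))) q50585 (by decide +kernel)
def q50589 : Q := Q.p (nat_lit 0x80000300000c0000000000000000000000000000000000000000000000000000000000000) (nat_lit 0x2000000000000000000000100000400000000000000000000000000000000000000000000000000) (nat_lit 2)
theorem c50589 : QOK q50589 := cut [] trivial (nd (nat_lit 224) (nat_lit 0) (cs (lf (nat_lit 42) (nat_lit 224)) (lf (nat_lit 24) (nat_lit 202)))) q50589 (by decide +kernel)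
def q50613 : Q := Q.p (nat_lit 0x10000060000080000200000000000000000000000000000000000000000000000000) (nat_lit 0x1000004000008000000000000000000000000000000000000000000000000000000000000000000) (nat_lit 2)
theorem c50613 : QOK q50613 := cut [] trivial (nd (nat_lit 290) (nat_lit 0) (cs (lf (nat_lit 42) (nat_lit 223)) (lf (nat_lit 27) (nat_lit 201)))) q50613 (by decide +kernel)
def q50622 : Q := Q.p (nat_lit 0x300000e0000600001800000000000000000000000000000000000000000000000000) (nat_lit 0x80000700001c00000000000000000000000000000000000000000000) (nat_lit 4)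
theorem c50622 : QOK q50622 := cut [] trivial (nd (nat_lit 202) (nat_lit 0) (cs (lf (nat_lit 47) (nat_lit 180)) (nd (nat_lit 201) (nat_lit 0) (cs (lf (nat_lit 0) (nat_lit 200)) (nd (nat_lit 179) (nat_lit 0) (cs (lf (nat_lit 23) (nat_lit 178)) (lf (nat_lit 26) (nat_lit 179)))))))) q50622 (by decide +kernel)
def q50630 : Q := Q.p (nat_lit 0xc0000300000800000000000000000000000000000000000000000000000000) (nat_lit 0x10000000000000000000002000008000000000000000000000000000000000000000) (nat_lit 2)
theorem c50630 : QOK q50630 := cut [] trivial (nd (nat_lit 181) (nat_lit 0) (cs (lf (nat_lit 41) (nat_lit 180)) (lf (nat_lit 36) (nat_lit 158)))) q50630 (by decide +kernel)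
def q50633 : Q := Q.p (nat_lit 0x100000c0000300000000000000000000000000000000000000000000000000000000) (nat_lit 0x4000000000000000000000800002000000000000000000000000000000000000000000000) (nat_lit 2)
theorem c50633 : QOK q50633 := cut [] trivial (nd (nat_lit 203) (nat_lit 0) (cs (lf (nat_lit 36) (nat_lit 180)) (lf (nat_lit 30) (nat_lit 202)))) q50633 (by decide +kernel)
def q50636 : Q := Q.p (nat_lit 0xc000034000040000100000000000000000000000000000000000000000000000000000000) (nat_lit 0x800003800002000000000000000000000000000000000000000000000000000000000000000000) (nat_lit 3)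
theorem c50636 : QOK q50636 := cut [] trivial (nd (nat_lit 289) (nat_lit 0) (cs (lf (nat_lit 41) (nat_lit 223)) (nd (nat_lit 288) (nat_lit 0) (cs (lf (nat_lit 12) (nat_lit 265)) (lf (nat_lit 23) (nat_lit 265)))))) q50636 (by decide +kernel)
def q50660 : Q := Q.p (nat_lit 0x40000300000c0000000000000000000000000000000000000000000000000000000) (nat_lit 0x1000000000000000000000200000800000000000000000000000000000000000000000000) (nat_lit 2)
theorem c50660 : QOK q50660 := cut [] trivial (nd (nat_lit 201) (nat_lit 0) (cs (lf (nat_lit 36) (nat_lit 178)) (lf (nat_lit 30) (nat_lit 200)))) q50660 (by decide +kernel)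
def q50674 : Q := Q.p (nat_lit 0x80000200000c0000300000000000000000000000000000000000000000000000000000000) (nat_lit 0x20001c00001000000000000000000000000000000000000000000000000000) (nat_lit 3)
theorem c50674 : QOK q50674 := cut [] trivial (nd (nat_lit 226) (nat_lit 0) (cs (lf (nat_lit 35) (nat_lit 203)) (nd (nat_lit 227) (nat_lit 0) (cs (lf (nat_lit 11) (nat_lit 223)) (lf (nat_lit 6) (nat_lit 224)))))) q50674 (by decide +kernel)
def q50692 : Q := Q.p (nat_lit 0x10000060000080000000000000000000000000000000000000000000000000000000000000) (nat_lit 0x1000004000008000000000000000200000800000000000000000000000000000000000000000000000000) (nat_lit 3)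
theorem c50692 : QOK q50692 := cut [] trivial (nd (nat_lit 314) (nat_lit 0) (cs (lf (nat_lit 42) (nat_lit 247)) (nd (nat_lit 225) (nat_lit 0) (cs (lf (nat_lit 24) (nat_lit 203)) (lf (nat_lit 27) (nat_lit 225)))))) q50692 (by decide +kernel)
def q50698 : Q := Q.p (nat_lit 0x2000018000060000000000000000000000000000000000000000000000000000000000000) (nat_lit 0x800000000000000000000100000400000000000000000000000000000000000000000000000000) (nat_lit 2)
theorem c50698 : QOK q50698 := cut [] trivial (nd (nat_lit 224) (nat_lit 0) (cs (lf (nat_lit 30) (nat_lit 223)) (lf (nat_lit 36) (nat_lit 201)))) q50698 (by decide +kernel)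
def q50702 : Q := Q.p (nat_lit 0x8000068000060000100000000000000000000000000000000000000000000000000000000) (nat_lit 0x800007000010000000000000000000000000000000000000000000000000000000000000000000) (nat_lit 3)
theorem c50702 : QOK q50702 := cut [] trivial (nd (nat_lit 289) (nat_lit 0) (cs (lf (nat_lit 30) (nat_lit 223)) (nd (nat_lit 288) (nat_lit 0) (cs (lf (nat_lit 8) (nat_lit 266)) (lf (nat_lit 14) (nat_lit 266)))))) q50702 (by decide +kernel)
def q50721 : Q := Q.p (nat_lit 0x1200000c0000300000000000000000000000000000000000000000000000000000000) (nat_lit 0x20000080000c0000030000c00001000000000000000000000000000000000000000000000000000) (nat_lit 5)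
theorem c50721 : QOK q50721 := cut [] trivial (nd (nat_lit 270) (nat_lit 0) (cs (lf (nat_lit 19) (nat_lit 246)) (nd (nat_lit 245) (nat_lit 0) (cs (lf (nat_lit 0) (nat_lit 244)) (nd (nat_lit 291) (nat_lit 0) (cs (lf (nat_lit 42) (nat_lit 224)) (nd (nat_lit 226) (nat_lit 0) (cs (lf (nat_lit 35) (nat_lit 203)) (lf (nat_lit 6) (nat_lit 223)))))))))) q50721 (by decide +kernel)
def q50734 : Q := Q.p (nat_lit 0x380001800000000000000000000000000000000000000000000000000) (nat_lit 0x400006000000000000000000000000000000000000000000000000000) (nat_lit 2)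
theorem c50734 : QOK q50734 := cut [] trivial (nd (nat_lit 205) (nat_lit 0) (cs (lf (nat_lit 6) (nat_lit 202)) (lf (nat_lit 15) (nat_lit 201)))) q50734 (by decide +kernel)
def q50744 : Q := Q.p (nat_lit 0x40000100000c00002000000000000000000000000000000000000000000000) (nat_lit 0x200000000000000008000020000000000000000000000000000000000) (nat_lit 2)
theorem c50744 : QOK q50744 := cut [] trivial (nd (nat_lit 159) (nat_lit 0) (cs (lf (nat_lit 36) (nat_lit 136)) (lf (nat_lit 39) (nat_lit 158)))) q50744 (by decide +kernel)
def q50753 : Q := Q.p (nat_lit 0x200000c0000100000000000000000000000000000000000000000000000000000000) (nat_lit 0x2000008000010000000000200000400000000000000000000000000000000000000000000000000) (nat_lit 3)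
theorem c50753 : QOK q50753 := cut [] trivial (nd (nat_lit 291) (nat_lit 0) (cs (lf (nat_lit 42) (nat_lit 224)) (nd (nat_lit 202) (nat_lit 0) (cs (lf (nat_lit 27) (nat_lit 202)) (lf (nat_lit 45) (nat_lit 202)))))) q50753 (by decide +kernel)
def q50779 : Q := Q.p (nat_lit 0xb0000340000000000000000000000000000000000000000000000000000000) (nat_lit 0x8000100000080000180000400001000000000000000000000000000000000000000) (nat_lit 4)
theorem c50779 : QOK q50779 := cut [] trivial (nd (nat_lit 223) (nat_lit 0) (cs (lf (nat_lit 5) (nat_lit 222)) (nd (nat_lit 200) (nat_lit 0) (cs (lf (nat_lit 23) (nat_lit 199)) (nd (nat_lit 178) (nat_lit 0) (cs (lf (nat_lit 24) (nat_lit 156)) (lf (nat_lit 29) (nat_lit 178)))))))) q50779 (by decide +kernel)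
def q50786 : Q := Q.p (nat_lit 0x10000060000180000000000000000000000000000000000000000000000000000000) (nat_lit 0x4000000000000000000000200000800000000000000000000000000000000000000000000) (nat_lit 2)
theorem c50786 : QOK q50786 := cut [] trivial (nd (nat_lit 201) (nat_lit 0) (cs (lf (nat_lit 24) (nat_lit 179)) (lf (nat_lit 42) (nat_lit 201)))) q50786 (by decide +kernel)
def q50797 : Q := Q.p (nat_lit 0x1c0000c00000000000000000000000000000000000000000000000000) (nat_lit 0x200003000000000000000000000000000000000000000000000000000) (nat_lit 2)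
theorem c50797 : QOK q50797 := cut [] trivial (nd (nat_lit 204) (nat_lit 0) (cs (lf (nat_lit 6) (nat_lit 201)) (lf (nat_lit 15) (nat_lit 200)))) q50797 (by decide +kernel)
def q50843 : Q := Q.p (nat_lit 0x300000e00000000000000000000000000000000000000000000000000) (nat_lit 0x400000180000000000000000000000000000000000000000000000000) (nat_lit 2)
theorem c50843 : QOK q50843 := cut [] trivial (nd (nat_lit 200) (nat_lit 0) (cs (lf (nat_lit 5) (nat_lit 200)) (lf (nat_lit 0) (nat_lit 199)))) q50843 (by decide +kernel)
def q50855 : Q := Q.p (nat_lit 0x40000100000c0000200000000000000000000000000000000000000000000000000000000) (nat_lit 0x100000800002000000000000000000000000000000000000000000000) (nat_lit 2)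
theorem c50855 : QOK q50855 := cut [] trivial (nd (nat_lit 203) (nat_lit 0) (cs (lf (nat_lit 36) (nat_lit 180)) (lf (nat_lit 33) (nat_lit 202)))) q50855 (by decide +kernel)
def q50857 : Q := Q.p (nat_lit 0x300000c0000100000000000000000000000000000000000000000000000000000000) (nat_lit 0x8000000000000000000000400001000000000000000000000000000000000000000000000) (nat_lit 2)
theorem c50857 : QOK q50857 := cut [] trivial (nd (nat_lit 202) (nat_lit 0) (cs (lf (nat_lit 29) (nat_lit 202)) (lf (nat_lit 24) (nat_lit 180)))) q50857 (by decide +kernel)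
def q50868 : Q := Q.p (nat_lit 0x10000040001300000c0000000000000000000000000000000000000000000000000000000000000) (nat_lit 0xc0000030000080000000000000000000000000000000000000000000000000000000) (nat_lit 3)
theorem c50868 : QOK q50868 := cut [] trivial (nd (nat_lit 270) (nat_lit 0) (cs (lf (nat_lit 19) (nat_lit 246)) (nd (nat_lit 245) (nat_lit 0) (cs (lf (nat_lit 0) (nat_lit 244)) (lf (nat_lit 47) (nat_lit 223)))))) q50868 (by decide +kernel)
def q50874 : Q := Q.p (nat_lit 0x780000c0000000000000000000000000000000000000000000000000000000000000) (nat_lit 0x3800006000000000000000000000000000000000000000000000000000000000000000000) (nat_lit 3)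
theorem c50874 : QOK q50874 := cut [] trivial (nd (nat_lit 288) (nat_lit 0) (cs (nd (nat_lit 266) (nat_lit 0) (cs (lf (nat_lit 12) (nat_lit 243)) (lf (nat_lit 11) (nat_lit 265)))) (lf (nat_lit 10) (nat_lit 266)))) q50874 (by decide +kernel)
def q50893 : Q := Q.p (nat_lit 0x380000e0000000000000000000000000000000000000000000000000000000000000) (nat_lit 0x100000400003800006000000000080000200000000000000000000000000000000000000000000000000) (nat_lit 5)
theorem c50893 : QOK q50893 := cut [] trivial (nd (nat_lit 266) (nat_lit 0) (cs (lf (nat_lit 12) (nat_lit 243)) (nd (nat_lit 288) (nat_lit 0) (cs (lf (nat_lit 11) (nat_lit 265)) (nd (nat_lit 310) (nat_lit 0) (cs (lf (nat_lit 30) (nat_lit 244)) (nd (nat_lit 223) (nat_lit 0) (cs (lf (nat_lit 36) (nat_lit 200)) (lf (nat_lit 39) (nat_lit 222)))))))))) q50893 (by decide +kernel)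
def q50914 : Q := Q.p (nat_lit 0x13c0000c0000000000000000000000000000000000000000000000000000000000000) (nat_lit 0xc0000038000000000000000000000000000000000000000000000000000000000000) (nat_lit 3)
theorem c50914 : QOK q50914 := cut [] trivial (nd (nat_lit 270) (nat_lit 0) (cs (lf (nat_lit 19) (nat_lit 246)) (nd (nat_lit 244) (nat_lit 0) (cs (lf (nat_lit 1) (nat_lit 244)) (lf (nat_lit 23) (nat_lit 243)))))) q50914 (by decide +kernel)
def q50924 : Q := Q.p (nat_lit 0x80000300000c0000200000000000000000000000000000000000000000000000000000000) (nat_lit 0x400001800006000000000000000000000000000000000000000000000) (nat_lit 3)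
theorem c50924 : QOK q50924 := cut [] trivial (nd (nat_lit 204) (nat_lit 0) (cs (lf (nat_lit 34) (nat_lit 203)) (nd (nat_lit 203) (nat_lit 0) (cs (lf (nat_lit 35) (nat_lit 181)) (lf (nat_lit 36) (nat_lit 180)))))) q50924 (by decide +kernel)
def q50952 : Q := Q.p (nat_lit 0x1000004000010000040000000000000000000000000000000000000000000000000000000000000) (nat_lit 0x80000600000800000000008000020000080000000000000000000000000000000000000000000000000000000) (nat_lit 4)
theorem c50952 : QOK q50952 := cut [] trivial (nd (nat_lit 333) (nat_lit 0) (cs (nd (nat_lit 245) (nat_lit 0) (cs (lf (nat_lit 47) (nat_lit 223)) (nd (nat_lit 334) (nat_lit 0) (cs (lf (nat_lit 46) (nat_lit 245)) (lf (nat_lit 41) (nat_lit 267)))))) (lf (nat_lit 40) (nat_lit 245)))) q50952 (by decide +kernel)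
def q50955 : Q := Q.p (nat_lit 0x1000004000010000040000100000000000000000000000000000000000000000000000000000000) (nat_lit 0x20000080000200000000000000000000000000000000000000000000000000) (nat_lit 2)
theorem c50955 : QOK q50955 := cut [] trivial (nd (nat_lit 223) (nat_lit 0) (cs (lf (nat_lit 47) (nat_lit 201)) (lf (nat_lit 46) (nat_lit 223)))) q50955 (by decide +kernel)
def q50968 : Q := Q.p (nat_lit 0x7c000000000000000000000000000000000000000000000000000000000000000000) (nat_lit 0x38000000000000000000000000000000000000000000000000000000000000) (nat_lit 2)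
theorem c50968 : QOK q50968 := cut [] trivial (nd (nat_lit 244) (nat_lit 0) (cs (lf (nat_lit 23) (nat_lit 243)) (lf (nat_lit 22) (nat_lit 244)))) q50968 (by decide +kernel)
def q50989 : Q := Q.p (nat_lit 0x80000300000c0000200000000000000000000000000000000000000000000000000000000) (nat_lit 0xc00003000004000000000000000000000000000000000000000000000000000000000000000000000000) (nat_lit 3)
theorem c50989 : QOK q50989 := cut [] trivial (nd (nat_lit 312) (nat_lit 0) (cs (lf (nat_lit 40) (nat_lit 224)) (nd (nat_lit 313) (nat_lit 0) (cs (lf (nat_lit 41) (nat_lit 246)) (lf (nat_lit 42) (nat_lit 246)))))) q50989 (by decide +kernel)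
def q50999 : Q := Q.p (nat_lit 0x780000e0000000000000000000000000000000000000000000000000000000000000) (nat_lit 0x1e0000f800037000000000000000080000000000000000000000000000000000000000000000000000000) (nat_lit 8)
theorem c50999 : QOK q50999 := cut [] trivial (nd (nat_lit 292) (nat_lit 0) (cs (lf (nat_lit 5) (nat_lit 267)) (nd (nat_lit 314) (nat_lit 0) (cs (lf (nat_lit 42) (nat_lit 247)) (nd (nat_lit 289) (nat_lit 0) (cs (lf (nat_lit 11) (nat_lit 266)) (nd (nat_lit 311) (nat_lit 0) (cs (lf (nat_lit 30) (nat_lit 245)) (nd (nat_lit 312) (nat_lit 0) (cs (lf (nat_lit 29) (nat_lit 245)) (nd (nat_lit 290) (nat_lit 0) (cs (lf (nat_lit 47) (nat_lit 223)) (nd (nat_lit 313) (nat_lit 0) (cs (lf (nat_lit 29) (nat_lit 246)) (lf (nat_lit 18) (nat_lit 289)))))))))))))))) q50999 (by decide +kernel)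
def q51027 : Q := Q.p (nat_lit 0x3000004000010000000000000000000000000000000000000000000000000000000000000) (nat_lit 0x80000200000c00000000000000000000040000000000000000000000000000000000000000000000000000000) (nat_lit 3)
theorem c51027 : QOK q51027 := cut [] trivial (nd (nat_lit 311) (nat_lit 0) (cs (nd (nat_lit 333) (nat_lit 0) (cs (lf (nat_lit 42) (nat_lit 266)) (lf (nat_lit 27) (nat_lit 244)))) (lf (nat_lit 24) (nat_lit 222)))) q51027 (by decide +kernel)
def q51030 : Q := Q.p (nat_lit 0x7c000000000000000000000000000000000000000000000000000000000000000000) (nat_lit 0x3800000000000000000000000000000000000000000000000000000000000000000000000) (nat_lit 2)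
theorem c51030 : QOK q51030 := cut [] trivial (nd (nat_lit 288) (nat_lit 0) (cs (lf (nat_lit 11) (nat_lit 265)) (lf (nat_lit 10) (nat_lit 266)))) q51030 (by decide +kernel)
def q51048 : Q := Q.p (nat_lit 0x1e000010000000000000000000000000000000000000000000000000000000000000000000) (nat_lit 0x2000000c000000000000000000000000000000000000000000000000000000000000000000) (nat_lit 2)
theorem c51048 : QOK q51048 := cut [] trivial (nd (nat_lit 267) (nat_lit 0) (cs (lf (nat_lit 18) (nat_lit 267)) (lf (nat_lit 23) (nat_lit 266)))) q51048 (by decide +kernel)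
def q51057 : Q := Q.p (nat_lit 0x10000040000100000c0000000000000000000000000000000000000000000000000000000000000) (nat_lit 0xc00002000008000020000000000180000600001800000000000000000000000000000000000000000000) (nat_lit 6)
theorem c51057 : QOK q51057 := cut [] trivial (nd (nat_lit 313) (nat_lit 0) (cs (lf (nat_lit 29) (nat_lit 246)) (nd (nat_lit 224) (nat_lit 0) (cs (lf (nat_lit 28) (nat_lit 224)) (nd (nat_lit 201) (nat_lit 0) (cs (lf (nat_lit 46) (nat_lit 201)) (nd (nat_lit 269) (nat_lit 0) (cs (lf (nat_lit 30) (nat_lit 246)) (nd (nat_lit 202) (nat_lit 0) (cs (lf (nat_lit 24) (nat_lit 180)) (lf (nat_lit 47) (nat_lit 179)))))))))))) q51057 (by decide +kernel)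
def q51075 : Q := Q.p (nat_lit 0x180001c000000000000000000000000000000000000000000000000000000000000000000000000) (nat_lit 0x600002000000000000000000000000000000000000000000000000000000000000000000000000) (nat_lit 2)
theorem c51075 : QOK q51075 := cut [] trivial (nd (nat_lit 310) (nat_lit 0) (cs (lf (nat_lit 12) (nat_lit 287)) (lf (nat_lit 9) (nat_lit 288)))) q51075 (by decide +kernel)
def q51079 : Q := Q.p (nat_lit 0x3e00000000000000000000000000000000000000000000000000000000000000000000000000000) (nat_lit 0x1c00000000000000000000000000000000000000000000000000000000000000000000000) (nat_lit 2)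
theorem c51079 : QOK q51079 := cut [] trivial (nd (nat_lit 287) (nat_lit 0) (cs (lf (nat_lit 23) (nat_lit 286)) (lf (nat_lit 22) (nat_lit 287)))) q51079 (by decide +kernel)
def q51091 : Q := Q.p (nat_lit 0x10000040000100000c0000000000000000000000000000000000000000000000000000000000000) (nat_lit 0x80000600000800000000020000000000000000000000000000000000000000000000000000000000000000000) (nat_lit 3)
theorem c51091 : QOK q51091 := cut [] trivial (nd (nat_lit 333) (nat_lit 0) (cs (lf (nat_lit 40) (nat_lit 245)) (nd (nat_lit 334) (nat_lit 0) (cs (lf (nat_lit 34) (nat_lit 246)) (lf (nat_lit 41) (nat_lit 267)))))) q51091 (by decide +kernel)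
def q51104 : Q := Q.p (nat_lit 0x1000004000010000040000080000000000000000000000000000000000000000000000000000000) (nat_lit 0x200000800002000000000000000100000200000000000000000000000000000000000000000000000000) (nat_lit 3)
theorem c51104 : QOK q51104 := cut [] trivial (nd (nat_lit 311) (nat_lit 0) (cs (lf (nat_lit 41) (nat_lit 245)) (nd (nat_lit 224) (nat_lit 0) (cs (lf (nat_lit 47) (nat_lit 201)) (lf (nat_lit 40) (nat_lit 223)))))) q51104 (by decide +kernel)
def q51113 : Q := Q.p (nat_lit 0x4000010000040000100000400000000000000000000000000000000000000000000000000) (nat_lit 0x200000800002000000000000000000000000000000000000000000000) (nat_lit 2)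
theorem c51113 : QOK q51113 := cut [] trivial (nd (nat_lit 203) (nat_lit 0) (cs (lf (nat_lit 35) (nat_lit 180)) (lf (nat_lit 34) (nat_lit 202)))) q51113 (by decide +kernel)
def q51132 : Q := Q.p (nat_lit 0x100000c0000100000400000000000000000000000000000000000000000000000000) (nat_lit 0x8000020000000000000000000001000000000000000000000000000000000000000000000) (nat_lit 2)
theorem c51132 : QOK q51132 := cut [] trivial (nd (nat_lit 269) (nat_lit 0) (cs (lf (nat_lit 29) (nat_lit 202)) (lf (nat_lit 24) (nat_lit 180)))) q51132 (by decide +kernel)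
def q51143 : Q := Q.p (nat_lit 0x10000040000180000200000000000000000000000000000000000000000000000000) (nat_lit 0x20000000000000000800002000000000000000000000000000000000000000) (nat_lit 2)
theorem c51143 : QOK q51143 := cut [] trivial (nd (nat_lit 179) (nat_lit 0) (cs (lf (nat_lit 24) (nat_lit 157)) (lf (nat_lit 27) (nat_lit 179)))) q51143 (by decide +kernel)
def q51150 : Q := Q.p (nat_lit 0x10000040000100000400000000000000000000000000000000000000000000000000) (nat_lit 0x2000008000020000000000200001800002000000000000000000000000000000000000000) (nat_lit 4)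
theorem c51150 : QOK q51150 := cut [] trivial (nd (nat_lit 179) (nat_lit 0) (cs (lf (nat_lit 46) (nat_lit 179)) (nd (nat_lit 267) (nat_lit 0) (cs (lf (nat_lit 41) (nat_lit 201)) (nd (nat_lit 180) (nat_lit 0) (cs (lf (nat_lit 47) (nat_lit 157)) (lf (nat_lit 40) (nat_lit 179)))))))) q51150 (by decide +kernel)
def q51153 : Q := Q.p (nat_lit 0x10000040000100000400000000000000000000000000000000000000000000000000) (nat_lit 0x4000000000000000280000a00002800000000000000000000000000000000000000000000) (nat_lit 4)
theorem c51153 : QOK q51153 := cut [] trivial (nd (nat_lit 203) (nat_lit 0) (cs (lf (nat_lit 35) (nat_lit 180)) (nd (nat_lit 201) (nat_lit 0) (cs (lf (nat_lit 47) (nat_lit 179)) (nd (nat_lit 290) (nat_lit 0) (cs (lf (nat_lit 46) (nat_lit 201)) (lf (nat_lit 34) (nat_lit 202)))))))) q51153 (by decide +kernel)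
def q51156 : Q := Q.p (nat_lit 0x10000040000100000400001000000000000000000000000000000000000000000000) (nat_lit 0x800002000008000000000000000000000000000000000000000) (nat_lit 2)
theorem c51156 : QOK q51156 := cut [] trivial (nd (nat_lit 181) (nat_lit 0) (cs (lf (nat_lit 35) (nat_lit 158)) (lf (nat_lit 34) (nat_lit 180)))) q51156 (by decide +kernel)
def q51178 : Q := Q.p (nat_lit 0xe0000180000c0000000000000000000000000000000000000000000000000000000000000) (nat_lit 0x10000006000000000000000000000000000000000000000000000000000000000000000000) (nat_lit 2)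
theorem c51178 : QOK q51178 := cut [] trivial (nd (nat_lit 266) (nat_lit 0) (cs (lf (nat_lit 12) (nat_lit 243)) (lf (nat_lit 18) (nat_lit 266)))) q51178 (by decide +kernel)
def q51208 : Q := Q.p (nat_lit 0x60000180000400001000000000000000000000000000000000000000000000000000) (nat_lit 0x300000c00003000000000000000020000280000a000000000000000000000000000000000000000000000) (nat_lit 6)
theorem c51208 : QOK q51208 := cut [] trivial (nd (nat_lit 183) (nat_lit 0) (cs (lf (nat_lit 34) (nat_lit 182)) (nd (nat_lit 203) (nat_lit 0) (cs (lf (nat_lit 47) (nat_lit 181)) (nd (nat_lit 292) (nat_lit 0) (cs (lf (nat_lit 25) (nat_lit 203)) (nd (nat_lit 315) (nat_lit 0) (cs (lf (nat_lit 28) (nat_lit 226)) (nd (nat_lit 314) (nat_lit 0) (cs (lf (nat_lit 29) (nat_lit 248)) (lf (nat_lit 42) (nat_lit 247)))))))))))) q51208 (by decide +kernel)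
def q51241 : Q := Q.p (nat_lit 0x80001a0000080000200000000000000000000000000000000000000000000000000000000) (nat_lit 0x5000034000000000000000000000000000000000000000000000000000000000000000000000000) (nat_lit 3)
theorem c51241 : QOK q51241 := cut [] trivial (nd (nat_lit 292) (nat_lit 0) (cs (lf (nat_lit 29) (nat_lit 225)) (nd (nat_lit 290) (nat_lit 0) (cs (lf (nat_lit 41) (nat_lit 224)) (lf (nat_lit 15) (nat_lit 268)))))) q51241 (by decide +kernel)
def q51267 : Q := Q.p (nat_lit 0xe0000400000000000000000000000000000000000000000000000000000000) (nat_lit 0x100001b00000000000000000000000000000000000000000000000000000000) (nat_lit 3)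
theorem c51267 : QOK q51267 := cut [] trivial (nd (nat_lit 227) (nat_lit 0) (cs (lf (nat_lit 15) (nat_lit 223)) (nd (nat_lit 225) (nat_lit 0) (cs (lf (nat_lit 6) (nat_lit 224)) (lf (nat_lit 9) (nat_lit 223)))))) q51267 (by decide +kernel)
def q51278 : Q := Q.p (nat_lit 0x180000400001000004000000000000000000000000000000000000000000000) (nat_lit 0x200000000002000018000020000000000000000000000000000000000) (nat_lit 3)
theorem c51278 : QOK q51278 := cut [] trivial (nd (nat_lit 159) (nat_lit 0) (cs (lf (nat_lit 46) (nat_lit 159)) (nd (nat_lit 160) (nat_lit 0) (cs (lf (nat_lit 47) (nat_lit 137)) (lf (nat_lit 40) (nat_lit 159)))))) q51278 (by decide +kernel)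
def q51282 : Q := Q.p (nat_lit 0x4000010000040000100000400000000000000000000000000000000000000000000000000000000) (nat_lit 0x2000008000020000000000000000000000000000000000000000000000000000000000000000000000000) (nat_lit 2)
theorem c51282 : QOK q51282 := cut [] trivial (nd (nat_lit 315) (nat_lit 0) (cs (lf (nat_lit 29) (nat_lit 248)) (lf (nat_lit 28) (nat_lit 226)))) q51282 (by decide +kernel)
def q51292 : Q := Q.p (nat_lit 0x1f0000000000000000000000000000000000000000000000000000000000000) (nat_lit 0xe00000000000000000000000000000000000000000000000000000000) (nat_lit 2)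
theorem c51292 : QOK q51292 := cut [] trivial (nd (nat_lit 226) (nat_lit 0) (cs (lf (nat_lit 17) (nat_lit 223)) (lf (nat_lit 16) (nat_lit 222)))) q51292 (by decide +kernel)
def q51299 : Q := Q.p (nat_lit 0x1c0003080000000000000000000000000000000000000000000000000000000000000) (nat_lit 0x600000100000000000000000000000000000000000000000000000000000000000000) (nat_lit 2)
theorem c51299 : QOK q51299 := cut [] trivial (nd (nat_lit 273) (nat_lit 0) (cs (lf (nat_lit 15) (nat_lit 249)) (lf (nat_lit 22) (nat_lit 247)))) q51299 (by decide +kernel)
def q51302 : Q := Q.p (nat_lit 0x10000040000180000200000000000000000000000000000000000000000000000000000000) (nat_lit 0x20000000000000000800002000000000000000000000000000000000000000000000) (nat_lit 2)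
theorem c51302 : QOK q51302 := cut [] trivial (nd (nat_lit 203) (nat_lit 0) (cs (lf (nat_lit 24) (nat_lit 181)) (lf (nat_lit 27) (nat_lit 203)))) q51302 (by decide +kernel)
def q51332 : Q := Q.p (nat_lit 0x800002000008000060000080000000000000000000000000000000000000000000000000000000) (nat_lit 0x200000000000000010000000000040000300000c00000000000000000000000000000000000000000000) (nat_lit 4)
theorem c51332 : QOK q51332 := cut [] trivial (nd (nat_lit 200) (nat_lit 0) (cs (lf (nat_lit 46) (nat_lit 200)) (nd (nat_lit 201) (nat_lit 0) (cs (lf (nat_lit 47) (nat_lit 178)) (nd (nat_lit 268) (nat_lit 0) (cs (lf (nat_lit 30) (nat_lit 245)) (lf (nat_lit 24) (nat_lit 179)))))))) q51332 (by decide +kernel)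
def q51337 : Q := Q.p (nat_lit 0x10000000000780000c0000000000000000000000000000000000000000000000000000000000000) (nat_lit 0x34000000000000000200000800000000000000000000000000000000000000000000000000) (nat_lit 3)
theorem c51337 : QOK q51337 := cut [] trivial (nd (nat_lit 225) (nat_lit 0) (cs (lf (nat_lit 31) (nat_lit 224)) (nd (nat_lit 292) (nat_lit 0) (cs (lf (nat_lit 24) (nat_lit 203)) (lf (nat_lit 5) (nat_lit 267)))))) q51337 (by decide +kernel)
def q51369 : Q := Q.p (nat_lit 0x400000e0000000000000000000000000000000000000000000000000000000000000) (nat_lit 0x27000018000700000000000000000000000000000000000000000000000000000000) (nat_lit 5)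
theorem c51369 : QOK q51369 := cut [] trivial (nd (nat_lit 244) (nat_lit 0) (cs (lf (nat_lit 4) (nat_lit 244)) (nd (nat_lit 225) (nat_lit 0) (cs (lf (nat_lit 17) (nat_lit 222)) (nd (nat_lit 243) (nat_lit 0) (cs (lf (nat_lit 16) (nat_lit 221)) (nd (nat_lit 265) (nat_lit 0) (cs (lf (nat_lit 11) (nat_lit 242)) (lf (nat_lit 10) (nat_lit 243)))))))))) q51369 (by decide +kernel)
def q51403 : Q := Q.p (nat_lit 0xc0000700000000000000000000000000000000000000000000000000000000) (nat_lit 0x30000800000000000000000000000000000000000000000000000000000000) (nat_lit 2)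
theorem c51403 : QOK q51403 := cut [] trivial (nd (nat_lit 245) (nat_lit 0) (cs (lf (nat_lit 12) (nat_lit 222)) (lf (nat_lit 6) (nat_lit 223)))) q51403 (by decide +kernel)
def q51444 : Q := Q.p (nat_lit 0x10000060000080000000000000000000000000000000000000000000000000000000) (nat_lit 0x1000004000000000000000100000200000800000000000000000000000000000000000000000000) (nat_lit 3)
theorem c51444 : QOK q51444 := cut [] trivial (nd (nat_lit 201) (nat_lit 0) (cs (lf (nat_lit 24) (nat_lit 179)) (nd (nat_lit 290) (nat_lit 0) (cs (lf (nat_lit 42) (nat_lit 223)) (lf (nat_lit 45) (nat_lit 201)))))) q51444 (by decide +kernel)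
def q51475 : Q := Q.p (nat_lit 0x100000580000200000000000000000000000000000000000000000000000000000000) (nat_lit 0x200000200000100000000000000000000000000000000000000000000000000000000) (nat_lit 2)
theorem c51475 : QOK q51475 := cut [] trivial (nd (nat_lit 249) (nat_lit 0) (cs (lf (nat_lit 23) (nat_lit 224)) (lf (nat_lit 5) (nat_lit 247)))) q51475 (by decide +kernel)
def q51478 : Q := Q.p (nat_lit 0x780000000000000000000000000000000000000000000000000000000000000) (nat_lit 0x38000040003800000000000000000000000000000000000000000000000000000000) (nat_lit 4)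
theorem c51478 : QOK q51478 := cut [] trivial (nd (nat_lit 268) (nat_lit 0) (cs (lf (nat_lit 10) (nat_lit 246)) (nd (nat_lit 246) (nat_lit 0) (cs (lf (nat_lit 11) (nat_lit 245)) (nd (nat_lit 228) (nat_lit 0) (cs (lf (nat_lit 17) (nat_lit 225)) (lf (nat_lit 16) (nat_lit 224)))))))) q51478 (by decide +kernel)
def q51487 : Q := Q.p (nat_lit 0x20000180000200003800000000000000000000000000000000000000000000000000) (nat_lit 0x10000040000000000400000400019000000000000000000000000000000000000000000000) (nat_lit 4)
theorem c51487 : QOK q51487 := cut [] trivial (nd (nat_lit 270) (nat_lit 0) (cs (lf (nat_lit 29) (nat_lit 203)) (nd (nat_lit 183) (nat_lit 0) (cs (lf (nat_lit 32) (nat_lit 182)) (nd (nat_lit 202) (nat_lit 0) (cs (lf (nat_lit 17) (nat_lit 180)) (lf (nat_lit 47) (nat_lit 180)))))))) q51487 (by decide +kernel)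
def q51495 : Q := Q.p (nat_lit 0x100000600001800000000000000000000000000000000000000000000000000000000) (nat_lit 0x40000000000000000000002000008000000000000000000000000000000000000000000000) (nat_lit 2)
theorem c51495 : QOK q51495 := cut [] trivial (nd (nat_lit 205) (nat_lit 0) (cs (lf (nat_lit 42) (nat_lit 205)) (lf (nat_lit 24) (nat_lit 183)))) q51495 (by decide +kernel)
def q51499 : Q := Q.p (nat_lit 0x1000008000060000180000000000000000000000000000000000000000000000000000000000000) (nat_lit 0xc00002000000000000000000000000000000000000000000000000000000000000000000000000000000) (nat_lit 2)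
theorem c51499 : QOK q51499 := cut [] trivial (nd (nat_lit 313) (nat_lit 0) (cs (lf (nat_lit 30) (nat_lit 247)) (lf (nat_lit 41) (nat_lit 246)))) q51499 (by decide +kernel)
def q51538 : Q := Q.p (nat_lit 0x20000080000200000800000000000000000000000000000000000000000000000000) (nat_lit 0x1400007000014000000000000000000000000000000000000000) (nat_lit 4)
theorem c51538 : QOK q51538 := cut [] trivial (nd (nat_lit 180) (nat_lit 0) (cs (lf (nat_lit 46) (nat_lit 180)) (nd (nat_lit 182) (nat_lit 0) (cs (lf (nat_lit 34) (nat_lit 181)) (nd (nat_lit 181) (nat_lit 0) (cs (lf (nat_lit 35) (nat_lit 159)) (lf (nat_lit 47) (nat_lit 158)))))))) q51538 (by decide +kernel)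
def q51561 : Q := Q.p (nat_lit 0x100000500000600003000000000000000000000000000000000000000000000000000) (nat_lit 0x4000000000100000c000008000000000000000000000000000000000000000000000) (nat_lit 3)
theorem c51561 : QOK q51561 := cut [] trivial (nd (nat_lit 206) (nat_lit 0) (cs (lf (nat_lit 6) (nat_lit 203)) (nd (nat_lit 183) (nat_lit 0) (cs (lf (nat_lit 30) (nat_lit 182)) (lf (nat_lit 44) (nat_lit 183)))))) q51561 (by decide +kernel)
def q51563 : Q := Q.p (nat_lit 0x100000400003000008000000000000000000000000000000000000000000000) (nat_lit 0x800000000000000020000080000000000000000000000000000000000) (nat_lit 2)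
theorem c51563 : QOK q51563 := cut [] trivial (nd (nat_lit 161) (nat_lit 0) (cs (lf (nat_lit 36) (nat_lit 138)) (lf (nat_lit 39) (nat_lit 160)))) q51563 (by decide +kernel)
def q51572 : Q := Q.p (nat_lit 0x100000580000600011000000000000000000000000000000000000000000000000000) (nat_lit 0x4000000000100000e00000e000038000000000000000000000000000000000000000) (nat_lit 6)
theorem c51572 : QOK q51572 := cut [] trivial (nd (nat_lit 182) (nat_lit 0) (cs (lf (nat_lit 36) (nat_lit 159)) (nd (nat_lit 159) (nat_lit 0) (cs (lf (nat_lit 46) (nat_lit 159)) (nd (nat_lit 183) (nat_lit 0) (cs (lf (nat_lit 35) (nat_lit 160)) (nd (nat_lit 205) (nat_lit 0) (cs (lf (nat_lit 30) (nat_lit 182)) (nd (nat_lit 206) (nat_lit 0) (cs (lf (nat_lit 19) (nat_lit 182)) (lf (nat_lit 44) (nat_lit 183)))))))))))) q51572 (by decide +kernel)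
def q51574 : Q := Q.p (nat_lit 0x180000e00000000000000000000000000000000000000000000000000000000) (nat_lit 0x40003000000000000000000000000000000000000000000000000000000000) (nat_lit 2)
theorem c51574 : QOK q51574 := cut [] trivial (nd (nat_lit 228) (nat_lit 0) (cs (lf (nat_lit 11) (nat_lit 224)) (lf (nat_lit 6) (nat_lit 225)))) q51574 (by decide +kernel)
def q51577 : Q := Q.p (nat_lit 0x100000580000e00000000000000000000000000000000000000000000000000000000) (nat_lit 0x4000000000000000310000e000000000000000000000000000000000000000000000000000) (nat_lit 4)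
theorem c51577 : QOK q51577 := cut [] trivial (nd (nat_lit 228) (nat_lit 0) (cs (lf (nat_lit 6) (nat_lit 225)) (nd (nat_lit 206) (nat_lit 0) (cs (lf (nat_lit 17) (nat_lit 203)) (nd (nat_lit 205) (nat_lit 0) (cs (lf (nat_lit 42) (nat_lit 205)) (lf (nat_lit 12) (nat_lit 202)))))))) q51577 (by decide +kernel)
def q51587 : Q := Q.p (nat_lit 0x100000400001800004000000000000000000000000000000000000000000000000000) (nat_lit 0x40000000000000000000002000008000000000000000000000000000000000000000000000) (nat_lit 2)
theorem c51587 : QOK q51587 := cut [] trivial (nd (nat_lit 205) (nat_lit 0) (cs (lf (nat_lit 47) (nat_lit 183)) (lf (nat_lit 42) (nat_lit 205)))) q51587 (by decide +kernel)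
def q51650 : Q := Q.p (nat_lit 0x20000180000600000000000000000000000000000000000000000000000000) (nat_lit 0x8000000000000000000001000004000000000000000000000000000000000000000) (nat_lit 2)
theorem c51650 : QOK q51650 := cut [] trivial (nd (nat_lit 180) (nat_lit 0) (cs (lf (nat_lit 30) (nat_lit 179)) (lf (nat_lit 36) (nat_lit 157)))) q51650 (by decide +kernel)
def q51774 : Q := Q.p (nat_lit 0x1e0000380000000000000000000000000000000000000000000000000000000) (nat_lit 0x180000600005c000000000000000800002000008000000000000000000000000000000000000000) (nat_lit 6)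
theorem c51774 : QOK q51774 := cut [] trivial (nd (nat_lit 267) (nat_lit 0) (cs (lf (nat_lit 11) (nat_lit 244)) (nd (nat_lit 289) (nat_lit 0) (cs (lf (nat_lit 30) (nat_lit 223)) (nd (nat_lit 290) (nat_lit 0) (cs (lf (nat_lit 29) (nat_lit 223)) (nd (nat_lit 203) (nat_lit 0) (cs (lf (nat_lit 31) (nat_lit 202)) (nd (nat_lit 181) (nat_lit 0) (cs (lf (nat_lit 29) (nat_lit 181)) (lf (nat_lit 36) (nat_lit 158)))))))))))) q51774 (by decide +kernel)
def q51781 : Q := Q.p (nat_lit 0x40000780000000000000000000000000000000000000000000000000000000) (nat_lit 0x4000010000000000000000700000800002000000000000000000000000000000000000000) (nat_lit 4)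
theorem c51781 : QOK q51781 := cut [] trivial (nd (nat_lit 201) (nat_lit 0) (cs (lf (nat_lit 23) (nat_lit 200)) (nd (nat_lit 179) (nat_lit 0) (cs (lf (nat_lit 24) (nat_lit 157)) (nd (nat_lit 268) (nat_lit 0) (cs (lf (nat_lit 42) (nat_lit 201)) (lf (nat_lit 45) (nat_lit 179)))))))) q51781 (by decide +kernel)
def q51783 : Q := Q.p (nat_lit 0x1e0000180000000000000000000000000000000000000000000000000000000) (nat_lit 0x200000c000000000000000400001000000000000000000000000000000000000000000000) (nat_lit 3)
theorem c51783 : QOK q51783 := cut [] trivial (nd (nat_lit 267) (nat_lit 0) (cs (lf (nat_lit 11) (nat_lit 244)) (nd (nat_lit 202) (nat_lit 0) (cs (lf (nat_lit 36) (nat_lit 179)) (lf (nat_lit 30) (nat_lit 201)))))) q51783 (by decide +kernel)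
def q51798 : Q := Q.p (nat_lit 0x30000380000000000000000000000000000000000000000000000000000000) (nat_lit 0x4c000000000000000000000000000000000000000000000000000000000000) (nat_lit 2)
theorem c51798 : QOK q51798 := cut [] trivial (nd (nat_lit 243) (nat_lit 0) (cs (lf (nat_lit 15) (nat_lit 221)) (lf (nat_lit 12) (nat_lit 220)))) q51798 (by decide +kernel)

end Crest.Agent.H3.Snaky.CR
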