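import Crest.Agent.H3.Snaky.Cert

set_option autoImplicit false
set_option maxRecDepth 100000

namespace Crest.Agent.H3.Snaky.CR

open T

def q51801 : Q := Q.p (nat_lit 0x8000020000180000400000000000000000000000000000000000000000000000000) (nat_lit 0x200001000004000000000000000000000000000000000000000) (nat_lit 2)
theorem c51801 : QOK q51801 := cut [] trivial (nd (nat_lit 180) (nat_lit 0) (cs (lf (nat_lit 33) (nat_lit 179)) (lf (nat_lit 36) (nat_lit 157)))) q51801 (by decide +kernel)
def q51813 : Q := Q.p (nat_lit 0x380001800000000000000000000000000000000000000000000000000) (nat_lit 0x6400000000000000000000000000000000000000000000000000) (nat_lit 2)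
theorem c51813 : QOK q51813 := cut [] trivial (nd (nat_lit 205) (nat_lit 0) (cs (lf (nat_lit 6) (nat_lit 202)) (lf (nat_lit 9) (nat_lit 201)))) q51813 (by decide +kernel)
def q51832 : Q := Q.p (nat_lit 0x3c0000000000000000000000000000000000000000000000000000000) (nat_lit 0x1c000020001c00000000000000000000000000000000000000000000000000) (nat_lit 4)
theorem c51832 : QOK q51832 := cut [] trivial (nd (nat_lit 243) (nat_lit 0) (cs (lf (nat_lit 10) (nat_lit 221)) (nd (nat_lit 221) (nat_lit 0) (cs (lf (nat_lit 11) (nat_lit 220)) (nd (nat_lit 203) (nat_lit 0) (cs (lf (nat_lit 17) (nat_lit 200)) (lf (nat_lit 16) (nat_lit 199)))))))) q51832 (by decide +kernel)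
def q51835 : Q := Q.p (nat_lit 0x3e0000000000000000000000000000000000000000000000000000000) (nat_lit 0x1c0000000000000000000000000000000000000000000000000) (nat_lit 2)
theorem c51835 : QOK q51835 := cut [] trivial (nd (nat_lit 199) (nat_lit 0) (cs (lf (nat_lit 22) (nat_lit 199)) (lf (nat_lit 23) (nat_lit 198)))) q51835 (by decide +kernel)
def q51866 : Q := Q.p (nat_lit 0x30000080000380000400000000000000000000000000000000000000000000000000) (nat_lit 0x4000000000000000000003800004000000000000000000000000000000000000000000000) (nat_lit 3)
theorem c51866 : QOK q51866 := cut [] trivial (nd (nat_lit 203) (nat_lit 0) (cs (lf (nat_lit 41) (nat_lit 202)) (nd (nat_lit 204) (nat_lit 0) (cs (lf (nat_lit 35) (nat_lit 181)) (lf (nat_lit 6) (nat_lit 201)))))) q51866 (by decide +kernel)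
def q51873 : Q := Q.p (nat_lit 0x100000c0000300000000000000000000000000000000000000000000000000000000) (nat_lit 0x1000004000000000000000000000800000000000000000000000000000000000000000000000000) (nat_lit 2)
theorem c51873 : QOK q51873 := cut [] trivial (nd (nat_lit 290) (nat_lit 0) (cs (lf (nat_lit 30) (nat_lit 224)) (lf (nat_lit 35) (nat_lit 202)))) q51873 (by decide +kernel)
def q51902 : Q := Q.p (nat_lit 0x2000018000060000000000000000000000000000000000000000000000000000000000000) (nat_lit 0x200000800000000000000000000100000000000000000000000000000000000000000000000000000000) (nat_lit 2)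
theorem c51902 : QOK q51902 := cut [] trivial (nd (nat_lit 311) (nat_lit 0) (cs (lf (nat_lit 30) (nat_lit 245)) (lf (nat_lit 35) (nat_lit 223)))) q51902 (by decide +kernel)
def q51923 : Q := Q.p (nat_lit 0x78000000000000000400000000000000000000000000000000000000000000000000) (nat_lit 0x3000000000070000180000000000000000000000000000000000000000000000000000000) (nat_lit 4)
theorem c51923 : QOK q51923 := cut [] trivial (nd (nat_lit 245) (nat_lit 0) (cs (lf (nat_lit 23) (nat_lit 244)) (nd (nat_lit 289) (nat_lit 0) (cs (lf (nat_lit 11) (nat_lit 266)) (nd (nat_lit 224) (nat_lit 0) (cs (lf (nat_lit 33) (nat_lit 201)) (lf (nat_lit 38) (nat_lit 201)))))))) q51923 (by decide +kernel)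
def q52006 : Q := Q.p (nat_lit 0x180000680001000000000000000000000000000000000000000000000000000000000) (nat_lit 0x140002000000000000000000000000000000000000000000000000000000000) (nat_lit 2)
theorem c52006 : QOK q52006 := cut [] trivial (nd (nat_lit 248) (nat_lit 0) (cs (lf (nat_lit 17) (nat_lit 225)) (lf (nat_lit 0) (nat_lit 246)))) q52006 (by decide +kernel)
def q52007 : Q := Q.p (nat_lit 0x10000180000600000800000000000000000000000000000000000000000000000000000000) (nat_lit 0x40000000000000002000008000000000000000000000000000000000000000000000) (nat_lit 2)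
theorem c52007 : QOK q52007 := cut [] trivial (nd (nat_lit 205) (nat_lit 0) (cs (lf (nat_lit 24) (nat_lit 183)) (lf (nat_lit 40) (nat_lit 204)))) q52007 (by decide +kernel)
def q52037 : Q := Q.p (nat_lit 0x380000480000000000000000000000000000000000000000000000000000000000000) (nat_lit 0x40000300000000000000000000000000000000000000000000000000000000000000) (nat_lit 2)
theorem c52037 : QOK q52037 := cut [] trivial (nd (nat_lit 248) (nat_lit 0) (cs (lf (nat_lit 2) (nat_lit 247)) (lf (nat_lit 21) (nat_lit 247)))) q52037 (by decide +kernel)
def q52052 : Q := Q.p (nat_lit 0x180000600001000000000000000000000000000000000000000000000000000000000) (nat_lit 0x20000000000000000000004000010000000000000000000000000000000000000000000000) (nat_lit 2)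
theorem c52052 : QOK q52052 := cut [] trivial (nd (nat_lit 206) (nat_lit 0) (cs (lf (nat_lit 41) (nat_lit 205)) (lf (nat_lit 36) (nat_lit 183)))) q52052 (by decide +kernel)
def q52056 : Q := Q.p (nat_lit 0x1800001c0000000000000000000000000000000000000000000000000000000000000) (nat_lit 0x60000020000000000000000000000000000000000000000000000000000000000000) (nat_lit 2)
theorem c52056 : QOK q52056 := cut [] trivial (nd (nat_lit 270) (nat_lit 0) (cs (lf (nat_lit 21) (nat_lit 246)) (lf (nat_lit 0) (nat_lit 245)))) q52056 (by decide +kernel)
def q52061 : Q := Q.p (nat_lit 0x180000400001000000000000000000000000000000000000000000000000000) (nat_lit 0x2000000000020000000000c000030000080000000000000000000000000000000000) (nat_lit 4)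
theorem c52061 : QOK q52061 := cut [] trivial (nd (nat_lit 182) (nat_lit 0) (cs (lf (nat_lit 41) (nat_lit 181)) (nd (nat_lit 161) (nat_lit 0) (cs (lf (nat_lit 34) (nat_lit 160)) (nd (nat_lit 160) (nat_lit 0) (cs (lf (nat_lit 35) (nat_lit 138)) (lf (nat_lit 40) (nat_lit 159)))))))) q52061 (by decide +kernel)
def q52066 : Q := Q.p (nat_lit 0x180001c00000000000000000000000000000000000000000000000000000000) (nat_lit 0x60000200000000000000000000000000000000000000000000000000000000) (nat_lit 2)
theorem c52066 : QOK q52066 := cut [] trivial (nd (nat_lit 246) (nat_lit 0) (cs (lf (nat_lit 12) (nat_lit 223)) (lf (nat_lit 9) (nat_lit 224)))) q52066 (by decide +kernel)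
def q52073 : Q := Q.p (nat_lit 0x20000180000780000000000000000000000000000000000000000000000000000000000000) (nat_lit 0x3000004000000000000000000000000000000000000000000000000000) (nat_lit 2)
theorem c52073 : QOK q52073 := cut [] trivial (nd (nat_lit 228) (nat_lit 0) (cs (lf (nat_lit 36) (nat_lit 205)) (lf (nat_lit 17) (nat_lit 225)))) q52073 (by decide +kernel)
def q52081 : Q := Q.p (nat_lit 0x1c0000180000000000000000000000000000000000000000000000000000000000000) (nat_lit 0x20000060000000000000000000000000000000000000000000000000000000000000) (nat_lit 2)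
theorem c52081 : QOK q52081 := cut [] trivial (nd (nat_lit 246) (nat_lit 0) (cs (lf (nat_lit 21) (nat_lit 246)) (lf (nat_lit 0) (nat_lit 245)))) q52081 (by decide +kernel)
def q52086 : Q := Q.p (nat_lit 0x100001c0000100000400000000000000000000000000000000000000000000000000000000) (nat_lit 0xa00002c000000000000000000000000000000000000000000000000000000000000000000000000) (nat_lit 3)
theorem c52086 : QOK q52086 := cut [] trivial (nd (nat_lit 293) (nat_lit 0) (cs (lf (nat_lit 29) (nat_lit 226)) (nd (nat_lit 291) (nat_lit 0) (cs (lf (nat_lit 12) (nat_lit 268)) (lf (nat_lit 41) (nat_lit 225)))))) q52086 (by decide +kernel)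
def q52091 : Q := Q.p (nat_lit 0x2000018000040000100000000000000000000000000000000000000000000000000000000000000) (nat_lit 0x200000800004000000000000000000000000000000000000000000000000000000000000000000000000000000) (nat_lit 2)
theorem c52091 : QOK q52091 := cut [] trivial (nd (nat_lit 335) (nat_lit 0) (cs (lf (nat_lit 39) (nat_lit 247)) (lf (nat_lit 30) (nat_lit 269)))) q52091 (by decide +kernel)
def q52106 : Q := Q.p (nat_lit 0x10000140000180000000000000000000000000000000000000000000000000000000000000) (nat_lit 0xc0000f80000f80006c000280000060000200000000000000000000000000000000000000000000000000000000) (nat_lit 11)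
theorem c52106 : QOK q52106 := cut [] trivial (nd (nat_lit 271) (nat_lit 0) (cs (lf (nat_lit 18) (nat_lit 247)) (nd (nat_lit 245) (nat_lit 0) (cs (lf (nat_lit 1) (nat_lit 245)) (nd (nat_lit 314) (nat_lit 0) (cs (lf (nat_lit 47) (nat_lit 225)) (nd (nat_lit 313) (nat_lit 0) (cs (lf (nat_lit 41) (nat_lit 247)) (nd (nat_lit 337) (nat_lit 0) (cs (lf (nat_lit 28) (nat_lit 248)) (nd (nat_lit 336) (nat_lit 0) (cs (lf (nat_lit 29) (nat_lit 270)) (nd (nat_lit 338) (nat_lit 0) (cs (nd (nat_lit 312) (nat_lit 0) (cs (nd (nat_lit 293) (nat_lit 0) (cs (lf (nat_lit 30) (nat_lit 270)) (nd (nat_lit 291) (nat_lit 0) (cs (lf (nat_lit 12) (nat_lit 268)) (lf (nat_lit 6) (nat_lit 290)))))) (lf (nat_lit 0) (nat_lit 311)))) (lf (nat_lit 18) (nat_lit 313)))))))))))))))) q52106 (by decide +kernel)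
def q52117 : Q := Q.p (nat_lit 0x4000010000040000180000000000000000000000000000000000000000000000000000000000000) (nat_lit 0x800003000008000000000020000000000000000000000000000000000000000000000000000000000000000000) (nat_lit 3)
theorem c52117 : QOK q52117 := cut [] trivial (nd (nat_lit 337) (nat_lit 0) (cs (lf (nat_lit 28) (nat_lit 248)) (nd (nat_lit 336) (nat_lit 0) (cs (lf (nat_lit 29) (nat_lit 270)) (lf (nat_lit 46) (nat_lit 247)))))) q52117 (by decide +kernel)
def q52131 : Q := Q.p (nat_lit 0x18000140000180000600000000000000000000000000000000000000000000000000000000) (nat_lit 0x9800064000238000040000000000000000000000000000000000000000000000000000000000000) (nat_lit 6)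
theorem c52131 : QOK q52131 := cut [] trivial (nd (nat_lit 293) (nat_lit 0) (cs (lf (nat_lit 29) (nat_lit 226)) (nd (nat_lit 294) (nat_lit 0) (cs (lf (nat_lit 17) (nat_lit 269)) (nd (nat_lit 268) (nat_lit 0) (cs (lf (nat_lit 22) (nat_lit 268)) (nd (nat_lit 290) (nat_lit 0) (cs (lf (nat_lit 23) (nat_lit 267)) (nd (nat_lit 312) (nat_lit 0) (cs (lf (nat_lit 11) (nat_lit 289)) (lf (nat_lit 33) (nat_lit 224)))))))))))) q52131 (by decide +kernel)
def q52149 : Q := Q.p (nat_lit 0x60000180000200001000000000000000000000000000000000000000000000000000) (nat_lit 0x800006000000000000000000000000000000000000000000000) (nat_lit 2)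
theorem c52149 : QOK q52149 := cut [] trivial (nd (nat_lit 203) (nat_lit 0) (cs (lf (nat_lit 24) (nat_lit 181)) (lf (nat_lit 35) (nat_lit 181)))) q52149 (by decide +kernel)
def q52157 : Q := Q.p (nat_lit 0x8000060000180000000000000000000000000000000000000000000000000000000000000) (nat_lit 0x1800006000010000000000000000300000c00003000000000000000000000000000000000000000000000) (nat_lit 6)
theorem c52157 : QOK q52157 := cut [] trivial (nd (nat_lit 313) (nat_lit 0) (cs (lf (nat_lit 30) (nat_lit 247)) (nd (nat_lit 314) (nat_lit 0) (cs (lf (nat_lit 29) (nat_lit 247)) (nd (nat_lit 225) (nat_lit 0) (cs (lf (nat_lit 28) (nat_lit 225)) (nd (nat_lit 202) (nat_lit 0) (cs (lf (nat_lit 46) (nat_lit 202)) (nd (nat_lit 203) (nat_lit 0) (cs (lf (nat_lit 24) (nat_lit 181)) (lf (nat_lit 47) (nat_lit 180)))))))))))) q52157 (by decide +kernel)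
def q52160 : Q := Q.p (nat_lit 0x20000070000180000000000000000000000000000000000000000000000000000000000000) (nat_lit 0x1000000c000000000000000000000000000000000000000000000000000000000000000000) (nat_lit 2)
theorem c52160 : QOK q52160 := cut [] trivial (nd (nat_lit 267) (nat_lit 0) (cs (lf (nat_lit 4) (nat_lit 267)) (lf (nat_lit 12) (nat_lit 244)))) q52160 (by decide +kernel)
def q52175 : Q := Q.p (nat_lit 0x1e000000000000000100000000000000000000000000000000000000000000000000000000) (nat_lit 0xc0002000001c000040000000000000000000000000000000000000000000000000000000000000) (nat_lit 4)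
theorem c52175 : QOK q52175 := cut [] trivial (nd (nat_lit 267) (nat_lit 0) (cs (lf (nat_lit 23) (nat_lit 266)) (nd (nat_lit 311) (nat_lit 0) (cs (lf (nat_lit 11) (nat_lit 288)) (nd (nat_lit 268) (nat_lit 0) (cs (lf (nat_lit 18) (nat_lit 267)) (lf (nat_lit 37) (nat_lit 223)))))))) q52175 (by decide +kernel)
def q52191 : Q := Q.p (nat_lit 0x100003580000000000000000000000000000000000000000000000000000000000000) (nat_lit 0x6c0000200000000000000000000000000000000000000000000000000000000000000) (nat_lit 3)
theorem c52191 : QOK q52191 := cut [] trivial (nd (nat_lit 273) (nat_lit 0) (cs (lf (nat_lit 2) (nat_lit 247)) (nd (nat_lit 271) (nat_lit 0) (cs (lf (nat_lit 15) (nat_lit 249)) (lf (nat_lit 21) (nat_lit 247)))))) q52191 (by decide +kernel)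
def q52220 : Q := Q.p (nat_lit 0x7000018000000000000000000000000000000000000000000000000000000000000000000000000) (nat_lit 0x800060000000000000000000000000000000000000000000000000000000000000000000000000) (nat_lit 2)
theorem c52220 : QOK q52220 := cut [] trivial (nd (nat_lit 293) (nat_lit 0) (cs (lf (nat_lit 12) (nat_lit 289)) (lf (nat_lit 6) (nat_lit 290)))) q52220 (by decide +kernel)
def q52241 : Q := Q.p (nat_lit 0x1400001c0000000000000000000000000000000000000000000000000000000000000) (nat_lit 0xa0000020000000000000000000000000000000000000000000000000000000000000) (nat_lit 2)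
theorem c52241 : QOK q52241 := cut [] trivial (nd (nat_lit 271) (nat_lit 0) (cs (lf (nat_lit 21) (nat_lit 246)) (lf (nat_lit 0) (nat_lit 245)))) q52241 (by decide +kernel)
def q52257 : Q := Q.p (nat_lit 0x5f0000000000000000000000000000000000000000000000000000000000000) (nat_lit 0x208000700000000000000000000000000000000000000000000000000000000) (nat_lit 3)
theorem c52257 : QOK q52257 := cut [] trivial (nd (nat_lit 225) (nat_lit 0) (cs (lf (nat_lit 17) (nat_lit 222)) (nd (nat_lit 224) (nat_lit 0) (cs (lf (nat_lit 12) (nat_lit 221)) (lf (nat_lit 19) (nat_lit 224)))))) q52257 (by decide +kernel)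
def q52265 : Q := Q.p (nat_lit 0x60000380000200000800000000000000000000000000000000000000000000000000000000) (nat_lit 0x4000018000000000000000000000000000000000000000000000000000000000000000000000000) (nat_lit 2)
theorem c52265 : QOK q52265 := cut [] trivial (nd (nat_lit 292) (nat_lit 0) (cs (lf (nat_lit 41) (nat_lit 226)) (lf (nat_lit 12) (nat_lit 269)))) q52265 (by decide +kernel)
def q52300 : Q := Q.p (nat_lit 0x40000100000600000800000000000000000000000000000000000000000000000000000000) (nat_lit 0x80000000001000002000000000000000000000000000000000000000000000000000) (nat_lit 2)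
theorem c52300 : QOK q52300 := cut [] trivial (nd (nat_lit 205) (nat_lit 0) (cs (lf (nat_lit 27) (nat_lit 205)) (lf (nat_lit 45) (nat_lit 205)))) q52300 (by decide +kernel)
def q52305 : Q := Q.p (nat_lit 0x20000080000200000800002000000000000000000000000000000000000000000000000000) (nat_lit 0x1000004000010000000000000000000000000000000000000000000000) (nat_lit 2)
theorem c52305 : QOK q52305 := cut [] trivial (nd (nat_lit 206) (nat_lit 0) (cs (lf (nat_lit 34) (nat_lit 205)) (lf (nat_lit 35) (nat_lit 183)))) q52305 (by decide +kernel)
def q52525 : Q := Q.p (nat_lit 0x400000800002000008000040000000000000000000000000000000000000000000000000000) (nat_lit 0x100000200000000000000010000000000000000000000000000000000000000000000000000000000) (nat_lit 2)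
theorem c52525 : QOK q52525 := cut [] trivial (nd (nat_lit 297) (nat_lit 0) (cs (lf (nat_lit 29) (nat_lit 231)) (lf (nat_lit 34) (nat_lit 209)))) q52525 (by decide +kernel)
def q52534 : Q := Q.p (nat_lit 0xf00000000000000000000000000000000000000000000000000000000000000000000000000) (nat_lit 0x670000080000700000000000000000000000000000000000000000000000000000000000000000000) (nat_lit 5)
theorem c52534 : QOK q52534 := cut [] trivial (nd (nat_lit 273) (nat_lit 0) (cs (lf (nat_lit 22) (nat_lit 273)) (nd (nat_lit 321) (nat_lit 0) (cs (lf (nat_lit 5) (nat_lit 296)) (nd (nat_lit 317) (nat_lit 0) (cs (lf (nat_lit 10) (nat_lit 295)) (nd (nat_lit 295) (nat_lit 0) (cs (lf (nat_lit 23) (nat_lit 272)) (lf (nat_lit 11) (nat_lit 294)))))))))) q52534 (by decide +kernel)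
def q52551 : Q := Q.p (nat_lit 0x80000f00000800000000000000000000000000000000000000000000000000000000000000000000) (nat_lit 0x380001e0000660000080007000000000000000000000000000000000000000000000000000000000000000000000) (nat_lit 8)
theorem c52551 : QOK q52551 := cut [] trivial (nd (nat_lit 277) (nat_lit 0) (cs (lf (nat_lit 17) (nat_lit 274)) (nd (nat_lit 276) (nat_lit 0) (cs (lf (nat_lit 12) (nat_lit 273)) (nd (nat_lit 341) (nat_lit 0) (cs (lf (nat_lit 30) (nat_lit 275)) (nd (nat_lit 342) (nat_lit 0) (cs (lf (nat_lit 29) (nat_lit 275)) (nd (nat_lit 318) (nat_lit 0) (cs (lf (nat_lit 11) (nat_lit 295)) (nd (nat_lit 321) (nat_lit 0) (cs (lf (nat_lit 5) (nat_lit 296)) (nd (nat_lit 343) (nat_lit 0) (cs (lf (nat_lit 42) (nat_lit 276)) (lf (nat_lit 18) (nat_lit 318)))))))))))))))) q52551 (by decide +kernel)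
def q52572 : Q := Q.p (nat_lit 0xf80000000000000000000000000000000000000000000000000000000000000000000000000) (nat_lit 0x70000000000000000000000000000000000000000000000000000000000000000000000000000000) (nat_lit 2)
theorem c52572 : QOK q52572 := cut [] trivial (nd (nat_lit 317) (nat_lit 0) (cs (lf (nat_lit 10) (nat_lit 295)) (lf (nat_lit 11) (nat_lit 294)))) q52572 (by decide +kernel)
def q52587 : Q := Q.p (nat_lit 0x180000e00000800000000000000000000000000000000000000000000000000000000000000000000) (nat_lit 0x3000000400000000000000000000000000000000000000000000000000000000000000000000) (nat_lit 2)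
theorem c52587 : QOK q52587 := cut [] trivial (nd (nat_lit 300) (nat_lit 0) (cs (lf (nat_lit 23) (nat_lit 274)) (lf (nat_lit 6) (nat_lit 297)))) q52587 (by decide +kernel)
def q52599 : Q := Q.p (nat_lit 0x280000a00002800002000000000000000000000000000000000000000000000000000000000000000) (nat_lit 0x100000e0000100000000000000000000000000000000000000000000000000000000000000000000000000000000) (nat_lit 3)
theorem c52599 : QOK q52599 := cut [] trivial (nd (nat_lit 342) (nat_lit 0) (cs (lf (nat_lit 28) (nat_lit 253)) (nd (nat_lit 364) (nat_lit 0) (cs (lf (nat_lit 27) (nat_lit 275)) (lf (nat_lit 39) (nat_lit 276)))))) q52599 (by decide +kernel)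
def q52605 : Q := Q.p (nat_lit 0x80000f00000800002000000000000000000000000000000000000000000000000000000000000000) (nat_lit 0x40000700000080000000000000000000000000000000000000000000000000000000000000000000000000) (nat_lit 3)
theorem c52605 : QOK q52605 := cut [] trivial (nd (nat_lit 321) (nat_lit 0) (cs (lf (nat_lit 5) (nat_lit 296)) (nd (nat_lit 320) (nat_lit 0) (cs (lf (nat_lit 29) (nat_lit 253)) (lf (nat_lit 0) (nat_lit 295)))))) q52605 (by decide +kernel)
def q52608 : Q := Q.p (nat_lit 0x80000f00000800002000000000000000000000000000000000000000000000000000000000000000) (nat_lit 0x400001700000c0000000000000000000000000000000000000000000000000000000000000000000000000) (nat_lit 4)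
theorem c52608 : QOK q52608 := cut [] trivial (nd (nat_lit 317) (nat_lit 0) (cs (lf (nat_lit 10) (nat_lit 295)) (nd (nat_lit 295) (nat_lit 0) (cs (lf (nat_lit 11) (nat_lit 294)) (nd (nat_lit 320) (nat_lit 0) (cs (lf (nat_lit 29) (nat_lit 253)) (lf (nat_lit 0) (nat_lit 294)))))))) q52608 (by decide +kernel)
def q52611 : Q := Q.p (nat_lit 0x80000e00000800002000000000000000000000000000000000000000000000000000000000000000) (nat_lit 0x40000160001000000000000000000000000000000000000000000000000000000000000000000000000000) (nat_lit 3)
theorem c52611 : QOK q52611 := cut [] trivial (nd (nat_lit 320) (nat_lit 0) (cs (lf (nat_lit 29) (nat_lit 253)) (nd (nat_lit 318) (nat_lit 0) (cs (lf (nat_lit 12) (nat_lit 295)) (lf (nat_lit 6) (nat_lit 296)))))) q52611 (by decide +kernel)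
def q52636 : Q := Q.p (nat_lit 0x100000800002000008000010000000000000000000000000000000000000000000000000000) (nat_lit 0x400000000000000020000040000000000000000000000000000000000000000000000) (nat_lit 2)
theorem c52636 : QOK q52636 := cut [] trivial (nd (nat_lit 209) (nat_lit 0) (cs (lf (nat_lit 40) (nat_lit 208)) (lf (nat_lit 47) (nat_lit 186)))) q52636 (by decide +kernel)
def q52646 : Q := Q.p (nat_lit 0x3c0000000000c00002000000000000000000000000000000000000000000000000000000000000000) (nat_lit 0x40000020001c00001200000000000000000000000000000000000000000000000000000000000000000000) (nat_lit 4)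
theorem c52646 : QOK q52646 := cut [] trivial (nd (nat_lit 299) (nat_lit 0) (cs (lf (nat_lit 17) (nat_lit 296)) (nd (nat_lit 298) (nat_lit 0) (cs (lf (nat_lit 12) (nat_lit 295)) (nd (nat_lit 276) (nat_lit 0) (cs (lf (nat_lit 42) (nat_lit 253)) (lf (nat_lit 0) (nat_lit 273)))))))) q52646 (by decide +kernel)
def q52654 : Q := Q.p (nat_lit 0x100003c0000000000000000000000000000000000000000000000000000000000000000000000000000000) (nat_lit 0x20000400003800000000000000000000000000000000000000000000000000000000000000000000000000) (nat_lit 3)
theorem c52654 : QOK q52654 := cut [] trivial (nd (nat_lit 300) (nat_lit 0) (cs (lf (nat_lit 16) (nat_lit 296)) (nd (nat_lit 322) (nat_lit 0) (cs (lf (nat_lit 17) (nat_lit 297)) (lf (nat_lit 10) (nat_lit 318)))))) q52654 (by decide +kernel)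
def q52659 : Q := Q.p (nat_lit 0x900003c0000000000000000000000000000000000000000000000000000000000000000000000000000000) (nat_lit 0x600004380000e0000000000000000000000000000000000000000000000000000000000000000000000000) (nat_lit 5)
theorem c52659 : QOK q52659 := cut [] trivial (nd (nat_lit 317) (nat_lit 0) (cs (lf (nat_lit 4) (nat_lit 317)) (nd (nat_lit 341) (nat_lit 0) (cs (lf (nat_lit 6) (nat_lit 318)) (nd (nat_lit 294) (nat_lit 0) (cs (lf (nat_lit 22) (nat_lit 294)) (nd (nat_lit 316) (nat_lit 0) (cs (lf (nat_lit 23) (nat_lit 293)) (lf (nat_lit 0) (nat_lit 315)))))))))) q52659 (by decide +kernel)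
def q52703 : Q := Q.p (nat_lit 0x100001c000000000000000800000000000000000000000000000000000000000000000000000000000000000000) (nat_lit 0x1a800060000180000200000000000000000000000000000000000000000000000000000000000000000000000000) (nat_lit 5)
theorem c52703 : QOK q52703 := cut [] trivial (nd (nat_lit 341) (nat_lit 0) (cs (lf (nat_lit 11) (nat_lit 337)) (nd (nat_lit 319) (nat_lit 0) (cs (lf (nat_lit 17) (nat_lit 316)) (nd (nat_lit 342) (nat_lit 0) (cs (lf (nat_lit 10) (nat_lit 338)) (nd (nat_lit 364) (nat_lit 0) (cs (lf (nat_lit 4) (nat_lit 338)) (lf (nat_lit 25) (nat_lit 275)))))))))) q52703 (by decide +kernel)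
def q52710 : Q := Q.p (nat_lit 0x78000000000000000800002000000000000000000000000000000000000000000000000000000000000000) (nat_lit 0x4000380000200000000000000000000000000000000000000000000000000000000000000000000000000) (nat_lit 3)
theorem c52710 : QOK q52710 := cut [] trivial (nd (nat_lit 320) (nat_lit 0) (cs (lf (nat_lit 17) (nat_lit 317)) (nd (nat_lit 319) (nat_lit 0) (cs (lf (nat_lit 26) (nat_lit 253)) (lf (nat_lit 12) (nat_lit 316)))))) q52710 (by decide +kernel)
def q52717 : Q := Q.p (nat_lit 0x3c000000000000000000000000000000000000000000000000000000000000000000000000000000000000) (nat_lit 0x1c00000200001c000000000000000000000000000000000000000000000000000000000000000000000000000000) (nat_lit 4)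
theorem c52717 : QOK q52717 := cut [] trivial (nd (nat_lit 315) (nat_lit 0) (cs (lf (nat_lit 22) (nat_lit 315)) (nd (nat_lit 363) (nat_lit 0) (cs (lf (nat_lit 5) (nat_lit 338)) (nd (nat_lit 337) (nat_lit 0) (cs (lf (nat_lit 23) (nat_lit 314)) (lf (nat_lit 4) (nat_lit 337)))))))) q52717 (by decide +kernel)
def q52719 : Q := Q.p (nat_lit 0x3c000008000000000000000000000000000000000000000000000000000000000000000000000000000000) (nat_lit 0x1c00002000004000000000000000000000000000000000000000000000000000000000000000000000000000000) (nat_lit 3)
theorem c52719 : QOK q52719 := cut [] trivial (nd (nat_lit 359) (nat_lit 0) (cs (lf (nat_lit 10) (nat_lit 337)) (nd (nat_lit 337) (nat_lit 0) (cs (lf (nat_lit 23) (nat_lit 314)) (lf (nat_lit 11) (nat_lit 336)))))) q52719 (by decide +kernel)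
def q52728 : Q := Q.p (nat_lit 0x3c000000000000000800000000000000000000000000000000000000000000000000000000000000000000) (nat_lit 0x1c000002000180000200000000000000000000000000000000000000000000000000000000000000000000000000) (nat_lit 4)
theorem c52728 : QOK q52728 := cut [] trivial (nd (nat_lit 319) (nat_lit 0) (cs (lf (nat_lit 17) (nat_lit 316)) (nd (nat_lit 363) (nat_lit 0) (cs (lf (nat_lit 5) (nat_lit 338)) (nd (nat_lit 362) (nat_lit 0) (cs (lf (nat_lit 0) (nat_lit 337)) (lf (nat_lit 37) (nat_lit 274)))))))) q52728 (by decide +kernel)
def q52731 : Q := Q.p (nat_lit 0xf0000180000000000000000000000000000000000000000000000000000000000000000000000000000000) (nat_lit 0xe0000300000000000000000000000000000000000000000000000000000000000000000000000000000000000000) (nat_lit 3)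
theorem c52731 : QOK q52731 := cut [] trivial (nd (nat_lit 366) (nat_lit 0) (cs (lf (nat_lit 4) (nat_lit 340)) (nd (nat_lit 344) (nat_lit 0) (cs (lf (nat_lit 18) (nat_lit 319)) (lf (nat_lit 5) (nat_lit 341)))))) q52731 (by decide +kernel)
def q52751 : Q := Q.p (nat_lit 0x78000000000000000000000000000000000000000000000000000000000000000000000000000000000000) (nat_lit 0x7000080000700000000000000000000000000000000000000000000000000000000000000000000000000000000) (nat_lit 4)
theorem c52751 : QOK q52751 := cut [] trivial (nd (nat_lit 321) (nat_lit 0) (cs (lf (nat_lit 16) (nat_lit 317)) (nd (nat_lit 361) (nat_lit 0) (cs (lf (nat_lit 11) (nat_lit 338)) (nd (nat_lit 343) (nat_lit 0) (cs (lf (nat_lit 10) (nat_lit 339)) (lf (nat_lit 17) (nat_lit 318)))))))) q52751 (by decide +kernel)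
def q52754 : Q := Q.p (nat_lit 0x3e000080000000000800000000000000000000000000000000000000000000000000000000000000000000) (nat_lit 0xc000000000000000200000000000000000000000000000000000000000000000000000000000000000000000000) (nat_lit 2)
theorem c52754 : QOK q52754 := cut [] trivial (nd (nat_lit 362) (nat_lit 0) (cs (lf (nat_lit 5) (nat_lit 337)) (lf (nat_lit 37) (nat_lit 274)))) q52754 (by decide +kernel)
def q52810 : Q := Q.p (nat_lit 0x3c000000000000000000000000000000000000000000000000000000000000000000000000000000000000) (nat_lit 0x3b800040000000000000000000000000000000000000000000000000000000000000000000000000000000000000) (nat_lit 4)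
theorem c52810 : QOK q52810 := cut [] trivial (nd (nat_lit 364) (nat_lit 0) (cs (lf (nat_lit 4) (nat_lit 338)) (nd (nat_lit 360) (nat_lit 0) (cs (lf (nat_lit 11) (nat_lit 337)) (nd (nat_lit 342) (nat_lit 0) (cs (lf (nat_lit 10) (nat_lit 338)) (lf (nat_lit 5) (nat_lit 339)))))))) q52810 (by decide +kernel)
def q52818 : Q := Q.p (nat_lit 0x78000000000000000800000000000000000000000000000000000000000000000000000000000000000000) (nat_lit 0x140000f00003f000080000080000200000000000000000000000000000000000000000000000000000000000000000000000000) (nat_lit 8)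
theorem c52818 : QOK q52818 := cut [] trivial (nd (nat_lit 364) (nat_lit 0) (cs (lf (nat_lit 5) (nat_lit 339)) (nd (nat_lit 319) (nat_lit 0) (cs (lf (nat_lit 25) (nat_lit 275)) (nd (nat_lit 386) (nat_lit 0) (cs (lf (nat_lit 42) (nat_lit 319)) (nd (nat_lit 361) (nat_lit 0) (cs (lf (nat_lit 11) (nat_lit 338)) (nd (nat_lit 362) (nat_lit 0) (cs (lf (nat_lit 6) (nat_lit 339)) (nd (nat_lit 387) (nat_lit 0) (cs (lf (nat_lit 2) (nat_lit 361)) (nd (nat_lit 384) (nat_lit 0) (cs (lf (nat_lit 30) (nat_lit 318)) (lf (nat_lit 20) (nat_lit 361)))))))))))))))) q52818 (by decide +kernel)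
def q52840 : Q := Q.p (nat_lit 0x78000000000000000000000000000000000000000000000000000000000000000000000000000000000000) (nat_lit 0x77000080000000000000000000000000000000000000000000000000000000000000000000000000000000000000) (nat_lit 4)
theorem c52840 : QOK q52840 := cut [] trivial (nd (nat_lit 365) (nat_lit 0) (cs (lf (nat_lit 4) (nat_lit 339)) (nd (nat_lit 361) (nat_lit 0) (cs (lf (nat_lit 11) (nat_lit 338)) (nd (nat_lit 343) (nat_lit 0) (cs (lf (nat_lit 5) (nat_lit 340)) (lf (nat_lit 10) (nat_lit 339)))))))) q52840 (by decide +kernel)
def q52970 : Q := Q.p (nat_lit 0x78000000000000000600000000000000000000000000000000000000000000000000000000000000000000) (nat_lit 0x37000000000030000180000000000000000000000000000000000000000000000000000000000000000000000000) (nat_lit 5)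
theorem c52970 : QOK q52970 := cut [] trivial (nd (nat_lit 317) (nat_lit 0) (cs (lf (nat_lit 23) (nat_lit 316)) (nd (nat_lit 364) (nat_lit 0) (cs (lf (nat_lit 5) (nat_lit 339)) (nd (nat_lit 295) (nat_lit 0) (cs (lf (nat_lit 29) (nat_lit 273)) (nd (nat_lit 361) (nat_lit 0) (cs (lf (nat_lit 34) (nat_lit 273)) (lf (nat_lit 11) (nat_lit 338)))))))))) q52970 (by decide +kernel)
def q52974 : Q := Q.p (nat_lit 0x1e0000080000000000000000000000000000000000000000000000000000000000000000000000000000000) (nat_lit 0x200001d00000000000000000000000000000000000000000000000000000000000000000000000000000000) (nat_lit 3)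
theorem c52974 : QOK q52974 := cut [] trivial (nd (nat_lit 323) (nat_lit 0) (cs (lf (nat_lit 16) (nat_lit 319)) (nd (nat_lit 345) (nat_lit 0) (cs (lf (nat_lit 17) (nat_lit 320)) (lf (nat_lit 22) (nat_lit 319)))))) q52974 (by decide +kernel)
def q53018 : Q := Q.p (nat_lit 0x78000000000000000e00002000000000000000000000000000000000000000000000000000000000000000) (nat_lit 0x40003b0000480001100000e00000000000000000000000000000000000000000000000000000000000000) (nat_lit 7)
theorem c53018 : QOK q53018 := cut [] trivial (nd (nat_lit 320) (nat_lit 0) (cs (lf (nat_lit 17) (nat_lit 317)) (nd (nat_lit 319) (nat_lit 0) (cs (lf (nat_lit 12) (nat_lit 316)) (nd (nat_lit 276) (nat_lit 0) (cs (lf (nat_lit 44) (nat_lit 253)) (nd (nat_lit 250) (nat_lit 0) (cs (lf (nat_lit 22) (nat_lit 250)) (nd (nat_lit 272) (nat_lit 0) (cs (lf (nat_lit 23) (nat_lit 249)) (nd (nat_lit 317) (nat_lit 0) (cs (lf (nat_lit 44) (nat_lit 250)) (lf (nat_lit 23) (nat_lit 316)))))))))))))) q53018 (by decide +kernel)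
def q53028 : Q := Q.p (nat_lit 0x40000000000600000800002000000000000000000000000000000000000000000000000000000000000000) (nat_lit 0x10000000000180000000000000000000000000000000000000000000000000000000000000000000000000000000) (nat_lit 2)
theorem c53028 : QOK q53028 := cut [] trivial (nd (nat_lit 320) (nat_lit 0) (cs (lf (nat_lit 27) (nat_lit 253)) (lf (nat_lit 42) (nat_lit 275)))) q53028 (by decide +kernel)
def q53116 : Q := Q.p (nat_lit 0x40000100000c0000200000000000000000000000000000000000000000000000000000000000000000000) (nat_lit 0x100000800002000000000000000000000000000000000000000000000000000000000) (nat_lit 2)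
theorem c53116 : QOK q53116 := cut [] trivial (nd (nat_lit 251) (nat_lit 0) (cs (lf (nat_lit 36) (nat_lit 228)) (lf (nat_lit 33) (nat_lit 250)))) q53116 (by decide +kernel)
def q53159 : Q := Q.p (nat_lit 0x50000100000000000800002000000000000000000000000000000000000000000000000000000000000000) (nat_lit 0xa00003c000028000000000e00003000000000000000000000000000000000000000000000000000000000000000000000) (nat_lit 7)
theorem c53159 : QOK q53159 := cut [] trivial (nd (nat_lit 298) (nat_lit 0) (cs (lf (nat_lit 45) (nat_lit 253)) (nd (nat_lit 364) (nat_lit 0) (cs (lf (nat_lit 46) (nat_lit 275)) (nd (nat_lit 277) (nat_lit 0) (cs (lf (nat_lit 34) (nat_lit 276)) (nd (nat_lit 363) (nat_lit 0) (cs (lf (nat_lit 41) (nat_lit 297)) (nd (nat_lit 365) (nat_lit 0) (cs (lf (nat_lit 29) (nat_lit 298)) (nd (nat_lit 339) (nat_lit 0) (cs (lf (nat_lit 2) (nat_lit 339)) (lf (nat_lit 21) (nat_lit 339)))))))))))))) q53159 (by decide +kernel)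
def q53162 : Q := Q.p (nat_lit 0x58000100000000000800002000000000000000000000000000000000000000000000000000000000000000) (nat_lit 0x200002c0000200000000000000000000000000000000000000000000000000000000000000000000000000) (nat_lit 3)
theorem c53162 : QOK q53162 := cut [] trivial (nd (nat_lit 321) (nat_lit 0) (cs (lf (nat_lit 14) (nat_lit 317)) (nd (nat_lit 319) (nat_lit 0) (cs (lf (nat_lit 26) (nat_lit 253)) (lf (nat_lit 9) (nat_lit 317)))))) q53162 (by decide +kernel)
def q53165 : Q := Q.p (nat_lit 0x58000100000000000800002000000000000000000000000000000000000000000000000000000000000000) (nat_lit 0x840002e0000200000000000000000000000000000000000000000000000000000000000000000000000000) (nat_lit 4)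
theorem c53165 : QOK q53165 := cut [] trivial (nd (nat_lit 319) (nat_lit 0) (cs (lf (nat_lit 26) (nat_lit 253)) (nd (nat_lit 318) (nat_lit 0) (cs (lf (nat_lit 6) (nat_lit 317)) (nd (nat_lit 317) (nat_lit 0) (cs (lf (nat_lit 5) (nat_lit 317)) (lf (nat_lit 11) (nat_lit 316)))))))) q53165 (by decide +kernel)
def q53171 : Q := Q.p (nat_lit 0x58000100000000000800002000000000000000000000000000000000000000000000000000000000000000) (nat_lit 0x260000e0000200000000000000000000000000000000000000000000000000000000000000000000000000) (nat_lit 4)
theorem c53171 : QOK q53171 := cut [] trivial (nd (nat_lit 319) (nat_lit 0) (cs (lf (nat_lit 26) (nat_lit 253)) (nd (nat_lit 338) (nat_lit 0) (cs (lf (nat_lit 15) (nat_lit 316)) (nd (nat_lit 318) (nat_lit 0) (cs (lf (nat_lit 12) (nat_lit 315)) (lf (nat_lit 9) (nat_lit 316)))))))) q53171 (by decide +kernel)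
def q53198 : Q := Q.p (nat_lit 0x7800000000000000000000000000000000000000000000000000000000000000000000000000) (nat_lit 0x7000008000070000000000000000000000000000000000000000000000000000000000000000000000) (nat_lit 4)
theorem c53198 : QOK q53198 := cut [] trivial (nd (nat_lit 281) (nat_lit 0) (cs (lf (nat_lit 16) (nat_lit 277)) (nd (nat_lit 325) (nat_lit 0) (cs (lf (nat_lit 4) (nat_lit 299)) (nd (nat_lit 303) (nat_lit 0) (cs (lf (nat_lit 17) (nat_lit 278)) (lf (nat_lit 5) (nat_lit 300)))))))) q53198 (by decide +kernel)
def q53202 : Q := Q.p (nat_lit 0x40000f000000000000000000000000000000000000000000000000000000000000000000000000000) (nat_lit 0xe800010000000000000000000000000000000000000000000000000000000000000000000000000000) (nat_lit 3)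
theorem c53202 : QOK q53202 := cut [] trivial (nd (nat_lit 304) (nat_lit 0) (cs (nd (nat_lit 326) (nat_lit 0) (cs (lf (nat_lit 5) (nat_lit 301)) (lf (nat_lit 4) (nat_lit 300)))) (lf (nat_lit 10) (nat_lit 300)))) q53202 (by decide +kernel)
def q53208 : Q := Q.p (nat_lit 0x80000f000000000000000000000000000000000000000000000000000000000000000000000000000) (nat_lit 0x600010000000000000000000000000000000000000000000000000000000000000000000000000000) (nat_lit 2)
theorem c53208 : QOK q53208 := cut [] trivial (nd (nat_lit 322) (nat_lit 0) (cs (lf (nat_lit 6) (nat_lit 300)) (lf (nat_lit 11) (nat_lit 299)))) q53208 (by decide +kernel)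
def q53212 : Q := Q.p (nat_lit 0x7c00000000000000000000000000000000000000000000000000000000000000000000000000) (nat_lit 0x3800000000000000000000000000000000000000000000000000000000000000000000000000000000) (nat_lit 2)
theorem c53212 : QOK q53212 := cut [] trivial (nd (nat_lit 324) (nat_lit 0) (cs (lf (nat_lit 5) (nat_lit 299)) (lf (nat_lit 4) (nat_lit 298)))) q53212 (by decide +kernel)
def q53229 : Q := Q.p (nat_lit 0x100000400001000004000000000000000000000000000000000000000000000000000000000000000000000) (nat_lit 0xa0000280000a00000000000000010000000000000000000000000000000000000000000000000000000000000000) (nat_lit 4)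
theorem c53229 : QOK q53229 := cut [] trivial (nd (nat_lit 343) (nat_lit 0) (cs (lf (nat_lit 41) (nat_lit 277)) (nd (nat_lit 256) (nat_lit 0) (cs (lf (nat_lit 40) (nat_lit 255)) (nd (nat_lit 345) (nat_lit 0) (cs (lf (nat_lit 29) (nat_lit 278)) (lf (nat_lit 28) (nat_lit 256)))))))) q53229 (by decide +kernel)
def q53245 : Q := Q.p (nat_lit 0x200000800003000004000000000000000000000000000000000000000000000000000000000000000000000) (nat_lit 0x400000000000000010000040000000000000000000000000000000000000000000000000000000000) (nat_lit 2)
theorem c53245 : QOK q53245 := cut [] trivial (nd (nat_lit 256) (nat_lit 0) (cs (lf (nat_lit 24) (nat_lit 234)) (lf (nat_lit 27) (nat_lit 256)))) q53245 (by decide +kernel)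
def q53252 : Q := Q.p (nat_lit 0x800002000008000020000000000000000000000000000000000000000000000000000000000000000) (nat_lit 0x500001c0000500000000000000000000000000000000000000000000000000000) (nat_lit 4)
theorem c53252 : QOK q53252 := cut [] trivial (nd (nat_lit 236) (nat_lit 0) (cs (lf (nat_lit 34) (nat_lit 235)) (nd (nat_lit 235) (nat_lit 0) (cs (nd (nat_lit 234) (nat_lit 0) (cs (lf (nat_lit 47) (nat_lit 212)) (lf (nat_lit 46) (nat_lit 234)))) (lf (nat_lit 35) (nat_lit 213)))))) q53252 (by decide +kernel)
def q53262 : Q := Q.p (nat_lit 0x200000800003000008000020000000000000000000000000000000000000000000000000000000000000000) (nat_lit 0x1000004000000000000000040000400001c0000700000400000000000000000000000000000000000000000000000) (nat_lit 6)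
theorem c53262 : QOK q53262 := cut [] trivial (nd (nat_lit 236) (nat_lit 0) (cs (lf (nat_lit 34) (nat_lit 235)) (nd (nat_lit 235) (nat_lit 0) (cs (lf (nat_lit 35) (nat_lit 213)) (nd (nat_lit 346) (nat_lit 0) (cs (lf (nat_lit 29) (nat_lit 279)) (nd (nat_lit 212) (nat_lit 0) (cs (nd (nat_lit 213) (nat_lit 0) (cs (lf (nat_lit 40) (nat_lit 212)) (lf (nat_lit 47) (nat_lit 190)))) (lf (nat_lit 46) (nat_lit 212)))))))))) q53262 (by decide +kernel)
def q53333 : Q := Q.p (nat_lit 0x40000100000400000800002000000000000000000000000000000000000000000000000000000000000000) (nat_lit 0x10000000000080000200000000000000000000000000000000000000000000000000000000000000000000000000) (nat_lit 2)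
theorem c53333 : QOK q53333 := cut [] trivial (nd (nat_lit 297) (nat_lit 0) (cs (lf (nat_lit 27) (nat_lit 253)) (lf (nat_lit 42) (nat_lit 275)))) q53333 (by decide +kernel)
def q53334 : Q := Q.p (nat_lit 0x400001c0000400000000000000000000000000000000000000000000000000000000000000000000000000) (nat_lit 0x80000020000800000000000000000000000000000000000000000000000000000000000000000000000000) (nat_lit 2)
theorem c53334 : QOK q53334 := cut [] trivial (nd (nat_lit 317) (nat_lit 0) (cs (lf (nat_lit 5) (nat_lit 317)) (lf (nat_lit 17) (nat_lit 295)))) q53334 (by decide +kernel)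
def q53340 : Q := Q.p (nat_lit 0x400003c0000000000000000000000000000000000000000000000000000000000000000000000000000000) (nat_lit 0x180000020000000000000000000000000000000000000000000000000000000000000000000000000000000) (nat_lit 2)
theorem c53340 : QOK q53340 := cut [] trivial (nd (nat_lit 343) (nat_lit 0) (cs (lf (nat_lit 5) (nat_lit 318)) (lf (nat_lit 0) (nat_lit 317)))) q53340 (by decide +kernel)
def q53349 : Q := Q.p (nat_lit 0x4000010000040000100000400000000000000000000000000000000000000000000000000000000000000000000000000) (nat_lit 0x200000800002000000000000000000000000000000000000000000000000000000000000000000000) (nat_lit 2)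
theorem c53349 : QOK q53349 := cut [] trivial (nd (nat_lit 299) (nat_lit 0) (cs (lf (nat_lit 34) (nat_lit 298)) (lf (nat_lit 35) (nat_lit 276)))) q53349 (by decide +kernel)
def q53354 : Q := Q.p (nat_lit 0x10000040000100000400000000000000000000000000000000000000000000000000000000000000000000000000) (nat_lit 0x800006000008000000000200000800002000000000000000000000000000000000000000000000000000000000000000000000) (nat_lit 4)
theorem c53354 : QOK q53354 := cut [] trivial (nd (nat_lit 385) (nat_lit 0) (cs (lf (nat_lit 40) (nat_lit 297)) (nd (nat_lit 299) (nat_lit 0) (cs (lf (nat_lit 35) (nat_lit 276)) (nd (nat_lit 386) (nat_lit 0) (cs (lf (nat_lit 41) (nat_lit 319)) (lf (nat_lit 34) (nat_lit 298)))))))) q53354 (by decide +kernel)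
def q53361 : Q := Q.p (nat_lit 0x1000000000078000020000000000000000000000000000000000000000000000000000000000000000000000000000000) (nat_lit 0x400000000007000000000000000080000000000000000000000000000000000000000000000000000000000000000000000000) (nat_lit 3)
theorem c53361 : QOK q53361 := cut [] trivial (nd (nat_lit 362) (nat_lit 0) (cs (lf (nat_lit 42) (nat_lit 317)) (nd (nat_lit 361) (nat_lit 0) (cs (lf (nat_lit 11) (nat_lit 338)) (lf (nat_lit 24) (nat_lit 295)))))) q53361 (by decide +kernel)
def q53365 : Q := Q.p (nat_lit 0x1000002000018000020000000000000000000000000000000000000000000000000000000000000000000000000000000) (nat_lit 0x40000700000c00000000000000040000000000000000000000000000000000000000000000000000000000000000000000000000000) (nat_lit 4)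
theorem c53365 : QOK q53365 := cut [] trivial (nd (nat_lit 383) (nat_lit 0) (cs (lf (nat_lit 29) (nat_lit 317)) (nd (nat_lit 404) (nat_lit 0) (cs (lf (nat_lit 40) (nat_lit 316)) (nd (nat_lit 405) (nat_lit 0) (cs (lf (nat_lit 41) (nat_lit 338)) (lf (nat_lit 35) (nat_lit 317)))))))) q53365 (by decide +kernel)
def q53381 : Q := Q.p (nat_lit 0xf0000000000000000800002000000000000000000000000000000000000000000000000000000000000000) (nat_lit 0x1000000e0000200000000000000000000000000000000000000000000000000000000000000000000000000) (nat_lit 3)
theorem c53381 : QOK q53381 := cut [] trivial (nd (nat_lit 318) (nat_lit 0) (cs (lf (nat_lit 23) (nat_lit 317)) (nd (nat_lit 319) (nat_lit 0) (cs (lf (nat_lit 38) (nat_lit 252)) (lf (nat_lit 18) (nat_lit 318)))))) q53381 (by decide +kernel)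
def q53404 : Q := Q.p (nat_lit 0x50000080000000000800002000000000000000000000000000000000000000000000000000000000000000) (nat_lit 0x140000200000000000000000000000000000000000000000000000000000000000000000000000000) (nat_lit 2)
theorem c53404 : QOK q53404 := cut [] trivial (nd (nat_lit 297) (nat_lit 0) (cs (lf (nat_lit 28) (nat_lit 253)) (lf (nat_lit 40) (nat_lit 252)))) q53404 (by decide +kernel)
def q53414 : Q := Q.p (nat_lit 0x78000080000000000000000000000000000000000000000000000000000000000000000000000000000000) (nat_lit 0x4000300000000000000000000000000000000000000000000000000000000000000000000000000000000) (nat_lit 2)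
theorem c53414 : QOK q53414 := cut [] trivial (nd (nat_lit 320) (nat_lit 0) (cs (lf (nat_lit 17) (nat_lit 317)) (lf (nat_lit 12) (nat_lit 316)))) q53414 (by decide +kernel)
def q53418 : Q := Q.p (nat_lit 0x18000060000080000000000000000000000000000000000000000000000000000000000000000000000000) (nat_lit 0x4000000000000000000000200000800000000000000000000000000000000000000000000000000000000000000) (nat_lit 2)
theorem c53418 : QOK q53418 := cut [] trivial (nd (nat_lit 273) (nat_lit 0) (cs (lf (nat_lit 29) (nat_lit 273)) (lf (nat_lit 24) (nat_lit 251)))) q53418 (by decide +kernel)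
def q53431 : Q := Q.p (nat_lit 0x20000080000200000800000000000000000000000000000000000000000000000000000000000000000000000000) (nat_lit 0x140000700001c000000000000000100000400001000000000000000000000000000000000000000000000000000000000000000000000) (nat_lit 6)
theorem c53431 : QOK q53431 := cut [] trivial (nd (nat_lit 298) (nat_lit 0) (cs (lf (nat_lit 47) (nat_lit 276)) (nd (nat_lit 387) (nat_lit 0) (cs (lf (nat_lit 46) (nat_lit 298)) (nd (nat_lit 410) (nat_lit 0) (cs (lf (nat_lit 28) (nat_lit 321)) (nd (nat_lit 408) (nat_lit 0) (cs (lf (nat_lit 40) (nat_lit 320)) (nd (nat_lit 409) (nat_lit 0) (cs (lf (nat_lit 41) (nat_lit 342)) (lf (nat_lit 29) (nat_lit 343)))))))))))) q53431 (by decide +kernel)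
def q53435 : Q := Q.p (nat_lit 0x200000f0000280000800000000000000000000000000000000000000000000000000000000000000000000000000) (nat_lit 0x160001000004000000000000000000000000000000000000000000000000000000000000000000000) (nat_lit 3)
theorem c53435 : QOK q53435 := cut [] trivial (nd (nat_lit 300) (nat_lit 0) (cs (lf (nat_lit 35) (nat_lit 277)) (nd (nat_lit 318) (nat_lit 0) (cs (lf (nat_lit 23) (nat_lit 317)) (lf (nat_lit 14) (nat_lit 296)))))) q53435 (by decide +kernel)
def q53446 : Q := Q.p (nat_lit 0x78000080000000000000000000000000000000000000000000000000000000000000000000000000000000) (nat_lit 0x4000138000000000000000000000000000000000000000000000000000000000000000000000000000000) (nat_lit 3)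
theorem c53446 : QOK q53446 := cut [] trivial (nd (nat_lit 316) (nat_lit 0) (cs (lf (nat_lit 22) (nat_lit 316)) (nd (nat_lit 338) (nat_lit 0) (cs (lf (nat_lit 23) (nat_lit 315)) (lf (nat_lit 17) (nat_lit 316)))))) q53446 (by decide +kernel)
def q53448 : Q := Q.p (nat_lit 0xf0000080000000000000000000000000000000000000000000000000000000000000000000000000000000) (nat_lit 0x100000060000000000000000000000000000000000000000000000000000000000000000000000000000000) (nat_lit 2)
theorem c53448 : QOK q53448 := cut [] trivial (nd (nat_lit 318) (nat_lit 0) (cs (lf (nat_lit 18) (nat_lit 318)) (lf (nat_lit 23) (nat_lit 317)))) q53448 (by decide +kernel)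
def q53472 : Q := Q.p (nat_lit 0x4000010000040000100000000000000000000000000000000000000000000000000000000000000000000000000000000) (nat_lit 0x600003e0003a00002e000020000080000000000000000000000000000000000000000000000000000000000000000000000000000000) (nat_lit 9)
theorem c53472 : QOK q53472 := cut [] trivial (nd (nat_lit 387) (nat_lit 0) (cs (lf (nat_lit 29) (nat_lit 320)) (nd (nat_lit 407) (nat_lit 0) (cs (lf (nat_lit 40) (nat_lit 319)) (nd (nat_lit 408) (nat_lit 0) (cs (lf (nat_lit 41) (nat_lit 341)) (nd (nat_lit 405) (nat_lit 0) (cs (lf (nat_lit 13) (nat_lit 383)) (nd (nat_lit 388) (nat_lit 0) (cs (lf (nat_lit 6) (nat_lit 385)) (nd (nat_lit 341) (nat_lit 0) (cs (lf (nat_lit 47) (nat_lit 319)) (nd (nat_lit 363) (nat_lit 0) (cs (lf (nat_lit 42) (nat_lit 341)) (nd (nat_lit 362) (nat_lit 0) (cs (lf (nat_lit 0) (nat_lit 361)) (lf (nat_lit 3) (nat_lit 362)))))))))))))))))) q53472 (by decide +kernel)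
def q53483 : Q := Q.p (nat_lit 0x10000050000100000000000800002000000000000000000000000000000000000000000000000000000000000000) (nat_lit 0x7a0000e8000720000000000c00003000000000000000000000000000000000000000000000000000000000000000000000) (nat_lit 9)
theorem c53483 : QOK q53483 := cut [] trivial (nd (nat_lit 298) (nat_lit 0) (cs (lf (nat_lit 45) (nat_lit 253)) (nd (nat_lit 277) (nat_lit 0) (cs (lf (nat_lit 34) (nat_lit 276)) (nd (nat_lit 365) (nat_lit 0) (cs (lf (nat_lit 29) (nat_lit 298)) (nd (nat_lit 363) (nat_lit 0) (cs (lf (nat_lit 41) (nat_lit 297)) (nd (nat_lit 366) (nat_lit 0) (cs (lf (nat_lit 22) (nat_lit 340)) (nd (nat_lit 389) (nat_lit 0) (cs (lf (nat_lit 4) (nat_lit 363)) (nd (nat_lit 345) (nat_lit 0) (cs (nd (nat_lit 367) (nat_lit 0) (cs (lf (nat_lit 17) (nat_lit 342)) (lf (nat_lit 5) (nat_lit 364)))) (lf (nat_lit 16) (nat_lit 341)))))))))))))))) q53483 (by decide +kernel)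
def q53510 : Q := Q.p (nat_lit 0x40000300001800000c00000000000000000000000000000000000000000000000000000000000000000000) (nat_lit 0x3000008000000000000000000000000000000000000000000000000000000000000000) (nat_lit 2)
theorem c53510 : QOK q53510 := cut [] trivial (nd (nat_lit 277) (nat_lit 0) (cs (lf (nat_lit 36) (nat_lit 254)) (lf (nat_lit 2) (nat_lit 274)))) q53510 (by decide +kernel)
def q53514 : Q := Q.p (nat_lit 0x10000040000300000800000000000000000000000000000000000000000000000000000000000000000000000000) (nat_lit 0x80000000000000002000008000000000000000000000000000000000000000000000000000000000000000) (nat_lit 2)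
theorem c53514 : QOK q53514 := cut [] trivial (nd (nat_lit 277) (nat_lit 0) (cs (lf (nat_lit 36) (nat_lit 254)) (lf (nat_lit 39) (nat_lit 276)))) q53514 (by decide +kernel)
def q53522 : Q := Q.p (nat_lit 0x240000700000000000000000000000000000000000000000000000000000000000000000000000000000000) (nat_lit 0x48000180000e000000000000000000000000000000000000000000000000000000000000000000000000000) (nat_lit 4)
theorem c53522 : QOK q53522 := cut [] trivial (nd (nat_lit 323) (nat_lit 0) (cs (lf (nat_lit 5) (nat_lit 320)) (nd (nat_lit 324) (nat_lit 0) (cs (lf (nat_lit 10) (nat_lit 320)) (nd (nat_lit 302) (nat_lit 0) (cs (lf (nat_lit 17) (nat_lit 299)) (lf (nat_lit 16) (nat_lit 298)))))))) q53522 (by decide +kernel)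
def q53547 : Q := Q.p (nat_lit 0xc00001c0000000000000000000000000000000000000000000000000000000000000000000000000000000) (nat_lit 0x300000200000000000000000000000000000000000000000000000000000000000000000000000000000000) (nat_lit 2)
theorem c53547 : QOK q53547 := cut [] trivial (nd (nat_lit 344) (nat_lit 0) (cs (lf (nat_lit 18) (nat_lit 319)) (lf (nat_lit 3) (nat_lit 318)))) q53547 (by decide +kernel)
def q53616 : Q := Q.p (nat_lit 0x1e0000100000000000000000000000000000000000000000000000000000000000000000000000000000000) (nat_lit 0x200001c80000000000000000000000000000000000000000000000000000000000000000000000000000000) (nat_lit 3)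
theorem c53616 : QOK q53616 := cut [] trivial (nd (nat_lit 323) (nat_lit 0) (cs (lf (nat_lit 16) (nat_lit 319)) (nd (nat_lit 345) (nat_lit 0) (cs (lf (nat_lit 17) (nat_lit 320)) (lf (nat_lit 23) (nat_lit 319)))))) q53616 (by decide +kernel)
def q53662 : Q := Q.p (nat_lit 0x50000300000000000000000000000000000000000000000000000000000000000000000000000000000000) (nat_lit 0xa8000c00000000000000000000000000000000000000000000000000000000000000000000000000000000) (nat_lit 3)
theorem c53662 : QOK q53662 := cut [] trivial (nd (nat_lit 341) (nat_lit 0) (cs (lf (nat_lit 12) (nat_lit 317)) (nd (nat_lit 322) (nat_lit 0) (cs (lf (nat_lit 6) (nat_lit 319)) (lf (nat_lit 15) (nat_lit 318)))))) q53662 (by decide +kernel)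
def q53687 : Q := Q.p (nat_lit 0x3c0000100000000000000000000000000000000000000000000000000000000000000000000000000000000) (nat_lit 0x400003a00000000000000000000000000000000000000000000000000000000000000000000000000000000) (nat_lit 3)
theorem c53687 : QOK q53687 := cut [] trivial (nd (nat_lit 324) (nat_lit 0) (cs (lf (nat_lit 16) (nat_lit 320)) (nd (nat_lit 346) (nat_lit 0) (cs (lf (nat_lit 22) (nat_lit 320)) (lf (nat_lit 17) (nat_lit 321)))))) q53687 (by decide +kernel)
def q53795 : Q := Q.p (nat_lit 0x78000080000000000000000000000000000000000000000000000000000000000000000000000000000000) (nat_lit 0x3800004000100000000000000000000000000000000000000000000000000000000000000000000000000000000) (nat_lit 3)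
theorem c53795 : QOK q53795 := cut [] trivial (nd (nat_lit 360) (nat_lit 0) (cs (lf (nat_lit 10) (nat_lit 338)) (nd (nat_lit 338) (nat_lit 0) (cs (lf (nat_lit 11) (nat_lit 337)) (lf (nat_lit 17) (nat_lit 316)))))) q53795 (by decide +kernel)
def q53837 : Q := Q.p (nat_lit 0x78000080000000000800002000000000000000000000000000000000000000000000000000000000000000) (nat_lit 0x380000e000038000004000100000400001000000000000000000000000000000000000000000000000000000000000000000000) (nat_lit 7)
theorem c53837 : QOK q53837 := cut [] trivial (nd (nat_lit 320) (nat_lit 0) (cs (lf (nat_lit 12) (nat_lit 316)) (nd (nat_lit 364) (nat_lit 0) (cs (lf (nat_lit 5) (nat_lit 339)) (nd (nat_lit 386) (nat_lit 0) (cs (lf (nat_lit 42) (nat_lit 319)) (nd (nat_lit 387) (nat_lit 0) (cs (lf (nat_lit 29) (nat_lit 320)) (nd (nat_lit 385) (nat_lit 0) (cs (lf (nat_lit 41) (nat_lit 319)) (nd (nat_lit 298) (nat_lit 0) (cs (lf (nat_lit 45) (nat_lit 253)) (lf (nat_lit 40) (nat_lit 297)))))))))))))) q53837 (by decide +kernel)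
def q53878 : Q := Q.p (nat_lit 0x78000000000000000800002000000000000000000000000000000000000000000000000000000000000000) (nat_lit 0x80000380000e00003b0000000003b0000c00003000000000000000000000000000000000000000000000000000000000000000000000) (nat_lit 11)
theorem c53878 : QOK q53878 := cut [] trivial (nd (nat_lit 364) (nat_lit 0) (cs (lf (nat_lit 5) (nat_lit 339)) (nd (nat_lit 316) (nat_lit 0) (cs (lf (nat_lit 22) (nat_lit 316)) (nd (nat_lit 360) (nat_lit 0) (cs (lf (nat_lit 10) (nat_lit 338)) (nd (nat_lit 320) (nat_lit 0) (cs (lf (nat_lit 17) (nat_lit 317)) (nd (nat_lit 298) (nat_lit 0) (cs (lf (nat_lit 45) (nat_lit 253)) (nd (nat_lit 385) (nat_lit 0) (cs (lf (nat_lit 40) (nat_lit 297)) (nd (nat_lit 277) (nat_lit 0) (cs (lf (nat_lit 34) (nat_lit 276)) (nd (nat_lit 386) (nat_lit 0) (cs (lf (nat_lit 41) (nat_lit 319)) (nd (nat_lit 409) (nat_lit 0) (cs (lf (nat_lit 28) (nat_lit 320)) (nd (nat_lit 408) (nat_lit 0) (cs (lf (nat_lit 29) (nat_lit 342)) (lf (nat_lit 47) (nat_lit 319)))))))))))))))))))))) q53878 (by decide +kernel)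
def q53964 : Q := Q.p (nat_lit 0x1c0000c0000000000000000000000000000000000000000000000000000000000000000000000000000000) (nat_lit 0x320000000000000000000000000000000000000000000000000000000000000000000000000000000) (nat_lit 2)
theorem c53964 : QOK q53964 := cut [] trivial (nd (nat_lit 320) (nat_lit 0) (cs (lf (nat_lit 6) (nat_lit 317)) (lf (nat_lit 9) (nat_lit 316)))) q53964 (by decide +kernel)
def q53967 : Q := Q.p (nat_lit 0xc000010000040000c00000000000000000000000000000000000000000000000000000000000000000000) (nat_lit 0x2000000000000000020000300000800000000000000000000000000000000000000000000000000000000000000) (nat_lit 3)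
theorem c53967 : QOK q53967 := cut [] trivial (nd (nat_lit 272) (nat_lit 0) (cs (lf (nat_lit 29) (nat_lit 272)) (nd (nat_lit 273) (nat_lit 0) (cs (lf (nat_lit 11) (nat_lit 271)) (lf (nat_lit 35) (nat_lit 250)))))) q53967 (by decide +kernel)
def q53968 : Q := Q.p (nat_lit 0x60000e00000000000000000000000000000000000000000000000000000000000000000000) (nat_lit 0x90001000000000000000000000000000000000000000000000000000000000000000000000) (nat_lit 2)
theorem c53968 : QOK q53968 := cut [] trivial (nd (nat_lit 295) (nat_lit 0) (cs (lf (nat_lit 12) (nat_lit 270)) (lf (nat_lit 6) (nat_lit 272)))) q53968 (by decide +kernel)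
def q53981 : Q := Q.p (nat_lit 0xc000010000040000000000000000000000000000000000000000000000000000000000000000000000000) (nat_lit 0x2000000000020000000000300000c00002000000000000000000000000000000000000000000000000000000000) (nat_lit 4)
theorem c53981 : QOK q53981 := cut [] trivial (nd (nat_lit 272) (nat_lit 0) (cs (lf (nat_lit 29) (nat_lit 272)) (nd (nat_lit 251) (nat_lit 0) (cs (lf (nat_lit 34) (nat_lit 250)) (nd (nat_lit 250) (nat_lit 0) (cs (lf (nat_lit 35) (nat_lit 228)) (lf (nat_lit 28) (nat_lit 250)))))))) q53981 (by decide +kernel)
def q53982 : Q := Q.p (nat_lit 0x700000c0000000000000000000000000000000000000000000000000000000000000000000000000000000) (nat_lit 0x180000020000000000000000000000000000000000000000000000000000000000000000000000000000000) (nat_lit 2)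
theorem c53982 : QOK q53982 := cut [] trivial (nd (nat_lit 343) (nat_lit 0) (cs (lf (nat_lit 18) (nat_lit 318)) (lf (nat_lit 23) (nat_lit 317)))) q53982 (by decide +kernel)
def q53990 : Q := Q.p (nat_lit 0x1e000000000000000000000000000000000000000000000000000000000000000000000000000000000000) (nat_lit 0x1c00002000001c000000000000000000000000000000000000000000000000000000000000000000000000000000) (nat_lit 4)
theorem c53990 : QOK q53990 := cut [] trivial (nd (nat_lit 363) (nat_lit 0) (cs (lf (nat_lit 4) (nat_lit 337)) (nd (nat_lit 315) (nat_lit 0) (cs (lf (nat_lit 23) (nat_lit 314)) (nd (nat_lit 341) (nat_lit 0) (cs (lf (nat_lit 22) (nat_lit 315)) (lf (nat_lit 5) (nat_lit 338)))))))) q53990 (by decide +kernel)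
def q53998 : Q := Q.p (nat_lit 0x1000004000010000040000000000000000000000000000000000000000000000000000000000000000000000000) (nat_lit 0xa0000380000a00000000000000000000000000000000000000000000000000000000000000) (nat_lit 4)
theorem c53998 : QOK q53998 := cut [] trivial (nd (nat_lit 271) (nat_lit 0) (cs (lf (nat_lit 46) (nat_lit 271)) (nd (nat_lit 273) (nat_lit 0) (cs (lf (nat_lit 34) (nat_lit 272)) (nd (nat_lit 272) (nat_lit 0) (cs (lf (nat_lit 35) (nat_lit 250)) (lf (nat_lit 47) (nat_lit 249)))))))) q53998 (by decide +kernel)
def q54033 : Q := Q.p (nat_lit 0x3c000000000000000000000000000000000000000000000000000000000000000000000000000000000000) (nat_lit 0x3800040000380000000000000000000000000000000000000000000000000000000000000000000000000000000) (nat_lit 4)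
theorem c54033 : QOK q54033 := cut [] trivial (nd (nat_lit 320) (nat_lit 0) (cs (lf (nat_lit 16) (nat_lit 316)) (nd (nat_lit 360) (nat_lit 0) (cs (lf (nat_lit 11) (nat_lit 337)) (nd (nat_lit 342) (nat_lit 0) (cs (lf (nat_lit 10) (nat_lit 338)) (lf (nat_lit 17) (nat_lit 317)))))))) q54033 (by decide +kernel)
def q54044 : Q := Q.p (nat_lit 0x3c000000000000000000000000000000000000000000000000000000000000000000000000000000000000) (nat_lit 0x400003b8000000000000000000000000000000000000000000000000000000000000000000000000000000) (nat_lit 4)
theorem c54044 : QOK q54044 := cut [] trivial (nd (nat_lit 316) (nat_lit 0) (cs (lf (nat_lit 23) (nat_lit 315)) (nd (nat_lit 320) (nat_lit 0) (cs (lf (nat_lit 16) (nat_lit 316)) (nd (nat_lit 342) (nat_lit 0) (cs (lf (nat_lit 22) (nat_lit 316)) (lf (nat_lit 17) (nat_lit 317)))))))) q54044 (by decide +kernel)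
def q54055 : Q := Q.p (nat_lit 0x10000040000d0000040000000000000000000000000000000000000000000000000000000000000000000000000) (nat_lit 0x20000020000080000000000000000000000000000000000000000000000000000000000000000000) (nat_lit 2)
theorem c54055 : QOK q54055 := cut [] trivial (nd (nat_lit 293) (nat_lit 0) (cs (lf (nat_lit 47) (nat_lit 271)) (lf (nat_lit 20) (nat_lit 293)))) q54055 (by decide +kernel)
def q54077 : Q := Q.p (nat_lit 0x6000018000020000080000000000000000000000000000000000000000000000000000000000000000000000000) (nat_lit 0x400001800060000000000000000000000000000000000000000000000000000000000000000000000000000000000000) (nat_lit 3)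
theorem c54077 : QOK q54077 := cut [] trivial (nd (nat_lit 360) (nat_lit 0) (cs (lf (nat_lit 41) (nat_lit 294)) (nd (nat_lit 341) (nat_lit 0) (cs (lf (nat_lit 12) (nat_lit 337)) (lf (nat_lit 6) (nat_lit 338)))))) q54077 (by decide +kernel)
def q54087 : Q := Q.p (nat_lit 0x8000030000060000c00000000000000000000000000000000000000000000000000000000000000000000) (nat_lit 0x300000400000000000000000000000000000000000000000000000000000000000000) (nat_lit 2)
theorem c54087 : QOK q54087 := cut [] trivial (nd (nat_lit 272) (nat_lit 0) (cs (lf (nat_lit 8) (nat_lit 271)) (lf (nat_lit 24) (nat_lit 250)))) q54087 (by decide +kernel)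
def q54150 : Q := Q.p (nat_lit 0x7800000000000000000000000000000000000000000000000000000000000000000000000000000000000000000000000) (nat_lit 0x7000008000070000000000000000000000000000000000000000000000000000000000000000000000000000000000000000000) (nat_lit 4)
theorem c54150 : QOK q54150 := cut [] trivial (nd (nat_lit 409) (nat_lit 0) (cs (lf (nat_lit 4) (nat_lit 383)) (nd (nat_lit 387) (nat_lit 0) (cs (lf (nat_lit 5) (nat_lit 384)) (nd (nat_lit 365) (nat_lit 0) (cs (lf (nat_lit 17) (nat_lit 362)) (lf (nat_lit 16) (nat_lit 361)))))))) q54150 (by decide +kernel)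
def q54178 : Q := Q.p (nat_lit 0x18000060000080000c00000000000000000000000000000000000000000000000000000000000000000000) (nat_lit 0x2000000000000000040001300000c00000000000000000000000000000000000000000000000000000000000000) (nat_lit 4)
theorem c54178 : QOK q54178 := cut [] trivial (nd (nat_lit 273) (nat_lit 0) (cs (lf (nat_lit 24) (nat_lit 251)) (nd (nat_lit 272) (nat_lit 0) (cs (lf (nat_lit 47) (nat_lit 250)) (nd (nat_lit 294) (nat_lit 0) (cs (lf (nat_lit 6) (nat_lit 272)) (lf (nat_lit 42) (nat_lit 272)))))))) q54178 (by decide +kernel)
def q54187 : Q := Q.p (nat_lit 0x4000018000060000000000000000000000000000000000000000000000000000000000000000000000000000000) (nat_lit 0x400001000000000000000000000080000000000000000000000000000000000000000000000000000000000000000000000000) (nat_lit 2)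
theorem c54187 : QOK q54187 := cut [] trivial (nd (nat_lit 384) (nat_lit 0) (cs (lf (nat_lit 47) (nat_lit 295)) (lf (nat_lit 42) (nat_lit 317)))) q54187 (by decide +kernel)
def q54240 : Q := Q.p (nat_lit 0x80000200000c000010000000000000000000000000000000000000000000000000000000000000000000000000000000) (nat_lit 0x1000000000000000040000100000000000000000000000000000000000000000000000000000000000000000000) (nat_lit 2)
theorem c54240 : QOK q54240 := cut [] trivial (nd (nat_lit 294) (nat_lit 0) (cs (lf (nat_lit 24) (nat_lit 272)) (lf (nat_lit 27) (nat_lit 294)))) q54240 (by decide +kernel)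
def q54243 : Q := Q.p (nat_lit 0x1c00003000018000000000000000000000000000000000000000000000000000000000000000000000000000000000000) (nat_lit 0x2000000c00000000000000000000000000000000000000000000000000000000000000000000000000000000000000000) (nat_lit 2)
theorem c54243 : QOK q54243 := cut [] trivial (nd (nat_lit 359) (nat_lit 0) (cs (lf (nat_lit 12) (nat_lit 336)) (lf (nat_lit 18) (nat_lit 359)))) q54243 (by decide +kernel)
def q54269 : Q := Q.p (nat_lit 0x380000e000008000000000000000000000000000000000000000000000000000000000000000000000000000000000000) (nat_lit 0x180000600000000000000020000000000000000000000000000000000000000000000000000000000000000000000000000000) (nat_lit 3)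
theorem c54269 : QOK q54269 := cut [] trivial (nd (nat_lit 382) (nat_lit 0) (cs (lf (nat_lit 12) (nat_lit 359)) (nd (nat_lit 404) (nat_lit 0) (cs (lf (nat_lit 11) (nat_lit 381)) (lf (nat_lit 36) (nat_lit 316)))))) q54269 (by decide +kernel)
def q54277 : Q := Q.p (nat_lit 0x3800002000018000000000000000000000000000000000000000000000000000000000000000000000000000000000000) (nat_lit 0x4400001c00000000000000000000000000000000000000000000000000000000000000000000000000000000000000000) (nat_lit 3)
theorem c54277 : QOK q54277 := cut [] trivial (nd (nat_lit 360) (nat_lit 0) (cs (lf (nat_lit 18) (nat_lit 360)) (nd (nat_lit 359) (nat_lit 0) (cs (lf (nat_lit 12) (nat_lit 336)) (lf (nat_lit 21) (nat_lit 359)))))) q54277 (by decide +kernel)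
def q54356 : Q := Q.p (nat_lit 0x2000008000020000080000200000000000000000000000000000000000000000000000000000000000000) (nat_lit 0x40000100000400000000000000000000000000000000000000000000000000000000) (nat_lit 2)
theorem c54356 : QOK q54356 := cut [] trivial (nd (nat_lit 248) (nat_lit 0) (cs (lf (nat_lit 47) (nat_lit 226)) (lf (nat_lit 46) (nat_lit 248)))) q54356 (by decide +kernel)
def q54367 : Q := Q.p (nat_lit 0x1c000040000000000000000000000000000000000000000000000000000000000000000000000000000000) (nat_lit 0xe00000300008e000000000000000000000000000000000000000000000000000000000000000000000000000000) (nat_lit 5)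
theorem c54367 : QOK q54367 := cut [] trivial (nd (nat_lit 337) (nat_lit 0) (cs (lf (nat_lit 17) (nat_lit 315)) (nd (nat_lit 314) (nat_lit 0) (cs (lf (nat_lit 22) (nat_lit 314)) (nd (nat_lit 362) (nat_lit 0) (cs (lf (nat_lit 5) (nat_lit 337)) (nd (nat_lit 336) (nat_lit 0) (cs (lf (nat_lit 23) (nat_lit 313)) (lf (nat_lit 4) (nat_lit 336)))))))))) q54367 (by decide +kernel)
def q54374 : Q := Q.p (nat_lit 0x6000078000000000000000000000000000000000000000000000000000000000000000000000000000000) (nat_lit 0x1000000000000000030000080000200000000000000000000000000000000000000000000000000000000000000) (nat_lit 3)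
theorem c54374 : QOK q54374 := cut [] trivial (nd (nat_lit 293) (nat_lit 0) (cs (lf (nat_lit 23) (nat_lit 292)) (nd (nat_lit 271) (nat_lit 0) (cs (lf (nat_lit 24) (nat_lit 249)) (lf (nat_lit 29) (nat_lit 271)))))) q54374 (by decide +kernel)
def q54395 : Q := Q.p (nat_lit 0x3c000000000000000000000000000000000000000000000000000000000000000000000000000000000000) (nat_lit 0x38000040000380000000000000000000000000000000000000000000000000000000000000000000000000000000) (nat_lit 4)
theorem c54395 : QOK q54395 := cut [] trivial (nd (nat_lit 364) (nat_lit 0) (cs (lf (nat_lit 4) (nat_lit 338)) (nd (nat_lit 320) (nat_lit 0) (cs (lf (nat_lit 16) (nat_lit 316)) (nd (nat_lit 342) (nat_lit 0) (cs (lf (nat_lit 5) (nat_lit 339)) (lf (nat_lit 17) (nat_lit 317)))))))) q54395 (by decide +kernel)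
def q54412 : Q := Q.p (nat_lit 0x180001c00000000000000000000000000000000000000000000000000000000000000000000) (nat_lit 0x60000200000000000000000000000000000000000000000000000000000000000000000000) (nat_lit 2)
theorem c54412 : QOK q54412 := cut [] trivial (nd (nat_lit 294) (nat_lit 0) (cs (lf (nat_lit 12) (nat_lit 271)) (lf (nat_lit 9) (nat_lit 272)))) q54412 (by decide +kernel)
def q54450 : Q := Q.p (nat_lit 0x100000900001c000030000000000000000000000000000000000000000000000000000000000000000000000000000000) (nat_lit 0x700000e00004000000000000000000000000000000000000000000000000000000000000000000000000000000000000000000) (nat_lit 4)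
theorem c54450 : QOK q54450 := cut [] trivial (nd (nat_lit 382) (nat_lit 0) (cs (lf (nat_lit 30) (nat_lit 316)) (nd (nat_lit 383) (nat_lit 0) (cs (lf (nat_lit 29) (nat_lit 316)) (nd (nat_lit 362) (nat_lit 0) (cs (lf (nat_lit 42) (nat_lit 317)) (lf (nat_lit 12) (nat_lit 359)))))))) q54450 (by decide +kernel)
def q54468 : Q := Q.p (nat_lit 0x18000038000000000000000000000000000000000000000000000000000000000000000000000000000000) (nat_lit 0x64000000000000000000000000000000000000000000000000000000000000000000000000000000000000) (nat_lit 2)
theorem c54468 : QOK q54468 := cut [] trivial (nd (nat_lit 341) (nat_lit 0) (cs (lf (nat_lit 18) (nat_lit 316)) (lf (nat_lit 21) (nat_lit 315)))) q54468 (by decide +kernel)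
def q54475 : Q := Q.p (nat_lit 0x8000020000080001e00000000000000000000000000000000000000000000000000000000000000000000) (nat_lit 0x100000c00000000000000000000000000000000000000000000000000000000000000) (nat_lit 2)
theorem c54475 : QOK q54475 := cut [] trivial (nd (nat_lit 250) (nat_lit 0) (cs (lf (nat_lit 22) (nat_lit 250)) (lf (nat_lit 46) (nat_lit 250)))) q54475 (by decide +kernel)
def q54479 : Q := Q.p (nat_lit 0x18000020000080000200000000000000000000000000000000000000000000000000000000000000000000) (nat_lit 0x1000004000050000000000000000800000000000000000000000000000000000000000000000000000000000000) (nat_lit 3)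
theorem c54479 : QOK q54479 := cut [] trivial (nd (nat_lit 338) (nat_lit 0) (cs (lf (nat_lit 41) (nat_lit 272)) (nd (nat_lit 251) (nat_lit 0) (cs (lf (nat_lit 40) (nat_lit 250)) (lf (nat_lit 28) (nat_lit 251)))))) q54479 (by decide +kernel)
def q54504 : Q := Q.p (nat_lit 0x3c000040000000000000000000000000000000000000000000000000000000000000000000000000000000) (nat_lit 0x80000200001e0001c0000738000000000000000000000000000000000000000000000000000000000000000000000000000000) (nat_lit 8)
theorem c54504 : QOK q54504 := cut [] trivial (nd (nat_lit 363) (nat_lit 0) (cs (lf (nat_lit 5) (nat_lit 338)) (nd (nat_lit 385) (nat_lit 0) (cs (lf (nat_lit 42) (nat_lit 318)) (nd (nat_lit 316) (nat_lit 0) (cs (lf (nat_lit 23) (nat_lit 315)) (nd (nat_lit 342) (nat_lit 0) (cs (lf (nat_lit 22) (nat_lit 316)) (nd (nat_lit 321) (nat_lit 0) (cs (lf (nat_lit 16) (nat_lit 317)) (nd (nat_lit 343) (nat_lit 0) (cs (lf (nat_lit 17) (nat_lit 318)) (nd (nat_lit 362) (nat_lit 0) (cs (lf (nat_lit 11) (nat_lit 339)) (lf (nat_lit 6) (nat_lit 340)))))))))))))))) q54504 (by decide +kernel)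
def q54607 : Q := Q.p (nat_lit 0x3c000060000000000000000000000000000000000000000000000000000000000000000000000000000000) (nat_lit 0x1c00003000000000000000000000000000000000000000000000000000000000000000000000000000000000000) (nat_lit 3)
theorem c54607 : QOK q54607 := cut [] trivial (nd (nat_lit 359) (nat_lit 0) (cs (lf (nat_lit 10) (nat_lit 337)) (nd (nat_lit 337) (nat_lit 0) (cs (lf (nat_lit 11) (nat_lit 336)) (lf (nat_lit 12) (nat_lit 314)))))) q54607 (by decide +kernel)
def q54614 : Q := Q.p (nat_lit 0x100000c000030000000000000000000000000000000000000000000000000000000000000000000000000000000) (nat_lit 0x400000000000000000000080000200000000000000000000000000000000000000000000000000000000000000000000) (nat_lit 2)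
theorem c54614 : QOK q54614 := cut [] trivial (nd (nat_lit 295) (nat_lit 0) (cs (lf (nat_lit 30) (nat_lit 294)) (lf (nat_lit 36) (nat_lit 272)))) q54614 (by decide +kernel)
def q54654 : Q := Q.p (nat_lit 0x800002000008000020000080000000000000000000000000000000000000000000000000000000000000000000) (nat_lit 0x10000040000100000000000000000000000000000000000000000000000000000000000000) (nat_lit 2)
theorem c54654 : QOK q54654 := cut [] trivial (nd (nat_lit 270) (nat_lit 0) (cs (lf (nat_lit 46) (nat_lit 270)) (lf (nat_lit 47) (nat_lit 248)))) q54654 (by decide +kernel)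
def q54811 : Q := Q.p (nat_lit 0x100000c00003c00000000000000000000000000000000000000000000000000000000000000000000) (nat_lit 0x18000020000000000000000000000000000000000000000000000000000000000) (nat_lit 2)
theorem c54811 : QOK q54811 := cut [] trivial (nd (nat_lit 255) (nat_lit 0) (cs (lf (nat_lit 17) (nat_lit 252)) (lf (nat_lit 36) (nat_lit 232)))) q54811 (by decide +kernel)
def q54839 : Q := Q.p (nat_lit 0x18000060000100000c0000000000000000000000000000000000000000000000000000000000000000000000000000000) (nat_lit 0x380000e400038000020000000000000000000000000000000000000000000000000000000000000000000000000000000000000) (nat_lit 6)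
theorem c54839 : QOK q54839 := cut [] trivial (nd (nat_lit 385) (nat_lit 0) (cs (lf (nat_lit 29) (nat_lit 318)) (nd (nat_lit 386) (nat_lit 0) (cs (lf (nat_lit 18) (nat_lit 361)) (nd (nat_lit 408) (nat_lit 0) (cs (lf (nat_lit 5) (nat_lit 383)) (nd (nat_lit 363) (nat_lit 0) (cs (nd (nat_lit 364) (nat_lit 0) (cs (lf (nat_lit 17) (nat_lit 361)) (lf (nat_lit 11) (nat_lit 360)))) (lf (nat_lit 25) (nat_lit 319)))))))))) q54839 (by decide +kernel)
def q54917 : Q := Q.p (nat_lit 0x20000080000300000400000000000000000000000000000000000000000000000000000000) (nat_lit 0x40000000000000001000004000000000000000000000000000000000000000000000) (nat_lit 2)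
theorem c54917 : QOK q54917 := cut [] trivial (nd (nat_lit 204) (nat_lit 0) (cs (lf (nat_lit 24) (nat_lit 182)) (lf (nat_lit 27) (nat_lit 204)))) q54917 (by decide +kernel)
def q54923 : Q := Q.p (nat_lit 0x8000020000080000200000000000000000000000000000000000000000000000000000000000000) (nat_lit 0x1000006000010000000000040000100000400000000000000000000000000000000000000000000000000000000) (nat_lit 4)
theorem c54923 : QOK q54923 := cut [] trivial (nd (nat_lit 248) (nat_lit 0) (cs (lf (nat_lit 47) (nat_lit 226)) (nd (nat_lit 338) (nat_lit 0) (cs (lf (nat_lit 28) (nat_lit 249)) (nd (nat_lit 337) (nat_lit 0) (cs (lf (nat_lit 29) (nat_lit 271)) (lf (nat_lit 46) (nat_lit 248)))))))) q54923 (by decide +kernel)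
def q54928 : Q := Q.p (nat_lit 0x1c000030000000000000000000000000000000000000000000000000000000000000000000000000) (nat_lit 0x2000000c000000000000000000000000000000000000000000000000000000000000000000000000) (nat_lit 2)
theorem c54928 : QOK q54928 := cut [] trivial (nd (nat_lit 291) (nat_lit 0) (cs (lf (nat_lit 0) (nat_lit 290)) (lf (nat_lit 18) (nat_lit 291)))) q54928 (by decide +kernel)
def q54934 : Q := Q.p (nat_lit 0x2000008000020000080000200000000000000000000000000000000000000000000000000000000000000) (nat_lit 0x1000004000010000000000000000000000000000000000000000000000000000000000000000000000000000000) (nat_lit 2)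
theorem c54934 : QOK q54934 := cut [] trivial (nd (nat_lit 338) (nat_lit 0) (cs (lf (nat_lit 28) (nat_lit 249)) (lf (nat_lit 29) (nat_lit 271)))) q54934 (by decide +kernel)
def q54937 : Q := Q.p (nat_lit 0x2000008000020000080000200000000000000000000000000000000000000000000000000000000000000) (nat_lit 0x400001000004000000000000000000000000000000000000000000000000000000000000000000000000000000) (nat_lit 2)
theorem c54937 : QOK q54937 := cut [] trivial (nd (nat_lit 336) (nat_lit 0) (cs (lf (nat_lit 40) (nat_lit 248)) (lf (nat_lit 41) (nat_lit 270)))) q54937 (by decide +kernel)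
def q54942 : Q := Q.p (nat_lit 0x2000008000020000080000000000000000000000000000000000000000000000000000000000000000000) (nat_lit 0x100000c00001000000000010000040000100000000000000000000000000000000000000000000000000000000000000) (nat_lit 4)
theorem c54942 : QOK q54942 := cut [] trivial (nd (nat_lit 358) (nat_lit 0) (cs (lf (nat_lit 40) (nat_lit 270)) (nd (nat_lit 270) (nat_lit 0) (cs (lf (nat_lit 47) (nat_lit 248)) (nd (nat_lit 359) (nat_lit 0) (cs (lf (nat_lit 41) (nat_lit 292)) (lf (nat_lit 46) (nat_lit 270)))))))) q54942 (by decide +kernel)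
def q54946 : Q := Q.p (nat_lit 0x78000000000c00002000000000000000000000000000000000000000000000000000000000000000) (nat_lit 0x30000000000100000000000000000000000000000000000000000000000000000000000000000000000000) (nat_lit 2)
theorem c54946 : QOK q54946 := cut [] trivial (nd (nat_lit 340) (nat_lit 0) (cs (lf (nat_lit 5) (nat_lit 315)) (lf (nat_lit 32) (nat_lit 252)))) q54946 (by decide +kernel)
def q54956 : Q := Q.p (nat_lit 0x200005800010000000000000000000000000000000000000000000000000000) (nat_lit 0x100002000020000000000000000000000000000000000000000000000000000) (nat_lit 2)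
theorem c54956 : QOK q54956 := cut [] trivial (nd (nat_lit 229) (nat_lit 0) (cs (lf (nat_lit 17) (nat_lit 205)) (lf (nat_lit 11) (nat_lit 226)))) q54956 (by decide +kernel)
def q54967 : Q := Q.p (nat_lit 0x80000300000800002000000000000000000000000000000000000000000000000000) (nat_lit 0x10000040000000000000000000008000000000000000000000000000000000000000000000) (nat_lit 2)
theorem c54967 : QOK q54967 := cut [] trivial (nd (nat_lit 270) (nat_lit 0) (cs (lf (nat_lit 41) (nat_lit 204)) (lf (nat_lit 36) (nat_lit 182)))) q54967 (by decide +kernel)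
def q54981 : Q := Q.p (nat_lit 0x8000020000080000100000000000000000000000000000000000000000000000000000000000000) (nat_lit 0x2000000000000000040000200000400001000000000000000000000000000000000000000000000000000) (nat_lit 3)
theorem c54981 : QOK q54981 := cut [] trivial (nd (nat_lit 226) (nat_lit 0) (cs (nd (nat_lit 270) (nat_lit 0) (cs (lf (nat_lit 24) (nat_lit 204)) (lf (nat_lit 42) (nat_lit 248)))) (lf (nat_lit 45) (nat_lit 226)))) q54981 (by decide +kernel)
def q55000 : Q := Q.p (nat_lit 0x10000038000000000c00002000000000000000000000000000000000000000000000000000000000000000) (nat_lit 0x20000040000100000000000000000000000000000000000000000000000000000000000000000000000000) (nat_lit 2)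
theorem c55000 : QOK q55000 := cut [] trivial (nd (nat_lit 318) (nat_lit 0) (cs (lf (nat_lit 5) (nat_lit 315)) (lf (nat_lit 32) (nat_lit 252)))) q55000 (by decide +kernel)
def q55001 : Q := Q.p (nat_lit 0x18000020000000000600000000000000000000000000000000000000000000000000000000000000000000) (nat_lit 0x4000000000000000080000000001000000000000000000000000000000000000000000000000000000000000000) (nat_lit 2)
theorem c55001 : QOK q55001 := cut [] trivial (nd (nat_lit 295) (nat_lit 0) (cs (lf (nat_lit 35) (nat_lit 251)) (lf (nat_lit 29) (nat_lit 273)))) q55001 (by decide +kernel)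
def q55011 : Q := Q.p (nat_lit 0x1400002000008000020000000000000000000000000000000000000000000000000000000000000000000000000) (nat_lit 0x500000800000000000000000000000000000000000000000000000000000000000000000000000000000000000000000) (nat_lit 2)
theorem c55011 : QOK q55011 := cut [] trivial (nd (nat_lit 359) (nat_lit 0) (cs (lf (nat_lit 29) (nat_lit 293)) (lf (nat_lit 41) (nat_lit 292)))) q55011 (by decide +kernel)
def q55019 : Q := Q.p (nat_lit 0x800002000008000020000080000000000000000000000000000000000000000000000000000000000000000000) (nat_lit 0x100000400001000000000000000000000000000000000000000000000000000000000000000000000000000000000000) (nat_lit 2)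
theorem c55019 : QOK q55019 := cut [] trivial (nd (nat_lit 358) (nat_lit 0) (cs (lf (nat_lit 41) (nat_lit 292)) (lf (nat_lit 40) (nat_lit 270)))) q55019 (by decide +kernel)
def q55069 : Q := Q.p (nat_lit 0x4000018000020000080000000000000000000000000000000000000000000000000000000000000000000) (nat_lit 0x400001000002000000000000000000000000000000000000000000000000000000000000000000000000000000000000) (nat_lit 2)
theorem c55069 : QOK q55069 := cut [] trivial (nd (nat_lit 360) (nat_lit 0) (cs (lf (nat_lit 42) (nat_lit 293)) (lf (nat_lit 27) (nat_lit 271)))) q55069 (by decide +kernel)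
def q55084 : Q := Q.p (nat_lit 0x20000080000600000000000000010000000000000000000000000000000000000000000000000000) (nat_lit 0x8000000000000000000001000004000000000000000000000000000000000000000000000000000000000) (nat_lit 2)
theorem c55084 : QOK q55084 := cut [] trivial (nd (nat_lit 252) (nat_lit 0) (cs (lf (nat_lit 30) (nat_lit 251)) (lf (nat_lit 37) (nat_lit 207)))) q55084 (by decide +kernel)
def q55099 : Q := Q.p (nat_lit 0x10000020000080000e00002000000000000000000000000000000000000000000000000000000000000000) (nat_lit 0x40000100000000000800000000000000000000000000000000000000000000000000000000000000) (nat_lit 2)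
theorem c55099 : QOK q55099 := cut [] trivial (nd (nat_lit 318) (nat_lit 0) (cs (lf (nat_lit 32) (nat_lit 252)) (lf (nat_lit 24) (nat_lit 251)))) q55099 (by decide +kernel)
def q55103 : Q := Q.p (nat_lit 0x18000020000080000c00002000000000000000000000000000000000000000000000000000000000000000) (nat_lit 0x2000000000040000100000000000000000000000000000000000000000000000000000000000000000000000000) (nat_lit 2)
theorem c55103 : QOK q55103 := cut [] trivial (nd (nat_lit 296) (nat_lit 0) (cs (lf (nat_lit 30) (nat_lit 273)) (lf (nat_lit 31) (nat_lit 252)))) q55103 (by decide +kernel)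
def q55166 : Q := Q.p (nat_lit 0x40000100000c00001000000000000000000000000000000000000000000000000000000000) (nat_lit 0x2000018000020000000000000002000000000000000000000000000000000000000000000000000000000) (nat_lit 3)
theorem c55166 : QOK q55166 := cut [] trivial (nd (nat_lit 315) (nat_lit 0) (cs (lf (nat_lit 40) (nat_lit 227)) (nd (nat_lit 316) (nat_lit 0) (cs (lf (nat_lit 41) (nat_lit 249)) (lf (nat_lit 35) (nat_lit 228)))))) q55166 (by decide +kernel)
def q55193 : Q := Q.p (nat_lit 0x20000080000200000e0000040000000000000000000000000000000000000000000000) (nat_lit 0x100000480000000000000000000000000000000000000000000000) (nat_lit 2)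
theorem c55193 : QOK q55193 := cut [] trivial (nd (nat_lit 212) (nat_lit 0) (cs (lf (nat_lit 22) (nat_lit 186)) (lf (nat_lit 35) (nat_lit 189)))) q55193 (by decide +kernel)
def q55306 : Q := Q.p (nat_lit 0x40000140000d00003000000000000000000000000000000000000000000000000000000000000000) (nat_lit 0x80000a0000000000e00003800000000000000000000000000000000000000000000000000000000) (nat_lit 5)
theorem c55306 : QOK q55306 := cut [] trivial (nd (nat_lit 293) (nat_lit 0) (cs (lf (nat_lit 14) (nat_lit 271)) (nd (nat_lit 251) (nat_lit 0) (cs (lf (nat_lit 47) (nat_lit 229)) (nd (nat_lit 250) (nat_lit 0) (cs (lf (nat_lit 0) (nat_lit 249)) (nd (nat_lit 228) (nat_lit 0) (cs (lf (nat_lit 23) (nat_lit 227)) (lf (nat_lit 41) (nat_lit 227)))))))))) q55306 (by decide +kernel)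
def q55339 : Q := Q.p (nat_lit 0x38000048000000000000000000000000000000000000000000000000000000000000000000000000000000000000) (nat_lit 0x4000030000000000000000000000000000000000000000000000000000000000000000000000000000000000000) (nat_lit 2)
theorem c55339 : QOK q55339 := cut [] trivial (nd (nat_lit 340) (nat_lit 0) (cs (lf (nat_lit 2) (nat_lit 339)) (lf (nat_lit 21) (nat_lit 339)))) q55339 (by decide +kernel)
def q55352 : Q := Q.p (nat_lit 0x4000010000040000180000000000000000000000000000000000000000000000000000000000000000000000000000000) (nat_lit 0x800003000008000000000020000000000000000000000000000000000000000000000000000000000000000000000000000000000000) (nat_lit 3)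
theorem c55352 : QOK q55352 := cut [] trivial (nd (nat_lit 409) (nat_lit 0) (cs (lf (nat_lit 28) (nat_lit 320)) (nd (nat_lit 408) (nat_lit 0) (cs (lf (nat_lit 29) (nat_lit 342)) (lf (nat_lit 46) (nat_lit 319)))))) q55352 (by decide +kernel)
def q55391 : Q := Q.p (nat_lit 0x100000400001e0000000000000000000000000000000000000000000000000000000000000000000000000000000) (nat_lit 0x280000e000028000000000000000c00000000000000000000000000000000000000000000000000000000000000000000000000) (nat_lit 5)
theorem c55391 : QOK q55391 := cut [] trivial (nd (nat_lit 298) (nat_lit 0) (cs (lf (nat_lit 17) (nat_lit 295)) (nd (nat_lit 387) (nat_lit 0) (cs (lf (nat_lit 28) (nat_lit 298)) (nd (nat_lit 385) (nat_lit 0) (cs (lf (nat_lit 40) (nat_lit 297)) (nd (nat_lit 386) (nat_lit 0) (cs (lf (nat_lit 29) (nat_lit 320)) (lf (nat_lit 41) (nat_lit 319)))))))))) q55391 (by decide +kernel)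
def q55403 : Q := Q.p (nat_lit 0x10000040000d00001400000000000000000000000000000000000000000000000000000000000000) (nat_lit 0xa00000800000000000000000000000000000000000000000000000000000000) (nat_lit 2)
theorem c55403 : QOK q55403 := cut [] trivial (nd (nat_lit 249) (nat_lit 0) (cs (lf (nat_lit 47) (nat_lit 227)) (lf (nat_lit 2) (nat_lit 249)))) q55403 (by decide +kernel)
def q55454 : Q := Q.p (nat_lit 0x3400005000000000000000000000000000000000000000000000000000000000) (nat_lit 0x800002800000000000000000000000000000000000000000000000000000000) (nat_lit 2)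
theorem c55454 : QOK q55454 := cut [] trivial (nd (nat_lit 227) (nat_lit 0) (cs (lf (nat_lit 20) (nat_lit 227)) (lf (nat_lit 2) (nat_lit 227)))) q55454 (by decide +kernel)
def q55474 : Q := Q.p (nat_lit 0xc0000d00000400001000000000000000000000000000000000000000000000000000000000) (nat_lit 0x8000120000000000000000000000000000000000000000000000000000000000000000000000000) (nat_lit 2)
theorem c55474 : QOK q55474 := cut [] trivial (nd (nat_lit 293) (nat_lit 0) (cs (lf (nat_lit 41) (nat_lit 227)) (lf (nat_lit 15) (nat_lit 271)))) q55474 (by decide +kernel)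
def q55583 : Q := Q.p (nat_lit 0x1e0000000000800000000000000000000000000000000000000000000000000000000000000000000000000) (nat_lit 0x100000c0000010000e00000000000000000000000000000000000000000000000000000000000000000000000000000000) (nat_lit 4)
theorem c55583 : QOK q55583 := cut [] trivial (nd (nat_lit 322) (nat_lit 0) (cs (lf (nat_lit 17) (nat_lit 319)) (nd (nat_lit 321) (nat_lit 0) (cs (lf (nat_lit 12) (nat_lit 318)) (nd (nat_lit 366) (nat_lit 0) (cs (lf (nat_lit 42) (nat_lit 299)) (lf (nat_lit 5) (nat_lit 341)))))))) q55583 (by decide +kernel)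
def q55621 : Q := Q.p (nat_lit 0xa00001c00000000000000000000000000000000000000000000000000000000000000000000) (nat_lit 0x1400000200000000000000000000000000000000000000000000000000000000000000000000) (nat_lit 2)
theorem c55621 : QOK q55621 := cut [] trivial (nd (nat_lit 298) (nat_lit 0) (cs (lf (nat_lit 18) (nat_lit 274)) (lf (nat_lit 0) (nat_lit 273)))) q55621 (by decide +kernel)
def q55779 : Q := Q.p (nat_lit 0x70000280000000000000000000000000000000000000000000000000000000000000000000000000) (nat_lit 0x8000500000000000000000000000000000000000000000000000000000000000000000000000000) (nat_lit 2)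
theorem c55779 : QOK q55779 := cut [] trivial (nd (nat_lit 296) (nat_lit 0) (cs (lf (nat_lit 6) (nat_lit 294)) (lf (nat_lit 12) (nat_lit 293)))) q55779 (by decide +kernel)
def q55836 : Q := Q.p (nat_lit 0x40000000000c00002000008000000000000000000000000000000000000000000000000000000000) (nat_lit 0x10000000000100000000001000000000000000000000000000000000000000000000000000000000000000) (nat_lit 2)
theorem c55836 : QOK q55836 := cut [] trivial (nd (nat_lit 296) (nat_lit 0) (cs (lf (nat_lit 30) (nat_lit 252)) (lf (nat_lit 33) (nat_lit 230)))) q55836 (by decide +kernel)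
def q55847 : Q := Q.p (nat_lit 0x8000160000080000200000000000000000000000000000000000000000000000000000000000000000000) (nat_lit 0x1000004000080000000000000000000000000000000000000000000000000000000000000000000000000000000) (nat_lit 2)
theorem c55847 : QOK q55847 := cut [] trivial (nd (nat_lit 338) (nat_lit 0) (cs (lf (nat_lit 41) (nat_lit 272)) (lf (nat_lit 7) (nat_lit 316)))) q55847 (by decide +kernel)
def q55913 : Q := Q.p (nat_lit 0x10000020000000000600000800000000000000000000000000000000000000000000000000000000000000) (nat_lit 0x4000008000040000080000000001000000000000000000000000000000000000000000000000000000000000000) (nat_lit 3)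
theorem c55913 : QOK q55913 := cut [] trivial (nd (nat_lit 295) (nat_lit 0) (cs (lf (nat_lit 28) (nat_lit 251)) (nd (nat_lit 339) (nat_lit 0) (cs (lf (nat_lit 35) (nat_lit 251)) (lf (nat_lit 29) (nat_lit 273)))))) q55913 (by decide +kernel)
def q55920 : Q := Q.p (nat_lit 0x70000020000000000000000000000000000000000000000000000000000000000000000000000000000000) (nat_lit 0x80000d8000000000000000000000000000000000000000000000000000000000000000000000000000000) (nat_lit 3)
theorem c55920 : QOK q55920 := cut [] trivial (nd (nat_lit 316) (nat_lit 0) (cs (lf (nat_lit 21) (nat_lit 316)) (nd (nat_lit 318) (nat_lit 0) (cs (lf (nat_lit 0) (nat_lit 315)) (lf (nat_lit 3) (nat_lit 316)))))) q55920 (by decide +kernel)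
def q55949 : Q := Q.p (nat_lit 0x3c000000000000000b0000000000000000000000000000000000000000000000000000) (nat_lit 0x400000000018000060000040000100000000000000000000000000000000000000000000000) (nat_lit 4)
theorem c55949 : QOK q55949 := cut [] trivial (nd (nat_lit 255) (nat_lit 0) (cs (lf (nat_lit 17) (nat_lit 252)) (nd (nat_lit 233) (nat_lit 0) (cs (lf (nat_lit 41) (nat_lit 210)) (nd (nat_lit 210) (nat_lit 0) (cs (lf (nat_lit 5) (nat_lit 208)) (lf (nat_lit 47) (nat_lit 188)))))))) q55949 (by decide +kernel)
def q55954 : Q := Q.p (nat_lit 0x30000000000200000c0000000000000000000000000000000000000000000000000000) (nat_lit 0x400000000008000000000000000100000000000000000000000000000000000000000000000) (nat_lit 2)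
theorem c55954 : QOK q55954 := cut [] trivial (nd (nat_lit 255) (nat_lit 0) (cs (lf (nat_lit 47) (nat_lit 188)) (lf (nat_lit 41) (nat_lit 210)))) q55954 (by decide +kernel)
def q55971 : Q := Q.p (nat_lit 0xc0000200000800000000000000000000000000000000000000000) (nat_lit 0x10000000000100000000006000018000040000000000000000000000000) (nat_lit 4)
theorem c55971 : QOK q55971 := cut [] trivial (nd (nat_lit 145) (nat_lit 0) (cs (lf (nat_lit 41) (nat_lit 144)) (nd (nat_lit 124) (nat_lit 0) (cs (lf (nat_lit 34) (nat_lit 123)) (nd (nat_lit 123) (nat_lit 0) (cs (lf (nat_lit 35) (nat_lit 101)) (lf (nat_lit 40) (nat_lit 122)))))))) q55971 (by decide +kernel)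
def q55978 : Q := Q.p (nat_lit 0x20000080000240000800000000000000000000000000000000000000000) (nat_lit 0x180001600005000000000000000000000000000000000000) (nat_lit 4)
theorem c55978 : QOK q55978 := cut [] trivial (nd (nat_lit 166) (nat_lit 0) (cs (lf (nat_lit 47) (nat_lit 144)) (nd (nat_lit 168) (nat_lit 0) (cs (lf (nat_lit 35) (nat_lit 145)) (nd (nat_lit 187) (nat_lit 0) (cs (lf (nat_lit 9) (nat_lit 164)) (lf (nat_lit 14) (nat_lit 164)))))))) q55978 (by decide +kernel)
def q56011 : Q := Q.p (nat_lit 0x3c000000000000000b0000000000000000000000000000000000000000000000000000) (nat_lit 0x400000000018000020000100000780001400000000000000000000000000000000000000000) (nat_lit 6)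
theorem c56011 : QOK q56011 := cut [] trivial (nd (nat_lit 255) (nat_lit 0) (cs (lf (nat_lit 17) (nat_lit 252)) (nd (nat_lit 233) (nat_lit 0) (cs (lf (nat_lit 41) (nat_lit 210)) (nd (nat_lit 190) (nat_lit 0) (cs (lf (nat_lit 34) (nat_lit 189)) (nd (nat_lit 189) (nat_lit 0) (cs (lf (nat_lit 35) (nat_lit 167)) (nd (nat_lit 188) (nat_lit 0) (cs (lf (nat_lit 9) (nat_lit 186)) (lf (nat_lit 47) (nat_lit 166)))))))))))) q56011 (by decide +kernel)
def q56035 : Q := Q.p (nat_lit 0x80000200000c00002000000000000000000000000000000000000000000000000000000000000000) (nat_lit 0x10000060000100000000000000001000000000000000000000000000000000000000000000000000000000000000) (nat_lit 3)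
theorem c56035 : QOK q56035 := cut [] trivial (nd (nat_lit 342) (nat_lit 0) (cs (lf (nat_lit 28) (nat_lit 253)) (nd (nat_lit 341) (nat_lit 0) (cs (lf (nat_lit 47) (nat_lit 252)) (lf (nat_lit 29) (nat_lit 275)))))) q56035 (by decide +kernel)
def q56054 : Q := Q.p (nat_lit 0x40000100002400001000000000000000000000000000000000000000000000000000000000) (nat_lit 0x10000000000000001a00002800002000000000000000000000000000000000000000000000000000) (nat_lit 4)
theorem c56054 : QOK q56054 := cut [] trivial (nd (nat_lit 227) (nat_lit 0) (cs (lf (nat_lit 47) (nat_lit 205)) (nd (nat_lit 251) (nat_lit 0) (cs (lf (nat_lit 19) (nat_lit 227)) (nd (nat_lit 316) (nat_lit 0) (cs (lf (nat_lit 35) (nat_lit 228)) (lf (nat_lit 46) (nat_lit 227)))))))) q56054 (by decide +kernel)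
def q56070 : Q := Q.p (nat_lit 0x50000060000000000000000000000000000000000000000000000000000000000000000000000000) (nat_lit 0xa8000018000000000000000000000000000000000000000000000000000000000000000000000000) (nat_lit 3)
theorem c56070 : QOK q56070 := cut [] trivial (nd (nat_lit 317) (nat_lit 0) (cs (lf (nat_lit 18) (nat_lit 293)) (nd (nat_lit 292) (nat_lit 0) (cs (lf (nat_lit 0) (nat_lit 291)) (lf (nat_lit 21) (nat_lit 292)))))) q56070 (by decide +kernel)
def q56076 : Q := Q.p (nat_lit 0x4000050000040000100000000000000000000000000000000000000000000000000000000000000000000) (nat_lit 0x280003a00008c000000000000000000000000000000000000000000000000000000000000000000000000000000) (nat_lit 5)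
theorem c56076 : QOK q56076 := cut [] trivial (nd (nat_lit 339) (nat_lit 0) (cs (lf (nat_lit 29) (nat_lit 272)) (nd (nat_lit 337) (nat_lit 0) (cs (lf (nat_lit 41) (nat_lit 271)) (nd (nat_lit 340) (nat_lit 0) (cs (lf (nat_lit 17) (nat_lit 315)) (nd (nat_lit 315) (nat_lit 0) (cs (lf (nat_lit 23) (nat_lit 314)) (lf (nat_lit 18) (nat_lit 315)))))))))) q56076 (by decide +kernel)
def q56081 : Q := Q.p (nat_lit 0x3c000060000000000000000000000000000000000000000000000000000000000000000000000000) (nat_lit 0x1c00003000000000000000000000000000000000000000000000000000000000000000000000000000000) (nat_lit 3)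
theorem c56081 : QOK q56081 := cut [] trivial (nd (nat_lit 335) (nat_lit 0) (cs (lf (nat_lit 10) (nat_lit 313)) (nd (nat_lit 313) (nat_lit 0) (cs (lf (nat_lit 11) (nat_lit 312)) (lf (nat_lit 12) (nat_lit 290)))))) q56081 (by decide +kernel)
def q56085 : Q := Q.p (nat_lit 0x1000004000010000040000100000000000000000000000000000000000000000000000000000000000000000000) (nat_lit 0x800002000008000000000000000000000000000000000000000000000000000000000000000000000000000000000000) (nat_lit 2)
theorem c56085 : QOK q56085 := cut [] trivial (nd (nat_lit 361) (nat_lit 0) (cs (lf (nat_lit 29) (nat_lit 294)) (lf (nat_lit 28) (nat_lit 272)))) q56085 (by decide +kernel)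
def q56095 : Q := Q.p (nat_lit 0x40000000000c00002000008000000000000000000000000000000000000000000000000000000000) (nat_lit 0x10000000000300000000000000000000000000000000000000000000000000000000000000000000000000) (nat_lit 2)
theorem c56095 : QOK q56095 := cut [] trivial (nd (nat_lit 296) (nat_lit 0) (cs (lf (nat_lit 30) (nat_lit 252)) (lf (nat_lit 39) (nat_lit 230)))) q56095 (by decide +kernel)
def q56096 : Q := Q.p (nat_lit 0x40000000000c00002000008000000000000000000000000000000000000000000000000000000000) (nat_lit 0x300000000001000000000000000000000000000000000000000000000000000000000000000) (nat_lit 2)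
theorem c56096 : QOK q56096 := cut [] trivial (nd (nat_lit 296) (nat_lit 0) (cs (lf (nat_lit 39) (nat_lit 230)) (lf (nat_lit 33) (nat_lit 230)))) q56096 (by decide +kernel)
def q56101 : Q := Q.p (nat_lit 0x100002c00008000000000000000000000000000000000000000000000000000000000) (nat_lit 0x80001000010000000000000000000000000000000000000000000000000000000000) (nat_lit 2)
theorem c56101 : QOK q56101 := cut [] trivial (nd (nat_lit 252) (nat_lit 0) (cs (lf (nat_lit 11) (nat_lit 249)) (lf (nat_lit 17) (nat_lit 228)))) q56101 (by decide +kernel)
def q56191 : Q := Q.p (nat_lit 0x40000100000c00002000000000000000000000000000000000000000000000000000000000000000) (nat_lit 0x1000008000020000000000000000000000000000000000000000000000000000) (nat_lit 2)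
theorem c56191 : QOK q56191 := cut [] trivial (nd (nat_lit 231) (nat_lit 0) (cs (lf (nat_lit 36) (nat_lit 208)) (lf (nat_lit 33) (nat_lit 230)))) q56191 (by decide +kernel)
def q56241 : Q := Q.p (nat_lit 0x380000c00000000000000000000000000000000000000000000000000000000000000000000) (nat_lit 0x60001000000000000000000000000000000000000000000000000000000000000000000000) (nat_lit 2)
theorem c56241 : QOK q56241 := cut [] trivial (nd (nat_lit 294) (nat_lit 0) (cs (lf (nat_lit 12) (nat_lit 271)) (lf (nat_lit 17) (nat_lit 272)))) q56241 (by decide +kernel)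
def q56369 : Q := Q.p (nat_lit 0x80000a00000c00000000000000000000000000000000000000000000000000000000000000) (nat_lit 0x100000c0000700007c00007c000140001400000300001000000000000000000000000000000000000000000000000000000000) (nat_lit 12)
theorem c56369 : QOK q56369 := cut [] trivial (nd (nat_lit 274) (nat_lit 0) (cs (lf (nat_lit 18) (nat_lit 250)) (nd (nat_lit 248) (nat_lit 0) (cs (lf (nat_lit 1) (nat_lit 248)) (nd (nat_lit 317) (nat_lit 0) (cs (lf (nat_lit 47) (nat_lit 228)) (nd (nat_lit 316) (nat_lit 0) (cs (lf (nat_lit 41) (nat_lit 250)) (nd (nat_lit 340) (nat_lit 0) (cs (lf (nat_lit 28) (nat_lit 251)) (nd (nat_lit 339) (nat_lit 0) (cs (lf (nat_lit 29) (nat_lit 273)) (nd (nat_lit 341) (nat_lit 0) (cs (lf (nat_lit 18) (nat_lit 316)) (nd (nat_lit 314) (nat_lit 0) (cs (nd (nat_lit 361) (nat_lit 0) (cs (lf (nat_lit 34) (nat_lit 273)) (nd (nat_lit 382) (nat_lit 0) (cs (lf (nat_lit 40) (nat_lit 294)) (nd (nat_lit 383) (nat_lit 0) (cs (lf (nat_lit 41) (nat_lit 316)) (lf (nat_lit 47) (nat_lit 294)))))))) (lf (nat_lit 1) (nat_lit 314)))))))))))))))))) q56369 (by decide +kernel)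
def q56378 : Q := Q.p (nat_lit 0xf0000200000000000000000000000000000000000000000000000000000000000000000000) (nat_lit 0x7000008000100000000000000000000000000000000000000000000000000000000000000000000) (nat_lit 3)
theorem c56378 : QOK q56378 := cut [] trivial (nd (nat_lit 313) (nat_lit 0) (cs (lf (nat_lit 10) (nat_lit 291)) (nd (nat_lit 291) (nat_lit 0) (cs (lf (nat_lit 11) (nat_lit 290)) (lf (nat_lit 16) (nat_lit 269)))))) q56378 (by decide +kernel)
def q56403 : Q := Q.p (nat_lit 0x3c0000c00001000000000000000000000000000000000000000000000000000000000) (nat_lit 0x20000180000000000000000000000000000000000000000000000000000000000000000000000000) (nat_lit 2)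
theorem c56403 : QOK q56403 := cut [] trivial (nd (nat_lit 295) (nat_lit 0) (cs (lf (nat_lit 5) (nat_lit 270)) (lf (nat_lit 42) (nat_lit 228)))) q56403 (by decide +kernel)
def q56415 : Q := Q.p (nat_lit 0xf80000000000000000000000000000000000000000000000000000000000000) (nat_lit 0x70000000000000000000000000000000000000000000000000000000000000000000) (nat_lit 2)
theorem c56415 : QOK q56415 := cut [] trivial (nd (nat_lit 269) (nat_lit 0) (cs (lf (nat_lit 11) (nat_lit 246)) (lf (nat_lit 10) (nat_lit 247)))) q56415 (by decide +kernel)
def q56421 : Q := Q.p (nat_lit 0x300000400001000000000000000000000000000000000000000000000000000) (nat_lit 0x8000000000080000000000c000030000080000000000000000000000000000000000) (nat_lit 4)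
theorem c56421 : QOK q56421 := cut [] trivial (nd (nat_lit 182) (nat_lit 0) (cs (lf (nat_lit 29) (nat_lit 182)) (nd (nat_lit 161) (nat_lit 0) (cs (lf (nat_lit 34) (nat_lit 160)) (nd (nat_lit 160) (nat_lit 0) (cs (lf (nat_lit 35) (nat_lit 138)) (lf (nat_lit 28) (nat_lit 160)))))))) q56421 (by decide +kernel)
def q56430 : Q := Q.p (nat_lit 0x20000040000300000400000000000000000000000000000000000000000000000000000000) (nat_lit 0x80000e000018000000000000000800000000000000000000000000000000000000000000000000000000) (nat_lit 4)
theorem c56430 : QOK q56430 := cut [] trivial (nd (nat_lit 292) (nat_lit 0) (cs (lf (nat_lit 29) (nat_lit 226)) (nd (nat_lit 313) (nat_lit 0) (cs (lf (nat_lit 40) (nat_lit 225)) (nd (nat_lit 314) (nat_lit 0) (cs (lf (nat_lit 41) (nat_lit 247)) (lf (nat_lit 35) (nat_lit 226)))))))) q56430 (by decide +kernel)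
def q56446 : Q := Q.p (nat_lit 0xf00000000000000000000000000000000000000000000000000000000000000) (nat_lit 0x70000080007000000000000000000000000000000000000000000000000000000000) (nat_lit 4)
theorem c56446 : QOK q56446 := cut [] trivial (nd (nat_lit 269) (nat_lit 0) (cs (lf (nat_lit 10) (nat_lit 247)) (nd (nat_lit 247) (nat_lit 0) (cs (lf (nat_lit 11) (nat_lit 246)) (nd (nat_lit 229) (nat_lit 0) (cs (lf (nat_lit 17) (nat_lit 226)) (lf (nat_lit 16) (nat_lit 225)))))))) q56446 (by decide +kernel)
def q56464 : Q := Q.p (nat_lit 0x200000600001000004000000000000000000000000000000000000000000000000000) (nat_lit 0x80000800000000000000010000000000000000000000000000000000000000000000) (nat_lit 2)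
theorem c56464 : QOK q56464 := cut [] trivial (nd (nat_lit 184) (nat_lit 0) (cs (lf (nat_lit 41) (nat_lit 183)) (lf (nat_lit 28) (nat_lit 184)))) q56464 (by decide +kernel)
def q56473 : Q := Q.p (nat_lit 0xa00002400001000016000000000000000000000000000000000000000000000000000) (nat_lit 0x80000e0000218000f0000180000000000000000000000000000000000000000) (nat_lit 7)
theorem c56473 : QOK q56473 := cut [] trivial (nd (nat_lit 184) (nat_lit 0) (cs (lf (nat_lit 28) (nat_lit 184)) (nd (nat_lit 185) (nat_lit 0) (cs (lf (nat_lit 35) (nat_lit 162)) (nd (nat_lit 203) (nat_lit 0) (cs (lf (nat_lit 13) (nat_lit 181)) (nd (nat_lit 186) (nat_lit 0) (cs (lf (nat_lit 6) (nat_lit 183)) (nd (nat_lit 231) (nat_lit 0) (cs (lf (nat_lit 45) (nat_lit 186)) (nd (nat_lit 230) (nat_lit 0) (cs (lf (nat_lit 24) (nat_lit 164)) (lf (nat_lit 20) (nat_lit 205)))))))))))))) q56473 (by decide +kernel)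
def q56479 : Q := Q.p (nat_lit 0x600001c00000000000000000000000000000000000000000000000000000000) (nat_lit 0x800000300000000000000000000000000000000000000000000000000000000) (nat_lit 2)
theorem c56479 : QOK q56479 := cut [] trivial (nd (nat_lit 225) (nat_lit 0) (cs (lf (nat_lit 0) (nat_lit 224)) (lf (nat_lit 5) (nat_lit 225)))) q56479 (by decide +kernel)
def q56492 : Q := Q.p (nat_lit 0x18000060000300000400000000000000000000000000000000000000000000000000000000000000) (nat_lit 0x8000060000018000000000000000000000000000000000000000000000000000000000000000000000000) (nat_lit 3)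
theorem c56492 : QOK q56492 := cut [] trivial (nd (nat_lit 292) (nat_lit 0) (cs (lf (nat_lit 12) (nat_lit 269)) (nd (nat_lit 317) (nat_lit 0) (cs (lf (nat_lit 18) (nat_lit 292)) (lf (nat_lit 29) (nat_lit 250)))))) q56492 (by decide +kernel)
def q56521 : Q := Q.p (nat_lit 0x4000030000080000200000000000000000000000000000000000000000000000000000000000000) (nat_lit 0x400001000000000000000040000000000000000000000000000000000000000000000000000000000000000000) (nat_lit 2)
theorem c56521 : QOK q56521 := cut [] trivial (nd (nat_lit 336) (nat_lit 0) (cs (lf (nat_lit 33) (nat_lit 248)) (lf (nat_lit 30) (nat_lit 270)))) q56521 (by decide +kernel)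
def q56530 : Q := Q.p (nat_lit 0x100000600001800000000000000000000000000000000000000000000000000000000) (nat_lit 0x10000040000000000000000000002000000000000000000000000000000000000000000000000000) (nat_lit 2)
theorem c56530 : QOK q56530 := cut [] trivial (nd (nat_lit 294) (nat_lit 0) (cs (lf (nat_lit 42) (nat_lit 227)) (lf (nat_lit 47) (nat_lit 205)))) q56530 (by decide +kernel)
def q56550 : Q := Q.p (nat_lit 0x20000180000600000800000000000000000000000000000000000000000000000000000000) (nat_lit 0x6000018000040000000000000000000000000000000000000000000000000000000000000000000000000) (nat_lit 3)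
theorem c56550 : QOK q56550 := cut [] trivial (nd (nat_lit 315) (nat_lit 0) (cs (lf (nat_lit 30) (nat_lit 249)) (nd (nat_lit 316) (nat_lit 0) (cs (lf (nat_lit 29) (nat_lit 249)) (lf (nat_lit 43) (nat_lit 227)))))) q56550 (by decide +kernel)
def q56611 : Q := Q.p (nat_lit 0x20000100000600001800030000040000000000000000000000000000000000000000000000) (nat_lit 0x80000000000000004000038000060000000000000000000000000000000000000000) (nat_lit 4)
theorem c56611 : QOK q56611 := cut [] trivial (nd (nat_lit 206) (nat_lit 0) (cs (lf (nat_lit 40) (nat_lit 205)) (nd (nat_lit 184) (nat_lit 0) (cs (lf (nat_lit 36) (nat_lit 161)) (nd (nat_lit 183) (nat_lit 0) (cs (lf (nat_lit 2) (nat_lit 183)) (lf (nat_lit 47) (nat_lit 161)))))))) q56611 (by decide +kernel)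
def q56623 : Q := Q.p (nat_lit 0x80000600001800000000000000000000000000000000000000000000000000000000) (nat_lit 0x20000000000000000000004000010000000000000000000000000000000000000000000000) (nat_lit 2)
theorem c56623 : QOK q56623 := cut [] trivial (nd (nat_lit 206) (nat_lit 0) (cs (lf (nat_lit 30) (nat_lit 205)) (lf (nat_lit 36) (nat_lit 183)))) q56623 (by decide +kernel)
def q56633 : Q := Q.p (nat_lit 0xc00003000000000030000000000000000000000000000000000000000000000000000) (nat_lit 0x40000000000c0000000000000000000000000000000000000000000000) (nat_lit 2)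
theorem c56633 : QOK q56633 := cut [] trivial (nd (nat_lit 230) (nat_lit 0) (cs (lf (nat_lit 35) (nat_lit 186)) (lf (nat_lit 24) (nat_lit 186)))) q56633 (by decide +kernel)
def q56647 : Q := Q.p (nat_lit 0x80000200000c0000200000000000000000000000000000000000000000000000000000000000000) (nat_lit 0x400003000004000000000000000100000000000000000000000000000000000000000000000000000000000000) (nat_lit 3)
theorem c56647 : QOK q56647 := cut [] trivial (nd (nat_lit 336) (nat_lit 0) (cs (lf (nat_lit 40) (nat_lit 248)) (nd (nat_lit 337) (nat_lit 0) (cs (lf (nat_lit 47) (nat_lit 248)) (lf (nat_lit 41) (nat_lit 270)))))) q56647 (by decide +kernel)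
def q56654 : Q := Q.p (nat_lit 0x80000200000c0000400000000000000000000000000000000000000000000000000000000000000) (nat_lit 0x2000000000000000100000100000000000000000000000000000000000000000000000000000000000000) (nat_lit 2)
theorem c56654 : QOK q56654 := cut [] trivial (nd (nat_lit 337) (nat_lit 0) (cs (lf (nat_lit 34) (nat_lit 249)) (lf (nat_lit 47) (nat_lit 248)))) q56654 (by decide +kernel)
def q56661 : Q := Q.p (nat_lit 0x80000200000800002000008000000000000000000000000000000000000000000000) (nat_lit 0x4000010000040000000000000000000000000000000000000000) (nat_lit 2)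
theorem c56661 : QOK q56661 := cut [] trivial (nd (nat_lit 184) (nat_lit 0) (cs (lf (nat_lit 35) (nat_lit 161)) (lf (nat_lit 34) (nat_lit 183)))) q56661 (by decide +kernel)
def q56677 : Q := Q.p (nat_lit 0x700001800000000000000000000000000000000000000000000000000000000) (nat_lit 0x80006000000000000000000000000000000000000000000000000000000000) (nat_lit 2)
theorem c56677 : QOK q56677 := cut [] trivial (nd (nat_lit 229) (nat_lit 0) (cs (lf (nat_lit 12) (nat_lit 225)) (lf (nat_lit 6) (nat_lit 226)))) q56677 (by decide +kernel)
def q56689 : Q := Q.p (nat_lit 0xc0000700000400001000000000000000000000000000000000000000000000000000) (nat_lit 0x8000030000000000000000000000000000000000000000000000000000000000000000000) (nat_lit 2)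
theorem c56689 : QOK q56689 := cut [] trivial (nd (nat_lit 269) (nat_lit 0) (cs (lf (nat_lit 41) (nat_lit 203)) (lf (nat_lit 12) (nat_lit 246)))) q56689 (by decide +kernel)
def q56770 : Q := Q.p (nat_lit 0x10000000000080000600000800000000000000000000000000000000000000000000000000) (nat_lit 0x60000100000000000000000000000000000000000000000000000000000000000000) (nat_lit 2)
theorem c56770 : QOK q56770 := cut [] trivial (nd (nat_lit 270) (nat_lit 0) (cs (lf (nat_lit 27) (nat_lit 203)) (lf (nat_lit 44) (nat_lit 203)))) q56770 (by decide +kernel)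
def q56781 : Q := Q.p (nat_lit 0x680001a00000000000000000000000000000000000000000000000000000000) (nat_lit 0x40000500000000000000000000000000000000000000000000000000000000) (nat_lit 2)
theorem c56781 : QOK q56781 := cut [] trivial (nd (nat_lit 226) (nat_lit 0) (cs (lf (nat_lit 0) (nat_lit 224)) (lf (nat_lit 11) (nat_lit 224)))) q56781 (by decide +kernel)
def q56800 : Q := Q.p (nat_lit 0x80000200000800002000000000000000000000000000000000000000000000) (nat_lit 0x4000030000040000000001000004000010000000000000000000000000000000000000000) (nat_lit 4)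
theorem c56800 : QOK q56800 := cut [] trivial (nd (nat_lit 182) (nat_lit 0) (cs (lf (nat_lit 35) (nat_lit 159)) (nd (nat_lit 268) (nat_lit 0) (cs (lf (nat_lit 40) (nat_lit 180)) (nd (nat_lit 269) (nat_lit 0) (cs (lf (nat_lit 41) (nat_lit 202)) (lf (nat_lit 34) (nat_lit 181)))))))) q56800 (by decide +kernel)
def q56821 : Q := Q.p (nat_lit 0x900000680000000000000000000000000000000000000000000000000000000000000) (nat_lit 0x600000100000000000000000000000000000000000000000000000000000000000000) (nat_lit 2)
theorem c56821 : QOK q56821 := cut [] trivial (nd (nat_lit 273) (nat_lit 0) (cs (lf (nat_lit 19) (nat_lit 249)) (lf (nat_lit 1) (nat_lit 247)))) q56821 (by decide +kernel)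
def q56823 : Q := Q.p (nat_lit 0x280001a00000000000000000000000000000000000000000000000000000000) (nat_lit 0x140000400000000000000000000000000000000000000000000000000000000) (nat_lit 2)
theorem c56823 : QOK q56823 := cut [] trivial (nd (nat_lit 246) (nat_lit 0) (cs (lf (nat_lit 8) (nat_lit 224)) (lf (nat_lit 14) (nat_lit 224)))) q56823 (by decide +kernel)
def q56824 : Q := Q.p (nat_lit 0x680001a00000000000000000000000000000000000000000000000000000000) (nat_lit 0x140000100000000000000000000000000000000000000000000000000000000) (nat_lit 2)
theorem c56824 : QOK q56824 := cut [] trivial (nd (nat_lit 248) (nat_lit 0) (cs (lf (nat_lit 23) (nat_lit 224)) (lf (nat_lit 12) (nat_lit 224)))) q56824 (by decide +kernel)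
def q56870 : Q := Q.p (nat_lit 0x200000800032000048000000000000000000000000000000000000000000000) (nat_lit 0x30000040000000000000000000000000000000000000000) (nat_lit 2)
theorem c56870 : QOK q56870 := cut [] trivial (nd (nat_lit 184) (nat_lit 0) (cs (lf (nat_lit 2) (nat_lit 183)) (lf (nat_lit 35) (nat_lit 161)))) q56870 (by decide +kernel)
def q56874 : Q := Q.p (nat_lit 0x200000800012000048000000000000000000000000000000000000000000000) (nat_lit 0x21000030000040000000000000000000000000000000000000000) (nat_lit 3)
theorem c56874 : QOK q56874 := cut [] trivial (nd (nat_lit 184) (nat_lit 0) (cs (lf (nat_lit 35) (nat_lit 161)) (nd (nat_lit 185) (nat_lit 0) (cs (lf (nat_lit 5) (nat_lit 183)) (lf (nat_lit 11) (nat_lit 182)))))) q56874 (by decide +kernel)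
def q56888 : Q := Q.p (nat_lit 0x10000040000300000800000000000000000000000000000000000000000000000000) (nat_lit 0x80000000000000002000008000000000000000000000000000000000000000) (nat_lit 2)
theorem c56888 : QOK q56888 := cut [] trivial (nd (nat_lit 181) (nat_lit 0) (cs (lf (nat_lit 36) (nat_lit 158)) (lf (nat_lit 39) (nat_lit 180)))) q56888 (by decide +kernel)
def q56921 : Q := Q.p (nat_lit 0x10000020000080000600000000000000000000000000000000000000000000000000000000000000) (nat_lit 0x4000008000000000000000000001000000000000000000000000000000000000000000000000000000000) (nat_lit 2)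
theorem c56921 : QOK q56921 := cut [] trivial (nd (nat_lit 315) (nat_lit 0) (cs (lf (nat_lit 29) (nat_lit 249)) (lf (nat_lit 35) (nat_lit 227)))) q56921 (by decide +kernel)
def q56929 : Q := Q.p (nat_lit 0x8000020000080000600000000000000000000000000000000000000000000000000000000000000) (nat_lit 0x1000006000010000000000100000000000000000000000000000000000000000000000000000000000000000000) (nat_lit 3)
theorem c56929 : QOK q56929 := cut [] trivial (nd (nat_lit 338) (nat_lit 0) (cs (lf (nat_lit 28) (nat_lit 249)) (nd (nat_lit 337) (nat_lit 0) (cs (lf (nat_lit 34) (nat_lit 249)) (lf (nat_lit 29) (nat_lit 271)))))) q56929 (by decide +kernel)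
def q56961 : Q := Q.p (nat_lit 0x38000180000000000000000000000000000000000000000000000000000000000000000000) (nat_lit 0x640000000000000000000000000000000000000000000000000000000000000000000) (nat_lit 2)
theorem c56961 : QOK q56961 := cut [] trivial (nd (nat_lit 273) (nat_lit 0) (cs (lf (nat_lit 6) (nat_lit 270)) (lf (nat_lit 9) (nat_lit 269)))) q56961 (by decide +kernel)
def q56973 : Q := Q.p (nat_lit 0x8000020000080000600000000000000000000000000000000000000000000000000000000000000) (nat_lit 0x400003000004000000000100000000000000000000000000000000000000000000000000000000000000000000) (nat_lit 3)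
theorem c56973 : QOK q56973 := cut [] trivial (nd (nat_lit 336) (nat_lit 0) (cs (lf (nat_lit 40) (nat_lit 248)) (nd (nat_lit 337) (nat_lit 0) (cs (lf (nat_lit 34) (nat_lit 249)) (lf (nat_lit 41) (nat_lit 270)))))) q56973 (by decide +kernel)
def q57008 : Q := Q.p (nat_lit 0x20000080000200000800000000000000000000000000000000000000000000000000000000) (nat_lit 0x10000040000100000000000400003000004000000000000000000000000000000000000000000000) (nat_lit 4)
theorem c57008 : QOK q57008 := cut [] trivial (nd (nat_lit 204) (nat_lit 0) (cs (lf (nat_lit 46) (nat_lit 204)) (nd (nat_lit 294) (nat_lit 0) (cs (lf (nat_lit 29) (nat_lit 227)) (nd (nat_lit 205) (nat_lit 0) (cs (lf (nat_lit 47) (nat_lit 182)) (lf (nat_lit 28) (nat_lit 205)))))))) q57008 (by decide +kernel)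
def q57055 : Q := Q.p (nat_lit 0x80001c0000600000000000000000000000000000000000000000000000000000000000000) (nat_lit 0x4000030000000000000000000000000000000000000000000000000000000000000000000) (nat_lit 2)
theorem c57055 : QOK q57055 := cut [] trivial (nd (nat_lit 269) (nat_lit 0) (cs (lf (nat_lit 11) (nat_lit 268)) (lf (nat_lit 12) (nat_lit 246)))) q57055 (by decide +kernel)
def q57087 : Q := Q.p (nat_lit 0x8000060000080000000001000000000000000000000000000000000000000000000000000) (nat_lit 0x100000600000000000000000000000000000000000000000000000000000000) (nat_lit 2)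
theorem c57087 : QOK q57087 := cut [] trivial (nd (nat_lit 226) (nat_lit 0) (cs (lf (nat_lit 38) (nat_lit 203)) (lf (nat_lit 33) (nat_lit 203)))) q57087 (by decide +kernel)
def q57188 : Q := Q.p (nat_lit 0x300001c000000000000000000000000000000000000000000000) (nat_lit 0x800060000000000000000000000000000000000000000000000) (nat_lit 2)
theorem c57188 : QOK q57188 := cut [] trivial (nd (nat_lit 185) (nat_lit 0) (cs (lf (nat_lit 11) (nat_lit 181)) (lf (nat_lit 6) (nat_lit 182)))) q57188 (by decide +kernel)
def q57236 : Q := Q.p (nat_lit 0x20000180000700000000000000000000000000000000000000000000000000000000000000) (nat_lit 0x2000008000000000000000000000400000000000000000000000000000000000000000000000000000000) (nat_lit 2)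
theorem c57236 : QOK q57236 := cut [] trivial (nd (nat_lit 315) (nat_lit 0) (cs (lf (nat_lit 30) (nat_lit 249)) (lf (nat_lit 47) (nat_lit 226)))) q57236 (by decide +kernel)
def q57256 : Q := Q.p (nat_lit 0x3800003000000000000000000000000000000000000000000000000000) (nat_lit 0x400000c00000000000000000000000000000000000000000000000000) (nat_lit 2)
theorem c57256 : QOK q57256 := cut [] trivial (nd (nat_lit 203) (nat_lit 0) (cs (lf (nat_lit 0) (nat_lit 202)) (lf (nat_lit 21) (nat_lit 203)))) q57256 (by decide +kernel)
def q57280 : Q := Q.p (nat_lit 0x80000600001800000000000000000000000000000000000000000000000000000000) (nat_lit 0x8000020000000000000000000004000000000000000000000000000000000000000000000000000) (nat_lit 2)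
theorem c57280 : QOK q57280 := cut [] trivial (nd (nat_lit 293) (nat_lit 0) (cs (lf (nat_lit 30) (nat_lit 227)) (lf (nat_lit 35) (nat_lit 205)))) q57280 (by decide +kernel)
def q57324 : Q := Q.p (nat_lit 0x40000100000000007800000000000000000000000000000000000000000000000000) (nat_lit 0x400000000003000000000000000000000000000000000000000000000) (nat_lit 2)
theorem c57324 : QOK q57324 := cut [] trivial (nd (nat_lit 181) (nat_lit 0) (cs (lf (nat_lit 23) (nat_lit 180)) (lf (nat_lit 44) (nat_lit 181)))) q57324 (by decide +kernel)
def q57364 : Q := Q.p (nat_lit 0x700000c00000000000000000000000000000000000000000000000000000000) (nat_lit 0x800000300000000000000000000000000000000000000000000000000000000) (nat_lit 2)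
theorem c57364 : QOK q57364 := cut [] trivial (nd (nat_lit 225) (nat_lit 0) (cs (lf (nat_lit 0) (nat_lit 224)) (lf (nat_lit 18) (nat_lit 225)))) q57364 (by decide +kernel)
def q57381 : Q := Q.p (nat_lit 0x300000d0000100000400000000000000000000000000000000000000000000000000000000) (nat_lit 0x200000e000008000000000000000000000000000000000000000000000000000000000000000000) (nat_lit 3)
theorem c57381 : QOK q57381 := cut [] trivial (nd (nat_lit 291) (nat_lit 0) (cs (lf (nat_lit 41) (nat_lit 225)) (nd (nat_lit 290) (nat_lit 0) (cs (lf (nat_lit 23) (nat_lit 267)) (lf (nat_lit 12) (nat_lit 267)))))) q57381 (by decide +kernel)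
def q57393 : Q := Q.p (nat_lit 0x780000000000000000000000000000000000000000000000000000000000000) (nat_lit 0x380000040000380000000000000000000000000000000000000000000000000000000) (nat_lit 4)
theorem c57393 : QOK q57393 := cut [] trivial (nd (nat_lit 224) (nat_lit 0) (cs (lf (nat_lit 22) (nat_lit 224)) (nd (nat_lit 272) (nat_lit 0) (cs (lf (nat_lit 5) (nat_lit 247)) (nd (nat_lit 246) (nat_lit 0) (cs (lf (nat_lit 23) (nat_lit 223)) (lf (nat_lit 4) (nat_lit 246)))))))) q57393 (by decide +kernel)
def q57428 : Q := Q.p (nat_lit 0x3e0000000000000000000000000000000000000000000000000000000000000) (nat_lit 0x1c0000000000000000000000000000000000000000000000000000000) (nat_lit 2)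
theorem c57428 : QOK q57428 := cut [] trivial (nd (nat_lit 223) (nat_lit 0) (cs (lf (nat_lit 23) (nat_lit 222)) (lf (nat_lit 22) (nat_lit 223)))) q57428 (by decide +kernel)
def q57438 : Q := Q.p (nat_lit 0x3e0000000000000000000000000000000000000000000000000000000000000) (nat_lit 0x1c000000000000000000000000000000000000000000000000000000000000000000) (nat_lit 2)
theorem c57438 : QOK q57438 := cut [] trivial (nd (nat_lit 267) (nat_lit 0) (cs (lf (nat_lit 11) (nat_lit 244)) (lf (nat_lit 10) (nat_lit 245)))) q57438 (by decide +kernel)
def q57500 : Q := Q.p (nat_lit 0x80000200000c00001000000000000000000000000000000000000000000000000000) (nat_lit 0x2000004000010000000000000000000000000000000000000000) (nat_lit 2)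
theorem c57500 : QOK q57500 := cut [] trivial (nd (nat_lit 182) (nat_lit 0) (cs (lf (nat_lit 24) (nat_lit 160)) (lf (nat_lit 45) (nat_lit 182)))) q57500 (by decide +kernel)
def q57522 : Q := Q.p (nat_lit 0x600003800010000000000000000000000000000000000000000000000000000) (nat_lit 0xc000020000000000000000000000000000000000000000000000000000) (nat_lit 2)
theorem c57522 : QOK q57522 := cut [] trivial (nd (nat_lit 230) (nat_lit 0) (cs (lf (nat_lit 6) (nat_lit 227)) (lf (nat_lit 17) (nat_lit 205)))) q57522 (by decide +kernel)
def q57542 : Q := Q.p (nat_lit 0x1c0000600000000000000000000000000000000000000000000000000000000000000) (nat_lit 0x30000800000000000000000000000000000000000000000000000000000000000000) (nat_lit 2)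
theorem c57542 : QOK q57542 := cut [] trivial (nd (nat_lit 269) (nat_lit 0) (cs (lf (nat_lit 17) (nat_lit 247)) (lf (nat_lit 12) (nat_lit 246)))) q57542 (by decide +kernel)
def q57552 : Q := Q.p (nat_lit 0x600001a00000000000000000000000000000000000000000000000000000000) (nat_lit 0x800000500000000000000000000000000000000000000000000000000000000) (nat_lit 2)
theorem c57552 : QOK q57552 := cut [] trivial (nd (nat_lit 226) (nat_lit 0) (cs (lf (nat_lit 0) (nat_lit 224)) (lf (nat_lit 5) (nat_lit 225)))) q57552 (by decide +kernel)
def q57556 : Q := Q.p (nat_lit 0x200000600001800004000000000000000000000000000000000000000000000000000) (nat_lit 0x800000000000000010000040000000000000000000000000000000000000000) (nat_lit 2)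
theorem c57556 : QOK q57556 := cut [] trivial (nd (nat_lit 184) (nat_lit 0) (cs (lf (nat_lit 36) (nat_lit 161)) (lf (nat_lit 28) (nat_lit 184)))) q57556 (by decide +kernel)
def q57625 : Q := Q.p (nat_lit 0x10000040000300000800000000000000000000000000000000000000000000000000000000) (nat_lit 0x80000000000000002000008000000000000000000000000000000000000000000000) (nat_lit 2)
theorem c57625 : QOK q57625 := cut [] trivial (nd (nat_lit 205) (nat_lit 0) (cs (lf (nat_lit 36) (nat_lit 182)) (lf (nat_lit 39) (nat_lit 204)))) q57625 (by decide +kernel)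
def q57632 : Q := Q.p (nat_lit 0x2800004000010000040000000000000000000000000000000000000000000000000000000000000000000) (nat_lit 0xa00001000000000000000000000000000000000000000000000000000000000000000000000000000000000000) (nat_lit 2)
theorem c57632 : QOK q57632 := cut [] trivial (nd (nat_lit 336) (nat_lit 0) (cs (lf (nat_lit 29) (nat_lit 270)) (lf (nat_lit 41) (nat_lit 269)))) q57632 (by decide +kernel)
def q57666 : Q := Q.p (nat_lit 0x40000100000c000010000000000000000000000000000000000000000000000000000) (nat_lit 0x100000000000000000000020000080000000000000000000000000000000000000000000000) (nat_lit 2)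
theorem c57666 : QOK q57666 := cut [] trivial (nd (nat_lit 209) (nat_lit 0) (cs (lf (nat_lit 30) (nat_lit 208)) (lf (nat_lit 35) (nat_lit 186)))) q57666 (by decide +kernel)
def q57678 : Q := Q.p (nat_lit 0x100000400001000004000010000000000000000000000000000000000000000000000000000) (nat_lit 0x20000080000200000000000000000000000000000000000000000000000000000000000000000000) (nat_lit 2)
theorem c57678 : QOK q57678 := cut [] trivial (nd (nat_lit 295) (nat_lit 0) (cs (lf (nat_lit 41) (nat_lit 229)) (lf (nat_lit 40) (nat_lit 207)))) q57678 (by decide +kernel)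
def q57683 : Q := Q.p (nat_lit 0x80000200000c0000a0000000000000000000000000000000000000000000000000000) (nat_lit 0x140000100000000000000000000000000000000000000000000000) (nat_lit 2)
theorem c57683 : QOK q57683 := cut [] trivial (nd (nat_lit 210) (nat_lit 0) (cs (lf (nat_lit 35) (nat_lit 187)) (lf (nat_lit 6) (nat_lit 208)))) q57683 (by decide +kernel)
def q57684 : Q := Q.p (nat_lit 0x8000020000080000b0000200000000000000000000000000000000000000000000000) (nat_lit 0x40000500000000000000000000000000000000000000000000000) (nat_lit 2)
theorem c57684 : QOK q57684 := cut [] trivial (nd (nat_lit 210) (nat_lit 0) (cs (lf (nat_lit 17) (nat_lit 186)) (lf (nat_lit 35) (nat_lit 187)))) q57684 (by decide +kernel)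
def q57685 : Q := Q.p (nat_lit 0x8000020000080000200000800000000000000000000000000000000000000000) (nat_lit 0x100000400001000000000000000000000000000000000000) (nat_lit 2)
theorem c57685 : QOK q57685 := cut [] trivial (nd (nat_lit 166) (nat_lit 0) (cs (lf (nat_lit 47) (nat_lit 144)) (lf (nat_lit 46) (nat_lit 166)))) q57685 (by decide +kernel)
def q57694 : Q := Q.p (nat_lit 0x1c0000b0000200000000000000000000000000000000000000000000000) (nat_lit 0x18000060000040000400001000000000000000000000000000000000000000000) (nat_lit 4)
theorem c57694 : QOK q57694 := cut [] trivial (nd (nat_lit 190) (nat_lit 0) (cs (nd (nat_lit 233) (nat_lit 0) (cs (lf (nat_lit 18) (nat_lit 208)) (nd (nat_lit 255) (nat_lit 0) (cs (lf (nat_lit 5) (nat_lit 230)) (lf (nat_lit 35) (nat_lit 167)))))) (lf (nat_lit 14) (nat_lit 186)))) q57694 (by decide +kernel)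
def q57695 : Q := Q.p (nat_lit 0x80000a0000280000a0000200000000000000000000000000000000000000000000000) (nat_lit 0x40000100000400000000000000000000000000000000000000000) (nat_lit 2)
theorem c57695 : QOK q57695 := cut [] trivial (nd (nat_lit 188) (nat_lit 0) (cs (lf (nat_lit 34) (nat_lit 187)) (lf (nat_lit 47) (nat_lit 166)))) q57695 (by decide +kernel)
def q57761 : Q := Q.p (nat_lit 0xc000000000000001c0000300000000000000000000000000000000000000000) (nat_lit 0x2000000000030001c6000638000060000000000000000000000000000000000000000) (nat_lit 8)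
theorem c57761 : QOK q57761 := cut [] trivial (nd (nat_lit 189) (nat_lit 0) (cs (lf (nat_lit 18) (nat_lit 164)) (nd (nat_lit 211) (nat_lit 0) (cs (lf (nat_lit 5) (nat_lit 186)) (nd (nat_lit 185) (nat_lit 0) (cs (lf (nat_lit 4) (nat_lit 185)) (nd (nat_lit 184) (nat_lit 0) (cs (lf (nat_lit 12) (nat_lit 161)) (nd (nat_lit 162) (nat_lit 0) (cs (lf (nat_lit 23) (nat_lit 161)) (nd (nat_lit 206) (nat_lit 0) (cs (lf (nat_lit 11) (nat_lit 183)) (nd (nat_lit 228) (nat_lit 0) (cs (lf (nat_lit 28) (nat_lit 162)) (lf (nat_lit 29) (nat_lit 184)))))))))))))))) q57761 (by decide +kernel)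
def q57765 : Q := Q.p (nat_lit 0x10000040000300000700000000000000000000000000000000000) (nat_lit 0x400000800002000000000000000000000000000000) (nat_lit 2)
theorem c57765 : QOK q57765 := cut [] trivial (nd (nat_lit 143) (nat_lit 0) (cs (lf (nat_lit 35) (nat_lit 120)) (lf (nat_lit 5) (nat_lit 140)))) q57765 (by decide +kernel)
def q57802 : Q := Q.p (nat_lit 0xf80000000000000000000000000000000000000000000000) (nat_lit 0x700000000000000000000000000000000000000000000000000000) (nat_lit 2)
theorem c57802 : QOK q57802 := cut [] trivial (nd (nat_lit 213) (nat_lit 0) (cs (lf (nat_lit 5) (nat_lit 188)) (lf (nat_lit 4) (nat_lit 187)))) q57802 (by decide +kernel)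
def q57829 : Q := Q.p (nat_lit 0x180000780000000002000000000000000000000000000000) (nat_lit 0x3000004000018000000000000000000000000) (nat_lit 3)
theorem c57829 : QOK q57829 := cut [] trivial (nd (nat_lit 144) (nat_lit 0) (cs (lf (nat_lit 17) (nat_lit 141)) (nd (nat_lit 122) (nat_lit 0) (cs (lf (nat_lit 36) (nat_lit 99)) (lf (nat_lit 47) (nat_lit 99)))))) q57829 (by decide +kernel)
def q57842 : Q := Q.p (nat_lit 0x180000c00002000002000000000000000000000000000000) (nat_lit 0x10000040000000000200001800000000000000000000000000000000000) (nat_lit 3)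
theorem c57842 : QOK q57842 := cut [] trivial (nd (nat_lit 210) (nat_lit 0) (cs (lf (nat_lit 30) (nat_lit 144)) (nd (nat_lit 143) (nat_lit 0) (cs (lf (nat_lit 45) (nat_lit 121)) (lf (nat_lit 26) (nat_lit 121)))))) q57842 (by decide +kernel)
def q57850 : Q := Q.p (nat_lit 0x7800000000000000000000000000000) (nat_lit 0x380000400038000000000000000000000000) (nat_lit 4)
theorem c57850 : QOK q57850 := cut [] trivial (nd (nat_lit 140) (nat_lit 0) (cs (lf (nat_lit 10) (nat_lit 118)) (nd (nat_lit 118) (nat_lit 0) (cs (lf (nat_lit 11) (nat_lit 117)) (nd (nat_lit 100) (nat_lit 0) (cs (lf (nat_lit 17) (nat_lit 97)) (lf (nat_lit 16) (nat_lit 96)))))))) q57850 (by decide +kernel)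
def q57861 : Q := Q.p (nat_lit 0xc00003000004000000000000000000000000000000) (nat_lit 0x200000000000000000000010000040000000000000000000) (nat_lit 2)
theorem c57861 : QOK q57861 := cut [] trivial (nd (nat_lit 100) (nat_lit 0) (cs (lf (nat_lit 24) (nat_lit 78)) (lf (nat_lit 29) (nat_lit 100)))) q57861 (by decide +kernel)
def q57881 : Q := Q.p (nat_lit 0x100001c0000c00002000002000000000000000000000000000000) (nat_lit 0x2000003c0004800000000000000000000000000000000000) (nat_lit 4)
theorem c57881 : QOK q57881 := cut [] trivial (nd (nat_lit 165) (nat_lit 0) (cs (lf (nat_lit 37) (nat_lit 120)) (nd (nat_lit 164) (nat_lit 0) (cs (lf (nat_lit 17) (nat_lit 142)) (nd (nat_lit 163) (nat_lit 0) (cs (lf (nat_lit 5) (nat_lit 163)) (lf (nat_lit 0) (nat_lit 162)))))))) q57881 (by decide +kernel)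
def q57884 : Q := Q.p (nat_lit 0x100000c00002000000000000000000000000000000000000) (nat_lit 0x10000040000200000000001000008000000000000000000000000000000) (nat_lit 3)
theorem c57884 : QOK q57884 := cut [] trivial (nd (nat_lit 210) (nat_lit 0) (cs (lf (nat_lit 30) (nat_lit 144)) (nd (nat_lit 123) (nat_lit 0) (cs (lf (nat_lit 39) (nat_lit 122)) (lf (nat_lit 33) (nat_lit 122)))))) q57884 (by decide +kernel)
def q57918 : Q := Q.p (nat_lit 0x700000c00000000000000000000000000000000000000000) (nat_lit 0x1800000200000000000000000000000000000000000000000) (nat_lit 2)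
theorem c57918 : QOK q57918 := cut [] trivial (nd (nat_lit 191) (nat_lit 0) (cs (lf (nat_lit 23) (nat_lit 165)) (lf (nat_lit 18) (nat_lit 166)))) q57918 (by decide +kernel)
def q57934 : Q := Q.p (nat_lit 0x300000c0000000000c00000000000000000000000000000000000) (nat_lit 0x100000000003000000000000000000000000000000) (nat_lit 2)
theorem c57934 : QOK q57934 := cut [] trivial (nd (nat_lit 164) (nat_lit 0) (cs (lf (nat_lit 35) (nat_lit 120)) (lf (nat_lit 24) (nat_lit 120)))) q57934 (by decide +kernel)
def q57982 : Q := Q.p (nat_lit 0x200000c0000000000c00000000000000000000000000000000000) (nat_lit 0x300000000001000000000000000000000000000000) (nat_lit 2)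
theorem c57982 : QOK q57982 := cut [] trivial (nd (nat_lit 120) (nat_lit 0) (cs (lf (nat_lit 26) (nat_lit 120)) (lf (nat_lit 44) (nat_lit 120)))) q57982 (by decide +kernel)
def q58038 : Q := Q.p (nat_lit 0x400000e0000400000000000000000000000000000000000000000) (nat_lit 0x80000100000800000000000000000000000000000000000000000) (nat_lit 2)
theorem c58038 : QOK q58038 := cut [] trivial (nd (nat_lit 188) (nat_lit 0) (cs (lf (nat_lit 5) (nat_lit 185)) (lf (nat_lit 17) (nat_lit 163)))) q58038 (by decide +kernel)
def q58074 : Q := Q.p (nat_lit 0x10000040000f00000000000000000000000000000000000) (nat_lit 0x4000000000000000080000700000000000000000000000000000) (nat_lit 3)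
theorem c58074 : QOK q58074 := cut [] trivial (nd (nat_lit 117) (nat_lit 0) (cs (lf (nat_lit 22) (nat_lit 117)) (nd (nat_lit 139) (nat_lit 0) (cs (lf (nat_lit 23) (nat_lit 116)) (lf (nat_lit 42) (nat_lit 117)))))) q58074 (by decide +kernel)
def q58082 : Q := Q.p (nat_lit 0x60000080000000000c00000000000000000000000000000000000) (nat_lit 0x10000000000000000200000000001000000000000000000000000000000) (nat_lit 2)
theorem c58082 : QOK q58082 := cut [] trivial (nd (nat_lit 165) (nat_lit 0) (cs (lf (nat_lit 29) (nat_lit 143)) (lf (nat_lit 47) (nat_lit 120)))) q58082 (by decide +kernel)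
def q58100 : Q := Q.p (nat_lit 0xe0000000000f00000000000000000000000000000000000) (nat_lit 0x1000000e0001000000000000000000000000000000000000) (nat_lit 3)
theorem c58100 : QOK q58100 := cut [] trivial (nd (nat_lit 162) (nat_lit 0) (cs (lf (nat_lit 11) (nat_lit 139)) (nd (nat_lit 163) (nat_lit 0) (cs (lf (nat_lit 6) (nat_lit 140)) (lf (nat_lit 18) (nat_lit 162)))))) q58100 (by decide +kernel)
def q58109 : Q := Q.p (nat_lit 0x300000c0000000000600000000000000000000000000000000000) (nat_lit 0x100000000001800000000000000000000000000000) (nat_lit 2)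
theorem c58109 : QOK q58109 := cut [] trivial (nd (nat_lit 164) (nat_lit 0) (cs (lf (nat_lit 47) (nat_lit 119)) (lf (nat_lit 24) (nat_lit 120)))) q58109 (by decide +kernel)
def q58117 : Q := Q.p (nat_lit 0x700000c0000000000800000000000000000000000000000000000) (nat_lit 0x10000000000000000200000000002000000000000000000000000000000) (nat_lit 2)
theorem c58117 : QOK q58117 := cut [] trivial (nd (nat_lit 165) (nat_lit 0) (cs (lf (nat_lit 29) (nat_lit 143)) (lf (nat_lit 36) (nat_lit 120)))) q58117 (by decide +kernel)
def q58158 : Q := Q.p (nat_lit 0x20000080000300002800000000000000000000000000000000000) (nat_lit 0x5000004000000000000000000000000000000) (nat_lit 2)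
theorem c58158 : QOK q58158 := cut [] trivial (nd (nat_lit 144) (nat_lit 0) (cs (lf (nat_lit 35) (nat_lit 121)) (lf (nat_lit 6) (nat_lit 142)))) q58158 (by decide +kernel)
def q58170 : Q := Q.p (nat_lit 0x20000080000400001e0000000000000000000000000000000000000000000000) (nat_lit 0x10000000000000000c00000000000000000000000000000000000000000) (nat_lit 2)
theorem c58170 : QOK q58170 := cut [] trivial (nd (nat_lit 166) (nat_lit 0) (cs (lf (nat_lit 39) (nat_lit 165)) (lf (nat_lit 17) (nat_lit 163)))) q58170 (by decide +kernel)
def q58187 : Q := Q.p (nat_lit 0x20000180000000001800000000000000000000000000000000000) (nat_lit 0x600000000004000000000000000000000000000000) (nat_lit 2)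
theorem c58187 : QOK q58187 := cut [] trivial (nd (nat_lit 122) (nat_lit 0) (cs (lf (nat_lit 32) (nat_lit 121)) (lf (nat_lit 38) (nat_lit 121)))) q58187 (by decide +kernel)
def q58192 : Q := Q.p (nat_lit 0x300001c0000200000800000000000000000000000000000000000) (nat_lit 0x700001c0000000000400001000004000000000000000000000000000000) (nat_lit 5)
theorem c58192 : QOK q58192 := cut [] trivial (nd (nat_lit 144) (nat_lit 0) (cs (lf (nat_lit 35) (nat_lit 121)) (nd (nat_lit 210) (nat_lit 0) (cs (lf (nat_lit 29) (nat_lit 143)) (nd (nat_lit 211) (nat_lit 0) (cs (lf (nat_lit 18) (nat_lit 186)) (nd (nat_lit 233) (nat_lit 0) (cs (lf (nat_lit 5) (nat_lit 208)) (lf (nat_lit 25) (nat_lit 144)))))))))) q58192 (by decide +kernel)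
def q58226 : Q := Q.p (nat_lit 0x80000200000900002800000000000000000000000000000000000) (nat_lit 0x200005000014000000000000000000000000000000) (nat_lit 3)
theorem c58226 : QOK q58226 := cut [] trivial (nd (nat_lit 144) (nat_lit 0) (cs (lf (nat_lit 47) (nat_lit 122)) (nd (nat_lit 146) (nat_lit 0) (cs (lf (nat_lit 10) (nat_lit 142)) (lf (nat_lit 35) (nat_lit 123)))))) q58226 (by decide +kernel)
def q58242 : Q := Q.p (nat_lit 0x10000040000100001c00004000000000000000000000000000000) (nat_lit 0x200008800000000000000000000000000000) (nat_lit 2)
theorem c58242 : QOK q58242 := cut [] trivial (nd (nat_lit 141) (nat_lit 0) (cs (lf (nat_lit 47) (nat_lit 119)) (lf (nat_lit 17) (nat_lit 119)))) q58242 (by decide +kernel)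
def q58262 : Q := Q.p (nat_lit 0x10000040000900000400000000000000000000000000000000000) (nat_lit 0x600001a00002800000000000000000000000000000) (nat_lit 4)
theorem c58262 : QOK q58262 := cut [] trivial (nd (nat_lit 143) (nat_lit 0) (cs (lf (nat_lit 35) (nat_lit 120)) (nd (nat_lit 141) (nat_lit 0) (cs (lf (nat_lit 47) (nat_lit 119)) (nd (nat_lit 166) (nat_lit 0) (cs (lf (nat_lit 3) (nat_lit 141)) (lf (nat_lit 20) (nat_lit 141)))))))) q58262 (by decide +kernel)
def q58268 : Q := Q.p (nat_lit 0x300001c0000180000600000000000000000000000000000000000) (nat_lit 0x40000380000e000000000000000000000000000000) (nat_lit 4)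
theorem c58268 : QOK q58268 := cut [] trivial (nd (nat_lit 143) (nat_lit 0) (cs (lf (nat_lit 35) (nat_lit 120)) (nd (nat_lit 144) (nat_lit 0) (cs (lf (nat_lit 6) (nat_lit 141)) (nd (nat_lit 122) (nat_lit 0) (cs (lf (nat_lit 17) (nat_lit 119)) (lf (nat_lit 38) (nat_lit 121)))))))) q58268 (by decide +kernel)
def q58302 : Q := Q.p (nat_lit 0x20000080000000001e0000400000000000000000000000000000000000000000) (nat_lit 0x100000c0000000000000000000000000000000000000000000000000000) (nat_lit 2)
theorem c58302 : QOK q58302 := cut [] trivial (nd (nat_lit 210) (nat_lit 0) (cs (lf (nat_lit 39) (nat_lit 165)) (lf (nat_lit 5) (nat_lit 185)))) q58302 (by decide +kernel)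
def q58363 : Q := Q.p (nat_lit 0x600001c0000000000000000000000000000000000000000000000) (nat_lit 0x180000020000000000000000000000000000000000000000000000) (nat_lit 2)
theorem c58363 : QOK q58363 := cut [] trivial (nd (nat_lit 211) (nat_lit 0) (cs (lf (nat_lit 18) (nat_lit 186)) (lf (nat_lit 0) (nat_lit 185)))) q58363 (by decide +kernel)
def q58377 : Q := Q.p (nat_lit 0x300000800002000000000000000000000000000000000000) (nat_lit 0x40000000000400000000018000060000100000000000000000000) (nat_lit 4)
theorem c58377 : QOK q58377 := cut [] trivial (nd (nat_lit 123) (nat_lit 0) (cs (lf (nat_lit 41) (nat_lit 122)) (nd (nat_lit 102) (nat_lit 0) (cs (lf (nat_lit 34) (nat_lit 101)) (nd (nat_lit 101) (nat_lit 0) (cs (lf (nat_lit 35) (nat_lit 79)) (lf (nat_lit 40) (nat_lit 100)))))))) q58377 (by decide +kernel)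
def q58379 : Q := Q.p (nat_lit 0x20000080000200000800002000000000000000000000000000000000000) (nat_lit 0x400001000004000000000000000000000000000000) (nat_lit 2)
theorem c58379 : QOK q58379 := cut [] trivial (nd (nat_lit 144) (nat_lit 0) (cs (lf (nat_lit 47) (nat_lit 122)) (lf (nat_lit 46) (nat_lit 144)))) q58379 (by decide +kernel)
def q58395 : Q := Q.p (nat_lit 0x300000700000000000000000000000000000000000) (nat_lit 0xc80000000000000000000000000000000000000000) (nat_lit 2)
theorem c58395 : QOK q58395 := cut [] trivial (nd (nat_lit 166) (nat_lit 0) (cs (lf (nat_lit 21) (nat_lit 140)) (lf (nat_lit 18) (nat_lit 141)))) q58395 (by decide +kernel)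
def q58404 : Q := Q.p (nat_lit 0x300001e0000100000000000000000000000000000000000000000) (nat_lit 0xec0003300004800000000000000000000000000000) (nat_lit 6)
theorem c58404 : QOK q58404 := cut [] trivial (nd (nat_lit 163) (nat_lit 0) (cs (lf (nat_lit 23) (nat_lit 162)) (nd (nat_lit 166) (nat_lit 0) (cs (lf (nat_lit 17) (nat_lit 163)) (nd (nat_lit 141) (nat_lit 0) (cs (lf (nat_lit 24) (nat_lit 119)) (nd (nat_lit 144) (nat_lit 0) (cs (lf (nat_lit 36) (nat_lit 121)) (nd (nat_lit 165) (nat_lit 0) (cs (lf (nat_lit 17) (nat_lit 141)) (lf (nat_lit 23) (nat_lit 140)))))))))))) q58404 (by decide +kernel)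
def q58454 : Q := Q.p (nat_lit 0x800002000000000010000040000100000000000000000000000000000000000000000) (nat_lit 0xc000020000000000000000000000000000000000000000000000000000) (nat_lit 2)
theorem c58454 : QOK q58454 := cut [] trivial (nd (nat_lit 231) (nat_lit 0) (cs (lf (nat_lit 27) (nat_lit 164)) (lf (nat_lit 45) (nat_lit 186)))) q58454 (by decide +kernel)
def q58483 : Q := Q.p (nat_lit 0x20000200000c00001000000000000000000000000000000000000000000000000000000000) (nat_lit 0x8000000000180000200000800004000010000000000000000000000000000000000000000000000) (nat_lit 4)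
theorem c58483 : QOK q58483 := cut [] trivial (nd (nat_lit 206) (nat_lit 0) (cs (lf (nat_lit 24) (nat_lit 184)) (nd (nat_lit 271) (nat_lit 0) (cs (nd (nat_lit 249) (nat_lit 0) (cs (lf (nat_lit 33) (nat_lit 205)) (lf (nat_lit 30) (nat_lit 227)))) (lf (nat_lit 39) (nat_lit 205)))))) q58483 (by decide +kernel)
def q58489 : Q := Q.p (nat_lit 0x1e0000200000800000000000000000000000000000000000000000000000000000000000000) (nat_lit 0xc0000000000000000000002000000000000000000000000000000000000000000000000000000000) (nat_lit 2)
theorem c58489 : QOK q58489 := cut [] trivial (nd (nat_lit 318) (nat_lit 0) (cs (lf (nat_lit 24) (nat_lit 229)) (lf (nat_lit 5) (nat_lit 293)))) q58489 (by decide +kernel)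
def q58499 : Q := Q.p (nat_lit 0x40000300000c00001000000000000000000000000000000000000000000000000000000000) (nat_lit 0xc000030000080000000000000000000000000000000000000000000000000000000000000000000000000) (nat_lit 3)
theorem c58499 : QOK q58499 := cut [] trivial (nd (nat_lit 316) (nat_lit 0) (cs (lf (nat_lit 30) (nat_lit 250)) (nd (nat_lit 317) (nat_lit 0) (cs (lf (nat_lit 29) (nat_lit 250)) (lf (nat_lit 43) (nat_lit 228)))))) q58499 (by decide +kernel)
def q58505 : Q := Q.p (nat_lit 0x20000080003e00000000000000000000000000000000000000000000000000000000000000) (nat_lit 0x8000000000000000000001800000000000000000000000000000000000000000000000000000000) (nat_lit 2)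
theorem c58505 : QOK q58505 := cut [] trivial (nd (nat_lit 228) (nat_lit 0) (cs (lf (nat_lit 23) (nat_lit 227)) (lf (nat_lit 30) (nat_lit 227)))) q58505 (by decide +kernel)
def q58512 : Q := Q.p (nat_lit 0x20000080000600001000000000000000000000000000000000000000000000000000000000) (nat_lit 0x800004000010000000000000000000000000000000000000000000000) (nat_lit 2)
theorem c58512 : QOK q58512 := cut [] trivial (nd (nat_lit 206) (nat_lit 0) (cs (lf (nat_lit 36) (nat_lit 183)) (lf (nat_lit 33) (nat_lit 205)))) q58512 (by decide +kernel)
def q58517 : Q := Q.p (nat_lit 0x8000020000080000200000000000000000000000000000000000000000000000000000000000000) (nat_lit 0x4000010000040000000000100000c00001000000000000000000000000000000000000000000000000000) (nat_lit 4)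
theorem c58517 : QOK q58517 := cut [] trivial (nd (nat_lit 226) (nat_lit 0) (cs (lf (nat_lit 46) (nat_lit 226)) (nd (nat_lit 316) (nat_lit 0) (cs (lf (nat_lit 29) (nat_lit 249)) (nd (nat_lit 227) (nat_lit 0) (cs (lf (nat_lit 47) (nat_lit 204)) (lf (nat_lit 28) (nat_lit 227)))))))) q58517 (by decide +kernel)
def q58520 : Q := Q.p (nat_lit 0x8000020000080000400000000000000000000000000000000000000000000000000000000000000) (nat_lit 0x2000000000000000100000200001000004000000000000000000000000000000000000000000000000000) (nat_lit 3)
theorem c58520 : QOK q58520 := cut [] trivial (nd (nat_lit 228) (nat_lit 0) (cs (lf (nat_lit 33) (nat_lit 227)) (nd (nat_lit 272) (nat_lit 0) (cs (lf (nat_lit 36) (nat_lit 205)) (lf (nat_lit 30) (nat_lit 249)))))) q58520 (by decide +kernel)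
def q58538 : Q := Q.p (nat_lit 0x200000f0000000000000000000000000000000000000000000000000000000000000000000000000) (nat_lit 0x17000008000000000000000000000000000000000000000000000000000000000000000000000000) (nat_lit 3)
theorem c58538 : QOK q58538 := cut [] trivial (nd (nat_lit 313) (nat_lit 0) (cs (lf (nat_lit 10) (nat_lit 291)) (nd (nat_lit 291) (nat_lit 0) (cs (lf (nat_lit 11) (nat_lit 290)) (lf (nat_lit 4) (nat_lit 291)))))) q58538 (by decide +kernel)
def q58549 : Q := Q.p (nat_lit 0xf8000000000000000000000000000000000000000000000000000000000000000000000000) (nat_lit 0x7000000000000000000000000000000000000000000000000000000000000000000000000000000) (nat_lit 2)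
theorem c58549 : QOK q58549 := cut [] trivial (nd (nat_lit 313) (nat_lit 0) (cs (lf (nat_lit 11) (nat_lit 290)) (lf (nat_lit 10) (nat_lit 291)))) q58549 (by decide +kernel)
def q58572 : Q := Q.p (nat_lit 0x78000020000080000200000000000000000000000000000000000000000000000000000000) (nat_lit 0x3000004000000000000000000000000000000000000000000000000000000000000000000000000) (nat_lit 2)
theorem c58572 : QOK q58572 := cut [] trivial (nd (nat_lit 312) (nat_lit 0) (cs (lf (nat_lit 10) (nat_lit 290)) (lf (nat_lit 40) (nat_lit 224)))) q58572 (by decide +kernel)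
def q58582 : Q := Q.p (nat_lit 0x10000040000d00001400000000000000000000000000000000000000000000000000000000) (nat_lit 0x20000000000280000780003a000000000000000000000000000000000000000000000) (nat_lit 6)
theorem c58582 : QOK q58582 := cut [] trivial (nd (nat_lit 205) (nat_lit 0) (cs (lf (nat_lit 34) (nat_lit 204)) (nd (nat_lit 204) (nat_lit 0) (cs (lf (nat_lit 35) (nat_lit 182)) (nd (nat_lit 203) (nat_lit 0) (cs (lf (nat_lit 47) (nat_lit 181)) (nd (nat_lit 206) (nat_lit 0) (cs (lf (nat_lit 5) (nat_lit 203)) (nd (nat_lit 184) (nat_lit 0) (cs (lf (nat_lit 29) (nat_lit 184)) (lf (nat_lit 17) (nat_lit 181)))))))))))) q58582 (by decide +kernel)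
def q58606 : Q := Q.p (nat_lit 0xc0000000000800003000000000000000000000000000000000000000000000000000000000) (nat_lit 0x10000000000200000000000000004000000000000000000000000000000000000000000000000000) (nat_lit 2)
theorem c58606 : QOK q58606 := cut [] trivial (nd (nat_lit 273) (nat_lit 0) (cs (lf (nat_lit 47) (nat_lit 206)) (lf (nat_lit 41) (nat_lit 228)))) q58606 (by decide +kernel)

end Crest.Agent.H3.Snaky.CR
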