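import Crest.Agent.H3.Snaky.Cert

set_option autoImplicit false
set_option maxRecDepth 100000

namespace Crest.Agent.H3.Snaky.CR

open T

def q58615 : Q := Q.p (nat_lit 0x1000004000010000000000200000000000000000000000000000000000000000000000000000000) (nat_lit 0xe0000180000a00000000000000000000000000000000000000000000000000) (nat_lit 4)
theorem c58615 : QOK q58615 := cut [] trivial (nd (nat_lit 246) (nat_lit 0) (cs (nd (nat_lit 223) (nat_lit 0) (cs (lf (nat_lit 46) (nat_lit 223)) (nd (nat_lit 224) (nat_lit 0) (cs (lf (nat_lit 47) (nat_lit 201)) (lf (nat_lit 35) (nat_lit 202)))))) (lf (nat_lit 34) (nat_lit 224)))) q58615 (by decide +kernel)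
def q58632 : Q := Q.p (nat_lit 0x10000040000d00000400000000000000000000000000000000000000000000000000000000) (nat_lit 0x200000200000800000000000000000000000000000000000000000000000000) (nat_lit 2)
theorem c58632 : QOK q58632 := cut [] trivial (nd (nat_lit 225) (nat_lit 0) (cs (lf (nat_lit 47) (nat_lit 203)) (lf (nat_lit 20) (nat_lit 225)))) q58632 (by decide +kernel)
def q58636 : Q := Q.p (nat_lit 0x4000010000040000500001000000000000000000000000000000000000000000000000000000000) (nat_lit 0x280002a00000000000000000000000000000000000000000000000000000000) (nat_lit 3)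
theorem c58636 : QOK q58636 := cut [] trivial (nd (nat_lit 249) (nat_lit 0) (cs (lf (nat_lit 35) (nat_lit 226)) (nd (nat_lit 247) (nat_lit 0) (cs (lf (nat_lit 17) (nat_lit 225)) (lf (nat_lit 47) (nat_lit 225)))))) q58636 (by decide +kernel)
def q58648 : Q := Q.p (nat_lit 0xc000030000040000000000000000000000000000000000000000000000000000000000000000000) (nat_lit 0x2000000000000000000000100000400000000000000000000000000000000000000000000000000000000) (nat_lit 2)
theorem c58648 : QOK q58648 := cut [] trivial (nd (nat_lit 248) (nat_lit 0) (cs (lf (nat_lit 29) (nat_lit 248)) (lf (nat_lit 24) (nat_lit 226)))) q58648 (by decide +kernel)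
def q58663 : Q := Q.p (nat_lit 0x300000c000030000000000000000000000000000000000000000000000000000000000000000000000000) (nat_lit 0x600007800004c00000000000000000000000000000000000000000000000000000000000000000000000000000000000) (nat_lit 5)
theorem c58663 : QOK q58663 := cut [] trivial (nd (nat_lit 359) (nat_lit 0) (cs (lf (nat_lit 42) (nat_lit 292)) (nd (nat_lit 360) (nat_lit 0) (cs (lf (nat_lit 29) (nat_lit 293)) (nd (nat_lit 335) (nat_lit 0) (cs (nd (nat_lit 361) (nat_lit 0) (cs (lf (nat_lit 18) (nat_lit 336)) (lf (nat_lit 3) (nat_lit 335)))) (lf (nat_lit 0) (nat_lit 334)))))))) q58663 (by decide +kernel)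
def q58695 : Q := Q.p (nat_lit 0x3e000000000000000000000000000000000000000000000000000000000000000000000000) (nat_lit 0x1c000000000000000000000000000000000000000000000000000000000000000000000000000000) (nat_lit 2)
theorem c58695 : QOK q58695 := cut [] trivial (nd (nat_lit 315) (nat_lit 0) (cs (lf (nat_lit 5) (nat_lit 290)) (lf (nat_lit 4) (nat_lit 289)))) q58695 (by decide +kernel)
def q58732 : Q := Q.p (nat_lit 0x7c000000000000000000000000000000000000000000000000000000000000000000000000) (nat_lit 0x3800000000000000000000000000000000000000000000000000000000000000000000000000000) (nat_lit 2)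
theorem c58732 : QOK q58732 := cut [] trivial (nd (nat_lit 312) (nat_lit 0) (cs (lf (nat_lit 11) (nat_lit 289)) (lf (nat_lit 10) (nat_lit 290)))) q58732 (by decide +kernel)
def q58761 : Q := Q.p (nat_lit 0xc0000200000800000000000000000000000000000000000000000000000000000000000000) (nat_lit 0x1000004000010000000000100000000002000000000000000000000000000000000000000000000000000000000) (nat_lit 3)
theorem c58761 : QOK q58761 := cut [] trivial (nd (nat_lit 316) (nat_lit 0) (cs (lf (nat_lit 36) (nat_lit 228)) (nd (nat_lit 338) (nat_lit 0) (cs (lf (nat_lit 30) (nat_lit 272)) (lf (nat_lit 33) (nat_lit 250)))))) q58761 (by decide +kernel)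
def q58765 : Q := Q.p (nat_lit 0x200000a0000200000800000000000000000000000000000000000000000000000000000000000000) (nat_lit 0x100000c0000150000000000000002000000000000000000000000000000000000000000000000000000000) (nat_lit 4)
theorem c58765 : QOK q58765 := cut [] trivial (nd (nat_lit 318) (nat_lit 0) (cs (lf (nat_lit 29) (nat_lit 251)) (nd (nat_lit 296) (nat_lit 0) (cs (lf (nat_lit 24) (nat_lit 229)) (nd (nat_lit 294) (nat_lit 0) (cs (lf (nat_lit 0) (nat_lit 292)) (lf (nat_lit 5) (nat_lit 293)))))))) q58765 (by decide +kernel)
def q58767 : Q := Q.p (nat_lit 0x20000080000200000c00000000000000000000000000000000000000000000000000000000000000) (nat_lit 0x100000c000010000000000100000000000000000000000000000000000000000000000000000000000000000000) (nat_lit 3)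
theorem c58767 : QOK q58767 := cut [] trivial (nd (nat_lit 338) (nat_lit 0) (cs (lf (nat_lit 40) (nat_lit 250)) (nd (nat_lit 339) (nat_lit 0) (cs (lf (nat_lit 41) (nat_lit 272)) (lf (nat_lit 46) (nat_lit 250)))))) q58767 (by decide +kernel)
def q58778 : Q := Q.p (nat_lit 0x2f80000000000000000000000000000000000000000000000000000000000000) (nat_lit 0x1040003800000000000000000000000000000000000000000000000000000000) (nat_lit 3)
theorem c58778 : QOK q58778 := cut [] trivial (nd (nat_lit 228) (nat_lit 0) (cs (lf (nat_lit 17) (nat_lit 225)) (nd (nat_lit 227) (nat_lit 0) (cs (lf (nat_lit 19) (nat_lit 227)) (lf (nat_lit 12) (nat_lit 224)))))) q58778 (by decide +kernel)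
def q58795 : Q := Q.p (nat_lit 0x10000080000200000800001000000000000000000000000000000000000000000000000000) (nat_lit 0x40000000000000002000004000000000000000000000000000000000000000000000) (nat_lit 2)
theorem c58795 : QOK q58795 := cut [] trivial (nd (nat_lit 205) (nat_lit 0) (cs (lf (nat_lit 47) (nat_lit 182)) (lf (nat_lit 40) (nat_lit 204)))) q58795 (by decide +kernel)
def q58798 : Q := Q.p (nat_lit 0x20000080000e00001800000000000000000000000000000000000000000000000000000000) (nat_lit 0x600001000000000000000000000000000000000000000000000000000) (nat_lit 2)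
theorem c58798 : QOK q58798 := cut [] trivial (nd (nat_lit 226) (nat_lit 0) (cs (lf (nat_lit 0) (nat_lit 225)) (lf (nat_lit 47) (nat_lit 204)))) q58798 (by decide +kernel)
def q58802 : Q := Q.p (nat_lit 0x80000600000800002000000000000000000000000000000000000000000000000000) (nat_lit 0x100000000000000004000018000040000000000000000000000000000000000000000) (nat_lit 3)
theorem c58802 : QOK q58802 := cut [] trivial (nd (nat_lit 184) (nat_lit 0) (cs (lf (nat_lit 34) (nat_lit 183)) (nd (nat_lit 183) (nat_lit 0) (cs (lf (nat_lit 29) (nat_lit 183)) (lf (nat_lit 35) (nat_lit 161)))))) q58802 (by decide +kernel)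
def q58809 : Q := Q.p (nat_lit 0x10000040000300000400000000000000000000000000000000000000000000000000000000) (nat_lit 0x4000000000000000000000800002000000000000000000000000000000000000000000000000000) (nat_lit 2)
theorem c58809 : QOK q58809 := cut [] trivial (nd (nat_lit 227) (nat_lit 0) (cs (lf (nat_lit 30) (nat_lit 226)) (lf (nat_lit 35) (nat_lit 204)))) q58809 (by decide +kernel)
def q58820 : Q := Q.p (nat_lit 0xc0000e00000000000000000000000000000000000000000000000000000000000000) (nat_lit 0x30000100000000000000000000000000000000000000000000000000000000000000) (nat_lit 2)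
theorem c58820 : QOK q58820 := cut [] trivial (nd (nat_lit 269) (nat_lit 0) (cs (lf (nat_lit 12) (nat_lit 246)) (lf (nat_lit 9) (nat_lit 247)))) q58820 (by decide +kernel)
def q58827 : Q := Q.p (nat_lit 0xc0000e00000000000000000000000000000000000000000000000000000000000000) (nat_lit 0x130000000000000000000000000000000000000000000000000000000000000000000) (nat_lit 2)
theorem c58827 : QOK q58827 := cut [] trivial (nd (nat_lit 269) (nat_lit 0) (cs (lf (nat_lit 15) (nat_lit 247)) (lf (nat_lit 12) (nat_lit 246)))) q58827 (by decide +kernel)
def q58830 : Q := Q.p (nat_lit 0x20000080000300000400000000000000000000000000000000000000000000000000000000) (nat_lit 0x800001000004000000000000000000000000000000000000000000000) (nat_lit 2)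
theorem c58830 : QOK q58830 := cut [] trivial (nd (nat_lit 204) (nat_lit 0) (cs (lf (nat_lit 24) (nat_lit 182)) (lf (nat_lit 45) (nat_lit 204)))) q58830 (by decide +kernel)
def q58838 : Q := Q.p (nat_lit 0x20000200000f80000000000000000000000000000000000000000000000000000000000000) (nat_lit 0x80000040003800004000010000000000000000000000000000000000000000000000) (nat_lit 4)
theorem c58838 : QOK q58838 := cut [] trivial (nd (nat_lit 228) (nat_lit 0) (cs (lf (nat_lit 17) (nat_lit 225)) (nd (nat_lit 227) (nat_lit 0) (cs (lf (nat_lit 12) (nat_lit 224)) (nd (nat_lit 206) (nat_lit 0) (cs (lf (nat_lit 24) (nat_lit 184)) (lf (nat_lit 31) (nat_lit 205)))))))) q58838 (by decide +kernel)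
def q58846 : Q := Q.p (nat_lit 0x20000300000400001000000000000000000000000000000000000000000000000000000000) (nat_lit 0x80000080000000000000004000000000000000000000000000000000000000000000000000) (nat_lit 2)
theorem c58846 : QOK q58846 := cut [] trivial (nd (nat_lit 206) (nat_lit 0) (cs (lf (nat_lit 29) (nat_lit 206)) (lf (nat_lit 40) (nat_lit 205)))) q58846 (by decide +kernel)
def q58849 : Q := Q.p (nat_lit 0x60000100000400001000000000000000000000000000000000000000000000000000000000) (nat_lit 0x80000000000800006000008000000000000000000000000000000000000000000000) (nat_lit 3)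
theorem c58849 : QOK q58849 := cut [] trivial (nd (nat_lit 205) (nat_lit 0) (cs (lf (nat_lit 46) (nat_lit 205)) (nd (nat_lit 206) (nat_lit 0) (cs (lf (nat_lit 47) (nat_lit 183)) (lf (nat_lit 40) (nat_lit 205)))))) q58849 (by decide +kernel)
def q58862 : Q := Q.p (nat_lit 0x140000200000800002000000000000000000000000000000000000000000000000000000000000000000000) (nat_lit 0x50000080000000000000000000000000000000000000000000000000000000000000000000000000000000000000) (nat_lit 2)
theorem c58862 : QOK q58862 := cut [] trivial (nd (nat_lit 343) (nat_lit 0) (cs (lf (nat_lit 41) (nat_lit 276)) (lf (nat_lit 29) (nat_lit 277)))) q58862 (by decide +kernel)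
def q58912 : Q := Q.p (nat_lit 0xc00003000008000010000000000000000000000000000000000000000000000000000) (nat_lit 0x200000c0000000000000000000000000000000000000000000000) (nat_lit 2)
theorem c58912 : QOK q58912 := cut [] trivial (nd (nat_lit 209) (nat_lit 0) (cs (lf (nat_lit 36) (nat_lit 186)) (lf (nat_lit 47) (nat_lit 186)))) q58912 (by decide +kernel)
def q58932 : Q := Q.p (nat_lit 0x20000080000600000800000000000000000000000000000000000000000000000000000000) (nat_lit 0x1900000700001000000000000000000000000000000000000000000000000000) (nat_lit 4)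
theorem c58932 : QOK q58932 := cut [] trivial (nd (nat_lit 226) (nat_lit 0) (cs (lf (nat_lit 47) (nat_lit 204)) (nd (nat_lit 251) (nat_lit 0) (cs (lf (nat_lit 18) (nat_lit 226)) (nd (nat_lit 225) (nat_lit 0) (cs (lf (nat_lit 0) (nat_lit 224)) (lf (nat_lit 21) (nat_lit 225)))))))) q58932 (by decide +kernel)
def q58944 : Q := Q.p (nat_lit 0x300000400001000004000000000000000000000000000000000000000000000) (nat_lit 0x800000000008000030000080000000000000000000000000000000000) (nat_lit 3)
theorem c58944 : QOK q58944 := cut [] trivial (nd (nat_lit 160) (nat_lit 0) (cs (lf (nat_lit 28) (nat_lit 160)) (nd (nat_lit 161) (nat_lit 0) (cs (lf (nat_lit 35) (nat_lit 138)) (lf (nat_lit 34) (nat_lit 160)))))) q58944 (by decide +kernel)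
def q58951 : Q := Q.p (nat_lit 0x10000040000300000800000000000000000000000000000000000000000000000000000000) (nat_lit 0x400002000008000000000000000000000000000000000000000000000) (nat_lit 2)
theorem c58951 : QOK q58951 := cut [] trivial (nd (nat_lit 205) (nat_lit 0) (cs (lf (nat_lit 33) (nat_lit 204)) (lf (nat_lit 36) (nat_lit 182)))) q58951 (by decide +kernel)
def q59006 : Q := Q.p (nat_lit 0x5000008000020000080000000000000000000000000000000000000000000000000000000000000000000) (nat_lit 0x1400002000000000000000000000000000000000000000000000000000000000000000000000000000000000000) (nat_lit 2)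
theorem c59006 : QOK q59006 := cut [] trivial (nd (nat_lit 337) (nat_lit 0) (cs (lf (nat_lit 29) (nat_lit 271)) (lf (nat_lit 41) (nat_lit 270)))) q59006 (by decide +kernel)
def q59017 : Q := Q.p (nat_lit 0x10000060000080000200000000000000000000000000000000000000000000000000000000000000) (nat_lit 0x1000004000008000000000000000000000000000000000000000000000000000000000000000000000000000000) (nat_lit 2)
theorem c59017 : QOK q59017 := cut [] trivial (nd (nat_lit 338) (nat_lit 0) (cs (lf (nat_lit 42) (nat_lit 271)) (lf (nat_lit 27) (nat_lit 249)))) q59017 (by decide +kernel)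
def q59019 : Q := Q.p (nat_lit 0x1c000030000000000000000000000000000000000000000000000000000000000000000000000000) (nat_lit 0x60000008000000000000000000000000000000000000000000000000000000000000000000000000) (nat_lit 2)
theorem c59019 : QOK q59019 := cut [] trivial (nd (nat_lit 317) (nat_lit 0) (cs (lf (nat_lit 18) (nat_lit 292)) (lf (nat_lit 23) (nat_lit 291)))) q59019 (by decide +kernel)
def q59029 : Q := Q.p (nat_lit 0x18000030000000000000000000000000000000000000000000000000000000000000000000000000) (nat_lit 0x6000004c000000000000000000000000000000000000000000000000000000000000000000000000) (nat_lit 3)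
theorem c59029 : QOK q59029 := cut [] trivial (nd (nat_lit 317) (nat_lit 0) (cs (lf (nat_lit 18) (nat_lit 292)) (nd (nat_lit 291) (nat_lit 0) (cs (lf (nat_lit 0) (nat_lit 290)) (lf (nat_lit 3) (nat_lit 291)))))) q59029 (by decide +kernel)
def q59032 : Q := Q.p (nat_lit 0x800002000018000020000000000000000000000000000000000000000000000000000000000000000000000000) (nat_lit 0x100000600001000000000000000040000000000000000000000000000000000000000000000000000000000000000000000000) (nat_lit 3)
theorem c59032 : QOK q59032 := cut [] trivial (nd (nat_lit 382) (nat_lit 0) (cs (lf (nat_lit 28) (nat_lit 293)) (nd (nat_lit 381) (nat_lit 0) (cs (lf (nat_lit 29) (nat_lit 315)) (lf (nat_lit 35) (nat_lit 293)))))) q59032 (by decide +kernel)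
def q59058 : Q := Q.p (nat_lit 0xc0000700000000000000000000000000000000000000000000000000000000000000) (nat_lit 0x20001800000000000000000000000000000000000000000000000000000000000000) (nat_lit 2)
theorem c59058 : QOK q59058 := cut [] trivial (nd (nat_lit 251) (nat_lit 0) (cs (lf (nat_lit 11) (nat_lit 247)) (lf (nat_lit 6) (nat_lit 248)))) q59058 (by decide +kernel)
def q59070 : Q := Q.p (nat_lit 0x8000028000020000080000200000000000000000000000000000000000000000000000000000000) (nat_lit 0x15000014000000000000000000000000000000000000000000000000000000000000000000000000) (nat_lit 3)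
theorem c59070 : QOK q59070 := cut [] trivial (nd (nat_lit 290) (nat_lit 0) (cs (lf (nat_lit 41) (nat_lit 224)) (nd (nat_lit 292) (nat_lit 0) (cs (lf (nat_lit 29) (nat_lit 225)) (lf (nat_lit 5) (nat_lit 290)))))) q59070 (by decide +kernel)
def q59076 : Q := Q.p (nat_lit 0x60000e00000000000000000000000000000000000000000000000000000000000000000000) (nat_lit 0x180001000000000000000000000000000000000000000000000000000000000000000000000) (nat_lit 2)
theorem c59076 : QOK q59076 := cut [] trivial (nd (nat_lit 295) (nat_lit 0) (cs (lf (nat_lit 15) (nat_lit 271)) (lf (nat_lit 6) (nat_lit 272)))) q59076 (by decide +kernel)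
def q59084 : Q := Q.p (nat_lit 0x8000028000020000080000200000000000000000000000000000000000000000000000000000000) (nat_lit 0x1400007000044000000000000000000000000000000000000000000000000000000000000000000000000) (nat_lit 4)
theorem c59084 : QOK q59084 := cut [] trivial (nd (nat_lit 312) (nat_lit 0) (cs (lf (nat_lit 40) (nat_lit 224)) (nd (nat_lit 313) (nat_lit 0) (cs (lf (nat_lit 41) (nat_lit 246)) (nd (nat_lit 314) (nat_lit 0) (cs (lf (nat_lit 29) (nat_lit 247)) (lf (nat_lit 17) (nat_lit 290)))))))) q59084 (by decide +kernel)
def q59099 : Q := Q.p (nat_lit 0x8000020000180000200000000000000000000000000000000000000000000000000000000) (nat_lit 0x2000000000000000000000400001000000000000000000000000000000000000000000000000000) (nat_lit 2)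
theorem c59099 : QOK q59099 := cut [] trivial (nd (nat_lit 226) (nat_lit 0) (cs (lf (nat_lit 30) (nat_lit 225)) (lf (nat_lit 35) (nat_lit 203)))) q59099 (by decide +kernel)
def q59145 : Q := Q.p (nat_lit 0x280000a0000180000000000000000000000000000000000000000000000000000000000000) (nat_lit 0x2000000000040000000000400001000004000000000000000000000000000000000000000000000) (nat_lit 3)
theorem c59145 : QOK q59145 := cut [] trivial (nd (nat_lit 226) (nat_lit 0) (cs (lf (nat_lit 30) (nat_lit 225)) (nd (nat_lit 204) (nat_lit 0) (cs (lf (nat_lit 36) (nat_lit 181)) (lf (nat_lit 27) (nat_lit 204)))))) q59145 (by decide +kernel)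
def q59146 : Q := Q.p (nat_lit 0x8000020000080000200000800000000000000000000000000000000000000000000000000) (nat_lit 0x400001000004000000000000000000000000000000000000000000000) (nat_lit 2)
theorem c59146 : QOK q59146 := cut [] trivial (nd (nat_lit 204) (nat_lit 0) (cs (lf (nat_lit 35) (nat_lit 181)) (lf (nat_lit 34) (nat_lit 203)))) q59146 (by decide +kernel)
def q59153 : Q := Q.p (nat_lit 0x8000020000080000200004000000000000000000000000000000000000000000000000000) (nat_lit 0x400003c00007000004000000000000000000000000000000000000000) (nat_lit 5)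
theorem c59153 : QOK q59153 := cut [] trivial (nd (nat_lit 204) (nat_lit 0) (cs (lf (nat_lit 34) (nat_lit 203)) (nd (nat_lit 203) (nat_lit 0) (cs (lf (nat_lit 35) (nat_lit 181)) (nd (nat_lit 180) (nat_lit 0) (cs (lf (nat_lit 46) (nat_lit 180)) (nd (nat_lit 181) (nat_lit 0) (cs (lf (nat_lit 47) (nat_lit 158)) (lf (nat_lit 19) (nat_lit 180)))))))))) q59153 (by decide +kernel)
def q59156 : Q := Q.p (nat_lit 0x1f000000000000000000000000000000000000000000000000000000000000000000000000) (nat_lit 0xe000000000000000000000000000000000000000000000000000000000000000000) (nat_lit 2)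
theorem c59156 : QOK q59156 := cut [] trivial (nd (nat_lit 266) (nat_lit 0) (cs (lf (nat_lit 23) (nat_lit 265)) (lf (nat_lit 22) (nat_lit 266)))) q59156 (by decide +kernel)
def q59174 : Q := Q.p (nat_lit 0x8000020000180000000000000000000000000000000000000000000000000000000000000) (nat_lit 0x2000000000000000000000600001000004000000000000000000000000000000000000000000000) (nat_lit 3)
theorem c59174 : QOK q59174 := cut [] trivial (nd (nat_lit 226) (nat_lit 0) (cs (lf (nat_lit 30) (nat_lit 225)) (nd (nat_lit 204) (nat_lit 0) (cs (lf (nat_lit 36) (nat_lit 181)) (lf (nat_lit 33) (nat_lit 203)))))) q59174 (by decide +kernel)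
def q59188 : Q := Q.p (nat_lit 0x400002000008000020000100000000000000000000000000000000000000000000000000000000000000) (nat_lit 0x100000800000000000000040000000000000000000000000000000000000000000000000000000000000000000) (nat_lit 2)
theorem c59188 : QOK q59188 := cut [] trivial (nd (nat_lit 335) (nat_lit 0) (cs (lf (nat_lit 41) (nat_lit 268)) (lf (nat_lit 34) (nat_lit 247)))) q59188 (by decide +kernel)
def q59250 : Q := Q.p (nat_lit 0xe0000080000200000800000000000000000000000000000000000000000000000000000000) (nat_lit 0x4000110000060000000000000000000000000000000000000000000000000000000000000000000) (nat_lit 3)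
theorem c59250 : QOK q59250 := cut [] trivial (nd (nat_lit 292) (nat_lit 0) (cs (lf (nat_lit 41) (nat_lit 226)) (nd (nat_lit 270) (nat_lit 0) (cs (lf (nat_lit 23) (nat_lit 269)) (lf (nat_lit 18) (nat_lit 270)))))) q59250 (by decide +kernel)
def q59254 : Q := Q.p (nat_lit 0xe0000880000000000000000000000000000000000000000000000000000000000000000000) (nat_lit 0x100000440000000000000000000000000000000000000000000000000000000000000000000) (nat_lit 2)
theorem c59254 : QOK q59254 := cut [] trivial (nd (nat_lit 296) (nat_lit 0) (cs (lf (nat_lit 16) (nat_lit 271)) (lf (nat_lit 23) (nat_lit 270)))) q59254 (by decide +kernel)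
def q59266 : Q := Q.p (nat_lit 0x880002e00000000000000000000000000000000000000000000000000000000000000) (nat_lit 0x1040001000000000000000000000000000000000000000000000000000000000000000) (nat_lit 2)
theorem c59266 : QOK q59266 := cut [] trivial (nd (nat_lit 252) (nat_lit 0) (cs (lf (nat_lit 5) (nat_lit 250)) (lf (nat_lit 11) (nat_lit 248)))) q59266 (by decide +kernel)
def q59278 : Q := Q.p (nat_lit 0x300000e0000200000800000000000000000000000000000000000000000000000000000000) (nat_lit 0x100000c0000000000000000000000000000000000000000000000000000000000000000000000000) (nat_lit 2)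
theorem c59278 : QOK q59278 := cut [] trivial (nd (nat_lit 294) (nat_lit 0) (cs (lf (nat_lit 29) (nat_lit 227)) (lf (nat_lit 18) (nat_lit 269)))) q59278 (by decide +kernel)
def q59315 : Q := Q.p (nat_lit 0x300000b0000200000800000000000000000000000000000000000000000000000000000000) (nat_lit 0x10000048000000000000000000000000000000000000000000000000000000000000000000000000) (nat_lit 2)
theorem c59315 : QOK q59315 := cut [] trivial (nd (nat_lit 294) (nat_lit 0) (cs (lf (nat_lit 29) (nat_lit 227)) (lf (nat_lit 21) (nat_lit 268)))) q59315 (by decide +kernel)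
def q59322 : Q := Q.p (nat_lit 0x4000020000080000200000400000000000000000000000000000000000000000000000000000000) (nat_lit 0x10000000000000000800001000000000000000000000000000000000000000000000000000) (nat_lit 2)
theorem c59322 : QOK q59322 := cut [] trivial (nd (nat_lit 227) (nat_lit 0) (cs (lf (nat_lit 47) (nat_lit 204)) (lf (nat_lit 40) (nat_lit 226)))) q59322 (by decide +kernel)
def q59327 : Q := Q.p (nat_lit 0xe0000480000200000800000000000000000000000000000000000000000000000000000000) (nat_lit 0x4000010000200000000000000000000000000000000000000000000000000000000000000000000) (nat_lit 2)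
theorem c59327 : QOK q59327 := cut [] trivial (nd (nat_lit 292) (nat_lit 0) (cs (lf (nat_lit 41) (nat_lit 226)) (lf (nat_lit 16) (nat_lit 270)))) q59327 (by decide +kernel)
def q59343 : Q := Q.p (nat_lit 0xc0000300000800000000000000000000000000000000000000000000000000000000) (nat_lit 0x10000000000000000000002000008000000000000000000000000000000000000000000000) (nat_lit 2)
theorem c59343 : QOK q59343 := cut [] trivial (nd (nat_lit 205) (nat_lit 0) (cs (lf (nat_lit 41) (nat_lit 204)) (lf (nat_lit 36) (nat_lit 182)))) q59343 (by decide +kernel)
def q59351 : Q := Q.p (nat_lit 0xe000060000000000000000000000000000000000000000000000000000000000000000000000000) (nat_lit 0x190000000000000000000000000000000000000000000000000000000000000000000000000) (nat_lit 2)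
theorem c59351 : QOK q59351 := cut [] trivial (nd (nat_lit 295) (nat_lit 0) (cs (lf (nat_lit 6) (nat_lit 292)) (lf (nat_lit 9) (nat_lit 291)))) q59351 (by decide +kernel)
def q59357 : Q := Q.p (nat_lit 0x1e000020000000000000000000000000000000000000000000000000000000000000000000000000) (nat_lit 0x380000600001d0000000000000000000000000000000000000000000000000000000000000000000000000) (nat_lit 5)
theorem c59357 : QOK q59357 := cut [] trivial (nd (nat_lit 295) (nat_lit 0) (cs (lf (nat_lit 16) (nat_lit 291)) (nd (nat_lit 317) (nat_lit 0) (cs (lf (nat_lit 17) (nat_lit 292)) (nd (nat_lit 340) (nat_lit 0) (cs (lf (nat_lit 4) (nat_lit 314)) (nd (nat_lit 318) (nat_lit 0) (cs (lf (nat_lit 23) (nat_lit 292)) (lf (nat_lit 5) (nat_lit 315)))))))))) q59357 (by decide +kernel)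
def q59379 : Q := Q.p (nat_lit 0x6000070000000000000000000000000000000000000000000000000000000000000000000000000) (nat_lit 0x1800008000000000000000000000000000000000000000000000000000000000000000000000000) (nat_lit 2)
theorem c59379 : QOK q59379 := cut [] trivial (nd (nat_lit 312) (nat_lit 0) (cs (lf (nat_lit 12) (nat_lit 289)) (lf (nat_lit 9) (nat_lit 290)))) q59379 (by decide +kernel)
def q59409 : Q := Q.p (nat_lit 0x40000d00000400000000000000000000000000000000000000000000000000000000) (nat_lit 0x10000000000280000200000800002000008000000000000000000000000000000000000000) (nat_lit 4)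
theorem c59409 : QOK q59409 := cut [] trivial (nd (nat_lit 225) (nat_lit 0) (cs (lf (nat_lit 20) (nat_lit 225)) (nd (nat_lit 203) (nat_lit 0) (cs (lf (nat_lit 42) (nat_lit 203)) (nd (nat_lit 181) (nat_lit 0) (cs (lf (nat_lit 24) (nat_lit 159)) (lf (nat_lit 27) (nat_lit 181)))))))) q59409 (by decide +kernel)
def q59501 : Q := Q.p (nat_lit 0x20000380002000000000000000000000000000000000000000000000000000000000000000) (nat_lit 0x10000400001000000000000000000000000000000000000000000000000000000000000000) (nat_lit 2)
theorem c59501 : QOK q59501 := cut [] trivial (nd (nat_lit 274) (nat_lit 0) (cs (lf (nat_lit 11) (nat_lit 270)) (lf (nat_lit 16) (nat_lit 249)))) q59501 (by decide +kernel)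
def q59505 : Q := Q.p (nat_lit 0x200000f0000000000000000000000000000000000000000000000000000000000000000000) (nat_lit 0x17000008000000000000000000000000000000000000000000000000000000000000000000) (nat_lit 3)
theorem c59505 : QOK q59505 := cut [] trivial (nd (nat_lit 289) (nat_lit 0) (cs (lf (nat_lit 10) (nat_lit 267)) (nd (nat_lit 267) (nat_lit 0) (cs (lf (nat_lit 4) (nat_lit 267)) (lf (nat_lit 11) (nat_lit 266)))))) q59505 (by decide +kernel)
def q59530 : Q := Q.p (nat_lit 0xa0000380000400000000000000000000000000000000000000000000000000000000000000) (nat_lit 0x8000020000040000000000000001000004000000000000000000000000000000000000000000000000000) (nat_lit 3)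
theorem c59530 : QOK q59530 := cut [] trivial (nd (nat_lit 317) (nat_lit 0) (cs (lf (nat_lit 42) (nat_lit 250)) (nd (nat_lit 228) (nat_lit 0) (cs (lf (nat_lit 36) (nat_lit 205)) (lf (nat_lit 27) (nat_lit 228)))))) q59530 (by decide +kernel)
def q59533 : Q := Q.p (nat_lit 0x20000b80002000000000000000000000000000000000000000000000000000000000000000) (nat_lit 0x40000400001000000000000000000000000000000000000000000000000000000000000000) (nat_lit 2)
theorem c59533 : QOK q59533 := cut [] trivial (nd (nat_lit 274) (nat_lit 0) (cs (lf (nat_lit 10) (nat_lit 271)) (lf (nat_lit 16) (nat_lit 249)))) q59533 (by decide +kernel)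
def q59552 : Q := Q.p (nat_lit 0x60000980000400000000000000000000000000000000000000000000000000000000000000) (nat_lit 0x3700019c0004300003c0001f00007000000000000000000000000000000000000000000000000000) (nat_lit 13)
theorem c59552 : QOK q59552 := cut [] trivial (nd (nat_lit 228) (nat_lit 0) (cs (lf (nat_lit 36) (nat_lit 205)) (nd (nat_lit 295) (nat_lit 0) (cs (lf (nat_lit 29) (nat_lit 228)) (nd (nat_lit 274) (nat_lit 0) (cs (lf (nat_lit 15) (nat_lit 271)) (nd (nat_lit 227) (nat_lit 0) (cs (lf (nat_lit 47) (nat_lit 205)) (nd (nat_lit 249) (nat_lit 0) (cs (lf (nat_lit 29) (nat_lit 227)) (nd (nat_lit 292) (nat_lit 0) (cs (lf (nat_lit 41) (nat_lit 226)) (nd (nat_lit 226) (nat_lit 0) (cs (lf (nat_lit 47) (nat_lit 204)) (nd (nat_lit 291) (nat_lit 0) (cs (lf (nat_lit 12) (nat_lit 268)) (nd (nat_lit 225) (nat_lit 0) (cs (lf (nat_lit 0) (nat_lit 224)) (nd (nat_lit 313) (nat_lit 0) (cs (lf (nat_lit 11) (nat_lit 290)) (nd (nat_lit 269) (nat_lit 0) (cs (lf (nat_lit 23) (nat_lit 268)) (nd (nat_lit 247) (nat_lit 0) (cs (lf (nat_lit 11) (nat_lit 224)) (lf (nat_lit 34) (nat_lit 225))))))))))))))))))))))))))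 q59552 (by decide +kernel)
def q59586 : Q := Q.p (nat_lit 0x200000c0000100000800002000000000000000000000000000000000000000000000000000) (nat_lit 0x10000000000000000400001000000000000000000000000000000000000000000000000000) (nat_lit 2)
theorem c59586 : QOK q59586 := cut [] trivial (nd (nat_lit 226) (nat_lit 0) (cs (lf (nat_lit 24) (nat_lit 204)) (lf (nat_lit 30) (nat_lit 204)))) q59586 (by decide +kernel)
def q59607 : Q := Q.p (nat_lit 0x200001e0000400000000000000000000000000000000000000000000000000000000000000) (nat_lit 0xe0000100000e0001000004000000000000000000000000000000000000000000000000000) (nat_lit 5)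
theorem c59607 : QOK q59607 := cut [] trivial (nd (nat_lit 206) (nat_lit 0) (cs (lf (nat_lit 37) (nat_lit 205)) (nd (nat_lit 246) (nat_lit 0) (cs (lf (nat_lit 22) (nat_lit 246)) (nd (nat_lit 290) (nat_lit 0) (cs (lf (nat_lit 10) (nat_lit 268)) (nd (nat_lit 268) (nat_lit 0) (cs (lf (nat_lit 23) (nat_lit 245)) (lf (nat_lit 11) (nat_lit 267)))))))))) q59607 (by decide +kernel)
def q59626 : Q := Q.p (nat_lit 0x10000060000180000000000000000000000000000000000000000000000000000000000000) (nat_lit 0x4000000000000000000000200000800000000000000000000000000000000000000000000000000) (nat_lit 2)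
theorem c59626 : QOK q59626 := cut [] trivial (nd (nat_lit 225) (nat_lit 0) (cs (lf (nat_lit 42) (nat_lit 225)) (lf (nat_lit 24) (nat_lit 203)))) q59626 (by decide +kernel)
def q59691 : Q := Q.p (nat_lit 0x10000060000180000400000000000000000000000000000000000000000000000000000000000000) (nat_lit 0x300000c000020000000000000000000000000000000000000000000000000000000000000000000000000000000) (nat_lit 3)
theorem c59691 : QOK q59691 := cut [] trivial (nd (nat_lit 339) (nat_lit 0) (cs (lf (nat_lit 28) (nat_lit 250)) (nd (nat_lit 338) (nat_lit 0) (cs (lf (nat_lit 29) (nat_lit 272)) (lf (nat_lit 42) (nat_lit 271)))))) q59691 (by decide +kernel)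
def q59699 : Q := Q.p (nat_lit 0x80000300003c0000000000000000000000000000000000000000000000000000000000000000000) (nat_lit 0x180000400000000000000000000000000000000000000000000000000000000) (nat_lit 2)
theorem c59699 : QOK q59699 := cut [] trivial (nd (nat_lit 248) (nat_lit 0) (cs (lf (nat_lit 23) (nat_lit 247)) (lf (nat_lit 24) (nat_lit 226)))) q59699 (by decide +kernel)
def q59720 : Q := Q.p (nat_lit 0x180001e0000000000400000000000000000000000000000000000000000000000000000000) (nat_lit 0xc0000200001800000000000000000000000000000000000000000000000000) (nat_lit 3)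
theorem c59720 : QOK q59720 := cut [] trivial (nd (nat_lit 247) (nat_lit 0) (cs (lf (nat_lit 23) (nat_lit 246)) (nd (nat_lit 225) (nat_lit 0) (cs (lf (nat_lit 24) (nat_lit 203)) (lf (nat_lit 35) (nat_lit 203)))))) q59720 (by decide +kernel)
def q59731 : Q := Q.p (nat_lit 0x100002c000010000040000000000000000000000000000000000000000000000000000000000000000000) (nat_lit 0x200000800010000000000000000000000000000000000000000000000000000000000000000000000000000000) (nat_lit 2)
theorem c59731 : QOK q59731 := cut [] trivial (nd (nat_lit 335) (nat_lit 0) (cs (lf (nat_lit 41) (nat_lit 269)) (lf (nat_lit 7) (nat_lit 313)))) q59731 (by decide +kernel)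
def q59775 : Q := Q.p (nat_lit 0x8000020000080000200000000000000000000000000000000000000000000000000000000000000) (nat_lit 0x5000014000050000000000000000800000000000000000000000000000000000000000000000000000000) (nat_lit 4)
theorem c59775 : QOK q59775 := cut [] trivial (nd (nat_lit 314) (nat_lit 0) (cs (lf (nat_lit 41) (nat_lit 248)) (nd (nat_lit 227) (nat_lit 0) (cs (lf (nat_lit 40) (nat_lit 226)) (nd (nat_lit 316) (nat_lit 0) (cs (lf (nat_lit 29) (nat_lit 249)) (lf (nat_lit 28) (nat_lit 227)))))))) q59775 (by decide +kernel)
def q59783 : Q := Q.p (nat_lit 0xe000020000000000000000000000000000000000000000000000000000000000000000000000000) (nat_lit 0x110001c0000000000000000000000000000000000000000000000000000000000000000000000000) (nat_lit 3)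
theorem c59783 : QOK q59783 := cut [] trivial (nd (nat_lit 294) (nat_lit 0) (cs (lf (nat_lit 12) (nat_lit 290)) (nd (nat_lit 295) (nat_lit 0) (cs (lf (nat_lit 6) (nat_lit 292)) (lf (nat_lit 15) (nat_lit 291)))))) q59783 (by decide +kernel)
def q59788 : Q := Q.p (nat_lit 0x38000060000000000000000000000000000000000000000000000000000000000000000000000000) (nat_lit 0xc0000010000000000000000000000000000000000000000000000000000000000000000000000000) (nat_lit 2)
theorem c59788 : QOK q59788 := cut [] trivial (nd (nat_lit 318) (nat_lit 0) (cs (lf (nat_lit 23) (nat_lit 292)) (lf (nat_lit 18) (nat_lit 293)))) q59788 (by decide +kernel)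
def q59828 : Q := Q.p (nat_lit 0x8000020000080000400000000000000000000000000000000000000000000000000000000000000) (nat_lit 0x40000100000200001000004000000000000000000000000000000000000000000000000000) (nat_lit 3)
theorem c59828 : QOK q59828 := cut [] trivial (nd (nat_lit 228) (nat_lit 0) (cs (lf (nat_lit 33) (nat_lit 227)) (nd (nat_lit 272) (nat_lit 0) (cs (lf (nat_lit 36) (nat_lit 205)) (lf (nat_lit 39) (nat_lit 227)))))) q59828 (by decide +kernel)
def q59835 : Q := Q.p (nat_lit 0x60000180002400000000000000000000000000000000000000000000000000000000000000) (nat_lit 0x1000004000010000000000260001800002000000000000000000000000000000000000000000000000000000000) (nat_lit 5)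
theorem c59835 : QOK q59835 := cut [] trivial (nd (nat_lit 251) (nat_lit 0) (cs (lf (nat_lit 7) (nat_lit 249)) (nd (nat_lit 269) (nat_lit 0) (cs (lf (nat_lit 13) (nat_lit 247)) (nd (nat_lit 316) (nat_lit 0) (cs (lf (nat_lit 35) (nat_lit 228)) (nd (nat_lit 338) (nat_lit 0) (cs (lf (nat_lit 34) (nat_lit 250)) (lf (nat_lit 42) (nat_lit 271)))))))))) q59835 (by decide +kernel)
def q59837 : Q := Q.p (nat_lit 0x1c0002400000000000000000000000000000000000000000000000000000000000000) (nat_lit 0x20001800000000000000000000000000000000000000000000000000000000000000) (nat_lit 2)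
theorem c59837 : QOK q59837 := cut [] trivial (nd (nat_lit 251) (nat_lit 0) (cs (lf (nat_lit 7) (nat_lit 249)) (lf (nat_lit 12) (nat_lit 247)))) q59837 (by decide +kernel)
def q59855 : Q := Q.p (nat_lit 0x300001c0000000000000000000000000000000000000000000000000000000000000000000) (nat_lit 0xc000200000000000000000000000000000000000000000000000000000000000000000000) (nat_lit 2)
theorem c59855 : QOK q59855 := cut [] trivial (nd (nat_lit 291) (nat_lit 0) (cs (lf (nat_lit 12) (nat_lit 268)) (lf (nat_lit 6) (nat_lit 269)))) q59855 (by decide +kernel)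
def q59862 : Q := Q.p (nat_lit 0x10000040000180002400000000000000000000000000000000000000000000000000000000000000) (nat_lit 0x1800002000000000000000000000000000000000000000000000000000000000) (nat_lit 2)
theorem c59862 : QOK q59862 := cut [] trivial (nd (nat_lit 251) (nat_lit 0) (cs (lf (nat_lit 7) (nat_lit 249)) (lf (nat_lit 35) (nat_lit 228)))) q59862 (by decide +kernel)
def q59922 : Q := Q.p (nat_lit 0x200000c0000600000800000000000000000000000000000000000000000000000000000000) (nat_lit 0x300001c0000300001800001000004000000000000000000000000000000000000000000000000000) (nat_lit 6)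
theorem c59922 : QOK q59922 := cut [] trivial (nd (nat_lit 228) (nat_lit 0) (cs (lf (nat_lit 35) (nat_lit 205)) (nd (nat_lit 251) (nat_lit 0) (cs (lf (nat_lit 6) (nat_lit 248)) (nd (nat_lit 294) (nat_lit 0) (cs (lf (nat_lit 29) (nat_lit 227)) (nd (nat_lit 295) (nat_lit 0) (cs (lf (nat_lit 18) (nat_lit 270)) (nd (nat_lit 317) (nat_lit 0) (cs (lf (nat_lit 44) (nat_lit 228)) (lf (nat_lit 26) (nat_lit 228)))))))))))) q59922 (by decide +kernel)
def q59925 : Q := Q.p (nat_lit 0xe00000c0000200000800000000000000000000000000000000000000000000000000000000) (nat_lit 0x4000010000020000000000000000000000000000000000000000000000000000000000000000000) (nat_lit 2)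
theorem c59925 : QOK q59925 := cut [] trivial (nd (nat_lit 292) (nat_lit 0) (cs (lf (nat_lit 41) (nat_lit 226)) (lf (nat_lit 23) (nat_lit 269)))) q59925 (by decide +kernel)
def q59949 : Q := Q.p (nat_lit 0x60000d00000400000000000000000000000000000000000000000000000000000000000000) (nat_lit 0x28000180000000000000001000000000000000000000000000000000000000000000000000000000) (nat_lit 3)
theorem c59949 : QOK q59949 := cut [] trivial (nd (nat_lit 295) (nat_lit 0) (cs (lf (nat_lit 15) (nat_lit 271)) (nd (nat_lit 228) (nat_lit 0) (cs (lf (nat_lit 29) (nat_lit 228)) (lf (nat_lit 41) (nat_lit 227)))))) q59949 (by decide +kernel)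
def q59983 : Q := Q.p (nat_lit 0x20000e00000400000000000000000000000000000000000000000000000000000000000000) (nat_lit 0x40000100000200000000000000000000000000000000000000000000000000000000000000) (nat_lit 2)
theorem c59983 : QOK q59983 := cut [] trivial (nd (nat_lit 272) (nat_lit 0) (cs (lf (nat_lit 23) (nat_lit 249)) (lf (nat_lit 10) (nat_lit 271)))) q59983 (by decide +kernel)
def q60013 : Q := Q.p (nat_lit 0x600000e0000000000000000000000000000000000000000000000000000000000000000000) (nat_lit 0x190000000000000000000000000000000000000000000000000000000000000000000000000) (nat_lit 2)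
theorem c60013 : QOK q60013 := cut [] trivial (nd (nat_lit 295) (nat_lit 0) (cs (lf (nat_lit 18) (nat_lit 270)) (lf (nat_lit 21) (nat_lit 269)))) q60013 (by decide +kernel)
def q60027 : Q := Q.p (nat_lit 0xe00000c0000000000000000000000000000000000000000000000000000000000000000000) (nat_lit 0x130000000000000000000000000000000000000000000000000000000000000000000) (nat_lit 2)
theorem c60027 : QOK q60027 := cut [] trivial (nd (nat_lit 269) (nat_lit 0) (cs (lf (nat_lit 0) (nat_lit 268)) (lf (nat_lit 3) (nat_lit 269)))) q60027 (by decide +kernel)
def q60030 : Q := Q.p (nat_lit 0xe0000400000000000000000000000000000000000000000000000000000000000000) (nat_lit 0x100001b00000000000000000000000000000000000000000000000000000000000000) (nat_lit 3)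
theorem c60030 : QOK q60030 := cut [] trivial (nd (nat_lit 251) (nat_lit 0) (cs (lf (nat_lit 15) (nat_lit 247)) (nd (nat_lit 249) (nat_lit 0) (cs (lf (nat_lit 6) (nat_lit 248)) (lf (nat_lit 9) (nat_lit 247)))))) q60030 (by decide +kernel)
def q60042 : Q := Q.p (nat_lit 0x60000180002400000000000000000000000000000000000000000000000000000000000000) (nat_lit 0x4000010000000000000001a00002800000000000000000000000000000000000000000000000000000000) (nat_lit 4)
theorem c60042 : QOK q60042 := cut [] trivial (nd (nat_lit 251) (nat_lit 0) (cs (lf (nat_lit 7) (nat_lit 249)) (nd (nat_lit 316) (nat_lit 0) (cs (lf (nat_lit 35) (nat_lit 228)) (nd (nat_lit 249) (nat_lit 0) (cs (lf (nat_lit 42) (nat_lit 249)) (lf (nat_lit 24) (nat_lit 227)))))))) q60042 (by decide +kernel)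
def q60055 : Q := Q.p (nat_lit 0x1c000060000000000000000000000000000000000000000000000000000000000000000000000000) (nat_lit 0x2000180000000000000000000000000000000000000000000000000000000000000000000000000) (nat_lit 2)
theorem c60055 : QOK q60055 := cut [] trivial (nd (nat_lit 295) (nat_lit 0) (cs (lf (nat_lit 12) (nat_lit 291)) (lf (nat_lit 6) (nat_lit 292)))) q60055 (by decide +kernel)
def q60062 : Q := Q.p (nat_lit 0x10000060000080000200000000000000000000000000000000000000000000000000000000000000) (nat_lit 0x1000004000000000000000100000000000000000000000000000000000000000000000000000000000000000000) (nat_lit 2)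
theorem c60062 : QOK q60062 := cut [] trivial (nd (nat_lit 338) (nat_lit 0) (cs (lf (nat_lit 42) (nat_lit 271)) (lf (nat_lit 45) (nat_lit 249)))) q60062 (by decide +kernel)
def q60066 : Q := Q.p (nat_lit 0x78000080000000000000000000000000000000000000000000000000000000000000000000) (nat_lit 0x4000300000000000000000000000000000000000000000000000000000000000000000000) (nat_lit 2)
theorem c60066 : QOK q60066 := cut [] trivial (nd (nat_lit 272) (nat_lit 0) (cs (lf (nat_lit 12) (nat_lit 268)) (lf (nat_lit 17) (nat_lit 269)))) q60066 (by decide +kernel)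
def q60073 : Q := Q.p (nat_lit 0x380000c0000000000000000000000000000000000000000000000000000000000000000000) (nat_lit 0x4000300000000000000000000000000000000000000000000000000000000000000000000) (nat_lit 2)
theorem c60073 : QOK q60073 := cut [] trivial (nd (nat_lit 272) (nat_lit 0) (cs (lf (nat_lit 12) (nat_lit 268)) (lf (nat_lit 6) (nat_lit 269)))) q60073 (by decide +kernel)
def q60122 : Q := Q.p (nat_lit 0x80000200000c0000100000000000000000000000000000000000000000000000000000000000000) (nat_lit 0x200000400001000000000000000000000000000000000000000000000000000) (nat_lit 2)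
theorem c60122 : QOK q60122 := cut [] trivial (nd (nat_lit 226) (nat_lit 0) (cs (lf (nat_lit 24) (nat_lit 204)) (lf (nat_lit 45) (nat_lit 226)))) q60122 (by decide +kernel)
def q60134 : Q := Q.p (nat_lit 0x60000180000600000000000000000000000000000000000000000000000000000000000000) (nat_lit 0x300000c000010000000000000000800002000000000000000000000000000000000000000000000000000) (nat_lit 4)
theorem c60134 : QOK q60134 := cut [] trivial (nd (nat_lit 315) (nat_lit 0) (cs (lf (nat_lit 30) (nat_lit 249)) (nd (nat_lit 314) (nat_lit 0) (cs (lf (nat_lit 41) (nat_lit 248)) (nd (nat_lit 227) (nat_lit 0) (cs (lf (nat_lit 24) (nat_lit 205)) (lf (nat_lit 40) (nat_lit 226)))))))) q60134 (by decide +kernel)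
def q60148 : Q := Q.p (nat_lit 0x1a0000700000000000000000000000000000000000000000000000000000000000000) (nat_lit 0x100000c0000000000000000000000000000000000000000000000000000000000000) (nat_lit 2)
theorem c60148 : QOK q60148 := cut [] trivial (nd (nat_lit 247) (nat_lit 0) (cs (lf (nat_lit 11) (nat_lit 246)) (lf (nat_lit 0) (nat_lit 246)))) q60148 (by decide +kernel)
def q60155 : Q := Q.p (nat_lit 0x600001a0000200000800000000000000000000000000000000000000000000000000000000) (nat_lit 0x400001c000010000000000000000000000000000000000000000000000000000000000000000000) (nat_lit 3)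
theorem c60155 : QOK q60155 := cut [] trivial (nd (nat_lit 292) (nat_lit 0) (cs (lf (nat_lit 41) (nat_lit 226)) (nd (nat_lit 291) (nat_lit 0) (cs (lf (nat_lit 12) (nat_lit 268)) (lf (nat_lit 23) (nat_lit 268)))))) q60155 (by decide +kernel)
def q60164 : Q := Q.p (nat_lit 0x68000900000000000000000000000000000000000000000000000000000000000000000000) (nat_lit 0x10000600000000000000000000000000000000000000000000000000000000000000000000) (nat_lit 2)
theorem c60164 : QOK q60164 := cut [] trivial (nd (nat_lit 273) (nat_lit 0) (cs (lf (nat_lit 7) (nat_lit 271)) (lf (nat_lit 13) (nat_lit 269)))) q60164 (by decide +kernel)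
def q60165 : Q := Q.p (nat_lit 0x1a0002400000000000000000000000000000000000000000000000000000000000000) (nat_lit 0x40001800000000000000000000000000000000000000000000000000000000000000) (nat_lit 2)
theorem c60165 : QOK q60165 := cut [] trivial (nd (nat_lit 251) (nat_lit 0) (cs (lf (nat_lit 7) (nat_lit 249)) (lf (nat_lit 13) (nat_lit 247)))) q60165 (by decide +kernel)
def q60183 : Q := Q.p (nat_lit 0x200000c00003000000000000000000000000000000000000000000000000000000000000000000000000000000) (nat_lit 0x20000080000000000000000000004000000000000000000000000000000000000000000000000000000000000000000000000) (nat_lit 2)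
theorem c60183 : QOK q60183 := cut [] trivial (nd (nat_lit 379) (nat_lit 0) (cs (lf (nat_lit 42) (nat_lit 312)) (lf (nat_lit 47) (nat_lit 290)))) q60183 (by decide +kernel)
def q60209 : Q := Q.p (nat_lit 0xc000070000040000100000000000000000000000000000000000000000000000000000000000000) (nat_lit 0x800003000000000000000000000000000000000000000000000000000000000000000000000000000000) (nat_lit 2)
theorem c60209 : QOK q60209 := cut [] trivial (nd (nat_lit 313) (nat_lit 0) (cs (lf (nat_lit 41) (nat_lit 247)) (lf (nat_lit 12) (nat_lit 290)))) q60209 (by decide +kernel)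
def q60238 : Q := Q.p (nat_lit 0x10000060000100000400000000000000000000000000000000000000000000000000000000000000) (nat_lit 0x20000380000e000020000000000080000200000800000000000000000000000000000000000000000000000000000000) (nat_lit 6)
theorem c60238 : QOK q60238 := cut [] trivial (nd (nat_lit 339) (nat_lit 0) (cs (lf (nat_lit 28) (nat_lit 250)) (nd (nat_lit 227) (nat_lit 0) (cs (lf (nat_lit 46) (nat_lit 227)) (nd (nat_lit 338) (nat_lit 0) (cs (lf (nat_lit 29) (nat_lit 272)) (nd (nat_lit 359) (nat_lit 0) (cs (lf (nat_lit 40) (nat_lit 271)) (nd (nat_lit 360) (nat_lit 0) (cs (lf (nat_lit 41) (nat_lit 293)) (lf (nat_lit 47) (nat_lit 271)))))))))))) q60238 (by decide +kernel)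
def q60249 : Q := Q.p (nat_lit 0x380000c0000000000000000000000000000000000000000000000000000000000000000000) (nat_lit 0x6000100000000000000000000000000000000000000000000000000000000000000000000) (nat_lit 2)
theorem c60249 : QOK q60249 := cut [] trivial (nd (nat_lit 290) (nat_lit 0) (cs (lf (nat_lit 12) (nat_lit 267)) (lf (nat_lit 17) (nat_lit 268)))) q60249 (by decide +kernel)
def q60304 : Q := Q.p (nat_lit 0x18000060000300000400000000000000000000000000000000000000000000000000000000000000) (nat_lit 0x40000300000c000020000080000000000000000000000000000000000000000000000000000000000000000000000000) (nat_lit 4)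
theorem c60304 : QOK q60304 := cut [] trivial (nd (nat_lit 339) (nat_lit 0) (cs (lf (nat_lit 28) (nat_lit 250)) (nd (nat_lit 338) (nat_lit 0) (cs (lf (nat_lit 29) (nat_lit 272)) (nd (nat_lit 360) (nat_lit 0) (cs (lf (nat_lit 42) (nat_lit 293)) (lf (nat_lit 34) (nat_lit 272)))))))) q60304 (by decide +kernel)
def q60324 : Q := Q.p (nat_lit 0xe0000800000000000000000000000000000000000000000000000000000000000000000000) (nat_lit 0x100001700000000000000000000000000000000000000000000000000000000000000000000) (nat_lit 3)
theorem c60324 : QOK q60324 := cut [] trivial (nd (nat_lit 274) (nat_lit 0) (cs (lf (nat_lit 15) (nat_lit 271)) (nd (nat_lit 273) (nat_lit 0) (cs (lf (nat_lit 6) (nat_lit 272)) (lf (nat_lit 9) (nat_lit 271)))))) q60324 (by decide +kernel)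
def q60326 : Q := Q.p (nat_lit 0xf0000300000400000000000000000000000000000000000000000000000000000000000000) (nat_lit 0x8000060000000000000000000000000000000000000000000000000000000000000000000000000000000) (nat_lit 2)
theorem c60326 : QOK q60326 := cut [] trivial (nd (nat_lit 317) (nat_lit 0) (cs (lf (nat_lit 42) (nat_lit 250)) (lf (nat_lit 5) (nat_lit 292)))) q60326 (by decide +kernel)
def q60391 : Q := Q.p (nat_lit 0x60000180000200000400000000000000000000000000000000000000000000000000000000) (nat_lit 0x800003000000000000000000000000000000000000000000000000000) (nat_lit 2)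
theorem c60391 : QOK q60391 := cut [] trivial (nd (nat_lit 227) (nat_lit 0) (cs (lf (nat_lit 47) (nat_lit 204)) (lf (nat_lit 24) (nat_lit 205)))) q60391 (by decide +kernel)
def q60410 : Q := Q.p (nat_lit 0xc0000c00000000000000000000000000000000000000000000000000000000000000) (nat_lit 0x130000300000000000000000000000000000000000000000000000000000000000000) (nat_lit 3)
theorem c60410 : QOK q60410 := cut [] trivial (nd (nat_lit 269) (nat_lit 0) (cs (lf (nat_lit 15) (nat_lit 247)) (nd (nat_lit 249) (nat_lit 0) (cs (lf (nat_lit 12) (nat_lit 246)) (lf (nat_lit 9) (nat_lit 247)))))) q60410 (by decide +kernel)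
def q60412 : Q := Q.p (nat_lit 0x20000080000400001000000000000000000000000000000000000000000000000000000000) (nat_lit 0x100000200000800004000010000000000000000000000000000000000000000000000) (nat_lit 3)
theorem c60412 : QOK q60412 := cut [] trivial (nd (nat_lit 206) (nat_lit 0) (cs (lf (nat_lit 39) (nat_lit 205)) (nd (nat_lit 249) (nat_lit 0) (cs (lf (nat_lit 36) (nat_lit 183)) (lf (nat_lit 33) (nat_lit 205)))))) q60412 (by decide +kernel)
def q60414 : Q := Q.p (nat_lit 0xa00002c0000000000000000000000000000000000000000000000000000000000000000000) (nat_lit 0x140000100000000000000000000000000000000000000000000000000000000000000000000) (nat_lit 2)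
theorem c60414 : QOK q60414 := cut [] trivial (nd (nat_lit 296) (nat_lit 0) (cs (lf (nat_lit 20) (nat_lit 270)) (lf (nat_lit 2) (nat_lit 270)))) q60414 (by decide +kernel)
def q60433 : Q := Q.p (nat_lit 0x10000040000d00000400000000000000000000000000000000000000000000000000000000) (nat_lit 0x1a00002800000000000000000000000000000000000000000000000000) (nat_lit 3)
theorem c60433 : QOK q60433 := cut [] trivial (nd (nat_lit 227) (nat_lit 0) (cs (lf (nat_lit 35) (nat_lit 204)) (nd (nat_lit 225) (nat_lit 0) (cs (lf (nat_lit 47) (nat_lit 203)) (lf (nat_lit 3) (nat_lit 225)))))) q60433 (by decide +kernel)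
def q60485 : Q := Q.p (nat_lit 0x8000020000100000400001000000000000000000000000000000000000000000000000000000000) (nat_lit 0x2000000000000000080000200000000000000000000000000000000000000000000000000000000000000) (nat_lit 2)
theorem c60485 : QOK q60485 := cut [] trivial (nd (nat_lit 271) (nat_lit 0) (cs (lf (nat_lit 30) (nat_lit 249)) (lf (nat_lit 33) (nat_lit 227)))) q60485 (by decide +kernel)
def q60491 : Q := Q.p (nat_lit 0x2000008000020000100000400000000000000000000000000000000000000000000000000000000000000) (nat_lit 0x800000000010000040000000000000000000000000000000000000000000000000000000000000000000000000) (nat_lit 2)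
theorem c60491 : QOK q60491 := cut [] trivial (nd (nat_lit 294) (nat_lit 0) (cs (lf (nat_lit 30) (nat_lit 271)) (lf (nat_lit 39) (nat_lit 249)))) q60491 (by decide +kernel)
def q60518 : Q := Q.p (nat_lit 0x20000b00000400000000000000000000000000000000000000000000000000000000000000) (nat_lit 0x40000400000200000000000000000000000000000000000000000000000000000000000000) (nat_lit 2)
theorem c60518 : QOK q60518 := cut [] trivial (nd (nat_lit 274) (nat_lit 0) (cs (lf (nat_lit 23) (nat_lit 249)) (lf (nat_lit 10) (nat_lit 271)))) q60518 (by decide +kernel)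
def q60542 : Q := Q.p (nat_lit 0x1f0000000000000000000000000000000000000000000000000000000000000000000000000) (nat_lit 0xe0000000000000000000000000000000000000000000000000000000000000000000000000000000) (nat_lit 2)
theorem c60542 : QOK q60542 := cut [] trivial (nd (nat_lit 318) (nat_lit 0) (cs (lf (nat_lit 5) (nat_lit 293)) (lf (nat_lit 4) (nat_lit 292)))) q60542 (by decide +kernel)
def q60601 : Q := Q.p (nat_lit 0x6000018000020000000000000000000000000000000000000000000000000000000000000000000) (nat_lit 0x1000000000000000000000080000200000000000000000000000000000000000000000000000000000000) (nat_lit 2)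
theorem c60601 : QOK q60601 := cut [] trivial (nd (nat_lit 247) (nat_lit 0) (cs (lf (nat_lit 29) (nat_lit 247)) (lf (nat_lit 24) (nat_lit 225)))) q60601 (by decide +kernel)
def q60622 : Q := Q.p (nat_lit 0x200000c0000f00000000000000000000000000000000000000000000000000000000000000) (nat_lit 0x600001000000000000000000000000000000000000000000000000000) (nat_lit 2)
theorem c60622 : QOK q60622 := cut [] trivial (nd (nat_lit 226) (nat_lit 0) (cs (lf (nat_lit 23) (nat_lit 225)) (lf (nat_lit 24) (nat_lit 204)))) q60622 (by decide +kernel)
def q60626 : Q := Q.p (nat_lit 0x200000e0000080000200000800000000000000000000000000000000000000000000000000000000) (nat_lit 0x44000010000000000000000000000000000000000000000000000000000000000000000000000000) (nat_lit 2)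
theorem c60626 : QOK q60626 := cut [] trivial (nd (nat_lit 292) (nat_lit 0) (cs (lf (nat_lit 41) (nat_lit 226)) (lf (nat_lit 5) (nat_lit 292)))) q60626 (by decide +kernel)
def q60653 : Q := Q.p (nat_lit 0x20000b80000c00000000000000000000000000000000000000000000000000000000000000) (nat_lit 0x10001400000000000000000000000000000000000000000000000000000000000000000000) (nat_lit 2)
theorem c60653 : QOK q60653 := cut [] trivial (nd (nat_lit 274) (nat_lit 0) (cs (lf (nat_lit 18) (nat_lit 250)) (lf (nat_lit 11) (nat_lit 270)))) q60653 (by decide +kernel)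
def q60670 : Q := Q.p (nat_lit 0xa0000600000000000000000000000000000000000000000000000000000000000000) (nat_lit 0x150001800000000000000000000000000000000000000000000000000000000000000) (nat_lit 3)
theorem c60670 : QOK q60670 := cut [] trivial (nd (nat_lit 270) (nat_lit 0) (cs (lf (nat_lit 12) (nat_lit 246)) (nd (nat_lit 251) (nat_lit 0) (cs (lf (nat_lit 6) (nat_lit 248)) (lf (nat_lit 15) (nat_lit 247)))))) q60670 (by decide +kernel)
def q60671 : Q := Q.p (nat_lit 0x80000780000000000000000000000000000000000000000000000000000000000000) (nat_lit 0x300000040000000000000000000000000000000000000000000000000000000000000) (nat_lit 2)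
theorem c60671 : QOK q60671 := cut [] trivial (nd (nat_lit 272) (nat_lit 0) (cs (lf (nat_lit 5) (nat_lit 247)) (lf (nat_lit 0) (nat_lit 246)))) q60671 (by decide +kernel)
def q60683 : Q := Q.p (nat_lit 0x80000300000400001000000000000000000000000000000000000000000000000000000000) (nat_lit 0x8000020000000000000000800000000000000000000000000000000000000000000000000000000000000) (nat_lit 2)
theorem c60683 : QOK q60683 := cut [] trivial (nd (nat_lit 317) (nat_lit 0) (cs (lf (nat_lit 45) (nat_lit 228)) (lf (nat_lit 42) (nat_lit 250)))) q60683 (by decide +kernel)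
def q60697 : Q := Q.p (nat_lit 0x20000b80000400000000000000000000000000000000000000000000000000000000000000) (nat_lit 0x10000400000200000000000000000000000000000000000000000000000000000000000000) (nat_lit 2)
theorem c60697 : QOK q60697 := cut [] trivial (nd (nat_lit 274) (nat_lit 0) (cs (lf (nat_lit 23) (nat_lit 249)) (lf (nat_lit 11) (nat_lit 270)))) q60697 (by decide +kernel)
def q60699 : Q := Q.p (nat_lit 0x700000600000000000000000000000000000000000000000000000000000000) (nat_lit 0x980000000000000000000000000000000000000000000000000000000) (nat_lit 2)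
theorem c60699 : QOK q60699 := cut [] trivial (nd (nat_lit 224) (nat_lit 0) (cs (lf (nat_lit 3) (nat_lit 224)) (lf (nat_lit 0) (nat_lit 223)))) q60699 (by decide +kernel)
def q60745 : Q := Q.p (nat_lit 0x30000000000300000400000000000000000000000000000000000000000000000000000000000000) (nat_lit 0x80000000000c0000000000000000000000000000000000000000000000000000000000000000000000000) (nat_lit 2)
theorem c60745 : QOK q60745 := cut [] trivial (nd (nat_lit 339) (nat_lit 0) (cs (lf (nat_lit 44) (nat_lit 250)) (lf (nat_lit 26) (nat_lit 250)))) q60745 (by decide +kernel)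
def q60763 : Q := Q.p (nat_lit 0x8000038000000000000000000000000000000000000000000000000000000000000000000000000) (nat_lit 0x15c00006000000000000000000000000000000000000000000000000000000000000000000000000) (nat_lit 4)
theorem c60763 : QOK q60763 := cut [] trivial (nd (nat_lit 290) (nat_lit 0) (cs (lf (nat_lit 5) (nat_lit 290)) (nd (nat_lit 311) (nat_lit 0) (cs (lf (nat_lit 10) (nat_lit 289)) (nd (nat_lit 289) (nat_lit 0) (cs (lf (nat_lit 11) (nat_lit 288)) (lf (nat_lit 4) (nat_lit 289)))))))) q60763 (by decide +kernel)
def q60777 : Q := Q.p (nat_lit 0x200000e0000300000000000000000000000000000000000000000000000000000000000000000000) (nat_lit 0x40000018000000000000000000000000000000000000000000000000000000000000000000000000) (nat_lit 2)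
theorem c60777 : QOK q60777 := cut [] trivial (nd (nat_lit 292) (nat_lit 0) (cs (lf (nat_lit 12) (nat_lit 269)) (lf (nat_lit 5) (nat_lit 292)))) q60777 (by decide +kernel)
def q60799 : Q := Q.p (nat_lit 0x40000300000c0000100000000000000000000000000000000000000000000000000000000000000) (nat_lit 0x80000600001800000000000000000000000000000000000000000000000000) (nat_lit 3)
theorem c60799 : QOK q60799 := cut [] trivial (nd (nat_lit 225) (nat_lit 0) (cs (nd (nat_lit 226) (nat_lit 0) (cs (lf (nat_lit 47) (nat_lit 203)) (lf (nat_lit 24) (nat_lit 204)))) (lf (nat_lit 46) (nat_lit 225)))) q60799 (by decide +kernel)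
def q60914 : Q := Q.p (nat_lit 0x1c000060000000000000000000000000000000000000000000000000000000000000000000000000) (nat_lit 0x3000080000000000000000000000000000000000000000000000000000000000000000000000000) (nat_lit 2)
theorem c60914 : QOK q60914 := cut [] trivial (nd (nat_lit 313) (nat_lit 0) (cs (lf (nat_lit 12) (nat_lit 290)) (lf (nat_lit 17) (nat_lit 291)))) q60914 (by decide +kernel)
def q60933 : Q := Q.p (nat_lit 0x1000008000020000080000100000000000000000000000000000000000000000000000000000000) (nat_lit 0x400002000000000000000040000000000000000000000000000000000000000000000000000000000000) (nat_lit 2)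
theorem c60933 : QOK q60933 := cut [] trivial (nd (nat_lit 313) (nat_lit 0) (cs (lf (nat_lit 41) (nat_lit 246)) (lf (nat_lit 46) (nat_lit 224)))) q60933 (by decide +kernel)
def q60943 : Q := Q.p (nat_lit 0x10000068000020000000000000000000000000000000000000000000000000000000000000000000) (nat_lit 0x20000010000010000000000000000000000000000000000000000000000000000000000000000000) (nat_lit 2)
theorem c60943 : QOK q60943 := cut [] trivial (nd (nat_lit 292) (nat_lit 0) (cs (lf (nat_lit 23) (nat_lit 268)) (lf (nat_lit 5) (nat_lit 291)))) q60943 (by decide +kernel)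
def q61003 : Q := Q.p (nat_lit 0x800002000008000020000000000000000000000000000000000000000000000000000000000000000000000000) (nat_lit 0x100000600001000000000004000010000040000000000000000000000000000000000000000000000000000000000000000000) (nat_lit 4)
theorem c61003 : QOK q61003 := cut [] trivial (nd (nat_lit 382) (nat_lit 0) (cs (lf (nat_lit 28) (nat_lit 293)) (nd (nat_lit 292) (nat_lit 0) (cs (lf (nat_lit 47) (nat_lit 270)) (nd (nat_lit 381) (nat_lit 0) (cs (lf (nat_lit 29) (nat_lit 315)) (lf (nat_lit 46) (nat_lit 292)))))))) q61003 (by decide +kernel)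
def q61052 : Q := Q.p (nat_lit 0xc0000e0000000000000000000000000000000000000000000000000000000000000000000000000) (nat_lit 0x13000000000000000000000000000000000000000000000000000000000000000000000000000000) (nat_lit 2)
theorem c61052 : QOK q61052 := cut [] trivial (nd (nat_lit 313) (nat_lit 0) (cs (lf (nat_lit 12) (nat_lit 290)) (lf (nat_lit 15) (nat_lit 291)))) q61052 (by decide +kernel)
def q61062 : Q := Q.p (nat_lit 0xe0000080000600000000000000000000000000000000000000000000000000000000000000) (nat_lit 0x110000070000000000000000000000000000000000000000000000000000000000000000000) (nat_lit 3)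
theorem c61062 : QOK q61062 := cut [] trivial (nd (nat_lit 270) (nat_lit 0) (cs (lf (nat_lit 18) (nat_lit 270)) (nd (nat_lit 269) (nat_lit 0) (cs (lf (nat_lit 12) (nat_lit 246)) (lf (nat_lit 21) (nat_lit 269)))))) q61062 (by decide +kernel)
def q61117 : Q := Q.p (nat_lit 0x3e0000000000000000000000000000000000000000000000000000000000000) (nat_lit 0x1c00000000000000000000000000000000000000000000000000000000) (nat_lit 2)
theorem c61117 : QOK q61117 := cut [] trivial (nd (nat_lit 227) (nat_lit 0) (cs (lf (nat_lit 17) (nat_lit 224)) (lf (nat_lit 16) (nat_lit 223)))) q61117 (by decide +kernel)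
def q61168 : Q := Q.p (nat_lit 0x400001000024000050000000000000000000000000000000000000000000000) (nat_lit 0x420000a0000080000000000000000000000000000000000000000) (nat_lit 3)
theorem c61168 : QOK q61168 := cut [] trivial (nd (nat_lit 185) (nat_lit 0) (cs (lf (nat_lit 35) (nat_lit 162)) (nd (nat_lit 187) (nat_lit 0) (cs (lf (nat_lit 5) (nat_lit 184)) (lf (nat_lit 11) (nat_lit 183)))))) q61168 (by decide +kernel)
def q61255 : Q := Q.p (nat_lit 0x50000700000000000000000000000000000000000000000) (nat_lit 0xa0000080000000000000000000000000000000000000000) (nat_lit 2)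
theorem c61255 : QOK q61255 := cut [] trivial (nd (nat_lit 185) (nat_lit 0) (cs (lf (nat_lit 15) (nat_lit 162)) (lf (nat_lit 9) (nat_lit 162)))) q61255 (by decide +kernel)
def q61264 : Q := Q.p (nat_lit 0x600005000000000000000000000000000000000000000000000000000000000) (nat_lit 0x18000a800000000000000000000000000000000000000000000000000000000) (nat_lit 3)
theorem c61264 : QOK q61264 := cut [] trivial (nd (nat_lit 229) (nat_lit 0) (cs (lf (nat_lit 6) (nat_lit 227)) (nd (nat_lit 248) (nat_lit 0) (cs (lf (nat_lit 12) (nat_lit 225)) (lf (nat_lit 9) (nat_lit 226)))))) q61264 (by decide +kernel)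
def q61275 : Q := Q.p (nat_lit 0x80000600001000004000000000000000000000000000000000000000000000000000) (nat_lit 0x8000020000000000000000800000000000000000000000000000000000000000000000000000000) (nat_lit 2)
theorem c61275 : QOK q61275 := cut [] trivial (nd (nat_lit 293) (nat_lit 0) (cs (lf (nat_lit 33) (nat_lit 205)) (lf (nat_lit 30) (nat_lit 227)))) q61275 (by decide +kernel)
def q61284 : Q := Q.p (nat_lit 0x10000040000700000400000000000000000000000000000000000000000000000000000000) (nat_lit 0x800000200000800000000000000000000000000000000000000000000000000) (nat_lit 2)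
theorem c61284 : QOK q61284 := cut [] trivial (nd (nat_lit 225) (nat_lit 0) (cs (lf (nat_lit 47) (nat_lit 203)) (lf (nat_lit 18) (nat_lit 225)))) q61284 (by decide +kernel)
def q61330 : Q := Q.p (nat_lit 0x20000080000600001000000000000000000000000000000000000000000000000000000000) (nat_lit 0x100000000000000004000010000000000000000000000000000000000000000000000) (nat_lit 2)
theorem c61330 : QOK q61330 := cut [] trivial (nd (nat_lit 206) (nat_lit 0) (cs (lf (nat_lit 36) (nat_lit 183)) (lf (nat_lit 39) (nat_lit 205)))) q61330 (by decide +kernel)
def q61421 : Q := Q.p (nat_lit 0x600000000002000018000000000000000000000000000000000000000000000) (nat_lit 0x100000000000800000000000000040000000000000000000000000000000000000000) (nat_lit 2)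
theorem c61421 : QOK q61421 := cut [] trivial (nd (nat_lit 227) (nat_lit 0) (cs (lf (nat_lit 29) (nat_lit 183)) (lf (nat_lit 35) (nat_lit 161)))) q61421 (by decide +kernel)
def q61437 : Q := Q.p (nat_lit 0x400001000014000058000000000000000000000000000000000000000000000) (nat_lit 0x20000020000080000000000000000000000000000000000000000) (nat_lit 2)
theorem c61437 : QOK q61437 := cut [] trivial (nd (nat_lit 185) (nat_lit 0) (cs (lf (nat_lit 35) (nat_lit 162)) (lf (nat_lit 5) (nat_lit 183)))) q61437 (by decide +kernel)
def q61446 : Q := Q.p (nat_lit 0x320000e00000000000000000000000000000000000) (nat_lit 0x40000180000000000000000000000000000000000) (nat_lit 2)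
theorem c61446 : QOK q61446 := cut [] trivial (nd (nat_lit 140) (nat_lit 0) (cs (lf (nat_lit 0) (nat_lit 139)) (lf (nat_lit 10) (nat_lit 139)))) q61446 (by decide +kernel)
def q61450 : Q := Q.p (nat_lit 0x1c0000320000000000000000000000000000000000000000) (nat_lit 0x1c0000638000040000000000000000000000000000000000000000) (nat_lit 5)
theorem c61450 : QOK q61450 := cut [] trivial (nd (nat_lit 189) (nat_lit 0) (cs (lf (nat_lit 18) (nat_lit 164)) (nd (nat_lit 211) (nat_lit 0) (cs (lf (nat_lit 5) (nat_lit 186)) (nd (nat_lit 185) (nat_lit 0) (cs (lf (nat_lit 4) (nat_lit 185)) (nd (nat_lit 184) (nat_lit 0) (cs (lf (nat_lit 12) (nat_lit 161)) (lf (nat_lit 22) (nat_lit 161)))))))))) q61450 (by decide +kernel)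
def q61456 : Q := Q.p (nat_lit 0x8000020000080000200000800000000000000000000000) (nat_lit 0x400001000004000000000000000000) (nat_lit 2)
theorem c61456 : QOK q61456 := cut [] trivial (nd (nat_lit 96) (nat_lit 0) (cs (lf (nat_lit 35) (nat_lit 73)) (lf (nat_lit 34) (nat_lit 95)))) q61456 (by decide +kernel)
def q61464 : Q := Q.p (nat_lit 0x400000000002000008000020000080000000000000000000000000000000000) (nat_lit 0x1800004000000000000000000000000000000000000000000000000000) (nat_lit 2)
theorem c61464 : QOK q61464 := cut [] trivial (nd (nat_lit 228) (nat_lit 0) (cs (lf (nat_lit 27) (nat_lit 161)) (lf (nat_lit 28) (nat_lit 139)))) q61464 (by decide +kernel)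
def q61518 : Q := Q.p (nat_lit 0x700000c0000600000000000000000000000000000000000000000000000000000000000000) (nat_lit 0x80000030000000000000000000000000000000000000000000000000000000000000000000) (nat_lit 2)
theorem c61518 : QOK q61518 := cut [] trivial (nd (nat_lit 269) (nat_lit 0) (cs (lf (nat_lit 12) (nat_lit 246)) (lf (nat_lit 18) (nat_lit 269)))) q61518 (by decide +kernel)
def q61546 : Q := Q.p (nat_lit 0xc0000600000000000000000000000000000000000000000000000000000000000000) (nat_lit 0x130000900000000000000000000000000000000000000000000000000000000000000) (nat_lit 3)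
theorem c61546 : QOK q61546 := cut [] trivial (nd (nat_lit 269) (nat_lit 0) (cs (lf (nat_lit 12) (nat_lit 246)) (nd (nat_lit 251) (nat_lit 0) (cs (lf (nat_lit 15) (nat_lit 247)) (lf (nat_lit 9) (nat_lit 247)))))) q61546 (by decide +kernel)
def q61559 : Q := Q.p (nat_lit 0xc0000300000400000800000000000000000000000000000000000000000000000000) (nat_lit 0x1000006000000000000000000000000000000000000000000000) (nat_lit 2)
theorem c61559 : QOK q61559 := cut [] trivial (nd (nat_lit 204) (nat_lit 0) (cs (lf (nat_lit 47) (nat_lit 181)) (lf (nat_lit 24) (nat_lit 182)))) q61559 (by decide +kernel)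
def q61564 : Q := Q.p (nat_lit 0x1c0000200000000002000000000000000000000000000000000000000000000000000) (nat_lit 0x50000000000000000800000000000000000000000000000000000000000000000000000000) (nat_lit 2)
theorem c61564 : QOK q61564 := cut [] trivial (nd (nat_lit 227) (nat_lit 0) (cs (lf (nat_lit 41) (nat_lit 204)) (lf (nat_lit 29) (nat_lit 205)))) q61564 (by decide +kernel)
def q61575 : Q := Q.p (nat_lit 0x180000600001000002000000000000000000000000000000000000000000000000000) (nat_lit 0xc0000300000c0000000000000000800000000000000000000000000000000000000000000000000000000) (nat_lit 4)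
theorem c61575 : QOK q61575 := cut [] trivial (nd (nat_lit 294) (nat_lit 0) (cs (lf (nat_lit 25) (nat_lit 205)) (nd (nat_lit 317) (nat_lit 0) (cs (lf (nat_lit 28) (nat_lit 228)) (nd (nat_lit 316) (nat_lit 0) (cs (lf (nat_lit 29) (nat_lit 250)) (lf (nat_lit 42) (nat_lit 249)))))))) q61575 (by decide +kernel)
def q61587 : Q := Q.p (nat_lit 0x100000c0000300000000000000000000000000000000000000000000000000000000000000) (nat_lit 0x4000000000000000000000800002000000000000000000000000000000000000000000000000000) (nat_lit 2)
theorem c61587 : QOK q61587 := cut [] trivial (nd (nat_lit 227) (nat_lit 0) (cs (lf (nat_lit 30) (nat_lit 226)) (lf (nat_lit 36) (nat_lit 204)))) q61587 (by decide +kernel)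
def q61604 : Q := Q.p (nat_lit 0x700000600000000000000000000000000000000000000000000000000000000) (nat_lit 0x80000180000000000000000000000000000000000000000000000000000000) (nat_lit 2)
theorem c61604 : QOK q61604 := cut [] trivial (nd (nat_lit 224) (nat_lit 0) (cs (lf (nat_lit 21) (nat_lit 224)) (lf (nat_lit 0) (nat_lit 223)))) q61604 (by decide +kernel)
def q61635 : Q := Q.p (nat_lit 0x100000c0000200000800000000000000000000000000000000000000000000000000000000) (nat_lit 0x1000004000000000000000100000000000000000000000000000000000000000000000000000000000000) (nat_lit 2)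
theorem c61635 : QOK q61635 := cut [] trivial (nd (nat_lit 314) (nat_lit 0) (cs (lf (nat_lit 30) (nat_lit 248)) (lf (nat_lit 33) (nat_lit 226)))) q61635 (by decide +kernel)
def q61648 : Q := Q.p (nat_lit 0x40000100000c0000300000000000000000000000000000000000000000000000000000000000000) (nat_lit 0x1000000e0000200000000000000000000000000000000000000000000000000000000) (nat_lit 3)
theorem c61648 : QOK q61648 := cut [] trivial (nd (nat_lit 247) (nat_lit 0) (cs (lf (nat_lit 47) (nat_lit 225)) (nd (nat_lit 246) (nat_lit 0) (cs (lf (nat_lit 5) (nat_lit 246)) (lf (nat_lit 0) (nat_lit 245)))))) q61648 (by decide +kernel)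
def q61669 : Q := Q.p (nat_lit 0x20000080000600001000000000000000000000000000000000000000000000000000000000) (nat_lit 0x100000000000800004000000000000000000000000000000000000000000000000000) (nat_lit 2)
theorem c61669 : QOK q61669 := cut [] trivial (nd (nat_lit 206) (nat_lit 0) (cs (lf (nat_lit 33) (nat_lit 205)) (lf (nat_lit 39) (nat_lit 205)))) q61669 (by decide +kernel)
def q61681 : Q := Q.p (nat_lit 0x60000180000600000800000000000000000000000000000000000000000000000000000000) (nat_lit 0x400009c000070000800000000000000000000000000000000000000000000000000000000000000) (nat_lit 5)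
theorem c61681 : QOK q61681 := cut [] trivial (nd (nat_lit 292) (nat_lit 0) (cs (lf (nat_lit 41) (nat_lit 226)) (nd (nat_lit 291) (nat_lit 0) (cs (lf (nat_lit 12) (nat_lit 268)) (nd (nat_lit 269) (nat_lit 0) (cs (lf (nat_lit 23) (nat_lit 268)) (nd (nat_lit 270) (nat_lit 0) (cs (lf (nat_lit 17) (nat_lit 247)) (lf (nat_lit 5) (nat_lit 269)))))))))) q61681 (by decide +kernel)
def q61712 : Q := Q.p (nat_lit 0xc000020000080000400000000000000000000000000000000000000000000000000000000000000) (nat_lit 0x600001800006000000000010000140000000000000000000000000000000000000000000000000000000000000000000) (nat_lit 5)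
theorem c61712 : QOK q61712 := cut [] trivial (nd (nat_lit 337) (nat_lit 0) (cs (lf (nat_lit 34) (nat_lit 249)) (nd (nat_lit 360) (nat_lit 0) (cs (lf (nat_lit 28) (nat_lit 271)) (nd (nat_lit 359) (nat_lit 0) (cs (lf (nat_lit 29) (nat_lit 293)) (nd (nat_lit 292) (nat_lit 0) (cs (lf (nat_lit 42) (nat_lit 292)) (lf (nat_lit 47) (nat_lit 270)))))))))) q61712 (by decide +kernel)
def q61718 : Q := Q.p (nat_lit 0x800002000018000060000000000000000000000000000000000000000000000000000000000000000000000000) (nat_lit 0x2000001c000040000000000000000000000000000000000000000000000000000000000000000000) (nat_lit 3)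
theorem c61718 : QOK q61718 := cut [] trivial (nd (nat_lit 292) (nat_lit 0) (cs (lf (nat_lit 47) (nat_lit 270)) (nd (nat_lit 291) (nat_lit 0) (cs (lf (nat_lit 0) (nat_lit 290)) (lf (nat_lit 5) (nat_lit 291)))))) q61718 (by decide +kernel)
def q61736 : Q := Q.p (nat_lit 0xf0000800000000000000000000000000000000000000000000000000000000000000000000) (nat_lit 0x100000600000000000000000000000000000000000000000000000000000000000000000000) (nat_lit 2)
theorem c61736 : QOK q61736 := cut [] trivial (nd (nat_lit 274) (nat_lit 0) (cs (lf (nat_lit 15) (nat_lit 271)) (lf (nat_lit 16) (nat_lit 270)))) q61736 (by decide +kernel)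
def q61738 : Q := Q.p (nat_lit 0x10000038000010000000000000000000000000000000000000000000000000000000000000000000) (nat_lit 0x8000004000008000000000000000000000000000000000000000000000000000000000000000000) (nat_lit 2)
theorem c61738 : QOK q61738 := cut [] trivial (nd (nat_lit 290) (nat_lit 0) (cs (lf (nat_lit 23) (nat_lit 267)) (lf (nat_lit 4) (nat_lit 290)))) q61738 (by decide +kernel)
def q61752 : Q := Q.p (nat_lit 0x8000020000680000100000000000000000000000000000000000000000000000000000000) (nat_lit 0xe00001400000000000000000000000000000000000000000000000000) (nat_lit 3)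
theorem c61752 : QOK q61752 := cut [] trivial (nd (nat_lit 225) (nat_lit 0) (cs (lf (nat_lit 47) (nat_lit 202)) (nd (nat_lit 226) (nat_lit 0) (cs (lf (nat_lit 35) (nat_lit 203)) (lf (nat_lit 3) (nat_lit 224)))))) q61752 (by decide +kernel)
def q61759 : Q := Q.p (nat_lit 0x11000038000000000000000000000000000000000000000000000000000000000000000000000000) (nat_lit 0x8800004000000000000000000000000000000000000000000000000000000000000000000000000) (nat_lit 2)
theorem c61759 : QOK q61759 := cut [] trivial (nd (nat_lit 290) (nat_lit 0) (cs (lf (nat_lit 11) (nat_lit 289)) (lf (nat_lit 4) (nat_lit 290)))) q61759 (by decide +kernel)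
def q61764 : Q := Q.p (nat_lit 0x78000000000000000000000000000000000000000000000000000000000000000000000000) (nat_lit 0x3800004000038000000000000000000000000000000000000000000000000000000000000000000) (nat_lit 4)
theorem c61764 : QOK q61764 := cut [] trivial (nd (nat_lit 268) (nat_lit 0) (cs (lf (nat_lit 22) (nat_lit 268)) (nd (nat_lit 312) (nat_lit 0) (cs (lf (nat_lit 10) (nat_lit 290)) (nd (nat_lit 290) (nat_lit 0) (cs (lf (nat_lit 23) (nat_lit 267)) (lf (nat_lit 11) (nat_lit 289)))))))) q61764 (by decide +kernel)
def q61766 : Q := Q.p (nat_lit 0xc0000200000800000000010000000000000000000000000000000000000000000000000000) (nat_lit 0x10000000000000000000006000000000000000000000000000000000000000000000000000000000) (nat_lit 2)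
theorem c61766 : QOK q61766 := cut [] trivial (nd (nat_lit 229) (nat_lit 0) (cs (lf (nat_lit 34) (nat_lit 207)) (lf (nat_lit 41) (nat_lit 228)))) q61766 (by decide +kernel)
def q61773 : Q := Q.p (nat_lit 0xf8000000000000000000000000000000000000000000000000000000000000000000000000) (nat_lit 0x70000000000000000000000000000000000000000000000000000000000000000000000000000000) (nat_lit 2)
theorem c61773 : QOK q61773 := cut [] trivial (nd (nat_lit 317) (nat_lit 0) (cs (lf (nat_lit 5) (nat_lit 292)) (lf (nat_lit 4) (nat_lit 291)))) q61773 (by decide +kernel)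
def q61779 : Q := Q.p (nat_lit 0xe0000c00000600000000000000000000000000000000000000000000000000000000000000) (nat_lit 0x10000300000000000000000000000000000000000000000000000000000000000000000000) (nat_lit 2)
theorem c61779 : QOK q61779 := cut [] trivial (nd (nat_lit 273) (nat_lit 0) (cs (lf (nat_lit 21) (nat_lit 249)) (lf (nat_lit 12) (nat_lit 270)))) q61779 (by decide +kernel)
def q61787 : Q := Q.p (nat_lit 0xe0000800000600000000000000000000000000000000000000000000000000000000000000) (nat_lit 0x100001700000000000000000000000000000000000000000000000000000000000000000000) (nat_lit 3)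
theorem c61787 : QOK q61787 := cut [] trivial (nd (nat_lit 274) (nat_lit 0) (cs (lf (nat_lit 15) (nat_lit 271)) (nd (nat_lit 273) (nat_lit 0) (cs (lf (nat_lit 21) (nat_lit 249)) (lf (nat_lit 6) (nat_lit 272)))))) q61787 (by decide +kernel)
def q61798 : Q := Q.p (nat_lit 0x10000060000100000400000000000000000000000000000000000000000000000000000000000000) (nat_lit 0x2000008000000000000000000001000000000000000000000000000000000000000000000000000000000) (nat_lit 2)
theorem c61798 : QOK q61798 := cut [] trivial (nd (nat_lit 315) (nat_lit 0) (cs (lf (nat_lit 41) (nat_lit 249)) (lf (nat_lit 36) (nat_lit 227)))) q61798 (by decide +kernel)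
def q61803 : Q := Q.p (nat_lit 0x4000070000800000000000000000000000000000000000000000000000000000000000000000000) (nat_lit 0xa000180000400000000000000000000000000000000000000000000000000000000000000000000) (nat_lit 3)
theorem c61803 : QOK q61803 := cut [] trivial (nd (nat_lit 295) (nat_lit 0) (cs (lf (nat_lit 11) (nat_lit 291)) (nd (nat_lit 296) (nat_lit 0) (cs (lf (nat_lit 16) (nat_lit 271)) (lf (nat_lit 10) (nat_lit 292)))))) q61803 (by decide +kernel)
def q61805 : Q := Q.p (nat_lit 0x1000004000070000040000000000000000000000000000000000000000000000000000000000000000000) (nat_lit 0x80000020000080000000000000000000000000000000000000000000000000000000000000) (nat_lit 2)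
theorem c61805 : QOK q61805 := cut [] trivial (nd (nat_lit 269) (nat_lit 0) (cs (lf (nat_lit 18) (nat_lit 269)) (lf (nat_lit 47) (nat_lit 247)))) q61805 (by decide +kernel)
def q61859 : Q := Q.p (nat_lit 0x30000070000000000000000000000000000000000000000000000000000000000000000000000000) (nat_lit 0xc8000000000000000000000000000000000000000000000000000000000000000000000000000000) (nat_lit 2)
theorem c61859 : QOK q61859 := cut [] trivial (nd (nat_lit 318) (nat_lit 0) (cs (lf (nat_lit 18) (nat_lit 293)) (lf (nat_lit 21) (nat_lit 292)))) q61859 (by decide +kernel)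
def q61892 : Q := Q.p (nat_lit 0x3e000000000000000000000000000000000000000000000000000000000000000000000000000000) (nat_lit 0x1c000000000000000000000000000000000000000000000000000000000000000000000000000000000000) (nat_lit 2)
theorem c61892 : QOK q61892 := cut [] trivial (nd (nat_lit 339) (nat_lit 0) (cs (lf (nat_lit 5) (nat_lit 314)) (lf (nat_lit 4) (nat_lit 313)))) q61892 (by decide +kernel)
def q61899 : Q := Q.p (nat_lit 0x78000020000000000000000000000000000000000000000000000000000000000000000000) (nat_lit 0x7000080000040000000000000000000000000000000000000000000000000000000000000000000) (nat_lit 3)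
theorem c61899 : QOK q61899 := cut [] trivial (nd (nat_lit 313) (nat_lit 0) (cs (lf (nat_lit 11) (nat_lit 290)) (nd (nat_lit 295) (nat_lit 0) (cs (lf (nat_lit 10) (nat_lit 291)) (lf (nat_lit 22) (nat_lit 269)))))) q61899 (by decide +kernel)
def q61924 : Q := Q.p (nat_lit 0xe0000c00000000000000000000000000000000000000000000000000000000000000000000) (nat_lit 0x10001200000000000000000000000000000000000000000000000000000000000000000000) (nat_lit 2)
theorem c61924 : QOK q61924 := cut [] trivial (nd (nat_lit 273) (nat_lit 0) (cs (lf (nat_lit 12) (nat_lit 270)) (lf (nat_lit 6) (nat_lit 272)))) q61924 (by decide +kernel)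
def q61939 : Q := Q.p (nat_lit 0x60000000000600000800000000000000000000000000000000000000000000000000000000) (nat_lit 0x10000000000180000000000000000000000000000000000000000000000000000000000000000000) (nat_lit 2)
theorem c61939 : QOK q61939 := cut [] trivial (nd (nat_lit 316) (nat_lit 0) (cs (lf (nat_lit 44) (nat_lit 227)) (lf (nat_lit 26) (nat_lit 227)))) q61939 (by decide +kernel)
def q61966 : Q := Q.p (nat_lit 0x600000c0000000000000000000000000000000000000000000000000000000000000000000) (nat_lit 0x190000030000000000000000000000000000000000000000000000000000000000000000000) (nat_lit 3)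
theorem c61966 : QOK q61966 := cut [] trivial (nd (nat_lit 295) (nat_lit 0) (cs (lf (nat_lit 18) (nat_lit 270)) (nd (nat_lit 269) (nat_lit 0) (cs (lf (nat_lit 0) (nat_lit 268)) (lf (nat_lit 21) (nat_lit 269)))))) q61966 (by decide +kernel)
def q61983 : Q := Q.p (nat_lit 0x80000e0000800000000000000000000000000000000000000000000000000000000000000000000) (nat_lit 0x4000100000400000000000000000000000000000000000000000000000000000000000000000000) (nat_lit 2)
theorem c61983 : QOK q61983 := cut [] trivial (nd (nat_lit 296) (nat_lit 0) (cs (lf (nat_lit 16) (nat_lit 271)) (lf (nat_lit 11) (nat_lit 292)))) q61983 (by decide +kernel)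
def q62027 : Q := Q.p (nat_lit 0x8000030000000000100000000000000000000000000000000000000000000000000000000) (nat_lit 0x8000020000000000000000c0000000000400000000000000000000000000000000000000000000000000) (nat_lit 3)
theorem c62027 : QOK q62027 := cut [] trivial (nd (nat_lit 246) (nat_lit 0) (cs (lf (nat_lit 24) (nat_lit 202)) (nd (nat_lit 313) (nat_lit 0) (cs (lf (nat_lit 42) (nat_lit 246)) (lf (nat_lit 45) (nat_lit 224)))))) q62027 (by decide +kernel)
def q62039 : Q := Q.p (nat_lit 0x38000180000000000000000000000000000000000000000000000000000000000000000000) (nat_lit 0x40000600000000000000000000000000000000000000000000000000000000000000000000) (nat_lit 2)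
theorem c62039 : QOK q62039 := cut [] trivial (nd (nat_lit 273) (nat_lit 0) (cs (lf (nat_lit 6) (nat_lit 270)) (lf (nat_lit 15) (nat_lit 269)))) q62039 (by decide +kernel)
def q62041 : Q := Q.p (nat_lit 0x38000090000600000000000000000000000000000000000000000000000000000000000000) (nat_lit 0x40000060000000000000000000000000000000000000000000000000000000000000000000) (nat_lit 2)
theorem c62041 : QOK q62041 := cut [] trivial (nd (nat_lit 269) (nat_lit 0) (cs (lf (nat_lit 14) (nat_lit 246)) (lf (nat_lit 18) (nat_lit 268)))) q62041 (by decide +kernel)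
def q62045 : Q := Q.p (nat_lit 0x3c000010000000000000000000000000000000000000000000000000000000000000000000) (nat_lit 0x800003800040000000000040000100000000000000000000000000000000000000000000000000000000) (nat_lit 4)
theorem c62045 : QOK q62045 := cut [] trivial (nd (nat_lit 312) (nat_lit 0) (cs (lf (nat_lit 11) (nat_lit 289)) (nd (nat_lit 313) (nat_lit 0) (cs (lf (nat_lit 6) (nat_lit 290)) (nd (nat_lit 246) (nat_lit 0) (cs (lf (nat_lit 29) (nat_lit 246)) (lf (nat_lit 24) (nat_lit 224)))))))) q62045 (by decide +kernel)
def q62049 : Q := Q.p (nat_lit 0x38000030000000000000000000000000000000000000000000000000000000000000000000) (nat_lit 0x400000c000000000000000000000000000000000000000000000000000000000000000000) (nat_lit 2)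
theorem c62049 : QOK q62049 := cut [] trivial (nd (nat_lit 267) (nat_lit 0) (cs (lf (nat_lit 21) (nat_lit 267)) (lf (nat_lit 0) (nat_lit 266)))) q62049 (by decide +kernel)
def q62073 : Q := Q.p (nat_lit 0x4000030000080000200000000000000000000000000000000000000000000000000000000000000) (nat_lit 0x400001000008000000000000000000000000000000000000000000000000000000000000000000000000000000) (nat_lit 2)
theorem c62073 : QOK q62073 := cut [] trivial (nd (nat_lit 336) (nat_lit 0) (cs (lf (nat_lit 30) (nat_lit 270)) (lf (nat_lit 39) (nat_lit 248)))) q62073 (by decide +kernel)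
def q62077 : Q := Q.p (nat_lit 0xc0000a00000600000000000000000000000000000000000000000000000000000000000000) (nat_lit 0x1500000000000000000000000000000000000000000000000000000000000000000000) (nat_lit 2)
theorem c62077 : QOK q62077 := cut [] trivial (nd (nat_lit 274) (nat_lit 0) (cs (lf (nat_lit 21) (nat_lit 249)) (lf (nat_lit 6) (nat_lit 272)))) q62077 (by decide +kernel)
def q62078 : Q := Q.p (nat_lit 0xe0000a00000000000000000000000000000000000000000000000000000000000000000000) (nat_lit 0x10001400000000000000000000000000000000000000000000000000000000000000000000) (nat_lit 2)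
theorem c62078 : QOK q62078 := cut [] trivial (nd (nat_lit 274) (nat_lit 0) (cs (lf (nat_lit 12) (nat_lit 270)) (lf (nat_lit 6) (nat_lit 272)))) q62078 (by decide +kernel)
def q62086 : Q := Q.p (nat_lit 0x3e000000000000000000000000000000000000000000000000000000000000000000000000) (nat_lit 0x1c000000000000000000000000000000000000000000000000000000000000000000) (nat_lit 2)
theorem c62086 : QOK q62086 := cut [] trivial (nd (nat_lit 267) (nat_lit 0) (cs (lf (nat_lit 23) (nat_lit 266)) (lf (nat_lit 22) (nat_lit 267)))) q62086 (by decide +kernel)
def q62093 : Q := Q.p (nat_lit 0xf8000080000000000000000000000000000000000000000000000000000000000000000000) (nat_lit 0x3800006000060000000000000000000000000000000000000000000000000000000000000000000) (nat_lit 4)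
theorem c62093 : QOK q62093 := cut [] trivial (nd (nat_lit 312) (nat_lit 0) (cs (lf (nat_lit 10) (nat_lit 290)) (nd (nat_lit 290) (nat_lit 0) (cs (lf (nat_lit 11) (nat_lit 289)) (nd (nat_lit 270) (nat_lit 0) (cs (lf (nat_lit 23) (nat_lit 269)) (lf (nat_lit 12) (nat_lit 267)))))))) q62093 (by decide +kernel)
def q62104 : Q := Q.p (nat_lit 0x8000020000080000600000800002000000000000000000000000000000000000000000000000000) (nat_lit 0x2000000000000000100000000000000000000008000000000000000000000000000000000000000000000) (nat_lit 2)
theorem c62104 : QOK q62104 := cut [] trivial (nd (nat_lit 272) (nat_lit 0) (cs (lf (nat_lit 24) (nat_lit 183)) (lf (nat_lit 30) (nat_lit 249)))) q62104 (by decide +kernel)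
def q62136 : Q := Q.p (nat_lit 0x200000c00003000000000000000000000000000000000000000000000000000000000) (nat_lit 0x80000000000000000000004000010000000000000000000000000000000000000000000000) (nat_lit 2)
theorem c62136 : QOK q62136 := cut [] trivial (nd (nat_lit 206) (nat_lit 0) (cs (lf (nat_lit 24) (nat_lit 184)) (lf (nat_lit 42) (nat_lit 206)))) q62136 (by decide +kernel)
def q62152 : Q := Q.p (nat_lit 0x700000800000000008000000000000000000000000000000000000000000000) (nat_lit 0x140000000000000002000000000000000000000000000000000000000000000000000) (nat_lit 2)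
theorem c62152 : QOK q62152 := cut [] trivial (nd (nat_lit 205) (nat_lit 0) (cs (lf (nat_lit 41) (nat_lit 182)) (lf (nat_lit 29) (nat_lit 183)))) q62152 (by decide +kernel)
def q62159 : Q := Q.p (nat_lit 0x600003c00000000000000000000000000000000000000000000000000000000) (nat_lit 0x300001c00000000000000000000000000000000000000000000000000) (nat_lit 3)
theorem c62159 : QOK q62159 := cut [] trivial (nd (nat_lit 203) (nat_lit 0) (cs (lf (nat_lit 22) (nat_lit 203)) (nd (nat_lit 225) (nat_lit 0) (cs (lf (nat_lit 0) (nat_lit 224)) (lf (nat_lit 23) (nat_lit 202)))))) q62159 (by decide +kernel)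
def q62166 : Q := Q.p (nat_lit 0x780000000000000000000000000000000000000000000000000000000000000) (nat_lit 0x700000800000700000000000000000000000000000000000000000000000000000000) (nat_lit 4)
theorem c62166 : QOK q62166 := cut [] trivial (nd (nat_lit 273) (nat_lit 0) (cs (lf (nat_lit 4) (nat_lit 247)) (nd (nat_lit 225) (nat_lit 0) (cs (lf (nat_lit 23) (nat_lit 224)) (nd (nat_lit 251) (nat_lit 0) (cs (lf (nat_lit 22) (nat_lit 225)) (lf (nat_lit 5) (nat_lit 248)))))))) q62166 (by decide +kernel)
def q62169 : Q := Q.p (nat_lit 0x800002600001000010000040000000000000000000000000000000000000000000000) (nat_lit 0xe000020000000000100000000000000000000000000000000000000000) (nat_lit 3)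
theorem c62169 : QOK q62169 := cut [] trivial (nd (nat_lit 231) (nat_lit 0) (cs (lf (nat_lit 45) (nat_lit 186)) (nd (nat_lit 230) (nat_lit 0) (cs (lf (nat_lit 24) (nat_lit 164)) (lf (nat_lit 8) (nat_lit 227)))))) q62169 (by decide +kernel)
def q62170 : Q := Q.p (nat_lit 0x2000000000010000040000300000000000000000000000000000000000000000) (nat_lit 0xc000000000000000000000800000000000000000000000000000000000) (nat_lit 2)
theorem c62170 : QOK q62170 := cut [] trivial (nd (nat_lit 230) (nat_lit 0) (cs (lf (nat_lit 28) (nat_lit 164)) (lf (nat_lit 35) (nat_lit 142)))) q62170 (by decide +kernel)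
def q62222 : Q := Q.p (nat_lit 0x600001000000000050000300000000000000000000000000000000000000000) (nat_lit 0x8000040000280000e0000000000000000000000000000000000000000) (nat_lit 4)
theorem c62222 : QOK q62222 := cut [] trivial (nd (nat_lit 183) (nat_lit 0) (cs (lf (nat_lit 14) (nat_lit 161)) (nd (nat_lit 206) (nat_lit 0) (cs (lf (nat_lit 47) (nat_lit 161)) (nd (nat_lit 162) (nat_lit 0) (cs (lf (nat_lit 8) (nat_lit 161)) (lf (nat_lit 40) (nat_lit 161)))))))) q62222 (by decide +kernel)
def q62224 : Q := Q.p (nat_lit 0x200001000004000050000180000000000000000000000000000000000000000) (nat_lit 0x800000000080000060000080000000000000000000000000000000000) (nat_lit 3)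
theorem c62224 : QOK q62224 := cut [] trivial (nd (nat_lit 162) (nat_lit 0) (cs (lf (nat_lit 40) (nat_lit 161)) (nd (nat_lit 161) (nat_lit 0) (cs (lf (nat_lit 5) (nat_lit 161)) (lf (nat_lit 47) (nat_lit 139)))))) q62224 (by decide +kernel)
def q62243 : Q := Q.p (nat_lit 0x400001000000000078000000000000000000000000000000000000000000000) (nat_lit 0x800003000000000030000000000000000000000000000000000000000) (nat_lit 3)
theorem c62243 : QOK q62243 := cut [] trivial (nd (nat_lit 205) (nat_lit 0) (cs (lf (nat_lit 11) (nat_lit 182)) (nd (nat_lit 161) (nat_lit 0) (cs (lf (nat_lit 23) (nat_lit 160)) (lf (nat_lit 27) (nat_lit 161)))))) q62243 (by decide +kernel)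
def q62267 : Q := Q.p (nat_lit 0x58000180000000000000000000000000000000000000000) (nat_lit 0x84000260000000000000000000000000000000000000000) (nat_lit 3)
theorem c62267 : QOK q62267 := cut [] trivial (nd (nat_lit 162) (nat_lit 0) (cs (lf (nat_lit 6) (nat_lit 161)) (nd (nat_lit 161) (nat_lit 0) (cs (lf (nat_lit 5) (nat_lit 161)) (lf (nat_lit 11) (nat_lit 160)))))) q62267 (by decide +kernel)
def q62271 : Q := Q.p (nat_lit 0x18000180000000000000000000000000000000000000000) (nat_lit 0x26000060000000000000000000000000000000000000000) (nat_lit 3)
theorem c62271 : QOK q62271 := cut [] trivial (nd (nat_lit 182) (nat_lit 0) (cs (lf (nat_lit 15) (nat_lit 160)) (nd (nat_lit 162) (nat_lit 0) (cs (lf (nat_lit 12) (nat_lit 159)) (lf (nat_lit 9) (nat_lit 160)))))) q62271 (by decide +kernel)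
def q62272 : Q := Q.p (nat_lit 0x58000180000000000000000000000000000000000000000) (nat_lit 0x24000200000000000000000000000000000000000000000) (nat_lit 2)
theorem c62272 : QOK q62272 := cut [] trivial (nd (nat_lit 185) (nat_lit 0) (cs (lf (nat_lit 17) (nat_lit 161)) (lf (nat_lit 12) (nat_lit 160)))) q62272 (by decide +kernel)
def q62273 : Q := Q.p (nat_lit 0x58000180000000000000000000000000000000000000000) (nat_lit 0x20000240000000000000000000000000000000000000000) (nat_lit 2)
theorem c62273 : QOK q62273 := cut [] trivial (nd (nat_lit 165) (nat_lit 0) (cs (lf (nat_lit 9) (nat_lit 161)) (lf (nat_lit 14) (nat_lit 161)))) q62273 (by decide +kernel)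
def q62275 : Q := Q.p (nat_lit 0x70000180000000000000000000000000000000000000000) (nat_lit 0x8000600000000000000000000000000000000000000000) (nat_lit 2)
theorem c62275 : QOK q62275 := cut [] trivial (nd (nat_lit 165) (nat_lit 0) (cs (lf (nat_lit 12) (nat_lit 161)) (lf (nat_lit 6) (nat_lit 162)))) q62275 (by decide +kernel)
def q62300 : Q := Q.p (nat_lit 0x10000040000180000400000000000000000000000000000000000) (nat_lit 0x60003a00002000000000000000000000000000000) (nat_lit 4)
theorem c62300 : QOK q62300 := cut [] trivial (nd (nat_lit 143) (nat_lit 0) (cs (lf (nat_lit 35) (nat_lit 120)) (nd (nat_lit 144) (nat_lit 0) (cs (lf (nat_lit 6) (nat_lit 141)) (nd (nat_lit 162) (nat_lit 0) (cs (lf (nat_lit 12) (nat_lit 139)) (lf (nat_lit 9) (nat_lit 140)))))))) q62300 (by decide +kernel)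
def q62306 : Q := Q.p (nat_lit 0x900000600001000004000010000000000000000000000000000000000000000000000) (nat_lit 0x600000800000000000000000000000000000000000000000000000000000000000000) (nat_lit 2)
theorem c62306 : QOK q62306 := cut [] trivial (nd (nat_lit 273) (nat_lit 0) (cs (lf (nat_lit 28) (nat_lit 184)) (lf (nat_lit 19) (nat_lit 249)))) q62306 (by decide +kernel)
def q62311 : Q := Q.p (nat_lit 0x80000300000400001000000000000000000000000000000000000000000000000000000000) (nat_lit 0x20000040000000000800000000000000000000000000000000000000000000000000000000000000) (nat_lit 2)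
theorem c62311 : QOK q62311 := cut [] trivial (nd (nat_lit 317) (nat_lit 0) (cs (lf (nat_lit 45) (nat_lit 228)) (lf (nat_lit 27) (nat_lit 228)))) q62311 (by decide +kernel)
def q62319 : Q := Q.p (nat_lit 0x200000000000000018000300000100000000000000000000000000000000000) (nat_lit 0x8000020000000000c0000000000400000000000000000000000000000) (nat_lit 3)
theorem c62319 : QOK q62319 := cut [] trivial (nd (nat_lit 162) (nat_lit 0) (cs (lf (nat_lit 8) (nat_lit 161)) (nd (nat_lit 205) (nat_lit 0) (cs (lf (nat_lit 36) (nat_lit 117)) (lf (nat_lit 31) (nat_lit 161)))))) q62319 (by decide +kernel)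
def q62404 : Q := Q.p (nat_lit 0x800002600008000010000000000000000000000000000000000000000000000000000) (nat_lit 0x5000017000008000000000600001c0000400000000000000000000000000000000000000000) (nat_lit 7)
theorem c62404 : QOK q62404 := cut [] trivial (nd (nat_lit 209) (nat_lit 0) (cs (lf (nat_lit 47) (nat_lit 186)) (nd (nat_lit 188) (nat_lit 0) (cs (lf (nat_lit 34) (nat_lit 187)) (nd (nat_lit 166) (nat_lit 0) (cs (lf (nat_lit 33) (nat_lit 165)) (nd (nat_lit 276) (nat_lit 0) (cs (lf (nat_lit 29) (nat_lit 209)) (nd (nat_lit 274) (nat_lit 0) (cs (lf (nat_lit 41) (nat_lit 208)) (nd (nat_lit 273) (nat_lit 0) (cs (lf (nat_lit 22) (nat_lit 250)) (lf (nat_lit 21) (nat_lit 249)))))))))))))) q62404 (by decide +kernel)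
def q62405 : Q := Q.p (nat_lit 0x80000300000400001000000000000000000000000000000000000000000000000000000000) (nat_lit 0x8000020000040000000000000000000000000000000000000000000000000000000000000000000000000) (nat_lit 2)
theorem c62405 : QOK q62405 := cut [] trivial (nd (nat_lit 317) (nat_lit 0) (cs (lf (nat_lit 42) (nat_lit 250)) (lf (nat_lit 27) (nat_lit 228)))) q62405 (by decide +kernel)
def q62415 : Q := Q.p (nat_lit 0x80000200000400003000000000000000000000000000000000000000000000000000000000) (nat_lit 0x100000800000000004000000000000000000000000000000000000000000000000000) (nat_lit 2)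
theorem c62415 : QOK q62415 := cut [] trivial (nd (nat_lit 206) (nat_lit 0) (cs (lf (nat_lit 27) (nat_lit 206)) (lf (nat_lit 44) (nat_lit 206)))) q62415 (by decide +kernel)
def q62419 : Q := Q.p (nat_lit 0x80000200000400001000000000000000000000000000000000000000000000000000000000) (nat_lit 0x8000020000040000100000800000000000000000000000000000000000000000000000000000000000000) (nat_lit 3)
theorem c62419 : QOK q62419 := cut [] trivial (nd (nat_lit 317) (nat_lit 0) (cs (lf (nat_lit 45) (nat_lit 228)) (nd (nat_lit 272) (nat_lit 0) (cs (lf (nat_lit 42) (nat_lit 250)) (lf (nat_lit 27) (nat_lit 228)))))) q62419 (by decide +kernel)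
def q62434 : Q := Q.p (nat_lit 0x40000900000600001000000000000000000000000000000000000000000000000000000000) (nat_lit 0x20000080000600000000000000004000000000000000000000000000000000000000000000000000) (nat_lit 3)
theorem c62434 : QOK q62434 := cut [] trivial (nd (nat_lit 295) (nat_lit 0) (cs (lf (nat_lit 29) (nat_lit 228)) (nd (nat_lit 273) (nat_lit 0) (cs (lf (nat_lit 24) (nat_lit 206)) (lf (nat_lit 19) (nat_lit 249)))))) q62434 (by decide +kernel)
def q62442 : Q := Q.p (nat_lit 0x70000040000700000400000000000000000000000000000000000000000000000000000000) (nat_lit 0x2000088000700000800000000000000000000000000000000000000000000000000000000000000) (nat_lit 4)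
theorem c62442 : QOK q62442 := cut [] trivial (nd (nat_lit 291) (nat_lit 0) (cs (lf (nat_lit 41) (nat_lit 225)) (nd (nat_lit 273) (nat_lit 0) (cs (lf (nat_lit 16) (nat_lit 269)) (nd (nat_lit 274) (nat_lit 0) (cs (lf (nat_lit 3) (nat_lit 248)) (lf (nat_lit 15) (nat_lit 270)))))))) q62442 (by decide +kernel)
def q62472 : Q := Q.p (nat_lit 0x700001c00000000000000000000000000000000000000000000000000000000) (nat_lit 0x3e0000f80003700000c0000000001000004000000000000000000000000000000000000000000000) (nat_lit 10)
theorem c62472 : QOK q62472 := cut [] trivial (nd (nat_lit 247) (nat_lit 0) (cs (lf (nat_lit 12) (nat_lit 224)) (nd (nat_lit 272) (nat_lit 0) (cs (lf (nat_lit 5) (nat_lit 247)) (nd (nat_lit 294) (nat_lit 0) (cs (lf (nat_lit 42) (nat_lit 227)) (nd (nat_lit 269) (nat_lit 0) (cs (lf (nat_lit 11) (nat_lit 246)) (nd (nat_lit 295) (nat_lit 0) (cs (lf (nat_lit 29) (nat_lit 228)) (nd (nat_lit 182) (nat_lit 0) (cs (lf (nat_lit 37) (nat_lit 181)) (nd (nat_lit 313) (nat_lit 0) (cs (lf (nat_lit 31) (nat_lit 225)) (nd (nat_lit 293) (nat_lit 0) (cs (lf (nat_lit 41) (nat_lit 227)) (nd (nat_lit 292)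 (nat_lit 0) (cs (lf (nat_lit 10) (nat_lit 291)) (lf (nat_lit 22) (nat_lit 269)))))))))))))))))))) q62472 (by decide +kernel)
def q62501 : Q := Q.p (nat_lit 0x300000600001800000000000000000000000000000000000000000000000000000000) (nat_lit 0x300000c0000000000000000000004000000000000000000000000000000000000000000000000000) (nat_lit 3)
theorem c62501 : QOK q62501 := cut [] trivial (nd (nat_lit 295) (nat_lit 0) (cs (lf (nat_lit 24) (nat_lit 206)) (nd (nat_lit 294) (nat_lit 0) (cs (lf (nat_lit 42) (nat_lit 227)) (lf (nat_lit 29) (nat_lit 228)))))) q62501 (by decide +kernel)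
def q62504 : Q := Q.p (nat_lit 0x600001800004000008000000000000000000000000000000000000000000000) (nat_lit 0x10000060000000000000000000000000000000000000000) (nat_lit 2)
theorem c62504 : QOK q62504 := cut [] trivial (nd (nat_lit 184) (nat_lit 0) (cs (lf (nat_lit 47) (nat_lit 161)) (lf (nat_lit 36) (nat_lit 161)))) q62504 (by decide +kernel)
def q62529 : Q := Q.p (nat_lit 0x600001800000000018000000000000000000000000000000000000000000000) (nat_lit 0x4000000000060000000000000000000000000000000000000000) (nat_lit 2)
theorem c62529 : QOK q62529 := cut [] trivial (nd (nat_lit 206) (nat_lit 0) (cs (lf (nat_lit 47) (nat_lit 161)) (lf (nat_lit 36) (nat_lit 161)))) q62529 (by decide +kernel)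
def q62556 : Q := Q.p (nat_lit 0x60000180000300000c000000000000000000000000000000000000000000000) (nat_lit 0x40000700001c0000000000000000000000000000000000000000) (nat_lit 4)
theorem c62556 : QOK q62556 := cut [] trivial (nd (nat_lit 184) (nat_lit 0) (cs (lf (nat_lit 35) (nat_lit 161)) (nd (nat_lit 185) (nat_lit 0) (cs (lf (nat_lit 6) (nat_lit 182)) (nd (nat_lit 163) (nat_lit 0) (cs (lf (nat_lit 17) (nat_lit 160)) (lf (nat_lit 32) (nat_lit 162)))))))) q62556 (by decide +kernel)
def q62563 : Q := Q.p (nat_lit 0x40000300000c00000000000000000000000000000000000000000000000000000000) (nat_lit 0x4000010000000000000000000002000000000000000000000000000000000000000000000000000) (nat_lit 2)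
theorem c62563 : QOK q62563 := cut [] trivial (nd (nat_lit 292) (nat_lit 0) (cs (lf (nat_lit 30) (nat_lit 226)) (lf (nat_lit 35) (nat_lit 204)))) q62563 (by decide +kernel)
def q62564 : Q := Q.p (nat_lit 0x38000060000300000000000000000000000000000000000000000000000000000000000000) (nat_lit 0x40000018000000000000000000000000000000000000000000000000000000000000000000) (nat_lit 2)
theorem c62564 : QOK q62564 := cut [] trivial (nd (nat_lit 268) (nat_lit 0) (cs (lf (nat_lit 12) (nat_lit 245)) (lf (nat_lit 18) (nat_lit 268)))) q62564 (by decide +kernel)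
def q62571 : Q := Q.p (nat_lit 0x4000010000058000000000000000000000000000000000000000000000) (nat_lit 0x20000024000380000200000000000000000000000000000000000) (nat_lit 4)
theorem c62571 : QOK q62571 := cut [] trivial (nd (nat_lit 185) (nat_lit 0) (cs (lf (nat_lit 5) (nat_lit 183)) (nd (nat_lit 164) (nat_lit 0) (cs (lf (nat_lit 17) (nat_lit 161)) (nd (nat_lit 163) (nat_lit 0) (cs (lf (nat_lit 47) (nat_lit 141)) (lf (nat_lit 12) (nat_lit 160)))))))) q62571 (by decide +kernel)
def q62614 : Q := Q.p (nat_lit 0x300001c00001000000000000000000000000000000000000000000000000000) (nat_lit 0x6000000800000000000000000000000000000000000000000000000000) (nat_lit 2)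
theorem c62614 : QOK q62614 := cut [] trivial (nd (nat_lit 229) (nat_lit 0) (cs (lf (nat_lit 23) (nat_lit 203)) (lf (nat_lit 6) (nat_lit 226)))) q62614 (by decide +kernel)
def q62615 : Q := Q.p (nat_lit 0x40000700000400001000000000000000000000000000000000000000000000000000) (nat_lit 0x8000020000800000000000000000000000000000000000000000000000000000000000000) (nat_lit 2)
theorem c62615 : QOK q62615 := cut [] trivial (nd (nat_lit 269) (nat_lit 0) (cs (lf (nat_lit 41) (nat_lit 203)) (lf (nat_lit 6) (nat_lit 247)))) q62615 (by decide +kernel)
def q62666 : Q := Q.p (nat_lit 0x300001c00031000040000000000000000000000000000000000000000000000) (nat_lit 0x400003e0000f8000000000000000000000000000000000000000) (nat_lit 6)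
theorem c62666 : QOK q62666 := cut [] trivial (nd (nat_lit 182) (nat_lit 0) (cs (lf (nat_lit 24) (nat_lit 160)) (nd (nat_lit 181) (nat_lit 0) (cs (lf (nat_lit 47) (nat_lit 159)) (nd (nat_lit 183) (nat_lit 0) (cs (lf (nat_lit 35) (nat_lit 160)) (nd (nat_lit 184) (nat_lit 0) (cs (lf (nat_lit 2) (nat_lit 183)) (nd (nat_lit 162) (nat_lit 0) (cs (lf (nat_lit 38) (nat_lit 161)) (lf (nat_lit 17) (nat_lit 159)))))))))))) q62666 (by decide +kernel)
def q62698 : Q := Q.p (nat_lit 0x200003800010000000000000000000000000000000000000000000000000000) (nat_lit 0x100004000020000000000000000000000000000000000000000000000000000) (nat_lit 2)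
theorem c62698 : QOK q62698 := cut [] trivial (nd (nat_lit 230) (nat_lit 0) (cs (lf (nat_lit 17) (nat_lit 205)) (lf (nat_lit 11) (nat_lit 226)))) q62698 (by decide +kernel)
def q62707 : Q := Q.p (nat_lit 0x40000300000c00001000000000000000000000000000000000000000000000000000) (nat_lit 0x6000018000020000000000000000000000000000000000000000000000000000000000000000000) (nat_lit 3)
theorem c62707 : QOK q62707 := cut [] trivial (nd (nat_lit 291) (nat_lit 0) (cs (lf (nat_lit 40) (nat_lit 203)) (nd (nat_lit 292) (nat_lit 0) (cs (lf (nat_lit 41) (nat_lit 225)) (lf (nat_lit 30) (nat_lit 226)))))) q62707 (by decide +kernel)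
def q62763 : Q := Q.p (nat_lit 0x40000000000f00003000000000000000000000000000000000000000000000000000000000) (nat_lit 0x30000080000600000000000000000000000000000000000000000000000000000000000000000000) (nat_lit 3)
theorem c62763 : QOK q62763 := cut [] trivial (nd (nat_lit 273) (nat_lit 0) (cs (lf (nat_lit 5) (nat_lit 248)) (nd (nat_lit 295) (nat_lit 0) (cs (lf (nat_lit 42) (nat_lit 228)) (lf (nat_lit 41) (nat_lit 228)))))) q62763 (by decide +kernel)
def q62815 : Q := Q.p (nat_lit 0x40000100000600009000000000000000000000000000000000000000000000000000000000) (nat_lit 0x2000018000020000000000800006000000000000000000000000000000000000000000000000000000000) (nat_lit 4)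
theorem c62815 : QOK q62815 := cut [] trivial (nd (nat_lit 315) (nat_lit 0) (cs (lf (nat_lit 40) (nat_lit 227)) (nd (nat_lit 229) (nat_lit 0) (cs (lf (nat_lit 7) (nat_lit 227)) (nd (nat_lit 316) (nat_lit 0) (cs (lf (nat_lit 41) (nat_lit 249)) (lf (nat_lit 34) (nat_lit 228)))))))) q62815 (by decide +kernel)
def q62825 : Q := Q.p (nat_lit 0x70000040000700000000000000000000000000000000000000000000000000000000000000) (nat_lit 0x80000020000800000000000000000000000000000000000000000000000000000000000000) (nat_lit 2)
theorem c62825 : QOK q62825 := cut [] trivial (nd (nat_lit 269) (nat_lit 0) (cs (lf (nat_lit 6) (nat_lit 247)) (lf (nat_lit 18) (nat_lit 269)))) q62825 (by decide +kernel)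
def q62842 : Q := Q.p (nat_lit 0x400000e000004000000000000000000000000000000000000000000000000000000000000000000000000) (nat_lit 0x2000001000002000000000000000000000000000000000000000000000000000000000000000000000000) (nat_lit 2)
theorem c62842 : QOK q62842 := cut [] trivial (nd (nat_lit 312) (nat_lit 0) (cs (lf (nat_lit 23) (nat_lit 289)) (lf (nat_lit 4) (nat_lit 312)))) q62842 (by decide +kernel)
def q62848 : Q := Q.p (nat_lit 0x1e000000000000000000000000000000000000000000000000000000000000000000000000000000) (nat_lit 0x1dc00020000000000000000000000000000000000000000000000000000000000000000000000000000000) (nat_lit 4)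
theorem c62848 : QOK q62848 := cut [] trivial (nd (nat_lit 339) (nat_lit 0) (cs (lf (nat_lit 4) (nat_lit 313)) (nd (nat_lit 335) (nat_lit 0) (cs (lf (nat_lit 11) (nat_lit 312)) (nd (nat_lit 317) (nat_lit 0) (cs (lf (nat_lit 10) (nat_lit 313)) (lf (nat_lit 5) (nat_lit 314)))))))) q62848 (by decide +kernel)
def q62887 : Q := Q.p (nat_lit 0x40000e000004000000000000000000000000000000000000000000000000000000000000000000000000) (nat_lit 0x200001000002000000000000000000000000000000000000000000000000000000000000000000000000) (nat_lit 2)
theorem c62887 : QOK q62887 := cut [] trivial (nd (nat_lit 312) (nat_lit 0) (cs (lf (nat_lit 23) (nat_lit 289)) (lf (nat_lit 11) (nat_lit 311)))) q62887 (by decide +kernel)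
def q62892 : Q := Q.p (nat_lit 0x1f000000000000000000000000000000000000000000000000000000000000000000000000000000) (nat_lit 0xe000000000000000000000000000000000000000000000000000000000000000000000000000000000000) (nat_lit 2)
theorem c62892 : QOK q62892 := cut [] trivial (nd (nat_lit 338) (nat_lit 0) (cs (lf (nat_lit 5) (nat_lit 313)) (lf (nat_lit 4) (nat_lit 312)))) q62892 (by decide +kernel)
def q62914 : Q := Q.p (nat_lit 0x40000700000400000000000000000000000000000000000000000000000000000000) (nat_lit 0x20000800000200000000000000000000000000000000000000000000000000000000) (nat_lit 2)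
theorem c62914 : QOK q62914 := cut [] trivial (nd (nat_lit 251) (nat_lit 0) (cs (lf (nat_lit 11) (nat_lit 247)) (lf (nat_lit 23) (nat_lit 225)))) q62914 (by decide +kernel)
def q62938 : Q := Q.p (nat_lit 0x80000200000c00002000000000000000000000000000000000000000000000000000000000) (nat_lit 0x20000000000000000000001000004000000000000000000000000000000000000000000000000000) (nat_lit 2)
theorem c62938 : QOK q62938 := cut [] trivial (nd (nat_lit 228) (nat_lit 0) (cs (lf (nat_lit 47) (nat_lit 206)) (lf (nat_lit 42) (nat_lit 228)))) q62938 (by decide +kernel)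
def q62958 : Q := Q.p (nat_lit 0x10000000000200000c00002000000000000000000000000000000000000000000000000000000000) (nat_lit 0xc0000100000000000000000000000000000000000000000000000000000000000000000000) (nat_lit 2)
theorem c62958 : QOK q62958 := cut [] trivial (nd (nat_lit 294) (nat_lit 0) (cs (lf (nat_lit 39) (nat_lit 228)) (lf (nat_lit 32) (nat_lit 228)))) q62958 (by decide +kernel)
def q62959 : Q := Q.p (nat_lit 0x1f000000000000000c00002000000000000000000000000000000000000000000000000000000000) (nat_lit 0x60000100000000000000000000000000000000000000000000000000000000000000000000) (nat_lit 2)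
theorem c62959 : QOK q62959 := cut [] trivial (nd (nat_lit 294) (nat_lit 0) (cs (lf (nat_lit 16) (nat_lit 290)) (lf (nat_lit 32) (nat_lit 228)))) q62959 (by decide +kernel)
def q62970 : Q := Q.p (nat_lit 0xf800000000000000000000000000000000000000000000000000000000000000000000000000000) (nat_lit 0x7000000000000000000000000000000000000000000000000000000000000000000000000) (nat_lit 2)
theorem c62970 : QOK q62970 := cut [] trivial (nd (nat_lit 289) (nat_lit 0) (cs (lf (nat_lit 23) (nat_lit 288)) (lf (nat_lit 22) (nat_lit 289)))) q62970 (by decide +kernel)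
def q63048 : Q := Q.p (nat_lit 0x800003000004000010000000000000000000000000000000000000000000000000000000000000000000) (nat_lit 0x80000200000400000000000000000000000000000000000000000000000000000000000000000000000000000000000) (nat_lit 2)
theorem c63048 : QOK q63048 := cut [] trivial (nd (nat_lit 357) (nat_lit 0) (cs (lf (nat_lit 42) (nat_lit 290)) (lf (nat_lit 27) (nat_lit 268)))) q63048 (by decide +kernel)
def q63071 : Q := Q.p (nat_lit 0x1800003800000000000000000000000000000000000000000000000000000000000000000000000000000) (nat_lit 0x6000004000000000000000000000000000000000000000000000000000000000000000000000000000000) (nat_lit 2)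
theorem c63071 : QOK q63071 := cut [] trivial (nd (nat_lit 337) (nat_lit 0) (cs (lf (nat_lit 18) (nat_lit 312)) (lf (nat_lit 3) (nat_lit 311)))) q63071 (by decide +kernel)
def q63097 : Q := Q.p (nat_lit 0x1800007800000000000000000000000000000000000000000000000000000000000000000000000000000) (nat_lit 0x7000380000e0000000000000000000000000000000000000000000000000000000000000000000000000) (nat_lit 5)
theorem c63097 : QOK q63097 := cut [] trivial (nd (nat_lit 333) (nat_lit 0) (cs (lf (nat_lit 11) (nat_lit 310)) (nd (nat_lit 315) (nat_lit 0) (cs (lf (nat_lit 13) (nat_lit 311)) (nd (nat_lit 316) (nat_lit 0) (cs (lf (nat_lit 6) (nat_lit 313)) (nd (nat_lit 294) (nat_lit 0) (cs (lf (nat_lit 17) (nat_lit 291)) (lf (nat_lit 16) (nat_lit 290)))))))))) q63097 (by decide +kernel)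
def q63104 : Q := Q.p (nat_lit 0x1800007800000000000000000000000000000000000000000000000000000000000000000000000000000) (nat_lit 0x380000e7000000000000000000000000000000000000000000000000000000000000000000000000) (nat_lit 5)
theorem c63104 : QOK q63104 := cut [] trivial (nd (nat_lit 289) (nat_lit 0) (cs (lf (nat_lit 23) (nat_lit 288)) (nd (nat_lit 315) (nat_lit 0) (cs (lf (nat_lit 22) (nat_lit 289)) (nd (nat_lit 294) (nat_lit 0) (cs (lf (nat_lit 16) (nat_lit 290)) (nd (nat_lit 316) (nat_lit 0) (cs (lf (nat_lit 17) (nat_lit 291)) (lf (nat_lit 6) (nat_lit 313)))))))))) q63104 (by decide +kernel)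
def q63108 : Q := Q.p (nat_lit 0x80000600001800000000000000000000000000000000000000000000000000000000000000000000000000000) (nat_lit 0x8000020000000000000000000004000000000000000000000000000000000000000000000000000000000000000000000000) (nat_lit 2)
theorem c63108 : QOK q63108 := cut [] trivial (nd (nat_lit 377) (nat_lit 0) (cs (lf (nat_lit 35) (nat_lit 289)) (lf (nat_lit 30) (nat_lit 311)))) q63108 (by decide +kernel)
def q63124 : Q := Q.p (nat_lit 0x1800003800000000000000000000000000000000000000000000000000000000000000000000000000000) (nat_lit 0x6400000000000000000000000000000000000000000000000000000000000000000000000000000000000) (nat_lit 2)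
theorem c63124 : QOK q63124 := cut [] trivial (nd (nat_lit 337) (nat_lit 0) (cs (lf (nat_lit 18) (nat_lit 312)) (lf (nat_lit 21) (nat_lit 311)))) q63124 (by decide +kernel)
def q63171 : Q := Q.p (nat_lit 0x400001800002000008000000000000000000000000000000000000000000000000000000000000000000) (nat_lit 0x40000100000200000000000000000000000000000000000000000000000000000000000000000000000000000000000) (nat_lit 2)
theorem c63171 : QOK q63171 := cut [] trivial (nd (nat_lit 356) (nat_lit 0) (cs (lf (nat_lit 42) (nat_lit 289)) (lf (nat_lit 27) (nat_lit 267)))) q63171 (by decide +kernel)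
def q63271 : Q := Q.p (nat_lit 0x200000800002000008000000000000000000000000000000000000000000000000000000000000000000000000) (nat_lit 0x500001c0000500000000000000000000000000000000000000000000000000000000000000000000000000000000000000000) (nat_lit 4)
theorem c63271 : QOK q63271 := cut [] trivial (nd (nat_lit 378) (nat_lit 0) (cs (lf (nat_lit 40) (nat_lit 290)) (nd (nat_lit 380) (nat_lit 0) (cs (lf (nat_lit 28) (nat_lit 291)) (nd (nat_lit 379) (nat_lit 0) (cs (lf (nat_lit 41) (nat_lit 312)) (lf (nat_lit 29) (nat_lit 313)))))))) q63271 (by decide +kernel)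
def q63279 : Q := Q.p (nat_lit 0x7000030000000000000000000000000000000000000000000000000000000000000000000000000) (nat_lit 0xc8000000000000000000000000000000000000000000000000000000000000000000000000) (nat_lit 2)
theorem c63279 : QOK q63279 := cut [] trivial (nd (nat_lit 294) (nat_lit 0) (cs (lf (nat_lit 6) (nat_lit 291)) (lf (nat_lit 9) (nat_lit 290)))) q63279 (by decide +kernel)
def q63299 : Q := Q.p (nat_lit 0x40000300000400001000000000000000000000000000000000000000000000000000) (nat_lit 0x20000080000000000000000000004000000000000000000000000000000000000000000000) (nat_lit 2)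
theorem c63299 : QOK q63299 := cut [] trivial (nd (nat_lit 271) (nat_lit 0) (cs (lf (nat_lit 29) (nat_lit 204)) (lf (nat_lit 24) (nat_lit 182)))) q63299 (by decide +kernel)
def q63339 : Q := Q.p (nat_lit 0xe000018000000000000000000000000000000000000000000000000000000000000000000000000) (nat_lit 0x10000006000000000000000000000000000000000000000000000000000000000000000000000000) (nat_lit 2)
theorem c63339 : QOK q63339 := cut [] trivial (nd (nat_lit 290) (nat_lit 0) (cs (lf (nat_lit 18) (nat_lit 290)) (lf (nat_lit 0) (nat_lit 289)))) q63339 (by decide +kernel)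
def q63347 : Q := Q.p (nat_lit 0x8000030000040000100000000000000000000000000000000000000000000000000000000000000) (nat_lit 0x800002000004000000000000000000000000000000000000000000000000000000000000000000000000000000) (nat_lit 2)
theorem c63347 : QOK q63347 := cut [] trivial (nd (nat_lit 337) (nat_lit 0) (cs (lf (nat_lit 42) (nat_lit 270)) (lf (nat_lit 27) (nat_lit 248)))) q63347 (by decide +kernel)
def q63371 : Q := Q.p (nat_lit 0x1c0000c0000000000000000000000000000000000000000000000000000000000000000000) (nat_lit 0x20000300000000000000000000000000000000000000000000000000000000000000000000) (nat_lit 2)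
theorem c63371 : QOK q63371 := cut [] trivial (nd (nat_lit 272) (nat_lit 0) (cs (lf (nat_lit 15) (nat_lit 268)) (lf (nat_lit 6) (nat_lit 269)))) q63371 (by decide +kernel)
def q63395 : Q := Q.p (nat_lit 0x50000700000000000000000000000000000000000000000000000000000000000000) (nat_lit 0xa8000000000000000000000000000000000000000000000000000000000000000000) (nat_lit 2)
theorem c63395 : QOK q63395 := cut [] trivial (nd (nat_lit 269) (nat_lit 0) (cs (lf (nat_lit 12) (nat_lit 245)) (lf (nat_lit 15) (nat_lit 246)))) q63395 (by decide +kernel)
def q63396 : Q := Q.p (nat_lit 0x6000038000000000000000000000000000000000000000000000000000000000000000000000000) (nat_lit 0x10000c0000000000000000000000000000000000000000000000000000000000000000000000000) (nat_lit 2)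
theorem c63396 : QOK q63396 := cut [] trivial (nd (nat_lit 294) (nat_lit 0) (cs (lf (nat_lit 11) (nat_lit 290)) (lf (nat_lit 6) (nat_lit 291)))) q63396 (by decide +kernel)
def q63407 : Q := Q.p (nat_lit 0x1c000018000000000000000000000000000000000000000000000000000000000000000000) (nat_lit 0x2000006000000000000000000000000000000000000000000000000000000000000000000) (nat_lit 2)
theorem c63407 : QOK q63407 := cut [] trivial (nd (nat_lit 266) (nat_lit 0) (cs (lf (nat_lit 0) (nat_lit 265)) (lf (nat_lit 21) (nat_lit 266)))) q63407 (by decide +kernel)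
def q63439 : Q := Q.p (nat_lit 0x10000078000100000200000000000000000000000000000000000000000000000000000000000000) (nat_lit 0x4000000000004000080000000000000000000000000000000000000000000000000000000000000000000) (nat_lit 2)
theorem c63439 : QOK q63439 := cut [] trivial (nd (nat_lit 271) (nat_lit 0) (cs (lf (nat_lit 12) (nat_lit 268)) (lf (nat_lit 42) (nat_lit 249)))) q63439 (by decide +kernel)
def q63460 : Q := Q.p (nat_lit 0x3e000000000000000000000000000000000000000000000000000000000000000000000000) (nat_lit 0x1c00000000000000000000000000000000000000000000000000000000000000000000000000000) (nat_lit 2)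
theorem c63460 : QOK q63460 := cut [] trivial (nd (nat_lit 311) (nat_lit 0) (cs (lf (nat_lit 11) (nat_lit 288)) (lf (nat_lit 10) (nat_lit 289)))) q63460 (by decide +kernel)
def q63491 : Q := Q.p (nat_lit 0xa00000700000000000000000000000000000000000000000000000000000000000000) (nat_lit 0x500000080000000000000000000000000000000000000000000000000000000000000) (nat_lit 2)
theorem c63491 : QOK q63491 := cut [] trivial (nd (nat_lit 272) (nat_lit 0) (cs (lf (nat_lit 0) (nat_lit 247)) (lf (nat_lit 19) (nat_lit 249)))) q63491 (by decide +kernel)
def q63493 : Q := Q.p (nat_lit 0x3e0000000000000000000000000000000000000000000000000000000000000) (nat_lit 0x1c0000000000000000000000000000000000000000000000000000000000000000000) (nat_lit 2)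
theorem c63493 : QOK q63493 := cut [] trivial (nd (nat_lit 271) (nat_lit 0) (cs (lf (nat_lit 5) (nat_lit 246)) (lf (nat_lit 4) (nat_lit 245)))) q63493 (by decide +kernel)
def q63509 : Q := Q.p (nat_lit 0x780000000000000000000000000000000000000000000000000000000000000) (nat_lit 0x70000800007000000000000000000000000000000000000000000000000000000000) (nat_lit 4)
theorem c63509 : QOK q63509 := cut [] trivial (nd (nat_lit 229) (nat_lit 0) (cs (lf (nat_lit 16) (nat_lit 225)) (nd (nat_lit 269) (nat_lit 0) (cs (lf (nat_lit 11) (nat_lit 246)) (nd (nat_lit 251) (nat_lit 0) (cs (lf (nat_lit 10) (nat_lit 247)) (lf (nat_lit 17) (nat_lit 226)))))))) q63509 (by decide +kernel)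
def q63554 : Q := Q.p (nat_lit 0x10000040000300000400000000000000000000000000000000000000000000000000000000) (nat_lit 0x200000800008000000000080000380000e000008000000000000000000000000000000000000000) (nat_lit 6)
theorem c63554 : QOK q63554 := cut [] trivial (nd (nat_lit 205) (nat_lit 0) (cs (lf (nat_lit 34) (nat_lit 204)) (nd (nat_lit 204) (nat_lit 0) (cs (lf (nat_lit 35) (nat_lit 182)) (nd (nat_lit 291) (nat_lit 0) (cs (lf (nat_lit 41) (nat_lit 225)) (nd (nat_lit 181) (nat_lit 0) (cs (lf (nat_lit 46) (nat_lit 181)) (nd (nat_lit 182) (nat_lit 0) (cs (lf (nat_lit 47) (nat_lit 159)) (lf (nat_lit 29) (nat_lit 182)))))))))))) q63554 (by decide +kernel)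
def q63563 : Q := Q.p (nat_lit 0xf0000000000400001000000000000000000000000000000000000000000000000000000000) (nat_lit 0x60000000000600000800000000000000000000000000000000000000000000000000000000000000) (nat_lit 3)
theorem c63563 : QOK q63563 := cut [] trivial (nd (nat_lit 273) (nat_lit 0) (cs (lf (nat_lit 17) (nat_lit 270)) (nd (nat_lit 317) (nat_lit 0) (cs (lf (nat_lit 45) (nat_lit 228)) (lf (nat_lit 5) (nat_lit 292)))))) q63563 (by decide +kernel)
def q63604 : Q := Q.p (nat_lit 0x600001800002000010000000000000000000000000000000000000000000000) (nat_lit 0x8000060000000000000000000000000000000000000000) (nat_lit 2)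
theorem c63604 : QOK q63604 := cut [] trivial (nd (nat_lit 183) (nat_lit 0) (cs (lf (nat_lit 24) (nat_lit 161)) (lf (nat_lit 35) (nat_lit 161)))) q63604 (by decide +kernel)
def q63612 : Q := Q.p (nat_lit 0x700001800004000018000000000000000000000000000000000000000000000) (nat_lit 0x24000080000060000300000700001c000000000000000000000000000000000000000) (nat_lit 7)
theorem c63612 : QOK q63612 := cut [] trivial (nd (nat_lit 205) (nat_lit 0) (cs (lf (nat_lit 41) (nat_lit 182)) (nd (nat_lit 182) (nat_lit 0) (cs (lf (nat_lit 47) (nat_lit 160)) (nd (nat_lit 251) (nat_lit 0) (cs (lf (nat_lit 29) (nat_lit 184)) (nd (nat_lit 181) (nat_lit 0) (cs (lf (nat_lit 0) (nat_lit 180)) (nd (nat_lit 226) (nat_lit 0) (cs (lf (nat_lit 23) (nat_lit 225)) (nd (nat_lit 159) (nat_lit 0) (cs (lf (nat_lit 23) (nat_lit 158)) (lf (nat_lit 44) (nat_lit 159)))))))))))))) q63612 (by decide +kernel)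
def q63625 : Q := Q.p (nat_lit 0x7c0000000000000000000000000000000000000000000000000000000000000) (nat_lit 0x1c000830000e00000000000000000000000000000000000000000000000000000000) (nat_lit 5)
theorem c63625 : QOK q63625 := cut [] trivial (nd (nat_lit 267) (nat_lit 0) (cs (lf (nat_lit 10) (nat_lit 245)) (nd (nat_lit 245) (nat_lit 0) (cs (lf (nat_lit 11) (nat_lit 244)) (nd (nat_lit 226) (nat_lit 0) (cs (lf (nat_lit 17) (nat_lit 223)) (nd (nat_lit 225) (nat_lit 0) (cs (lf (nat_lit 18) (nat_lit 225)) (lf (nat_lit 12) (nat_lit 222)))))))))) q63625 (by decide +kernel)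
def q63689 : Q := Q.p (nat_lit 0x20000180000200001000000000000000000000000000000000000000000000000000) (nat_lit 0x10000040000000000000000800006000000000000000000000000000000000000000000000) (nat_lit 3)
theorem c63689 : QOK q63689 := cut [] trivial (nd (nat_lit 203) (nat_lit 0) (cs (lf (nat_lit 35) (nat_lit 181)) (nd (nat_lit 270) (nat_lit 0) (cs (lf (nat_lit 24) (nat_lit 181)) (lf (nat_lit 29) (nat_lit 203)))))) q63689 (by decide +kernel)
def q63703 : Q := Q.p (nat_lit 0x20000780000000001000000000000000000000000000000000000000000000000000) (nat_lit 0x8000000000000000700000000004000000000000000000000000000000000000000000000) (nat_lit 3)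
theorem c63703 : QOK q63703 := cut [] trivial (nd (nat_lit 225) (nat_lit 0) (cs (lf (nat_lit 23) (nat_lit 224)) (nd (nat_lit 226) (nat_lit 0) (cs (lf (nat_lit 36) (nat_lit 181)) (lf (nat_lit 30) (nat_lit 203)))))) q63703 (by decide +kernel)
def q63708 : Q := Q.p (nat_lit 0x900000700000000000000000000000000000000000000000000000000000000000000) (nat_lit 0x600000080000000000000000000000000000000000000000000000000000000000000) (nat_lit 2)
theorem c63708 : QOK q63708 := cut [] trivial (nd (nat_lit 273) (nat_lit 0) (cs (lf (nat_lit 0) (nat_lit 247)) (lf (nat_lit 19) (nat_lit 249)))) q63708 (by decide +kernel)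
def q63759 : Q := Q.p (nat_lit 0x700000500000000000000000000000000000000000000000000000000000000) (nat_lit 0xa80000000000000000000000000000000000000000000000000000000) (nat_lit 2)
theorem c63759 : QOK q63759 := cut [] trivial (nd (nat_lit 225) (nat_lit 0) (cs (lf (nat_lit 3) (nat_lit 224)) (lf (nat_lit 0) (nat_lit 223)))) q63759 (by decide +kernel)
def q63765 : Q := Q.p (nat_lit 0x700000500000000000000000000000000000000000000000000000000000000) (nat_lit 0x80000a00000000000000000000000000000000000000000000000000000000) (nat_lit 2)
theorem c63765 : QOK q63765 := cut [] trivial (nd (nat_lit 225) (nat_lit 0) (cs (lf (nat_lit 21) (nat_lit 224)) (lf (nat_lit 3) (nat_lit 224)))) q63765 (by decide +kernel)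
def q63766 : Q := Q.p (nat_lit 0x700000500000000000000000000000000000000000000000000000000000000) (nat_lit 0x80000280000000000000000000000000000000000000000000000000000000) (nat_lit 2)
theorem c63766 : QOK q63766 := cut [] trivial (nd (nat_lit 225) (nat_lit 0) (cs (lf (nat_lit 21) (nat_lit 224)) (lf (nat_lit 0) (nat_lit 223)))) q63766 (by decide +kernel)
def q63779 : Q := Q.p (nat_lit 0x220000700000000000000000000000000000000000000000000000000000000000000) (nat_lit 0x440000800000000000000000000000000000000000000000000000000000000000000) (nat_lit 2)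
theorem c63779 : QOK q63779 := cut [] trivial (nd (nat_lit 251) (nat_lit 0) (cs (lf (nat_lit 10) (nat_lit 247)) (lf (nat_lit 5) (nat_lit 248)))) q63779 (by decide +kernel)
def q63791 : Q := Q.p (nat_lit 0x50000340000000000000000000000000000000000000000000000000000000000000000000) (nat_lit 0x28000080000000000000000000000000000000000000000000000000000000000000000000) (nat_lit 2)
theorem c63791 : QOK q63791 := cut [] trivial (nd (nat_lit 291) (nat_lit 0) (cs (lf (nat_lit 8) (nat_lit 269)) (lf (nat_lit 14) (nat_lit 269)))) q63791 (by decide +kernel)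
def q63799 : Q := Q.p (nat_lit 0x80000300000400001000000000000000000000000000000000000000000000000000) (nat_lit 0x8000020000000000000000800000000000000000000000000000000000000000000000000000000) (nat_lit 2)
theorem c63799 : QOK q63799 := cut [] trivial (nd (nat_lit 293) (nat_lit 0) (cs (lf (nat_lit 42) (nat_lit 226)) (lf (nat_lit 45) (nat_lit 204)))) q63799 (by decide +kernel)
def q63801 : Q := Q.p (nat_lit 0x3c0000300000800000000000000000000000000000000000000000000000000000000) (nat_lit 0x4000018000000000000000000000000000000000000000000000000000000000000000000000000) (nat_lit 2)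
theorem c63801 : QOK q63801 := cut [] trivial (nd (nat_lit 292) (nat_lit 0) (cs (lf (nat_lit 11) (nat_lit 269)) (lf (nat_lit 30) (nat_lit 226)))) q63801 (by decide +kernel)
def q63817 : Q := Q.p (nat_lit 0x80000300000c00002000000000000000000000000000000000000000000000000000) (nat_lit 0x4000018000060000000000000000000000000000000000000000) (nat_lit 3)
theorem c63817 : QOK q63817 := cut [] trivial (nd (nat_lit 184) (nat_lit 0) (cs (lf (nat_lit 34) (nat_lit 183)) (nd (nat_lit 183) (nat_lit 0) (cs (lf (nat_lit 35) (nat_lit 161)) (lf (nat_lit 36) (nat_lit 160)))))) q63817 (by decide +kernel)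
def q63822 : Q := Q.p (nat_lit 0x20000080000300000c00000000000000000000000000000000000000000000000000000000) (nat_lit 0x10000040000140000000000000002000008000020000000000000000000000000000000000000000) (nat_lit 4)
theorem c63822 : QOK q63822 := cut [] trivial (nd (nat_lit 294) (nat_lit 0) (cs (lf (nat_lit 29) (nat_lit 227)) (nd (nat_lit 205) (nat_lit 0) (cs (lf (nat_lit 28) (nat_lit 205)) (nd (nat_lit 183) (nat_lit 0) (cs (lf (nat_lit 41) (nat_lit 182)) (lf (nat_lit 36) (nat_lit 160)))))))) q63822 (by decide +kernel)
def q63824 : Q := Q.p (nat_lit 0x60000180000300000c00000000000000000000000000000000000000000000000000000000) (nat_lit 0x700001c000040000000000000000000000000000000000000000000000000000000000000000000) (nat_lit 4)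
theorem c63824 : QOK q63824 := cut [] trivial (nd (nat_lit 292) (nat_lit 0) (cs (lf (nat_lit 41) (nat_lit 226)) (nd (nat_lit 291) (nat_lit 0) (cs (lf (nat_lit 12) (nat_lit 268)) (nd (nat_lit 313) (nat_lit 0) (cs (lf (nat_lit 11) (nat_lit 290)) (lf (nat_lit 38) (nat_lit 225)))))))) q63824 (by decide +kernel)
def q63923 : Q := Q.p (nat_lit 0x600001800002000004000000000000000000000000000000000000000000000) (nat_lit 0x8000030000000000000000000000000000000000000000) (nat_lit 2)
theorem c63923 : QOK q63923 := cut [] trivial (nd (nat_lit 183) (nat_lit 0) (cs (lf (nat_lit 24) (nat_lit 161)) (lf (nat_lit 47) (nat_lit 160)))) q63923 (by decide +kernel)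
def q63931 : Q := Q.p (nat_lit 0xe0000800000600001000000000000000000000000000000000000000000000000000000000) (nat_lit 0x20000100001600000900000000000000000000000000000000000000000000000000000000000000) (nat_lit 4)
theorem c63931 : QOK q63931 := cut [] trivial (nd (nat_lit 274) (nat_lit 0) (cs (lf (nat_lit 15) (nat_lit 271)) (nd (nat_lit 273) (nat_lit 0) (cs (lf (nat_lit 6) (nat_lit 272)) (nd (nat_lit 251) (nat_lit 0) (cs (lf (nat_lit 0) (nat_lit 248)) (lf (nat_lit 42) (nat_lit 228)))))))) q63931 (by decide +kernel)
def q63933 : Q := Q.p (nat_lit 0xf0000000000200000800000000000000000000000000000000000000000000000000000000) (nat_lit 0x6000000000060000100000000000000000000000000000000000000000000000000000000000000) (nat_lit 3)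
theorem c63933 : QOK q63933 := cut [] trivial (nd (nat_lit 314) (nat_lit 0) (cs (lf (nat_lit 11) (nat_lit 291)) (nd (nat_lit 270) (nat_lit 0) (cs (lf (nat_lit 23) (nat_lit 269)) (lf (nat_lit 33) (nat_lit 226)))))) q63933 (by decide +kernel)
def q63960 : Q := Q.p (nat_lit 0x60000000000600001000000000000000000000000000000000000000000000000000000000) (nat_lit 0x8000000000180000000000000000000000000000000000000000000000000000000000000000000) (nat_lit 2)
theorem c63960 : QOK q63960 := cut [] trivial (nd (nat_lit 315) (nat_lit 0) (cs (lf (nat_lit 38) (nat_lit 227)) (lf (nat_lit 32) (nat_lit 227)))) q63960 (by decide +kernel)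
def q63986 : Q := Q.p (nat_lit 0x20000100000600001000000000000000000000000000000000000000000000000000000000) (nat_lit 0x8000000000080000000000000004000000000000000000000000000000000000000000000000000) (nat_lit 2)
theorem c63986 : QOK q63986 := cut [] trivial (nd (nat_lit 271) (nat_lit 0) (cs (lf (nat_lit 36) (nat_lit 205)) (lf (nat_lit 30) (nat_lit 227)))) q63986 (by decide +kernel)
def q64029 : Q := Q.p (nat_lit 0x40000700000c00000000000000000000000000000000000000000000000000000000) (nat_lit 0x4000010000000000000000300000800000000000000000000000000000000000000000000000000) (nat_lit 3)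
theorem c64029 : QOK q64029 := cut [] trivial (nd (nat_lit 225) (nat_lit 0) (cs (lf (nat_lit 0) (nat_lit 224)) (nd (nat_lit 292) (nat_lit 0) (cs (lf (nat_lit 47) (nat_lit 203)) (lf (nat_lit 30) (nat_lit 226)))))) q64029 (by decide +kernel)
def q64085 : Q := Q.p (nat_lit 0x100000600001000004000000000000000000000000000000000000000000000) (nat_lit 0x8000020000380000e0000200000000000000000000000000000) (nat_lit 5)
theorem c64085 : QOK q64085 := cut [] trivial (nd (nat_lit 159) (nat_lit 0) (cs (lf (nat_lit 46) (nat_lit 159)) (nd (nat_lit 160) (nat_lit 0) (cs (lf (nat_lit 47) (nat_lit 137)) (nd (nat_lit 138) (nat_lit 0) (cs (lf (nat_lit 40) (nat_lit 137)) (nd (nat_lit 139) (nat_lit 0) (cs (lf (nat_lit 35) (nat_lit 116)) (lf (nat_lit 34) (nat_lit 138)))))))))) q64085 (by decide +kernel)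
def q64129 : Q := Q.p (nat_lit 0xc0000300000400001800000000000000000000000000000000000000000000000000) (nat_lit 0x10000000000000003800002400008000000000000000000000000000000000000000000000) (nat_lit 4)
theorem c64129 : QOK q64129 := cut [] trivial (nd (nat_lit 205) (nat_lit 0) (cs (lf (nat_lit 35) (nat_lit 182)) (nd (nat_lit 227) (nat_lit 0) (cs (lf (nat_lit 41) (nat_lit 204)) (nd (nat_lit 228) (nat_lit 0) (cs (lf (nat_lit 0) (nat_lit 202)) (lf (nat_lit 18) (nat_lit 203)))))))) q64129 (by decide +kernel)
def q64140 : Q := Q.p (nat_lit 0xc0000700000800002000000000000000000000000000000000000000000000000000) (nat_lit 0x1c0000700000000001000004000010000000000000000000000000000000000000000000000) (nat_lit 5)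
theorem c64140 : QOK q64140 := cut [] trivial (nd (nat_lit 206) (nat_lit 0) (cs (lf (nat_lit 35) (nat_lit 183)) (nd (nat_lit 272) (nat_lit 0) (cs (lf (nat_lit 29) (nat_lit 205)) (nd (nat_lit 273) (nat_lit 0) (cs (lf (nat_lit 18) (nat_lit 248)) (nd (nat_lit 295) (nat_lit 0) (cs (lf (nat_lit 5) (nat_lit 270)) (lf (nat_lit 25) (nat_lit 206)))))))))) q64140 (by decide +kernel)
def q64142 : Q := Q.p (nat_lit 0xe00001800000000000000000000000000000000000000000000000000) (nat_lit 0x1000000600000000000000000000000000000000000000000000000000) (nat_lit 2)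
theorem c64142 : QOK q64142 := cut [] trivial (nd (nat_lit 202) (nat_lit 0) (cs (lf (nat_lit 0) (nat_lit 201)) (lf (nat_lit 18) (nat_lit 202)))) q64142 (by decide +kernel)
def q64186 : Q := Q.p (nat_lit 0xe0000900000400001000000000000000000000000000000000000000000000000000000000) (nat_lit 0x1000004c0000000000000004000000000000000000000000000000000000000000000000000) (nat_lit 3)
theorem c64186 : QOK q64186 := cut [] trivial (nd (nat_lit 296) (nat_lit 0) (cs (lf (nat_lit 16) (nat_lit 271)) (nd (nat_lit 271) (nat_lit 0) (cs (lf (nat_lit 23) (nat_lit 270)) (lf (nat_lit 36) (nat_lit 205)))))) q64186 (by decide +kernel)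
def q64208 : Q := Q.p (nat_lit 0x18000000000100000600000000000000000000000000000000000000000000000000000000) (nat_lit 0x2000000000040000000000000000800000000000000000000000000000000000000000000000000) (nat_lit 2)
theorem c64208 : QOK q64208 := cut [] trivial (nd (nat_lit 270) (nat_lit 0) (cs (lf (nat_lit 47) (nat_lit 203)) (lf (nat_lit 41) (nat_lit 225)))) q64208 (by decide +kernel)
def q64230 : Q := Q.p (nat_lit 0x10000040000300000200000000000000000000000000000000000000000000000000000000000000) (nat_lit 0x4000000000000000080000800000000000000000000000000000000000000000000000000000000000000) (nat_lit 2)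
theorem c64230 : QOK q64230 := cut [] trivial (nd (nat_lit 338) (nat_lit 0) (cs (lf (nat_lit 35) (nat_lit 250)) (lf (nat_lit 46) (nat_lit 249)))) q64230 (by decide +kernel)
def q64241 : Q := Q.p (nat_lit 0x300000c00001000000000000000000000000000000000000000000000000000) (nat_lit 0x80000000000000000000004000010000000000000000000000000000000000000000) (nat_lit 2)
theorem c64241 : QOK q64241 := cut [] trivial (nd (nat_lit 182) (nat_lit 0) (cs (lf (nat_lit 29) (nat_lit 182)) (lf (nat_lit 24) (nat_lit 160)))) q64241 (by decide +kernel)
def q64260 : Q := Q.p (nat_lit 0x60000000000600001800000000000000000000000000000000000000000000000000000000) (nat_lit 0x18000000000080000000000000000000000000000000000000000000000000000000000000000000) (nat_lit 2)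
theorem c64260 : QOK q64260 := cut [] trivial (nd (nat_lit 271) (nat_lit 0) (cs (lf (nat_lit 29) (nat_lit 227)) (lf (nat_lit 30) (nat_lit 227)))) q64260 (by decide +kernel)
def q64266 : Q := Q.p (nat_lit 0xf0000000000200000800000000000000000000000000000000000000000000000000000000) (nat_lit 0x6000000000080000000000000000000000000000000000000000000000000000000000000000000) (nat_lit 2)
theorem c64266 : QOK q64266 := cut [] trivial (nd (nat_lit 314) (nat_lit 0) (cs (lf (nat_lit 11) (nat_lit 291)) (lf (nat_lit 38) (nat_lit 226)))) q64266 (by decide +kernel)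
def q64285 : Q := Q.p (nat_lit 0x440000e0000000000000000000000000000000000000000000000000000000000000000000000000) (nat_lit 0x88000100000000000000000000000000000000000000000000000000000000000000000000000000) (nat_lit 2)
theorem c64285 : QOK q64285 := cut [] trivial (nd (nat_lit 296) (nat_lit 0) (cs (lf (nat_lit 5) (nat_lit 293)) (lf (nat_lit 10) (nat_lit 292)))) q64285 (by decide +kernel)
def q64292 : Q := Q.p (nat_lit 0x100000440000e0000000000000000000000000000000000000000000000000000000000000000000000000) (nat_lit 0x28000038000110000000000000000000000000000000000000000000000000000000000000000000000000) (nat_lit 4)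
theorem c64292 : QOK q64292 := cut [] trivial (nd (nat_lit 315) (nat_lit 0) (cs (lf (nat_lit 6) (nat_lit 292)) (nd (nat_lit 317) (nat_lit 0) (cs (lf (nat_lit 0) (nat_lit 292)) (nd (nat_lit 316) (nat_lit 0) (cs (lf (nat_lit 5) (nat_lit 315)) (lf (nat_lit 4) (nat_lit 314)))))))) q64292 (by decide +kernel)
def q64301 : Q := Q.p (nat_lit 0x40000e0000000000080000000000000000000000000000000000000000000000000000000000000) (nat_lit 0x72000018000030000000000200000000000000000000000000000000000000000000000000000000) (nat_lit 5)
theorem c64301 : QOK q64301 := cut [] trivial (nd (nat_lit 292) (nat_lit 0) (cs (lf (nat_lit 11) (nat_lit 291)) (nd (nat_lit 317) (nat_lit 0) (cs (lf (nat_lit 5) (nat_lit 292)) (nd (nat_lit 291) (nat_lit 0) (cs (lf (nat_lit 4) (nat_lit 291)) (nd (nat_lit 269) (nat_lit 0) (cs (lf (nat_lit 23) (nat_lit 268)) (lf (nat_lit 24) (nat_lit 225)))))))))) q64301 (by decide +kernel)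
def q64315 : Q := Q.p (nat_lit 0x780001800002000000000000000000000000000000000000000000000000000) (nat_lit 0x40000300000000000000000000000000000000000000000000000000000000000000000000) (nat_lit 2)
theorem c64315 : QOK q64315 := cut [] trivial (nd (nat_lit 272) (nat_lit 0) (cs (lf (nat_lit 42) (nat_lit 205)) (lf (nat_lit 5) (nat_lit 247)))) q64315 (by decide +kernel)
def q64331 : Q := Q.p (nat_lit 0x900000600001e00000000000000000000000000000000000000000000000000000000) (nat_lit 0x6000001c0000000000000000000000000000000000000000000000000000000000000) (nat_lit 3)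
theorem c64331 : QOK q64331 := cut [] trivial (nd (nat_lit 273) (nat_lit 0) (cs (lf (nat_lit 19) (nat_lit 249)) (nd (nat_lit 247) (nat_lit 0) (cs (lf (nat_lit 11) (nat_lit 224)) (lf (nat_lit 1) (nat_lit 247)))))) q64331 (by decide +kernel)

end Crest.Agent.H3.Snaky.CR
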