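import Crest.Agent.H3.Snaky.Cert

set_option autoImplicit false
set_option maxRecDepth 100000

namespace Crest.Agent.H3.Snaky.CR

open T

def q64450 : Q := Q.p (nat_lit 0x1e0000200000000002000000000000000000000000000000000000000000000000000000000) (nat_lit 0xc0000000000000000800000000000000000000000000000000000000000000000000000000000000) (nat_lit 2)
theorem c64450 : QOK q64450 := cut [] trivial (nd (nat_lit 318) (nat_lit 0) (cs (lf (nat_lit 25) (nat_lit 229)) (lf (nat_lit 5) (nat_lit 293)))) q64450 (by decide +kernel)
def q64462 : Q := Q.p (nat_lit 0x78000040000100000000000000000000000000000000000000000000000000000000000000) (nat_lit 0x3000000000000000000000400000000000000000000000000000000000000000000000000000000) (nat_lit 2)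
theorem c64462 : QOK q64462 := cut [] trivial (nd (nat_lit 313) (nat_lit 0) (cs (lf (nat_lit 11) (nat_lit 290)) (lf (nat_lit 36) (nat_lit 225)))) q64462 (by decide +kernel)
def q64468 : Q := Q.p (nat_lit 0x20000080000600000800000000000000000000000000000000000000000000000000000000) (nat_lit 0x8000000000000000000001000004000000000000000000000000000000000000000000000000000) (nat_lit 2)
theorem c64468 : QOK q64468 := cut [] trivial (nd (nat_lit 228) (nat_lit 0) (cs (lf (nat_lit 30) (nat_lit 227)) (lf (nat_lit 35) (nat_lit 205)))) q64468 (by decide +kernel)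
def q64491 : Q := Q.p (nat_lit 0x8000060000100000000000000000000000000000000000000000000000000000000000000) (nat_lit 0x800002000010000000000000000400001000000000000000000000000000000000000000000000000000) (nat_lit 3)
theorem c64491 : QOK q64491 := cut [] trivial (nd (nat_lit 226) (nat_lit 0) (cs (lf (nat_lit 36) (nat_lit 203)) (nd (nat_lit 313) (nat_lit 0) (cs (lf (nat_lit 30) (nat_lit 247)) (lf (nat_lit 39) (nat_lit 225)))))) q64491 (by decide +kernel)
def q64498 : Q := Q.p (nat_lit 0x1e0000300000800002000000000000000000000000000000000000000000000000000) (nat_lit 0xc000000000000000400001000004000000000000000000000000000000000000000000000) (nat_lit 3)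
theorem c64498 : QOK q64498 := cut [] trivial (nd (nat_lit 291) (nat_lit 0) (cs (lf (nat_lit 11) (nat_lit 268)) (nd (nat_lit 204) (nat_lit 0) (cs (lf (nat_lit 47) (nat_lit 182)) (lf (nat_lit 37) (nat_lit 203)))))) q64498 (by decide +kernel)
def q64533 : Q := Q.p (nat_lit 0x20000700000000000000000000000000000000000000000000000000000000000000) (nat_lit 0x58000880000000000000000000000000000000000000000000000000000000000000) (nat_lit 3)
theorem c64533 : QOK q64533 := cut [] trivial (nd (nat_lit 268) (nat_lit 0) (cs (lf (nat_lit 9) (nat_lit 246)) (nd (nat_lit 270) (nat_lit 0) (cs (lf (nat_lit 6) (nat_lit 247)) (lf (nat_lit 12) (nat_lit 245)))))) q64533 (by decide +kernel)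
def q64581 : Q := Q.p (nat_lit 0x20000040000300000400000000000000000000000000000000000000000000000000000000) (nat_lit 0x8000000000080000000000000001000000000000000000000000000000000000000000000000000) (nat_lit 2)
theorem c64581 : QOK q64581 := cut [] trivial (nd (nat_lit 271) (nat_lit 0) (cs (lf (nat_lit 42) (nat_lit 226)) (lf (nat_lit 24) (nat_lit 204)))) q64581 (by decide +kernel)
def q64595 : Q := Q.p (nat_lit 0x8000020000180000400000000000000000000000000000000000000000000000000) (nat_lit 0x40000000000000001000004000000000000000000000000000000000000000) (nat_lit 2)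
theorem c64595 : QOK q64595 := cut [] trivial (nd (nat_lit 180) (nat_lit 0) (cs (lf (nat_lit 36) (nat_lit 157)) (lf (nat_lit 39) (nat_lit 179)))) q64595 (by decide +kernel)
def q64627 : Q := Q.p (nat_lit 0x100001e00000000000000000000000000000000000000000000000000) (nat_lit 0xc0002000000000000000000000000000000000000000000000000000) (nat_lit 2)
theorem c64627 : QOK q64627 := cut [] trivial (nd (nat_lit 223) (nat_lit 0) (cs (lf (nat_lit 11) (nat_lit 200)) (lf (nat_lit 6) (nat_lit 201)))) q64627 (by decide +kernel)
def q64637 : Q := Q.p (nat_lit 0x180001c00000000000000000000000000000000000000000000000000) (nat_lit 0x60000200000000000000000000000000000000000000000000000000) (nat_lit 2)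
theorem c64637 : QOK q64637 := cut [] trivial (nd (nat_lit 222) (nat_lit 0) (cs (lf (nat_lit 9) (nat_lit 200)) (lf (nat_lit 12) (nat_lit 199)))) q64637 (by decide +kernel)
def q64660 : Q := Q.p (nat_lit 0x2000008000060000080000600000000000000000000000000000000000000000000000000000000000000) (nat_lit 0xc00001000000000090000070000100000000000000000000000000000000000000000000000000000000000000) (nat_lit 5)
theorem c64660 : QOK q64660 := cut [] trivial (nd (nat_lit 336) (nat_lit 0) (cs (lf (nat_lit 41) (nat_lit 270)) (nd (nat_lit 270) (nat_lit 0) (cs (lf (nat_lit 47) (nat_lit 248)) (nd (nat_lit 269) (nat_lit 0) (cs (lf (nat_lit 12) (nat_lit 246)) (nd (nat_lit 292) (nat_lit 0) (cs (lf (nat_lit 42) (nat_lit 270)) (lf (nat_lit 18) (nat_lit 269)))))))))) q64660 (by decide +kernel)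
def q64700 : Q := Q.p (nat_lit 0x100000c0000200000800000000000000000000000000000000000000000000000000000000000000) (nat_lit 0x1000004000020000000000000000000000000000000000000000000000000000000000000000000000000000000) (nat_lit 2)
theorem c64700 : QOK q64700 := cut [] trivial (nd (nat_lit 338) (nat_lit 0) (cs (lf (nat_lit 30) (nat_lit 272)) (lf (nat_lit 39) (nat_lit 250)))) q64700 (by decide +kernel)
def q64706 : Q := Q.p (nat_lit 0x700000800002000000000000000000000000000000000000000000000000000) (nat_lit 0x140000000000000000000008000000000000000000000000000000000000000000000) (nat_lit 2)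
theorem c64706 : QOK q64706 := cut [] trivial (nd (nat_lit 183) (nat_lit 0) (cs (lf (nat_lit 41) (nat_lit 182)) (lf (nat_lit 29) (nat_lit 183)))) q64706 (by decide +kernel)
def q64739 : Q := Q.p (nat_lit 0x700000c0000200000000000000000000000000000000000000000000000000000000000000) (nat_lit 0x1000006000180000000000000000000000000000000000000000000000000000000000000000000000000) (nat_lit 3)
theorem c64739 : QOK q64739 := cut [] trivial (nd (nat_lit 314) (nat_lit 0) (cs (lf (nat_lit 30) (nat_lit 248)) (nd (nat_lit 295) (nat_lit 0) (cs (lf (nat_lit 11) (nat_lit 291)) (lf (nat_lit 18) (nat_lit 270)))))) q64739 (by decide +kernel)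
def q64777 : Q := Q.p (nat_lit 0xf0000240000800000000000000000000000000000000000000000) (nat_lit 0x8000060000000000180001400005000000000000000000000000000000000000) (nat_lit 5)
theorem c64777 : QOK q64777 := cut [] trivial (nd (nat_lit 233) (nat_lit 0) (cs (lf (nat_lit 5) (nat_lit 208)) (nd (nat_lit 168) (nat_lit 0) (cs (lf (nat_lit 35) (nat_lit 145)) (nd (nat_lit 166) (nat_lit 0) (cs (lf (nat_lit 47) (nat_lit 144)) (nd (nat_lit 188) (nat_lit 0) (cs (lf (nat_lit 42) (nat_lit 166)) (lf (nat_lit 13) (nat_lit 164)))))))))) q64777 (by decide +kernel)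
def q64821 : Q := Q.p (nat_lit 0xf00000c0000200000000000000000000000000000000000000000000000000000000000000) (nat_lit 0x1000006000000000000000000000000000000000000000000000000000000000000000000000000000000) (nat_lit 2)
theorem c64821 : QOK q64821 := cut [] trivial (nd (nat_lit 314) (nat_lit 0) (cs (lf (nat_lit 30) (nat_lit 248)) (lf (nat_lit 11) (nat_lit 291)))) q64821 (by decide +kernel)
def q64825 : Q := Q.p (nat_lit 0x700000c0000000000000000000000000000000000000000000000000000000000000000000) (nat_lit 0x180000020000000000000000000000000000000000000000000000000000000000000000000) (nat_lit 2)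
theorem c64825 : QOK q64825 := cut [] trivial (nd (nat_lit 295) (nat_lit 0) (cs (lf (nat_lit 23) (nat_lit 269)) (lf (nat_lit 18) (nat_lit 270)))) q64825 (by decide +kernel)
def q64951 : Q := Q.p (nat_lit 0x70000900000000000000000000000000000000000000000000000000000000000000000000) (nat_lit 0x8000600000000000000000000000000000000000000000000000000000000000000000000) (nat_lit 2)
theorem c64951 : QOK q64951 := cut [] trivial (nd (nat_lit 273) (nat_lit 0) (cs (lf (nat_lit 12) (nat_lit 269)) (lf (nat_lit 7) (nat_lit 271)))) q64951 (by decide +kernel)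
def q65043 : Q := Q.p (nat_lit 0xf0000040000100000400000000000000000000000000000000000000000000000000000000) (nat_lit 0x6000008000000000000000000000000000000000000000000000000000000000000000000000000) (nat_lit 2)
theorem c65043 : QOK q65043 := cut [] trivial (nd (nat_lit 313) (nat_lit 0) (cs (lf (nat_lit 10) (nat_lit 291)) (lf (nat_lit 40) (nat_lit 225)))) q65043 (by decide +kernel)
def q65134 : Q := Q.p (nat_lit 0x100000600001000002000000000000000000000000000000000000000000000000000) (nat_lit 0x40000000000000000800000000008000000000000000000000000000000000000000000000) (nat_lit 2)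
theorem c65134 : QOK q65134 := cut [] trivial (nd (nat_lit 227) (nat_lit 0) (cs (lf (nat_lit 42) (nat_lit 205)) (lf (nat_lit 24) (nat_lit 183)))) q65134 (by decide +kernel)
def q65154 : Q := Q.p (nat_lit 0xc0000340000000000000000000000000000000000000000000000000000000000000000000) (nat_lit 0x1000000a0000000000000000000000000000000000000000000000000000000000000000000) (nat_lit 2)
theorem c65154 : QOK q65154 := cut [] trivial (nd (nat_lit 271) (nat_lit 0) (cs (lf (nat_lit 5) (nat_lit 270)) (lf (nat_lit 0) (nat_lit 269)))) q65154 (by decide +kernel)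
def q65156 : Q := Q.p (nat_lit 0x40000f0000040000200000000000000000000000000000000000000000000000000000000000000) (nat_lit 0x1000000000100000080000000000000000000000000000000000000000000000000000000000000000000) (nat_lit 2)
theorem c65156 : QOK q65156 := cut [] trivial (nd (nat_lit 271) (nat_lit 0) (cs (lf (nat_lit 30) (nat_lit 248)) (lf (nat_lit 18) (nat_lit 270)))) q65156 (by decide +kernel)
def q65173 : Q := Q.p (nat_lit 0x800001c0000600000000000000000000000000000000000000000000000000000000000000) (nat_lit 0x40000030000000000000000000000000000000000000000000000000000000000000000000) (nat_lit 2)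
theorem c65173 : QOK q65173 := cut [] trivial (nd (nat_lit 269) (nat_lit 0) (cs (lf (nat_lit 4) (nat_lit 269)) (lf (nat_lit 12) (nat_lit 246)))) q65173 (by decide +kernel)
def q65205 : Q := Q.p (nat_lit 0x2000008000030000000000100000000000000000000000000000000000000000000000000000000000000) (nat_lit 0x4000000000040000000000400000000000000000000000000000000000000000000000000000000) (nat_lit 2)
theorem c65205 : QOK q65205 := cut [] trivial (nd (nat_lit 270) (nat_lit 0) (cs (lf (nat_lit 24) (nat_lit 226)) (lf (nat_lit 27) (nat_lit 248)))) q65205 (by decide +kernel)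
def q65252 : Q := Q.p (nat_lit 0x10000040000700000c00000000000000000000000000000000000000000000000000000000) (nat_lit 0x780001e0000180000000001000005000000000000000000000000000000000000000000000000000) (nat_lit 7)
theorem c65252 : QOK q65252 := cut [] trivial (nd (nat_lit 293) (nat_lit 0) (cs (lf (nat_lit 29) (nat_lit 226)) (nd (nat_lit 271) (nat_lit 0) (cs (lf (nat_lit 47) (nat_lit 204)) (nd (nat_lit 294) (nat_lit 0) (cs (lf (nat_lit 29) (nat_lit 227)) (nd (nat_lit 295) (nat_lit 0) (cs (lf (nat_lit 18) (nat_lit 270)) (nd (nat_lit 317) (nat_lit 0) (cs (lf (nat_lit 5) (nat_lit 292)) (nd (nat_lit 228) (nat_lit 0) (cs (lf (nat_lit 26) (nat_lit 228)) (lf (nat_lit 35) (nat_lit 205)))))))))))))) q65252 (by decide +kernel)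
def q65265 : Q := Q.p (nat_lit 0xf0000000000400000000000000000000000000000000000000000000000000000000000000) (nat_lit 0x8000060000008000700000000000000000000000000000000000000000000000000000000000000000000) (nat_lit 4)
theorem c65265 : QOK q65265 := cut [] trivial (nd (nat_lit 317) (nat_lit 0) (cs (lf (nat_lit 5) (nat_lit 292)) (nd (nat_lit 273) (nat_lit 0) (cs (lf (nat_lit 17) (nat_lit 270)) (nd (nat_lit 272) (nat_lit 0) (cs (lf (nat_lit 42) (nat_lit 250)) (lf (nat_lit 12) (nat_lit 269)))))))) q65265 (by decide +kernel)
def q65436 : Q := Q.p (nat_lit 0x9e0000600000000000000000000000000000000000000000000000000000000000000) (nat_lit 0x6000001c0000000000000000000000000000000000000000000000000000000000000) (nat_lit 3)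
theorem c65436 : QOK q65436 := cut [] trivial (nd (nat_lit 273) (nat_lit 0) (cs (lf (nat_lit 19) (nat_lit 249)) (nd (nat_lit 247) (nat_lit 0) (cs (lf (nat_lit 23) (nat_lit 246)) (lf (nat_lit 1) (nat_lit 247)))))) q65436 (by decide +kernel)
def q65446 : Q := Q.p (nat_lit 0xc0000780000000000000000000000000000000000000000000000000000000000000) (nat_lit 0x60000380000000000000000000000000000000000000000000000000000000) (nat_lit 3)
theorem c65446 : QOK q65446 := cut [] trivial (nd (nat_lit 224) (nat_lit 0) (cs (lf (nat_lit 22) (nat_lit 224)) (nd (nat_lit 246) (nat_lit 0) (cs (lf (nat_lit 23) (nat_lit 223)) (lf (nat_lit 0) (nat_lit 245)))))) q65446 (by decide +kernel)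
def q65458 : Q := Q.p (nat_lit 0xc0000780000000000000000000000000000000000000000000000000000000000000) (nat_lit 0x38000060000000000000000000000000000000000000000000000000000000000000) (nat_lit 3)
theorem c65458 : QOK q65458 := cut [] trivial (nd (nat_lit 268) (nat_lit 0) (cs (lf (nat_lit 13) (nat_lit 246)) (nd (nat_lit 246) (nat_lit 0) (cs (lf (nat_lit 11) (nat_lit 245)) (lf (nat_lit 0) (nat_lit 245)))))) q65458 (by decide +kernel)
def q65485 : Q := Q.p (nat_lit 0x200000c0000600000800000000000000000000000000000000000000000000000000000000) (nat_lit 0x80000200000c000010000100000100000700001000000000000000000000000000000000000000000000000000) (nat_lit 6)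
theorem c65485 : QOK q65485 := cut [] trivial (nd (nat_lit 292) (nat_lit 0) (cs (lf (nat_lit 41) (nat_lit 226)) (nd (nat_lit 226) (nat_lit 0) (cs (lf (nat_lit 47) (nat_lit 204)) (nd (nat_lit 224) (nat_lit 0) (cs (lf (nat_lit 1) (nat_lit 224)) (nd (nat_lit 315) (nat_lit 0) (cs (lf (nat_lit 25) (nat_lit 226)) (nd (nat_lit 337) (nat_lit 0) (cs (lf (nat_lit 42) (nat_lit 270)) (lf (nat_lit 34) (nat_lit 249)))))))))))) q65485 (by decide +kernel)
def q65530 : Q := Q.p (nat_lit 0x20000080000600000000000000000000000000000000000000000000000000000000000000) (nat_lit 0x100000700001c00007000018000050000170000100001c00001000000000000000000000000000000000000000000000000000) (nat_lit 12)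
theorem c65530 : QOK q65530 := cut [] trivial (nd (nat_lit 315) (nat_lit 0) (cs (lf (nat_lit 35) (nat_lit 227)) (nd (nat_lit 226) (nat_lit 0) (cs (lf (nat_lit 46) (nat_lit 226)) (nd (nat_lit 204) (nat_lit 0) (cs (lf (nat_lit 45) (nat_lit 204)) (nd (nat_lit 316) (nat_lit 0) (cs (lf (nat_lit 29) (nat_lit 249)) (nd (nat_lit 337) (nat_lit 0) (cs (lf (nat_lit 34) (nat_lit 249)) (nd (nat_lit 358) (nat_lit 0) (cs (lf (nat_lit 40) (nat_lit 270)) (nd (nat_lit 359) (nat_lit 0) (cs (lf (nat_lit 41) (nat_lit 292)) (nd (nat_lit 270) (nat_lit 0) (cs (lf (nat_lit 46) (nat_lit 270)) (nd (nat_lit 268) (nat_lit 0) (cs (lf (nat_lit 13) (nat_lit 246)) (nd (nat_lit 381) (nat_lit 0) (cs (lf (nat_lit 35) (nat_lit 293)) (nd (nat_lit 382) (nat_lit 0) (cs (lf (nat_lit 29) (nat_lit 315)) (lf (nat_lit 28) (nat_lit 293)))))))))))))))))))))))) q65530 (by decide +kernel)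
def q65557 : Q := Q.p (nat_lit 0x1c0000700000000000000000000000000000000000000000000000000000000000000) (nat_lit 0xf80003e0000dc000030000000000400001000000000000000000000000000000000000000000000000000) (nat_lit 10)
theorem c65557 : QOK q65557 := cut [] trivial (nd (nat_lit 269) (nat_lit 0) (cs (lf (nat_lit 12) (nat_lit 246)) (nd (nat_lit 294) (nat_lit 0) (cs (lf (nat_lit 5) (nat_lit 269)) (nd (nat_lit 316) (nat_lit 0) (cs (lf (nat_lit 42) (nat_lit 249)) (nd (nat_lit 291) (nat_lit 0) (cs (lf (nat_lit 11) (nat_lit 268)) (nd (nat_lit 317) (nat_lit 0) (cs (lf (nat_lit 29) (nat_lit 250)) (nd (nat_lit 204) (nat_lit 0) (cs (lf (nat_lit 37) (nat_lit 203)) (nd (nat_lit 335) (nat_lit 0) (cs (nd (nat_lit 315) (nat_lit 0) (cs (lf (nat_lit 41) (nat_lit 249)) (nd (nat_lit 314) (nat_lit 0) (cs (lf (nat_lit 22) (nat_lit 291)) (lf (nat_lit 10) (nat_lit 313)))))) (lf (nat_lit 31) (nat_lit 247)))))))))))))))) q65557 (by decide +kernel)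
def q65587 : Q := Q.p (nat_lit 0x400001c0000300000400001000000000000000000000000000000000000000000000000000) (nat_lit 0x800002000008000000000000000000000000000000000000000000000) (nat_lit 2)
theorem c65587 : QOK q65587 := cut [] trivial (nd (nat_lit 205) (nat_lit 0) (cs (lf (nat_lit 35) (nat_lit 182)) (lf (nat_lit 25) (nat_lit 205)))) q65587 (by decide +kernel)
def q65635 : Q := Q.p (nat_lit 0xe0000180000400000000000000000000000000000000000000000000000000000000000000) (nat_lit 0x20000000000000000000001000004000000000000000000000000000000000000000000000000000) (nat_lit 2)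
theorem c65635 : QOK q65635 := cut [] trivial (nd (nat_lit 228) (nat_lit 0) (cs (lf (nat_lit 29) (nat_lit 228)) (lf (nat_lit 36) (nat_lit 205)))) q65635 (by decide +kernel)
def q65647 : Q := Q.p (nat_lit 0x78000060000900002000000000000000000000000000000000000000000000000000000000000000) (nat_lit 0x30000000000100000600000000000000000000000000000000000000000000000000000000000000000000) (nat_lit 3)
theorem c65647 : QOK q65647 := cut [] trivial (nd (nat_lit 340) (nat_lit 0) (cs (lf (nat_lit 5) (nat_lit 315)) (nd (nat_lit 274) (nat_lit 0) (cs (lf (nat_lit 32) (nat_lit 252)) (lf (nat_lit 8) (nat_lit 271)))))) q65647 (by decide +kernel)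
def q65654 : Q := Q.p (nat_lit 0x380000600001000000000000000000000000000000000000000000000000000000000) (nat_lit 0x80000000000000000000004000010000000000000000000000000000000000000000000000) (nat_lit 2)
theorem c65654 : QOK q65654 := cut [] trivial (nd (nat_lit 206) (nat_lit 0) (cs (lf (nat_lit 29) (nat_lit 206)) (lf (nat_lit 36) (nat_lit 183)))) q65654 (by decide +kernel)
def q65696 : Q := Q.p (nat_lit 0x10000040000180000700000000000000000000000000000000000000000000000000000000000000) (nat_lit 0x2000008000020000000000000001400000000000000000000000000000000000000000000000000000000) (nat_lit 3)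
theorem c65696 : QOK q65696 := cut [] trivial (nd (nat_lit 315) (nat_lit 0) (cs (lf (nat_lit 41) (nat_lit 249)) (nd (nat_lit 293) (nat_lit 0) (cs (lf (nat_lit 36) (nat_lit 227)) (lf (nat_lit 47) (nat_lit 226)))))) q65696 (by decide +kernel)
def q65741 : Q := Q.p (nat_lit 0x80001a0000600000000000000000000000000000000000000000000000000000000000000) (nat_lit 0x4000050000000000000000000000000000000000000000000000000000000000000000000) (nat_lit 2)
theorem c65741 : QOK q65741 := cut [] trivial (nd (nat_lit 270) (nat_lit 0) (cs (lf (nat_lit 11) (nat_lit 268)) (lf (nat_lit 12) (nat_lit 246)))) q65741 (by decide +kernel)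
def q65744 : Q := Q.p (nat_lit 0x8000020000080000300004000000000000000000000000000000000000000000000000000) (nat_lit 0x400003800004000000000000000000000000000000000000000000000) (nat_lit 3)
theorem c65744 : QOK q65744 := cut [] trivial (nd (nat_lit 204) (nat_lit 0) (cs (lf (nat_lit 34) (nat_lit 203)) (nd (nat_lit 203) (nat_lit 0) (cs (lf (nat_lit 7) (nat_lit 202)) (lf (nat_lit 35) (nat_lit 181)))))) q65744 (by decide +kernel)
def q65752 : Q := Q.p (nat_lit 0x800002000008000020000080000000000000000000000000000000000000000000000000000000000000) (nat_lit 0x10000040000100000000000000000000000000000000000000000000000000000000) (nat_lit 2)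
theorem c65752 : QOK q65752 := cut [] trivial (nd (nat_lit 246) (nat_lit 0) (cs (lf (nat_lit 46) (nat_lit 246)) (lf (nat_lit 47) (nat_lit 224)))) q65752 (by decide +kernel)
def q65832 : Q := Q.p (nat_lit 0x10000020000080000200000400000000000000000000000000000000000000000000000000000000) (nat_lit 0x4000008000000000000000100000000000000000000000000000000000000000000000000000000000000) (nat_lit 2)
theorem c65832 : QOK q65832 := cut [] trivial (nd (nat_lit 315) (nat_lit 0) (cs (lf (nat_lit 29) (nat_lit 249)) (lf (nat_lit 46) (nat_lit 226)))) q65832 (by decide +kernel)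
def q65836 : Q := Q.p (nat_lit 0x40000080000200000800001000000000000000000000000000000000000000000000000000) (nat_lit 0x10000020000000000000000400000000000000000000000000000000000000000000000000000000) (nat_lit 2)
theorem c65836 : QOK q65836 := cut [] trivial (nd (nat_lit 293) (nat_lit 0) (cs (lf (nat_lit 29) (nat_lit 227)) (lf (nat_lit 46) (nat_lit 204)))) q65836 (by decide +kernel)
def q65896 : Q := Q.p (nat_lit 0x78000180000200000000000000000000000000000000000000000000000000000000000000) (nat_lit 0x4000030000000000000000000000000000000000000000000000000000000000000000000000000000000) (nat_lit 2)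
theorem c65896 : QOK q65896 := cut [] trivial (nd (nat_lit 316) (nat_lit 0) (cs (lf (nat_lit 42) (nat_lit 249)) (lf (nat_lit 5) (nat_lit 291)))) q65896 (by decide +kernel)
def q65918 : Q := Q.p (nat_lit 0x8000020000080000200000800000000000000000000000000000000000000000000000000000000000000) (nat_lit 0x4000010000040000000000000000000000000000000000000000000000000000000000000000000000000000000) (nat_lit 2)
theorem c65918 : QOK q65918 := cut [] trivial (nd (nat_lit 340) (nat_lit 0) (cs (lf (nat_lit 29) (nat_lit 273)) (lf (nat_lit 28) (nat_lit 251)))) q65918 (by decide +kernel)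
def q65976 : Q := Q.p (nat_lit 0x4000000000000000f0000000000000000000000000000000000000000000000) (nat_lit 0x10000060001000000e0000000000000000000000000000000000000000) (nat_lit 4)
theorem c65976 : QOK q65976 := cut [] trivial (nd (nat_lit 206) (nat_lit 0) (cs (lf (nat_lit 11) (nat_lit 183)) (nd (nat_lit 162) (nat_lit 0) (cs (lf (nat_lit 23) (nat_lit 161)) (nd (nat_lit 163) (nat_lit 0) (cs (lf (nat_lit 18) (nat_lit 162)) (lf (nat_lit 31) (nat_lit 162)))))))) q65976 (by decide +kernel)
def q66177 : Q := Q.p (nat_lit 0x1c0000180000000000000000000000000000000000000000) (nat_lit 0x20000240000000000000000000000000000000000000000) (nat_lit 2)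
theorem c66177 : QOK q66177 := cut [] trivial (nd (nat_lit 162) (nat_lit 0) (cs (lf (nat_lit 21) (nat_lit 162)) (lf (nat_lit 3) (nat_lit 162)))) q66177 (by decide +kernel)
def q66280 : Q := Q.p (nat_lit 0x800003c00000000000000000000000000000) (nat_lit 0x5c0000200000000000000000000000000000) (nat_lit 3)
theorem c66280 : QOK q66280 := cut [] trivial (nd (nat_lit 139) (nat_lit 0) (cs (lf (nat_lit 10) (nat_lit 117)) (nd (nat_lit 117) (nat_lit 0) (cs (lf (nat_lit 4) (nat_lit 117)) (lf (nat_lit 11) (nat_lit 116)))))) q66280 (by decide +kernel)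
def q66321 : Q := Q.p (nat_lit 0x8000020000000000100000e0000000000800003800000000000000000000000000000) (nat_lit 0x1000004000000000300000c0000f40003c00003f000060000180000000000000) (nat_lit 10)
theorem c66321 : QOK q66321 := cut [] trivial (nd (nat_lit 122) (nat_lit 0) (cs (nd (nat_lit 144) (nat_lit 0) (cs (lf (nat_lit 5) (nat_lit 119)) (nd (nat_lit 97) (nat_lit 0) (cs (lf (nat_lit 23) (nat_lit 96)) (nd (nat_lit 123) (nat_lit 0) (cs (lf (nat_lit 22) (nat_lit 97)) (nd (nat_lit 124) (nat_lit 0) (cs (lf (nat_lit 6) (nat_lit 121)) (lf (nat_lit 11) (nat_lit 120)))))))))) (cs (nd (nat_lit 230) (nat_lit 0) (cs (lf (nat_lit 27) (nat_lit 186)) (nd (nat_lit 100) (nat_lit 0) (cs (lf (nat_lit 17) (nat_lit 97)) (nd (nat_lit 56) (nat_lit 0) (cs (lf (nat_lit 37) (nat_lit 55)) (nd (nat_lit 97) (nat_lit 0) (cs (lf (nat_lit 23) (nat_lit 96)) (nd (nat_lit 123) (nat_lit 0) (cs (lf (nat_lit 22) (nat_lit 97)) (nd (nat_lit 124) (nat_lit 0) (cs (lf (nat_lit 11) (nat_lit 120)) (nd (nat_lit 146) (nat_lit 0) (cs (lf (nat_lit 5) (nat_lit 121)) (lf (nat_lit 4) (nat_lit 120))))))))))))))))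 (cs (nd (nat_lit 100) (nat_lit 0) (cs (lf (nat_lit 17) (nat_lit 97)) (nd (nat_lit 56) (nat_lit 0) (cs (lf (nat_lit 37) (nat_lit 55)) (nd (nat_lit 230) (nat_lit 0) (cs (lf (nat_lit 27) (nat_lit 186)) (nd (nat_lit 145) (nat_lit 0) (cs (lf (nat_lit 4) (nat_lit 119)) (nd (nat_lit 123) (nat_lit 0) (cs (lf (nat_lit 5) (nat_lit 120)) (nd (nat_lit 167) (nat_lit 0) (cs (lf (nat_lit 42) (nat_lit 100)) (nd (nat_lit 124) (nat_lit 0) (cs (lf (nat_lit 11) (nat_lit 120)) (nd (nat_lit 99) (nat_lit 0) (cs (lf (nat_lit 23) (nat_lit 98)) (lf (nat_lit 18) (nat_lit 99)))))))))))))))))) (cs (nd (nat_lit 100) (nat_lit 0) (cs (lf (nat_lit 17) (nat_lit 97)) (nd (nat_lit 56) (nat_lit 0) (cs (lf (nat_lit 37) (nat_lit 55)) (nd (nat_lit 230) (nat_lit 0) (cs (lf (nat_lit 27) (nat_lit 186)) (nd (nat_lit 97) (nat_lit 0) (cs (lf (nat_lit 23) (nat_lit 96)) (nd (nat_lit 123) (nat_lit 0) (cs (lf (nat_lit 22) (nat_lit 97)) (nd (nat_lit 124) (nat_lit 0) (cs (lf (nat_lit 11) (nat_lit 120)) (nd (nat_lit 125) (nat_lit 0) (cs (lf (nat_lit 23) (nat_lit 99)) (lf (nat_lit 10) (nat_lit 121))))))))))))))))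 (nd (nat_lit 144) (nat_lit 0) (cs (lf (nat_lit 5) (nat_lit 119)) (nd (nat_lit 96) (nat_lit 0) (cs (lf (nat_lit 22) (nat_lit 96)) (nd (nat_lit 100) (nat_lit 0) (cs (lf (nat_lit 17) (nat_lit 97)) (nd (nat_lit 78) (nat_lit 0) (cs (lf (nat_lit 36) (nat_lit 55)) (nd (nat_lit 230) (nat_lit 0) (cs (lf (nat_lit 27) (nat_lit 186)) (nd (nat_lit 77) (nat_lit 0) (cs (lf (nat_lit 47) (nat_lit 55)) (nd (nat_lit 166) (nat_lit 0) (cs (lf (nat_lit 25) (nat_lit 77)) (nd (nat_lit 167) (nat_lit 0) (cs (lf (nat_lit 15) (nat_lit 163)) (lf (nat_lit 29) (nat_lit 100))))))))))))))))))))))) q66321 (by decide +kernel)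
def q66329 : Q := Q.p (nat_lit 0x800003c00000000000000000000000000000) (nat_lit 0x400000200001c00000000000000000000000) (nat_lit 3)
theorem c66329 : QOK q66329 := cut [] trivial (nd (nat_lit 95) (nat_lit 0) (cs (lf (nat_lit 22) (nat_lit 95)) (nd (nat_lit 117) (nat_lit 0) (cs (lf (nat_lit 4) (nat_lit 117)) (lf (nat_lit 23) (nat_lit 94)))))) q66329 (by decide +kernel)
def q66460 : Q := Q.p (nat_lit 0x8000020000000000100000e0000100000000000000000000000000000000000000000) (nat_lit 0x1000004000000000010000e00000800000000000000000000000000000000000) (nat_lit 4)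
theorem c66460 : QOK q66460 := cut [] trivial (nd (nat_lit 230) (nat_lit 0) (cs (lf (nat_lit 27) (nat_lit 186)) (nd (nat_lit 165) (nat_lit 0) (cs (lf (nat_lit 35) (nat_lit 142)) (nd (nat_lit 166) (nat_lit 0) (cs (lf (nat_lit 12) (nat_lit 162)) (lf (nat_lit 6) (nat_lit 163)))))))) q66460 (by decide +kernel)
def q66496 : Q := Q.p (nat_lit 0x10000140000400001800000000000000000000000000000000000) (nat_lit 0x40000000000970000780003e00008000020000000000000000000) (nat_lit 9)
theorem c66496 : QOK q66496 := cut [] trivial (nd (nat_lit 121) (nat_lit 0) (cs (lf (nat_lit 42) (nat_lit 121)) (nd (nat_lit 77) (nat_lit 0) (cs (lf (nat_lit 25) (nat_lit 77)) (nd (nat_lit 142) (nat_lit 0) (cs (lf (nat_lit 32) (nat_lit 120)) (nd (nat_lit 141) (nat_lit 0) (cs (lf (nat_lit 5) (nat_lit 141)) (nd (nat_lit 118) (nat_lit 0) (cs (lf (nat_lit 22) (nat_lit 118)) (nd (nat_lit 140) (nat_lit 0) (cs (lf (nat_lit 23) (nat_lit 117)) (nd (nat_lit 139) (nat_lit 0) (cs (lf (nat_lit 16) (nat_lit 117)) (nd (nat_lit 161) (nat_lit 0) (cs (lf (nat_lit 10) (nat_lit 139)) (lf (nat_lit 11) (nat_lit 138))))))))))))))))))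 q66496 (by decide +kernel)
def q66525 : Q := Q.p (nat_lit 0x8000020000000000900001c0000000000000000000000000000000000000000000000) (nat_lit 0x1000006000160000020000000000000000000000000000000000000000000000) (nat_lit 4)
theorem c66525 : QOK q66525 := cut [] trivial (nd (nat_lit 230) (nat_lit 0) (cs (lf (nat_lit 27) (nat_lit 186)) (nd (nat_lit 210) (nat_lit 0) (cs (lf (nat_lit 0) (nat_lit 185)) (nd (nat_lit 209) (nat_lit 0) (cs (lf (nat_lit 18) (nat_lit 186)) (lf (nat_lit 11) (nat_lit 207)))))))) q66525 (by decide +kernel)
def q66530 : Q := Q.p (nat_lit 0xe00002000000000000000000000000000000000000) (nat_lit 0x10001d000000000000000000000000000000000000) (nat_lit 3)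
theorem c66530 : QOK q66530 := cut [] trivial (nd (nat_lit 146) (nat_lit 0) (cs (lf (nat_lit 12) (nat_lit 142)) (nd (nat_lit 147) (nat_lit 0) (cs (lf (nat_lit 6) (nat_lit 144)) (lf (nat_lit 9) (nat_lit 143)))))) q66530 (by decide +kernel)
def q66561 : Q := Q.p (nat_lit 0x80000e00003800000000000000000000000000000000000) (nat_lit 0x20000000000000000600001800000000000000000000000000000) (nat_lit 3)
theorem c66561 : QOK q66561 := cut [] trivial (nd (nat_lit 142) (nat_lit 0) (cs (lf (nat_lit 0) (nat_lit 141)) (nd (nat_lit 120) (nat_lit 0) (cs (lf (nat_lit 23) (nat_lit 119)) (lf (nat_lit 42) (nat_lit 120)))))) q66561 (by decide +kernel)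
def q66726 : Q := Q.p (nat_lit 0x800002600009000010000040000000000000000000000000000000000000000000000) (nat_lit 0x1000006000000000000000000000000000000000000000000000000000000000) (nat_lit 2)
theorem c66726 : QOK q66726 := cut [] trivial (nd (nat_lit 230) (nat_lit 0) (cs (lf (nat_lit 27) (nat_lit 186)) (lf (nat_lit 8) (nat_lit 227)))) q66726 (by decide +kernel)
def q66767 : Q := Q.p (nat_lit 0x600000e0000000000000000000000000000000000000000000000000000000000000000000) (nat_lit 0x180000100000000000000000000000000000000000000000000000000000000000000000000) (nat_lit 2)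
theorem c66767 : QOK q66767 := cut [] trivial (nd (nat_lit 295) (nat_lit 0) (cs (lf (nat_lit 18) (nat_lit 270)) (lf (nat_lit 3) (nat_lit 269)))) q66767 (by decide +kernel)
def q66783 : Q := Q.p (nat_lit 0x800002000008000020000080000000000000000000000000000000000000000000000000000) (nat_lit 0x40000100000400000000000000000000000000000000000000000000000) (nat_lit 2)
theorem c66783 : QOK q66783 := cut [] trivial (nd (nat_lit 212) (nat_lit 0) (cs (lf (nat_lit 35) (nat_lit 189)) (lf (nat_lit 34) (nat_lit 211)))) q66783 (by decide +kernel)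
def q66800 : Q := Q.p (nat_lit 0xc000030000040000200000000000000000000000000000000000000000000000000000000000000) (nat_lit 0x100000c00000000000000000000000000000000000000000000000000000000) (nat_lit 2)
theorem c66800 : QOK q66800 := cut [] trivial (nd (nat_lit 248) (nat_lit 0) (cs (lf (nat_lit 24) (nat_lit 226)) (lf (nat_lit 35) (nat_lit 226)))) q66800 (by decide +kernel)
def q66809 : Q := Q.p (nat_lit 0x40000f0000000000200000000000000000000000000000000000000000000000000000000000000) (nat_lit 0x2000008000000000060000100000c00000000000000000000000000000000000000000000000000000000) (nat_lit 4)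
theorem c66809 : QOK q66809 := cut [] trivial (nd (nat_lit 270) (nat_lit 0) (cs (lf (nat_lit 23) (nat_lit 269)) (nd (nat_lit 248) (nat_lit 0) (cs (lf (nat_lit 35) (nat_lit 226)) (nd (nat_lit 315) (nat_lit 0) (cs (lf (nat_lit 29) (nat_lit 248)) (lf (nat_lit 24) (nat_lit 226)))))))) q66809 (by decide +kernel)
def q66877 : Q := Q.p (nat_lit 0x100000c00002000008000010000040000000000000000000000000000000000000000000000) (nat_lit 0x40000000000000001000004000000000000000000000000000000000000000000000000000000000) (nat_lit 2)
theorem c66877 : QOK q66877 := cut [] trivial (nd (nat_lit 252) (nat_lit 0) (cs (lf (nat_lit 30) (nat_lit 230)) (lf (nat_lit 26) (nat_lit 186)))) q66877 (by decide +kernel)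
def q66939 : Q := Q.p (nat_lit 0x40000000000600000800002000000000000000000000000000000000000000000000000000) (nat_lit 0x10000000000100000000001000000000000000000000000000000000000000000000000000000000) (nat_lit 2)
theorem c66939 : QOK q66939 := cut [] trivial (nd (nat_lit 272) (nat_lit 0) (cs (lf (nat_lit 42) (nat_lit 227)) (lf (nat_lit 45) (nat_lit 205)))) q66939 (by decide +kernel)
def q66946 : Q := Q.p (nat_lit 0x10000000000300000800002000000000000000000000000000000000000000000000000000) (nat_lit 0x4000000000040000000000400000000000000000000000000000000000000000000000000000000) (nat_lit 2)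
theorem c66946 : QOK q66946 := cut [] trivial (nd (nat_lit 270) (nat_lit 0) (cs (lf (nat_lit 30) (nat_lit 226)) (lf (nat_lit 33) (nat_lit 204)))) q66946 (by decide +kernel)
def q66951 : Q := Q.p (nat_lit 0x780000800000000000000000000000000000000000000000000000000000000) (nat_lit 0x38000040001000000000000000000000000000000000000000000000000000000000) (nat_lit 3)
theorem c66951 : QOK q66951 := cut [] trivial (nd (nat_lit 268) (nat_lit 0) (cs (lf (nat_lit 10) (nat_lit 246)) (nd (nat_lit 246) (nat_lit 0) (cs (lf (nat_lit 11) (nat_lit 245)) (lf (nat_lit 17) (nat_lit 224)))))) q66951 (by decide +kernel)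
def q66955 : Q := Q.p (nat_lit 0x780000800000000000000000000000000000000000000000000000000000000) (nat_lit 0x40001380000000000000000000000000000000000000000000000000000000) (nat_lit 3)
theorem c66955 : QOK q66955 := cut [] trivial (nd (nat_lit 224) (nat_lit 0) (cs (lf (nat_lit 22) (nat_lit 224)) (nd (nat_lit 246) (nat_lit 0) (cs (lf (nat_lit 23) (nat_lit 223)) (lf (nat_lit 17) (nat_lit 224)))))) q66955 (by decide +kernel)
def q66971 : Q := Q.p (nat_lit 0x60000c00003000008000000000000000000000000000000000000000000000000000000000) (nat_lit 0x40000180000000000000000000000000000000000000000000000000000000000000000000000000) (nat_lit 2)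
theorem c66971 : QOK q66971 := cut [] trivial (nd (nat_lit 296) (nat_lit 0) (cs (lf (nat_lit 30) (nat_lit 230)) (lf (nat_lit 14) (nat_lit 271)))) q66971 (by decide +kernel)
def q67004 : Q := Q.p (nat_lit 0xe0000800002200000800010000040000000000000000000000000000000000000000000000) (nat_lit 0xe40001100004c0001000004000000000000000000000000000000000000000000000000000000000) (nat_lit 6)
theorem c67004 : QOK q67004 := cut [] trivial (nd (nat_lit 296) (nat_lit 0) (cs (lf (nat_lit 16) (nat_lit 271)) (nd (nat_lit 230) (nat_lit 0) (cs (lf (nat_lit 27) (nat_lit 186)) (nd (nat_lit 318) (nat_lit 0) (cs (lf (nat_lit 5) (nat_lit 293)) (nd (nat_lit 292) (nat_lit 0) (cs (lf (nat_lit 4) (nat_lit 292)) (nd (nat_lit 271) (nat_lit 0) (cs (lf (nat_lit 23) (nat_lit 270)) (lf (nat_lit 41) (nat_lit 226)))))))))))) q67004 (by decide +kernel)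
def q67060 : Q := Q.p (nat_lit 0x78000000000080000400000000000000000000000000000000000000000000000000000000) (nat_lit 0x3000000000030000100000000000000000000000000000000000000000000000000000000000000) (nat_lit 3)
theorem c67060 : QOK q67060 := cut [] trivial (nd (nat_lit 269) (nat_lit 0) (cs (lf (nat_lit 23) (nat_lit 268)) (nd (nat_lit 313) (nat_lit 0) (cs (lf (nat_lit 11) (nat_lit 290)) (lf (nat_lit 34) (nat_lit 225)))))) q67060 (by decide +kernel)
def q67161 : Q := Q.p (nat_lit 0x300000400001000030000040000000000000000000000000000000000000000000000) (nat_lit 0x80000000000000000000006000038000020000000000000000000000000000000000000000) (nat_lit 4)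
theorem c67161 : QOK q67161 := cut [] trivial (nd (nat_lit 206) (nat_lit 0) (cs (lf (nat_lit 29) (nat_lit 206)) (nd (nat_lit 183) (nat_lit 0) (cs (lf (nat_lit 46) (nat_lit 183)) (nd (nat_lit 184) (nat_lit 0) (cs (lf (nat_lit 2) (nat_lit 183)) (lf (nat_lit 47) (nat_lit 161)))))))) q67161 (by decide +kernel)
def q67184 : Q := Q.p (nat_lit 0x8000020000080000200000000000000000000000000000000000000000000000000000000000000) (nat_lit 0x400003000004000000000040000100000400000000000000000000000000000000000000000000000000000000) (nat_lit 4)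
theorem c67184 : QOK q67184 := cut [] trivial (nd (nat_lit 336) (nat_lit 0) (cs (lf (nat_lit 40) (nat_lit 248)) (nd (nat_lit 248) (nat_lit 0) (cs (lf (nat_lit 47) (nat_lit 226)) (nd (nat_lit 337) (nat_lit 0) (cs (lf (nat_lit 46) (nat_lit 248)) (lf (nat_lit 41) (nat_lit 270)))))))) q67184 (by decide +kernel)
def q67222 : Q := Q.p (nat_lit 0x20000080000200000800030000040000000000000000000000000000000000000000000000) (nat_lit 0x10000050000140000100000000006000038000000000000000000000000000000000000000000000) (nat_lit 6)
theorem c67222 : QOK q67222 := cut [] trivial (nd (nat_lit 294) (nat_lit 0) (cs (lf (nat_lit 29) (nat_lit 227)) (nd (nat_lit 205) (nat_lit 0) (cs (lf (nat_lit 28) (nat_lit 205)) (nd (nat_lit 270) (nat_lit 0) (cs (lf (nat_lit 41) (nat_lit 204)) (nd (nat_lit 183) (nat_lit 0) (cs (lf (nat_lit 40) (nat_lit 182)) (nd (nat_lit 184) (nat_lit 0) (cs (lf (nat_lit 2) (nat_lit 183)) (lf (nat_lit 34) (nat_lit 183)))))))))))) q67222 (by decide +kernel)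
def q67225 : Q := Q.p (nat_lit 0x80000200000800032000040000000000000000000000000000000000000000000000) (nat_lit 0x4000038000040000000000000000000000000000000000000000) (nat_lit 3)
theorem c67225 : QOK q67225 := cut [] trivial (nd (nat_lit 184) (nat_lit 0) (cs (lf (nat_lit 34) (nat_lit 183)) (nd (nat_lit 183) (nat_lit 0) (cs (lf (nat_lit 2) (nat_lit 183)) (lf (nat_lit 35) (nat_lit 161)))))) q67225 (by decide +kernel)
def q67389 : Q := Q.p (nat_lit 0x10000000000080000600001800000000000000000000000000000000000000000000000000) (nat_lit 0x8000060000000000000000000000000000000000000000000000000000000000000000000) (nat_lit 2)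
theorem c67389 : QOK q67389 := cut [] trivial (nd (nat_lit 269) (nat_lit 0) (cs (lf (nat_lit 30) (nat_lit 203)) (lf (nat_lit 28) (nat_lit 203)))) q67389 (by decide +kernel)
def q67397 : Q := Q.p (nat_lit 0x400004800032000008000000000000000000000000000000000000000000000) (nat_lit 0x3000000000000000020000000000000000000000000000000000000000) (nat_lit 2)
theorem c67397 : QOK q67397 := cut [] trivial (nd (nat_lit 228) (nat_lit 0) (cs (lf (nat_lit 14) (nat_lit 205)) (lf (nat_lit 24) (nat_lit 161)))) q67397 (by decide +kernel)
def q67405 : Q := Q.p (nat_lit 0x10000000000200000e00001000018000000000000000000000000000000000000000000000) (nat_lit 0x40000100000000000c00006000038000000000000000000000000000000000000000) (nat_lit 5)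
theorem c67405 : QOK q67405 := cut [] trivial (nd (nat_lit 182) (nat_lit 0) (cs (lf (nat_lit 24) (nat_lit 160)) (nd (nat_lit 248) (nat_lit 0) (cs (lf (nat_lit 35) (nat_lit 160)) (nd (nat_lit 181) (nat_lit 0) (cs (lf (nat_lit 47) (nat_lit 159)) (nd (nat_lit 203) (nat_lit 0) (cs (lf (nat_lit 11) (nat_lit 180)) (lf (nat_lit 43) (nat_lit 203)))))))))) q67405 (by decide +kernel)
def q67411 : Q := Q.p (nat_lit 0x10000020000080000200001000000000000000000000000000000000000000000000000000) (nat_lit 0x40000000000000000800004000000000000000000000000000000000000000000000) (nat_lit 2)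
theorem c67411 : QOK q67411 := cut [] trivial (nd (nat_lit 203) (nat_lit 0) (cs (lf (nat_lit 35) (nat_lit 181)) (lf (nat_lit 28) (nat_lit 203)))) q67411 (by decide +kernel)
def q67552 : Q := Q.p (nat_lit 0x800002600005000010000040000000000000000000000000000000000000000000000) (nat_lit 0xa000020000000000000000000000000000000000000000000000000000) (nat_lit 2)
theorem c67552 : QOK q67552 := cut [] trivial (nd (nat_lit 231) (nat_lit 0) (cs (lf (nat_lit 45) (nat_lit 186)) (lf (nat_lit 8) (nat_lit 227)))) q67552 (by decide +kernel)
def q67572 : Q := Q.p (nat_lit 0xf0000000000400001000000000000000000000000000000000000000000000000000000000) (nat_lit 0x60000000000100000000000000000000000000000000000000000000000000000000000000000000) (nat_lit 2)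
theorem c67572 : QOK q67572 := cut [] trivial (nd (nat_lit 317) (nat_lit 0) (cs (lf (nat_lit 26) (nat_lit 228)) (lf (nat_lit 5) (nat_lit 292)))) q67572 (by decide +kernel)
def q67810 : Q := Q.p (nat_lit 0x3c0000200000800000000000000000000000000000000000000000000000000000000) (nat_lit 0x18000000000000000000002000000000000000000000000000000000000000000000000000) (nat_lit 2)
theorem c67810 : QOK q67810 := cut [] trivial (nd (nat_lit 292) (nat_lit 0) (cs (lf (nat_lit 11) (nat_lit 269)) (lf (nat_lit 36) (nat_lit 204)))) q67810 (by decide +kernel)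
def q67844 : Q := Q.p (nat_lit 0x600001c00030000000000000000000000000000000000000000000000000000) (nat_lit 0x1c0006300000000000000000000000000000000000000000000000000000000) (nat_lit 4)
theorem c67844 : QOK q67844 := cut [] trivial (nd (nat_lit 225) (nat_lit 0) (cs (lf (nat_lit 0) (nat_lit 224)) (nd (nat_lit 229) (nat_lit 0) (cs (lf (nat_lit 15) (nat_lit 205)) (nd (nat_lit 247) (nat_lit 0) (cs (lf (nat_lit 11) (nat_lit 224)) (lf (nat_lit 10) (nat_lit 225)))))))) q67844 (by decide +kernel)
def q67882 : Q := Q.p (nat_lit 0x1c00030800000000000000000000000000000000000000000000000000) (nat_lit 0x6000001000000000000000000000000000000000000000000000000000) (nat_lit 2)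
theorem c67882 : QOK q67882 := cut [] trivial (nd (nat_lit 229) (nat_lit 0) (cs (lf (nat_lit 15) (nat_lit 205)) (lf (nat_lit 22) (nat_lit 203)))) q67882 (by decide +kernel)
def q67928 : Q := Q.p (nat_lit 0x980000600000800002000000000000000000000000000000000000000000000000000) (nat_lit 0x190000640000000001000005000014000000000000000000000000000000000000000000000) (nat_lit 6)
theorem c67928 : QOK q67928 := cut [] trivial (nd (nat_lit 273) (nat_lit 0) (cs (lf (nat_lit 19) (nat_lit 249)) (nd (nat_lit 206) (nat_lit 0) (cs (lf (nat_lit 35) (nat_lit 183)) (nd (nat_lit 182) (nat_lit 0) (cs (lf (nat_lit 46) (nat_lit 182)) (nd (nat_lit 295) (nat_lit 0) (cs (lf (nat_lit 25) (nat_lit 206)) (nd (nat_lit 270) (nat_lit 0) (cs (lf (nat_lit 41) (nat_lit 204)) (lf (nat_lit 5) (nat_lit 270)))))))))))) q67928 (by decide +kernel)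
def q67982 : Q := Q.p (nat_lit 0xf0000200000800000000000000000000000000000000000000000) (nat_lit 0x70000000000000001000006000010000000000000000000000000000000) (nat_lit 4)
theorem c67982 : QOK q67982 := cut [] trivial (nd (nat_lit 233) (nat_lit 0) (cs (lf (nat_lit 5) (nat_lit 208)) (nd (nat_lit 146) (nat_lit 0) (cs (lf (nat_lit 34) (nat_lit 145)) (nd (nat_lit 145) (nat_lit 0) (cs (lf (nat_lit 41) (nat_lit 144)) (lf (nat_lit 35) (nat_lit 123)))))))) q67982 (by decide +kernel)
def q68067 : Q := Q.p (nat_lit 0x380000600000800002000000000000000000000000000000000000000000000000000) (nat_lit 0xa0000000000000001000004000010000000000000000000000000000000000000000000000) (nat_lit 3)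
theorem c68067 : QOK q68067 := cut [] trivial (nd (nat_lit 206) (nat_lit 0) (cs (lf (nat_lit 35) (nat_lit 183)) (nd (nat_lit 228) (nat_lit 0) (cs (lf (nat_lit 29) (nat_lit 206)) (lf (nat_lit 30) (nat_lit 205)))))) q68067 (by decide +kernel)
def q68132 : Q := Q.p (nat_lit 0x700005000000000000000000000000000000000000000000000000000000000) (nat_lit 0x80002800000000000000000000000000000000000000000000000000000000) (nat_lit 2)
theorem c68132 : QOK q68132 := cut [] trivial (nd (nat_lit 229) (nat_lit 0) (cs (lf (nat_lit 12) (nat_lit 225)) (lf (nat_lit 9) (nat_lit 226)))) q68132 (by decide +kernel)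
def q68198 : Q := Q.p (nat_lit 0x980002600008000010000040000000000000000000000000000000000000000000000) (nat_lit 0x8000020000000001000007000004000000000000000000000000000000000000000000000000000) (nat_lit 4)
theorem c68198 : QOK q68198 := cut [] trivial (nd (nat_lit 230) (nat_lit 0) (cs (lf (nat_lit 27) (nat_lit 186)) (nd (nat_lit 228) (nat_lit 0) (cs (lf (nat_lit 8) (nat_lit 227)) (nd (nat_lit 293) (nat_lit 0) (cs (lf (nat_lit 36) (nat_lit 205)) (lf (nat_lit 30) (nat_lit 227)))))))) q68198 (by decide +kernel)
def q68237 : Q := Q.p (nat_lit 0x38000040000c00003000008000000000000000000000000000000000000000000000000000000000) (nat_lit 0x440001a0000000000000000000000000000000000000000000000000000000000000000000000000) (nat_lit 3)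
theorem c68237 : QOK q68237 := cut [] trivial (nd (nat_lit 296) (nat_lit 0) (cs (lf (nat_lit 30) (nat_lit 230)) (nd (nat_lit 295) (nat_lit 0) (cs (lf (nat_lit 12) (nat_lit 271)) (lf (nat_lit 12) (nat_lit 292)))))) q68237 (by decide +kernel)
def q68256 : Q := Q.p (nat_lit 0x10000040000300000600000000000000000000000000000000000000000000000000000000000000) (nat_lit 0x8000060000380003e0000080000a0000080000000000000000000000000000000000000000000000000000000000000000000) (nat_lit 8)
theorem c68256 : QOK q68256 := cut [] trivial (nd (nat_lit 315) (nat_lit 0) (cs (lf (nat_lit 41) (nat_lit 249)) (nd (nat_lit 338) (nat_lit 0) (cs (lf (nat_lit 46) (nat_lit 249)) (nd (nat_lit 339) (nat_lit 0) (cs (lf (nat_lit 29) (nat_lit 272)) (nd (nat_lit 340) (nat_lit 0) (cs (lf (nat_lit 18) (nat_lit 315)) (nd (nat_lit 360) (nat_lit 0) (cs (lf (nat_lit 34) (nat_lit 272)) (nd (nat_lit 381) (nat_lit 0) (cs (lf (nat_lit 40) (nat_lit 293)) (nd (nat_lit 382) (nat_lit 0) (cs (lf (nat_lit 41) (nat_lit 315)) (lf (nat_lit 47) (nat_lit 293)))))))))))))))) q68256 (by decide +kernel)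
def q68309 : Q := Q.p (nat_lit 0x1f000000000000000000000000000000000000000000000000000000000000000000000000) (nat_lit 0xe00000000000000000000000000000000000000000000000000000000000000000000000000000) (nat_lit 2)
theorem c68309 : QOK q68309 := cut [] trivial (nd (nat_lit 310) (nat_lit 0) (cs (lf (nat_lit 11) (nat_lit 287)) (lf (nat_lit 10) (nat_lit 288)))) q68309 (by decide +kernel)
def q68332 : Q := Q.p (nat_lit 0x10000040000300000400000000000000000000000000000000000000000000000000000000000000) (nat_lit 0x80000380000e000008000080000000000000000000000000000000000000000000000000000000000000000000000000) (nat_lit 5)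
theorem c68332 : QOK q68332 := cut [] trivial (nd (nat_lit 337) (nat_lit 0) (cs (lf (nat_lit 40) (nat_lit 249)) (nd (nat_lit 338) (nat_lit 0) (cs (lf (nat_lit 41) (nat_lit 271)) (nd (nat_lit 361) (nat_lit 0) (cs (lf (nat_lit 28) (nat_lit 272)) (nd (nat_lit 360) (nat_lit 0) (cs (lf (nat_lit 29) (nat_lit 294)) (lf (nat_lit 34) (nat_lit 272)))))))))) q68332 (by decide +kernel)
def q68408 : Q := Q.p (nat_lit 0x1000024000010000040000000000000000000000000000000000000000000000000000000000000) (nat_lit 0xa00006800018000000000000000000000000000000000000000000000000000000000000000000000000) (nat_lit 4)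
theorem c68408 : QOK q68408 := cut [] trivial (nd (nat_lit 313) (nat_lit 0) (cs (lf (nat_lit 29) (nat_lit 246)) (nd (nat_lit 311) (nat_lit 0) (cs (lf (nat_lit 41) (nat_lit 245)) (nd (nat_lit 292) (nat_lit 0) (cs (lf (nat_lit 15) (nat_lit 289)) (lf (nat_lit 8) (nat_lit 289)))))))) q68408 (by decide +kernel)
def q68428 : Q := Q.p (nat_lit 0x1e0000000000200000800000000000000000000000000000000000000000000000000000000) (nat_lit 0x60000100000e0000100000000000000000000000000000000000000000000000000000000000000) (nat_lit 4)
theorem c68428 : QOK q68428 := cut [] trivial (nd (nat_lit 270) (nat_lit 0) (cs (lf (nat_lit 22) (nat_lit 270)) (nd (nat_lit 292) (nat_lit 0) (cs (lf (nat_lit 23) (nat_lit 269)) (nd (nat_lit 314) (nat_lit 0) (cs (lf (nat_lit 11) (nat_lit 291)) (lf (nat_lit 33) (nat_lit 226)))))))) q68428 (by decide +kernel)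
def q68571 : Q := Q.p (nat_lit 0x80000a0000780000200000000000000000000000000000000000000000000000000000000) (nat_lit 0x1000004000340000000000000000000000000000000000000000000000000000000000000000000) (nat_lit 3)
theorem c68571 : QOK q68571 := cut [] trivial (nd (nat_lit 290) (nat_lit 0) (cs (lf (nat_lit 41) (nat_lit 224)) (nd (nat_lit 272) (nat_lit 0) (cs (lf (nat_lit 5) (nat_lit 247)) (lf (nat_lit 8) (nat_lit 268)))))) q68571 (by decide +kernel)
def q68601 : Q := Q.p (nat_lit 0x800001c0000400000000000000000000000000000000000000000000000000000000) (nat_lit 0x40000020000800000000000000000000000000000000000000000000000000000000) (nat_lit 2)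
theorem c68601 : QOK q68601 := cut [] trivial (nd (nat_lit 245) (nat_lit 0) (cs (lf (nat_lit 17) (nat_lit 223)) (lf (nat_lit 4) (nat_lit 245)))) q68601 (by decide +kernel)
def q68656 : Q := Q.p (nat_lit 0x30000180000180000400000000000000000000000000000000000000000000000000000000) (nat_lit 0x200000c000060000000000000000000000000000000000000000000000000000000000000000000) (nat_lit 3)
theorem c68656 : QOK q68656 := cut [] trivial (nd (nat_lit 291) (nat_lit 0) (cs (lf (nat_lit 12) (nat_lit 268)) (nd (nat_lit 313) (nat_lit 0) (cs (lf (nat_lit 38) (nat_lit 225)) (lf (nat_lit 32) (nat_lit 225)))))) q68656 (by decide +kernel)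
def q68679 : Q := Q.p (nat_lit 0x100000c0000300000000000000000000000000000000000000000000000000000000000000) (nat_lit 0x1000004000000000000000000000800000000000000000000000000000000000000000000000000000000) (nat_lit 2)
theorem c68679 : QOK q68679 := cut [] trivial (nd (nat_lit 314) (nat_lit 0) (cs (lf (nat_lit 30) (nat_lit 248)) (lf (nat_lit 35) (nat_lit 226)))) q68679 (by decide +kernel)
def q68842 : Q := Q.p (nat_lit 0x9c0000600000000000000000000000000000000000000000000000000000000000000) (nat_lit 0x1000004000018000600000180000800000000000000000000000000000000000000000000000000000000) (nat_lit 5)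
theorem c68842 : QOK q68842 := cut [] trivial (nd (nat_lit 273) (nat_lit 0) (cs (lf (nat_lit 19) (nat_lit 249)) (nd (nat_lit 292) (nat_lit 0) (cs (lf (nat_lit 11) (nat_lit 269)) (nd (nat_lit 314) (nat_lit 0) (cs (lf (nat_lit 30) (nat_lit 248)) (nd (nat_lit 248) (nat_lit 0) (cs (lf (nat_lit 23) (nat_lit 247)) (lf (nat_lit 35) (nat_lit 226)))))))))) q68842 (by decide +kernel)
def q69048 : Q := Q.p (nat_lit 0x780000200000800000000000000000000000000000000000000000000000000) (nat_lit 0x100001c0003f0000000000400001400005000000000000000000000000000000000000000000000) (nat_lit 8)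
theorem c69048 : QOK q69048 := cut [] trivial (nd (nat_lit 269) (nat_lit 0) (cs (lf (nat_lit 11) (nat_lit 246)) (nd (nat_lit 272) (nat_lit 0) (cs (lf (nat_lit 5) (nat_lit 247)) (nd (nat_lit 180) (nat_lit 0) (cs (lf (nat_lit 46) (nat_lit 180)) (nd (nat_lit 270) (nat_lit 0) (cs (lf (nat_lit 29) (nat_lit 203)) (nd (nat_lit 204) (nat_lit 0) (cs (lf (nat_lit 35) (nat_lit 181)) (nd (nat_lit 291) (nat_lit 0) (cs (lf (nat_lit 37) (nat_lit 203)) (nd (nat_lit 290) (nat_lit 0) (cs (lf (nat_lit 41) (nat_lit 224)) (lf (nat_lit 7) (nat_lit 268)))))))))))))))) q69048 (by decide +kernel)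
def q69136 : Q := Q.p (nat_lit 0x280001a0000000000000000000000000000000000000000000000000000000000000000000) (nat_lit 0x14000040000000000000000000000000000000000000000000000000000000000000000000) (nat_lit 2)
theorem c69136 : QOK q69136 := cut [] trivial (nd (nat_lit 290) (nat_lit 0) (cs (lf (nat_lit 8) (nat_lit 268)) (lf (nat_lit 14) (nat_lit 268)))) q69136 (by decide +kernel)
def q69143 : Q := Q.p (nat_lit 0x60000180000780000000000000000000000000000000000000000000000000000000000000) (nat_lit 0x200008c000070000000000400001000000000000000000000000000000000000000000000000000) (nat_lit 5)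
theorem c69143 : QOK q69143 := cut [] trivial (nd (nat_lit 269) (nat_lit 0) (cs (lf (nat_lit 11) (nat_lit 246)) (nd (nat_lit 270) (nat_lit 0) (cs (lf (nat_lit 5) (nat_lit 269)) (nd (nat_lit 291) (nat_lit 0) (cs (lf (nat_lit 11) (nat_lit 268)) (nd (nat_lit 226) (nat_lit 0) (cs (lf (nat_lit 24) (nat_lit 204)) (lf (nat_lit 30) (nat_lit 225)))))))))) q69143 (by decide +kernel)
def q69158 : Q := Q.p (nat_lit 0x4000003000008000020000080000000000000000000000000000000000000000000000000000000000000) (nat_lit 0x400003800004000000000000000000000000000000000000000000000000000000000000000000000000000000) (nat_lit 3)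
theorem c69158 : QOK q69158 := cut [] trivial (nd (nat_lit 336) (nat_lit 0) (cs (lf (nat_lit 28) (nat_lit 247)) (nd (nat_lit 335) (nat_lit 0) (cs (lf (nat_lit 29) (nat_lit 269)) (lf (nat_lit 19) (nat_lit 312)))))) q69158 (by decide +kernel)
def q69170 : Q := Q.p (nat_lit 0x400001a0000080000000000000000000000000000000000000000000000000000000000000) (nat_lit 0x80000040000040000000000000000000000000000000000000000000000000000000000000) (nat_lit 2)
theorem c69170 : QOK q69170 := cut [] trivial (nd (nat_lit 270) (nat_lit 0) (cs (lf (nat_lit 23) (nat_lit 246)) (lf (nat_lit 5) (nat_lit 269)))) q69170 (by decide +kernel)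
def q69253 : Q := Q.p (nat_lit 0x38000900000600000000000000000000000000000000000000000000000000000000000000) (nat_lit 0x40000600000000000000000000000000000000000000000000000000000000000000000000) (nat_lit 2)
theorem c69253 : QOK q69253 := cut [] trivial (nd (nat_lit 273) (nat_lit 0) (cs (lf (nat_lit 19) (nat_lit 249)) (lf (nat_lit 15) (nat_lit 269)))) q69253 (by decide +kernel)
def q69335 : Q := Q.p (nat_lit 0x4000008000020000080000100000000000000000000000000000000000000000000000000000000) (nat_lit 0x1000002000000000000000040000000000000000000000000000000000000000000000000000000000000) (nat_lit 2)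
theorem c69335 : QOK q69335 := cut [] trivial (nd (nat_lit 313) (nat_lit 0) (cs (lf (nat_lit 29) (nat_lit 247)) (lf (nat_lit 46) (nat_lit 224)))) q69335 (by decide +kernel)
def q69367 : Q := Q.p (nat_lit 0x480001200000800042000030000000000000000000000000000000000000000) (nat_lit 0x10000040000c00006000038000000000000000000000000000000000000000000000) (nat_lit 5)
theorem c69367 : QOK q69367 := cut [] trivial (nd (nat_lit 246) (nat_lit 0) (cs (lf (nat_lit 41) (nat_lit 180)) (nd (nat_lit 227) (nat_lit 0) (cs (lf (nat_lit 8) (nat_lit 224)) (nd (nat_lit 183) (nat_lit 0) (cs (lf (nat_lit 26) (nat_lit 161)) (nd (nat_lit 184) (nat_lit 0) (cs (lf (nat_lit 44) (nat_lit 161)) (lf (nat_lit 19) (nat_lit 160)))))))))) q69367 (by decide +kernel)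
def q69373 : Q := Q.p (nat_lit 0x40000078000000000000000000000000000000000000000) (nat_lit 0x30000080000000000000000000000000000000000000000) (nat_lit 2)
theorem c69373 : QOK q69373 := cut [] trivial (nd (nat_lit 185) (nat_lit 0) (cs (lf (nat_lit 3) (nat_lit 160)) (lf (nat_lit 4) (nat_lit 159)))) q69373 (by decide +kernel)
def q69415 : Q := Q.p (nat_lit 0x1f000000000000000000000000000000000000000000000) (nat_lit 0xe0000000000000000000000000000000000000000) (nat_lit 2)
theorem c69415 : QOK q69415 := cut [] trivial (nd (nat_lit 162) (nat_lit 0) (cs (lf (nat_lit 17) (nat_lit 159)) (lf (nat_lit 16) (nat_lit 158)))) q69415 (by decide +kernel)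
def q69523 : Q := Q.p (nat_lit 0x8000020000680000200000000000000000000000000000000000000000000000000000000) (nat_lit 0xd00001400000000000000000000000000000000000000000000000000) (nat_lit 3)
theorem c69523 : QOK q69523 := cut [] trivial (nd (nat_lit 226) (nat_lit 0) (cs (lf (nat_lit 35) (nat_lit 203)) (nd (nat_lit 224) (nat_lit 0) (cs (lf (nat_lit 47) (nat_lit 202)) (lf (nat_lit 3) (nat_lit 224)))))) q69523 (by decide +kernel)
def q69564 : Q := Q.p (nat_lit 0xe000020000080000200000000000000000000000000000000000000000000000000000000) (nat_lit 0x1800057000000000400001000000000000000000000000000000000000000000000000000) (nat_lit 5)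
theorem c69564 : QOK q69564 := cut [] trivial (nd (nat_lit 288) (nat_lit 0) (cs (nd (nat_lit 204) (nat_lit 0) (cs (lf (nat_lit 34) (nat_lit 203)) (nd (nat_lit 265) (nat_lit 0) (cs (nd (nat_lit 287) (nat_lit 0) (cs (lf (nat_lit 16) (nat_lit 265)) (lf (nat_lit 23) (nat_lit 264)))) (lf (nat_lit 22) (nat_lit 265)))))) (lf (nat_lit 17) (nat_lit 266)))) q69564 (by decide +kernel)
def q69568 : Q := Q.p (nat_lit 0x1e00002000060000c000000000000000000000000000000000000000000000000000000000) (nat_lit 0xe00001000040000000003000000000000000000000000000000000000000000000000000000000) (nat_lit 4)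
theorem c69568 : QOK q69568 := cut [] trivial (nd (nat_lit 228) (nat_lit 0) (cs (lf (nat_lit 8) (nat_lit 227)) (nd (nat_lit 310) (nat_lit 0) (cs (lf (nat_lit 10) (nat_lit 288)) (nd (nat_lit 288) (nat_lit 0) (cs (lf (nat_lit 11) (nat_lit 287)) (lf (nat_lit 17) (nat_lit 266)))))))) q69568 (by decide +kernel)
def q69582 : Q := Q.p (nat_lit 0x10000000000000001e00000000000000000000000000000000000000000000000000) (nat_lit 0x600001c0000000000c00000000000000000000000000000000000000000000) (nat_lit 4)
theorem c69582 : QOK q69582 := cut [] trivial (nd (nat_lit 179) (nat_lit 0) (cs (lf (nat_lit 23) (nat_lit 178)) (nd (nat_lit 223) (nat_lit 0) (cs (lf (nat_lit 11) (nat_lit 200)) (nd (nat_lit 246) (nat_lit 0) (cs (lf (nat_lit 44) (nat_lit 179)) (lf (nat_lit 27) (nat_lit 179)))))))) q69582 (by decide +kernel)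
def q69594 : Q := Q.p (nat_lit 0xe000030000000000000000000000000000000000000000000000000000000000000000000) (nat_lit 0x1800040000000000000000000000000000000000000000000000000000000000000000000) (nat_lit 2)
theorem c69594 : QOK q69594 := cut [] trivial (nd (nat_lit 288) (nat_lit 0) (cs (lf (nat_lit 12) (nat_lit 265)) (lf (nat_lit 17) (nat_lit 266)))) q69594 (by decide +kernel)
def q69612 : Q := Q.p (nat_lit 0x20000080000300000800002000000000000000000000000000000000000000000000) (nat_lit 0x400005000018000060000000000000000000000000000000000) (nat_lit 4)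
theorem c69612 : QOK q69612 := cut [] trivial (nd (nat_lit 160) (nat_lit 0) (cs (lf (nat_lit 34) (nat_lit 159)) (nd (nat_lit 159) (nat_lit 0) (cs (lf (nat_lit 35) (nat_lit 137)) (nd (nat_lit 202) (nat_lit 0) (cs (lf (nat_lit 47) (nat_lit 180)) (lf (nat_lit 36) (nat_lit 136)))))))) q69612 (by decide +kernel)
def q69623 : Q := Q.p (nat_lit 0x40000300000c00000000000000000000000000000000000000000000) (nat_lit 0x10000000000000000000002000008000000000000000000000000000000000) (nat_lit 2)
theorem c69623 : QOK q69623 := cut [] trivial (nd (nat_lit 157) (nat_lit 0) (cs (lf (nat_lit 30) (nat_lit 156)) (lf (nat_lit 36) (nat_lit 134)))) q69623 (by decide +kernel)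
def q69639 : Q := Q.p (nat_lit 0x80000300000c00002000000000000000000000000000000000000000000000) (nat_lit 0x4000018000060000000000000000000000000000000000) (nat_lit 3)
theorem c69639 : QOK q69639 := cut [] trivial (nd (nat_lit 160) (nat_lit 0) (cs (lf (nat_lit 34) (nat_lit 159)) (nd (nat_lit 159) (nat_lit 0) (cs (lf (nat_lit 35) (nat_lit 137)) (lf (nat_lit 36) (nat_lit 136)))))) q69639 (by decide +kernel)
def q69662 : Q := Q.p (nat_lit 0x3c000080000000000000000000000000000000000000000000000000000000000000) (nat_lit 0x1c00002000040000000000000000000000000000000000000000000000000000000000000) (nat_lit 3)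
theorem c69662 : QOK q69662 := cut [] trivial (nd (nat_lit 287) (nat_lit 0) (cs (lf (nat_lit 10) (nat_lit 265)) (nd (nat_lit 265) (nat_lit 0) (cs (lf (nat_lit 16) (nat_lit 243)) (lf (nat_lit 11) (nat_lit 264)))))) q69662 (by decide +kernel)
def q69665 : Q := Q.p (nat_lit 0x3e000000000000000000000000000000000000000000000000000000000000000000) (nat_lit 0x1c000000000000000000000000000000000000000000000000000000000000) (nat_lit 2)
theorem c69665 : QOK q69665 := cut [] trivial (nd (nat_lit 243) (nat_lit 0) (cs (lf (nat_lit 22) (nat_lit 243)) (lf (nat_lit 23) (nat_lit 242)))) q69665 (by decide +kernel)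
def q69673 : Q := Q.p (nat_lit 0x300003c000000000000000000000000000000000000000000000000000000000000000000) (nat_lit 0x800000000000000018000040000100000000000000000000000000000000000000000000000000) (nat_lit 3)
theorem c69673 : QOK q69673 := cut [] trivial (nd (nat_lit 244) (nat_lit 0) (cs (lf (nat_lit 23) (nat_lit 243)) (nd (nat_lit 222) (nat_lit 0) (cs (lf (nat_lit 24) (nat_lit 200)) (lf (nat_lit 29) (nat_lit 222)))))) q69673 (by decide +kernel)
def q69691 : Q := Q.p (nat_lit 0x78000000000000000000000000000000000000000000000000000000000000000000) (nat_lit 0x3800004000038000000000000000000000000000000000000000000000000000000000000) (nat_lit 4)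
theorem c69691 : QOK q69691 := cut [] trivial (nd (nat_lit 244) (nat_lit 0) (cs (lf (nat_lit 22) (nat_lit 244)) (nd (nat_lit 288) (nat_lit 0) (cs (lf (nat_lit 10) (nat_lit 266)) (nd (nat_lit 266) (nat_lit 0) (cs (lf (nat_lit 23) (nat_lit 243)) (lf (nat_lit 11) (nat_lit 265)))))))) q69691 (by decide +kernel)
def q69767 : Q := Q.p (nat_lit 0x3e00000000000000000000000000000000000000000000) (nat_lit 0x1c00000000000000000000000000000000000000) (nat_lit 2)
theorem c69767 : QOK q69767 := cut [] trivial (nd (nat_lit 155) (nat_lit 0) (cs (lf (nat_lit 23) (nat_lit 154)) (lf (nat_lit 22) (nat_lit 155)))) q69767 (by decide +kernel)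
def q69800 : Q := Q.p (nat_lit 0x680004600030000000000000000000000000000000000000000000000000000) (nat_lit 0x40003900000000000000000000000000000000000000000000000000000000) (nat_lit 3)
theorem c69800 : QOK q69800 := cut [] trivial (nd (nat_lit 227) (nat_lit 0) (cs (lf (nat_lit 0) (nat_lit 224)) (nd (nat_lit 228) (nat_lit 0) (cs (lf (nat_lit 14) (nat_lit 205)) (lf (nat_lit 11) (nat_lit 224)))))) q69800 (by decide +kernel)
def q69832 : Q := Q.p (nat_lit 0x40000100000780001000000000000000000000000000000000000000000000000000000000) (nat_lit 0x2f0000b8000070000000000400000000000000000000000000000000000000000000000000000000) (nat_lit 7)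
theorem c69832 : QOK q69832 := cut [] trivial (nd (nat_lit 293) (nat_lit 0) (cs (lf (nat_lit 41) (nat_lit 227)) (nd (nat_lit 269) (nat_lit 0) (cs (lf (nat_lit 11) (nat_lit 246)) (nd (nat_lit 295) (nat_lit 0) (cs (lf (nat_lit 29) (nat_lit 228)) (nd (nat_lit 292) (nat_lit 0) (cs (lf (nat_lit 22) (nat_lit 269)) (nd (nat_lit 313) (nat_lit 0) (cs (lf (nat_lit 10) (nat_lit 291)) (nd (nat_lit 291) (nat_lit 0) (cs (lf (nat_lit 11) (nat_lit 290)) (lf (nat_lit 35) (nat_lit 225)))))))))))))) q69832 (by decide +kernel)
def q69868 : Q := Q.p (nat_lit 0x1000002000008000020000100000000000000000000000000000000000000000000000000000000000000) (nat_lit 0x400000800000000000000040000000000000000000000000000000000000000000000000000000000000000000) (nat_lit 2)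
theorem c69868 : QOK q69868 := cut [] trivial (nd (nat_lit 335) (nat_lit 0) (cs (lf (nat_lit 29) (nat_lit 269)) (lf (nat_lit 34) (nat_lit 247)))) q69868 (by decide +kernel)
def q69944 : Q := Q.p (nat_lit 0x7c0000000000000000000000000000000000000000000000000000000) (nat_lit 0x380000000000000000000000000000000000000000000000000) (nat_lit 2)
theorem c69944 : QOK q69944 := cut [] trivial (nd (nat_lit 200) (nat_lit 0) (cs (lf (nat_lit 23) (nat_lit 199)) (lf (nat_lit 22) (nat_lit 200)))) q69944 (by decide +kernel)
def q69991 : Q := Q.p (nat_lit 0x1000004000030000080000000000000000000000000000000000000000000000000000000000000) (nat_lit 0x8000000000000000200000800000000000000000000000000000000000000000000000000) (nat_lit 2)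
theorem c69991 : QOK q69991 := cut [] trivial (nd (nat_lit 225) (nat_lit 0) (cs (lf (nat_lit 39) (nat_lit 224)) (lf (nat_lit 36) (nat_lit 202)))) q69991 (by decide +kernel)
def q70015 : Q := Q.p (nat_lit 0x1e000020000080000000000000000000000000000000000000000000000000000000000000) (nat_lit 0x40000100000c000000000040000000000000000000000000000000000000000000000000000000000000000000) (nat_lit 3)
theorem c70015 : QOK q70015 := cut [] trivial (nd (nat_lit 314) (nat_lit 0) (cs (lf (nat_lit 5) (nat_lit 289)) (nd (nat_lit 336) (nat_lit 0) (cs (lf (nat_lit 42) (nat_lit 269)) (lf (nat_lit 45) (nat_lit 247)))))) q70015 (by decide +kernel)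
def q70026 : Q := Q.p (nat_lit 0x200003800060000c000000000000000000000000000000000000000000000000000000000) (nat_lit 0x5c00040000000003000000000000000000000000000000000000000000000000000000000) (nat_lit 4)
theorem c70026 : QOK q70026 := cut [] trivial (nd (nat_lit 228) (nat_lit 0) (cs (lf (nat_lit 8) (nat_lit 227)) (nd (nat_lit 288) (nat_lit 0) (cs (nd (nat_lit 287) (nat_lit 0) (cs (lf (nat_lit 15) (nat_lit 265)) (lf (nat_lit 12) (nat_lit 264)))) (lf (nat_lit 6) (nat_lit 266)))))) q70026 (by decide +kernel)
def q70027 : Q := Q.p (nat_lit 0x2000038000020000000000000000000000000000000000000000000000000000000000000) (nat_lit 0x1000040000010000000000000000000000000000000000000000000000000000000000000) (nat_lit 2)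
theorem c70027 : QOK q70027 := cut [] trivial (nd (nat_lit 270) (nat_lit 0) (cs (lf (nat_lit 11) (nat_lit 266)) (lf (nat_lit 23) (nat_lit 244)))) q70027 (by decide +kernel)
def q70032 : Q := Q.p (nat_lit 0x3000008000020000000000000000000000000000000000000000000000000000000000000) (nat_lit 0x40000100000c00000000000000000000080000000000000000000000000000000000000000000000000000000) (nat_lit 3)
theorem c70032 : QOK q70032 := cut [] trivial (nd (nat_lit 310) (nat_lit 0) (cs (nd (nat_lit 332) (nat_lit 0) (cs (lf (nat_lit 30) (nat_lit 266)) (lf (nat_lit 39) (nat_lit 244)))) (lf (nat_lit 36) (nat_lit 222)))) q70032 (by decide +kernel)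
def q70044 : Q := Q.p (nat_lit 0x80001a000018000000000000000000000000000000000000000000000000000000000000000000) (nat_lit 0x80000200000400004000000000040000000000000000000000000000000000000000000000000000000000000) (nat_lit 3)
theorem c70044 : QOK q70044 := cut [] trivial (nd (nat_lit 290) (nat_lit 0) (cs (lf (nat_lit 11) (nat_lit 288)) (nd (nat_lit 333) (nat_lit 0) (cs (lf (nat_lit 30) (nat_lit 267)) (lf (nat_lit 35) (nat_lit 245)))))) q70044 (by decide +kernel)
def q70049 : Q := Q.p (nat_lit 0x80000200001800060000c000000000000000000000000000000000000000000000000000000000) (nat_lit 0x200000000000000000000060003100000400000000000000000000000000000000000000000000000000) (nat_lit 4)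
theorem c70049 : QOK q70049 := cut [] trivial (nd (nat_lit 228) (nat_lit 0) (cs (lf (nat_lit 8) (nat_lit 227)) (nd (nat_lit 246) (nat_lit 0) (cs (lf (nat_lit 30) (nat_lit 245)) (nd (nat_lit 224) (nat_lit 0) (cs (lf (nat_lit 36) (nat_lit 201)) (lf (nat_lit 33) (nat_lit 223)))))))) q70049 (by decide +kernel)
def q70071 : Q := Q.p (nat_lit 0x800002000008000020000080000000000000000000000000000000000000000000000000000000000000) (nat_lit 0x40000100000400000000000000000000000000000000000000000000000000000000) (nat_lit 2)
theorem c70071 : QOK q70071 := cut [] trivial (nd (nat_lit 248) (nat_lit 0) (cs (lf (nat_lit 35) (nat_lit 225)) (lf (nat_lit 34) (nat_lit 247)))) q70071 (by decide +kernel)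
def q70078 : Q := Q.p (nat_lit 0xe00000c000000000000000000000000000000000000000000000000000000000000000000000000) (nat_lit 0x13000000000000000000000000000000000000000000000000000000000000000000000000) (nat_lit 2)
theorem c70078 : QOK q70078 := cut [] trivial (nd (nat_lit 289) (nat_lit 0) (cs (lf (nat_lit 0) (nat_lit 288)) (lf (nat_lit 3) (nat_lit 289)))) q70078 (by decide +kernel)
def q70085 : Q := Q.p (nat_lit 0xf000020000000000000000000000000000000000000000000000000000000000000000000000000) (nat_lit 0x800017000000000000000000000000000000000000000000000000000000000000000000000000) (nat_lit 3)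
theorem c70085 : QOK q70085 := cut [] trivial (nd (nat_lit 289) (nat_lit 0) (cs (lf (nat_lit 22) (nat_lit 289)) (nd (nat_lit 311) (nat_lit 0) (cs (lf (nat_lit 23) (nat_lit 288)) (lf (nat_lit 16) (nat_lit 289)))))) q70085 (by decide +kernel)
def q70098 : Q := Q.p (nat_lit 0x1400002000008000020000000000000000000000000000000000000000000000000000000000000000000) (nat_lit 0x500000800000000000000000000000000000000000000000000000000000000000000000000000000000000000) (nat_lit 2)
theorem c70098 : QOK q70098 := cut [] trivial (nd (nat_lit 335) (nat_lit 0) (cs (lf (nat_lit 41) (nat_lit 268)) (lf (nat_lit 29) (nat_lit 269)))) q70098 (by decide +kernel)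
def q70190 : Q := Q.p (nat_lit 0x8000020000780000000000000000000000000000000000000000000000000000000000000) (nat_lit 0x2000000000000000040000380000000000000000000000000000000000000000000000000000000) (nat_lit 3)
theorem c70190 : QOK q70190 := cut [] trivial (nd (nat_lit 224) (nat_lit 0) (cs (lf (nat_lit 22) (nat_lit 224)) (nd (nat_lit 246) (nat_lit 0) (cs (lf (nat_lit 23) (nat_lit 223)) (lf (nat_lit 42) (nat_lit 224)))))) q70190 (by decide +kernel)
def q70195 : Q := Q.p (nat_lit 0x20000180000200000800000000000000000000000000000000000000000000000000) (nat_lit 0x40000000000000000400003000004000000000000000000000000000000000000000) (nat_lit 3)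
theorem c70195 : QOK q70195 := cut [] trivial (nd (nat_lit 180) (nat_lit 0) (cs (lf (nat_lit 46) (nat_lit 180)) (nd (nat_lit 181) (nat_lit 0) (cs (lf (nat_lit 47) (nat_lit 158)) (lf (nat_lit 29) (nat_lit 181)))))) q70195 (by decide +kernel)
def q70235 : Q := Q.p (nat_lit 0x1f0000000000000000000000000000000000000000000000000000000000000) (nat_lit 0xe000000000000000000000000000000000000000000000000000000000000000000) (nat_lit 2)
theorem c70235 : QOK q70235 := cut [] trivial (nd (nat_lit 266) (nat_lit 0) (cs (lf (nat_lit 10) (nat_lit 244)) (lf (nat_lit 11) (nat_lit 243)))) q70235 (by decide +kernel)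
def q70250 : Q := Q.p (nat_lit 0x8000020000000000b0000040000000000000000000000000000000000000000000000) (nat_lit 0x1000006000040000020000000000000000000000000000000000000000000000) (nat_lit 3)
theorem c70250 : QOK q70250 := cut [] trivial (nd (nat_lit 230) (nat_lit 0) (cs (lf (nat_lit 27) (nat_lit 186)) (nd (nat_lit 210) (nat_lit 0) (cs (lf (nat_lit 23) (nat_lit 185)) (lf (nat_lit 11) (nat_lit 207)))))) q70250 (by decide +kernel)
def q70263 : Q := Q.p (nat_lit 0x20000180000600000000000000000000000000000000000000000000000000000000000000) (nat_lit 0x8000000000000000000001000004000000000000000000000000000000000000000000000000000) (nat_lit 2)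
theorem c70263 : QOK q70263 := cut [] trivial (nd (nat_lit 228) (nat_lit 0) (cs (lf (nat_lit 36) (nat_lit 205)) (lf (nat_lit 30) (nat_lit 227)))) q70263 (by decide +kernel)
def q70275 : Q := Q.p (nat_lit 0x1c000008000020000080000000000000000000000000000000000000000000000000000000000000) (nat_lit 0x20000010000000000000000200000000000000000000000000000000000000000000000000000000) (nat_lit 2)
theorem c70275 : QOK q70275 := cut [] trivial (nd (nat_lit 292) (nat_lit 0) (cs (lf (nat_lit 18) (nat_lit 291)) (lf (nat_lit 24) (nat_lit 225)))) q70275 (by decide +kernel)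
def q70279 : Q := Q.p (nat_lit 0xe000028000080000200000000000000000000000000000000000000000000000000000000000000) (nat_lit 0x4000010000004000000000000000000000000000000000000000000000000000000000000000000000000) (nat_lit 2)
theorem c70279 : QOK q70279 := cut [] trivial (nd (nat_lit 316) (nat_lit 0) (cs (lf (nat_lit 23) (nat_lit 290)) (lf (nat_lit 29) (nat_lit 249)))) q70279 (by decide +kernel)
def q70283 : Q := Q.p (nat_lit 0xc000028000180000200000000000000000000000000000000000000000000000000000000000000) (nat_lit 0x4000030000014000000000000000000000000000000000000000000000000000000000000000000000000) (nat_lit 3)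
theorem c70283 : QOK q70283 := cut [] trivial (nd (nat_lit 316) (nat_lit 0) (cs (lf (nat_lit 29) (nat_lit 249)) (nd (nat_lit 292) (nat_lit 0) (cs (lf (nat_lit 12) (nat_lit 268)) (lf (nat_lit 18) (nat_lit 291)))))) q70283 (by decide +kernel)
def q70300 : Q := Q.p (nat_lit 0x100000c0000100000400000000000000000000000000000000000000000000000000000000000000) (nat_lit 0x8000020000000000000000000001000000000000000000000000000000000000000000000000000000000) (nat_lit 2)
theorem c70300 : QOK q70300 := cut [] trivial (nd (nat_lit 317) (nat_lit 0) (cs (lf (nat_lit 29) (nat_lit 250)) (lf (nat_lit 24) (nat_lit 228)))) q70300 (by decide +kernel)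
def q70394 : Q := Q.p (nat_lit 0x8000000000180000600000000000000000000000000000000000000000000000000000000000000) (nat_lit 0x2000000000020000000000000001000000000000000000000000000000000000000000000000000000000) (nat_lit 2)
theorem c70394 : QOK q70394 := cut [] trivial (nd (nat_lit 293) (nat_lit 0) (cs (lf (nat_lit 30) (nat_lit 249)) (lf (nat_lit 35) (nat_lit 227)))) q70394 (by decide +kernel)
def q70396 : Q := Q.p (nat_lit 0x80000100000c0000300000000000000000000000000000000000000000000000000000000000000) (nat_lit 0x3000004000000000000000000000000000000000000000000000000000000000000000000000000000000) (nat_lit 2)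
theorem c70396 : QOK q70396 := cut [] trivial (nd (nat_lit 314) (nat_lit 0) (cs (lf (nat_lit 30) (nat_lit 248)) (lf (nat_lit 29) (nat_lit 248)))) q70396 (by decide +kernel)
def q70433 : Q := Q.p (nat_lit 0xb00000c0000300000000000000000000000000000000000000000000000000000000000000) (nat_lit 0x1800006000040000000000000000000000000000000000000000000000000000000000000000000000000) (nat_lit 3)
theorem c70433 : QOK q70433 := cut [] trivial (nd (nat_lit 314) (nat_lit 0) (cs (lf (nat_lit 30) (nat_lit 248)) (nd (nat_lit 313) (nat_lit 0) (cs (lf (nat_lit 41) (nat_lit 247)) (lf (nat_lit 7) (nat_lit 291)))))) q70433 (by decide +kernel)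
def q70444 : Q := Q.p (nat_lit 0x120000680000000000000000000000000000000000000000000000000000000000000) (nat_lit 0x210000100000000000000000000000000000000000000000000000000000000000000) (nat_lit 2)
theorem c70444 : QOK q70444 := cut [] trivial (nd (nat_lit 248) (nat_lit 0) (cs (lf (nat_lit 11) (nat_lit 246)) (lf (nat_lit 5) (nat_lit 247)))) q70444 (by decide +kernel)
def q70546 : Q := Q.p (nat_lit 0xe000820002080000200010000040000000000000000000000000000000000000000000000) (nat_lit 0x4e00011000040001000004000000000000000000000000000000000000000000000000000000000) (nat_lit 5)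
theorem c70546 : QOK q70546 := cut [] trivial (nd (nat_lit 230) (nat_lit 0) (cs (lf (nat_lit 27) (nat_lit 186)) (nd (nat_lit 288) (nat_lit 0) (cs (lf (nat_lit 17) (nat_lit 266)) (nd (nat_lit 310) (nat_lit 0) (cs (lf (nat_lit 11) (nat_lit 287)) (nd (nat_lit 292) (nat_lit 0) (cs (lf (nat_lit 29) (nat_lit 225)) (lf (nat_lit 10) (nat_lit 288)))))))))) q70546 (by decide +kernel)
def q70569 : Q := Q.p (nat_lit 0x3c000020000000000000000000000000000000000000000000000000000000000000000000) (nat_lit 0x40000018000000000000000000000000000000000000000000000000000000000000000000) (nat_lit 2)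
theorem c70569 : QOK q70569 := cut [] trivial (nd (nat_lit 268) (nat_lit 0) (cs (lf (nat_lit 23) (nat_lit 267)) (lf (nat_lit 18) (nat_lit 268)))) q70569 (by decide +kernel)
def q70577 : Q := Q.p (nat_lit 0x400002000008000020000040000000000000000000000000000000000000000000000000000000000000) (nat_lit 0x100000800000000000000010000000000000000000000000000000000000000000000000000000000000000000) (nat_lit 2)
theorem c70577 : QOK q70577 := cut [] trivial (nd (nat_lit 335) (nat_lit 0) (cs (lf (nat_lit 41) (nat_lit 268)) (lf (nat_lit 46) (nat_lit 246)))) q70577 (by decide +kernel)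
def q70588 : Q := Q.p (nat_lit 0x3000028000000000000000000000000000000000000000000000000000000000000000000000000) (nat_lit 0xc00054000000000000000000000000000000000000000000000000000000000000000000000000) (nat_lit 3)
theorem c70588 : QOK q70588 := cut [] trivial (nd (nat_lit 292) (nat_lit 0) (cs (lf (nat_lit 6) (nat_lit 290)) (nd (nat_lit 311) (nat_lit 0) (cs (lf (nat_lit 12) (nat_lit 288)) (lf (nat_lit 9) (nat_lit 289)))))) q70588 (by decide +kernel)
def q70659 : Q := Q.p (nat_lit 0x4000058000180000600000000000000000000000000000000000000000000000000000000000000) (nat_lit 0x6000038000000000000000000000000000000000000000000000000000000000000000000000000000000) (nat_lit 3)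
theorem c70659 : QOK q70659 := cut [] trivial (nd (nat_lit 316) (nat_lit 0) (cs (lf (nat_lit 42) (nat_lit 249)) (nd (nat_lit 315) (nat_lit 0) (cs (lf (nat_lit 41) (nat_lit 249)) (lf (nat_lit 18) (nat_lit 291)))))) q70659 (by decide +kernel)
def q70672 : Q := Q.p (nat_lit 0x70000600000000000000000000000000000000000000000000000000000000000000) (nat_lit 0x8000180000000000000000000000000000000000000000000000000000000000000) (nat_lit 2)
theorem c70672 : QOK q70672 := cut [] trivial (nd (nat_lit 248) (nat_lit 0) (cs (lf (nat_lit 12) (nat_lit 245)) (lf (nat_lit 9) (nat_lit 246)))) q70672 (by decide +kernel)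
def q70722 : Q := Q.p (nat_lit 0xc000030000080000200000000000000000000000000000000000000000000000000000000) (nat_lit 0x600001800006000000000000000040000100000400000000000000000000000000000000000000000000000000) (nat_lit 5)
theorem c70722 : QOK q70722 := cut [] trivial (nd (nat_lit 224) (nat_lit 0) (cs (lf (nat_lit 47) (nat_lit 202)) (nd (nat_lit 313) (nat_lit 0) (cs (nd (nat_lit 336) (nat_lit 0) (cs (lf (nat_lit 28) (nat_lit 247)) (nd (nat_lit 335) (nat_lit 0) (cs (lf (nat_lit 29) (nat_lit 269)) (lf (nat_lit 42) (nat_lit 268)))))) (lf (nat_lit 25) (nat_lit 224)))))) q70722 (by decide +kernel)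
def q70732 : Q := Q.p (nat_lit 0x1000004000030000080000000000000000000000000000000000000000000000000000000000000) (nat_lit 0x40000200000800000000000000000000000000000000000000000000000000) (nat_lit 2)
theorem c70732 : QOK q70732 := cut [] trivial (nd (nat_lit 225) (nat_lit 0) (cs (lf (nat_lit 36) (nat_lit 202)) (lf (nat_lit 33) (nat_lit 224)))) q70732 (by decide +kernel)
def q70737 : Q := Q.p (nat_lit 0x700000c000000000000000000000000000000000000000000000000000000000000000000000000) (nat_lit 0x8000003000000000000000000000000000000000000000000000000000000000000000000000000) (nat_lit 2)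
theorem c70737 : QOK q70737 := cut [] trivial (nd (nat_lit 289) (nat_lit 0) (cs (lf (nat_lit 0) (nat_lit 288)) (lf (nat_lit 18) (nat_lit 289)))) q70737 (by decide +kernel)
def q70764 : Q := Q.p (nat_lit 0x800002000018000040000000000000000000000000000000000000000000000000000000000000) (nat_lit 0x4000000000000000100000400000000000000000000000000000000000000000000000000) (nat_lit 2)
theorem c70764 : QOK q70764 := cut [] trivial (nd (nat_lit 224) (nat_lit 0) (cs (lf (nat_lit 39) (nat_lit 223)) (lf (nat_lit 36) (nat_lit 201)))) q70764 (by decide +kernel)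
def q70777 : Q := Q.p (nat_lit 0x800002000018000000000000000000000000000000000000000000000000000000000000000000) (nat_lit 0x500001c0000700000000000000000000040000000000000000000000000000000000000000000000000000000000000) (nat_lit 5)
theorem c70777 : QOK q70777 := cut [] trivial (nd (nat_lit 333) (nat_lit 0) (cs (lf (nat_lit 35) (nat_lit 245)) (nd (nat_lit 354) (nat_lit 0) (cs (lf (nat_lit 40) (nat_lit 266)) (nd (nat_lit 356) (nat_lit 0) (cs (nd (nat_lit 355) (nat_lit 0) (cs (lf (nat_lit 41) (nat_lit 288)) (lf (nat_lit 29) (nat_lit 289)))) (lf (nat_lit 28) (nat_lit 267)))))))) q70777 (by decide +kernel)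
def q70793 : Q := Q.p (nat_lit 0x1a0000600000000000000000000000000000000000000000000000000000000000000) (nat_lit 0xc0000300000fc000250000000000000000000000000000000000000000000000000000000000000000000) (nat_lit 7)
theorem c70793 : QOK q70793 := cut [] trivial (nd (nat_lit 270) (nat_lit 0) (cs (lf (nat_lit 12) (nat_lit 246)) (nd (nat_lit 294) (nat_lit 0) (cs (lf (nat_lit 5) (nat_lit 269)) (nd (nat_lit 316) (nat_lit 0) (cs (lf (nat_lit 42) (nat_lit 249)) (nd (nat_lit 317) (nat_lit 0) (cs (lf (nat_lit 29) (nat_lit 250)) (nd (nat_lit 291) (nat_lit 0) (cs (lf (nat_lit 11) (nat_lit 268)) (nd (nat_lit 292) (nat_lit 0) (cs (lf (nat_lit 2) (nat_lit 291)) (lf (nat_lit 6) (nat_lit 269)))))))))))))) q70793 (by decide +kernel)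
def q70845 : Q := Q.p (nat_lit 0x8000020000080000200000000000000000000000000000000000000000000000000000000) (nat_lit 0x1400007000014000000000000000000000000000000000000000000000000000000000000000000000000) (nat_lit 4)
theorem c70845 : QOK q70845 := cut [] trivial (nd (nat_lit 312) (nat_lit 0) (cs (lf (nat_lit 40) (nat_lit 224)) (nd (nat_lit 313) (nat_lit 0) (cs (lf (nat_lit 41) (nat_lit 246)) (nd (nat_lit 314) (nat_lit 0) (cs (lf (nat_lit 29) (nat_lit 247)) (lf (nat_lit 28) (nat_lit 225)))))))) q70845 (by decide +kernel)
def q70883 : Q := Q.p (nat_lit 0xa000060000080000200000000000000000000000000000000000000000000000000000000000000) (nat_lit 0x1000005000000000000000000000000000000000000000000000000000000000000000000000000000000) (nat_lit 2)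
theorem c70883 : QOK q70883 := cut [] trivial (nd (nat_lit 314) (nat_lit 0) (cs (lf (nat_lit 41) (nat_lit 248)) (lf (nat_lit 12) (nat_lit 290)))) q70883 (by decide +kernel)
def q70965 : Q := Q.p (nat_lit 0x20000080000300000800000000000000000000000000000000000000000000000000) (nat_lit 0x4c0007000004000000000000000000000000000000000000000000000) (nat_lit 4)
theorem c70965 : QOK q70965 := cut [] trivial (nd (nat_lit 204) (nat_lit 0) (cs (lf (nat_lit 35) (nat_lit 181)) (nd (nat_lit 205) (nat_lit 0) (cs (lf (nat_lit 6) (nat_lit 202)) (nd (nat_lit 223) (nat_lit 0) (cs (lf (nat_lit 12) (nat_lit 200)) (lf (nat_lit 15) (nat_lit 201)))))))) q70965 (by decide +kernel)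
def q71029 : Q := Q.p (nat_lit 0x30000080000200000000000000000000000000000000000000000000000000000000) (nat_lit 0x4000000000040000000001800006000010000000000000000000000000000000000000000) (nat_lit 4)
theorem c71029 : QOK q71029 := cut [] trivial (nd (nat_lit 203) (nat_lit 0) (cs (lf (nat_lit 41) (nat_lit 202)) (nd (nat_lit 182) (nat_lit 0) (cs (lf (nat_lit 34) (nat_lit 181)) (nd (nat_lit 181) (nat_lit 0) (cs (lf (nat_lit 35) (nat_lit 159)) (lf (nat_lit 40) (nat_lit 180)))))))) q71029 (by decide +kernel)
def q71083 : Q := Q.p (nat_lit 0x8000000000100000600001000000000000000000000000000000000000000000000000000000000) (nat_lit 0x60000080000000000000000000000000000000000000000000000000000000000000000000) (nat_lit 2)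
theorem c71083 : QOK q71083 := cut [] trivial (nd (nat_lit 293) (nat_lit 0) (cs (lf (nat_lit 39) (nat_lit 227)) (lf (nat_lit 32) (nat_lit 227)))) q71083 (by decide +kernel)
def q71119 : Q := Q.p (nat_lit 0x3c000000000800002000000000000000000000000000000000000000000000000000000000000000) (nat_lit 0x38000040000180000400000000000000000000000000000000000000000000000000000000000000000000) (nat_lit 4)
theorem c71119 : QOK q71119 := cut [] trivial (nd (nat_lit 296) (nat_lit 0) (cs (lf (nat_lit 16) (nat_lit 292)) (nd (nat_lit 340) (nat_lit 0) (cs (lf (nat_lit 4) (nat_lit 314)) (nd (nat_lit 318) (nat_lit 0) (cs (lf (nat_lit 5) (nat_lit 315)) (lf (nat_lit 33) (nat_lit 252)))))))) q71119 (by decide +kernel)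
def q71170 : Q := Q.p (nat_lit 0x1e0000080000200000000000000000000000000000000000000000000000000000000) (nat_lit 0xc000000000000000500001c00005000000000000000000000000000000000000000000000) (nat_lit 5)
theorem c71170 : QOK q71170 := cut [] trivial (nd (nat_lit 291) (nat_lit 0) (cs (lf (nat_lit 11) (nat_lit 268)) (nd (nat_lit 204) (nat_lit 0) (cs (lf (nat_lit 34) (nat_lit 203)) (nd (nat_lit 202) (nat_lit 0) (cs (lf (nat_lit 46) (nat_lit 202)) (nd (nat_lit 203) (nat_lit 0) (cs (lf (nat_lit 35) (nat_lit 181)) (lf (nat_lit 47) (nat_lit 180)))))))))) q71170 (by decide +kernel)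
def q71208 : Q := Q.p (nat_lit 0xd0000380000000000000000000000000000000000000000000000000000000) (nat_lit 0x8000060000000000000000000000000000000000000000000000000000000) (nat_lit 2)
theorem c71208 : QOK q71208 := cut [] trivial (nd (nat_lit 222) (nat_lit 0) (cs (lf (nat_lit 0) (nat_lit 221)) (lf (nat_lit 11) (nat_lit 221)))) q71208 (by decide +kernel)
def q71219 : Q := Q.p (nat_lit 0x3e000000000000000000000000000000000000000000000000000000000000000000) (nat_lit 0x1c000000000000000000000000000000000000000000000000000000000000000000000000) (nat_lit 2)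
theorem c71219 : QOK q71219 := cut [] trivial (nd (nat_lit 291) (nat_lit 0) (cs (lf (nat_lit 5) (nat_lit 266)) (lf (nat_lit 4) (nat_lit 265)))) q71219 (by decide +kernel)
def q71255 : Q := Q.p (nat_lit 0xc000030000040000000000000000000000000000000000000000000000000000000000000) (nat_lit 0x2000000000000000000000100000400000000000000000000000000000000000000000000000000) (nat_lit 2)
theorem c71255 : QOK q71255 := cut [] trivial (nd (nat_lit 224) (nat_lit 0) (cs (lf (nat_lit 24) (nat_lit 202)) (lf (nat_lit 29) (nat_lit 224)))) q71255 (by decide +kernel)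
def q71264 : Q := Q.p (nat_lit 0x600001c0000000000000000000000000000000000000000000000000000000) (nat_lit 0x80000030000000000000000000000000000000000000000000000000000000) (nat_lit 2)
theorem c71264 : QOK q71264 := cut [] trivial (nd (nat_lit 221) (nat_lit 0) (cs (lf (nat_lit 0) (nat_lit 220)) (lf (nat_lit 5) (nat_lit 221)))) q71264 (by decide +kernel)
def q71474 : Q := Q.p (nat_lit 0x78000000000000000000000000000000000000000000000000000000000000000000000000) (nat_lit 0x3b800004000000000000000000000000000000000000000000000000000000000000000000000000) (nat_lit 4)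
theorem c71474 : QOK q71474 := cut [] trivial (nd (nat_lit 312) (nat_lit 0) (cs (lf (nat_lit 10) (nat_lit 290)) (nd (nat_lit 290) (nat_lit 0) (cs (lf (nat_lit 11) (nat_lit 289)) (nd (nat_lit 316) (nat_lit 0) (cs (lf (nat_lit 5) (nat_lit 291)) (lf (nat_lit 4) (nat_lit 290)))))))) q71474 (by decide +kernel)
def q71504 : Q := Q.p (nat_lit 0x58000060000000000000000000000000000000000000000000000000000000000000000000000000) (nat_lit 0xa0000010000000000000000000000000000000000000000000000000000000000000000000000000) (nat_lit 2)
theorem c71504 : QOK q71504 := cut [] trivial (nd (nat_lit 317) (nat_lit 0) (cs (lf (nat_lit 23) (nat_lit 292)) (lf (nat_lit 18) (nat_lit 293)))) q71504 (by decide +kernel)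
def q71531 : Q := Q.p (nat_lit 0x8000070000000000100000000000000000000000000000000000000000000000000000000000000) (nat_lit 0x6000180000060000000000400000000000000000000000000000000000000000000000000000000) (nat_lit 4)
theorem c71531 : QOK q71531 := cut [] trivial (nd (nat_lit 270) (nat_lit 0) (cs (lf (nat_lit 24) (nat_lit 226)) (nd (nat_lit 295) (nat_lit 0) (cs (lf (nat_lit 23) (nat_lit 269)) (nd (nat_lit 314) (nat_lit 0) (cs (lf (nat_lit 11) (nat_lit 291)) (lf (nat_lit 6) (nat_lit 292)))))))) q71531 (by decide +kernel)
def q71580 : Q := Q.p (nat_lit 0x20000070000100000400000000000000000000000000000000000000000000000000000000000000) (nat_lit 0x8000010000008000000000000000000000000000000000000000000000000000000000000000000000000) (nat_lit 2)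
theorem c71580 : QOK q71580 := cut [] trivial (nd (nat_lit 316) (nat_lit 0) (cs (lf (nat_lit 29) (nat_lit 250)) (lf (nat_lit 0) (nat_lit 291)))) q71580 (by decide +kernel)
def q71641 : Q := Q.p (nat_lit 0x30000060000400003000008000000000000000000000000000000000000000000000000000000000) (nat_lit 0xc0000100000000000000000000000000000000000000000000000000000000000000000000000000) (nat_lit 2)
theorem c71641 : QOK q71641 := cut [] trivial (nd (nat_lit 318) (nat_lit 0) (cs (lf (nat_lit 18) (nat_lit 293)) (lf (nat_lit 31) (nat_lit 230)))) q71641 (by decide +kernel)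
def q71758 : Q := Q.p (nat_lit 0x30000980000600000000000000000000000000000000000000000000000000000000000000) (nat_lit 0xc000640000000000000000000000000000000000000000000000000000000000000000000) (nat_lit 3)
theorem c71758 : QOK q71758 := cut [] trivial (nd (nat_lit 291) (nat_lit 0) (cs (lf (nat_lit 12) (nat_lit 268)) (nd (nat_lit 273) (nat_lit 0) (cs (lf (nat_lit 19) (nat_lit 249)) (lf (nat_lit 9) (nat_lit 269)))))) q71758 (by decide +kernel)
def q71759 : Q := Q.p (nat_lit 0xc000038000080000200000000000000000000000000000000000000000000000000000000000000) (nat_lit 0x4000030000000000000000000000000000000000000000000000000000000000000000000000000000000) (nat_lit 2)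
theorem c71759 : QOK q71759 := cut [] trivial (nd (nat_lit 316) (nat_lit 0) (cs (lf (nat_lit 29) (nat_lit 249)) (lf (nat_lit 18) (nat_lit 291)))) q71759 (by decide +kernel)
def q71835 : Q := Q.p (nat_lit 0x3e000000000000000000000000000000000000000000000000000000000000000000000000000000) (nat_lit 0x1c0000000000000000000000000000000000000000000000000000000000000000000000000) (nat_lit 2)
theorem c71835 : QOK q71835 := cut [] trivial (nd (nat_lit 295) (nat_lit 0) (cs (lf (nat_lit 17) (nat_lit 292)) (lf (nat_lit 16) (nat_lit 291)))) q71835 (by decide +kernel)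
def q71854 : Q := Q.p (nat_lit 0x20000980002600000000010000040000000000000000000000000000000000000000000000) (nat_lit 0x300000c0000180000700011c000c700020000000000000000000000000000000000000000000000000000) (nat_lit 10)
theorem c71854 : QOK q71854 := cut [] trivial (nd (nat_lit 209) (nat_lit 0) (cs (lf (nat_lit 44) (nat_lit 186)) (nd (nat_lit 315) (nat_lit 0) (cs (lf (nat_lit 30) (nat_lit 249)) (nd (nat_lit 314) (nat_lit 0) (cs (lf (nat_lit 41) (nat_lit 248)) (nd (nat_lit 230) (nat_lit 0) (cs (lf (nat_lit 27) (nat_lit 186)) (nd (nat_lit 248) (nat_lit 0) (cs (lf (nat_lit 47) (nat_lit 226)) (nd (nat_lit 247) (nat_lit 0) (cs (lf (nat_lit 0) (nat_lit 246)) (nd (nat_lit 269) (nat_lit 0) (cs (lf (nat_lit 11) (nat_lit 246)) (nd (nat_lit 225) (nat_lit 0) (cs (lf (nat_lit 23) (nat_lit 224)) (nd (nat_lit 292) (nat_lit 0) (cs (lf (nat_lit 27) (nat_lit 225)) (lf (nat_lit 44) (nat_lit 225)))))))))))))))))))) q71854 (by decide +kernel)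
def q71906 : Q := Q.p (nat_lit 0x8000020000100000700000000000000000000000000000000000000000000000000000000000000) (nat_lit 0x2000000000000000080000000000400000000000000000000000000000000000000000000000000000000) (nat_lit 2)
theorem c71906 : QOK q71906 := cut [] trivial (nd (nat_lit 271) (nat_lit 0) (cs (lf (nat_lit 30) (nat_lit 249)) (lf (nat_lit 47) (nat_lit 226)))) q71906 (by decide +kernel)
def q71986 : Q := Q.p (nat_lit 0x1c000028000000000000000000000000000000000000000000000000000000000000000000000000) (nat_lit 0x30000c4000000000000000000000000000000000000000000000000000000000000000000000000) (nat_lit 3)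
theorem c71986 : QOK q71986 := cut [] trivial (nd (nat_lit 313) (nat_lit 0) (cs (lf (nat_lit 23) (nat_lit 290)) (nd (nat_lit 294) (nat_lit 0) (cs (lf (nat_lit 12) (nat_lit 290)) (lf (nat_lit 17) (nat_lit 291)))))) q71986 (by decide +kernel)
def q72057 : Q := Q.p (nat_lit 0x8000028000180000200000000000000000000000000000000000000000000000000000000000000) (nat_lit 0x5000016000014000000000000000000000000000000000000000000000000000000000000000000000000) (nat_lit 4)
theorem c72057 : QOK q72057 := cut [] trivial (nd (nat_lit 314) (nat_lit 0) (cs (lf (nat_lit 41) (nat_lit 248)) (nd (nat_lit 290) (nat_lit 0) (cs (lf (nat_lit 14) (nat_lit 268)) (nd (nat_lit 316) (nat_lit 0) (cs (lf (nat_lit 29) (nat_lit 249)) (lf (nat_lit 21) (nat_lit 290)))))))) q72057 (by decide +kernel)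
def q72102 : Q := Q.p (nat_lit 0x8000030000900002600000000010000040000000000000000000000000000000000000000000000) (nat_lit 0x11c0004e00061c001180004000000000000000000000000000000000000000000000000000000000) (nat_lit 9)
theorem c72102 : QOK q72102 := cut [] trivial (nd (nat_lit 230) (nat_lit 0) (cs (lf (nat_lit 27) (nat_lit 186)) (nd (nat_lit 273) (nat_lit 0) (cs (lf (nat_lit 19) (nat_lit 249)) (nd (nat_lit 247) (nat_lit 0) (cs (lf (nat_lit 1) (nat_lit 247)) (nd (nat_lit 291) (nat_lit 0) (cs (lf (nat_lit 15) (nat_lit 269)) (nd (nat_lit 290) (nat_lit 0) (cs (lf (nat_lit 5) (nat_lit 290)) (nd (nat_lit 267) (nat_lit 0) (cs (lf (nat_lit 22) (nat_lit 267)) (nd (nat_lit 311) (nat_lit 0) (cs (lf (nat_lit 10) (nat_lit 289)) (nd (nat_lit 289) (nat_lit 0) (cs (lf (nat_lit 23) (nat_lit 266)) (lf (nat_lit 11) (nat_lit 288)))))))))))))))))) q72102 (by decide +kernel)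
def q72200 : Q := Q.p (nat_lit 0x8000020000880002600000000010000040000000000000000000000000000000000000000000000) (nat_lit 0x3000014000050000100001000004800002000000000000000000000000000000000000000000000000000) (nat_lit 6)
theorem c72200 : QOK q72200 := cut [] trivial (nd (nat_lit 314) (nat_lit 0) (cs (lf (nat_lit 41) (nat_lit 248)) (nd (nat_lit 227) (nat_lit 0) (cs (lf (nat_lit 40) (nat_lit 226)) (nd (nat_lit 230) (nat_lit 0) (cs (lf (nat_lit 27) (nat_lit 186)) (nd (nat_lit 294) (nat_lit 0) (cs (lf (nat_lit 29) (nat_lit 227)) (nd (nat_lit 272) (nat_lit 0) (cs (lf (nat_lit 30) (nat_lit 249)) (lf (nat_lit 24) (nat_lit 205)))))))))))) q72200 (by decide +kernel)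
def q72250 : Q := Q.p (nat_lit 0x980002600000800010000040000000000000000000000000000000000000000000000) (nat_lit 0x3c00007000010000840002700001c000000000000000000000000000000000000000000000) (nat_lit 9)
theorem c72250 : QOK q72250 := cut [] trivial (nd (nat_lit 205) (nat_lit 0) (cs (lf (nat_lit 24) (nat_lit 183)) (nd (nat_lit 209) (nat_lit 0) (cs (lf (nat_lit 44) (nat_lit 186)) (nd (nat_lit 184) (nat_lit 0) (cs (lf (nat_lit 34) (nat_lit 183)) (nd (nat_lit 204) (nat_lit 0) (cs (lf (nat_lit 47) (nat_lit 182)) (nd (nat_lit 270) (nat_lit 0) (cs (lf (nat_lit 41) (nat_lit 204)) (nd (nat_lit 226) (nat_lit 0) (cs (lf (nat_lit 42) (nat_lit 204)) (nd (nat_lit 269) (nat_lit 0) (cs (lf (nat_lit 12) (nat_lit 246)) (nd (nat_lit 291) (nat_lit 0) (cs (lf (nat_lit 11) (nat_lit 268)) (lf (nat_lit 38) (nat_lit 203)))))))))))))))))) q72250 (by decide +kernel)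
def q72284 : Q := Q.p (nat_lit 0x180000600000800000000000000000000000000000000000000000000000000000000) (nat_lit 0x10000040000000000000000000002000000000000000000000000000000000000000000000000000) (nat_lit 2)
theorem c72284 : QOK q72284 := cut [] trivial (nd (nat_lit 294) (nat_lit 0) (cs (lf (nat_lit 42) (nat_lit 227)) (lf (nat_lit 24) (nat_lit 205)))) q72284 (by decide +kernel)
def q72358 : Q := Q.p (nat_lit 0x700000300000000000000000000000000000000000000000000000000000000) (nat_lit 0xc80000000000000000000000000000000000000000000000000000000) (nat_lit 2)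
theorem c72358 : QOK q72358 := cut [] trivial (nd (nat_lit 226) (nat_lit 0) (cs (lf (nat_lit 3) (nat_lit 224)) (lf (nat_lit 0) (nat_lit 223)))) q72358 (by decide +kernel)
def q72360 : Q := Q.p (nat_lit 0x90000700000000000000000000000000000000000000000000000000000000000000) (nat_lit 0x60000080000000000000000000000000000000000000000000000000000000000000) (nat_lit 2)
theorem c72360 : QOK q72360 := cut [] trivial (nd (nat_lit 269) (nat_lit 0) (cs (lf (nat_lit 9) (nat_lit 246)) (lf (nat_lit 14) (nat_lit 246)))) q72360 (by decide +kernel)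
def q72361 : Q := Q.p (nat_lit 0x10000340000100000000000000000000000000000000000000000000000000000000) (nat_lit 0x8000080000080000000000000000000000000000000000000000000000000000000) (nat_lit 2)
theorem c72361 : QOK q72361 := cut [] trivial (nd (nat_lit 247) (nat_lit 0) (cs (lf (nat_lit 11) (nat_lit 245)) (lf (nat_lit 23) (nat_lit 223)))) q72361 (by decide +kernel)
def q72362 : Q := Q.p (nat_lit 0x8000040000100000400002000000000000000000000000000000000000000000000) (nat_lit 0x20000000000000001000008000000000000000000000000000000000000000) (nat_lit 2)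
theorem c72362 : QOK q72362 := cut [] trivial (nd (nat_lit 180) (nat_lit 0) (cs (lf (nat_lit 40) (nat_lit 179)) (lf (nat_lit 35) (nat_lit 158)))) q72362 (by decide +kernel)
def q72371 : Q := Q.p (nat_lit 0x4000010000040000180000000000000000000000000000000000000000000000000000000) (nat_lit 0x800003000008000000000020000000000000000000000000000000000000000000000000000000000000) (nat_lit 3)
theorem c72371 : QOK q72371 := cut [] trivial (nd (nat_lit 313) (nat_lit 0) (cs (lf (nat_lit 28) (nat_lit 224)) (nd (nat_lit 312) (nat_lit 0) (cs (lf (nat_lit 46) (nat_lit 223)) (lf (nat_lit 29) (nat_lit 246)))))) q72371 (by decide +kernel)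
def q72378 : Q := Q.p (nat_lit 0x4000810002040000100010000040000000000000000000000000000000000000000000000) (nat_lit 0x280001a00000e001000004000000400000000000000000000000000000000000000000000000000) (nat_lit 6)
theorem c72378 : QOK q72378 := cut [] trivial (nd (nat_lit 291) (nat_lit 0) (cs (lf (nat_lit 29) (nat_lit 224)) (nd (nat_lit 230) (nat_lit 0) (cs (lf (nat_lit 27) (nat_lit 186)) (nd (nat_lit 289) (nat_lit 0) (cs (lf (nat_lit 41) (nat_lit 223)) (nd (nat_lit 267) (nat_lit 0) (cs (lf (nat_lit 36) (nat_lit 201)) (nd (nat_lit 266) (nat_lit 0) (cs (lf (nat_lit 18) (nat_lit 266)) (lf (nat_lit 0) (nat_lit 265)))))))))))) q72378 (by decide +kernel)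
def q72459 : Q := Q.p (nat_lit 0x3c000080000000000000000000000000000000000000000000000000000000000000000000) (nat_lit 0x1c00002000040000000000000000000000000000000000000000000000000000000000000000000) (nat_lit 3)
theorem c72459 : QOK q72459 := cut [] trivial (nd (nat_lit 311) (nat_lit 0) (cs (lf (nat_lit 10) (nat_lit 289)) (nd (nat_lit 289) (nat_lit 0) (cs (lf (nat_lit 11) (nat_lit 288)) (lf (nat_lit 16) (nat_lit 267)))))) q72459 (by decide +kernel)
def q72577 : Q := Q.p (nat_lit 0x180000200000c0000200000000000000000000000000000000000000000000000000000000000000) (nat_lit 0x2000000000050000000000100000800002000008000000000000000000000000000000000000000000000) (nat_lit 4)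
theorem c72577 : QOK q72577 := cut [] trivial (nd (nat_lit 227) (nat_lit 0) (cs (lf (nat_lit 28) (nat_lit 227)) (nd (nat_lit 205) (nat_lit 0) (cs (lf (nat_lit 41) (nat_lit 204)) (nd (nat_lit 248) (nat_lit 0) (cs (lf (nat_lit 36) (nat_lit 182)) (lf (nat_lit 42) (nat_lit 248)))))))) q72577 (by decide +kernel)
def q72582 : Q := Q.p (nat_lit 0x80000200000c0000200000000000000000000000000000000000000000000000000000000000000) (nat_lit 0x800003000004000010000000000100000800000000000000000000000000000000000000000000000000000000) (nat_lit 4)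
theorem c72582 : QOK q72582 := cut [] trivial (nd (nat_lit 314) (nat_lit 0) (cs (lf (nat_lit 41) (nat_lit 248)) (nd (nat_lit 292) (nat_lit 0) (cs (lf (nat_lit 36) (nat_lit 226)) (nd (nat_lit 337) (nat_lit 0) (cs (lf (nat_lit 42) (nat_lit 270)) (lf (nat_lit 47) (nat_lit 248)))))))) q72582 (by decide +kernel)
def q72635 : Q := Q.p (nat_lit 0x380000c0000600000000000000000000000000000000000000000000000000000000000000) (nat_lit 0x6000038000000000000000000000000000000000000000000000000000000000000000000) (nat_lit 3)
theorem c72635 : QOK q72635 := cut [] trivial (nd (nat_lit 290) (nat_lit 0) (cs (lf (nat_lit 12) (nat_lit 267)) (nd (nat_lit 268) (nat_lit 0) (cs (lf (nat_lit 13) (nat_lit 246)) (lf (nat_lit 23) (nat_lit 267)))))) q72635 (by decide +kernel)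
def q72767 : Q := Q.p (nat_lit 0x8000020000080000500000000000000000000000000000000000000000000000000000000000000) (nat_lit 0x2000000000000000140000000000000000000000000000000000000000000000000000000000000000000) (nat_lit 2)
theorem c72767 : QOK q72767 := cut [] trivial (nd (nat_lit 337) (nat_lit 0) (cs (lf (nat_lit 34) (nat_lit 249)) (lf (nat_lit 46) (nat_lit 248)))) q72767 (by decide +kernel)
def q72781 : Q := Q.p (nat_lit 0xa0000380000400000000000000000000000000000000000000000000000000000000) (nat_lit 0x2000008000040000000000000001000004000000000000000000000000000000000000000000000) (nat_lit 3)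
theorem c72781 : QOK q72781 := cut [] trivial (nd (nat_lit 291) (nat_lit 0) (cs (lf (nat_lit 30) (nat_lit 225)) (nd (nat_lit 204) (nat_lit 0) (cs (lf (nat_lit 24) (nat_lit 182)) (lf (nat_lit 39) (nat_lit 203)))))) q72781 (by decide +kernel)
def q72930 : Q := Q.p (nat_lit 0x34000090000000000000000000000000000000000000000000000000000000000000000000) (nat_lit 0x8000108000000000000000000000000000000000000000000000000000000000000000000) (nat_lit 2)
theorem c72930 : QOK q72930 := cut [] trivial (nd (nat_lit 291) (nat_lit 0) (cs (lf (nat_lit 23) (nat_lit 267)) (lf (nat_lit 17) (nat_lit 268)))) q72930 (by decide +kernel)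
def q73066 : Q := Q.p (nat_lit 0x30000160000c00002000000000000000000000000000000000000000000000000000000000000000) (nat_lit 0x100000c0000000000000000000000000000000000000000000000000000000000000000000000000000000) (nat_lit 2)
theorem c73066 : QOK q73066 := cut [] trivial (nd (nat_lit 318) (nat_lit 0) (cs (lf (nat_lit 30) (nat_lit 252)) (lf (nat_lit 18) (nat_lit 293)))) q73066 (by decide +kernel)
def q73121 : Q := Q.p (nat_lit 0x20000080000300000000001000000000000000000000000000000000000000000000000000) (nat_lit 0x40000000000400000000004000000000000000000000000000000000000000000000) (nat_lit 2)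
theorem c73121 : QOK q73121 := cut [] trivial (nd (nat_lit 226) (nat_lit 0) (cs (lf (nat_lit 24) (nat_lit 182)) (lf (nat_lit 27) (nat_lit 204)))) q73121 (by decide +kernel)
def q73343 : Q := Q.p (nat_lit 0xc0000a0000680000200000000000000000000000000000000000000000000000000000000) (nat_lit 0x4000030000300000140000000000000000000000000000000000000000000000000000000000000) (nat_lit 4)
theorem c73343 : QOK q73343 := cut [] trivial (nd (nat_lit 292) (nat_lit 0) (cs (lf (nat_lit 29) (nat_lit 225)) (nd (nat_lit 272) (nat_lit 0) (cs (lf (nat_lit 15) (nat_lit 268)) (nd (nat_lit 248) (nat_lit 0) (cs (lf (nat_lit 5) (nat_lit 247)) (lf (nat_lit 0) (nat_lit 246)))))))) q73343 (by decide +kernel)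
def q73460 : Q := Q.p (nat_lit 0x80000200000800002000000000000000000000000000000000000000000000000000) (nat_lit 0x4000030000040000000000400001000004000000000000000000000000000000000000000000000) (nat_lit 4)
theorem c73460 : QOK q73460 := cut [] trivial (nd (nat_lit 292) (nat_lit 0) (cs (lf (nat_lit 40) (nat_lit 204)) (nd (nat_lit 204) (nat_lit 0) (cs (lf (nat_lit 47) (nat_lit 182)) (nd (nat_lit 293) (nat_lit 0) (cs (lf (nat_lit 41) (nat_lit 226)) (lf (nat_lit 46) (nat_lit 204)))))))) q73460 (by decide +kernel)
def q73691 : Q := Q.p (nat_lit 0x8000020000000000f0000000000000000000000000000000000000000000000000000000000000) (nat_lit 0x8000000000060000000000000000000000000000000000000000000000000000000) (nat_lit 2)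
theorem c73691 : QOK q73691 := cut [] trivial (nd (nat_lit 222) (nat_lit 0) (cs (lf (nat_lit 23) (nat_lit 221)) (lf (nat_lit 44) (nat_lit 222)))) q73691 (by decide +kernel)
def q73709 : Q := Q.p (nat_lit 0x200000400001000004000010000000000000000000000000000000000000000000000000000000000000000000) (nat_lit 0x80000100000000000000002000008000020000000000000000000000000000000000000000000000000000000000000) (nat_lit 3)
theorem c73709 : QOK q73709 := cut [] trivial (nd (nat_lit 356) (nat_lit 0) (cs (nd (nat_lit 267) (nat_lit 0) (cs (lf (nat_lit 47) (nat_lit 245)) (lf (nat_lit 46) (nat_lit 267)))) (lf (nat_lit 29) (nat_lit 290)))) q73709 (by decide +kernel)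
def q73717 : Q := Q.p (nat_lit 0x1c00001000004000010000000000000000000000000000000000000000000000000000000000000000000) (nat_lit 0x2000002e00000000008000020000000000000000000000000000000000000000000000000000000000000) (nat_lit 4)
theorem c73717 : QOK q73717 := cut [] trivial (nd (nat_lit 245) (nat_lit 0) (cs (lf (nat_lit 46) (nat_lit 245)) (nd (nat_lit 311) (nat_lit 0) (cs (lf (nat_lit 18) (nat_lit 311)) (nd (nat_lit 310) (nat_lit 0) (cs (lf (nat_lit 0) (nat_lit 309)) (lf (nat_lit 3) (nat_lit 310)))))))) q73717 (by decide +kernel)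
def q73724 : Q := Q.p (nat_lit 0x1c00001000004000090000200000000000000000000000000000000000000000000000000000000000000) (nat_lit 0xc8000020000c000030000040000000000000000000000000000000000000000000000000000000000000000000) (nat_lit 5)
theorem c73724 : QOK q73724 := cut [] trivial (nd (nat_lit 333) (nat_lit 0) (cs (lf (nat_lit 41) (nat_lit 267)) (nd (nat_lit 314) (nat_lit 0) (cs (nd (nat_lit 358) (nat_lit 0) (cs (lf (nat_lit 5) (nat_lit 333)) (nd (nat_lit 292) (nat_lit 0) (cs (lf (nat_lit 33) (nat_lit 248)) (lf (nat_lit 34) (nat_lit 270)))))) (lf (nat_lit 17) (nat_lit 311)))))) q73724 (by decide +kernel)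
def q73729 : Q := Q.p (nat_lit 0x1000004000010000040000000000000000000000000000000000000000000000000000000000000) (nat_lit 0x800002000008000000000080000300000800000000000000000000000000000000000000000000000000) (nat_lit 4)
theorem c73729 : QOK q73729 := cut [] trivial (nd (nat_lit 225) (nat_lit 0) (cs (lf (nat_lit 34) (nat_lit 224)) (nd (nat_lit 224) (nat_lit 0) (cs (lf (nat_lit 35) (nat_lit 202)) (nd (nat_lit 313) (nat_lit 0) (cs (lf (nat_lit 28) (nat_lit 224)) (lf (nat_lit 29) (nat_lit 246)))))))) q73729 (by decide +kernel)
def q73732 : Q := Q.p (nat_lit 0x400001000004000010000000000000000000000000000000000000000000000000000000000000000000) (nat_lit 0xa0000380000a00000000000000000000000000000000000000000000000000000000000000000000000000000000000) (nat_lit 4)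
theorem c73732 : QOK q73732 := cut [] trivial (nd (nat_lit 355) (nat_lit 0) (cs (lf (nat_lit 40) (nat_lit 267)) (nd (nat_lit 357) (nat_lit 0) (cs (lf (nat_lit 28) (nat_lit 268)) (nd (nat_lit 356) (nat_lit 0) (cs (lf (nat_lit 29) (nat_lit 290)) (lf (nat_lit 41) (nat_lit 289)))))))) q73732 (by decide +kernel)
def q73739 : Q := Q.p (nat_lit 0x1000004000090000260000000000000000000000000000000000000000000000000000000000000) (nat_lit 0x48000180000200000000000000000000000000000000000000000000000000000000) (nat_lit 3)
theorem c73739 : QOK q73739 := cut [] trivial (nd (nat_lit 247) (nat_lit 0) (cs (lf (nat_lit 35) (nat_lit 224)) (nd (nat_lit 248) (nat_lit 0) (cs (lf (nat_lit 11) (nat_lit 245)) (lf (nat_lit 4) (nat_lit 245)))))) q73739 (by decide +kernel)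
def q73743 : Q := Q.p (nat_lit 0x200001000004000010000040000000000000000000000000000000000000000000000000000000000000) (nat_lit 0x280000c00002000000000000000000000000000000000000000000000000000000000000000000000000000000) (nat_lit 3)
theorem c73743 : QOK q73743 := cut [] trivial (nd (nat_lit 335) (nat_lit 0) (cs (lf (nat_lit 28) (nat_lit 246)) (nd (nat_lit 334) (nat_lit 0) (cs (lf (nat_lit 41) (nat_lit 267)) (lf (nat_lit 29) (nat_lit 268)))))) q73743 (by decide +kernel)
def q73754 : Q := Q.p (nat_lit 0x600000380000000000000000000000000000000000000000000000000000000) (nat_lit 0x100000c00000000000000000000000000000000000000000000000000000000) (nat_lit 2)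
theorem c73754 : QOK q73754 := cut [] trivial (nd (nat_lit 226) (nat_lit 0) (cs (lf (nat_lit 3) (nat_lit 224)) (lf (nat_lit 4) (nat_lit 223)))) q73754 (by decide +kernel)
def q73762 : Q := Q.p (nat_lit 0x1000004000010000040000000000000000000000000000000000000000000000000000000000000) (nat_lit 0x200000800002000000000080000300000800000000000000000000000000000000000000000000000000) (nat_lit 4)
theorem c73762 : QOK q73762 := cut [] trivial (nd (nat_lit 225) (nat_lit 0) (cs (lf (nat_lit 34) (nat_lit 224)) (nd (nat_lit 311) (nat_lit 0) (cs (lf (nat_lit 41) (nat_lit 245)) (nd (nat_lit 224) (nat_lit 0) (cs (lf (nat_lit 40) (nat_lit 223)) (lf (nat_lit 35) (nat_lit 202)))))))) q73762 (by decide +kernel)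
def q73792 : Q := Q.p (nat_lit 0x20000080000200000400001000000000000000000000000000000000000000000000000000) (nat_lit 0x40000100000000000000004000000000000000000000000000000000000000000000) (nat_lit 2)
theorem c73792 : QOK q73792 := cut [] trivial (nd (nat_lit 248) (nat_lit 0) (cs (lf (nat_lit 24) (nat_lit 182)) (lf (nat_lit 27) (nat_lit 204)))) q73792 (by decide +kernel)
def q73805 : Q := Q.p (nat_lit 0xc000024000080000200000000000000000000000000000000000000000000000000000000000000) (nat_lit 0x4000012000018000000000000000000000000000000000000000000000000000000000000000000000000) (nat_lit 3)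
theorem c73805 : QOK q73805 := cut [] trivial (nd (nat_lit 316) (nat_lit 0) (cs (lf (nat_lit 29) (nat_lit 249)) (nd (nat_lit 291) (nat_lit 0) (cs (lf (nat_lit 21) (nat_lit 290)) (lf (nat_lit 2) (nat_lit 290)))))) q73805 (by decide +kernel)
def q73829 : Q := Q.p (nat_lit 0x8000024000890002200000000010000040000000000000000000000000000000000000000000000) (nat_lit 0x100000400001a000008001000004800000000000000000000000000000000000000000000000000000000) (nat_lit 5)
theorem c73829 : QOK q73829 := cut [] trivial (nd (nat_lit 230) (nat_lit 0) (cs (lf (nat_lit 27) (nat_lit 186)) (nd (nat_lit 314) (nat_lit 0) (cs (lf (nat_lit 41) (nat_lit 248)) (nd (nat_lit 292) (nat_lit 0) (cs (lf (nat_lit 36) (nat_lit 226)) (nd (nat_lit 291) (nat_lit 0) (cs (lf (nat_lit 23) (nat_lit 267)) (lf (nat_lit 0) (nat_lit 289)))))))))) q73829 (by decide +kernel)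
def q73837 : Q := Q.p (nat_lit 0x34000090000200000000000000000000000000000000000000000000000000000000000000) (nat_lit 0xa00000a000048000100000c00003000000000000000000000000000000000000000000000000000) (nat_lit 6)
theorem c73837 : QOK q73837 := cut [] trivial (nd (nat_lit 291) (nat_lit 0) (cs (lf (nat_lit 23) (nat_lit 267)) (nd (nat_lit 270) (nat_lit 0) (cs (lf (nat_lit 12) (nat_lit 267)) (nd (nat_lit 227) (nat_lit 0) (cs (lf (nat_lit 36) (nat_lit 204)) (nd (nat_lit 226) (nat_lit 0) (cs (lf (nat_lit 47) (nat_lit 204)) (nd (nat_lit 248) (nat_lit 0) (cs (lf (nat_lit 29) (nat_lit 226)) (lf (nat_lit 41) (nat_lit 225)))))))))))) q73837 (by decide +kernel)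
def q73848 : Q := Q.p (nat_lit 0x1e000000000000000000000000000000000000000000000000000000000000000000000000) (nat_lit 0xee00001000000000000000000000000000000000000000000000000000000000000000000000000) (nat_lit 4)
theorem c73848 : QOK q73848 := cut [] trivial (nd (nat_lit 310) (nat_lit 0) (cs (lf (nat_lit 10) (nat_lit 288)) (nd (nat_lit 288) (nat_lit 0) (cs (lf (nat_lit 11) (nat_lit 287)) (nd (nat_lit 314) (nat_lit 0) (cs (lf (nat_lit 5) (nat_lit 289)) (lf (nat_lit 4) (nat_lit 288)))))))) q73848 (by decide +kernel)
def q73862 : Q := Q.p (nat_lit 0x34000890002200000000010000040000000000000000000000000000000000000000000000) (nat_lit 0x180000780004a000048001100004400000000000000000000000000000000000000000000000000000000) (nat_lit 8)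
theorem c73862 : QOK q73862 := cut [] trivial (nd (nat_lit 230) (nat_lit 0) (cs (lf (nat_lit 27) (nat_lit 186)) (nd (nat_lit 291) (nat_lit 0) (cs (lf (nat_lit 23) (nat_lit 267)) (nd (nat_lit 270) (nat_lit 0) (cs (lf (nat_lit 12) (nat_lit 267)) (nd (nat_lit 314) (nat_lit 0) (cs (lf (nat_lit 30) (nat_lit 248)) (nd (nat_lit 312) (nat_lit 0) (cs (lf (nat_lit 11) (nat_lit 289)) (nd (nat_lit 313) (nat_lit 0) (cs (lf (nat_lit 6) (nat_lit 290)) (nd (nat_lit 248) (nat_lit 0) (cs (lf (nat_lit 36) (nat_lit 225)) (lf (nat_lit 41) (nat_lit 247)))))))))))))))) q73862 (by decide +kernel)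
def q73868 : Q := Q.p (nat_lit 0x34000890002200000000010000040000000000000000000000000000000000000000000000) (nat_lit 0x1380004a000048001000004800002000000000000000000000000000000000000000000000000000) (nat_lit 7)
theorem c73868 : QOK q73868 := cut [] trivial (nd (nat_lit 230) (nat_lit 0) (cs (lf (nat_lit 27) (nat_lit 186)) (nd (nat_lit 291) (nat_lit 0) (cs (lf (nat_lit 23) (nat_lit 267)) (nd (nat_lit 270) (nat_lit 0) (cs (lf (nat_lit 12) (nat_lit 267)) (nd (nat_lit 227) (nat_lit 0) (cs (lf (nat_lit 36) (nat_lit 204)) (nd (nat_lit 312) (nat_lit 0) (cs (lf (nat_lit 11) (nat_lit 289)) (nd (nat_lit 294) (nat_lit 0) (cs (lf (nat_lit 29) (nat_lit 227)) (lf (nat_lit 10) (nat_lit 290)))))))))))))) q73868 (by decide +kernel)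
def q73955 : Q := Q.p (nat_lit 0x4000810002040000100010000040000000000000000000000000000000000000000000000) (nat_lit 0x1000004280000e00002800000000000000000000000000000000000000000000) (nat_lit 5)
theorem c73955 : QOK q73955 := cut [] trivial (nd (nat_lit 230) (nat_lit 0) (cs (lf (nat_lit 27) (nat_lit 186)) (nd (nat_lit 201) (nat_lit 0) (cs (lf (nat_lit 46) (nat_lit 201)) (nd (nat_lit 203) (nat_lit 0) (cs (lf (nat_lit 34) (nat_lit 202)) (nd (nat_lit 202) (nat_lit 0) (cs (lf (nat_lit 47) (nat_lit 179)) (lf (nat_lit 35) (nat_lit 180)))))))))) q73955 (by decide +kernel)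
def q73963 : Q := Q.p (nat_lit 0x10000040000100000400001000000000000000000000000000000000000000000000) (nat_lit 0x2000008000020000000000000000000000000000000000000000000000000000000000000) (nat_lit 2)
theorem c73963 : QOK q73963 := cut [] trivial (nd (nat_lit 267) (nat_lit 0) (cs (lf (nat_lit 41) (nat_lit 201)) (lf (nat_lit 40) (nat_lit 179)))) q73963 (by decide +kernel)
def q73974 : Q := Q.p (nat_lit 0x4000010000040000100000000000000000000000000000000000000000000000000000000) (nat_lit 0x400001000002000008000020000280000c00003000000000000000000000000000000000000000000000) (nat_lit 6)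
theorem c73974 : QOK q73974 := cut [] trivial (nd (nat_lit 203) (nat_lit 0) (cs (lf (nat_lit 34) (nat_lit 202)) (nd (nat_lit 202) (nat_lit 0) (cs (lf (nat_lit 35) (nat_lit 180)) (nd (nat_lit 267) (nat_lit 0) (cs (lf (nat_lit 41) (nat_lit 201)) (nd (nat_lit 245) (nat_lit 0) (cs (lf (nat_lit 36) (nat_lit 179)) (nd (nat_lit 312) (nat_lit 0) (cs (lf (nat_lit 47) (nat_lit 223)) (lf (nat_lit 42) (nat_lit 245)))))))))))) q73974 (by decide +kernel)
def q73979 : Q := Q.p (nat_lit 0x4000010000640000100000000000000000000000000000000000000000000000000000000) (nat_lit 0x1000000000000000180000200000800000000000000000000000000000000000000000000000000) (nat_lit 3)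
theorem c73979 : QOK q73979 := cut [] trivial (nd (nat_lit 225) (nat_lit 0) (cs (lf (nat_lit 35) (nat_lit 202)) (nd (nat_lit 247) (nat_lit 0) (cs (lf (nat_lit 20) (nat_lit 224)) (lf (nat_lit 30) (nat_lit 224)))))) q73979 (by decide +kernel)
def q74018 : Q := Q.p (nat_lit 0x4000810002240000100010000040000000000000000000000000000000000000000000000) (nat_lit 0x1180004680000a00000000000000000000000000000000000000000000000000) (nat_lit 5)
theorem c74018 : QOK q74018 := cut [] trivial (nd (nat_lit 230) (nat_lit 0) (cs (lf (nat_lit 27) (nat_lit 186)) (nd (nat_lit 223) (nat_lit 0) (cs (lf (nat_lit 47) (nat_lit 201)) (nd (nat_lit 248) (nat_lit 0) (cs (lf (nat_lit 20) (nat_lit 223)) (nd (nat_lit 225) (nat_lit 0) (cs (lf (nat_lit 35) (nat_lit 202)) (lf (nat_lit 3) (nat_lit 223)))))))))) q74018 (by decide +kernel)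
def q74027 : Q := Q.p (nat_lit 0x1000004000810002040000000010000040000000000000000000000000000000000000000000000) (nat_lit 0x300000c000020000020000080010a0004300000c00000000000000000000000000000000000000000000000000) (nat_lit 8)
theorem c74027 : QOK q74027 := cut [] trivial (nd (nat_lit 230) (nat_lit 0) (cs (lf (nat_lit 27) (nat_lit 186)) (nd (nat_lit 225) (nat_lit 0) (cs (lf (nat_lit 34) (nat_lit 224)) (nd (nat_lit 224) (nat_lit 0) (cs (lf (nat_lit 35) (nat_lit 202)) (nd (nat_lit 335) (nat_lit 0) (cs (lf (nat_lit 28) (nat_lit 246)) (nd (nat_lit 334) (nat_lit 0) (cs (lf (nat_lit 29) (nat_lit 268)) (nd (nat_lit 267) (nat_lit 0) (cs (lf (nat_lit 47) (nat_lit 245)) (nd (nat_lit 289) (nat_lit 0) (cs (lf (nat_lit 42) (nat_lit 267)) (lf (nat_lit 36) (nat_lit 201)))))))))))))))) q74027 (by decide +kernel)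
def q74043 : Q := Q.p (nat_lit 0x400001000004000010000040000000000000000000000000000000000000000000000000000000000000) (nat_lit 0x8000020000080000000000000000000000000000000000000000000000000000000) (nat_lit 2)
theorem c74043 : QOK q74043 := cut [] trivial (nd (nat_lit 245) (nat_lit 0) (cs (lf (nat_lit 47) (nat_lit 223)) (lf (nat_lit 46) (nat_lit 245)))) q74043 (by decide +kernel)
def q74051 : Q := Q.p (nat_lit 0x4000810002040000100010000040000000000000000000000000000000000000000000000) (nat_lit 0x200001800002000000001020004080000200000000000000000000000000000000000000000000000000) (nat_lit 5)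
theorem c74051 : QOK q74051 := cut [] trivial (nd (nat_lit 230) (nat_lit 0) (cs (lf (nat_lit 27) (nat_lit 186)) (nd (nat_lit 311) (nat_lit 0) (cs (lf (nat_lit 40) (nat_lit 223)) (nd (nat_lit 223) (nat_lit 0) (cs (lf (nat_lit 47) (nat_lit 201)) (nd (nat_lit 312) (nat_lit 0) (cs (lf (nat_lit 41) (nat_lit 245)) (lf (nat_lit 46) (nat_lit 223)))))))))) q74051 (by decide +kernel)
def q74063 : Q := Q.p (nat_lit 0x400001000004000010000000000000000000000000000000000000000000000000000000000000000000) (nat_lit 0x20000180000200000000002000008000020000000000000000000000000000000000000000000000000000000000000) (nat_lit 4)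
theorem c74063 : QOK q74063 := cut [] trivial (nd (nat_lit 355) (nat_lit 0) (cs (lf (nat_lit 40) (nat_lit 267)) (nd (nat_lit 267) (nat_lit 0) (cs (lf (nat_lit 47) (nat_lit 245)) (nd (nat_lit 356) (nat_lit 0) (cs (lf (nat_lit 46) (nat_lit 267)) (lf (nat_lit 41) (nat_lit 289)))))))) q74063 (by decide +kernel)
def q74173 : Q := Q.p (nat_lit 0x4000010000600000300000000000000000000000000000000000000000000000000000000) (nat_lit 0x1000008000020000180000000000c00000000000000000000000000000000000000000000000000) (nat_lit 4)
theorem c74173 : QOK q74173 := cut [] trivial (nd (nat_lit 247) (nat_lit 0) (cs (lf (nat_lit 20) (nat_lit 224)) (nd (nat_lit 269) (nat_lit 0) (cs (lf (nat_lit 36) (nat_lit 202)) (nd (nat_lit 291) (nat_lit 0) (cs (lf (nat_lit 41) (nat_lit 224)) (lf (nat_lit 47) (nat_lit 202)))))))) q74173 (by decide +kernel)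
def q74176 : Q := Q.p (nat_lit 0x4000010000040000100000000000000000000000000000000000000000000000000000000) (nat_lit 0x280000a000028000000000000000400000000000000000000000000000000000000000000000000) (nat_lit 4)
theorem c74176 : QOK q74176 := cut [] trivial (nd (nat_lit 289) (nat_lit 0) (cs (lf (nat_lit 41) (nat_lit 223)) (nd (nat_lit 202) (nat_lit 0) (cs (lf (nat_lit 40) (nat_lit 201)) (nd (nat_lit 291) (nat_lit 0) (cs (lf (nat_lit 29) (nat_lit 224)) (lf (nat_lit 28) (nat_lit 202)))))))) q74176 (by decide +kernel)
def q74180 : Q := Q.p (nat_lit 0x4000010000600000300000000000000000000000000000000000000000000000000000000) (nat_lit 0x10000000000000001c0000000000800000000000000000000000000000000000000000000000000) (nat_lit 3)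
theorem c74180 : QOK q74180 := cut [] trivial (nd (nat_lit 247) (nat_lit 0) (cs (lf (nat_lit 20) (nat_lit 224)) (nd (nat_lit 246) (nat_lit 0) (cs (lf (nat_lit 30) (nat_lit 224)) (lf (nat_lit 35) (nat_lit 202)))))) q74180 (by decide +kernel)
def q74185 : Q := Q.p (nat_lit 0x10000040000180000200000000000000000000000000000000000000000000000000) (nat_lit 0x400000800002000000000000000000000000000000000000000) (nat_lit 2)
theorem c74185 : QOK q74185 := cut [] trivial (nd (nat_lit 179) (nat_lit 0) (cs (lf (nat_lit 24) (nat_lit 157)) (lf (nat_lit 45) (nat_lit 179)))) q74185 (by decide +kernel)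
def q74223 : Q := Q.p (nat_lit 0xc0000100000400000000000000000000000000000000000000000000) (nat_lit 0x2000000000020000000000300000c000020000000000000000000000000000) (nat_lit 4)
theorem c74223 : QOK q74223 := cut [] trivial (nd (nat_lit 156) (nat_lit 0) (cs (nd (nat_lit 135) (nat_lit 0) (cs (nd (nat_lit 134) (nat_lit 0) (cs (lf (nat_lit 28) (nat_lit 134)) (lf (nat_lit 35) (nat_lit 112)))) (lf (nat_lit 34) (nat_lit 134)))) (lf (nat_lit 29) (nat_lit 156)))) q74223 (by decide +kernel)
def q74224 : Q := Q.p (nat_lit 0x8000010000040000100000800000000000000000000000000000000000000000000) (nat_lit 0x2000004000000000000000200000000000000000000000000000000000000000000000000) (nat_lit 2)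
theorem c74224 : QOK q74224 := cut [] trivial (nd (nat_lit 266) (nat_lit 0) (cs (lf (nat_lit 29) (nat_lit 200)) (lf (nat_lit 34) (nat_lit 178)))) q74224 (by decide +kernel)
def q74272 : Q := Q.p (nat_lit 0x2800004000010000040000000000000000000000000000000000000000000000000000000000000) (nat_lit 0xa00001000000000000000000000000000000000000000000000000000000000000000000000000000000) (nat_lit 2)
theorem c74272 : QOK q74272 := cut [] trivial (nd (nat_lit 312) (nat_lit 0) (cs (lf (nat_lit 41) (nat_lit 245)) (lf (nat_lit 29) (nat_lit 246)))) q74272 (by decide +kernel)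
def q74277 : Q := Q.p (nat_lit 0x30000640000100000400000000000000000000000000000000000000000000000000) (nat_lit 0x180000000000000001000000000000000000000000000000000000000000000) (nat_lit 2)
theorem c74277 : QOK q74277 := cut [] trivial (nd (nat_lit 247) (nat_lit 0) (cs (lf (nat_lit 8) (nat_lit 246)) (lf (nat_lit 24) (nat_lit 180)))) q74277 (by decide +kernel)
def q74283 : Q := Q.p (nat_lit 0x300000c0000100000400000000000000000000000000000000000000000000000000) (nat_lit 0x600001800006000000000000000080000200000800000000000000000000000000000000000000000000) (nat_lit 5)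
theorem c74283 : QOK q74283 := cut [] trivial (nd (nat_lit 201) (nat_lit 0) (cs (lf (nat_lit 47) (nat_lit 179)) (nd (nat_lit 290) (nat_lit 0) (cs (lf (nat_lit 46) (nat_lit 201)) (nd (nat_lit 311) (nat_lit 0) (cs (lf (nat_lit 40) (nat_lit 223)) (nd (nat_lit 312) (nat_lit 0) (cs (lf (nat_lit 30) (nat_lit 246)) (lf (nat_lit 41) (nat_lit 245)))))))))) q74283 (by decide +kernel)
def q74287 : Q := Q.p (nat_lit 0x10000040000100000400001000000000000000000000000000000000000000000000) (nat_lit 0x200000800002000000000000000000000000000000000000000) (nat_lit 2)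
theorem c74287 : QOK q74287 := cut [] trivial (nd (nat_lit 179) (nat_lit 0) (cs (lf (nat_lit 46) (nat_lit 179)) (lf (nat_lit 47) (nat_lit 157)))) q74287 (by decide +kernel)
def q74301 : Q := Q.p (nat_lit 0x100006c0000000000000000000000000000000000000000000000000000000000000) (nat_lit 0x28000100000000000000000000000000000000000000000000000000000000000000) (nat_lit 2)
theorem c74301 : QOK q74301 := cut [] trivial (nd (nat_lit 248) (nat_lit 0) (cs (lf (nat_lit 10) (nat_lit 246)) (lf (nat_lit 11) (nat_lit 245)))) q74301 (by decide +kernel)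
def q74303 : Q := Q.p (nat_lit 0xa000010000040000100000000000000000000000000000000000000000000000000000000) (nat_lit 0x2800004000000000000000000000000000000000000000000000000000000000000000000000000) (nat_lit 2)
theorem c74303 : QOK q74303 := cut [] trivial (nd (nat_lit 290) (nat_lit 0) (cs (lf (nat_lit 41) (nat_lit 223)) (lf (nat_lit 29) (nat_lit 224)))) q74303 (by decide +kernel)
def q74324 : Q := Q.p (nat_lit 0x4000810002040000100010000040000000000000000000000000000000000000000000000) (nat_lit 0x3000008000028001020004080000c0000300000c000000000000000000000000000000000000000) (nat_lit 8)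
theorem c74324 : QOK q74324 := cut [] trivial (nd (nat_lit 230) (nat_lit 0) (cs (lf (nat_lit 27) (nat_lit 186)) (nd (nat_lit 291) (nat_lit 0) (cs (lf (nat_lit 29) (nat_lit 224)) (nd (nat_lit 202) (nat_lit 0) (cs (lf (nat_lit 28) (nat_lit 202)) (nd (nat_lit 181) (nat_lit 0) (cs (lf (nat_lit 34) (nat_lit 180)) (nd (nat_lit 180) (nat_lit 0) (cs (lf (nat_lit 35) (nat_lit 158)) (nd (nat_lit 245) (nat_lit 0) (cs (lf (nat_lit 41) (nat_lit 179)) (nd (nat_lit 223) (nat_lit 0) (cs (lf (nat_lit 42) (nat_lit 223)) (lf (nat_lit 36) (nat_lit 157)))))))))))))))) q74324 (by decide +kernel)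
def q74335 : Q := Q.p (nat_lit 0x10000040000100000400000000000000000000000000000000000000000000000000) (nat_lit 0x8000020000080000000000800003000008000000000000000000000000000000000000000) (nat_lit 4)
theorem c74335 : QOK q74335 := cut [] trivial (nd (nat_lit 181) (nat_lit 0) (cs (lf (nat_lit 34) (nat_lit 180)) (nd (nat_lit 180) (nat_lit 0) (cs (lf (nat_lit 35) (nat_lit 158)) (nd (nat_lit 269) (nat_lit 0) (cs (lf (nat_lit 29) (nat_lit 202)) (lf (nat_lit 28) (nat_lit 180)))))))) q74335 (by decide +kernel)
def q74371 : Q := Q.p (nat_lit 0x10000680000100000000000000000000000000000000000000000000000000000000) (nat_lit 0x20000100000200000000000000000000000000000000000000000000000000000000) (nat_lit 2)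
theorem c74371 : QOK q74371 := cut [] trivial (nd (nat_lit 248) (nat_lit 0) (cs (lf (nat_lit 10) (nat_lit 246)) (lf (nat_lit 22) (nat_lit 224)))) q74371 (by decide +kernel)
def q74384 : Q := Q.p (nat_lit 0x40000100000c0000100000000000000000000000000000000000000000000000000000000) (nat_lit 0x1000000000000000000000200000800000000000000000000000000000000000000000000000000) (nat_lit 2)
theorem c74384 : QOK q74384 := cut [] trivial (nd (nat_lit 225) (nat_lit 0) (cs (lf (nat_lit 30) (nat_lit 224)) (lf (nat_lit 35) (nat_lit 202)))) q74384 (by decide +kernel)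
def q74407 : Q := Q.p (nat_lit 0x80000200000000001e00004000000000000000000000000000000000000000000000) (nat_lit 0xc00002000000000000000000000000000000000000000000000000000) (nat_lit 2)
theorem c74407 : QOK q74407 := cut [] trivial (nd (nat_lit 227) (nat_lit 0) (cs (lf (nat_lit 4) (nat_lit 201)) (lf (nat_lit 45) (nat_lit 182)))) q74407 (by decide +kernel)
def q74488 : Q := Q.p (nat_lit 0x300000700000000000000000000000000000000000000000000000000) (nat_lit 0xc80000000000000000000000000000000000000000000000000000000) (nat_lit 2)
theorem c74488 : QOK q74488 := cut [] trivial (nd (nat_lit 226) (nat_lit 0) (cs (lf (nat_lit 18) (nat_lit 201)) (lf (nat_lit 21) (nat_lit 200)))) q74488 (by decide +kernel)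
def q74497 : Q := Q.p (nat_lit 0xf00000000000000000000000000000000000000000000000000) (nat_lit 0xee0001000000000000000000000000000000000000000000000000000) (nat_lit 4)
theorem c74497 : QOK q74497 := cut [] trivial (nd (nat_lit 226) (nat_lit 0) (cs (lf (nat_lit 4) (nat_lit 200)) (nd (nat_lit 222) (nat_lit 0) (cs (lf (nat_lit 11) (nat_lit 199)) (nd (nat_lit 204) (nat_lit 0) (cs (lf (nat_lit 10) (nat_lit 200)) (lf (nat_lit 5) (nat_lit 201)))))))) q74497 (by decide +kernel)
def q74513 : Q := Q.p (nat_lit 0x810002040000100010400040000000000000000000000000000000000000000000000) (nat_lit 0x1000004000008001020004080000a0000300000c000000000000000000000000000000000000000) (nat_lit 7)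
theorem c74513 : QOK q74513 := cut [] trivial (nd (nat_lit 230) (nat_lit 0) (cs (lf (nat_lit 27) (nat_lit 186)) (nd (nat_lit 181) (nat_lit 0) (cs (lf (nat_lit 34) (nat_lit 180)) (nd (nat_lit 180) (nat_lit 0) (cs (lf (nat_lit 35) (nat_lit 158)) (nd (nat_lit 245) (nat_lit 0) (cs (lf (nat_lit 41) (nat_lit 179)) (nd (nat_lit 223) (nat_lit 0) (cs (lf (nat_lit 36) (nat_lit 157)) (nd (nat_lit 290) (nat_lit 0) (cs (lf (nat_lit 47) (nat_lit 201)) (lf (nat_lit 42) (nat_lit 223)))))))))))))) q74513 (by decide +kernel)
def q74551 : Q := Q.p (nat_lit 0x3c000000000000000200000000000000000000000000000000000000000000000000) (nat_lit 0x18000000000380000c0000000000000000000000000000000000000000000000000000000) (nat_lit 4)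
theorem c74551 : QOK q74551 := cut [] trivial (nd (nat_lit 244) (nat_lit 0) (cs (lf (nat_lit 23) (nat_lit 243)) (nd (nat_lit 288) (nat_lit 0) (cs (lf (nat_lit 11) (nat_lit 265)) (nd (nat_lit 223) (nat_lit 0) (cs (lf (nat_lit 38) (nat_lit 200)) (lf (nat_lit 33) (nat_lit 200)))))))) q74551 (by decide +kernel)
def q74563 : Q := Q.p (nat_lit 0xe000014000000000000000000000000000000000000000000000000000000000000000000) (nat_lit 0x700001800022000000000000000000000000000000000000000000000000000000000000000000) (nat_lit 4)
theorem c74563 : QOK q74563 := cut [] trivial (nd (nat_lit 288) (nat_lit 0) (cs (lf (nat_lit 23) (nat_lit 265)) (nd (nat_lit 309) (nat_lit 0) (cs (nd (nat_lit 287) (nat_lit 0) (cs (lf (nat_lit 17) (nat_lit 265)) (lf (nat_lit 11) (nat_lit 286)))) (lf (nat_lit 10) (nat_lit 287)))))) q74563 (by decide +kernel)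
def q74613 : Q := Q.p (nat_lit 0x10000040000300000800000000000000000000000000000000000000000000000000) (nat_lit 0x400002000008000000000000000000000000000000000000000) (nat_lit 2)
theorem c74613 : QOK q74613 := cut [] trivial (nd (nat_lit 181) (nat_lit 0) (cs (lf (nat_lit 36) (nat_lit 158)) (lf (nat_lit 33) (nat_lit 180)))) q74613 (by decide +kernel)
def q74624 : Q := Q.p (nat_lit 0x700000600000000000000000000000000000000000000000000000000) (nat_lit 0x80000180000000000000000000000000000000000000000000000000) (nat_lit 2)
theorem c74624 : QOK q74624 := cut [] trivial (nd (nat_lit 200) (nat_lit 0) (cs (lf (nat_lit 0) (nat_lit 199)) (lf (nat_lit 21) (nat_lit 200)))) q74624 (by decide +kernel)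
def q74665 : Q := Q.p (nat_lit 0x8000000000080000f00000000000000000000000000000000000000000000000000) (nat_lit 0x20000000000000000600000000000000000000000000000000000000000000) (nat_lit 2)
theorem c74665 : QOK q74665 := cut [] trivial (nd (nat_lit 178) (nat_lit 0) (cs (lf (nat_lit 23) (nat_lit 177)) (lf (nat_lit 43) (nat_lit 178)))) q74665 (by decide +kernel)
def q74709 : Q := Q.p (nat_lit 0x40000200000b0000600000000000000000000000000000000000000000000000000000000000000) (nat_lit 0x58000000000180000a00000000000000000000000000000000000000000000000000000000) (nat_lit 4)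
theorem c74709 : QOK q74709 := cut [] trivial (nd (nat_lit 247) (nat_lit 0) (cs (lf (nat_lit 8) (nat_lit 246)) (nd (nat_lit 292) (nat_lit 0) (cs (lf (nat_lit 36) (nat_lit 226)) (nd (nat_lit 291) (nat_lit 0) (cs (lf (nat_lit 24) (nat_lit 225)) (lf (nat_lit 18) (nat_lit 268)))))))) q74709 (by decide +kernel)
def q74725 : Q := Q.p (nat_lit 0x6000010000040000100000000000000000000000000000000000000000000000000000000) (nat_lit 0x8000000000200000c00002000000000000000000000000000000000000000000000) (nat_lit 3)
theorem c74725 : QOK q74725 := cut [] trivial (nd (nat_lit 203) (nat_lit 0) (cs (lf (nat_lit 34) (nat_lit 202)) (nd (nat_lit 202) (nat_lit 0) (cs (lf (nat_lit 40) (nat_lit 201)) (lf (nat_lit 35) (nat_lit 180)))))) q74725 (by decide +kernel)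
def q74757 : Q := Q.p (nat_lit 0x7800002000000000000000000000000000000000000000000000000000000000000000000) (nat_lit 0x100000700008000000000008000020000000000000000000000000000000000000000000000000000000) (nat_lit 4)
theorem c74757 : QOK q74757 := cut [] trivial (nd (nat_lit 309) (nat_lit 0) (cs (lf (nat_lit 11) (nat_lit 286)) (nd (nat_lit 310) (nat_lit 0) (cs (nd (nat_lit 243) (nat_lit 0) (cs (lf (nat_lit 29) (nat_lit 243)) (lf (nat_lit 24) (nat_lit 221)))) (lf (nat_lit 6) (nat_lit 287)))))) q74757 (by decide +kernel)
def q74779 : Q := Q.p (nat_lit 0x20000180001a000040000000000000000000000000000000000000000000000000000000000000) (nat_lit 0x80000000000000004000090000040000000000000000000000000000000000000000000000000000000) (nat_lit 3)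
theorem c74779 : QOK q74779 := cut [] trivial (nd (nat_lit 266) (nat_lit 0) (cs (lf (nat_lit 17) (nat_lit 243)) (nd (nat_lit 244) (nat_lit 0) (cs (lf (nat_lit 36) (nat_lit 221)) (lf (nat_lit 30) (nat_lit 243)))))) q74779 (by decide +kernel)
def q74867 : Q := Q.p (nat_lit 0x40000300000c000000000000000000000000000000000000000000000000000000000000000000) (nat_lit 0x100000000000000000000020000080000000000000000000000000000000000000000000000000000000) (nat_lit 2)
theorem c74867 : QOK q74867 := cut [] trivial (nd (nat_lit 245) (nat_lit 0) (cs (lf (nat_lit 30) (nat_lit 244)) (lf (nat_lit 36) (nat_lit 222)))) q74867 (by decide +kernel)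
def q74888 : Q := Q.p (nat_lit 0x7000004000090000240000000000000000000000000000000000000000000000000000000000000) (nat_lit 0x3200008800030000000000000000000000000000000000000000000000000000000000000000000000000) (nat_lit 4)
theorem c74888 : QOK q74888 := cut [] trivial (nd (nat_lit 311) (nat_lit 0) (cs (lf (nat_lit 41) (nat_lit 245)) (nd (nat_lit 293) (nat_lit 0) (cs (lf (nat_lit 16) (nat_lit 289)) (nd (nat_lit 336) (nat_lit 0) (cs (lf (nat_lit 39) (nat_lit 248)) (lf (nat_lit 5) (nat_lit 311)))))))) q74888 (by decide +kernel)
def q74894 : Q := Q.p (nat_lit 0x7000004000830002040000000010000040000000000000000000000000000000000000000000000) (nat_lit 0x3200000800008000000001080004200000000000000000000000000000000000000000000000000000000) (nat_lit 5)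
theorem c74894 : QOK q74894 := cut [] trivial (nd (nat_lit 247) (nat_lit 0) (cs (lf (nat_lit 35) (nat_lit 224)) (nd (nat_lit 230) (nat_lit 0) (cs (lf (nat_lit 27) (nat_lit 186)) (nd (nat_lit 336) (nat_lit 0) (cs (lf (nat_lit 26) (nat_lit 247)) (nd (nat_lit 311) (nat_lit 0) (cs (lf (nat_lit 41) (nat_lit 245)) (lf (nat_lit 5) (nat_lit 311)))))))))) q74894 (by decide +kernel)
def q74899 : Q := Q.p (nat_lit 0x70000040000b0000240000000000000000000000000000000000000000000000000000000000000) (nat_lit 0x400001000008000038000000000080000a00000000000000000000000000000000000000000000000000000000) (nat_lit 5)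
theorem c74899 : QOK q74899 := cut [] trivial (nd (nat_lit 247) (nat_lit 0) (cs (lf (nat_lit 35) (nat_lit 224)) (nd (nat_lit 336) (nat_lit 0) (cs (lf (nat_lit 26) (nat_lit 247)) (nd (nat_lit 293) (nat_lit 0) (cs (lf (nat_lit 39) (nat_lit 248)) (nd (nat_lit 292) (nat_lit 0) (cs (lf (nat_lit 36) (nat_lit 226)) (lf (nat_lit 30) (nat_lit 270)))))))))) q74899 (by decide +kernel)
def q74904 : Q := Q.p (nat_lit 0x7000004000090000240000000000000000000000000000000000000000000000000000000000000) (nat_lit 0x4200018800078000000000000000000000000000000000000000000000000000000000000000000000000) (nat_lit 5)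
theorem c74904 : QOK q74904 := cut [] trivial (nd (nat_lit 311) (nat_lit 0) (cs (lf (nat_lit 41) (nat_lit 245)) (nd (nat_lit 293) (nat_lit 0) (cs (lf (nat_lit 16) (nat_lit 289)) (nd (nat_lit 315) (nat_lit 0) (cs (lf (nat_lit 17) (nat_lit 290)) (nd (nat_lit 316) (nat_lit 0) (cs (lf (nat_lit 29) (nat_lit 249)) (lf (nat_lit 22) (nat_lit 290)))))))))) q74904 (by decide +kernel)
def q74915 : Q := Q.p (nat_lit 0x5000006000000000000000000000000000000000000000000000000000000000000000000000000) (nat_lit 0xa800001800000000000000000000000000000000000000000000000000000000000000000000000) (nat_lit 3)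
theorem c74915 : QOK q74915 := cut [] trivial (nd (nat_lit 313) (nat_lit 0) (cs (lf (nat_lit 18) (nat_lit 289)) (nd (nat_lit 288) (nat_lit 0) (cs (lf (nat_lit 21) (nat_lit 288)) (lf (nat_lit 0) (nat_lit 287)))))) q74915 (by decide +kernel)
def q74956 : Q := Q.p (nat_lit 0x400001000004000810002000000000010000040000000000000000000000000000000000000000000000) (nat_lit 0x280000a00002800000000000001040004000000000000000000000000000000000000000000000000000000000) (nat_lit 5)
theorem c74956 : QOK q74956 := cut [] trivial (nd (nat_lit 230) (nat_lit 0) (cs (lf (nat_lit 27) (nat_lit 186)) (nd (nat_lit 335) (nat_lit 0) (cs (lf (nat_lit 29) (nat_lit 268)) (nd (nat_lit 246) (nat_lit 0) (cs (lf (nat_lit 28) (nat_lit 246)) (nd (nat_lit 333) (nat_lit 0) (cs (lf (nat_lit 41) (nat_lit 267)) (lf (nat_lit 40) (nat_lit 245)))))))))) q74956 (by decide +kernel)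
def q75017 : Q := Q.p (nat_lit 0x8000000000000000f0000000000000000000000000000000000000000000000000000000000000) (nat_lit 0x300000e000000000060000000000000000000000000000000000000000000000000000000) (nat_lit 4)
theorem c75017 : QOK q75017 := cut [] trivial (nd (nat_lit 266) (nat_lit 0) (cs (lf (nat_lit 11) (nat_lit 243)) (nd (nat_lit 222) (nat_lit 0) (cs (lf (nat_lit 23) (nat_lit 221)) (nd (nat_lit 289) (nat_lit 0) (cs (lf (nat_lit 44) (nat_lit 222)) (lf (nat_lit 27) (nat_lit 222)))))))) q75017 (by decide +kernel)
def q75135 : Q := Q.p (nat_lit 0xc000030000040000100000000000000000000000000000000000000000000000000000000) (nat_lit 0xe0001380000e000020000080000200000000000000000000000000000000000000000000000000) (nat_lit 7)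
theorem c75135 : QOK q75135 := cut [] trivial (nd (nat_lit 223) (nat_lit 0) (cs (lf (nat_lit 47) (nat_lit 201)) (nd (nat_lit 289) (nat_lit 0) (cs (lf (nat_lit 41) (nat_lit 223)) (nd (nat_lit 288) (nat_lit 0) (cs (lf (nat_lit 12) (nat_lit 265)) (nd (nat_lit 266) (nat_lit 0) (cs (lf (nat_lit 23) (nat_lit 265)) (nd (nat_lit 310) (nat_lit 0) (cs (lf (nat_lit 11) (nat_lit 287)) (nd (nat_lit 267) (nat_lit 0) (cs (lf (nat_lit 18) (nat_lit 266)) (lf (nat_lit 37) (nat_lit 222)))))))))))))) q75135 (by decide +kernel)
def q75176 : Q := Q.p (nat_lit 0x40000200008b0002200000000010000040000000000000000000000000000000000000000000000) (nat_lit 0x40000100000a000058000000001080004200000000000000000000000000000000000000000000000000000000) (nat_lit 6)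
theorem c75176 : QOK q75176 := cut [] trivial (nd (nat_lit 230) (nat_lit 0) (cs (lf (nat_lit 27) (nat_lit 186)) (nd (nat_lit 336) (nat_lit 0) (cs (lf (nat_lit 39) (nat_lit 248)) (nd (nat_lit 292) (nat_lit 0) (cs (lf (nat_lit 30) (nat_lit 270)) (nd (nat_lit 291) (nat_lit 0) (cs (lf (nat_lit 18) (nat_lit 268)) (nd (nat_lit 247) (nat_lit 0) (cs (lf (nat_lit 24) (nat_lit 225)) (lf (nat_lit 27) (nat_lit 247)))))))))))) q75176 (by decide +kernel)
def q75230 : Q := Q.p (nat_lit 0x20000080000600000900000000000000000000000000000000000000000000000000000000) (nat_lit 0x600001000000000000000000000000000000000000000000000000000) (nat_lit 2)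
theorem c75230 : QOK q75230 := cut [] trivial (nd (nat_lit 226) (nat_lit 0) (cs (lf (nat_lit 47) (nat_lit 204)) (lf (nat_lit 1) (nat_lit 224)))) q75230 (by decide +kernel)
def q75265 : Q := Q.p (nat_lit 0x30000040000100000400000000000000000000000000000000000000000000000000) (nat_lit 0x20000080000a0000000000000001000000000000000000000000000000000000000000000) (nat_lit 3)
theorem c75265 : QOK q75265 := cut [] trivial (nd (nat_lit 267) (nat_lit 0) (cs (lf (nat_lit 41) (nat_lit 201)) (nd (nat_lit 180) (nat_lit 0) (cs (lf (nat_lit 28) (nat_lit 180)) (lf (nat_lit 40) (nat_lit 179)))))) q75265 (by decide +kernel)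
def q75329 : Q := Q.p (nat_lit 0x80000380000100000000000000000000000000000000000000000000000000000000) (nat_lit 0x100000040000080000000000000000000000000000000000000000000000000000000) (nat_lit 2)
theorem c75329 : QOK q75329 := cut [] trivial (nd (nat_lit 246) (nat_lit 0) (cs (lf (nat_lit 23) (nat_lit 223)) (lf (nat_lit 5) (nat_lit 246)))) q75329 (by decide +kernel)
def q75338 : Q := Q.p (nat_lit 0x90000640000100000400000000000000000000000000000000000000000000000000) (nat_lit 0x8000060000000000000000000000000000000000000000000000000000000000000000000) (nat_lit 2)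
theorem c75338 : QOK q75338 := cut [] trivial (nd (nat_lit 269) (nat_lit 0) (cs (lf (nat_lit 29) (nat_lit 202)) (lf (nat_lit 14) (nat_lit 246)))) q75338 (by decide +kernel)
def q75341 : Q := Q.p (nat_lit 0x40000100000400001000004000000000000000000000000000000000000000) (nat_lit 0x2000008000020000000000000000000000000000000000) (nat_lit 2)
theorem c75341 : QOK q75341 := cut [] trivial (nd (nat_lit 159) (nat_lit 0) (cs (lf (nat_lit 35) (nat_lit 136)) (lf (nat_lit 34) (nat_lit 158)))) q75341 (by decide +kernel)
def q75346 : Q := Q.p (nat_lit 0x80000240000100000400001000000000000000000000000000000000000000000000) (nat_lit 0x120000180000080000000000000000000000000000000000000000000000000000000) (nat_lit 3)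
theorem c75346 : QOK q75346 := cut [] trivial (nd (nat_lit 247) (nat_lit 0) (cs (lf (nat_lit 29) (nat_lit 180)) (nd (nat_lit 248) (nat_lit 0) (cs (lf (nat_lit 23) (nat_lit 223)) (lf (nat_lit 5) (nat_lit 246)))))) q75346 (by decide +kernel)
def q75348 : Q := Q.p (nat_lit 0x10000040000100000600000000000000000000000000000000000000000000000000) (nat_lit 0x800006000008000000000080000000000000000000000000000000000000000000000000000000) (nat_lit 3)
theorem c75348 : QOK q75348 := cut [] trivial (nd (nat_lit 289) (nat_lit 0) (cs (lf (nat_lit 40) (nat_lit 201)) (nd (nat_lit 290) (nat_lit 0) (cs (lf (nat_lit 46) (nat_lit 201)) (lf (nat_lit 41) (nat_lit 223)))))) q75348 (by decide +kernel)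
def q75357 : Q := Q.p (nat_lit 0x40000100000c00003000000000000000000000000000000000000000000000) (nat_lit 0x1000000e00002000000000000000000000000000000000000000) (nat_lit 3)
theorem c75357 : QOK q75357 := cut [] trivial (nd (nat_lit 179) (nat_lit 0) (cs (lf (nat_lit 47) (nat_lit 157)) (nd (nat_lit 178) (nat_lit 0) (cs (lf (nat_lit 0) (nat_lit 177)) (lf (nat_lit 5) (nat_lit 178)))))) q75357 (by decide +kernel)
def q75369 : Q := Q.p (nat_lit 0x100003400000000000000000000000000000000000000000000000000) (nat_lit 0x80000a0001dc00000000000000000000000000000000000000000000) (nat_lit 5)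
theorem c75369 : QOK q75369 := cut [] trivial (nd (nat_lit 203) (nat_lit 0) (cs (lf (nat_lit 11) (nat_lit 201)) (nd (nat_lit 179) (nat_lit 0) (cs (lf (nat_lit 22) (nat_lit 179)) (nd (nat_lit 201) (nat_lit 0) (cs (lf (nat_lit 23) (nat_lit 178)) (nd (nat_lit 183) (nat_lit 0) (cs (lf (nat_lit 16) (nat_lit 179)) (lf (nat_lit 17) (nat_lit 180)))))))))) q75369 (by decide +kernel)
def q75372 : Q := Q.p (nat_lit 0x20000080000200000400001000000000000000000000000000000000000000000000000000) (nat_lit 0x8000000000040000100000000000000000000000000000000000000000000000000000000000000) (nat_lit 2)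
theorem c75372 : QOK q75372 := cut [] trivial (nd (nat_lit 248) (nat_lit 0) (cs (lf (nat_lit 42) (nat_lit 226)) (lf (nat_lit 27) (nat_lit 204)))) q75372 (by decide +kernel)
def q75376 : Q := Q.p (nat_lit 0x80000200000800003c00000000000000000000000000000000000000000000000000) (nat_lit 0x4000018000000000000000000000000000000000000000000000) (nat_lit 2)
theorem c75376 : QOK q75376 := cut [] trivial (nd (nat_lit 184) (nat_lit 0) (cs (lf (nat_lit 16) (nat_lit 180)) (lf (nat_lit 34) (nat_lit 183)))) q75376 (by decide +kernel)
def q75427 : Q := Q.p (nat_lit 0x80000c000010000040000000000000000000000000000000000) (nat_lit 0x2000002000000000000000100000000000000000000000000000) (nat_lit 2)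
theorem c75427 : QOK q75427 := cut [] trivial (nd (nat_lit 116) (nat_lit 0) (cs (lf (nat_lit 40) (nat_lit 115)) (lf (nat_lit 29) (nat_lit 116)))) q75427 (by decide +kernel)
def q75445 : Q := Q.p (nat_lit 0x1c00018000000000000000000000000000000000000000000000) (nat_lit 0x200006000000000000000000000000000000000000000000000) (nat_lit 2)
theorem c75445 : QOK q75445 := cut [] trivial (nd (nat_lit 182) (nat_lit 0) (cs (lf (nat_lit 12) (nat_lit 179)) (lf (nat_lit 9) (nat_lit 180)))) q75445 (by decide +kernel)
def q75450 : Q := Q.p (nat_lit 0x1f00000000000000000000000000000000000000000000000000) (nat_lit 0xe000000000000000000000000000000000000000000000) (nat_lit 2)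
theorem c75450 : QOK q75450 := cut [] trivial (nd (nat_lit 182) (nat_lit 0) (cs (lf (nat_lit 16) (nat_lit 178)) (lf (nat_lit 17) (nat_lit 179)))) q75450 (by decide +kernel)
def q75476 : Q := Q.p (nat_lit 0x80000200000100003400000000000000000000000000000000000000000000000000) (nat_lit 0x880004800033800000000000000000000000000000000000000000000) (nat_lit 5)
theorem c75476 : QOK q75476 := cut [] trivial (nd (nat_lit 203) (nat_lit 0) (cs (lf (nat_lit 11) (nat_lit 201)) (nd (nat_lit 180) (nat_lit 0) (cs (lf (nat_lit 23) (nat_lit 179)) (nd (nat_lit 206) (nat_lit 0) (cs (lf (nat_lit 22) (nat_lit 180)) (nd (nat_lit 184) (nat_lit 0) (cs (lf (nat_lit 17) (nat_lit 181)) (lf (nat_lit 32) (nat_lit 183)))))))))) q75476 (by decide +kernel)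
def q75481 : Q := Q.p (nat_lit 0x80000340000100000000000000000000000000000000000000000000000000000000) (nat_lit 0x100000080000080000000000000000000000000000000000000000000000000000000) (nat_lit 2)
theorem c75481 : QOK q75481 := cut [] trivial (nd (nat_lit 247) (nat_lit 0) (cs (lf (nat_lit 23) (nat_lit 223)) (lf (nat_lit 5) (nat_lit 246)))) q75481 (by decide +kernel)
def q75493 : Q := Q.p (nat_lit 0x20000880002200000100013400040000000000000000000000000000000000000000000000) (nat_lit 0x10000040000100001000004880000800004000000000000000000000000000000000000000000000) (nat_lit 5)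
theorem c75493 : QOK q75493 := cut [] trivial (nd (nat_lit 230) (nat_lit 0) (cs (lf (nat_lit 27) (nat_lit 186)) (nd (nat_lit 203) (nat_lit 0) (cs (lf (nat_lit 11) (nat_lit 201)) (nd (nat_lit 227) (nat_lit 0) (cs (lf (nat_lit 47) (nat_lit 182)) (nd (nat_lit 294) (nat_lit 0) (cs (lf (nat_lit 29) (nat_lit 227)) (lf (nat_lit 28) (nat_lit 205)))))))))) q75493 (by decide +kernel)
def q75506 : Q := Q.p (nat_lit 0xa0000640000100000400000000000000000000000000000000000000000000000000) (nat_lit 0x8000050000000000000000000000000000000000000000000000000000000000000000000) (nat_lit 2)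
theorem c75506 : QOK q75506 := cut [] trivial (nd (nat_lit 268) (nat_lit 0) (cs (lf (nat_lit 29) (nat_lit 202)) (lf (nat_lit 14) (nat_lit 246)))) q75506 (by decide +kernel)
def q75507 : Q := Q.p (nat_lit 0x1a0000240000000000000000000000000000000000000000000000000000000000000) (nat_lit 0x40000180000000000000000000000000000000000000000000000000000000000000) (nat_lit 2)
theorem c75507 : QOK q75507 := cut [] trivial (nd (nat_lit 247) (nat_lit 0) (cs (lf (nat_lit 2) (nat_lit 246)) (lf (nat_lit 20) (nat_lit 246)))) q75507 (by decide +kernel)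
def q75553 : Q := Q.p (nat_lit 0x180000e00000000000000000000000000000000000000000000000000) (nat_lit 0x40003000000000000000000000000000000000000000000000000000) (nat_lit 2)
theorem c75553 : QOK q75553 := cut [] trivial (nd (nat_lit 204) (nat_lit 0) (cs (lf (nat_lit 11) (nat_lit 200)) (lf (nat_lit 6) (nat_lit 201)))) q75553 (by decide +kernel)
def q75635 : Q := Q.p (nat_lit 0x880002260000100010400041000000000000000000000000000000000000000000000) (nat_lit 0x160000180008000020000000000000000000000000000000000000000000000000000) (nat_lit 4)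
theorem c75635 : QOK q75635 := cut [] trivial (nd (nat_lit 209) (nat_lit 0) (cs (lf (nat_lit 44) (nat_lit 186)) (nd (nat_lit 247) (nat_lit 0) (cs (lf (nat_lit 29) (nat_lit 180)) (nd (nat_lit 248) (nat_lit 0) (cs (lf (nat_lit 5) (nat_lit 246)) (lf (nat_lit 4) (nat_lit 245)))))))) q75635 (by decide +kernel)
def q75681 : Q := Q.p (nat_lit 0x100000400001000004000010000000000000000000000000000000000) (nat_lit 0x8000020000080000000000000000000000000000) (nat_lit 2)
theorem c75681 : QOK q75681 := cut [] trivial (nd (nat_lit 137) (nat_lit 0) (cs (lf (nat_lit 34) (nat_lit 136)) (lf (nat_lit 35) (nat_lit 114)))) q75681 (by decide +kernel)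
def q75696 : Q := Q.p (nat_lit 0x80000600001800000000000000000000000000000000000000) (nat_lit 0x20000000000000000000004000010000000000000000000000000000) (nat_lit 2)
theorem c75696 : QOK q75696 := cut [] trivial (nd (nat_lit 134) (nat_lit 0) (cs (lf (nat_lit 30) (nat_lit 133)) (lf (nat_lit 36) (nat_lit 111)))) q75696 (by decide +kernel)
def q75712 : Q := Q.p (nat_lit 0x800002000000000010000043c00000000000000000000000000000000000000000000) (nat_lit 0x1000004000003b80004000000000000000000000000000000000000000000000) (nat_lit 5)
theorem c75712 : QOK q75712 := cut [] trivial (nd (nat_lit 200) (nat_lit 0) (cs (lf (nat_lit 11) (nat_lit 177)) (nd (nat_lit 230) (nat_lit 0) (cs (lf (nat_lit 27) (nat_lit 186)) (nd (nat_lit 182) (nat_lit 0) (cs (lf (nat_lit 10) (nat_lit 178)) (nd (nat_lit 204) (nat_lit 0) (cs (lf (nat_lit 5) (nat_lit 179)) (lf (nat_lit 4) (nat_lit 178)))))))))) q75712 (by decide +kernel)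

end Crest.Agent.H3.Snaky.CR
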