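import Crest.Agent.H3.Snaky.Cert

set_option autoImplicit false
set_option maxRecDepth 100000

namespace Crest.Agent.H3.Snaky.CR

open T

def q75717 : Q := Q.p (nat_lit 0x400001c00000000000000000000000000000000000000000000) (nat_lit 0x3a00000200000000000000000000000000000000000000000000) (nat_lit 3)
theorem c75717 : QOK q75717 := cut [] trivial (nd (nat_lit 203) (nat_lit 0) (cs (lf (nat_lit 0) (nat_lit 177)) (nd (nat_lit 204) (nat_lit 0) (cs (lf (nat_lit 18) (nat_lit 179)) (lf (nat_lit 21) (nat_lit 178)))))) q75717 (by decide +kernel)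
def q75728 : Q := Q.p (nat_lit 0x100000400001000004000010000000000000000000000000000000000) (nat_lit 0x2000008000020000000000000000000000000000) (nat_lit 2)
theorem c75728 : QOK q75728 := cut [] trivial (nd (nat_lit 135) (nat_lit 0) (cs (lf (nat_lit 47) (nat_lit 113)) (lf (nat_lit 46) (nat_lit 135)))) q75728 (by decide +kernel)
def q75732 : Q := Q.p (nat_lit 0x100000400001000004000008000000000000000000000000000000000) (nat_lit 0x80000300000a0000000000000000000000000000) (nat_lit 3)
theorem c75732 : QOK q75732 := cut [] trivial (nd (nat_lit 137) (nat_lit 0) (cs (lf (nat_lit 34) (nat_lit 136)) (nd (nat_lit 136) (nat_lit 0) (cs (lf (nat_lit 35) (nat_lit 114)) (lf (nat_lit 47) (nat_lit 113)))))) q75732 (by decide +kernel)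
def q75736 : Q := Q.p (nat_lit 0x1c0000600000000000000000000000000000000000000000000000000) (nat_lit 0x20001800000000000000000000000000000000000000000000000000) (nat_lit 2)
theorem c75736 : QOK q75736 := cut [] trivial (nd (nat_lit 203) (nat_lit 0) (cs (lf (nat_lit 6) (nat_lit 200)) (lf (nat_lit 12) (nat_lit 199)))) q75736 (by decide +kernel)
def q75743 : Q := Q.p (nat_lit 0x3000004000001e000000000000000000000000000000000000000) (nat_lit 0x3c000020000000000000000000000000000000000000000) (nat_lit 3)
theorem c75743 : QOK q75743 := cut [] trivial (nd (nat_lit 183) (nat_lit 0) (cs (lf (nat_lit 4) (nat_lit 157)) (nd (nat_lit 184) (nat_lit 0) (cs (lf (nat_lit 2) (nat_lit 183)) (lf (nat_lit 3) (nat_lit 158)))))) q75743 (by decide +kernel)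
def q75772 : Q := Q.p (nat_lit 0x780000000000000000000000000000000000000000000000000) (nat_lit 0x8000030000800000700001000004000000000000000000000000000000000) (nat_lit 5)
theorem c75772 : QOK q75772 := cut [] trivial (nd (nat_lit 177) (nat_lit 0) (cs (lf (nat_lit 23) (nat_lit 176)) (nd (nat_lit 178) (nat_lit 0) (cs (nd (nat_lit 221) (nat_lit 0) (cs (lf (nat_lit 11) (nat_lit 198)) (nd (nat_lit 156) (nat_lit 0) (cs (lf (nat_lit 30) (nat_lit 155)) (lf (nat_lit 36) (nat_lit 133)))))) (lf (nat_lit 18) (nat_lit 177)))))) q75772 (by decide +kernel)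
def q75774 : Q := Q.p (nat_lit 0xc0000300000400000000000000000000000000000000000000000000) (nat_lit 0x20000000000000000000001000004000000000000000000000000000000000) (nat_lit 2)
theorem c75774 : QOK q75774 := cut [] trivial (nd (nat_lit 156) (nat_lit 0) (cs (lf (nat_lit 24) (nat_lit 134)) (lf (nat_lit 29) (nat_lit 156)))) q75774 (by decide +kernel)
def q75839 : Q := Q.p (nat_lit 0x600003000000000000000000000000000000000000000000000) (nat_lit 0x18000c800000000000000000000000000000000000000000000) (nat_lit 3)
theorem c75839 : QOK q75839 := cut [] trivial (nd (nat_lit 182) (nat_lit 0) (cs (lf (nat_lit 6) (nat_lit 179)) (nd (nat_lit 200) (nat_lit 0) (cs (lf (nat_lit 9) (nat_lit 178)) (lf (nat_lit 12) (nat_lit 177)))))) q75839 (by decide +kernel)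
def q75854 : Q := Q.p (nat_lit 0x100000400003c00000000000000000000000000000000000000000000) (nat_lit 0x1800000000018000020000000000000000000000000000000000) (nat_lit 3)
theorem c75854 : QOK q75854 := cut [] trivial (nd (nat_lit 203) (nat_lit 0) (cs (lf (nat_lit 5) (nat_lit 178)) (nd (nat_lit 159) (nat_lit 0) (cs (lf (nat_lit 36) (nat_lit 136)) (lf (nat_lit 17) (nat_lit 156)))))) q75854 (by decide +kernel)
def q75859 : Q := Q.p (nat_lit 0x7c00000000000000000000000000000000000000000000) (nat_lit 0x38000000000000000000000000000000000000000) (nat_lit 2)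
theorem c75859 : QOK q75859 := cut [] trivial (nd (nat_lit 160) (nat_lit 0) (cs (lf (nat_lit 16) (nat_lit 156)) (lf (nat_lit 17) (nat_lit 157)))) q75859 (by decide +kernel)
def q75878 : Q := Q.p (nat_lit 0x200001000004000010000000000000000000000000000000000) (nat_lit 0x8000028000080000000000c0000300000800000000000000000) (nat_lit 5)
theorem c75878 : QOK q75878 := cut [] trivial (nd (nat_lit 114) (nat_lit 0) (cs (nd (nat_lit 93) (nat_lit 0) (cs (nd (nat_lit 92) (nat_lit 0) (cs (nd (nat_lit 181) (nat_lit 0) (cs (lf (nat_lit 28) (nat_lit 92)) (lf (nat_lit 29) (nat_lit 114)))) (lf (nat_lit 35) (nat_lit 70)))) (lf (nat_lit 34) (nat_lit 92)))) (lf (nat_lit 40) (nat_lit 113)))) q75878 (by decide +kernel)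
def q75892 : Q := Q.p (nat_lit 0x1c0000680000000000000000000000000000000000000000000000000) (nat_lit 0x30000040000000000000000000000000000000000000000000000000) (nat_lit 2)
theorem c75892 : QOK q75892 := cut [] trivial (nd (nat_lit 221) (nat_lit 0) (cs (lf (nat_lit 23) (nat_lit 198)) (lf (nat_lit 12) (nat_lit 198)))) q75892 (by decide +kernel)
def q75900 : Q := Q.p (nat_lit 0x100000600001000004000000000000000000000000000000000000000) (nat_lit 0x20000080000000000000000000010000000000000000000000000000000000) (nat_lit 2)
theorem c75900 : QOK q75900 := cut [] trivial (nd (nat_lit 223) (nat_lit 0) (cs (lf (nat_lit 36) (nat_lit 135)) (lf (nat_lit 41) (nat_lit 157)))) q75900 (by decide +kernel)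
def q75906 : Q := Q.p (nat_lit 0x600001000004000010000000000000000000000000000000000) (nat_lit 0x8000000000200000c0000200000000000000000000000) (nat_lit 3)
theorem c75906 : QOK q75906 := cut [] trivial (nd (nat_lit 114) (nat_lit 0) (cs (lf (nat_lit 40) (nat_lit 113)) (nd (nat_lit 115) (nat_lit 0) (cs (lf (nat_lit 34) (nat_lit 114)) (lf (nat_lit 35) (nat_lit 92)))))) q75906 (by decide +kernel)
def q75924 : Q := Q.p (nat_lit 0x100000400001800004000000000000000000000000000000000000000) (nat_lit 0x2600038000020000000000000000000000000000000000) (nat_lit 4)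
theorem c75924 : QOK q75924 := cut [] trivial (nd (nat_lit 159) (nat_lit 0) (cs (lf (nat_lit 35) (nat_lit 136)) (nd (nat_lit 160) (nat_lit 0) (cs (lf (nat_lit 6) (nat_lit 157)) (nd (nat_lit 178) (nat_lit 0) (cs (lf (nat_lit 15) (nat_lit 156)) (lf (nat_lit 12) (nat_lit 155)))))))) q75924 (by decide +kernel)
def q75938 : Q := Q.p (nat_lit 0x90000600000100000400000000000000000000000000000000000000000000000000) (nat_lit 0x80000600001c0000000000000001000000000000000000000000000000000000000000000) (nat_lit 4)
theorem c75938 : QOK q75938 := cut [] trivial (nd (nat_lit 269) (nat_lit 0) (cs (lf (nat_lit 14) (nat_lit 246)) (nd (nat_lit 247) (nat_lit 0) (cs (lf (nat_lit 8) (nat_lit 246)) (nd (nat_lit 246) (nat_lit 0) (cs (lf (nat_lit 29) (nat_lit 202)) (lf (nat_lit 24) (nat_lit 180)))))))) q75938 (by decide +kernel)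
def q75947 : Q := Q.p (nat_lit 0x1c00004000000000000000000000000000000000000000000000) (nat_lit 0x20003a000000000000000000000000000000000000000000000) (nat_lit 3)
theorem c75947 : QOK q75947 := cut [] trivial (nd (nat_lit 183) (nat_lit 0) (cs (lf (nat_lit 12) (nat_lit 179)) (nd (nat_lit 184) (nat_lit 0) (cs (lf (nat_lit 6) (nat_lit 181)) (lf (nat_lit 9) (nat_lit 180)))))) q75947 (by decide +kernel)
def q75994 : Q := Q.p (nat_lit 0x400007800000000000000000000000000000000000000000000) (nat_lit 0x300008000000000000000000000000000000000000000000000) (nat_lit 2)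
theorem c75994 : QOK q75994 := cut [] trivial (nd (nat_lit 201) (nat_lit 0) (cs (lf (nat_lit 11) (nat_lit 178)) (lf (nat_lit 6) (nat_lit 179)))) q75994 (by decide +kernel)
def q76002 : Q := Q.p (nat_lit 0x1000003800000000000000000000000000000000000000000000) (nat_lit 0x9c0000600001c00000000000000000000000000000000000000) (nat_lit 5)
theorem c76002 : QOK q76002 := cut [] trivial (nd (nat_lit 178) (nat_lit 0) (cs (lf (nat_lit 4) (nat_lit 178)) (nd (nat_lit 155) (nat_lit 0) (cs (lf (nat_lit 22) (nat_lit 155)) (nd (nat_lit 199) (nat_lit 0) (cs (lf (nat_lit 10) (nat_lit 177)) (nd (nat_lit 177) (nat_lit 0) (cs (lf (nat_lit 11) (nat_lit 176)) (lf (nat_lit 23) (nat_lit 154)))))))))) q76002 (by decide +kernel)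
def q76004 : Q := Q.p (nat_lit 0x1c00001800000000000000000000000000000000000000000000) (nat_lit 0x200000600000000000000000000000000000000000000000000) (nat_lit 2)
theorem c76004 : QOK q76004 := cut [] trivial (nd (nat_lit 178) (nat_lit 0) (cs (lf (nat_lit 0) (nat_lit 177)) (lf (nat_lit 21) (nat_lit 178)))) q76004 (by decide +kernel)
def q76033 : Q := Q.p (nat_lit 0x180000400001000000000000000000000000000000000000000000000) (nat_lit 0x2000000000020000000000c000030000080000000000000000000000000000) (nat_lit 4)
theorem c76033 : QOK q76033 := cut [] trivial (nd (nat_lit 158) (nat_lit 0) (cs (lf (nat_lit 41) (nat_lit 157)) (nd (nat_lit 137) (nat_lit 0) (cs (lf (nat_lit 34) (nat_lit 136)) (nd (nat_lit 136) (nat_lit 0) (cs (lf (nat_lit 35) (nat_lit 114)) (lf (nat_lit 40) (nat_lit 135)))))))) q76033 (by decide +kernel)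
def q76034 : Q := Q.p (nat_lit 0x20000180000400001000000000000000000000000000000000000000000000) (nat_lit 0x2000008000040000000000000000000000000000000000000000000000000000000000000) (nat_lit 2)
theorem c76034 : QOK q76034 := cut [] trivial (nd (nat_lit 267) (nat_lit 0) (cs (lf (nat_lit 30) (nat_lit 201)) (lf (nat_lit 39) (nat_lit 179)))) q76034 (by decide +kernel)
def q76039 : Q := Q.p (nat_lit 0x80000200000000001000004000000000000000000000000000000000000000000000) (nat_lit 0x20000000000100000c00000000000000010000000000000000000000000000000000000000) (nat_lit 3)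
theorem c76039 : QOK q76039 := cut [] trivial (nd (nat_lit 226) (nat_lit 0) (cs (lf (nat_lit 27) (nat_lit 182)) (nd (nat_lit 227) (nat_lit 0) (cs (lf (nat_lit 42) (nat_lit 204)) (lf (nat_lit 24) (nat_lit 160)))))) q76039 (by decide +kernel)
def q76042 : Q := Q.p (nat_lit 0x1400007000000000000000000000000000000000000000000000) (nat_lit 0x6200008800000000000000000000000000000000000000000000) (nat_lit 3)
theorem c76042 : QOK q76042 := cut [] trivial (nd (nat_lit 183) (nat_lit 0) (cs (lf (nat_lit 11) (nat_lit 179)) (nd (nat_lit 205) (nat_lit 0) (cs (lf (nat_lit 0) (nat_lit 179)) (lf (nat_lit 5) (nat_lit 180)))))) q76042 (by decide +kernel)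
def q76057 : Q := Q.p (nat_lit 0x80000200000000001400005000000000000000000000000000000000000000000000) (nat_lit 0x80000620000a800000000000000000000000000000000000000000000) (nat_lit 4)
theorem c76057 : QOK q76057 := cut [] trivial (nd (nat_lit 205) (nat_lit 0) (cs (lf (nat_lit 44) (nat_lit 182)) (nd (nat_lit 181) (nat_lit 0) (cs (lf (nat_lit 0) (nat_lit 179)) (nd (nat_lit 183) (nat_lit 0) (cs (lf (nat_lit 11) (nat_lit 179)) (lf (nat_lit 5) (nat_lit 180)))))))) q76057 (by decide +kernel)
def q76064 : Q := Q.p (nat_lit 0x880002200000080011600040000000000000000000000000000000000000000000000) (nat_lit 0x1100004c4000080000c000000000000000000000000000000000000000000000) (nat_lit 5)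
theorem c76064 : QOK q76064 := cut [] trivial (nd (nat_lit 230) (nat_lit 0) (cs (lf (nat_lit 27) (nat_lit 186)) (nd (nat_lit 203) (nat_lit 0) (cs (lf (nat_lit 11) (nat_lit 200)) (nd (nat_lit 182) (nat_lit 0) (cs (lf (nat_lit 17) (nat_lit 179)) (nd (nat_lit 226) (nat_lit 0) (cs (lf (nat_lit 27) (nat_lit 182)) (lf (nat_lit 5) (nat_lit 201)))))))))) q76064 (by decide +kernel)
def q76075 : Q := Q.p (nat_lit 0x180001600001000000000000000000000000000000000000000000000) (nat_lit 0x400009c0002e00000000000000000000000000000000000000000000) (nat_lit 5)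
theorem c76075 : QOK q76075 := cut [] trivial (nd (nat_lit 203) (nat_lit 0) (cs (lf (nat_lit 11) (nat_lit 200)) (nd (nat_lit 178) (nat_lit 0) (cs (lf (nat_lit 22) (nat_lit 178)) (nd (nat_lit 200) (nat_lit 0) (cs (lf (nat_lit 23) (nat_lit 177)) (nd (nat_lit 199) (nat_lit 0) (cs (lf (nat_lit 0) (nat_lit 198)) (lf (nat_lit 17) (nat_lit 177)))))))))) q76075 (by decide +kernel)
def q76104 : Q := Q.p (nat_lit 0x20000180000400001000000000000000000000000000000000000000000000) (nat_lit 0x2000008000000000000000200000000000000000000000000000000000000000000000000) (nat_lit 2)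
theorem c76104 : QOK q76104 := cut [] trivial (nd (nat_lit 267) (nat_lit 0) (cs (lf (nat_lit 33) (nat_lit 179)) (lf (nat_lit 30) (nat_lit 201)))) q76104 (by decide +kernel)
def q76111 : Q := Q.p (nat_lit 0x400001000004000010000040000000000000000000000000000) (nat_lit 0x8000020000080000000000000000000000) (nat_lit 2)
theorem c76111 : QOK q76111 := cut [] trivial (nd (nat_lit 113) (nat_lit 0) (cs (lf (nat_lit 47) (nat_lit 91)) (lf (nat_lit 46) (nat_lit 113)))) q76111 (by decide +kernel)
def q76123 : Q := Q.p (nat_lit 0x90000060000100000400000000000000000000000000000000000000000000000000) (nat_lit 0x8000060000000000000000000000000000000000000000000000000000000000000000000) (nat_lit 2)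
theorem c76123 : QOK q76123 := cut [] trivial (nd (nat_lit 269) (nat_lit 0) (cs (lf (nat_lit 29) (nat_lit 202)) (lf (nat_lit 19) (nat_lit 245)))) q76123 (by decide +kernel)
def q76134 : Q := Q.p (nat_lit 0x100000400001000004000000000000000000000000000000000000000) (nat_lit 0x800002000008000020000380000e0000200000000000000000000000) (nat_lit 6)
theorem c76134 : QOK q76134 := cut [] trivial (nd (nat_lit 135) (nat_lit 0) (cs (lf (nat_lit 46) (nat_lit 135)) (nd (nat_lit 136) (nat_lit 0) (cs (lf (nat_lit 47) (nat_lit 113)) (nd (nat_lit 115) (nat_lit 0) (cs (lf (nat_lit 34) (nat_lit 114)) (nd (nat_lit 201) (nat_lit 0) (cs (nd (nat_lit 114) (nat_lit 0) (cs (lf (nat_lit 40) (nat_lit 113)) (lf (nat_lit 35) (nat_lit 92)))) (lf (nat_lit 41) (nat_lit 135)))))))))) q76134 (by decide +kernel)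
def q76139 : Q := Q.p (nat_lit 0x200001000004000010000020000000000000000000000000000) (nat_lit 0x800000000000000040000080000000000000000000000) (nat_lit 2)
theorem c76139 : QOK q76139 := cut [] trivial (nd (nat_lit 114) (nat_lit 0) (cs (lf (nat_lit 40) (nat_lit 113)) (lf (nat_lit 47) (nat_lit 91)))) q76139 (by decide +kernel)
def q76154 : Q := Q.p (nat_lit 0x100000600001000004000010000000000000000000000000000000000) (nat_lit 0x10000040000000000000000800002000000000040000000000000000000000000000) (nat_lit 3)
theorem c76154 : QOK q76154 := cut [] trivial (nd (nat_lit 179) (nat_lit 0) (cs (nd (nat_lit 246) (nat_lit 0) (cs (lf (nat_lit 47) (nat_lit 157)) (lf (nat_lit 42) (nat_lit 179)))) (lf (nat_lit 36) (nat_lit 113)))) q76154 (by decide +kernel)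
def q76166 : Q := Q.p (nat_lit 0x800002000000100010400041000004000000000000000000000000000000000000000) (nat_lit 0x104000c00002000000600000b800028000000000000000000000000000000000) (nat_lit 7)
theorem c76166 : QOK q76166 := cut [] trivial (nd (nat_lit 159) (nat_lit 0) (cs (lf (nat_lit 35) (nat_lit 136)) (nd (nat_lit 230) (nat_lit 0) (cs (lf (nat_lit 27) (nat_lit 186)) (nd (nat_lit 181) (nat_lit 0) (cs (lf (nat_lit 30) (nat_lit 158)) (nd (nat_lit 209) (nat_lit 0) (cs (lf (nat_lit 44) (nat_lit 186)) (nd (nat_lit 157) (nat_lit 0) (cs (lf (nat_lit 47) (nat_lit 135)) (nd (nat_lit 156) (nat_lit 0) (cs (lf (nat_lit 0) (nat_lit 155)) (lf (nat_lit 5) (nat_lit 156)))))))))))))) q76166 (by decide +kernel)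
def q76172 : Q := Q.p (nat_lit 0x10000040000100001c000000000000000000000000000000000000000) (nat_lit 0x8000220001c8000000000000000000000000000000000) (nat_lit 4)
theorem c76172 : QOK q76172 := cut [] trivial (nd (nat_lit 161) (nat_lit 0) (cs (lf (nat_lit 11) (nat_lit 157)) (nd (nat_lit 139) (nat_lit 0) (cs (lf (nat_lit 17) (nat_lit 136)) (nd (nat_lit 157) (nat_lit 0) (cs (lf (nat_lit 16) (nat_lit 135)) (lf (nat_lit 47) (nat_lit 135)))))))) q76172 (by decide +kernel)
def q76175 : Q := Q.p (nat_lit 0x100003c000000000000000000000000000000000000000) (nat_lit 0x3a000040000000000000000000000000000000000000000) (nat_lit 3)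
theorem c76175 : QOK q76175 := cut [] trivial (nd (nat_lit 184) (nat_lit 0) (cs (lf (nat_lit 4) (nat_lit 158)) (nd (nat_lit 162) (nat_lit 0) (cs (lf (nat_lit 5) (nat_lit 159)) (lf (nat_lit 10) (nat_lit 158)))))) q76175 (by decide +kernel)
def q76186 : Q := Q.p (nat_lit 0x10000040000100001c000000000000000000000000000000000000000) (nat_lit 0xee00003000008000000000000000000000000000000000) (nat_lit 5)
theorem c76186 : QOK q76186 := cut [] trivial (nd (nat_lit 157) (nat_lit 0) (cs (lf (nat_lit 47) (nat_lit 135)) (nd (nat_lit 182) (nat_lit 0) (cs (lf (nat_lit 5) (nat_lit 157)) (nd (nat_lit 178) (nat_lit 0) (cs (lf (nat_lit 10) (nat_lit 156)) (nd (nat_lit 156) (nat_lit 0) (cs (lf (nat_lit 4) (nat_lit 156)) (lf (nat_lit 11) (nat_lit 155)))))))))) q76186 (by decide +kernel)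
def q76193 : Q := Q.p (nat_lit 0x80000240000100000400001000000000000000000000000000000000000000000000) (nat_lit 0x1380001a0000000000000000000000000000000000000000000000000000000000000) (nat_lit 4)
theorem c76193 : QOK q76193 := cut [] trivial (nd (nat_lit 247) (nat_lit 0) (cs (lf (nat_lit 29) (nat_lit 180)) (nd (nat_lit 248) (nat_lit 0) (cs (lf (nat_lit 5) (nat_lit 246)) (nd (nat_lit 267) (nat_lit 0) (cs (lf (nat_lit 40) (nat_lit 179)) (lf (nat_lit 10) (nat_lit 245)))))))) q76193 (by decide +kernel)
def q76232 : Q := Q.p (nat_lit 0x1c0000c00000000000000000000000000000000000000000000000000) (nat_lit 0x3200000000000000000000000000000000000000000000000000) (nat_lit 2)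
theorem c76232 : QOK q76232 := cut [] trivial (nd (nat_lit 204) (nat_lit 0) (cs (lf (nat_lit 6) (nat_lit 201)) (lf (nat_lit 9) (nat_lit 200)))) q76232 (by decide +kernel)
def q76237 : Q := Q.p (nat_lit 0x6000003c0000000000000000000000000000000000000000000000000000000) (nat_lit 0x38000c00000000000000000000000000000000000000000000000000000000) (nat_lit 3)
theorem c76237 : QOK q76237 := cut [] trivial (nd (nat_lit 226) (nat_lit 0) (cs (lf (nat_lit 3) (nat_lit 224)) (nd (nat_lit 244) (nat_lit 0) (cs (lf (nat_lit 11) (nat_lit 221)) (lf (nat_lit 10) (nat_lit 222)))))) q76237 (by decide +kernel)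
def q76241 : Q := Q.p (nat_lit 0x30000000000300000400000000000000000000000000000000000000000000000000) (nat_lit 0x80000000000c0000000000000000000000000000000000000000000000000000000000000) (nat_lit 2)
theorem c76241 : QOK q76241 := cut [] trivial (nd (nat_lit 291) (nat_lit 0) (cs (lf (nat_lit 26) (nat_lit 202)) (lf (nat_lit 44) (nat_lit 202)))) q76241 (by decide +kernel)
def q76246 : Q := Q.p (nat_lit 0x900006000003c0000400000000000000000000000000000000000000000000000000) (nat_lit 0xc000060000080000000001800000000000000000000000000000000000000000000000000) (nat_lit 4)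
theorem c76246 : QOK q76246 := cut [] trivial (nd (nat_lit 269) (nat_lit 0) (cs (lf (nat_lit 14) (nat_lit 246)) (nd (nat_lit 247) (nat_lit 0) (cs (lf (nat_lit 42) (nat_lit 202)) (nd (nat_lit 203) (nat_lit 0) (cs (lf (nat_lit 41) (nat_lit 202)) (lf (nat_lit 17) (nat_lit 200)))))))) q76246 (by decide +kernel)
def q76248 : Q := Q.p (nat_lit 0x100000000003c0000400000000000000000000000000000000000000000000000000) (nat_lit 0x4000000000040000000001800002000000000000000000000000000000000000000000000) (nat_lit 3)
theorem c76248 : QOK q76248 := cut [] trivial (nd (nat_lit 203) (nat_lit 0) (cs (lf (nat_lit 17) (nat_lit 200)) (nd (nat_lit 246) (nat_lit 0) (cs (lf (nat_lit 30) (nat_lit 202)) (lf (nat_lit 35) (nat_lit 180)))))) q76248 (by decide +kernel)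
def q76253 : Q := Q.p (nat_lit 0x40000180000600000000000000000000000000000000000000000000000000) (nat_lit 0x10000000000000000000000800002000000000000000000000000000000000000000) (nat_lit 2)
theorem c76253 : QOK q76253 := cut [] trivial (nd (nat_lit 179) (nat_lit 0) (cs (lf (nat_lit 24) (nat_lit 157)) (lf (nat_lit 42) (nat_lit 179)))) q76253 (by decide +kernel)
def q76258 : Q := Q.p (nat_lit 0x1e0000400000000000000000000000000000000000000000000000000) (nat_lit 0xe0000010000200000000000000000000000000000000000000000000000000) (nat_lit 3)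
theorem c76258 : QOK q76258 := cut [] trivial (nd (nat_lit 246) (nat_lit 0) (cs (lf (nat_lit 5) (nat_lit 221)) (nd (nat_lit 220) (nat_lit 0) (cs (lf (nat_lit 16) (nat_lit 198)) (lf (nat_lit 4) (nat_lit 220)))))) q76258 (by decide +kernel)
def q76261 : Q := Q.p (nat_lit 0x60000180000200000000000000000000000000000000000000000000) (nat_lit 0x10000000000000000000000800002000000000000000000000000000000000) (nat_lit 2)
theorem c76261 : QOK q76261 := cut [] trivial (nd (nat_lit 155) (nat_lit 0) (cs (lf (nat_lit 24) (nat_lit 133)) (lf (nat_lit 29) (nat_lit 155)))) q76261 (by decide +kernel)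
def q76269 : Q := Q.p (nat_lit 0x1e0000000000000000000000000000000000000000000000000000000) (nat_lit 0x1c0002000001c0000000000000000000000000000000000000000000000000) (nat_lit 4)
theorem c76269 : QOK q76269 := cut [] trivial (nd (nat_lit 199) (nat_lit 0) (cs (lf (nat_lit 23) (nat_lit 198)) (nd (nat_lit 243) (nat_lit 0) (cs (lf (nat_lit 11) (nat_lit 220)) (nd (nat_lit 225) (nat_lit 0) (cs (lf (nat_lit 22) (nat_lit 199)) (lf (nat_lit 10) (nat_lit 221)))))))) q76269 (by decide +kernel)
def q76275 : Q := Q.p (nat_lit 0x18000060000080000000000000000000000000000000000000000000000000) (nat_lit 0x4000000000000000000000200000800000000000000000000000000000000000000) (nat_lit 2)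
theorem c76275 : QOK q76275 := cut [] trivial (nd (nat_lit 177) (nat_lit 0) (cs (lf (nat_lit 29) (nat_lit 177)) (lf (nat_lit 24) (nat_lit 155)))) q76275 (by decide +kernel)
def q76288 : Q := Q.p (nat_lit 0x78000060000000000000000000000000000000000000000000000000000000) (nat_lit 0x800003000000000000000100000400000000000000000000000000000000000000000000) (nat_lit 3)
theorem c76288 : QOK q76288 := cut [] trivial (nd (nat_lit 265) (nat_lit 0) (cs (lf (nat_lit 11) (nat_lit 242)) (nd (nat_lit 200) (nat_lit 0) (cs (lf (nat_lit 30) (nat_lit 199)) (lf (nat_lit 36) (nat_lit 177)))))) q76288 (by decide +kernel)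
def q76302 : Q := Q.p (nat_lit 0x8000060000180000000000000000000000000000000000000000000000000) (nat_lit 0x2000000000000000000000400001000000000000000000000000000000000000000) (nat_lit 2)
theorem c76302 : QOK q76302 := cut [] trivial (nd (nat_lit 178) (nat_lit 0) (cs (lf (nat_lit 36) (nat_lit 155)) (lf (nat_lit 30) (nat_lit 177)))) q76302 (by decide +kernel)
def q76324 : Q := Q.p (nat_lit 0x10000040000180000400000000000000000000000000000000000000000000000000) (nat_lit 0x4000000000000000000000200000800000000000000000000000000000000000000000000) (nat_lit 2)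
theorem c76324 : QOK q76324 := cut [] trivial (nd (nat_lit 201) (nat_lit 0) (cs (lf (nat_lit 47) (nat_lit 179)) (lf (nat_lit 42) (nat_lit 201)))) q76324 (by decide +kernel)
def q76385 : Q := Q.p (nat_lit 0x300000c00002000000000000000000000000000000000000000000000) (nat_lit 0x40000000000000000000008000020000000000000000000000000000000000) (nat_lit 2)
theorem c76385 : QOK q76385 := cut [] trivial (nd (nat_lit 159) (nat_lit 0) (cs (lf (nat_lit 41) (nat_lit 158)) (lf (nat_lit 36) (nat_lit 136)))) q76385 (by decide +kernel)
def q76391 : Q := Q.p (nat_lit 0x3c0000300000000000000000000000000000000000000000000000000) (nat_lit 0x4000018000000000000000800002000000000000000000000000000000000000000) (nat_lit 3)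
theorem c76391 : QOK q76391 := cut [] trivial (nd (nat_lit 244) (nat_lit 0) (cs (lf (nat_lit 11) (nat_lit 221)) (nd (nat_lit 179) (nat_lit 0) (cs (lf (nat_lit 30) (nat_lit 178)) (lf (nat_lit 36) (nat_lit 156)))))) q76391 (by decide +kernel)
def q76399 : Q := Q.p (nat_lit 0x180000f00000000000000000000000000000000000000000000000000) (nat_lit 0x700000c0000000000000000000000000000000000000000000000000) (nat_lit 3)
theorem c76399 : QOK q76399 := cut [] trivial (nd (nat_lit 221) (nat_lit 0) (cs (lf (nat_lit 10) (nat_lit 199)) (nd (nat_lit 199) (nat_lit 0) (cs (lf (nat_lit 11) (nat_lit 198)) (lf (nat_lit 0) (nat_lit 198)))))) q76399 (by decide +kernel)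
def q76410 : Q := Q.p (nat_lit 0x180000600000800000000000000000000000000000000000000000000) (nat_lit 0x40000000000000000000002000008000000000000000000000000000000000) (nat_lit 2)
theorem c76410 : QOK q76410 := cut [] trivial (nd (nat_lit 157) (nat_lit 0) (cs (lf (nat_lit 29) (nat_lit 157)) (lf (nat_lit 24) (nat_lit 135)))) q76410 (by decide +kernel)
def q76418 : Q := Q.p (nat_lit 0x600000c00000000000000000000000000000000000000000000) (nat_lit 0x1900000300000000000000000000000000000000000000000000) (nat_lit 3)
theorem c76418 : QOK q76418 := cut [] trivial (nd (nat_lit 203) (nat_lit 0) (cs (lf (nat_lit 18) (nat_lit 178)) (nd (nat_lit 177) (nat_lit 0) (cs (lf (nat_lit 21) (nat_lit 177)) (lf (nat_lit 0) (nat_lit 176)))))) q76418 (by decide +kernel)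
def q76438 : Q := Q.p (nat_lit 0x180000e00000000000000000000000000000000000000000000000000) (nat_lit 0x31c000e700000000000000000000000000000000000000000000) (nat_lit 6)
theorem c76438 : QOK q76438 := cut [] trivial (nd (nat_lit 204) (nat_lit 0) (cs (lf (nat_lit 6) (nat_lit 201)) (nd (nat_lit 182) (nat_lit 0) (cs (lf (nat_lit 17) (nat_lit 179)) (nd (nat_lit 200) (nat_lit 0) (cs (lf (nat_lit 16) (nat_lit 178)) (nd (nat_lit 177) (nat_lit 0) (cs (lf (nat_lit 22) (nat_lit 177)) (nd (nat_lit 199) (nat_lit 0) (cs (lf (nat_lit 23) (nat_lit 176)) (lf (nat_lit 0) (nat_lit 198)))))))))))) q76438 (by decide +kernel)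
def q76488 : Q := Q.p (nat_lit 0x88000620000180000600000000000000000000000000000000000000000000000000) (nat_lit 0xc000070000040000000000000000800000000000000000000000000000000000000000000) (nat_lit 4)
theorem c76488 : QOK q76488 := cut [] trivial (nd (nat_lit 268) (nat_lit 0) (cs (lf (nat_lit 29) (nat_lit 201)) (nd (nat_lit 269) (nat_lit 0) (cs (lf (nat_lit 14) (nat_lit 246)) (nd (nat_lit 246) (nat_lit 0) (cs (lf (nat_lit 29) (nat_lit 202)) (lf (nat_lit 47) (nat_lit 179)))))))) q76488 (by decide +kernel)
def q76498 : Q := Q.p (nat_lit 0x8000020000180000200000000000000000000000000000000000000000000000000) (nat_lit 0x500003400001c000000000000000800000000000000000000000000000000000000000000) (nat_lit 5)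
theorem c76498 : QOK q76498 := cut [] trivial (nd (nat_lit 266) (nat_lit 0) (cs (lf (nat_lit 41) (nat_lit 200)) (nd (nat_lit 244) (nat_lit 0) (cs (lf (nat_lit 36) (nat_lit 178)) (nd (nat_lit 243) (nat_lit 0) (cs (lf (nat_lit 12) (nat_lit 220)) (nd (nat_lit 268) (nat_lit 0) (cs (lf (nat_lit 29) (nat_lit 201)) (lf (nat_lit 18) (nat_lit 243)))))))))) q76498 (by decide +kernel)
def q76537 : Q := Q.p (nat_lit 0x180000700000000000000000000000000000000000000000000000000) (nat_lit 0x2000000c0000000000000000000000000000000000000000000000000) (nat_lit 2)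
theorem c76537 : QOK q76537 := cut [] trivial (nd (nat_lit 199) (nat_lit 0) (cs (lf (nat_lit 0) (nat_lit 198)) (lf (nat_lit 5) (nat_lit 199)))) q76537 (by decide +kernel)
def q76545 : Q := Q.p (nat_lit 0x800002030000180010000040000000000000000000000000000000000000000000000) (nat_lit 0x100c004640000000000000000000000000000000000000000000000000000000) (nat_lit 4)
theorem c76545 : QOK q76545 := cut [] trivial (nd (nat_lit 230) (nat_lit 0) (cs (lf (nat_lit 27) (nat_lit 186)) (nd (nat_lit 243) (nat_lit 0) (cs (lf (nat_lit 12) (nat_lit 220)) (nd (nat_lit 225) (nat_lit 0) (cs (lf (nat_lit 6) (nat_lit 222)) (lf (nat_lit 9) (nat_lit 221)))))))) q76545 (by decide +kernel)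
def q76550 : Q := Q.p (nat_lit 0x800002078000000010000040000000000000000000000000000000000000000000000) (nat_lit 0x7001080004070000000000000000000000000000000000000000000000000000000) (nat_lit 5)
theorem c76550 : QOK q76550 := cut [] trivial (nd (nat_lit 230) (nat_lit 0) (cs (lf (nat_lit 27) (nat_lit 186)) (nd (nat_lit 265) (nat_lit 0) (cs (lf (nat_lit 11) (nat_lit 242)) (nd (nat_lit 221) (nat_lit 0) (cs (lf (nat_lit 23) (nat_lit 220)) (nd (nat_lit 247) (nat_lit 0) (cs (lf (nat_lit 22) (nat_lit 221)) (lf (nat_lit 10) (nat_lit 243)))))))))) q76550 (by decide +kernel)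
def q76560 : Q := Q.p (nat_lit 0x200003c0000000000000000000000000000000000000000000000000000000) (nat_lit 0xc00000300001c0000000000000000000000000000000000000000000000000) (nat_lit 4)
theorem c76560 : QOK q76560 := cut [] trivial (nd (nat_lit 199) (nat_lit 0) (cs (lf (nat_lit 22) (nat_lit 199)) (nd (nat_lit 221) (nat_lit 0) (cs (lf (nat_lit 23) (nat_lit 198)) (nd (nat_lit 246) (nat_lit 0) (cs (lf (nat_lit 0) (nat_lit 220)) (lf (nat_lit 5) (nat_lit 221)))))))) q76560 (by decide +kernel)
def q76561 : Q := Q.p (nat_lit 0x300000c0000200000000000000000000000000000000000000000000000000) (nat_lit 0x4000000000000000000000800002000000000000000000000000000000000000000) (nat_lit 2)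
theorem c76561 : QOK q76561 := cut [] trivial (nd (nat_lit 179) (nat_lit 0) (cs (lf (nat_lit 36) (nat_lit 156)) (lf (nat_lit 41) (nat_lit 178)))) q76561 (by decide +kernel)
def q76620 : Q := Q.p (nat_lit 0x180000c00000000000000000000000000000000000000000000000000) (nat_lit 0x260003000000000000000000000000000000000000000000000000000) (nat_lit 3)
theorem c76620 : QOK q76620 := cut [] trivial (nd (nat_lit 204) (nat_lit 0) (cs (lf (nat_lit 6) (nat_lit 201)) (nd (nat_lit 222) (nat_lit 0) (cs (lf (nat_lit 15) (nat_lit 200)) (lf (nat_lit 12) (nat_lit 199)))))) q76620 (by decide +kernel)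
def q76629 : Q := Q.p (nat_lit 0x100000c0000200000000000000000000000000000000000000000000000000) (nat_lit 0x1000004000020000000000000000800002000000000000000000000000000000000000000) (nat_lit 3)
theorem c76629 : QOK q76629 := cut [] trivial (nd (nat_lit 179) (nat_lit 0) (cs (lf (nat_lit 36) (nat_lit 156)) (nd (nat_lit 266) (nat_lit 0) (cs (lf (nat_lit 30) (nat_lit 200)) (lf (nat_lit 39) (nat_lit 178)))))) q76629 (by decide +kernel)
def q76687 : Q := Q.p (nat_lit 0x380000600000000000000000000000000000000000000000000000000) (nat_lit 0xc00000100000000000000000000000000000000000000000000000000) (nat_lit 2)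
theorem c76687 : QOK q76687 := cut [] trivial (nd (nat_lit 226) (nat_lit 0) (cs (lf (nat_lit 23) (nat_lit 200)) (lf (nat_lit 18) (nat_lit 201)))) q76687 (by decide +kernel)
def q76712 : Q := Q.p (nat_lit 0x20000080000100000400001000000000000000000000000000000000000000000000) (nat_lit 0x8000000000000000200000800000000000000000000000000000000000000000000000000) (nat_lit 2)
theorem c76712 : QOK q76712 := cut [] trivial (nd (nat_lit 225) (nat_lit 0) (cs (lf (nat_lit 42) (nat_lit 202)) (lf (nat_lit 45) (nat_lit 180)))) q76712 (by decide +kernel)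
def q76720 : Q := Q.p (nat_lit 0x600000100000400001000004000000000000000000000000000000000000000) (nat_lit 0xa0000ec0003800000000000000010000000000000000000000000000000000) (nat_lit 6)
theorem c76720 : QOK q76720 := cut [] trivial (nd (nat_lit 223) (nat_lit 0) (cs (lf (nat_lit 41) (nat_lit 157)) (nd (nat_lit 225) (nat_lit 0) (cs (nd (nat_lit 226) (nat_lit 0) (cs (lf (nat_lit 3) (nat_lit 224)) (nd (nat_lit 204) (nat_lit 0) (cs (lf (nat_lit 17) (nat_lit 201)) (nd (nat_lit 203) (nat_lit 0) (cs (lf (nat_lit 24) (nat_lit 136)) (lf (nat_lit 12) (nat_lit 200)))))))) (lf (nat_lit 29) (nat_lit 158)))))) q76720 (by decide +kernel)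
def q76737 : Q := Q.p (nat_lit 0x80000200000b00002000000000000000000000000000000000000000000000000000) (nat_lit 0x5800014000000000000000000000000000000000000000000000) (nat_lit 3)
theorem c76737 : QOK q76737 := cut [] trivial (nd (nat_lit 206) (nat_lit 0) (cs (lf (nat_lit 35) (nat_lit 183)) (nd (nat_lit 204) (nat_lit 0) (cs (lf (nat_lit 47) (nat_lit 182)) (lf (nat_lit 9) (nat_lit 202)))))) q76737 (by decide +kernel)
def q76757 : Q := Q.p (nat_lit 0x10000040000100000400000000000000000000000000000000000000000000000000) (nat_lit 0x800006000008000000000200000800002000000000000000000000000000000000000000000000) (nat_lit 4)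
theorem c76757 : QOK q76757 := cut [] trivial (nd (nat_lit 289) (nat_lit 0) (cs (lf (nat_lit 40) (nat_lit 201)) (nd (nat_lit 203) (nat_lit 0) (cs (lf (nat_lit 35) (nat_lit 180)) (nd (nat_lit 290) (nat_lit 0) (cs (lf (nat_lit 41) (nat_lit 223)) (lf (nat_lit 34) (nat_lit 202)))))))) q76757 (by decide +kernel)
def q76767 : Q := Q.p (nat_lit 0x100000780000000000000000000000000000000000000000000000000) (nat_lit 0x80000040003800000000000000000000000000000000000000000000) (nat_lit 3)
theorem c76767 : QOK q76767 := cut [] trivial (nd (nat_lit 198) (nat_lit 0) (cs (lf (nat_lit 4) (nat_lit 198)) (nd (nat_lit 180) (nat_lit 0) (cs (lf (nat_lit 16) (nat_lit 176)) (lf (nat_lit 17) (nat_lit 177)))))) q76767 (by decide +kernel)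
def q76772 : Q := Q.p (nat_lit 0x180000600000800000000000000000000000000000000000000) (nat_lit 0x40000000000000000000002000008000000000000000000000000000) (nat_lit 2)
theorem c76772 : QOK q76772 := cut [] trivial (nd (nat_lit 133) (nat_lit 0) (cs (lf (nat_lit 24) (nat_lit 111)) (lf (nat_lit 29) (nat_lit 133)))) q76772 (by decide +kernel)
def q76784 : Q := Q.p (nat_lit 0x780000000000000000000000000000000000000000000000000) (nat_lit 0x70000800000700000000000000000000000000000000000000000000) (nat_lit 4)
theorem c76784 : QOK q76784 := cut [] trivial (nd (nat_lit 221) (nat_lit 0) (cs (lf (nat_lit 11) (nat_lit 198)) (nd (nat_lit 177) (nat_lit 0) (cs (lf (nat_lit 23) (nat_lit 176)) (nd (nat_lit 203) (nat_lit 0) (cs (lf (nat_lit 22) (nat_lit 177)) (lf (nat_lit 10) (nat_lit 199)))))))) q76784 (by decide +kernel)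
def q76797 : Q := Q.p (nat_lit 0x100000f00000000000000000000000000000000000000000000000000) (nat_lit 0x80000600000000007e0001c000070000000000000000000000000000000000) (nat_lit 8)
theorem c76797 : QOK q76797 := cut [] trivial (nd (nat_lit 225) (nat_lit 0) (cs (lf (nat_lit 5) (nat_lit 200)) (nd (nat_lit 178) (nat_lit 0) (cs (lf (nat_lit 23) (nat_lit 177)) (nd (nat_lit 181) (nat_lit 0) (cs (lf (nat_lit 17) (nat_lit 178)) (nd (nat_lit 159) (nat_lit 0) (cs (lf (nat_lit 36) (nat_lit 136)) (nd (nat_lit 160) (nat_lit 0) (cs (lf (nat_lit 35) (nat_lit 137)) (nd (nat_lit 158) (nat_lit 0) (cs (lf (nat_lit 47) (nat_lit 136)) (nd (nat_lit 180) (nat_lit 0) (cs (lf (nat_lit 29) (nat_lit 158)) (lf (nat_lit 13) (nat_lit 156)))))))))))))))) q76797 (by decide +kernel)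
def q76878 : Q := Q.p (nat_lit 0x800002010000040010300040000000000000000000000000000000000000000000000) (nat_lit 0x4001000004080000000000800002000008000000000000000000000000000000000) (nat_lit 4)
theorem c76878 : QOK q76878 := cut [] trivial (nd (nat_lit 230) (nat_lit 0) (cs (lf (nat_lit 27) (nat_lit 186)) (nd (nat_lit 179) (nat_lit 0) (cs (lf (nat_lit 30) (nat_lit 178)) (nd (nat_lit 157) (nat_lit 0) (cs (lf (nat_lit 36) (nat_lit 134)) (lf (nat_lit 39) (nat_lit 156)))))))) q76878 (by decide +kernel)
def q76880 : Q := Q.p (nat_lit 0x10000040000f00000000000000000000000000000000000000000000000000) (nat_lit 0x4000000000000000000000e00002000000000000000000000000000000000000000) (nat_lit 3)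
theorem c76880 : QOK q76880 := cut [] trivial (nd (nat_lit 179) (nat_lit 0) (cs (lf (nat_lit 30) (nat_lit 178)) (nd (nat_lit 178) (nat_lit 0) (cs (lf (nat_lit 23) (nat_lit 177)) (lf (nat_lit 35) (nat_lit 156)))))) q76880 (by decide +kernel)
def q76893 : Q := Q.p (nat_lit 0x10000180000600000800000000000000000000000000000000000000000000) (nat_lit 0x40000000000000002000008000000000000000000000000000000000) (nat_lit 2)
theorem c76893 : QOK q76893 := cut [] trivial (nd (nat_lit 157) (nat_lit 0) (cs (lf (nat_lit 24) (nat_lit 135)) (lf (nat_lit 40) (nat_lit 156)))) q76893 (by decide +kernel)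
def q76898 : Q := Q.p (nat_lit 0x20000180000200000800000000000000000000000000000000000000000000) (nat_lit 0x400001c000640000000000000000000000000000000000000000000000000000000) (nat_lit 4)
theorem c76898 : QOK q76898 := cut [] trivial (nd (nat_lit 244) (nat_lit 0) (cs (lf (nat_lit 41) (nat_lit 178)) (nd (nat_lit 225) (nat_lit 0) (cs (lf (nat_lit 6) (nat_lit 222)) (nd (nat_lit 243) (nat_lit 0) (cs (lf (nat_lit 12) (nat_lit 220)) (lf (nat_lit 9) (nat_lit 221)))))))) q76898 (by decide +kernel)
def q76901 : Q := Q.p (nat_lit 0x180000600000800004000000000000000000000000000000000000000) (nat_lit 0x2000018000000000000000000000000000000000) (nat_lit 2)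
theorem c76901 : QOK q76901 := cut [] trivial (nd (nat_lit 157) (nat_lit 0) (cs (lf (nat_lit 35) (nat_lit 135)) (lf (nat_lit 24) (nat_lit 135)))) q76901 (by decide +kernel)
def q76955 : Q := Q.p (nat_lit 0x20000180000600000800000000000000000000000000000000000000000000) (nat_lit 0x40000300000c000000000000000000000000000000000) (nat_lit 3)
theorem c76955 : QOK q76955 := cut [] trivial (nd (nat_lit 156) (nat_lit 0) (cs (lf (nat_lit 46) (nat_lit 156)) (nd (nat_lit 157) (nat_lit 0) (cs (lf (nat_lit 47) (nat_lit 134)) (lf (nat_lit 24) (nat_lit 135)))))) q76955 (by decide +kernel)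
def q76978 : Q := Q.p (nat_lit 0x40000180000200000000000000000000000000000000000000000000) (nat_lit 0x4000010000000000000000400000800002000000000000000000000000000000000) (nat_lit 3)
theorem c76978 : QOK q76978 := cut [] trivial (nd (nat_lit 155) (nat_lit 0) (cs (lf (nat_lit 24) (nat_lit 133)) (nd (nat_lit 244) (nat_lit 0) (cs (lf (nat_lit 45) (nat_lit 155)) (lf (nat_lit 42) (nat_lit 177)))))) q76978 (by decide +kernel)
def q76985 : Q := Q.p (nat_lit 0x180000700001000004000000000000000000000000000000000000000) (nat_lit 0x80000600000000000000000000000000000000000000000000000000000000) (nat_lit 2)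
theorem c76985 : QOK q76985 := cut [] trivial (nd (nat_lit 225) (nat_lit 0) (cs (lf (nat_lit 18) (nat_lit 200)) (lf (nat_lit 29) (nat_lit 158)))) q76985 (by decide +kernel)
def q76987 : Q := Q.p (nat_lit 0x180000600000000006000000000000000000000000000000000000000) (nat_lit 0x800000000018000000000000000000000000000000000) (nat_lit 2)
theorem c76987 : QOK q76987 := cut [] trivial (nd (nat_lit 179) (nat_lit 0) (cs (lf (nat_lit 35) (nat_lit 135)) (lf (nat_lit 24) (nat_lit 135)))) q76987 (by decide +kernel)
def q76994 : Q := Q.p (nat_lit 0x80000700000400003000000000000000000000000000000000000000) (nat_lit 0x8000070000000000000000000008000000000000000000000000000000000) (nat_lit 3)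
theorem c76994 : QOK q76994 := cut [] trivial (nd (nat_lit 222) (nat_lit 0) (cs (lf (nat_lit 35) (nat_lit 134)) (nd (nat_lit 221) (nat_lit 0) (cs (lf (nat_lit 12) (nat_lit 198)) (lf (nat_lit 41) (nat_lit 155)))))) q76994 (by decide +kernel)
def q76999 : Q := Q.p (nat_lit 0xf000000000000000000000000000000000000000) (nat_lit 0xe0000100000e0000000000000000000000000000000000) (nat_lit 4)
theorem c76999 : QOK q76999 := cut [] trivial (nd (nat_lit 138) (nat_lit 0) (cs (nd (nat_lit 182) (nat_lit 0) (cs (lf (nat_lit 4) (nat_lit 156)) (nd (nat_lit 160) (nat_lit 0) (cs (lf (nat_lit 17) (nat_lit 135)) (lf (nat_lit 5) (nat_lit 157)))))) (lf (nat_lit 16) (nat_lit 134)))) q76999 (by decide +kernel)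
def q77023 : Q := Q.p (nat_lit 0x180000700000800002000000000000000000000000000000000000000) (nat_lit 0x1c000070000000000400001000004000000000000000000000000000000000) (nat_lit 5)
theorem c77023 : QOK q77023 := cut [] trivial (nd (nat_lit 156) (nat_lit 0) (cs (lf (nat_lit 47) (nat_lit 134)) (nd (nat_lit 222) (nat_lit 0) (cs (lf (nat_lit 41) (nat_lit 156)) (nd (nat_lit 221) (nat_lit 0) (cs (lf (nat_lit 12) (nat_lit 198)) (nd (nat_lit 243) (nat_lit 0) (cs (lf (nat_lit 11) (nat_lit 220)) (lf (nat_lit 37) (nat_lit 155)))))))))) q77023 (by decide +kernel)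
def q77063 : Q := Q.p (nat_lit 0x20000080000680001800000000000000000000000000000000000000000000) (nat_lit 0x40000700001000000000000000000000000000000000000000) (nat_lit 3)
theorem c77063 : QOK q77063 := cut [] trivial (nd (nat_lit 178) (nat_lit 0) (cs (lf (nat_lit 47) (nat_lit 156)) (nd (nat_lit 177) (nat_lit 0) (cs (lf (nat_lit 11) (nat_lit 176)) (lf (nat_lit 0) (nat_lit 176)))))) q77063 (by decide +kernel)
def q77071 : Q := Q.p (nat_lit 0x180000680001000000000000000000000000000000000000000000000) (nat_lit 0x140002000000000000000000000000000000000000000000000) (nat_lit 2)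
theorem c77071 : QOK q77071 := cut [] trivial (nd (nat_lit 200) (nat_lit 0) (cs (lf (nat_lit 0) (nat_lit 198)) (lf (nat_lit 17) (nat_lit 177)))) q77071 (by decide +kernel)
def q77082 : Q := Q.p (nat_lit 0x80000600000800006000000000000000000000000000000000000000) (nat_lit 0x20000000000000000700009000004000000000000000000000000000000000) (nat_lit 4)
theorem c77082 : QOK q77082 := cut [] trivial (nd (nat_lit 156) (nat_lit 0) (cs (lf (nat_lit 47) (nat_lit 134)) (nd (nat_lit 178) (nat_lit 0) (cs (lf (nat_lit 42) (nat_lit 156)) (nd (nat_lit 177) (nat_lit 0) (cs (lf (nat_lit 0) (nat_lit 176)) (lf (nat_lit 6) (nat_lit 155)))))))) q77082 (by decide +kernel)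
def q77092 : Q := Q.p (nat_lit 0x180000600000000004000000000000000000000000000000000000000) (nat_lit 0x20000000000000001000000000010000000000000000000000000000000000) (nat_lit 2)
theorem c77092 : QOK q77092 := cut [] trivial (nd (nat_lit 180) (nat_lit 0) (cs (lf (nat_lit 36) (nat_lit 135)) (lf (nat_lit 41) (nat_lit 157)))) q77092 (by decide +kernel)
def q77113 : Q := Q.p (nat_lit 0x380000600000000000000000000000000000000000000000000000000) (nat_lit 0x400000180000000000000000000000000000000000000000000000000) (nat_lit 2)
theorem c77113 : QOK q77113 := cut [] trivial (nd (nat_lit 200) (nat_lit 0) (cs (lf (nat_lit 0) (nat_lit 199)) (lf (nat_lit 18) (nat_lit 200)))) q77113 (by decide +kernel)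
def q77153 : Q := Q.p (nat_lit 0x300000c00002000004000000000000000000000000000000000000000) (nat_lit 0x8000030000000000000000000000000000000000) (nat_lit 2)
theorem c77153 : QOK q77153 := cut [] trivial (nd (nat_lit 159) (nat_lit 0) (cs (lf (nat_lit 47) (nat_lit 136)) (lf (nat_lit 36) (nat_lit 136)))) q77153 (by decide +kernel)
def q77158 : Q := Q.p (nat_lit 0x80000680000300000c00000000000000000000000000000000000000000000000000) (nat_lit 0xc000070000000000000000000000000000000000000000000000000000000000000000000) (nat_lit 3)
theorem c77158 : QOK q77158 := cut [] trivial (nd (nat_lit 269) (nat_lit 0) (cs (lf (nat_lit 42) (nat_lit 202)) (nd (nat_lit 268) (nat_lit 0) (cs (lf (nat_lit 41) (nat_lit 202)) (lf (nat_lit 14) (nat_lit 246)))))) q77158 (by decide +kernel)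
def q77175 : Q := Q.p (nat_lit 0x600000100000e00001000004000000000000000000000000000000000000000) (nat_lit 0x80000e00000100000000008000020000000000000000000000000000000000) (nat_lit 4)
theorem c77175 : QOK q77175 := cut [] trivial (nd (nat_lit 137) (nat_lit 0) (cs (lf (nat_lit 34) (nat_lit 136)) (nd (nat_lit 225) (nat_lit 0) (cs (lf (nat_lit 29) (nat_lit 158)) (nd (nat_lit 226) (nat_lit 0) (cs (lf (nat_lit 0) (nat_lit 200)) (lf (nat_lit 3) (nat_lit 224)))))))) q77175 (by decide +kernel)
def q77214 : Q := Q.p (nat_lit 0x800002000000380010e00040000000000000000000000000000000000000000000000) (nat_lit 0x1000004000038008060020000000800002000000000000000000000000000000000000000) (nat_lit 6)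
theorem c77214 : QOK q77214 := cut [] trivial (nd (nat_lit 222) (nat_lit 0) (cs (lf (nat_lit 12) (nat_lit 199)) (nd (nat_lit 209) (nat_lit 0) (cs (lf (nat_lit 44) (nat_lit 186)) (nd (nat_lit 244) (nat_lit 0) (cs (lf (nat_lit 11) (nat_lit 221)) (nd (nat_lit 266) (nat_lit 0) (cs (lf (nat_lit 30) (nat_lit 200)) (nd (nat_lit 179) (nat_lit 0) (cs (lf (nat_lit 36) (nat_lit 156)) (lf (nat_lit 39) (nat_lit 178)))))))))))) q77214 (by decide +kernel)
def q77230 : Q := Q.p (nat_lit 0x880002200000100010f00040000000000000000000000000000000000000000000000) (nat_lit 0x100000488000300000e000000000000000000000000000000000000000000000) (nat_lit 5)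
theorem c77230 : QOK q77230 := cut [] trivial (nd (nat_lit 230) (nat_lit 0) (cs (lf (nat_lit 27) (nat_lit 186)) (nd (nat_lit 182) (nat_lit 0) (cs (lf (nat_lit 16) (nat_lit 178)) (nd (nat_lit 204) (nat_lit 0) (cs (lf (nat_lit 17) (nat_lit 179)) (nd (nat_lit 205) (nat_lit 0) (cs (lf (nat_lit 11) (nat_lit 201)) (lf (nat_lit 44) (nat_lit 182)))))))))) q77230 (by decide +kernel)
def q77234 : Q := Q.p (nat_lit 0x300000f00001000000000000000000000000000000000000000000000) (nat_lit 0x6e00018000060000000000000000000000000000000000) (nat_lit 5)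
theorem c77234 : QOK q77234 := cut [] trivial (nd (nat_lit 178) (nat_lit 0) (cs (lf (nat_lit 23) (nat_lit 177)) (nd (nat_lit 181) (nat_lit 0) (cs (lf (nat_lit 17) (nat_lit 178)) (nd (nat_lit 159) (nat_lit 0) (cs (lf (nat_lit 36) (nat_lit 136)) (nd (nat_lit 160) (nat_lit 0) (cs (lf (nat_lit 35) (nat_lit 137)) (lf (nat_lit 13) (nat_lit 156)))))))))) q77234 (by decide +kernel)
def q77243 : Q := Q.p (nat_lit 0x300000600000000000000000000000000000000000000000000000000) (nat_lit 0x480000980000000000000000000000000000000000000000000000000) (nat_lit 3)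
theorem c77243 : QOK q77243 := cut [] trivial (nd (nat_lit 200) (nat_lit 0) (cs (lf (nat_lit 0) (nat_lit 199)) (nd (nat_lit 226) (nat_lit 0) (cs (lf (nat_lit 3) (nat_lit 200)) (lf (nat_lit 21) (nat_lit 200)))))) q77243 (by decide +kernel)
def q77281 : Q := Q.p (nat_lit 0x80000200000300001800004000000000000000000000000000000000000000000000) (nat_lit 0x800006000000000000000000000000000000000000000000000000000) (nat_lit 2)
theorem c77281 : QOK q77281 := cut [] trivial (nd (nat_lit 205) (nat_lit 0) (cs (lf (nat_lit 6) (nat_lit 202)) (lf (nat_lit 44) (nat_lit 182)))) q77281 (by decide +kernel)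
def q77334 : Q := Q.p (nat_lit 0x100000400001000007000000000000000000000000000000000000000) (nat_lit 0x6000008800020000000000000000000000000000000000) (nat_lit 3)
theorem c77334 : QOK q77334 := cut [] trivial (nd (nat_lit 159) (nat_lit 0) (cs (lf (nat_lit 35) (nat_lit 136)) (nd (nat_lit 181) (nat_lit 0) (cs (lf (nat_lit 0) (nat_lit 155)) (lf (nat_lit 5) (nat_lit 156)))))) q77334 (by decide +kernel)
def q77344 : Q := Q.p (nat_lit 0x100000400001000004000010000000000000000000000000000000000) (nat_lit 0x80000200000800000000000000000000000000000000000000000000000000) (nat_lit 2)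
theorem c77344 : QOK q77344 := cut [] trivial (nd (nat_lit 225) (nat_lit 0) (cs (lf (nat_lit 29) (nat_lit 158)) (lf (nat_lit 28) (nat_lit 136)))) q77344 (by decide +kernel)
def q77356 : Q := Q.p (nat_lit 0x40000100000400001000004000000000000000000000000000000000000000) (nat_lit 0x20000080000200000000000000000000000000000000000000000000000000000000) (nat_lit 2)
theorem c77356 : QOK q77356 := cut [] trivial (nd (nat_lit 247) (nat_lit 0) (cs (lf (nat_lit 29) (nat_lit 180)) (lf (nat_lit 28) (nat_lit 158)))) q77356 (by decide +kernel)
def q77373 : Q := Q.p (nat_lit 0x1c00001800000000000000000000000000000000000000000000) (nat_lit 0x2600000000000000000000000000000000000000000000) (nat_lit 2)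
theorem c77373 : QOK q77373 := cut [] trivial (nd (nat_lit 178) (nat_lit 0) (cs (lf (nat_lit 0) (nat_lit 177)) (lf (nat_lit 3) (nat_lit 178)))) q77373 (by decide +kernel)
def q77393 : Q := Q.p (nat_lit 0x100000400003800000000000000000000000000000000000000000000) (nat_lit 0x40000000000000004400078000000000000000000000000000000000000000) (nat_lit 4)
theorem c77393 : QOK q77393 := cut [] trivial (nd (nat_lit 159) (nat_lit 0) (cs (lf (nat_lit 30) (nat_lit 158)) (nd (nat_lit 160) (nat_lit 0) (cs (lf (nat_lit 12) (nat_lit 156)) (nd (nat_lit 161) (nat_lit 0) (cs (lf (nat_lit 6) (nat_lit 158)) (lf (nat_lit 15) (nat_lit 157)))))))) q77393 (by decide +kernel)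
def q77400 : Q := Q.p (nat_lit 0x100000400003000000000000000000000000000000000000000000000) (nat_lit 0x40000000000800000000008000020000080000000000000000000000000000) (nat_lit 3)
theorem c77400 : QOK q77400 := cut [] trivial (nd (nat_lit 159) (nat_lit 0) (cs (lf (nat_lit 30) (nat_lit 158)) (nd (nat_lit 137) (nat_lit 0) (cs (lf (nat_lit 39) (nat_lit 136)) (lf (nat_lit 36) (nat_lit 114)))))) q77400 (by decide +kernel)
def q77415 : Q := Q.p (nat_lit 0x3c00000000000000000000000000000000000000000000) (nat_lit 0x400003b800000000000000000000000000000000000000) (nat_lit 4)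
theorem c77415 : QOK q77415 := cut [] trivial (nd (nat_lit 156) (nat_lit 0) (cs (lf (nat_lit 23) (nat_lit 155)) (nd (nat_lit 160) (nat_lit 0) (cs (lf (nat_lit 16) (nat_lit 156)) (nd (nat_lit 182) (nat_lit 0) (cs (lf (nat_lit 22) (nat_lit 156)) (lf (nat_lit 17) (nat_lit 157)))))))) q77415 (by decide +kernel)
def q77447 : Q := Q.p (nat_lit 0xa0000600000300000400000000000000000000000000000000000000000000000000) (nat_lit 0xc000050000080000000000800001000000000000000000000000000000000000000000000) (nat_lit 4)
theorem c77447 : QOK q77447 := cut [] trivial (nd (nat_lit 268) (nat_lit 0) (cs (lf (nat_lit 14) (nat_lit 246)) (nd (nat_lit 247) (nat_lit 0) (cs (lf (nat_lit 42) (nat_lit 202)) (nd (nat_lit 203) (nat_lit 0) (cs (lf (nat_lit 41) (nat_lit 202)) (lf (nat_lit 47) (nat_lit 180)))))))) q77447 (by decide +kernel)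
def q77454 : Q := Q.p (nat_lit 0x40000100000400001000000000000000000000000000000000000000000000) (nat_lit 0x10000000000000000a0000280000a000000000000000000000000000000000000000) (nat_lit 4)
theorem c77454 : QOK q77454 := cut [] trivial (nd (nat_lit 181) (nat_lit 0) (cs (lf (nat_lit 35) (nat_lit 158)) (nd (nat_lit 179) (nat_lit 0) (cs (lf (nat_lit 47) (nat_lit 157)) (nd (nat_lit 268) (nat_lit 0) (cs (lf (nat_lit 46) (nat_lit 179)) (lf (nat_lit 34) (nat_lit 180)))))))) q77454 (by decide +kernel)
def q77466 : Q := Q.p (nat_lit 0x880000600000900002400000000000000000000000000000000000000000000000000) (nat_lit 0x40000700000000000280005800014000000000000000000000000000000000000000000000) (nat_lit 6)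
theorem c77466 : QOK q77466 := cut [] trivial (nd (nat_lit 206) (nat_lit 0) (cs (lf (nat_lit 35) (nat_lit 183)) (nd (nat_lit 272) (nat_lit 0) (cs (lf (nat_lit 29) (nat_lit 205)) (nd (nat_lit 273) (nat_lit 0) (cs (lf (nat_lit 19) (nat_lit 249)) (nd (nat_lit 204) (nat_lit 0) (cs (lf (nat_lit 47) (nat_lit 182)) (nd (nat_lit 203) (nat_lit 0) (cs (lf (nat_lit 11) (nat_lit 201)) (lf (nat_lit 10) (nat_lit 202)))))))))))) q77466 (by decide +kernel)
def q77525 : Q := Q.p (nat_lit 0x100000400001000008000000000000000000000000000000000000000) (nat_lit 0x40000000000000002000004000020000080000000000000000000000000000) (nat_lit 3)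
theorem c77525 : QOK q77525 := cut [] trivial (nd (nat_lit 137) (nat_lit 0) (cs (lf (nat_lit 33) (nat_lit 136)) (nd (nat_lit 181) (nat_lit 0) (cs (lf (nat_lit 30) (nat_lit 158)) (lf (nat_lit 36) (nat_lit 114)))))) q77525 (by decide +kernel)
def q77549 : Q := Q.p (nat_lit 0x40000100000400001000000000000000000000000000000000000000000000) (nat_lit 0x8000020000080000200000e000038000020000000000000000000000000000) (nat_lit 6)
theorem c77549 : QOK q77549 := cut [] trivial (nd (nat_lit 159) (nat_lit 0) (cs (lf (nat_lit 34) (nat_lit 158)) (nd (nat_lit 158) (nat_lit 0) (cs (lf (nat_lit 35) (nat_lit 136)) (nd (nat_lit 135) (nat_lit 0) (cs (lf (nat_lit 46) (nat_lit 135)) (nd (nat_lit 225) (nat_lit 0) (cs (lf (nat_lit 29) (nat_lit 158)) (nd (nat_lit 136) (nat_lit 0) (cs (lf (nat_lit 47) (nat_lit 113)) (lf (nat_lit 28) (nat_lit 136)))))))))))) q77549 (by decide +kernel)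
def q77596 : Q := Q.p (nat_lit 0x800001000004000010000020000000000000000000000000000) (nat_lit 0x2000000000000000040000080000000000000000000000) (nat_lit 2)
theorem c77596 : QOK q77596 := cut [] trivial (nd (nat_lit 114) (nat_lit 0) (cs (lf (nat_lit 47) (nat_lit 91)) (lf (nat_lit 28) (nat_lit 114)))) q77596 (by decide +kernel)
def q77606 : Q := Q.p (nat_lit 0x20000100000400001000000000000000000000000000000000000000000000) (nat_lit 0x8000040000080000200000000004000000000000000000000000000000000000000) (nat_lit 3)
theorem c77606 : QOK q77606 := cut [] trivial (nd (nat_lit 267) (nat_lit 0) (cs (lf (nat_lit 39) (nat_lit 179)) (nd (nat_lit 223) (nat_lit 0) (cs (lf (nat_lit 33) (nat_lit 179)) (lf (nat_lit 36) (nat_lit 157)))))) q77606 (by decide +kernel)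
def q77630 : Q := Q.p (nat_lit 0x80000200000000001000004000010000000000000000000000000000000000000000) (nat_lit 0x100000c00000000000000000000000000000000000000000000000000000000) (nat_lit 2)
theorem c77630 : QOK q77630 := cut [] trivial (nd (nat_lit 226) (nat_lit 0) (cs (lf (nat_lit 27) (nat_lit 182)) (lf (nat_lit 28) (nat_lit 160)))) q77630 (by decide +kernel)
def q77640 : Q := Q.p (nat_lit 0x40000300000c00000000000000000000000000000000000000000000000000) (nat_lit 0x4000010000000000000000000002000000000000000000000000000000000000000000000) (nat_lit 2)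
theorem c77640 : QOK q77640 := cut [] trivial (nd (nat_lit 268) (nat_lit 0) (cs (lf (nat_lit 30) (nat_lit 202)) (lf (nat_lit 35) (nat_lit 180)))) q77640 (by decide +kernel)
def q77695 : Q := Q.p (nat_lit 0x100000400001000004000000000000000000000000000000000000000) (nat_lit 0x2000008000020000020000380000e0000200000000000000000000000) (nat_lit 6)
theorem c77695 : QOK q77695 := cut [] trivial (nd (nat_lit 135) (nat_lit 0) (cs (lf (nat_lit 46) (nat_lit 135)) (nd (nat_lit 136) (nat_lit 0) (cs (lf (nat_lit 47) (nat_lit 113)) (nd (nat_lit 115) (nat_lit 0) (cs (lf (nat_lit 34) (nat_lit 114)) (nd (nat_lit 203) (nat_lit 0) (cs (lf (nat_lit 29) (nat_lit 136)) (nd (nat_lit 114) (nat_lit 0) (cs (lf (nat_lit 35) (nat_lit 92)) (lf (nat_lit 28) (nat_lit 114)))))))))))) q77695 (by decide +kernel)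
def q77735 : Q := Q.p (nat_lit 0x80000200000400001000000000000000000000000000000000000000000000000000) (nat_lit 0x100000800002000004000010000000000000000000000000000000000000000) (nat_lit 3)
theorem c77735 : QOK q77735 := cut [] trivial (nd (nat_lit 182) (nat_lit 0) (cs (lf (nat_lit 27) (nat_lit 182)) (nd (nat_lit 227) (nat_lit 0) (cs (lf (nat_lit 24) (nat_lit 160)) (lf (nat_lit 45) (nat_lit 182)))))) q77735 (by decide +kernel)
def q77744 : Q := Q.p (nat_lit 0x100000400003000008000000000000000000000000000000000000000) (nat_lit 0x4000020000080000000000000000000000000000) (nat_lit 2)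
theorem c77744 : QOK q77744 := cut [] trivial (nd (nat_lit 137) (nat_lit 0) (cs (lf (nat_lit 33) (nat_lit 136)) (lf (nat_lit 36) (nat_lit 114)))) q77744 (by decide +kernel)
def q77755 : Q := Q.p (nat_lit 0x600000800030000048000000000000000000000000000000000000000000000) (nat_lit 0x100000000000000002000030000040000000000000000000000000000000000000000) (nat_lit 3)
theorem c77755 : QOK q77755 := cut [] trivial (nd (nat_lit 184) (nat_lit 0) (cs (lf (nat_lit 2) (nat_lit 183)) (nd (nat_lit 205) (nat_lit 0) (cs (lf (nat_lit 29) (nat_lit 183)) (lf (nat_lit 35) (nat_lit 161)))))) q77755 (by decide +kernel)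
def q77910 : Q := Q.p (nat_lit 0x80000600000500001000000000000000000000000000000000000000000000000000) (nat_lit 0x20000000000000000a00000000000000000000000000000000000000000000000000000000) (nat_lit 2)
theorem c77910 : QOK q77910 := cut [] trivial (nd (nat_lit 227) (nat_lit 0) (cs (lf (nat_lit 42) (nat_lit 204)) (lf (nat_lit 1) (nat_lit 224)))) q77910 (by decide +kernel)
def q77959 : Q := Q.p (nat_lit 0xf800000000000000000000000000000000000000) (nat_lit 0x7000000000000000000000000000000000) (nat_lit 2)
theorem c77959 : QOK q77959 := cut [] trivial (nd (nat_lit 133) (nat_lit 0) (cs (lf (nat_lit 23) (nat_lit 132)) (lf (nat_lit 22) (nat_lit 133)))) q77959 (by decide +kernel)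
def q78056 : Q := Q.p (nat_lit 0x8a0002680000300010000040000000000000000000000000000000000000000000000) (nat_lit 0x100000c000150001000004000000400000000000000000000000000000000000000000000000000) (nat_lit 5)
theorem c78056 : QOK q78056 := cut [] trivial (nd (nat_lit 270) (nat_lit 0) (cs (lf (nat_lit 12) (nat_lit 246)) (nd (nat_lit 230) (nat_lit 0) (cs (lf (nat_lit 27) (nat_lit 186)) (nd (nat_lit 291) (nat_lit 0) (cs (lf (nat_lit 47) (nat_lit 202)) (nd (nat_lit 290) (nat_lit 0) (cs (lf (nat_lit 6) (nat_lit 268)) (lf (nat_lit 41) (nat_lit 224)))))))))) q78056 (by decide +kernel)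
def q78094 : Q := Q.p (nat_lit 0x400001e0000400000000000000000000000000000000000000000000000000) (nat_lit 0x8000020000010000000001000004000000000000000000000000000000000000000) (nat_lit 3)
theorem c78094 : QOK q78094 := cut [] trivial (nd (nat_lit 245) (nat_lit 0) (cs (lf (nat_lit 0) (nat_lit 220)) (nd (nat_lit 180) (nat_lit 0) (cs (lf (nat_lit 41) (nat_lit 179)) (lf (nat_lit 36) (nat_lit 157)))))) q78094 (by decide +kernel)
def q78168 : Q := Q.p (nat_lit 0x80000200000c00002000000000000000000000000000000000000000000000) (nat_lit 0x130001c000010000000000000000000000000000000000000000) (nat_lit 4)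
theorem c78168 : QOK q78168 := cut [] trivial (nd (nat_lit 182) (nat_lit 0) (cs (lf (nat_lit 35) (nat_lit 159)) (nd (nat_lit 183) (nat_lit 0) (cs (lf (nat_lit 6) (nat_lit 180)) (nd (nat_lit 201) (nat_lit 0) (cs (lf (nat_lit 12) (nat_lit 178)) (lf (nat_lit 15) (nat_lit 179)))))))) q78168 (by decide +kernel)
def q78214 : Q := Q.p (nat_lit 0x100002c00001000000000000000000000000000000000000000000000) (nat_lit 0x80001000000800000000000000000000000000000000000000000000) (nat_lit 2)
theorem c78214 : QOK q78214 := cut [] trivial (nd (nat_lit 204) (nat_lit 0) (cs (lf (nat_lit 23) (nat_lit 179)) (lf (nat_lit 11) (nat_lit 201)))) q78214 (by decide +kernel)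
def q78280 : Q := Q.p (nat_lit 0x800001800004000010000000000000000000000000000000000) (nat_lit 0x200002000000000000000040000000000000000000000000000) (nat_lit 2)
theorem c78280 : QOK q78280 := cut [] trivial (nd (nat_lit 114) (nat_lit 0) (cs (lf (nat_lit 28) (nat_lit 114)) (lf (nat_lit 41) (nat_lit 113)))) q78280 (by decide +kernel)
def q78384 : Q := Q.p (nat_lit 0xf80000000000000000000000000000000000000000000000000) (nat_lit 0x70000000000000000000000000000000000000000000000000000000) (nat_lit 2)
theorem c78384 : QOK q78384 := cut [] trivial (nd (nat_lit 221) (nat_lit 0) (cs (lf (nat_lit 11) (nat_lit 198)) (lf (nat_lit 10) (nat_lit 199)))) q78384 (by decide +kernel)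
def q78395 : Q := Q.p (nat_lit 0x10000060000000000e000000000000000000000000000000000000000) (nat_lit 0x80001100000f000000000000000000000000000000000) (nat_lit 4)
theorem c78395 : QOK q78395 := cut [] trivial (nd (nat_lit 135) (nat_lit 0) (cs (lf (nat_lit 26) (nat_lit 135)) (nd (nat_lit 134) (nat_lit 0) (cs (nd (nat_lit 133) (nat_lit 0) (cs (lf (nat_lit 0) (nat_lit 132)) (lf (nat_lit 21) (nat_lit 133)))) (lf (nat_lit 18) (nat_lit 134)))))) q78395 (by decide +kernel)
def q78400 : Q := Q.p (nat_lit 0x80000000001e000000000000000000000000000000000000000) (nat_lit 0x2000000000060000000000c0000100000400000000000000000000000) (nat_lit 4)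
theorem c78400 : QOK q78400 := cut [] trivial (nd (nat_lit 138) (nat_lit 0) (cs (lf (nat_lit 17) (nat_lit 135)) (nd (nat_lit 181) (nat_lit 0) (cs (lf (nat_lit 30) (nat_lit 137)) (nd (nat_lit 116) (nat_lit 0) (cs (lf (nat_lit 36) (nat_lit 93)) (lf (nat_lit 39) (nat_lit 115)))))))) q78400 (by decide +kernel)
def q78402 : Q := Q.p (nat_lit 0x100000e00000800006000000000000000000000000000000000000000) (nat_lit 0x100000e0000000000000000000010000000000000000000000000000000000) (nat_lit 3)
theorem c78402 : QOK q78402 := cut [] trivial (nd (nat_lit 223) (nat_lit 0) (cs (lf (nat_lit 35) (nat_lit 135)) (nd (nat_lit 222) (nat_lit 0) (cs (lf (nat_lit 41) (nat_lit 156)) (lf (nat_lit 12) (nat_lit 199)))))) q78402 (by decide +kernel)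
def q78633 : Q := Q.p (nat_lit 0x8000020000880002600000000010000040000000000000000000000000000000000000000000000) (nat_lit 0x800006000010000050000140001100004800002000000000000000000000000000000000000000000000000000) (nat_lit 7)
theorem c78633 : QOK q78633 := cut [] trivial (nd (nat_lit 230) (nat_lit 0) (cs (lf (nat_lit 27) (nat_lit 186)) (nd (nat_lit 316) (nat_lit 0) (cs (lf (nat_lit 29) (nat_lit 249)) (nd (nat_lit 227) (nat_lit 0) (cs (lf (nat_lit 28) (nat_lit 227)) (nd (nat_lit 337) (nat_lit 0) (cs (lf (nat_lit 34) (nat_lit 249)) (nd (nat_lit 270) (nat_lit 0) (cs (lf (nat_lit 47) (nat_lit 248)) (nd (nat_lit 292) (nat_lit 0) (cs (lf (nat_lit 36) (nat_lit 204)) (lf (nat_lit 42) (nat_lit 270)))))))))))))) q78633 (by decide +kernel)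
def q78656 : Q := Q.p (nat_lit 0x3c000000000000000000000000000000000000000000000000000) (nat_lit 0x1c0000200001c000000000000000000000000000000000000000000000) (nat_lit 4)
theorem c78656 : QOK q78656 := cut [] trivial (nd (nat_lit 183) (nat_lit 0) (cs (lf (nat_lit 22) (nat_lit 183)) (nd (nat_lit 227) (nat_lit 0) (cs (lf (nat_lit 10) (nat_lit 205)) (nd (nat_lit 205) (nat_lit 0) (cs (lf (nat_lit 23) (nat_lit 182)) (lf (nat_lit 11) (nat_lit 204)))))))) q78656 (by decide +kernel)
def q78662 : Q := Q.p (nat_lit 0x1e00002000000000000000000000000000000000000000000000000000000000) (nat_lit 0xe0000100004000000000000000000000000000000000000000000000000000000000) (nat_lit 3)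
theorem c78662 : QOK q78662 := cut [] trivial (nd (nat_lit 270) (nat_lit 0) (cs (lf (nat_lit 10) (nat_lit 248)) (nd (nat_lit 248) (nat_lit 0) (cs (lf (nat_lit 11) (nat_lit 247)) (lf (nat_lit 17) (nat_lit 226)))))) q78662 (by decide +kernel)
def q78747 : Q := Q.p (nat_lit 0x100000f00000c000000000000000000000000000000000000000000000000000) (nat_lit 0x100000600000000000000020000080000000000000000000000000000000000000000) (nat_lit 3)
theorem c78747 : QOK q78747 := cut [] trivial (nd (nat_lit 250) (nat_lit 0) (cs (lf (nat_lit 11) (nat_lit 227)) (nd (nat_lit 185) (nat_lit 0) (cs (lf (nat_lit 30) (nat_lit 184)) (lf (nat_lit 24) (nat_lit 163)))))) q78747 (by decide +kernel)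
def q78824 : Q := Q.p (nat_lit 0x800001c000040000000000000000000000000000000000000000000000) (nat_lit 0x4000002000080000000000000000000000000000000000000000000000) (nat_lit 2)
theorem c78824 : QOK q78824 := cut [] trivial (nd (nat_lit 205) (nat_lit 0) (cs (lf (nat_lit 4) (nat_lit 205)) (lf (nat_lit 17) (nat_lit 183)))) q78824 (by decide +kernel)
def q78832 : Q := Q.p (nat_lit 0x30000380000000000000000000000000000000000000000000000) (nat_lit 0x4c000000000000000000000000000000000000000000000000000) (nat_lit 2)
theorem c78832 : QOK q78832 := cut [] trivial (nd (nat_lit 207) (nat_lit 0) (cs (lf (nat_lit 12) (nat_lit 184)) (lf (nat_lit 15) (nat_lit 185)))) q78832 (by decide +kernel)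
def q78936 : Q := Q.p (nat_lit 0x1000006000018000000000000000000000000000000000000000000000000000) (nat_lit 0x100000400000000000000000000020000000000000000000000000000000000000000000000) (nat_lit 2)
theorem c78936 : QOK q78936 := cut [] trivial (nd (nat_lit 274) (nat_lit 0) (cs (lf (nat_lit 47) (nat_lit 185)) (lf (nat_lit 42) (nat_lit 207)))) q78936 (by decide +kernel)
def q79006 : Q := Q.p (nat_lit 0x7c00000000000000000000000000000000000000000000000000000000000000) (nat_lit 0x380000000000000000000000000000000000000000000000000000000000000000000) (nat_lit 2)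
theorem c79006 : QOK q79006 := cut [] trivial (nd (nat_lit 272) (nat_lit 0) (cs (lf (nat_lit 11) (nat_lit 249)) (lf (nat_lit 10) (nat_lit 250)))) q79006 (by decide +kernel)
def q79011 : Q := Q.p (nat_lit 0x7c00000000000000000000000000000000000000000000000000000000000000) (nat_lit 0x38000000000000000000000000000000000000000000000000000000000) (nat_lit 2)
theorem c79011 : QOK q79011 := cut [] trivial (nd (nat_lit 232) (nat_lit 0) (cs (lf (nat_lit 16) (nat_lit 228)) (lf (nat_lit 17) (nat_lit 229)))) q79011 (by decide +kernel)
def q79020 : Q := Q.p (nat_lit 0x7800000000000000000000000000000000000000000000000000000000000000) (nat_lit 0x700008000070000000000000000000000000000000000000000000000000000000000) (nat_lit 4)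
theorem c79020 : QOK q79020 := cut [] trivial (nd (nat_lit 233) (nat_lit 0) (cs (nd (nat_lit 273) (nat_lit 0) (cs (nd (nat_lit 255) (nat_lit 0) (cs (lf (nat_lit 10) (nat_lit 251)) (lf (nat_lit 17) (nat_lit 230)))) (lf (nat_lit 11) (nat_lit 250)))) (lf (nat_lit 16) (nat_lit 229)))) q79020 (by decide +kernel)
def q79022 : Q := Q.p (nat_lit 0x7c00000000000000000000000000000000000000000000000000000000000000) (nat_lit 0x3800000000000000000000000000000000000000000000000000000000) (nat_lit 2)
theorem c79022 : QOK q79022 := cut [] trivial (nd (nat_lit 228) (nat_lit 0) (cs (lf (nat_lit 23) (nat_lit 227)) (lf (nat_lit 22) (nat_lit 228)))) q79022 (by decide +kernel)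
def q79026 : Q := Q.p (nat_lit 0x7000006000000000000000000000000000000000000000000000000000000000) (nat_lit 0x9800000000000000000000000000000000000000000000000000000000) (nat_lit 2)
theorem c79026 : QOK q79026 := cut [] trivial (nd (nat_lit 228) (nat_lit 0) (cs (lf (nat_lit 0) (nat_lit 227)) (lf (nat_lit 3) (nat_lit 228)))) q79026 (by decide +kernel)
def q79031 : Q := Q.p (nat_lit 0x1000004000010000080000000000000000000000000000000000000000000000) (nat_lit 0x400000000000000020000040000200000800000000000000000000000000000000000) (nat_lit 3)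
theorem c79031 : QOK q79031 := cut [] trivial (nd (nat_lit 165) (nat_lit 0) (cs (lf (nat_lit 33) (nat_lit 164)) (nd (nat_lit 209) (nat_lit 0) (cs (lf (nat_lit 30) (nat_lit 186)) (lf (nat_lit 36) (nat_lit 142)))))) q79031 (by decide +kernel)
def q79043 : Q := Q.p (nat_lit 0xc00007000004000010000000000000000000000000000000000000000000000000000) (nat_lit 0x80000300000000000000000000000000000000000000000000000000000000000000000000) (nat_lit 2)
theorem c79043 : QOK q79043 := cut [] trivial (nd (nat_lit 273) (nat_lit 0) (cs (lf (nat_lit 41) (nat_lit 207)) (lf (nat_lit 12) (nat_lit 250)))) q79043 (by decide +kernel)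
def q79052 : Q := Q.p (nat_lit 0x3c00006000008000020000000000000000000000000000000000000000000000000000) (nat_lit 0x1800000000000000010000040000100000000000000000000000000000000000000000000000) (nat_lit 3)
theorem c79052 : QOK q79052 := cut [] trivial (nd (nat_lit 299) (nat_lit 0) (cs (lf (nat_lit 5) (nat_lit 274)) (nd (nat_lit 210) (nat_lit 0) (cs (lf (nat_lit 35) (nat_lit 187)) (lf (nat_lit 25) (nat_lit 210)))))) q79052 (by decide +kernel)
def q79061 : Q := Q.p (nat_lit 0x600007000000000000000000000000000000000000000000000000000000000000000) (nat_lit 0x980000000000000000000000000000000000000000000000000000000000000000000) (nat_lit 2)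
theorem c79061 : QOK q79061 := cut [] trivial (nd (nat_lit 272) (nat_lit 0) (cs (lf (nat_lit 12) (nat_lit 249)) (lf (nat_lit 15) (nat_lit 250)))) q79061 (by decide +kernel)
def q79068 : Q := Q.p (nat_lit 0xc00003000004000000000000000000000000000000000000000000000000000000000) (nat_lit 0x200000000000000000000010000040000000000000000000000000000000000000000000000) (nat_lit 2)
theorem c79068 : QOK q79068 := cut [] trivial (nd (nat_lit 208) (nat_lit 0) (cs (lf (nat_lit 29) (nat_lit 208)) (lf (nat_lit 24) (nat_lit 186)))) q79068 (by decide +kernel)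
def q79079 : Q := Q.p (nat_lit 0xc00007000000000000000000000000000000000000000000000000000000000000000) (nat_lit 0x200018000000000000000000000000000000000000000000000000000000000000000) (nat_lit 2)
theorem c79079 : QOK q79079 := cut [] trivial (nd (nat_lit 255) (nat_lit 0) (cs (lf (nat_lit 6) (nat_lit 252)) (lf (nat_lit 11) (nat_lit 251)))) q79079 (by decide +kernel)
def q79086 : Q := Q.p (nat_lit 0x2c0000b000024000010000000000000000000000000000000000000000000000000000) (nat_lit 0x1d000010000000000180000680001a0000000000000000000000000000000000000000000000) (nat_lit 7)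
theorem c79086 : QOK q79086 := cut [] trivial (nd (nat_lit 185) (nat_lit 0) (cs (lf (nat_lit 46) (nat_lit 185)) (nd (nat_lit 209) (nat_lit 0) (cs (lf (nat_lit 35) (nat_lit 186)) (nd (nat_lit 231) (nat_lit 0) (cs (lf (nat_lit 41) (nat_lit 208)) (nd (nat_lit 276) (nat_lit 0) (cs (lf (nat_lit 29) (nat_lit 209)) (nd (nat_lit 299) (nat_lit 0) (cs (lf (nat_lit 5) (nat_lit 274)) (nd (nat_lit 210) (nat_lit 0) (cs (lf (nat_lit 35) (nat_lit 187)) (lf (nat_lit 46) (nat_lit 210)))))))))))))) q79086 (by decide +kernel)
def q79093 : Q := Q.p (nat_lit 0x700000c000020000000000000000000000000000000000000000000000000000) (nat_lit 0x1000000000000000000000080000200000000000000000000000000000000000000000) (nat_lit 2)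
theorem c79093 : QOK q79093 := cut [] trivial (nd (nat_lit 187) (nat_lit 0) (cs (lf (nat_lit 36) (nat_lit 164)) (lf (nat_lit 29) (nat_lit 187)))) q79093 (by decide +kernel)
def q79097 : Q := Q.p (nat_lit 0x40000300000c000000000000000000000000000000000000000000000000000000000) (nat_lit 0x100000000000000000000020000080000000000000000000000000000000000000000000000) (nat_lit 2)
theorem c79097 : QOK q79097 := cut [] trivial (nd (nat_lit 209) (nat_lit 0) (cs (lf (nat_lit 36) (nat_lit 186)) (lf (nat_lit 30) (nat_lit 208)))) q79097 (by decide +kernel)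
def q79102 : Q := Q.p (nat_lit 0x400002000008000020000040000000000000000000000000000000000000000000000000000) (nat_lit 0x1000000000000000080000100000000000000000000000000000000000000000000000) (nat_lit 2)
theorem c79102 : QOK q79102 := cut [] trivial (nd (nat_lit 211) (nat_lit 0) (cs (lf (nat_lit 40) (nat_lit 210)) (lf (nat_lit 47) (nat_lit 188)))) q79102 (by decide +kernel)
def q79111 : Q := Q.p (nat_lit 0x200000800003000004000000000000000000000000000000000000000000000000000000000) (nat_lit 0x400000000000000010000040000000000000000000000000000000000000000000000) (nat_lit 2)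
theorem c79111 : QOK q79111 := cut [] trivial (nd (nat_lit 208) (nat_lit 0) (cs (lf (nat_lit 27) (nat_lit 208)) (lf (nat_lit 24) (nat_lit 186)))) q79111 (by decide +kernel)
def q79116 : Q := Q.p (nat_lit 0x7000030000000000000000000000000000000000000000000000000000000000) (nat_lit 0xc8000000000000000000000000000000000000000000000000000000000) (nat_lit 2)
theorem c79116 : QOK q79116 := cut [] trivial (nd (nat_lit 234) (nat_lit 0) (cs (lf (nat_lit 9) (nat_lit 230)) (lf (nat_lit 6) (nat_lit 231)))) q79116 (by decide +kernel)
def q79121 : Q := Q.p (nat_lit 0x6000010000040000100000000000000000000000000000000000000000000000) (nat_lit 0x8000000000200000c00002000000000000000000000000000000000000) (nat_lit 3)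
theorem c79121 : QOK q79121 := cut [] trivial (nd (nat_lit 167) (nat_lit 0) (cs (nd (nat_lit 166) (nat_lit 0) (cs (lf (nat_lit 35) (nat_lit 144)) (lf (nat_lit 40) (nat_lit 165)))) (lf (nat_lit 34) (nat_lit 166)))) q79121 (by decide +kernel)
def q79127 : Q := Q.p (nat_lit 0x4000010000040000100000000000000000000000000000000000000000000000) (nat_lit 0x280000e00002800000000000000000000000000000000000) (nat_lit 4)
theorem c79127 : QOK q79127 := cut [] trivial (nd (nat_lit 165) (nat_lit 0) (cs (nd (nat_lit 167) (nat_lit 0) (cs (lf (nat_lit 34) (nat_lit 166)) (nd (nat_lit 166) (nat_lit 0) (cs (lf (nat_lit 35) (nat_lit 144)) (lf (nat_lit 47) (nat_lit 143)))))) (lf (nat_lit 46) (nat_lit 165)))) q79127 (by decide +kernel)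
def q79132 : Q := Q.p (nat_lit 0x4000010000040000080000000000000000000000000000000000000000000000) (nat_lit 0x1000000000000000020000100000200000800000000000000000000000000000000000) (nat_lit 3)
theorem c79132 : QOK q79132 := cut [] trivial (nd (nat_lit 165) (nat_lit 0) (cs (nd (nat_lit 209) (nat_lit 0) (cs (lf (nat_lit 24) (nat_lit 143)) (lf (nat_lit 42) (nat_lit 187)))) (lf (nat_lit 45) (nat_lit 165)))) q79132 (by decide +kernel)
def q79133 : Q := Q.p (nat_lit 0x4000010000040000100000400000000000000000000000000000000000000000) (nat_lit 0x200000800002000000000000000000000000000000000000) (nat_lit 2)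
theorem c79133 : QOK q79133 := cut [] trivial (nd (nat_lit 167) (nat_lit 0) (cs (lf (nat_lit 35) (nat_lit 144)) (lf (nat_lit 34) (nat_lit 166)))) q79133 (by decide +kernel)
def q79138 : Q := Q.p (nat_lit 0x4000010000060000080000000000000000000000000000000000000000000000) (nat_lit 0x8000000000000000200000800000000000000000000000000000000000) (nat_lit 2)
theorem c79138 : QOK q79138 := cut [] trivial (nd (nat_lit 165) (nat_lit 0) (cs (lf (nat_lit 24) (nat_lit 143)) (lf (nat_lit 27) (nat_lit 165)))) q79138 (by decide +kernel)
def q79147 : Q := Q.p (nat_lit 0x1800007000010000040000000000000000000000000000000000000000000000000000) (nat_lit 0x800006000000000000000000000000000000000000000000000000000000000000000000000) (nat_lit 2)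
theorem c79147 : QOK q79147 := cut [] trivial (nd (nat_lit 277) (nat_lit 0) (cs (lf (nat_lit 18) (nat_lit 252)) (lf (nat_lit 29) (nat_lit 210)))) q79147 (by decide +kernel)
def q79158 : Q := Q.p (nat_lit 0x4000010000040000100000400000000000000000000000000000000000000000) (nat_lit 0x80000200000800000000000000000000000000000000000) (nat_lit 2)
theorem c79158 : QOK q79158 := cut [] trivial (nd (nat_lit 165) (nat_lit 0) (cs (lf (nat_lit 47) (nat_lit 143)) (lf (nat_lit 46) (nat_lit 165)))) q79158 (by decide +kernel)
def q79163 : Q := Q.p (nat_lit 0x7800001000000000000000000000000000000000000000000000000000000000) (nat_lit 0x3800000400000800000000000000000000000000000000000000000000000000000000) (nat_lit 3)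
theorem c79163 : QOK q79163 := cut [] trivial (nd (nat_lit 276) (nat_lit 0) (cs (lf (nat_lit 5) (nat_lit 251)) (nd (nat_lit 250) (nat_lit 0) (cs (lf (nat_lit 23) (nat_lit 227)) (lf (nat_lit 4) (nat_lit 250)))))) q79163 (by decide +kernel)
def q79167 : Q := Q.p (nat_lit 0x800006000010000040000000000000000000000000000000000000000000000000000) (nat_lit 0x80000200000000000000008000000000000000000000000000000000000000000000000000000000) (nat_lit 2)
theorem c79167 : QOK q79167 := cut [] trivial (nd (nat_lit 297) (nat_lit 0) (cs (lf (nat_lit 33) (nat_lit 209)) (lf (nat_lit 30) (nat_lit 231)))) q79167 (by decide +kernel)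
def q79170 : Q := Q.p (nat_lit 0x1800007000000000000000000000000000000000000000000000000000000000000000) (nat_lit 0x2000000c00000000000000000000000000000000000000000000000000000000000000) (nat_lit 2)
theorem c79170 : QOK q79170 := cut [] trivial (nd (nat_lit 251) (nat_lit 0) (cs (lf (nat_lit 0) (nat_lit 250)) (lf (nat_lit 5) (nat_lit 251)))) q79170 (by decide +kernel)
def q79181 : Q := Q.p (nat_lit 0x1000006000018000000000000000000000000000000000000000000000000000000000) (nat_lit 0x400000000000000000000020000080000000000000000000000000000000000000000000000) (nat_lit 2)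
theorem c79181 : QOK q79181 := cut [] trivial (nd (nat_lit 209) (nat_lit 0) (cs (lf (nat_lit 42) (nat_lit 209)) (lf (nat_lit 24) (nat_lit 187)))) q79181 (by decide +kernel)
def q79186 : Q := Q.p (nat_lit 0x200000800002000008000020000000000000000000000000000000000000000000000000000) (nat_lit 0x4000010000040000000000000000000000000000000000000000000000) (nat_lit 2)
theorem c79186 : QOK q79186 := cut [] trivial (nd (nat_lit 208) (nat_lit 0) (cs (lf (nat_lit 46) (nat_lit 208)) (lf (nat_lit 47) (nat_lit 186)))) q79186 (by decide +kernel)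
def q79193 : Q := Q.p (nat_lit 0x6000018000020000000000000000000000000000000000000000000000000000) (nat_lit 0x1000000000000000000000080000200000000000000000000000000000000000000000) (nat_lit 2)
theorem c79193 : QOK q79193 := cut [] trivial (nd (nat_lit 187) (nat_lit 0) (cs (lf (nat_lit 29) (nat_lit 187)) (lf (nat_lit 24) (nat_lit 165)))) q79193 (by decide +kernel)
def q79198 : Q := Q.p (nat_lit 0x200000800006000010000000000000000000000000000000000000000000000000000000000) (nat_lit 0x1000000000000000040000100000000000000000000000000000000000000000000000) (nat_lit 2)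
theorem c79198 : QOK q79198 := cut [] trivial (nd (nat_lit 210) (nat_lit 0) (cs (lf (nat_lit 36) (nat_lit 187)) (lf (nat_lit 39) (nat_lit 209)))) q79198 (by decide +kernel)
def q79210 : Q := Q.p (nat_lit 0xf000000000000000000000000000000000000000000000000000000000000000) (nat_lit 0x700000800007000000000000000000000000000000000000000000000000000000000) (nat_lit 4)
theorem c79210 : QOK q79210 := cut [] trivial (nd (nat_lit 229) (nat_lit 0) (cs (nd (nat_lit 273) (nat_lit 0) (cs (lf (nat_lit 10) (nat_lit 251)) (nd (nat_lit 251) (nat_lit 0) (cs (lf (nat_lit 11) (nat_lit 250)) (lf (nat_lit 23) (nat_lit 228)))))) (lf (nat_lit 22) (nat_lit 229)))) q79210 (by decide +kernel)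
def q79214 : Q := Q.p (nat_lit 0xf000000000000000000000000000000000000000000000000000000000000000) (nat_lit 0x7000000800007000000000000000000000000000000000000000000000000000000000) (nat_lit 4)
theorem c79214 : QOK q79214 := cut [] trivial (nd (nat_lit 229) (nat_lit 0) (cs (lf (nat_lit 22) (nat_lit 229)) (nd (nat_lit 277) (nat_lit 0) (cs (lf (nat_lit 5) (nat_lit 252)) (nd (nat_lit 251) (nat_lit 0) (cs (lf (nat_lit 23) (nat_lit 228)) (lf (nat_lit 4) (nat_lit 251)))))))) q79214 (by decide +kernel)
def q79215 : Q := Q.p (nat_lit 0xf800000000000000000000000000000000000000000000000000000000000000) (nat_lit 0x700000000000000000000000000000000000000000000000000000000000000000000) (nat_lit 2)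
theorem c79215 : QOK q79215 := cut [] trivial (nd (nat_lit 273) (nat_lit 0) (cs (lf (nat_lit 10) (nat_lit 251)) (lf (nat_lit 11) (nat_lit 250)))) q79215 (by decide +kernel)
def q79220 : Q := Q.p (nat_lit 0x40000e000040000000000000000000000000000000000000000000000000000000000) (nat_lit 0x800010000080000000000000000000000000000000000000000000000000000000000) (nat_lit 2)
theorem c79220 : QOK q79220 := cut [] trivial (nd (nat_lit 256) (nat_lit 0) (cs (lf (nat_lit 10) (nat_lit 252)) (lf (nat_lit 17) (nat_lit 231)))) q79220 (by decide +kernel)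
def q79225 : Q := Q.p (nat_lit 0x200000c000030000000000000000000000000000000000000000000000000000000000) (nat_lit 0x800000000000000000000040000100000000000000000000000000000000000000000000000) (nat_lit 2)
theorem c79225 : QOK q79225 := cut [] trivial (nd (nat_lit 210) (nat_lit 0) (cs (lf (nat_lit 42) (nat_lit 210)) (lf (nat_lit 24) (nat_lit 188)))) q79225 (by decide +kernel)
def q79236 : Q := Q.p (nat_lit 0xc000030000080000000000000000000000000000000000000000000000000000) (nat_lit 0x1000000000000000000000200000800000000000000000000000000000000000000000) (nat_lit 2)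
theorem c79236 : QOK q79236 := cut [] trivial (nd (nat_lit 189) (nat_lit 0) (cs (lf (nat_lit 36) (nat_lit 166)) (lf (nat_lit 41) (nat_lit 188)))) q79236 (by decide +kernel)
def q79250 : Q := Q.p (nat_lit 0x6000018000040000000000000000000000000000000000000000000000000000) (nat_lit 0x800000000000000000000100000400000000000000000000000000000000000000000) (nat_lit 2)
theorem c79250 : QOK q79250 := cut [] trivial (nd (nat_lit 188) (nat_lit 0) (cs (lf (nat_lit 36) (nat_lit 165)) (lf (nat_lit 41) (nat_lit 187)))) q79250 (by decide +kernel)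
def q79258 : Q := Q.p (nat_lit 0x7000022000000000000000000000000000000000000000000000000000000000) (nat_lit 0x8000044000000000000000000000000000000000000000000000000000000000) (nat_lit 2)
theorem c79258 : QOK q79258 := cut [] trivial (nd (nat_lit 255) (nat_lit 0) (cs (lf (nat_lit 17) (nat_lit 230)) (lf (nat_lit 22) (nat_lit 229)))) q79258 (by decide +kernel)
def q79265 : Q := Q.p (nat_lit 0x7800018000000000000000000000000000000000000000000000000000000000000000) (nat_lit 0x100000400003000000000000000020000000000000000000000000000000000000000000000000000000000) (nat_lit 3)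
theorem c79265 : QOK q79265 := cut [] trivial (nd (nat_lit 300) (nat_lit 0) (cs (lf (nat_lit 5) (nat_lit 275)) (nd (nat_lit 322) (nat_lit 0) (cs (lf (nat_lit 42) (nat_lit 255)) (lf (nat_lit 47) (nat_lit 233)))))) q79265 (by decide +kernel)
def q79276 : Q := Q.p (nat_lit 0x800006000010000040000000000000000000000000000000000000000000000000000) (nat_lit 0x80000200001000000000000000000000000000000000000000000000000000000000000000000000) (nat_lit 2)
theorem c79276 : QOK q79276 := cut [] trivial (nd (nat_lit 297) (nat_lit 0) (cs (lf (nat_lit 30) (nat_lit 231)) (lf (nat_lit 39) (nat_lit 209)))) q79276 (by decide +kernel)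
def q79280 : Q := Q.p (nat_lit 0x4000010000040000100000000000000000000000000000000000000000000000) (nat_lit 0x800003000008000000000020000080000200000000000000000000000000000000000000000) (nat_lit 4)
theorem c79280 : QOK q79280 := cut [] trivial (nd (nat_lit 277) (nat_lit 0) (cs (nd (nat_lit 187) (nat_lit 0) (cs (lf (nat_lit 47) (nat_lit 165)) (nd (nat_lit 276) (nat_lit 0) (cs (lf (nat_lit 29) (nat_lit 210)) (lf (nat_lit 46) (nat_lit 187)))))) (lf (nat_lit 28) (nat_lit 188)))) q79280 (by decide +kernel)
def q79289 : Q := Q.p (nat_lit 0x1c00006000000000000000000000000000000000000000000000000000000000000000) (nat_lit 0x200018000000000000000000000000000000000000000000000000000000000000000) (nat_lit 2)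
theorem c79289 : QOK q79289 := cut [] trivial (nd (nat_lit 255) (nat_lit 0) (cs (lf (nat_lit 6) (nat_lit 252)) (lf (nat_lit 12) (nat_lit 251)))) q79289 (by decide +kernel)
def q79296 : Q := Q.p (nat_lit 0x800006000018000020000000000000000000000000000000000000000000000000000) (nat_lit 0x180000600001000000000000000000000000000000000000000000000000000000000000000000000) (nat_lit 3)
theorem c79296 : QOK q79296 := cut [] trivial (nd (nat_lit 297) (nat_lit 0) (cs (lf (nat_lit 30) (nat_lit 231)) (nd (nat_lit 298) (nat_lit 0) (cs (lf (nat_lit 29) (nat_lit 231)) (lf (nat_lit 43) (nat_lit 209)))))) q79296 (by decide +kernel)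
def q79307 : Q := Q.p (nat_lit 0x600001c000000000000000000000000000000000000000000000000000000000) (nat_lit 0x8000003000000000000000000000000000000000000000000000000000000000) (nat_lit 2)
theorem c79307 : QOK q79307 := cut [] trivial (nd (nat_lit 229) (nat_lit 0) (cs (lf (nat_lit 5) (nat_lit 229)) (lf (nat_lit 0) (nat_lit 228)))) q79307 (by decide +kernel)
def q79309 : Q := Q.p (nat_lit 0x7c000000000000000000000000000000000000000000000000000000000) (nat_lit 0x380000000000000000000000000000000000000000000000000000) (nat_lit 2)
theorem c79309 : QOK q79309 := cut [] trivial (nd (nat_lit 212) (nat_lit 0) (cs (lf (nat_lit 17) (nat_lit 209)) (lf (nat_lit 16) (nat_lit 208)))) q79309 (by decide +kernel)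
def q79320 : Q := Q.p (nat_lit 0x6000018000020000000000000000000000000000000000000000000000000000) (nat_lit 0xc0000300000c000000000000000100001c0000700000000000000000000000000000000000000000) (nat_lit 7)
theorem c79320 : QOK q79320 := cut [] trivial (nd (nat_lit 187) (nat_lit 0) (cs (lf (nat_lit 24) (nat_lit 165)) (nd (nat_lit 166) (nat_lit 0) (cs (lf (nat_lit 34) (nat_lit 165)) (nd (nat_lit 186) (nat_lit 0) (cs (lf (nat_lit 47) (nat_lit 164)) (nd (nat_lit 275) (nat_lit 0) (cs (lf (nat_lit 46) (nat_lit 186)) (nd (nat_lit 296) (nat_lit 0) (cs (lf (nat_lit 40) (nat_lit 208)) (nd (nat_lit 297) (nat_lit 0) (cs (lf (nat_lit 41) (nat_lit 230)) (lf (nat_lit 30) (nat_lit 231)))))))))))))) q79320 (by decide +kernel)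
def q79322 : Q := Q.p (nat_lit 0x600003c000000000000000000000000000000000000000000000000000000000) (nat_lit 0xc0000380000000000000000000000000000000000000000000000000000) (nat_lit 3)
theorem c79322 : QOK q79322 := cut [] trivial (nd (nat_lit 212) (nat_lit 0) (cs (lf (nat_lit 16) (nat_lit 208)) (nd (nat_lit 234) (nat_lit 0) (cs (lf (nat_lit 17) (nat_lit 209)) (lf (nat_lit 6) (nat_lit 231)))))) q79322 (by decide +kernel)
def q79330 : Q := Q.p (nat_lit 0x600003c000000000000000000000000000000000000000000000000000000000) (nat_lit 0x380000c0000000000000000000000000000000000000000000000000000000000) (nat_lit 3)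
theorem c79330 : QOK q79330 := cut [] trivial (nd (nat_lit 234) (nat_lit 0) (cs (lf (nat_lit 6) (nat_lit 231)) (nd (nat_lit 256) (nat_lit 0) (cs (lf (nat_lit 5) (nat_lit 231)) (lf (nat_lit 19) (nat_lit 230)))))) q79330 (by decide +kernel)
def q79342 : Q := Q.p (nat_lit 0x1000004000030000080000000000000000000000000000000000000000000000000000) (nat_lit 0x8000000000000000200000800000000000000000000000000000000000000000) (nat_lit 2)
theorem c79342 : QOK q79342 := cut [] trivial (nd (nat_lit 189) (nat_lit 0) (cs (lf (nat_lit 36) (nat_lit 166)) (lf (nat_lit 39) (nat_lit 188)))) q79342 (by decide +kernel)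
def q79349 : Q := Q.p (nat_lit 0x100000c00003c000000000000000000000000000000000000000000000000000000000) (nat_lit 0x180000200000000000000000000000000000000000000000000000) (nat_lit 2)
theorem c79349 : QOK q79349 := cut [] trivial (nd (nat_lit 211) (nat_lit 0) (cs (lf (nat_lit 17) (nat_lit 208)) (lf (nat_lit 36) (nat_lit 188)))) q79349 (by decide +kernel)
def q79353 : Q := Q.p (nat_lit 0x400000e000018000000000000000000000000000000000000000000000000000000000) (nat_lit 0x8000030000000000000000000000000000000000000000000000000000000000000000) (nat_lit 2)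
theorem c79353 : QOK q79353 := cut [] trivial (nd (nat_lit 256) (nat_lit 0) (cs (lf (nat_lit 5) (nat_lit 253)) (lf (nat_lit 18) (nat_lit 231)))) q79353 (by decide +kernel)
def q79368 : Q := Q.p (nat_lit 0x200005800002000008000000000000000000000000000000000000000000000000000000000) (nat_lit 0x40000100002000000000000000000000000000000000000000000000000000000000000000000000) (nat_lit 2)
theorem c79368 : QOK q79368 := cut [] trivial (nd (nat_lit 296) (nat_lit 0) (cs (lf (nat_lit 41) (nat_lit 230)) (lf (nat_lit 7) (nat_lit 274)))) q79368 (by decide +kernel)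
def q79383 : Q := Q.p (nat_lit 0x6000038000000000000000000000000000000000000000000000000000000000) (nat_lit 0x40000300000c4000380000200000800000000000000000000000000000000000000000) (nat_lit 6)
theorem c79383 : QOK q79383 := cut [] trivial (nd (nat_lit 234) (nat_lit 0) (cs (lf (nat_lit 6) (nat_lit 231)) (nd (nat_lit 256) (nat_lit 0) (cs (lf (nat_lit 5) (nat_lit 231)) (nd (nat_lit 212) (nat_lit 0) (cs (lf (nat_lit 17) (nat_lit 209)) (nd (nat_lit 211) (nat_lit 0) (cs (lf (nat_lit 12) (nat_lit 208)) (nd (nat_lit 189) (nat_lit 0) (cs (lf (nat_lit 42) (nat_lit 189)) (lf (nat_lit 36) (nat_lit 166)))))))))))) q79383 (by decide +kernel)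
def q79384 : Q := Q.p (nat_lit 0x80000e000018000000000000000000000000000000000000000000000000000000000) (nat_lit 0x400030000000000000000000000000000000000000000000000000000000000000000) (nat_lit 2)
theorem c79384 : QOK q79384 := cut [] trivial (nd (nat_lit 256) (nat_lit 0) (cs (lf (nat_lit 11) (nat_lit 252)) (lf (nat_lit 18) (nat_lit 231)))) q79384 (by decide +kernel)
def q79387 : Q := Q.p (nat_lit 0x18000060000100000000000000000000000000000000000000000000000000000) (nat_lit 0x2000000000000000000000400001000000000000000000000000000000000000000000) (nat_lit 2)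
theorem c79387 : QOK q79387 := cut [] trivial (nd (nat_lit 190) (nat_lit 0) (cs (lf (nat_lit 36) (nat_lit 167)) (lf (nat_lit 41) (nat_lit 189)))) q79387 (by decide +kernel)
def q79394 : Q := Q.p (nat_lit 0x800006000038000000000000000000000000000000000000000000000000000000000) (nat_lit 0x4000380000c4000000000000000000000000000000000000000000000000000000000) (nat_lit 4)
theorem c79394 : QOK q79394 := cut [] trivial (nd (nat_lit 234) (nat_lit 0) (cs (lf (nat_lit 6) (nat_lit 231)) (nd (nat_lit 256) (nat_lit 0) (cs (lf (nat_lit 5) (nat_lit 231)) (nd (nat_lit 255) (nat_lit 0) (cs (lf (nat_lit 11) (nat_lit 252)) (lf (nat_lit 23) (nat_lit 230)))))))) q79394 (by decide +kernel)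
def q79422 : Q := Q.p (nat_lit 0x400001800006000010000000000000000000000000000000000000000000000000000000000) (nat_lit 0xc0000300000800000000000000000000000000000000000000000000000000000000000000000000000000) (nat_lit 3)
theorem c79422 : QOK q79422 := cut [] trivial (nd (nat_lit 321) (nat_lit 0) (cs (nd (nat_lit 320) (nat_lit 0) (cs (lf (nat_lit 42) (nat_lit 253)) (lf (nat_lit 29) (nat_lit 254)))) (lf (nat_lit 28) (nat_lit 232)))) q79422 (by decide +kernel)
def q79434 : Q := Q.p (nat_lit 0x1000006000010000040000000000000000000000000000000000000000000000000000) (nat_lit 0x1c0000e0000180000e0000080000200000000000000000000000000000000000000000000000) (nat_lit 7)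
theorem c79434 : QOK q79434 := cut [] trivial (nd (nat_lit 277) (nat_lit 0) (cs (lf (nat_lit 29) (nat_lit 210)) (nd (nat_lit 278) (nat_lit 0) (cs (lf (nat_lit 18) (nat_lit 253)) (nd (nat_lit 211) (nat_lit 0) (cs (lf (nat_lit 35) (nat_lit 188)) (nd (nat_lit 233) (nat_lit 0) (cs (lf (nat_lit 30) (nat_lit 210)) (nd (nat_lit 234) (nat_lit 0) (cs (lf (nat_lit 6) (nat_lit 231)) (nd (nat_lit 300) (nat_lit 0) (cs (lf (nat_lit 26) (nat_lit 211)) (lf (nat_lit 44) (nat_lit 211)))))))))))))) q79434 (by decide +kernel)
def q79436 : Q := Q.p (nat_lit 0x400001000004000010000040000000000000000000000000000000000000000000000000000) (nat_lit 0x20000080000200000000000000000000000000000000000000000000000) (nat_lit 2)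
theorem c79436 : QOK q79436 := cut [] trivial (nd (nat_lit 211) (nat_lit 0) (cs (lf (nat_lit 35) (nat_lit 188)) (lf (nat_lit 34) (nat_lit 210)))) q79436 (by decide +kernel)
def q79442 : Q := Q.p (nat_lit 0x3c00006000000000000000000000000000000000000000000000000000000000000000) (nat_lit 0x1c0000300000000000000000000000000000000000000000000000000000000000000000000) (nat_lit 3)
theorem c79442 : QOK q79442 := cut [] trivial (nd (nat_lit 295) (nat_lit 0) (cs (lf (nat_lit 10) (nat_lit 273)) (nd (nat_lit 273) (nat_lit 0) (cs (lf (nat_lit 11) (nat_lit 272)) (lf (nat_lit 12) (nat_lit 250)))))) q79442 (by decide +kernel)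
def q79461 : Q := Q.p (nat_lit 0x6000018000020000100000000000000000000000000000000000000000000000) (nat_lit 0x80000600000000000000000000000000000000000000000) (nat_lit 2)
theorem c79461 : QOK q79461 := cut [] trivial (nd (nat_lit 187) (nat_lit 0) (cs (lf (nat_lit 35) (nat_lit 165)) (lf (nat_lit 24) (nat_lit 165)))) q79461 (by decide +kernel)
def q79466 : Q := Q.p (nat_lit 0x6000018000020000040000000000000000000000000000000000000000000000) (nat_lit 0x80000300000000000000000000000000000000000000000) (nat_lit 2)
theorem c79466 : QOK q79466 := cut [] trivial (nd (nat_lit 187) (nat_lit 0) (cs (lf (nat_lit 47) (nat_lit 164)) (lf (nat_lit 24) (nat_lit 165)))) q79466 (by decide +kernel)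
def q79491 : Q := Q.p (nat_lit 0x60000180000c0000300000000000000000000000000000000000000000000000) (nat_lit 0x200000e0000380000000000000000000000000000000000000000) (nat_lit 4)
theorem c79491 : QOK q79491 := cut [] trivial (nd (nat_lit 187) (nat_lit 0) (cs (lf (nat_lit 47) (nat_lit 165)) (nd (nat_lit 186) (nat_lit 0) (cs (lf (nat_lit 0) (nat_lit 185)) (nd (nat_lit 164) (nat_lit 0) (cs (lf (nat_lit 44) (nat_lit 164)) (lf (nat_lit 23) (nat_lit 163)))))))) q79491 (by decide +kernel)
def q79503 : Q := Q.p (nat_lit 0xe000030000080000200000000000000000000000000000000000000000000000) (nat_lit 0x2800000000000000040000500001400000000000000000000000000000000000000000) (nat_lit 4)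
theorem c79503 : QOK q79503 := cut [] trivial (nd (nat_lit 168) (nat_lit 0) (cs (lf (nat_lit 34) (nat_lit 167)) (nd (nat_lit 188) (nat_lit 0) (cs (lf (nat_lit 47) (nat_lit 166)) (nd (nat_lit 210) (nat_lit 0) (cs (lf (nat_lit 41) (nat_lit 187)) (lf (nat_lit 29) (nat_lit 188)))))))) q79503 (by decide +kernel)
def q79508 : Q := Q.p (nat_lit 0x1000004000018000020000000000000000000000000000000000000000000000000000000000) (nat_lit 0x2000000000000000080000200000000000000000000000000000000000000000000000) (nat_lit 2)
theorem c79508 : QOK q79508 := cut [] trivial (nd (nat_lit 211) (nat_lit 0) (cs (lf (nat_lit 24) (nat_lit 189)) (lf (nat_lit 27) (nat_lit 211)))) q79508 (by decide +kernel)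
def q79520 : Q := Q.p (nat_lit 0xe000038000000000000000000000000000000000000000000000000000000000) (nat_lit 0x8000020000000000c0000380000400001000000000000000000000000000000000000000000) (nat_lit 5)
theorem c79520 : QOK q79520 := cut [] trivial (nd (nat_lit 234) (nat_lit 0) (cs (lf (nat_lit 6) (nat_lit 231)) (nd (nat_lit 212) (nat_lit 0) (cs (lf (nat_lit 17) (nat_lit 209)) (nd (nat_lit 190) (nat_lit 0) (cs (lf (nat_lit 36) (nat_lit 167)) (nd (nat_lit 277) (nat_lit 0) (cs (lf (nat_lit 33) (nat_lit 189)) (lf (nat_lit 30) (nat_lit 211)))))))))) q79520 (by decide +kernel)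
def q79554 : Q := Q.p (nat_lit 0x7c0000000000000000000000000000000000000000000000000000) (nat_lit 0x380000000000000000000000000000000000000000000000000000000000) (nat_lit 2)
theorem c79554 : QOK q79554 := cut [] trivial (nd (nat_lit 236) (nat_lit 0) (cs (lf (nat_lit 5) (nat_lit 211)) (lf (nat_lit 4) (nat_lit 210)))) q79554 (by decide +kernel)
def q79569 : Q := Q.p (nat_lit 0x10000040000100003c0000000000000000000000000000000000000000000000000000) (nat_lit 0x20001c80000000000000000000000000000000000000000000000) (nat_lit 3)
theorem c79569 : QOK q79569 := cut [] trivial (nd (nat_lit 191) (nat_lit 0) (cs (lf (nat_lit 17) (nat_lit 188)) (nd (nat_lit 209) (nat_lit 0) (cs (lf (nat_lit 16) (nat_lit 187)) (lf (nat_lit 47) (nat_lit 187)))))) q79569 (by decide +kernel)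
def q79577 : Q := Q.p (nat_lit 0x80000400001000006000000000000000000000000000000000000000000000000000000000000000) (nat_lit 0x20000100000000000000000000008000000000000000000000000000000000000000000000000000000000) (nat_lit 2)
theorem c79577 : QOK q79577 := cut [] trivial (nd (nat_lit 320) (nat_lit 0) (cs (lf (nat_lit 41) (nat_lit 253)) (lf (nat_lit 47) (nat_lit 231)))) q79577 (by decide +kernel)
def q79586 : Q := Q.p (nat_lit 0x100000400001000006000000000000000000000000000000000000000000000000000000000000000) (nat_lit 0x8000060000080000000000800000000000000000000000000000000000000000000000000000000000000000000) (nat_lit 3)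
theorem c79586 : QOK q79586 := cut [] trivial (nd (nat_lit 341) (nat_lit 0) (cs (nd (nat_lit 342) (nat_lit 0) (cs (lf (nat_lit 41) (nat_lit 275)) (lf (nat_lit 46) (nat_lit 253)))) (lf (nat_lit 40) (nat_lit 253)))) q79586 (by decide +kernel)
def q79600 : Q := Q.p (nat_lit 0x6000018000040000200000000000000000000000000000000000000000000000) (nat_lit 0x100000c00000000000000000000000000000000000000000) (nat_lit 2)
theorem c79600 : QOK q79600 := cut [] trivial (nd (nat_lit 188) (nat_lit 0) (cs (lf (nat_lit 36) (nat_lit 165)) (lf (nat_lit 35) (nat_lit 166)))) q79600 (by decide +kernel)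
def q79606 : Q := Q.p (nat_lit 0x180000e0000000000000000000000000000000000000000000000000000) (nat_lit 0x4000300000000000000000000000000000000000000000000000000000) (nat_lit 2)
theorem c79606 : QOK q79606 := cut [] trivial (nd (nat_lit 212) (nat_lit 0) (cs (lf (nat_lit 6) (nat_lit 209)) (lf (nat_lit 11) (nat_lit 208)))) q79606 (by decide +kernel)
def q79612 : Q := Q.p (nat_lit 0x1000006000018000040000000000000000000000000000000000000000000000000000) (nat_lit 0x20000180000600000000000000000000000000000000000000000) (nat_lit 3)
theorem c79612 : QOK q79612 := cut [] trivial (nd (nat_lit 188) (nat_lit 0) (cs (lf (nat_lit 36) (nat_lit 165)) (nd (nat_lit 187) (nat_lit 0) (cs (lf (nat_lit 47) (nat_lit 165)) (lf (nat_lit 25) (nat_lit 187)))))) q79612 (by decide +kernel)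
def q79626 : Q := Q.p (nat_lit 0xe000018000000000000000000000000000000000000000000000000000000000) (nat_lit 0x10000006000000000000000000000000000000000000000000000000000000000) (nat_lit 2)
theorem c79626 : QOK q79626 := cut [] trivial (nd (nat_lit 230) (nat_lit 0) (cs (lf (nat_lit 18) (nat_lit 230)) (lf (nat_lit 0) (nat_lit 229)))) q79626 (by decide +kernel)
def q79638 : Q := Q.p (nat_lit 0x60000380000000000000000000000000000000000000000000000) (nat_lit 0x10000c00000000000000000000000000000000000000000000000) (nat_lit 2)
theorem c79638 : QOK q79638 := cut [] trivial (nd (nat_lit 190) (nat_lit 0) (cs (lf (nat_lit 6) (nat_lit 187)) (lf (nat_lit 11) (nat_lit 186)))) q79638 (by decide +kernel)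
def q79673 : Q := Q.p (nat_lit 0x6000018000000000080000000000000000000000000000000000000000000000) (nat_lit 0x1000000000000000020000000000200000000000000000000000000000000000000000) (nat_lit 2)
theorem c79673 : QOK q79673 := cut [] trivial (nd (nat_lit 209) (nat_lit 0) (cs (lf (nat_lit 29) (nat_lit 187)) (lf (nat_lit 24) (nat_lit 165)))) q79673 (by decide +kernel)
def q79708 : Q := Q.p (nat_lit 0xa00003c0000b0000000000000000000000000000000000000000000000000000) (nat_lit 0x2000000000000000040000160000500000000000000000000000000000000000000000) (nat_lit 4)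
theorem c79708 : QOK q79708 := cut [] trivial (nd (nat_lit 186) (nat_lit 0) (cs (lf (nat_lit 24) (nat_lit 164)) (nd (nat_lit 210) (nat_lit 0) (cs (lf (nat_lit 23) (nat_lit 185)) (nd (nat_lit 188) (nat_lit 0) (cs (lf (nat_lit 42) (nat_lit 188)) (lf (nat_lit 24) (nat_lit 166)))))))) q79708 (by decide +kernel)
def q79733 : Q := Q.p (nat_lit 0x200000800006000010000000000000000000000000000000000000000000000000000000000) (nat_lit 0x1000000000008000040000000000000000000000000000000000000000000000000000) (nat_lit 2)
theorem c79733 : QOK q79733 := cut [] trivial (nd (nat_lit 210) (nat_lit 0) (cs (lf (nat_lit 33) (nat_lit 209)) (lf (nat_lit 39) (nat_lit 209)))) q79733 (by decide +kernel)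
def q79744 : Q := Q.p (nat_lit 0x400001000004000010000000000000000000000000000000000000000000000000000000000) (nat_lit 0x200000800002000000000008000060000080000000000000000000000000000000000000000000000) (nat_lit 4)
theorem c79744 : QOK q79744 := cut [] trivial (nd (nat_lit 209) (nat_lit 0) (cs (nd (nat_lit 299) (nat_lit 0) (cs (lf (nat_lit 29) (nat_lit 232)) (nd (nat_lit 210) (nat_lit 0) (cs (lf (nat_lit 47) (nat_lit 187)) (lf (nat_lit 28) (nat_lit 210)))))) (lf (nat_lit 46) (nat_lit 209)))) q79744 (by decide +kernel)
def q79749 : Q := Q.p (nat_lit 0x3800006000010000000000000000000000000000000000000000000000000000000000) (nat_lit 0x380000c400000000000000040000000000000000000000000000000000000000000000000000) (nat_lit 4)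
theorem c79749 : QOK q79749 := cut [] trivial (nd (nat_lit 278) (nat_lit 0) (cs (lf (nat_lit 18) (nat_lit 253)) (nd (nat_lit 300) (nat_lit 0) (cs (lf (nat_lit 5) (nat_lit 275)) (nd (nat_lit 299) (nat_lit 0) (cs (lf (nat_lit 0) (nat_lit 274)) (lf (nat_lit 24) (nat_lit 210)))))))) q79749 (by decide +kernel)
def q79750 : Q := Q.p (nat_lit 0x300000e0000000000000000000000000000000000000000000000000000) (nat_lit 0x40000018000000000000000000000000000000000000000000000000000) (nat_lit 2)
theorem c79750 : QOK q79750 := cut [] trivial (nd (nat_lit 208) (nat_lit 0) (cs (lf (nat_lit 5) (nat_lit 208)) (lf (nat_lit 0) (nat_lit 207)))) q79750 (by decide +kernel)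
def q79758 : Q := Q.p (nat_lit 0x800003000004000010000000000000000000000000000000000000000000000000000000000) (nat_lit 0x80000200000000000000008000000000000000000000000000000000000000000000000000000000000000) (nat_lit 2)
theorem c79758 : QOK q79758 := cut [] trivial (nd (nat_lit 321) (nat_lit 0) (cs (lf (nat_lit 42) (nat_lit 254)) (lf (nat_lit 45) (nat_lit 232)))) q79758 (by decide +kernel)
def q79762 : Q := Q.p (nat_lit 0xe00001800000000000000000000000000000000000000000000000000000000000000000000) (nat_lit 0x1000000600000000000000000000000000000000000000000000000000000000000000000000) (nat_lit 2)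
theorem c79762 : QOK q79762 := cut [] trivial (nd (nat_lit 274) (nat_lit 0) (cs (lf (nat_lit 18) (nat_lit 274)) (lf (nat_lit 0) (nat_lit 273)))) q79762 (by decide +kernel)
def q79767 : Q := Q.p (nat_lit 0x100000400001000004000010000000000000000000000000000000000000000000000000000000000) (nat_lit 0x8000020000080000000000000000000000000000000000000000000000000000) (nat_lit 2)
theorem c79767 : QOK q79767 := cut [] trivial (nd (nat_lit 233) (nat_lit 0) (cs (lf (nat_lit 35) (nat_lit 210)) (lf (nat_lit 34) (nat_lit 232)))) q79767 (by decide +kernel)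
def q79771 : Q := Q.p (nat_lit 0x1800006000010000000000000000000000000000000000000000000000000000000000) (nat_lit 0x80000200000000000000000000040000000000000000000000000000000000000000000000000000) (nat_lit 2)
theorem c79771 : QOK q79771 := cut [] trivial (nd (nat_lit 297) (nat_lit 0) (cs (lf (nat_lit 30) (nat_lit 231)) (lf (nat_lit 36) (nat_lit 209)))) q79771 (by decide +kernel)
def q79786 : Q := Q.p (nat_lit 0x1c00006000000000000000000000000000000000000000000000000000000000000000) (nat_lit 0x300008000000000000000000000000000000000000000000000000000000000000000) (nat_lit 2)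
theorem c79786 : QOK q79786 := cut [] trivial (nd (nat_lit 273) (nat_lit 0) (cs (lf (nat_lit 12) (nat_lit 250)) (lf (nat_lit 17) (nat_lit 251)))) q79786 (by decide +kernel)
def q79798 : Q := Q.p (nat_lit 0x40000100000c0000200000000000000000000000000000000000000000000000) (nat_lit 0x20000000000000000800002000000000000000000000000000000000000) (nat_lit 2)
theorem c79798 : QOK q79798 := cut [] trivial (nd (nat_lit 167) (nat_lit 0) (cs (lf (nat_lit 36) (nat_lit 144)) (lf (nat_lit 39) (nat_lit 166)))) q79798 (by decide +kernel)
def q79828 : Q := Q.p (nat_lit 0x80000300000c00000000000000000000000000000000000000000000000) (nat_lit 0x20000000000000000000001000004000000000000000000000000000000000000) (nat_lit 2)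
theorem c79828 : QOK q79828 := cut [] trivial (nd (nat_lit 168) (nat_lit 0) (cs (lf (nat_lit 42) (nat_lit 168)) (lf (nat_lit 24) (nat_lit 146)))) q79828 (by decide +kernel)
def q79850 : Q := Q.p (nat_lit 0x6000090000380000000000000000000000000000000000000000000000000000) (nat_lit 0x60000400000000000000000000000000000000000000000000000000000) (nat_lit 2)
theorem c79850 : QOK q79850 := cut [] trivial (nd (nat_lit 233) (nat_lit 0) (cs (lf (nat_lit 6) (nat_lit 210)) (lf (nat_lit 7) (nat_lit 231)))) q79850 (by decide +kernel)
def q79870 : Q := Q.p (nat_lit 0xe00000c0000000000000000000000000000000000000000000000) (nat_lit 0x10000030000000000000000000000000000000000000000000000) (nat_lit 2)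
theorem c79870 : QOK q79870 := cut [] trivial (nd (nat_lit 185) (nat_lit 0) (cs (lf (nat_lit 0) (nat_lit 184)) (lf (nat_lit 21) (nat_lit 185)))) q79870 (by decide +kernel)
def q79882 : Q := Q.p (nat_lit 0x4000010000040000100000000000000000000000000000000000000000000000) (nat_lit 0x800003000008000000000080000200000800000000000000000000000000000000000000000) (nat_lit 4)
theorem c79882 : QOK q79882 := cut [] trivial (nd (nat_lit 277) (nat_lit 0) (cs (lf (nat_lit 28) (nat_lit 188)) (nd (nat_lit 189) (nat_lit 0) (cs (lf (nat_lit 35) (nat_lit 166)) (nd (nat_lit 276) (nat_lit 0) (cs (lf (nat_lit 29) (nat_lit 210)) (lf (nat_lit 34) (nat_lit 188)))))))) q79882 (by decide +kernel)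
def q79891 : Q := Q.p (nat_lit 0x6000010000040000100000000000000000000000000000000000000000000000) (nat_lit 0x2000008000028000000000000000400000000000000000000000000000000000000000) (nat_lit 3)
theorem c79891 : QOK q79891 := cut [] trivial (nd (nat_lit 166) (nat_lit 0) (cs (lf (nat_lit 40) (nat_lit 165)) (nd (nat_lit 255) (nat_lit 0) (cs (lf (nat_lit 28) (nat_lit 166)) (lf (nat_lit 29) (nat_lit 188)))))) q79891 (by decide +kernel)
def q79894 : Q := Q.p (nat_lit 0x1000006000018000000000000000000000000000000000000000000000000000000000) (nat_lit 0x100000400000000000000000000020000000000000000000000000000000000000000000000000000) (nat_lit 2)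
theorem c79894 : QOK q79894 := cut [] trivial (nd (nat_lit 298) (nat_lit 0) (cs (lf (nat_lit 42) (nat_lit 231)) (lf (nat_lit 47) (nat_lit 209)))) q79894 (by decide +kernel)
def q79909 : Q := Q.p (nat_lit 0xc0000380000000000000000000000000000000000000000000000) (nat_lit 0x100000060000000000000000000000000000000000000000000000) (nat_lit 2)
theorem c79909 : QOK q79909 := cut [] trivial (nd (nat_lit 186) (nat_lit 0) (cs (lf (nat_lit 5) (nat_lit 186)) (lf (nat_lit 0) (nat_lit 185)))) q79909 (by decide +kernel)
def q79922 : Q := Q.p (nat_lit 0x300001c0000000000000000000000000000000000000000000000000000) (nat_lit 0x8000600000000000000000000000000000000000000000000000000000) (nat_lit 2)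
theorem c79922 : QOK q79922 := cut [] trivial (nd (nat_lit 213) (nat_lit 0) (cs (lf (nat_lit 11) (nat_lit 209)) (lf (nat_lit 6) (nat_lit 210)))) q79922 (by decide +kernel)
def q79946 : Q := Q.p (nat_lit 0x10000040000700000c0000000000000000000000000000000000000000000000000000) (nat_lit 0x30000080000000000000000000000000000000000000000000000) (nat_lit 2)
theorem c79946 : QOK q79946 := cut [] trivial (nd (nat_lit 209) (nat_lit 0) (cs (lf (nat_lit 47) (nat_lit 187)) (lf (nat_lit 0) (nat_lit 208)))) q79946 (by decide +kernel)
def q79958 : Q := Q.p (nat_lit 0x3800006000000000000000000000000000000000000000000000000000000000000000) (nat_lit 0x4000001800000000000000000000000000000000000000000000000000000000000000) (nat_lit 2)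
theorem c79958 : QOK q79958 := cut [] trivial (nd (nat_lit 252) (nat_lit 0) (cs (lf (nat_lit 18) (nat_lit 252)) (lf (nat_lit 0) (nat_lit 251)))) q79958 (by decide +kernel)
def q79965 : Q := Q.p (nat_lit 0x800001000004000010000080000000000000000000000000000000000000000000000000000) (nat_lit 0x200000400000000000000020000000000000000000000000000000000000000000000000000000000) (nat_lit 2)
theorem c79965 : QOK q79965 := cut [] trivial (nd (nat_lit 298) (nat_lit 0) (cs (lf (nat_lit 29) (nat_lit 232)) (lf (nat_lit 34) (nat_lit 210)))) q79965 (by decide +kernel)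
def q79972 : Q := Q.p (nat_lit 0x1c0000180000000000000000000000000000000000000000000000) (nat_lit 0x20000060000000000000000000000000000000000000000000000) (nat_lit 2)
theorem c79972 : QOK q79972 := cut [] trivial (nd (nat_lit 186) (nat_lit 0) (cs (lf (nat_lit 0) (nat_lit 185)) (lf (nat_lit 21) (nat_lit 186)))) q79972 (by decide +kernel)
def q79990 : Q := Q.p (nat_lit 0x680001c000000000000000000000000000000000000000000000000000000000) (nat_lit 0x400003000000000000000000000000000000000000000000000000000000000) (nat_lit 2)
theorem c79990 : QOK q79990 := cut [] trivial (nd (nat_lit 229) (nat_lit 0) (cs (lf (nat_lit 11) (nat_lit 228)) (lf (nat_lit 0) (nat_lit 228)))) q79990 (by decide +kernel)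
def q79994 : Q := Q.p (nat_lit 0x6000038000000000000000000000000000000000000000000000000000000000) (nat_lit 0x10000c0000000000000000000000000000000000000000000000000000000000) (nat_lit 2)
theorem c79994 : QOK q79994 := cut [] trivial (nd (nat_lit 234) (nat_lit 0) (cs (lf (nat_lit 11) (nat_lit 230)) (lf (nat_lit 6) (nat_lit 231)))) q79994 (by decide +kernel)
def q79996 : Q := Q.p (nat_lit 0x300000c000010000000000000000000000000000000000000000000000000000) (nat_lit 0x800000000000000000000040000100000000000000000000000000000000000000000) (nat_lit 2)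
theorem c79996 : QOK q79996 := cut [] trivial (nd (nat_lit 186) (nat_lit 0) (cs (lf (nat_lit 29) (nat_lit 186)) (lf (nat_lit 24) (nat_lit 164)))) q79996 (by decide +kernel)
def q80002 : Q := Q.p (nat_lit 0x600001c000008000000000000000000000000000000000000000000000000000) (nat_lit 0x3000004000000000000000000000000000000000000000000000000000) (nat_lit 2)
theorem c80002 : QOK q80002 := cut [] trivial (nd (nat_lit 229) (nat_lit 0) (cs (lf (nat_lit 23) (nat_lit 206)) (lf (nat_lit 0) (nat_lit 228)))) q80002 (by decide +kernel)
def q80008 : Q := Q.p (nat_lit 0x1c00006000010000000000000000000000000000000000000000000000000000000000) (nat_lit 0x2300001c00020000000000000000000000000000000000000000000000000000000000) (nat_lit 4)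
theorem c80008 : QOK q80008 := cut [] trivial (nd (nat_lit 273) (nat_lit 0) (cs (lf (nat_lit 12) (nat_lit 250)) (nd (nat_lit 251) (nat_lit 0) (cs (lf (nat_lit 23) (nat_lit 250)) (nd (nat_lit 252) (nat_lit 0) (cs (lf (nat_lit 5) (nat_lit 251)) (lf (nat_lit 17) (nat_lit 229)))))))) q80008 (by decide +kernel)
def q80014 : Q := Q.p (nat_lit 0x300000c000010000080000000000000000000000000000000000000000000000) (nat_lit 0x40000300000000000000000000000000000000000000000) (nat_lit 2)
theorem c80014 : QOK q80014 := cut [] trivial (nd (nat_lit 186) (nat_lit 0) (cs (lf (nat_lit 35) (nat_lit 164)) (lf (nat_lit 24) (nat_lit 164)))) q80014 (by decide +kernel)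
def q80024 : Q := Q.p (nat_lit 0x20000080001a000008000000000000000000000000000000000000000000000000000) (nat_lit 0x4000004000010000000000000000000000000000000000000000000000) (nat_lit 2)
theorem c80024 : QOK q80024 := cut [] trivial (nd (nat_lit 206) (nat_lit 0) (cs (lf (nat_lit 47) (nat_lit 184)) (lf (nat_lit 20) (nat_lit 206)))) q80024 (by decide +kernel)
def q80039 : Q := Q.p (nat_lit 0x200000800006000008000000000000000000000000000000000000000000000000000000000) (nat_lit 0x140000d00000700000000000000020000000000000000000000000000000000000000000000000000) (nat_lit 5)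
theorem c80039 : QOK q80039 := cut [] trivial (nd (nat_lit 298) (nat_lit 0) (cs (lf (nat_lit 29) (nat_lit 231)) (nd (nat_lit 296) (nat_lit 0) (cs (lf (nat_lit 41) (nat_lit 230)) (nd (nat_lit 274) (nat_lit 0) (cs (lf (nat_lit 36) (nat_lit 208)) (nd (nat_lit 273) (nat_lit 0) (cs (lf (nat_lit 18) (nat_lit 273)) (lf (nat_lit 12) (nat_lit 250)))))))))) q80039 (by decide +kernel)
def q80043 : Q := Q.p (nat_lit 0x1800006800008000020000000000000000000000000000000000000000000000000000) (nat_lit 0x100000700000400000000000000000000000000000000000000000000000000000000000000) (nat_lit 3)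
theorem c80043 : QOK q80043 := cut [] trivial (nd (nat_lit 274) (nat_lit 0) (cs (lf (nat_lit 41) (nat_lit 208)) (nd (nat_lit 273) (nat_lit 0) (cs (lf (nat_lit 23) (nat_lit 250)) (lf (nat_lit 12) (nat_lit 250)))))) q80043 (by decide +kernel)
def q80057 : Q := Q.p (nat_lit 0x200000800006000038000000000000000000000000000000000000000000000000000000000) (nat_lit 0x1000004000010000000000000000a0000000000000000000000000000000000000000000000000000) (nat_lit 3)
theorem c80057 : QOK q80057 := cut [] trivial (nd (nat_lit 298) (nat_lit 0) (cs (lf (nat_lit 29) (nat_lit 231)) (nd (nat_lit 276) (nat_lit 0) (cs (lf (nat_lit 35) (nat_lit 210)) (lf (nat_lit 47) (nat_lit 209)))))) q80057 (by decide +kernel)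
def q80078 : Q := Q.p (nat_lit 0x40000300000c000010000000000000000000000000000000000000000000000000000) (nat_lit 0x60000180000200000000000000000000000000000000000000000000000000000000000000000000) (nat_lit 3)
theorem c80078 : QOK q80078 := cut [] trivial (nd (nat_lit 295) (nat_lit 0) (cs (lf (nat_lit 40) (nat_lit 207)) (nd (nat_lit 296) (nat_lit 0) (cs (lf (nat_lit 30) (nat_lit 230)) (lf (nat_lit 41) (nat_lit 229)))))) q80078 (by decide +kernel)
def q80089 : Q := Q.p (nat_lit 0x7000018000000000000000000000000000000000000000000000000000000000) (nat_lit 0x800060000000000000000000000000000000000000000000000000000000000) (nat_lit 2)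
theorem c80089 : QOK q80089 := cut [] trivial (nd (nat_lit 233) (nat_lit 0) (cs (lf (nat_lit 6) (nat_lit 230)) (lf (nat_lit 12) (nat_lit 229)))) q80089 (by decide +kernel)
def q80114 : Q := Q.p (nat_lit 0x780000000000000000000000000000000000000000000000) (nat_lit 0x800007700000000000000000000000000000000000000000) (nat_lit 4)
theorem c80114 : QOK q80114 := cut [] trivial (nd (nat_lit 165) (nat_lit 0) (cs (lf (nat_lit 23) (nat_lit 164)) (nd (nat_lit 191) (nat_lit 0) (cs (lf (nat_lit 22) (nat_lit 165)) (nd (nat_lit 169) (nat_lit 0) (cs (lf (nat_lit 17) (nat_lit 166)) (lf (nat_lit 16) (nat_lit 165)))))))) q80114 (by decide +kernel)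
def q80117 : Q := Q.p (nat_lit 0x38000000000780000000000000000000000000000000000000000000000) (nat_lit 0x4000380000040000000000000000000000000000000000000000000000) (nat_lit 3)
theorem c80117 : QOK q80117 := cut [] trivial (nd (nat_lit 212) (nat_lit 0) (cs (lf (nat_lit 5) (nat_lit 187)) (nd (nat_lit 211) (nat_lit 0) (cs (lf (nat_lit 0) (nat_lit 186)) (lf (nat_lit 12) (nat_lit 208)))))) q80117 (by decide +kernel)
def q80141 : Q := Q.p (nat_lit 0x6000010000000000180000000000000000000000000000000000000000000000) (nat_lit 0x800000000000000040000000000200000000000000000000000000000000000000000) (nat_lit 2)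
theorem c80141 : QOK q80141 := cut [] trivial (nd (nat_lit 210) (nat_lit 0) (cs (lf (nat_lit 41) (nat_lit 187)) (lf (nat_lit 47) (nat_lit 165)))) q80141 (by decide +kernel)
def q80148 : Q := Q.p (nat_lit 0x8000160000600001000000000000000000000000000000000000000000) (nat_lit 0x24000080000000000000004000010000000000000000000000000000000) (nat_lit 3)
theorem c80148 : QOK q80148 := cut [] trivial (nd (nat_lit 211) (nat_lit 0) (cs (lf (nat_lit 11) (nat_lit 208)) (nd (nat_lit 146) (nat_lit 0) (cs (lf (nat_lit 36) (nat_lit 123)) (lf (nat_lit 41) (nat_lit 145)))))) q80148 (by decide +kernel)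
def q80160 : Q := Q.p (nat_lit 0x800006000018000000000000000000000000000000000000000000000000000000000) (nat_lit 0x80000200000000000000000000040000000000000000000000000000000000000000000000000000) (nat_lit 2)
theorem c80160 : QOK q80160 := cut [] trivial (nd (nat_lit 297) (nat_lit 0) (cs (lf (nat_lit 35) (nat_lit 209)) (lf (nat_lit 30) (nat_lit 231)))) q80160 (by decide +kernel)
def q80169 : Q := Q.p (nat_lit 0x300000c000020000000000000000000000000000000000000000000000000000) (nat_lit 0x400000000000000000000080000200000000000000000000000000000000000000000) (nat_lit 2)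
theorem c80169 : QOK q80169 := cut [] trivial (nd (nat_lit 187) (nat_lit 0) (cs (lf (nat_lit 41) (nat_lit 186)) (lf (nat_lit 36) (nat_lit 164)))) q80169 (by decide +kernel)
def q80189 : Q := Q.p (nat_lit 0x1000004000030000080000000000000000000000000000000000000000000000000000) (nat_lit 0x40000200000800000000000000000000000000000000000000000) (nat_lit 2)
theorem c80189 : QOK q80189 := cut [] trivial (nd (nat_lit 189) (nat_lit 0) (cs (lf (nat_lit 36) (nat_lit 166)) (lf (nat_lit 33) (nat_lit 188)))) q80189 (by decide +kernel)
def q80198 : Q := Q.p (nat_lit 0x80001e000000000000000000000000000000000000000000000000000000000) (nat_lit 0x20000000002000001c000040000100000000000000000000000000000000000000000) (nat_lit 4)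
theorem c80198 : QOK q80198 := cut [] trivial (nd (nat_lit 207) (nat_lit 0) (cs (lf (nat_lit 23) (nat_lit 206)) (nd (nat_lit 208) (nat_lit 0) (cs (lf (nat_lit 18) (nat_lit 207)) (nd (nat_lit 186) (nat_lit 0) (cs (lf (nat_lit 30) (nat_lit 185)) (lf (nat_lit 36) (nat_lit 163)))))))) q80198 (by decide +kernel)
def q80201 : Q := Q.p (nat_lit 0x7000008000000000080000000000000000000000000000000000000000000000) (nat_lit 0x1400000000000000020000000000000000000000000000000000000000000000000000) (nat_lit 2)
theorem c80201 : QOK q80201 := cut [] trivial (nd (nat_lit 209) (nat_lit 0) (cs (lf (nat_lit 41) (nat_lit 186)) (lf (nat_lit 29) (nat_lit 187)))) q80201 (by decide +kernel)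
def q80214 : Q := Q.p (nat_lit 0x1000006000008000000000000000000000000000000000000000000000000000) (nat_lit 0x100000400000000000000010000020000080000000000000000000000000000000000000000) (nat_lit 3)
theorem c80214 : QOK q80214 := cut [] trivial (nd (nat_lit 185) (nat_lit 0) (cs (lf (nat_lit 24) (nat_lit 163)) (nd (nat_lit 274) (nat_lit 0) (cs (lf (nat_lit 42) (nat_lit 207)) (lf (nat_lit 45) (nat_lit 185)))))) q80214 (by decide +kernel)
def q80232 : Q := Q.p (nat_lit 0x700001c000000000000000000000000000000000000000000000000000000000) (nat_lit 0x630001c0000000000000000000000000000000000000000000000000000) (nat_lit 4)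
theorem c80232 : QOK q80232 := cut [] trivial (nd (nat_lit 233) (nat_lit 0) (cs (lf (nat_lit 6) (nat_lit 230)) (nd (nat_lit 211) (nat_lit 0) (cs (lf (nat_lit 17) (nat_lit 208)) (nd (nat_lit 229) (nat_lit 0) (cs (lf (nat_lit 16) (nat_lit 207)) (lf (nat_lit 0) (nat_lit 228)))))))) q80232 (by decide +kernel)
def q80245 : Q := Q.p (nat_lit 0x100000400001800002000000000000000000000000000000000000000000000000000000000) (nat_lit 0x4000008000020000000000000000000000000000000000000000000000) (nat_lit 2)
theorem c80245 : QOK q80245 := cut [] trivial (nd (nat_lit 207) (nat_lit 0) (cs (lf (nat_lit 24) (nat_lit 185)) (lf (nat_lit 45) (nat_lit 207)))) q80245 (by decide +kernel)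
def q80249 : Q := Q.p (nat_lit 0x400001800006000000000000000000000000000000000000000000000000000000000000000) (nat_lit 0x40000100000000000000000000008000000000000000000000000000000000000000000000000000000000) (nat_lit 2)
theorem c80249 : QOK q80249 := cut [] trivial (nd (nat_lit 320) (nat_lit 0) (cs (lf (nat_lit 42) (nat_lit 253)) (lf (nat_lit 47) (nat_lit 231)))) q80249 (by decide +kernel)
def q80257 : Q := Q.p (nat_lit 0x10000000000100001e000000000000000000000000000000000000000000000000000000000) (nat_lit 0x40000000000000000c000000000000000000000000000000000000000000000000000) (nat_lit 2)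
theorem c80257 : QOK q80257 := cut [] trivial (nd (nat_lit 207) (nat_lit 0) (cs (lf (nat_lit 23) (nat_lit 206)) (lf (nat_lit 43) (nat_lit 207)))) q80257 (by decide +kernel)
def q80264 : Q := Q.p (nat_lit 0xe00001800000000000000000000000000000000000000000000000000000000000000000000) (nat_lit 0x3000000400000000000000000000000000000000000000000000000000000000000000000000) (nat_lit 2)
theorem c80264 : QOK q80264 := cut [] trivial (nd (nat_lit 300) (nat_lit 0) (cs (lf (nat_lit 18) (nat_lit 275)) (lf (nat_lit 23) (nat_lit 274)))) q80264 (by decide +kernel)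
def q80276 : Q := Q.p (nat_lit 0x3000007000000000000000000000000000000000000000000000000000000000000000) (nat_lit 0xc800000000000000000000000000000000000000000000000000000000000000000000) (nat_lit 2)
theorem c80276 : QOK q80276 := cut [] trivial (nd (nat_lit 278) (nat_lit 0) (cs (lf (nat_lit 21) (nat_lit 252)) (lf (nat_lit 18) (nat_lit 253)))) q80276 (by decide +kernel)
def q80291 : Q := Q.p (nat_lit 0x800006000010000040000000000000000000000000000000000000000000000000000) (nat_lit 0x200001000000000008000000000000000000000000000000000000000000000000000000000) (nat_lit 2)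
theorem c80291 : QOK q80291 := cut [] trivial (nd (nat_lit 297) (nat_lit 0) (cs (lf (nat_lit 33) (nat_lit 209)) (lf (nat_lit 39) (nat_lit 209)))) q80291 (by decide +kernel)
def q80293 : Q := Q.p (nat_lit 0x40000000000400003c000000000000000000000000000000000000000000000000000000000) (nat_lit 0x1000000000000000180000000000000000000000000000000000000000000000000000) (nat_lit 2)
theorem c80293 : QOK q80293 := cut [] trivial (nd (nat_lit 211) (nat_lit 0) (cs (lf (nat_lit 17) (nat_lit 208)) (lf (nat_lit 31) (nat_lit 210)))) q80293 (by decide +kernel)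
def q80309 : Q := Q.p (nat_lit 0x400001000007000018000000000000000000000000000000000000000000000000000000000) (nat_lit 0x60000080000000000000000000000000000000000000000000000000000) (nat_lit 2)
theorem c80309 : QOK q80309 := cut [] trivial (nd (nat_lit 233) (nat_lit 0) (cs (lf (nat_lit 6) (nat_lit 230)) (lf (nat_lit 35) (nat_lit 210)))) q80309 (by decide +kernel)
def q80312 : Q := Q.p (nat_lit 0x80000400001800006000000000000000000000000000000000000000000000000000000000000000) (nat_lit 0x60000100000000000000000000000000000000000000000000000000000000000000000000000000000000) (nat_lit 2)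
theorem c80312 : QOK q80312 := cut [] trivial (nd (nat_lit 320) (nat_lit 0) (cs (lf (nat_lit 42) (nat_lit 253)) (lf (nat_lit 41) (nat_lit 253)))) q80312 (by decide +kernel)
def q80328 : Q := Q.p (nat_lit 0x1000003800010000000000000000000000000000000000000000000000000000000000) (nat_lit 0x800000400008000000000000000000000000000000000000000000000000000000000) (nat_lit 2)
theorem c80328 : QOK q80328 := cut [] trivial (nd (nat_lit 250) (nat_lit 0) (cs (lf (nat_lit 16) (nat_lit 228)) (lf (nat_lit 4) (nat_lit 250)))) q80328 (by decide +kernel)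
def q80330 : Q := Q.p (nat_lit 0x100003800010000000000000000000000000000000000000000000000000000000000) (nat_lit 0x80000400008000000000000000000000000000000000000000000000000000000000) (nat_lit 2)
theorem c80330 : QOK q80330 := cut [] trivial (nd (nat_lit 250) (nat_lit 0) (cs (lf (nat_lit 11) (nat_lit 249)) (lf (nat_lit 16) (nat_lit 228)))) q80330 (by decide +kernel)
def q80333 : Q := Q.p (nat_lit 0x400001000004000010000040000000000000000000000000000000000000000000000000000) (nat_lit 0x80000200000800000000000000000000000000000000000000000000000000000000000000000000) (nat_lit 2)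
theorem c80333 : QOK q80333 := cut [] trivial (nd (nat_lit 297) (nat_lit 0) (cs (lf (nat_lit 41) (nat_lit 231)) (lf (nat_lit 40) (nat_lit 209)))) q80333 (by decide +kernel)
def q80339 : Q := Q.p (nat_lit 0x1000007000000000000000000000000000000000000000000000000000000000000000) (nat_lit 0x2b80000c00000000000000000000000000000000000000000000000000000000000000) (nat_lit 4)
theorem c80339 : QOK q80339 := cut [] trivial (nd (nat_lit 251) (nat_lit 0) (cs (lf (nat_lit 5) (nat_lit 251)) (nd (nat_lit 272) (nat_lit 0) (cs (lf (nat_lit 10) (nat_lit 250)) (nd (nat_lit 250) (nat_lit 0) (cs (lf (nat_lit 11) (nat_lit 249)) (lf (nat_lit 4) (nat_lit 250)))))))) q80339 (by decide +kernel)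
def q80343 : Q := Q.p (nat_lit 0x400001000006000010000000000000000000000000000000000000000000000000000000000) (nat_lit 0x100000000000000000000008000020000000000000000000000000000000000000000000000000000) (nat_lit 2)
theorem c80343 : QOK q80343 := cut [] trivial (nd (nat_lit 231) (nat_lit 0) (cs (lf (nat_lit 42) (nat_lit 231)) (lf (nat_lit 47) (nat_lit 209)))) q80343 (by decide +kernel)
def q80368 : Q := Q.p (nat_lit 0x800002000038000060000000000000000000000000000000000000000000000000000) (nat_lit 0x18000040000000000000000000000000000000000000000000000) (nat_lit 2)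
theorem c80368 : QOK q80368 := cut [] trivial (nd (nat_lit 208) (nat_lit 0) (cs (lf (nat_lit 47) (nat_lit 186)) (lf (nat_lit 0) (nat_lit 207)))) q80368 (by decide +kernel)
def q80392 : Q := Q.p (nat_lit 0xc000020000080000200000000000000000000000000000000000000000000000) (nat_lit 0x10000000000400001800004000000000000000000000000000000000000) (nat_lit 3)
theorem c80392 : QOK q80392 := cut [] trivial (nd (nat_lit 168) (nat_lit 0) (cs (lf (nat_lit 34) (nat_lit 167)) (nd (nat_lit 167) (nat_lit 0) (cs (lf (nat_lit 35) (nat_lit 145)) (lf (nat_lit 40) (nat_lit 166)))))) q80392 (by decide +kernel)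
def q80396 : Q := Q.p (nat_lit 0x80000300000c000020000000000000000000000000000000000000000000000000000000000) (nat_lit 0x180000600001000000000000000000000000000000000000000000000000000000000000000000000000000) (nat_lit 3)
theorem c80396 : QOK q80396 := cut [] trivial (nd (nat_lit 322) (nat_lit 0) (cs (lf (nat_lit 28) (nat_lit 233)) (nd (nat_lit 321) (nat_lit 0) (cs (lf (nat_lit 29) (nat_lit 255)) (lf (nat_lit 42) (nat_lit 254)))))) q80396 (by decide +kernel)
def q80404 : Q := Q.p (nat_lit 0x500000800002000008000000000000000000000000000000000000000000000000000000000000000) (nat_lit 0x140000200000000000000000000000000000000000000000000000000000000000000000000000000000000) (nat_lit 2)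
theorem c80404 : QOK q80404 := cut [] trivial (nd (nat_lit 321) (nat_lit 0) (cs (lf (nat_lit 41) (nat_lit 254)) (lf (nat_lit 29) (nat_lit 255)))) q80404 (by decide +kernel)
def q80415 : Q := Q.p (nat_lit 0xf000020000080000000000000000000000000000000000000000000000000000) (nat_lit 0x400007000000000000000000000200000000000000000000000000000000000000000000000) (nat_lit 3)
theorem c80415 : QOK q80415 := cut [] trivial (nd (nat_lit 277) (nat_lit 0) (cs (lf (nat_lit 5) (nat_lit 252)) (nd (nat_lit 276) (nat_lit 0) (cs (lf (nat_lit 41) (nat_lit 210)) (lf (nat_lit 36) (nat_lit 188)))))) q80415 (by decide +kernel)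
def q80421 : Q := Q.p (nat_lit 0x400000e000040000000000000000000000000000000000000000000000000000000000) (nat_lit 0x8000010000080000000000000000000000000000000000000000000000000000000000) (nat_lit 2)
theorem c80421 : QOK q80421 := cut [] trivial (nd (nat_lit 256) (nat_lit 0) (cs (lf (nat_lit 17) (nat_lit 231)) (lf (nat_lit 5) (nat_lit 253)))) q80421 (by decide +kernel)
def q80426 : Q := Q.p (nat_lit 0x1f000000000000000000000000000000000000000000000000000000000000000) (nat_lit 0xe00000000000000000000000000000000000000000000000000000000000000000000) (nat_lit 2)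
theorem c80426 : QOK q80426 := cut [] trivial (nd (nat_lit 274) (nat_lit 0) (cs (lf (nat_lit 11) (nat_lit 251)) (lf (nat_lit 10) (nat_lit 252)))) q80426 (by decide +kernel)
def q80443 : Q := Q.p (nat_lit 0x7800002000008000000000000000000000000000000000000000000000000000) (nat_lit 0x1f00007c0003f00000000034000014000050000000000000000000000000000000000000000000000) (nat_lit 12)
theorem c80443 : QOK q80443 := cut [] trivial (nd (nat_lit 273) (nat_lit 0) (cs (lf (nat_lit 11) (nat_lit 250)) (nd (nat_lit 276) (nat_lit 0) (cs (lf (nat_lit 5) (nat_lit 251)) (nd (nat_lit 184) (nat_lit 0) (cs (lf (nat_lit 46) (nat_lit 184)) (nd (nat_lit 186) (nat_lit 0) (cs (nd (nat_lit 296) (nat_lit 0) (cs (lf (nat_lit 28) (nat_lit 207)) (nd (nat_lit 232) (nat_lit 0) (cs (lf (nat_lit 17) (nat_lit 229)) (nd (nat_lit 295) (nat_lit 0) (cs (lf (nat_lit 29) (nat_lit 229)) (nd (nat_lit 294) (nat_lit 0) (cs (lf (nat_lit 41) (nat_lit 228)) (nd (nat_lit 230) (nat_lit 0) (cs (lf (nat_lit 30) (nat_lit 229)) (nd (nat_lit 297) (nat_lit 0) (cs (lf (nat_lit 16) (nat_lit 272)) (nd (nat_lit 319) (nat_lit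 0) (cs (lf (nat_lit 5) (nat_lit 294)) (lf (nat_lit 39) (nat_lit 231)))))))))))))))) (lf (nat_lit 34) (nat_lit 185)))))))))) q80443 (by decide +kernel)
def q80445 : Q := Q.p (nat_lit 0x200000800002000008000010000000000000000000000000000000000000000000000) (nat_lit 0x10000060000140000000000000000000000000000000000000000) (nat_lit 3)
theorem c80445 : QOK q80445 := cut [] trivial (nd (nat_lit 186) (nat_lit 0) (cs (lf (nat_lit 34) (nat_lit 185)) (nd (nat_lit 185) (nat_lit 0) (cs (lf (nat_lit 47) (nat_lit 162)) (lf (nat_lit 35) (nat_lit 163)))))) q80445 (by decide +kernel)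
def q80456 : Q := Q.p (nat_lit 0x3e000000000000000000000000000000000000000000000000000000000000000) (nat_lit 0x1c000000000000000000000000000000000000000000000000000000000000000000000) (nat_lit 2)
theorem c80456 : QOK q80456 := cut [] trivial (nd (nat_lit 279) (nat_lit 0) (cs (lf (nat_lit 5) (nat_lit 254)) (lf (nat_lit 4) (nat_lit 253)))) q80456 (by decide +kernel)
def q80462 : Q := Q.p (nat_lit 0xf800000000000000000000000000000000000000000000000000000000000000) (nat_lit 0x7000000000000000000000000000000000000000000000000000000000) (nat_lit 2)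
theorem c80462 : QOK q80462 := cut [] trivial (nd (nat_lit 229) (nat_lit 0) (cs (lf (nat_lit 23) (nat_lit 228)) (lf (nat_lit 22) (nat_lit 229)))) q80462 (by decide +kernel)
def q80472 : Q := Q.p (nat_lit 0x1e000040000100000000000000000000000000000000000000000000000000000) (nat_lit 0x200000000002c000000000c00003000008000000000000000000000000000000000000) (nat_lit 5)
theorem c80472 : QOK q80472 := cut [] trivial (nd (nat_lit 230) (nat_lit 0) (cs (lf (nat_lit 22) (nat_lit 230)) (nd (nat_lit 190) (nat_lit 0) (cs (lf (nat_lit 41) (nat_lit 189)) (nd (nat_lit 169) (nat_lit 0) (cs (lf (nat_lit 34) (nat_lit 168)) (nd (nat_lit 168) (nat_lit 0) (cs (lf (nat_lit 35) (nat_lit 146)) (lf (nat_lit 40) (nat_lit 167)))))))))) q80472 (by decide +kernel)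
def q80498 : Q := Q.p (nat_lit 0x800001c000080000000000000000000000000000000000000000000000000000000000) (nat_lit 0x10000020000100000000000000000000000000000000000000000000000000000000000) (nat_lit 2)
theorem c80498 : QOK q80498 := cut [] trivial (nd (nat_lit 257) (nat_lit 0) (cs (lf (nat_lit 5) (nat_lit 254)) (lf (nat_lit 17) (nat_lit 232)))) q80498 (by decide +kernel)
def q80505 : Q := Q.p (nat_lit 0x3e000000000000000000000000000000000000000000000000000000000000000) (nat_lit 0x1c00000000000000000000000000000000000000000000000000000000000000000000) (nat_lit 2)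
theorem c80505 : QOK q80505 := cut [] trivial (nd (nat_lit 275) (nat_lit 0) (cs (lf (nat_lit 10) (nat_lit 253)) (lf (nat_lit 11) (nat_lit 252)))) q80505 (by decide +kernel)
def q80522 : Q := Q.p (nat_lit 0x10000040000100000a0000000000000000000000000000000000000000000000) (nat_lit 0x40000280000000000000000000000000000000000000000) (nat_lit 2)
theorem c80522 : QOK q80522 := cut [] trivial (nd (nat_lit 186) (nat_lit 0) (cs (lf (nat_lit 47) (nat_lit 163)) (lf (nat_lit 35) (nat_lit 164)))) q80522 (by decide +kernel)
def q80530 : Q := Q.p (nat_lit 0x7c000000000000000000000000000000000000000000000000000000000000000) (nat_lit 0x38000000000000000000000000000000000000000000000000000000000000000000000) (nat_lit 2)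
theorem c80530 : QOK q80530 := cut [] trivial (nd (nat_lit 280) (nat_lit 0) (cs (lf (nat_lit 5) (nat_lit 255)) (lf (nat_lit 4) (nat_lit 254)))) q80530 (by decide +kernel)
def q80538 : Q := Q.p (nat_lit 0x1f000000000000000000000000000000000000000000000000000000000000000) (nat_lit 0xe000000000000000000000000000000000000000000000000000000000) (nat_lit 2)
theorem c80538 : QOK q80538 := cut [] trivial (nd (nat_lit 230) (nat_lit 0) (cs (lf (nat_lit 23) (nat_lit 229)) (lf (nat_lit 22) (nat_lit 230)))) q80538 (by decide +kernel)

end Crest.Agent.H3.Snaky.CR
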