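import Crest.Agent.H3.Snaky.Cert

set_option autoImplicit false
set_option maxRecDepth 100000

namespace Crest.Agent.H3.Snaky.CR

open T

def q80544 : Q := Q.p (nat_lit 0x7c00000000000000000000000000000000000000000000000000000000000000) (nat_lit 0x3800000000000000000000000000000000000000000000000000000000000000000000) (nat_lit 2)
theorem c80544 : QOK q80544 := cut [] trivial (nd (nat_lit 276) (nat_lit 0) (cs (lf (nat_lit 4) (nat_lit 250)) (lf (nat_lit 5) (nat_lit 251)))) q80544 (by decide +kernel)
def q80551 : Q := Q.p (nat_lit 0x180000e000000000000000000000000000000000000000000000000000000000000000) (nat_lit 0x400030000000000000000000000000000000000000000000000000000000000000000) (nat_lit 2)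
theorem c80551 : QOK q80551 := cut [] trivial (nd (nat_lit 256) (nat_lit 0) (cs (lf (nat_lit 11) (nat_lit 252)) (lf (nat_lit 6) (nat_lit 253)))) q80551 (by decide +kernel)
def q80562 : Q := Q.p (nat_lit 0x1e000000000000000000000000000000000000000000000000000000000000000) (nat_lit 0xe000010000e0000000000000000000000000000000000000000000000000000000000) (nat_lit 4)
theorem c80562 : QOK q80562 := cut [] trivial (nd (nat_lit 234) (nat_lit 0) (cs (lf (nat_lit 17) (nat_lit 231)) (nd (nat_lit 274) (nat_lit 0) (cs (lf (nat_lit 10) (nat_lit 252)) (nd (nat_lit 252) (nat_lit 0) (cs (lf (nat_lit 11) (nat_lit 251)) (lf (nat_lit 16) (nat_lit 230)))))))) q80562 (by decide +kernel)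
def q80582 : Q := Q.p (nat_lit 0x80000200001800004000000000000000000000000000000000000000000000000000000000) (nat_lit 0x400000000000000010000040000000000000000000000000000000000000000000000) (nat_lit 2)
theorem c80582 : QOK q80582 := cut [] trivial (nd (nat_lit 208) (nat_lit 0) (cs (lf (nat_lit 39) (nat_lit 207)) (lf (nat_lit 36) (nat_lit 185)))) q80582 (by decide +kernel)
def q80616 : Q := Q.p (nat_lit 0xf00000c000020000000000000000000000000000000000000000000000000000) (nat_lit 0x100000600000000000000000000000000000000000000000000000000000000000000000000) (nat_lit 2)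
theorem c80616 : QOK q80616 := cut [] trivial (nd (nat_lit 274) (nat_lit 0) (cs (lf (nat_lit 30) (nat_lit 208)) (lf (nat_lit 11) (nat_lit 251)))) q80616 (by decide +kernel)
def q80632 : Q := Q.p (nat_lit 0x4000078000000000000000000000000000000000000000000000000000000000000000) (nat_lit 0x72000080000000000000000000000000000000000000000000000000000000000000000) (nat_lit 3)
theorem c80632 : QOK q80632 := cut [] trivial (nd (nat_lit 259) (nat_lit 0) (cs (nd (nat_lit 281) (nat_lit 0) (cs (lf (nat_lit 5) (nat_lit 256)) (lf (nat_lit 4) (nat_lit 255)))) (lf (nat_lit 11) (nat_lit 255)))) q80632 (by decide +kernel)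
def q80640 : Q := Q.p (nat_lit 0x3e000000000000000000000000000000000000000000000000000000000000000) (nat_lit 0x1c000000000000000000000000000000000000000000000000000000000) (nat_lit 2)
theorem c80640 : QOK q80640 := cut [] trivial (nd (nat_lit 231) (nat_lit 0) (cs (lf (nat_lit 23) (nat_lit 230)) (lf (nat_lit 22) (nat_lit 231)))) q80640 (by decide +kernel)
def q80648 : Q := Q.p (nat_lit 0x100000400003000008000000000000000000000000000000000000000000000000000000000) (nat_lit 0x800000000000000020000080000000000000000000000000000000000000000000000) (nat_lit 2)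
theorem c80648 : QOK q80648 := cut [] trivial (nd (nat_lit 209) (nat_lit 0) (cs (lf (nat_lit 36) (nat_lit 186)) (lf (nat_lit 39) (nat_lit 208)))) q80648 (by decide +kernel)
def q80651 : Q := Q.p (nat_lit 0x100000400001000004000010000000000000000000000000000000000000000000000000000) (nat_lit 0x8000020000080000000000000000000000000000000000000000000000) (nat_lit 2)
theorem c80651 : QOK q80651 := cut [] trivial (nd (nat_lit 209) (nat_lit 0) (cs (lf (nat_lit 35) (nat_lit 186)) (lf (nat_lit 34) (nat_lit 208)))) q80651 (by decide +kernel)
def q80658 : Q := Q.p (nat_lit 0x80000200000c000020000000000000000000000000000000000000000000000000000000000) (nat_lit 0x200000000000000000000010000040000000000000000000000000000000000000000000000000000) (nat_lit 2)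
theorem c80658 : QOK q80658 := cut [] trivial (nd (nat_lit 232) (nat_lit 0) (cs (lf (nat_lit 47) (nat_lit 210)) (lf (nat_lit 42) (nat_lit 232)))) q80658 (by decide +kernel)
def q80670 : Q := Q.p (nat_lit 0x280000e000030000000000000000000000000000000000000000000000000000000000) (nat_lit 0x800000000000000000000040000100000000000000000000000000000000000000000000000) (nat_lit 2)
theorem c80670 : QOK q80670 := cut [] trivial (nd (nat_lit 210) (nat_lit 0) (cs (lf (nat_lit 42) (nat_lit 210)) (lf (nat_lit 36) (nat_lit 187)))) q80670 (by decide +kernel)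
def q80680 : Q := Q.p (nat_lit 0x10000040000f000000000000000000000000000000000000000000000000000000000000000) (nat_lit 0x4000000000000000000000e000020000000000000000000000000000000000000000000000000000) (nat_lit 3)
theorem c80680 : QOK q80680 := cut [] trivial (nd (nat_lit 231) (nat_lit 0) (cs (lf (nat_lit 30) (nat_lit 230)) (nd (nat_lit 230) (nat_lit 0) (cs (lf (nat_lit 35) (nat_lit 208)) (lf (nat_lit 23) (nat_lit 229)))))) q80680 (by decide +kernel)
def q80700 : Q := Q.p (nat_lit 0xf000000000000000000000000000000000000000000000000000000000000000) (nat_lit 0x200000a00006c00030c0003f000040000100000000000000000000000000000000000000000000000) (nat_lit 10)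
theorem c80700 : QOK q80700 := cut [] trivial (nd (nat_lit 277) (nat_lit 0) (cs (lf (nat_lit 5) (nat_lit 252)) (nd (nat_lit 229) (nat_lit 0) (cs (lf (nat_lit 22) (nat_lit 229)) (nd (nat_lit 251) (nat_lit 0) (cs (lf (nat_lit 23) (nat_lit 228)) (nd (nat_lit 232) (nat_lit 0) (cs (lf (nat_lit 17) (nat_lit 229)) (nd (nat_lit 299) (nat_lit 0) (cs (lf (nat_lit 42) (nat_lit 232)) (nd (nat_lit 210) (nat_lit 0) (cs (lf (nat_lit 24) (nat_lit 188)) (nd (nat_lit 231) (nat_lit 0) (cs (lf (nat_lit 12) (nat_lit 228)) (nd (nat_lit 256) (nat_lit 0) (cs (lf (nat_lit 18) (nat_lit 231)) (nd (nat_lit 275) (nat_lit 0) (cs (lf (nat_lit 30) (nat_lit 209)) (lf (nat_lit 11) (nat_lit 252)))))))))))))))))))) q80700 (by decide +kernel)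
def q80706 : Q := Q.p (nat_lit 0x5000008000020000080000000000000000000000000000000000000000000000) (nat_lit 0x14000000000000000200000000000000000000000000000000000000000) (nat_lit 2)
theorem c80706 : QOK q80706 := cut [] trivial (nd (nat_lit 165) (nat_lit 0) (cs (lf (nat_lit 40) (nat_lit 164)) (lf (nat_lit 28) (nat_lit 165)))) q80706 (by decide +kernel)
def q80712 : Q := Q.p (nat_lit 0x3800006000000000000000000000000000000000000000000000000000000000000000) (nat_lit 0xc000001000000000000000000000000000000000000000000000000000000000000000) (nat_lit 2)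
theorem c80712 : QOK q80712 := cut [] trivial (nd (nat_lit 278) (nat_lit 0) (cs (lf (nat_lit 23) (nat_lit 252)) (lf (nat_lit 18) (nat_lit 253)))) q80712 (by decide +kernel)
def q80719 : Q := Q.p (nat_lit 0xc0000e000000000000000000000000000000000000000000000000000000000000000) (nat_lit 0x300001000000000000000000000000000000000000000000000000000000000000000) (nat_lit 2)
theorem c80719 : QOK q80719 := cut [] trivial (nd (nat_lit 273) (nat_lit 0) (cs (lf (nat_lit 12) (nat_lit 250)) (lf (nat_lit 9) (nat_lit 251)))) q80719 (by decide +kernel)
def q80726 : Q := Q.p (nat_lit 0x4000008000020000080000400000000000000000000000000000000000000000) (nat_lit 0x10000000000000000200001000000000000000000000000000000000000) (nat_lit 2)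
theorem c80726 : QOK q80726 := cut [] trivial (nd (nat_lit 165) (nat_lit 0) (cs (lf (nat_lit 35) (nat_lit 143)) (lf (nat_lit 28) (nat_lit 165)))) q80726 (by decide +kernel)
def q80731 : Q := Q.p (nat_lit 0x2000008000020000080000000000000000000000000000000000000000000000) (nat_lit 0x100000c00001000000000040000100000400000000000000000000000000000000000000000) (nat_lit 4)
theorem c80731 : QOK q80731 := cut [] trivial (nd (nat_lit 274) (nat_lit 0) (cs (lf (nat_lit 40) (nat_lit 186)) (nd (nat_lit 188) (nat_lit 0) (cs (lf (nat_lit 35) (nat_lit 165)) (nd (nat_lit 275) (nat_lit 0) (cs (lf (nat_lit 41) (nat_lit 208)) (lf (nat_lit 34) (nat_lit 187)))))))) q80731 (by decide +kernel)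
def q80734 : Q := Q.p (nat_lit 0x600000e000000000000000000000000000000000000000000000000000000000) (nat_lit 0x19000000000000000000000000000000000000000000000000000000000000000) (nat_lit 2)
theorem c80734 : QOK q80734 := cut [] trivial (nd (nat_lit 255) (nat_lit 0) (cs (lf (nat_lit 18) (nat_lit 230)) (lf (nat_lit 21) (nat_lit 229)))) q80734 (by decide +kernel)
def q80743 : Q := Q.p (nat_lit 0x800006000008000020000000000000000000000000000000000000000000000000000) (nat_lit 0x2000000000000000070000d0000140000000000000000000000000000000000000000000000) (nat_lit 5)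
theorem c80743 : QOK q80743 := cut [] trivial (nd (nat_lit 210) (nat_lit 0) (cs (lf (nat_lit 35) (nat_lit 187)) (nd (nat_lit 208) (nat_lit 0) (cs (lf (nat_lit 47) (nat_lit 186)) (nd (nat_lit 230) (nat_lit 0) (cs (lf (nat_lit 42) (nat_lit 208)) (nd (nat_lit 229) (nat_lit 0) (cs (lf (nat_lit 6) (nat_lit 207)) (lf (nat_lit 0) (nat_lit 228)))))))))) q80743 (by decide +kernel)
def q80750 : Q := Q.p (nat_lit 0x2000008000020000080000000000000000000000000000000000000000000000) (nat_lit 0x140000700001400000000000000000000000000000000000) (nat_lit 4)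
theorem c80750 : QOK q80750 := cut [] trivial (nd (nat_lit 164) (nat_lit 0) (cs (lf (nat_lit 46) (nat_lit 164)) (nd (nat_lit 166) (nat_lit 0) (cs (lf (nat_lit 34) (nat_lit 165)) (nd (nat_lit 165) (nat_lit 0) (cs (lf (nat_lit 35) (nat_lit 143)) (lf (nat_lit 47) (nat_lit 142)))))))) q80750 (by decide +kernel)
def q80761 : Q := Q.p (nat_lit 0x600000e000000000000000000000000000000000000000000000000000000000000000) (nat_lit 0x19000000000000000000000000000000000000000000000000000000000000000000000) (nat_lit 2)
theorem c80761 : QOK q80761 := cut [] trivial (nd (nat_lit 279) (nat_lit 0) (cs (lf (nat_lit 18) (nat_lit 254)) (lf (nat_lit 21) (nat_lit 253)))) q80761 (by decide +kernel)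
def q80765 : Q := Q.p (nat_lit 0xe00000c000000000000000000000000000000000000000000000000000000000) (nat_lit 0x13000000000000000000000000000000000000000000000000000000000) (nat_lit 2)
theorem c80765 : QOK q80765 := cut [] trivial (nd (nat_lit 229) (nat_lit 0) (cs (lf (nat_lit 0) (nat_lit 228)) (lf (nat_lit 3) (nat_lit 229)))) q80765 (by decide +kernel)
def q80766 : Q := Q.p (nat_lit 0xe00000c000000000000000000000000000000000000000000000000000000000) (nat_lit 0x1000003000000000000000000000000000000000000000000000000000000000) (nat_lit 2)
theorem c80766 : QOK q80766 := cut [] trivial (nd (nat_lit 229) (nat_lit 0) (cs (lf (nat_lit 0) (nat_lit 228)) (lf (nat_lit 21) (nat_lit 229)))) q80766 (by decide +kernel)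
def q80768 : Q := Q.p (nat_lit 0x40000100002c000010000000000000000000000000000000000000000000000000000) (nat_lit 0x10000008000020000000000000000000000000000000000000000000000) (nat_lit 2)
theorem c80768 : QOK q80768 := cut [] trivial (nd (nat_lit 207) (nat_lit 0) (cs (lf (nat_lit 47) (nat_lit 185)) (lf (nat_lit 19) (nat_lit 207)))) q80768 (by decide +kernel)
def q80776 : Q := Q.p (nat_lit 0x80000200000c000010000000000000000000000000000000000000000000000000000000000) (nat_lit 0x20000040000100000000000000000000000000000000000000000000000) (nat_lit 2)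
theorem c80776 : QOK q80776 := cut [] trivial (nd (nat_lit 210) (nat_lit 0) (cs (lf (nat_lit 45) (nat_lit 210)) (lf (nat_lit 24) (nat_lit 188)))) q80776 (by decide +kernel)
def q80786 : Q := Q.p (nat_lit 0x10000080000200000e000000000000000000000000000000000000000000000000000000000000000) (nat_lit 0x1c000060000100000d000000000060000180000600000000000000000000000000000000000000000000000) (nat_lit 8)
theorem c80786 : QOK q80786 := cut [] trivial (nd (nat_lit 321) (nat_lit 0) (cs (lf (nat_lit 41) (nat_lit 254)) (nd (nat_lit 276) (nat_lit 0) (cs (lf (nat_lit 42) (nat_lit 254)) (nd (nat_lit 278) (nat_lit 0) (cs (lf (nat_lit 18) (nat_lit 253)) (nd (nat_lit 322) (nat_lit 0) (cs (lf (nat_lit 29) (nat_lit 255)) (nd (nat_lit 233) (nat_lit 0) (cs (lf (nat_lit 28) (nat_lit 233)) (nd (nat_lit 212) (nat_lit 0) (cs (lf (nat_lit 34) (nat_lit 211)) (nd (nat_lit 211) (nat_lit 0) (cs (lf (nat_lit 35) (nat_lit 189)) (lf (nat_lit 36) (nat_lit 188)))))))))))))))) q80786 (by decide +kernel)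
def q80787 : Q := Q.p (nat_lit 0x200000800002000008000020000000000000000000000000000000000000000000000000000000000) (nat_lit 0x100000400001000000000000000000000000000000000000000000000000000000000000000000000000000) (nat_lit 2)
theorem c80787 : QOK q80787 := cut [] trivial (nd (nat_lit 322) (nat_lit 0) (cs (lf (nat_lit 29) (nat_lit 255)) (lf (nat_lit 28) (nat_lit 233)))) q80787 (by decide +kernel)
def q80796 : Q := Q.p (nat_lit 0x800002000008000020000000000000000000000000000000000000000000000000000000000) (nat_lit 0x4000010000040000000000100000c0000100000000000000000000000000000000000000000000000) (nat_lit 4)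
theorem c80796 : QOK q80796 := cut [] trivial (nd (nat_lit 210) (nat_lit 0) (cs (lf (nat_lit 46) (nat_lit 210)) (nd (nat_lit 300) (nat_lit 0) (cs (lf (nat_lit 29) (nat_lit 233)) (nd (nat_lit 211) (nat_lit 0) (cs (lf (nat_lit 47) (nat_lit 188)) (lf (nat_lit 28) (nat_lit 211)))))))) q80796 (by decide +kernel)
def q80797 : Q := Q.p (nat_lit 0x800002000008000020000080000000000000000000000000000000000000000000000000000) (nat_lit 0x100000400001000000000000000000000000000000000000000000000000000000000000000000000) (nat_lit 2)
theorem c80797 : QOK q80797 := cut [] trivial (nd (nat_lit 298) (nat_lit 0) (cs (lf (nat_lit 41) (nat_lit 232)) (lf (nat_lit 40) (nat_lit 210)))) q80797 (by decide +kernel)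
def q80800 : Q := Q.p (nat_lit 0x80000200000e000030000000000000000000000000000000000000000000000000000000000) (nat_lit 0xc0000100000000000000000000000000000000000000000000000000000) (nat_lit 2)
theorem c80800 : QOK q80800 := cut [] trivial (nd (nat_lit 234) (nat_lit 0) (cs (lf (nat_lit 35) (nat_lit 211)) (lf (nat_lit 6) (nat_lit 231)))) q80800 (by decide +kernel)
def q80804 : Q := Q.p (nat_lit 0x80000200000c000010000000000000000000000000000000000000000000000000000000000) (nat_lit 0x1000000000000000040000100000000000000000000000000000000000000000000000) (nat_lit 2)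
theorem c80804 : QOK q80804 := cut [] trivial (nd (nat_lit 210) (nat_lit 0) (cs (lf (nat_lit 24) (nat_lit 188)) (lf (nat_lit 27) (nat_lit 210)))) q80804 (by decide +kernel)
def q80811 : Q := Q.p (nat_lit 0xe000020000000000000000000000000000000000000000000000000000000000) (nat_lit 0x10001d0000000000000000000000000000000000000000000000000000000000) (nat_lit 3)
theorem c80811 : QOK q80811 := cut [] trivial (nd (nat_lit 234) (nat_lit 0) (cs (nd (nat_lit 235) (nat_lit 0) (cs (lf (nat_lit 9) (nat_lit 231)) (lf (nat_lit 6) (nat_lit 232)))) (lf (nat_lit 12) (nat_lit 230)))) q80811 (by decide +kernel)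
def q80833 : Q := Q.p (nat_lit 0x18000060000080000e0000000000000000000000000000000000000000000000000000) (nat_lit 0x10000010000640000000000000000000000000000000000000000000000) (nat_lit 3)
theorem c80833 : QOK q80833 := cut [] trivial (nd (nat_lit 189) (nat_lit 0) (cs (nd (nat_lit 208) (nat_lit 0) (cs (lf (nat_lit 17) (nat_lit 186)) (lf (nat_lit 47) (nat_lit 186)))) (lf (nat_lit 32) (nat_lit 188)))) q80833 (by decide +kernel)
def q80837 : Q := Q.p (nat_lit 0x8000020000080000e0000000000000000000000000000000000000000000000000000) (nat_lit 0x4000110000e40000000000000000000000000000000000000000000000) (nat_lit 4)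
theorem c80837 : QOK q80837 := cut [] trivial (nd (nat_lit 212) (nat_lit 0) (cs (lf (nat_lit 11) (nat_lit 208)) (nd (nat_lit 190) (nat_lit 0) (cs (lf (nat_lit 17) (nat_lit 187)) (nd (nat_lit 208) (nat_lit 0) (cs (lf (nat_lit 16) (nat_lit 186)) (lf (nat_lit 47) (nat_lit 186)))))))) q80837 (by decide +kernel)
def q80843 : Q := Q.p (nat_lit 0x200001800006000000000000000000000000000000000000000000000000000000000000000) (nat_lit 0x20000080000000000000000000010000000000000000000000000000000000000000000000000000000000) (nat_lit 2)
theorem c80843 : QOK q80843 := cut [] trivial (nd (nat_lit 319) (nat_lit 0) (cs (lf (nat_lit 35) (nat_lit 231)) (lf (nat_lit 30) (nat_lit 253)))) q80843 (by decide +kernel)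
def q80854 : Q := Q.p (nat_lit 0x40000f000008000020000000000000000000000000000000000000000000000000000) (nat_lit 0x100000000000000006000000000000000000000000000000000000000000000000000000000) (nat_lit 2)
theorem c80854 : QOK q80854 := cut [] trivial (nd (nat_lit 230) (nat_lit 0) (cs (lf (nat_lit 30) (nat_lit 208)) (lf (nat_lit 23) (nat_lit 229)))) q80854 (by decide +kernel)
def q80860 : Q := Q.p (nat_lit 0x1f000000000000000000000000000000000000000000000000000000000000000) (nat_lit 0xe0000000000000000000000000000000000000000000000000000000000) (nat_lit 2)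
theorem c80860 : QOK q80860 := cut [] trivial (nd (nat_lit 234) (nat_lit 0) (cs (lf (nat_lit 17) (nat_lit 231)) (lf (nat_lit 16) (nat_lit 230)))) q80860 (by decide +kernel)
def q80888 : Q := Q.p (nat_lit 0x4000008000020000080000100000000000000000000000000000000000000000) (nat_lit 0x10000000000000000200000400000000000000000000000000000000000) (nat_lit 2)
theorem c80888 : QOK q80888 := cut [] trivial (nd (nat_lit 165) (nat_lit 0) (cs (lf (nat_lit 47) (nat_lit 142)) (lf (nat_lit 28) (nat_lit 165)))) q80888 (by decide +kernel)
def q80899 : Q := Q.p (nat_lit 0x200000e000020000080000000000000000000000000000000000000000000000000000) (nat_lit 0x1000004000001000000000000000000000000000000000000000000000000000000000000000) (nat_lit 2)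
theorem c80899 : QOK q80899 := cut [] trivial (nd (nat_lit 278) (nat_lit 0) (cs (lf (nat_lit 29) (nat_lit 211)) (lf (nat_lit 0) (nat_lit 252)))) q80899 (by decide +kernel)
def q80904 : Q := Q.p (nat_lit 0x400001000006000008000000000000000000000000000000000000000000000000000000000) (nat_lit 0x800000000000000020000080000000000000000000000000000000000000000000000) (nat_lit 2)
theorem c80904 : QOK q80904 := cut [] trivial (nd (nat_lit 209) (nat_lit 0) (cs (lf (nat_lit 24) (nat_lit 187)) (lf (nat_lit 27) (nat_lit 209)))) q80904 (by decide +kernel)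
def q80921 : Q := Q.p (nat_lit 0x1000006000008000020000000000000000000000000000000000000000000000000000) (nat_lit 0x100000400000800000000000000000000000000000000000000000000000000000000000000000000) (nat_lit 2)
theorem c80921 : QOK q80921 := cut [] trivial (nd (nat_lit 298) (nat_lit 0) (cs (lf (nat_lit 42) (nat_lit 231)) (lf (nat_lit 27) (nat_lit 209)))) q80921 (by decide +kernel)
def q80922 : Q := Q.p (nat_lit 0x1000006000008000020000000000000000000000000000000000000000000000000000) (nat_lit 0x100000400000000000000010000000000000000000000000000000000000000000000000000000000) (nat_lit 2)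
theorem c80922 : QOK q80922 := cut [] trivial (nd (nat_lit 298) (nat_lit 0) (cs (lf (nat_lit 42) (nat_lit 231)) (lf (nat_lit 45) (nat_lit 209)))) q80922 (by decide +kernel)
def q80981 : Q := Q.p (nat_lit 0x7000030000000000000000000000000000000000000000000000000000000000) (nat_lit 0x80000c0000000000000000000000000000000000000000000000000000000000) (nat_lit 2)
theorem c80981 : QOK q80981 := cut [] trivial (nd (nat_lit 234) (nat_lit 0) (cs (lf (nat_lit 6) (nat_lit 231)) (lf (nat_lit 15) (nat_lit 230)))) q80981 (by decide +kernel)
def q80982 : Q := Q.p (nat_lit 0x400001000006000008000000000000000000000000000000000000000000000000000) (nat_lit 0x10000020000080000000000000000000000000000000000000000) (nat_lit 2)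
theorem c80982 : QOK q80982 := cut [] trivial (nd (nat_lit 185) (nat_lit 0) (cs (lf (nat_lit 24) (nat_lit 163)) (lf (nat_lit 45) (nat_lit 185)))) q80982 (by decide +kernel)
def q80992 : Q := Q.p (nat_lit 0xc00003000004000008000000000000000000000000000000000000000000000000000) (nat_lit 0x10000060000000000000000000000000000000000000000000000) (nat_lit 2)
theorem c80992 : QOK q80992 := cut [] trivial (nd (nat_lit 208) (nat_lit 0) (cs (lf (nat_lit 47) (nat_lit 185)) (lf (nat_lit 24) (nat_lit 186)))) q80992 (by decide +kernel)
def q81001 : Q := Q.p (nat_lit 0x80000100000400001000000000000000000000000000000000000000000000000000000000000000) (nat_lit 0x28000060000280000000000000004000000000000000000000000000000000000000000000000000000000) (nat_lit 4)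
theorem c81001 : QOK q81001 := cut [] trivial (nd (nat_lit 318) (nat_lit 0) (cs (lf (nat_lit 29) (nat_lit 252)) (nd (nat_lit 317) (nat_lit 0) (cs (lf (nat_lit 41) (nat_lit 251)) (nd (nat_lit 230) (nat_lit 0) (cs (lf (nat_lit 28) (nat_lit 230)) (lf (nat_lit 40) (nat_lit 229)))))))) q81001 (by decide +kernel)
def q81005 : Q := Q.p (nat_lit 0x80000400001000004000008000000000000000000000000000000000000000000000000000) (nat_lit 0x200000000000000010000020000000000000000000000000000000000000000000000) (nat_lit 2)
theorem c81005 : QOK q81005 := cut [] trivial (nd (nat_lit 208) (nat_lit 0) (cs (lf (nat_lit 47) (nat_lit 185)) (lf (nat_lit 40) (nat_lit 207)))) q81005 (by decide +kernel)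
def q81008 : Q := Q.p (nat_lit 0x10000040000700000c000000000000000000000000000000000000000000000000000000000) (nat_lit 0x3000008000000000000000000000000000000000000000000000000000) (nat_lit 2)
theorem c81008 : QOK q81008 := cut [] trivial (nd (nat_lit 229) (nat_lit 0) (cs (lf (nat_lit 47) (nat_lit 207)) (lf (nat_lit 0) (nat_lit 228)))) q81008 (by decide +kernel)
def q81013 : Q := Q.p (nat_lit 0x100000400003000008000000000000000000000000000000000000000000000000000000000) (nat_lit 0x4000020000080000000000000000000000000000000000000000000000) (nat_lit 2)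
theorem c81013 : QOK q81013 := cut [] trivial (nd (nat_lit 209) (nat_lit 0) (cs (lf (nat_lit 36) (nat_lit 186)) (lf (nat_lit 33) (nat_lit 208)))) q81013 (by decide +kernel)
def q81022 : Q := Q.p (nat_lit 0x200007000002000000000000000000000000000000000000000000000000000000000) (nat_lit 0x400008000004000000000000000000000000000000000000000000000000000000000) (nat_lit 2)
theorem c81022 : QOK q81022 := cut [] trivial (nd (nat_lit 255) (nat_lit 0) (cs (lf (nat_lit 10) (nat_lit 251)) (lf (nat_lit 22) (nat_lit 229)))) q81022 (by decide +kernel)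
def q81052 : Q := Q.p (nat_lit 0xf800000000000000000000000000000000000000000000000000000000000000) (nat_lit 0x70000000000000000000000000000000000000000000000000000000000) (nat_lit 2)
theorem c81052 : QOK q81052 := cut [] trivial (nd (nat_lit 233) (nat_lit 0) (cs (lf (nat_lit 17) (nat_lit 230)) (lf (nat_lit 16) (nat_lit 229)))) q81052 (by decide +kernel)
def q81064 : Q := Q.p (nat_lit 0x10000080000200000e000000000000000000000000000000000000000000000000000000000000000) (nat_lit 0xc0000200000400001000000000028000000000000000000000000000000000000000000000000000000000) (nat_lit 4)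
theorem c81064 : QOK q81064 := cut [] trivial (nd (nat_lit 321) (nat_lit 0) (cs (lf (nat_lit 41) (nat_lit 254)) (nd (nat_lit 276) (nat_lit 0) (cs (lf (nat_lit 42) (nat_lit 254)) (nd (nat_lit 298) (nat_lit 0) (cs (lf (nat_lit 36) (nat_lit 232)) (lf (nat_lit 47) (nat_lit 231)))))))) q81064 (by decide +kernel)
def q81082 : Q := Q.p (nat_lit 0x1e000000000000000000000000000000000000000000000000000000000000000) (nat_lit 0x200000800007e000618000d8000140000400000000000000000000000000000000000000000000000) (nat_lit 10)
theorem c81082 : QOK q81082 := cut [] trivial (nd (nat_lit 234) (nat_lit 0) (cs (lf (nat_lit 17) (nat_lit 231)) (nd (nat_lit 274) (nat_lit 0) (cs (lf (nat_lit 10) (nat_lit 252)) (nd (nat_lit 252) (nat_lit 0) (cs (lf (nat_lit 11) (nat_lit 251)) (nd (nat_lit 277) (nat_lit 0) (cs (lf (nat_lit 5) (nat_lit 252)) (nd (nat_lit 299) (nat_lit 0) (cs (lf (nat_lit 30) (nat_lit 233)) (nd (nat_lit 276) (nat_lit 0) (cs (lf (nat_lit 0) (nat_lit 251)) (nd (nat_lit 190) (nat_lit 0) (cs (lf (nat_lit 37) (nat_lit 189)) (nd (nat_lit 257) (nat_lit 0) (cs (lf (nat_lit 6) (nat_lit 254))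 (nd (nat_lit 232) (nat_lit 0) (cs (lf (nat_lit 24) (nat_lit 210)) (lf (nat_lit 23) (nat_lit 231)))))))))))))))))))) q81082 (by decide +kernel)
def q81090 : Q := Q.p (nat_lit 0x38000110000000000000000000000000000000000000000000000000000000000) (nat_lit 0x40000220000000000000000000000000000000000000000000000000000000000) (nat_lit 2)
theorem c81090 : QOK q81090 := cut [] trivial (nd (nat_lit 258) (nat_lit 0) (cs (lf (nat_lit 17) (nat_lit 233)) (lf (nat_lit 22) (nat_lit 232)))) q81090 (by decide +kernel)
def q81100 : Q := Q.p (nat_lit 0xe000060000000000000000000000000000000000000000000000000000000000) (nat_lit 0x10000180000000000000000000000000000000000000000000000000000000000) (nat_lit 2)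
theorem c81100 : QOK q81100 := cut [] trivial (nd (nat_lit 235) (nat_lit 0) (cs (lf (nat_lit 6) (nat_lit 232)) (lf (nat_lit 15) (nat_lit 231)))) q81100 (by decide +kernel)
def q81120 : Q := Q.p (nat_lit 0x1c0000e000020000040000000000000000000000000000000000000000000000000000) (nat_lit 0x1f00007c0001b800020000018000080001a0000700000000000000000000000000000000000000000000000) (nat_lit 13)
theorem c81120 : QOK q81120 := cut [] trivial (nd (nat_lit 211) (nat_lit 0) (cs (lf (nat_lit 36) (nat_lit 188)) (nd (nat_lit 277) (nat_lit 0) (cs (lf (nat_lit 47) (nat_lit 188)) (nd (nat_lit 190) (nat_lit 0) (cs (lf (nat_lit 34) (nat_lit 189)) (nd (nat_lit 299) (nat_lit 0) (cs (lf (nat_lit 5) (nat_lit 274)) (nd (nat_lit 321) (nat_lit 0) (cs (lf (nat_lit 42) (nat_lit 254)) (nd (nat_lit 296) (nat_lit 0) (cs (lf (nat_lit 11) (nat_lit 273)) (nd (nat_lit 322) (nat_lit 0) (cs (lf (nat_lit 29) (nat_lit 255)) (nd (nat_lit 209) (nat_lit 0) (cs (lf (nat_lit 37) (nat_lit 208)) (nd (nat_lit 318) (nat_lit 0) (cs (lf (nat_lit 30) (nat_lit 252)) (nd (nat_lit 320) (nat_lit 0) (cs (lf (nat_lit 41) (nat_lit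 254)) (nd (nat_lit 252) (nat_lit 0) (cs (lf (nat_lit 23) (nat_lit 251)) (nd (nat_lit 319) (nat_lit 0) (cs (lf (nat_lit 29) (nat_lit 252)) (lf (nat_lit 22) (nat_lit 296)))))))))))))))))))))))))) q81120 (by decide +kernel)
def q81126 : Q := Q.p (nat_lit 0x1c0000e000020000040000000000000000000000000000000000000000000000000000) (nat_lit 0xb80002000001800018000020000080000000000000000000000000000000000000000000000) (nat_lit 6)
theorem c81126 : QOK q81126 := cut [] trivial (nd (nat_lit 232) (nat_lit 0) (cs (lf (nat_lit 41) (nat_lit 209)) (nd (nat_lit 251) (nat_lit 0) (cs (lf (nat_lit 13) (nat_lit 229)) (nd (nat_lit 277) (nat_lit 0) (cs (lf (nat_lit 42) (nat_lit 210)) (nd (nat_lit 296) (nat_lit 0) (cs (lf (nat_lit 11) (nat_lit 273)) (nd (nat_lit 209) (nat_lit 0) (cs (lf (nat_lit 37) (nat_lit 208)) (lf (nat_lit 47) (nat_lit 187)))))))))))) q81126 (by decide +kernel)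
def q81128 : Q := Q.p (nat_lit 0x1800006000000000040000000000000000000000000000000000000000000000000000) (nat_lit 0x200000000000000010000000000100000000000000000000000000000000000000000000000) (nat_lit 2)
theorem c81128 : QOK q81128 := cut [] trivial (nd (nat_lit 232) (nat_lit 0) (cs (lf (nat_lit 41) (nat_lit 209)) (lf (nat_lit 36) (nat_lit 187)))) q81128 (by decide +kernel)
def q81134 : Q := Q.p (nat_lit 0x100000c000020000000000000000000000000000000000000000000000000000000000) (nat_lit 0x400002000000000010000080000200000000000000000000000000000000000000000000000) (nat_lit 3)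
theorem c81134 : QOK q81134 := cut [] trivial (nd (nat_lit 211) (nat_lit 0) (cs (lf (nat_lit 36) (nat_lit 188)) (nd (nat_lit 298) (nat_lit 0) (cs (lf (nat_lit 39) (nat_lit 210)) (lf (nat_lit 33) (nat_lit 210)))))) q81134 (by decide +kernel)
def q81135 : Q := Q.p (nat_lit 0x400001000004000010000040000000000000000000000000000000000000000000000000000) (nat_lit 0x8000020000080000000000000000000000000000000000000000000000) (nat_lit 2)
theorem c81135 : QOK q81135 := cut [] trivial (nd (nat_lit 209) (nat_lit 0) (cs (lf (nat_lit 47) (nat_lit 187)) (lf (nat_lit 46) (nat_lit 209)))) q81135 (by decide +kernel)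
def q81139 : Q := Q.p (nat_lit 0x1c000030000000000000000000000000000000000000000000000000000000000) (nat_lit 0x60000008000000000000000000000000000000000000000000000000000000000) (nat_lit 2)
theorem c81139 : QOK q81139 := cut [] trivial (nd (nat_lit 257) (nat_lit 0) (cs (lf (nat_lit 18) (nat_lit 232)) (lf (nat_lit 23) (nat_lit 231)))) q81139 (by decide +kernel)
def q81146 : Q := Q.p (nat_lit 0x40000100000c000020000000000000000000000000000000000000000000000000000000000) (nat_lit 0x10000080000200000000000000000000000000000000000000000000000) (nat_lit 2)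
theorem c81146 : QOK q81146 := cut [] trivial (nd (nat_lit 211) (nat_lit 0) (cs (lf (nat_lit 36) (nat_lit 188)) (lf (nat_lit 33) (nat_lit 210)))) q81146 (by decide +kernel)
def q81148 : Q := Q.p (nat_lit 0x40000100000c000020000000000000000000000000000000000000000000000000000000000) (nat_lit 0x2000000000000000080000200000000000000000000000000000000000000000000000) (nat_lit 2)
theorem c81148 : QOK q81148 := cut [] trivial (nd (nat_lit 211) (nat_lit 0) (cs (lf (nat_lit 36) (nat_lit 188)) (lf (nat_lit 39) (nat_lit 210)))) q81148 (by decide +kernel)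
def q81152 : Q := Q.p (nat_lit 0x8000020000080000200000400000000000000000000000000000000000000000) (nat_lit 0x400001800005000000000000000000000000000000000000) (nat_lit 3)
theorem c81152 : QOK q81152 := cut [] trivial (nd (nat_lit 168) (nat_lit 0) (cs (lf (nat_lit 34) (nat_lit 167)) (nd (nat_lit 167) (nat_lit 0) (cs (lf (nat_lit 47) (nat_lit 144)) (lf (nat_lit 35) (nat_lit 145)))))) q81152 (by decide +kernel)
def q81164 : Q := Q.p (nat_lit 0x100000c000020000080000000000000000000000000000000000000000000000000000) (nat_lit 0x100000400000000000000010000000000000000000000000000000000000000000000000000000000) (nat_lit 2)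
theorem c81164 : QOK q81164 := cut [] trivial (nd (nat_lit 298) (nat_lit 0) (cs (lf (nat_lit 30) (nat_lit 232)) (lf (nat_lit 33) (nat_lit 210)))) q81164 (by decide +kernel)
def q81196 : Q := Q.p (nat_lit 0x300003800000000000000000000000000000000000000000000000000000000000000000000) (nat_lit 0xc0000400000000000000000000000000000000000000000000000000000000000000000000) (nat_lit 2)
theorem c81196 : QOK q81196 := cut [] trivial (nd (nat_lit 295) (nat_lit 0) (cs (lf (nat_lit 12) (nat_lit 272)) (lf (nat_lit 9) (nat_lit 273)))) q81196 (by decide +kernel)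
def q81207 : Q := Q.p (nat_lit 0x800006000008000020000000000000000000000000000000000000000000000000000) (nat_lit 0x400001000000000000000000000080000000000000000000000000000000000000000000000) (nat_lit 2)
theorem c81207 : QOK q81207 := cut [] trivial (nd (nat_lit 276) (nat_lit 0) (cs (lf (nat_lit 29) (nat_lit 209)) (lf (nat_lit 24) (nat_lit 187)))) q81207 (by decide +kernel)
def q81218 : Q := Q.p (nat_lit 0x1c0000300001800000000000000000000000000000000000000000000000000000000000000000000) (nat_lit 0x2000000c0000000000000000000000000000000000000000000000000000000000000000000000000) (nat_lit 2)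
theorem c81218 : QOK q81218 := cut [] trivial (nd (nat_lit 295) (nat_lit 0) (cs (lf (nat_lit 12) (nat_lit 272)) (lf (nat_lit 18) (nat_lit 295)))) q81218 (by decide +kernel)
def q81228 : Q := Q.p (nat_lit 0x1c00006000008000000000000000000000000000000000000000000000000000000000) (nat_lit 0x100000000000000000000020000080000000000000000000000000000000000000000000000) (nat_lit 2)
theorem c81228 : QOK q81228 := cut [] trivial (nd (nat_lit 209) (nat_lit 0) (cs (lf (nat_lit 41) (nat_lit 208)) (lf (nat_lit 24) (nat_lit 187)))) q81228 (by decide +kernel)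
def q81245 : Q := Q.p (nat_lit 0x200006800018000040000000000000000000000000000000000000000000000000000000000) (nat_lit 0x400003100001000000000020000080000000000000000000000000000000000000000000000000000) (nat_lit 4)
theorem c81245 : QOK q81245 := cut [] trivial (nd (nat_lit 276) (nat_lit 0) (cs (lf (nat_lit 11) (nat_lit 274)) (nd (nat_lit 300) (nat_lit 0) (cs (lf (nat_lit 5) (nat_lit 275)) (nd (nat_lit 233) (nat_lit 0) (cs (lf (nat_lit 47) (nat_lit 211)) (lf (nat_lit 42) (nat_lit 233)))))))) q81245 (by decide +kernel)
def q81249 : Q := Q.p (nat_lit 0xa00006800000000000000000000000000000000000000000000000000000000000000000000) (nat_lit 0x500001000000000000000000000000000000000000000000000000000000000000000000000) (nat_lit 2)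
theorem c81249 : QOK q81249 := cut [] trivial (nd (nat_lit 296) (nat_lit 0) (cs (lf (nat_lit 8) (nat_lit 274)) (lf (nat_lit 14) (nat_lit 274)))) q81249 (by decide +kernel)
def q81253 : Q := Q.p (nat_lit 0x80001c000010000000000000000000000000000000000000000000000000000000000) (nat_lit 0x1000020000008000000000000000000000000000000000000000000000000000000000) (nat_lit 2)
theorem c81253 : QOK q81253 := cut [] trivial (nd (nat_lit 257) (nat_lit 0) (cs (lf (nat_lit 10) (nat_lit 253)) (lf (nat_lit 23) (nat_lit 231)))) q81253 (by decide +kernel)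
def q81284 : Q := Q.p (nat_lit 0x80000e000000000000000000000000000000000000000000000000000000000000000) (nat_lit 0x800002000714000f00007f8000040000100000000000000000000000000000000000000000000000) (nat_lit 11)
theorem c81284 : QOK q81284 := cut [] trivial (nd (nat_lit 256) (nat_lit 0) (cs (lf (nat_lit 11) (nat_lit 252)) (nd (nat_lit 234) (nat_lit 0) (cs (lf (nat_lit 17) (nat_lit 231)) (nd (nat_lit 257) (nat_lit 0) (cs (lf (nat_lit 10) (nat_lit 253)) (nd (nat_lit 232) (nat_lit 0) (cs (lf (nat_lit 23) (nat_lit 231)) (nd (nat_lit 297) (nat_lit 0) (cs (lf (nat_lit 30) (nat_lit 231)) (nd (nat_lit 188) (nat_lit 0) (cs (lf (nat_lit 37) (nat_lit 187)) (nd (nat_lit 258) (nat_lit 0) (cs (lf (nat_lit 22) (nat_lit 232)) (nd (nat_lit 237) (nat_lit 0) (cs (lf (nat_lit 16) (nat_lit 233)) (nd (nat_lit 281) (nat_lit 0) (cs (lf (nat_lit 4) (nat_lit 255)) (nd (nat_lit 259) (nat_lit 0) (cs (lf (nat_lit 17) (nat_lit 234)) (lf (nat_lit 5) (nat_lit 256)))))))))))))))))))))) q81284 (by decide +kernel)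
def q81309 : Q := Q.p (nat_lit 0x80001c000060000000000000000000000000000000000000000000000000000000000) (nat_lit 0x1000060000018000000000000000000000000000000000000000000000000000000000) (nat_lit 3)
theorem c81309 : QOK q81309 := cut [] trivial (nd (nat_lit 257) (nat_lit 0) (cs (lf (nat_lit 10) (nat_lit 253)) (nd (nat_lit 232) (nat_lit 0) (cs (lf (nat_lit 18) (nat_lit 232)) (lf (nat_lit 0) (nat_lit 231)))))) q81309 (by decide +kernel)
def q81344 : Q := Q.p (nat_lit 0x1c000088000000000000000000000000000000000000000000000000000000000) (nat_lit 0x20000110000000000000000000000000000000000000000000000000000000000) (nat_lit 2)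
theorem c81344 : QOK q81344 := cut [] trivial (nd (nat_lit 257) (nat_lit 0) (cs (lf (nat_lit 17) (nat_lit 232)) (lf (nat_lit 22) (nat_lit 231)))) q81344 (by decide +kernel)
def q81352 : Q := Q.p (nat_lit 0x200007000000000000000000000000000000000000000000000000000000000000000) (nat_lit 0x580008800000000000000000000000000000000000000000000000000000000000000) (nat_lit 3)
theorem c81352 : QOK q81352 := cut [] trivial (nd (nat_lit 272) (nat_lit 0) (cs (nd (nat_lit 274) (nat_lit 0) (cs (lf (nat_lit 12) (nat_lit 249)) (lf (nat_lit 6) (nat_lit 251)))) (lf (nat_lit 9) (nat_lit 250)))) q81352 (by decide +kernel)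
def q81354 : Q := Q.p (nat_lit 0x2800007000000000000000000000000000000000000000000000000000000000000000) (nat_lit 0x5000000800000000000000000000000000000000000000000000000000000000000000) (nat_lit 2)
theorem c81354 : QOK q81354 := cut [] trivial (nd (nat_lit 276) (nat_lit 0) (cs (lf (nat_lit 18) (nat_lit 252)) (lf (nat_lit 0) (nat_lit 251)))) q81354 (by decide +kernel)
def q81355 : Q := Q.p (nat_lit 0x80000e000004000000000000000000000000000000000000000000000000000000000) (nat_lit 0x400010000008000000000000000000000000000000000000000000000000000000000) (nat_lit 2)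
theorem c81355 : QOK q81355 := cut [] trivial (nd (nat_lit 256) (nat_lit 0) (cs (lf (nat_lit 11) (nat_lit 252)) (lf (nat_lit 22) (nat_lit 230)))) q81355 (by decide +kernel)
def q81361 : Q := Q.p (nat_lit 0x200000800003000004000000000000000000000000000000000000000000000000000000000000000) (nat_lit 0x400000000000000010000040000000000000000000000000000000000000000000000000000) (nat_lit 2)
theorem c81361 : QOK q81361 := cut [] trivial (nd (nat_lit 232) (nat_lit 0) (cs (lf (nat_lit 24) (nat_lit 210)) (lf (nat_lit 27) (nat_lit 232)))) q81361 (by decide +kernel)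
def q81370 : Q := Q.p (nat_lit 0x3c0000c000000000000000000000000000000000000000000000000000000000000000) (nat_lit 0x80000200001800000000000000010000000000000000000000000000000000000000000000000000000000) (nat_lit 3)
theorem c81370 : QOK q81370 := cut [] trivial (nd (nat_lit 299) (nat_lit 0) (cs (lf (nat_lit 5) (nat_lit 274)) (nd (nat_lit 321) (nat_lit 0) (cs (lf (nat_lit 42) (nat_lit 254)) (lf (nat_lit 47) (nat_lit 232)))))) q81370 (by decide +kernel)
def q81399 : Q := Q.p (nat_lit 0x800006000006000030000000000000000000000000000000000000000000000000000) (nat_lit 0x180000c0000100000000000000000000000000000000000000000000000) (nat_lit 3)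
theorem c81399 : QOK q81399 := cut [] trivial (nd (nat_lit 210) (nat_lit 0) (cs (lf (nat_lit 6) (nat_lit 207)) (nd (nat_lit 188) (nat_lit 0) (cs (lf (nat_lit 32) (nat_lit 187)) (lf (nat_lit 38) (nat_lit 187)))))) q81399 (by decide +kernel)
def q81406 : Q := Q.p (nat_lit 0x7000006000000000000000000000000000000000000000000000000000000000) (nat_lit 0x800001800000000000000000000000000000000000000000000000000000000) (nat_lit 2)
theorem c81406 : QOK q81406 := cut [] trivial (nd (nat_lit 228) (nat_lit 0) (cs (lf (nat_lit 0) (nat_lit 227)) (lf (nat_lit 21) (nat_lit 228)))) q81406 (by decide +kernel)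
def q81412 : Q := Q.p (nat_lit 0x400001000006000008000000000000000000000000000000000000000000000000000000000) (nat_lit 0x10000020000080000000000000000000000000000000000000000000000) (nat_lit 2)
theorem c81412 : QOK q81412 := cut [] trivial (nd (nat_lit 209) (nat_lit 0) (cs (lf (nat_lit 24) (nat_lit 187)) (lf (nat_lit 45) (nat_lit 209)))) q81412 (by decide +kernel)
def q81417 : Q := Q.p (nat_lit 0xf00000c00002000000000000000000000000000000000000000000000000000000000000000) (nat_lit 0x10000060000000000000000000000000000000000000000000000000000000000000000000000000000000) (nat_lit 2)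
theorem c81417 : QOK q81417 := cut [] trivial (nd (nat_lit 318) (nat_lit 0) (cs (lf (nat_lit 30) (nat_lit 252)) (lf (nat_lit 11) (nat_lit 295)))) q81417 (by decide +kernel)
def q81427 : Q := Q.p (nat_lit 0x200001000004000010000020000000000000000000000000000000000000000000000000000) (nat_lit 0x800000000000000040000080000000000000000000000000000000000000000000000) (nat_lit 2)
theorem c81427 : QOK q81427 := cut [] trivial (nd (nat_lit 210) (nat_lit 0) (cs (lf (nat_lit 47) (nat_lit 187)) (lf (nat_lit 40) (nat_lit 209)))) q81427 (by decide +kernel)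
def q81435 : Q := Q.p (nat_lit 0x80000400001000006000000000000000000000000000000000000000000000000000000000000000) (nat_lit 0x200000a000028000000000100000c0000300000800000000000000000000000000000000000000000) (nat_lit 6)
theorem c81435 : QOK q81435 := cut [] trivial (nd (nat_lit 232) (nat_lit 0) (cs (lf (nat_lit 40) (nat_lit 231)) (nd (nat_lit 299) (nat_lit 0) (cs (lf (nat_lit 29) (nat_lit 232)) (nd (nat_lit 210) (nat_lit 0) (cs (lf (nat_lit 28) (nat_lit 210)) (nd (nat_lit 189) (nat_lit 0) (cs (lf (nat_lit 34) (nat_lit 188)) (nd (nat_lit 188) (nat_lit 0) (cs (lf (nat_lit 41) (nat_lit 187)) (lf (nat_lit 35) (nat_lit 166)))))))))))) q81435 (by decide +kernel)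
def q81436 : Q := Q.p (nat_lit 0x100000400001000004000010000000000000000000000000000000000000000000000000000000000) (nat_lit 0x80000200000800000000000000000000000000000000000000000000000000000000000000000000000000) (nat_lit 2)
theorem c81436 : QOK q81436 := cut [] trivial (nd (nat_lit 321) (nat_lit 0) (cs (lf (nat_lit 29) (nat_lit 254)) (lf (nat_lit 28) (nat_lit 232)))) q81436 (by decide +kernel)
def q81440 : Q := Q.p (nat_lit 0x40000100000400001000004000000000000000000000000000000000000000000000000000000000000000) (nat_lit 0x20000080000200000000000000000000000000000000000000000000000000000000000000000000000000000000) (nat_lit 2)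
theorem c81440 : QOK q81440 := cut [] trivial (nd (nat_lit 343) (nat_lit 0) (cs (lf (nat_lit 29) (nat_lit 276)) (lf (nat_lit 28) (nat_lit 254)))) q81440 (by decide +kernel)
def q81444 : Q := Q.p (nat_lit 0x80000400001800007000000000000000000000000000000000000000000000000000000000000000) (nat_lit 0x200000000000000014000000000000000000000000000000000000000000000000000000000) (nat_lit 2)
theorem c81444 : QOK q81444 := cut [] trivial (nd (nat_lit 297) (nat_lit 0) (cs (lf (nat_lit 47) (nat_lit 230)) (lf (nat_lit 36) (nat_lit 231)))) q81444 (by decide +kernel)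
def q81450 : Q := Q.p (nat_lit 0x80000600001800000000000000000000000000000000000000000000000000000000000000) (nat_lit 0x20000000000000000000004000010000000000000000000000000000000000000000000000000000) (nat_lit 2)
theorem c81450 : QOK q81450 := cut [] trivial (nd (nat_lit 230) (nat_lit 0) (cs (lf (nat_lit 30) (nat_lit 229)) (lf (nat_lit 36) (nat_lit 207)))) q81450 (by decide +kernel)
def q81477 : Q := Q.p (nat_lit 0x80000300000c000000000000000000000000000000000000000000000000000000000) (nat_lit 0x200000000000000000000010000040000000000000000000000000000000000000000000000) (nat_lit 2)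
theorem c81477 : QOK q81477 := cut [] trivial (nd (nat_lit 208) (nat_lit 0) (cs (lf (nat_lit 42) (nat_lit 208)) (lf (nat_lit 24) (nat_lit 186)))) q81477 (by decide +kernel)
def q81488 : Q := Q.p (nat_lit 0x700000c000000000000000000000000000000000000000000000000000000000) (nat_lit 0x18000002000000000000000000000000000000000000000000000000000000000) (nat_lit 2)
theorem c81488 : QOK q81488 := cut [] trivial (nd (nat_lit 255) (nat_lit 0) (cs (lf (nat_lit 23) (nat_lit 229)) (lf (nat_lit 18) (nat_lit 230)))) q81488 (by decide +kernel)
def q81498 : Q := Q.p (nat_lit 0x300000e000020000080000000000000000000000000000000000000000000000000000) (nat_lit 0x100000c000000000000000000000000000000000000000000000000000000000000000000000) (nat_lit 2)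
theorem c81498 : QOK q81498 := cut [] trivial (nd (nat_lit 278) (nat_lit 0) (cs (lf (nat_lit 29) (nat_lit 211)) (lf (nat_lit 18) (nat_lit 253)))) q81498 (by decide +kernel)
def q81526 : Q := Q.p (nat_lit 0x100001c000008000000000000000000000000000000000000000000000000000000000) (nat_lit 0x800020000010000000000000000000000000000000000000000000000000000000000) (nat_lit 2)
theorem c81526 : QOK q81526 := cut [] trivial (nd (nat_lit 257) (nat_lit 0) (cs (lf (nat_lit 11) (nat_lit 253)) (lf (nat_lit 22) (nat_lit 231)))) q81526 (by decide +kernel)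
def q81545 : Q := Q.p (nat_lit 0x7000018000000000000000000000000000000000000000000000000000000000) (nat_lit 0xc00020000000000000000000000000000000000000000000000000000000000) (nat_lit 2)
theorem c81545 : QOK q81545 := cut [] trivial (nd (nat_lit 251) (nat_lit 0) (cs (lf (nat_lit 12) (nat_lit 228)) (lf (nat_lit 17) (nat_lit 229)))) q81545 (by decide +kernel)
def q81570 : Q := Q.p (nat_lit 0x1000038000040000000000000000000000000000000000000000000000000000000000) (nat_lit 0x20000c0000720000000000000000000000000000000000000000000000000000000000) (nat_lit 4)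
theorem c81570 : QOK q81570 := cut [] trivial (nd (nat_lit 258) (nat_lit 0) (cs (lf (nat_lit 10) (nat_lit 254)) (nd (nat_lit 237) (nat_lit 0) (cs (lf (nat_lit 16) (nat_lit 233)) (nd (nat_lit 259) (nat_lit 0) (cs (lf (nat_lit 17) (nat_lit 234)) (lf (nat_lit 23) (nat_lit 233)))))))) q81570 (by decide +kernel)
def q81593 : Q := Q.p (nat_lit 0x180000e000010000040000000000000000000000000000000000000000000000000000) (nat_lit 0x380000e000000000020000080000200000000000000000000000000000000000000000000000) (nat_lit 5)
theorem c81593 : QOK q81593 := cut [] trivial (nd (nat_lit 277) (nat_lit 0) (cs (lf (nat_lit 29) (nat_lit 210)) (nd (nat_lit 278) (nat_lit 0) (cs (lf (nat_lit 18) (nat_lit 253)) (nd (nat_lit 300) (nat_lit 0) (cs (lf (nat_lit 5) (nat_lit 275)) (nd (nat_lit 211) (nat_lit 0) (cs (lf (nat_lit 25) (nat_lit 211)) (lf (nat_lit 35) (nat_lit 188)))))))))) q81593 (by decide +kernel)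
def q81604 : Q := Q.p (nat_lit 0x4000010000040000100000400000000000000000000000000000000000000000000000) (nat_lit 0x200000800002000000000000000000000000000000000000000000) (nat_lit 2)
theorem c81604 : QOK q81604 := cut [] trivial (nd (nat_lit 191) (nat_lit 0) (cs (lf (nat_lit 35) (nat_lit 168)) (lf (nat_lit 34) (nat_lit 190)))) q81604 (by decide +kernel)
def q81616 : Q := Q.p (nat_lit 0x100001e000028000020000000000000000000000000000000000000000000000000000) (nat_lit 0xd00000d0000200000000000000000000000000000000000000000000000) (nat_lit 4)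
theorem c81616 : QOK q81616 := cut [] trivial (nd (nat_lit 234) (nat_lit 0) (cs (lf (nat_lit 17) (nat_lit 231)) (nd (nat_lit 208) (nat_lit 0) (cs (lf (nat_lit 20) (nat_lit 208)) (nd (nat_lit 211) (nat_lit 0) (cs (lf (nat_lit 2) (nat_lit 208)) (lf (nat_lit 36) (nat_lit 188)))))))) q81616 (by decide +kernel)
def q81636 : Q := Q.p (nat_lit 0x7c000000000000000000000000000000000000000000000000000000000000000) (nat_lit 0x380000000000000000000000000000000000000000000000000000000000) (nat_lit 2)
theorem c81636 : QOK q81636 := cut [] trivial (nd (nat_lit 236) (nat_lit 0) (cs (lf (nat_lit 17) (nat_lit 233)) (lf (nat_lit 16) (nat_lit 232)))) q81636 (by decide +kernel)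
def q81645 : Q := Q.p (nat_lit 0x10000040000000000f0000000000000000000000000000000000000000000000000000) (nat_lit 0x10000000000600000000000000000000000000000000000000000000000) (nat_lit 2)
theorem c81645 : QOK q81645 := cut [] trivial (nd (nat_lit 189) (nat_lit 0) (cs (lf (nat_lit 17) (nat_lit 186)) (lf (nat_lit 32) (nat_lit 188)))) q81645 (by decide +kernel)
def q81671 : Q := Q.p (nat_lit 0x7800000000000000000000000000000000000000000000000000000000000000) (nat_lit 0x1f8000870000e000000000000000000000000000000000000000000000000000000000) (nat_lit 7)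
theorem c81671 : QOK q81671 := cut [] trivial (nd (nat_lit 272) (nat_lit 0) (cs (lf (nat_lit 10) (nat_lit 250)) (nd (nat_lit 250) (nat_lit 0) (cs (lf (nat_lit 11) (nat_lit 249)) (nd (nat_lit 275) (nat_lit 0) (cs (lf (nat_lit 5) (nat_lit 250)) (nd (nat_lit 249) (nat_lit 0) (cs (lf (nat_lit 4) (nat_lit 249)) (nd (nat_lit 230) (nat_lit 0) (cs (lf (nat_lit 17) (nat_lit 227)) (nd (nat_lit 229) (nat_lit 0) (cs (lf (nat_lit 12) (nat_lit 226)) (lf (nat_lit 18) (nat_lit 229)))))))))))))) q81671 (by decide +kernel)
def q81678 : Q := Q.p (nat_lit 0x800003800010000000000000000000000000000000000000000000000000000000000) (nat_lit 0x1000000400008000000000000000000000000000000000000000000000000000000000) (nat_lit 2)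
theorem c81678 : QOK q81678 := cut [] trivial (nd (nat_lit 250) (nat_lit 0) (cs (lf (nat_lit 5) (nat_lit 250)) (lf (nat_lit 16) (nat_lit 228)))) q81678 (by decide +kernel)
def q81693 : Q := Q.p (nat_lit 0xe00007000010000020000000000000000000000000000000000000000000000000000) (nat_lit 0xf80003e0000dc0001000000c000040000d0000380000000000000000000000000000000000000000000000) (nat_lit 13)
theorem c81693 : QOK q81693 := cut [] trivial (nd (nat_lit 210) (nat_lit 0) (cs (lf (nat_lit 36) (nat_lit 187)) (nd (nat_lit 276) (nat_lit 0) (cs (lf (nat_lit 47) (nat_lit 187)) (nd (nat_lit 189) (nat_lit 0) (cs (lf (nat_lit 34) (nat_lit 188)) (nd (nat_lit 298) (nat_lit 0) (cs (lf (nat_lit 5) (nat_lit 273)) (nd (nat_lit 320) (nat_lit 0) (cs (lf (nat_lit 42) (nat_lit 253)) (nd (nat_lit 295) (nat_lit 0) (cs (lf (nat_lit 11) (nat_lit 272)) (nd (nat_lit 321) (nat_lit 0) (cs (lf (nat_lit 29) (nat_lit 254)) (nd (nat_lit 208) (nat_lit 0) (cs (lf (nat_lit 37) (nat_lit 207)) (nd (nat_lit 317) (nat_lit 0) (cs (lf (nat_lit 30) (nat_lit 251)) (nd (nat_lit 319) (nat_lit 0) (cs (lf (nat_lit 41) (nat_lit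 253)) (nd (nat_lit 251) (nat_lit 0) (cs (lf (nat_lit 23) (nat_lit 250)) (nd (nat_lit 318) (nat_lit 0) (cs (lf (nat_lit 29) (nat_lit 251)) (lf (nat_lit 22) (nat_lit 295)))))))))))))))))))))))))) q81693 (by decide +kernel)
def q81695 : Q := Q.p (nat_lit 0x80000e00003000008000020000000000000000000000000000000000000000000000000000) (nat_lit 0x4000010000040000000000000000000000000000000000000000000000) (nat_lit 2)
theorem c81695 : QOK q81695 := cut [] trivial (nd (nat_lit 208) (nat_lit 0) (cs (lf (nat_lit 47) (nat_lit 186)) (lf (nat_lit 37) (nat_lit 207)))) q81695 (by decide +kernel)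
def q81708 : Q := Q.p (nat_lit 0xe000018000000000000000000000000000000000000000000000000000000000) (nat_lit 0x30000004000000000000000000000000000000000000000000000000000000000) (nat_lit 2)
theorem c81708 : QOK q81708 := cut [] trivial (nd (nat_lit 256) (nat_lit 0) (cs (lf (nat_lit 23) (nat_lit 230)) (lf (nat_lit 18) (nat_lit 231)))) q81708 (by decide +kernel)
def q81719 : Q := Q.p (nat_lit 0x7000002000000000000000000000000000000000000000000000000000000000) (nat_lit 0x8800005800000000000000000000000000000000000000000000000000000000) (nat_lit 3)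
theorem c81719 : QOK q81719 := cut [] trivial (nd (nat_lit 228) (nat_lit 0) (cs (lf (nat_lit 21) (nat_lit 228)) (nd (nat_lit 230) (nat_lit 0) (cs (lf (nat_lit 0) (nat_lit 227)) (lf (nat_lit 18) (nat_lit 229)))))) q81719 (by decide +kernel)
def q81720 : Q := Q.p (nat_lit 0x880001c000000000000000000000000000000000000000000000000000000000000000) (nat_lit 0x11000020000000000000000000000000000000000000000000000000000000000000000) (nat_lit 2)
theorem c81720 : QOK q81720 := cut [] trivial (nd (nat_lit 257) (nat_lit 0) (cs (lf (nat_lit 5) (nat_lit 254)) (lf (nat_lit 10) (nat_lit 253)))) q81720 (by decide +kernel)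
def q81727 : Q := Q.p (nat_lit 0x100003800001000000000000000000000000000000000000000000000000000000000) (nat_lit 0x80000400000800000000000000000000000000000000000000000000000000000000) (nat_lit 2)
theorem c81727 : QOK q81727 := cut [] trivial (nd (nat_lit 250) (nat_lit 0) (cs (lf (nat_lit 11) (nat_lit 249)) (lf (nat_lit 23) (nat_lit 227)))) q81727 (by decide +kernel)
def q81733 : Q := Q.p (nat_lit 0x800007800004000000000000000000000000000000000000000000000000000000000) (nat_lit 0x20000080000700000000000000010000040000000000000000000000000000000000000000000000) (nat_lit 4)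
theorem c81733 : QOK q81733 := cut [] trivial (nd (nat_lit 273) (nat_lit 0) (cs (lf (nat_lit 11) (nat_lit 250)) (nd (nat_lit 295) (nat_lit 0) (cs (lf (nat_lit 30) (nat_lit 229)) (nd (nat_lit 208) (nat_lit 0) (cs (lf (nat_lit 24) (nat_lit 186)) (lf (nat_lit 39) (nat_lit 207)))))))) q81733 (by decide +kernel)
def q81734 : Q := Q.p (nat_lit 0x1800006000008000000000000000000000000000000000000000000000000000) (nat_lit 0x400000000000000000000020000080000000000000000000000000000000000000000) (nat_lit 2)
theorem c81734 : QOK q81734 := cut [] trivial (nd (nat_lit 185) (nat_lit 0) (cs (lf (nat_lit 29) (nat_lit 185)) (lf (nat_lit 24) (nat_lit 163)))) q81734 (by decide +kernel)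
def q81741 : Q := Q.p (nat_lit 0x800003000016000040000000000000000000000000000000000000000000000000000) (nat_lit 0x80000b0000040000000000000000000000000000000000000000000000) (nat_lit 3)
theorem c81741 : QOK q81741 := cut [] trivial (nd (nat_lit 211) (nat_lit 0) (cs (nd (nat_lit 208) (nat_lit 0) (cs (lf (nat_lit 24) (nat_lit 186)) (lf (nat_lit 8) (nat_lit 207)))) (lf (nat_lit 14) (nat_lit 207)))) q81741 (by decide +kernel)
def q81768 : Q := Q.p (nat_lit 0x800001c000008000000000000000000000000000000000000000000000000000000000) (nat_lit 0x10000020000010000000000000000000000000000000000000000000000000000000000) (nat_lit 2)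
theorem c81768 : QOK q81768 := cut [] trivial (nd (nat_lit 257) (nat_lit 0) (cs (lf (nat_lit 5) (nat_lit 254)) (lf (nat_lit 22) (nat_lit 231)))) q81768 (by decide +kernel)
def q81803 : Q := Q.p (nat_lit 0x400003000004000010000000000000000000000000000000000000000000000000000) (nat_lit 0x200000800000000000000000000040000000000000000000000000000000000000000000000) (nat_lit 2)
theorem c81803 : QOK q81803 := cut [] trivial (nd (nat_lit 275) (nat_lit 0) (cs (lf (nat_lit 29) (nat_lit 208)) (lf (nat_lit 24) (nat_lit 186)))) q81803 (by decide +kernel)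
def q81808 : Q := Q.p (nat_lit 0x400003000004000010000000000000000000000000000000000000000000000000000) (nat_lit 0x8000000000000000200000c0000200000000000000000000000000000000000000000) (nat_lit 3)
theorem c81808 : QOK q81808 := cut [] trivial (nd (nat_lit 187) (nat_lit 0) (cs (lf (nat_lit 34) (nat_lit 186)) (nd (nat_lit 186) (nat_lit 0) (cs (lf (nat_lit 35) (nat_lit 164)) (lf (nat_lit 29) (nat_lit 186)))))) q81808 (by decide +kernel)
def q81812 : Q := Q.p (nat_lit 0xe00003000004000000000000000000000000000000000000000000000000000000000) (nat_lit 0x80000000000000000000010000040000000000000000000000000000000000000000000000) (nat_lit 2)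
theorem c81812 : QOK q81812 := cut [] trivial (nd (nat_lit 208) (nat_lit 0) (cs (lf (nat_lit 41) (nat_lit 207)) (lf (nat_lit 24) (nat_lit 186)))) q81812 (by decide +kernel)
def q81830 : Q := Q.p (nat_lit 0x500003400000000000000000000000000000000000000000000000000000000000000000000) (nat_lit 0x280000800000000000000000000000000000000000000000000000000000000000000000000) (nat_lit 2)
theorem c81830 : QOK q81830 := cut [] trivial (nd (nat_lit 295) (nat_lit 0) (cs (lf (nat_lit 8) (nat_lit 273)) (lf (nat_lit 14) (nat_lit 273)))) q81830 (by decide +kernel)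
def q81834 : Q := Q.p (nat_lit 0x40000e000008000000000000000000000000000000000000000000000000000000000) (nat_lit 0x800010000004000000000000000000000000000000000000000000000000000000000) (nat_lit 2)
theorem c81834 : QOK q81834 := cut [] trivial (nd (nat_lit 256) (nat_lit 0) (cs (lf (nat_lit 10) (nat_lit 252)) (lf (nat_lit 23) (nat_lit 230)))) q81834 (by decide +kernel)
def q81844 : Q := Q.p (nat_lit 0xc00007000008000020000000000000000000000000000000000000000000000000000) (nat_lit 0x100000e00007000018000060000050000140000000000000000000000000000000000000000000000) (nat_lit 8)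
theorem c81844 : QOK q81844 := cut [] trivial (nd (nat_lit 255) (nat_lit 0) (cs (lf (nat_lit 6) (nat_lit 252)) (nd (nat_lit 277) (nat_lit 0) (cs (lf (nat_lit 5) (nat_lit 252)) (nd (nat_lit 233) (nat_lit 0) (cs (lf (nat_lit 17) (nat_lit 230)) (nd (nat_lit 186) (nat_lit 0) (cs (lf (nat_lit 46) (nat_lit 186)) (nd (nat_lit 188) (nat_lit 0) (cs (lf (nat_lit 34) (nat_lit 187)) (nd (nat_lit 298) (nat_lit 0) (cs (lf (nat_lit 28) (nat_lit 209)) (nd (nat_lit 320) (nat_lit 0) (cs (lf (nat_lit 27) (nat_lit 231)) (lf (nat_lit 39) (nat_lit 232)))))))))))))))) q81844 (by decide +kernel)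
def q81878 : Q := Q.p (nat_lit 0x800006000018000000000000000000000000000000000000000000000000000000000) (nat_lit 0x200000000000000000000040000100000000000000000000000000000000000000000000000) (nat_lit 2)
theorem c81878 : QOK q81878 := cut [] trivial (nd (nat_lit 210) (nat_lit 0) (cs (lf (nat_lit 30) (nat_lit 209)) (lf (nat_lit 36) (nat_lit 187)))) q81878 (by decide +kernel)
def q81899 : Q := Q.p (nat_lit 0x800002000008000020000080000000000000000000000000000000000000000000000) (nat_lit 0x10000040000100000000000000000000000000000000000000000) (nat_lit 2)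
theorem c81899 : QOK q81899 := cut [] trivial (nd (nat_lit 186) (nat_lit 0) (cs (lf (nat_lit 47) (nat_lit 164)) (lf (nat_lit 46) (nat_lit 186)))) q81899 (by decide +kernel)
def q81940 : Q := Q.p (nat_lit 0x1000003800006000000000000000000000000000000000000000000000000000000000000000) (nat_lit 0x200000c000000000000000000000000000000000000000000000000000000000000000000000) (nat_lit 2)
theorem c81940 : QOK q81940 := cut [] trivial (nd (nat_lit 278) (nat_lit 0) (cs (lf (nat_lit 5) (nat_lit 275)) (lf (nat_lit 18) (nat_lit 253)))) q81940 (by decide +kernel)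
def q81951 : Q := Q.p (nat_lit 0x10000080000200000c000000000000000000000000000000000000000000000000000000000000000) (nat_lit 0x400001400005000000000020000180000600001000000000000000000000000000000000000000000) (nat_lit 6)
theorem c81951 : QOK q81951 := cut [] trivial (nd (nat_lit 233) (nat_lit 0) (cs (lf (nat_lit 40) (nat_lit 232)) (nd (nat_lit 300) (nat_lit 0) (cs (lf (nat_lit 29) (nat_lit 233)) (nd (nat_lit 211) (nat_lit 0) (cs (lf (nat_lit 28) (nat_lit 211)) (nd (nat_lit 190) (nat_lit 0) (cs (lf (nat_lit 34) (nat_lit 189)) (nd (nat_lit 189) (nat_lit 0) (cs (lf (nat_lit 35) (nat_lit 167)) (lf (nat_lit 41) (nat_lit 188)))))))))))) q81951 (by decide +kernel)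
def q81955 : Q := Q.p (nat_lit 0x800007000014000000000000000000000000000000000000000000000000000000000) (nat_lit 0x80000200000000000000008000010000040000000000000000000000000000000000000000000000) (nat_lit 3)
theorem c81955 : QOK q81955 := cut [] trivial (nd (nat_lit 208) (nat_lit 0) (cs (lf (nat_lit 24) (nat_lit 186)) (nd (nat_lit 297) (nat_lit 0) (cs (lf (nat_lit 45) (nat_lit 208)) (lf (nat_lit 30) (nat_lit 231)))))) q81955 (by decide +kernel)
def q81960 : Q := Q.p (nat_lit 0x40000b00000400001000000000000000000000000000000000000000000000000000000000000000) (nat_lit 0x8000020000400000000000000000000000000000000000000000000000000000000000000000000000000) (nat_lit 2)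
theorem c81960 : QOK q81960 := cut [] trivial (nd (nat_lit 317) (nat_lit 0) (cs (lf (nat_lit 41) (nat_lit 251)) (lf (nat_lit 7) (nat_lit 295)))) q81960 (by decide +kernel)
def q81993 : Q := Q.p (nat_lit 0x400001000018000070000000000000000000000000000000000000000000000000000) (nat_lit 0x400000c000030000000000000000000000000000000000000000000000) (nat_lit 3)
theorem c81993 : QOK q81993 := cut [] trivial (nd (nat_lit 207) (nat_lit 0) (cs (lf (nat_lit 0) (nat_lit 206)) (nd (nat_lit 185) (nat_lit 0) (cs (lf (nat_lit 23) (nat_lit 184)) (lf (nat_lit 44) (nat_lit 185)))))) q81993 (by decide +kernel)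
def q82006 : Q := Q.p (nat_lit 0x80001c000080000000000000000000000000000000000000000000000000000000000) (nat_lit 0x1000020000100000000000000000000000000000000000000000000000000000000000) (nat_lit 2)
theorem c82006 : QOK q82006 := cut [] trivial (nd (nat_lit 257) (nat_lit 0) (cs (lf (nat_lit 17) (nat_lit 232)) (lf (nat_lit 10) (nat_lit 253)))) q82006 (by decide +kernel)
def q82014 : Q := Q.p (nat_lit 0x80001c000020000000000000000000000000000000000000000000000000000000000) (nat_lit 0x1000060000390000000000000000000000000000000000000000000000000000000000) (nat_lit 4)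
theorem c82014 : QOK q82014 := cut [] trivial (nd (nat_lit 257) (nat_lit 0) (cs (lf (nat_lit 10) (nat_lit 253)) (nd (nat_lit 236) (nat_lit 0) (cs (lf (nat_lit 16) (nat_lit 232)) (nd (nat_lit 258) (nat_lit 0) (cs (lf (nat_lit 17) (nat_lit 233)) (lf (nat_lit 23) (nat_lit 232)))))))) q82014 (by decide +kernel)
def q82046 : Q := Q.p (nat_lit 0xa0000100000400001000000000000000000000000000000000000000000000000000000000000000) (nat_lit 0x28000040000000000000000000000000000000000000000000000000000000000000000000000000000000) (nat_lit 2)
theorem c82046 : QOK q82046 := cut [] trivial (nd (nat_lit 318) (nat_lit 0) (cs (lf (nat_lit 29) (nat_lit 252)) (lf (nat_lit 41) (nat_lit 251)))) q82046 (by decide +kernel)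
def q82055 : Q := Q.p (nat_lit 0xc00003c000000000100000000000000000000000000000000000000000000000) (nat_lit 0x1000000000000000180000200000400000000000000000000000000000000000000000) (nat_lit 3)
theorem c82055 : QOK q82055 := cut [] trivial (nd (nat_lit 211) (nat_lit 0) (cs (lf (nat_lit 17) (nat_lit 208)) (nd (nat_lit 189) (nat_lit 0) (cs (lf (nat_lit 47) (nat_lit 166)) (lf (nat_lit 41) (nat_lit 188)))))) q82055 (by decide +kernel)
def q82086 : Q := Q.p (nat_lit 0x80001c000040000000000000000000000000000000000000000000000000000000000) (nat_lit 0x390000e0000720000000000000000000000000000000000000000000000000000000000) (nat_lit 6)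
theorem c82086 : QOK q82086 := cut [] trivial (nd (nat_lit 257) (nat_lit 0) (cs (lf (nat_lit 10) (nat_lit 253)) (nd (nat_lit 280) (nat_lit 0) (cs (lf (nat_lit 4) (nat_lit 254)) (nd (nat_lit 258) (nat_lit 0) (cs (lf (nat_lit 5) (nat_lit 255)) (nd (nat_lit 259) (nat_lit 0) (cs (lf (nat_lit 23) (nat_lit 233)) (nd (nat_lit 237) (nat_lit 0) (cs (lf (nat_lit 17) (nat_lit 234)) (lf (nat_lit 16) (nat_lit 233)))))))))))) q82086 (by decide +kernel)
def q82108 : Q := Q.p (nat_lit 0xf000000000000000000000000000000000000000000000000000000000000000) (nat_lit 0x3f00010e0001c000000000000000000000000000000000000000000000000000000000) (nat_lit 7)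
theorem c82108 : QOK q82108 := cut [] trivial (nd (nat_lit 273) (nat_lit 0) (cs (lf (nat_lit 10) (nat_lit 251)) (nd (nat_lit 251) (nat_lit 0) (cs (lf (nat_lit 11) (nat_lit 250)) (nd (nat_lit 276) (nat_lit 0) (cs (lf (nat_lit 5) (nat_lit 251)) (nd (nat_lit 250) (nat_lit 0) (cs (lf (nat_lit 4) (nat_lit 250)) (nd (nat_lit 231) (nat_lit 0) (cs (lf (nat_lit 17) (nat_lit 228)) (nd (nat_lit 230) (nat_lit 0) (cs (lf (nat_lit 12) (nat_lit 227)) (lf (nat_lit 18) (nat_lit 230)))))))))))))) q82108 (by decide +kernel)
def q82120 : Q := Q.p (nat_lit 0x38000180000000000000000000000000000000000000000000000000000) (nat_lit 0x40000600000000000000000000000000000000000000000000000000000) (nat_lit 2)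
theorem c82120 : QOK q82120 := cut [] trivial (nd (nat_lit 213) (nat_lit 0) (cs (lf (nat_lit 6) (nat_lit 210)) (lf (nat_lit 15) (nat_lit 209)))) q82120 (by decide +kernel)
def q82188 : Q := Q.p (nat_lit 0x600003800000000000000000000000000000000000000000000000000000000000000) (nat_lit 0x10000c000000000000000000000000000000000000000000000000000000000000000) (nat_lit 2)
theorem c82188 : QOK q82188 := cut [] trivial (nd (nat_lit 254) (nat_lit 0) (cs (lf (nat_lit 11) (nat_lit 250)) (lf (nat_lit 6) (nat_lit 251)))) q82188 (by decide +kernel)
def q82197 : Q := Q.p (nat_lit 0x3800003000000000000000000000000000000000000000000000000000000000) (nat_lit 0x4c00000000000000000000000000000000000000000000000000000000) (nat_lit 2)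
theorem c82197 : QOK q82197 := cut [] trivial (nd (nat_lit 227) (nat_lit 0) (cs (lf (nat_lit 3) (nat_lit 227)) (lf (nat_lit 0) (nat_lit 226)))) q82197 (by decide +kernel)
def q82199 : Q := Q.p (nat_lit 0x3e000000000000000000000000000000000000000000000000000000000000000) (nat_lit 0x1c0000000000000000000000000000000000000000000000000000000000) (nat_lit 2)
theorem c82199 : QOK q82199 := cut [] trivial (nd (nat_lit 235) (nat_lit 0) (cs (lf (nat_lit 17) (nat_lit 232)) (lf (nat_lit 16) (nat_lit 231)))) q82199 (by decide +kernel)
def q82219 : Q := Q.p (nat_lit 0x800002000008000040000000000000000000000000000000000000000000000) (nat_lit 0x200000000000000010000020000100000400000000000000000000000000000000000) (nat_lit 3)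
theorem c82219 : QOK q82219 := cut [] trivial (nd (nat_lit 164) (nat_lit 0) (cs (lf (nat_lit 33) (nat_lit 163)) (nd (nat_lit 208) (nat_lit 0) (cs (lf (nat_lit 36) (nat_lit 141)) (lf (nat_lit 30) (nat_lit 185)))))) q82219 (by decide +kernel)
def q82228 : Q := Q.p (nat_lit 0x200001800006000000000000000000000000000000000000000000000000000000000) (nat_lit 0x80000000000000000000010000040000000000000000000000000000000000000000000000) (nat_lit 2)
theorem c82228 : QOK q82228 := cut [] trivial (nd (nat_lit 208) (nat_lit 0) (cs (lf (nat_lit 30) (nat_lit 207)) (lf (nat_lit 36) (nat_lit 185)))) q82228 (by decide +kernel)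
def q82234 : Q := Q.p (nat_lit 0x800006000016000030000000000000000000000000000000000000000000000000000) (nat_lit 0xc0000100000000000000000000000000000000000000000000000) (nat_lit 2)
theorem c82234 : QOK q82234 := cut [] trivial (nd (nat_lit 210) (nat_lit 0) (cs (lf (nat_lit 6) (nat_lit 207)) (lf (nat_lit 36) (nat_lit 187)))) q82234 (by decide +kernel)
def q82249 : Q := Q.p (nat_lit 0x3f00000000000000000000000000000000000000000000000000000000000000) (nat_lit 0x4080007000000000000000000000000000000000000000000000000000000000) (nat_lit 3)
theorem c82249 : QOK q82249 := cut [] trivial (nd (nat_lit 229) (nat_lit 0) (cs (lf (nat_lit 17) (nat_lit 226)) (nd (nat_lit 228) (nat_lit 0) (cs (lf (nat_lit 12) (nat_lit 225)) (lf (nat_lit 18) (nat_lit 228)))))) q82249 (by decide +kernel)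
def q82257 : Q := Q.p (nat_lit 0x1f000000000000000000000000000000000000000000000000000000000000000) (nat_lit 0xe000000000000000000000000000000000000000000000000000000000000000000000) (nat_lit 2)
theorem c82257 : QOK q82257 := cut [] trivial (nd (nat_lit 278) (nat_lit 0) (cs (lf (nat_lit 5) (nat_lit 253)) (lf (nat_lit 4) (nat_lit 252)))) q82257 (by decide +kernel)
def q82263 : Q := Q.p (nat_lit 0x3800004000000000040000000000000000000000000000000000000000000000) (nat_lit 0xa00000000000000010000000000000000000000000000000000000000000000000000) (nat_lit 2)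
theorem c82263 : QOK q82263 := cut [] trivial (nd (nat_lit 208) (nat_lit 0) (cs (lf (nat_lit 41) (nat_lit 185)) (lf (nat_lit 29) (nat_lit 186)))) q82263 (by decide +kernel)
def q82274 : Q := Q.p (nat_lit 0x3800018000000000000000000000000000000000000000000000000000000000) (nat_lit 0x64000000000000000000000000000000000000000000000000000000000) (nat_lit 2)
theorem c82274 : QOK q82274 := cut [] trivial (nd (nat_lit 233) (nat_lit 0) (cs (lf (nat_lit 6) (nat_lit 230)) (lf (nat_lit 9) (nat_lit 229)))) q82274 (by decide +kernel)
def q82277 : Q := Q.p (nat_lit 0x3800018000000000000000000000000000000000000000000000000000000000) (nat_lit 0x4000060000000000000000000000000000000000000000000000000000000000) (nat_lit 2)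
theorem c82277 : QOK q82277 := cut [] trivial (nd (nat_lit 233) (nat_lit 0) (cs (lf (nat_lit 6) (nat_lit 230)) (lf (nat_lit 15) (nat_lit 229)))) q82277 (by decide +kernel)
def q82279 : Q := Q.p (nat_lit 0x400003000008000020000000000000000000000000000000000000000000000000000) (nat_lit 0x40000100000000000000004000000000000000000000000000000000000000000000000000000000) (nat_lit 2)
theorem c82279 : QOK q82279 := cut [] trivial (nd (nat_lit 296) (nat_lit 0) (cs (lf (nat_lit 30) (nat_lit 230)) (lf (nat_lit 33) (nat_lit 208)))) q82279 (by decide +kernel)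
def q82282 : Q := Q.p (nat_lit 0x100000200000c00003000000000000000000000000000000000000000000000000000000000000000) (nat_lit 0x60000080000000000000000000000000000000000000000000000000000000000000000000000000000000) (nat_lit 2)
theorem c82282 : QOK q82282 := cut [] trivial (nd (nat_lit 319) (nat_lit 0) (cs (lf (nat_lit 29) (nat_lit 253)) (lf (nat_lit 42) (nat_lit 252)))) q82282 (by decide +kernel)
def q82299 : Q := Q.p (nat_lit 0x3000008000020000080000000000000000000000000000000000000000000000) (nat_lit 0x4000000000100000600001000000000000000000000000000000000000) (nat_lit 3)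
theorem c82299 : QOK q82299 := cut [] trivial (nd (nat_lit 166) (nat_lit 0) (cs (lf (nat_lit 34) (nat_lit 165)) (nd (nat_lit 165) (nat_lit 0) (cs (lf (nat_lit 35) (nat_lit 143)) (lf (nat_lit 40) (nat_lit 164)))))) q82299 (by decide +kernel)
def q82302 : Q := Q.p (nat_lit 0x800002000018000020000000000000000000000000000000000000000000000000000) (nat_lit 0x200000000000000000000040000100000000000000000000000000000000000000000000000) (nat_lit 2)
theorem c82302 : QOK q82302 := cut [] trivial (nd (nat_lit 210) (nat_lit 0) (cs (lf (nat_lit 35) (nat_lit 187)) (lf (nat_lit 30) (nat_lit 209)))) q82302 (by decide +kernel)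
def q82314 : Q := Q.p (nat_lit 0x3800001000000000000000000000000000000000000000000000000000000000) (nat_lit 0x4400006800000000000000000000000000000000000000000000000000000000) (nat_lit 3)
theorem c82314 : QOK q82314 := cut [] trivial (nd (nat_lit 227) (nat_lit 0) (cs (lf (nat_lit 21) (nat_lit 227)) (nd (nat_lit 229) (nat_lit 0) (cs (lf (nat_lit 3) (nat_lit 227)) (lf (nat_lit 18) (nat_lit 228)))))) q82314 (by decide +kernel)
def q82325 : Q := Q.p (nat_lit 0xe000060000000000000000000000000000000000000000000000000000) (nat_lit 0x10000180000000000000000000000000000000000000000000000000000) (nat_lit 2)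
theorem c82325 : QOK q82325 := cut [] trivial (nd (nat_lit 211) (nat_lit 0) (cs (lf (nat_lit 6) (nat_lit 208)) (lf (nat_lit 15) (nat_lit 207)))) q82325 (by decide +kernel)
def q82337 : Q := Q.p (nat_lit 0x40000100001c000030000000000000000000000000000000000000000000000000000) (nat_lit 0xc000020000000000000000000000000000000000000000000000) (nat_lit 2)
theorem c82337 : QOK q82337 := cut [] trivial (nd (nat_lit 207) (nat_lit 0) (cs (lf (nat_lit 0) (nat_lit 206)) (lf (nat_lit 47) (nat_lit 185)))) q82337 (by decide +kernel)
def q82364 : Q := Q.p (nat_lit 0x400003c0000a000020000000000000000000000000000000000000000000000000000) (nat_lit 0x180000000005800058000020000000000000000000000000000000000000000000000) (nat_lit 5)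
theorem c82364 : QOK q82364 := cut [] trivial (nd (nat_lit 228) (nat_lit 0) (cs (lf (nat_lit 23) (nat_lit 227)) (nd (nat_lit 271) (nat_lit 0) (cs (lf (nat_lit 10) (nat_lit 249)) (nd (nat_lit 210) (nat_lit 0) (cs (lf (nat_lit 14) (nat_lit 206)) (nd (nat_lit 207) (nat_lit 0) (cs (lf (nat_lit 24) (nat_lit 185)) (lf (nat_lit 8) (nat_lit 206)))))))))) q82364 (by decide +kernel)
def q82366 : Q := Q.p (nat_lit 0x400001c00008000000000000000000000000000000000000000000000000000000000) (nat_lit 0x800000200004000000000000000000000000000000000000000000000000000000000) (nat_lit 2)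
theorem c82366 : QOK q82366 := cut [] trivial (nd (nat_lit 249) (nat_lit 0) (cs (lf (nat_lit 16) (nat_lit 227)) (lf (nat_lit 5) (nat_lit 249)))) q82366 (by decide +kernel)
def q82369 : Q := Q.p (nat_lit 0x1c0000600000000000000000000000000000000000000000000000000000000000000000000) (nat_lit 0x30000800000000000000000000000000000000000000000000000000000000000000000000) (nat_lit 2)
theorem c82369 : QOK q82369 := cut [] trivial (nd (nat_lit 293) (nat_lit 0) (cs (lf (nat_lit 12) (nat_lit 270)) (lf (nat_lit 17) (nat_lit 271)))) q82369 (by decide +kernel)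
def q82378 : Q := Q.p (nat_lit 0x380000c000010000000000000000000000000000000000000000000000000000) (nat_lit 0x200000000000000000000040000100000000000000000000000000000000000000000) (nat_lit 2)
theorem c82378 : QOK q82378 := cut [] trivial (nd (nat_lit 186) (nat_lit 0) (cs (lf (nat_lit 41) (nat_lit 185)) (lf (nat_lit 24) (nat_lit 164)))) q82378 (by decide +kernel)
def q82431 : Q := Q.p (nat_lit 0xc0000300000800000000000000000000000000000000000000000000000000000000000000) (nat_lit 0x10000000000000000000002000008000000000000000000000000000000000000000000000000000) (nat_lit 2)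
theorem c82431 : QOK q82431 := cut [] trivial (nd (nat_lit 229) (nat_lit 0) (cs (lf (nat_lit 36) (nat_lit 206)) (lf (nat_lit 41) (nat_lit 228)))) q82431 (by decide +kernel)
def q82438 : Q := Q.p (nat_lit 0xf0000300000000000000000000000000000000000000000000000000000000000000000000) (nat_lit 0xe000700000080000000000000000000000000000000000000000000000000000000000000000000) (nat_lit 4)
theorem c82438 : QOK q82438 := cut [] trivial (nd (nat_lit 314) (nat_lit 0) (cs (lf (nat_lit 11) (nat_lit 291)) (nd (nat_lit 296) (nat_lit 0) (cs (lf (nat_lit 10) (nat_lit 292)) (nd (nat_lit 297) (nat_lit 0) (cs (lf (nat_lit 18) (nat_lit 272)) (lf (nat_lit 23) (nat_lit 271)))))))) q82438 (by decide +kernel)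
def q82442 : Q := Q.p (nat_lit 0xf0000040000000000400000000000000000000000000000000000000000000000000000000) (nat_lit 0xe000100000000000100000000000000000000000000000000000000000000000000000000000000) (nat_lit 3)
theorem c82442 : QOK q82442 := cut [] trivial (nd (nat_lit 314) (nat_lit 0) (cs (lf (nat_lit 11) (nat_lit 291)) (nd (nat_lit 315) (nat_lit 0) (cs (lf (nat_lit 6) (nat_lit 292)) (lf (nat_lit 25) (nat_lit 226)))))) q82442 (by decide +kernel)
def q82467 : Q := Q.p (nat_lit 0xe0000300001800000000000000000000000000000000000000000000000000000000000000) (nat_lit 0x180000e0000000000000000000000000000000000000000000000000000000000000000000) (nat_lit 3)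
theorem c82467 : QOK q82467 := cut [] trivial (nd (nat_lit 270) (nat_lit 0) (cs (lf (nat_lit 13) (nat_lit 248)) (nd (nat_lit 292) (nat_lit 0) (cs (lf (nat_lit 23) (nat_lit 269)) (lf (nat_lit 12) (nat_lit 269)))))) q82467 (by decide +kernel)
def q82511 : Q := Q.p (nat_lit 0xf0000000000080000000000000000000000000000000000000000000000000000000000000000000) (nat_lit 0x380000c000070000000000200000000000000000000000000000000000000000000000000000000000000) (nat_lit 5)
theorem c82511 : QOK q82511 := cut [] trivial (nd (nat_lit 293) (nat_lit 0) (cs (lf (nat_lit 22) (nat_lit 293)) (nd (nat_lit 315) (nat_lit 0) (cs (lf (nat_lit 23) (nat_lit 292)) (nd (nat_lit 336) (nat_lit 0) (cs (lf (nat_lit 10) (nat_lit 314)) (nd (nat_lit 314) (nat_lit 0) (cs (lf (nat_lit 11) (nat_lit 313)) (lf (nat_lit 36) (nat_lit 248)))))))))) q82511 (by decide +kernel)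
def q82562 : Q := Q.p (nat_lit 0x600000c0000200000800000000000000000000000000000000000000000000000000000000000000) (nat_lit 0x40000180000700000f000010000130000100000000000000000000000000000000000000000000000000000000000000000000) (nat_lit 8)
theorem c82562 : QOK q82562 := cut [] trivial (nd (nat_lit 338) (nat_lit 0) (cs (lf (nat_lit 40) (nat_lit 250)) (nd (nat_lit 292) (nat_lit 0) (cs (lf (nat_lit 1) (nat_lit 292)) (nd (nat_lit 339) (nat_lit 0) (cs (lf (nat_lit 41) (nat_lit 272)) (nd (nat_lit 336) (nat_lit 0) (cs (lf (nat_lit 13) (nat_lit 314)) (nd (nat_lit 361) (nat_lit 0) (cs (lf (nat_lit 47) (nat_lit 272)) (nd (nat_lit 384) (nat_lit 0) (cs (lf (nat_lit 28) (nat_lit 295)) (nd (nat_lit 383) (nat_lit 0) (cs (lf (nat_lit 29) (nat_lit 317)) (lf (nat_lit 35) (nat_lit 295)))))))))))))))) q82562 (by decide +kernel)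
def q82566 : Q := Q.p (nat_lit 0x80000200003800002000000000000000000000000000000000000000000000000000000000) (nat_lit 0x4000001000004000000000000000000000000000000000000000000000000000) (nat_lit 2)
theorem c82566 : QOK q82566 := cut [] trivial (nd (nat_lit 228) (nat_lit 0) (cs (lf (nat_lit 47) (nat_lit 206)) (lf (nat_lit 18) (nat_lit 228)))) q82566 (by decide +kernel)
def q82581 : Q := Q.p (nat_lit 0x200000800003000004000000000000000000000000000000000000000000000000000) (nat_lit 0x8000010000040000000000000000000000000000000000000000) (nat_lit 2)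
theorem c82581 : QOK q82581 := cut [] trivial (nd (nat_lit 184) (nat_lit 0) (cs (lf (nat_lit 24) (nat_lit 162)) (lf (nat_lit 45) (nat_lit 184)))) q82581 (by decide +kernel)
def q82585 : Q := Q.p (nat_lit 0x600001800002000000000000000000000000000000000000000000000000000000000) (nat_lit 0x100000000000000000000008000020000000000000000000000000000000000000000000000) (nat_lit 2)
theorem c82585 : QOK q82585 := cut [] trivial (nd (nat_lit 207) (nat_lit 0) (cs (lf (nat_lit 29) (nat_lit 207)) (lf (nat_lit 24) (nat_lit 185)))) q82585 (by decide +kernel)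
def q82595 : Q := Q.p (nat_lit 0x200000800002000008000020000000000000000000000000000000000000000000000) (nat_lit 0x10000040000100000000000000000000000000000000000000000) (nat_lit 2)
theorem c82595 : QOK q82595 := cut [] trivial (nd (nat_lit 186) (nat_lit 0) (cs (lf (nat_lit 35) (nat_lit 163)) (lf (nat_lit 34) (nat_lit 185)))) q82595 (by decide +kernel)
def q82603 : Q := Q.p (nat_lit 0x8000020000080000300000000000000000000000000000000000000000000000000000000000000000000) (nat_lit 0x400003000004000000000040000000000000000000000000000000000000000000000000000000000000000000000000) (nat_lit 3)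
theorem c82603 : QOK q82603 := cut [] trivial (nd (nat_lit 360) (nat_lit 0) (cs (lf (nat_lit 40) (nat_lit 272)) (nd (nat_lit 361) (nat_lit 0) (cs (lf (nat_lit 41) (nat_lit 294)) (lf (nat_lit 46) (nat_lit 272)))))) q82603 (by decide +kernel)
def q82610 : Q := Q.p (nat_lit 0x20000080000200001800000000000000000000000000000000000000000000000000000000000000) (nat_lit 0x100000c000010000000000400000000000000000000000000000000000000000000000000000000000000000000) (nat_lit 3)
theorem c82610 : QOK q82610 := cut [] trivial (nd (nat_lit 338) (nat_lit 0) (cs (lf (nat_lit 40) (nat_lit 250)) (nd (nat_lit 339) (nat_lit 0) (cs (lf (nat_lit 41) (nat_lit 272)) (lf (nat_lit 34) (nat_lit 251)))))) q82610 (by decide +kernel)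
def q82616 : Q := Q.p (nat_lit 0xe0000200003800002000000000000000000000000000000000000000000000000000000000) (nat_lit 0x10000d80000000001000004000000000000000000000000000000000000000000000000000) (nat_lit 4)
theorem c82616 : QOK q82616 := cut [] trivial (nd (nat_lit 206) (nat_lit 0) (cs (lf (nat_lit 46) (nat_lit 206)) (nd (nat_lit 274) (nat_lit 0) (cs (lf (nat_lit 12) (nat_lit 270)) (nd (nat_lit 272) (nat_lit 0) (cs (lf (nat_lit 12) (nat_lit 249)) (lf (nat_lit 6) (nat_lit 271)))))))) q82616 (by decide +kernel)
def q82617 : Q := Q.p (nat_lit 0x1e0000600003000000000000000000000000000000000000000000000000000000000000000) (nat_lit 0x1c0000000000000000000000000000000000000000000000000000000000000000000) (nat_lit 2)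
theorem c82617 : QOK q82617 := cut [] trivial (nd (nat_lit 271) (nat_lit 0) (cs (lf (nat_lit 13) (nat_lit 249)) (lf (nat_lit 23) (nat_lit 270)))) q82617 (by decide +kernel)
def q82623 : Q := Q.p (nat_lit 0xe0000200000800002000000000000000000000000000000000000000000000000000000000) (nat_lit 0x40000110000c00000000000000000000000000000000000000000000000000000000000000000000) (nat_lit 3)
theorem c82623 : QOK q82623 := cut [] trivial (nd (nat_lit 296) (nat_lit 0) (cs (lf (nat_lit 29) (nat_lit 229)) (nd (nat_lit 274) (nat_lit 0) (cs (lf (nat_lit 12) (nat_lit 270)) (lf (nat_lit 17) (nat_lit 271)))))) q82623 (by decide +kernel)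
def q82627 : Q := Q.p (nat_lit 0x80000200000800002000008000000000000000000000000000000000000000000000000000) (nat_lit 0x10000040000100000000000000000000000000000000000000000000000000000000000000000000) (nat_lit 2)
theorem c82627 : QOK q82627 := cut [] trivial (nd (nat_lit 294) (nat_lit 0) (cs (lf (nat_lit 41) (nat_lit 228)) (lf (nat_lit 40) (nat_lit 206)))) q82627 (by decide +kernel)
def q82634 : Q := Q.p (nat_lit 0x200001800002000008000000000000000000000000000000000000000000000000000) (nat_lit 0x400000000000000010000060000100000000000000000000000000000000000000000) (nat_lit 3)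
theorem c82634 : QOK q82634 := cut [] trivial (nd (nat_lit 186) (nat_lit 0) (cs (lf (nat_lit 34) (nat_lit 185)) (nd (nat_lit 185) (nat_lit 0) (cs (lf (nat_lit 29) (nat_lit 185)) (lf (nat_lit 35) (nat_lit 163)))))) q82634 (by decide +kernel)
def q82643 : Q := Q.p (nat_lit 0x30000380000000000000000000000000000000000000000000000000000000000000000000000000) (nat_lit 0xc000040000000000000000000000000000000000000000000000000000000000000000000000000) (nat_lit 2)
theorem c82643 : QOK q82643 := cut [] trivial (nd (nat_lit 315) (nat_lit 0) (cs (lf (nat_lit 12) (nat_lit 292)) (lf (nat_lit 9) (nat_lit 293)))) q82643 (by decide +kernel)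
def q82663 : Q := Q.p (nat_lit 0x400001c00000000000000000000000000000000000000000000000000000000000000) (nat_lit 0xae0000300000000000000000000000000000000000000000000000000000000000000) (nat_lit 4)
theorem c82663 : QOK q82663 := cut [] trivial (nd (nat_lit 249) (nat_lit 0) (cs (lf (nat_lit 5) (nat_lit 249)) (nd (nat_lit 270) (nat_lit 0) (cs (lf (nat_lit 10) (nat_lit 248)) (nd (nat_lit 248) (nat_lit 0) (cs (lf (nat_lit 11) (nat_lit 247)) (lf (nat_lit 4) (nat_lit 248)))))))) q82663 (by decide +kernel)
def q82666 : Q := Q.p (nat_lit 0x100000600001800000000000000000000000000000000000000000000000000000000000000) (nat_lit 0x40000000000000000000002000008000000000000000000000000000000000000000000000000000) (nat_lit 2)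
theorem c82666 : QOK q82666 := cut [] trivial (nd (nat_lit 229) (nat_lit 0) (cs (lf (nat_lit 42) (nat_lit 229)) (lf (nat_lit 24) (nat_lit 207)))) q82666 (by decide +kernel)
def q82685 : Q := Q.p (nat_lit 0x70000080000600000800000000000000000000000000000000000000000000000000000000000000) (nat_lit 0x80000070000000000000002000000000000000000000000000000000000000000000000000000000) (nat_lit 3)
theorem c82685 : QOK q82685 := cut [] trivial (nd (nat_lit 294) (nat_lit 0) (cs (lf (nat_lit 36) (nat_lit 228)) (nd (nat_lit 293) (nat_lit 0) (cs (lf (nat_lit 12) (nat_lit 270)) (lf (nat_lit 18) (nat_lit 293)))))) q82685 (by decide +kernel)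
def q82690 : Q := Q.p (nat_lit 0xe0000180000000000000000000000000000000000000000000000000000000000000000000000000) (nat_lit 0x100000060000000000000000000000000000000000000000000000000000000000000000000000000) (nat_lit 2)
theorem c82690 : QOK q82690 := cut [] trivial (nd (nat_lit 294) (nat_lit 0) (cs (lf (nat_lit 18) (nat_lit 294)) (lf (nat_lit 0) (nat_lit 293)))) q82690 (by decide +kernel)
def q82741 : Q := Q.p (nat_lit 0xf0000000000080000200000000000000000000000000000000000000000000000000000000000000) (nat_lit 0x7300000c000030000000000000000000000000000000000000000000000000000000000000000000000000) (nat_lit 5)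
theorem c82741 : QOK q82741 := cut [] trivial (nd (nat_lit 341) (nat_lit 0) (cs (lf (nat_lit 5) (nat_lit 316)) (nd (nat_lit 315) (nat_lit 0) (cs (lf (nat_lit 4) (nat_lit 315)) (nd (nat_lit 336) (nat_lit 0) (cs (lf (nat_lit 10) (nat_lit 314)) (nd (nat_lit 293) (nat_lit 0) (cs (lf (nat_lit 23) (nat_lit 292)) (lf (nat_lit 40) (nat_lit 248)))))))))) q82741 (by decide +kernel)
def q82756 : Q := Q.p (nat_lit 0x10000040000f0000000000000000000000000000000000000000000000000000000000000000000000000000000) (nat_lit 0xa00006800078000000000060000000000000000000000000000000000000000000000000000000000000000000000000) (nat_lit 6)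
theorem c82756 : QOK q82756 := cut [] trivial (nd (nat_lit 341) (nat_lit 0) (cs (lf (nat_lit 5) (nat_lit 316)) (nd (nat_lit 294) (nat_lit 0) (cs (lf (nat_lit 23) (nat_lit 293)) (nd (nat_lit 361) (nat_lit 0) (cs (lf (nat_lit 29) (nat_lit 294)) (nd (nat_lit 359) (nat_lit 0) (cs (lf (nat_lit 41) (nat_lit 293)) (nd (nat_lit 340) (nat_lit 0) (cs (lf (nat_lit 8) (nat_lit 337)) (lf (nat_lit 15) (nat_lit 337)))))))))))) q82756 (by decide +kernel)
def q82759 : Q := Q.p (nat_lit 0x1000004000030000000000000000000000000000000000000000000000000000000000000000000000000000000) (nat_lit 0x80000300000c00000000008000000000080000000000000000000000000000000000000000000000000000000000000000000000000) (nat_lit 4)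
theorem c82759 : QOK q82759 := cut [] trivial (nd (nat_lit 382) (nat_lit 0) (cs (lf (nat_lit 35) (nat_lit 294)) (nd (nat_lit 405) (nat_lit 0) (cs (lf (nat_lit 28) (nat_lit 316)) (nd (nat_lit 404) (nat_lit 0) (cs (lf (nat_lit 34) (nat_lit 316)) (lf (nat_lit 29) (nat_lit 338)))))))) q82759 (by decide +kernel)
def q82765 : Q := Q.p (nat_lit 0x1000004000030000000000000000000000000000000000000000000000000000000000000000000000000000000) (nat_lit 0xa0000380000e00000000000000000000080000000000000000000000000000000000000000000000000000000000000000000000000) (nat_lit 5)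
theorem c82765 : QOK q82765 := cut [] trivial (nd (nat_lit 382) (nat_lit 0) (cs (lf (nat_lit 35) (nat_lit 294)) (nd (nat_lit 403) (nat_lit 0) (cs (lf (nat_lit 40) (nat_lit 315)) (nd (nat_lit 405) (nat_lit 0) (cs (lf (nat_lit 28) (nat_lit 316)) (nd (nat_lit 404) (nat_lit 0) (cs (lf (nat_lit 41) (nat_lit 337)) (lf (nat_lit 29) (nat_lit 338)))))))))) q82765 (by decide +kernel)
def q82771 : Q := Q.p (nat_lit 0xf0000000000000000000000000000000000000000000000000000000000000000000000000000000) (nat_lit 0xe0001000000e0000000000000000000000000000000000000000000000000000000000000000000000000) (nat_lit 4)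
theorem c82771 : QOK q82771 := cut [] trivial (nd (nat_lit 294) (nat_lit 0) (cs (lf (nat_lit 23) (nat_lit 293)) (nd (nat_lit 338) (nat_lit 0) (cs (lf (nat_lit 11) (nat_lit 315)) (nd (nat_lit 320) (nat_lit 0) (cs (lf (nat_lit 22) (nat_lit 294)) (lf (nat_lit 10) (nat_lit 316)))))))) q82771 (by decide +kernel)
def q82774 : Q := Q.p (nat_lit 0xf0000000000080000200000800000000000000000000000000000000000000000000000000000000) (nat_lit 0xe00001000000e0000000000000000000000000000000000000000000000000000000000000000000000000) (nat_lit 4)
theorem c82774 : QOK q82774 := cut [] trivial (nd (nat_lit 294) (nat_lit 0) (cs (lf (nat_lit 27) (nat_lit 227)) (nd (nat_lit 342) (nat_lit 0) (cs (lf (nat_lit 4) (nat_lit 316)) (nd (nat_lit 320) (nat_lit 0) (cs (lf (nat_lit 22) (nat_lit 294)) (lf (nat_lit 5) (nat_lit 317)))))))) q82774 (by decide +kernel)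
def q82786 : Q := Q.p (nat_lit 0xf0000000000000000000000000000000000000000000000000000000000000000000000000000000) (nat_lit 0xee000100000000000000000000000000000000000000000000000000000000000000000000000000000000) (nat_lit 4)
theorem c82786 : QOK q82786 := cut [] trivial (nd (nat_lit 342) (nat_lit 0) (cs (lf (nat_lit 4) (nat_lit 316)) (nd (nat_lit 338) (nat_lit 0) (cs (lf (nat_lit 11) (nat_lit 315)) (nd (nat_lit 320) (nat_lit 0) (cs (lf (nat_lit 10) (nat_lit 316)) (lf (nat_lit 5) (nat_lit 317)))))))) q82786 (by decide +kernel)
def q82819 : Q := Q.p (nat_lit 0x50000000000000003c00000000000000000000000000000000000000000000000000000000000000) (nat_lit 0xa0000a8000070000180000000002000000000000000000000000000000000000000000000000000000000) (nat_lit 6)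
theorem c82819 : QOK q82819 := cut [] trivial (nd (nat_lit 272) (nat_lit 0) (cs (lf (nat_lit 11) (nat_lit 249)) (nd (nat_lit 294) (nat_lit 0) (cs (lf (nat_lit 35) (nat_lit 228)) (nd (nat_lit 315) (nat_lit 0) (cs (lf (nat_lit 41) (nat_lit 249)) (nd (nat_lit 317) (nat_lit 0) (cs (lf (nat_lit 29) (nat_lit 250)) (nd (nat_lit 293) (nat_lit 0) (cs (lf (nat_lit 23) (nat_lit 292)) (lf (nat_lit 18) (nat_lit 293)))))))))))) q82819 (by decide +kernel)
def q82840 : Q := Q.p (nat_lit 0x10000040000180000000000000002000000000000000000000000000000000000000000000000000000000000000) (nat_lit 0x4000000000000000000000200000800000000000000000000000000000000000000000000000000000000000000000000) (nat_lit 2)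
theorem c82840 : QOK q82840 := cut [] trivial (nd (nat_lit 297) (nat_lit 0) (cs (lf (nat_lit 42) (nat_lit 297)) (lf (nat_lit 25) (nat_lit 253)))) q82840 (by decide +kernel)
def q82876 : Q := Q.p (nat_lit 0xf0000000000000000000000000000000000000000000000000000000000000000000000000000000) (nat_lit 0x70000008000070000000000000000000000000000000000000000000000000000000000000000000000000) (nat_lit 4)
theorem c82876 : QOK q82876 := cut [] trivial (nd (nat_lit 293) (nat_lit 0) (cs (lf (nat_lit 22) (nat_lit 293)) (nd (nat_lit 341) (nat_lit 0) (cs (lf (nat_lit 5) (nat_lit 316)) (nd (nat_lit 315) (nat_lit 0) (cs (lf (nat_lit 23) (nat_lit 292)) (lf (nat_lit 4) (nat_lit 315)))))))) q82876 (by decide +kernel)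
def q83005 : Q := Q.p (nat_lit 0x78000000000000000000000000000000000000000000000000000000000000000000000000000000) (nat_lit 0x38000004000038000000000000000000000000000000000000000000000000000000000000000000000000) (nat_lit 4)
theorem c83005 : QOK q83005 := cut [] trivial (nd (nat_lit 292) (nat_lit 0) (cs (lf (nat_lit 22) (nat_lit 292)) (nd (nat_lit 340) (nat_lit 0) (cs (lf (nat_lit 5) (nat_lit 315)) (nd (nat_lit 314) (nat_lit 0) (cs (lf (nat_lit 23) (nat_lit 291)) (lf (nat_lit 4) (nat_lit 314)))))))) q83005 (by decide +kernel)
def q83008 : Q := Q.p (nat_lit 0x30000040000000000c00000000000000000000000000000000000000000000000000000000000000) (nat_lit 0x8000000000000000100000000002000000000000000000000000000000000000000000000000000000000) (nat_lit 2)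
theorem c83008 : QOK q83008 := cut [] trivial (nd (nat_lit 272) (nat_lit 0) (cs (lf (nat_lit 35) (nat_lit 228)) (lf (nat_lit 29) (nat_lit 250)))) q83008 (by decide +kernel)
def q83025 : Q := Q.p (nat_lit 0x78000000000000000000000000000000000000000000000000000000000000000000000000000000) (nat_lit 0x40003b8000000000000000000000000000000000000000000000000000000000000000000000000) (nat_lit 4)
theorem c83025 : QOK q83025 := cut [] trivial (nd (nat_lit 292) (nat_lit 0) (cs (lf (nat_lit 22) (nat_lit 292)) (nd (nat_lit 296) (nat_lit 0) (cs (lf (nat_lit 17) (nat_lit 293)) (nd (nat_lit 314) (nat_lit 0) (cs (lf (nat_lit 23) (nat_lit 291)) (lf (nat_lit 16) (nat_lit 292)))))))) q83025 (by decide +kernel)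
def q83097 : Q := Q.p (nat_lit 0x1e0000000000000000000000000000000000000000000000000000000000000000000000000000000) (nat_lit 0x1dc000200000000000000000000000000000000000000000000000000000000000000000000000000000000) (nat_lit 4)
theorem c83097 : QOK q83097 := cut [] trivial (nd (nat_lit 339) (nat_lit 0) (cs (lf (nat_lit 11) (nat_lit 316)) (nd (nat_lit 343) (nat_lit 0) (cs (lf (nat_lit 4) (nat_lit 317)) (nd (nat_lit 321) (nat_lit 0) (cs (lf (nat_lit 5) (nat_lit 318)) (lf (nat_lit 10) (nat_lit 317)))))))) q83097 (by decide +kernel)
def q83138 : Q := Q.p (nat_lit 0x16000060000180000000000000000000000000000000000000000000000000000000000000000000000000) (nat_lit 0x300000c000008000000000000000000000000000000000000000000000000000000000000000000000000000000000000) (nat_lit 3)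
theorem c83138 : QOK q83138 := cut [] trivial (nd (nat_lit 362) (nat_lit 0) (cs (lf (nat_lit 42) (nat_lit 295)) (nd (nat_lit 363) (nat_lit 0) (cs (lf (nat_lit 29) (nat_lit 296)) (lf (nat_lit 2) (nat_lit 337)))))) q83138 (by decide +kernel)
def q83234 : Q := Q.p (nat_lit 0x78000100000000000800000000000000000000000000000) (nat_lit 0x30000000000080000600000000000000000000000000000000000) (nat_lit 3)
theorem c83234 : QOK q83234 := cut [] trivial (nd (nat_lit 208) (nat_lit 0) (cs (lf (nat_lit 5) (nat_lit 183)) (nd (nat_lit 141) (nat_lit 0) (cs (lf (nat_lit 45) (nat_lit 119)) (lf (nat_lit 26) (nat_lit 119)))))) q83234 (by decide +kernel)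
def q83238 : Q := Q.p (nat_lit 0x2000018000020000080000800000000000000000000000000000) (nat_lit 0x40000140001600001c00000000000000000000000) (nat_lit 5)
theorem c83238 : QOK q83238 := cut [] trivial (nd (nat_lit 118) (nat_lit 0) (cs (lf (nat_lit 34) (nat_lit 117)) (nd (nat_lit 117) (nat_lit 0) (cs (lf (nat_lit 35) (nat_lit 95)) (nd (nat_lit 95) (nat_lit 0) (cs (lf (nat_lit 28) (nat_lit 95)) (nd (nat_lit 120) (nat_lit 0) (cs (lf (nat_lit 23) (nat_lit 94)) (lf (nat_lit 11) (nat_lit 116)))))))))) q83238 (by decide +kernel)
def q83296 : Q := Q.p (nat_lit 0x3c000000000000000000000000000000000000000000000) (nat_lit 0x1c000020001c0000000000000000000000000000000000000000) (nat_lit 4)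
theorem c83296 : QOK q83296 := cut [] trivial (nd (nat_lit 203) (nat_lit 0) (cs (lf (nat_lit 10) (nat_lit 181)) (nd (nat_lit 181) (nat_lit 0) (cs (lf (nat_lit 11) (nat_lit 180)) (nd (nat_lit 163) (nat_lit 0) (cs (lf (nat_lit 17) (nat_lit 160)) (lf (nat_lit 16) (nat_lit 159)))))))) q83296 (by decide +kernel)
def q83322 : Q := Q.p (nat_lit 0xc0000e0000000000000000000000000000000000000000000000) (nat_lit 0x3000010000000000000000000000000000000000000000000000) (nat_lit 2)
theorem c83322 : QOK q83322 := cut [] trivial (nd (nat_lit 205) (nat_lit 0) (cs (lf (nat_lit 12) (nat_lit 182)) (lf (nat_lit 9) (nat_lit 183)))) q83322 (by decide +kernel)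
def q83334 : Q := Q.p (nat_lit 0x800006000000000000000f0000000000000000000000000000000000000000000000) (nat_lit 0x1000006000000000000000000000000000000000000000000000000000) (nat_lit 2)
theorem c83334 : QOK q83334 := cut [] trivial (nd (nat_lit 206) (nat_lit 0) (cs (lf (nat_lit 11) (nat_lit 183)) (lf (nat_lit 38) (nat_lit 183)))) q83334 (by decide +kernel)
def q83337 : Q := Q.p (nat_lit 0x1e0000000000000000000000000000000000000000000000) (nat_lit 0x1c00002000001c0000000000000000000000000000000000000000) (nat_lit 4)
theorem c83337 : QOK q83337 := cut [] trivial (nd (nat_lit 211) (nat_lit 0) (cs (lf (nat_lit 4) (nat_lit 185)) (nd (nat_lit 163) (nat_lit 0) (cs (lf (nat_lit 23) (nat_lit 162)) (nd (nat_lit 189) (nat_lit 0) (cs (lf (nat_lit 5) (nat_lit 186)) (lf (nat_lit 22) (nat_lit 163)))))))) q83337 (by decide +kernel)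
def q83348 : Q := Q.p (nat_lit 0x80001e0000000000000000000000000000000000000000000000) (nat_lit 0x10000200001c00000000000000000000000000000000000000000) (nat_lit 3)
theorem c83348 : QOK q83348 := cut [] trivial (nd (nat_lit 167) (nat_lit 0) (cs (lf (nat_lit 16) (nat_lit 163)) (nd (nat_lit 189) (nat_lit 0) (cs (lf (nat_lit 17) (nat_lit 164)) (lf (nat_lit 10) (nat_lit 185)))))) q83348 (by decide +kernel)
def q83367 : Q := Q.p (nat_lit 0xf0000000000000000000000000000000000000000000000) (nat_lit 0x100001080007e0001980002000008000000000000000000000000) (nat_lit 8)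
theorem c83367 : QOK q83367 := cut [] trivial (nd (nat_lit 165) (nat_lit 0) (cs (lf (nat_lit 17) (nat_lit 162)) (nd (nat_lit 164) (nat_lit 0) (cs (lf (nat_lit 12) (nat_lit 161)) (nd (nat_lit 162) (nat_lit 0) (cs (lf (nat_lit 23) (nat_lit 161)) (nd (nat_lit 163) (nat_lit 0) (cs (lf (nat_lit 18) (nat_lit 162)) (nd (nat_lit 139) (nat_lit 0) (cs (lf (nat_lit 22) (nat_lit 139)) (nd (nat_lit 143) (nat_lit 0) (cs (lf (nat_lit 17) (nat_lit 140)) (nd (nat_lit 121) (nat_lit 0) (cs (lf (nat_lit 36) (nat_lit 98)) (lf (nat_lit 41) (nat_lit 120)))))))))))))))) q83367 (by decide +kernel)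
def q83383 : Q := Q.p (nat_lit 0x1e0000600000000000000000000000000000000000000000) (nat_lit 0x100002000001c0000300000800002000000000000000000000000) (nat_lit 5)
theorem c83383 : QOK q83383 := cut [] trivial (nd (nat_lit 163) (nat_lit 0) (cs (lf (nat_lit 23) (nat_lit 162)) (nd (nat_lit 164) (nat_lit 0) (cs (lf (nat_lit 18) (nat_lit 163)) (nd (nat_lit 141) (nat_lit 0) (cs (lf (nat_lit 23) (nat_lit 140)) (nd (nat_lit 119) (nat_lit 0) (cs (lf (nat_lit 24) (nat_lit 97)) (lf (nat_lit 29) (nat_lit 119)))))))))) q83383 (by decide +kernel)
def q83412 : Q := Q.p (nat_lit 0x2000008000020000140000000000000000000000000000000000000000000000) (nat_lit 0x800000000000000050000000000000000000000000000000000000000000000000000) (nat_lit 2)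
theorem c83412 : QOK q83412 := cut [] trivial (nd (nat_lit 275) (nat_lit 0) (cs (lf (nat_lit 34) (nat_lit 187)) (lf (nat_lit 46) (nat_lit 186)))) q83412 (by decide +kernel)
def q83416 : Q := Q.p (nat_lit 0x20000080000200000e0000000000000000000000000000000000000000000000) (nat_lit 0x110000600001000000000000000000000000000000000000) (nat_lit 3)
theorem c83416 : QOK q83416 := cut [] trivial (nd (nat_lit 166) (nat_lit 0) (cs (lf (nat_lit 34) (nat_lit 165)) (nd (nat_lit 165) (nat_lit 0) (cs (lf (nat_lit 12) (nat_lit 162)) (lf (nat_lit 35) (nat_lit 143)))))) q83416 (by decide +kernel)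
def q83451 : Q := Q.p (nat_lit 0x800003c000000000000000000000000000000000000000000000) (nat_lit 0x420001f8000760000c00003000000000000000000000000) (nat_lit 9)
theorem c83451 : QOK q83451 := cut [] trivial (nd (nat_lit 163) (nat_lit 0) (cs (lf (nat_lit 17) (nat_lit 160)) (nd (nat_lit 162) (nat_lit 0) (cs (lf (nat_lit 12) (nat_lit 159)) (nd (nat_lit 118) (nat_lit 0) (cs (lf (nat_lit 25) (nat_lit 118)) (nd (nat_lit 160) (nat_lit 0) (cs (lf (nat_lit 23) (nat_lit 159)) (nd (nat_lit 161) (nat_lit 0) (cs (lf (nat_lit 18) (nat_lit 160)) (nd (nat_lit 137) (nat_lit 0) (cs (lf (nat_lit 22) (nat_lit 137)) (nd (nat_lit 141) (nat_lit 0) (cs (lf (nat_lit 17) (nat_lit 138)) (nd (nat_lit 119) (nat_lit 0) (cs (lf (nat_lit 36) (nat_lit 96)) (lf (nat_lit 47) (nat_lit 96)))))))))))))))))) q83451 (by decide +kernel)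
def q83471 : Q := Q.p (nat_lit 0x80000e00003000000000004000000000000000000000000000000000000000000000) (nat_lit 0x180000600001000000000000000000000000000000000000000000000000000) (nat_lit 3)
theorem c83471 : QOK q83471 := cut [] trivial (nd (nat_lit 248) (nat_lit 0) (cs (lf (nat_lit 12) (nat_lit 225)) (nd (nat_lit 226) (nat_lit 0) (cs (lf (nat_lit 23) (nat_lit 225)) (lf (nat_lit 25) (nat_lit 182)))))) q83471 (by decide +kernel)
def q83490 : Q := Q.p (nat_lit 0x3c000000000000000000000000000000000000000000000) (nat_lit 0x20001dc000000000000000000000000000000000000000) (nat_lit 4)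
theorem c83490 : QOK q83490 := cut [] trivial (nd (nat_lit 159) (nat_lit 0) (cs (lf (nat_lit 22) (nat_lit 159)) (nd (nat_lit 163) (nat_lit 0) (cs (lf (nat_lit 17) (nat_lit 160)) (nd (nat_lit 181) (nat_lit 0) (cs (lf (nat_lit 23) (nat_lit 158)) (lf (nat_lit 16) (nat_lit 159)))))))) q83490 (by decide +kernel)
def q83513 : Q := Q.p (nat_lit 0x8000038000000000000000000000000000000000000000000000) (nat_lit 0x15c00006000000000000000000000000000000000000000000000) (nat_lit 4)
theorem c83513 : QOK q83513 := cut [] trivial (nd (nat_lit 182) (nat_lit 0) (cs (lf (nat_lit 5) (nat_lit 182)) (nd (nat_lit 203) (nat_lit 0) (cs (lf (nat_lit 10) (nat_lit 181)) (nd (nat_lit 181) (nat_lit 0) (cs (lf (nat_lit 11) (nat_lit 180)) (lf (nat_lit 4) (nat_lit 181)))))))) q83513 (by decide +kernel)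
def q83522 : Q := Q.p (nat_lit 0x800002000008000038000000000000000000000000000000000000000000000) (nat_lit 0x770001c0000f30000000000000000000000000000000000000000) (nat_lit 8)
theorem c83522 : QOK q83522 := cut [] trivial (nd (nat_lit 186) (nat_lit 0) (cs (lf (nat_lit 35) (nat_lit 163)) (nd (nat_lit 204) (nat_lit 0) (cs (lf (nat_lit 10) (nat_lit 182)) (nd (nat_lit 160) (nat_lit 0) (cs (lf (nat_lit 22) (nat_lit 160)) (nd (nat_lit 209) (nat_lit 0) (cs (lf (nat_lit 4) (nat_lit 183)) (nd (nat_lit 187) (nat_lit 0) (cs (lf (nat_lit 5) (nat_lit 184)) (nd (nat_lit 166) (nat_lit 0) (cs (lf (nat_lit 16) (nat_lit 162)) (nd (nat_lit 188) (nat_lit 0) (cs (lf (nat_lit 17) (nat_lit 163)) (lf (nat_lit 11) (nat_lit 184)))))))))))))))) q83522 (by decide +kernel)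
def q83525 : Q := Q.p (nat_lit 0x800002000008000038000000000000000000000000000000000000000000000) (nat_lit 0x44000180000400000000000000000000000000000000000) (nat_lit 3)
theorem c83525 : QOK q83525 := cut [] trivial (nd (nat_lit 164) (nat_lit 0) (cs (lf (nat_lit 34) (nat_lit 163)) (nd (nat_lit 163) (nat_lit 0) (cs (lf (nat_lit 35) (nat_lit 141)) (lf (nat_lit 12) (nat_lit 160)))))) q83525 (by decide +kernel)
def q83580 : Q := Q.p (nat_lit 0x200000800002c000080000000000000000000000000000000000000000000000) (nat_lit 0x10000100000400000000000000000000000000000000000000000) (nat_lit 2)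
theorem c83580 : QOK q83580 := cut [] trivial (nd (nat_lit 188) (nat_lit 0) (cs (lf (nat_lit 35) (nat_lit 165)) (lf (nat_lit 14) (nat_lit 184)))) q83580 (by decide +kernel)
def q83612 : Q := Q.p (nat_lit 0x600001c00000000000000000000000000000000000000000000000000000000000000) (nat_lit 0x800000300000000000000000000000000000000000000000000000000000000000000) (nat_lit 2)
theorem c83612 : QOK q83612 := cut [] trivial (nd (nat_lit 249) (nat_lit 0) (cs (lf (nat_lit 0) (nat_lit 248)) (lf (nat_lit 5) (nat_lit 249)))) q83612 (by decide +kernel)
def q83619 : Q := Q.p (nat_lit 0x400001800000000078000000000000000000000000000000000000000000000000000) (nat_lit 0x2000000000030000000000000000000000000000000000000000000000) (nat_lit 2)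
theorem c83619 : QOK q83619 := cut [] trivial (nd (nat_lit 185) (nat_lit 0) (cs (lf (nat_lit 23) (nat_lit 184)) (lf (nat_lit 26) (nat_lit 185)))) q83619 (by decide +kernel)
def q83627 : Q := Q.p (nat_lit 0x7000018000020000000000000000000000000000000000000000000000000000) (nat_lit 0x400000000000000000000080000200000000000000000000000000000000000000000) (nat_lit 2)
theorem c83627 : QOK q83627 := cut [] trivial (nd (nat_lit 187) (nat_lit 0) (cs (lf (nat_lit 41) (nat_lit 186)) (lf (nat_lit 24) (nat_lit 165)))) q83627 (by decide +kernel)
def q83637 : Q := Q.p (nat_lit 0x100000600003800000000000000000000000000000000000000000000000000000000000000) (nat_lit 0x10000040000000000000000000008000000000000000000000000000000000000000000000000000000000) (nat_lit 2)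
theorem c83637 : QOK q83637 := cut [] trivial (nd (nat_lit 318) (nat_lit 0) (cs (lf (nat_lit 35) (nat_lit 230)) (lf (nat_lit 42) (nat_lit 251)))) q83637 (by decide +kernel)
def q83646 : Q := Q.p (nat_lit 0x20000080000600003800000000000000000000000000000000000000000000000000000000000000) (nat_lit 0x1000004000010000000000000000a000000000000000000000000000000000000000000000000000000000) (nat_lit 3)
theorem c83646 : QOK q83646 := cut [] trivial (nd (nat_lit 318) (nat_lit 0) (cs (lf (nat_lit 29) (nat_lit 251)) (nd (nat_lit 296) (nat_lit 0) (cs (lf (nat_lit 35) (nat_lit 230)) (lf (nat_lit 47) (nat_lit 229)))))) q83646 (by decide +kernel)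
def q83711 : Q := Q.p (nat_lit 0x3000007000000000000000000000000000000000000000000000000000000000) (nat_lit 0xc800000000000000000000000000000000000000000000000000000000000000) (nat_lit 2)
theorem c83711 : QOK q83711 := cut [] trivial (nd (nat_lit 254) (nat_lit 0) (cs (lf (nat_lit 18) (nat_lit 229)) (lf (nat_lit 21) (nat_lit 228)))) q83711 (by decide +kernel)
def q83717 : Q := Q.p (nat_lit 0x10000040000100000400000000000000000000000000000000000000000000000000000000000000000000) (nat_lit 0x280000e000028000000000000000000000000000000000000000000000000000000000000000000000000000000000000) (nat_lit 4)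
theorem c83717 : QOK q83717 := cut [] trivial (nd (nat_lit 363) (nat_lit 0) (cs (lf (nat_lit 28) (nat_lit 274)) (nd (nat_lit 361) (nat_lit 0) (cs (lf (nat_lit 40) (nat_lit 273)) (nd (nat_lit 362) (nat_lit 0) (cs (lf (nat_lit 29) (nat_lit 296)) (lf (nat_lit 41) (nat_lit 295)))))))) q83717 (by decide +kernel)
def q83739 : Q := Q.p (nat_lit 0x800002000000000078000100000000000000000000000000000000000000000000000) (nat_lit 0x4000030000000000000000000000000000000000000000000000000000000000) (nat_lit 2)
theorem c83739 : QOK q83739 := cut [] trivial (nd (nat_lit 232) (nat_lit 0) (cs (lf (nat_lit 5) (nat_lit 207)) (lf (nat_lit 39) (nat_lit 187)))) q83739 (by decide +kernel)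
def q83746 : Q := Q.p (nat_lit 0x4000010000040000f0000000000000000000000000000000000000000000000000000) (nat_lit 0x8000720000000000000000000000000000000000000000000000) (nat_lit 3)
theorem c83746 : QOK q83746 := cut [] trivial (nd (nat_lit 189) (nat_lit 0) (cs (lf (nat_lit 17) (nat_lit 186)) (nd (nat_lit 207) (nat_lit 0) (cs (lf (nat_lit 16) (nat_lit 185)) (lf (nat_lit 47) (nat_lit 185)))))) q83746 (by decide +kernel)
def q83801 : Q := Q.p (nat_lit 0x3e0000000000000000000000000000000000000000000000000000000000000000000000000) (nat_lit 0x1c000000000000000000000000000000000000000000000000000000000000000000000000000000) (nat_lit 2)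
theorem c83801 : QOK q83801 := cut [] trivial (nd (nat_lit 315) (nat_lit 0) (cs (lf (nat_lit 11) (nat_lit 292)) (lf (nat_lit 10) (nat_lit 293)))) q83801 (by decide +kernel)
def q83805 : Q := Q.p (nat_lit 0x1800004000010000040000000000000000000000000000000000000000000000) (nat_lit 0x2000000000020000180000200000000000000000000000000000000000) (nat_lit 3)
theorem c83805 : QOK q83805 := cut [] trivial (nd (nat_lit 163) (nat_lit 0) (cs (lf (nat_lit 46) (nat_lit 163)) (nd (nat_lit 164) (nat_lit 0) (cs (lf (nat_lit 40) (nat_lit 163)) (lf (nat_lit 47) (nat_lit 141)))))) q83805 (by decide +kernel)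
def q83821 : Q := Q.p (nat_lit 0x700003000000000000000000000000000000000000000000000000000000000000000) (nat_lit 0x80000c000000000000000000000000000000000000000000000000000000000000000) (nat_lit 2)
theorem c83821 : QOK q83821 := cut [] trivial (nd (nat_lit 254) (nat_lit 0) (cs (lf (nat_lit 15) (nat_lit 250)) (lf (nat_lit 6) (nat_lit 251)))) q83821 (by decide +kernel)
def q83825 : Q := Q.p (nat_lit 0x3c0000400000000000000000000000000000000000000000000000000000000000000000000) (nat_lit 0x1c000020000800000000000000000000000000000000000000000000000000000000000000000000) (nat_lit 3)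
theorem c83825 : QOK q83825 := cut [] trivial (nd (nat_lit 315) (nat_lit 0) (cs (lf (nat_lit 10) (nat_lit 293)) (nd (nat_lit 293) (nat_lit 0) (cs (lf (nat_lit 11) (nat_lit 292)) (lf (nat_lit 17) (nat_lit 271)))))) q83825 (by decide +kernel)
def q83840 : Q := Q.p (nat_lit 0x40000180000600002000000000000000000000000000000000000000000000000000000000000000) (nat_lit 0x4000010000000000000000800000000000000000000000000000000000000000000000000000000000000000000) (nat_lit 2)
theorem c83840 : QOK q83840 := cut [] trivial (nd (nat_lit 340) (nat_lit 0) (cs (lf (nat_lit 34) (nat_lit 252)) (lf (nat_lit 42) (nat_lit 273)))) q83840 (by decide +kernel)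
def q83845 : Q := Q.p (nat_lit 0x180000600001000000000000000000000000000000000000000000000000000000000000000) (nat_lit 0x20000000000000000000004000010000000000000000000000000000000000000000000000000000) (nat_lit 2)
theorem c83845 : QOK q83845 := cut [] trivial (nd (nat_lit 230) (nat_lit 0) (cs (lf (nat_lit 41) (nat_lit 229)) (lf (nat_lit 36) (nat_lit 207)))) q83845 (by decide +kernel)
def q83848 : Q := Q.p (nat_lit 0x380000600000000000000000000000000000000000000000000000000000000000000000000) (nat_lit 0xc00000100000000000000000000000000000000000000000000000000000000000000000000) (nat_lit 2)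
theorem c83848 : QOK q83848 := cut [] trivial (nd (nat_lit 298) (nat_lit 0) (cs (lf (nat_lit 18) (nat_lit 273)) (lf (nat_lit 23) (nat_lit 272)))) q83848 (by decide +kernel)
def q83881 : Q := Q.p (nat_lit 0x1c0000680000000000000000000000000000000000000000000000000000000000000000000) (nat_lit 0x30000040000000000000000000000000000000000000000000000000000000000000000000) (nat_lit 2)
theorem c83881 : QOK q83881 := cut [] trivial (nd (nat_lit 293) (nat_lit 0) (cs (lf (nat_lit 23) (nat_lit 270)) (lf (nat_lit 12) (nat_lit 270)))) q83881 (by decide +kernel)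
def q83899 : Q := Q.p (nat_lit 0x180000700003400004000000000000000000000000000000000000000000000000000000000) (nat_lit 0x380000c000000000000000000000000000000000000000000000000000) (nat_lit 3)
theorem c83899 : QOK q83899 := cut [] trivial (nd (nat_lit 229) (nat_lit 0) (cs (lf (nat_lit 47) (nat_lit 207)) (nd (nat_lit 228) (nat_lit 0) (cs (lf (nat_lit 0) (nat_lit 227)) (lf (nat_lit 24) (nat_lit 206)))))) q83899 (by decide +kernel)
def q83933 : Q := Q.p (nat_lit 0x80000300000400001000000000000000000000000000000000000000000000000000000000000000) (nat_lit 0x8000020000040000000000000000000000000000000000000000000000000000000000000000000000000000000) (nat_lit 2)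
theorem c83933 : QOK q83933 := cut [] trivial (nd (nat_lit 341) (nat_lit 0) (cs (lf (nat_lit 42) (nat_lit 274)) (lf (nat_lit 27) (nat_lit 252)))) q83933 (by decide +kernel)
def q83974 : Q := Q.p (nat_lit 0x400007c00000000000000000000000000000000000000000000000000000000000000) (nat_lit 0xb00000300000000000000000000000000000000000000000000000000000000000000) (nat_lit 3)
theorem c83974 : QOK q83974 := cut [] trivial (nd (nat_lit 249) (nat_lit 0) (cs (lf (nat_lit 5) (nat_lit 249)) (nd (nat_lit 273) (nat_lit 0) (cs (lf (nat_lit 0) (nat_lit 248)) (lf (nat_lit 11) (nat_lit 250)))))) q83974 (by decide +kernel)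
def q83982 : Q := Q.p (nat_lit 0x440000e000000000000000000000000000000000000000000000000000000000000000) (nat_lit 0x8800010000000000000000000000000000000000000000000000000000000000000000) (nat_lit 2)
theorem c83982 : QOK q83982 := cut [] trivial (nd (nat_lit 256) (nat_lit 0) (cs (lf (nat_lit 10) (nat_lit 252)) (lf (nat_lit 5) (nat_lit 253)))) q83982 (by decide +kernel)
def q83986 : Q := Q.p (nat_lit 0x20000080000600001000000000000000000000000000000000000000000000000000000000000000) (nat_lit 0x100000000000000004000010000000000000000000000000000000000000000000000000000) (nat_lit 2)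
theorem c83986 : QOK q83986 := cut [] trivial (nd (nat_lit 230) (nat_lit 0) (cs (lf (nat_lit 39) (nat_lit 229)) (lf (nat_lit 36) (nat_lit 207)))) q83986 (by decide +kernel)
def q83989 : Q := Q.p (nat_lit 0xe0000300000600000000000000000000000000000000000000000000000000000000000000000000) (nat_lit 0x10000c00000000000000000000000000000000000000000000000000000000000000000000000000) (nat_lit 2)
theorem c83989 : QOK q83989 := cut [] trivial (nd (nat_lit 298) (nat_lit 0) (cs (lf (nat_lit 18) (nat_lit 273)) (lf (nat_lit 12) (nat_lit 294)))) q83989 (by decide +kernel)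
def q83996 : Q := Q.p (nat_lit 0xc0000200000000003000000000000000000000000000000000000000000000000000000000000000) (nat_lit 0x10000000000000000800000000004000000000000000000000000000000000000000000000000000000000) (nat_lit 2)
theorem c83996 : QOK q83996 := cut [] trivial (nd (nat_lit 275) (nat_lit 0) (cs (lf (nat_lit 41) (nat_lit 252)) (lf (nat_lit 47) (nat_lit 230)))) q83996 (by decide +kernel)
def q84000 : Q := Q.p (nat_lit 0x80000200000400003000000000000000000000000000000000000000000000000000000000000000) (nat_lit 0x20000000000000000800000000004000000000000000000000000000000000000000000000000000000000) (nat_lit 2)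
theorem c84000 : QOK q84000 := cut [] trivial (nd (nat_lit 275) (nat_lit 0) (cs (lf (nat_lit 42) (nat_lit 252)) (lf (nat_lit 47) (nat_lit 230)))) q84000 (by decide +kernel)
def q84037 : Q := Q.p (nat_lit 0x60000080000200000000000000000000000000000000000000000000000000000000000000000000) (nat_lit 0x1000004000010000000000100000000000800000000000000000000000000000000000000000000000000000000000000) (nat_lit 3)
theorem c84037 : QOK q84037 := cut [] trivial (nd (nat_lit 340) (nat_lit 0) (cs (lf (nat_lit 24) (nat_lit 251)) (nd (nat_lit 362) (nat_lit 0) (cs (lf (nat_lit 42) (nat_lit 295)) (lf (nat_lit 45) (nat_lit 273)))))) q84037 (by decide +kernel)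
def q84040 : Q := Q.p (nat_lit 0x20000080000600001000000000000000000000000000000000000000000000000000000000000000) (nat_lit 0x800004000010000000000000000000000000000000000000000000000000000) (nat_lit 2)
theorem c84040 : QOK q84040 := cut [] trivial (nd (nat_lit 230) (nat_lit 0) (cs (lf (nat_lit 36) (nat_lit 207)) (lf (nat_lit 33) (nat_lit 229)))) q84040 (by decide +kernel)
def q84072 : Q := Q.p (nat_lit 0x700003000000000000000000000000000000000000000000000000000000000000000) (nat_lit 0xc800000000000000000000000000000000000000000000000000000000000000) (nat_lit 2)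
theorem c84072 : QOK q84072 := cut [] trivial (nd (nat_lit 254) (nat_lit 0) (cs (lf (nat_lit 6) (nat_lit 251)) (lf (nat_lit 9) (nat_lit 250)))) q84072 (by decide +kernel)
def q84104 : Q := Q.p (nat_lit 0x600003000004000000000000000000000000000000000000000000000000000000000) (nat_lit 0x80000800000800000000010000040000000000000000000000000000000000000000000000) (nat_lit 3)
theorem c84104 : QOK q84104 := cut [] trivial (nd (nat_lit 208) (nat_lit 0) (cs (lf (nat_lit 41) (nat_lit 207)) (nd (nat_lit 186) (nat_lit 0) (cs (lf (nat_lit 29) (nat_lit 186)) (lf (nat_lit 40) (nat_lit 185)))))) q84104 (by decide +kernel)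
def q84108 : Q := Q.p (nat_lit 0xf00003000004000000000000000000000000000000000000000000000000000000000) (nat_lit 0x80000600000000000000000000000000000000000000000000000000000000000000000000000000) (nat_lit 2)
theorem c84108 : QOK q84108 := cut [] trivial (nd (nat_lit 297) (nat_lit 0) (cs (lf (nat_lit 42) (nat_lit 230)) (lf (nat_lit 5) (nat_lit 272)))) q84108 (by decide +kernel)
def q84114 : Q := Q.p (nat_lit 0x40000700000400001000000000000000000000000000000000000000000000000000000000) (nat_lit 0x8000020000800000000000000000000000000000000000000000000000000000000000000000000) (nat_lit 2)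
theorem c84114 : QOK q84114 := cut [] trivial (nd (nat_lit 293) (nat_lit 0) (cs (lf (nat_lit 41) (nat_lit 227)) (lf (nat_lit 6) (nat_lit 271)))) q84114 (by decide +kernel)
def q84121 : Q := Q.p (nat_lit 0x600003c00000000000000000000000000000000000000000000000000000000000000) (nat_lit 0x300001c00000000000000000000000000000000000000000000000000000000) (nat_lit 3)
theorem c84121 : QOK q84121 := cut [] trivial (nd (nat_lit 227) (nat_lit 0) (cs (lf (nat_lit 22) (nat_lit 227)) (nd (nat_lit 249) (nat_lit 0) (cs (lf (nat_lit 23) (nat_lit 226)) (lf (nat_lit 0) (nat_lit 248)))))) q84121 (by decide +kernel)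
def q84170 : Q := Q.p (nat_lit 0x20000180000400001000000000000000000000000000000000000000000000000000000000000000) (nat_lit 0x2000008000040000000000000000000000000000000000000000000000000000000000000000000000000000000) (nat_lit 2)
theorem c84170 : QOK q84170 := cut [] trivial (nd (nat_lit 339) (nat_lit 0) (cs (lf (nat_lit 30) (nat_lit 273)) (lf (nat_lit 39) (nat_lit 251)))) q84170 (by decide +kernel)
def q84202 : Q := Q.p (nat_lit 0x180000600003000004000000000000000000000000000000000000000000000000000000000) (nat_lit 0x80000600000180000000000000000000000000000000000000000000000000000000000000000000) (nat_lit 3)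
theorem c84202 : QOK q84202 := cut [] trivial (nd (nat_lit 272) (nat_lit 0) (cs (lf (nat_lit 12) (nat_lit 249)) (nd (nat_lit 297) (nat_lit 0) (cs (lf (nat_lit 29) (nat_lit 230)) (lf (nat_lit 18) (nat_lit 272)))))) q84202 (by decide +kernel)
def q84218 : Q := Q.p (nat_lit 0x380000600003000000000000000000000000000000000000000000000000000000000000000) (nat_lit 0x400000180000000000000000000000000000000000000000000000000000000000000000000) (nat_lit 2)
theorem c84218 : QOK q84218 := cut [] trivial (nd (nat_lit 272) (nat_lit 0) (cs (lf (nat_lit 12) (nat_lit 249)) (lf (nat_lit 18) (nat_lit 272)))) q84218 (by decide +kernel)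
def q84227 : Q := Q.p (nat_lit 0x600001800004000000000000000000000000000000000000000000000000000000000) (nat_lit 0x80000000000000000000010000040000000000000000000000000000000000000000000000) (nat_lit 2)
theorem c84227 : QOK q84227 := cut [] trivial (nd (nat_lit 208) (nat_lit 0) (cs (lf (nat_lit 41) (nat_lit 207)) (lf (nat_lit 36) (nat_lit 185)))) q84227 (by decide +kernel)
def q84235 : Q := Q.p (nat_lit 0x4000010000040000100000400000000000000000000000000000000000000000000000000000000000000000000) (nat_lit 0x80000200000800000000000000000000000000000000000000000000000000000000000000) (nat_lit 2)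
theorem c84235 : QOK q84235 := cut [] trivial (nd (nat_lit 273) (nat_lit 0) (cs (lf (nat_lit 47) (nat_lit 251)) (lf (nat_lit 46) (nat_lit 273)))) q84235 (by decide +kernel)
def q84256 : Q := Q.p (nat_lit 0x3800003000000000000000000000000000000000000000000000000000000000) (nat_lit 0x400000c00000000000000000000000000000000000000000000000000000000) (nat_lit 2)
theorem c84256 : QOK q84256 := cut [] trivial (nd (nat_lit 227) (nat_lit 0) (cs (lf (nat_lit 21) (nat_lit 227)) (lf (nat_lit 0) (nat_lit 226)))) q84256 (by decide +kernel)
def q84262 : Q := Q.p (nat_lit 0x600003800002000000000000000000000000000000000000000000000000000000000) (nat_lit 0xc000001000000000000000000000000000000000000000000000000000000000) (nat_lit 2)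
theorem c84262 : QOK q84262 := cut [] trivial (nd (nat_lit 254) (nat_lit 0) (cs (lf (nat_lit 23) (nat_lit 228)) (lf (nat_lit 6) (nat_lit 251)))) q84262 (by decide +kernel)
def q84289 : Q := Q.p (nat_lit 0x20000180000400001000000000000000000000000000000000000000000000000000000000000000) (nat_lit 0x8000040000000000200000000000000000000000000000000000000000000000000000000000000000000) (nat_lit 2)
theorem c84289 : QOK q84289 := cut [] trivial (nd (nat_lit 339) (nat_lit 0) (cs (lf (nat_lit 33) (nat_lit 251)) (lf (nat_lit 39) (nat_lit 251)))) q84289 (by decide +kernel)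
def q84303 : Q := Q.p (nat_lit 0x80001e0000000000000000000000000000000000000000000000000000) (nat_lit 0x10000e10000f00000000000000000000000000000000000000000000000) (nat_lit 5)
theorem c84303 : QOK q84303 := cut [] trivial (nd (nat_lit 190) (nat_lit 0) (cs (lf (nat_lit 17) (nat_lit 187)) (nd (nat_lit 189) (nat_lit 0) (cs (lf (nat_lit 12) (nat_lit 186)) (nd (nat_lit 213) (nat_lit 0) (cs (lf (nat_lit 10) (nat_lit 209)) (nd (nat_lit 214) (nat_lit 0) (cs (lf (nat_lit 23) (nat_lit 188)) (lf (nat_lit 18) (nat_lit 189)))))))))) q84303 (by decide +kernel)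
def q84308 : Q := Q.p (nat_lit 0x40000180000600000000000000000000000000000000000000000000000) (nat_lit 0x10000000000000000000000800002000000000000000000000000000000000000) (nat_lit 2)
theorem c84308 : QOK q84308 := cut [] trivial (nd (nat_lit 167) (nat_lit 0) (cs (lf (nat_lit 24) (nat_lit 145)) (lf (nat_lit 42) (nat_lit 167)))) q84308 (by decide +kernel)
def q84313 : Q := Q.p (nat_lit 0x30000480001c0000000000000000000000000000000000000000000000000000) (nat_lit 0x30000200000000000000000000000000000000000000000000000000000) (nat_lit 2)
theorem c84313 : QOK q84313 := cut [] trivial (nd (nat_lit 232) (nat_lit 0) (cs (lf (nat_lit 6) (nat_lit 209)) (lf (nat_lit 7) (nat_lit 230)))) q84313 (by decide +kernel)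
def q84318 : Q := Q.p (nat_lit 0xf0000000000000000000000000000000000000000000000000000) (nat_lit 0x70000008000070000000000000000000000000000000000000000000000) (nat_lit 4)
theorem c84318 : QOK q84318 := cut [] trivial (nd (nat_lit 185) (nat_lit 0) (cs (lf (nat_lit 22) (nat_lit 185)) (nd (nat_lit 233) (nat_lit 0) (cs (lf (nat_lit 5) (nat_lit 208)) (nd (nat_lit 207) (nat_lit 0) (cs (lf (nat_lit 4) (nat_lit 207)) (lf (nat_lit 23) (nat_lit 184)))))))) q84318 (by decide +kernel)
def q84327 : Q := Q.p (nat_lit 0xc000060000000000000000000000000000000000000000000000000000) (nat_lit 0x13000180000000000000000000000000000000000000000000000000000) (nat_lit 3)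
theorem c84327 : QOK q84327 := cut [] trivial (nd (nat_lit 211) (nat_lit 0) (cs (lf (nat_lit 6) (nat_lit 208)) (nd (nat_lit 229) (nat_lit 0) (cs (lf (nat_lit 12) (nat_lit 206)) (lf (nat_lit 15) (nat_lit 207)))))) q84327 (by decide +kernel)
def q84328 : Q := Q.p (nat_lit 0x600001c0000000000000000000000000000000000000000000000) (nat_lit 0x80000030000000000000000000000000000000000000000000000) (nat_lit 2)
theorem c84328 : QOK q84328 := cut [] trivial (nd (nat_lit 185) (nat_lit 0) (cs (lf (nat_lit 0) (nat_lit 184)) (lf (nat_lit 5) (nat_lit 185)))) q84328 (by decide +kernel)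
def q84339 : Q := Q.p (nat_lit 0x80000200000e00003000000000000000000000000000000000000000000000000000000000000000) (nat_lit 0xc000010000000000000000000000000000000000000000000000000000000000) (nat_lit 2)
theorem c84339 : QOK q84339 := cut [] trivial (nd (nat_lit 254) (nat_lit 0) (cs (lf (nat_lit 35) (nat_lit 231)) (lf (nat_lit 6) (nat_lit 251)))) q84339 (by decide +kernel)
def q84347 : Q := Q.p (nat_lit 0xc0000b000000000000000000000000000000000000000000000000000000000000000) (nat_lit 0x200014000000000000000000000000000000000000000000000000000000000000000) (nat_lit 2)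
theorem c84347 : QOK q84347 := cut [] trivial (nd (nat_lit 254) (nat_lit 0) (cs (lf (nat_lit 6) (nat_lit 252)) (lf (nat_lit 11) (nat_lit 251)))) q84347 (by decide +kernel)
def q84386 : Q := Q.p (nat_lit 0x2000008000020000080000000000000000000000000000000000000000000000) (nat_lit 0x4000010000040000040000700001c00004000000000000000000000000000000) (nat_lit 6)
theorem c84386 : QOK q84386 := cut [] trivial (nd (nat_lit 164) (nat_lit 0) (cs (lf (nat_lit 46) (nat_lit 164)) (nd (nat_lit 165) (nat_lit 0) (cs (lf (nat_lit 47) (nat_lit 142)) (nd (nat_lit 144) (nat_lit 0) (cs (lf (nat_lit 34) (nat_lit 143)) (nd (nat_lit 232) (nat_lit 0) (cs (nd (nat_lit 143) (nat_lit 0) (cs (lf (nat_lit 35) (nat_lit 121)) (lf (nat_lit 28) (nat_lit 143)))) (lf (nat_lit 29) (nat_lit 165)))))))))) q84386 (by decide +kernel)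
def q84392 : Q := Q.p (nat_lit 0x2000008000020000080000000000000000000000000000000000000000000000) (nat_lit 0x4000010000040000100000700001c00001000000000000000000000000000000) (nat_lit 6)
theorem c84392 : QOK q84392 := cut [] trivial (nd (nat_lit 166) (nat_lit 0) (cs (lf (nat_lit 34) (nat_lit 165)) (nd (nat_lit 165) (nat_lit 0) (cs (lf (nat_lit 35) (nat_lit 143)) (nd (nat_lit 142) (nat_lit 0) (cs (lf (nat_lit 46) (nat_lit 142)) (nd (nat_lit 232) (nat_lit 0) (cs (lf (nat_lit 29) (nat_lit 165)) (nd (nat_lit 143) (nat_lit 0) (cs (lf (nat_lit 47) (nat_lit 120)) (lf (nat_lit 28) (nat_lit 143)))))))))))) q84392 (by decide +kernel)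
def q84398 : Q := Q.p (nat_lit 0x2000018000070000000000000000000000000000000000000000000000000000) (nat_lit 0x200000800000000000000000000040000000000000000000000000000000000000000000000) (nat_lit 2)
theorem c84398 : QOK q84398 := cut [] trivial (nd (nat_lit 275) (nat_lit 0) (cs (lf (nat_lit 47) (nat_lit 186)) (lf (nat_lit 30) (nat_lit 209)))) q84398 (by decide +kernel)
def q84408 : Q := Q.p (nat_lit 0xe00003000000000000000000000000000000000000000000000000000000000000000) (nat_lit 0x10000c000000000000000000000000000000000000000000000000000000000000000) (nat_lit 2)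
theorem c84408 : QOK q84408 := cut [] trivial (nd (nat_lit 254) (nat_lit 0) (cs (lf (nat_lit 12) (nat_lit 250)) (lf (nat_lit 6) (nat_lit 251)))) q84408 (by decide +kernel)
def q84417 : Q := Q.p (nat_lit 0x300000e000000000000000000000000000000000000000000000000000000000) (nat_lit 0x4000001800000000000000000000000000000000000000000000000000000000) (nat_lit 2)
theorem c84417 : QOK q84417 := cut [] trivial (nd (nat_lit 228) (nat_lit 0) (cs (lf (nat_lit 0) (nat_lit 227)) (lf (nat_lit 5) (nat_lit 228)))) q84417 (by decide +kernel)
def q84422 : Q := Q.p (nat_lit 0x300001e000000000000000000000000000000000000000000000000000000000) (nat_lit 0x1c000060000000000000000000000000000000000000000000000000000000000) (nat_lit 3)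
theorem c84422 : QOK q84422 := cut [] trivial (nd (nat_lit 233) (nat_lit 0) (cs (lf (nat_lit 6) (nat_lit 230)) (nd (nat_lit 255) (nat_lit 0) (cs (lf (nat_lit 5) (nat_lit 230)) (lf (nat_lit 19) (nat_lit 229)))))) q84422 (by decide +kernel)
def q84424 : Q := Q.p (nat_lit 0x300001c000080000000000000000000000000000000000000000000000000000) (nat_lit 0x60000100000000000000000000000000000000000000000000000000000) (nat_lit 2)
theorem c84424 : QOK q84424 := cut [] trivial (nd (nat_lit 233) (nat_lit 0) (cs (lf (nat_lit 6) (nat_lit 230)) (lf (nat_lit 17) (nat_lit 208)))) q84424 (by decide +kernel)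
def q84431 : Q := Q.p (nat_lit 0x20000040000300000c000000000000000000000000000000000000000000000000000000000) (nat_lit 0xc0000100000000000000000000000000000000000000000000000000000000000000000000000000) (nat_lit 2)
theorem c84431 : QOK q84431 := cut [] trivial (nd (nat_lit 296) (nat_lit 0) (cs (lf (nat_lit 30) (nat_lit 230)) (lf (nat_lit 29) (nat_lit 230)))) q84431 (by decide +kernel)
def q84455 : Q := Q.p (nat_lit 0x2000018000040000000000000000000000000000000000000000000000000000) (nat_lit 0x200000800004000000000000000100000400000000000000000000000000000000000000000) (nat_lit 3)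
theorem c84455 : QOK q84455 := cut [] trivial (nd (nat_lit 188) (nat_lit 0) (cs (lf (nat_lit 36) (nat_lit 165)) (nd (nat_lit 275) (nat_lit 0) (cs (lf (nat_lit 30) (nat_lit 209)) (lf (nat_lit 39) (nat_lit 187)))))) q84455 (by decide +kernel)
def q84469 : Q := Q.p (nat_lit 0x600002c0000c000010000000000000000000000000000000000000000000000000000000000) (nat_lit 0x200001800000000000000000000000000000000000000000000000000000000000000000000000000) (nat_lit 2)
theorem c84469 : QOK q84469 := cut [] trivial (nd (nat_lit 299) (nat_lit 0) (cs (lf (nat_lit 18) (nat_lit 274)) (lf (nat_lit 42) (nat_lit 232)))) q84469 (by decide +kernel)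
def q84482 : Q := Q.p (nat_lit 0x2000008000030000080000000000000000000000000000000000000000000000000000) (nat_lit 0x800000000000000000000040000100000000000000000000000000000000000000000000000) (nat_lit 2)
theorem c84482 : QOK q84482 := cut [] trivial (nd (nat_lit 210) (nat_lit 0) (cs (lf (nat_lit 47) (nat_lit 188)) (lf (nat_lit 42) (nat_lit 210)))) q84482 (by decide +kernel)
def q84489 : Q := Q.p (nat_lit 0x20000000000200001c000000000000000000000000000000000000000000000000000000000) (nat_lit 0x800000000000000050000000000000000000000000000000000000000000000000000) (nat_lit 2)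
theorem c84489 : QOK q84489 := cut [] trivial (nd (nat_lit 275) (nat_lit 0) (cs (lf (nat_lit 35) (nat_lit 209)) (lf (nat_lit 47) (nat_lit 208)))) q84489 (by decide +kernel)
def q84503 : Q := Q.p (nat_lit 0xf80000000000000000000000000000000000000000000000000000) (nat_lit 0x7000000000000000000000000000000000000000000000000) (nat_lit 2)
theorem c84503 : QOK q84503 := cut [] trivial (nd (nat_lit 193) (nat_lit 0) (cs (lf (nat_lit 17) (nat_lit 190)) (lf (nat_lit 16) (nat_lit 189)))) q84503 (by decide +kernel)
def q84533 : Q := Q.p (nat_lit 0xf0000200000800000000000000000000000000000000000000000) (nat_lit 0x4000070000000000000000000002000000000000000000000000000000000000) (nat_lit 3)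
theorem c84533 : QOK q84533 := cut [] trivial (nd (nat_lit 233) (nat_lit 0) (cs (lf (nat_lit 5) (nat_lit 208)) (nd (nat_lit 232) (nat_lit 0) (cs (lf (nat_lit 36) (nat_lit 144)) (lf (nat_lit 41) (nat_lit 166)))))) q84533 (by decide +kernel)
def q84537 : Q := Q.p (nat_lit 0x200000b000020000080000000000000000000000000000000000000000000000000000) (nat_lit 0x1000004000004000000000000000000000000000000000000000000000000000000000000000) (nat_lit 2)
theorem c84537 : QOK q84537 := cut [] trivial (nd (nat_lit 278) (nat_lit 0) (cs (lf (nat_lit 29) (nat_lit 211)) (lf (nat_lit 2) (nat_lit 252)))) q84537 (by decide +kernel)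
def q84557 : Q := Q.p (nat_lit 0x200000800003000008000000000000000000000000000000000000000000000000000000000) (nat_lit 0x80000000000000000000004000010000000000000000000000000000000000000000000000000000) (nat_lit 2)
theorem c84557 : QOK q84557 := cut [] trivial (nd (nat_lit 230) (nat_lit 0) (cs (lf (nat_lit 42) (nat_lit 230)) (lf (nat_lit 47) (nat_lit 208)))) q84557 (by decide +kernel)
def q84567 : Q := Q.p (nat_lit 0x8000020000080000200000800000000000000000000000000000000000) (nat_lit 0x4000010000040000000000000000000000000000000000000000000000000000) (nat_lit 2)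
theorem c84567 : QOK q84567 := cut [] trivial (nd (nat_lit 232) (nat_lit 0) (cs (lf (nat_lit 28) (nat_lit 143)) (lf (nat_lit 29) (nat_lit 165)))) q84567 (by decide +kernel)
def q84587 : Q := Q.p (nat_lit 0x200000e0000000000000000000000000000000000000000000000) (nat_lit 0x57000018000000000000000000000000000000000000000000000) (nat_lit 4)
theorem c84587 : QOK q84587 := cut [] trivial (nd (nat_lit 184) (nat_lit 0) (cs (lf (nat_lit 5) (nat_lit 184)) (nd (nat_lit 205) (nat_lit 0) (cs (lf (nat_lit 10) (nat_lit 183)) (nd (nat_lit 183) (nat_lit 0) (cs (lf (nat_lit 11) (nat_lit 182)) (lf (nat_lit 4) (nat_lit 183)))))))) q84587 (by decide +kernel)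
def q84611 : Q := Q.p (nat_lit 0x400003000008000000000000000000000000000000000000000000000000000000000) (nat_lit 0x40000100000800000000004000020000000000000000000000000000000000000000000000000000) (nat_lit 3)
theorem c84611 : QOK q84611 := cut [] trivial (nd (nat_lit 296) (nat_lit 0) (cs (lf (nat_lit 30) (nat_lit 230)) (nd (nat_lit 209) (nat_lit 0) (cs (lf (nat_lit 39) (nat_lit 208)) (lf (nat_lit 33) (nat_lit 208)))))) q84611 (by decide +kernel)
def q84612 : Q := Q.p (nat_lit 0x80000200000800002000008000000000000000000000000000000000000000000000000000000000) (nat_lit 0x4000010000040000000000000000000000000000000000000000000000000000) (nat_lit 2)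
theorem c84612 : QOK q84612 := cut [] trivial (nd (nat_lit 232) (nat_lit 0) (cs (lf (nat_lit 35) (nat_lit 209)) (lf (nat_lit 34) (nat_lit 231)))) q84612 (by decide +kernel)
def q84629 : Q := Q.p (nat_lit 0x40000300001c000000000000000000000000000000000000000000000000000000000) (nat_lit 0x20001c000062000000000000000000000000000000000000000000000000000000000) (nat_lit 4)
theorem c84629 : QOK q84629 := cut [] trivial (nd (nat_lit 233) (nat_lit 0) (cs (lf (nat_lit 6) (nat_lit 230)) (nd (nat_lit 255) (nat_lit 0) (cs (lf (nat_lit 5) (nat_lit 230)) (nd (nat_lit 254) (nat_lit 0) (cs (lf (nat_lit 11) (nat_lit 251)) (lf (nat_lit 23) (nat_lit 229)))))))) q84629 (by decide +kernel)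
def q84644 : Q := Q.p (nat_lit 0x100000000003000008000020000000000000000000000000000000000000000000000000000) (nat_lit 0xc00000000004000000000000000000000000000000000000000000000000000000000) (nat_lit 2)
theorem c84644 : QOK q84644 := cut [] trivial (nd (nat_lit 274) (nat_lit 0) (cs (lf (nat_lit 39) (nat_lit 208)) (lf (nat_lit 33) (nat_lit 208)))) q84644 (by decide +kernel)
def q84646 : Q := Q.p (nat_lit 0x300000000002000008000040000000000000000000000000000000000000000000000000000) (nat_lit 0x40000000000800000000010000000000000000000000000000000000000000000000000000000000) (nat_lit 2)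
theorem c84646 : QOK q84646 := cut [] trivial (nd (nat_lit 275) (nat_lit 0) (cs (lf (nat_lit 41) (nat_lit 230)) (lf (nat_lit 34) (nat_lit 209)))) q84646 (by decide +kernel)
def q84652 : Q := Q.p (nat_lit 0xb000048000100000000000000000000000000000000000000000000000000000) (nat_lit 0x800002000010000030000000000400001000000000000000000000000000000000000000000) (nat_lit 4)
theorem c84652 : QOK q84652 := cut [] trivial (nd (nat_lit 233) (nat_lit 0) (cs (lf (nat_lit 8) (nat_lit 230)) (nd (nat_lit 277) (nat_lit 0) (cs (lf (nat_lit 30) (nat_lit 211)) (nd (nat_lit 190) (nat_lit 0) (cs (lf (nat_lit 36) (nat_lit 167)) (lf (nat_lit 39) (nat_lit 189)))))))) q84652 (by decide +kernel)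
def q84657 : Q := Q.p (nat_lit 0x10000040000100000400000000000000000000000000000000000000000000000) (nat_lit 0x8000020000080000000000800003000008000000000000000000000000000000000000) (nat_lit 4)
theorem c84657 : QOK q84657 := cut [] trivial (nd (nat_lit 257) (nat_lit 0) (cs (nd (nat_lit 168) (nat_lit 0) (cs (nd (nat_lit 169) (nat_lit 0) (cs (lf (nat_lit 35) (nat_lit 146)) (lf (nat_lit 34) (nat_lit 168)))) (lf (nat_lit 28) (nat_lit 168)))) (lf (nat_lit 29) (nat_lit 190)))) q84657 (by decide +kernel)
def q84699 : Q := Q.p (nat_lit 0x10000040000100000400000000000000000000000000000000000000000000000) (nat_lit 0x200000c000020000000000200000800002000000000000000000000000000000000000000000) (nat_lit 4)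
theorem c84699 : QOK q84699 := cut [] trivial (nd (nat_lit 279) (nat_lit 0) (cs (nd (nat_lit 191) (nat_lit 0) (cs (lf (nat_lit 35) (nat_lit 168)) (nd (nat_lit 278) (nat_lit 0) (cs (lf (nat_lit 34) (nat_lit 190)) (lf (nat_lit 29) (nat_lit 212)))))) (lf (nat_lit 28) (nat_lit 190)))) q84699 (by decide +kernel)
def q84822 : Q := Q.p (nat_lit 0x80000400001e0000000000000000000000000000000000000000000000000000) (nat_lit 0x2000000000020000000000c00001000000000000000000000000000000000000000000) (nat_lit 3)
theorem c84822 : QOK q84822 := cut [] trivial (nd (nat_lit 190) (nat_lit 0) (cs (lf (nat_lit 17) (nat_lit 187)) (nd (nat_lit 233) (nat_lit 0) (cs (lf (nat_lit 36) (nat_lit 167)) (lf (nat_lit 30) (nat_lit 189)))))) q84822 (by decide +kernel)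
def q84825 : Q := Q.p (nat_lit 0x8000020000180000400000000000000000000000000000000000000000000000) (nat_lit 0x200001000004000000000000000000000000000000000000) (nat_lit 2)
theorem c84825 : QOK q84825 := cut [] trivial (nd (nat_lit 168) (nat_lit 0) (cs (lf (nat_lit 33) (nat_lit 167)) (lf (nat_lit 36) (nat_lit 145)))) q84825 (by decide +kernel)
def q84834 : Q := Q.p (nat_lit 0x80000280000e0000000000000000000000000000000000000000000000000000) (nat_lit 0x2000000000000000000000300000400001000000000000000000000000000000000000) (nat_lit 3)
theorem c84834 : QOK q84834 := cut [] trivial (nd (nat_lit 188) (nat_lit 0) (cs (lf (nat_lit 42) (nat_lit 188)) (nd (nat_lit 166) (nat_lit 0) (cs (lf (nat_lit 36) (nat_lit 143)) (lf (nat_lit 45) (nat_lit 166)))))) q84834 (by decide +kernel)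
def q84835 : Q := Q.p (nat_lit 0x80000380000c0000000000000000000000000000000000000000000000000000) (nat_lit 0x10000006000000000000000000000000000000000000000000000000000000000) (nat_lit 2)
theorem c84835 : QOK q84835 := cut [] trivial (nd (nat_lit 230) (nat_lit 0) (cs (lf (nat_lit 12) (nat_lit 207)) (lf (nat_lit 5) (nat_lit 230)))) q84835 (by decide +kernel)
def q84840 : Q := Q.p (nat_lit 0x80000300000c0000000000000000000000000000000000000000000000000000) (nat_lit 0x800002000000000000000000000100000000000000000000000000000000000000000000000) (nat_lit 2)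
theorem c84840 : QOK q84840 := cut [] trivial (nd (nat_lit 277) (nat_lit 0) (cs (lf (nat_lit 47) (nat_lit 188)) (lf (nat_lit 42) (nat_lit 210)))) q84840 (by decide +kernel)
def q84848 : Q := Q.p (nat_lit 0x100000000003000008000020000000000000000000000000000000000000000000000000000) (nat_lit 0x40000000000400000000004000000000000000000000000000000000000000000000000000000000) (nat_lit 2)
theorem c84848 : QOK q84848 := cut [] trivial (nd (nat_lit 274) (nat_lit 0) (cs (lf (nat_lit 30) (nat_lit 230)) (lf (nat_lit 33) (nat_lit 208)))) q84848 (by decide +kernel)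
def q84859 : Q := Q.p (nat_lit 0x8000020000080000200000800000000000000000000000000000000000000000) (nat_lit 0x400001000004000000000000000000000000000000000000) (nat_lit 2)
theorem c84859 : QOK q84859 := cut [] trivial (nd (nat_lit 168) (nat_lit 0) (cs (lf (nat_lit 35) (nat_lit 145)) (lf (nat_lit 34) (nat_lit 167)))) q84859 (by decide +kernel)

end Crest.Agent.H3.Snaky.CR
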