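import Crest.Agent.H3.Snaky.Cert

set_option autoImplicit false
set_option maxRecDepth 100000

namespace Crest.Agent.H3.Snaky.CR

open T

def q84925 : Q := Q.p (nat_lit 0xf000008000000000000000000000000000000000000000000000000000000000) (nat_lit 0x10000006000000000000000000000000000000000000000000000000000000000) (nat_lit 2)
theorem c84925 : QOK q84925 := cut [] trivial (nd (nat_lit 230) (nat_lit 0) (cs (lf (nat_lit 23) (nat_lit 229)) (lf (nat_lit 18) (nat_lit 230)))) q84925 (by decide +kernel)
def q84981 : Q := Q.p (nat_lit 0x8000020000480000e0000000000000000000000000000000000000000000000000000) (nat_lit 0x20000010000040000000000000000000000000000000000000000000000) (nat_lit 2)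
theorem c84981 : QOK q84981 := cut [] trivial (nd (nat_lit 208) (nat_lit 0) (cs (lf (nat_lit 4) (nat_lit 208)) (lf (nat_lit 47) (nat_lit 186)))) q84981 (by decide +kernel)
def q85014 : Q := Q.p (nat_lit 0x400007000018000040000000000000000000000000000000000000000000000000000) (nat_lit 0x20000180000600000000000000000000000000000000000000000) (nat_lit 3)
theorem c85014 : QOK q85014 := cut [] trivial (nd (nat_lit 188) (nat_lit 0) (cs (lf (nat_lit 36) (nat_lit 165)) (nd (nat_lit 187) (nat_lit 0) (cs (lf (nat_lit 37) (nat_lit 186)) (lf (nat_lit 47) (nat_lit 165)))))) q85014 (by decide +kernel)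
def q85018 : Q := Q.p (nat_lit 0x40000300000e000000000000000000000000000000000000000000000000000000000) (nat_lit 0x40000100000000000000000000008000000000000000000000000000000000000000000000000000) (nat_lit 2)
theorem c85018 : QOK q85018 := cut [] trivial (nd (nat_lit 296) (nat_lit 0) (cs (lf (nat_lit 30) (nat_lit 230)) (lf (nat_lit 47) (nat_lit 207)))) q85018 (by decide +kernel)
def q85033 : Q := Q.p (nat_lit 0x60000300000c00003c000000000000000000000000000000000000000000000000000) (nat_lit 0xc000003800000000000000000000000000000000000000000000000000000000) (nat_lit 3)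
theorem c85033 : QOK q85033 := cut [] trivial (nd (nat_lit 254) (nat_lit 0) (cs (lf (nat_lit 6) (nat_lit 251)) (nd (nat_lit 228) (nat_lit 0) (cs (lf (nat_lit 11) (nat_lit 205)) (lf (nat_lit 1) (nat_lit 228)))))) q85033 (by decide +kernel)
def q85045 : Q := Q.p (nat_lit 0x6000018000040000080000000000000000000000000000000000000000000000) (nat_lit 0x100000600000000000000000000000000000000000000000) (nat_lit 2)
theorem c85045 : QOK q85045 := cut [] trivial (nd (nat_lit 188) (nat_lit 0) (cs (lf (nat_lit 36) (nat_lit 165)) (lf (nat_lit 47) (nat_lit 165)))) q85045 (by decide +kernel)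
def q85049 : Q := Q.p (nat_lit 0x40000700000c000000000000000000000000000000000000000000000000000000000) (nat_lit 0x200018000000000000000000000000000000000000000000000000000000000000000) (nat_lit 2)
theorem c85049 : QOK q85049 := cut [] trivial (nd (nat_lit 255) (nat_lit 0) (cs (lf (nat_lit 11) (nat_lit 251)) (lf (nat_lit 18) (nat_lit 230)))) q85049 (by decide +kernel)
def q85069 : Q := Q.p (nat_lit 0x3000008000078000000000000000000000000000000000000000000000000000) (nat_lit 0x400000000004000080000070000100000000000000000000000000000000000000000) (nat_lit 4)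
theorem c85069 : QOK q85069 := cut [] trivial (nd (nat_lit 185) (nat_lit 0) (cs (lf (nat_lit 23) (nat_lit 184)) (nd (nat_lit 186) (nat_lit 0) (cs (lf (nat_lit 18) (nat_lit 185)) (nd (nat_lit 230) (nat_lit 0) (cs (lf (nat_lit 42) (nat_lit 185)) (lf (nat_lit 24) (nat_lit 164)))))))) q85069 (by decide +kernel)
def q85074 : Q := Q.p (nat_lit 0x200000c000038000000000000000000000000000000000000000000000000000) (nat_lit 0x4000003800046000018000000000000000000000000000000000000000000000) (nat_lit 5)
theorem c85074 : QOK q85074 := cut [] trivial (nd (nat_lit 206) (nat_lit 0) (cs (lf (nat_lit 0) (nat_lit 205)) (nd (nat_lit 183) (nat_lit 0) (cs (lf (nat_lit 22) (nat_lit 183)) (nd (nat_lit 228) (nat_lit 0) (cs (lf (nat_lit 11) (nat_lit 205)) (nd (nat_lit 229) (nat_lit 0) (cs (lf (nat_lit 6) (nat_lit 206)) (lf (nat_lit 5) (nat_lit 228)))))))))) q85074 (by decide +kernel)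
def q85078 : Q := Q.p (nat_lit 0x3000028000070000000000000000000000000000000000000000000000000000) (nat_lit 0x50000080000000000000000000000000000000000000000000000000000) (nat_lit 2)
theorem c85078 : QOK q85078 := cut [] trivial (nd (nat_lit 234) (nat_lit 0) (cs (lf (nat_lit 3) (nat_lit 208)) (lf (nat_lit 8) (nat_lit 230)))) q85078 (by decide +kernel)
def q85102 : Q := Q.p (nat_lit 0x2000008000070000000000000000000000000000000000000000000000000000) (nat_lit 0x800000000000000000000140000000000000000000000000000000000000000000000) (nat_lit 2)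
theorem c85102 : QOK q85102 := cut [] trivial (nd (nat_lit 275) (nat_lit 0) (cs (lf (nat_lit 35) (nat_lit 187)) (lf (nat_lit 47) (nat_lit 186)))) q85102 (by decide +kernel)
def q85107 : Q := Q.p (nat_lit 0x60000180000400000000000000000000000000000000000000000000000) (nat_lit 0x8000000000000000000001000004000000000000000000000000000000000000) (nat_lit 2)
theorem c85107 : QOK q85107 := cut [] trivial (nd (nat_lit 168) (nat_lit 0) (cs (lf (nat_lit 36) (nat_lit 145)) (lf (nat_lit 41) (nat_lit 167)))) q85107 (by decide +kernel)
def q85123 : Q := Q.p (nat_lit 0x30000280000e0000000000000000000000000000000000000000000000000000) (nat_lit 0x50000010000000000000000000000000000000000000000000000000000) (nat_lit 2)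
theorem c85123 : QOK q85123 := cut [] trivial (nd (nat_lit 234) (nat_lit 0) (cs (lf (nat_lit 0) (nat_lit 208)) (lf (nat_lit 8) (nat_lit 230)))) q85123 (by decide +kernel)
def q85126 : Q := Q.p (nat_lit 0x300000f0000000000400000000000000000000000000000000000000000) (nat_lit 0x4000000000000000600000800001000000000000000000000000000000000000) (nat_lit 3)
theorem c85126 : QOK q85126 := cut [] trivial (nd (nat_lit 189) (nat_lit 0) (cs (lf (nat_lit 17) (nat_lit 186)) (nd (nat_lit 167) (nat_lit 0) (cs (lf (nat_lit 47) (nat_lit 144)) (lf (nat_lit 41) (nat_lit 166)))))) q85126 (by decide +kernel)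
def q85129 : Q := Q.p (nat_lit 0xf000030000040000000000000000000000000000000000000000000000000000) (nat_lit 0x800006000000000000000000000000000000000000000000000000000000000000000000000) (nat_lit 2)
theorem c85129 : QOK q85129 := cut [] trivial (nd (nat_lit 277) (nat_lit 0) (cs (lf (nat_lit 42) (nat_lit 210)) (lf (nat_lit 5) (nat_lit 252)))) q85129 (by decide +kernel)
def q85160 : Q := Q.p (nat_lit 0xb00001c000000000000000000000000000000000000000000000000000000000) (nat_lit 0x10000060000000000000000000000000000000000000000000000000000000000) (nat_lit 2)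
theorem c85160 : QOK q85160 := cut [] trivial (nd (nat_lit 233) (nat_lit 0) (cs (lf (nat_lit 6) (nat_lit 230)) (lf (nat_lit 5) (nat_lit 230)))) q85160 (by decide +kernel)
def q85171 : Q := Q.p (nat_lit 0xe00000c000000000000000000000000000000000000000000000000000) (nat_lit 0x13000000000000000000000000000000000000000000000000000) (nat_lit 2)
theorem c85171 : QOK q85171 := cut [] trivial (nd (nat_lit 205) (nat_lit 0) (cs (lf (nat_lit 0) (nat_lit 204)) (lf (nat_lit 3) (nat_lit 205)))) q85171 (by decide +kernel)
def q85177 : Q := Q.p (nat_lit 0xc0000e0000000000000000000000000000000000000000000000000000) (nat_lit 0x3000010000000000000000000000000000000000000000000000000000) (nat_lit 2)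
theorem c85177 : QOK q85177 := cut [] trivial (nd (nat_lit 229) (nat_lit 0) (cs (lf (nat_lit 12) (nat_lit 206)) (lf (nat_lit 9) (nat_lit 207)))) q85177 (by decide +kernel)
def q85209 : Q := Q.p (nat_lit 0x800003000008000020000000000000000000000000000000000000000000000000000) (nat_lit 0x400001c0000700000400000000004000000000000000000000000000000000000000000000000000000000) (nat_lit 5)
theorem c85209 : QOK q85209 := cut [] trivial (nd (nat_lit 296) (nat_lit 0) (cs (lf (nat_lit 40) (nat_lit 208)) (nd (nat_lit 297) (nat_lit 0) (cs (lf (nat_lit 41) (nat_lit 230)) (nd (nat_lit 320) (nat_lit 0) (cs (lf (nat_lit 28) (nat_lit 231)) (nd (nat_lit 319) (nat_lit 0) (cs (lf (nat_lit 29) (nat_lit 253)) (lf (nat_lit 47) (nat_lit 230)))))))))) q85209 (by decide +kernel)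
def q85249 : Q := Q.p (nat_lit 0x40000200000800002000004000000000000000000000000000000000000000000000000000) (nat_lit 0x10000080000000000000001000000000000000000000000000000000000000000000000000000000) (nat_lit 2)
theorem c85249 : QOK q85249 := cut [] trivial (nd (nat_lit 295) (nat_lit 0) (cs (lf (nat_lit 46) (nat_lit 206)) (lf (nat_lit 41) (nat_lit 228)))) q85249 (by decide +kernel)
def q85252 : Q := Q.p (nat_lit 0x200003800002000008000000000000000000000000000000000000000000000000000) (nat_lit 0x40000100004000000000000000000000000000000000000000000000000000000000000000) (nat_lit 2)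
theorem c85252 : QOK q85252 := cut [] trivial (nd (nat_lit 272) (nat_lit 0) (cs (lf (nat_lit 41) (nat_lit 206)) (lf (nat_lit 6) (nat_lit 250)))) q85252 (by decide +kernel)
def q85262 : Q := Q.p (nat_lit 0x3800028000000000000000000000000000000000000000000000000000) (nat_lit 0x54000000000000000000000000000000000000000000000000000) (nat_lit 2)
theorem c85262 : QOK q85262 := cut [] trivial (nd (nat_lit 208) (nat_lit 0) (cs (lf (nat_lit 6) (nat_lit 206)) (lf (nat_lit 9) (nat_lit 205)))) q85262 (by decide +kernel)
def q85303 : Q := Q.p (nat_lit 0xc000070000000000000000000000000000000000000000000000) (nat_lit 0x2000180000000000000000000000000000000000000000000000) (nat_lit 2)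
theorem c85303 : QOK q85303 := cut [] trivial (nd (nat_lit 187) (nat_lit 0) (cs (lf (nat_lit 6) (nat_lit 184)) (lf (nat_lit 11) (nat_lit 183)))) q85303 (by decide +kernel)
def q85311 : Q := Q.p (nat_lit 0x80000200000c000060000000000000000000000000000000000000000000000) (nat_lit 0x10000100000100000c0000700001800004000000000000000000000000) (nat_lit 6)
theorem c85311 : QOK q85311 := cut [] trivial (nd (nat_lit 162) (nat_lit 0) (cs (lf (nat_lit 46) (nat_lit 162)) (nd (nat_lit 163) (nat_lit 0) (cs (lf (nat_lit 47) (nat_lit 140)) (nd (nat_lit 141) (nat_lit 0) (cs (lf (nat_lit 41) (nat_lit 140)) (nd (nat_lit 120) (nat_lit 0) (cs (lf (nat_lit 34) (nat_lit 119)) (nd (nat_lit 119) (nat_lit 0) (cs (lf (nat_lit 35) (nat_lit 97)) (lf (nat_lit 29) (nat_lit 119)))))))))))) q85311 (by decide +kernel)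
def q85342 : Q := Q.p (nat_lit 0x300000e000004000000000000000000000000000000000000000000000000000) (nat_lit 0x1800002000000000000000000000000000000000000000000000000000) (nat_lit 2)
theorem c85342 : QOK q85342 := cut [] trivial (nd (nat_lit 228) (nat_lit 0) (cs (lf (nat_lit 0) (nat_lit 227)) (lf (nat_lit 23) (nat_lit 205)))) q85342 (by decide +kernel)
def q85383 : Q := Q.p (nat_lit 0x100000000003c000000000000000000000000000000000000000000000000000) (nat_lit 0x1c000002000180000200000000000000000000000000000000000000000) (nat_lit 4)
theorem c85383 : QOK q85383 := cut [] trivial (nd (nat_lit 187) (nat_lit 0) (cs (lf (nat_lit 17) (nat_lit 184)) (nd (nat_lit 231) (nat_lit 0) (cs (lf (nat_lit 5) (nat_lit 206)) (nd (nat_lit 230) (nat_lit 0) (cs (lf (nat_lit 0) (nat_lit 205)) (lf (nat_lit 36) (nat_lit 164)))))))) q85383 (by decide +kernel)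
def q85388 : Q := Q.p (nat_lit 0x200003e000000000000000000000000000000000000000000000000000) (nat_lit 0x180000180000e000000000000000000000000000000000000000000000) (nat_lit 4)
theorem c85388 : QOK q85388 := cut [] trivial (nd (nat_lit 182) (nat_lit 0) (cs (lf (nat_lit 22) (nat_lit 182)) (nd (nat_lit 204) (nat_lit 0) (cs (lf (nat_lit 23) (nat_lit 181)) (nd (nat_lit 228) (nat_lit 0) (cs (lf (nat_lit 11) (nat_lit 205)) (lf (nat_lit 0) (nat_lit 203)))))))) q85388 (by decide +kernel)
def q85412 : Q := Q.p (nat_lit 0x800002000018000020000000000000000000000000000000000000000000000) (nat_lit 0x6400001c000040000000000000000000000000000000000000000) (nat_lit 4)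
theorem c85412 : QOK q85412 := cut [] trivial (nd (nat_lit 184) (nat_lit 0) (cs (lf (nat_lit 47) (nat_lit 162)) (nd (nat_lit 183) (nat_lit 0) (cs (lf (nat_lit 0) (nat_lit 182)) (nd (nat_lit 209) (nat_lit 0) (cs (lf (nat_lit 21) (nat_lit 183)) (lf (nat_lit 18) (nat_lit 184)))))))) q85412 (by decide +kernel)
def q85430 : Q := Q.p (nat_lit 0x200001800006000000000000000000000000000000000000000000000000000000000) (nat_lit 0x20000080000000000000000000010000000000000000000000000000000000000000000000000000) (nat_lit 2)
theorem c85430 : QOK q85430 := cut [] trivial (nd (nat_lit 295) (nat_lit 0) (cs (lf (nat_lit 30) (nat_lit 229)) (lf (nat_lit 35) (nat_lit 207)))) q85430 (by decide +kernel)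
def q85444 : Q := Q.p (nat_lit 0x1800002000008000020000000000000000000000000000000000000000000000) (nat_lit 0x40000000000100000c0000100000000000000000000000000000000000) (nat_lit 3)
theorem c85444 : QOK q85444 := cut [] trivial (nd (nat_lit 162) (nat_lit 0) (cs (lf (nat_lit 46) (nat_lit 162)) (nd (nat_lit 163) (nat_lit 0) (cs (lf (nat_lit 47) (nat_lit 140)) (lf (nat_lit 28) (nat_lit 163)))))) q85444 (by decide +kernel)
def q85459 : Q := Q.p (nat_lit 0x300000c000020000000000000000000000000000000000000000000000000000) (nat_lit 0x8000000000020001d8000780000600000000000000000000000000000000000000000) (nat_lit 7)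
theorem c85459 : QOK q85459 := cut [] trivial (nd (nat_lit 187) (nat_lit 0) (cs (lf (nat_lit 36) (nat_lit 164)) (nd (nat_lit 188) (nat_lit 0) (cs (lf (nat_lit 35) (nat_lit 165)) (nd (nat_lit 210) (nat_lit 0) (cs (lf (nat_lit 30) (nat_lit 187)) (nd (nat_lit 211) (nat_lit 0) (cs (lf (nat_lit 6) (nat_lit 208)) (nd (nat_lit 208) (nat_lit 0) (cs (lf (nat_lit 11) (nat_lit 207)) (nd (nat_lit 189) (nat_lit 0) (cs (lf (nat_lit 12) (nat_lit 185)) (lf (nat_lit 17) (nat_lit 186)))))))))))))) q85459 (by decide +kernel)
def q85470 : Q := Q.p (nat_lit 0x80000300000c000000000000000000000000000000000000000000000000000000000) (nat_lit 0x80000200000000000000000000010000000000000000000000000000000000000000000000000000) (nat_lit 2)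
theorem c85470 : QOK q85470 := cut [] trivial (nd (nat_lit 297) (nat_lit 0) (cs (lf (nat_lit 42) (nat_lit 230)) (lf (nat_lit 47) (nat_lit 208)))) q85470 (by decide +kernel)
def q85483 : Q := Q.p (nat_lit 0x700004c000000000000000000000000000000000000000000000000000000000) (nat_lit 0x18000020000000000000000000000000000000000000000000000000000000000) (nat_lit 2)
theorem c85483 : QOK q85483 := cut [] trivial (nd (nat_lit 255) (nat_lit 0) (cs (lf (nat_lit 18) (nat_lit 230)) (lf (nat_lit 16) (nat_lit 230)))) q85483 (by decide +kernel)
def q85501 : Q := Q.p (nat_lit 0x700002c000000000000000000000000000000000000000000000000000000000) (nat_lit 0x18000040000000000000000000000000000000000000000000000000000000000) (nat_lit 2)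
theorem c85501 : QOK q85501 := cut [] trivial (nd (nat_lit 255) (nat_lit 0) (cs (lf (nat_lit 17) (nat_lit 230)) (lf (nat_lit 18) (nat_lit 230)))) q85501 (by decide +kernel)
def q85504 : Q := Q.p (nat_lit 0x80000200001800004000000000000000000000000000000000000000000000000000000000) (nat_lit 0x2000010000040000000000000000000000000000000000000000000000) (nat_lit 2)
theorem c85504 : QOK q85504 := cut [] trivial (nd (nat_lit 208) (nat_lit 0) (cs (lf (nat_lit 33) (nat_lit 207)) (lf (nat_lit 36) (nat_lit 185)))) q85504 (by decide +kernel)
def q85509 : Q := Q.p (nat_lit 0x2c000070000000000000000000000000000000000000000000000000000) (nat_lit 0x40000180000000000000000000000000000000000000000000000000000) (nat_lit 2)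
theorem c85509 : QOK q85509 := cut [] trivial (nd (nat_lit 211) (nat_lit 0) (cs (lf (nat_lit 5) (nat_lit 208)) (lf (nat_lit 6) (nat_lit 208)))) q85509 (by decide +kernel)
def q85515 : Q := Q.p (nat_lit 0x800002000018000040000000000000000000000000000000000000000000000000000) (nat_lit 0x4000000000000000100000400000000000000000000000000000000000000000) (nat_lit 2)
theorem c85515 : QOK q85515 := cut [] trivial (nd (nat_lit 188) (nat_lit 0) (cs (lf (nat_lit 36) (nat_lit 165)) (lf (nat_lit 39) (nat_lit 187)))) q85515 (by decide +kernel)
def q85547 : Q := Q.p (nat_lit 0x3e00000000000000000000000000000000000000000000000000000000000000) (nat_lit 0xc10000f000000000000000000000000000000000000000000000000000000000) (nat_lit 4)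
theorem c85547 : QOK q85547 := cut [] trivial (nd (nat_lit 230) (nat_lit 0) (cs (lf (nat_lit 17) (nat_lit 227)) (nd (nat_lit 229) (nat_lit 0) (cs (lf (nat_lit 12) (nat_lit 226)) (nd (nat_lit 254) (nat_lit 0) (cs (lf (nat_lit 18) (nat_lit 229)) (lf (nat_lit 23) (nat_lit 228)))))))) q85547 (by decide +kernel)
def q85562 : Q := Q.p (nat_lit 0x3c00000000000000000000000000000000000000000000000000000000000000) (nat_lit 0xe000030001ce00000000000000000000000000000000000000000000000000000000) (nat_lit 6)
theorem c85562 : QOK q85562 := cut [] trivial (nd (nat_lit 231) (nat_lit 0) (cs (lf (nat_lit 17) (nat_lit 228)) (nd (nat_lit 249) (nat_lit 0) (cs (lf (nat_lit 16) (nat_lit 227)) (nd (nat_lit 226) (nat_lit 0) (cs (lf (nat_lit 22) (nat_lit 226)) (nd (nat_lit 270) (nat_lit 0) (cs (lf (nat_lit 10) (nat_lit 248)) (nd (nat_lit 248) (nat_lit 0) (cs (lf (nat_lit 11) (nat_lit 247)) (lf (nat_lit 23) (nat_lit 225)))))))))))) q85562 (by decide +kernel)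
def q85572 : Q := Q.p (nat_lit 0x200003800001000000000000000000000000000000000000000000000000000000000) (nat_lit 0x100004000002000000000000000000000000000000000000000000000000000000000) (nat_lit 2)
theorem c85572 : QOK q85572 := cut [] trivial (nd (nat_lit 254) (nat_lit 0) (cs (lf (nat_lit 11) (nat_lit 250)) (lf (nat_lit 22) (nat_lit 228)))) q85572 (by decide +kernel)
def q85582 : Q := Q.p (nat_lit 0x3800001000000000000000000000000000000000000000000000000000000000) (nat_lit 0x400006c00000000000000000000000000000000000000000000000000000000) (nat_lit 3)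
theorem c85582 : QOK q85582 := cut [] trivial (nd (nat_lit 227) (nat_lit 0) (cs (lf (nat_lit 21) (nat_lit 227)) (nd (nat_lit 229) (nat_lit 0) (cs (lf (nat_lit 3) (nat_lit 227)) (lf (nat_lit 0) (nat_lit 226)))))) q85582 (by decide +kernel)
def q85607 : Q := Q.p (nat_lit 0x100000380000100000000000000000000000000000000000000000) (nat_lit 0x200000400000200000000000000000000000000000000000000000) (nat_lit 2)
theorem c85607 : QOK q85607 := cut [] trivial (nd (nat_lit 190) (nat_lit 0) (cs (lf (nat_lit 5) (nat_lit 187)) (lf (nat_lit 22) (nat_lit 164)))) q85607 (by decide +kernel)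
def q85690 : Q := Q.p (nat_lit 0x4000010000060000080000000000000000000000000000000000000000000000) (nat_lit 0x100000200000800000000000000000000000000000000000) (nat_lit 2)
theorem c85690 : QOK q85690 := cut [] trivial (nd (nat_lit 165) (nat_lit 0) (cs (lf (nat_lit 24) (nat_lit 143)) (lf (nat_lit 45) (nat_lit 165)))) q85690 (by decide +kernel)
def q85700 : Q := Q.p (nat_lit 0x400001000014000018000000000000000000000000000000000000000000000000000) (nat_lit 0x28000024000080000000000000000000000000000000000000000000000) (nat_lit 3)
theorem c85700 : QOK q85700 := cut [] trivial (nd (nat_lit 231) (nat_lit 0) (cs (lf (nat_lit 18) (nat_lit 207)) (nd (nat_lit 209) (nat_lit 0) (cs (lf (nat_lit 0) (nat_lit 206)) (lf (nat_lit 35) (nat_lit 186)))))) q85700 (by decide +kernel)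
def q85712 : Q := Q.p (nat_lit 0x600007000000000000000000000000000000000000000000000000000000000000000) (nat_lit 0x180000800000000000000000000000000000000000000000000000000000000000000) (nat_lit 2)
theorem c85712 : QOK q85712 := cut [] trivial (nd (nat_lit 272) (nat_lit 0) (cs (lf (nat_lit 12) (nat_lit 249)) (lf (nat_lit 9) (nat_lit 250)))) q85712 (by decide +kernel)
def q85731 : Q := Q.p (nat_lit 0x40000100000400001c000000000000000000000000000000000000000000000000000) (nat_lit 0x800002200009c000000000000000000000000000000000000000000000) (nat_lit 4)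
theorem c85731 : QOK q85731 := cut [] trivial (nd (nat_lit 205) (nat_lit 0) (cs (lf (nat_lit 5) (nat_lit 205)) (nd (nat_lit 183) (nat_lit 0) (cs (lf (nat_lit 23) (nat_lit 182)) (nd (nat_lit 209) (nat_lit 0) (cs (lf (nat_lit 22) (nat_lit 183)) (lf (nat_lit 35) (nat_lit 186)))))))) q85731 (by decide +kernel)
def q85761 : Q := Q.p (nat_lit 0x4000008000020000080000400000000000000000000000000000000000000000000000) (nat_lit 0x10000000000000000200001000000000000000000000000000000000000000000) (nat_lit 2)
theorem c85761 : QOK q85761 := cut [] trivial (nd (nat_lit 189) (nat_lit 0) (cs (lf (nat_lit 28) (nat_lit 189)) (lf (nat_lit 35) (nat_lit 167)))) q85761 (by decide +kernel)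
def q85767 : Q := Q.p (nat_lit 0x2000008000020000080000000000000000000000000000000000000000000000000000) (nat_lit 0x1000004000010000000000040000300000400000000000000000000000000000000000000000) (nat_lit 4)
theorem c85767 : QOK q85767 := cut [] trivial (nd (nat_lit 188) (nat_lit 0) (cs (lf (nat_lit 46) (nat_lit 188)) (nd (nat_lit 278) (nat_lit 0) (cs (lf (nat_lit 29) (nat_lit 211)) (nd (nat_lit 189) (nat_lit 0) (cs (lf (nat_lit 47) (nat_lit 166)) (lf (nat_lit 28) (nat_lit 189)))))))) q85767 (by decide +kernel)
def q85788 : Q := Q.p (nat_lit 0xc0000700000000000000000000000000000000000000000000000) (nat_lit 0x20001800000000000000000000000000000000000000000000000) (nat_lit 2)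
theorem c85788 : QOK q85788 := cut [] trivial (nd (nat_lit 191) (nat_lit 0) (cs (lf (nat_lit 6) (nat_lit 188)) (lf (nat_lit 11) (nat_lit 187)))) q85788 (by decide +kernel)
def q85794 : Q := Q.p (nat_lit 0x8000020000180000000000000000000000000000000000000000000000000000) (nat_lit 0x2000000000040000000000400001000004000000000000000000000000000000000000) (nat_lit 3)
theorem c85794 : QOK q85794 := cut [] trivial (nd (nat_lit 190) (nat_lit 0) (cs (lf (nat_lit 30) (nat_lit 189)) (nd (nat_lit 168) (nat_lit 0) (cs (lf (nat_lit 36) (nat_lit 145)) (lf (nat_lit 39) (nat_lit 167)))))) q85794 (by decide +kernel)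
def q85823 : Q := Q.p (nat_lit 0x780000000000000000000000000000000000000000000000000000) (nat_lit 0x40000300000040003800002000008000000000000000000000000000000000000) (nat_lit 5)
theorem c85823 : QOK q85823 := cut [] trivial (nd (nat_lit 192) (nat_lit 0) (cs (lf (nat_lit 17) (nat_lit 189)) (nd (nat_lit 191) (nat_lit 0) (cs (lf (nat_lit 12) (nat_lit 188)) (nd (nat_lit 236) (nat_lit 0) (cs (lf (nat_lit 5) (nat_lit 211)) (nd (nat_lit 169) (nat_lit 0) (cs (lf (nat_lit 42) (nat_lit 169)) (lf (nat_lit 24) (nat_lit 147)))))))))) q85823 (by decide +kernel)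
def q85830 : Q := Q.p (nat_lit 0x20000780000000000000000000000000000000000000000000000000000) (nat_lit 0x3c00008700001c0000000000000000000000000000000000000000000000) (nat_lit 6)
theorem c85830 : QOK q85830 := cut [] trivial (nd (nat_lit 236) (nat_lit 0) (cs (lf (nat_lit 5) (nat_lit 211)) (nd (nat_lit 210) (nat_lit 0) (cs (lf (nat_lit 4) (nat_lit 210)) (nd (nat_lit 187) (nat_lit 0) (cs (lf (nat_lit 22) (nat_lit 187)) (nd (nat_lit 234) (nat_lit 0) (cs (nd (nat_lit 209) (nat_lit 0) (cs (lf (nat_lit 23) (nat_lit 186)) (lf (nat_lit 0) (nat_lit 208)))) (lf (nat_lit 6) (nat_lit 211)))))))))) q85830 (by decide +kernel)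
def q85866 : Q := Q.p (nat_lit 0x2000008000020000080000200000000000000000000000000000000000000000000000) (nat_lit 0x40000100000400000000000000000000000000000000000000000) (nat_lit 2)
theorem c85866 : QOK q85866 := cut [] trivial (nd (nat_lit 188) (nat_lit 0) (cs (lf (nat_lit 47) (nat_lit 166)) (lf (nat_lit 46) (nat_lit 188)))) q85866 (by decide +kernel)
def q85875 : Q := Q.p (nat_lit 0x20000080000200000800000000000000000000000000000000000000000) (nat_lit 0x1000004000010000100000700001c000010000000000000000000000000) (nat_lit 6)
theorem c85875 : QOK q85875 := cut [] trivial (nd (nat_lit 146) (nat_lit 0) (cs (lf (nat_lit 34) (nat_lit 145)) (nd (nat_lit 145) (nat_lit 0) (cs (lf (nat_lit 35) (nat_lit 123)) (nd (nat_lit 122) (nat_lit 0) (cs (lf (nat_lit 46) (nat_lit 122)) (nd (nat_lit 210) (nat_lit 0) (cs (lf (nat_lit 41) (nat_lit 144)) (nd (nat_lit 123) (nat_lit 0) (cs (lf (nat_lit 47) (nat_lit 100)) (lf (nat_lit 40) (nat_lit 122)))))))))))) q85875 (by decide +kernel)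
def q85958 : Q := Q.p (nat_lit 0x8000020000080000200000000000000000000000000000000000000000000000) (nat_lit 0x2000010000050000140000500001800006000008000000000000000000000000000000) (nat_lit 7)
theorem c85958 : QOK q85958 := cut [] trivial (nd (nat_lit 168) (nat_lit 0) (cs (lf (nat_lit 34) (nat_lit 167)) (nd (nat_lit 167) (nat_lit 0) (cs (lf (nat_lit 35) (nat_lit 145)) (nd (nat_lit 234) (nat_lit 0) (cs (lf (nat_lit 29) (nat_lit 167)) (nd (nat_lit 145) (nat_lit 0) (cs (lf (nat_lit 28) (nat_lit 145)) (nd (nat_lit 210) (nat_lit 0) (cs (lf (nat_lit 41) (nat_lit 144)) (nd (nat_lit 188) (nat_lit 0) (cs (lf (nat_lit 36) (nat_lit 122)) (lf (nat_lit 42) (nat_lit 188)))))))))))))) q85958 (by decide +kernel)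
def q85968 : Q := Q.p (nat_lit 0x1e000030000000000000000000000000000000000000000000000000000000000) (nat_lit 0x1c000060000000000000000000000000000000000000000000000000000000000000000) (nat_lit 3)
theorem c85968 : QOK q85968 := cut [] trivial (nd (nat_lit 279) (nat_lit 0) (cs (lf (nat_lit 4) (nat_lit 253)) (nd (nat_lit 257) (nat_lit 0) (cs (lf (nat_lit 18) (nat_lit 232)) (lf (nat_lit 5) (nat_lit 254)))))) q85968 (by decide +kernel)
def q86041 : Q := Q.p (nat_lit 0x400000b000020000080000000000000000000000000000000000000000000000000000) (nat_lit 0x1000002000004000000000000000000000000000000000000000000000000000000000000000) (nat_lit 2)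
theorem c86041 : QOK q86041 := cut [] trivial (nd (nat_lit 277) (nat_lit 0) (cs (lf (nat_lit 29) (nat_lit 211)) (lf (nat_lit 2) (nat_lit 252)))) q86041 (by decide +kernel)
def q86049 : Q := Q.p (nat_lit 0xb0000200000b0000000000000000000000000000000000000000000000000000) (nat_lit 0x4000040000040000000000000000000000000000000000000000000000000000) (nat_lit 2)
theorem c86049 : QOK q86049 := cut [] trivial (nd (nat_lit 234) (nat_lit 0) (cs (lf (nat_lit 2) (nat_lit 208)) (lf (nat_lit 14) (nat_lit 230)))) q86049 (by decide +kernel)
def q86068 : Q := Q.p (nat_lit 0xc000010000040000100000000000000000000000000000) (nat_lit 0x20000000000080000600000800000000000000000) (nat_lit 3)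
theorem c86068 : QOK q86068 := cut [] trivial (nd (nat_lit 94) (nat_lit 0) (cs (lf (nat_lit 28) (nat_lit 94)) (nd (nat_lit 93) (nat_lit 0) (cs (lf (nat_lit 47) (nat_lit 71)) (lf (nat_lit 46) (nat_lit 93)))))) q86068 (by decide +kernel)
def q86103 : Q := Q.p (nat_lit 0x20000080000600001000000000000000000000000000000000000000000) (nat_lit 0x100000000000000004000010000000000000000000000000000000) (nat_lit 2)
theorem c86103 : QOK q86103 := cut [] trivial (nd (nat_lit 146) (nat_lit 0) (cs (lf (nat_lit 36) (nat_lit 123)) (lf (nat_lit 39) (nat_lit 145)))) q86103 (by decide +kernel)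
def q86152 : Q := Q.p (nat_lit 0x80000200000b0000200000000000000000000000000000000000000000000000) (nat_lit 0x40000400001000000000000000000000000000000000000000000) (nat_lit 2)
theorem c86152 : QOK q86152 := cut [] trivial (nd (nat_lit 190) (nat_lit 0) (cs (lf (nat_lit 35) (nat_lit 167)) (lf (nat_lit 14) (nat_lit 186)))) q86152 (by decide +kernel)
def q86199 : Q := Q.p (nat_lit 0x8000060000100000400000000000000000000000000000000000000000000000) (nat_lit 0x800002000010000000000000000000000000000000000000000000000000000000000000000) (nat_lit 2)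
theorem c86199 : QOK q86199 := cut [] trivial (nd (nat_lit 277) (nat_lit 0) (cs (lf (nat_lit 30) (nat_lit 211)) (lf (nat_lit 39) (nat_lit 189)))) q86199 (by decide +kernel)
def q86236 : Q := Q.p (nat_lit 0x20000080000200000800000000000000000000000000000000000000000) (nat_lit 0x10000040000100000000000400003000004000000000000000000000000000000) (nat_lit 4)
theorem c86236 : QOK q86236 := cut [] trivial (nd (nat_lit 144) (nat_lit 0) (cs (lf (nat_lit 46) (nat_lit 144)) (nd (nat_lit 145) (nat_lit 0) (cs (lf (nat_lit 47) (nat_lit 122)) (nd (nat_lit 234) (nat_lit 0) (cs (lf (nat_lit 29) (nat_lit 167)) (lf (nat_lit 28) (nat_lit 145)))))))) q86236 (by decide +kernel)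
def q86312 : Q := Q.p (nat_lit 0x3000038000000000000000000000000000000000000000000000000000000000) (nat_lit 0x4c00000000000000000000000000000000000000000000000000000000000000) (nat_lit 2)
theorem c86312 : QOK q86312 := cut [] trivial (nd (nat_lit 251) (nat_lit 0) (cs (lf (nat_lit 12) (nat_lit 228)) (lf (nat_lit 15) (nat_lit 229)))) q86312 (by decide +kernel)
def q86322 : Q := Q.p (nat_lit 0x200000800006000010000000000000000000000000000000000000000000000000000000000) (nat_lit 0x8000040000100000000000000000000000000000000000000000000000) (nat_lit 2)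
theorem c86322 : QOK q86322 := cut [] trivial (nd (nat_lit 210) (nat_lit 0) (cs (lf (nat_lit 33) (nat_lit 209)) (lf (nat_lit 36) (nat_lit 187)))) q86322 (by decide +kernel)
def q86340 : Q := Q.p (nat_lit 0x10000140000100000400000000000000000000000000000000000000000000000000000000000000) (nat_lit 0xa00002c000080000000000000001000000000000000000000000000000000000000000000000000000000) (nat_lit 4)
theorem c86340 : QOK q86340 := cut [] trivial (nd (nat_lit 315) (nat_lit 0) (cs (lf (nat_lit 41) (nat_lit 249)) (nd (nat_lit 317) (nat_lit 0) (cs (lf (nat_lit 29) (nat_lit 250)) (nd (nat_lit 295) (nat_lit 0) (cs (lf (nat_lit 12) (nat_lit 292)) (lf (nat_lit 24) (nat_lit 228)))))))) q86340 (by decide +kernel)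
def q86356 : Q := Q.p (nat_lit 0x200001000004000010000020000000000000000000000000000000000000000000000000000000000000000000000000) (nat_lit 0x80000400000000000000008000000000000000000000000000000000000000000000000000000000000000000000000000000) (nat_lit 2)
theorem c86356 : QOK q86356 := cut [] trivial (nd (nat_lit 382) (nat_lit 0) (cs (lf (nat_lit 41) (nat_lit 315)) (lf (nat_lit 46) (nat_lit 293)))) q86356 (by decide +kernel)
def q86376 : Q := Q.p (nat_lit 0x100003400008000000000000000000000000000000000000000000000000000000000) (nat_lit 0x80000800010000000000000000000000000000000000000000000000000000000000) (nat_lit 2)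
theorem c86376 : QOK q86376 := cut [] trivial (nd (nat_lit 251) (nat_lit 0) (cs (lf (nat_lit 11) (nat_lit 249)) (lf (nat_lit 17) (nat_lit 228)))) q86376 (by decide +kernel)
def q86377 : Q := Q.p (nat_lit 0xc00003400008000000000000000000000000000000000000000000000000000000000) (nat_lit 0xa00010000000000000000000000000000000000000000000000000000000000) (nat_lit 2)
theorem c86377 : QOK q86377 := cut [] trivial (nd (nat_lit 251) (nat_lit 0) (cs (lf (nat_lit 17) (nat_lit 228)) (lf (nat_lit 0) (nat_lit 249)))) q86377 (by decide +kernel)
def q86395 : Q := Q.p (nat_lit 0x80000000000c00007000000000000000000000000000000000000000000000000000000000000000) (nat_lit 0x20000000000200000000000000010000000000000000000000000000000000000000000000000000000000) (nat_lit 2)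
theorem c86395 : QOK q86395 := cut [] trivial (nd (nat_lit 297) (nat_lit 0) (cs (lf (nat_lit 42) (nat_lit 252)) (lf (nat_lit 35) (nat_lit 231)))) q86395 (by decide +kernel)
def q86461 : Q := Q.p (nat_lit 0x60000500003400008000000000000000000000000000000000000000000000000000000000) (nat_lit 0x60000180000800000000005000000000000000000000000000000000000000000000000000000000) (nat_lit 4)
theorem c86461 : QOK q86461 := cut [] trivial (nd (nat_lit 296) (nat_lit 0) (cs (lf (nat_lit 30) (nat_lit 230)) (nd (nat_lit 295) (nat_lit 0) (cs (lf (nat_lit 17) (nat_lit 271)) (nd (nat_lit 317) (nat_lit 0) (cs (lf (nat_lit 24) (nat_lit 228)) (lf (nat_lit 36) (nat_lit 229)))))))) q86461 (by decide +kernel)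
def q86465 : Q := Q.p (nat_lit 0x20000140000500001400000000000000000000000000000000000000000000000000000000000000) (nat_lit 0x80000000000000005000000000000000000000000000000000000000000000000000000000) (nat_lit 2)
theorem c86465 : QOK q86465 := cut [] trivial (nd (nat_lit 295) (nat_lit 0) (cs (lf (nat_lit 24) (nat_lit 228)) (lf (nat_lit 36) (nat_lit 229)))) q86465 (by decide +kernel)
def q86471 : Q := Q.p (nat_lit 0x20000040000500003400008000000000000000000000000000000000000000000000000000000000) (nat_lit 0x80000e0000d0000100000080000200000800000000000000000000000000000000000000000000000000000000) (nat_lit 6)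
theorem c86471 : QOK q86471 := cut [] trivial (nd (nat_lit 316) (nat_lit 0) (cs (lf (nat_lit 29) (nat_lit 250)) (nd (nat_lit 249) (nat_lit 0) (cs (lf (nat_lit 47) (nat_lit 227)) (nd (nat_lit 338) (nat_lit 0) (cs (lf (nat_lit 46) (nat_lit 249)) (nd (nat_lit 337) (nat_lit 0) (cs (lf (nat_lit 41) (nat_lit 271)) (nd (nat_lit 318) (nat_lit 0) (cs (lf (nat_lit 31) (nat_lit 230)) (lf (nat_lit 6) (nat_lit 315)))))))))))) q86471 (by decide +kernel)
def q86489 : Q := Q.p (nat_lit 0x38000100000400001000000000000000000000000000000000000000000000000000000000000000) (nat_lit 0x4000080000000000000004000000000000000000000000000000000000000000000000000000000) (nat_lit 2)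
theorem c86489 : QOK q86489 := cut [] trivial (nd (nat_lit 295) (nat_lit 0) (cs (lf (nat_lit 12) (nat_lit 292)) (lf (nat_lit 36) (nat_lit 229)))) q86489 (by decide +kernel)
def q86527 : Q := Q.p (nat_lit 0x30000340000c000000000000000000000000000000000000000000000000000000000) (nat_lit 0x20000080000000000800011800004000000000000000000000000000000000000000000000000000) (nat_lit 4)
theorem c86527 : QOK q86527 := cut [] trivial (nd (nat_lit 251) (nat_lit 0) (cs (lf (nat_lit 17) (nat_lit 228)) (nd (nat_lit 295) (nat_lit 0) (cs (lf (nat_lit 30) (nat_lit 229)) (nd (nat_lit 228) (nat_lit 0) (cs (lf (nat_lit 23) (nat_lit 227)) (lf (nat_lit 24) (nat_lit 206)))))))) q86527 (by decide +kernel)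
def q86536 : Q := Q.p (nat_lit 0x340000c000000000000000000000000000000000000000000000000000000000) (nat_lit 0xa00010000000000000000000000000000000000000000000000000000000000) (nat_lit 2)
theorem c86536 : QOK q86536 := cut [] trivial (nd (nat_lit 251) (nat_lit 0) (cs (lf (nat_lit 17) (nat_lit 228)) (lf (nat_lit 12) (nat_lit 227)))) q86536 (by decide +kernel)
def q86566 : Q := Q.p (nat_lit 0x700003000000000000000000000000000000000000000000000000000000000000000) (nat_lit 0x800004800000000000000000000000000000000000000000000000000000000000000) (nat_lit 2)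
theorem c86566 : QOK q86566 := cut [] trivial (nd (nat_lit 254) (nat_lit 0) (cs (lf (nat_lit 15) (nat_lit 250)) (lf (nat_lit 9) (nat_lit 250)))) q86566 (by decide +kernel)
def q86571 : Q := Q.p (nat_lit 0x300000e00002000008000000000000000000000000000000000000000000000000000000000) (nat_lit 0x100000c00000000000000000000000000000000000000000000000000000000000000000000000000) (nat_lit 2)
theorem c86571 : QOK q86571 := cut [] trivial (nd (nat_lit 298) (nat_lit 0) (cs (lf (nat_lit 29) (nat_lit 231)) (lf (nat_lit 18) (nat_lit 273)))) q86571 (by decide +kernel)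
def q86581 : Q := Q.p (nat_lit 0x200000000006000018000000000000000000000000000000000000000000000000000000000) (nat_lit 0x80000000000800000000000000040000000000000000000000000000000000000000000000000000) (nat_lit 2)
theorem c86581 : QOK q86581 := cut [] trivial (nd (nat_lit 275) (nat_lit 0) (cs (lf (nat_lit 35) (nat_lit 209)) (lf (nat_lit 30) (nat_lit 231)))) q86581 (by decide +kernel)
def q86587 : Q := Q.p (nat_lit 0x380000500003000000000000000000000000000000000000000000000000000000000000000) (nat_lit 0x40000280000000000000000000000000000000000000000000000000000000000000000000) (nat_lit 2)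
theorem c86587 : QOK q86587 := cut [] trivial (nd (nat_lit 271) (nat_lit 0) (cs (lf (nat_lit 14) (nat_lit 249)) (lf (nat_lit 21) (nat_lit 271)))) q86587 (by decide +kernel)
def q86595 : Q := Q.p (nat_lit 0x20000180000400001000000000000000000000000000000000000000000000000000000000000000) (nat_lit 0x2000008000000000000000200000000000000000000000000000000000000000000000000000000000000000000) (nat_lit 2)
theorem c86595 : QOK q86595 := cut [] trivial (nd (nat_lit 339) (nat_lit 0) (cs (lf (nat_lit 30) (nat_lit 273)) (lf (nat_lit 33) (nat_lit 251)))) q86595 (by decide +kernel)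
def q86622 : Q := Q.p (nat_lit 0x3800018000000000000000000000000000000000000000000000000000000000) (nat_lit 0x4000024000000000000000000000000000000000000000000000000000000000) (nat_lit 2)
theorem c86622 : QOK q86622 := cut [] trivial (nd (nat_lit 233) (nat_lit 0) (cs (lf (nat_lit 9) (nat_lit 229)) (lf (nat_lit 15) (nat_lit 229)))) q86622 (by decide +kernel)
def q86624 : Q := Q.p (nat_lit 0x20000000000200003c000000000000000000000000000000000000000000000000000000000) (nat_lit 0x800000000000000018000000000000000000000000000000000000000000000000000) (nat_lit 2)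
theorem c86624 : QOK q86624 := cut [] trivial (nd (nat_lit 208) (nat_lit 0) (cs (lf (nat_lit 23) (nat_lit 207)) (lf (nat_lit 43) (nat_lit 208)))) q86624 (by decide +kernel)
def q86649 : Q := Q.p (nat_lit 0x180000600003000004000000000000000000000000000000000000000000000000000000000) (nat_lit 0x380000e00000800000000008000020000000000000000000000000000000000000000000000000000) (nat_lit 5)
theorem c86649 : QOK q86649 := cut [] trivial (nd (nat_lit 231) (nat_lit 0) (cs (lf (nat_lit 35) (nat_lit 208)) (nd (nat_lit 297) (nat_lit 0) (cs (lf (nat_lit 29) (nat_lit 230)) (nd (nat_lit 298) (nat_lit 0) (cs (lf (nat_lit 18) (nat_lit 273)) (nd (nat_lit 320) (nat_lit 0) (cs (lf (nat_lit 5) (nat_lit 295)) (lf (nat_lit 26) (nat_lit 231)))))))))) q86649 (by decide +kernel)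
def q86656 : Q := Q.p (nat_lit 0x780000400000000000000000000000000000000000000000000000000000000000000000000) (nat_lit 0x70000180000e800000000000000000000000000000000000000000000000000000000000000000000) (nat_lit 5)
theorem c86656 : QOK q86656 := cut [] trivial (nd (nat_lit 321) (nat_lit 0) (cs (lf (nat_lit 4) (nat_lit 295)) (nd (nat_lit 299) (nat_lit 0) (cs (lf (nat_lit 5) (nat_lit 296)) (nd (nat_lit 278) (nat_lit 0) (cs (lf (nat_lit 16) (nat_lit 274)) (nd (nat_lit 300) (nat_lit 0) (cs (lf (nat_lit 17) (nat_lit 275)) (lf (nat_lit 22) (nat_lit 274)))))))))) q86656 (by decide +kernel)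
def q86673 : Q := Q.p (nat_lit 0x300000c000010000020000000000000000000000000000000000000000000000) (nat_lit 0x40000180000000000000000000000000000000000000000) (nat_lit 2)
theorem c86673 : QOK q86673 := cut [] trivial (nd (nat_lit 186) (nat_lit 0) (cs (lf (nat_lit 47) (nat_lit 163)) (lf (nat_lit 24) (nat_lit 164)))) q86673 (by decide +kernel)
def q86683 : Q := Q.p (nat_lit 0x80000300000400001000000000000000000000000000000000000000000000000000000000000000) (nat_lit 0x8000020000000000000000800000000000000000000000000000000000000000000000000000000000000000000) (nat_lit 2)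
theorem c86683 : QOK q86683 := cut [] trivial (nd (nat_lit 341) (nat_lit 0) (cs (lf (nat_lit 42) (nat_lit 274)) (lf (nat_lit 45) (nat_lit 252)))) q86683 (by decide +kernel)
def q86710 : Q := Q.p (nat_lit 0x100000000007800002000000000000000000000000000000000000000000000000000000000) (nat_lit 0x40000000000700000000000000008000000000000000000000000000000000000000000000000000) (nat_lit 3)
theorem c86710 : QOK q86710 := cut [] trivial (nd (nat_lit 274) (nat_lit 0) (cs (lf (nat_lit 42) (nat_lit 229)) (nd (nat_lit 273) (nat_lit 0) (cs (lf (nat_lit 24) (nat_lit 207)) (lf (nat_lit 11) (nat_lit 250)))))) q86710 (by decide +kernel)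
def q86717 : Q := Q.p (nat_lit 0x200000c00007000000000000000000000000000000000000000000000000000000000000000) (nat_lit 0x20000080000000000000000000010000000000000000000000000000000000000000000000000000000000) (nat_lit 2)
theorem c86717 : QOK q86717 := cut [] trivial (nd (nat_lit 319) (nat_lit 0) (cs (lf (nat_lit 42) (nat_lit 252)) (lf (nat_lit 35) (nat_lit 231)))) q86717 (by decide +kernel)
def q86744 : Q := Q.p (nat_lit 0xc000030000080000100000000000000000000000000000000000000000000000) (nat_lit 0x200000c00000000000000000000000000000000000000000) (nat_lit 2)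
theorem c86744 : QOK q86744 := cut [] trivial (nd (nat_lit 189) (nat_lit 0) (cs (lf (nat_lit 47) (nat_lit 166)) (lf (nat_lit 36) (nat_lit 166)))) q86744 (by decide +kernel)
def q86765 : Q := Q.p (nat_lit 0x400000e000004000000000000000000000000000000000000000000000000000000000) (nat_lit 0x8000010000008000000000000000000000000000000000000000000000000000000000) (nat_lit 2)
theorem c86765 : QOK q86765 := cut [] trivial (nd (nat_lit 256) (nat_lit 0) (cs (lf (nat_lit 22) (nat_lit 230)) (lf (nat_lit 5) (nat_lit 253)))) q86765 (by decide +kernel)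
def q86802 : Q := Q.p (nat_lit 0x180000e0000000000000000000000000000000000000000000000000000) (nat_lit 0x100000c0000310000e00000800002000000000000000000000000000000000000) (nat_lit 6)
theorem c86802 : QOK q86802 := cut [] trivial (nd (nat_lit 212) (nat_lit 0) (cs (lf (nat_lit 6) (nat_lit 209)) (nd (nat_lit 234) (nat_lit 0) (cs (lf (nat_lit 5) (nat_lit 209)) (nd (nat_lit 190) (nat_lit 0) (cs (lf (nat_lit 17) (nat_lit 187)) (nd (nat_lit 189) (nat_lit 0) (cs (lf (nat_lit 12) (nat_lit 186)) (nd (nat_lit 167) (nat_lit 0) (cs (lf (nat_lit 36) (nat_lit 144)) (lf (nat_lit 42) (nat_lit 167)))))))))))) q86802 (by decide +kernel)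
def q86804 : Q := Q.p (nat_lit 0x20000380000c0000200000000000000000000000000000000000000000000000) (nat_lit 0x100000c00003000000000000000000000000000000000000) (nat_lit 3)
theorem c86804 : QOK q86804 := cut [] trivial (nd (nat_lit 167) (nat_lit 0) (cs (lf (nat_lit 36) (nat_lit 144)) (nd (nat_lit 166) (nat_lit 0) (cs (lf (nat_lit 37) (nat_lit 165)) (lf (nat_lit 47) (nat_lit 144)))))) q86804 (by decide +kernel)
def q86820 : Q := Q.p (nat_lit 0x30000180000e0000000000000000000000000000000000000000000000000000) (nat_lit 0xe0000300000000000000000000000000000000000000000000000000000) (nat_lit 3)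
theorem c86820 : QOK q86820 := cut [] trivial (nd (nat_lit 212) (nat_lit 0) (cs (lf (nat_lit 6) (nat_lit 209)) (nd (nat_lit 234) (nat_lit 0) (cs (lf (nat_lit 5) (nat_lit 209)) (lf (nat_lit 7) (nat_lit 230)))))) q86820 (by decide +kernel)
def q86846 : Q := Q.p (nat_lit 0x40000080000200003800008000000000000000000000000000000000000000000000000000000000) (nat_lit 0x100000400000000002000000000000000000000000000000000000000000000000000000000) (nat_lit 2)
theorem c86846 : QOK q86846 := cut [] trivial (nd (nat_lit 296) (nat_lit 0) (cs (lf (nat_lit 24) (nat_lit 229)) (lf (nat_lit 32) (nat_lit 230)))) q86846 (by decide +kernel)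
def q86853 : Q := Q.p (nat_lit 0x180000200003800008000000000000000000000000000000000000000000000000000000000) (nat_lit 0x40000000000400000000002000000000000000000000000000000000000000000000000000000000) (nat_lit 2)
theorem c86853 : QOK q86853 := cut [] trivial (nd (nat_lit 318) (nat_lit 0) (cs (lf (nat_lit 24) (nat_lit 229)) (lf (nat_lit 32) (nat_lit 230)))) q86853 (by decide +kernel)
def q86855 : Q := Q.p (nat_lit 0x380000200001800000000000000000000000000000000000000000000000000000000000000) (nat_lit 0x4400001c0000000000000000000000000000000000000000000000000000000000000000000) (nat_lit 3)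
theorem c86855 : QOK q86855 := cut [] trivial (nd (nat_lit 272) (nat_lit 0) (cs (lf (nat_lit 18) (nat_lit 272)) (nd (nat_lit 271) (nat_lit 0) (cs (lf (nat_lit 12) (nat_lit 248)) (lf (nat_lit 21) (nat_lit 271)))))) q86855 (by decide +kernel)
def q86873 : Q := Q.p (nat_lit 0x200000c00003000000000000000000000000000000000000000000000000000000000000000) (nat_lit 0x20000080000000000000000000004000000000000000000000000000000000000000000000000000000000) (nat_lit 2)
theorem c86873 : QOK q86873 := cut [] trivial (nd (nat_lit 319) (nat_lit 0) (cs (lf (nat_lit 42) (nat_lit 252)) (lf (nat_lit 47) (nat_lit 230)))) q86873 (by decide +kernel)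
def q86884 : Q := Q.p (nat_lit 0x20000080000200001800000000000000000000000000000000000000000000000000000000000000) (nat_lit 0x4000018000040000000000400000000000000000000000000000000000000000000000000000000000000000000) (nat_lit 3)
theorem c86884 : QOK q86884 := cut [] trivial (nd (nat_lit 340) (nat_lit 0) (cs (lf (nat_lit 28) (nat_lit 251)) (nd (nat_lit 339) (nat_lit 0) (cs (lf (nat_lit 29) (nat_lit 273)) (lf (nat_lit 34) (nat_lit 251)))))) q86884 (by decide +kernel)
def q86913 : Q := Q.p (nat_lit 0x20000080000600003800008000000000000000000000000000000000000000000000000000000000) (nat_lit 0x10000040000100000000000000000000000000000000000000000000000000000000000000000000000000) (nat_lit 2)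
theorem c86913 : QOK q86913 := cut [] trivial (nd (nat_lit 318) (nat_lit 0) (cs (lf (nat_lit 29) (nat_lit 251)) (lf (nat_lit 31) (nat_lit 230)))) q86913 (by decide +kernel)
def q86956 : Q := Q.p (nat_lit 0x100000c000070000000000000000000000000000000000000000000000000000) (nat_lit 0x800070000188000000000000000000000000000000000000000000000000000) (nat_lit 4)
theorem c86956 : QOK q86956 := cut [] trivial (nd (nat_lit 211) (nat_lit 0) (cs (lf (nat_lit 6) (nat_lit 208)) (nd (nat_lit 233) (nat_lit 0) (cs (lf (nat_lit 5) (nat_lit 208)) (nd (nat_lit 232) (nat_lit 0) (cs (lf (nat_lit 23) (nat_lit 207)) (lf (nat_lit 11) (nat_lit 229)))))))) q86956 (by decide +kernel)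
def q86970 : Q := Q.p (nat_lit 0x20000080000e0000180000000000000000000000000000000000000000000000) (nat_lit 0x60000100000000000000000000000000000000000000000) (nat_lit 2)
theorem c86970 : QOK q86970 := cut [] trivial (nd (nat_lit 186) (nat_lit 0) (cs (lf (nat_lit 47) (nat_lit 164)) (lf (nat_lit 0) (nat_lit 185)))) q86970 (by decide +kernel)
def q86988 : Q := Q.p (nat_lit 0x300000c000000000080000000000000000000000000000000000000000000000) (nat_lit 0x400000000000000020000000000200000000000000000000000000000000000000000) (nat_lit 2)
theorem c86988 : QOK q86988 := cut [] trivial (nd (nat_lit 209) (nat_lit 0) (cs (lf (nat_lit 41) (nat_lit 186)) (lf (nat_lit 36) (nat_lit 164)))) q86988 (by decide +kernel)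
def q87008 : Q := Q.p (nat_lit 0x300000c000060000180000000000000000000000000000000000000000000000) (nat_lit 0x100000700001c0000000000000000000000000000000000000000) (nat_lit 4)
theorem c87008 : QOK q87008 := cut [] trivial (nd (nat_lit 186) (nat_lit 0) (cs (lf (nat_lit 47) (nat_lit 164)) (nd (nat_lit 185) (nat_lit 0) (cs (lf (nat_lit 0) (nat_lit 184)) (nd (nat_lit 163) (nat_lit 0) (cs (lf (nat_lit 23) (nat_lit 162)) (lf (nat_lit 44) (nat_lit 163)))))))) q87008 (by decide +kernel)
def q87017 : Q := Q.p (nat_lit 0x1000018000020000080000000000000000000000000000000000000000000000) (nat_lit 0x4000004000000000000000200000000000000000000000000000000000000000) (nat_lit 2)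
theorem c87017 : QOK q87017 := cut [] trivial (nd (nat_lit 165) (nat_lit 0) (cs (lf (nat_lit 40) (nat_lit 164)) (lf (nat_lit 29) (nat_lit 165)))) q87017 (by decide +kernel)
def q87021 : Q := Q.p (nat_lit 0xe00003000000000000000000000000000000000000000000000000000000000000000) (nat_lit 0x180004000000000000000000000000000000000000000000000000000000000000000) (nat_lit 2)
theorem c87021 : QOK q87021 := cut [] trivial (nd (nat_lit 272) (nat_lit 0) (cs (lf (nat_lit 12) (nat_lit 249)) (lf (nat_lit 17) (nat_lit 250)))) q87021 (by decide +kernel)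
def q87049 : Q := Q.p (nat_lit 0x600001800000000010000000000000000000000000000000000000000000000000000) (nat_lit 0x80000000000000004000000000040000000000000000000000000000000000000000000000) (nat_lit 2)
theorem c87049 : QOK q87049 := cut [] trivial (nd (nat_lit 230) (nat_lit 0) (cs (lf (nat_lit 41) (nat_lit 207)) (lf (nat_lit 36) (nat_lit 185)))) q87049 (by decide +kernel)
def q87059 : Q := Q.p (nat_lit 0x38000030000000000000000000000000000000000000000000000000000) (nat_lit 0x4c000000000000000000000000000000000000000000000000000) (nat_lit 2)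
theorem c87059 : QOK q87059 := cut [] trivial (nd (nat_lit 207) (nat_lit 0) (cs (lf (nat_lit 0) (nat_lit 206)) (lf (nat_lit 3) (nat_lit 207)))) q87059 (by decide +kernel)
def q87084 : Q := Q.p (nat_lit 0x10000000000300000c000000000000000000000000000000000000000000000000000000000) (nat_lit 0x40000000000400000000000000020000000000000000000000000000000000000000000000000000) (nat_lit 2)
theorem c87084 : QOK q87084 := cut [] trivial (nd (nat_lit 274) (nat_lit 0) (cs (lf (nat_lit 30) (nat_lit 230)) (lf (nat_lit 35) (nat_lit 208)))) q87084 (by decide +kernel)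
def q87089 : Q := Q.p (nat_lit 0x10000020000180000c000000000000000000000000000000000000000000000000000000000) (nat_lit 0x700000c000010000000003200000c000000000000000000000000000000000000000000000000000) (nat_lit 6)
theorem c87089 : QOK q87089 := cut [] trivial (nd (nat_lit 232) (nat_lit 0) (cs (lf (nat_lit 6) (nat_lit 229)) (nd (nat_lit 295) (nat_lit 0) (cs (lf (nat_lit 30) (nat_lit 229)) (nd (nat_lit 229) (nat_lit 0) (cs (lf (nat_lit 29) (nat_lit 229)) (nd (nat_lit 294) (nat_lit 0) (cs (lf (nat_lit 41) (nat_lit 228)) (nd (nat_lit 207) (nat_lit 0) (cs (lf (nat_lit 23) (nat_lit 206)) (lf (nat_lit 40) (nat_lit 206)))))))))))) q87089 (by decide +kernel)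
def q87114 : Q := Q.p (nat_lit 0x1c000060000000000000000000000000000000000000000000000000000) (nat_lit 0x2000180000000000000000000000000000000000000000000000000000) (nat_lit 2)
theorem c87114 : QOK q87114 := cut [] trivial (nd (nat_lit 211) (nat_lit 0) (cs (lf (nat_lit 6) (nat_lit 208)) (lf (nat_lit 12) (nat_lit 207)))) q87114 (by decide +kernel)
def q87131 : Q := Q.p (nat_lit 0x300001c000000000000000000000000000000000000000000000000000000000) (nat_lit 0x800060000000000000000000000000000000000000000000000000000000000) (nat_lit 2)
theorem c87131 : QOK q87131 := cut [] trivial (nd (nat_lit 233) (nat_lit 0) (cs (lf (nat_lit 6) (nat_lit 230)) (lf (nat_lit 11) (nat_lit 229)))) q87131 (by decide +kernel)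
def q87138 : Q := Q.p (nat_lit 0x1000006000008000000000000000000000000000000000000000000000000000) (nat_lit 0x100000400000800000000000000020000080000000000000000000000000000000000000000) (nat_lit 3)
theorem c87138 : QOK q87138 := cut [] trivial (nd (nat_lit 185) (nat_lit 0) (cs (lf (nat_lit 24) (nat_lit 163)) (nd (nat_lit 274) (nat_lit 0) (cs (lf (nat_lit 42) (nat_lit 207)) (lf (nat_lit 27) (nat_lit 185)))))) q87138 (by decide +kernel)
def q87147 : Q := Q.p (nat_lit 0x1800006000008000010000000000000000000000000000000000000000000000) (nat_lit 0x200000c0000000000000000000000000000000000000000) (nat_lit 2)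
theorem c87147 : QOK q87147 := cut [] trivial (nd (nat_lit 185) (nat_lit 0) (cs (lf (nat_lit 24) (nat_lit 163)) (lf (nat_lit 47) (nat_lit 162)))) q87147 (by decide +kernel)
def q87179 : Q := Q.p (nat_lit 0x7800006000010000000000000000000000000000000000000000000000000000) (nat_lit 0x80000300000000000000000000000000000000000000000000000000000000000000000000) (nat_lit 2)
theorem c87179 : QOK q87179 := cut [] trivial (nd (nat_lit 273) (nat_lit 0) (cs (lf (nat_lit 30) (nat_lit 207)) (lf (nat_lit 11) (nat_lit 250)))) q87179 (by decide +kernel)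
def q87182 : Q := Q.p (nat_lit 0x16000050000000000000000000000000000000000000000000000000000) (nat_lit 0x80000a0000000000000000000000000000000000000000000000000000) (nat_lit 2)
theorem c87182 : QOK q87182 := cut [] trivial (nd (nat_lit 211) (nat_lit 0) (cs (lf (nat_lit 8) (nat_lit 207)) (lf (nat_lit 14) (nat_lit 207)))) q87182 (by decide +kernel)
def q87185 : Q := Q.p (nat_lit 0x300001c000010000000000000000000000000000000000000000000000000000) (nat_lit 0x60000008000000000000000000000000000000000000000000000000000) (nat_lit 2)
theorem c87185 : QOK q87185 := cut [] trivial (nd (nat_lit 233) (nat_lit 0) (cs (lf (nat_lit 6) (nat_lit 230)) (lf (nat_lit 23) (nat_lit 207)))) q87185 (by decide +kernel)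
def q87207 : Q := Q.p (nat_lit 0x40000300000c000000000000000000000000000000000000000000000000000000000) (nat_lit 0x40000100000000000000000000020000000000000000000000000000000000000000000000000000) (nat_lit 2)
theorem c87207 : QOK q87207 := cut [] trivial (nd (nat_lit 296) (nat_lit 0) (cs (lf (nat_lit 30) (nat_lit 230)) (lf (nat_lit 35) (nat_lit 208)))) q87207 (by decide +kernel)
def q87227 : Q := Q.p (nat_lit 0x400001000006000008000000000000000000000000000000000000000000000000000) (nat_lit 0x800000000000000020000080000000000000000000000000000000000000000) (nat_lit 2)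
theorem c87227 : QOK q87227 := cut [] trivial (nd (nat_lit 185) (nat_lit 0) (cs (lf (nat_lit 24) (nat_lit 163)) (lf (nat_lit 27) (nat_lit 185)))) q87227 (by decide +kernel)
def q87305 : Q := Q.p (nat_lit 0x200000800006000008000000000000000000000000000000000000000000000000000) (nat_lit 0x80000000000000000000010000040000000000000000000000000000000000000000000000) (nat_lit 2)
theorem c87305 : QOK q87305 := cut [] trivial (nd (nat_lit 208) (nat_lit 0) (cs (lf (nat_lit 30) (nat_lit 207)) (lf (nat_lit 35) (nat_lit 185)))) q87305 (by decide +kernel)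
def q87326 : Q := Q.p (nat_lit 0x4000070000000000000000000000000000000000000000000000000000) (nat_lit 0xa000180000e00000000000000000000000000000000000000000000000) (nat_lit 4)
theorem c87326 : QOK q87326 := cut [] trivial (nd (nat_lit 211) (nat_lit 0) (cs (lf (nat_lit 11) (nat_lit 207)) (nd (nat_lit 190) (nat_lit 0) (cs (lf (nat_lit 16) (nat_lit 186)) (nd (nat_lit 212) (nat_lit 0) (cs (lf (nat_lit 17) (nat_lit 187)) (lf (nat_lit 10) (nat_lit 208)))))))) q87326 (by decide +kernel)
def q87334 : Q := Q.p (nat_lit 0x600001e000000000080000000000000000000000000000000000000000000000) (nat_lit 0x8000000000000000c0000100000200000000000000000000000000000000000000000) (nat_lit 3)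
theorem c87334 : QOK q87334 := cut [] trivial (nd (nat_lit 210) (nat_lit 0) (cs (lf (nat_lit 17) (nat_lit 207)) (nd (nat_lit 188) (nat_lit 0) (cs (lf (nat_lit 41) (nat_lit 187)) (lf (nat_lit 47) (nat_lit 165)))))) q87334 (by decide +kernel)
def q87355 : Q := Q.p (nat_lit 0x20000000000200001e000000000000000000000000000000000000000000000000000000000) (nat_lit 0x8000000000000000c0000000000000000000000000000000000000000000000000000) (nat_lit 2)
theorem c87355 : QOK q87355 := cut [] trivial (nd (nat_lit 210) (nat_lit 0) (cs (lf (nat_lit 17) (nat_lit 207)) (lf (nat_lit 31) (nat_lit 209)))) q87355 (by decide +kernel)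
def q87382 : Q := Q.p (nat_lit 0x40000100000400001000000000000000000000000000000000000000000000000000000000000000) (nat_lit 0x2000018000020000000000200000800002000000000000000000000000000000000000000000000000000000000) (nat_lit 4)
theorem c87382 : QOK q87382 := cut [] trivial (nd (nat_lit 339) (nat_lit 0) (cs (lf (nat_lit 40) (nat_lit 251)) (nd (nat_lit 251) (nat_lit 0) (cs (lf (nat_lit 47) (nat_lit 229)) (nd (nat_lit 340) (nat_lit 0) (cs (lf (nat_lit 41) (nat_lit 273)) (lf (nat_lit 46) (nat_lit 251)))))))) q87382 (by decide +kernel)
def q87441 : Q := Q.p (nat_lit 0x3c00004000000000000000000000000000000000000000000000000000000000) (nat_lit 0x1c0000200008000000000000000000000000000000000000000000000000000000000) (nat_lit 3)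
theorem c87441 : QOK q87441 := cut [] trivial (nd (nat_lit 271) (nat_lit 0) (cs (lf (nat_lit 10) (nat_lit 249)) (nd (nat_lit 249) (nat_lit 0) (cs (lf (nat_lit 17) (nat_lit 227)) (lf (nat_lit 11) (nat_lit 248)))))) q87441 (by decide +kernel)
def q87458 : Q := Q.p (nat_lit 0x400003000004000020000000000000000000000000000000000000000000000000000) (nat_lit 0x8000010000080000000000000000000000000000000000000000000000) (nat_lit 2)
theorem c87458 : QOK q87458 := cut [] trivial (nd (nat_lit 187) (nat_lit 0) (cs (lf (nat_lit 38) (nat_lit 186)) (lf (nat_lit 33) (nat_lit 186)))) q87458 (by decide +kernel)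
def q87462 : Q := Q.p (nat_lit 0x400007000006000028000000000000000000000000000000000000000000000000000) (nat_lit 0x2000008000000000300000d0000180000000000000000000000000000000000000000000000) (nat_lit 5)
theorem c87462 : QOK q87462 := cut [] trivial (nd (nat_lit 208) (nat_lit 0) (cs (lf (nat_lit 35) (nat_lit 186)) (nd (nat_lit 210) (nat_lit 0) (cs (lf (nat_lit 6) (nat_lit 207)) (nd (nat_lit 232) (nat_lit 0) (cs (lf (nat_lit 5) (nat_lit 207)) (nd (nat_lit 275) (nat_lit 0) (cs (lf (nat_lit 29) (nat_lit 208)) (lf (nat_lit 36) (nat_lit 187)))))))))) q87462 (by decide +kernel)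
def q87471 : Q := Q.p (nat_lit 0x100001e000000000000000000000000000000000000000000000000000000000) (nat_lit 0xc00020000000000000000000000000000000000000000000000000000000000) (nat_lit 2)
theorem c87471 : QOK q87471 := cut [] trivial (nd (nat_lit 251) (nat_lit 0) (cs (lf (nat_lit 6) (nat_lit 229)) (lf (nat_lit 11) (nat_lit 228)))) q87471 (by decide +kernel)
def q87477 : Q := Q.p (nat_lit 0x200000400001000004000020000000000000000000000000000000000000000000000000000) (nat_lit 0x800000000000000010000080000000000000000000000000000000000000000000000) (nat_lit 2)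
theorem c87477 : QOK q87477 := cut [] trivial (nd (nat_lit 208) (nat_lit 0) (cs (lf (nat_lit 35) (nat_lit 186)) (lf (nat_lit 28) (nat_lit 208)))) q87477 (by decide +kernel)
def q87523 : Q := Q.p (nat_lit 0x3000006000000000000000000000000000000000000000000000000000000000) (nat_lit 0x4800009800000000000000000000000000000000000000000000000000000000) (nat_lit 3)
theorem c87523 : QOK q87523 := cut [] trivial (nd (nat_lit 228) (nat_lit 0) (cs (lf (nat_lit 0) (nat_lit 227)) (nd (nat_lit 254) (nat_lit 0) (cs (lf (nat_lit 3) (nat_lit 228)) (lf (nat_lit 21) (nat_lit 228)))))) q87523 (by decide +kernel)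
def q87528 : Q := Q.p (nat_lit 0x1f000000000000000000000000000000000000000000000000000000000) (nat_lit 0xe00000000000000000000000000000000000000000000000000000000000000) (nat_lit 2)
theorem c87528 : QOK q87528 := cut [] trivial (nd (nat_lit 250) (nat_lit 0) (cs (lf (nat_lit 11) (nat_lit 227)) (lf (nat_lit 10) (nat_lit 228)))) q87528 (by decide +kernel)
def q87537 : Q := Q.p (nat_lit 0x800006000030000018000000000000000000000000000000000000000000000000000) (nat_lit 0x60000100000000000000000000000000000000000000000000000) (nat_lit 2)
theorem c87537 : QOK q87537 := cut [] trivial (nd (nat_lit 210) (nat_lit 0) (cs (lf (nat_lit 2) (nat_lit 207)) (lf (nat_lit 36) (nat_lit 187)))) q87537 (by decide +kernel)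
def q87550 : Q := Q.p (nat_lit 0x3000006000000000000000000000000000000000000000000000000000000000) (nat_lit 0xc800009000000000000000000000000000000000000000000000000000000000) (nat_lit 3)
theorem c87550 : QOK q87550 := cut [] trivial (nd (nat_lit 254) (nat_lit 0) (cs (lf (nat_lit 18) (nat_lit 229)) (nd (nat_lit 228) (nat_lit 0) (cs (lf (nat_lit 3) (nat_lit 228)) (lf (nat_lit 21) (nat_lit 228)))))) q87550 (by decide +kernel)
def q87559 : Q := Q.p (nat_lit 0x300000d000000000000000000000000000000000000000000000000000000000) (nat_lit 0x4000002800000000000000000000000000000000000000000000000000000000) (nat_lit 2)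
theorem c87559 : QOK q87559 := cut [] trivial (nd (nat_lit 229) (nat_lit 0) (cs (lf (nat_lit 0) (nat_lit 227)) (lf (nat_lit 5) (nat_lit 228)))) q87559 (by decide +kernel)
def q87650 : Q := Q.p (nat_lit 0x20000000000300000c000000000000000000000000000000000000000000000000000000000) (nat_lit 0x80000000000800000000000000010000000000000000000000000000000000000000000000000000) (nat_lit 2)
theorem c87650 : QOK q87650 := cut [] trivial (nd (nat_lit 275) (nat_lit 0) (cs (lf (nat_lit 42) (nat_lit 230)) (lf (nat_lit 47) (nat_lit 208)))) q87650 (by decide +kernel)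
def q87651 : Q := Q.p (nat_lit 0x3e0000000000000000000000000000000000000000000000000000000000000000000000000) (nat_lit 0x1c0000000000000000000000000000000000000000000000000000000000000000000000000000000) (nat_lit 2)
theorem c87651 : QOK q87651 := cut [] trivial (nd (nat_lit 319) (nat_lit 0) (cs (lf (nat_lit 5) (nat_lit 294)) (lf (nat_lit 4) (nat_lit 293)))) q87651 (by decide +kernel)
def q87772 : Q := Q.p (nat_lit 0xf0000300000000000000000000000000000000000000000000000) (nat_lit 0xe0000700000080000000000000000000000000000000000000000000000) (nat_lit 4)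
theorem c87772 : QOK q87772 := cut [] trivial (nd (nat_lit 234) (nat_lit 0) (cs (lf (nat_lit 4) (nat_lit 208)) (nd (nat_lit 212) (nat_lit 0) (cs (lf (nat_lit 5) (nat_lit 209)) (nd (nat_lit 213) (nat_lit 0) (cs (lf (nat_lit 23) (nat_lit 187)) (lf (nat_lit 18) (nat_lit 188)))))))) q87772 (by decide +kernel)
def q87790 : Q := Q.p (nat_lit 0x16000018000000000000000000000000000000000000000000000000000) (nat_lit 0x28000004000000000000000000000000000000000000000000000000000) (nat_lit 2)
theorem c87790 : QOK q87790 := cut [] trivial (nd (nat_lit 231) (nat_lit 0) (cs (lf (nat_lit 18) (nat_lit 207)) (lf (nat_lit 23) (nat_lit 206)))) q87790 (by decide +kernel)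
def q87798 : Q := Q.p (nat_lit 0x400001000007000010000000000000000000000000000000000000000000000000000) (nat_lit 0x80000e0000080000000000000000000000000000000000000000000000) (nat_lit 3)
theorem c87798 : QOK q87798 := cut [] trivial (nd (nat_lit 209) (nat_lit 0) (cs (lf (nat_lit 35) (nat_lit 186)) (nd (nat_lit 210) (nat_lit 0) (cs (lf (nat_lit 6) (nat_lit 207)) (lf (nat_lit 15) (nat_lit 206)))))) q87798 (by decide +kernel)
def q87807 : Q := Q.p (nat_lit 0x10000080000300000c000000000000000000000000000000000000000000000000000000000) (nat_lit 0xc0000200000000000000000000000000000000000000000000000000000000000000000000000000) (nat_lit 2)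
theorem c87807 : QOK q87807 := cut [] trivial (nd (nat_lit 297) (nat_lit 0) (cs (lf (nat_lit 41) (nat_lit 230)) (lf (nat_lit 42) (nat_lit 230)))) q87807 (by decide +kernel)
def q87836 : Q := Q.p (nat_lit 0x3c0000000000000000000000000000000000000000000000000000000000000000000000000) (nat_lit 0x1c00000200001c0000000000000000000000000000000000000000000000000000000000000000000) (nat_lit 4)
theorem c87836 : QOK q87836 := cut [] trivial (nd (nat_lit 271) (nat_lit 0) (cs (lf (nat_lit 22) (nat_lit 271)) (nd (nat_lit 319) (nat_lit 0) (cs (lf (nat_lit 5) (nat_lit 294)) (nd (nat_lit 293) (nat_lit 0) (cs (lf (nat_lit 23) (nat_lit 270)) (lf (nat_lit 4) (nat_lit 293)))))))) q87836 (by decide +kernel)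
def q87848 : Q := Q.p (nat_lit 0x300000000002000018000000000000000000000000000000000000000000000000000000000) (nat_lit 0x40000000000800000000000000040000000000000000000000000000000000000000000000000000) (nat_lit 2)
theorem c87848 : QOK q87848 := cut [] trivial (nd (nat_lit 275) (nat_lit 0) (cs (lf (nat_lit 41) (nat_lit 230)) (lf (nat_lit 35) (nat_lit 209)))) q87848 (by decide +kernel)
def q87868 : Q := Q.p (nat_lit 0x300000000003000004000000000000000000000000000000000000000000000000000000000) (nat_lit 0x80000000000c00000000000000000000000000000000000000000000000000000000000000000000) (nat_lit 2)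
theorem c87868 : QOK q87868 := cut [] trivial (nd (nat_lit 319) (nat_lit 0) (cs (lf (nat_lit 44) (nat_lit 230)) (lf (nat_lit 26) (nat_lit 230)))) q87868 (by decide +kernel)
def q87869 : Q := Q.p (nat_lit 0x300000000003000008000000000000000000000000000000000000000000000000000000000) (nat_lit 0x40000000000c00000000000000000000000000000000000000000000000000000000000000000000) (nat_lit 2)
theorem c87869 : QOK q87869 := cut [] trivial (nd (nat_lit 318) (nat_lit 0) (cs (lf (nat_lit 32) (nat_lit 230)) (lf (nat_lit 38) (nat_lit 230)))) q87869 (by decide +kernel)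
def q87874 : Q := Q.p (nat_lit 0x340000d000000000000000000000000000000000000000000000000000000000) (nat_lit 0xa00000800000000000000000000000000000000000000000000000000000000) (nat_lit 2)
theorem c87874 : QOK q87874 := cut [] trivial (nd (nat_lit 251) (nat_lit 0) (cs (lf (nat_lit 23) (nat_lit 227)) (lf (nat_lit 12) (nat_lit 227)))) q87874 (by decide +kernel)
def q87875 : Q := Q.p (nat_lit 0x100003400001000000000000000000000000000000000000000000000000000000000) (nat_lit 0x80000800000800000000000000000000000000000000000000000000000000000000) (nat_lit 2)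
theorem c87875 : QOK q87875 := cut [] trivial (nd (nat_lit 251) (nat_lit 0) (cs (lf (nat_lit 11) (nat_lit 249)) (lf (nat_lit 23) (nat_lit 227)))) q87875 (by decide +kernel)
def q87968 : Q := Q.p (nat_lit 0x1800006000008000000000000000000000000000000000000000000000000000) (nat_lit 0x300000c00003000000000000000100000700001c0000000000000000000000000000000000000000) (nat_lit 7)
theorem c87968 : QOK q87968 := cut [] trivial (nd (nat_lit 185) (nat_lit 0) (cs (lf (nat_lit 24) (nat_lit 163)) (nd (nat_lit 162) (nat_lit 0) (cs (lf (nat_lit 46) (nat_lit 162)) (nd (nat_lit 186) (nat_lit 0) (cs (lf (nat_lit 35) (nat_lit 163)) (nd (nat_lit 273) (nat_lit 0) (cs (nd (nat_lit 294) (nat_lit 0) (cs (lf (nat_lit 40) (nat_lit 206)) (nd (nat_lit 295) (nat_lit 0) (cs (lf (nat_lit 30) (nat_lit 229)) (lf (nat_lit 41) (nat_lit 228)))))) (lf (nat_lit 37) (nat_lit 185)))))))))) q87968 (by decide +kernel)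
def q87978 : Q := Q.p (nat_lit 0x80000600001000004000000000000000000000000000000000000000000000000000000000) (nat_lit 0x8000020000000000000000800000000000000000000000000000000000000000000000000000000000000) (nat_lit 2)
theorem c87978 : QOK q87978 := cut [] trivial (nd (nat_lit 317) (nat_lit 0) (cs (lf (nat_lit 30) (nat_lit 251)) (lf (nat_lit 33) (nat_lit 229)))) q87978 (by decide +kernel)
def q88097 : Q := Q.p (nat_lit 0x600001000006000018000000000000000000000000000000000000000000000000000) (nat_lit 0x8000380000e4000098000000000000000000000000000000000000000000000) (nat_lit 6)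
theorem c88097 : QOK q88097 := cut [] trivial (nd (nat_lit 209) (nat_lit 0) (cs (lf (nat_lit 35) (nat_lit 186)) (nd (nat_lit 210) (nat_lit 0) (cs (lf (nat_lit 6) (nat_lit 207)) (nd (nat_lit 232) (nat_lit 0) (cs (lf (nat_lit 5) (nat_lit 207)) (nd (nat_lit 206) (nat_lit 0) (cs (lf (nat_lit 19) (nat_lit 206)) (nd (nat_lit 184) (nat_lit 0) (cs (lf (nat_lit 23) (nat_lit 183)) (lf (nat_lit 43) (nat_lit 184)))))))))))) q88097 (by decide +kernel)
def q88128 : Q := Q.p (nat_lit 0xc00003c000000000000000000000000000000000000000000000000000) (nat_lit 0x38001c0000718000000000000000000000000000000000000000000000) (nat_lit 6)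
theorem c88128 : QOK q88128 := cut [] trivial (nd (nat_lit 183) (nat_lit 0) (cs (lf (nat_lit 22) (nat_lit 183)) (nd (nat_lit 228) (nat_lit 0) (cs (lf (nat_lit 11) (nat_lit 205)) (nd (nat_lit 210) (nat_lit 0) (cs (lf (nat_lit 10) (nat_lit 206)) (nd (nat_lit 189) (nat_lit 0) (cs (lf (nat_lit 16) (nat_lit 185)) (nd (nat_lit 211) (nat_lit 0) (cs (lf (nat_lit 17) (nat_lit 186)) (lf (nat_lit 6) (nat_lit 208)))))))))))) q88128 (by decide +kernel)
def q88146 : Q := Q.p (nat_lit 0x300000d000020000000000000000000000000000000000000000000000000000) (nat_lit 0x380001f0000780000e00012000056000000000000000000000000000000000000000000000000000) (nat_lit 11)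
theorem c88146 : QOK q88146 := cut [] trivial (nd (nat_lit 274) (nat_lit 0) (cs (lf (nat_lit 30) (nat_lit 208)) (nd (nat_lit 229) (nat_lit 0) (cs (lf (nat_lit 17) (nat_lit 206)) (nd (nat_lit 205) (nat_lit 0) (cs (lf (nat_lit 22) (nat_lit 205)) (nd (nat_lit 250) (nat_lit 0) (cs (lf (nat_lit 11) (nat_lit 227)) (nd (nat_lit 251) (nat_lit 0) (cs (lf (nat_lit 17) (nat_lit 228)) (nd (nat_lit 272) (nat_lit 0) (cs (lf (nat_lit 11) (nat_lit 249)) (nd (nat_lit 294) (nat_lit 0) (cs (lf (nat_lit 30) (nat_lit 228)) (nd (nat_lit 293) (nat_lit 0) (cs (lf (nat_lit 41) (nat_lit 227)) (nd (nat_lit 295) (nat_lit 0) (cs (lf (nat_lit 29) (nat_lit 228)) (nd (nat_lit 273) (nat_lit 0) (cs (lf (nat_lit 12) (nat_lit 270)) (lf (nat_lit 35) (nat_lit 207)))))))))))))))))))))) q88146 (by decide +kernel)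
def q88159 : Q := Q.p (nat_lit 0x3400009000000000000000000000000000000000000000000000000000000000) (nat_lit 0x800010800000000000000000000000000000000000000000000000000000000) (nat_lit 2)
theorem c88159 : QOK q88159 := cut [] trivial (nd (nat_lit 251) (nat_lit 0) (cs (lf (nat_lit 17) (nat_lit 228)) (lf (nat_lit 23) (nat_lit 227)))) q88159 (by decide +kernel)
def q88247 : Q := Q.p (nat_lit 0xf00000c000010000000000000000000000000000000000000000000000000000) (nat_lit 0x600000000070000008000020000000000000000000000000000000000000000000000) (nat_lit 4)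
theorem c88247 : QOK q88247 := cut [] trivial (nd (nat_lit 233) (nat_lit 0) (cs (lf (nat_lit 17) (nat_lit 230)) (nd (nat_lit 207) (nat_lit 0) (cs (lf (nat_lit 19) (nat_lit 207)) (nd (nat_lit 274) (nat_lit 0) (cs (lf (nat_lit 47) (nat_lit 185)) (lf (nat_lit 11) (nat_lit 251)))))))) q88247 (by decide +kernel)
def q88290 : Q := Q.p (nat_lit 0x100000400003000004000000000000000000000000000000000000000000000000000000000) (nat_lit 0xc00000b000028000000000000000000000000000000000000000000000000000) (nat_lit 4)
theorem c88290 : QOK q88290 := cut [] trivial (nd (nat_lit 231) (nat_lit 0) (cs (lf (nat_lit 35) (nat_lit 208)) (nd (nat_lit 229) (nat_lit 0) (cs (lf (nat_lit 47) (nat_lit 207)) (nd (nat_lit 254) (nat_lit 0) (cs (lf (nat_lit 18) (nat_lit 229)) (lf (nat_lit 0) (nat_lit 228)))))))) q88290 (by decide +kernel)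
def q88311 : Q := Q.p (nat_lit 0x200007000004000010000000000000000000000000000000000000000000000000000) (nat_lit 0x100000800000000000000040000000000000000000000000000000000000000000000) (nat_lit 2)
theorem c88311 : QOK q88311 := cut [] trivial (nd (nat_lit 251) (nat_lit 0) (cs (lf (nat_lit 36) (nat_lit 185)) (lf (nat_lit 11) (nat_lit 250)))) q88311 (by decide +kernel)
def q88318 : Q := Q.p (nat_lit 0x80000200000f000010000000000000000000000000000000000000000000000000000000000) (nat_lit 0x60000040000000000000000000000000000000000000000000000000000) (nat_lit 2)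
theorem c88318 : QOK q88318 := cut [] trivial (nd (nat_lit 233) (nat_lit 0) (cs (lf (nat_lit 47) (nat_lit 210)) (lf (nat_lit 17) (nat_lit 230)))) q88318 (by decide +kernel)
def q88337 : Q := Q.p (nat_lit 0x200000800003000004000000000000000000000000000000000000000000000000000000000) (nat_lit 0x8000010000040000000000000000000000000000000000000000000000) (nat_lit 2)
theorem c88337 : QOK q88337 := cut [] trivial (nd (nat_lit 208) (nat_lit 0) (cs (lf (nat_lit 24) (nat_lit 186)) (lf (nat_lit 45) (nat_lit 208)))) q88337 (by decide +kernel)
def q88356 : Q := Q.p (nat_lit 0x40000100003400001000000000000000000000000000000000000000000000000000000000) (nat_lit 0x680000a000000000000000000000000000000000000000000000000000) (nat_lit 3)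
theorem c88356 : QOK q88356 := cut [] trivial (nd (nat_lit 229) (nat_lit 0) (cs (lf (nat_lit 35) (nat_lit 206)) (nd (nat_lit 227) (nat_lit 0) (cs (lf (nat_lit 3) (nat_lit 227)) (lf (nat_lit 47) (nat_lit 205)))))) q88356 (by decide +kernel)
def q88361 : Q := Q.p (nat_lit 0x500001400005000014000000000000000000000000000000000000000000000000000) (nat_lit 0x8000280000a0000000000000000000000000000000000000000000000) (nat_lit 3)
theorem c88361 : QOK q88361 := cut [] trivial (nd (nat_lit 207) (nat_lit 0) (cs (lf (nat_lit 35) (nat_lit 184)) (nd (nat_lit 209) (nat_lit 0) (cs (lf (nat_lit 11) (nat_lit 205)) (lf (nat_lit 35) (nat_lit 186)))))) q88361 (by decide +kernel)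
def q88364 : Q := Q.p (nat_lit 0x3000007000000000000000000000000000000000000000000000000000000000) (nat_lit 0xc000008000000000000000000000000000000000000000000000000000000000) (nat_lit 2)
theorem c88364 : QOK q88364 := cut [] trivial (nd (nat_lit 254) (nat_lit 0) (cs (lf (nat_lit 3) (nat_lit 228)) (lf (nat_lit 18) (nat_lit 229)))) q88364 (by decide +kernel)
def q88369 : Q := Q.p (nat_lit 0x100000400005000004000000000000000000000000000000000000000000000000000) (nat_lit 0x2000008000000000a00000b000028000000000000000000000000000000000000000000000) (nat_lit 5)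
theorem c88369 : QOK q88369 := cut [] trivial (nd (nat_lit 207) (nat_lit 0) (cs (lf (nat_lit 35) (nat_lit 184)) (nd (nat_lit 271) (nat_lit 0) (cs (lf (nat_lit 41) (nat_lit 205)) (nd (nat_lit 205) (nat_lit 0) (cs (lf (nat_lit 47) (nat_lit 183)) (nd (nat_lit 229) (nat_lit 0) (cs (lf (nat_lit 0) (nat_lit 204)) (lf (nat_lit 18) (nat_lit 205)))))))))) q88369 (by decide +kernel)
def q88394 : Q := Q.p (nat_lit 0x100003400001000004000000000000000000000000000000000000000000000000000) (nat_lit 0x1000004000008000020000680000a000018000060000000000000000000000000000000000000000) (nat_lit 7)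
theorem c88394 : QOK q88394 := cut [] trivial (nd (nat_lit 183) (nat_lit 0) (cs (lf (nat_lit 46) (nat_lit 183)) (nd (nat_lit 184) (nat_lit 0) (cs (lf (nat_lit 47) (nat_lit 161)) (nd (nat_lit 249) (nat_lit 0) (cs (lf (nat_lit 41) (nat_lit 183)) (nd (nat_lit 227) (nat_lit 0) (cs (lf (nat_lit 36) (nat_lit 161)) (nd (nat_lit 229) (nat_lit 0) (cs (lf (nat_lit 3) (nat_lit 227)) (nd (nat_lit 294) (nat_lit 0) (cs (lf (nat_lit 42) (nat_lit 227)) (lf (nat_lit 35) (nat_lit 206)))))))))))))) q88394 (by decide +kernel)
def q88397 : Q := Q.p (nat_lit 0x10000340000100000c000000000000000000000000000000000000000000000000000) (nat_lit 0x40000000000000006c00030000000000000000000000000000000000000000000000000000) (nat_lit 4)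
theorem c88397 : QOK q88397 := cut [] trivial (nd (nat_lit 229) (nat_lit 0) (cs (lf (nat_lit 30) (nat_lit 206)) (nd (nat_lit 227) (nat_lit 0) (cs (lf (nat_lit 3) (nat_lit 227)) (nd (nat_lit 208) (nat_lit 0) (cs (lf (nat_lit 12) (nat_lit 204)) (lf (nat_lit 6) (nat_lit 205)))))))) q88397 (by decide +kernel)
def q88421 : Q := Q.p (nat_lit 0x1f00000000000000000000000000000000000000000000000000000000000000) (nat_lit 0xe000000000000000000000000000000000000000000000000000000000) (nat_lit 2)
theorem c88421 : QOK q88421 := cut [] trivial (nd (nat_lit 230) (nat_lit 0) (cs (lf (nat_lit 17) (nat_lit 227)) (lf (nat_lit 16) (nat_lit 226)))) q88421 (by decide +kernel)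
def q88425 : Q := Q.p (nat_lit 0x200000c00003000000000000000000000000000000000000000000000000000000000000000) (nat_lit 0x80000000000000000000004000010000000000000000000000000000000000000000000000000000) (nat_lit 2)
theorem c88425 : QOK q88425 := cut [] trivial (nd (nat_lit 230) (nat_lit 0) (cs (lf (nat_lit 42) (nat_lit 230)) (lf (nat_lit 24) (nat_lit 208)))) q88425 (by decide +kernel)
def q88434 : Q := Q.p (nat_lit 0x100000400003000000000020000000000000000000000000000000000000000000000000000) (nat_lit 0x800000000008000000000080000000000000000000000000000000000000000000000) (nat_lit 2)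
theorem c88434 : QOK q88434 := cut [] trivial (nd (nat_lit 231) (nat_lit 0) (cs (lf (nat_lit 36) (nat_lit 186)) (lf (nat_lit 39) (nat_lit 208)))) q88434 (by decide +kernel)
def q88474 : Q := Q.p (nat_lit 0x30000140000100000400000000000000000000000000000000000000000000000000000000000000) (nat_lit 0x200000c000280000000000000000000000000000000000000000000000000000000000000000000000000) (nat_lit 3)
theorem c88474 : QOK q88474 := cut [] trivial (nd (nat_lit 315) (nat_lit 0) (cs (lf (nat_lit 41) (nat_lit 249)) (nd (nat_lit 295) (nat_lit 0) (cs (lf (nat_lit 6) (nat_lit 293)) (lf (nat_lit 12) (nat_lit 292)))))) q88474 (by decide +kernel)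
def q88548 : Q := Q.p (nat_lit 0x200000c0000f00000000000000000000000000000000000000000000000000000000000000000000) (nat_lit 0x600001000000000000000000000000000000000000000000000000000000000) (nat_lit 2)
theorem c88548 : QOK q88548 := cut [] trivial (nd (nat_lit 250) (nat_lit 0) (cs (lf (nat_lit 23) (nat_lit 249)) (lf (nat_lit 24) (nat_lit 228)))) q88548 (by decide +kernel)
def q88570 : Q := Q.p (nat_lit 0x200000d00002000000000000000000000000000000000000000000000000000000000000000) (nat_lit 0x400000200004000000000000000000000000000000000000000000000000000000000000000) (nat_lit 2)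
theorem c88570 : QOK q88570 := cut [] trivial (nd (nat_lit 273) (nat_lit 0) (cs (lf (nat_lit 5) (nat_lit 272)) (lf (nat_lit 17) (nat_lit 250)))) q88570 (by decide +kernel)
def q88599 : Q := Q.p (nat_lit 0x200000c00003c00000000000000000000000000000000000000000000000000000000000000) (nat_lit 0x400000380004000000000000000000000000000000000000000000000000000000000000000) (nat_lit 3)
theorem c88599 : QOK q88599 := cut [] trivial (nd (nat_lit 272) (nat_lit 0) (cs (lf (nat_lit 11) (nat_lit 249)) (nd (nat_lit 273) (nat_lit 0) (cs (lf (nat_lit 5) (nat_lit 272)) (lf (nat_lit 6) (nat_lit 250)))))) q88599 (by decide +kernel)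
def q88617 : Q := Q.p (nat_lit 0x80000200000800002000008000000000000000000000000000000000000000000000000000) (nat_lit 0x4000010000040000000000000000000000000000000000000000000000) (nat_lit 2)
theorem c88617 : QOK q88617 := cut [] trivial (nd (nat_lit 208) (nat_lit 0) (cs (lf (nat_lit 35) (nat_lit 185)) (lf (nat_lit 34) (nat_lit 207)))) q88617 (by decide +kernel)
def q88647 : Q := Q.p (nat_lit 0x100000c00003c00006000000000000000000000000000000000000000000000000000000000) (nat_lit 0x300000e0000180000000000000000000000000000000000000000000000000000000000000000000) (nat_lit 4)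
theorem c88647 : QOK q88647 := cut [] trivial (nd (nat_lit 272) (nat_lit 0) (cs (lf (nat_lit 11) (nat_lit 249)) (nd (nat_lit 294) (nat_lit 0) (cs (lf (nat_lit 30) (nat_lit 228)) (nd (nat_lit 295) (nat_lit 0) (cs (lf (nat_lit 41) (nat_lit 229)) (lf (nat_lit 12) (nat_lit 271)))))))) q88647 (by decide +kernel)
def q88674 : Q := Q.p (nat_lit 0x80000200001800004000000000000000000000000000000000000000000000000000000000) (nat_lit 0x400000000002000010000000000000000000000000000000000000000000000000000) (nat_lit 2)
theorem c88674 : QOK q88674 := cut [] trivial (nd (nat_lit 208) (nat_lit 0) (cs (lf (nat_lit 33) (nat_lit 207)) (lf (nat_lit 39) (nat_lit 207)))) q88674 (by decide +kernel)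
def q88714 : Q := Q.p (nat_lit 0x300000700000000000000000000000000000000000000000000000000000000000000000000) (nat_lit 0xc00000800000000000000000000000000000000000000000000000000000000000000000000) (nat_lit 2)
theorem c88714 : QOK q88714 := cut [] trivial (nd (nat_lit 298) (nat_lit 0) (cs (lf (nat_lit 18) (nat_lit 273)) (lf (nat_lit 3) (nat_lit 272)))) q88714 (by decide +kernel)
def q88725 : Q := Q.p (nat_lit 0x400001800004000010000000000000000000000000000000000000000000000000000) (nat_lit 0x80000200000000000000000000040000000000000000000000000000000000000000000000) (nat_lit 2)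
theorem c88725 : QOK q88725 := cut [] trivial (nd (nat_lit 273) (nat_lit 0) (cs (lf (nat_lit 41) (nat_lit 207)) (lf (nat_lit 36) (nat_lit 185)))) q88725 (by decide +kernel)
def q88741 : Q := Q.p (nat_lit 0x1800003800000000000000000000000000000000000000000000000000000000000000) (nat_lit 0x6000004000000000000000000000000000000000000000000000000000000000000000) (nat_lit 2)
theorem c88741 : QOK q88741 := cut [] trivial (nd (nat_lit 277) (nat_lit 0) (cs (lf (nat_lit 18) (nat_lit 252)) (lf (nat_lit 3) (nat_lit 251)))) q88741 (by decide +kernel)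
def q88755 : Q := Q.p (nat_lit 0x2000008000020000080000000000000000000000000000000000000000000000) (nat_lit 0x400001800004000000000010000040000100000000000000000000000000000000000000000) (nat_lit 4)
theorem c88755 : QOK q88755 := cut [] trivial (nd (nat_lit 276) (nat_lit 0) (cs (nd (nat_lit 186) (nat_lit 0) (cs (lf (nat_lit 47) (nat_lit 164)) (nd (nat_lit 275) (nat_lit 0) (cs (lf (nat_lit 29) (nat_lit 209)) (lf (nat_lit 46) (nat_lit 186)))))) (lf (nat_lit 28) (nat_lit 187)))) q88755 (by decide +kernel)
def q88763 : Q := Q.p (nat_lit 0x3c00002000008000020000000000000000000000000000000000000000000000000000) (nat_lit 0x1a00000000004000010000040000100000000000000000000000000000000000000000000000) (nat_lit 4)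
theorem c88763 : QOK q88763 := cut [] trivial (nd (nat_lit 299) (nat_lit 0) (cs (lf (nat_lit 5) (nat_lit 274)) (nd (nat_lit 210) (nat_lit 0) (cs (lf (nat_lit 35) (nat_lit 187)) (nd (nat_lit 232) (nat_lit 0) (cs (lf (nat_lit 30) (nat_lit 209)) (lf (nat_lit 26) (nat_lit 210)))))))) q88763 (by decide +kernel)
def q88777 : Q := Q.p (nat_lit 0x1000004000010000040000100000000000000000000000000000000000000000000000) (nat_lit 0x80000200000800000000000000000000000000000000000000000) (nat_lit 2)
theorem c88777 : QOK q88777 := cut [] trivial (nd (nat_lit 189) (nat_lit 0) (cs (lf (nat_lit 34) (nat_lit 188)) (lf (nat_lit 35) (nat_lit 166)))) q88777 (by decide +kernel)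
def q88792 : Q := Q.p (nat_lit 0x40000080000200000800000000000000000000000000000000000000000000000000000000000000) (nat_lit 0x14000030000140000000000000002000000000000000000000000000000000000000000000000000000000) (nat_lit 4)
theorem c88792 : QOK q88792 := cut [] trivial (nd (nat_lit 317) (nat_lit 0) (cs (lf (nat_lit 29) (nat_lit 251)) (nd (nat_lit 316) (nat_lit 0) (cs (lf (nat_lit 41) (nat_lit 250)) (nd (nat_lit 229) (nat_lit 0) (cs (lf (nat_lit 28) (nat_lit 229)) (lf (nat_lit 40) (nat_lit 228)))))))) q88792 (by decide +kernel)
def q88794 : Q := Q.p (nat_lit 0x40000080000200003800008000000000000000000000000000000000000000000000000000000000) (nat_lit 0x18000020000100000400000000000000000000000000000000000000000000000000000000000000000000) (nat_lit 3)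
theorem c88794 : QOK q88794 := cut [] trivial (nd (nat_lit 317) (nat_lit 0) (cs (lf (nat_lit 29) (nat_lit 251)) (nd (nat_lit 274) (nat_lit 0) (cs (lf (nat_lit 30) (nat_lit 251)) (lf (nat_lit 31) (nat_lit 230)))))) q88794 (by decide +kernel)
def q88797 : Q := Q.p (nat_lit 0x80000200000800002000000000000000000000000000000000000000000000000000000000) (nat_lit 0x4000010000040000000000100000c000010000000000000000000000000000000000000000000000) (nat_lit 4)
theorem c88797 : QOK q88797 := cut [] trivial (nd (nat_lit 206) (nat_lit 0) (cs (lf (nat_lit 46) (nat_lit 206)) (nd (nat_lit 296) (nat_lit 0) (cs (lf (nat_lit 29) (nat_lit 229)) (nd (nat_lit 207) (nat_lit 0) (cs (lf (nat_lit 47) (nat_lit 184)) (lf (nat_lit 28) (nat_lit 207)))))))) q88797 (by decide +kernel)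
def q88798 : Q := Q.p (nat_lit 0x40000200000800002000004000000000000000000000000000000000000000000000000000) (nat_lit 0x100000000000000008000010000000000000000000000000000000000000000000000) (nat_lit 2)
theorem c88798 : QOK q88798 := cut [] trivial (nd (nat_lit 207) (nat_lit 0) (cs (lf (nat_lit 47) (nat_lit 184)) (lf (nat_lit 40) (nat_lit 206)))) q88798 (by decide +kernel)
def q88804 : Q := Q.p (nat_lit 0x3c00000000000000000000000000000000000000000000000000000000000000) (nat_lit 0x3800004000003800000000000000000000000000000000000000000000000000000000) (nat_lit 4)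
theorem c88804 : QOK q88804 := cut [] trivial (nd (nat_lit 276) (nat_lit 0) (cs (lf (nat_lit 4) (nat_lit 250)) (nd (nat_lit 228) (nat_lit 0) (cs (lf (nat_lit 23) (nat_lit 227)) (nd (nat_lit 254) (nat_lit 0) (cs (lf (nat_lit 5) (nat_lit 251)) (lf (nat_lit 22) (nat_lit 228)))))))) q88804 (by decide +kernel)
def q88809 : Q := Q.p (nat_lit 0xd00003000000000000000000000000000000000000000000000000000000000000000) (nat_lit 0x280004000000000000000000000000000000000000000000000000000000000000000) (nat_lit 2)
theorem c88809 : QOK q88809 := cut [] trivial (nd (nat_lit 273) (nat_lit 0) (cs (lf (nat_lit 12) (nat_lit 249)) (lf (nat_lit 17) (nat_lit 250)))) q88809 (by decide +kernel)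
def q88819 : Q := Q.p (nat_lit 0x380000c0000000000000000000000000000000000000000000000000000) (nat_lit 0x4000300000000000000000000000000000000000000000000000000000) (nat_lit 2)
theorem c88819 : QOK q88819 := cut [] trivial (nd (nat_lit 212) (nat_lit 0) (cs (lf (nat_lit 6) (nat_lit 209)) (lf (nat_lit 12) (nat_lit 208)))) q88819 (by decide +kernel)
def q88831 : Q := Q.p (nat_lit 0x80000200003800006000000000000000000000000000000000000000000000000000000000) (nat_lit 0x1800004000000000000000000000000000000000000000000000000000) (nat_lit 2)
theorem c88831 : QOK q88831 := cut [] trivial (nd (nat_lit 228) (nat_lit 0) (cs (lf (nat_lit 0) (nat_lit 227)) (lf (nat_lit 47) (nat_lit 206)))) q88831 (by decide +kernel)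
def q88836 : Q := Q.p (nat_lit 0x3c00008000000000000000000000000000000000000000000000000000000000) (nat_lit 0x1c0000200004000000000000000000000000000000000000000000000000000000000) (nat_lit 3)
theorem c88836 : QOK q88836 := cut [] trivial (nd (nat_lit 271) (nat_lit 0) (cs (lf (nat_lit 10) (nat_lit 249)) (nd (nat_lit 249) (nat_lit 0) (cs (lf (nat_lit 11) (nat_lit 248)) (lf (nat_lit 16) (nat_lit 227)))))) q88836 (by decide +kernel)
def q88837 : Q := Q.p (nat_lit 0x100003800001000000000000000000000000000000000000000000000000000000000) (nat_lit 0x200004000002000000000000000000000000000000000000000000000000000000000) (nat_lit 2)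
theorem c88837 : QOK q88837 := cut [] trivial (nd (nat_lit 254) (nat_lit 0) (cs (lf (nat_lit 10) (nat_lit 250)) (lf (nat_lit 22) (nat_lit 228)))) q88837 (by decide +kernel)
def q88841 : Q := Q.p (nat_lit 0x1800006000008000040000000000000000000000000000000000000000000000) (nat_lit 0x20000180000000000000000000000000000000000000000) (nat_lit 2)
theorem c88841 : QOK q88841 := cut [] trivial (nd (nat_lit 185) (nat_lit 0) (cs (lf (nat_lit 24) (nat_lit 163)) (lf (nat_lit 35) (nat_lit 163)))) q88841 (by decide +kernel)
def q88848 : Q := Q.p (nat_lit 0x1800006000010000000000000000000000000000000000000000000000000000) (nat_lit 0x200000000000000000000040000100000000000000000000000000000000000000000) (nat_lit 2)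
theorem c88848 : QOK q88848 := cut [] trivial (nd (nat_lit 186) (nat_lit 0) (cs (lf (nat_lit 41) (nat_lit 185)) (lf (nat_lit 36) (nat_lit 163)))) q88848 (by decide +kernel)
def q88849 : Q := Q.p (nat_lit 0x1800006000008000000000000000000000000000000000000000000000000000000000) (nat_lit 0x400000000000000000000020000080000000000000000000000000000000000000000000000) (nat_lit 2)
theorem c88849 : QOK q88849 := cut [] trivial (nd (nat_lit 209) (nat_lit 0) (cs (lf (nat_lit 29) (nat_lit 209)) (lf (nat_lit 24) (nat_lit 187)))) q88849 (by decide +kernel)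
def q88881 : Q := Q.p (nat_lit 0x40000380000a000000000000000000000000000000000000000000000000000000000) (nat_lit 0x40000100000200000000000000008000020000000000000000000000000000000000000000000000) (nat_lit 3)
theorem c88881 : QOK q88881 := cut [] trivial (nd (nat_lit 207) (nat_lit 0) (cs (lf (nat_lit 24) (nat_lit 185)) (nd (nat_lit 296) (nat_lit 0) (cs (lf (nat_lit 30) (nat_lit 230)) (lf (nat_lit 27) (nat_lit 207)))))) q88881 (by decide +kernel)
def q88888 : Q := Q.p (nat_lit 0x400001800018000030000000000000000000000000000000000000000000000000000) (nat_lit 0x600000c000020000000000000000000000000000000000000000000000) (nat_lit 3)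
theorem c88888 : QOK q88888 := cut [] trivial (nd (nat_lit 207) (nat_lit 0) (cs (lf (nat_lit 0) (nat_lit 206)) (nd (nat_lit 185) (nat_lit 0) (cs (lf (nat_lit 26) (nat_lit 185)) (lf (nat_lit 44) (nat_lit 185)))))) q88888 (by decide +kernel)
def q88900 : Q := Q.p (nat_lit 0x600001c00000000000000000000000000000000000000000000000000000000000000000000) (nat_lit 0x1800000200000000000000000000000000000000000000000000000000000000000000000000) (nat_lit 2)
theorem c88900 : QOK q88900 := cut [] trivial (nd (nat_lit 299) (nat_lit 0) (cs (lf (nat_lit 18) (nat_lit 274)) (lf (nat_lit 0) (nat_lit 273)))) q88900 (by decide +kernel)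
def q88935 : Q := Q.p (nat_lit 0x200000800002000008000010000000000000000000000000000000000000000000000000000) (nat_lit 0x100000400001000000000000000020000040000000000000000000000000000000000000000000000) (nat_lit 3)
theorem c88935 : QOK q88935 := cut [] trivial (nd (nat_lit 298) (nat_lit 0) (cs (lf (nat_lit 29) (nat_lit 231)) (nd (nat_lit 209) (nat_lit 0) (cs (lf (nat_lit 28) (nat_lit 209)) (lf (nat_lit 47) (nat_lit 186)))))) q88935 (by decide +kernel)
def q88944 : Q := Q.p (nat_lit 0x80000200000800002000000000000000000000000000000000000000000000000000000000000000) (nat_lit 0x10000040000100000000004000018000040000000000000000000000000000000000000000000000000000) (nat_lit 4)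
theorem c88944 : QOK q88944 := cut [] trivial (nd (nat_lit 232) (nat_lit 0) (cs (lf (nat_lit 34) (nat_lit 231)) (nd (nat_lit 318) (nat_lit 0) (cs (lf (nat_lit 41) (nat_lit 252)) (nd (nat_lit 231) (nat_lit 0) (cs (lf (nat_lit 40) (nat_lit 230)) (lf (nat_lit 35) (nat_lit 209)))))))) q88944 (by decide +kernel)
def q88958 : Q := Q.p (nat_lit 0x100000600001000002000000000000000000000000000000000000000000000000000000000000000) (nat_lit 0x20000080000000000000004000018000000000000000000000000000000000000000000000000000000000) (nat_lit 3)
theorem c88958 : QOK q88958 := cut [] trivial (nd (nat_lit 254) (nat_lit 0) (cs (lf (nat_lit 47) (nat_lit 231)) (nd (nat_lit 319) (nat_lit 0) (cs (lf (nat_lit 41) (nat_lit 253)) (lf (nat_lit 36) (nat_lit 231)))))) q88958 (by decide +kernel)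
def q88966 : Q := Q.p (nat_lit 0x80000200000c0000100000000000000000000000000000000000000000000000000000000000000000000) (nat_lit 0x200000400001000000000000000000000000000000000000000000000000000000000) (nat_lit 2)
theorem c88966 : QOK q88966 := cut [] trivial (nd (nat_lit 250) (nat_lit 0) (cs (lf (nat_lit 24) (nat_lit 228)) (lf (nat_lit 45) (nat_lit 250)))) q88966 (by decide +kernel)
def q89030 : Q := Q.p (nat_lit 0x700000400003000000000000000000000000000000000000000000000000000000000000000) (nat_lit 0x880000380000000000000000000000000000000000000000000000000000000000000000000) (nat_lit 3)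
theorem c89030 : QOK q89030 := cut [] trivial (nd (nat_lit 273) (nat_lit 0) (cs (lf (nat_lit 18) (nat_lit 273)) (nd (nat_lit 272) (nat_lit 0) (cs (lf (nat_lit 12) (nat_lit 249)) (lf (nat_lit 21) (nat_lit 272)))))) q89030 (by decide +kernel)
def q89040 : Q := Q.p (nat_lit 0x700001000000000000000000000000000000000000000000000000000000000000000000000) (nat_lit 0x88000e000000000000000000000000000000000000000000000000000000000000000000000) (nat_lit 3)
theorem c89040 : QOK q89040 := cut [] trivial (nd (nat_lit 277) (nat_lit 0) (cs (lf (nat_lit 12) (nat_lit 273)) (nd (nat_lit 278) (nat_lit 0) (cs (lf (nat_lit 6) (nat_lit 275)) (lf (nat_lit 15) (nat_lit 274)))))) q89040 (by decide +kernel)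
def q89122 : Q := Q.p (nat_lit 0x40000180000c0000300000000000000000000000000000000000000000000000000000000000000000000000000) (nat_lit 0x3000000c0000200000000000000000000000000000000000000000000000000000000000000000000) (nat_lit 3)
theorem c89122 : QOK q89122 := cut [] trivial (nd (nat_lit 320) (nat_lit 0) (cs (lf (nat_lit 6) (nat_lit 317)) (nd (nat_lit 295) (nat_lit 0) (cs (lf (nat_lit 0) (nat_lit 294)) (lf (nat_lit 47) (nat_lit 273)))))) q89122 (by decide +kernel)
def q89143 : Q := Q.p (nat_lit 0xc0000380000000000000000000000000000000000000000000000000000000000000000000000000) (nat_lit 0x300000040000000000000000000000000000000000000000000000000000000000000000000000000) (nat_lit 2)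
theorem c89143 : QOK q89143 := cut [] trivial (nd (nat_lit 320) (nat_lit 0) (cs (lf (nat_lit 0) (nat_lit 294)) (lf (nat_lit 18) (nat_lit 295)))) q89143 (by decide +kernel)
def q89147 : Q := Q.p (nat_lit 0x280000f00000000000000000000000000000000000000000000000000000000000000000000000000) (nat_lit 0x80000000000080007000004000010000000000000000000000000000000000000000000000000000000000) (nat_lit 4)
theorem c89147 : QOK q89147 := cut [] trivial (nd (nat_lit 277) (nat_lit 0) (cs (lf (nat_lit 17) (nat_lit 274)) (nd (nat_lit 276) (nat_lit 0) (cs (lf (nat_lit 12) (nat_lit 273)) (nd (nat_lit 254) (nat_lit 0) (cs (lf (nat_lit 42) (nat_lit 254)) (lf (nat_lit 36) (nat_lit 231)))))))) q89147 (by decide +kernel)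
def q89150 : Q := Q.p (nat_lit 0x180000700000000000000000000000000000000000000000000000000000000000000000000000000) (nat_lit 0x2000000c0000000000000000000000000000000000000000000000000000000000000000000000000) (nat_lit 2)
theorem c89150 : QOK q89150 := cut [] trivial (nd (nat_lit 295) (nat_lit 0) (cs (lf (nat_lit 0) (nat_lit 294)) (lf (nat_lit 5) (nat_lit 295)))) q89150 (by decide +kernel)
def q89151 : Q := Q.p (nat_lit 0x180000400001000002000000000000000000000000000000000000000000000000000000000000000) (nat_lit 0x20000000000000000000004000008000000000000000000000000000000000000000000000000000000000) (nat_lit 2)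
theorem c89151 : QOK q89151 := cut [] trivial (nd (nat_lit 254) (nat_lit 0) (cs (lf (nat_lit 41) (nat_lit 253)) (lf (nat_lit 47) (nat_lit 231)))) q89151 (by decide +kernel)
def q89158 : Q := Q.p (nat_lit 0x1c0000700000000000000000000000000000000000000000000000000000000000000000000000000) (nat_lit 0x80000200001c0000600000000001000004000000000000000000000000000000000000000000000000000000000000000) (nat_lit 5)
theorem c89158 : QOK q89158 := cut [] trivial (nd (nat_lit 321) (nat_lit 0) (cs (lf (nat_lit 18) (nat_lit 296)) (nd (nat_lit 343) (nat_lit 0) (cs (lf (nat_lit 5) (nat_lit 318)) (nd (nat_lit 365) (nat_lit 0) (cs (lf (nat_lit 42) (nat_lit 298)) (nd (nat_lit 276) (nat_lit 0) (cs (lf (nat_lit 24) (nat_lit 254)) (lf (nat_lit 27) (nat_lit 276)))))))))) q89158 (by decide +kernel)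
def q89197 : Q := Q.p (nat_lit 0xc0000780000000000000000000000000000000000000000000000000000000000000000000000000) (nat_lit 0x60000380000000000000000000000000000000000000000000000000000000000000000000) (nat_lit 3)
theorem c89197 : QOK q89197 := cut [] trivial (nd (nat_lit 272) (nat_lit 0) (cs (lf (nat_lit 22) (nat_lit 272)) (nd (nat_lit 294) (nat_lit 0) (cs (lf (nat_lit 23) (nat_lit 271)) (lf (nat_lit 0) (nat_lit 293)))))) q89197 (by decide +kernel)
def q89215 : Q := Q.p (nat_lit 0xc0000300000000001000000000000000000000000000000000000000000000000000000000000000) (nat_lit 0x700001c000030000700001c80001700000000000000000000000000000000000000000000000000000000000000000000) (nat_lit 10)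
theorem c89215 : QOK q89215 := cut [] trivial (nd (nat_lit 341) (nat_lit 0) (cs (lf (nat_lit 25) (nat_lit 252)) (nd (nat_lit 363) (nat_lit 0) (cs (lf (nat_lit 42) (nat_lit 296)) (nd (nat_lit 364) (nat_lit 0) (cs (lf (nat_lit 29) (nat_lit 297)) (nd (nat_lit 362) (nat_lit 0) (cs (lf (nat_lit 41) (nat_lit 296)) (nd (nat_lit 298) (nat_lit 0) (cs (lf (nat_lit 35) (nat_lit 275)) (nd (nat_lit 299) (nat_lit 0) (cs (lf (nat_lit 6) (nat_lit 296)) (nd (nat_lit 321) (nat_lit 0) (cs (lf (nat_lit 5) (nat_lit 296)) (nd (nat_lit 295) (nat_lit 0) (cs (lf (nat_lit 19) (nat_lit 295)) (nd (nat_lit 273) (nat_lit 0) (cs (lf (nat_lit 23) (nat_lit 272)) (lf (nat_lit 43) (nat_lit 273)))))))))))))))))))) q89215 (by decide +kernel)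
def q89223 : Q := Q.p (nat_lit 0xe0000300000000000000000000000000000000000000000000000000000000000000000000000000) (nat_lit 0x1c60007180000e0000000000000000000000000000000000000000000000000000000000000000000000000) (nat_lit 7)
theorem c89223 : QOK q89223 := cut [] trivial (nd (nat_lit 316) (nat_lit 0) (cs (lf (nat_lit 12) (nat_lit 293)) (nd (nat_lit 337) (nat_lit 0) (cs (lf (nat_lit 10) (nat_lit 315)) (nd (nat_lit 294) (nat_lit 0) (cs (lf (nat_lit 23) (nat_lit 293)) (nd (nat_lit 320) (nat_lit 0) (cs (lf (nat_lit 22) (nat_lit 294)) (nd (nat_lit 343) (nat_lit 0) (cs (lf (nat_lit 4) (nat_lit 317)) (nd (nat_lit 321) (nat_lit 0) (cs (lf (nat_lit 18) (nat_lit 296)) (lf (nat_lit 5) (nat_lit 318)))))))))))))) q89223 (by decide +kernel)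
def q89238 : Q := Q.p (nat_lit 0xf00003000000000000000000000000000000000000000000000000000000000000000000000) (nat_lit 0x80000600000000000000004000010000000000000000000000000000000000000000000000000000000000) (nat_lit 3)
theorem c89238 : QOK q89238 := cut [] trivial (nd (nat_lit 321) (nat_lit 0) (cs (lf (nat_lit 5) (nat_lit 296)) (nd (nat_lit 254) (nat_lit 0) (cs (lf (nat_lit 42) (nat_lit 254)) (lf (nat_lit 24) (nat_lit 232)))))) q89238 (by decide +kernel)
def q89299 : Q := Q.p (nat_lit 0x3c0000400000000000000000000000000000000000000000000000000000000000000000000) (nat_lit 0x20001800000000000000000000000000000000000000000000000000000000000000000000) (nat_lit 2)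
theorem c89299 : QOK q89299 := cut [] trivial (nd (nat_lit 275) (nat_lit 0) (cs (lf (nat_lit 12) (nat_lit 271)) (lf (nat_lit 17) (nat_lit 272)))) q89299 (by decide +kernel)
def q89308 : Q := Q.p (nat_lit 0x280000400001000004000000000000000000000000000000000000000000000000000000000) (nat_lit 0xa00000000000000010000000000000000000000000000000000000000000000000000) (nat_lit 2)
theorem c89308 : QOK q89308 := cut [] trivial (nd (nat_lit 208) (nat_lit 0) (cs (lf (nat_lit 40) (nat_lit 207)) (lf (nat_lit 28) (nat_lit 208)))) q89308 (by decide +kernel)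
def q89357 : Q := Q.p (nat_lit 0x380000100000000000000000000000000000000000000000000000000000000000000000000) (nat_lit 0x4400002c0000000000000000000000000000000000000000000000000000000000000000000) (nat_lit 3)
theorem c89357 : QOK q89357 := cut [] trivial (nd (nat_lit 271) (nat_lit 0) (cs (lf (nat_lit 21) (nat_lit 271)) (nd (nat_lit 273) (nat_lit 0) (cs (lf (nat_lit 18) (nat_lit 272)) (lf (nat_lit 0) (nat_lit 270)))))) q89357 (by decide +kernel)
def q89381 : Q := Q.p (nat_lit 0x600001800003000008000000000000000000000000000000000000000000000000000000000) (nat_lit 0x40000740001d0000000000000000000000000000000000000000000000000000) (nat_lit 5)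
theorem c89381 : QOK q89381 := cut [] trivial (nd (nat_lit 230) (nat_lit 0) (cs (lf (nat_lit 47) (nat_lit 208)) (nd (nat_lit 232) (nat_lit 0) (cs (lf (nat_lit 35) (nat_lit 209)) (nd (nat_lit 233) (nat_lit 0) (cs (lf (nat_lit 6) (nat_lit 230)) (nd (nat_lit 211) (nat_lit 0) (cs (lf (nat_lit 17) (nat_lit 208)) (lf (nat_lit 32) (nat_lit 210)))))))))) q89381 (by decide +kernel)
def q89417 : Q := Q.p (nat_lit 0x380000100000000000000000000000000000000000000000000000000000000000000000000) (nat_lit 0x400006c0000000000000000000000000000000000000000000000000000000000000000000) (nat_lit 3)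
theorem c89417 : QOK q89417 := cut [] trivial (nd (nat_lit 271) (nat_lit 0) (cs (lf (nat_lit 21) (nat_lit 271)) (nd (nat_lit 273) (nat_lit 0) (cs (lf (nat_lit 0) (nat_lit 270)) (lf (nat_lit 3) (nat_lit 271)))))) q89417 (by decide +kernel)
def q89463 : Q := Q.p (nat_lit 0x300000c0000d0000000000000000000000000000000000000000000000000000) (nat_lit 0x20000060000180000000000000000000000000000000000000000) (nat_lit 3)
theorem c89463 : QOK q89463 := cut [] trivial (nd (nat_lit 186) (nat_lit 0) (cs (lf (nat_lit 24) (nat_lit 164)) (nd (nat_lit 185) (nat_lit 0) (cs (lf (nat_lit 47) (nat_lit 163)) (lf (nat_lit 20) (nat_lit 185)))))) q89463 (by decide +kernel)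
def q89491 : Q := Q.p (nat_lit 0x300000c0000200000000000000000000000000000000000000000000000) (nat_lit 0x4000000000000000000000800002000000000000000000000000000000000000) (nat_lit 2)
theorem c89491 : QOK q89491 := cut [] trivial (nd (nat_lit 167) (nat_lit 0) (cs (lf (nat_lit 36) (nat_lit 144)) (lf (nat_lit 41) (nat_lit 166)))) q89491 (by decide +kernel)
def q89503 : Q := Q.p (nat_lit 0x200000800002000010000040000000000000000000000000000000000000000000000000000) (nat_lit 0x1000004000000000000000100000000000000000000000000000000000000000000000) (nat_lit 2)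
theorem c89503 : QOK q89503 := cut [] trivial (nd (nat_lit 254) (nat_lit 0) (cs (lf (nat_lit 36) (nat_lit 187)) (lf (nat_lit 39) (nat_lit 209)))) q89503 (by decide +kernel)
def q89525 : Q := Q.p (nat_lit 0x200000800003000000000010000000000000000000000000000000000000000000000000000) (nat_lit 0x400000000004000000000040000000000000000000000000000000000000000000000) (nat_lit 2)
theorem c89525 : QOK q89525 := cut [] trivial (nd (nat_lit 230) (nat_lit 0) (cs (lf (nat_lit 27) (nat_lit 208)) (lf (nat_lit 24) (nat_lit 186)))) q89525 (by decide +kernel)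
def q89544 : Q := Q.p (nat_lit 0x180000780000000000000000000000000000000000000000000000000000000000000000000000000) (nat_lit 0x20000000000000003000004000010000000000000000000000000000000000000000000000000000000000) (nat_lit 3)
theorem c89544 : QOK q89544 := cut [] trivial (nd (nat_lit 276) (nat_lit 0) (cs (lf (nat_lit 17) (nat_lit 273)) (nd (nat_lit 254) (nat_lit 0) (cs (lf (nat_lit 41) (nat_lit 253)) (lf (nat_lit 36) (nat_lit 231)))))) q89544 (by decide +kernel)
def q89572 : Q := Q.p (nat_lit 0x80000f00000000000000000000000000000000000000000000000000000000000000000000000000) (nat_lit 0x60001000000000000000000000000000000000000000000000000000000000000000000000000000) (nat_lit 2)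
theorem c89572 : QOK q89572 := cut [] trivial (nd (nat_lit 318) (nat_lit 0) (cs (lf (nat_lit 6) (nat_lit 296)) (lf (nat_lit 11) (nat_lit 295)))) q89572 (by decide +kernel)
def q89658 : Q := Q.p (nat_lit 0x200001800002000008000000000000000000000000000000000000000000000000000) (nat_lit 0x100000400000000000000000000020000000000000000000000000000000000000000000000) (nat_lit 2)
theorem c89658 : QOK q89658 := cut [] trivial (nd (nat_lit 274) (nat_lit 0) (cs (lf (nat_lit 29) (nat_lit 207)) (lf (nat_lit 24) (nat_lit 185)))) q89658 (by decide +kernel)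
def q89674 : Q := Q.p (nat_lit 0x80000200001800002000000000000000000000000000000000000000000000000000000000) (nat_lit 0x10000060000100000000000000004000000000000000000000000000000000000000000000000000000000) (nat_lit 3)
theorem c89674 : QOK q89674 := cut [] trivial (nd (nat_lit 318) (nat_lit 0) (cs (lf (nat_lit 28) (nat_lit 229)) (nd (nat_lit 317) (nat_lit 0) (cs (lf (nat_lit 29) (nat_lit 251)) (lf (nat_lit 35) (nat_lit 229)))))) q89674 (by decide +kernel)
def q89703 : Q := Q.p (nat_lit 0x800003800002000018000000000000000000000000000000000000000000000000000) (nat_lit 0x200000000004000000000040000000000000000000000000000000000000000000000) (nat_lit 2)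
theorem c89703 : QOK q89703 := cut [] trivial (nd (nat_lit 186) (nat_lit 0) (cs (lf (nat_lit 30) (nat_lit 185)) (lf (nat_lit 26) (nat_lit 186)))) q89703 (by decide +kernel)
def q89706 : Q := Q.p (nat_lit 0x800003800002000008000040000000000000000000000000000000000000000000000) (nat_lit 0x200000000004000010000000000000000000000000000000000000000000000000000) (nat_lit 2)
theorem c89706 : QOK q89706 := cut [] trivial (nd (nat_lit 208) (nat_lit 0) (cs (lf (nat_lit 30) (nat_lit 185)) (lf (nat_lit 26) (nat_lit 186)))) q89706 (by decide +kernel)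
def q89711 : Q := Q.p (nat_lit 0x80000200001800002000000000000000000000000000000000000000000000000000000000) (nat_lit 0x4000030000040000000000000004000000000000000000000000000000000000000000000000000000000) (nat_lit 3)
theorem c89711 : QOK q89711 := cut [] trivial (nd (nat_lit 316) (nat_lit 0) (cs (lf (nat_lit 40) (nat_lit 228)) (nd (nat_lit 317) (nat_lit 0) (cs (lf (nat_lit 41) (nat_lit 250)) (lf (nat_lit 35) (nat_lit 229)))))) q89711 (by decide +kernel)
def q89723 : Q := Q.p (nat_lit 0x80000600001800002000000000000000000000000000000000000000000000000000000000) (nat_lit 0xc000030000040000000000000000000000000000000000000000000000000000000000000000000000000) (nat_lit 3)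
theorem c89723 : QOK q89723 := cut [] trivial (nd (nat_lit 316) (nat_lit 0) (cs (lf (nat_lit 40) (nat_lit 228)) (nd (nat_lit 317) (nat_lit 0) (cs (lf (nat_lit 41) (nat_lit 250)) (lf (nat_lit 30) (nat_lit 251)))))) q89723 (by decide +kernel)
def q89738 : Q := Q.p (nat_lit 0x800007800000000000000000000000000000000000000000000000000000000000000) (nat_lit 0x200003000000000030000040000100000000000000000000000000000000000000000000000) (nat_lit 4)
theorem c89738 : QOK q89738 := cut [] trivial (nd (nat_lit 232) (nat_lit 0) (cs (lf (nat_lit 17) (nat_lit 229)) (nd (nat_lit 210) (nat_lit 0) (cs (lf (nat_lit 36) (nat_lit 187)) (nd (nat_lit 276) (nat_lit 0) (cs (lf (nat_lit 5) (nat_lit 251)) (lf (nat_lit 41) (nat_lit 209)))))))) q89738 (by decide +kernel)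
def q89756 : Q := Q.p (nat_lit 0x3c00000000000000000000000000000000000000000000000000000000000000) (nat_lit 0x3b80004000000000000000000000000000000000000000000000000000000000000000) (nat_lit 4)
theorem c89756 : QOK q89756 := cut [] trivial (nd (nat_lit 276) (nat_lit 0) (cs (lf (nat_lit 4) (nat_lit 250)) (nd (nat_lit 272) (nat_lit 0) (cs (lf (nat_lit 11) (nat_lit 249)) (nd (nat_lit 254) (nat_lit 0) (cs (lf (nat_lit 10) (nat_lit 250)) (lf (nat_lit 5) (nat_lit 251)))))))) q89756 (by decide +kernel)
def q89853 : Q := Q.p (nat_lit 0x70000180000000000000000000000000000000000000000000000000000000000000000000000000) (nat_lit 0x8000600000000000000000000000000000000000000000000000000000000000000000000000000) (nat_lit 2)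
theorem c89853 : QOK q89853 := cut [] trivial (nd (nat_lit 297) (nat_lit 0) (cs (lf (nat_lit 6) (nat_lit 294)) (lf (nat_lit 12) (nat_lit 293)))) q89853 (by decide +kernel)
def q89863 : Q := Q.p (nat_lit 0x3c00010000000000000000000000000000000000000000000000000000000000) (nat_lit 0x380004000020000000000000000000000000000000000000000000000000000000000) (nat_lit 3)
theorem c89863 : QOK q89863 := cut [] trivial (nd (nat_lit 272) (nat_lit 0) (cs (lf (nat_lit 11) (nat_lit 249)) (nd (nat_lit 254) (nat_lit 0) (cs (lf (nat_lit 10) (nat_lit 250)) (lf (nat_lit 17) (nat_lit 229)))))) q89863 (by decide +kernel)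
def q89874 : Q := Q.p (nat_lit 0x3c00000000000000000000000000000000000000000000000000000000000000) (nat_lit 0x400003b800000000000000000000000000000000000000000000000000000000) (nat_lit 4)
theorem c89874 : QOK q89874 := cut [] trivial (nd (nat_lit 232) (nat_lit 0) (cs (lf (nat_lit 16) (nat_lit 228)) (nd (nat_lit 228) (nat_lit 0) (cs (lf (nat_lit 23) (nat_lit 227)) (nd (nat_lit 254) (nat_lit 0) (cs (lf (nat_lit 17) (nat_lit 229)) (lf (nat_lit 22) (nat_lit 228)))))))) q89874 (by decide +kernel)
def q89906 : Q := Q.p (nat_lit 0x140000200000800002000000000000000000000000000000000000000000000000000000000) (nat_lit 0x500000000000000008000000000000000000000000000000000000000000000000000) (nat_lit 2)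
theorem c89906 : QOK q89906 := cut [] trivial (nd (nat_lit 207) (nat_lit 0) (cs (lf (nat_lit 28) (nat_lit 207)) (lf (nat_lit 40) (nat_lit 206)))) q89906 (by decide +kernel)
def q89945 : Q := Q.p (nat_lit 0x60000180000c000030000000000000000000000000000000000000000000000000000) (nat_lit 0x200000e000038000000000000000000000000000000000000000000000) (nat_lit 4)
theorem c89945 : QOK q89945 := cut [] trivial (nd (nat_lit 207) (nat_lit 0) (cs (lf (nat_lit 47) (nat_lit 185)) (nd (nat_lit 206) (nat_lit 0) (cs (lf (nat_lit 0) (nat_lit 205)) (nd (nat_lit 184) (nat_lit 0) (cs (lf (nat_lit 23) (nat_lit 183)) (lf (nat_lit 44) (nat_lit 184)))))))) q89945 (by decide +kernel)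
def q89961 : Q := Q.p (nat_lit 0x60000180000e000010000000000000000000000000000000000000000000000000000) (nat_lit 0xe000030000000000000000000000000000000000000000000000) (nat_lit 3)
theorem c89961 : QOK q89961 := cut [] trivial (nd (nat_lit 207) (nat_lit 0) (cs (lf (nat_lit 24) (nat_lit 185)) (nd (nat_lit 206) (nat_lit 0) (cs (lf (nat_lit 0) (nat_lit 205)) (lf (nat_lit 47) (nat_lit 184)))))) q89961 (by decide +kernel)
def q89992 : Q := Q.p (nat_lit 0x1000006000010000040000000000000000000000000000000000000000000000000000) (nat_lit 0x200000800000000000000000000100000000000000000000000000000000000000000000000) (nat_lit 2)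
theorem c89992 : QOK q89992 := cut [] trivial (nd (nat_lit 275) (nat_lit 0) (cs (lf (nat_lit 41) (nat_lit 209)) (lf (nat_lit 36) (nat_lit 187)))) q89992 (by decide +kernel)
def q90000 : Q := Q.p (nat_lit 0x280000400001000004000000000000000000000000000000000000000000000000000000000000000) (nat_lit 0xa0000100000000000000000000000000000000000000000000000000000000000000000000000000000000) (nat_lit 2)
theorem c90000 : QOK q90000 := cut [] trivial (nd (nat_lit 320) (nat_lit 0) (cs (lf (nat_lit 29) (nat_lit 254)) (lf (nat_lit 41) (nat_lit 253)))) q90000 (by decide +kernel)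
def q90014 : Q := Q.p (nat_lit 0x200000800003800008000000000000000000000000000000000000000000000000000) (nat_lit 0x34000050000000000000000000000000000000000000000000000) (nat_lit 3)
theorem c90014 : QOK q90014 := cut [] trivial (nd (nat_lit 206) (nat_lit 0) (cs (lf (nat_lit 47) (nat_lit 184)) (nd (nat_lit 208) (nat_lit 0) (cs (lf (nat_lit 35) (nat_lit 185)) (lf (nat_lit 6) (nat_lit 205)))))) q90014 (by decide +kernel)
def q90020 : Q := Q.p (nat_lit 0x1800006000010000000000000000000000000000000000000000000000000000000000) (nat_lit 0x200000000000000000000040000100000000000000000000000000000000000000000000000) (nat_lit 2)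
theorem c90020 : QOK q90020 := cut [] trivial (nd (nat_lit 210) (nat_lit 0) (cs (lf (nat_lit 41) (nat_lit 209)) (lf (nat_lit 36) (nat_lit 187)))) q90020 (by decide +kernel)
def q90046 : Q := Q.p (nat_lit 0xc0000600000000000000000000000000000000000000000000000000000000000000000000) (nat_lit 0x130001800000000000000000000000000000000000000000000000000000000000000000000) (nat_lit 3)
theorem c90046 : QOK q90046 := cut [] trivial (nd (nat_lit 293) (nat_lit 0) (cs (lf (nat_lit 12) (nat_lit 270)) (nd (nat_lit 275) (nat_lit 0) (cs (lf (nat_lit 15) (nat_lit 271)) (lf (nat_lit 6) (nat_lit 272)))))) q90046 (by decide +kernel)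
def q90054 : Q := Q.p (nat_lit 0xe0000600003800002000000000000000000000000000000000000000000000000000000000) (nat_lit 0xa0000280001000001f0000300001c00005000000000000000000000000000000000000000000000000000) (nat_lit 9)
theorem c90054 : QOK q90054 := cut [] trivial (nd (nat_lit 271) (nat_lit 0) (cs (lf (nat_lit 13) (nat_lit 249)) (nd (nat_lit 270) (nat_lit 0) (cs (lf (nat_lit 18) (nat_lit 270)) (nd (nat_lit 268) (nat_lit 0) (cs (lf (nat_lit 1) (nat_lit 268)) (nd (nat_lit 317) (nat_lit 0) (cs (lf (nat_lit 30) (nat_lit 251)) (nd (nat_lit 228) (nat_lit 0) (cs (lf (nat_lit 47) (nat_lit 206)) (nd (nat_lit 226) (nat_lit 0) (cs (lf (nat_lit 1) (nat_lit 226)) (nd (nat_lit 248) (nat_lit 0) (cs (lf (nat_lit 24) (nat_lit 204)) (nd (nat_lit 315) (nat_lit 0) (cs (lf (nat_lit 42) (nat_lit 248)) (lf (nat_lit 45) (nat_lit 226)))))))))))))))))) q90054 (by decide +kernel)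
def q90066 : Q := Q.p (nat_lit 0x3c0000c00001000000000000000000000000000000000000000000000000000000000000000) (nat_lit 0x20000180000000000000000000000000000000000000000000000000000000000000000000000000000000) (nat_lit 2)
theorem c90066 : QOK q90066 := cut [] trivial (nd (nat_lit 319) (nat_lit 0) (cs (lf (nat_lit 42) (nat_lit 252)) (lf (nat_lit 5) (nat_lit 294)))) q90066 (by decide +kernel)
def q90078 : Q := Q.p (nat_lit 0xc0000600003800000000000000000000000000000000000000000000000000000000000000) (nat_lit 0xc00003c0003300001c0000200000800000000000000000000000000000000000000000000000000000000) (nat_lit 8)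
theorem c90078 : QOK q90078 := cut [] trivial (nd (nat_lit 271) (nat_lit 0) (cs (lf (nat_lit 13) (nat_lit 249)) (nd (nat_lit 317) (nat_lit 0) (cs (lf (nat_lit 30) (nat_lit 251)) (nd (nat_lit 316) (nat_lit 0) (cs (lf (nat_lit 41) (nat_lit 250)) (nd (nat_lit 293) (nat_lit 0) (cs (lf (nat_lit 12) (nat_lit 270)) (nd (nat_lit 227) (nat_lit 0) (cs (lf (nat_lit 25) (nat_lit 227)) (nd (nat_lit 296) (nat_lit 0) (cs (lf (nat_lit 23) (nat_lit 270)) (nd (nat_lit 315) (nat_lit 0) (cs (lf (nat_lit 11) (nat_lit 292)) (lf (nat_lit 6) (nat_lit 293)))))))))))))))) q90078 (by decide +kernel)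
def q90104 : Q := Q.p (nat_lit 0x780000400002000000000000000000000000000000000000000000000000000000000000000) (nat_lit 0x380000060000800000000008000000000000000000000000000000000000000000000000000000000) (nat_lit 4)
theorem c90104 : QOK q90104 := cut [] trivial (nd (nat_lit 320) (nat_lit 0) (cs (lf (nat_lit 5) (nat_lit 295)) (nd (nat_lit 294) (nat_lit 0) (cs (lf (nat_lit 4) (nat_lit 294)) (nd (nat_lit 275) (nat_lit 0) (cs (lf (nat_lit 24) (nat_lit 231)) (lf (nat_lit 12) (nat_lit 271)))))))) q90104 (by decide +kernel)
def q90118 : Q := Q.p (nat_lit 0x380000200001800000000000000000000000000000000000000000000000000000000000000) (nat_lit 0x4000005c0000000000000000000000000000000000000000000000000000000000000000000) (nat_lit 3)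
theorem c90118 : QOK q90118 := cut [] trivial (nd (nat_lit 272) (nat_lit 0) (cs (lf (nat_lit 18) (nat_lit 272)) (nd (nat_lit 271) (nat_lit 0) (cs (lf (nat_lit 12) (nat_lit 248)) (lf (nat_lit 3) (nat_lit 271)))))) q90118 (by decide +kernel)
def q90143 : Q := Q.p (nat_lit 0x1000003800000000000000000000000000000000000000000000000000000000000000) (nat_lit 0x6c00004000000000000000000000000000000000000000000000000000000000000000) (nat_lit 3)
theorem c90143 : QOK q90143 := cut [] trivial (nd (nat_lit 277) (nat_lit 0) (cs (lf (nat_lit 3) (nat_lit 251)) (nd (nat_lit 275) (nat_lit 0) (cs (lf (nat_lit 21) (nat_lit 251)) (lf (nat_lit 18) (nat_lit 252)))))) q90143 (by decide +kernel)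
def q90153 : Q := Q.p (nat_lit 0x1000004000010000040000100000000000000000000000000000000000000000000000) (nat_lit 0x20000080000200000000000000000000000000000000000000000) (nat_lit 2)
theorem c90153 : QOK q90153 := cut [] trivial (nd (nat_lit 187) (nat_lit 0) (cs (lf (nat_lit 47) (nat_lit 165)) (lf (nat_lit 46) (nat_lit 187)))) q90153 (by decide +kernel)
def q90195 : Q := Q.p (nat_lit 0x200000800016000008000000000000000000000000000000000000000000000000000) (nat_lit 0x8000004000010000000000000000000000000000000000000000000000) (nat_lit 2)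
theorem c90195 : QOK q90195 := cut [] trivial (nd (nat_lit 206) (nat_lit 0) (cs (lf (nat_lit 47) (nat_lit 184)) (lf (nat_lit 19) (nat_lit 206)))) q90195 (by decide +kernel)
def q90245 : Q := Q.p (nat_lit 0x3800010000000000000000000000000000000000000000000000000000000000) (nat_lit 0x400006c000000000000000000000000000000000000000000000000000000000) (nat_lit 3)
theorem c90245 : QOK q90245 := cut [] trivial (nd (nat_lit 233) (nat_lit 0) (cs (lf (nat_lit 15) (nat_lit 229)) (nd (nat_lit 231) (nat_lit 0) (cs (lf (nat_lit 6) (nat_lit 230)) (lf (nat_lit 9) (nat_lit 229)))))) q90245 (by decide +kernel)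
def q90276 : Q := Q.p (nat_lit 0x1000002000008000020000100000000000000000000000000000000000000000000000) (nat_lit 0x400000800000000000000040000000000000000000000000000000000000000000000000000) (nat_lit 2)
theorem c90276 : QOK q90276 := cut [] trivial (nd (nat_lit 275) (nat_lit 0) (cs (lf (nat_lit 29) (nat_lit 209)) (lf (nat_lit 34) (nat_lit 187)))) q90276 (by decide +kernel)
def q90291 : Q := Q.p (nat_lit 0x20000080000300000e000000000000000000000000000000000000000000000000000000000) (nat_lit 0x40000100000400000000000000028000000000000000000000000000000000000000000000000000) (nat_lit 3)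
theorem c90291 : QOK q90291 := cut [] trivial (nd (nat_lit 296) (nat_lit 0) (cs (lf (nat_lit 41) (nat_lit 230)) (nd (nat_lit 274) (nat_lit 0) (cs (lf (nat_lit 36) (nat_lit 208)) (lf (nat_lit 47) (nat_lit 207)))))) q90291 (by decide +kernel)
def q90293 : Q := Q.p (nat_lit 0x700001800003000000000000000000000000000000000000000000000000000000000000000) (nat_lit 0x80006000000000000000000000000000000000000000000000000000000000000000000000) (nat_lit 2)
theorem c90293 : QOK q90293 := cut [] trivial (nd (nat_lit 277) (nat_lit 0) (cs (lf (nat_lit 18) (nat_lit 252)) (lf (nat_lit 12) (nat_lit 273)))) q90293 (by decide +kernel)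
def q90341 : Q := Q.p (nat_lit 0x3000004000010000000000000000000000000000000000000000000000000000) (nat_lit 0xa000008000000000000000e0000380000a00000000000000000000000000000000000) (nat_lit 6)
theorem c90341 : QOK q90341 := cut [] trivial (nd (nat_lit 186) (nat_lit 0) (cs (lf (nat_lit 29) (nat_lit 186)) (nd (nat_lit 251) (nat_lit 0) (cs (lf (nat_lit 41) (nat_lit 185)) (nd (nat_lit 163) (nat_lit 0) (cs (lf (nat_lit 46) (nat_lit 163)) (nd (nat_lit 165) (nat_lit 0) (cs (lf (nat_lit 34) (nat_lit 164)) (nd (nat_lit 164) (nat_lit 0) (cs (lf (nat_lit 35) (nat_lit 142)) (lf (nat_lit 47) (nat_lit 141)))))))))))) q90341 (by decide +kernel)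
def q90351 : Q := Q.p (nat_lit 0x3800006000010000000000000000000000000000000000000000000000000000) (nat_lit 0x800000000000000000000040000100000000000000000000000000000000000000000) (nat_lit 2)
theorem c90351 : QOK q90351 := cut [] trivial (nd (nat_lit 186) (nat_lit 0) (cs (lf (nat_lit 29) (nat_lit 186)) (lf (nat_lit 36) (nat_lit 163)))) q90351 (by decide +kernel)
def q90372 : Q := Q.p (nat_lit 0x80000300000c000020000000000000000000000000000000000000000000000000000) (nat_lit 0x40000180000600000000000000000000000000000000000000000) (nat_lit 3)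
theorem c90372 : QOK q90372 := cut [] trivial (nd (nat_lit 188) (nat_lit 0) (cs (lf (nat_lit 34) (nat_lit 187)) (nd (nat_lit 187) (nat_lit 0) (cs (lf (nat_lit 35) (nat_lit 165)) (lf (nat_lit 36) (nat_lit 164)))))) q90372 (by decide +kernel)
def q90375 : Q := Q.p (nat_lit 0x80000300000c000020000000000000000000000000000000000000000000000000000) (nat_lit 0x400001000004000000000000000080000200000000000000000000000000000000000000000) (nat_lit 3)
theorem c90375 : QOK q90375 := cut [] trivial (nd (nat_lit 276) (nat_lit 0) (cs (lf (nat_lit 29) (nat_lit 209)) (nd (nat_lit 187) (nat_lit 0) (cs (lf (nat_lit 36) (nat_lit 164)) (lf (nat_lit 28) (nat_lit 187)))))) q90375 (by decide +kernel)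
def q90404 : Q := Q.p (nat_lit 0x300000e000030000000000000000000000000000000000000000000000000000) (nat_lit 0xc00000f0000380000000000000000000000000000000000000000) (nat_lit 5)
theorem c90404 : QOK q90404 := cut [] trivial (nd (nat_lit 186) (nat_lit 0) (cs (lf (nat_lit 24) (nat_lit 164)) (nd (nat_lit 187) (nat_lit 0) (cs (lf (nat_lit 35) (nat_lit 164)) (nd (nat_lit 210) (nat_lit 0) (cs (lf (nat_lit 6) (nat_lit 207)) (nd (nat_lit 185) (nat_lit 0) (cs (lf (nat_lit 47) (nat_lit 163)) (lf (nat_lit 0) (nat_lit 184)))))))))) q90404 (by decide +kernel)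
def q90435 : Q := Q.p (nat_lit 0x80000300000c000020000000000000000000000000000000000000000000000000000) (nat_lit 0x100000c0000300000000000000000000000000000000000000000) (nat_lit 3)
theorem c90435 : QOK q90435 := cut [] trivial (nd (nat_lit 187) (nat_lit 0) (cs (lf (nat_lit 36) (nat_lit 164)) (nd (nat_lit 186) (nat_lit 0) (cs (lf (nat_lit 47) (nat_lit 164)) (lf (nat_lit 25) (nat_lit 186)))))) q90435 (by decide +kernel)
def q90438 : Q := Q.p (nat_lit 0x2000018000040000100000000000000000000000000000000000000000000000) (nat_lit 0x200000800000000000000020000000000000000000000000000000000000000000000000000) (nat_lit 2)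
theorem c90438 : QOK q90438 := cut [] trivial (nd (nat_lit 275) (nat_lit 0) (cs (lf (nat_lit 30) (nat_lit 209)) (lf (nat_lit 33) (nat_lit 187)))) q90438 (by decide +kernel)
def q90445 : Q := Q.p (nat_lit 0x80000300000c000020000000000000000000000000000000000000000000000000000) (nat_lit 0x180000600001000000000000000000000000000000000000000000000000000000000000000000000) (nat_lit 3)
theorem c90445 : QOK q90445 := cut [] trivial (nd (nat_lit 298) (nat_lit 0) (cs (lf (nat_lit 28) (nat_lit 209)) (nd (nat_lit 297) (nat_lit 0) (cs (lf (nat_lit 29) (nat_lit 231)) (lf (nat_lit 42) (nat_lit 230)))))) q90445 (by decide +kernel)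
def q90457 : Q := Q.p (nat_lit 0x18000060000300000c0000000000000000000000000000000000000000000000) (nat_lit 0x80000380000e0000000000000000000000000000000000000000) (nat_lit 4)
theorem c90457 : QOK q90457 := cut [] trivial (nd (nat_lit 185) (nat_lit 0) (cs (lf (nat_lit 47) (nat_lit 163)) (nd (nat_lit 184) (nat_lit 0) (cs (lf (nat_lit 0) (nat_lit 183)) (nd (nat_lit 162) (nat_lit 0) (cs (lf (nat_lit 23) (nat_lit 161)) (lf (nat_lit 44) (nat_lit 162)))))))) q90457 (by decide +kernel)
def q90494 : Q := Q.p (nat_lit 0x1800003000000000000000000000000000000000000000000000000000000000000000) (nat_lit 0x6400004800000000000000000000000000000000000000000000000000000000000000) (nat_lit 3)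
theorem c90494 : QOK q90494 := cut [] trivial (nd (nat_lit 277) (nat_lit 0) (cs (lf (nat_lit 18) (nat_lit 252)) (nd (nat_lit 251) (nat_lit 0) (cs (lf (nat_lit 21) (nat_lit 251)) (lf (nat_lit 3) (nat_lit 251)))))) q90494 (by decide +kernel)
def q90502 : Q := Q.p (nat_lit 0x800002000008000020000080000000000000000000000000000000000000000000000) (nat_lit 0x400001000004000000000000000000000000000000000000000000000000000000000000000) (nat_lit 2)
theorem c90502 : QOK q90502 := cut [] trivial (nd (nat_lit 276) (nat_lit 0) (cs (lf (nat_lit 29) (nat_lit 209)) (lf (nat_lit 28) (nat_lit 187)))) q90502 (by decide +kernel)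
def q90588 : Q := Q.p (nat_lit 0x1e00002000000000000000000000000000000000000000000000000000000000000000) (nat_lit 0x40000100000c00000000004000008000020000000000000000000000000000000000000000000000000000) (nat_lit 4)
theorem c90588 : QOK q90588 := cut [] trivial (nd (nat_lit 298) (nat_lit 0) (cs (lf (nat_lit 5) (nat_lit 273)) (nd (nat_lit 320) (nat_lit 0) (cs (lf (nat_lit 42) (nat_lit 253)) (nd (nat_lit 231) (nat_lit 0) (cs (lf (nat_lit 24) (nat_lit 209)) (lf (nat_lit 45) (nat_lit 231)))))))) q90588 (by decide +kernel)
def q90616 : Q := Q.p (nat_lit 0x80000e00001800000000000000000000000000000000000000000000000000000000000000) (nat_lit 0x40003000000000000000000000000000000000000000000000000000000000000000000000) (nat_lit 2)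
theorem c90616 : QOK q90616 := cut [] trivial (nd (nat_lit 276) (nat_lit 0) (cs (lf (nat_lit 18) (nat_lit 251)) (lf (nat_lit 11) (nat_lit 272)))) q90616 (by decide +kernel)
def q90622 : Q := Q.p (nat_lit 0x80000600001800000000000000000000000000000000000000000000000000000000000000) (nat_lit 0x8000020000000000000000000004000000000000000000000000000000000000000000000000000000000) (nat_lit 2)
theorem c90622 : QOK q90622 := cut [] trivial (nd (nat_lit 317) (nat_lit 0) (cs (lf (nat_lit 30) (nat_lit 251)) (lf (nat_lit 35) (nat_lit 229)))) q90622 (by decide +kernel)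
def q90634 : Q := Q.p (nat_lit 0x1000003000008000020000000000000000000000000000000000000000000000000000) (nat_lit 0x400004000000000000000080000000000000000000000000000000000000000000000) (nat_lit 2)
theorem c90634 : QOK q90634 := cut [] trivial (nd (nat_lit 187) (nat_lit 0) (cs (lf (nat_lit 41) (nat_lit 186)) (lf (nat_lit 28) (nat_lit 187)))) q90634 (by decide +kernel)
def q90637 : Q := Q.p (nat_lit 0x800003000008000020000000000000000000000000000000000000000000000000000) (nat_lit 0x400000000000000040000180000400000000000000000000000000000000000000000) (nat_lit 3)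
theorem c90637 : QOK q90637 := cut [] trivial (nd (nat_lit 188) (nat_lit 0) (cs (lf (nat_lit 34) (nat_lit 187)) (nd (nat_lit 187) (nat_lit 0) (cs (lf (nat_lit 41) (nat_lit 186)) (lf (nat_lit 35) (nat_lit 165)))))) q90637 (by decide +kernel)
def q90658 : Q := Q.p (nat_lit 0x300000800002000000000000000000000000000000000000000000000000000000000000000) (nat_lit 0x140000400001400000000008000020000000000000000000000000000000000000000000000000000) (nat_lit 4)
theorem c90658 : QOK q90658 := cut [] trivial (nd (nat_lit 231) (nat_lit 0) (cs (lf (nat_lit 41) (nat_lit 230)) (nd (nat_lit 298) (nat_lit 0) (cs (lf (nat_lit 29) (nat_lit 231)) (nd (nat_lit 209) (nat_lit 0) (cs (lf (nat_lit 28) (nat_lit 209)) (lf (nat_lit 40) (nat_lit 208)))))))) q90658 (by decide +kernel)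
def q90662 : Q := Q.p (nat_lit 0x3800006000000000000000000000000000000000000000000000000000000000) (nat_lit 0x4000001800000000000000000000000000000000000000000000000000000000) (nat_lit 2)
theorem c90662 : QOK q90662 := cut [] trivial (nd (nat_lit 228) (nat_lit 0) (cs (lf (nat_lit 0) (nat_lit 227)) (lf (nat_lit 18) (nat_lit 228)))) q90662 (by decide +kernel)
def q90684 : Q := Q.p (nat_lit 0xc00003800008000000000000000000000000000000000000000000000000000000000) (nat_lit 0x400003000000000000000020000080000000000000000000000000000000000000000000000) (nat_lit 3)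
theorem c90684 : QOK q90684 := cut [] trivial (nd (nat_lit 276) (nat_lit 0) (cs (lf (nat_lit 18) (nat_lit 251)) (nd (nat_lit 209) (nat_lit 0) (cs (lf (nat_lit 36) (nat_lit 186)) (lf (nat_lit 29) (nat_lit 209)))))) q90684 (by decide +kernel)
def q90723 : Q := Q.p (nat_lit 0x40000200000c00003800000000000000000000000000000000000000000000000000000000000000) (nat_lit 0x10000000000000000a000000000000000000000000000000000000000000000000000000000) (nat_lit 2)
theorem c90723 : QOK q90723 := cut [] trivial (nd (nat_lit 296) (nat_lit 0) (cs (lf (nat_lit 47) (nat_lit 229)) (lf (nat_lit 36) (nat_lit 230)))) q90723 (by decide +kernel)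
def q90790 : Q := Q.p (nat_lit 0xe00003800000000000000000000000000000000000000000000000000000000000000) (nat_lit 0x40000100000e00003000004000008000000000000000000000000000000000000000000000000000000000) (nat_lit 5)
theorem c90790 : QOK q90790 := cut [] trivial (nd (nat_lit 276) (nat_lit 0) (cs (lf (nat_lit 18) (nat_lit 251)) (nd (nat_lit 298) (nat_lit 0) (cs (lf (nat_lit 5) (nat_lit 273)) (nd (nat_lit 320) (nat_lit 0) (cs (lf (nat_lit 42) (nat_lit 253)) (nd (nat_lit 231) (nat_lit 0) (cs (lf (nat_lit 27) (nat_lit 231)) (lf (nat_lit 45) (nat_lit 231)))))))))) q90790 (by decide +kernel)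
def q90801 : Q := Q.p (nat_lit 0x600001800002000010000000000000000000000000000000000000000000000000000) (nat_lit 0x8000060000000000000000000000000000000000000000000000) (nat_lit 2)
theorem c90801 : QOK q90801 := cut [] trivial (nd (nat_lit 207) (nat_lit 0) (cs (lf (nat_lit 35) (nat_lit 185)) (lf (nat_lit 24) (nat_lit 185)))) q90801 (by decide +kernel)
def q90819 : Q := Q.p (nat_lit 0x200000d00002000008000000000000000000000000000000000000000000000000000000000) (nat_lit 0x100000400000200000000000000000000000000000000000000000000000000000000000000000000) (nat_lit 2)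
theorem c90819 : QOK q90819 := cut [] trivial (nd (nat_lit 298) (nat_lit 0) (cs (lf (nat_lit 29) (nat_lit 231)) (lf (nat_lit 1) (nat_lit 272)))) q90819 (by decide +kernel)
def q90835 : Q := Q.p (nat_lit 0x180000000003400004000000000000000000000000000000000000000000000000000000000) (nat_lit 0x2000000000040000420000b800008000000000000000000000000000000000000000000000000000) (nat_lit 5)
theorem c90835 : QOK q90835 := cut [] trivial (nd (nat_lit 274) (nat_lit 0) (cs (lf (nat_lit 41) (nat_lit 229)) (nd (nat_lit 229) (nat_lit 0) (cs (lf (nat_lit 47) (nat_lit 207)) (nd (nat_lit 228) (nat_lit 0) (cs (lf (nat_lit 0) (nat_lit 227)) (nd (nat_lit 231) (nat_lit 0) (cs (lf (nat_lit 11) (nat_lit 227)) (lf (nat_lit 5) (nat_lit 228)))))))))) q90835 (by decide +kernel)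
def q90845 : Q := Q.p (nat_lit 0x300000c00003000000000000000000000000000000000000000000000000000000000000000) (nat_lit 0x18000060000080000000000000004000010000000000000000000000000000000000000000000000000000) (nat_lit 4)
theorem c90845 : QOK q90845 := cut [] trivial (nd (nat_lit 318) (nat_lit 0) (cs (lf (nat_lit 30) (nat_lit 252)) (nd (nat_lit 317) (nat_lit 0) (cs (lf (nat_lit 41) (nat_lit 251)) (nd (nat_lit 230) (nat_lit 0) (cs (lf (nat_lit 40) (nat_lit 229)) (lf (nat_lit 24) (nat_lit 208)))))))) q90845 (by decide +kernel)
def q90857 : Q := Q.p (nat_lit 0x280001a00000000000000000000000000000000000000000000000000000000000000000000) (nat_lit 0x140000400000000000000000000000000000000000000000000000000000000000000000000) (nat_lit 2)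
theorem c90857 : QOK q90857 := cut [] trivial (nd (nat_lit 294) (nat_lit 0) (cs (lf (nat_lit 14) (nat_lit 272)) (lf (nat_lit 8) (nat_lit 272)))) q90857 (by decide +kernel)
def q90869 : Q := Q.p (nat_lit 0x1000004000058000060000000000000000000000000000000000000000000000000000) (nat_lit 0x80000380000200000000000000000000000000000000000000000000000) (nat_lit 3)
theorem c90869 : QOK q90869 := cut [] trivial (nd (nat_lit 211) (nat_lit 0) (cs (lf (nat_lit 35) (nat_lit 188)) (nd (nat_lit 212) (nat_lit 0) (cs (lf (nat_lit 5) (nat_lit 209)) (lf (nat_lit 6) (nat_lit 209)))))) q90869 (by decide +kernel)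
def q90932 : Q := Q.p (nat_lit 0x200000800003000010000000000000000000000000000000000000000000000000000000000) (nat_lit 0x80000000000000004000004000000000000000000000000000000000000000000000000000000000) (nat_lit 2)
theorem c90932 : QOK q90932 := cut [] trivial (nd (nat_lit 319) (nat_lit 0) (cs (lf (nat_lit 47) (nat_lit 230)) (lf (nat_lit 34) (nat_lit 231)))) q90932 (by decide +kernel)
def q90995 : Q := Q.p (nat_lit 0x20000080000f0000000000000000000000000000000000000000000000000000) (nat_lit 0x6000000000060000100000000000000000000000000000000000000000) (nat_lit 3)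
theorem c90995 : QOK q90995 := cut [] trivial (nd (nat_lit 186) (nat_lit 0) (cs (lf (nat_lit 23) (nat_lit 185)) (nd (nat_lit 230) (nat_lit 0) (cs (lf (nat_lit 11) (nat_lit 207)) (lf (nat_lit 24) (nat_lit 164)))))) q90995 (by decide +kernel)
def q91002 : Q := Q.p (nat_lit 0x1000002000008000020000000000000000000000000000000000000000000000000000) (nat_lit 0x100000400000800004000010000000000000000000000000000000000000000000000000000000000) (nat_lit 3)
theorem c91002 : QOK q91002 := cut [] trivial (nd (nat_lit 298) (nat_lit 0) (cs (lf (nat_lit 27) (nat_lit 209)) (nd (nat_lit 254) (nat_lit 0) (cs (lf (nat_lit 42) (nat_lit 231)) (lf (nat_lit 45) (nat_lit 209)))))) q91002 (by decide +kernel)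
def q91035 : Q := Q.p (nat_lit 0x2000018000040000000000000000000000000000000000000000000000000000) (nat_lit 0x800004000000000020000100000400000000000000000000000000000000000000000) (nat_lit 3)
theorem c91035 : QOK q91035 := cut [] trivial (nd (nat_lit 188) (nat_lit 0) (cs (lf (nat_lit 36) (nat_lit 165)) (nd (nat_lit 275) (nat_lit 0) (cs (lf (nat_lit 33) (nat_lit 187)) (lf (nat_lit 39) (nat_lit 187)))))) q91035 (by decide +kernel)
def q91105 : Q := Q.p (nat_lit 0x1000002000008000020000100000000000000000000000000000000000000000000000) (nat_lit 0x4000000000000000080000400000000000000000000000000000000000000000) (nat_lit 2)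
theorem c91105 : QOK q91105 := cut [] trivial (nd (nat_lit 187) (nat_lit 0) (cs (lf (nat_lit 35) (nat_lit 165)) (lf (nat_lit 28) (nat_lit 187)))) q91105 (by decide +kernel)
def q91117 : Q := Q.p (nat_lit 0x20000080000380000c000000000000000000000000000000000000000000000000000000000) (nat_lit 0x30000040000000000000000000000000000000000000000000000000000) (nat_lit 2)
theorem c91117 : QOK q91117 := cut [] trivial (nd (nat_lit 232) (nat_lit 0) (cs (lf (nat_lit 6) (nat_lit 229)) (lf (nat_lit 35) (nat_lit 209)))) q91117 (by decide +kernel)
def q91185 : Q := Q.p (nat_lit 0x2000008000020000080000200000000000000000000000000000000000000000) (nat_lit 0x1000004000010000000000000000000000000000000000000000000000000000000000) (nat_lit 2)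
theorem c91185 : QOK q91185 := cut [] trivial (nd (nat_lit 254) (nat_lit 0) (cs (lf (nat_lit 29) (nat_lit 187)) (lf (nat_lit 28) (nat_lit 165)))) q91185 (by decide +kernel)
def q91191 : Q := Q.p (nat_lit 0x3800001000000000000000000000000000000000000000000000000000000000) (nat_lit 0x4400002c00000000000000000000000000000000000000000000000000000000) (nat_lit 3)
theorem c91191 : QOK q91191 := cut [] trivial (nd (nat_lit 227) (nat_lit 0) (cs (lf (nat_lit 21) (nat_lit 227)) (nd (nat_lit 229) (nat_lit 0) (cs (lf (nat_lit 18) (nat_lit 228)) (lf (nat_lit 0) (nat_lit 226)))))) q91191 (by decide +kernel)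
def q91225 : Q := Q.p (nat_lit 0x100003800000000000000000000000000000000000000000000000000000000000000) (nat_lit 0x2c0004400000000000000000000000000000000000000000000000000000000000000) (nat_lit 3)
theorem c91225 : QOK q91225 := cut [] trivial (nd (nat_lit 271) (nat_lit 0) (cs (lf (nat_lit 9) (nat_lit 249)) (nd (nat_lit 273) (nat_lit 0) (cs (lf (nat_lit 12) (nat_lit 248)) (lf (nat_lit 6) (nat_lit 250)))))) q91225 (by decide +kernel)
def q91247 : Q := Q.p (nat_lit 0x300001e000000000000000000000000000000000000000000000000000000000) (nat_lit 0xe00001800000000000000000000000000000000000000000000000000000000) (nat_lit 3)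
theorem c91247 : QOK q91247 := cut [] trivial (nd (nat_lit 228) (nat_lit 0) (cs (lf (nat_lit 0) (nat_lit 227)) (nd (nat_lit 250) (nat_lit 0) (cs (lf (nat_lit 11) (nat_lit 227)) (lf (nat_lit 13) (nat_lit 228)))))) q91247 (by decide +kernel)
def q91257 : Q := Q.p (nat_lit 0x3800009000020000000000000000000000000000000000000000000000000000) (nat_lit 0x500004400006000058000020000080000000000000000000000000000000000000000) (nat_lit 6)
theorem c91257 : QOK q91257 := cut [] trivial (nd (nat_lit 229) (nat_lit 0) (cs (lf (nat_lit 18) (nat_lit 228)) (nd (nat_lit 210) (nat_lit 0) (cs (lf (nat_lit 14) (nat_lit 206)) (nd (nat_lit 207) (nat_lit 0) (cs (lf (nat_lit 8) (nat_lit 206)) (nd (nat_lit 185) (nat_lit 0) (cs (lf (nat_lit 29) (nat_lit 185)) (nd (nat_lit 250) (nat_lit 0) (cs (lf (nat_lit 41) (nat_lit 184)) (lf (nat_lit 36) (nat_lit 162)))))))))))) q91257 (by decide +kernel)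
def q91260 : Q := Q.p (nat_lit 0x7800008000020000000000000000000000000000000000000000000000000000) (nat_lit 0x400003000000000030000000000000000000000000000000000000000000000000000000000) (nat_lit 3)
theorem c91260 : QOK q91260 := cut [] trivial (nd (nat_lit 232) (nat_lit 0) (cs (lf (nat_lit 17) (nat_lit 229)) (nd (nat_lit 276) (nat_lit 0) (cs (lf (nat_lit 5) (nat_lit 251)) (lf (nat_lit 42) (nat_lit 209)))))) q91260 (by decide +kernel)

end Crest.Agent.H3.Snaky.CR
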