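import Crest.Agent.H3.Snaky.Cert

set_option autoImplicit false
set_option maxRecDepth 100000

namespace Crest.Agent.H3.Snaky.CR

open T

def q91265 : Q := Q.p (nat_lit 0x300000e000020000000000000000000000000000000000000000000000000000) (nat_lit 0x1800040000000000000000000000000000000000000000000000000000) (nat_lit 2)
theorem c91265 : QOK q91265 := cut [] trivial (nd (nat_lit 228) (nat_lit 0) (cs (lf (nat_lit 0) (nat_lit 227)) (lf (nat_lit 17) (nat_lit 206)))) q91265 (by decide +kernel)
def q91300 : Q := Q.p (nat_lit 0x2000008000020000040000000000000000000000000000000000000000000000) (nat_lit 0x800000000000000010000080000100000400000000000000000000000000000000000) (nat_lit 3)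
theorem c91300 : QOK q91300 := cut [] trivial (nd (nat_lit 164) (nat_lit 0) (cs (lf (nat_lit 45) (nat_lit 164)) (nd (nat_lit 208) (nat_lit 0) (cs (lf (nat_lit 24) (nat_lit 142)) (lf (nat_lit 42) (nat_lit 186)))))) q91300 (by decide +kernel)
def q91402 : Q := Q.p (nat_lit 0x200000400001000004000008000000000000000000000000000000000000000000000000000) (nat_lit 0x800000000000000010000020000000000000000000000000000000000000000000000) (nat_lit 2)
theorem c91402 : QOK q91402 := cut [] trivial (nd (nat_lit 208) (nat_lit 0) (cs (lf (nat_lit 47) (nat_lit 185)) (lf (nat_lit 28) (nat_lit 208)))) q91402 (by decide +kernel)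
def q91408 : Q := Q.p (nat_lit 0x400003000008000020000000000000000000000000000000000000000000000000000) (nat_lit 0x100000800000000004000000000000000000000000000000000000000000000000000000000) (nat_lit 2)
theorem c91408 : QOK q91408 := cut [] trivial (nd (nat_lit 296) (nat_lit 0) (cs (lf (nat_lit 39) (nat_lit 208)) (lf (nat_lit 33) (nat_lit 208)))) q91408 (by decide +kernel)
def q91468 : Q := Q.p (nat_lit 0x600003800002000000000000000000000000000000000000000000000000000000000) (nat_lit 0x40000180000000000000008000020000000000000000000000000000000000000000000000) (nat_lit 3)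
theorem c91468 : QOK q91468 := cut [] trivial (nd (nat_lit 272) (nat_lit 0) (cs (lf (nat_lit 12) (nat_lit 249)) (nd (nat_lit 207) (nat_lit 0) (cs (lf (nat_lit 41) (nat_lit 206)) (lf (nat_lit 24) (nat_lit 185)))))) q91468 (by decide +kernel)
def q91478 : Q := Q.p (nat_lit 0x600000800003c00000000000000000000000000000000000000000000000000000000000000) (nat_lit 0x780004000000000000000000000000000000000000000000000000000000000000000) (nat_lit 3)
theorem c91478 : QOK q91478 := cut [] trivial (nd (nat_lit 272) (nat_lit 0) (cs (lf (nat_lit 11) (nat_lit 249)) (nd (nat_lit 273) (nat_lit 0) (cs (lf (nat_lit 2) (nat_lit 272)) (lf (nat_lit 6) (nat_lit 250)))))) q91478 (by decide +kernel)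
def q91505 : Q := Q.p (nat_lit 0x1c00006000000000000000000000000000000000000000000000000000000000) (nat_lit 0x200018000000000000000000000000000000000000000000000000000000000) (nat_lit 2)
theorem c91505 : QOK q91505 := cut [] trivial (nd (nat_lit 231) (nat_lit 0) (cs (lf (nat_lit 12) (nat_lit 227)) (lf (nat_lit 6) (nat_lit 228)))) q91505 (by decide +kernel)
def q91542 : Q := Q.p (nat_lit 0x300000f000010000000000000000000000000000000000000000000000000000) (nat_lit 0x60000780000000001000006e0000b80002c0000300000000000000000000000000000000000) (nat_lit 11)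
theorem c91542 : QOK q91542 := cut [] trivial (nd (nat_lit 209) (nat_lit 0) (cs (lf (nat_lit 17) (nat_lit 206)) (nd (nat_lit 165) (nat_lit 0) (cs (lf (nat_lit 37) (nat_lit 164)) (nd (nat_lit 275) (nat_lit 0) (cs (lf (nat_lit 42) (nat_lit 208)) (nd (nat_lit 206) (nat_lit 0) (cs (lf (nat_lit 23) (nat_lit 205)) (nd (nat_lit 276) (nat_lit 0) (cs (lf (nat_lit 29) (nat_lit 209)) (nd (nat_lit 207) (nat_lit 0) (cs (lf (nat_lit 5) (nat_lit 206)) (nd (nat_lit 184) (nat_lit 0) (cs (lf (nat_lit 23) (nat_lit 183)) (nd (nat_lit 277) (nat_lit 0) (cs (lf (nat_lit 18) (nat_lit 252)) (nd (nat_lit 162) (nat_lit 0) (cs (lf (nat_lit 24) (nat_lit 140)) (nd (nat_lit 163) (nat_lit 0) (cs (lf (nat_lit 25) (nat_lit 163)) (lf (nat_lit 35) (nat_lit 140)))))))))))))))))))))) q91542 (by decide +kernel)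
def q91553 : Q := Q.p (nat_lit 0x1800004000010000000000000000000000000000000000000000000000000000) (nat_lit 0x2000000000020000000000c0000300000800000000000000000000000000000000000) (nat_lit 4)
theorem c91553 : QOK q91553 := cut [] trivial (nd (nat_lit 186) (nat_lit 0) (cs (lf (nat_lit 41) (nat_lit 185)) (nd (nat_lit 165) (nat_lit 0) (cs (lf (nat_lit 34) (nat_lit 164)) (nd (nat_lit 164) (nat_lit 0) (cs (lf (nat_lit 35) (nat_lit 142)) (lf (nat_lit 40) (nat_lit 163)))))))) q91553 (by decide +kernel)
def q91649 : Q := Q.p (nat_lit 0xe00001000000000010000000000000000000000000000000000000000000000000000) (nat_lit 0x280000000000000004000000000000000000000000000000000000000000000000000000000) (nat_lit 2)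
theorem c91649 : QOK q91649 := cut [] trivial (nd (nat_lit 230) (nat_lit 0) (cs (lf (nat_lit 41) (nat_lit 207)) (lf (nat_lit 29) (nat_lit 208)))) q91649 (by decide +kernel)
def q91667 : Q := Q.p (nat_lit 0x600003800000000000000000000000000000000000000000000000000000000000000) (nat_lit 0x180004000000000000000000000000000000000000000000000000000000000000000) (nat_lit 2)
theorem c91667 : QOK q91667 := cut [] trivial (nd (nat_lit 272) (nat_lit 0) (cs (lf (nat_lit 12) (nat_lit 249)) (lf (nat_lit 6) (nat_lit 250)))) q91667 (by decide +kernel)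
def q91700 : Q := Q.p (nat_lit 0x780000600000000000000000000000000000000000000000000000000000000000000000000) (nat_lit 0x39c000070000000000000000000000000000000000000000000000000000000000000000000000000) (nat_lit 5)
theorem c91700 : QOK q91700 := cut [] trivial (nd (nat_lit 320) (nat_lit 0) (cs (lf (nat_lit 5) (nat_lit 295)) (nd (nat_lit 294) (nat_lit 0) (cs (lf (nat_lit 4) (nat_lit 294)) (nd (nat_lit 315) (nat_lit 0) (cs (lf (nat_lit 10) (nat_lit 293)) (nd (nat_lit 293) (nat_lit 0) (cs (lf (nat_lit 11) (nat_lit 292)) (lf (nat_lit 12) (nat_lit 270)))))))))) q91700 (by decide +kernel)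
def q91728 : Q := Q.p (nat_lit 0x780000800002000000000000000000000000000000000000000000000000000000000000000) (nat_lit 0x300000000000000000000008000000000000000000000000000000000000000000000000000000000) (nat_lit 2)
theorem c91728 : QOK q91728 := cut [] trivial (nd (nat_lit 320) (nat_lit 0) (cs (lf (nat_lit 24) (nat_lit 231)) (lf (nat_lit 5) (nat_lit 295)))) q91728 (by decide +kernel)
def q91736 : Q := Q.p (nat_lit 0x180000600000800002000000000000000000000000000000000000000000000000000000000) (nat_lit 0x10000060001800000000000000000000000000000000000000000000000000000000000000000000) (nat_lit 3)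
theorem c91736 : QOK q91736 := cut [] trivial (nd (nat_lit 294) (nat_lit 0) (cs (lf (nat_lit 41) (nat_lit 228)) (nd (nat_lit 275) (nat_lit 0) (cs (lf (nat_lit 12) (nat_lit 271)) (lf (nat_lit 6) (nat_lit 272)))))) q91736 (by decide +kernel)
def q91762 : Q := Q.p (nat_lit 0x600003c00000000000000000000000000000000000000000000000000000000000000) (nat_lit 0x1c0000300000000000000000000000000000000000000000000000000000000000000) (nat_lit 3)
theorem c91762 : QOK q91762 := cut [] trivial (nd (nat_lit 271) (nat_lit 0) (cs (lf (nat_lit 13) (nat_lit 249)) (nd (nat_lit 249) (nat_lit 0) (cs (lf (nat_lit 11) (nat_lit 248)) (lf (nat_lit 0) (nat_lit 248)))))) q91762 (by decide +kernel)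
def q91801 : Q := Q.p (nat_lit 0xf00000c00001000000000000000000000000000000000000000000000000000000000000000) (nat_lit 0x80007000000800000000000000000000000000000000000000000000000000000000000000) (nat_lit 3)
theorem c91801 : QOK q91801 := cut [] trivial (nd (nat_lit 277) (nat_lit 0) (cs (lf (nat_lit 17) (nat_lit 274)) (nd (nat_lit 276) (nat_lit 0) (cs (lf (nat_lit 23) (nat_lit 251)) (lf (nat_lit 12) (nat_lit 273)))))) q91801 (by decide +kernel)
def q91990 : Q := Q.p (nat_lit 0x40000300000c000000000000000000000000000000000000000000000000000000000) (nat_lit 0x7e0001f80007800000000000000010000000000000000000000000000000000000000000000000000) (nat_lit 9)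
theorem c91990 : QOK q91990 := cut [] trivial (nd (nat_lit 296) (nat_lit 0) (cs (lf (nat_lit 30) (nat_lit 230)) (nd (nat_lit 297) (nat_lit 0) (cs (lf (nat_lit 29) (nat_lit 230)) (nd (nat_lit 275) (nat_lit 0) (cs (lf (nat_lit 47) (nat_lit 208)) (nd (nat_lit 298) (nat_lit 0) (cs (lf (nat_lit 29) (nat_lit 231)) (nd (nat_lit 299) (nat_lit 0) (cs (lf (nat_lit 18) (nat_lit 274)) (nd (nat_lit 321) (nat_lit 0) (cs (lf (nat_lit 5) (nat_lit 296)) (nd (nat_lit 277) (nat_lit 0) (cs (lf (nat_lit 17) (nat_lit 274)) (nd (nat_lit 295) (nat_lit 0) (cs (lf (nat_lit 41) (nat_lit 229)) (lf (nat_lit 16) (nat_lit 273)))))))))))))))))) q91990 (by decide +kernel)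
def q91992 : Q := Q.p (nat_lit 0x3e000000000000000000000000000000000000000000000000000000000) (nat_lit 0x1c000000000000000000000000000000000000000000000000000) (nat_lit 2)
theorem c91992 : QOK q91992 := cut [] trivial (nd (nat_lit 207) (nat_lit 0) (cs (lf (nat_lit 23) (nat_lit 206)) (lf (nat_lit 22) (nat_lit 207)))) q91992 (by decide +kernel)
def q91998 : Q := Q.p (nat_lit 0x80000300000f000000000000000000000000000000000000000000000000000000000) (nat_lit 0x1000000e00010000000000000000000000000000000000000000000000000000000000) (nat_lit 3)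
theorem c91998 : QOK q91998 := cut [] trivial (nd (nat_lit 250) (nat_lit 0) (cs (lf (nat_lit 11) (nat_lit 227)) (nd (nat_lit 251) (nat_lit 0) (cs (lf (nat_lit 5) (nat_lit 250)) (lf (nat_lit 6) (nat_lit 228)))))) q91998 (by decide +kernel)
def q92030 : Q := Q.p (nat_lit 0x40000100000400001000000000000000000000000000000000000000000000000000000000) (nat_lit 0x100000c0000380000a0000080000200000000004000000000000000000000000000000000000000000000000000) (nat_lit 6)
theorem c92030 : QOK q92030 := cut [] trivial (nd (nat_lit 293) (nat_lit 0) (cs (lf (nat_lit 41) (nat_lit 227)) (nd (nat_lit 271) (nat_lit 0) (cs (lf (nat_lit 36) (nat_lit 205)) (nd (nat_lit 317) (nat_lit 0) (cs (lf (nat_lit 28) (nat_lit 228)) (nd (nat_lit 316) (nat_lit 0) (cs (lf (nat_lit 29) (nat_lit 250)) (nd (nat_lit 338) (nat_lit 0) (cs (lf (nat_lit 47) (nat_lit 249)) (lf (nat_lit 42) (nat_lit 271)))))))))))) q92030 (by decide +kernel)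
def q92040 : Q := Q.p (nat_lit 0x40000300000c000010000040000000000000000000000000000000000000000000000) (nat_lit 0x20000080000200000000000000000000000000000000000000000) (nat_lit 2)
theorem c92040 : QOK q92040 := cut [] trivial (nd (nat_lit 187) (nat_lit 0) (cs (lf (nat_lit 35) (nat_lit 164)) (lf (nat_lit 37) (nat_lit 186)))) q92040 (by decide +kernel)
def q92088 : Q := Q.p (nat_lit 0x300000c000020000040000000000000000000000000000000000000000000000) (nat_lit 0x80000300000000000000000000000000000000000000000) (nat_lit 2)
theorem c92088 : QOK q92088 := cut [] trivial (nd (nat_lit 187) (nat_lit 0) (cs (lf (nat_lit 47) (nat_lit 164)) (lf (nat_lit 36) (nat_lit 164)))) q92088 (by decide +kernel)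
def q92131 : Q := Q.p (nat_lit 0x8000000000080000f000000000000000000000000000000000000000000000000000000000) (nat_lit 0x200000000000000006000000000000000000000000000000000000000000000000000) (nat_lit 2)
theorem c92131 : QOK q92131 := cut [] trivial (nd (nat_lit 206) (nat_lit 0) (cs (lf (nat_lit 23) (nat_lit 205)) (lf (nat_lit 43) (nat_lit 206)))) q92131 (by decide +kernel)
def q92198 : Q := Q.p (nat_lit 0x9000034000000000000000000000000000000000000000000000000000) (nat_lit 0x10800008000000000000000000000000000000000000000000000000000) (nat_lit 2)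
theorem c92198 : QOK q92198 := cut [] trivial (nd (nat_lit 207) (nat_lit 0) (cs (lf (nat_lit 11) (nat_lit 205)) (lf (nat_lit 5) (nat_lit 206)))) q92198 (by decide +kernel)
def q92217 : Q := Q.p (nat_lit 0x100000c00003c000000000000000000000000000000000000000000000000000) (nat_lit 0x180000200000000000000000000000000000000000000000) (nat_lit 2)
theorem c92217 : QOK q92217 := cut [] trivial (nd (nat_lit 187) (nat_lit 0) (cs (lf (nat_lit 17) (nat_lit 184)) (lf (nat_lit 36) (nat_lit 164)))) q92217 (by decide +kernel)
def q92247 : Q := Q.p (nat_lit 0x40000e000004000000000000000000000000000000000000000000000000000000000) (nat_lit 0x800010000008000000000000000000000000000000000000000000000000000000000) (nat_lit 2)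
theorem c92247 : QOK q92247 := cut [] trivial (nd (nat_lit 256) (nat_lit 0) (cs (lf (nat_lit 10) (nat_lit 252)) (lf (nat_lit 22) (nat_lit 230)))) q92247 (by decide +kernel)
def q92249 : Q := Q.p (nat_lit 0x100000c00002c000060000000000000000000000000000000000000000000000000000) (nat_lit 0x180000200000000000000000000000000000000000000000000000) (nat_lit 2)
theorem c92249 : QOK q92249 := cut [] trivial (nd (nat_lit 211) (nat_lit 0) (cs (lf (nat_lit 6) (nat_lit 208)) (lf (nat_lit 36) (nat_lit 188)))) q92249 (by decide +kernel)
def q92269 : Q := Q.p (nat_lit 0xa00007000000000000000000000000000000000000000000000000000000000000000) (nat_lit 0x500000800000000000000000000000000000000000000000000000000000000000000) (nat_lit 2)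
theorem c92269 : QOK q92269 := cut [] trivial (nd (nat_lit 272) (nat_lit 0) (cs (lf (nat_lit 9) (nat_lit 250)) (lf (nat_lit 14) (nat_lit 250)))) q92269 (by decide +kernel)
def q92274 : Q := Q.p (nat_lit 0x1000004000030000040000000000000000000000000000000000000000000000000000) (nat_lit 0x400000000000000000000080000200000000000000000000000000000000000000000000000) (nat_lit 2)
theorem c92274 : QOK q92274 := cut [] trivial (nd (nat_lit 211) (nat_lit 0) (cs (lf (nat_lit 30) (nat_lit 210)) (lf (nat_lit 35) (nat_lit 188)))) q92274 (by decide +kernel)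
def q92282 : Q := Q.p (nat_lit 0x2000038000060000180000000000000000000000000000000000000000000000) (nat_lit 0x1c000070000100000000000000000000000000000000000000000) (nat_lit 4)
theorem c92282 : QOK q92282 := cut [] trivial (nd (nat_lit 207) (nat_lit 0) (cs (lf (nat_lit 1) (nat_lit 207)) (nd (nat_lit 186) (nat_lit 0) (cs (lf (nat_lit 47) (nat_lit 164)) (nd (nat_lit 185) (nat_lit 0) (cs (lf (nat_lit 0) (nat_lit 184)) (lf (nat_lit 11) (nat_lit 184)))))))) q92282 (by decide +kernel)
def q92352 : Q := Q.p (nat_lit 0xc0000600003000000000000000000000000000000000000000000000000000000000000000) (nat_lit 0x20001980000000000000000000000000000000000000000000000000000000000000000000) (nat_lit 3)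
theorem c92352 : QOK q92352 := cut [] trivial (nd (nat_lit 272) (nat_lit 0) (cs (lf (nat_lit 12) (nat_lit 249)) (nd (nat_lit 275) (nat_lit 0) (cs (lf (nat_lit 11) (nat_lit 271)) (lf (nat_lit 6) (nat_lit 272)))))) q92352 (by decide +kernel)
def q92392 : Q := Q.p (nat_lit 0x200003800002000000000000000000000000000000000000000000000000000000000) (nat_lit 0x100004000001000000000000000000000000000000000000000000000000000000000) (nat_lit 2)
theorem c92392 : QOK q92392 := cut [] trivial (nd (nat_lit 254) (nat_lit 0) (cs (lf (nat_lit 11) (nat_lit 250)) (lf (nat_lit 23) (nat_lit 228)))) q92392 (by decide +kernel)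
def q92450 : Q := Q.p (nat_lit 0x200000000006000010000040000000000000000000000000000000000000000000000000000) (nat_lit 0x80000000000800000000008000000000000000000000000000000000000000000000000000000000) (nat_lit 2)
theorem c92450 : QOK q92450 := cut [] trivial (nd (nat_lit 275) (nat_lit 0) (cs (lf (nat_lit 33) (nat_lit 209)) (lf (nat_lit 30) (nat_lit 231)))) q92450 (by decide +kernel)
def q92451 : Q := Q.p (nat_lit 0x200000000006000010000040000000000000000000000000000000000000000000000000000) (nat_lit 0x80000000001800000000000000000000000000000000000000000000000000000000000000000000) (nat_lit 2)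
theorem c92451 : QOK q92451 := cut [] trivial (nd (nat_lit 275) (nat_lit 0) (cs (lf (nat_lit 30) (nat_lit 231)) (lf (nat_lit 39) (nat_lit 209)))) q92451 (by decide +kernel)
def q92464 : Q := Q.p (nat_lit 0x3c000030000080000000000000000000000000000000000000000000000000000000000000000000) (nat_lit 0x400001800000000000000000000000000000000000000000000000000000000000000000000000000000000000) (nat_lit 2)
theorem c92464 : QOK q92464 := cut [] trivial (nd (nat_lit 336) (nat_lit 0) (cs (lf (nat_lit 11) (nat_lit 313)) (lf (nat_lit 30) (nat_lit 270)))) q92464 (by decide +kernel)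
def q92494 : Q := Q.p (nat_lit 0x400001c000000000000000000000000000000000000000000000000000000000000000000000000000000) (nat_lit 0x38000022000000000000000000000000000000000000000000000000000000000000000000000000000000) (nat_lit 3)
theorem c92494 : QOK q92494 := cut [] trivial (nd (nat_lit 339) (nat_lit 0) (cs (lf (nat_lit 0) (nat_lit 313)) (nd (nat_lit 340) (nat_lit 0) (cs (lf (nat_lit 18) (nat_lit 315)) (lf (nat_lit 3) (nat_lit 314)))))) q92494 (by decide +kernel)
def q92602 : Q := Q.p (nat_lit 0x3800011000000000000000000000000000000000000000000000000000000000) (nat_lit 0x400008800000000000000000000000000000000000000000000000000000000) (nat_lit 2)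
theorem c92602 : QOK q92602 := cut [] trivial (nd (nat_lit 250) (nat_lit 0) (cs (lf (nat_lit 23) (nat_lit 227)) (lf (nat_lit 16) (nat_lit 228)))) q92602 (by decide +kernel)
def q92800 : Q := Q.p (nat_lit 0x700000c000000000000000000000000000000000000000000000000000000000) (nat_lit 0x8000003000000000000000000000000000000000000000000000000000000000) (nat_lit 2)
theorem c92800 : QOK q92800 := cut [] trivial (nd (nat_lit 229) (nat_lit 0) (cs (lf (nat_lit 18) (nat_lit 229)) (lf (nat_lit 0) (nat_lit 228)))) q92800 (by decide +kernel)
def q92873 : Q := Q.p (nat_lit 0xf0000020000000000000000000000000000000000000000) (nat_lit 0x7000008000010000000000000000000000000000000000000000) (nat_lit 3)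
theorem c92873 : QOK q92873 := cut [] trivial (nd (nat_lit 205) (nat_lit 0) (cs (lf (nat_lit 10) (nat_lit 183)) (nd (nat_lit 183) (nat_lit 0) (cs (lf (nat_lit 11) (nat_lit 182)) (lf (nat_lit 23) (nat_lit 160)))))) q92873 (by decide +kernel)
def q92876 : Q := Q.p (nat_lit 0xe0000000000f0000000000000000000000000000000000000000000000) (nat_lit 0x1000000e000100000000000000000000000000000000000000000000000) (nat_lit 3)
theorem c92876 : QOK q92876 := cut [] trivial (nd (nat_lit 206) (nat_lit 0) (cs (lf (nat_lit 11) (nat_lit 183)) (nd (nat_lit 207) (nat_lit 0) (cs (lf (nat_lit 6) (nat_lit 184)) (lf (nat_lit 18) (nat_lit 206)))))) q92876 (by decide +kernel)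
def q92878 : Q := Q.p (nat_lit 0x300000c000000000040000000000000000000000000000000000000000000000) (nat_lit 0x800000000000000010000000000100000000000000000000000000000000000000000) (nat_lit 2)
theorem c92878 : QOK q92878 := cut [] trivial (nd (nat_lit 208) (nat_lit 0) (cs (lf (nat_lit 29) (nat_lit 186)) (lf (nat_lit 24) (nat_lit 164)))) q92878 (by decide +kernel)
def q92879 : Q := Q.p (nat_lit 0x30000040000000000c0000000000000000000000000000000000000000000000) (nat_lit 0x800000000000000010000000000200000000000000000000000000000000000000000) (nat_lit 2)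
theorem c92879 : QOK q92879 := cut [] trivial (nd (nat_lit 208) (nat_lit 0) (cs (lf (nat_lit 35) (nat_lit 164)) (lf (nat_lit 29) (nat_lit 186)))) q92879 (by decide +kernel)
def q92943 : Q := Q.p (nat_lit 0x300000c0000000000c0000000000000000000000000000000000000000000000) (nat_lit 0x10000000000300000000000000000000000000000000000000000) (nat_lit 2)
theorem c92943 : QOK q92943 := cut [] trivial (nd (nat_lit 208) (nat_lit 0) (cs (lf (nat_lit 35) (nat_lit 164)) (lf (nat_lit 24) (nat_lit 164)))) q92943 (by decide +kernel)
def q92958 : Q := Q.p (nat_lit 0x40000300001c000000000000000000000000000000000000000000000000000000000) (nat_lit 0x10000040000620001e00003e0000e00000000000000000000000000000000000000000) (nat_lit 9)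
theorem c92958 : QOK q92958 := cut [] trivial (nd (nat_lit 187) (nat_lit 0) (cs (lf (nat_lit 37) (nat_lit 186)) (nd (nat_lit 233) (nat_lit 0) (cs (lf (nat_lit 6) (nat_lit 230)) (nd (nat_lit 211) (nat_lit 0) (cs (lf (nat_lit 17) (nat_lit 208)) (nd (nat_lit 210) (nat_lit 0) (cs (lf (nat_lit 12) (nat_lit 207)) (nd (nat_lit 188) (nat_lit 0) (cs (lf (nat_lit 36) (nat_lit 165)) (nd (nat_lit 185) (nat_lit 0) (cs (lf (nat_lit 1) (nat_lit 185)) (nd (nat_lit 254) (nat_lit 0) (cs (lf (nat_lit 47) (nat_lit 165)) (nd (nat_lit 189) (nat_lit 0) (cs (lf (nat_lit 35) (nat_lit 166)) (lf (nat_lit 30) (nat_lit 188)))))))))))))))))) q92958 (by decide +kernel)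
def q93008 : Q := Q.p (nat_lit 0x200000800003000008000000000000000000000000000000000000000000000000000000000) (nat_lit 0x100000c0000100000000000000004000000000000000000000000000000000000000000000000000000000) (nat_lit 3)
theorem c93008 : QOK q93008 := cut [] trivial (nd (nat_lit 318) (nat_lit 0) (cs (lf (nat_lit 40) (nat_lit 230)) (nd (nat_lit 319) (nat_lit 0) (cs (lf (nat_lit 41) (nat_lit 252)) (lf (nat_lit 47) (nat_lit 230)))))) q93008 (by decide +kernel)
def q93020 : Q := Q.p (nat_lit 0x780000000000000000000000000000000000000000000000000000000000000000000000000) (nat_lit 0x38000040000380000000000000000000000000000000000000000000000000000000000000000000) (nat_lit 4)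
theorem c93020 : QOK q93020 := cut [] trivial (nd (nat_lit 272) (nat_lit 0) (cs (lf (nat_lit 22) (nat_lit 272)) (nd (nat_lit 316) (nat_lit 0) (cs (lf (nat_lit 10) (nat_lit 294)) (nd (nat_lit 294) (nat_lit 0) (cs (lf (nat_lit 23) (nat_lit 271)) (lf (nat_lit 11) (nat_lit 293)))))))) q93020 (by decide +kernel)
def q93032 : Q := Q.p (nat_lit 0x200000800007000008000060000000000000000000000000000000000000000000000000000) (nat_lit 0x80000000000000008000007000000000000000000000000000000000000000000000000000000000) (nat_lit 3)
theorem c93032 : QOK q93032 := cut [] trivial (nd (nat_lit 230) (nat_lit 0) (cs (lf (nat_lit 42) (nat_lit 230)) (nd (nat_lit 229) (nat_lit 0) (cs (lf (nat_lit 12) (nat_lit 206)) (lf (nat_lit 18) (nat_lit 229)))))) q93032 (by decide +kernel)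
def q93054 : Q := Q.p (nat_lit 0x700000a00000000000000000000000000000000000000000000000000000000000000000000) (nat_lit 0x380000c0001100000000000000000000000000000000000000000000000000000000000000000000) (nat_lit 4)
theorem c93054 : QOK q93054 := cut [] trivial (nd (nat_lit 295) (nat_lit 0) (cs (lf (nat_lit 23) (nat_lit 272)) (nd (nat_lit 316) (nat_lit 0) (cs (lf (nat_lit 10) (nat_lit 294)) (nd (nat_lit 294) (nat_lit 0) (cs (lf (nat_lit 11) (nat_lit 293)) (lf (nat_lit 17) (nat_lit 272)))))))) q93054 (by decide +kernel)
def q93059 : Q := Q.p (nat_lit 0x80000200002c0000300000000000000000000000000000000000000000000000) (nat_lit 0x400001c00001000000000000000000000000000000000000000000) (nat_lit 3)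
theorem c93059 : QOK q93059 := cut [] trivial (nd (nat_lit 190) (nat_lit 0) (cs (lf (nat_lit 35) (nat_lit 167)) (nd (nat_lit 191) (nat_lit 0) (cs (lf (nat_lit 5) (nat_lit 188)) (lf (nat_lit 6) (nat_lit 188)))))) q93059 (by decide +kernel)
def q93127 : Q := Q.p (nat_lit 0x200000800006000008000000000000000000000000000000000000000000000000000000000) (nat_lit 0x80000000000000000000010000040000000000000000000000000000000000000000000000000000) (nat_lit 2)
theorem c93127 : QOK q93127 := cut [] trivial (nd (nat_lit 232) (nat_lit 0) (cs (lf (nat_lit 35) (nat_lit 209)) (lf (nat_lit 30) (nat_lit 231)))) q93127 (by decide +kernel)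
def q93184 : Q := Q.p (nat_lit 0x40000b000004000010000000000000000000000000000000000000000000000000000) (nat_lit 0x80000200004000000000000000000000000000000000000000000000000000000000000000) (nat_lit 2)
theorem c93184 : QOK q93184 := cut [] trivial (nd (nat_lit 273) (nat_lit 0) (cs (lf (nat_lit 41) (nat_lit 207)) (lf (nat_lit 7) (nat_lit 251)))) q93184 (by decide +kernel)
def q93190 : Q := Q.p (nat_lit 0x40000300000c0000000000000000000000000000000000000000000000000000) (nat_lit 0x1000000000000000000000200000800000000000000000000000000000000000000000) (nat_lit 2)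
theorem c93190 : QOK q93190 := cut [] trivial (nd (nat_lit 189) (nat_lit 0) (cs (lf (nat_lit 36) (nat_lit 166)) (lf (nat_lit 30) (nat_lit 188)))) q93190 (by decide +kernel)
def q93206 : Q := Q.p (nat_lit 0x10000000000200000c0000200000000000000000000000000000000000000000000000) (nat_lit 0xc000010000000000000000000000000000000000000000000000000000000000) (nat_lit 2)
theorem c93206 : QOK q93206 := cut [] trivial (nd (nat_lit 254) (nat_lit 0) (cs (lf (nat_lit 39) (nat_lit 188)) (lf (nat_lit 32) (nat_lit 188)))) q93206 (by decide +kernel)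
def q93229 : Q := Q.p (nat_lit 0x300001c000060000000000000000000000000000000000000000000000000000) (nat_lit 0x7c0001f0000c00000300001c000000000000000000000000000000000000000000000000000) (nat_lit 9)
theorem c93229 : QOK q93229 := cut [] trivial (nd (nat_lit 229) (nat_lit 0) (cs (lf (nat_lit 12) (nat_lit 206)) (nd (nat_lit 274) (nat_lit 0) (cs (lf (nat_lit 30) (nat_lit 208)) (nd (nat_lit 254) (nat_lit 0) (cs (lf (nat_lit 5) (nat_lit 229)) (nd (nat_lit 276) (nat_lit 0) (cs (lf (nat_lit 42) (nat_lit 209)) (nd (nat_lit 206) (nat_lit 0) (cs (lf (nat_lit 22) (nat_lit 206)) (nd (nat_lit 275) (nat_lit 0) (cs (lf (nat_lit 41) (nat_lit 209)) (nd (nat_lit 273) (nat_lit 0) (cs (lf (nat_lit 12) (nat_lit 250)) (nd (nat_lit 295) (nat_lit 0) (cs (lf (nat_lit 11) (nat_lit 272)) (lf (nat_lit 36) (nat_lit 207)))))))))))))))))) q93229 (by decide +kernel)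
def q93232 : Q := Q.p (nat_lit 0x300001c000060000000000000000000000000000000000000000000000000000) (nat_lit 0x1c000063000000000000000000000000000000000000000000000000000000000) (nat_lit 4)
theorem c93232 : QOK q93232 := cut [] trivial (nd (nat_lit 233) (nat_lit 0) (cs (lf (nat_lit 6) (nat_lit 230)) (nd (nat_lit 255) (nat_lit 0) (cs (lf (nat_lit 5) (nat_lit 230)) (nd (nat_lit 229) (nat_lit 0) (cs (lf (nat_lit 12) (nat_lit 206)) (lf (nat_lit 19) (nat_lit 229)))))))) q93232 (by decide +kernel)
def q93233 : Q := Q.p (nat_lit 0x1c000068000000000000000000000000000000000000000000000000000) (nat_lit 0x3000004000000000000000000000000000000000000000000000000000) (nat_lit 2)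
theorem c93233 : QOK q93233 := cut [] trivial (nd (nat_lit 229) (nat_lit 0) (cs (lf (nat_lit 23) (nat_lit 206)) (lf (nat_lit 12) (nat_lit 206)))) q93233 (by decide +kernel)
def q93393 : Q := Q.p (nat_lit 0x2000000000000000078000100000000000000000000000000000000000000000) (nat_lit 0x8000070000080000000000000000000000000000000000000000000000) (nat_lit 3)
theorem c93393 : QOK q93393 := cut [] trivial (nd (nat_lit 209) (nat_lit 0) (cs (lf (nat_lit 4) (nat_lit 183)) (nd (nat_lit 187) (nat_lit 0) (cs (lf (nat_lit 5) (nat_lit 184)) (lf (nat_lit 43) (nat_lit 164)))))) q93393 (by decide +kernel)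
def q93403 : Q := Q.p (nat_lit 0x1e000000000000000000000000000000000000000000000) (nat_lit 0xe0000100000e000000000000000000000000000000000000000) (nat_lit 4)
theorem c93403 : QOK q93403 := cut [] trivial (nd (nat_lit 158) (nat_lit 0) (cs (lf (nat_lit 22) (nat_lit 158)) (nd (nat_lit 202) (nat_lit 0) (cs (lf (nat_lit 10) (nat_lit 180)) (nd (nat_lit 180) (nat_lit 0) (cs (lf (nat_lit 11) (nat_lit 179)) (lf (nat_lit 23) (nat_lit 157)))))))) q93403 (by decide +kernel)
def q93574 : Q := Q.p (nat_lit 0x1e00001800004000000000000000000000000000000000000000000000000000000000) (nat_lit 0x200000c0000000000000000000000000000000000000000000000000000000000000000000000000) (nat_lit 2)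
theorem c93574 : QOK q93574 := cut [] trivial (nd (nat_lit 295) (nat_lit 0) (cs (lf (nat_lit 11) (nat_lit 272)) (lf (nat_lit 30) (nat_lit 229)))) q93574 (by decide +kernel)
def q93682 : Q := Q.p (nat_lit 0x400001000004000010000000000000000000000000000000000000000000000000000) (nat_lit 0xa0000380000a00000000000000000000000000000000000000000000000000000000000000000000) (nat_lit 4)
theorem c93682 : QOK q93682 := cut [] trivial (nd (nat_lit 295) (nat_lit 0) (cs (lf (nat_lit 40) (nat_lit 207)) (nd (nat_lit 297) (nat_lit 0) (cs (lf (nat_lit 28) (nat_lit 208)) (nd (nat_lit 296) (nat_lit 0) (cs (lf (nat_lit 41) (nat_lit 229)) (lf (nat_lit 29) (nat_lit 230)))))))) q93682 (by decide +kernel)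
def q93868 : Q := Q.p (nat_lit 0x200000400003c000000000000000000000000000000000000000000000000000) (nat_lit 0x20000080000000001b800040000100000000000000000000000000000000000000000000000) (nat_lit 5)
theorem c93868 : QOK q93868 := cut [] trivial (nd (nat_lit 231) (nat_lit 0) (cs (lf (nat_lit 5) (nat_lit 206)) (nd (nat_lit 275) (nat_lit 0) (cs (lf (nat_lit 42) (nat_lit 208)) (nd (nat_lit 210) (nat_lit 0) (cs (lf (nat_lit 35) (nat_lit 187)) (nd (nat_lit 228) (nat_lit 0) (cs (lf (nat_lit 11) (nat_lit 205)) (lf (nat_lit 13) (nat_lit 206)))))))))) q93868 (by decide +kernel)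
def q93895 : Q := Q.p (nat_lit 0x2000004000070000000000000000000000000000000000000000000000000000) (nat_lit 0x80000000000a000188000700000000000000000000000000000000000000000000000) (nat_lit 5)
theorem c93895 : QOK q93895 := cut [] trivial (nd (nat_lit 211) (nat_lit 0) (cs (lf (nat_lit 11) (nat_lit 207)) (nd (nat_lit 189) (nat_lit 0) (cs (lf (nat_lit 17) (nat_lit 186)) (nd (nat_lit 188) (nat_lit 0) (cs (lf (nat_lit 12) (nat_lit 185)) (nd (nat_lit 231) (nat_lit 0) (cs (lf (nat_lit 30) (nat_lit 187)) (lf (nat_lit 6) (nat_lit 208)))))))))) q93895 (by decide +kernel)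
def q93922 : Q := Q.p (nat_lit 0xe000044000000000000000000000000000000000000000000000000000000000) (nat_lit 0x10000088000000000000000000000000000000000000000000000000000000000) (nat_lit 2)
theorem c93922 : QOK q93922 := cut [] trivial (nd (nat_lit 256) (nat_lit 0) (cs (lf (nat_lit 17) (nat_lit 231)) (lf (nat_lit 22) (nat_lit 230)))) q93922 (by decide +kernel)
def q93941 : Q := Q.p (nat_lit 0x100000400001c000060000000000000000000000000000000000000000000000000000) (nat_lit 0x180000200000000000000000000000000000000000000000000000) (nat_lit 2)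
theorem c93941 : QOK q93941 := cut [] trivial (nd (nat_lit 211) (nat_lit 0) (cs (lf (nat_lit 6) (nat_lit 208)) (lf (nat_lit 35) (nat_lit 188)))) q93941 (by decide +kernel)
def q93944 : Q := Q.p (nat_lit 0x30000080000000000c0000000000000000000000000000000000000000000000) (nat_lit 0x400000000000000020000000000100000000000000000000000000000000000000000) (nat_lit 2)
theorem c93944 : QOK q93944 := cut [] trivial (nd (nat_lit 209) (nat_lit 0) (cs (lf (nat_lit 41) (nat_lit 186)) (lf (nat_lit 47) (nat_lit 164)))) q93944 (by decide +kernel)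
def q93982 : Q := Q.p (nat_lit 0x80000200000800002000008000000000000000000000000000000000000000000000000000) (nat_lit 0x40000100000400000000000000000000000000000000000000000000000000000000000000000000) (nat_lit 2)
theorem c93982 : QOK q93982 := cut [] trivial (nd (nat_lit 296) (nat_lit 0) (cs (lf (nat_lit 29) (nat_lit 229)) (lf (nat_lit 28) (nat_lit 207)))) q93982 (by decide +kernel)
def q94094 : Q := Q.p (nat_lit 0x4000030000080000000000000000000000000000000000000000000000000000) (nat_lit 0x400001000000000000000040000200000800000000000000000000000000000000000000000) (nat_lit 3)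
theorem c94094 : QOK q94094 := cut [] trivial (nd (nat_lit 189) (nat_lit 0) (cs (lf (nat_lit 36) (nat_lit 166)) (nd (nat_lit 276) (nat_lit 0) (cs (lf (nat_lit 30) (nat_lit 210)) (lf (nat_lit 33) (nat_lit 188)))))) q94094 (by decide +kernel)
def q94153 : Q := Q.p (nat_lit 0x600001c000040000000000000000000000000000000000000000000000000000) (nat_lit 0x3000080000000000000000000000000000000000000000000000000000) (nat_lit 2)
theorem c94153 : QOK q94153 := cut [] trivial (nd (nat_lit 229) (nat_lit 0) (cs (lf (nat_lit 17) (nat_lit 207)) (lf (nat_lit 0) (nat_lit 228)))) q94153 (by decide +kernel)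
def q94164 : Q := Q.p (nat_lit 0x10000080000200000800004000000000000000000000000000000000000000000000000000000000000000) (nat_lit 0x4000020000000000000001000000000000000000000000000000000000000000000000000000000000000000000) (nat_lit 2)
theorem c94164 : QOK q94164 := cut [] trivial (nd (nat_lit 341) (nat_lit 0) (cs (lf (nat_lit 41) (nat_lit 274)) (lf (nat_lit 34) (nat_lit 253)))) q94164 (by decide +kernel)
def q94169 : Q := Q.p (nat_lit 0x100000200000800002000010000000000000000000000000000000000000000000000000000000000) (nat_lit 0x400000000000000008000040000000000000000000000000000000000000000000000000000) (nat_lit 2)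
theorem c94169 : QOK q94169 := cut [] trivial (nd (nat_lit 231) (nat_lit 0) (cs (lf (nat_lit 28) (nat_lit 231)) (lf (nat_lit 35) (nat_lit 209)))) q94169 (by decide +kernel)
def q94187 : Q := Q.p (nat_lit 0xe000048000000000000000000000000000000000000000000000000000000000) (nat_lit 0x10000084000000000000000000000000000000000000000000000000000000000) (nat_lit 2)
theorem c94187 : QOK q94187 := cut [] trivial (nd (nat_lit 256) (nat_lit 0) (cs (lf (nat_lit 17) (nat_lit 231)) (lf (nat_lit 23) (nat_lit 230)))) q94187 (by decide +kernel)
def q94224 : Q := Q.p (nat_lit 0x7800000000070000000000000000000000000000000000000000000000000000) (nat_lit 0x8000070000080000000000000000000000000000000000000000000000000000) (nat_lit 3)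
theorem c94224 : QOK q94224 := cut [] trivial (nd (nat_lit 233) (nat_lit 0) (cs (lf (nat_lit 16) (nat_lit 229)) (nd (nat_lit 234) (nat_lit 0) (cs (lf (nat_lit 3) (nat_lit 208)) (lf (nat_lit 15) (nat_lit 230)))))) q94224 (by decide +kernel)
def q94301 : Q := Q.p (nat_lit 0x80000e00003800000000000000000000000000000000000000000000000000000000000000) (nat_lit 0xfc0003fc000d00001000000000008000000000000000000000000000000000000000000000000000000000) (nat_lit 10)
theorem c94301 : QOK q94301 := cut [] trivial (nd (nat_lit 317) (nat_lit 0) (cs (lf (nat_lit 30) (nat_lit 251)) (nd (nat_lit 318) (nat_lit 0) (cs (lf (nat_lit 29) (nat_lit 251)) (nd (nat_lit 296) (nat_lit 0) (cs (lf (nat_lit 35) (nat_lit 230)) (nd (nat_lit 316) (nat_lit 0) (cs (lf (nat_lit 41) (nat_lit 250)) (nd (nat_lit 319) (nat_lit 0) (cs (lf (nat_lit 29) (nat_lit 252)) (nd (nat_lit 314) (nat_lit 0) (cs (lf (nat_lit 13) (nat_lit 292)) (nd (nat_lit 320) (nat_lit 0) (cs (lf (nat_lit 18) (nat_lit 295)) (nd (nat_lit 298) (nat_lit 0) (cs (lf (nat_lit 17) (nat_lit 295)) (nd (nat_lit 342) (nat_lit 0) (cs (lf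 (nat_lit 45) (nat_lit 253)) (lf (nat_lit 5) (nat_lit 317)))))))))))))))))))) q94301 (by decide +kernel)
def q94320 : Q := Q.p (nat_lit 0x40000100000f0000000000000000000000000000000000000000000000000000) (nat_lit 0x1000000000000000000000600000000000000000000000000000000000000000000000) (nat_lit 2)
theorem c94320 : QOK q94320 := cut [] trivial (nd (nat_lit 189) (nat_lit 0) (cs (lf (nat_lit 17) (nat_lit 186)) (lf (nat_lit 30) (nat_lit 188)))) q94320 (by decide +kernel)
def q94322 : Q := Q.p (nat_lit 0x40000100000f0000000000000000000000000000000000000000000000000000) (nat_lit 0x10000000000000001000000e0000000000000000000000000000000000000000000000) (nat_lit 3)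
theorem c94322 : QOK q94322 := cut [] trivial (nd (nat_lit 186) (nat_lit 0) (cs (lf (nat_lit 23) (nat_lit 185)) (nd (nat_lit 187) (nat_lit 0) (cs (lf (nat_lit 18) (nat_lit 186)) (lf (nat_lit 42) (nat_lit 187)))))) q94322 (by decide +kernel)
def q94411 : Q := Q.p (nat_lit 0x400001800006000000000000000000000000000000000000000000000000000000000000000) (nat_lit 0x100000000000000000000008000020000000000000000000000000000000000000000000000000000) (nat_lit 2)
theorem c94411 : QOK q94411 := cut [] trivial (nd (nat_lit 231) (nat_lit 0) (cs (lf (nat_lit 24) (nat_lit 209)) (lf (nat_lit 42) (nat_lit 231)))) q94411 (by decide +kernel)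
def q94416 : Q := Q.p (nat_lit 0x80000600001000004000000000000000000000000000000000000000000000000000000000) (nat_lit 0x8000020000100000000000000000000000000000000000000000000000000000000000000000000000000) (nat_lit 2)
theorem c94416 : QOK q94416 := cut [] trivial (nd (nat_lit 317) (nat_lit 0) (cs (lf (nat_lit 30) (nat_lit 251)) (lf (nat_lit 39) (nat_lit 229)))) q94416 (by decide +kernel)
def q94435 : Q := Q.p (nat_lit 0x80000300000800003000008000000000000000000000000000000000000000000000000000000000) (nat_lit 0x20000000000000000400000000000000020000000000000000000000000000000000000000000000000000) (nat_lit 2)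
theorem c94435 : QOK q94435 := cut [] trivial (nd (nat_lit 274) (nat_lit 0) (cs (lf (nat_lit 42) (nat_lit 252)) (lf (nat_lit 36) (nat_lit 208)))) q94435 (by decide +kernel)
def q94462 : Q := Q.p (nat_lit 0x70000000000f0000000000000000000000000000000000000000000000000000) (nat_lit 0x800070000008000000000000000000000000000000000000000000000000000) (nat_lit 3)
theorem c94462 : QOK q94462 := cut [] trivial (nd (nat_lit 233) (nat_lit 0) (cs (lf (nat_lit 5) (nat_lit 208)) (nd (nat_lit 232) (nat_lit 0) (cs (lf (nat_lit 0) (nat_lit 207)) (lf (nat_lit 12) (nat_lit 229)))))) q94462 (by decide +kernel)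
def q94506 : Q := Q.p (nat_lit 0x380000c00001000000000000000000000000000000000000000000000000000000000000000) (nat_lit 0x20000000000000000000004000010000000000000000000000000000000000000000000000000000) (nat_lit 2)
theorem c94506 : QOK q94506 := cut [] trivial (nd (nat_lit 230) (nat_lit 0) (cs (lf (nat_lit 41) (nat_lit 229)) (lf (nat_lit 24) (nat_lit 208)))) q94506 (by decide +kernel)
def q94522 : Q := Q.p (nat_lit 0x80000200000800003000008000020000000000000000000000000000000000000000000000000000) (nat_lit 0x20000000000000000400000000000000000000080000000000000000000000000000000000000000000000) (nat_lit 2)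
theorem c94522 : QOK q94522 := cut [] trivial (nd (nat_lit 274) (nat_lit 0) (cs (lf (nat_lit 36) (nat_lit 186)) (lf (nat_lit 42) (nat_lit 252)))) q94522 (by decide +kernel)
def q94618 : Q := Q.p (nat_lit 0x20000080000600000800000000000000000000000000000000000000000000000000000000000000000000) (nat_lit 0x8000000000000000000001000004000000000000000000000000000000000000000000000000000000000000000) (nat_lit 2)
theorem c94618 : QOK q94618 := cut [] trivial (nd (nat_lit 276) (nat_lit 0) (cs (lf (nat_lit 30) (nat_lit 275)) (lf (nat_lit 35) (nat_lit 253)))) q94618 (by decide +kernel)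
def q94631 : Q := Q.p (nat_lit 0x18000060000080000000000000000000000000000000000000000000000) (nat_lit 0x4000000000000000000000200000800000000000000000000000000000000000) (nat_lit 2)
theorem c94631 : QOK q94631 := cut [] trivial (nd (nat_lit 165) (nat_lit 0) (cs (lf (nat_lit 24) (nat_lit 143)) (lf (nat_lit 29) (nat_lit 165)))) q94631 (by decide +kernel)
def q94662 : Q := Q.p (nat_lit 0x40000180001a000030000000000000000000000000000000000000000000000000000) (nat_lit 0xc000020000000000000000000000000000000000000000000000) (nat_lit 2)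
theorem c94662 : QOK q94662 := cut [] trivial (nd (nat_lit 207) (nat_lit 0) (cs (lf (nat_lit 0) (nat_lit 206)) (lf (nat_lit 24) (nat_lit 185)))) q94662 (by decide +kernel)
def q94715 : Q := Q.p (nat_lit 0xc00007000000000000000000000000000000000000000000000000000000000000000) (nat_lit 0x300008000000000000000000000000000000000000000000000000000000000000000) (nat_lit 2)
theorem c94715 : QOK q94715 := cut [] trivial (nd (nat_lit 273) (nat_lit 0) (cs (lf (nat_lit 12) (nat_lit 250)) (lf (nat_lit 6) (nat_lit 251)))) q94715 (by decide +kernel)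
def q94724 : Q := Q.p (nat_lit 0x10000060000300001c000000000000000000000000000000000000000000000000000000000) (nat_lit 0x180000e00000800000000000000040000000000000000000000000000000000000000000000000000) (nat_lit 4)
theorem c94724 : QOK q94724 := cut [] trivial (nd (nat_lit 297) (nat_lit 0) (cs (lf (nat_lit 29) (nat_lit 230)) (nd (nat_lit 298) (nat_lit 0) (cs (lf (nat_lit 18) (nat_lit 273)) (nd (nat_lit 275) (nat_lit 0) (cs (lf (nat_lit 29) (nat_lit 231)) (lf (nat_lit 35) (nat_lit 209)))))))) q94724 (by decide +kernel)
def q94744 : Q := Q.p (nat_lit 0x400001a00004000010000000000000000000000000000000000000000000000000000000000) (nat_lit 0x200000800000400000000000000000000000000000000000000000000000000000000000000000000) (nat_lit 2)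
theorem c94744 : QOK q94744 := cut [] trivial (nd (nat_lit 299) (nat_lit 0) (cs (lf (nat_lit 1) (nat_lit 273)) (lf (nat_lit 29) (nat_lit 232)))) q94744 (by decide +kernel)
def q94768 : Q := Q.p (nat_lit 0x80000200001c000070000000000000000000000000000000000000000000000000000) (nat_lit 0x400001000004000000000180000600000000000000000000000000000000000000000000000) (nat_lit 4)
theorem c94768 : QOK q94768 := cut [] trivial (nd (nat_lit 211) (nat_lit 0) (cs (lf (nat_lit 6) (nat_lit 208)) (nd (nat_lit 189) (nat_lit 0) (cs (lf (nat_lit 17) (nat_lit 186)) (nd (nat_lit 276) (nat_lit 0) (cs (lf (nat_lit 29) (nat_lit 209)) (lf (nat_lit 31) (nat_lit 188)))))))) q94768 (by decide +kernel)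
def q94861 : Q := Q.p (nat_lit 0x38000060000000000000000000000000000000000000000000000) (nat_lit 0x40000018000000000000000000000000000000000000000000000) (nat_lit 2)
theorem c94861 : QOK q94861 := cut [] trivial (nd (nat_lit 184) (nat_lit 0) (cs (lf (nat_lit 0) (nat_lit 183)) (lf (nat_lit 18) (nat_lit 184)))) q94861 (by decide +kernel)
def q94935 : Q := Q.p (nat_lit 0x1e00001000000000000000000000000000000000000000000000000000000000000000) (nat_lit 0x80000200000c0000000000c00004000000000000000000000000000000000000000000000000000000000) (nat_lit 4)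
theorem c94935 : QOK q94935 := cut [] trivial (nd (nat_lit 295) (nat_lit 0) (cs (lf (nat_lit 11) (nat_lit 272)) (nd (nat_lit 317) (nat_lit 0) (cs (lf (nat_lit 30) (nat_lit 251)) (nd (nat_lit 251) (nat_lit 0) (cs (lf (nat_lit 23) (nat_lit 250)) (lf (nat_lit 35) (nat_lit 229)))))))) q94935 (by decide +kernel)
def q94955 : Q := Q.p (nat_lit 0x40000100000400001000000000000000000000000000000000000000000000000000000000000000) (nat_lit 0x20000080000200000000000800006000008000000000000000000000000000000000000000000000000000) (nat_lit 4)
theorem c94955 : QOK q94955 := cut [] trivial (nd (nat_lit 229) (nat_lit 0) (cs (lf (nat_lit 46) (nat_lit 229)) (nd (nat_lit 319) (nat_lit 0) (cs (lf (nat_lit 29) (nat_lit 252)) (nd (nat_lit 230) (nat_lit 0) (cs (lf (nat_lit 28) (nat_lit 230)) (lf (nat_lit 47) (nat_lit 207)))))))) q94955 (by decide +kernel)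
def q95113 : Q := Q.p (nat_lit 0x1c0000480003000000000000000000000000000000000000000000000000000000000000000) (nat_lit 0x200000300000000000000000000000000000000000000000000000000000000000000000000) (nat_lit 2)
theorem c95113 : QOK q95113 := cut [] trivial (nd (nat_lit 272) (nat_lit 0) (cs (lf (nat_lit 14) (nat_lit 249)) (lf (nat_lit 18) (nat_lit 271)))) q95113 (by decide +kernel)
def q95122 : Q := Q.p (nat_lit 0x1c0000080000000000000000000000000000000000000000000000000000000000000000000) (nat_lit 0x220000160000000000000000000000000000000000000000000000000000000000000000000) (nat_lit 3)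
theorem c95122 : QOK q95122 := cut [] trivial (nd (nat_lit 270) (nat_lit 0) (cs (lf (nat_lit 21) (nat_lit 270)) (nd (nat_lit 272) (nat_lit 0) (cs (lf (nat_lit 18) (nat_lit 271)) (lf (nat_lit 0) (nat_lit 269)))))) q95122 (by decide +kernel)
def q95124 : Q := Q.p (nat_lit 0x1c0000080000000000000000000000000000000000000000000000000000000000000000000) (nat_lit 0x20000360000000000000000000000000000000000000000000000000000000000000000000) (nat_lit 3)
theorem c95124 : QOK q95124 := cut [] trivial (nd (nat_lit 270) (nat_lit 0) (cs (lf (nat_lit 21) (nat_lit 270)) (nd (nat_lit 272) (nat_lit 0) (cs (lf (nat_lit 0) (nat_lit 269)) (lf (nat_lit 3) (nat_lit 270)))))) q95124 (by decide +kernel)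
def q95199 : Q := Q.p (nat_lit 0x800006000006000038000000000000000000000000000000000000000000000000000) (nat_lit 0x100000c0000300000000000000000000000000000000000000000000000) (nat_lit 3)
theorem c95199 : QOK q95199 := cut [] trivial (nd (nat_lit 210) (nat_lit 0) (cs (lf (nat_lit 6) (nat_lit 207)) (nd (nat_lit 188) (nat_lit 0) (cs (lf (nat_lit 17) (nat_lit 185)) (lf (nat_lit 38) (nat_lit 187)))))) q95199 (by decide +kernel)
def q95343 : Q := Q.p (nat_lit 0x2000018000060000000000000000000000000000000000000000000000000000) (nat_lit 0x800000000000000000000100000400000000000000000000000000000000000000000) (nat_lit 2)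
theorem c95343 : QOK q95343 := cut [] trivial (nd (nat_lit 188) (nat_lit 0) (cs (lf (nat_lit 36) (nat_lit 165)) (lf (nat_lit 30) (nat_lit 187)))) q95343 (by decide +kernel)
def q95376 : Q := Q.p (nat_lit 0x100000c000038000000000000000000000000000000000000000000000000000) (nat_lit 0x100000400000000000000000000020000000000000000000000000000000000000000000000) (nat_lit 2)
theorem c95376 : QOK q95376 := cut [] trivial (nd (nat_lit 274) (nat_lit 0) (cs (lf (nat_lit 30) (nat_lit 208)) (lf (nat_lit 47) (nat_lit 185)))) q95376 (by decide +kernel)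
def q95409 : Q := Q.p (nat_lit 0x80000000000c00003000000000000000000000000000000000000000000000000000000000000000) (nat_lit 0x20000000000200000000000000004000000000000000000000000000000000000000000000000000000000) (nat_lit 2)
theorem c95409 : QOK q95409 := cut [] trivial (nd (nat_lit 297) (nat_lit 0) (cs (lf (nat_lit 42) (nat_lit 252)) (lf (nat_lit 47) (nat_lit 230)))) q95409 (by decide +kernel)
def q95631 : Q := Q.p (nat_lit 0x100000600007800000000000000000000000000000000000000000000000000000000000000) (nat_lit 0x3000008000000000000000000000000000000000000000000000000000) (nat_lit 2)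
theorem c95631 : QOK q95631 := cut [] trivial (nd (nat_lit 229) (nat_lit 0) (cs (lf (nat_lit 24) (nat_lit 207)) (lf (nat_lit 23) (nat_lit 228)))) q95631 (by decide +kernel)
def q95656 : Q := Q.p (nat_lit 0xc0000700000c000000000000000000000000000000000000000000000000000000000) (nat_lit 0x600001e0001300000000003000000000000000000000000000000000000000000000000000000000) (nat_lit 6)
theorem c95656 : QOK q95656 := cut [] trivial (nd (nat_lit 273) (nat_lit 0) (cs (lf (nat_lit 12) (nat_lit 250)) (nd (nat_lit 228) (nat_lit 0) (cs (lf (nat_lit 1) (nat_lit 228)) (nd (nat_lit 296) (nat_lit 0) (cs (lf (nat_lit 30) (nat_lit 230)) (nd (nat_lit 295) (nat_lit 0) (cs (lf (nat_lit 41) (nat_lit 229)) (nd (nat_lit 294) (nat_lit 0) (cs (lf (nat_lit 12) (nat_lit 271)) (lf (nat_lit 6) (nat_lit 272)))))))))))) q95656 (by decide +kernel)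
def q95669 : Q := Q.p (nat_lit 0x200000800003000004000000000000000000000000000000000000000000000000000000000) (nat_lit 0x400000000008000010000000000000000000000000000000000000000000000000000) (nat_lit 2)
theorem c95669 : QOK q95669 := cut [] trivial (nd (nat_lit 208) (nat_lit 0) (cs (lf (nat_lit 27) (nat_lit 208)) (lf (nat_lit 45) (nat_lit 208)))) q95669 (by decide +kernel)
def q95737 : Q := Q.p (nat_lit 0x1e000010000000000000000000000000000000000000000000000000000000000) (nat_lit 0x2000000c000000000000000000000000000000000000000000000000000000000) (nat_lit 2)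
theorem c95737 : QOK q95737 := cut [] trivial (nd (nat_lit 231) (nat_lit 0) (cs (lf (nat_lit 23) (nat_lit 230)) (lf (nat_lit 18) (nat_lit 231)))) q95737 (by decide +kernel)
def q95778 : Q := Q.p (nat_lit 0x400007800000000000000000000000000000000000000000000000000000000000000) (nat_lit 0x300008000000000000000000000000000000000000000000000000000000000000000) (nat_lit 2)
theorem c95778 : QOK q95778 := cut [] trivial (nd (nat_lit 273) (nat_lit 0) (cs (lf (nat_lit 11) (nat_lit 250)) (lf (nat_lit 6) (nat_lit 251)))) q95778 (by decide +kernel)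
def q95857 : Q := Q.p (nat_lit 0x1a000060000000000000000000000000000000000000000000000000000) (nat_lit 0x5000080000000000000000000000000000000000000000000000000000) (nat_lit 2)
theorem c95857 : QOK q95857 := cut [] trivial (nd (nat_lit 230) (nat_lit 0) (cs (lf (nat_lit 17) (nat_lit 207)) (lf (nat_lit 12) (nat_lit 206)))) q95857 (by decide +kernel)
def q95922 : Q := Q.p (nat_lit 0x700003800008000010000000000000000000000000000000000000000000000000000) (nat_lit 0x7c0001f00006e00008000006000020000680001c0000000000000000000000000000000000000000000000) (nat_lit 13)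
theorem c95922 : QOK q95922 := cut [] trivial (nd (nat_lit 209) (nat_lit 0) (cs (lf (nat_lit 36) (nat_lit 186)) (nd (nat_lit 275) (nat_lit 0) (cs (lf (nat_lit 47) (nat_lit 186)) (nd (nat_lit 188) (nat_lit 0) (cs (lf (nat_lit 34) (nat_lit 187)) (nd (nat_lit 297) (nat_lit 0) (cs (lf (nat_lit 5) (nat_lit 272)) (nd (nat_lit 319) (nat_lit 0) (cs (lf (nat_lit 42) (nat_lit 252)) (nd (nat_lit 294) (nat_lit 0) (cs (lf (nat_lit 11) (nat_lit 271)) (nd (nat_lit 320) (nat_lit 0) (cs (lf (nat_lit 29) (nat_lit 253)) (nd (nat_lit 207) (nat_lit 0) (cs (lf (nat_lit 37) (nat_lit 206)) (nd (nat_lit 316) (nat_lit 0) (cs (lf (nat_lit 30) (nat_lit 250)) (nd (nat_lit 318) (nat_lit 0) (cs (lf (nat_lit 41) (nat_lit 252)) (nd (nat_lit 250) (nat_lit 0) (cs (lf (nat_lit 23) (nat_lit 249)) (nd (nat_lit 317) (nat_lit 0) (cs (lf (nat_lit 22) (nat_lit 294)) (lf (nat_lit 29) (nat_lit 250)))))))))))))))))))))))))) q95922 (by decide +kernel)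
def q95927 : Q := Q.p (nat_lit 0x700003800008000010000000000000000000000000000000000000000000000000000) (nat_lit 0x2e0000800000600006000008000020000000000000000000000000000000000000000000000) (nat_lit 6)
theorem c95927 : QOK q95927 := cut [] trivial (nd (nat_lit 230) (nat_lit 0) (cs (lf (nat_lit 41) (nat_lit 207)) (nd (nat_lit 249) (nat_lit 0) (cs (lf (nat_lit 13) (nat_lit 227)) (nd (nat_lit 275) (nat_lit 0) (cs (lf (nat_lit 42) (nat_lit 208)) (nd (nat_lit 294) (nat_lit 0) (cs (lf (nat_lit 11) (nat_lit 271)) (nd (nat_lit 207) (nat_lit 0) (cs (lf (nat_lit 47) (nat_lit 185)) (lf (nat_lit 37) (nat_lit 206)))))))))))) q95927 (by decide +kernel)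
def q96062 : Q := Q.p (nat_lit 0x380000a00000800002000000000000000000000000000000000000000000000000000000000) (nat_lit 0x10000040001000000000000000000000000000000000000000000000000000000000000000000000) (nat_lit 2)
theorem c96062 : QOK q96062 := cut [] trivial (nd (nat_lit 294) (nat_lit 0) (cs (lf (nat_lit 41) (nat_lit 228)) (lf (nat_lit 17) (nat_lit 272)))) q96062 (by decide +kernel)
def q96144 : Q := Q.p (nat_lit 0x1000018000060000080000000000000000000000000000000000000000000000) (nat_lit 0x4000000000000000200000800000000000000000000000000000000000) (nat_lit 2)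
theorem c96144 : QOK q96144 := cut [] trivial (nd (nat_lit 165) (nat_lit 0) (cs (lf (nat_lit 40) (nat_lit 164)) (lf (nat_lit 24) (nat_lit 143)))) q96144 (by decide +kernel)
def q96150 : Q := Q.p (nat_lit 0x1000000000010000078000000000000000000000000000000000000000000000000000) (nat_lit 0x4000007000080000600000000000000000000000000000000000000000000000) (nat_lit 4)
theorem c96150 : QOK q96150 := cut [] trivial (nd (nat_lit 229) (nat_lit 0) (cs (lf (nat_lit 11) (nat_lit 206)) (nd (nat_lit 211) (nat_lit 0) (cs (lf (nat_lit 10) (nat_lit 207)) (nd (nat_lit 189) (nat_lit 0) (cs (lf (nat_lit 17) (nat_lit 186)) (lf (nat_lit 31) (nat_lit 188)))))))) q96150 (by decide +kernel)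
def q96156 : Q := Q.p (nat_lit 0x4000018000060000000000000000000000000000000000000000000000000000) (nat_lit 0x1000000000000000000000080000200000000000000000000000000000000000000000) (nat_lit 2)
theorem c96156 : QOK q96156 := cut [] trivial (nd (nat_lit 187) (nat_lit 0) (cs (lf (nat_lit 42) (nat_lit 187)) (lf (nat_lit 24) (nat_lit 165)))) q96156 (by decide +kernel)
def q96270 : Q := Q.p (nat_lit 0x200001c000030000000000000000000000000000000000000000000000000000) (nat_lit 0x700001e0001c000062000040000100000000000000000000000000000000000000000000000) (nat_lit 8)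
theorem c96270 : QOK q96270 := cut [] trivial (nd (nat_lit 233) (nat_lit 0) (cs (lf (nat_lit 18) (nat_lit 208)) (nd (nat_lit 275) (nat_lit 0) (cs (lf (nat_lit 42) (nat_lit 208)) (nd (nat_lit 188) (nat_lit 0) (cs (lf (nat_lit 34) (nat_lit 187)) (nd (nat_lit 276) (nat_lit 0) (cs (lf (nat_lit 29) (nat_lit 209)) (nd (nat_lit 274) (nat_lit 0) (cs (lf (nat_lit 41) (nat_lit 208)) (nd (nat_lit 255) (nat_lit 0) (cs (lf (nat_lit 5) (nat_lit 230)) (nd (nat_lit 254) (nat_lit 0) (cs (lf (nat_lit 12) (nat_lit 251)) (lf (nat_lit 0) (nat_lit 229)))))))))))))))) q96270 (by decide +kernel)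
def q96280 : Q := Q.p (nat_lit 0x200001c000030000000000000000000000000000000000000000000000000000) (nat_lit 0x700001c0001c000062000180000200000000000000000000000000000000000000000000000) (nat_lit 8)
theorem c96280 : QOK q96280 := cut [] trivial (nd (nat_lit 275) (nat_lit 0) (cs (lf (nat_lit 42) (nat_lit 208)) (nd (nat_lit 276) (nat_lit 0) (cs (lf (nat_lit 29) (nat_lit 209)) (nd (nat_lit 274) (nat_lit 0) (cs (lf (nat_lit 41) (nat_lit 208)) (nd (nat_lit 233) (nat_lit 0) (cs (lf (nat_lit 18) (nat_lit 208)) (nd (nat_lit 211) (nat_lit 0) (cs (lf (nat_lit 17) (nat_lit 208)) (nd (nat_lit 255) (nat_lit 0) (cs (lf (nat_lit 5) (nat_lit 230)) (nd (nat_lit 254) (nat_lit 0) (cs (lf (nat_lit 0) (nat_lit 229)) (lf (nat_lit 36) (nat_lit 188)))))))))))))))) q96280 (by decide +kernel)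
def q96281 : Q := Q.p (nat_lit 0x1c00008800000000000000000000000000000000000000000000000000000000000000) (nat_lit 0x200004400000000000000000000000000000000000000000000000000000000000000) (nat_lit 2)
theorem c96281 : QOK q96281 := cut [] trivial (nd (nat_lit 273) (nat_lit 0) (cs (lf (nat_lit 23) (nat_lit 250)) (lf (nat_lit 16) (nat_lit 251)))) q96281 (by decide +kernel)
def q96291 : Q := Q.p (nat_lit 0x1c000060000000000000000000000000000000000000000000000000000) (nat_lit 0x3000080000000000000000000000000000000000000000000000000000) (nat_lit 2)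
theorem c96291 : QOK q96291 := cut [] trivial (nd (nat_lit 229) (nat_lit 0) (cs (lf (nat_lit 17) (nat_lit 207)) (lf (nat_lit 12) (nat_lit 206)))) q96291 (by decide +kernel)
def q96298 : Q := Q.p (nat_lit 0x780000c000000000000000000000000000000000000000000000000000000000) (nat_lit 0x7000018000000000000000000000000000000000000000000000000000000000000000) (nat_lit 3)
theorem c96298 : QOK q96298 := cut [] trivial (nd (nat_lit 277) (nat_lit 0) (cs (lf (nat_lit 4) (nat_lit 251)) (nd (nat_lit 255) (nat_lit 0) (cs (lf (nat_lit 5) (nat_lit 252)) (lf (nat_lit 18) (nat_lit 230)))))) q96298 (by decide +kernel)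
def q96357 : Q := Q.p (nat_lit 0x100002c00001000004000000000000000000000000000000000000000000000000000000000) (nat_lit 0x20000080001000000000000000000000000000000000000000000000000000000000000000000000) (nat_lit 2)
theorem c96357 : QOK q96357 := cut [] trivial (nd (nat_lit 295) (nat_lit 0) (cs (lf (nat_lit 41) (nat_lit 229)) (lf (nat_lit 7) (nat_lit 273)))) q96357 (by decide +kernel)
def q96391 : Q := Q.p (nat_lit 0x100001e000000000000000000000000000000000000000000000000000000000000000) (nat_lit 0x1c800020000000000000000000000000000000000000000000000000000000000000000) (nat_lit 3)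
theorem c96391 : QOK q96391 := cut [] trivial (nd (nat_lit 279) (nat_lit 0) (cs (lf (nat_lit 4) (nat_lit 253)) (nd (nat_lit 257) (nat_lit 0) (cs (lf (nat_lit 5) (nat_lit 254)) (lf (nat_lit 11) (nat_lit 253)))))) q96391 (by decide +kernel)
def q96431 : Q := Q.p (nat_lit 0x80000300001c000000000000000000000000000000000000000000000000000000000) (nat_lit 0x80000200000000000000000000040000000000000000000000000000000000000000000000000000) (nat_lit 2)
theorem c96431 : QOK q96431 := cut [] trivial (nd (nat_lit 297) (nat_lit 0) (cs (lf (nat_lit 42) (nat_lit 230)) (lf (nat_lit 35) (nat_lit 209)))) q96431 (by decide +kernel)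
def q96469 : Q := Q.p (nat_lit 0x300000c000020000000000000000000000000000000000000000000000000000000000) (nat_lit 0x400000000000000000000080000200000000000000000000000000000000000000000000000) (nat_lit 2)
theorem c96469 : QOK q96469 := cut [] trivial (nd (nat_lit 211) (nat_lit 0) (cs (lf (nat_lit 41) (nat_lit 210)) (lf (nat_lit 36) (nat_lit 188)))) q96469 (by decide +kernel)
def q96476 : Q := Q.p (nat_lit 0x780000200000800002000000000000000000000000000000000000000000000000000000000) (nat_lit 0x30000040000000000000000000000000000000000000000000000000000000000000000000000000) (nat_lit 2)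
theorem c96476 : QOK q96476 := cut [] trivial (nd (nat_lit 316) (nat_lit 0) (cs (lf (nat_lit 10) (nat_lit 294)) (lf (nat_lit 40) (nat_lit 228)))) q96476 (by decide +kernel)
def q96504 : Q := Q.p (nat_lit 0x3000038000000000000000000000000000000000000000000000000000000000) (nat_lit 0x4800004000000000000000000000000000000000000000000000000000000000) (nat_lit 2)
theorem c96504 : QOK q96504 := cut [] trivial (nd (nat_lit 251) (nat_lit 0) (cs (lf (nat_lit 9) (nat_lit 229)) (lf (nat_lit 15) (nat_lit 229)))) q96504 (by decide +kernel)
def q96506 : Q := Q.p (nat_lit 0x80000300003c000000000000000000000000000000000000000000000000000000000) (nat_lit 0x18000040000000000000000000000000000000000000000000000) (nat_lit 2)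
theorem c96506 : QOK q96506 := cut [] trivial (nd (nat_lit 208) (nat_lit 0) (cs (lf (nat_lit 24) (nat_lit 186)) (lf (nat_lit 23) (nat_lit 207)))) q96506 (by decide +kernel)
def q96515 : Q := Q.p (nat_lit 0x100000c000030000000000000000000000000000000000000000000000000000000000) (nat_lit 0x400000000000000000000080000200000000000000000000000000000000000000000000000) (nat_lit 2)
theorem c96515 : QOK q96515 := cut [] trivial (nd (nat_lit 211) (nat_lit 0) (cs (lf (nat_lit 30) (nat_lit 210)) (lf (nat_lit 36) (nat_lit 188)))) q96515 (by decide +kernel)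
def q96539 : Q := Q.p (nat_lit 0x200001000006000018000000000000000000000000000000000000000000000000000000000) (nat_lit 0x180000400000000000000000000000000000000000000000000000000000000000000000000000000) (nat_lit 2)
theorem c96539 : QOK q96539 := cut [] trivial (nd (nat_lit 298) (nat_lit 0) (cs (lf (nat_lit 41) (nat_lit 231)) (lf (nat_lit 42) (nat_lit 231)))) q96539 (by decide +kernel)
def q96544 : Q := Q.p (nat_lit 0x1800007000000000000000000000000000000000000000000000000000000000000000) (nat_lit 0x6000000800000000000000000000000000000000000000000000000000000000000000) (nat_lit 2)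
theorem c96544 : QOK q96544 := cut [] trivial (nd (nat_lit 277) (nat_lit 0) (cs (lf (nat_lit 18) (nat_lit 252)) (lf (nat_lit 0) (nat_lit 251)))) q96544 (by decide +kernel)
def q96624 : Q := Q.p (nat_lit 0x180000e000008000000000000000000000000000000000000000000000000000) (nat_lit 0x30000004000000000000000000000000000000000000000000000000000) (nat_lit 2)
theorem c96624 : QOK q96624 := cut [] trivial (nd (nat_lit 232) (nat_lit 0) (cs (lf (nat_lit 6) (nat_lit 229)) (lf (nat_lit 23) (nat_lit 206)))) q96624 (by decide +kernel)
def q96641 : Q := Q.p (nat_lit 0x380000e000008000000000000000000000000000000000000000000000000000) (nat_lit 0x2000008000000000318000d00001700005c0000000000000000000000000000000000000000) (nat_lit 9)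
theorem c96641 : QOK q96641 := cut [] trivial (nd (nat_lit 185) (nat_lit 0) (cs (lf (nat_lit 24) (nat_lit 163)) (nd (nat_lit 227) (nat_lit 0) (cs (lf (nat_lit 1) (nat_lit 227)) (nd (nat_lit 162) (nat_lit 0) (cs (lf (nat_lit 46) (nat_lit 162)) (nd (nat_lit 232) (nat_lit 0) (cs (lf (nat_lit 6) (nat_lit 229)) (nd (nat_lit 210) (nat_lit 0) (cs (lf (nat_lit 17) (nat_lit 207)) (nd (nat_lit 166) (nat_lit 0) (cs (lf (nat_lit 37) (nat_lit 165)) (nd (nat_lit 275) (nat_lit 0) (cs (lf (nat_lit 30) (nat_lit 209)) (nd (nat_lit 186) (nat_lit 0) (cs (lf (nat_lit 35) (nat_lit 163)) (lf (nat_lit 25) (nat_lit 186)))))))))))))))))) q96641 (by decide +kernel)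
def q96658 : Q := Q.p (nat_lit 0x1800002800008000020000000000000000000000000000000000000000000000000000) (nat_lit 0x100000600001400000000000000000000000000000000000000000000000000000000000000) (nat_lit 3)
theorem c96658 : QOK q96658 := cut [] trivial (nd (nat_lit 250) (nat_lit 0) (cs (lf (nat_lit 2) (nat_lit 250)) (nd (nat_lit 274) (nat_lit 0) (cs (lf (nat_lit 41) (nat_lit 208)) (lf (nat_lit 21) (nat_lit 250)))))) q96658 (by decide +kernel)
def q96660 : Q := Q.p (nat_lit 0x1e00002000000000000000000000000000000000000000000000000000000000000000) (nat_lit 0x10000c000000000000000000000000000000000000000000000000000000000000000) (nat_lit 2)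
theorem c96660 : QOK q96660 := cut [] trivial (nd (nat_lit 254) (nat_lit 0) (cs (lf (nat_lit 12) (nat_lit 250)) (lf (nat_lit 17) (nat_lit 251)))) q96660 (by decide +kernel)
def q96667 : Q := Q.p (nat_lit 0x7800002000000000000000000000000000000000000000000000000000000000000000) (nat_lit 0x7000008000004000000000000000000000000000000000000000000000000000000000000000) (nat_lit 3)
theorem c96667 : QOK q96667 := cut [] trivial (nd (nat_lit 301) (nat_lit 0) (cs (lf (nat_lit 4) (nat_lit 275)) (nd (nat_lit 279) (nat_lit 0) (cs (lf (nat_lit 5) (nat_lit 276)) (lf (nat_lit 22) (nat_lit 253)))))) q96667 (by decide +kernel)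
def q96697 : Q := Q.p (nat_lit 0x2000008000020000080000000000000000000000000000000000000000000000) (nat_lit 0x100000c00001000000000010000040000100000000000000000000000000000000000000000) (nat_lit 4)
theorem c96697 : QOK q96697 := cut [] trivial (nd (nat_lit 274) (nat_lit 0) (cs (lf (nat_lit 40) (nat_lit 186)) (nd (nat_lit 186) (nat_lit 0) (cs (lf (nat_lit 47) (nat_lit 164)) (nd (nat_lit 275) (nat_lit 0) (cs (lf (nat_lit 41) (nat_lit 208)) (lf (nat_lit 46) (nat_lit 186)))))))) q96697 (by decide +kernel)
def q96726 : Q := Q.p (nat_lit 0x100000200000800002000010000000000000000000000000000000000000000000000000000000000) (nat_lit 0x40000080000000000000004000000000000000000000000000000000000000000000000000000000000000) (nat_lit 2)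
theorem c96726 : QOK q96726 := cut [] trivial (nd (nat_lit 319) (nat_lit 0) (cs (lf (nat_lit 29) (nat_lit 253)) (lf (nat_lit 34) (nat_lit 231)))) q96726 (by decide +kernel)
def q96741 : Q := Q.p (nat_lit 0x800002000008000020000000000000000000000000000000000000000000000000000) (nat_lit 0x40000300000400000000010000040000100000000000000000000000000000000000000000000000) (nat_lit 4)
theorem c96741 : QOK q96741 := cut [] trivial (nd (nat_lit 296) (nat_lit 0) (cs (lf (nat_lit 40) (nat_lit 208)) (nd (nat_lit 210) (nat_lit 0) (cs (lf (nat_lit 35) (nat_lit 187)) (nd (nat_lit 297) (nat_lit 0) (cs (lf (nat_lit 41) (nat_lit 230)) (lf (nat_lit 34) (nat_lit 209)))))))) q96741 (by decide +kernel)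
def q96757 : Q := Q.p (nat_lit 0x200000f000000000000000000000000000000000000000000000000000000000) (nat_lit 0x1700000800000000000000000000000000000000000000000000000000000000) (nat_lit 3)
theorem c96757 : QOK q96757 := cut [] trivial (nd (nat_lit 249) (nat_lit 0) (cs (lf (nat_lit 10) (nat_lit 227)) (nd (nat_lit 227) (nat_lit 0) (cs (lf (nat_lit 11) (nat_lit 226)) (lf (nat_lit 4) (nat_lit 227)))))) q96757 (by decide +kernel)
def q96759 : Q := Q.p (nat_lit 0x600000e000000000000000000000000000000000000000000000000000000000) (nat_lit 0x18000010000000000000000000000000000000000000000000000000000000000) (nat_lit 2)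
theorem c96759 : QOK q96759 := cut [] trivial (nd (nat_lit 255) (nat_lit 0) (cs (lf (nat_lit 18) (nat_lit 230)) (lf (nat_lit 3) (nat_lit 229)))) q96759 (by decide +kernel)
def q96761 : Q := Q.p (nat_lit 0xf800000000000000000000000000000000000000000000000000000000) (nat_lit 0x70000000000000000000000000000000000000000000000000000) (nat_lit 2)
theorem c96761 : QOK q96761 := cut [] trivial (nd (nat_lit 209) (nat_lit 0) (cs (lf (nat_lit 17) (nat_lit 206)) (lf (nat_lit 16) (nat_lit 205)))) q96761 (by decide +kernel)
def q96767 : Q := Q.p (nat_lit 0xf000000000000000000000000000000000000000000000000000000000) (nat_lit 0x100000ee000000000000000000000000000000000000000000000000000) (nat_lit 4)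
theorem c96767 : QOK q96767 := cut [] trivial (nd (nat_lit 210) (nat_lit 0) (cs (lf (nat_lit 16) (nat_lit 206)) (nd (nat_lit 206) (nat_lit 0) (cs (lf (nat_lit 23) (nat_lit 205)) (nd (nat_lit 232) (nat_lit 0) (cs (lf (nat_lit 17) (nat_lit 207)) (lf (nat_lit 22) (nat_lit 206)))))))) q96767 (by decide +kernel)
def q96800 : Q := Q.p (nat_lit 0xf000030000080000200000000000000000000000000000000000000000000000) (nat_lit 0x6000000000000000040000100000400000000000000000000000000000000000000000) (nat_lit 3)
theorem c96800 : QOK q96800 := cut [] trivial (nd (nat_lit 277) (nat_lit 0) (cs (lf (nat_lit 5) (nat_lit 252)) (nd (nat_lit 188) (nat_lit 0) (cs (lf (nat_lit 47) (nat_lit 166)) (lf (nat_lit 25) (nat_lit 188)))))) q96800 (by decide +kernel)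
def q96838 : Q := Q.p (nat_lit 0xc000030000080000100000000000000000000000000000000000000000) (nat_lit 0x200000c00000000000000000000000000000000000) (nat_lit 2)
theorem c96838 : QOK q96838 := cut [] trivial (nd (nat_lit 165) (nat_lit 0) (cs (lf (nat_lit 36) (nat_lit 142)) (lf (nat_lit 47) (nat_lit 142)))) q96838 (by decide +kernel)
def q96885 : Q := Q.p (nat_lit 0x6000008000020000000000000000000000000000000000000000000000) (nat_lit 0x1000000000010000000000180000600001000000000000000000000000000000) (nat_lit 4)
theorem c96885 : QOK q96885 := cut [] trivial (nd (nat_lit 163) (nat_lit 0) (cs (lf (nat_lit 29) (nat_lit 163)) (nd (nat_lit 142) (nat_lit 0) (cs (lf (nat_lit 34) (nat_lit 141)) (nd (nat_lit 141) (nat_lit 0) (cs (lf (nat_lit 35) (nat_lit 119)) (lf (nat_lit 28) (nat_lit 141)))))))) q96885 (by decide +kernel)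
def q96888 : Q := Q.p (nat_lit 0x800002000008000020000000000000000000000000000000000000000000000) (nat_lit 0x500001c0000500000000000000000000000000000000000) (nat_lit 4)
theorem c96888 : QOK q96888 := cut [] trivial (nd (nat_lit 162) (nat_lit 0) (cs (lf (nat_lit 46) (nat_lit 162)) (nd (nat_lit 164) (nat_lit 0) (cs (lf (nat_lit 34) (nat_lit 163)) (nd (nat_lit 163) (nat_lit 0) (cs (lf (nat_lit 35) (nat_lit 141)) (lf (nat_lit 47) (nat_lit 140)))))))) q96888 (by decide +kernel)
def q96905 : Q := Q.p (nat_lit 0x7c000000000000000000000000000000000000000000000000000000000) (nat_lit 0x38000000000000000000000000000000000000000000000000000000000000000) (nat_lit 2)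
theorem c96905 : QOK q96905 := cut [] trivial (nd (nat_lit 256) (nat_lit 0) (cs (lf (nat_lit 5) (nat_lit 231)) (lf (nat_lit 4) (nat_lit 230)))) q96905 (by decide +kernel)
def q96925 : Q := Q.p (nat_lit 0x200001c0000300000c0000000000000000000000000000000000000000000000) (nat_lit 0x20001c0000700001c00002000000000000000000000000000000000000) (nat_lit 6)
theorem c96925 : QOK q96925 := cut [] trivial (nd (nat_lit 188) (nat_lit 0) (cs (lf (nat_lit 35) (nat_lit 165)) (nd (nat_lit 189) (nat_lit 0) (cs (lf (nat_lit 6) (nat_lit 186)) (nd (nat_lit 167) (nat_lit 0) (cs (lf (nat_lit 17) (nat_lit 164)) (nd (nat_lit 211) (nat_lit 0) (cs (lf (nat_lit 5) (nat_lit 186)) (nd (nat_lit 210) (nat_lit 0) (cs (lf (nat_lit 36) (nat_lit 144)) (lf (nat_lit 12) (nat_lit 207)))))))))))) q96925 (by decide +kernel)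
def q96981 : Q := Q.p (nat_lit 0x2000078000000000000000000000000000000000000000000000000000000000) (nat_lit 0x74000080000000000000000000000000000000000000000000000000000000000) (nat_lit 3)
theorem c96981 : QOK q96981 := cut [] trivial (nd (nat_lit 257) (nat_lit 0) (cs (nd (nat_lit 235) (nat_lit 0) (cs (lf (nat_lit 5) (nat_lit 232)) (lf (nat_lit 10) (nat_lit 231)))) (lf (nat_lit 4) (nat_lit 231)))) q96981 (by decide +kernel)
def q96990 : Q := Q.p (nat_lit 0x600000c000000000000000000000000000000000000000000000000000000000) (nat_lit 0x19000012000000000000000000000000000000000000000000000000000000000) (nat_lit 3)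
theorem c96990 : QOK q96990 := cut [] trivial (nd (nat_lit 255) (nat_lit 0) (cs (lf (nat_lit 18) (nat_lit 230)) (nd (nat_lit 229) (nat_lit 0) (cs (lf (nat_lit 21) (nat_lit 229)) (lf (nat_lit 3) (nat_lit 229)))))) q96990 (by decide +kernel)
def q96994 : Q := Q.p (nat_lit 0x600001c000000000000000000000000000000000000000000000000000000000) (nat_lit 0x18000002000000000000000000000000000000000000000000000000000000000) (nat_lit 2)
theorem c96994 : QOK q96994 := cut [] trivial (nd (nat_lit 255) (nat_lit 0) (cs (lf (nat_lit 18) (nat_lit 230)) (lf (nat_lit 0) (nat_lit 229)))) q96994 (by decide +kernel)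
def q96996 : Q := Q.p (nat_lit 0x7c000000000000000000000000000000000000000000000000000000000) (nat_lit 0x38000000000000000000000000000000000000000000000000000) (nat_lit 2)
theorem c96996 : QOK q96996 := cut [] trivial (nd (nat_lit 208) (nat_lit 0) (cs (lf (nat_lit 23) (nat_lit 207)) (lf (nat_lit 22) (nat_lit 208)))) q96996 (by decide +kernel)
def q97016 : Q := Q.p (nat_lit 0x2000070000040000000000000000000000000000000000000000000000000000) (nat_lit 0x4000080000020000000000000000000000000000000000000000000000000000) (nat_lit 2)
theorem c97016 : QOK q97016 := cut [] trivial (nd (nat_lit 235) (nat_lit 0) (cs (lf (nat_lit 10) (nat_lit 231)) (lf (nat_lit 23) (nat_lit 209)))) q97016 (by decide +kernel)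
def q97030 : Q := Q.p (nat_lit 0x1000004000018000040000000000000000000000000000000000000000000000000000) (nat_lit 0x400000000000000000000020000080000000000000000000000000000000000000000000000) (nat_lit 2)
theorem c97030 : QOK q97030 := cut [] trivial (nd (nat_lit 209) (nat_lit 0) (cs (lf (nat_lit 47) (nat_lit 187)) (lf (nat_lit 42) (nat_lit 209)))) q97030 (by decide +kernel)
def q97055 : Q := Q.p (nat_lit 0x400007800006000008000000000000000000000000000000000000000000000000000) (nat_lit 0x80000300000000000000010000040000000000000000000000000000000000000000000000) (nat_lit 3)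
theorem c97055 : QOK q97055 := cut [] trivial (nd (nat_lit 273) (nat_lit 0) (cs (lf (nat_lit 11) (nat_lit 250)) (nd (nat_lit 208) (nat_lit 0) (cs (lf (nat_lit 41) (nat_lit 207)) (lf (nat_lit 35) (nat_lit 185)))))) q97055 (by decide +kernel)
def q97066 : Q := Q.p (nat_lit 0x180000e000008000020000000000000000000000000000000000000000000000) (nat_lit 0x100000600000000000000000000000000000000000000000000000000000000000000) (nat_lit 2)
theorem c97066 : QOK q97066 := cut [] trivial (nd (nat_lit 250) (nat_lit 0) (cs (lf (nat_lit 41) (nat_lit 184)) (lf (nat_lit 12) (nat_lit 227)))) q97066 (by decide +kernel)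
def q97074 : Q := Q.p (nat_lit 0x80000e000008000020000000000000000000000000000000000000000000000) (nat_lit 0x100001700000000000000000000000000000000000000000000000000000000000000) (nat_lit 3)
theorem c97074 : QOK q97074 := cut [] trivial (nd (nat_lit 250) (nat_lit 0) (cs (lf (nat_lit 41) (nat_lit 184)) (nd (nat_lit 249) (nat_lit 0) (cs (lf (nat_lit 12) (nat_lit 226)) (lf (nat_lit 15) (nat_lit 227)))))) q97074 (by decide +kernel)
def q97095 : Q := Q.p (nat_lit 0x2000078000000000000000000000000000000000000000000000000000000000) (nat_lit 0x74000080000000000000000000000000000000000000000000000000000000000) (nat_lit 3)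
theorem c97095 : QOK q97095 := cut [] trivial (nd (nat_lit 235) (nat_lit 0) (cs (lf (nat_lit 10) (nat_lit 231)) (nd (nat_lit 257) (nat_lit 0) (cs (lf (nat_lit 5) (nat_lit 232)) (lf (nat_lit 4) (nat_lit 231)))))) q97095 (by decide +kernel)
def q97105 : Q := Q.p (nat_lit 0xf000000000000000000000000000000000000000000000000000000000) (nat_lit 0xe000100000e0000000000000000000000000000000000000000000000000000) (nat_lit 4)
theorem c97105 : QOK q97105 := cut [] trivial (nd (nat_lit 210) (nat_lit 0) (cs (lf (nat_lit 16) (nat_lit 206)) (nd (nat_lit 250) (nat_lit 0) (cs (lf (nat_lit 11) (nat_lit 227)) (nd (nat_lit 232) (nat_lit 0) (cs (lf (nat_lit 17) (nat_lit 207)) (lf (nat_lit 10) (nat_lit 228)))))))) q97105 (by decide +kernel)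
def q97110 : Q := Q.p (nat_lit 0x200000f000000000000000000000000000000000000000000000000000000000) (nat_lit 0x1000000800070000000000000000000000000000000000000000000000000000) (nat_lit 3)
theorem c97110 : QOK q97110 := cut [] trivial (nd (nat_lit 209) (nat_lit 0) (cs (lf (nat_lit 17) (nat_lit 206)) (nd (nat_lit 227) (nat_lit 0) (cs (lf (nat_lit 4) (nat_lit 227)) (lf (nat_lit 16) (nat_lit 205)))))) q97110 (by decide +kernel)
def q97132 : Q := Q.p (nat_lit 0x380000e000008000020000000000000000000000000000000000000000000000) (nat_lit 0x2000000000000000360003c0000f00000000000000000000000000000000000000000) (nat_lit 7)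
theorem c97132 : QOK q97132 := cut [] trivial (nd (nat_lit 186) (nat_lit 0) (cs (lf (nat_lit 35) (nat_lit 163)) (nd (nat_lit 208) (nat_lit 0) (cs (lf (nat_lit 41) (nat_lit 185)) (nd (nat_lit 205) (nat_lit 0) (cs (lf (nat_lit 1) (nat_lit 205)) (nd (nat_lit 187) (nat_lit 0) (cs (lf (nat_lit 35) (nat_lit 164)) (nd (nat_lit 188) (nat_lit 0) (cs (lf (nat_lit 6) (nat_lit 185)) (nd (nat_lit 166) (nat_lit 0) (cs (lf (nat_lit 17) (nat_lit 163)) (lf (nat_lit 32) (nat_lit 165)))))))))))))) q97132 (by decide +kernel)
def q97190 : Q := Q.p (nat_lit 0x10000038000100000000000000000000000000000000000000000000000000000) (nat_lit 0x20000040000200000000000000000000000000000000000000000000000000000) (nat_lit 2)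
theorem c97190 : QOK q97190 := cut [] trivial (nd (nat_lit 234) (nat_lit 0) (cs (lf (nat_lit 5) (nat_lit 231)) (lf (nat_lit 17) (nat_lit 209)))) q97190 (by decide +kernel)
def q97223 : Q := Q.p (nat_lit 0x3e000000000000000000000000000000000000000000000000000000000) (nat_lit 0x1c000000000000000000000000000000000000000000000000000000000000000) (nat_lit 2)
theorem c97223 : QOK q97223 := cut [] trivial (nd (nat_lit 255) (nat_lit 0) (cs (lf (nat_lit 5) (nat_lit 230)) (lf (nat_lit 4) (nat_lit 229)))) q97223 (by decide +kernel)
def q97226 : Q := Q.p (nat_lit 0xf8000000000000000000000000000000000000000000000000000000000) (nat_lit 0x700000000000000000000000000000000000000000000000000000) (nat_lit 2)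
theorem c97226 : QOK q97226 := cut [] trivial (nd (nat_lit 213) (nat_lit 0) (cs (lf (nat_lit 17) (nat_lit 210)) (lf (nat_lit 16) (nat_lit 209)))) q97226 (by decide +kernel)
def q97246 : Q := Q.p (nat_lit 0x280001c0000000000000000000000000000000000000000000000) (nat_lit 0xc4000030000000000000000000000000000000000000000000000) (nat_lit 3)
theorem c97246 : QOK q97246 := cut [] trivial (nd (nat_lit 185) (nat_lit 0) (cs (lf (nat_lit 11) (nat_lit 184)) (nd (nat_lit 210) (nat_lit 0) (cs (lf (nat_lit 0) (nat_lit 184)) (lf (nat_lit 5) (nat_lit 185)))))) q97246 (by decide +kernel)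
def q97260 : Q := Q.p (nat_lit 0x2000008000028000180000000000000000000000000000000000000000000000) (nat_lit 0x14000060000100000000000000000000000000000000000000000) (nat_lit 3)
theorem c97260 : QOK q97260 := cut [] trivial (nd (nat_lit 206) (nat_lit 0) (cs (lf (nat_lit 14) (nat_lit 184)) (nd (nat_lit 186) (nat_lit 0) (cs (lf (nat_lit 9) (nat_lit 184)) (lf (nat_lit 47) (nat_lit 164)))))) q97260 (by decide +kernel)
def q97268 : Q := Q.p (nat_lit 0x4000020000080000200000400000000000000000000000000000000000) (nat_lit 0x10000000000000000800001000000000000000000000000000000) (nat_lit 2)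
theorem c97268 : QOK q97268 := cut [] trivial (nd (nat_lit 143) (nat_lit 0) (cs (lf (nat_lit 47) (nat_lit 120)) (lf (nat_lit 40) (nat_lit 142)))) q97268 (by decide +kernel)
def q97298 : Q := Q.p (nat_lit 0x80000200003c000010000000000000000000000000000000000000000000000000000) (nat_lit 0x1800000000000000040000000000000000000000000000000000000000000000) (nat_lit 2)
theorem c97298 : QOK q97298 := cut [] trivial (nd (nat_lit 252) (nat_lit 0) (cs (lf (nat_lit 24) (nat_lit 186)) (lf (nat_lit 11) (nat_lit 229)))) q97298 (by decide +kernel)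
def q97303 : Q := Q.p (nat_lit 0x10000060000180000000000000000000000000000000000000000000000000000) (nat_lit 0x4000000000000000000000200000800000000000000000000000000000000000000000) (nat_lit 2)
theorem c97303 : QOK q97303 := cut [] trivial (nd (nat_lit 189) (nat_lit 0) (cs (lf (nat_lit 42) (nat_lit 189)) (lf (nat_lit 24) (nat_lit 167)))) q97303 (by decide +kernel)
def q97314 : Q := Q.p (nat_lit 0x2000038000000000000000000000000000000000000000000000000000000000) (nat_lit 0x50000c40003f0000000000000000000000000000000000000000000000000000) (nat_lit 6)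
theorem c97314 : QOK q97314 := cut [] trivial (nd (nat_lit 234) (nat_lit 0) (cs (lf (nat_lit 11) (nat_lit 230)) (nd (nat_lit 212) (nat_lit 0) (cs (lf (nat_lit 17) (nat_lit 209)) (nd (nat_lit 211) (nat_lit 0) (cs (lf (nat_lit 12) (nat_lit 208)) (nd (nat_lit 235) (nat_lit 0) (cs (lf (nat_lit 10) (nat_lit 231)) (nd (nat_lit 209) (nat_lit 0) (cs (lf (nat_lit 23) (nat_lit 208)) (lf (nat_lit 1) (nat_lit 209)))))))))))) q97314 (by decide +kernel)
def q97318 : Q := Q.p (nat_lit 0xe00006000000000000000000000000000000000000000000000000000000000000000) (nat_lit 0x19000000000000000000000000000000000000000000000000000000000000000) (nat_lit 2)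
theorem c97318 : QOK q97318 := cut [] trivial (nd (nat_lit 255) (nat_lit 0) (cs (lf (nat_lit 6) (nat_lit 252)) (lf (nat_lit 9) (nat_lit 251)))) q97318 (by decide +kernel)
def q97321 : Q := Q.p (nat_lit 0x6800018000000000000000000000000000000000000000000000000000000000) (nat_lit 0x1400020000000000000000000000000000000000000000000000000000000000) (nat_lit 2)
theorem c97321 : QOK q97321 := cut [] trivial (nd (nat_lit 252) (nat_lit 0) (cs (lf (nat_lit 12) (nat_lit 228)) (lf (nat_lit 17) (nat_lit 229)))) q97321 (by decide +kernel)
def q97333 : Q := Q.p (nat_lit 0xc00006800018000000000000000000000000000000000000000000000000000000000) (nat_lit 0x1300001400000000000000000000000000000000000000000000000000000000000000) (nat_lit 3)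
theorem c97333 : QOK q97333 := cut [] trivial (nd (nat_lit 250) (nat_lit 0) (cs (lf (nat_lit 14) (nat_lit 228)) (nd (nat_lit 273) (nat_lit 0) (cs (lf (nat_lit 18) (nat_lit 250)) (lf (nat_lit 12) (nat_lit 250)))))) q97333 (by decide +kernel)
def q97336 : Q := Q.p (nat_lit 0xe00006000000000000000000000000000000000000000000000000000000000000000) (nat_lit 0x1000018000000000000000000000000000000000000000000000000000000000000000) (nat_lit 2)
theorem c97336 : QOK q97336 := cut [] trivial (nd (nat_lit 255) (nat_lit 0) (cs (lf (nat_lit 6) (nat_lit 252)) (lf (nat_lit 15) (nat_lit 251)))) q97336 (by decide +kernel)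
def q97344 : Q := Q.p (nat_lit 0xc00006000038000000000000000000000000000000000000000000000000000000000) (nat_lit 0x380000c0000000000000000000000000000000000000000000000000000000000) (nat_lit 3)
theorem c97344 : QOK q97344 := cut [] trivial (nd (nat_lit 234) (nat_lit 0) (cs (lf (nat_lit 6) (nat_lit 231)) (nd (nat_lit 256) (nat_lit 0) (cs (lf (nat_lit 5) (nat_lit 231)) (lf (nat_lit 7) (nat_lit 252)))))) q97344 (by decide +kernel)
def q97350 : Q := Q.p (nat_lit 0x400001800002000008000000000000000000000000000000000000000000000000000000000) (nat_lit 0x40000100000000000000004000000000000000000000000000000000000000000000000000000000000000) (nat_lit 2)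
theorem c97350 : QOK q97350 := cut [] trivial (nd (nat_lit 320) (nat_lit 0) (cs (lf (nat_lit 42) (nat_lit 253)) (lf (nat_lit 45) (nat_lit 231)))) q97350 (by decide +kernel)
def q97352 : Q := Q.p (nat_lit 0x20000080000380000c0000000000000000000000000000000000000000000000000000) (nat_lit 0x300000400000000000000000000000000000000000000000000000) (nat_lit 2)
theorem c97352 : QOK q97352 := cut [] trivial (nd (nat_lit 212) (nat_lit 0) (cs (lf (nat_lit 6) (nat_lit 209)) (lf (nat_lit 35) (nat_lit 189)))) q97352 (by decide +kernel)
def q97368 : Q := Q.p (nat_lit 0x3c000008000000000000000000000000000000000000000000000000000) (nat_lit 0x1c00002000004000000000000000000000000000000000000000000000000000) (nat_lit 3)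
theorem c97368 : QOK q97368 := cut [] trivial (nd (nat_lit 251) (nat_lit 0) (cs (lf (nat_lit 10) (nat_lit 229)) (nd (nat_lit 229) (nat_lit 0) (cs (lf (nat_lit 11) (nat_lit 228)) (lf (nat_lit 23) (nat_lit 206)))))) q97368 (by decide +kernel)
def q97428 : Q := Q.p (nat_lit 0x200001e000000000000000000000000000000000000000000000000000000000) (nat_lit 0xc000001000000000000000000000000000000000000000000000000000000000) (nat_lit 2)
theorem c97428 : QOK q97428 := cut [] trivial (nd (nat_lit 254) (nat_lit 0) (cs (lf (nat_lit 5) (nat_lit 229)) (lf (nat_lit 0) (nat_lit 228)))) q97428 (by decide +kernel)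
def q97451 : Q := Q.p (nat_lit 0x3c000000000000000000000000000000000000000000000000000000000) (nat_lit 0x1c00000200001c000000000000000000000000000000000000000000000000000) (nat_lit 4)
theorem c97451 : QOK q97451 := cut [] trivial (nd (nat_lit 207) (nat_lit 0) (cs (lf (nat_lit 22) (nat_lit 207)) (nd (nat_lit 255) (nat_lit 0) (cs (lf (nat_lit 5) (nat_lit 230)) (nd (nat_lit 229) (nat_lit 0) (cs (lf (nat_lit 23) (nat_lit 206)) (lf (nat_lit 4) (nat_lit 229)))))))) q97451 (by decide +kernel)
def q97461 : Q := Q.p (nat_lit 0x2000038000000000000000000000000000000000000000000000000000000000) (nat_lit 0xe50003c4000380000000000000000000000000000000000000000000000000000) (nat_lit 7)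
theorem c97461 : QOK q97461 := cut [] trivial (nd (nat_lit 234) (nat_lit 0) (cs (lf (nat_lit 11) (nat_lit 230)) (nd (nat_lit 212) (nat_lit 0) (cs (lf (nat_lit 17) (nat_lit 209)) (nd (nat_lit 211) (nat_lit 0) (cs (lf (nat_lit 12) (nat_lit 208)) (nd (nat_lit 235) (nat_lit 0) (cs (lf (nat_lit 10) (nat_lit 231)) (nd (nat_lit 258) (nat_lit 0) (cs (nd (nat_lit 236) (nat_lit 0) (cs (lf (nat_lit 5) (nat_lit 233)) (lf (nat_lit 18) (nat_lit 211)))) (lf (nat_lit 4) (nat_lit 232)))))))))))) q97461 (by decide +kernel)
def q97496 : Q := Q.p (nat_lit 0x2000078000000000000000000000000000000000000000000000000000000000) (nat_lit 0x4000080000070000000000000000000000000000000000000000000000000000) (nat_lit 3)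
theorem c97496 : QOK q97496 := cut [] trivial (nd (nat_lit 235) (nat_lit 0) (cs (lf (nat_lit 10) (nat_lit 231)) (nd (nat_lit 209) (nat_lit 0) (cs (lf (nat_lit 23) (nat_lit 208)) (lf (nat_lit 22) (nat_lit 209)))))) q97496 (by decide +kernel)
def q97507 : Q := Q.p (nat_lit 0x2000038000000000000000000000000000000000000000000000000000000000) (nat_lit 0xe50001c4000e38000000000000000000000000000000000000000000000000000) (nat_lit 8)
theorem c97507 : QOK q97507 := cut [] trivial (nd (nat_lit 234) (nat_lit 0) (cs (lf (nat_lit 11) (nat_lit 230)) (nd (nat_lit 208) (nat_lit 0) (cs (lf (nat_lit 22) (nat_lit 208)) (nd (nat_lit 207) (nat_lit 0) (cs (lf (nat_lit 21) (nat_lit 207)) (nd (nat_lit 235) (nat_lit 0) (cs (lf (nat_lit 10) (nat_lit 231)) (nd (nat_lit 258) (nat_lit 0) (cs (lf (nat_lit 4) (nat_lit 232)) (nd (nat_lit 214) (nat_lit 0) (cs (nd (nat_lit 236) (nat_lit 0) (cs (lf (nat_lit 5) (nat_lit 233)) (lf (nat_lit 17) (nat_lit 211)))) (lf (nat_lit 16) (nat_lit 210)))))))))))))) q97507 (by decide +kernel)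
def q97535 : Q := Q.p (nat_lit 0x180000600001000000000000000000000000000000000000000000000000000000000000000) (nat_lit 0x8000020000000000000000000004000000000000000000000000000000000000000000000000000000000) (nat_lit 2)
theorem c97535 : QOK q97535 := cut [] trivial (nd (nat_lit 317) (nat_lit 0) (cs (lf (nat_lit 30) (nat_lit 251)) (lf (nat_lit 36) (nat_lit 229)))) q97535 (by decide +kernel)
def q97543 : Q := Q.p (nat_lit 0x40000300000f000000000000000000000000000000000000000000000000000000000000000) (nat_lit 0x60000080000000000000000000000000000000000000000000000000000) (nat_lit 2)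
theorem c97543 : QOK q97543 := cut [] trivial (nd (nat_lit 233) (nat_lit 0) (cs (lf (nat_lit 36) (nat_lit 210)) (lf (nat_lit 17) (nat_lit 230)))) q97543 (by decide +kernel)
def q97549 : Q := Q.p (nat_lit 0x3800003000000000000000000000000000000000000000000000000000000000000000) (nat_lit 0x4c00000000000000000000000000000000000000000000000000000000000000) (nat_lit 2)
theorem c97549 : QOK q97549 := cut [] trivial (nd (nat_lit 251) (nat_lit 0) (cs (lf (nat_lit 0) (nat_lit 250)) (lf (nat_lit 3) (nat_lit 251)))) q97549 (by decide +kernel)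
def q97555 : Q := Q.p (nat_lit 0x1800007800008000000000000000000000000000000000000000000000000000000000) (nat_lit 0x370000c0000300000000000000000000000000000000000000000000000) (nat_lit 5)
theorem c97555 : QOK q97555 := cut [] trivial (nd (nat_lit 229) (nat_lit 0) (cs (lf (nat_lit 23) (nat_lit 228)) (nd (nat_lit 232) (nat_lit 0) (cs (lf (nat_lit 17) (nat_lit 229)) (nd (nat_lit 210) (nat_lit 0) (cs (lf (nat_lit 36) (nat_lit 187)) (nd (nat_lit 211) (nat_lit 0) (cs (lf (nat_lit 35) (nat_lit 188)) (lf (nat_lit 13) (nat_lit 207)))))))))) q97555 (by decide +kernel)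
def q97558 : Q := Q.p (nat_lit 0x180000e000008000000000000000000000000000000000000000000000000000000000) (nat_lit 0x30000004000000000000000000000000000000000000000000000000000000000) (nat_lit 2)
theorem c97558 : QOK q97558 := cut [] trivial (nd (nat_lit 256) (nat_lit 0) (cs (lf (nat_lit 23) (nat_lit 230)) (lf (nat_lit 6) (nat_lit 253)))) q97558 (by decide +kernel)
def q97586 : Q := Q.p (nat_lit 0x100000800002000008000000000000000000000000000000000000000000000000000000000) (nat_lit 0x10000040000200000400001000000000000000000000000000000000000000000000000000000000000000) (nat_lit 3)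
theorem c97586 : QOK q97586 := cut [] trivial (nd (nat_lit 318) (nat_lit 0) (cs (lf (nat_lit 39) (nat_lit 230)) (nd (nat_lit 274) (nat_lit 0) (cs (lf (nat_lit 30) (nat_lit 252)) (lf (nat_lit 33) (nat_lit 230)))))) q97586 (by decide +kernel)
def q97591 : Q := Q.p (nat_lit 0x40000200000800002000008000000000000000000000000000000000000000000000000000000000) (nat_lit 0x10000080000000000000004000010000040000000000000000000000000000000000000000000000000000) (nat_lit 3)
theorem c97591 : QOK q97591 := cut [] trivial (nd (nat_lit 232) (nat_lit 0) (cs (lf (nat_lit 35) (nat_lit 209)) (nd (nat_lit 319) (nat_lit 0) (cs (lf (nat_lit 41) (nat_lit 252)) (lf (nat_lit 34) (nat_lit 231)))))) q97591 (by decide +kernel)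
def q97604 : Q := Q.p (nat_lit 0x800002000018000000000000000000000000000000000000000000000000000000000) (nat_lit 0x40000180000700001f0000700001400001c00064000040000000000000000000000000000000000000000000000000000) (nat_lit 12)
theorem c97604 : QOK q97604 := cut [] trivial (nd (nat_lit 297) (nat_lit 0) (cs (lf (nat_lit 35) (nat_lit 209)) (nd (nat_lit 318) (nat_lit 0) (cs (lf (nat_lit 40) (nat_lit 230)) (nd (nat_lit 298) (nat_lit 0) (cs (lf (nat_lit 29) (nat_lit 231)) (nd (nat_lit 319) (nat_lit 0) (cs (lf (nat_lit 41) (nat_lit 252)) (nd (nat_lit 316) (nat_lit 0) (cs (lf (nat_lit 13) (nat_lit 294)) (nd (nat_lit 252) (nat_lit 0) (cs (lf (nat_lit 47) (nat_lit 230)) (nd (nat_lit 233) (nat_lit 0) (cs (lf (nat_lit 6) (nat_lit 230)) (nd (nat_lit 250) (nat_lit 0) (cs (lf (nat_lit 13) (nat_lit 228)) (nd (nat_lit 341) (nat_lit 0) (cs (lf (nat_lit 46) (nat_lit 252)) (nd (nat_lit 364) (nat_lit 0) (cs (lf (nat_lit 28) (nat_lit 275)) (nd (nat_lit 363) (nat_lit 0) (cs (lf (nat_lit 29) (nat_lit 297)) (lf (nat_lit 35) (nat_lit 275)))))))))))))))))))))))) q97604 (by decide +kernel)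
def q97607 : Q := Q.p (nat_lit 0x8000038000000000000000000000000000000000000000000000000000000000) (nat_lit 0x15c00006000000000000000000000000000000000000000000000000000000000) (nat_lit 4)
theorem c97607 : QOK q97607 := cut [] trivial (nd (nat_lit 230) (nat_lit 0) (cs (lf (nat_lit 5) (nat_lit 230)) (nd (nat_lit 251) (nat_lit 0) (cs (lf (nat_lit 10) (nat_lit 229)) (nd (nat_lit 229) (nat_lit 0) (cs (lf (nat_lit 11) (nat_lit 228)) (lf (nat_lit 4) (nat_lit 229)))))))) q97607 (by decide +kernel)
def q97671 : Q := Q.p (nat_lit 0x800002000008000040000000000000000000000000000000000000000000000000000) (nat_lit 0x200000000000000010000020000100000400000000000000000000000000000000000000000) (nat_lit 3)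
theorem c97671 : QOK q97671 := cut [] trivial (nd (nat_lit 188) (nat_lit 0) (cs (lf (nat_lit 33) (nat_lit 187)) (nd (nat_lit 232) (nat_lit 0) (cs (lf (nat_lit 36) (nat_lit 165)) (lf (nat_lit 30) (nat_lit 209)))))) q97671 (by decide +kernel)
def q97690 : Q := Q.p (nat_lit 0x20000080000200000800002000000000000000000000000000000000000000000000000000000000000000) (nat_lit 0x400001000004000000000000000000000000000000000000000000000000000000000) (nat_lit 2)
theorem c97690 : QOK q97690 := cut [] trivial (nd (nat_lit 252) (nat_lit 0) (cs (lf (nat_lit 46) (nat_lit 252)) (lf (nat_lit 47) (nat_lit 230)))) q97690 (by decide +kernel)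
def q97717 : Q := Q.p (nat_lit 0x100000800003000008000000000000000000000000000000000000000000000000000000000) (nat_lit 0x40000000000400000000000000020000000000000000000000000000000000000000000000000000) (nat_lit 2)
theorem c97717 : QOK q97717 := cut [] trivial (nd (nat_lit 274) (nat_lit 0) (cs (lf (nat_lit 30) (nat_lit 230)) (lf (nat_lit 36) (nat_lit 208)))) q97717 (by decide +kernel)
def q97719 : Q := Q.p (nat_lit 0x8000020000580001a000000000000000000000000000000000000000000000000000000000) (nat_lit 0x20000000000000008000004000000000000000000000000000000000000000000000000000000000) (nat_lit 2)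
theorem c97719 : QOK q97719 := cut [] trivial (nd (nat_lit 230) (nat_lit 0) (cs (lf (nat_lit 30) (nat_lit 229)) (lf (nat_lit 5) (nat_lit 229)))) q97719 (by decide +kernel)
def q97738 : Q := Q.p (nat_lit 0x2000018000020000080000000000000000000000000000000000000000000000) (nat_lit 0x1000004000000000000000000000200000000000000000000000000000000000000000) (nat_lit 2)
theorem c97738 : QOK q97738 := cut [] trivial (nd (nat_lit 254) (nat_lit 0) (cs (lf (nat_lit 29) (nat_lit 187)) (lf (nat_lit 24) (nat_lit 165)))) q97738 (by decide +kernel)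
def q97773 : Q := Q.p (nat_lit 0xe00006000000000000000000000000000000000000000000000000000000000000000) (nat_lit 0x1000009000000000000000000000000000000000000000000000000000000000000000) (nat_lit 2)
theorem c97773 : QOK q97773 := cut [] trivial (nd (nat_lit 255) (nat_lit 0) (cs (lf (nat_lit 9) (nat_lit 251)) (lf (nat_lit 15) (nat_lit 251)))) q97773 (by decide +kernel)
def q97798 : Q := Q.p (nat_lit 0x200000800002000008000000000000000000000000000000000000000000000000000000000) (nat_lit 0x40000180000400000000001000004000010000000000000000000000000000000000000000000000000000) (nat_lit 4)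
theorem c97798 : QOK q97798 := cut [] trivial (nd (nat_lit 320) (nat_lit 0) (cs (lf (nat_lit 28) (nat_lit 231)) (nd (nat_lit 230) (nat_lit 0) (cs (lf (nat_lit 47) (nat_lit 208)) (nd (nat_lit 319) (nat_lit 0) (cs (lf (nat_lit 29) (nat_lit 253)) (lf (nat_lit 46) (nat_lit 230)))))))) q97798 (by decide +kernel)
def q97811 : Q := Q.p (nat_lit 0xf000018000000000000000000000000000000000000000000000000000000000) (nat_lit 0x700000c00000000000000000000000000000000000000000000000000000000000000) (nat_lit 3)
theorem c97811 : QOK q97811 := cut [] trivial (nd (nat_lit 273) (nat_lit 0) (cs (lf (nat_lit 10) (nat_lit 251)) (nd (nat_lit 251) (nat_lit 0) (cs (lf (nat_lit 12) (nat_lit 228)) (lf (nat_lit 11) (nat_lit 250)))))) q97811 (by decide +kernel)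
def q97822 : Q := Q.p (nat_lit 0x6000068000020000000000000000000000000000000000000000000000000000) (nat_lit 0x90000010000000000000000000000000000000000000000000000000000) (nat_lit 2)
theorem c97822 : QOK q97822 := cut [] trivial (nd (nat_lit 232) (nat_lit 0) (cs (lf (nat_lit 6) (nat_lit 231)) (lf (nat_lit 23) (nat_lit 208)))) q97822 (by decide +kernel)
def q97825 : Q := Q.p (nat_lit 0xe000040000000000000000000000000000000000000000000000000000000000) (nat_lit 0x100001b0000000000000000000000000000000000000000000000000000000000) (nat_lit 3)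
theorem c97825 : QOK q97825 := cut [] trivial (nd (nat_lit 235) (nat_lit 0) (cs (lf (nat_lit 15) (nat_lit 231)) (nd (nat_lit 233) (nat_lit 0) (cs (lf (nat_lit 9) (nat_lit 231)) (lf (nat_lit 6) (nat_lit 232)))))) q97825 (by decide +kernel)
def q97866 : Q := Q.p (nat_lit 0x2000008000020000100000000000000000000000000000000000000000000000) (nat_lit 0x800000000000000040000080000400001000000000000000000000000000000000000) (nat_lit 3)
theorem c97866 : QOK q97866 := cut [] trivial (nd (nat_lit 166) (nat_lit 0) (cs (lf (nat_lit 33) (nat_lit 165)) (nd (nat_lit 210) (nat_lit 0) (cs (lf (nat_lit 36) (nat_lit 143)) (lf (nat_lit 30) (nat_lit 187)))))) q97866 (by decide +kernel)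
def q97899 : Q := Q.p (nat_lit 0x1c000060000000000000000000000000000000000000000000000000000) (nat_lit 0x1cc000e300001c000000000000000000000000000000000000000000000000000) (nat_lit 7)
theorem c97899 : QOK q97899 := cut [] trivial (nd (nat_lit 229) (nat_lit 0) (cs (lf (nat_lit 12) (nat_lit 206)) (nd (nat_lit 250) (nat_lit 0) (cs (lf (nat_lit 10) (nat_lit 228)) (nd (nat_lit 255) (nat_lit 0) (cs (lf (nat_lit 4) (nat_lit 229)) (nd (nat_lit 206) (nat_lit 0) (cs (lf (nat_lit 22) (nat_lit 206)) (nd (nat_lit 233) (nat_lit 0) (cs (lf (nat_lit 5) (nat_lit 230)) (nd (nat_lit 234) (nat_lit 0) (cs (lf (nat_lit 18) (nat_lit 209)) (lf (nat_lit 23) (nat_lit 208)))))))))))))) q97899 (by decide +kernel)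
def q97909 : Q := Q.p (nat_lit 0x200001c000060000000000000000000000000000000000000000000000000000) (nat_lit 0x300000c00039c000e300001c000080000200000800000000000000000000000000000000000) (nat_lit 11)
theorem c97909 : QOK q97909 := cut [] trivial (nd (nat_lit 275) (nat_lit 0) (cs (lf (nat_lit 30) (nat_lit 209)) (nd (nat_lit 274) (nat_lit 0) (cs (lf (nat_lit 41) (nat_lit 208)) (nd (nat_lit 187) (nat_lit 0) (cs (lf (nat_lit 40) (nat_lit 186)) (nd (nat_lit 143) (nat_lit 0) (cs (lf (nat_lit 25) (nat_lit 143)) (nd (nat_lit 229) (nat_lit 0) (cs (lf (nat_lit 12) (nat_lit 206)) (nd (nat_lit 250) (nat_lit 0) (cs (lf (nat_lit 10) (nat_lit 228)) (nd (nat_lit 207) (nat_lit 0) (cs (lf (nat_lit 23) (nat_lit 206)) (nd (nat_lit 233) (nat_lit 0) (cs (lf (nat_lit 22) (nat_lit 207)) (nd (nat_lit 256) (nat_lit 0) (cs (lf (nat_lit 4) (nat_lit 230)) (nd (nat_lit 234) (nat_lit 0) (cs (lf (nat_lit 5) (nat_lit 231)) (lf (nat_lit 18) (nat_lit 209)))))))))))))))))))))) q97909 (by decide +kernel)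
def q97947 : Q := Q.p (nat_lit 0x400002000008000020000040000000000000000000000000000000000000000000000) (nat_lit 0x1000000000000000080000100000000000000000000000000000000000000000) (nat_lit 2)
theorem c97947 : QOK q97947 := cut [] trivial (nd (nat_lit 187) (nat_lit 0) (cs (lf (nat_lit 40) (nat_lit 186)) (lf (nat_lit 47) (nat_lit 164)))) q97947 (by decide +kernel)
def q98046 : Q := Q.p (nat_lit 0xe000044000000000000000000000000000000000000000000000000000) (nat_lit 0x1000022000000000000000000000000000000000000000000000000000) (nat_lit 2)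
theorem c98046 : QOK q98046 := cut [] trivial (nd (nat_lit 228) (nat_lit 0) (cs (lf (nat_lit 23) (nat_lit 205)) (lf (nat_lit 16) (nat_lit 206)))) q98046 (by decide +kernel)
def q98105 : Q := Q.p (nat_lit 0x300000e000010000040000000000000000000000000000000000000000000000) (nat_lit 0x320000ce000000000200000a0000280000000000000000000000000000000000000000) (nat_lit 7)
theorem c98105 : QOK q98105 := cut [] trivial (nd (nat_lit 163) (nat_lit 0) (cs (lf (nat_lit 46) (nat_lit 163)) (nd (nat_lit 251) (nat_lit 0) (cs (lf (nat_lit 41) (nat_lit 185)) (nd (nat_lit 249) (nat_lit 0) (cs (lf (nat_lit 13) (nat_lit 227)) (nd (nat_lit 187) (nat_lit 0) (cs (lf (nat_lit 35) (nat_lit 164)) (nd (nat_lit 254) (nat_lit 0) (cs (lf (nat_lit 18) (nat_lit 229)) (nd (nat_lit 276) (nat_lit 0) (cs (lf (nat_lit 5) (nat_lit 251)) (lf (nat_lit 25) (nat_lit 187)))))))))))))) q98105 (by decide +kernel)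
def q98125 : Q := Q.p (nat_lit 0x800002000008000010000000000000000000000000000000000000000000000000000) (nat_lit 0x200000000000000004000020000040000100000000000000000000000000000000000000000) (nat_lit 3)
theorem c98125 : QOK q98125 := cut [] trivial (nd (nat_lit 186) (nat_lit 0) (cs (lf (nat_lit 45) (nat_lit 186)) (nd (nat_lit 230) (nat_lit 0) (cs (lf (nat_lit 42) (nat_lit 208)) (lf (nat_lit 24) (nat_lit 164)))))) q98125 (by decide +kernel)
def q98127 : Q := Q.p (nat_lit 0x40000080000200000800004000000000000000000000000000000000000000000000000000000000000000) (nat_lit 0x10000020000000000000001000000000000000000000000000000000000000000000000000000000000000000000) (nat_lit 2)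
theorem c98127 : QOK q98127 := cut [] trivial (nd (nat_lit 341) (nat_lit 0) (cs (lf (nat_lit 29) (nat_lit 275)) (lf (nat_lit 34) (nat_lit 253)))) q98127 (by decide +kernel)
def q98177 : Q := Q.p (nat_lit 0x800002000008000020000000000000000000000000000000000000000000000000000) (nat_lit 0x200001000005000014000050000180000600000800000000000000000000000000000000000) (nat_lit 7)
theorem c98177 : QOK q98177 := cut [] trivial (nd (nat_lit 188) (nat_lit 0) (cs (lf (nat_lit 34) (nat_lit 187)) (nd (nat_lit 187) (nat_lit 0) (cs (lf (nat_lit 35) (nat_lit 165)) (nd (nat_lit 254) (nat_lit 0) (cs (lf (nat_lit 29) (nat_lit 187)) (nd (nat_lit 165) (nat_lit 0) (cs (lf (nat_lit 28) (nat_lit 165)) (nd (nat_lit 230) (nat_lit 0) (cs (lf (nat_lit 41) (nat_lit 164)) (nd (nat_lit 208) (nat_lit 0) (cs (lf (nat_lit 42) (nat_lit 208)) (lf (nat_lit 36) (nat_lit 142)))))))))))))) q98177 (by decide +kernel)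
def q98207 : Q := Q.p (nat_lit 0x4000018000060000000000000000000000000000000000000000000000000000000000) (nat_lit 0x1000000000000000000000080000200000000000000000000000000000000000000000000000) (nat_lit 2)
theorem c98207 : QOK q98207 := cut [] trivial (nd (nat_lit 211) (nat_lit 0) (cs (lf (nat_lit 42) (nat_lit 211)) (lf (nat_lit 24) (nat_lit 189)))) q98207 (by decide +kernel)
def q98248 : Q := Q.p (nat_lit 0xf000000000000000000000000000000000000000000000000000000000000000) (nat_lit 0x800077000000000000000000000000000000000000000000000000000000000) (nat_lit 4)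
theorem c98248 : QOK q98248 := cut [] trivial (nd (nat_lit 229) (nat_lit 0) (cs (lf (nat_lit 22) (nat_lit 229)) (nd (nat_lit 233) (nat_lit 0) (cs (lf (nat_lit 17) (nat_lit 230)) (nd (nat_lit 251) (nat_lit 0) (cs (lf (nat_lit 16) (nat_lit 229)) (lf (nat_lit 23) (nat_lit 228)))))))) q98248 (by decide +kernel)
def q98288 : Q := Q.p (nat_lit 0x800007800006000000000000000000000000000000000000000000000000000000000) (nat_lit 0x80000300000000000000010000040000000000000000000000000000000000000000000000) (nat_lit 3)
theorem c98288 : QOK q98288 := cut [] trivial (nd (nat_lit 273) (nat_lit 0) (cs (lf (nat_lit 11) (nat_lit 250)) (nd (nat_lit 208) (nat_lit 0) (cs (lf (nat_lit 30) (nat_lit 207)) (lf (nat_lit 24) (nat_lit 186)))))) q98288 (by decide +kernel)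
def q98319 : Q := Q.p (nat_lit 0x80000600001e000000000000000000000000000000000000000000000000000000000) (nat_lit 0xc0000100000000000000000000000000000000000000000000000) (nat_lit 2)
theorem c98319 : QOK q98319 := cut [] trivial (nd (nat_lit 210) (nat_lit 0) (cs (lf (nat_lit 17) (nat_lit 207)) (lf (nat_lit 36) (nat_lit 187)))) q98319 (by decide +kernel)
def q98323 : Q := Q.p (nat_lit 0x1e000000000000000000000000000000000000000000000000000000000) (nat_lit 0x1c000200001c0000000000000000000000000000000000000000000000000000) (nat_lit 4)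
theorem c98323 : QOK q98323 := cut [] trivial (nd (nat_lit 211) (nat_lit 0) (cs (lf (nat_lit 16) (nat_lit 207)) (nd (nat_lit 251) (nat_lit 0) (cs (lf (nat_lit 11) (nat_lit 228)) (nd (nat_lit 233) (nat_lit 0) (cs (lf (nat_lit 17) (nat_lit 208)) (lf (nat_lit 10) (nat_lit 229)))))))) q98323 (by decide +kernel)
def q98343 : Q := Q.p (nat_lit 0x240000e000000000000000000000000000000000000000000000000000000000) (nat_lit 0x1a00011e00003800000000000000000000000000000000000000000000000000) (nat_lit 6)
theorem c98343 : QOK q98343 := cut [] trivial (nd (nat_lit 228) (nat_lit 0) (cs (lf (nat_lit 11) (nat_lit 227)) (nd (nat_lit 227) (nat_lit 0) (cs (lf (nat_lit 4) (nat_lit 227)) (nd (nat_lit 204) (nat_lit 0) (cs (lf (nat_lit 22) (nat_lit 204)) (nd (nat_lit 251) (nat_lit 0) (cs (lf (nat_lit 6) (nat_lit 228)) (nd (nat_lit 226) (nat_lit 0) (cs (lf (nat_lit 23) (nat_lit 203)) (lf (nat_lit 0) (nat_lit 225)))))))))))) q98343 (by decide +kernel)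
def q98357 : Q := Q.p (nat_lit 0x1000002000008000020000040000000000000000000000000000000000000000000000) (nat_lit 0x4000000000000000080000100000000000000000000000000000000000000000) (nat_lit 2)
theorem c98357 : QOK q98357 := cut [] trivial (nd (nat_lit 187) (nat_lit 0) (cs (lf (nat_lit 47) (nat_lit 164)) (lf (nat_lit 28) (nat_lit 187)))) q98357 (by decide +kernel)
def q98393 : Q := Q.p (nat_lit 0x100000c00003000004000010000000000000000000000000000000000000000000000000000) (nat_lit 0x8000020000080000000000000000000000000000000000000000000000) (nat_lit 2)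
theorem c98393 : QOK q98393 := cut [] trivial (nd (nat_lit 209) (nat_lit 0) (cs (lf (nat_lit 35) (nat_lit 186)) (lf (nat_lit 37) (nat_lit 208)))) q98393 (by decide +kernel)
def q98395 : Q := Q.p (nat_lit 0xc00003000000000060000000000000000000000000000000000000000000000000000) (nat_lit 0x8000000000180000000000000000000000000000000000000000000000) (nat_lit 2)
theorem c98395 : QOK q98395 := cut [] trivial (nd (nat_lit 231) (nat_lit 0) (cs (lf (nat_lit 36) (nat_lit 186)) (lf (nat_lit 35) (nat_lit 187)))) q98395 (by decide +kernel)
def q98510 : Q := Q.p (nat_lit 0x7800000000000000000000000000000000000000000000000000000000000000) (nat_lit 0x7000008000007000000000000000000000000000000000000000000000000000000000) (nat_lit 4)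
theorem c98510 : QOK q98510 := cut [] trivial (nd (nat_lit 277) (nat_lit 0) (cs (lf (nat_lit 4) (nat_lit 251)) (nd (nat_lit 229) (nat_lit 0) (cs (lf (nat_lit 23) (nat_lit 228)) (nd (nat_lit 255) (nat_lit 0) (cs (lf (nat_lit 5) (nat_lit 252)) (lf (nat_lit 22) (nat_lit 229)))))))) q98510 (by decide +kernel)
def q98554 : Q := Q.p (nat_lit 0xf00001c00000000000000000000000000000000000000000000000000000000000000) (nat_lit 0x7c0001f00001e0000000000000004000000000000000000000000000000000000000000000000000000000) (nat_lit 8)
theorem c98554 : QOK q98554 := cut [] trivial (nd (nat_lit 294) (nat_lit 0) (cs (lf (nat_lit 11) (nat_lit 271)) (nd (nat_lit 316) (nat_lit 0) (cs (lf (nat_lit 30) (nat_lit 250)) (nd (nat_lit 317) (nat_lit 0) (cs (lf (nat_lit 29) (nat_lit 250)) (nd (nat_lit 295) (nat_lit 0) (cs (lf (nat_lit 35) (nat_lit 229)) (nd (nat_lit 318) (nat_lit 0) (cs (lf (nat_lit 29) (nat_lit 251)) (nd (nat_lit 319) (nat_lit 0) (cs (lf (nat_lit 18) (nat_lit 294)) (nd (nat_lit 341) (nat_lit 0) (cs (lf (nat_lit 5) (nat_lit 316)) (lf (nat_lit 26) (nat_lit 252))))))))))))))))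 q98554 (by decide +kernel)
def q98604 : Q := Q.p (nat_lit 0xe00003800000000000000000000000000000000000000000000000000000000000000) (nat_lit 0x18000060001b80007c0001f0000000000000000000000000000000000000000000000) (nat_lit 10)
theorem c98604 : QOK q98604 := cut [] trivial (nd (nat_lit 250) (nat_lit 0) (cs (lf (nat_lit 0) (nat_lit 249)) (nd (nat_lit 271) (nat_lit 0) (cs (lf (nat_lit 13) (nat_lit 249)) (nd (nat_lit 228) (nat_lit 0) (cs (lf (nat_lit 23) (nat_lit 227)) (nd (nat_lit 231) (nat_lit 0) (cs (lf (nat_lit 17) (nat_lit 228)) (nd (nat_lit 209) (nat_lit 0) (cs (lf (nat_lit 36) (nat_lit 186)) (nd (nat_lit 184) (nat_lit 0) (cs (lf (nat_lit 25) (nat_lit 184)) (nd (nat_lit 208) (nat_lit 0) (cs (lf (nat_lit 47) (nat_lit 186)) (nd (nat_lit 210) (nat_lit 0) (cs (lf (nat_lit 35) (nat_lit 187)) (nd (nat_lit 207) (nat_lit 0) (cs (lf (nat_lit 10) (nat_lit 206)) (lf (nat_lit 22) (nat_lit 184)))))))))))))))))))) q98604 (by decide +kernel)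
def q98620 : Q := Q.p (nat_lit 0xc00003400008000000000000000000000000000000000000000000000000000000000) (nat_lit 0xe00007c0001e0000380004800015800000000000000000000000000000000000000000000000000000000) (nat_lit 11)
theorem c98620 : QOK q98620 := cut [] trivial (nd (nat_lit 296) (nat_lit 0) (cs (lf (nat_lit 30) (nat_lit 230)) (nd (nat_lit 251) (nat_lit 0) (cs (lf (nat_lit 17) (nat_lit 228)) (nd (nat_lit 227) (nat_lit 0) (cs (lf (nat_lit 22) (nat_lit 227)) (nd (nat_lit 272) (nat_lit 0) (cs (lf (nat_lit 11) (nat_lit 249)) (nd (nat_lit 273) (nat_lit 0) (cs (lf (nat_lit 17) (nat_lit 250)) (nd (nat_lit 294) (nat_lit 0) (cs (lf (nat_lit 11) (nat_lit 271)) (nd (nat_lit 316) (nat_lit 0) (cs (lf (nat_lit 30) (nat_lit 250)) (nd (nat_lit 315) (nat_lit 0) (cs (lf (nat_lit 41) (nat_lit 249)) (nd (nat_lit 317) (nat_lit 0) (cs (lf (nat_lit 29) (nat_lit 250)) (nd (nat_lit 295) (nat_lit 0) (cs (lf (nat_lit 12) (nat_lit 292)) (lf (nat_lit 35) (nat_lit 229)))))))))))))))))))))) q98620 (by decide +kernel)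
def q98636 : Q := Q.p (nat_lit 0xc00003000004000020000000000000000000000000000000000000000000000000000) (nat_lit 0x100000c0000000000000000000000000000000000000000000000) (nat_lit 2)
theorem c98636 : QOK q98636 := cut [] trivial (nd (nat_lit 208) (nat_lit 0) (cs (lf (nat_lit 35) (nat_lit 186)) (lf (nat_lit 24) (nat_lit 186)))) q98636 (by decide +kernel)
def q98641 : Q := Q.p (nat_lit 0xd00002400000000000000000000000000000000000000000000000000000000000000) (nat_lit 0x200004200000000000000000000000000000000000000000000000000000000000000) (nat_lit 2)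
theorem c98641 : QOK q98641 := cut [] trivial (nd (nat_lit 273) (nat_lit 0) (cs (lf (nat_lit 23) (nat_lit 249)) (lf (nat_lit 17) (nat_lit 250)))) q98641 (by decide +kernel)
def q98705 : Q := Q.p (nat_lit 0x10000040000900000c000080000000000000000000000000000000000000000000000) (nat_lit 0x4000012000048000000000000000000000000000000000000000000000) (nat_lit 3)
theorem c98705 : QOK q98705 := cut [] trivial (nd (nat_lit 205) (nat_lit 0) (cs (lf (nat_lit 47) (nat_lit 183)) (nd (nat_lit 208) (nat_lit 0) (cs (lf (nat_lit 4) (nat_lit 205)) (lf (nat_lit 16) (nat_lit 183)))))) q98705 (by decide +kernel)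
def q98738 : Q := Q.p (nat_lit 0xf800000000000000000000000000000000000000000000000000000000000000) (nat_lit 0x7000000000000000000000000000000000000000000000000000000000000000000000) (nat_lit 2)
theorem c98738 : QOK q98738 := cut [] trivial (nd (nat_lit 277) (nat_lit 0) (cs (lf (nat_lit 5) (nat_lit 252)) (lf (nat_lit 4) (nat_lit 251)))) q98738 (by decide +kernel)
def q98852 : Q := Q.p (nat_lit 0xf00002000000000000000000000000000000000000000000000000000000000000000) (nat_lit 0x80001700000000000000000000000000000000000000000000000000000000000000) (nat_lit 3)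
theorem c98852 : QOK q98852 := cut [] trivial (nd (nat_lit 249) (nat_lit 0) (cs (lf (nat_lit 22) (nat_lit 249)) (nd (nat_lit 271) (nat_lit 0) (cs (lf (nat_lit 23) (nat_lit 248)) (lf (nat_lit 16) (nat_lit 249)))))) q98852 (by decide +kernel)
def q98862 : Q := Q.p (nat_lit 0x100000c00003000004000000000000000000000000000000000000000000000000000000000) (nat_lit 0x300000c0000200000000000000000000000000000000000000000000000000000000000000000000000000) (nat_lit 3)
theorem c98862 : QOK q98862 := cut [] trivial (nd (nat_lit 318) (nat_lit 0) (cs (lf (nat_lit 30) (nat_lit 252)) (nd (nat_lit 319) (nat_lit 0) (cs (lf (nat_lit 29) (nat_lit 252)) (lf (nat_lit 43) (nat_lit 230)))))) q98862 (by decide +kernel)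
def q98863 : Q := Q.p (nat_lit 0xc00003000004000000000000000000000000000000000000000000000000000000000) (nat_lit 0x80000200000000000000000000010000000000000000000000000000000000000000000000000000) (nat_lit 2)
theorem c98863 : QOK q98863 := cut [] trivial (nd (nat_lit 297) (nat_lit 0) (cs (lf (nat_lit 42) (nat_lit 230)) (lf (nat_lit 24) (nat_lit 208)))) q98863 (by decide +kernel)
def q98864 : Q := Q.p (nat_lit 0x2000007000020000000000000000000000000000000000000000000000000000000000) (nat_lit 0x4000008000040000000000000000000000000000000000000000000000000000000000) (nat_lit 2)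
theorem c98864 : QOK q98864 := cut [] trivial (nd (nat_lit 255) (nat_lit 0) (cs (lf (nat_lit 17) (nat_lit 230)) (lf (nat_lit 5) (nat_lit 252)))) q98864 (by decide +kernel)
def q98875 : Q := Q.p (nat_lit 0x7800004000000000000000000000000000000000000000000000000000000000) (nat_lit 0x8000003000000000000000000000000000000000000000000000000000000000) (nat_lit 2)
theorem c98875 : QOK q98875 := cut [] trivial (nd (nat_lit 229) (nat_lit 0) (cs (lf (nat_lit 18) (nat_lit 229)) (lf (nat_lit 23) (nat_lit 228)))) q98875 (by decide +kernel)
def q98891 : Q := Q.p (nat_lit 0x700002c00000000000000000000000000000000000000000000000000000000000000000000) (nat_lit 0x1800004000000000000000000000000000000000000000000000000000000000000000000000) (nat_lit 2)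
theorem c98891 : QOK q98891 := cut [] trivial (nd (nat_lit 299) (nat_lit 0) (cs (lf (nat_lit 18) (nat_lit 274)) (lf (nat_lit 17) (nat_lit 274)))) q98891 (by decide +kernel)
def q98922 : Q := Q.p (nat_lit 0xc0000340000400001000000000000000000000000000000000000000000000000000000000000000) (nat_lit 0x8000038000020000000000000000000000000000000000000000000000000000000000000000000000000) (nat_lit 3)
theorem c98922 : QOK q98922 := cut [] trivial (nd (nat_lit 317) (nat_lit 0) (cs (lf (nat_lit 41) (nat_lit 251)) (nd (nat_lit 316) (nat_lit 0) (cs (lf (nat_lit 23) (nat_lit 293)) (lf (nat_lit 12) (nat_lit 293)))))) q98922 (by decide +kernel)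
def q99091 : Q := Q.p (nat_lit 0xc00003000004000000000000000000000000000000000000000000000000000000000000000) (nat_lit 0x200000000000000000000010000040000000000000000000000000000000000000000000000000000) (nat_lit 2)
theorem c99091 : QOK q99091 := cut [] trivial (nd (nat_lit 232) (nat_lit 0) (cs (lf (nat_lit 29) (nat_lit 232)) (lf (nat_lit 24) (nat_lit 210)))) q99091 (by decide +kernel)
def q99163 : Q := Q.p (nat_lit 0x780000c00000000000000000000000000000000000000000000000000000000000000000000) (nat_lit 0x700001800000000000000000000000000000000000000000000000000000000000000000000000000) (nat_lit 3)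
theorem c99163 : QOK q99163 := cut [] trivial (nd (nat_lit 321) (nat_lit 0) (cs (lf (nat_lit 4) (nat_lit 295)) (nd (nat_lit 299) (nat_lit 0) (cs (lf (nat_lit 18) (nat_lit 274)) (lf (nat_lit 5) (nat_lit 296)))))) q99163 (by decide +kernel)
def q99196 : Q := Q.p (nat_lit 0x600000800002000000000000000000000000000000000000000000000000000000000) (nat_lit 0x100000000001000000000018000060000100000000000000000000000000000000000000000) (nat_lit 4)
theorem c99196 : QOK q99196 := cut [] trivial (nd (nat_lit 207) (nat_lit 0) (cs (lf (nat_lit 29) (nat_lit 207)) (nd (nat_lit 186) (nat_lit 0) (cs (lf (nat_lit 34) (nat_lit 185)) (nd (nat_lit 185) (nat_lit 0) (cs (lf (nat_lit 28) (nat_lit 185)) (lf (nat_lit 35) (nat_lit 163)))))))) q99196 (by decide +kernel)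
def q99208 : Q := Q.p (nat_lit 0x600000800002000000000000000000000000000000000000000000000000000000000) (nat_lit 0x10000000000100000000000c000030000040000000000000000000000000000000000000000) (nat_lit 4)
theorem c99208 : QOK q99208 := cut [] trivial (nd (nat_lit 207) (nat_lit 0) (cs (lf (nat_lit 29) (nat_lit 207)) (nd (nat_lit 184) (nat_lit 0) (cs (lf (nat_lit 46) (nat_lit 184)) (nd (nat_lit 185) (nat_lit 0) (cs (lf (nat_lit 28) (nat_lit 185)) (lf (nat_lit 47) (nat_lit 162)))))))) q99208 (by decide +kernel)
def q99232 : Q := Q.p (nat_lit 0x80000200000800002000000000000000000000000000000000000000000000000000000000000000) (nat_lit 0x4000010000040000000000100000c000010000000000000000000000000000000000000000000000000000) (nat_lit 4)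
theorem c99232 : QOK q99232 := cut [] trivial (nd (nat_lit 230) (nat_lit 0) (cs (lf (nat_lit 46) (nat_lit 230)) (nd (nat_lit 320) (nat_lit 0) (cs (lf (nat_lit 29) (nat_lit 253)) (nd (nat_lit 231) (nat_lit 0) (cs (lf (nat_lit 28) (nat_lit 231)) (lf (nat_lit 47) (nat_lit 208)))))))) q99232 (by decide +kernel)
def q99233 : Q := Q.p (nat_lit 0x40000200000800002000004000000000000000000000000000000000000000000000000000000000) (nat_lit 0x100000000000000008000010000000000000000000000000000000000000000000000000000) (nat_lit 2)
theorem c99233 : QOK q99233 := cut [] trivial (nd (nat_lit 231) (nat_lit 0) (cs (lf (nat_lit 40) (nat_lit 230)) (lf (nat_lit 47) (nat_lit 208)))) q99233 (by decide +kernel)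
def q99261 : Q := Q.p (nat_lit 0x200001800007000000000000000000000000000000000000000000000000000000000000000) (nat_lit 0x20000080000000000000000000004000000000000000000000000000000000000000000000000000000000) (nat_lit 2)
theorem c99261 : QOK q99261 := cut [] trivial (nd (nat_lit 319) (nat_lit 0) (cs (lf (nat_lit 47) (nat_lit 230)) (lf (nat_lit 30) (nat_lit 253)))) q99261 (by decide +kernel)
def q99297 : Q := Q.p (nat_lit 0x80000200000800002000008000000000000000000000000000000000000000000000000000000000) (nat_lit 0x1000004000010000000000000000000000000000000000000000000000000000) (nat_lit 2)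
theorem c99297 : QOK q99297 := cut [] trivial (nd (nat_lit 230) (nat_lit 0) (cs (lf (nat_lit 46) (nat_lit 230)) (lf (nat_lit 47) (nat_lit 208)))) q99297 (by decide +kernel)
def q99363 : Q := Q.p (nat_lit 0xe00005800000000000000000000000000000000000000000000000000000000000000000000) (nat_lit 0x3000008000000000000000000000000000000000000000000000000000000000000000000000) (nat_lit 2)
theorem c99363 : QOK q99363 := cut [] trivial (nd (nat_lit 300) (nat_lit 0) (cs (lf (nat_lit 18) (nat_lit 275)) (lf (nat_lit 17) (nat_lit 275)))) q99363 (by decide +kernel)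
def q99424 : Q := Q.p (nat_lit 0x600001a00000000000000000000000000000000000000000000000000000000000000000000) (nat_lit 0x800000500000000000000000000000000000000000000000000000000000000000000000000) (nat_lit 2)
theorem c99424 : QOK q99424 := cut [] trivial (nd (nat_lit 274) (nat_lit 0) (cs (lf (nat_lit 5) (nat_lit 273)) (lf (nat_lit 0) (nat_lit 272)))) q99424 (by decide +kernel)
def q99425 : Q := Q.p (nat_lit 0x200001800007800000000000000000000000000000000000000000000000000000000000000) (nat_lit 0x30000040000000000000000000000000000000000000000000000000000) (nat_lit 2)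
theorem c99425 : QOK q99425 := cut [] trivial (nd (nat_lit 232) (nat_lit 0) (cs (lf (nat_lit 17) (nat_lit 229)) (lf (nat_lit 36) (nat_lit 209)))) q99425 (by decide +kernel)
def q99447 : Q := Q.p (nat_lit 0x600003800003000008000000000000000000000000000000000000000000000000000000000) (nat_lit 0xc0000700000c0000000000000000000000000000000000000000000000000000) (nat_lit 4)
theorem c99447 : QOK q99447 := cut [] trivial (nd (nat_lit 232) (nat_lit 0) (cs (lf (nat_lit 35) (nat_lit 209)) (nd (nat_lit 233) (nat_lit 0) (cs (lf (nat_lit 6) (nat_lit 230)) (nd (nat_lit 211) (nat_lit 0) (cs (lf (nat_lit 38) (nat_lit 210)) (lf (nat_lit 32) (nat_lit 210)))))))) q99447 (by decide +kernel)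
def q99476 : Q := Q.p (nat_lit 0x80000200000800003000000000000000000000000000000000000000000000000000000000000000) (nat_lit 0x20000000000000001400004000010000000000000000000000000000000000000000000000000000000000) (nat_lit 3)
theorem c99476 : QOK q99476 := cut [] trivial (nd (nat_lit 254) (nat_lit 0) (cs (lf (nat_lit 35) (nat_lit 231)) (nd (nat_lit 341) (nat_lit 0) (cs (lf (nat_lit 46) (nat_lit 252)) (lf (nat_lit 34) (nat_lit 253)))))) q99476 (by decide +kernel)
def q99486 : Q := Q.p (nat_lit 0x80000200000800003000000000000000000000000000000000000000000000000000000000000000) (nat_lit 0x500001400004000004000000000180000700001c0000100000000000000000000000000000000000000000) (nat_lit 8)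
theorem c99486 : QOK q99486 := cut [] trivial (nd (nat_lit 320) (nat_lit 0) (cs (lf (nat_lit 29) (nat_lit 253)) (nd (nat_lit 231) (nat_lit 0) (cs (lf (nat_lit 28) (nat_lit 231)) (nd (nat_lit 210) (nat_lit 0) (cs (lf (nat_lit 34) (nat_lit 209)) (nd (nat_lit 209) (nat_lit 0) (cs (lf (nat_lit 35) (nat_lit 187)) (nd (nat_lit 318) (nat_lit 0) (cs (lf (nat_lit 41) (nat_lit 252)) (nd (nat_lit 186) (nat_lit 0) (cs (lf (nat_lit 46) (nat_lit 186)) (nd (nat_lit 187) (nat_lit 0) (cs (lf (nat_lit 41) (nat_lit 186)) (lf (nat_lit 47) (nat_lit 164)))))))))))))))) q99486 (by decide +kernel)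
def q99631 : Q := Q.p (nat_lit 0xc00003800008000000000000000000000000000000000000000000000000000000000) (nat_lit 0x600010000000000000000000000000000000000000000000000000000000000) (nat_lit 2)
theorem c99631 : QOK q99631 := cut [] trivial (nd (nat_lit 250) (nat_lit 0) (cs (lf (nat_lit 17) (nat_lit 228)) (lf (nat_lit 0) (nat_lit 249)))) q99631 (by decide +kernel)
def q99692 : Q := Q.p (nat_lit 0x100000200000800002000000000000000000000000000000000000000000000000000000000000000) (nat_lit 0x40000080000400001000000000008000000000000000000000000000000000000000000000000000000000) (nat_lit 3)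
theorem c99692 : QOK q99692 := cut [] trivial (nd (nat_lit 342) (nat_lit 0) (cs (lf (nat_lit 27) (nat_lit 253)) (nd (nat_lit 298) (nat_lit 0) (cs (lf (nat_lit 24) (nat_lit 231)) (lf (nat_lit 45) (nat_lit 253)))))) q99692 (by decide +kernel)
def q99724 : Q := Q.p (nat_lit 0x80000200001800002000000000000000000000000000000000000000000000000000000000000000) (nat_lit 0x20000000000000000000004000010000000000000000000000000000000000000000000000000000000000) (nat_lit 2)
theorem c99724 : QOK q99724 := cut [] trivial (nd (nat_lit 254) (nat_lit 0) (cs (lf (nat_lit 35) (nat_lit 231)) (lf (nat_lit 30) (nat_lit 253)))) q99724 (by decide +kernel)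
def q99778 : Q := Q.p (nat_lit 0x1000007000002000000000000000000000000000000000000000000000000000000000000000) (nat_lit 0xc000380000e4000000000000000000000000000000000000000000000000000000000000000) (nat_lit 5)
theorem c99778 : QOK q99778 := cut [] trivial (nd (nat_lit 279) (nat_lit 0) (cs (lf (nat_lit 22) (nat_lit 253)) (nd (nat_lit 258) (nat_lit 0) (cs (lf (nat_lit 16) (nat_lit 254)) (nd (nat_lit 280) (nat_lit 0) (cs (lf (nat_lit 17) (nat_lit 255)) (nd (nat_lit 299) (nat_lit 0) (cs (lf (nat_lit 6) (nat_lit 277)) (lf (nat_lit 11) (nat_lit 276)))))))))) q99778 (by decide +kernel)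
def q99799 : Q := Q.p (nat_lit 0x80000200001800001000000000000000000000000000000000000000000000000000000000000000) (nat_lit 0x20000000000000000400004000000000000000000000000000000000000000000000000000000000000000) (nat_lit 2)
theorem c99799 : QOK q99799 := cut [] trivial (nd (nat_lit 341) (nat_lit 0) (cs (lf (nat_lit 46) (nat_lit 252)) (lf (nat_lit 35) (nat_lit 253)))) q99799 (by decide +kernel)
def q99826 : Q := Q.p (nat_lit 0x1200007000000000000000000000000000000000000000000000000000000000000000000000) (nat_lit 0x1cc000380000e0000000000000000000000000000000000000000000000000000000000000000) (nat_lit 6)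
theorem c99826 : QOK q99826 := cut [] trivial (nd (nat_lit 279) (nat_lit 0) (cs (lf (nat_lit 10) (nat_lit 275)) (nd (nat_lit 258) (nat_lit 0) (cs (lf (nat_lit 16) (nat_lit 254)) (nd (nat_lit 280) (nat_lit 0) (cs (lf (nat_lit 17) (nat_lit 255)) (nd (nat_lit 281) (nat_lit 0) (cs (nd (nat_lit 303) (nat_lit 0) (cs (lf (nat_lit 5) (nat_lit 278)) (lf (nat_lit 4) (nat_lit 277)))) (lf (nat_lit 11) (nat_lit 277)))))))))) q99826 (by decide +kernel)
def q99836 : Q := Q.p (nat_lit 0x1000003800000000000000000000000000000000000000000000000000000000000000000000) (nat_lit 0x2c00004400000000000000000000000000000000000000000000000000000000000000000000) (nat_lit 3)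
theorem c99836 : QOK q99836 := cut [] trivial (nd (nat_lit 299) (nat_lit 0) (cs (lf (nat_lit 0) (nat_lit 274)) (nd (nat_lit 301) (nat_lit 0) (cs (lf (nat_lit 21) (nat_lit 275)) (lf (nat_lit 3) (nat_lit 275)))))) q99836 (by decide +kernel)
def q99841 : Q := Q.p (nat_lit 0x800003c00000000000000000000000000000000000000000000000000000000000000000000) (nat_lit 0x5c0000200000000000000000000000000000000000000000000000000000000000000000000) (nat_lit 3)
theorem c99841 : QOK q99841 := cut [] trivial (nd (nat_lit 295) (nat_lit 0) (cs (lf (nat_lit 10) (nat_lit 273)) (nd (nat_lit 273) (nat_lit 0) (cs (lf (nat_lit 4) (nat_lit 273)) (lf (nat_lit 11) (nat_lit 272)))))) q99841 (by decide +kernel)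
def q99867 : Q := Q.p (nat_lit 0xc00003800006000000000000000000000000000000000000000000000000000000000000000) (nat_lit 0x700001e0000180000600008000020000000000000000000000000000000000000000000000000000000000) (nat_lit 7)
theorem c99867 : QOK q99867 := cut [] trivial (nd (nat_lit 320) (nat_lit 0) (cs (lf (nat_lit 42) (nat_lit 253)) (nd (nat_lit 233) (nat_lit 0) (cs (lf (nat_lit 34) (nat_lit 232)) (nd (nat_lit 274) (nat_lit 0) (cs (lf (nat_lit 0) (nat_lit 273)) (nd (nat_lit 296) (nat_lit 0) (cs (lf (nat_lit 11) (nat_lit 273)) (nd (nat_lit 319) (nat_lit 0) (cs (lf (nat_lit 41) (nat_lit 253)) (nd (nat_lit 318) (nat_lit 0) (cs (lf (nat_lit 12) (nat_lit 295)) (lf (nat_lit 30) (nat_lit 252)))))))))))))) q99867 (by decide +kernel)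
def q99873 : Q := Q.p (nat_lit 0x200000800003000000000000000000000000000000000000000000000000000000000000000000000) (nat_lit 0x8000000000000000000000c000010000040000000000000000000000000000000000000000000000000000) (nat_lit 3)
theorem c99873 : QOK q99873 := cut [] trivial (nd (nat_lit 254) (nat_lit 0) (cs (lf (nat_lit 42) (nat_lit 254)) (nd (nat_lit 232) (nat_lit 0) (cs (lf (nat_lit 24) (nat_lit 210)) (lf (nat_lit 45) (nat_lit 232)))))) q99873 (by decide +kernel)
def q99877 : Q := Q.p (nat_lit 0x200000800002000008000000000000000000000000000000000000000000000000000000000000000) (nat_lit 0x100000400001000000000004000030000040000000000000000000000000000000000000000000000000000) (nat_lit 4)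
theorem c99877 : QOK q99877 := cut [] trivial (nd (nat_lit 232) (nat_lit 0) (cs (nd (nat_lit 322) (nat_lit 0) (cs (lf (nat_lit 29) (nat_lit 255)) (nd (nat_lit 233) (nat_lit 0) (cs (lf (nat_lit 28) (nat_lit 233)) (lf (nat_lit 47) (nat_lit 210)))))) (lf (nat_lit 46) (nat_lit 232)))) q99877 (by decide +kernel)
def q99892 : Q := Q.p (nat_lit 0xc0000200000800001800002000000000000000000000000000000000000000000000000000000000000000) (nat_lit 0x20000000000100000400000000000000000000000000000000000000000000000000000000000000000000000000) (nat_lit 2)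
theorem c99892 : QOK q99892 := cut [] trivial (nd (nat_lit 298) (nat_lit 0) (cs (lf (nat_lit 43) (nat_lit 253)) (lf (nat_lit 42) (nat_lit 276)))) q99892 (by decide +kernel)
def q99910 : Q := Q.p (nat_lit 0x600003800004000010000000000000000000000000000000000000000000000000000000000) (nat_lit 0xe00003800000000008000020000080000000000000000000000000000000000000000000000000000) (nat_lit 5)
theorem c99910 : QOK q99910 := cut [] trivial (nd (nat_lit 299) (nat_lit 0) (cs (lf (nat_lit 29) (nat_lit 232)) (nd (nat_lit 300) (nat_lit 0) (cs (lf (nat_lit 18) (nat_lit 275)) (nd (nat_lit 322) (nat_lit 0) (cs (lf (nat_lit 5) (nat_lit 297)) (nd (nat_lit 233) (nat_lit 0) (cs (lf (nat_lit 25) (nat_lit 233)) (lf (nat_lit 35) (nat_lit 210)))))))))) q99910 (by decide +kernel)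
def q99919 : Q := Q.p (nat_lit 0x700001800002000000000000000000000000000000000000000000000000000000000000000) (nat_lit 0x40000000000000000000008000020000000000000000000000000000000000000000000000000000) (nat_lit 2)
theorem c99919 : QOK q99919 := cut [] trivial (nd (nat_lit 231) (nat_lit 0) (cs (lf (nat_lit 41) (nat_lit 230)) (lf (nat_lit 24) (nat_lit 209)))) q99919 (by decide +kernel)
def q99923 : Q := Q.p (nat_lit 0x3800006000010000000000000000000000000000000000000000000000000000000000) (nat_lit 0x800000000000000000000040000100000000000000000000000000000000000000000000000) (nat_lit 2)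
theorem c99923 : QOK q99923 := cut [] trivial (nd (nat_lit 210) (nat_lit 0) (cs (lf (nat_lit 29) (nat_lit 210)) (lf (nat_lit 36) (nat_lit 187)))) q99923 (by decide +kernel)
def q99931 : Q := Q.p (nat_lit 0x100000400003800006000000000000000000000000000000000000000000000000000000000000000) (nat_lit 0xa0000680000380000000009800024000000000000000000000000000000000000000000000000000000000) (nat_lit 7)
theorem c99931 : QOK q99931 := cut [] trivial (nd (nat_lit 319) (nat_lit 0) (cs (lf (nat_lit 41) (nat_lit 253)) (nd (nat_lit 321) (nat_lit 0) (cs (lf (nat_lit 29) (nat_lit 254)) (nd (nat_lit 233) (nat_lit 0) (cs (lf (nat_lit 34) (nat_lit 232)) (nd (nat_lit 252) (nat_lit 0) (cs (lf (nat_lit 0) (nat_lit 251)) (nd (nat_lit 297) (nat_lit 0) (cs (lf (nat_lit 47) (nat_lit 230)) (nd (nat_lit 296) (nat_lit 0) (cs (lf (nat_lit 18) (nat_lit 296)) (lf (nat_lit 12) (nat_lit 273)))))))))))))) q99931 (by decide +kernel)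
def q99932 : Q := Q.p (nat_lit 0x100000400001000004000010000000000000000000000000000000000000000000000000000000000) (nat_lit 0x20000080000200000000000000000000000000000000000000000000000000000000000000000000000000) (nat_lit 2)
theorem c99932 : QOK q99932 := cut [] trivial (nd (nat_lit 319) (nat_lit 0) (cs (lf (nat_lit 41) (nat_lit 253)) (lf (nat_lit 40) (nat_lit 231)))) q99932 (by decide +kernel)
def q99957 : Q := Q.p (nat_lit 0x180000600001000004000000000000000000000000000000000000000000000000000000000000000) (nat_lit 0x80000600000180000000000000000000000000000000000000000000000000000000000000000000000000) (nat_lit 3)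
theorem c99957 : QOK q99957 := cut [] trivial (nd (nat_lit 321) (nat_lit 0) (cs (lf (nat_lit 29) (nat_lit 254)) (nd (nat_lit 296) (nat_lit 0) (cs (lf (nat_lit 18) (nat_lit 296)) (lf (nat_lit 0) (nat_lit 295)))))) q99957 (by decide +kernel)
def q99964 : Q := Q.p (nat_lit 0x780000200000800002000000000000000000000000000000000000000000000000000000000000000) (nat_lit 0x10000040003800000000000000000000000000000000000000000000000000000000000000000000000000) (nat_lit 3)
theorem c99964 : QOK q99964 := cut [] trivial (nd (nat_lit 300) (nat_lit 0) (cs (lf (nat_lit 17) (nat_lit 297)) (nd (nat_lit 318) (nat_lit 0) (cs (lf (nat_lit 41) (nat_lit 252)) (lf (nat_lit 16) (nat_lit 296)))))) q99964 (by decide +kernel)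
def q100022 : Q := Q.p (nat_lit 0x200001c00002000008000000000000000000000000000000000000000000000000000000000000000) (nat_lit 0x100000c00000300000000000000000000000000000000000000000000000000000000000000000000000000) (nat_lit 3)
theorem c100022 : QOK q100022 := cut [] trivial (nd (nat_lit 322) (nat_lit 0) (cs (lf (nat_lit 29) (nat_lit 255)) (nd (nat_lit 297) (nat_lit 0) (cs (lf (nat_lit 5) (nat_lit 297)) (lf (nat_lit 0) (nat_lit 296)))))) q100022 (by decide +kernel)
def q100032 : Q := Q.p (nat_lit 0x300000c00001800000000000000000000000000000000000000000000000000000000000000000000) (nat_lit 0x200000c0003000000000004000010000000000000000000000000000000000000000000000000000000000) (nat_lit 4)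
theorem c100032 : QOK q100032 := cut [] trivial (nd (nat_lit 254) (nat_lit 0) (cs (lf (nat_lit 24) (nat_lit 232)) (nd (nat_lit 300) (nat_lit 0) (cs (lf (nat_lit 18) (nat_lit 275)) (nd (nat_lit 319) (nat_lit 0) (cs (lf (nat_lit 12) (nat_lit 296)) (lf (nat_lit 41) (nat_lit 253)))))))) q100032 (by decide +kernel)
def q100065 : Q := Q.p (nat_lit 0xc00003800006000000000000000000000000000000000000000000000000000000000000000) (nat_lit 0x1e0001fe0000200000600009800020000000000000000000000000000000000000000000000000000000000) (nat_lit 10)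
theorem c100065 : QOK q100065 := cut [] trivial (nd (nat_lit 320) (nat_lit 0) (cs (lf (nat_lit 42) (nat_lit 253)) (nd (nat_lit 321) (nat_lit 0) (cs (lf (nat_lit 29) (nat_lit 254)) (nd (nat_lit 319) (nat_lit 0) (cs (lf (nat_lit 41) (nat_lit 253)) (nd (nat_lit 317) (nat_lit 0) (cs (lf (nat_lit 13) (nat_lit 295)) (nd (nat_lit 273) (nat_lit 0) (cs (lf (nat_lit 1) (nat_lit 273)) (nd (nat_lit 251) (nat_lit 0) (cs (lf (nat_lit 1) (nat_lit 251)) (nd (nat_lit 255) (nat_lit 0) (cs (lf (nat_lit 35) (nat_lit 232)) (nd (nat_lit 322) (nat_lit 0) (cs (lf (nat_lit 29) (nat_lit 255)) (nd (nat_lit 323) (nat_lit 0) (cs (lf (nat_lit 18) (nat_lit 298)) (lf (nat_lit 23) (nat_lit 297)))))))))))))))))))) q100065 (by decide +kernel)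
def q100070 : Q := Q.p (nat_lit 0x200000c00003800006000000000000000000000000000000000000000000000000000000000000000) (nat_lit 0x160000d80000300000000008000020000000000000000000000000000000000000000000000000000000000) (nat_lit 6)
theorem c100070 : QOK q100070 := cut [] trivial (nd (nat_lit 320) (nat_lit 0) (cs (lf (nat_lit 42) (nat_lit 253)) (nd (nat_lit 319) (nat_lit 0) (cs (lf (nat_lit 41) (nat_lit 253)) (nd (nat_lit 255) (nat_lit 0) (cs (lf (nat_lit 35) (nat_lit 232)) (nd (nat_lit 322) (nat_lit 0) (cs (lf (nat_lit 29) (nat_lit 255)) (nd (nat_lit 297) (nat_lit 0) (cs (lf (nat_lit 18) (nat_lit 297)) (lf (nat_lit 0) (nat_lit 296)))))))))))) q100070 (by decide +kernel)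
def q100094 : Q := Q.p (nat_lit 0x400007000002000000000000000000000000000000000000000000000000000000000000000) (nat_lit 0x200008000004000000000000000000000000000000000000000000000000000000000000000) (nat_lit 2)
theorem c100094 : QOK q100094 := cut [] trivial (nd (nat_lit 279) (nat_lit 0) (cs (lf (nat_lit 11) (nat_lit 275)) (lf (nat_lit 22) (nat_lit 253)))) q100094 (by decide +kernel)
def q100111 : Q := Q.p (nat_lit 0xc00003000000000010000000000000000000000000000000000000000000000000000000000) (nat_lit 0x200000000000000004000000000040000000000000000000000000000000000000000000000000000) (nat_lit 2)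
theorem c100111 : QOK q100111 := cut [] trivial (nd (nat_lit 254) (nat_lit 0) (cs (lf (nat_lit 29) (nat_lit 232)) (lf (nat_lit 24) (nat_lit 210)))) q100111 (by decide +kernel)
def q100208 : Q := Q.p (nat_lit 0x1c00001800000000000000000000000000000000000000000000000000000000000000000000) (nat_lit 0x2600000000000000000000000000000000000000000000000000000000000000000000) (nat_lit 2)
theorem c100208 : QOK q100208 := cut [] trivial (nd (nat_lit 274) (nat_lit 0) (cs (lf (nat_lit 3) (nat_lit 274)) (lf (nat_lit 0) (nat_lit 273)))) q100208 (by decide +kernel)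
def q100211 : Q := Q.p (nat_lit 0x180000600001000004000000000000000000000000000000000000000000000000000000000000000) (nat_lit 0x80000e00000100000000000000000000000000000000000000000000000000000000000000000000000000) (nat_lit 3)
theorem c100211 : QOK q100211 := cut [] trivial (nd (nat_lit 321) (nat_lit 0) (cs (lf (nat_lit 29) (nat_lit 254)) (nd (nat_lit 322) (nat_lit 0) (cs (lf (nat_lit 23) (nat_lit 296)) (lf (nat_lit 18) (nat_lit 297)))))) q100211 (by decide +kernel)
def q100220 : Q := Q.p (nat_lit 0x80000400001000004000020000000000000000000000000000000000000000000000000000000000) (nat_lit 0x200000000000000010000080000000000000000000000000000000000000000000000000000) (nat_lit 2)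
theorem c100220 : QOK q100220 := cut [] trivial (nd (nat_lit 232) (nat_lit 0) (cs (lf (nat_lit 35) (nat_lit 210)) (lf (nat_lit 40) (nat_lit 231)))) q100220 (by decide +kernel)
def q100248 : Q := Q.p (nat_lit 0xc0000280000800002000000000000000000000000000000000000000000000000000000000000000000000) (nat_lit 0x40000120000140000000000000000000000000000000000000000000000000000000000000000000000000000000) (nat_lit 3)
theorem c100248 : QOK q100248 := cut [] trivial (nd (nat_lit 344) (nat_lit 0) (cs (lf (nat_lit 29) (nat_lit 277)) (nd (nat_lit 318) (nat_lit 0) (cs (lf (nat_lit 21) (nat_lit 318)) (lf (nat_lit 2) (nat_lit 318)))))) q100248 (by decide +kernel)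
def q100389 : Q := Q.p (nat_lit 0x1400002000008000020000000000000000000000000000000000000000000000000000) (nat_lit 0x5000000000000000080000000000000000000000000000000000000000000000) (nat_lit 2)
theorem c100389 : QOK q100389 := cut [] trivial (nd (nat_lit 187) (nat_lit 0) (cs (lf (nat_lit 40) (nat_lit 186)) (lf (nat_lit 28) (nat_lit 187)))) q100389 (by decide +kernel)
def q100487 : Q := Q.p (nat_lit 0x400001c00002000000000000000000000000000000000000000000000000000000000000000) (nat_lit 0xae0000300000000008000020000000000000000000000000000000000000000000000000000) (nat_lit 5)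
theorem c100487 : QOK q100487 := cut [] trivial (nd (nat_lit 209) (nat_lit 0) (cs (lf (nat_lit 25) (nat_lit 209)) (nd (nat_lit 273) (nat_lit 0) (cs (lf (nat_lit 5) (nat_lit 273)) (nd (nat_lit 294) (nat_lit 0) (cs (lf (nat_lit 10) (nat_lit 272)) (nd (nat_lit 272) (nat_lit 0) (cs (lf (nat_lit 11) (nat_lit 271)) (lf (nat_lit 4) (nat_lit 272)))))))))) q100487 (by decide +kernel)
def q100493 : Q := Q.p (nat_lit 0xc0000200000c00002000000000000000000000000000000000000000000000000000000000000000000000) (nat_lit 0x40000120001c00000000000000008000000000000000000000000000000000000000000000000000000000000000) (nat_lit 4)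
theorem c100493 : QOK q100493 := cut [] trivial (nd (nat_lit 344) (nat_lit 0) (cs (lf (nat_lit 29) (nat_lit 277)) (nd (nat_lit 322) (nat_lit 0) (cs (lf (nat_lit 24) (nat_lit 255)) (nd (nat_lit 323) (nat_lit 0) (cs (lf (nat_lit 12) (nat_lit 319)) (lf (nat_lit 18) (nat_lit 298)))))))) q100493 (by decide +kernel)
def q100513 : Q := Q.p (nat_lit 0x80000600001800000000000000000000000000000000000000000000000000000000000000000000) (nat_lit 0x8000020000000000000000000004000000000000000000000000000000000000000000000000000000000000000) (nat_lit 2)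
theorem c100513 : QOK q100513 := cut [] trivial (nd (nat_lit 341) (nat_lit 0) (cs (lf (nat_lit 30) (nat_lit 275)) (lf (nat_lit 35) (nat_lit 253)))) q100513 (by decide +kernel)
def q100520 : Q := Q.p (nat_lit 0x180000400001000000000000000000000000000000000000000000000000000000000000000000000) (nat_lit 0x2000008000020000000000200000000004000000000000000000000000000000000000000000000000000000000000000) (nat_lit 3)
theorem c100520 : QOK q100520 := cut [] trivial (nd (nat_lit 341) (nat_lit 0) (cs (lf (nat_lit 36) (nat_lit 253)) (nd (nat_lit 363) (nat_lit 0) (cs (lf (nat_lit 30) (nat_lit 297)) (lf (nat_lit 33) (nat_lit 275)))))) q100520 (by decide +kernel)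
def q100619 : Q := Q.p (nat_lit 0xf00003000000000000000000000000000000000000000000000000000000000000000000000) (nat_lit 0x20000080000600000000000000004000000000000000000000000000000000000000000000000000000000000000) (nat_lit 3)
theorem c100619 : QOK q100619 := cut [] trivial (nd (nat_lit 321) (nat_lit 0) (cs (lf (nat_lit 5) (nat_lit 296)) (nd (nat_lit 343) (nat_lit 0) (cs (lf (nat_lit 42) (nat_lit 276)) (lf (nat_lit 47) (nat_lit 254)))))) q100619 (by decide +kernel)
def q100694 : Q := Q.p (nat_lit 0x300000c00001800004000000000000000000000000000000000000000000000000000000000) (nat_lit 0x200000c0003000000000000000000000000000000000000000000000000000000000000000000000) (nat_lit 3)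
theorem c100694 : QOK q100694 := cut [] trivial (nd (nat_lit 276) (nat_lit 0) (cs (lf (nat_lit 18) (nat_lit 251)) (nd (nat_lit 295) (nat_lit 0) (cs (lf (nat_lit 41) (nat_lit 229)) (lf (nat_lit 12) (nat_lit 272)))))) q100694 (by decide +kernel)
def q100729 : Q := Q.p (nat_lit 0x200000800002000008000000000000000000000000000000000000000000000000000000000) (nat_lit 0x180001d00001700001000004000030000080000000000000000000000000000000000000000000000) (nat_lit 8)
theorem c100729 : QOK q100729 := cut [] trivial (nd (nat_lit 298) (nat_lit 0) (cs (lf (nat_lit 29) (nat_lit 231)) (nd (nat_lit 209) (nat_lit 0) (cs (lf (nat_lit 28) (nat_lit 209)) (nd (nat_lit 274) (nat_lit 0) (cs (lf (nat_lit 41) (nat_lit 208)) (nd (nat_lit 299) (nat_lit 0) (cs (lf (nat_lit 18) (nat_lit 274)) (nd (nat_lit 272) (nat_lit 0) (cs (lf (nat_lit 1) (nat_lit 272)) (nd (nat_lit 230) (nat_lit 0) (cs (lf (nat_lit 47) (nat_lit 208)) (nd (nat_lit 252) (nat_lit 0) (cs (lf (nat_lit 36) (nat_lit 186)) (lf (nat_lit 42) (nat_lit 230)))))))))))))))) q100729 (by decide +kernel)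
def q100775 : Q := Q.p (nat_lit 0x80000200001e000000000000000000000000000000000000000000000000000000000) (nat_lit 0x2000000000000000000000c0000000000000000000000000000000000000000000000000000) (nat_lit 2)
theorem c100775 : QOK q100775 := cut [] trivial (nd (nat_lit 210) (nat_lit 0) (cs (lf (nat_lit 30) (nat_lit 209)) (lf (nat_lit 17) (nat_lit 207)))) q100775 (by decide +kernel)
def q100795 : Q := Q.p (nat_lit 0x800003000004000010000000000000000000000000000000000000000000000000000) (nat_lit 0x200000400000000008000000000000000000000000000000000000000000000000000000000) (nat_lit 2)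
theorem c100795 : QOK q100795 := cut [] trivial (nd (nat_lit 297) (nat_lit 0) (cs (lf (nat_lit 27) (nat_lit 208)) (lf (nat_lit 45) (nat_lit 208)))) q100795 (by decide +kernel)
def q100865 : Q := Q.p (nat_lit 0x7800008000020000000000000000000000000000000000000000000000000000) (nat_lit 0x400003000000000030000000000000000000000000000000000000000000000000000000000) (nat_lit 3)
theorem c100865 : QOK q100865 := cut [] trivial (nd (nat_lit 276) (nat_lit 0) (cs (lf (nat_lit 5) (nat_lit 251)) (nd (nat_lit 232) (nat_lit 0) (cs (lf (nat_lit 17) (nat_lit 229)) (lf (nat_lit 42) (nat_lit 209)))))) q100865 (by decide +kernel)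
def q100938 : Q := Q.p (nat_lit 0x1c0000f000000000000000000000000000000000000000000000000000000000) (nat_lit 0x40000000000000001e0001f80007e0000000000000000000000000000000000000000) (nat_lit 9)
theorem c100938 : QOK q100938 := cut [] trivial (nd (nat_lit 206) (nat_lit 0) (cs (lf (nat_lit 23) (nat_lit 205)) (nd (nat_lit 184) (nat_lit 0) (cs (lf (nat_lit 24) (nat_lit 162)) (nd (nat_lit 161) (nat_lit 0) (cs (lf (nat_lit 46) (nat_lit 161)) (nd (nat_lit 185) (nat_lit 0) (cs (lf (nat_lit 35) (nat_lit 162)) (nd (nat_lit 207) (nat_lit 0) (cs (lf (nat_lit 29) (nat_lit 185)) (nd (nat_lit 186) (nat_lit 0) (cs (lf (nat_lit 35) (nat_lit 163)) (nd (nat_lit 187) (nat_lit 0) (cs (lf (nat_lit 6) (nat_lit 184)) (nd (nat_lit 165) (nat_lit 0) (cs (lf (nat_lit 17) (nat_lit 162)) (lf (nat_lit 32) (nat_lit 164)))))))))))))))))) q100938 (by decide +kernel)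
def q100946 : Q := Q.p (nat_lit 0x780000c000000000000000000000000000000000000000000000000000000000) (nat_lit 0x3800000600000000000000000000000000000000000000000000000000000000000000) (nat_lit 3)
theorem c100946 : QOK q100946 := cut [] trivial (nd (nat_lit 276) (nat_lit 0) (cs (lf (nat_lit 5) (nat_lit 251)) (nd (nat_lit 250) (nat_lit 0) (cs (lf (nat_lit 12) (nat_lit 227)) (lf (nat_lit 4) (nat_lit 250)))))) q100946 (by decide +kernel)
def q100973 : Q := Q.p (nat_lit 0x80000340000c000000000000000000000000000000000000000000000000000000000) (nat_lit 0x158000480000380001e0000780001e0000000000000000000000000000000000000000) (nat_lit 11)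
theorem c100973 : QOK q100973 := cut [] trivial (nd (nat_lit 186) (nat_lit 0) (cs (lf (nat_lit 25) (nat_lit 186)) (nd (nat_lit 251) (nat_lit 0) (cs (lf (nat_lit 5) (nat_lit 250)) (nd (nat_lit 271) (nat_lit 0) (cs (lf (nat_lit 10) (nat_lit 249)) (nd (nat_lit 228) (nat_lit 0) (cs (lf (nat_lit 23) (nat_lit 227)) (nd (nat_lit 229) (nat_lit 0) (cs (lf (nat_lit 5) (nat_lit 228)) (nd (nat_lit 206) (nat_lit 0) (cs (lf (nat_lit 23) (nat_lit 205)) (nd (nat_lit 184) (nat_lit 0) (cs (lf (nat_lit 24) (nat_lit 162)) (nd (nat_lit 161) (nat_lit 0) (cs (lf (nat_lit 46) (nat_lit 161)) (nd (nat_lit 185) (nat_lit 0) (cs (lf (nat_lit 35) (nat_lit 162)) (nd (nat_lit 207) (nat_lit 0) (cs (lf (nat_lit 29) (nat_lit 185)) (lf (nat_lit 35) (nat_lit 163)))))))))))))))))))))) q100973 (by decide +kernel)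
def q101015 : Q := Q.p (nat_lit 0x340000c000000000000000000000000000000000000000000000000000000000) (nat_lit 0x1c0000740001d80004a0000380000e000000000000000000000000000000000000000000000000000) (nat_lit 11)
theorem c101015 : QOK q101015 := cut [] trivial (nd (nat_lit 251) (nat_lit 0) (cs (lf (nat_lit 12) (nat_lit 227)) (nd (nat_lit 275) (nat_lit 0) (cs (lf (nat_lit 5) (nat_lit 250)) (nd (nat_lit 297) (nat_lit 0) (cs (lf (nat_lit 42) (nat_lit 230)) (nd (nat_lit 228) (nat_lit 0) (cs (lf (nat_lit 23) (nat_lit 227)) (nd (nat_lit 298) (nat_lit 0) (cs (lf (nat_lit 29) (nat_lit 231)) (nd (nat_lit 229) (nat_lit 0) (cs (lf (nat_lit 5) (nat_lit 228)) (nd (nat_lit 205) (nat_lit 0) (cs (lf (nat_lit 22) (nat_lit 205)) (nd (nat_lit 296) (nat_lit 0) (cs (lf (nat_lit 41) (nat_lit 230)) (nd (nat_lit 207) (nat_lit 0) (cs (lf (nat_lit 43) (nat_lit 207)) (nd (nat_lit 272) (nat_lit 0) (cs (lf (nat_lit 11) (nat_lit 249)) (lf (nat_lit 30) (nat_lit 206)))))))))))))))))))))) q101015 (by decide +kernel)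
def q101138 : Q := Q.p (nat_lit 0x1c0000a00000000000000000000000000000000000000000000000000000000000000000000) (nat_lit 0x20001400000000000000000000000000000000000000000000000000000000000000000000) (nat_lit 2)
theorem c101138 : QOK q101138 := cut [] trivial (nd (nat_lit 274) (nat_lit 0) (cs (lf (nat_lit 12) (nat_lit 271)) (lf (nat_lit 6) (nat_lit 272)))) q101138 (by decide +kernel)
def q101180 : Q := Q.p (nat_lit 0x500001600000000000000000000000000000000000000000000000000000000000000000000) (nat_lit 0xa00000800000000000000000000000000000000000000000000000000000000000000000000) (nat_lit 2)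
theorem c101180 : QOK q101180 := cut [] trivial (nd (nat_lit 299) (nat_lit 0) (cs (lf (nat_lit 20) (nat_lit 273)) (lf (nat_lit 2) (nat_lit 273)))) q101180 (by decide +kernel)
def q101204 : Q := Q.p (nat_lit 0x3e00000000000000000000000000000000000000000000000000000000000000000000) (nat_lit 0x1c000000000000000000000000000000000000000000000000000000000000000) (nat_lit 2)
theorem c101204 : QOK q101204 := cut [] trivial (nd (nat_lit 255) (nat_lit 0) (cs (lf (nat_lit 17) (nat_lit 252)) (lf (nat_lit 16) (nat_lit 251)))) q101204 (by decide +kernel)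
def q101260 : Q := Q.p (nat_lit 0x2000008000020000380000000000000000000000000000000000000000000000) (nat_lit 0x10000440003900000000000000000000000000000000000000000) (nat_lit 4)
theorem c101260 : QOK q101260 := cut [] trivial (nd (nat_lit 190) (nat_lit 0) (cs (lf (nat_lit 11) (nat_lit 186)) (nd (nat_lit 168) (nat_lit 0) (cs (lf (nat_lit 17) (nat_lit 165)) (nd (nat_lit 186) (nat_lit 0) (cs (lf (nat_lit 47) (nat_lit 164)) (lf (nat_lit 16) (nat_lit 164)))))))) q101260 (by decide +kernel)

end Crest.Agent.H3.Snaky.CR
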