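import Crest.Agent.H3.Snaky.Cert

set_option autoImplicit false
set_option maxRecDepth 100000

namespace Crest.Agent.H3.Snaky.CR

open T

def q101264 : Q := Q.p (nat_lit 0x8000020000080000200000800000000000000000000000000000000000) (nat_lit 0x1000004000010000000000000000000000000000000000000000000000000000) (nat_lit 2)
theorem c101264 : QOK q101264 := cut [] trivial (nd (nat_lit 230) (nat_lit 0) (cs (lf (nat_lit 41) (nat_lit 164)) (lf (nat_lit 40) (nat_lit 142)))) q101264 (by decide +kernel)
def q101295 : Q := Q.p (nat_lit 0x1000006000018000040000000000000000000000000000000000000000000000000000) (nat_lit 0x300000c00002000000000000000000000000000000000000000000000000000000000000000000000) (nat_lit 3)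
theorem c101295 : QOK q101295 := cut [] trivial (nd (nat_lit 299) (nat_lit 0) (cs (lf (nat_lit 28) (nat_lit 210)) (nd (nat_lit 298) (nat_lit 0) (cs (lf (nat_lit 29) (nat_lit 232)) (lf (nat_lit 42) (nat_lit 231)))))) q101295 (by decide +kernel)
def q101349 : Q := Q.p (nat_lit 0xf00000c000010000000000000000000000000000000000000000000000000000) (nat_lit 0x800070000008000000000000000000000000000000000000000000000000000) (nat_lit 3)
theorem c101349 : QOK q101349 := cut [] trivial (nd (nat_lit 233) (nat_lit 0) (cs (lf (nat_lit 17) (nat_lit 230)) (nd (nat_lit 232) (nat_lit 0) (cs (lf (nat_lit 23) (nat_lit 207)) (lf (nat_lit 12) (nat_lit 229)))))) q101349 (by decide +kernel)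
def q101357 : Q := Q.p (nat_lit 0x60000380000b0000080000000000000000000000000000000000000000000000) (nat_lit 0x700000c00000000000000000000000000000000000000000) (nat_lit 3)
theorem c101357 : QOK q101357 := cut [] trivial (nd (nat_lit 189) (nat_lit 0) (cs (lf (nat_lit 36) (nat_lit 166)) (nd (nat_lit 188) (nat_lit 0) (cs (lf (nat_lit 6) (nat_lit 186)) (lf (nat_lit 35) (nat_lit 165)))))) q101357 (by decide +kernel)
def q101382 : Q := Q.p (nat_lit 0x1e000000000000000000000000000000000000000000000000000000000) (nat_lit 0x1c00002000001c000000000000000000000000000000000000000000000000000) (nat_lit 4)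
theorem c101382 : QOK q101382 := cut [] trivial (nd (nat_lit 255) (nat_lit 0) (cs (lf (nat_lit 4) (nat_lit 229)) (nd (nat_lit 207) (nat_lit 0) (cs (lf (nat_lit 23) (nat_lit 206)) (nd (nat_lit 233) (nat_lit 0) (cs (lf (nat_lit 5) (nat_lit 230)) (lf (nat_lit 22) (nat_lit 207)))))))) q101382 (by decide +kernel)
def q101442 : Q := Q.p (nat_lit 0x2000038000040000000000000000000000000000000000000000000000000000) (nat_lit 0x10000c0000720000000000000000000000000000000000000000000000000000) (nat_lit 4)
theorem c101442 : QOK q101442 := cut [] trivial (nd (nat_lit 234) (nat_lit 0) (cs (lf (nat_lit 11) (nat_lit 230)) (nd (nat_lit 213) (nat_lit 0) (cs (lf (nat_lit 16) (nat_lit 209)) (nd (nat_lit 235) (nat_lit 0) (cs (lf (nat_lit 17) (nat_lit 210)) (lf (nat_lit 23) (nat_lit 209)))))))) q101442 (by decide +kernel)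
def q101492 : Q := Q.p (nat_lit 0x3c000040000000000000000000000000000000000000000000000000000) (nat_lit 0x380000c0000030000000000000000000000000000000000000000000000000000) (nat_lit 4)
theorem c101492 : QOK q101492 := cut [] trivial (nd (nat_lit 256) (nat_lit 0) (cs (lf (nat_lit 4) (nat_lit 230)) (nd (nat_lit 234) (nat_lit 0) (cs (lf (nat_lit 5) (nat_lit 231)) (nd (nat_lit 209) (nat_lit 0) (cs (lf (nat_lit 18) (nat_lit 209)) (lf (nat_lit 23) (nat_lit 208)))))))) q101492 (by decide +kernel)
def q101528 : Q := Q.p (nat_lit 0x380001800000000000000000000000000000000000000000000000000000000000000000000) (nat_lit 0x400002400000000000000000000000000000000000000000000000000000000000000000000) (nat_lit 2)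
theorem c101528 : QOK q101528 := cut [] trivial (nd (nat_lit 277) (nat_lit 0) (cs (lf (nat_lit 9) (nat_lit 273)) (lf (nat_lit 15) (nat_lit 273)))) q101528 (by decide +kernel)
def q101592 : Q := Q.p (nat_lit 0x1800006000008000000000000000000000000000000000000000000000000000000000) (nat_lit 0x100000400000000000000000000020000000000000000000000000000000000000000000000000000) (nat_lit 2)
theorem c101592 : QOK q101592 := cut [] trivial (nd (nat_lit 298) (nat_lit 0) (cs (lf (nat_lit 24) (nat_lit 209)) (lf (nat_lit 42) (nat_lit 231)))) q101592 (by decide +kernel)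
def q101609 : Q := Q.p (nat_lit 0x1e00006000008000000000000000000000000000000000000000000000000000000000) (nat_lit 0x100000c00000000000000000000000000000000000000000000000000000000000000000000000000) (nat_lit 2)
theorem c101609 : QOK q101609 := cut [] trivial (nd (nat_lit 298) (nat_lit 0) (cs (lf (nat_lit 5) (nat_lit 273)) (lf (nat_lit 42) (nat_lit 231)))) q101609 (by decide +kernel)
def q101650 : Q := Q.p (nat_lit 0x1800003000000000000000000000000000000000000000000000000000000000000000) (nat_lit 0x2400004c00000000000000000000000000000000000000000000000000000000000000) (nat_lit 3)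
theorem c101650 : QOK q101650 := cut [] trivial (nd (nat_lit 251) (nat_lit 0) (cs (lf (nat_lit 0) (nat_lit 250)) (nd (nat_lit 277) (nat_lit 0) (cs (lf (nat_lit 21) (nat_lit 251)) (lf (nat_lit 3) (nat_lit 251)))))) q101650 (by decide +kernel)
def q101725 : Q := Q.p (nat_lit 0x80000300000c000000000000000000000000000000000000000000000000000000000000000) (nat_lit 0x200000000000000000000010000040000000000000000000000000000000000000000000000000000) (nat_lit 2)
theorem c101725 : QOK q101725 := cut [] trivial (nd (nat_lit 232) (nat_lit 0) (cs (lf (nat_lit 42) (nat_lit 232)) (lf (nat_lit 24) (nat_lit 210)))) q101725 (by decide +kernel)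
def q101763 : Q := Q.p (nat_lit 0xe0000180000000000000000000000000000000000000000000000000000) (nat_lit 0x300000040000000000000000000000000000000000000000000000000000) (nat_lit 2)
theorem c101763 : QOK q101763 := cut [] trivial (nd (nat_lit 236) (nat_lit 0) (cs (lf (nat_lit 18) (nat_lit 211)) (lf (nat_lit 23) (nat_lit 210)))) q101763 (by decide +kernel)
def q101776 : Q := Q.p (nat_lit 0x180000e000030000000000000000000000000000000000000000000000000000000000) (nat_lit 0x300000c00002000000000000000040000100000000000000000000000000000000000000000000000) (nat_lit 4)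
theorem c101776 : QOK q101776 := cut [] trivial (nd (nat_lit 298) (nat_lit 0) (cs (lf (nat_lit 30) (nat_lit 232)) (nd (nat_lit 299) (nat_lit 0) (cs (lf (nat_lit 29) (nat_lit 232)) (nd (nat_lit 210) (nat_lit 0) (cs (lf (nat_lit 36) (nat_lit 187)) (lf (nat_lit 43) (nat_lit 210)))))))) q101776 (by decide +kernel)
def q101778 : Q := Q.p (nat_lit 0x3c0000c000010000000000000000000000000000000000000000000000000000000000) (nat_lit 0x200001800000000000000000000000000000000000000000000000000000000000000000000000000) (nat_lit 2)
theorem c101778 : QOK q101778 := cut [] trivial (nd (nat_lit 299) (nat_lit 0) (cs (lf (nat_lit 5) (nat_lit 274)) (lf (nat_lit 42) (nat_lit 232)))) q101778 (by decide +kernel)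
def q101786 : Q := Q.p (nat_lit 0x38000180000000000000000000000000000000000000000000000000000) (nat_lit 0x640000000000000000000000000000000000000000000000000000) (nat_lit 2)
theorem c101786 : QOK q101786 := cut [] trivial (nd (nat_lit 213) (nat_lit 0) (cs (lf (nat_lit 6) (nat_lit 210)) (lf (nat_lit 9) (nat_lit 209)))) q101786 (by decide +kernel)
def q101792 : Q := Q.p (nat_lit 0x8000030000080000200000000000000000000000000000000000000000000000) (nat_lit 0x1000004000000000000000000000800000000000000000000000000000000000000000) (nat_lit 2)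
theorem c101792 : QOK q101792 := cut [] trivial (nd (nat_lit 254) (nat_lit 0) (cs (lf (nat_lit 36) (nat_lit 166)) (lf (nat_lit 41) (nat_lit 188)))) q101792 (by decide +kernel)
def q101881 : Q := Q.p (nat_lit 0xc0000e000000000000000000000000000000000000000000000000000000000000000) (nat_lit 0x1300000000000000000000000000000000000000000000000000000000000000000000) (nat_lit 2)
theorem c101881 : QOK q101881 := cut [] trivial (nd (nat_lit 273) (nat_lit 0) (cs (lf (nat_lit 12) (nat_lit 250)) (lf (nat_lit 15) (nat_lit 251)))) q101881 (by decide +kernel)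
def q101963 : Q := Q.p (nat_lit 0x80000200000c000000000000000000000000000000000000000000000000000000000) (nat_lit 0x100000c0000700007c00007c000140001c000013000010000000000000000000000000000000000000000000000000000) (nat_lit 13)
theorem c101963 : QOK q101963 := cut [] trivial (nd (nat_lit 297) (nat_lit 0) (cs (lf (nat_lit 47) (nat_lit 208)) (nd (nat_lit 296) (nat_lit 0) (cs (lf (nat_lit 41) (nat_lit 230)) (nd (nat_lit 320) (nat_lit 0) (cs (lf (nat_lit 28) (nat_lit 231)) (nd (nat_lit 319) (nat_lit 0) (cs (lf (nat_lit 29) (nat_lit 253)) (nd (nat_lit 254) (nat_lit 0) (cs (lf (nat_lit 35) (nat_lit 231)) (nd (nat_lit 321) (nat_lit 0) (cs (lf (nat_lit 18) (nat_lit 296)) (nd (nat_lit 228) (nat_lit 0) (cs (lf (nat_lit 1) (nat_lit 228)) (nd (nat_lit 255) (nat_lit 0) (cs (lf (nat_lit 18) (nat_lit 230)) (nd (nat_lit 294) (nat_lit 0) (cs (lf (nat_lit 1) (nat_lit 294)) (nd (nat_lit 341) (nat_lit 0) (cs (lf (nat_lit 34) (nat_lit 253)) (nd (nat_lit 362) (nat_lit 0) (cs (lf (nat_lit 40) (nat_lit 274)) (nd (nat_lit 363) (nat_lit 0) (cs (lf (nat_lit 41) (nat_lit 296))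 (lf (nat_lit 47) (nat_lit 274)))))))))))))))))))))))))) q101963 (by decide +kernel)
def q101972 : Q := Q.p (nat_lit 0x100000c00006000006000000000000000000000000000000000000000000000000000000000) (nat_lit 0x300001800000000008000000000000000000000000000000000000000000000000000) (nat_lit 3)
theorem c101972 : QOK q101972 := cut [] trivial (nd (nat_lit 273) (nat_lit 0) (cs (lf (nat_lit 12) (nat_lit 250)) (nd (nat_lit 207) (nat_lit 0) (cs (lf (nat_lit 26) (nat_lit 207)) (lf (nat_lit 44) (nat_lit 207)))))) q101972 (by decide +kernel)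
def q101980 : Q := Q.p (nat_lit 0x300000c00006000018000000000000000000000000000000000000000000000000000000000) (nat_lit 0x700001c00001000000000000000000000000000000000000000000000000000000000000000000000) (nat_lit 4)
theorem c101980 : QOK q101980 := cut [] trivial (nd (nat_lit 298) (nat_lit 0) (cs (lf (nat_lit 29) (nat_lit 231)) (nd (nat_lit 299) (nat_lit 0) (cs (lf (nat_lit 18) (nat_lit 274)) (nd (nat_lit 321) (nat_lit 0) (cs (lf (nat_lit 5) (nat_lit 296)) (lf (nat_lit 26) (nat_lit 232)))))))) q101980 (by decide +kernel)
def q101985 : Q := Q.p (nat_lit 0x200000800006000004000000000000000000000000000000000000000000000000000000000) (nat_lit 0x80000000000000001000010000000000000000000000000000000000000000000000000000000000) (nat_lit 2)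
theorem c101985 : QOK q101985 := cut [] trivial (nd (nat_lit 319) (nat_lit 0) (cs (lf (nat_lit 46) (nat_lit 230)) (lf (nat_lit 35) (nat_lit 231)))) q101985 (by decide +kernel)
def q102020 : Q := Q.p (nat_lit 0x18000070000020000000000000000000000000000000000000000000000) (nat_lit 0xc000010000000000000000000000000000000000000000000000) (nat_lit 2)
theorem c102020 : QOK q102020 := cut [] trivial (nd (nat_lit 207) (nat_lit 0) (cs (lf (nat_lit 23) (nat_lit 184)) (lf (nat_lit 0) (nat_lit 206)))) q102020 (by decide +kernel)
def q102032 : Q := Q.p (nat_lit 0x40000200000800002000004000000000000000000000000000000000000000000000000000000000) (nat_lit 0x10000080000000000000001000000000000000000000000000000000000000000000000000000000000000) (nat_lit 2)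
theorem c102032 : QOK q102032 := cut [] trivial (nd (nat_lit 319) (nat_lit 0) (cs (lf (nat_lit 41) (nat_lit 252)) (lf (nat_lit 46) (nat_lit 230)))) q102032 (by decide +kernel)
def q102039 : Q := Q.p (nat_lit 0x1000002000018000020000000000000000000000000000000000000000000000000000) (nat_lit 0x400000000004000000000000000080000000000000000000000000000000000000000000000) (nat_lit 2)
theorem c102039 : QOK q102039 := cut [] trivial (nd (nat_lit 254) (nat_lit 0) (cs (lf (nat_lit 42) (nat_lit 209)) (lf (nat_lit 24) (nat_lit 187)))) q102039 (by decide +kernel)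
def q102040 : Q := Q.p (nat_lit 0x800002000018000010000000000000000000000000000000000000000000000000000) (nat_lit 0x200000000000000004000040000000000000000000000000000000000000000000000000000) (nat_lit 2)
theorem c102040 : QOK q102040 := cut [] trivial (nd (nat_lit 297) (nat_lit 0) (cs (lf (nat_lit 46) (nat_lit 208)) (lf (nat_lit 35) (nat_lit 209)))) q102040 (by decide +kernel)
def q102042 : Q := Q.p (nat_lit 0x1000006800018000000000000000000000000000000000000000000000000000000000) (nat_lit 0x2000001400000000000000000000000000000000000000000000000000000000000000) (nat_lit 2)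
theorem c102042 : QOK q102042 := cut [] trivial (nd (nat_lit 252) (nat_lit 0) (cs (lf (nat_lit 12) (nat_lit 228)) (lf (nat_lit 5) (nat_lit 251)))) q102042 (by decide +kernel)
def q102052 : Q := Q.p (nat_lit 0x600001a000000000000000000000000000000000000000000000000000000000) (nat_lit 0x8000005000000000000000000000000000000000000000000000000000000000) (nat_lit 2)
theorem c102052 : QOK q102052 := cut [] trivial (nd (nat_lit 230) (nat_lit 0) (cs (lf (nat_lit 5) (nat_lit 229)) (lf (nat_lit 0) (nat_lit 228)))) q102052 (by decide +kernel)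
def q102059 : Q := Q.p (nat_lit 0x3e000000000000000000000000000000000000000000000000000000000) (nat_lit 0x1c00000000000000000000000000000000000000000000000000000000000000) (nat_lit 2)
theorem c102059 : QOK q102059 := cut [] trivial (nd (nat_lit 251) (nat_lit 0) (cs (lf (nat_lit 11) (nat_lit 228)) (lf (nat_lit 10) (nat_lit 229)))) q102059 (by decide +kernel)
def q102066 : Q := Q.p (nat_lit 0x3c000030000000000000000000000000000000000000000000000000000) (nat_lit 0xe000038001c0000000000000000000000000000000000000000000000000000) (nat_lit 5)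
theorem c102066 : QOK q102066 := cut [] trivial (nd (nat_lit 211) (nat_lit 0) (cs (lf (nat_lit 17) (nat_lit 208)) (nd (nat_lit 229) (nat_lit 0) (cs (lf (nat_lit 16) (nat_lit 207)) (nd (nat_lit 250) (nat_lit 0) (cs (lf (nat_lit 10) (nat_lit 228)) (nd (nat_lit 228) (nat_lit 0) (cs (lf (nat_lit 12) (nat_lit 205)) (lf (nat_lit 11) (nat_lit 227)))))))))) q102066 (by decide +kernel)
def q102108 : Q := Q.p (nat_lit 0x1000006800010000040000000000000000000000000000000000000000000000000000) (nat_lit 0x800002000001000000000000000000000000000000000000000000000000000000000000000) (nat_lit 2)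
theorem c102108 : QOK q102108 := cut [] trivial (nd (nat_lit 277) (nat_lit 0) (cs (lf (nat_lit 29) (nat_lit 210)) (lf (nat_lit 1) (nat_lit 251)))) q102108 (by decide +kernel)
def q102140 : Q := Q.p (nat_lit 0x200000c000010000000000000000000000000000000000000000000000000000) (nat_lit 0x800001000000000020000040000100000000000000000000000000000000000000000) (nat_lit 3)
theorem c102140 : QOK q102140 := cut [] trivial (nd (nat_lit 186) (nat_lit 0) (cs (lf (nat_lit 24) (nat_lit 164)) (nd (nat_lit 275) (nat_lit 0) (cs (lf (nat_lit 27) (nat_lit 186)) (lf (nat_lit 45) (nat_lit 186)))))) q102140 (by decide +kernel)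
def q102176 : Q := Q.p (nat_lit 0xe000020000000000000000000000000000000000000000000000000000) (nat_lit 0x10001d0000000000000000000000000000000000000000000000000000) (nat_lit 3)
theorem c102176 : QOK q102176 := cut [] trivial (nd (nat_lit 210) (nat_lit 0) (cs (lf (nat_lit 12) (nat_lit 206)) (nd (nat_lit 211) (nat_lit 0) (cs (lf (nat_lit 6) (nat_lit 208)) (lf (nat_lit 9) (nat_lit 207)))))) q102176 (by decide +kernel)
def q102199 : Q := Q.p (nat_lit 0x200000c00003c00008000000000000000000000000000000000000000000000000000000000) (nat_lit 0x100000400000380000000000000000000000000000000000000000000000000000000000000000000) (nat_lit 3)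
theorem c102199 : QOK q102199 := cut [] trivial (nd (nat_lit 298) (nat_lit 0) (cs (lf (nat_lit 29) (nat_lit 231)) (nd (nat_lit 272) (nat_lit 0) (cs (lf (nat_lit 11) (nat_lit 249)) (lf (nat_lit 1) (nat_lit 272)))))) q102199 (by decide +kernel)
def q102237 : Q := Q.p (nat_lit 0x300003c0000e0000000000000000000000000000000000000000000000000000) (nat_lit 0xd0000360001c000000000000000200000000000000000000000000000000000000000000000) (nat_lit 6)
theorem c102237 : QOK q102237 := cut [] trivial (nd (nat_lit 255) (nat_lit 0) (cs (lf (nat_lit 5) (nat_lit 230)) (nd (nat_lit 277) (nat_lit 0) (cs (lf (nat_lit 42) (nat_lit 210)) (nd (nat_lit 274) (nat_lit 0) (cs (lf (nat_lit 30) (nat_lit 208)) (nd (nat_lit 276) (nat_lit 0) (cs (lf (nat_lit 41) (nat_lit 210)) (nd (nat_lit 254) (nat_lit 0) (cs (lf (nat_lit 11) (nat_lit 251)) (lf (nat_lit 36) (nat_lit 188)))))))))))) q102237 (by decide +kernel)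
def q102284 : Q := Q.p (nat_lit 0x7800008000000000000000000000000000000000000000000000000000000000) (nat_lit 0x100000400003000000000030000020000000000000000000000000000000000000000000000000000) (nat_lit 4)
theorem c102284 : QOK q102284 := cut [] trivial (nd (nat_lit 276) (nat_lit 0) (cs (lf (nat_lit 5) (nat_lit 251)) (nd (nat_lit 298) (nat_lit 0) (cs (lf (nat_lit 42) (nat_lit 231)) (nd (nat_lit 232) (nat_lit 0) (cs (lf (nat_lit 17) (nat_lit 229)) (lf (nat_lit 47) (nat_lit 209)))))))) q102284 (by decide +kernel)
def q102338 : Q := Q.p (nat_lit 0x200000e000030000000000000000000000000000000000000000000000000000) (nat_lit 0x4000001800000000000000000000000000000000000000000000000000000000) (nat_lit 2)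
theorem c102338 : QOK q102338 := cut [] trivial (nd (nat_lit 228) (nat_lit 0) (cs (lf (nat_lit 12) (nat_lit 205)) (lf (nat_lit 5) (nat_lit 228)))) q102338 (by decide +kernel)
def q102423 : Q := Q.p (nat_lit 0x6000038000020000080000000000000000000000000000000000000000000000) (nat_lit 0x400001800000000000000000000000000000000000000000000000000000000000000) (nat_lit 2)
theorem c102423 : QOK q102423 := cut [] trivial (nd (nat_lit 252) (nat_lit 0) (cs (lf (nat_lit 41) (nat_lit 186)) (lf (nat_lit 12) (nat_lit 229)))) q102423 (by decide +kernel)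
def q102428 : Q := Q.p (nat_lit 0x2000018000060000080000000000000000000000000000000000000000000000) (nat_lit 0x40000300000c00000000000000000000000000000000000) (nat_lit 3)
theorem c102428 : QOK q102428 := cut [] trivial (nd (nat_lit 164) (nat_lit 0) (cs (lf (nat_lit 46) (nat_lit 164)) (nd (nat_lit 165) (nat_lit 0) (cs (lf (nat_lit 47) (nat_lit 142)) (lf (nat_lit 24) (nat_lit 143)))))) q102428 (by decide +kernel)
def q102436 : Q := Q.p (nat_lit 0xc000038000040000100000000000000000000000000000000000000000000000) (nat_lit 0x10000000000000003a0001e00001800000000000000000000000000000000000000000) (nat_lit 6)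
theorem c102436 : QOK q102436 := cut [] trivial (nd (nat_lit 189) (nat_lit 0) (cs (lf (nat_lit 35) (nat_lit 166)) (nd (nat_lit 211) (nat_lit 0) (cs (lf (nat_lit 30) (nat_lit 188)) (nd (nat_lit 212) (nat_lit 0) (cs (lf (nat_lit 6) (nat_lit 209)) (nd (nat_lit 190) (nat_lit 0) (cs (lf (nat_lit 35) (nat_lit 167)) (nd (nat_lit 191) (nat_lit 0) (cs (lf (nat_lit 12) (nat_lit 187)) (lf (nat_lit 6) (nat_lit 188)))))))))))) q102436 (by decide +kernel)
def q102501 : Q := Q.p (nat_lit 0x8000030000040000000000000000000000000000000000000000000000000000) (nat_lit 0x800002000004000000000000000100000400000000000000000000000000000000000000000) (nat_lit 3)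
theorem c102501 : QOK q102501 := cut [] trivial (nd (nat_lit 277) (nat_lit 0) (cs (lf (nat_lit 42) (nat_lit 210)) (nd (nat_lit 188) (nat_lit 0) (cs (lf (nat_lit 24) (nat_lit 166)) (lf (nat_lit 27) (nat_lit 188)))))) q102501 (by decide +kernel)
def q102582 : Q := Q.p (nat_lit 0x3c000008000000000000000000000000000000000000000000000000000) (nat_lit 0x20001c4000000000000000000000000000000000000000000000000000) (nat_lit 3)
theorem c102582 : QOK q102582 := cut [] trivial (nd (nat_lit 211) (nat_lit 0) (cs (lf (nat_lit 17) (nat_lit 208)) (nd (nat_lit 229) (nat_lit 0) (cs (lf (nat_lit 23) (nat_lit 206)) (lf (nat_lit 16) (nat_lit 207)))))) q102582 (by decide +kernel)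
def q102602 : Q := Q.p (nat_lit 0x8000060000080000200000000000000000000000000000000000000000) (nat_lit 0x4000010000000000000000000000800000000000000000000000000000000000) (nat_lit 2)
theorem c102602 : QOK q102602 := cut [] trivial (nd (nat_lit 232) (nat_lit 0) (cs (lf (nat_lit 24) (nat_lit 143)) (lf (nat_lit 29) (nat_lit 165)))) q102602 (by decide +kernel)
def q102629 : Q := Q.p (nat_lit 0x300001a000060000000000000000000000000000000000000000000000000000) (nat_lit 0x4c00005000000000000000000000000000000000000000000000000000000000) (nat_lit 3)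
theorem c102629 : QOK q102629 := cut [] trivial (nd (nat_lit 228) (nat_lit 0) (cs (lf (nat_lit 14) (nat_lit 206)) (nd (nat_lit 251) (nat_lit 0) (cs (lf (nat_lit 12) (nat_lit 228)) (lf (nat_lit 18) (nat_lit 228)))))) q102629 (by decide +kernel)
def q102668 : Q := Q.p (nat_lit 0x80000200000c000020000000000000000000000000000000000000000000000000000000000) (nat_lit 0x100001c0000700001000001000000000000000000000000000000000000000000000000000000000000000000000) (nat_lit 5)
theorem c102668 : QOK q102668 := cut [] trivial (nd (nat_lit 322) (nat_lit 0) (cs (lf (nat_lit 28) (nat_lit 233)) (nd (nat_lit 321) (nat_lit 0) (cs (lf (nat_lit 29) (nat_lit 255)) (nd (nat_lit 342) (nat_lit 0) (cs (lf (nat_lit 40) (nat_lit 254)) (nd (nat_lit 343) (nat_lit 0) (cs (lf (nat_lit 41) (nat_lit 276)) (lf (nat_lit 46) (nat_lit 254)))))))))) q102668 (by decide +kernel)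
def q102705 : Q := Q.p (nat_lit 0xc000068000020000000000000000000000000000000000000000000000000000) (nat_lit 0x10000100000100000d0000600001800004000000000000000000000000000000000000) (nat_lit 6)
theorem c102705 : QOK q102705 := cut [] trivial (nd (nat_lit 208) (nat_lit 0) (cs (lf (nat_lit 20) (nat_lit 208)) (nd (nat_lit 211) (nat_lit 0) (cs (lf (nat_lit 2) (nat_lit 208)) (nd (nat_lit 189) (nat_lit 0) (cs (lf (nat_lit 41) (nat_lit 188)) (nd (nat_lit 168) (nat_lit 0) (cs (lf (nat_lit 34) (nat_lit 167)) (nd (nat_lit 167) (nat_lit 0) (cs (lf (nat_lit 29) (nat_lit 167)) (lf (nat_lit 35) (nat_lit 145)))))))))))) q102705 (by decide +kernel)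
def q102803 : Q := Q.p (nat_lit 0xc000010000040000100000000000000000000000000000000000000000000000) (nat_lit 0x20000000000200000c00002000000000000000000000000000000000000) (nat_lit 3)
theorem c102803 : QOK q102803 := cut [] trivial (nd (nat_lit 167) (nat_lit 0) (cs (lf (nat_lit 34) (nat_lit 166)) (nd (nat_lit 166) (nat_lit 0) (cs (lf (nat_lit 35) (nat_lit 144)) (lf (nat_lit 28) (nat_lit 166)))))) q102803 (by decide +kernel)
def q102808 : Q := Q.p (nat_lit 0x3000007000000000000000000000000000000000000000000000000000000000000000) (nat_lit 0xc000008000000000000000000000000000000000000000000000000000000000000000) (nat_lit 2)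
theorem c102808 : QOK q102808 := cut [] trivial (nd (nat_lit 278) (nat_lit 0) (cs (lf (nat_lit 18) (nat_lit 253)) (lf (nat_lit 3) (nat_lit 252)))) q102808 (by decide +kernel)
def q102812 : Q := Q.p (nat_lit 0x6000030000000000000000000000000000000000000000000000000000000000) (nat_lit 0x98000c0000000000000000000000000000000000000000000000000000000000) (nat_lit 3)
theorem c102812 : QOK q102812 := cut [] trivial (nd (nat_lit 234) (nat_lit 0) (cs (lf (nat_lit 6) (nat_lit 231)) (nd (nat_lit 252) (nat_lit 0) (cs (lf (nat_lit 12) (nat_lit 229)) (lf (nat_lit 15) (nat_lit 230)))))) q102812 (by decide +kernel)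
def q102824 : Q := Q.p (nat_lit 0x4000010000040000100000000000000000000000000000000000000000000000) (nat_lit 0x2000008000020000000000080000600000800000000000000000000000000000000000) (nat_lit 4)
theorem c102824 : QOK q102824 := cut [] trivial (nd (nat_lit 165) (nat_lit 0) (cs (lf (nat_lit 46) (nat_lit 165)) (nd (nat_lit 255) (nat_lit 0) (cs (lf (nat_lit 29) (nat_lit 188)) (nd (nat_lit 166) (nat_lit 0) (cs (lf (nat_lit 47) (nat_lit 143)) (lf (nat_lit 28) (nat_lit 166)))))))) q102824 (by decide +kernel)
def q102884 : Q := Q.p (nat_lit 0xf000010000000000000000000000000000000000000000000000000000000000) (nat_lit 0x40000f800070000066000080000200000000000000000000000000000000000000000000000) (nat_lit 8)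
theorem c102884 : QOK q102884 := cut [] trivial (nd (nat_lit 278) (nat_lit 0) (cs (lf (nat_lit 4) (nat_lit 252)) (nd (nat_lit 233) (nat_lit 0) (cs (lf (nat_lit 17) (nat_lit 230)) (nd (nat_lit 256) (nat_lit 0) (cs (lf (nat_lit 5) (nat_lit 253)) (nd (nat_lit 211) (nat_lit 0) (cs (lf (nat_lit 24) (nat_lit 189)) (nd (nat_lit 229) (nat_lit 0) (cs (lf (nat_lit 22) (nat_lit 229)) (nd (nat_lit 276) (nat_lit 0) (cs (lf (nat_lit 30) (nat_lit 210)) (nd (nat_lit 257) (nat_lit 0) (cs (lf (nat_lit 18) (nat_lit 232)) (lf (nat_lit 11) (nat_lit 253)))))))))))))))) q102884 (by decide +kernel)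
def q102896 : Q := Q.p (nat_lit 0x1000006000010000040000000000000000000000000000000000000000000000000000) (nat_lit 0x600003e0000e00002e00018000020000000000000000000000000000000000000000000000000000000000) (nat_lit 9)
theorem c102896 : QOK q102896 := cut [] trivial (nd (nat_lit 299) (nat_lit 0) (cs (lf (nat_lit 28) (nat_lit 210)) (nd (nat_lit 275) (nat_lit 0) (cs (lf (nat_lit 41) (nat_lit 209)) (nd (nat_lit 298) (nat_lit 0) (cs (lf (nat_lit 29) (nat_lit 232)) (nd (nat_lit 320) (nat_lit 0) (cs (lf (nat_lit 42) (nat_lit 253)) (nd (nat_lit 319) (nat_lit 0) (cs (lf (nat_lit 41) (nat_lit 253)) (nd (nat_lit 317) (nat_lit 0) (cs (lf (nat_lit 13) (nat_lit 295)) (nd (nat_lit 274) (nat_lit 0) (cs (lf (nat_lit 0) (nat_lit 273)) (nd (nat_lit 255) (nat_lit 0) (cs (lf (nat_lit 6) (nat_lit 252)) (lf (nat_lit 35) (nat_lit 232)))))))))))))))))) q102896 (by decide +kernel)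
def q102906 : Q := Q.p (nat_lit 0x1000004000016000040000000000000000000000000000000000000000000000000000) (nat_lit 0xb0000280000000000000000000000000000000000000000000000) (nat_lit 3)
theorem c102906 : QOK q102906 := cut [] trivial (nd (nat_lit 209) (nat_lit 0) (cs (lf (nat_lit 47) (nat_lit 187)) (nd (nat_lit 211) (nat_lit 0) (cs (lf (nat_lit 35) (nat_lit 188)) (lf (nat_lit 9) (nat_lit 207)))))) q102906 (by decide +kernel)
def q102935 : Q := Q.p (nat_lit 0x80000f000000000000000000000000000000000000000000000000000000000000000) (nat_lit 0x600010000000000000000000000000000000000000000000000000000000000000000) (nat_lit 2)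
theorem c102935 : QOK q102935 := cut [] trivial (nd (nat_lit 274) (nat_lit 0) (cs (lf (nat_lit 6) (nat_lit 252)) (lf (nat_lit 11) (nat_lit 251)))) q102935 (by decide +kernel)
def q102948 : Q := Q.p (nat_lit 0x1000004000014000050000000000000000000000000000000000000000000000000000) (nat_lit 0x20000a0000280000000000000000000000000000000000000000000000) (nat_lit 3)
theorem c102948 : QOK q102948 := cut [] trivial (nd (nat_lit 211) (nat_lit 0) (cs (lf (nat_lit 35) (nat_lit 188)) (nd (nat_lit 209) (nat_lit 0) (cs (lf (nat_lit 11) (nat_lit 207)) (lf (nat_lit 47) (nat_lit 187)))))) q102948 (by decide +kernel)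
def q102964 : Q := Q.p (nat_lit 0x100000c000030000000000000000000000000000000000000000000000000000000000) (nat_lit 0x100000400000000000000000000080000000000000000000000000000000000000000000000000000) (nat_lit 2)
theorem c102964 : QOK q102964 := cut [] trivial (nd (nat_lit 298) (nat_lit 0) (cs (lf (nat_lit 35) (nat_lit 210)) (lf (nat_lit 30) (nat_lit 232)))) q102964 (by decide +kernel)
def q103002 : Q := Q.p (nat_lit 0xc000030000040000000000000000000000000000000000000000000000000000) (nat_lit 0x800002000000000000000000000100000000000000000000000000000000000000000000000) (nat_lit 2)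
theorem c103002 : QOK q103002 := cut [] trivial (nd (nat_lit 277) (nat_lit 0) (cs (lf (nat_lit 42) (nat_lit 210)) (lf (nat_lit 24) (nat_lit 188)))) q103002 (by decide +kernel)
def q103007 : Q := Q.p (nat_lit 0x2200007000000000000000000000000000000000000000000000000000000000000000) (nat_lit 0x4400008000000000000000000000000000000000000000000000000000000000000000) (nat_lit 2)
theorem c103007 : QOK q103007 := cut [] trivial (nd (nat_lit 255) (nat_lit 0) (cs (lf (nat_lit 10) (nat_lit 251)) (lf (nat_lit 5) (nat_lit 252)))) q103007 (by decide +kernel)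
def q103019 : Q := Q.p (nat_lit 0x10000070000300000c0000000000000000000000000000000000000000000000000000) (nat_lit 0x2000008000000000040000380000e0000000000000000000000000000000000000000000000) (nat_lit 5)
theorem c103019 : QOK q103019 := cut [] trivial (nd (nat_lit 275) (nat_lit 0) (cs (lf (nat_lit 41) (nat_lit 209)) (nd (nat_lit 209) (nat_lit 0) (cs (lf (nat_lit 47) (nat_lit 187)) (nd (nat_lit 208) (nat_lit 0) (cs (lf (nat_lit 0) (nat_lit 207)) (nd (nat_lit 186) (nat_lit 0) (cs (lf (nat_lit 23) (nat_lit 185)) (lf (nat_lit 26) (nat_lit 186)))))))))) q103019 (by decide +kernel)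
def q103029 : Q := Q.p (nat_lit 0x300001c0000000000000000000000000000000000000000000000000000) (nat_lit 0x20000180000620001c00001000004000000000000000000000000000000000000) (nat_lit 6)
theorem c103029 : QOK q103029 := cut [] trivial (nd (nat_lit 213) (nat_lit 0) (cs (lf (nat_lit 6) (nat_lit 210)) (nd (nat_lit 235) (nat_lit 0) (cs (lf (nat_lit 5) (nat_lit 210)) (nd (nat_lit 191) (nat_lit 0) (cs (lf (nat_lit 17) (nat_lit 188)) (nd (nat_lit 190) (nat_lit 0) (cs (lf (nat_lit 12) (nat_lit 187)) (nd (nat_lit 168) (nat_lit 0) (cs (lf (nat_lit 42) (nat_lit 168)) (lf (nat_lit 36) (nat_lit 145)))))))))))) q103029 (by decide +kernel)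
def q103057 : Q := Q.p (nat_lit 0x10000040000100000400001000000000000000000000000000000000000) (nat_lit 0x8000020000080000000000000000000000000000000000000000000000000000) (nat_lit 2)
theorem c103057 : QOK q103057 := cut [] trivial (nd (nat_lit 233) (nat_lit 0) (cs (lf (nat_lit 29) (nat_lit 166)) (lf (nat_lit 28) (nat_lit 144)))) q103057 (by decide +kernel)
def q103074 : Q := Q.p (nat_lit 0x40000700000c0000000000000000000000000000000000000000000000000000) (nat_lit 0x400001000000000000000030000080000000000000000000000000000000000000000000000) (nat_lit 3)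
theorem c103074 : QOK q103074 := cut [] trivial (nd (nat_lit 209) (nat_lit 0) (cs (lf (nat_lit 0) (nat_lit 208)) (nd (nat_lit 276) (nat_lit 0) (cs (lf (nat_lit 30) (nat_lit 210)) (lf (nat_lit 47) (nat_lit 187)))))) q103074 (by decide +kernel)
def q103091 : Q := Q.p (nat_lit 0x100000f000010000000000000000000000000000000000000000000000000000000000) (nat_lit 0x80000700006e00000000006000040000100000000000000000000000000000000000000000000000) (nat_lit 7)
theorem c103091 : QOK q103091 := cut [] trivial (nd (nat_lit 274) (nat_lit 0) (cs (lf (nat_lit 11) (nat_lit 251)) (nd (nat_lit 230) (nat_lit 0) (cs (lf (nat_lit 23) (nat_lit 229)) (nd (nat_lit 277) (nat_lit 0) (cs (lf (nat_lit 5) (nat_lit 252)) (nd (nat_lit 210) (nat_lit 0) (cs (lf (nat_lit 24) (nat_lit 188)) (nd (nat_lit 297) (nat_lit 0) (cs (lf (nat_lit 40) (nat_lit 209)) (nd (nat_lit 319) (nat_lit 0) (cs (lf (nat_lit 39) (nat_lit 231)) (lf (nat_lit 27) (nat_lit 230)))))))))))))) q103091 (by decide +kernel)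
def q103107 : Q := Q.p (nat_lit 0x78000000000000000000000000000000000000000000000000000000000) (nat_lit 0x70000080000700000000000000000000000000000000000000000000000000000) (nat_lit 4)
theorem c103107 : QOK q103107 := cut [] trivial (nd (nat_lit 213) (nat_lit 0) (cs (lf (nat_lit 16) (nat_lit 209)) (nd (nat_lit 257) (nat_lit 0) (cs (lf (nat_lit 4) (nat_lit 231)) (nd (nat_lit 235) (nat_lit 0) (cs (lf (nat_lit 17) (nat_lit 210)) (lf (nat_lit 5) (nat_lit 232)))))))) q103107 (by decide +kernel)
def q103127 : Q := Q.p (nat_lit 0x38000100000000000000000000000000000000000000000000000000000) (nat_lit 0x400006c0000000000000000000000000000000000000000000000000000) (nat_lit 3)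
theorem c103127 : QOK q103127 := cut [] trivial (nd (nat_lit 213) (nat_lit 0) (cs (lf (nat_lit 15) (nat_lit 209)) (nd (nat_lit 211) (nat_lit 0) (cs (lf (nat_lit 6) (nat_lit 210)) (lf (nat_lit 9) (nat_lit 209)))))) q103127 (by decide +kernel)
def q103134 : Q := Q.p (nat_lit 0x400001800002000008000000000000000000000000000000000000000000000000000000000) (nat_lit 0x40000100000200000000000000000000000000000000000000000000000000000000000000000000000000) (nat_lit 2)
theorem c103134 : QOK q103134 := cut [] trivial (nd (nat_lit 320) (nat_lit 0) (cs (lf (nat_lit 42) (nat_lit 253)) (lf (nat_lit 27) (nat_lit 231)))) q103134 (by decide +kernel)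
def q103184 : Q := Q.p (nat_lit 0x1c0000000003c000000000000000000000000000000000000000000000000000000000) (nat_lit 0x200001c00002000000000000000000000000000000000000000000000000000000000) (nat_lit 3)
theorem c103184 : QOK q103184 := cut [] trivial (nd (nat_lit 251) (nat_lit 0) (cs (lf (nat_lit 10) (nat_lit 229)) (nd (nat_lit 250) (nat_lit 0) (cs (lf (nat_lit 21) (nat_lit 250)) (lf (nat_lit 9) (nat_lit 228)))))) q103184 (by decide +kernel)
def q103267 : Q := Q.p (nat_lit 0xb00003c000090000000000000000000000000000000000000000000000000000) (nat_lit 0x24000000000000000600007e0001f80002000000000000000000000000000000000000) (nat_lit 9)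
theorem c103267 : QOK q103267 := cut [] trivial (nd (nat_lit 186) (nat_lit 0) (cs (lf (nat_lit 24) (nat_lit 164)) (nd (nat_lit 163) (nat_lit 0) (cs (lf (nat_lit 46) (nat_lit 163)) (nd (nat_lit 187) (nat_lit 0) (cs (lf (nat_lit 35) (nat_lit 164)) (nd (nat_lit 209) (nat_lit 0) (cs (lf (nat_lit 41) (nat_lit 186)) (nd (nat_lit 188) (nat_lit 0) (cs (lf (nat_lit 35) (nat_lit 165)) (nd (nat_lit 189) (nat_lit 0) (cs (lf (nat_lit 6) (nat_lit 186)) (nd (nat_lit 167) (nat_lit 0) (cs (lf (nat_lit 17) (nat_lit 164)) (nd (nat_lit 210) (nat_lit 0) (cs (lf (nat_lit 42) (nat_lit 188)) (lf (nat_lit 36) (nat_lit 144)))))))))))))))))) q103267 (by decide +kernel)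
def q103276 : Q := Q.p (nat_lit 0x80000300003c0000c0000000000000000000000000000000000000000000000000000) (nat_lit 0xc00007000018000000000000000000000000000000000000000000000000000000000000000) (nat_lit 4)
theorem c103276 : QOK q103276 := cut [] trivial (nd (nat_lit 255) (nat_lit 0) (cs (lf (nat_lit 5) (nat_lit 230)) (nd (nat_lit 277) (nat_lit 0) (cs (lf (nat_lit 42) (nat_lit 210)) (nd (nat_lit 276) (nat_lit 0) (cs (lf (nat_lit 18) (nat_lit 252)) (lf (nat_lit 41) (nat_lit 210)))))))) q103276 (by decide +kernel)
def q103321 : Q := Q.p (nat_lit 0x180000200001c000070000000000000000000000000000000000000000000000000000) (nat_lit 0x800006000019800060000000000000000000000000000000000000000000000000000000000) (nat_lit 5)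
theorem c103321 : QOK q103321 := cut [] trivial (nd (nat_lit 233) (nat_lit 0) (cs (lf (nat_lit 18) (nat_lit 208)) (nd (nat_lit 255) (nat_lit 0) (cs (lf (nat_lit 5) (nat_lit 230)) (nd (nat_lit 277) (nat_lit 0) (cs (lf (nat_lit 42) (nat_lit 210)) (nd (nat_lit 252) (nat_lit 0) (cs (lf (nat_lit 18) (nat_lit 252)) (lf (nat_lit 11) (nat_lit 229)))))))))) q103321 (by decide +kernel)
def q103354 : Q := Q.p (nat_lit 0x800006000018000020000000000000000000000000000000000000000000000000000) (nat_lit 0x180000600001000000000000000000000000000000000000000000000000000000000000000000000) (nat_lit 3)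
theorem c103354 : QOK q103354 := cut [] trivial (nd (nat_lit 298) (nat_lit 0) (cs (lf (nat_lit 43) (nat_lit 209)) (nd (nat_lit 297) (nat_lit 0) (cs (lf (nat_lit 29) (nat_lit 231)) (lf (nat_lit 30) (nat_lit 231)))))) q103354 (by decide +kernel)
def q103426 : Q := Q.p (nat_lit 0xf000018000000000000000000000000000000000000000000000000000000000) (nat_lit 0xc00007000000000000000000000000000000000000000000000000000000000) (nat_lit 3)
theorem c103426 : QOK q103426 := cut [] trivial (nd (nat_lit 229) (nat_lit 0) (cs (lf (nat_lit 1) (nat_lit 229)) (nd (nat_lit 251) (nat_lit 0) (cs (lf (nat_lit 12) (nat_lit 228)) (lf (nat_lit 23) (nat_lit 228)))))) q103426 (by decide +kernel)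
def q103438 : Q := Q.p (nat_lit 0x680001a000000000000000000000000000000000000000000000000000000000) (nat_lit 0x1400001000000000000000000000000000000000000000000000000000000000) (nat_lit 2)
theorem c103438 : QOK q103438 := cut [] trivial (nd (nat_lit 252) (nat_lit 0) (cs (lf (nat_lit 12) (nat_lit 228)) (lf (nat_lit 23) (nat_lit 228)))) q103438 (by decide +kernel)
def q103466 : Q := Q.p (nat_lit 0x6000018000040000000000000000000000000000000000000000000000000000000000) (nat_lit 0x800000000000000000000100000400000000000000000000000000000000000000000000000) (nat_lit 2)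
theorem c103466 : QOK q103466 := cut [] trivial (nd (nat_lit 212) (nat_lit 0) (cs (lf (nat_lit 41) (nat_lit 211)) (lf (nat_lit 36) (nat_lit 189)))) q103466 (by decide +kernel)
def q103500 : Q := Q.p (nat_lit 0xd00000400003000000000000000000000000000000000000000000000000000000000000000) (nat_lit 0x8000060000200000000000000008000000000000000000000000000000000000000000000000000000000) (nat_lit 3)
theorem c103500 : QOK q103500 := cut [] trivial (nd (nat_lit 318) (nat_lit 0) (cs (lf (nat_lit 35) (nat_lit 230)) (nd (nat_lit 317) (nat_lit 0) (cs (lf (nat_lit 41) (nat_lit 251)) (lf (nat_lit 8) (nat_lit 295)))))) q103500 (by decide +kernel)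
def q103552 : Q := Q.p (nat_lit 0x8000020000080000200000000000000000000000000000000000000000000000) (nat_lit 0x20000000000000003000005c0001400000000000000000000000000000000000000000) (nat_lit 5)
theorem c103552 : QOK q103552 := cut [] trivial (nd (nat_lit 188) (nat_lit 0) (cs (lf (nat_lit 47) (nat_lit 166)) (nd (nat_lit 190) (nat_lit 0) (cs (lf (nat_lit 35) (nat_lit 167)) (nd (nat_lit 212) (nat_lit 0) (cs (lf (nat_lit 30) (nat_lit 189)) (nd (nat_lit 187) (nat_lit 0) (cs (lf (nat_lit 5) (nat_lit 187)) (lf (nat_lit 0) (nat_lit 186)))))))))) q103552 (by decide +kernel)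
def q103681 : Q := Q.p (nat_lit 0x100000700000c000010000040000000000000000000000000000000000000000000000) (nat_lit 0x20000080000200000000000000000000000000000000000000000) (nat_lit 2)
theorem c103681 : QOK q103681 := cut [] trivial (nd (nat_lit 187) (nat_lit 0) (cs (lf (nat_lit 35) (nat_lit 164)) (lf (nat_lit 25) (nat_lit 187)))) q103681 (by decide +kernel)
def q103770 : Q := Q.p (nat_lit 0x2000008000060000080000000000000000000000000000000000000000000000) (nat_lit 0x190000070000100000000000000000000000000000000000000000) (nat_lit 4)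
theorem c103770 : QOK q103770 := cut [] trivial (nd (nat_lit 186) (nat_lit 0) (cs (lf (nat_lit 47) (nat_lit 164)) (nd (nat_lit 185) (nat_lit 0) (cs (lf (nat_lit 0) (nat_lit 184)) (nd (nat_lit 211) (nat_lit 0) (cs (lf (nat_lit 18) (nat_lit 186)) (lf (nat_lit 21) (nat_lit 185)))))))) q103770 (by decide +kernel)
def q103778 : Q := Q.p (nat_lit 0x400001000004000010000040000000000000000000000000000000000000000000000000000) (nat_lit 0x200000800002000000000000000000000000000000000000000000000000000000000000000000000) (nat_lit 2)
theorem c103778 : QOK q103778 := cut [] trivial (nd (nat_lit 299) (nat_lit 0) (cs (lf (nat_lit 29) (nat_lit 232)) (lf (nat_lit 28) (nat_lit 210)))) q103778 (by decide +kernel)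
def q103790 : Q := Q.p (nat_lit 0x6000018000000000180000000000000000000000000000000000000000000000) (nat_lit 0x40000000000600000000000000000000000000000000000000000) (nat_lit 2)
theorem c103790 : QOK q103790 := cut [] trivial (nd (nat_lit 210) (nat_lit 0) (cs (lf (nat_lit 36) (nat_lit 165)) (lf (nat_lit 47) (nat_lit 165)))) q103790 (by decide +kernel)
def q103803 : Q := Q.p (nat_lit 0xe00003000006000000000000000000000000000000000000000000000000000000000000000) (nat_lit 0x10000c000000000000000000000000000000000000000000000000000000000000000000000) (nat_lit 2)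
theorem c103803 : QOK q103803 := cut [] trivial (nd (nat_lit 278) (nat_lit 0) (cs (lf (nat_lit 12) (nat_lit 274)) (lf (nat_lit 18) (nat_lit 253)))) q103803 (by decide +kernel)
def q103823 : Q := Q.p (nat_lit 0x300000c000010000000000000000000000000000000000000000000000000000000000) (nat_lit 0x200000800000000000000000000040000000000000000000000000000000000000000000000000000) (nat_lit 2)
theorem c103823 : QOK q103823 := cut [] trivial (nd (nat_lit 299) (nat_lit 0) (cs (lf (nat_lit 42) (nat_lit 232)) (lf (nat_lit 24) (nat_lit 210)))) q103823 (by decide +kernel)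
def q103836 : Q := Q.p (nat_lit 0x200003800006000000000000000000000000000000000000000000000000000000000000000) (nat_lit 0x10000c000000000000000000000000000000000000000000000000000000000000000000000) (nat_lit 2)
theorem c103836 : QOK q103836 := cut [] trivial (nd (nat_lit 278) (nat_lit 0) (cs (lf (nat_lit 11) (nat_lit 274)) (lf (nat_lit 18) (nat_lit 253)))) q103836 (by decide +kernel)
def q103858 : Q := Q.p (nat_lit 0x3800016000000000000000000000000000000000000000000000000000000000000000) (nat_lit 0xc000020000000000000000000000000000000000000000000000000000000000000000) (nat_lit 2)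
theorem c103858 : QOK q103858 := cut [] trivial (nd (nat_lit 278) (nat_lit 0) (cs (lf (nat_lit 17) (nat_lit 253)) (lf (nat_lit 18) (nat_lit 253)))) q103858 (by decide +kernel)
def q103968 : Q := Q.p (nat_lit 0x40000300000f0000000000000000000000000000000000000000000000000000) (nat_lit 0x600000800000000000000000000000000000000000000000) (nat_lit 2)
theorem c103968 : QOK q103968 := cut [] trivial (nd (nat_lit 189) (nat_lit 0) (cs (lf (nat_lit 17) (nat_lit 186)) (lf (nat_lit 36) (nat_lit 166)))) q103968 (by decide +kernel)
def q103986 : Q := Q.p (nat_lit 0x6000010000040000100000000000000000000000000000000000000000000000) (nat_lit 0x8000000000080000600000800000000000000000000000000000000000) (nat_lit 3)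
theorem c103986 : QOK q103986 := cut [] trivial (nd (nat_lit 165) (nat_lit 0) (cs (lf (nat_lit 46) (nat_lit 165)) (nd (nat_lit 166) (nat_lit 0) (cs (lf (nat_lit 40) (nat_lit 165)) (lf (nat_lit 47) (nat_lit 143)))))) q103986 (by decide +kernel)
def q103989 : Q := Q.p (nat_lit 0x1a000070000000000000000000000000000000000000000000000000000) (nat_lit 0x100000c000000000000000000000000000000000000000000000000000) (nat_lit 2)
theorem c103989 : QOK q103989 := cut [] trivial (nd (nat_lit 207) (nat_lit 0) (cs (lf (nat_lit 11) (nat_lit 206)) (lf (nat_lit 0) (nat_lit 206)))) q103989 (by decide +kernel)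
def q104016 : Q := Q.p (nat_lit 0x180000c0000000000000000000000000000000000000000000000000000) (nat_lit 0x6000320000000000000000000000000000000000000000000000000000) (nat_lit 3)
theorem c104016 : QOK q104016 := cut [] trivial (nd (nat_lit 212) (nat_lit 0) (cs (lf (nat_lit 6) (nat_lit 209)) (nd (nat_lit 230) (nat_lit 0) (cs (lf (nat_lit 12) (nat_lit 207)) (lf (nat_lit 9) (nat_lit 208)))))) q104016 (by decide +kernel)
def q104023 : Q := Q.p (nat_lit 0x4000010000060000100000000000000000000000000000000000000000000000) (nat_lit 0x98000e00000800000000000000000000000000000000000000000) (nat_lit 4)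
theorem c104023 : QOK q104023 := cut [] trivial (nd (nat_lit 189) (nat_lit 0) (cs (lf (nat_lit 35) (nat_lit 166)) (nd (nat_lit 190) (nat_lit 0) (cs (lf (nat_lit 6) (nat_lit 187)) (nd (nat_lit 208) (nat_lit 0) (cs (lf (nat_lit 15) (nat_lit 186)) (lf (nat_lit 12) (nat_lit 185)))))))) q104023 (by decide +kernel)
def q104025 : Q := Q.p (nat_lit 0x400001a000040000000000000000000000000000000000000000000000000000) (nat_lit 0x8000004000080000000000000000000000000000000000000000000000000000) (nat_lit 2)
theorem c104025 : QOK q104025 := cut [] trivial (nd (nat_lit 230) (nat_lit 0) (cs (lf (nat_lit 17) (nat_lit 207)) (lf (nat_lit 5) (nat_lit 229)))) q104025 (by decide +kernel)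
def q104082 : Q := Q.p (nat_lit 0x3800002000018000000000000000000000000000000000000000000000000000000000) (nat_lit 0x4400001c00000000000000000000000000000000000000000000000000000000000000) (nat_lit 3)
theorem c104082 : QOK q104082 := cut [] trivial (nd (nat_lit 252) (nat_lit 0) (cs (lf (nat_lit 18) (nat_lit 252)) (nd (nat_lit 251) (nat_lit 0) (cs (lf (nat_lit 12) (nat_lit 228)) (lf (nat_lit 21) (nat_lit 251)))))) q104082 (by decide +kernel)
def q104084 : Q := Q.p (nat_lit 0x7800006000008000000000000000000000000000000000000000000000000000000000) (nat_lit 0x400038000004000000000000000000000000000000000000000000000000000000000) (nat_lit 3)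
theorem c104084 : QOK q104084 := cut [] trivial (nd (nat_lit 256) (nat_lit 0) (cs (lf (nat_lit 17) (nat_lit 253)) (nd (nat_lit 255) (nat_lit 0) (cs (lf (nat_lit 12) (nat_lit 252)) (lf (nat_lit 23) (nat_lit 230)))))) q104084 (by decide +kernel)
def q104088 : Q := Q.p (nat_lit 0x3c00003000008000000000000000000000000000000000000000000000000000000000) (nat_lit 0x40000180000000000000000000000000000000000000000000000000000000000000000000000000) (nat_lit 2)
theorem c104088 : QOK q104088 := cut [] trivial (nd (nat_lit 296) (nat_lit 0) (cs (lf (nat_lit 30) (nat_lit 230)) (lf (nat_lit 11) (nat_lit 273)))) q104088 (by decide +kernel)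
def q104121 : Q := Q.p (nat_lit 0x1e00002000008000000000000000000000000000000000000000000000000000000000) (nat_lit 0x100000c0000000000c000000000000000000000000000000000000000000000000000000000000000) (nat_lit 3)
theorem c104121 : QOK q104121 := cut [] trivial (nd (nat_lit 298) (nat_lit 0) (cs (lf (nat_lit 5) (nat_lit 273)) (nd (nat_lit 254) (nat_lit 0) (cs (lf (nat_lit 42) (nat_lit 231)) (lf (nat_lit 17) (nat_lit 251)))))) q104121 (by decide +kernel)
def q104180 : Q := Q.p (nat_lit 0xf000018000000000000000000000000000000000000000000000000000000000) (nat_lit 0x300000e0000000000000000000000000000000000000000000000000000000000) (nat_lit 3)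
theorem c104180 : QOK q104180 := cut [] trivial (nd (nat_lit 234) (nat_lit 0) (cs (lf (nat_lit 7) (nat_lit 230)) (nd (nat_lit 256) (nat_lit 0) (cs (lf (nat_lit 17) (nat_lit 231)) (lf (nat_lit 18) (nat_lit 231)))))) q104180 (by decide +kernel)
def q104205 : Q := Q.p (nat_lit 0x30000080000200000000000000000000000000000000000000000000000) (nat_lit 0x4000000000040000000001800006000010000000000000000000000000000000) (nat_lit 4)
theorem c104205 : QOK q104205 := cut [] trivial (nd (nat_lit 167) (nat_lit 0) (cs (lf (nat_lit 41) (nat_lit 166)) (nd (nat_lit 146) (nat_lit 0) (cs (lf (nat_lit 34) (nat_lit 145)) (nd (nat_lit 145) (nat_lit 0) (cs (lf (nat_lit 35) (nat_lit 123)) (lf (nat_lit 40) (nat_lit 144)))))))) q104205 (by decide +kernel)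
def q104228 : Q := Q.p (nat_lit 0x300003c000000000000000000000000000000000000000000000000000000000) (nat_lit 0x14000040000000001b80007e0000f80000000000000000000000000000000000000000) (nat_lit 10)
theorem c104228 : QOK q104228 := cut [] trivial (nd (nat_lit 208) (nat_lit 0) (cs (lf (nat_lit 23) (nat_lit 207)) (nd (nat_lit 211) (nat_lit 0) (cs (lf (nat_lit 17) (nat_lit 208)) (nd (nat_lit 186) (nat_lit 0) (cs (lf (nat_lit 24) (nat_lit 164)) (nd (nat_lit 163) (nat_lit 0) (cs (lf (nat_lit 46) (nat_lit 163)) (nd (nat_lit 187) (nat_lit 0) (cs (lf (nat_lit 35) (nat_lit 164)) (nd (nat_lit 209) (nat_lit 0) (cs (lf (nat_lit 41) (nat_lit 186)) (nd (nat_lit 188) (nat_lit 0) (cs (lf (nat_lit 35) (nat_lit 165)) (nd (nat_lit 254) (nat_lit 0) (cs (lf (nat_lit 29) (nat_lit 187)) (nd (nat_lit 189) (nat_lit 0) (cs (lf (nat_lit 6) (nat_lit 186)) (lf (nat_lit 36) (nat_lit 166)))))))))))))))))))) q104228 (by decide +kernel)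
def q104238 : Q := Q.p (nat_lit 0x8000038000000000000000000000000000000000000000000000000000000000) (nat_lit 0x74000004000000000000000000000000000000000000000000000000000000000) (nat_lit 3)
theorem c104238 : QOK q104238 := cut [] trivial (nd (nat_lit 256) (nat_lit 0) (cs (lf (nat_lit 0) (nat_lit 230)) (nd (nat_lit 257) (nat_lit 0) (cs (lf (nat_lit 18) (nat_lit 232)) (lf (nat_lit 21) (nat_lit 231)))))) q104238 (by decide +kernel)
def q104242 : Q := Q.p (nat_lit 0x200000a000038000000000000000000000000000000000000000000000000000000000) (nat_lit 0x8000000000000000000000c0000100000400000000000000000000000000000000000000000) (nat_lit 3)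
theorem c104242 : QOK q104242 := cut [] trivial (nd (nat_lit 210) (nat_lit 0) (cs (lf (nat_lit 42) (nat_lit 210)) (nd (nat_lit 188) (nat_lit 0) (cs (lf (nat_lit 36) (nat_lit 165)) (lf (nat_lit 45) (nat_lit 188)))))) q104242 (by decide +kernel)
def q104245 : Q := Q.p (nat_lit 0x200000c000038000000000000000000000000000000000000000000000000000000000) (nat_lit 0x300000c000010000000000000000a0000000000000000000000000000000000000000000000000000) (nat_lit 4)
theorem c104245 : QOK q104245 := cut [] trivial (nd (nat_lit 299) (nat_lit 0) (cs (lf (nat_lit 42) (nat_lit 232)) (nd (nat_lit 298) (nat_lit 0) (cs (lf (nat_lit 41) (nat_lit 232)) (nd (nat_lit 276) (nat_lit 0) (cs (lf (nat_lit 36) (nat_lit 210)) (lf (nat_lit 47) (nat_lit 209)))))))) q104245 (by decide +kernel)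
def q104287 : Q := Q.p (nat_lit 0x300001c000000000000000000000000000000000000000000000000000000000) (nat_lit 0xc00020000000000000000000000000000000000000000000000000000000000) (nat_lit 2)
theorem c104287 : QOK q104287 := cut [] trivial (nd (nat_lit 251) (nat_lit 0) (cs (lf (nat_lit 12) (nat_lit 228)) (lf (nat_lit 6) (nat_lit 229)))) q104287 (by decide +kernel)
def q104293 : Q := Q.p (nat_lit 0xc000038000080000200000000000000000000000000000000000000000000000) (nat_lit 0x4000030000000000000000000000000000000000000000000000000000000000000000) (nat_lit 2)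
theorem c104293 : QOK q104293 := cut [] trivial (nd (nat_lit 256) (nat_lit 0) (cs (lf (nat_lit 29) (nat_lit 189)) (lf (nat_lit 18) (nat_lit 231)))) q104293 (by decide +kernel)
def q104329 : Q := Q.p (nat_lit 0xb000038000020000080000000000000000000000000000000000000000000000) (nat_lit 0x200000800007000004000000000040000000000000000000000000000000000000000000000000000) (nat_lit 4)
theorem c104329 : QOK q104329 := cut [] trivial (nd (nat_lit 254) (nat_lit 0) (cs (lf (nat_lit 29) (nat_lit 187)) (nd (nat_lit 277) (nat_lit 0) (cs (lf (nat_lit 5) (nat_lit 252)) (nd (nat_lit 299) (nat_lit 0) (cs (lf (nat_lit 47) (nat_lit 210)) (lf (nat_lit 42) (nat_lit 232)))))))) q104329 (by decide +kernel)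
def q104349 : Q := Q.p (nat_lit 0x200000e000030000000000000000000000000000000000000000000000000000000000) (nat_lit 0x4000001800000000000000000000000000000000000000000000000000000000000000) (nat_lit 2)
theorem c104349 : QOK q104349 := cut [] trivial (nd (nat_lit 252) (nat_lit 0) (cs (lf (nat_lit 5) (nat_lit 252)) (lf (nat_lit 12) (nat_lit 229)))) q104349 (by decide +kernel)
def q104364 : Q := Q.p (nat_lit 0x200000a000038000000000000000000000000000000000000000000000000000000000) (nat_lit 0x800000000004000000000040000100000400000000000000000000000000000000000000000) (nat_lit 3)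
theorem c104364 : QOK q104364 := cut [] trivial (nd (nat_lit 210) (nat_lit 0) (cs (lf (nat_lit 42) (nat_lit 210)) (nd (nat_lit 188) (nat_lit 0) (cs (lf (nat_lit 36) (nat_lit 165)) (lf (nat_lit 27) (nat_lit 188)))))) q104364 (by decide +kernel)
def q104382 : Q := Q.p (nat_lit 0x3c000000000000000000000000000000000000000000000000000000000) (nat_lit 0x1ce000030000e0000000000000000000000000000000000000000000000000000) (nat_lit 6)
theorem c104382 : QOK q104382 := cut [] trivial (nd (nat_lit 255) (nat_lit 0) (cs (lf (nat_lit 5) (nat_lit 230)) (nd (nat_lit 229) (nat_lit 0) (cs (lf (nat_lit 4) (nat_lit 229)) (nd (nat_lit 250) (nat_lit 0) (cs (lf (nat_lit 10) (nat_lit 228)) (nd (nat_lit 228) (nat_lit 0) (cs (lf (nat_lit 11) (nat_lit 227)) (nd (nat_lit 210) (nat_lit 0) (cs (lf (nat_lit 16) (nat_lit 206)) (lf (nat_lit 17) (nat_lit 207)))))))))))) q104382 (by decide +kernel)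
def q104383 : Q := Q.p (nat_lit 0x200000e000040000000000000000000000000000000000000000000000000000) (nat_lit 0x4000001000020000000000000000000000000000000000000000000000000000) (nat_lit 2)
theorem c104383 : QOK q104383 := cut [] trivial (nd (nat_lit 228) (nat_lit 0) (cs (lf (nat_lit 16) (nat_lit 206)) (lf (nat_lit 5) (nat_lit 228)))) q104383 (by decide +kernel)
def q104397 : Q := Q.p (nat_lit 0x200003c000000000000000000000000000000000000000000000000000000000) (nat_lit 0x3c0001c0000ee0000000000000000000000000000000000000000000000000000) (nat_lit 7)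
theorem c104397 : QOK q104397 := cut [] trivial (nd (nat_lit 256) (nat_lit 0) (cs (lf (nat_lit 4) (nat_lit 230)) (nd (nat_lit 234) (nat_lit 0) (cs (lf (nat_lit 5) (nat_lit 231)) (nd (nat_lit 235) (nat_lit 0) (cs (lf (nat_lit 10) (nat_lit 231)) (nd (nat_lit 214) (nat_lit 0) (cs (lf (nat_lit 16) (nat_lit 210)) (nd (nat_lit 210) (nat_lit 0) (cs (lf (nat_lit 23) (nat_lit 209)) (nd (nat_lit 236) (nat_lit 0) (cs (lf (nat_lit 17) (nat_lit 211)) (lf (nat_lit 22) (nat_lit 210)))))))))))))) q104397 (by decide +kernel)
def q104454 : Q := Q.p (nat_lit 0x6000030000000000000000000000000000000000000000000000000000000000) (nat_lit 0x18000c8000000000000000000000000000000000000000000000000000000000) (nat_lit 3)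
theorem c104454 : QOK q104454 := cut [] trivial (nd (nat_lit 234) (nat_lit 0) (cs (lf (nat_lit 6) (nat_lit 231)) (nd (nat_lit 252) (nat_lit 0) (cs (lf (nat_lit 9) (nat_lit 230)) (lf (nat_lit 12) (nat_lit 229)))))) q104454 (by decide +kernel)
def q104592 : Q := Q.p (nat_lit 0x800003000008000020000000000000000000000000000000000000000000000000000) (nat_lit 0x500007400000800000000000000000000000000000000000000000000000000000000000000) (nat_lit 4)
theorem c104592 : QOK q104592 := cut [] trivial (nd (nat_lit 276) (nat_lit 0) (cs (lf (nat_lit 29) (nat_lit 209)) (nd (nat_lit 277) (nat_lit 0) (cs (lf (nat_lit 18) (nat_lit 252)) (nd (nat_lit 274) (nat_lit 0) (cs (lf (nat_lit 41) (nat_lit 208)) (lf (nat_lit 23) (nat_lit 251)))))))) q104592 (by decide +kernel)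
def q104601 : Q := Q.p (nat_lit 0x2000018000020000080000000000000000000000000000000000000000000000) (nat_lit 0x80000000000000001c000340000500000000000000000000000000000000000000000) (nat_lit 5)
theorem c104601 : QOK q104601 := cut [] trivial (nd (nat_lit 188) (nat_lit 0) (cs (lf (nat_lit 35) (nat_lit 165)) (nd (nat_lit 186) (nat_lit 0) (cs (lf (nat_lit 47) (nat_lit 164)) (nd (nat_lit 208) (nat_lit 0) (cs (lf (nat_lit 42) (nat_lit 186)) (nd (nat_lit 207) (nat_lit 0) (cs (lf (nat_lit 0) (nat_lit 206)) (lf (nat_lit 6) (nat_lit 185)))))))))) q104601 (by decide +kernel)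
def q104667 : Q := Q.p (nat_lit 0x400001800007800010000000000000000000000000000000000000000000000000000000000) (nat_lit 0x200000800000700000000000000000000000000000000000000000000000000000000000000000000) (nat_lit 3)
theorem c104667 : QOK q104667 := cut [] trivial (nd (nat_lit 299) (nat_lit 0) (cs (lf (nat_lit 29) (nat_lit 232)) (nd (nat_lit 273) (nat_lit 0) (cs (lf (nat_lit 1) (nat_lit 273)) (lf (nat_lit 11) (nat_lit 250)))))) q104667 (by decide +kernel)
def q104704 : Q := Q.p (nat_lit 0x1e000030000040000100000000000000000000000000000000000000000000000) (nat_lit 0xc000000000000000080000200000800000000000000000000000000000000000000000) (nat_lit 3)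
theorem c104704 : QOK q104704 := cut [] trivial (nd (nat_lit 278) (nat_lit 0) (cs (lf (nat_lit 5) (nat_lit 253)) (nd (nat_lit 189) (nat_lit 0) (cs (lf (nat_lit 35) (nat_lit 166)) (lf (nat_lit 25) (nat_lit 189)))))) q104704 (by decide +kernel)
def q104745 : Q := Q.p (nat_lit 0x200001000006000010000000000000000000000000000000000000000000000000000000000) (nat_lit 0x80000000000800000000000000040000000000000000000000000000000000000000000000000000) (nat_lit 2)
theorem c104745 : QOK q104745 := cut [] trivial (nd (nat_lit 275) (nat_lit 0) (cs (lf (nat_lit 30) (nat_lit 231)) (lf (nat_lit 36) (nat_lit 209)))) q104745 (by decide +kernel)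
def q104758 : Q := Q.p (nat_lit 0x1a00006000000000000000000000000000000000000000000000000000000000000000) (nat_lit 0x500008000000000000000000000000000000000000000000000000000000000000000) (nat_lit 2)
theorem c104758 : QOK q104758 := cut [] trivial (nd (nat_lit 274) (nat_lit 0) (cs (lf (nat_lit 12) (nat_lit 250)) (lf (nat_lit 17) (nat_lit 251)))) q104758 (by decide +kernel)
def q104779 : Q := Q.p (nat_lit 0x400001a00004000000000000000000000000000000000000000000000000000000000000000) (nat_lit 0x800000400008000000000000000000000000000000000000000000000000000000000000000) (nat_lit 2)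
theorem c104779 : QOK q104779 := cut [] trivial (nd (nat_lit 274) (nat_lit 0) (cs (lf (nat_lit 5) (nat_lit 273)) (lf (nat_lit 17) (nat_lit 251)))) q104779 (by decide +kernel)
def q104880 : Q := Q.p (nat_lit 0xf000030000000000000000000000000000000000000000000000000000000000) (nat_lit 0xe0003000000c000000000000000000000000000000000000000000000000000000000) (nat_lit 4)
theorem c104880 : QOK q104880 := cut [] trivial (nd (nat_lit 274) (nat_lit 0) (cs (lf (nat_lit 11) (nat_lit 251)) (nd (nat_lit 256) (nat_lit 0) (cs (lf (nat_lit 10) (nat_lit 252)) (nd (nat_lit 231) (nat_lit 0) (cs (lf (nat_lit 18) (nat_lit 231)) (lf (nat_lit 0) (nat_lit 230)))))))) q104880 (by decide +kernel)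
def q104891 : Q := Q.p (nat_lit 0x7000030000000000000000000000000000000000000000000000000000000000) (nat_lit 0x8000048000000000000000000000000000000000000000000000000000000000) (nat_lit 2)
theorem c104891 : QOK q104891 := cut [] trivial (nd (nat_lit 234) (nat_lit 0) (cs (lf (nat_lit 9) (nat_lit 230)) (lf (nat_lit 15) (nat_lit 230)))) q104891 (by decide +kernel)
def q104895 : Q := Q.p (nat_lit 0xe000050000000000000000000000000000000000000000000000000000000000) (nat_lit 0x10000a0000000000000000000000000000000000000000000000000000000000) (nat_lit 2)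
theorem c104895 : QOK q104895 := cut [] trivial (nd (nat_lit 233) (nat_lit 0) (cs (lf (nat_lit 6) (nat_lit 231)) (lf (nat_lit 12) (nat_lit 230)))) q104895 (by decide +kernel)
def q104932 : Q := Q.p (nat_lit 0xf00001c000000000000000000000000000000000000000000000000000000000) (nat_lit 0x30000000000600000780007e0000f80000000000000000000000000000000000000000) (nat_lit 10)
theorem c104932 : QOK q104932 := cut [] trivial (nd (nat_lit 233) (nat_lit 0) (cs (lf (nat_lit 6) (nat_lit 230)) (nd (nat_lit 208) (nat_lit 0) (cs (lf (nat_lit 23) (nat_lit 207)) (nd (nat_lit 186) (nat_lit 0) (cs (lf (nat_lit 24) (nat_lit 164)) (nd (nat_lit 163) (nat_lit 0) (cs (lf (nat_lit 46) (nat_lit 163)) (nd (nat_lit 187) (nat_lit 0) (cs (lf (nat_lit 35) (nat_lit 164)) (nd (nat_lit 209) (nat_lit 0) (cs (lf (nat_lit 29) (nat_lit 187)) (nd (nat_lit 188) (nat_lit 0) (cs (lf (nat_lit 35) (nat_lit 165)) (nd (nat_lit 210) (nat_lit 0) (cs (lf (nat_lit 29) (nat_lit 188)) (nd (nat_lit 189) (nat_lit 0) (cs (lf (nat_lit 6) (nat_lit 186)) (lf (nat_lit 35) (nat_lit 166)))))))))))))))))))) q104932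 (by decide +kernel)
def q104969 : Q := Q.p (nat_lit 0x300000c000010000000000000000000000000000000000000000000000000000000000) (nat_lit 0x800000000000000000000040000100000000000000000000000000000000000000000000000) (nat_lit 2)
theorem c104969 : QOK q104969 := cut [] trivial (nd (nat_lit 210) (nat_lit 0) (cs (lf (nat_lit 29) (nat_lit 210)) (lf (nat_lit 24) (nat_lit 188)))) q104969 (by decide +kernel)
def q104984 : Q := Q.p (nat_lit 0x1200006800000000000000000000000000000000000000000000000000000000000000) (nat_lit 0x2100001000000000000000000000000000000000000000000000000000000000000000) (nat_lit 2)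
theorem c104984 : QOK q104984 := cut [] trivial (nd (nat_lit 252) (nat_lit 0) (cs (lf (nat_lit 5) (nat_lit 251)) (lf (nat_lit 11) (nat_lit 250)))) q104984 (by decide +kernel)
def q105122 : Q := Q.p (nat_lit 0x1e00003000004000010000000000000000000000000000000000000000000000000000) (nat_lit 0xc00000000000000008000020000080000000000000000000000000000000000000000000000) (nat_lit 3)
theorem c105122 : QOK q105122 := cut [] trivial (nd (nat_lit 298) (nat_lit 0) (cs (lf (nat_lit 5) (nat_lit 273)) (nd (nat_lit 209) (nat_lit 0) (cs (lf (nat_lit 35) (nat_lit 186)) (lf (nat_lit 25) (nat_lit 209)))))) q105122 (by decide +kernel)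
def q105144 : Q := Q.p (nat_lit 0x1600005000014000010000000000000000000000000000000000000000000000000000) (nat_lit 0xe00000800000000008000020000080000000000000000000000000000000000000000000000) (nat_lit 4)
theorem c105144 : QOK q105144 := cut [] trivial (nd (nat_lit 275) (nat_lit 0) (cs (lf (nat_lit 29) (nat_lit 208)) (nd (nat_lit 298) (nat_lit 0) (cs (lf (nat_lit 5) (nat_lit 273)) (nd (nat_lit 209) (nat_lit 0) (cs (lf (nat_lit 35) (nat_lit 186)) (lf (nat_lit 46) (nat_lit 209)))))))) q105144 (by decide +kernel)
def q105211 : Q := Q.p (nat_lit 0x700000000008000020000080000000000000000000000000000000000000000000000000000) (nat_lit 0x1800007000000000000000000000000000000000000000000000000000000000000000000000) (nat_lit 3)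
theorem c105211 : QOK q105211 := cut [] trivial (nd (nat_lit 277) (nat_lit 0) (cs (lf (nat_lit 40) (nat_lit 210)) (nd (nat_lit 278) (nat_lit 0) (cs (lf (nat_lit 29) (nat_lit 211)) (lf (nat_lit 15) (nat_lit 274)))))) q105211 (by decide +kernel)
def q105226 : Q := Q.p (nat_lit 0x100000c00003000004000000000000000000000000000000000000000000000000000000000) (nat_lit 0x20000080000200000000000000010000040000000000000000000000000000000000000000000000) (nat_lit 3)
theorem c105226 : QOK q105226 := cut [] trivial (nd (nat_lit 295) (nat_lit 0) (cs (lf (nat_lit 41) (nat_lit 229)) (nd (nat_lit 208) (nat_lit 0) (cs (lf (nat_lit 24) (nat_lit 186)) (lf (nat_lit 40) (nat_lit 207)))))) q105226 (by decide +kernel)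
def q105247 : Q := Q.p (nat_lit 0x3e00003000000000000000000000000000000000000000000000000000000000000000) (nat_lit 0x1c000000000000000000000000000000000000000000000000000000000000000) (nat_lit 2)
theorem c105247 : QOK q105247 := cut [] trivial (nd (nat_lit 255) (nat_lit 0) (cs (lf (nat_lit 17) (nat_lit 252)) (lf (nat_lit 7) (nat_lit 251)))) q105247 (by decide +kernel)
def q105270 : Q := Q.p (nat_lit 0x3c00003000004000000000000000000000000000000000000000000000000000000000) (nat_lit 0x20001c000002000000000000000000000000000000000000000000000000000000000) (nat_lit 3)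
theorem c105270 : QOK q105270 := cut [] trivial (nd (nat_lit 255) (nat_lit 0) (cs (lf (nat_lit 17) (nat_lit 252)) (nd (nat_lit 254) (nat_lit 0) (cs (lf (nat_lit 23) (nat_lit 229)) (lf (nat_lit 12) (nat_lit 251)))))) q105270 (by decide +kernel)
def q105349 : Q := Q.p (nat_lit 0xc00003000008000000000000000000000000000000000000000000000000000000000) (nat_lit 0xe000070000180000700000700001c0000000000000000000000000000000000000000000000) (nat_lit 9)
theorem c105349 : QOK q105349 := cut [] trivial (nd (nat_lit 209) (nat_lit 0) (cs (lf (nat_lit 36) (nat_lit 186)) (nd (nat_lit 186) (nat_lit 0) (cs (lf (nat_lit 46) (nat_lit 186)) (nd (nat_lit 210) (nat_lit 0) (cs (lf (nat_lit 35) (nat_lit 187)) (nd (nat_lit 276) (nat_lit 0) (cs (lf (nat_lit 29) (nat_lit 209)) (nd (nat_lit 232) (nat_lit 0) (cs (lf (nat_lit 30) (nat_lit 209)) (nd (nat_lit 233) (nat_lit 0) (cs (lf (nat_lit 6) (nat_lit 230)) (nd (nat_lit 277) (nat_lit 0) (cs (lf (nat_lit 18) (nat_lit 252)) (nd (nat_lit 255) (nat_lit 0) (cs (lf (nat_lit 17) (nat_lit 252)) (lf (nat_lit 42) (nat_lit 210))))))))))))))))))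 q105349 (by decide +kernel)
def q105405 : Q := Q.p (nat_lit 0x200001800006000000000000000000000000000000000000000000000000000000000000000) (nat_lit 0x80000000000000000000010000040000000000000000000000000000000000000000000000000000) (nat_lit 2)
theorem c105405 : QOK q105405 := cut [] trivial (nd (nat_lit 232) (nat_lit 0) (cs (lf (nat_lit 30) (nat_lit 231)) (lf (nat_lit 36) (nat_lit 209)))) q105405 (by decide +kernel)
def q105686 : Q := Q.p (nat_lit 0x180000600003000000000000000000000000000000000000000000000000000000000000000) (nat_lit 0x40000380000e0000380000000000e000018000000000000000000000000000000000000000000000000000) (nat_lit 8)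
theorem c105686 : QOK q105686 := cut [] trivial (nd (nat_lit 230) (nat_lit 0) (cs (lf (nat_lit 36) (nat_lit 207)) (nd (nat_lit 297) (nat_lit 0) (cs (lf (nat_lit 29) (nat_lit 230)) (nd (nat_lit 207) (nat_lit 0) (cs (lf (nat_lit 46) (nat_lit 207)) (nd (nat_lit 298) (nat_lit 0) (cs (lf (nat_lit 18) (nat_lit 273)) (nd (nat_lit 276) (nat_lit 0) (cs (lf (nat_lit 17) (nat_lit 273)) (nd (nat_lit 320) (nat_lit 0) (cs (lf (nat_lit 5) (nat_lit 295)) (nd (nat_lit 275) (nat_lit 0) (cs (lf (nat_lit 42) (nat_lit 253)) (lf (nat_lit 24) (nat_lit 231)))))))))))))))) q105686 (by decide +kernel)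
def q105716 : Q := Q.p (nat_lit 0x600000600003000000000000000000000000000000000000000000000000000000000000000) (nat_lit 0x980000000000000000000000000000000000000000000000000000000000000000000) (nat_lit 2)
theorem c105716 : QOK q105716 := cut [] trivial (nd (nat_lit 272) (nat_lit 0) (cs (lf (nat_lit 12) (nat_lit 249)) (lf (nat_lit 3) (nat_lit 272)))) q105716 (by decide +kernel)
def q105775 : Q := Q.p (nat_lit 0x20000080000f000004000000000000000000000000000000000000000000000000000000000) (nat_lit 0x600000000000000010000000000000000000000000000000000000000000000000000) (nat_lit 2)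
theorem c105775 : QOK q105775 := cut [] trivial (nd (nat_lit 274) (nat_lit 0) (cs (lf (nat_lit 11) (nat_lit 251)) (lf (nat_lit 24) (nat_lit 208)))) q105775 (by decide +kernel)
def q105785 : Q := Q.p (nat_lit 0x1000004000030000050000000000000000000000000000000000000000000000000000) (nat_lit 0x28000080000000000000000000000000000000000000000000000) (nat_lit 2)
theorem c105785 : QOK q105785 := cut [] trivial (nd (nat_lit 209) (nat_lit 0) (cs (lf (nat_lit 0) (nat_lit 207)) (lf (nat_lit 47) (nat_lit 187)))) q105785 (by decide +kernel)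
def q105822 : Q := Q.p (nat_lit 0xf000000000000000000000000000000000000000000000000000000000000000) (nat_lit 0x7000000800070000000000000000000000000000000000000000000000000000000000) (nat_lit 4)
theorem c105822 : QOK q105822 := cut [] trivial (nd (nat_lit 233) (nat_lit 0) (cs (lf (nat_lit 17) (nat_lit 230)) (nd (nat_lit 277) (nat_lit 0) (cs (lf (nat_lit 5) (nat_lit 252)) (nd (nat_lit 251) (nat_lit 0) (cs (lf (nat_lit 16) (nat_lit 229)) (lf (nat_lit 4) (nat_lit 251)))))))) q105822 (by decide +kernel)
def q105857 : Q := Q.p (nat_lit 0xf000008000000000000000000000000000000000000000000000000000000000) (nat_lit 0xe000010000004000000000000000000000000000000000000000000000000000000000) (nat_lit 3)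
theorem c105857 : QOK q105857 := cut [] trivial (nd (nat_lit 278) (nat_lit 0) (cs (lf (nat_lit 4) (nat_lit 252)) (nd (nat_lit 256) (nat_lit 0) (cs (lf (nat_lit 23) (nat_lit 230)) (lf (nat_lit 5) (nat_lit 253)))))) q105857 (by decide +kernel)
def q105926 : Q := Q.p (nat_lit 0x10000380000c000000000000000000000000000000000000000000000000000000000) (nat_lit 0x80000600000000000000000000000000000000000000000000000000000000000000) (nat_lit 2)
theorem c105926 : QOK q105926 := cut [] trivial (nd (nat_lit 250) (nat_lit 0) (cs (lf (nat_lit 11) (nat_lit 249)) (lf (nat_lit 12) (nat_lit 227)))) q105926 (by decide +kernel)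
def q105961 : Q := Q.p (nat_lit 0x7000018000020000000000000000000000000000000000000000000000000000) (nat_lit 0x400003000000c00000000000000000000000000000000000000000000000000000000000000) (nat_lit 3)
theorem c105961 : QOK q105961 := cut [] trivial (nd (nat_lit 276) (nat_lit 0) (cs (lf (nat_lit 42) (nat_lit 209)) (nd (nat_lit 251) (nat_lit 0) (cs (lf (nat_lit 12) (nat_lit 228)) (lf (nat_lit 5) (nat_lit 251)))))) q105961 (by decide +kernel)
def q106018 : Q := Q.p (nat_lit 0x7000028000000000000000000000000000000000000000000000000000000000) (nat_lit 0x800050000000000000000000000000000000000000000000000000000000000) (nat_lit 2)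
theorem c106018 : QOK q106018 := cut [] trivial (nd (nat_lit 232) (nat_lit 0) (cs (lf (nat_lit 6) (nat_lit 230)) (lf (nat_lit 12) (nat_lit 229)))) q106018 (by decide +kernel)
def q106047 : Q := Q.p (nat_lit 0x40000180001e000000000000000000000000000000000000000000000000000000000) (nat_lit 0xc000020000000000000000000000000000000000000000000000) (nat_lit 2)
theorem c106047 : QOK q106047 := cut [] trivial (nd (nat_lit 207) (nat_lit 0) (cs (lf (nat_lit 24) (nat_lit 185)) (lf (nat_lit 23) (nat_lit 206)))) q106047 (by decide +kernel)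
def q106078 : Q := Q.p (nat_lit 0x1000007000010000040000000000000000000000000000000000000000000000000000) (nat_lit 0x800002000000800000000000000000000000000000000000000000000000000000000000000) (nat_lit 2)
theorem c106078 : QOK q106078 := cut [] trivial (nd (nat_lit 277) (nat_lit 0) (cs (lf (nat_lit 29) (nat_lit 210)) (lf (nat_lit 0) (nat_lit 251)))) q106078 (by decide +kernel)
def q106112 : Q := Q.p (nat_lit 0x7800004000000000000000000000000000000000000000000000000000000000) (nat_lit 0x80000300000000033000010000040000000000000000000000000000000000000000000000) (nat_lit 5)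
theorem c106112 : QOK q106112 := cut [] trivial (nd (nat_lit 273) (nat_lit 0) (cs (lf (nat_lit 11) (nat_lit 250)) (nd (nat_lit 232) (nat_lit 0) (cs (lf (nat_lit 17) (nat_lit 229)) (nd (nat_lit 208) (nat_lit 0) (cs (lf (nat_lit 36) (nat_lit 185)) (nd (nat_lit 229) (nat_lit 0) (cs (lf (nat_lit 30) (nat_lit 207)) (lf (nat_lit 23) (nat_lit 228)))))))))) q106112 (by decide +kernel)
def q106160 : Q := Q.p (nat_lit 0x800007000014000000000000000000000000000000000000000000000000000000000) (nat_lit 0x80000200000400000000000000010000040000000000000000000000000000000000000000000000) (nat_lit 3)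
theorem c106160 : QOK q106160 := cut [] trivial (nd (nat_lit 208) (nat_lit 0) (cs (lf (nat_lit 24) (nat_lit 186)) (nd (nat_lit 297) (nat_lit 0) (cs (lf (nat_lit 27) (nat_lit 208)) (lf (nat_lit 30) (nat_lit 231)))))) q106160 (by decide +kernel)
def q106222 : Q := Q.p (nat_lit 0x400001800006000010000000000000000000000000000000000000000000000000000000000) (nat_lit 0x200000c0000300000000000000000000000000000000000000000000000) (nat_lit 3)
theorem c106222 : QOK q106222 := cut [] trivial (nd (nat_lit 211) (nat_lit 0) (cs (lf (nat_lit 34) (nat_lit 210)) (nd (nat_lit 210) (nat_lit 0) (cs (lf (nat_lit 35) (nat_lit 188)) (lf (nat_lit 36) (nat_lit 187)))))) q106222 (by decide +kernel)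
def q106235 : Q := Q.p (nat_lit 0x80000400001000007000000000000000000000000000000000000000000000000000000000000000) (nat_lit 0xf00003700003c0006800000000004000000000000000000000000000000000000000000000000000000000) (nat_lit 9)
theorem c106235 : QOK q106235 := cut [] trivial (nd (nat_lit 320) (nat_lit 0) (cs (lf (nat_lit 41) (nat_lit 253)) (nd (nat_lit 275) (nat_lit 0) (cs (lf (nat_lit 42) (nat_lit 253)) (nd (nat_lit 277) (nat_lit 0) (cs (lf (nat_lit 18) (nat_lit 252)) (nd (nat_lit 321) (nat_lit 0) (cs (lf (nat_lit 29) (nat_lit 254)) (nd (nat_lit 297) (nat_lit 0) (cs (lf (nat_lit 47) (nat_lit 230)) (nd (nat_lit 295) (nat_lit 0) (cs (lf (nat_lit 1) (nat_lit 295)) (nd (nat_lit 318) (nat_lit 0) (cs (lf (nat_lit 41) (nat_lit 252)) (nd (nat_lit 317) (nat_lit 0) (cs (lf (nat_lit 12) (nat_lit 294)) (lf (nat_lit 23) (nat_lit 294)))))))))))))))))) q106235 (by decide +kernel)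
def q106236 : Q := Q.p (nat_lit 0x80000000000800007000000000000000000000000000000000000000000000000000000000000000) (nat_lit 0x200000000000000014000000000000000000000000000000000000000000000000000000000) (nat_lit 2)
theorem c106236 : QOK q106236 := cut [] trivial (nd (nat_lit 297) (nat_lit 0) (cs (lf (nat_lit 47) (nat_lit 230)) (lf (nat_lit 35) (nat_lit 231)))) q106236 (by decide +kernel)
def q106255 : Q := Q.p (nat_lit 0xf000000000000000000000000000000000000000000000000000000000000000) (nat_lit 0x100000400003f00030c0006c0000a0000200000000000000000000000000000000000000000000000) (nat_lit 10)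
theorem c106255 : QOK q106255 := cut [] trivial (nd (nat_lit 233) (nat_lit 0) (cs (lf (nat_lit 17) (nat_lit 230)) (nd (nat_lit 273) (nat_lit 0) (cs (lf (nat_lit 10) (nat_lit 251)) (nd (nat_lit 251) (nat_lit 0) (cs (lf (nat_lit 11) (nat_lit 250)) (nd (nat_lit 276) (nat_lit 0) (cs (lf (nat_lit 5) (nat_lit 251)) (nd (nat_lit 298) (nat_lit 0) (cs (lf (nat_lit 30) (nat_lit 232)) (nd (nat_lit 275) (nat_lit 0) (cs (lf (nat_lit 0) (nat_lit 250)) (nd (nat_lit 189) (nat_lit 0) (cs (lf (nat_lit 37) (nat_lit 188)) (nd (nat_lit 256) (nat_lit 0) (cs (lf (nat_lit 6) (nat_lit 253)) (nd (nat_lit 231) (nat_lit 0) (cs (lf (nat_lit 24) (nat_lit 209)) (lf (nat_lit 23) (nat_lit 230)))))))))))))))))))) q106255 (by decide +kernel)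
def q106292 : Q := Q.p (nat_lit 0xc00007000008000020000000000000000000000000000000000000000000000000000) (nat_lit 0x4000070000180000640001c0000700000000000000000000000000000000000000000000000) (nat_lit 8)
theorem c106292 : QOK q106292 := cut [] trivial (nd (nat_lit 255) (nat_lit 0) (cs (lf (nat_lit 6) (nat_lit 252)) (nd (nat_lit 277) (nat_lit 0) (cs (lf (nat_lit 5) (nat_lit 252)) (nd (nat_lit 233) (nat_lit 0) (cs (lf (nat_lit 17) (nat_lit 230)) (nd (nat_lit 276) (nat_lit 0) (cs (lf (nat_lit 29) (nat_lit 209)) (nd (nat_lit 211) (nat_lit 0) (cs (lf (nat_lit 36) (nat_lit 188)) (nd (nat_lit 212) (nat_lit 0) (cs (lf (nat_lit 35) (nat_lit 189)) (nd (nat_lit 210) (nat_lit 0) (cs (lf (nat_lit 11) (nat_lit 208)) (lf (nat_lit 47) (nat_lit 188)))))))))))))))) q106292 (by decide +kernel)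
def q106296 : Q := Q.p (nat_lit 0x10000038000100000000000000000000000000000000000000000000000000000000000) (nat_lit 0x20000040000200000000000000000000000000000000000000000000000000000000000) (nat_lit 2)
theorem c106296 : QOK q106296 := cut [] trivial (nd (nat_lit 258) (nat_lit 0) (cs (lf (nat_lit 17) (nat_lit 233)) (lf (nat_lit 5) (nat_lit 255)))) q106296 (by decide +kernel)
def q106330 : Q := Q.p (nat_lit 0xc00007000008000000000000000000000000000000000000000000000000000000000) (nat_lit 0x600001000018c000640001f00003c0000000000000000000000000000000000000000000000) (nat_lit 10)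
theorem c106330 : QOK q106330 := cut [] trivial (nd (nat_lit 209) (nat_lit 0) (cs (lf (nat_lit 36) (nat_lit 186)) (nd (nat_lit 255) (nat_lit 0) (cs (lf (nat_lit 6) (nat_lit 252)) (nd (nat_lit 233) (nat_lit 0) (cs (lf (nat_lit 17) (nat_lit 230)) (nd (nat_lit 276) (nat_lit 0) (cs (lf (nat_lit 29) (nat_lit 209)) (nd (nat_lit 211) (nat_lit 0) (cs (lf (nat_lit 36) (nat_lit 188)) (nd (nat_lit 250) (nat_lit 0) (cs (lf (nat_lit 1) (nat_lit 250)) (nd (nat_lit 210) (nat_lit 0) (cs (lf (nat_lit 35) (nat_lit 187)) (nd (nat_lit 208) (nat_lit 0) (cs (lf (nat_lit 47) (nat_lit 186)) (nd (nat_lit 230) (nat_lit 0) (cs (lf (nat_lit 6) (nat_lit 208)) (lf (nat_lit 29) (nat_lit 208)))))))))))))))))))) q106330 (by decide +kernel)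
def q106427 : Q := Q.p (nat_lit 0x400007000002000000000000000000000000000000000000000000000000000000000) (nat_lit 0x200008000004000000000000000000000000000000000000000000000000000000000) (nat_lit 2)
theorem c106427 : QOK q106427 := cut [] trivial (nd (nat_lit 255) (nat_lit 0) (cs (lf (nat_lit 11) (nat_lit 251)) (lf (nat_lit 22) (nat_lit 229)))) q106427 (by decide +kernel)
def q106456 : Q := Q.p (nat_lit 0x1e00002000000000000000000000000000000000000000000000000000000000) (nat_lit 0x10000c000000000000000000000000000000000000000000000000000000000) (nat_lit 2)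
theorem c106456 : QOK q106456 := cut [] trivial (nd (nat_lit 230) (nat_lit 0) (cs (lf (nat_lit 12) (nat_lit 226)) (lf (nat_lit 17) (nat_lit 227)))) q106456 (by decide +kernel)
def q106462 : Q := Q.p (nat_lit 0x100000000001800006000000000000000000000000000000000000000000000000000000000) (nat_lit 0x40000000000400000000000000008000000000000000000000000000000000000000000000000000) (nat_lit 2)
theorem c106462 : QOK q106462 := cut [] trivial (nd (nat_lit 274) (nat_lit 0) (cs (lf (nat_lit 42) (nat_lit 229)) (lf (nat_lit 47) (nat_lit 207)))) q106462 (by decide +kernel)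
def q106492 : Q := Q.p (nat_lit 0x1800007000008000000000000000000000000000000000000000000000000000) (nat_lit 0x2000000000080000070000700001c0000000000000000000000000000000000000000) (nat_lit 6)
theorem c106492 : QOK q106492 := cut [] trivial (nd (nat_lit 185) (nat_lit 0) (cs (lf (nat_lit 24) (nat_lit 163)) (nd (nat_lit 164) (nat_lit 0) (cs (lf (nat_lit 34) (nat_lit 163)) (nd (nat_lit 184) (nat_lit 0) (cs (lf (nat_lit 47) (nat_lit 162)) (nd (nat_lit 206) (nat_lit 0) (cs (lf (nat_lit 42) (nat_lit 184)) (nd (nat_lit 205) (nat_lit 0) (cs (lf (nat_lit 0) (nat_lit 204)) (lf (nat_lit 18) (nat_lit 205)))))))))))) q106492 (by decide +kernel)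
def q106596 : Q := Q.p (nat_lit 0x800002800006000010000000000000000000000000000000000000000000000000000000000) (nat_lit 0x1000000000000000040000100000000000000000000000000000000000000000000000) (nat_lit 2)
theorem c106596 : QOK q106596 := cut [] trivial (nd (nat_lit 210) (nat_lit 0) (cs (lf (nat_lit 36) (nat_lit 187)) (lf (nat_lit 27) (nat_lit 210)))) q106596 (by decide +kernel)
def q106769 : Q := Q.p (nat_lit 0x100000200000800002000010000000000000000000000000000000000000000000000000000) (nat_lit 0x400000000000000008000040000000000000000000000000000000000000000000000) (nat_lit 2)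
theorem c106769 : QOK q106769 := cut [] trivial (nd (nat_lit 207) (nat_lit 0) (cs (lf (nat_lit 35) (nat_lit 185)) (lf (nat_lit 28) (nat_lit 207)))) q106769 (by decide +kernel)
def q106794 : Q := Q.p (nat_lit 0x200007000004000000000000000000000000000000000000000000000000000000000) (nat_lit 0x400008000002000000000000000000000000000000000000000000000000000000000) (nat_lit 2)
theorem c106794 : QOK q106794 := cut [] trivial (nd (nat_lit 255) (nat_lit 0) (cs (lf (nat_lit 10) (nat_lit 251)) (lf (nat_lit 23) (nat_lit 229)))) q106794 (by decide +kernel)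
def q106826 : Q := Q.p (nat_lit 0x1e000010000000000000000000000000000000000000000000000000000000000) (nat_lit 0x200001c8000000000000000000000000000000000000000000000000000000000) (nat_lit 3)
theorem c106826 : QOK q106826 := cut [] trivial (nd (nat_lit 235) (nat_lit 0) (cs (lf (nat_lit 16) (nat_lit 231)) (nd (nat_lit 257) (nat_lit 0) (cs (lf (nat_lit 17) (nat_lit 232)) (lf (nat_lit 23) (nat_lit 231)))))) q106826 (by decide +kernel)
def q106905 : Q := Q.p (nat_lit 0x600001000004000000000000000000000000000000000000000000000000000000000000000) (nat_lit 0x280000800002800000000010000040000000000000000000000000000000000000000000000000000) (nat_lit 4)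
theorem c106905 : QOK q106905 := cut [] trivial (nd (nat_lit 232) (nat_lit 0) (cs (lf (nat_lit 41) (nat_lit 231)) (nd (nat_lit 299) (nat_lit 0) (cs (lf (nat_lit 29) (nat_lit 232)) (nd (nat_lit 210) (nat_lit 0) (cs (lf (nat_lit 40) (nat_lit 209)) (lf (nat_lit 28) (nat_lit 210)))))))) q106905 (by decide +kernel)
def q106922 : Q := Q.p (nat_lit 0x600001800003000008000000000000000000000000000000000000000000000000000000000) (nat_lit 0x40000180006000000000000000000000000000000000000000000000000000000000000000000000) (nat_lit 3)
theorem c106922 : QOK q106922 := cut [] trivial (nd (nat_lit 277) (nat_lit 0) (cs (lf (nat_lit 18) (nat_lit 252)) (nd (nat_lit 296) (nat_lit 0) (cs (lf (nat_lit 41) (nat_lit 230)) (lf (nat_lit 12) (nat_lit 273)))))) q106922 (by decide +kernel)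
def q106934 : Q := Q.p (nat_lit 0x400007800008000000000000000000000000000000000000000000000000000000000) (nat_lit 0x40000100000000000000007000008000020000000000000000000000000000000000000000000000) (nat_lit 4)
theorem c106934 : QOK q106934 := cut [] trivial (nd (nat_lit 229) (nat_lit 0) (cs (lf (nat_lit 23) (nat_lit 228)) (nd (nat_lit 207) (nat_lit 0) (cs (lf (nat_lit 24) (nat_lit 185)) (nd (nat_lit 296) (nat_lit 0) (cs (lf (nat_lit 30) (nat_lit 230)) (lf (nat_lit 45) (nat_lit 207)))))))) q106934 (by decide +kernel)
def q107200 : Q := Q.p (nat_lit 0x100000c000030000000000000000000000000000000000000000000000000000) (nat_lit 0x400000000000000000000080000200000000000000000000000000000000000000000) (nat_lit 2)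
theorem c107200 : QOK q107200 := cut [] trivial (nd (nat_lit 187) (nat_lit 0) (cs (lf (nat_lit 30) (nat_lit 186)) (lf (nat_lit 36) (nat_lit 164)))) q107200 (by decide +kernel)
def q107212 : Q := Q.p (nat_lit 0x80000200000800003c000000000000000000000000000000000000000000000000000000000) (nat_lit 0x100000400001000000000000000180000000000000000000000000000000000000000000000000000) (nat_lit 3)
theorem c107212 : QOK q107212 := cut [] trivial (nd (nat_lit 298) (nat_lit 0) (cs (lf (nat_lit 41) (nat_lit 232)) (nd (nat_lit 211) (nat_lit 0) (cs (lf (nat_lit 17) (nat_lit 208)) (lf (nat_lit 40) (nat_lit 210)))))) q107212 (by decide +kernel)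
def q107292 : Q := Q.p (nat_lit 0x80000e000000000000000000000000000000000000000000000000000000000) (nat_lit 0x140003000001c000000000000000000000000000000000000000000000000000) (nat_lit 4)
theorem c107292 : QOK q107292 := cut [] trivial (nd (nat_lit 232) (nat_lit 0) (cs (lf (nat_lit 11) (nat_lit 228)) (nd (nat_lit 207) (nat_lit 0) (cs (lf (nat_lit 23) (nat_lit 206)) (nd (nat_lit 233) (nat_lit 0) (cs (lf (nat_lit 10) (nat_lit 229)) (lf (nat_lit 22) (nat_lit 207)))))))) q107292 (by decide +kernel)
def q107381 : Q := Q.p (nat_lit 0x800002000008000020000000000000000000000000000000000000000000000000000) (nat_lit 0x8000030000170001c000016000050000180000600000000000000000000000000000000000000000) (nat_lit 10)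
theorem c107381 : QOK q107381 := cut [] trivial (nd (nat_lit 274) (nat_lit 0) (cs (lf (nat_lit 41) (nat_lit 208)) (nd (nat_lit 188) (nat_lit 0) (cs (lf (nat_lit 34) (nat_lit 187)) (nd (nat_lit 187) (nat_lit 0) (cs (lf (nat_lit 35) (nat_lit 165)) (nd (nat_lit 254) (nat_lit 0) (cs (lf (nat_lit 29) (nat_lit 187)) (nd (nat_lit 272) (nat_lit 0) (cs (lf (nat_lit 13) (nat_lit 250)) (nd (nat_lit 255) (nat_lit 0) (cs (lf (nat_lit 6) (nat_lit 252)) (nd (nat_lit 232) (nat_lit 0) (cs (lf (nat_lit 24) (nat_lit 165)) (nd (nat_lit 230) (nat_lit 0) (cs (lf (nat_lit 0) (nat_lit 229)) (nd (nat_lit 297) (nat_lit 0) (cs (lf (nat_lit 30) (nat_lit 231)) (lf (nat_lit 47) (nat_lit 208)))))))))))))))))))) q107381 (by decide +kernel)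
def q107421 : Q := Q.p (nat_lit 0x2000038000000000000000000000000000000000000000000000000000000000) (nat_lit 0x50001c40003e0000000000000000000000000000000000000000000000000000) (nat_lit 6)
theorem c107421 : QOK q107421 := cut [] trivial (nd (nat_lit 234) (nat_lit 0) (cs (lf (nat_lit 11) (nat_lit 230)) (nd (nat_lit 212) (nat_lit 0) (cs (lf (nat_lit 17) (nat_lit 209)) (nd (nat_lit 211) (nat_lit 0) (cs (lf (nat_lit 12) (nat_lit 208)) (nd (nat_lit 235) (nat_lit 0) (cs (lf (nat_lit 10) (nat_lit 231)) (nd (nat_lit 210) (nat_lit 0) (cs (lf (nat_lit 18) (nat_lit 210)) (lf (nat_lit 0) (nat_lit 209)))))))))))) q107421 (by decide +kernel)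
def q107570 : Q := Q.p (nat_lit 0x6000018000060000000000000000000000000000000000000000000000000000) (nat_lit 0xc00003000008000000000000000100000400000000000000000000000000000000000000000) (nat_lit 4)
theorem c107570 : QOK q107570 := cut [] trivial (nd (nat_lit 276) (nat_lit 0) (cs (lf (nat_lit 42) (nat_lit 209)) (nd (nat_lit 188) (nat_lit 0) (cs (lf (nat_lit 36) (nat_lit 165)) (nd (nat_lit 277) (nat_lit 0) (cs (lf (nat_lit 29) (nat_lit 210)) (lf (nat_lit 28) (nat_lit 188)))))))) q107570 (by decide +kernel)
def q107581 : Q := Q.p (nat_lit 0x400002000008000020000000000000000000000000000000000000000000000000000) (nat_lit 0x40000100000800001000004000000000000000000000000000000000000000000000000000000000) (nat_lit 3)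
theorem c107581 : QOK q107581 := cut [] trivial (nd (nat_lit 296) (nat_lit 0) (cs (lf (nat_lit 39) (nat_lit 208)) (nd (nat_lit 252) (nat_lit 0) (cs (lf (nat_lit 30) (nat_lit 230)) (lf (nat_lit 33) (nat_lit 208)))))) q107581 (by decide +kernel)
def q107673 : Q := Q.p (nat_lit 0x2c000030000000000000000000000000000000000000000000000000000) (nat_lit 0x50000008000000000000000000000000000000000000000000000000000) (nat_lit 2)
theorem c107673 : QOK q107673 := cut [] trivial (nd (nat_lit 232) (nat_lit 0) (cs (lf (nat_lit 18) (nat_lit 208)) (lf (nat_lit 23) (nat_lit 207)))) q107673 (by decide +kernel)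
def q107688 : Q := Q.p (nat_lit 0x600002c000030000000000000000000000000000000000000000000000000000) (nat_lit 0x19000050000000000000000000000000000000000000000000000000000000000) (nat_lit 3)
theorem c107688 : QOK q107688 := cut [] trivial (nd (nat_lit 255) (nat_lit 0) (cs (lf (nat_lit 18) (nat_lit 230)) (nd (nat_lit 234) (nat_lit 0) (cs (lf (nat_lit 20) (nat_lit 208)) (lf (nat_lit 12) (nat_lit 230)))))) q107688 (by decide +kernel)
def q107756 : Q := Q.p (nat_lit 0x400007800008000000000000000000000000000000000000000000000000000000000) (nat_lit 0x100000400003800000000000000020000080000000000000000000000000000000000000000000000) (nat_lit 4)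
theorem c107756 : QOK q107756 := cut [] trivial (nd (nat_lit 276) (nat_lit 0) (cs (lf (nat_lit 5) (nat_lit 251)) (nd (nat_lit 298) (nat_lit 0) (cs (lf (nat_lit 42) (nat_lit 231)) (nd (nat_lit 209) (nat_lit 0) (cs (lf (nat_lit 36) (nat_lit 186)) (lf (nat_lit 27) (nat_lit 209)))))))) q107756 (by decide +kernel)
def q107777 : Q := Q.p (nat_lit 0x380000e000000000000000000000000000000000000000000000000000000000) (nat_lit 0x6000018000070000c000000000028000000000000000000000000000000000000000000000000000) (nat_lit 6)
theorem c107777 : QOK q107777 := cut [] trivial (nd (nat_lit 254) (nat_lit 0) (cs (lf (nat_lit 18) (nat_lit 229)) (nd (nat_lit 273) (nat_lit 0) (cs (lf (nat_lit 11) (nat_lit 250)) (nd (nat_lit 295) (nat_lit 0) (cs (lf (nat_lit 30) (nat_lit 229)) (nd (nat_lit 296) (nat_lit 0) (cs (lf (nat_lit 29) (nat_lit 229)) (nd (nat_lit 274) (nat_lit 0) (cs (lf (nat_lit 35) (nat_lit 208)) (lf (nat_lit 47) (nat_lit 207)))))))))))) q107777 (by decide +kernel)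
def q107805 : Q := Q.p (nat_lit 0x1800006800000000000000000000000000000000000000000000000000000000000000) (nat_lit 0x2000001400000000000000000000000000000000000000000000000000000000000000) (nat_lit 2)
theorem c107805 : QOK q107805 := cut [] trivial (nd (nat_lit 252) (nat_lit 0) (cs (lf (nat_lit 0) (nat_lit 250)) (lf (nat_lit 5) (nat_lit 251)))) q107805 (by decide +kernel)
def q107837 : Q := Q.p (nat_lit 0xf00003000004000000000000000000000000000000000000000000000000000000000000000) (nat_lit 0x80000600000000000000000000000000000000000000000000000000000000000000000000000000000000) (nat_lit 2)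
theorem c107837 : QOK q107837 := cut [] trivial (nd (nat_lit 321) (nat_lit 0) (cs (lf (nat_lit 5) (nat_lit 296)) (lf (nat_lit 42) (nat_lit 254)))) q107837 (by decide +kernel)
def q108067 : Q := Q.p (nat_lit 0x180000e0000100000000000000000000000000000000000000000000000) (nat_lit 0x40000c0000310000e00000800002000000000000000000000000000000000000) (nat_lit 6)
theorem c108067 : QOK q108067 := cut [] trivial (nd (nat_lit 212) (nat_lit 0) (cs (lf (nat_lit 6) (nat_lit 209)) (nd (nat_lit 234) (nat_lit 0) (cs (lf (nat_lit 5) (nat_lit 209)) (nd (nat_lit 190) (nat_lit 0) (cs (lf (nat_lit 17) (nat_lit 187)) (nd (nat_lit 189) (nat_lit 0) (cs (lf (nat_lit 12) (nat_lit 186)) (nd (nat_lit 167) (nat_lit 0) (cs (lf (nat_lit 36) (nat_lit 144)) (lf (nat_lit 30) (nat_lit 166)))))))))))) q108067 (by decide +kernel)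
def q108115 : Q := Q.p (nat_lit 0x200000c000020000080000000000000000000000000000000000000000000000) (nat_lit 0x400001000000000000000000000200000000000000000000000000000000000000000) (nat_lit 2)
theorem c108115 : QOK q108115 := cut [] trivial (nd (nat_lit 252) (nat_lit 0) (cs (lf (nat_lit 41) (nat_lit 186)) (lf (nat_lit 36) (nat_lit 164)))) q108115 (by decide +kernel)
def q108134 : Q := Q.p (nat_lit 0xc00006000008000040000000000000000000000000000000000000000000000000000) (nat_lit 0x1300001000000000020000180000000000000000000000000000000000000000000000) (nat_lit 4)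
theorem c108134 : QOK q108134 := cut [] trivial (nd (nat_lit 272) (nat_lit 0) (cs (lf (nat_lit 13) (nat_lit 250)) (nd (nat_lit 209) (nat_lit 0) (cs (lf (nat_lit 35) (nat_lit 187)) (nd (nat_lit 187) (nat_lit 0) (cs (lf (nat_lit 40) (nat_lit 186)) (lf (nat_lit 29) (nat_lit 187)))))))) q108134 (by decide +kernel)
def q108148 : Q := Q.p (nat_lit 0x800006000008000040000000000000000000000000000000000000000000000000000) (nat_lit 0x200000000000000010000000000100000000000000000000000000000000000000000000000) (nat_lit 2)
theorem c108148 : QOK q108148 := cut [] trivial (nd (nat_lit 232) (nat_lit 0) (cs (lf (nat_lit 30) (nat_lit 209)) (lf (nat_lit 36) (nat_lit 187)))) q108148 (by decide +kernel)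
def q108167 : Q := Q.p (nat_lit 0x100000600006800008000000000000000000000000000000000000000000000000000000000) (nat_lit 0x1000007000008000000000000000000000000000000000000000000000000000) (nat_lit 3)
theorem c108167 : QOK q108167 := cut [] trivial (nd (nat_lit 229) (nat_lit 0) (cs (lf (nat_lit 24) (nat_lit 207)) (nd (nat_lit 228) (nat_lit 0) (cs (lf (nat_lit 2) (nat_lit 228)) (lf (nat_lit 20) (nat_lit 228)))))) q108167 (by decide +kernel)
def q108171 : Q := Q.p (nat_lit 0x80000200000c00002000000000000000000000000000000000000000000000000000000000000000) (nat_lit 0x20000000000000000000001000004000000000000000000000000000000000000000000000000000000000) (nat_lit 2)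
theorem c108171 : QOK q108171 := cut [] trivial (nd (nat_lit 252) (nat_lit 0) (cs (lf (nat_lit 42) (nat_lit 252)) (lf (nat_lit 47) (nat_lit 230)))) q108171 (by decide +kernel)
def q108261 : Q := Q.p (nat_lit 0x180000f000000000000000000000000000000000000000000000000000000000000000) (nat_lit 0x300000e0000000000000000000000000000000000000000000000000000000000) (nat_lit 3)
theorem c108261 : QOK q108261 := cut [] trivial (nd (nat_lit 234) (nat_lit 0) (cs (lf (nat_lit 16) (nat_lit 230)) (nd (nat_lit 256) (nat_lit 0) (cs (lf (nat_lit 17) (nat_lit 231)) (lf (nat_lit 6) (nat_lit 253)))))) q108261 (by decide +kernel)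
def q108275 : Q := Q.p (nat_lit 0x900003800000000000000000000000000000000000000000000000000000000000000) (nat_lit 0x680004780000e00000000000000000000000000000000000000000000000000000000) (nat_lit 6)
theorem c108275 : QOK q108275 := cut [] trivial (nd (nat_lit 250) (nat_lit 0) (cs (lf (nat_lit 11) (nat_lit 249)) (nd (nat_lit 249) (nat_lit 0) (cs (lf (nat_lit 4) (nat_lit 249)) (nd (nat_lit 226) (nat_lit 0) (cs (lf (nat_lit 22) (nat_lit 226)) (nd (nat_lit 273) (nat_lit 0) (cs (lf (nat_lit 6) (nat_lit 250)) (nd (nat_lit 248) (nat_lit 0) (cs (lf (nat_lit 23) (nat_lit 225)) (lf (nat_lit 0) (nat_lit 247)))))))))))) q108275 (by decide +kernel)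
def q108292 : Q := Q.p (nat_lit 0x300000b00002000000000000000000000000000000000000000000000000000000000000000) (nat_lit 0x480004000000000000000000000000000000000000000000000000000000000000000) (nat_lit 2)
theorem c108292 : QOK q108292 := cut [] trivial (nd (nat_lit 274) (nat_lit 0) (cs (lf (nat_lit 0) (nat_lit 271)) (lf (nat_lit 17) (nat_lit 250)))) q108292 (by decide +kernel)
def q108298 : Q := Q.p (nat_lit 0x380000900002000000000000000000000000000000000000000000000000000000000000000) (nat_lit 0x50000440000600005800002000008000000000000000000000000000000000000000000000000000) (nat_lit 6)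
theorem c108298 : QOK q108298 := cut [] trivial (nd (nat_lit 273) (nat_lit 0) (cs (lf (nat_lit 18) (nat_lit 272)) (nd (nat_lit 254) (nat_lit 0) (cs (lf (nat_lit 14) (nat_lit 250)) (nd (nat_lit 251) (nat_lit 0) (cs (lf (nat_lit 8) (nat_lit 250)) (nd (nat_lit 229) (nat_lit 0) (cs (lf (nat_lit 29) (nat_lit 229)) (nd (nat_lit 294) (nat_lit 0) (cs (lf (nat_lit 36) (nat_lit 206)) (lf (nat_lit 41) (nat_lit 228)))))))))))) q108298 (by decide +kernel)
def q108301 : Q := Q.p (nat_lit 0x300003800000000000000000000000000000000000000000000000000000000000000000000) (nat_lit 0x4c0000000000000000000000000000000000000000000000000000000000000000000000000) (nat_lit 2)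
theorem c108301 : QOK q108301 := cut [] trivial (nd (nat_lit 295) (nat_lit 0) (cs (lf (nat_lit 12) (nat_lit 272)) (lf (nat_lit 15) (nat_lit 273)))) q108301 (by decide +kernel)
def q108309 : Q := Q.p (nat_lit 0x200000c0000f000000000000000000000000000000000000000000000000000000000000000) (nat_lit 0x6000010000000000000000000000000000000000000000000000000000) (nat_lit 2)
theorem c108309 : QOK q108309 := cut [] trivial (nd (nat_lit 230) (nat_lit 0) (cs (lf (nat_lit 23) (nat_lit 229)) (lf (nat_lit 24) (nat_lit 208)))) q108309 (by decide +kernel)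
def q108372 : Q := Q.p (nat_lit 0xc00007800000000000000000000000000000000000000000000000000000000000000) (nat_lit 0x18000070000000000000000000000000000000000000000000000000000000000) (nat_lit 3)
theorem c108372 : QOK q108372 := cut [] trivial (nd (nat_lit 233) (nat_lit 0) (cs (lf (nat_lit 16) (nat_lit 229)) (nd (nat_lit 255) (nat_lit 0) (cs (lf (nat_lit 17) (nat_lit 230)) (lf (nat_lit 6) (nat_lit 252)))))) q108372 (by decide +kernel)
def q108391 : Q := Q.p (nat_lit 0x1e00000000000000000000000000000000000000000000000000000000000000000000) (nat_lit 0x1c000200001c000000000000000000000000000000000000000000000000000000000000000) (nat_lit 4)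
theorem c108391 : QOK q108391 := cut [] trivial (nd (nat_lit 255) (nat_lit 0) (cs (lf (nat_lit 16) (nat_lit 251)) (nd (nat_lit 295) (nat_lit 0) (cs (lf (nat_lit 11) (nat_lit 272)) (nd (nat_lit 277) (nat_lit 0) (cs (lf (nat_lit 10) (nat_lit 273)) (lf (nat_lit 17) (nat_lit 252)))))))) q108391 (by decide +kernel)
def q108403 : Q := Q.p (nat_lit 0xc00007800000000000000000000000000000000000000000000000000000000000000) (nat_lit 0x600003800000000000000000000000000000000000000000000000000000000) (nat_lit 3)
theorem c108403 : QOK q108403 := cut [] trivial (nd (nat_lit 228) (nat_lit 0) (cs (lf (nat_lit 22) (nat_lit 228)) (nd (nat_lit 250) (nat_lit 0) (cs (lf (nat_lit 0) (nat_lit 249)) (lf (nat_lit 23) (nat_lit 227)))))) q108403 (by decide +kernel)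
def q108421 : Q := Q.p (nat_lit 0x1e00000000000000000000000000000000000000000000000000000000000000000000) (nat_lit 0x1c0000200001c000000000000000000000000000000000000000000000000000000000000000) (nat_lit 4)
theorem c108421 : QOK q108421 := cut [] trivial (nd (nat_lit 299) (nat_lit 0) (cs (lf (nat_lit 4) (nat_lit 273)) (nd (nat_lit 255) (nat_lit 0) (cs (lf (nat_lit 16) (nat_lit 251)) (nd (nat_lit 277) (nat_lit 0) (cs (lf (nat_lit 5) (nat_lit 274)) (lf (nat_lit 17) (nat_lit 252)))))))) q108421 (by decide +kernel)
def q108489 : Q := Q.p (nat_lit 0xc00006000000000000000000000000000000000000000000000000000000000000000) (nat_lit 0x1200019000000000000000000000000000000000000000000000000000000000000000) (nat_lit 3)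
theorem c108489 : QOK q108489 := cut [] trivial (nd (nat_lit 255) (nat_lit 0) (cs (lf (nat_lit 6) (nat_lit 252)) (nd (nat_lit 273) (nat_lit 0) (cs (lf (nat_lit 9) (nat_lit 251)) (lf (nat_lit 15) (nat_lit 251)))))) q108489 (by decide +kernel)
def q108525 : Q := Q.p (nat_lit 0x100000e00001000004000000000000000000000000000000000000000000000000000000000000000) (nat_lit 0x80000600000180000000000000000000000000000000000000000000000000000000000000000000000000) (nat_lit 3)
theorem c108525 : QOK q108525 := cut [] trivial (nd (nat_lit 321) (nat_lit 0) (cs (lf (nat_lit 29) (nat_lit 254)) (nd (nat_lit 296) (nat_lit 0) (cs (lf (nat_lit 5) (nat_lit 296)) (lf (nat_lit 0) (nat_lit 295)))))) q108525 (by decide +kernel)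
def q108539 : Q := Q.p (nat_lit 0x240000b00000000000000000000000000000000000000000000000000000000000000000000000000) (nat_lit 0x420000400000000000000000000000000000000000000000000000000000000000000000000000000) (nat_lit 2)
theorem c108539 : QOK q108539 := cut [] trivial (nd (nat_lit 298) (nat_lit 0) (cs (lf (nat_lit 5) (nat_lit 296)) (lf (nat_lit 11) (nat_lit 295)))) q108539 (by decide +kernel)
def q108573 : Q := Q.p (nat_lit 0x40000000000400007800000000000000000000000000000000000000000000000000000000000000) (nat_lit 0x100000000000000003000000000000000000000000000000000000000000000000000000000) (nat_lit 2)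
theorem c108573 : QOK q108573 := cut [] trivial (nd (nat_lit 229) (nat_lit 0) (cs (lf (nat_lit 43) (nat_lit 229)) (lf (nat_lit 23) (nat_lit 228)))) q108573 (by decide +kernel)
def q108621 : Q := Q.p (nat_lit 0x780000600000000000000000000000000000000000000000000000000000000000000000000) (nat_lit 0x8000030000000000000001000004000000000000000000000000000000000000000000000000000000000) (nat_lit 3)
theorem c108621 : QOK q108621 := cut [] trivial (nd (nat_lit 317) (nat_lit 0) (cs (lf (nat_lit 11) (nat_lit 294)) (nd (nat_lit 252) (nat_lit 0) (cs (lf (nat_lit 30) (nat_lit 251)) (lf (nat_lit 36) (nat_lit 229)))))) q108621 (by decide +kernel)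
def q108718 : Q := Q.p (nat_lit 0x1c0000b000000000000000000000000000000000000000000000000000000000000000) (nat_lit 0x6000010000000000000000000000000000000000000000000000000000000000000000) (nat_lit 2)
theorem c108718 : QOK q108718 := cut [] trivial (nd (nat_lit 277) (nat_lit 0) (cs (lf (nat_lit 18) (nat_lit 252)) (lf (nat_lit 17) (nat_lit 252)))) q108718 (by decide +kernel)
def q108735 : Q := Q.p (nat_lit 0x3c00006000000000000000000000000000000000000000000000000000000000000000) (nat_lit 0x80000200001800000000018000010000000000000000000000000000000000000000000000000000000000) (nat_lit 4)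
theorem c108735 : QOK q108735 := cut [] trivial (nd (nat_lit 299) (nat_lit 0) (cs (lf (nat_lit 5) (nat_lit 274)) (nd (nat_lit 321) (nat_lit 0) (cs (lf (nat_lit 42) (nat_lit 254)) (nd (nat_lit 255) (nat_lit 0) (cs (lf (nat_lit 6) (nat_lit 252)) (lf (nat_lit 47) (nat_lit 232)))))))) q108735 (by decide +kernel)
def q108787 : Q := Q.p (nat_lit 0x180000e000000000000000000000000000000000000000000000000000000000) (nat_lit 0x400030000000000000000000000000000000000000000000000000000000000) (nat_lit 2)
theorem c108787 : QOK q108787 := cut [] trivial (nd (nat_lit 232) (nat_lit 0) (cs (lf (nat_lit 6) (nat_lit 229)) (lf (nat_lit 11) (nat_lit 228)))) q108787 (by decide +kernel)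
def q108989 : Q := Q.p (nat_lit 0x800002000008000020000000000000000000000000000000000000000000000000000) (nat_lit 0x500001c0000500000000000000000000000000000000000000000) (nat_lit 4)
theorem c108989 : QOK q108989 := cut [] trivial (nd (nat_lit 186) (nat_lit 0) (cs (lf (nat_lit 46) (nat_lit 186)) (nd (nat_lit 188) (nat_lit 0) (cs (lf (nat_lit 34) (nat_lit 187)) (nd (nat_lit 187) (nat_lit 0) (cs (lf (nat_lit 35) (nat_lit 165)) (lf (nat_lit 47) (nat_lit 164)))))))) q108989 (by decide +kernel)
def q109045 : Q := Q.p (nat_lit 0x200000800002000038000000000000000000000000000000000000000000000000000000000) (nat_lit 0x1000044000390000000000000000000000000000000000000000000000000000) (nat_lit 4)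
theorem c109045 : QOK q109045 := cut [] trivial (nd (nat_lit 234) (nat_lit 0) (cs (lf (nat_lit 11) (nat_lit 230)) (nd (nat_lit 212) (nat_lit 0) (cs (lf (nat_lit 17) (nat_lit 209)) (nd (nat_lit 230) (nat_lit 0) (cs (lf (nat_lit 16) (nat_lit 208)) (lf (nat_lit 47) (nat_lit 208)))))))) q109045 (by decide +kernel)
def q109122 : Q := Q.p (nat_lit 0x80001e000000000000000000000000000000000000000000000000000000000000000) (nat_lit 0x10000e10000f0000000000000000000000000000000000000000000000000000000000) (nat_lit 5)
theorem c109122 : QOK q109122 := cut [] trivial (nd (nat_lit 234) (nat_lit 0) (cs (lf (nat_lit 17) (nat_lit 231)) (nd (nat_lit 233) (nat_lit 0) (cs (lf (nat_lit 12) (nat_lit 230)) (nd (nat_lit 257) (nat_lit 0) (cs (lf (nat_lit 10) (nat_lit 253)) (nd (nat_lit 258) (nat_lit 0) (cs (lf (nat_lit 23) (nat_lit 232)) (lf (nat_lit 18) (nat_lit 233)))))))))) q109122 (by decide +kernel)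
def q109167 : Q := Q.p (nat_lit 0xe00000800006000000000000000000000000000000000000000000000000000000000000000) (nat_lit 0x1100000700000000000000000000000000000000000000000000000000000000000000000000) (nat_lit 3)
theorem c109167 : QOK q109167 := cut [] trivial (nd (nat_lit 274) (nat_lit 0) (cs (lf (nat_lit 18) (nat_lit 274)) (nd (nat_lit 273) (nat_lit 0) (cs (lf (nat_lit 21) (nat_lit 273)) (lf (nat_lit 12) (nat_lit 250)))))) q109167 (by decide +kernel)
def q109208 : Q := Q.p (nat_lit 0xc00007000000000000000000000000000000000000000000000000000000000000000) (nat_lit 0x1c0000700001d80007000018800060000000000000000000000000000000000000000000000000000000000) (nat_lit 10)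
theorem c109208 : QOK q109208 := cut [] trivial (nd (nat_lit 255) (nat_lit 0) (cs (lf (nat_lit 6) (nat_lit 252)) (nd (nat_lit 277) (nat_lit 0) (cs (lf (nat_lit 5) (nat_lit 252)) (nd (nat_lit 276) (nat_lit 0) (cs (lf (nat_lit 0) (nat_lit 251)) (nd (nat_lit 299) (nat_lit 0) (cs (lf (nat_lit 5) (nat_lit 274)) (nd (nat_lit 321) (nat_lit 0) (cs (lf (nat_lit 42) (nat_lit 254)) (nd (nat_lit 295) (nat_lit 0) (cs (lf (nat_lit 10) (nat_lit 273)) (nd (nat_lit 322) (nat_lit 0) (cs (lf (nat_lit 29) (nat_lit 255)) (nd (nat_lit 320) (nat_lit 0) (cs (lf (nat_lit 41) (nat_lit 254)) (nd (nat_lit 233) (nat_lit 0) (cs (lf (nat_lit 40) (nat_lit 232)) (lf (nat_lit 17) (nat_lit 230)))))))))))))))))))) q109208 (by decide +kernel)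
def q109222 : Q := Q.p (nat_lit 0x300002c00006000000000000000000000000000000000000000000000000000000000000000) (nat_lit 0x200001880001000019800010000040000000000000000000000000000000000000000000000000000) (nat_lit 6)
theorem c109222 : QOK q109222 := cut [] trivial (nd (nat_lit 255) (nat_lit 0) (cs (lf (nat_lit 6) (nat_lit 252)) (nd (nat_lit 276) (nat_lit 0) (cs (lf (nat_lit 11) (nat_lit 273)) (nd (nat_lit 251) (nat_lit 0) (cs (lf (nat_lit 22) (nat_lit 251)) (nd (nat_lit 299) (nat_lit 0) (cs (lf (nat_lit 5) (nat_lit 274)) (nd (nat_lit 232) (nat_lit 0) (cs (lf (nat_lit 42) (nat_lit 232)) (lf (nat_lit 36) (nat_lit 209)))))))))))) q109222 (by decide +kernel)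
def q109260 : Q := Q.p (nat_lit 0x300000c0000b000000000000000000000000000000000000000000000000000000000000000) (nat_lit 0x4000006000018000000000000000000000000000000000000000000000000000) (nat_lit 3)
theorem c109260 : QOK q109260 := cut [] trivial (nd (nat_lit 230) (nat_lit 0) (cs (lf (nat_lit 24) (nat_lit 208)) (nd (nat_lit 229) (nat_lit 0) (cs (lf (nat_lit 47) (nat_lit 207)) (lf (nat_lit 19) (nat_lit 229)))))) q109260 (by decide +kernel)
def q109316 : Q := Q.p (nat_lit 0x1000004000018000040000000000000000000000000000000000000000000000000000) (nat_lit 0x26000380000200000000000000000000000000000000000000000000000) (nat_lit 4)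
theorem c109316 : QOK q109316 := cut [] trivial (nd (nat_lit 211) (nat_lit 0) (cs (lf (nat_lit 35) (nat_lit 188)) (nd (nat_lit 212) (nat_lit 0) (cs (lf (nat_lit 6) (nat_lit 209)) (nd (nat_lit 230) (nat_lit 0) (cs (lf (nat_lit 12) (nat_lit 207)) (lf (nat_lit 15) (nat_lit 208)))))))) q109316 (by decide +kernel)
def q109389 : Q := Q.p (nat_lit 0x3800010000000000000000000000000000000000000000000000000000000000000000) (nat_lit 0x400006c000000000000000000000000000000000000000000000000000000000000000) (nat_lit 3)
theorem c109389 : QOK q109389 := cut [] trivial (nd (nat_lit 257) (nat_lit 0) (cs (lf (nat_lit 15) (nat_lit 253)) (nd (nat_lit 255) (nat_lit 0) (cs (lf (nat_lit 6) (nat_lit 254)) (lf (nat_lit 9) (nat_lit 253)))))) q109389 (by decide +kernel)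
def q109396 : Q := Q.p (nat_lit 0xb00000c000000000000000000000000000000000000000000000000000000000) (nat_lit 0x14000002000000000000000000000000000000000000000000000000000000000) (nat_lit 2)
theorem c109396 : QOK q109396 := cut [] trivial (nd (nat_lit 254) (nat_lit 0) (cs (lf (nat_lit 23) (nat_lit 229)) (lf (nat_lit 18) (nat_lit 230)))) q109396 (by decide +kernel)
def q109411 : Q := Q.p (nat_lit 0x180000b00000c000000000000000000000000000000000000000000000000000000000) (nat_lit 0x6400014000000000000000000000000000000000000000000000000000000000000000) (nat_lit 3)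
theorem c109411 : QOK q109411 := cut [] trivial (nd (nat_lit 277) (nat_lit 0) (cs (lf (nat_lit 18) (nat_lit 252)) (nd (nat_lit 256) (nat_lit 0) (cs (lf (nat_lit 12) (nat_lit 252)) (lf (nat_lit 20) (nat_lit 230)))))) q109411 (by decide +kernel)
def q109534 : Q := Q.p (nat_lit 0x80000200000800002000000000000000000000000000000000000000000000000000000000000000) (nat_lit 0x100001c000070000100000400001000004000000000000000000000000000000000000000000000000000000000000000) (nat_lit 6)
theorem c109534 : QOK q109534 := cut [] trivial (nd (nat_lit 342) (nat_lit 0) (cs (lf (nat_lit 28) (nat_lit 253)) (nd (nat_lit 341) (nat_lit 0) (cs (lf (nat_lit 29) (nat_lit 275)) (nd (nat_lit 362) (nat_lit 0) (cs (lf (nat_lit 40) (nat_lit 274)) (nd (nat_lit 276) (nat_lit 0) (cs (lf (nat_lit 35) (nat_lit 253)) (nd (nat_lit 363) (nat_lit 0) (cs (lf (nat_lit 41) (nat_lit 296)) (lf (nat_lit 34) (nat_lit 275)))))))))))) q109534 (by decide +kernel)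
def q109567 : Q := Q.p (nat_lit 0x200001c00003000000000000000000000000000000000000000000000000000000000000000) (nat_lit 0xe000078000198000620001c000060000080000200000000000000000000000000000000000000000000000) (nat_lit 11)
theorem c109567 : QOK q109567 := cut [] trivial (nd (nat_lit 319) (nat_lit 0) (cs (lf (nat_lit 42) (nat_lit 252)) (nd (nat_lit 320) (nat_lit 0) (cs (lf (nat_lit 29) (nat_lit 253)) (nd (nat_lit 277) (nat_lit 0) (cs (lf (nat_lit 18) (nat_lit 252)) (nd (nat_lit 255) (nat_lit 0) (cs (lf (nat_lit 17) (nat_lit 252)) (nd (nat_lit 254) (nat_lit 0) (cs (lf (nat_lit 12) (nat_lit 251)) (nd (nat_lit 233) (nat_lit 0) (cs (lf (nat_lit 17) (nat_lit 230)) (nd (nat_lit 189) (nat_lit 0) (cs (lf (nat_lit 37) (nat_lit 188)) (nd (nat_lit 299) (nat_lit 0) (cs (lf (nat_lit 5) (nat_lit 274)) (nd (nat_lit 296) (nat_lit 0) (cs (lf (nat_lit 11) (nat_lit 273)) (nd (nat_lit 321) (nat_lit 0) (cs (lf (nat_lit 18) (nat_lit 296)) (lf (nat_lit 42) (nat_lit 254)))))))))))))))))))))) q109567 (by decide +kernel)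
def q109603 : Q := Q.p (nat_lit 0x80000300001800003800000000000000000000000000000000000000000000000000000000000000) (nat_lit 0x200001d0000760001c00000400004000003c00000000000000000000000000000000000000000000000000000000) (nat_lit 10)
theorem c109603 : QOK q109603 := cut [] trivial (nd (nat_lit 320) (nat_lit 0) (cs (lf (nat_lit 29) (nat_lit 253)) (nd (nat_lit 318) (nat_lit 0) (cs (lf (nat_lit 41) (nat_lit 252)) (nd (nat_lit 229) (nat_lit 0) (cs (lf (nat_lit 44) (nat_lit 229)) (nd (nat_lit 228) (nat_lit 0) (cs (lf (nat_lit 18) (nat_lit 228)) (nd (nat_lit 226) (nat_lit 0) (cs (lf (nat_lit 1) (nat_lit 226)) (nd (nat_lit 321) (nat_lit 0) (cs (lf (nat_lit 18) (nat_lit 296)) (nd (nat_lit 299) (nat_lit 0) (cs (lf (nat_lit 17) (nat_lit 296)) (nd (nat_lit 298) (nat_lit 0) (cs (lf (nat_lit 12) (nat_lit 295)) (nd (nat_lit 343) (nat_lit 0) (cs (lf (nat_lit 5) (nat_lit 318)) (lf (nat_lit 42) (nat_lit 276)))))))))))))))))))) q109603 (by decide +kernel)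
def q109767 : Q := Q.p (nat_lit 0x70000000000f000000000000000000000000000000000000000000000000000000000000000) (nat_lit 0x80000700000800000000000000000000000000000000000000000000000000000000000000) (nat_lit 3)
theorem c109767 : QOK q109767 := cut [] trivial (nd (nat_lit 273) (nat_lit 0) (cs (lf (nat_lit 10) (nat_lit 251)) (nd (nat_lit 272) (nat_lit 0) (cs (lf (nat_lit 21) (nat_lit 272)) (lf (nat_lit 9) (nat_lit 250)))))) q109767 (by decide +kernel)
def q109885 : Q := Q.p (nat_lit 0x380000200000000000000000000000000000000000000000000000000000000000000000000) (nat_lit 0x4000005c0000000000000000000000000000000000000000000000000000000000000000000) (nat_lit 3)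
theorem c109885 : QOK q109885 := cut [] trivial (nd (nat_lit 272) (nat_lit 0) (cs (lf (nat_lit 18) (nat_lit 272)) (nd (nat_lit 271) (nat_lit 0) (cs (lf (nat_lit 0) (nat_lit 270)) (lf (nat_lit 3) (nat_lit 271)))))) q109885 (by decide +kernel)
def q109946 : Q := Q.p (nat_lit 0x200000800002000008000000000000000000000000000000000000000000000000000000000) (nat_lit 0x80000400001400005000014000060000180000200000000000000000000000000000000000000000) (nat_lit 7)
theorem c109946 : QOK q109946 := cut [] trivial (nd (nat_lit 210) (nat_lit 0) (cs (lf (nat_lit 34) (nat_lit 209)) (nd (nat_lit 209) (nat_lit 0) (cs (lf (nat_lit 35) (nat_lit 187)) (nd (nat_lit 276) (nat_lit 0) (cs (lf (nat_lit 29) (nat_lit 209)) (nd (nat_lit 187) (nat_lit 0) (cs (lf (nat_lit 28) (nat_lit 187)) (nd (nat_lit 252) (nat_lit 0) (cs (lf (nat_lit 41) (nat_lit 186)) (nd (nat_lit 230) (nat_lit 0) (cs (lf (nat_lit 42) (nat_lit 230)) (lf (nat_lit 36) (nat_lit 164)))))))))))))) q109946 (by decide +kernel)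
def q110053 : Q := Q.p (nat_lit 0x80000300000c000020000000000000000000000000000000000000000000000000000) (nat_lit 0xc0000300000400000000000000000000000000000000000000000000000000000000000000000000) (nat_lit 3)
theorem c110053 : QOK q110053 := cut [] trivial (nd (nat_lit 297) (nat_lit 0) (cs (lf (nat_lit 42) (nat_lit 230)) (nd (nat_lit 296) (nat_lit 0) (cs (lf (nat_lit 41) (nat_lit 230)) (lf (nat_lit 31) (nat_lit 208)))))) q110053 (by decide +kernel)
def q110074 : Q := Q.p (nat_lit 0x700000c000020000100000000000000000000000000000000000000000000000) (nat_lit 0x6800018000010000040000000000000000000000000000000000000000000000000000) (nat_lit 4)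
theorem c110074 : QOK q110074 := cut [] trivial (nd (nat_lit 210) (nat_lit 0) (cs (lf (nat_lit 30) (nat_lit 187)) (nd (nat_lit 255) (nat_lit 0) (cs (lf (nat_lit 18) (nat_lit 230)) (nd (nat_lit 277) (nat_lit 0) (cs (lf (nat_lit 5) (nat_lit 252)) (lf (nat_lit 26) (nat_lit 188)))))))) q110074 (by decide +kernel)
def q110554 : Q := Q.p (nat_lit 0x1000004000016000040000000000000000000000000000000000000000000000000000) (nat_lit 0x8000080000200000000000000000000000000000000000000000000000) (nat_lit 2)
theorem c110554 : QOK q110554 := cut [] trivial (nd (nat_lit 211) (nat_lit 0) (cs (lf (nat_lit 35) (nat_lit 188)) (lf (nat_lit 14) (nat_lit 207)))) q110554 (by decide +kernel)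
def q110655 : Q := Q.p (nat_lit 0x200001800007000000000000000000000000000000000000000000000000000000000000000) (nat_lit 0x40000120000cc0000700008c00014000050000000000000000000000000000000000000000000000000000) (nat_lit 9)
theorem c110655 : QOK q110655 := cut [] trivial (nd (nat_lit 210) (nat_lit 0) (cs (lf (nat_lit 37) (nat_lit 209)) (nd (nat_lit 251) (nat_lit 0) (cs (lf (nat_lit 0) (nat_lit 250)) (nd (nat_lit 273) (nat_lit 0) (cs (lf (nat_lit 11) (nat_lit 250)) (nd (nat_lit 274) (nat_lit 0) (cs (lf (nat_lit 6) (nat_lit 251)) (nd (nat_lit 298) (nat_lit 0) (cs (lf (nat_lit 5) (nat_lit 273)) (nd (nat_lit 320) (nat_lit 0) (cs (lf (nat_lit 42) (nat_lit 253)) (nd (nat_lit 295) (nat_lit 0) (cs (lf (nat_lit 11) (nat_lit 272)) (nd (nat_lit 230) (nat_lit 0) (cs (lf (nat_lit 30) (nat_lit 229)) (lf (nat_lit 24) (nat_lit 208)))))))))))))))))) q110655 (by decide +kernel)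
def q111047 : Q := Q.p (nat_lit 0xc00006000038000000000000000000000000000000000000000000000000000000000) (nat_lit 0x380001e00001000000000000000080000000000000000000000000000000000000000000000000000) (nat_lit 5)
theorem c111047 : QOK q111047 := cut [] trivial (nd (nat_lit 297) (nat_lit 0) (cs (lf (nat_lit 30) (nat_lit 231)) (nd (nat_lit 298) (nat_lit 0) (cs (lf (nat_lit 29) (nat_lit 231)) (nd (nat_lit 299) (nat_lit 0) (cs (lf (nat_lit 18) (nat_lit 274)) (nd (nat_lit 276) (nat_lit 0) (cs (lf (nat_lit 29) (nat_lit 232)) (lf (nat_lit 35) (nat_lit 210)))))))))) q111047 (by decide +kernel)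
def q111159 : Q := Q.p (nat_lit 0xe00001000006000018000000000000000000000000000000000000000000000000000000000) (nat_lit 0x300000e0000380000e7000398000000000000000000000000000000000000000000000000000) (nat_lit 10)
theorem c111159 : QOK q111159 := cut [] trivial (nd (nat_lit 233) (nat_lit 0) (cs (lf (nat_lit 35) (nat_lit 210)) (nd (nat_lit 234) (nat_lit 0) (cs (lf (nat_lit 6) (nat_lit 231)) (nd (nat_lit 256) (nat_lit 0) (cs (lf (nat_lit 5) (nat_lit 231)) (nd (nat_lit 230) (nat_lit 0) (cs (lf (nat_lit 19) (nat_lit 230)) (nd (nat_lit 228) (nat_lit 0) (cs (lf (nat_lit 1) (nat_lit 228)) (nd (nat_lit 207) (nat_lit 0) (cs (lf (nat_lit 22) (nat_lit 207)) (nd (nat_lit 212) (nat_lit 0) (cs (lf (nat_lit 17) (nat_lit 209)) (nd (nat_lit 278) (nat_lit 0) (cs (lf (nat_lit 40) (nat_lit 211)) (nd (nat_lit 279) (nat_lit 0) (cs (lf (nat_lit 15) (nat_lit 275)) (lf (nat_lit 29) (nat_lit 212)))))))))))))))))))) q111159 (by decide +kernel)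
def q111168 : Q := Q.p (nat_lit 0x100000400001000004000000000000000000000000000000000000000000000000000000000000000) (nat_lit 0x8000060000080000000002000008000020000000000000000000000000000000000000000000000000000000000) (nat_lit 4)
theorem c111168 : QOK q111168 := cut [] trivial (nd (nat_lit 341) (nat_lit 0) (cs (lf (nat_lit 40) (nat_lit 253)) (nd (nat_lit 255) (nat_lit 0) (cs (lf (nat_lit 35) (nat_lit 232)) (nd (nat_lit 342) (nat_lit 0) (cs (lf (nat_lit 41) (nat_lit 275)) (lf (nat_lit 34) (nat_lit 254)))))))) q111168 (by decide +kernel)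
def q111193 : Q := Q.p (nat_lit 0x3c00006000000000000000000000000000000000000000000000000000000000000000) (nat_lit 0xc000038000000000000000000000000000000000000000000000000000000000000000) (nat_lit 3)
theorem c111193 : QOK q111193 := cut [] trivial (nd (nat_lit 278) (nat_lit 0) (cs (lf (nat_lit 18) (nat_lit 253)) (nd (nat_lit 256) (nat_lit 0) (cs (lf (nat_lit 17) (nat_lit 253)) (lf (nat_lit 7) (nat_lit 252)))))) q111193 (by decide +kernel)
def q111198 : Q := Q.p (nat_lit 0x200001800006000008000000000000000000000000000000000000000000000000000000000) (nat_lit 0x40000300000c0000000000000000000000000000000000000000000000) (nat_lit 3)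
theorem c111198 : QOK q111198 := cut [] trivial (nd (nat_lit 208) (nat_lit 0) (cs (lf (nat_lit 46) (nat_lit 208)) (nd (nat_lit 209) (nat_lit 0) (cs (lf (nat_lit 47) (nat_lit 186)) (lf (nat_lit 24) (nat_lit 187)))))) q111198 (by decide +kernel)
def q111259 : Q := Q.p (nat_lit 0x200001800006000008000000000000000000000000000000000000000000000000000000000) (nat_lit 0x60000180000400000000000000000000000000000000000000000000000000000000000000000000000000) (nat_lit 3)
theorem c111259 : QOK q111259 := cut [] trivial (nd (nat_lit 320) (nat_lit 0) (cs (lf (nat_lit 43) (nat_lit 231)) (nd (nat_lit 319) (nat_lit 0) (cs (lf (nat_lit 29) (nat_lit 253)) (lf (nat_lit 30) (nat_lit 253)))))) q111259 (by decide +kernel)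
def q111319 : Q := Q.p (nat_lit 0x1800006000010000000000000000000000000000000000000000000000000000000000) (nat_lit 0x1c0000e0000300000e00000e0000380000000000000000000000000000000000000000000000) (nat_lit 9)
theorem c111319 : QOK q111319 := cut [] trivial (nd (nat_lit 210) (nat_lit 0) (cs (lf (nat_lit 36) (nat_lit 187)) (nd (nat_lit 187) (nat_lit 0) (cs (lf (nat_lit 46) (nat_lit 187)) (nd (nat_lit 211) (nat_lit 0) (cs (lf (nat_lit 35) (nat_lit 188)) (nd (nat_lit 277) (nat_lit 0) (cs (lf (nat_lit 29) (nat_lit 210)) (nd (nat_lit 233) (nat_lit 0) (cs (lf (nat_lit 30) (nat_lit 210)) (nd (nat_lit 234) (nat_lit 0) (cs (lf (nat_lit 6) (nat_lit 231)) (nd (nat_lit 278) (nat_lit 0) (cs (lf (nat_lit 18) (nat_lit 253)) (nd (nat_lit 256) (nat_lit 0) (cs (lf (nat_lit 17) (nat_lit 253)) (lf (nat_lit 42) (nat_lit 211)))))))))))))))))) q111319 (by decide +kernel)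
def q111337 : Q := Q.p (nat_lit 0x180000000001800006000000000000000000000000000000000000000000000000000000000000000) (nat_lit 0x60000000000400000000000000000000000000000000000000000000000000000000000000000000000000) (nat_lit 2)
theorem c111337 : QOK q111337 := cut [] trivial (nd (nat_lit 298) (nat_lit 0) (cs (lf (nat_lit 42) (nat_lit 253)) (lf (nat_lit 41) (nat_lit 253)))) q111337 (by decide +kernel)
def q111414 : Q := Q.p (nat_lit 0x100000400001000006000010000000000000000000000000000000000000000000000000000000000) (nat_lit 0x400000000000000008000000000200000c0000300000000000000000000000000000000000000000000000) (nat_lit 4)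
theorem c111414 : QOK q111414 := cut [] trivial (nd (nat_lit 211) (nat_lit 0) (cs (lf (nat_lit 34) (nat_lit 210)) (nd (nat_lit 210) (nat_lit 0) (cs (lf (nat_lit 35) (nat_lit 188)) (nd (nat_lit 275) (nat_lit 0) (cs (lf (nat_lit 42) (nat_lit 253)) (lf (nat_lit 36) (nat_lit 187)))))))) q111414 (by decide +kernel)
def q111452 : Q := Q.p (nat_lit 0x600001000004000000000000000000000000000000000000000000000000000000000000000) (nat_lit 0x8000020000080000000000800000000010000000000000000000000000000000000000000000000000000000000) (nat_lit 3)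
theorem c111452 : QOK q111452 := cut [] trivial (nd (nat_lit 319) (nat_lit 0) (cs (lf (nat_lit 36) (nat_lit 231)) (nd (nat_lit 341) (nat_lit 0) (cs (lf (nat_lit 30) (nat_lit 275)) (lf (nat_lit 33) (nat_lit 253)))))) q111452 (by decide +kernel)
def q111456 : Q := Q.p (nat_lit 0x1000006000008000020000000000000000000000000000000000000000000000000000) (nat_lit 0x400000800000000010000000000000000000000000000000000000000000000000000000000) (nat_lit 2)
theorem c111456 : QOK q111456 := cut [] trivial (nd (nat_lit 298) (nat_lit 0) (cs (lf (nat_lit 27) (nat_lit 209)) (lf (nat_lit 45) (nat_lit 209)))) q111456 (by decide +kernel)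
def q111493 : Q := Q.p (nat_lit 0x100000400001000006000000000000000000000000000000000000000000000000000000000000000) (nat_lit 0x60000180000e0000200000800002800000000000000000000000000000000000000000000000000000000000000000000) (nat_lit 6)
theorem c111493 : QOK q111493 := cut [] trivial (nd (nat_lit 321) (nat_lit 0) (cs (lf (nat_lit 29) (nat_lit 254)) (nd (nat_lit 342) (nat_lit 0) (cs (lf (nat_lit 46) (nat_lit 253)) (nd (nat_lit 363) (nat_lit 0) (cs (lf (nat_lit 40) (nat_lit 275)) (nd (nat_lit 364) (nat_lit 0) (cs (lf (nat_lit 41) (nat_lit 297)) (nd (nat_lit 299) (nat_lit 0) (cs (lf (nat_lit 30) (nat_lit 298)) (lf (nat_lit 35) (nat_lit 276)))))))))))) q111493 (by decide +kernel)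
def q111508 : Q := Q.p (nat_lit 0x400001000006000000000000000000000000000000000000000000000000000000000000000) (nat_lit 0xe0000380000e00001c0003a00002800008000038000080000000000000000000000000000000000000000000000000000) (nat_lit 12)
theorem c111508 : QOK q111508 := cut [] trivial (nd (nat_lit 320) (nat_lit 0) (cs (lf (nat_lit 47) (nat_lit 231)) (nd (nat_lit 233) (nat_lit 0) (cs (lf (nat_lit 34) (nat_lit 232)) (nd (nat_lit 211) (nat_lit 0) (cs (lf (nat_lit 33) (nat_lit 210)) (nd (nat_lit 319) (nat_lit 0) (cs (lf (nat_lit 41) (nat_lit 253)) (nd (nat_lit 342) (nat_lit 0) (cs (lf (nat_lit 46) (nat_lit 253)) (nd (nat_lit 365) (nat_lit 0) (cs (lf (nat_lit 28) (nat_lit 276)) (nd (nat_lit 364) (nat_lit 0) (cs (lf (nat_lit 29) (nat_lit 298)) (nd (nat_lit 363) (nat_lit 0) (cs (lf (nat_lit 41) (nat_lit 297)) (nd (nat_lit 297) (nat_lit 0) (cs (lf (nat_lit 42) (nat_lit 297)) (nd (nat_lit 299) (nat_lit 0) (cs (lf (nat_lit 35) (nat_lit 276)) (nd (nat_lit 300) (nat_lit 0) (cs (lf (nat_lit 11) (nat_lit 296)) (lf (nat_lit 6) (nat_lit 297)))))))))))))))))))))))) q111508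 (by decide +kernel)
def q111615 : Q := Q.p (nat_lit 0x1800006000010000020000000000000000000000000000000000000000000000000000) (nat_lit 0x40000180000000000000000000000000000000000000000000000) (nat_lit 2)
theorem c111615 : QOK q111615 := cut [] trivial (nd (nat_lit 210) (nat_lit 0) (cs (lf (nat_lit 36) (nat_lit 187)) (lf (nat_lit 47) (nat_lit 187)))) q111615 (by decide +kernel)
def q111743 : Q := Q.p (nat_lit 0x400001c00006000000000000000000000000000000000000000000000000000000000000000) (nat_lit 0x800000300000000000000000000000000000000000000000000000000000000000000000000) (nat_lit 2)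
theorem c111743 : QOK q111743 := cut [] trivial (nd (nat_lit 273) (nat_lit 0) (cs (lf (nat_lit 5) (nat_lit 273)) (lf (nat_lit 12) (nat_lit 250)))) q111743 (by decide +kernel)
def q111847 : Q := Q.p (nat_lit 0x300000c00006000000000000000000000000000000000000000000000000000000000000000) (nat_lit 0x80000700001c0000700000000001c000030000000000000000000000000000000000000000000000000000) (nat_lit 8)
theorem c111847 : QOK q111847 := cut [] trivial (nd (nat_lit 231) (nat_lit 0) (cs (lf (nat_lit 36) (nat_lit 208)) (nd (nat_lit 298) (nat_lit 0) (cs (lf (nat_lit 29) (nat_lit 231)) (nd (nat_lit 208) (nat_lit 0) (cs (lf (nat_lit 46) (nat_lit 208)) (nd (nat_lit 299) (nat_lit 0) (cs (lf (nat_lit 18) (nat_lit 274)) (nd (nat_lit 277) (nat_lit 0) (cs (lf (nat_lit 17) (nat_lit 274)) (nd (nat_lit 321) (nat_lit 0) (cs (lf (nat_lit 5) (nat_lit 296)) (nd (nat_lit 276) (nat_lit 0) (cs (lf (nat_lit 42) (nat_lit 254)) (lf (nat_lit 24) (nat_lit 232)))))))))))))))) q111847 (by decide +kernel)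
def q111882 : Q := Q.p (nat_lit 0xe00001800004000000000000000000000000000000000000000000000000000000000000000) (nat_lit 0x200000000000000000000010000040000000000000000000000000000000000000000000000000000) (nat_lit 2)
theorem c111882 : QOK q111882 := cut [] trivial (nd (nat_lit 232) (nat_lit 0) (cs (lf (nat_lit 29) (nat_lit 232)) (lf (nat_lit 36) (nat_lit 209)))) q111882 (by decide +kernel)
def q112027 : Q := Q.p (nat_lit 0x200000c000010000000000000000000000000000000000000000000000000000000000) (nat_lit 0x200000800001000000000000000040000100000000000000000000000000000000000000000000000) (nat_lit 3)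
theorem c112027 : QOK q112027 := cut [] trivial (nd (nat_lit 210) (nat_lit 0) (cs (lf (nat_lit 24) (nat_lit 188)) (nd (nat_lit 299) (nat_lit 0) (cs (lf (nat_lit 42) (nat_lit 232)) (lf (nat_lit 27) (nat_lit 210)))))) q112027 (by decide +kernel)
def q112030 : Q := Q.p (nat_lit 0xe000038000000000000000000000000000000000000000000000000000000000) (nat_lit 0xc6000380000000000000000000000000000000000000000000000000000) (nat_lit 4)
theorem c112030 : QOK q112030 := cut [] trivial (nd (nat_lit 234) (nat_lit 0) (cs (lf (nat_lit 6) (nat_lit 231)) (nd (nat_lit 212) (nat_lit 0) (cs (lf (nat_lit 17) (nat_lit 209)) (nd (nat_lit 230) (nat_lit 0) (cs (lf (nat_lit 0) (nat_lit 229)) (lf (nat_lit 16) (nat_lit 208)))))))) q112030 (by decide +kernel)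
def q112033 : Q := Q.p (nat_lit 0xe000038000000000000000000000000000000000000000000000000000000000) (nat_lit 0xc6000038000000000000000000000000000000000000000000000000000) (nat_lit 4)
theorem c112033 : QOK q112033 := cut [] trivial (nd (nat_lit 234) (nat_lit 0) (cs (lf (nat_lit 6) (nat_lit 231)) (nd (nat_lit 208) (nat_lit 0) (cs (lf (nat_lit 22) (nat_lit 208)) (nd (nat_lit 230) (nat_lit 0) (cs (lf (nat_lit 23) (nat_lit 207)) (lf (nat_lit 0) (nat_lit 229)))))))) q112033 (by decide +kernel)
def q112072 : Q := Q.p (nat_lit 0x100000e000028000000000000000000000000000000000000000000000000000000000) (nat_lit 0x100000400000800000000000000020000080000000000000000000000000000000000000000000000) (nat_lit 3)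
theorem c112072 : QOK q112072 := cut [] trivial (nd (nat_lit 209) (nat_lit 0) (cs (lf (nat_lit 24) (nat_lit 187)) (nd (nat_lit 298) (nat_lit 0) (cs (lf (nat_lit 30) (nat_lit 232)) (lf (nat_lit 27) (nat_lit 209)))))) q112072 (by decide +kernel)
def q112086 : Q := Q.p (nat_lit 0x180000e000008000020000000000000000000000000000000000000000000000000000) (nat_lit 0x100000600000000000000000000000000000000000000000000000000000000000000000000) (nat_lit 2)
theorem c112086 : QOK q112086 := cut [] trivial (nd (nat_lit 274) (nat_lit 0) (cs (lf (nat_lit 41) (nat_lit 208)) (lf (nat_lit 12) (nat_lit 251)))) q112086 (by decide +kernel)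
def q112110 : Q := Q.p (nat_lit 0x400001000006000008000000000000000000000000000000000000000000000000000000000) (nat_lit 0x800000000010000020000000000000000000000000000000000000000000000000000) (nat_lit 2)
theorem c112110 : QOK q112110 := cut [] trivial (nd (nat_lit 209) (nat_lit 0) (cs (lf (nat_lit 27) (nat_lit 209)) (lf (nat_lit 45) (nat_lit 209)))) q112110 (by decide +kernel)
def q112137 : Q := Q.p (nat_lit 0x10000080000200000e000000000000000000000000000000000000000000000000000000000000000) (nat_lit 0x1e00006e000078000d000000000008000000000000000000000000000000000000000000000000000000000) (nat_lit 9)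
theorem c112137 : QOK q112137 := cut [] trivial (nd (nat_lit 321) (nat_lit 0) (cs (lf (nat_lit 41) (nat_lit 254)) (nd (nat_lit 276) (nat_lit 0) (cs (lf (nat_lit 42) (nat_lit 254)) (nd (nat_lit 278) (nat_lit 0) (cs (lf (nat_lit 18) (nat_lit 253)) (nd (nat_lit 322) (nat_lit 0) (cs (lf (nat_lit 29) (nat_lit 255)) (nd (nat_lit 298) (nat_lit 0) (cs (lf (nat_lit 47) (nat_lit 231)) (nd (nat_lit 296) (nat_lit 0) (cs (nd (nat_lit 319) (nat_lit 0) (cs (lf (nat_lit 41) (nat_lit 253)) (nd (nat_lit 318) (nat_lit 0) (cs (lf (nat_lit 12) (nat_lit 295)) (lf (nat_lit 23) (nat_lit 295)))))) (lf (nat_lit 1) (nat_lit 296)))))))))))))) q112137 (by decide +kernel)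
def q112140 : Q := Q.p (nat_lit 0x10000080000200000e000000000000000000000000000000000000000000000000000000000000000) (nat_lit 0xc0000200000400001000000000028000000000000000000000000000000000000000000000000000000000) (nat_lit 4)
theorem c112140 : QOK q112140 := cut [] trivial (nd (nat_lit 321) (nat_lit 0) (cs (lf (nat_lit 41) (nat_lit 254)) (nd (nat_lit 276) (nat_lit 0) (cs (lf (nat_lit 42) (nat_lit 254)) (nd (nat_lit 298) (nat_lit 0) (cs (lf (nat_lit 47) (nat_lit 231)) (lf (nat_lit 35) (nat_lit 232)))))))) q112140 (by decide +kernel)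
def q112225 : Q := Q.p (nat_lit 0x1000004000070000040000000000000000000000000000000000000000000000000000) (nat_lit 0x8000038000080000000000000000000000000000000000000000000000) (nat_lit 3)
theorem c112225 : QOK q112225 := cut [] trivial (nd (nat_lit 209) (nat_lit 0) (cs (lf (nat_lit 47) (nat_lit 187)) (nd (nat_lit 208) (nat_lit 0) (cs (lf (nat_lit 0) (nat_lit 207)) (lf (nat_lit 21) (nat_lit 208)))))) q112225 (by decide +kernel)
def q112252 : Q := Q.p (nat_lit 0x70000180000000000000000000000000000000000000000000000000000) (nat_lit 0x8000600000000000000000000000000000000000000000000000000000) (nat_lit 2)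
theorem c112252 : QOK q112252 := cut [] trivial (nd (nat_lit 213) (nat_lit 0) (cs (lf (nat_lit 6) (nat_lit 210)) (lf (nat_lit 12) (nat_lit 209)))) q112252 (by decide +kernel)
def q112293 : Q := Q.p (nat_lit 0xe000030000000000000000000000000000000000000000000000000000000000) (nat_lit 0x1800040000000000000000000000000000000000000000000000000000000000) (nat_lit 2)
theorem c112293 : QOK q112293 := cut [] trivial (nd (nat_lit 252) (nat_lit 0) (cs (lf (nat_lit 17) (nat_lit 230)) (lf (nat_lit 12) (nat_lit 229)))) q112293 (by decide +kernel)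
def q112462 : Q := Q.p (nat_lit 0x400007000004000010000000000000000000000000000000000000000000000000000) (nat_lit 0x80000200008000000000000000000000000000000000000000000000000000000000000000) (nat_lit 2)
theorem c112462 : QOK q112462 := cut [] trivial (nd (nat_lit 273) (nat_lit 0) (cs (lf (nat_lit 41) (nat_lit 207)) (lf (nat_lit 6) (nat_lit 251)))) q112462 (by decide +kernel)
def q112631 : Q := Q.p (nat_lit 0x1800007000000000000000000000000000000000000000000000000000000000000000000000) (nat_lit 0x2000000c00000000000000000000000000000000000000000000000000000000000000000000) (nat_lit 2)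
theorem c112631 : QOK q112631 := cut [] trivial (nd (nat_lit 275) (nat_lit 0) (cs (lf (nat_lit 5) (nat_lit 275)) (lf (nat_lit 0) (nat_lit 274)))) q112631 (by decide +kernel)
def q112661 : Q := Q.p (nat_lit 0xc00003000006000000000000000000000000000000000000000000000000000000000000000) (nat_lit 0x8000030000c000000000010000040000000000000000000000000000000000000000000000000000) (nat_lit 4)
theorem c112661 : QOK q112661 := cut [] trivial (nd (nat_lit 232) (nat_lit 0) (cs (lf (nat_lit 24) (nat_lit 210)) (nd (nat_lit 278) (nat_lit 0) (cs (lf (nat_lit 18) (nat_lit 253)) (nd (nat_lit 297) (nat_lit 0) (cs (lf (nat_lit 12) (nat_lit 274)) (lf (nat_lit 41) (nat_lit 231)))))))) q112661 (by decide +kernel)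
def q112896 : Q := Q.p (nat_lit 0x20000080000200000800000000000000000000000000000000000000000000000000000000000000) (nat_lit 0x4000010000040000000000400003000004000000000000000000000000000000000000000000000000000) (nat_lit 4)
theorem c112896 : QOK q112896 := cut [] trivial (nd (nat_lit 228) (nat_lit 0) (cs (lf (nat_lit 46) (nat_lit 228)) (nd (nat_lit 316) (nat_lit 0) (cs (lf (nat_lit 41) (nat_lit 250)) (nd (nat_lit 229) (nat_lit 0) (cs (lf (nat_lit 47) (nat_lit 206)) (lf (nat_lit 40) (nat_lit 228)))))))) q112896 (by decide +kernel)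
def q113079 : Q := Q.p (nat_lit 0x100003800006000000000000000000000000000000000000000000000000000000000) (nat_lit 0x20000c000000000000000000000000000000000000000000000000000000000000000) (nat_lit 2)
theorem c113079 : QOK q113079 := cut [] trivial (nd (nat_lit 254) (nat_lit 0) (cs (lf (nat_lit 10) (nat_lit 250)) (lf (nat_lit 18) (nat_lit 229)))) q113079 (by decide +kernel)
def q113147 : Q := Q.p (nat_lit 0x10000080000200000800002000000000000000000000000000000000000000000000000000000000000000) (nat_lit 0x4000020000000000000001000004000010000000000000000000000000000000000000000000000000000000000) (nat_lit 3)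
theorem c113147 : QOK q113147 := cut [] trivial (nd (nat_lit 341) (nat_lit 0) (cs (lf (nat_lit 41) (nat_lit 274)) (nd (nat_lit 254) (nat_lit 0) (cs (lf (nat_lit 35) (nat_lit 231)) (lf (nat_lit 34) (nat_lit 253)))))) q113147 (by decide +kernel)
def q113167 : Q := Q.p (nat_lit 0x2000038000000000000000000000000000000000000000000000000000000000) (nat_lit 0x50000c0000700000000000000000000000000000000000000000000000000000) (nat_lit 4)
theorem c113167 : QOK q113167 := cut [] trivial (nd (nat_lit 234) (nat_lit 0) (cs (lf (nat_lit 11) (nat_lit 230)) (nd (nat_lit 213) (nat_lit 0) (cs (lf (nat_lit 16) (nat_lit 209)) (nd (nat_lit 235) (nat_lit 0) (cs (lf (nat_lit 17) (nat_lit 210)) (lf (nat_lit 10) (nat_lit 231)))))))) q113167 (by decide +kernel)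
def q113283 : Q := Q.p (nat_lit 0x7800000000000000000000000000000000000000000000000000000000000000000000) (nat_lit 0x400003000000400038000020000080000000000000000000000000000000000000000000000000000) (nat_lit 5)
theorem c113283 : QOK q113283 := cut [] trivial (nd (nat_lit 256) (nat_lit 0) (cs (lf (nat_lit 17) (nat_lit 253)) (nd (nat_lit 255) (nat_lit 0) (cs (lf (nat_lit 12) (nat_lit 252)) (nd (nat_lit 300) (nat_lit 0) (cs (lf (nat_lit 5) (nat_lit 275)) (nd (nat_lit 233) (nat_lit 0) (cs (lf (nat_lit 24) (nat_lit 211)) (lf (nat_lit 42) (nat_lit 233)))))))))) q113283 (by decide +kernel)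
def q113302 : Q := Q.p (nat_lit 0x1000006000018000000000000000000000000000000000000000000000000000000000) (nat_lit 0x100000400000000001800060000080000000000000000000000000000000000000000000000000000) (nat_lit 4)
theorem c113302 : QOK q113302 := cut [] trivial (nd (nat_lit 298) (nat_lit 0) (cs (lf (nat_lit 42) (nat_lit 231)) (nd (nat_lit 233) (nat_lit 0) (cs (lf (nat_lit 35) (nat_lit 210)) (nd (nat_lit 252) (nat_lit 0) (cs (lf (nat_lit 6) (nat_lit 230)) (lf (nat_lit 12) (nat_lit 229)))))))) q113302 (by decide +kernel)
def q113352 : Q := Q.p (nat_lit 0xe00004800002000000000000000000000000000000000000000000000000000000000000000) (nat_lit 0x50000110000300000d000020000080000000000000000000000000000000000000000000000000000) (nat_lit 6)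
theorem c113352 : QOK q113352 := cut [] trivial (nd (nat_lit 277) (nat_lit 0) (cs (lf (nat_lit 12) (nat_lit 274)) (nd (nat_lit 252) (nat_lit 0) (cs (lf (nat_lit 20) (nat_lit 252)) (nd (nat_lit 255) (nat_lit 0) (cs (lf (nat_lit 2) (nat_lit 252)) (nd (nat_lit 233) (nat_lit 0) (cs (lf (nat_lit 41) (nat_lit 232)) (nd (nat_lit 300) (nat_lit 0) (cs (lf (nat_lit 24) (nat_lit 211)) (lf (nat_lit 29) (nat_lit 233)))))))))))) q113352 (by decide +kernel)
def q113355 : Q := Q.p (nat_lit 0xe00004000000000000000000000000000000000000000000000000000000000000000000000) (nat_lit 0x100001b000000000000000000000000000000000000000000000000000000000000000000000) (nat_lit 3)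
theorem c113355 : QOK q113355 := cut [] trivial (nd (nat_lit 279) (nat_lit 0) (cs (lf (nat_lit 15) (nat_lit 275)) (nd (nat_lit 277) (nat_lit 0) (cs (lf (nat_lit 6) (nat_lit 276)) (lf (nat_lit 9) (nat_lit 275)))))) q113355 (by decide +kernel)
def q113372 : Q := Q.p (nat_lit 0x40000200000c00002000000000000000000000000000000000000000000000000000000000000000) (nat_lit 0x10000000000100000000000000008000000000000000000000000000000000000000000000000000000000) (nat_lit 2)
theorem c113372 : QOK q113372 := cut [] trivial (nd (nat_lit 296) (nat_lit 0) (cs (lf (nat_lit 30) (nat_lit 252)) (lf (nat_lit 36) (nat_lit 230)))) q113372 (by decide +kernel)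
def q113373 : Q := Q.p (nat_lit 0x80000200000c00004000000000000000000000000000000000000000000000000000000000000000) (nat_lit 0x20000000000000001000001000000000000000000000000000000000000000000000000000000000000000) (nat_lit 2)
theorem c113373 : QOK q113373 := cut [] trivial (nd (nat_lit 341) (nat_lit 0) (cs (lf (nat_lit 47) (nat_lit 252)) (lf (nat_lit 34) (nat_lit 253)))) q113373 (by decide +kernel)
def q113422 : Q := Q.p (nat_lit 0x300001c00006000000000000000000000000000000000000000000000000000000000000000) (nat_lit 0x1c00006300000000000000000000000000000000000000000000000000000000000000000000) (nat_lit 4)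
theorem c113422 : QOK q113422 := cut [] trivial (nd (nat_lit 277) (nat_lit 0) (cs (lf (nat_lit 6) (nat_lit 274)) (nd (nat_lit 299) (nat_lit 0) (cs (lf (nat_lit 5) (nat_lit 274)) (nd (nat_lit 273) (nat_lit 0) (cs (lf (nat_lit 19) (nat_lit 273)) (lf (nat_lit 12) (nat_lit 250)))))))) q113422 (by decide +kernel)
def q113515 : Q := Q.p (nat_lit 0x80000600000c0000e000000000000000000000000000000000000000000000000000000000000000) (nat_lit 0x40000100001800003000000000020000000000000000000000000000000000000000000000000000000000) (nat_lit 4)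
theorem c113515 : QOK q113515 := cut [] trivial (nd (nat_lit 320) (nat_lit 0) (cs (lf (nat_lit 29) (nat_lit 253)) (nd (nat_lit 233) (nat_lit 0) (cs (nd (nat_lit 299) (nat_lit 0) (cs (lf (nat_lit 18) (nat_lit 274)) (lf (nat_lit 38) (nat_lit 232)))) (lf (nat_lit 32) (nat_lit 232)))))) q113515 (by decide +kernel)
def q113569 : Q := Q.p (nat_lit 0x180000b00000c000000000000000000000000000000000000000000000000000000000) (nat_lit 0x40000600000460007380019e000040000000000000000000000000000000000000000000000) (nat_lit 10)
theorem c113569 : QOK q113569 := cut [] trivial (nd (nat_lit 277) (nat_lit 0) (cs (lf (nat_lit 18) (nat_lit 252)) (nd (nat_lit 229) (nat_lit 0) (cs (lf (nat_lit 19) (nat_lit 229)) (nd (nat_lit 228) (nat_lit 0) (cs (lf (nat_lit 0) (nat_lit 227)) (nd (nat_lit 186) (nat_lit 0) (cs (lf (nat_lit 25) (nat_lit 186)) (nd (nat_lit 249) (nat_lit 0) (cs (lf (nat_lit 10) (nat_lit 227)) (nd (nat_lit 206) (nat_lit 0) (cs (lf (nat_lit 23) (nat_lit 205)) (nd (nat_lit 232) (nat_lit 0) (cs (lf (nat_lit 22) (nat_lit 206)) (nd (nat_lit 233) (nat_lit 0) (cs (lf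 (nat_lit 6) (nat_lit 230)) (nd (nat_lit 211) (nat_lit 0) (cs (lf (nat_lit 17) (nat_lit 208)) (lf (nat_lit 41) (nat_lit 210)))))))))))))))))))) q113569 (by decide +kernel)
def q113592 : Q := Q.p (nat_lit 0x180001a000008000000000000000000000000000000000000000000000000000000000) (nat_lit 0x24000004000000000000000000000000000000000000000000000000000000000) (nat_lit 2)
theorem c113592 : QOK q113592 := cut [] trivial (nd (nat_lit 254) (nat_lit 0) (cs (lf (nat_lit 23) (nat_lit 230)) (lf (nat_lit 6) (nat_lit 253)))) q113592 (by decide +kernel)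
def q113603 : Q := Q.p (nat_lit 0x3800003000018000020000000000000000000000000000000000000000000000000000) (nat_lit 0x80000000000c000060000040000100000000000000000000000000000000000000000000000) (nat_lit 4)
theorem c113603 : QOK q113603 := cut [] trivial (nd (nat_lit 210) (nat_lit 0) (cs (lf (nat_lit 35) (nat_lit 187)) (nd (nat_lit 233) (nat_lit 0) (cs (lf (nat_lit 6) (nat_lit 230)) (nd (nat_lit 299) (nat_lit 0) (cs (lf (nat_lit 26) (nat_lit 210)) (lf (nat_lit 44) (nat_lit 210)))))))) q113603 (by decide +kernel)
def q113641 : Q := Q.p (nat_lit 0xc00006800018000040000000000000000000000000000000000000000000000000000) (nat_lit 0x38c000f3000304000660001a0000280000000000000000000000000000000000000000000000) (nat_lit 12)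
theorem c113641 : QOK q113641 := cut [] trivial (nd (nat_lit 273) (nat_lit 0) (cs (lf (nat_lit 12) (nat_lit 250)) (nd (nat_lit 276) (nat_lit 0) (cs (lf (nat_lit 23) (nat_lit 250)) (nd (nat_lit 277) (nat_lit 0) (cs (lf (nat_lit 29) (nat_lit 210)) (nd (nat_lit 278) (nat_lit 0) (cs (lf (nat_lit 18) (nat_lit 253)) (nd (nat_lit 300) (nat_lit 0) (cs (lf (nat_lit 5) (nat_lit 275)) (nd (nat_lit 256) (nat_lit 0) (cs (lf (nat_lit 17) (nat_lit 253)) (nd (nat_lit 294) (nat_lit 0) (cs (lf (nat_lit 10) (nat_lit 272)) (nd (nat_lit 187) (nat_lit 0) (cs (lf (nat_lit 25) (nat_lit 187)) (nd (nat_lit 211) (nat_lit 0) (cs (lf (nat_lit 35) (nat_lit 188)) (nd (nat_lit 233) (nat_lit 0) (cs (lf (nat_lit 45) (nat_lit 211)) (nd (nat_lit 230) (nat_lit 0) (cs (lf (nat_lit 17) (nat_lit 208)) (lf (nat_lit 12) (nat_lit 207)))))))))))))))))))))))) q113641 (by decide +kernel)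
def q114201 : Q := Q.p (nat_lit 0x100000c0000300000c000000000000000000000000000000000000000000000000000000000) (nat_lit 0x200000e0003000000e0000380000e000000000000000000000000000000000000000000000000000) (nat_lit 8)
theorem c114201 : QOK q114201 := cut [] trivial (nd (nat_lit 229) (nat_lit 0) (cs (lf (nat_lit 47) (nat_lit 207)) (nd (nat_lit 295) (nat_lit 0) (cs (lf (nat_lit 41) (nat_lit 229)) (nd (nat_lit 228) (nat_lit 0) (cs (lf (nat_lit 0) (nat_lit 227)) (nd (nat_lit 293) (nat_lit 0) (cs (lf (nat_lit 13) (nat_lit 271)) (nd (nat_lit 205) (nat_lit 0) (cs (lf (nat_lit 22) (nat_lit 205)) (nd (nat_lit 276) (nat_lit 0) (cs (lf (nat_lit 6) (nat_lit 273)) (nd (nat_lit 250) (nat_lit 0) (cs (lf (nat_lit 1) (nat_lit 250)) (lf (nat_lit 11) (nat_lit 227)))))))))))))))) q114201 (by decide +kernel)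
def q114659 : Q := Q.p (nat_lit 0x400007000000000000000000000000000000000000000000000000000000000000000) (nat_lit 0x800007a000780001d8000040000100000000000000000000000000000000000000000000000) (nat_lit 9)
theorem c114659 : QOK q114659 := cut [] trivial (nd (nat_lit 255) (nat_lit 0) (cs (lf (nat_lit 11) (nat_lit 251)) (nd (nat_lit 277) (nat_lit 0) (cs (lf (nat_lit 5) (nat_lit 252)) (nd (nat_lit 256) (nat_lit 0) (cs (lf (nat_lit 10) (nat_lit 252)) (nd (nat_lit 235) (nat_lit 0) (cs (lf (nat_lit 16) (nat_lit 231)) (nd (nat_lit 257) (nat_lit 0) (cs (lf (nat_lit 17) (nat_lit 232)) (nd (nat_lit 232) (nat_lit 0) (cs (lf (nat_lit 23) (nat_lit 231)) (nd (nat_lit 210) (nat_lit 0) (cs (lf (nat_lit 24) (nat_lit 188)) (nd (nat_lit 276) (nat_lit 0) (cs (lf (nat_lit 6) (nat_lit 254)) (lf (nat_lit 29) (nat_lit 210)))))))))))))))))) q114659 (by decide +kernel)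
def q114760 : Q := Q.p (nat_lit 0xc00007000004000000000000000000000000000000000000000000000000000000000) (nat_lit 0x18000002000000000000000000000000000000000000000000000000000000000) (nat_lit 2)
theorem c114760 : QOK q114760 := cut [] trivial (nd (nat_lit 255) (nat_lit 0) (cs (lf (nat_lit 6) (nat_lit 252)) (lf (nat_lit 23) (nat_lit 229)))) q114760 (by decide +kernel)
def q114857 : Q := Q.p (nat_lit 0x20000180000f000000000000000000000000000000000000000000000000000000000000000) (nat_lit 0x4000000000000000700000c0000200000000000000000000000000000000000000000000000) (nat_lit 4)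
theorem c114857 : QOK q114857 := cut [] trivial (nd (nat_lit 233) (nat_lit 0) (cs (lf (nat_lit 17) (nat_lit 230)) (nd (nat_lit 211) (nat_lit 0) (cs (lf (nat_lit 36) (nat_lit 188)) (nd (nat_lit 232) (nat_lit 0) (cs (lf (nat_lit 30) (nat_lit 210)) (lf (nat_lit 36) (nat_lit 209)))))))) q114857 (by decide +kernel)
def q115413 : Q := Q.p (nat_lit 0x300000e000008000000000000000000000000000000000000000000000000000000000) (nat_lit 0x100000400000000001800060000080000000000000000000000000000000000000000000000000000) (nat_lit 4)
theorem c115413 : QOK q115413 := cut [] trivial (nd (nat_lit 298) (nat_lit 0) (cs (lf (nat_lit 42) (nat_lit 231)) (nd (nat_lit 233) (nat_lit 0) (cs (lf (nat_lit 36) (nat_lit 210)) (nd (nat_lit 252) (nat_lit 0) (cs (lf (nat_lit 17) (nat_lit 230)) (lf (nat_lit 0) (nat_lit 251)))))))) q115413 (by decide +kernel)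
def q115495 : Q := Q.p (nat_lit 0x80000380000e000000000000000000000000000000000000000000000000000000000) (nat_lit 0x120000cc000370000c000000000000000000000000000000000000000000000000000000000000000) (nat_lit 7)
theorem c115495 : QOK q115495 := cut [] trivial (nd (nat_lit 254) (nat_lit 0) (cs (lf (nat_lit 18) (nat_lit 229)) (nd (nat_lit 276) (nat_lit 0) (cs (lf (nat_lit 5) (nat_lit 251)) (nd (nat_lit 298) (nat_lit 0) (cs (lf (nat_lit 42) (nat_lit 231)) (nd (nat_lit 273) (nat_lit 0) (cs (lf (nat_lit 11) (nat_lit 250)) (nd (nat_lit 295) (nat_lit 0) (cs (lf (nat_lit 30) (nat_lit 229)) (nd (nat_lit 274) (nat_lit 0) (cs (lf (nat_lit 5) (nat_lit 273)) (lf (nat_lit 11) (nat_lit 272)))))))))))))) q115495 (by decide +kernel)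
def q115543 : Q := Q.p (nat_lit 0xc00003800002000000000000000000000000000000000000000000000000000000000000000) (nat_lit 0x40000100000000000600018000020000000000000000000000000000000000000000000000000000000000) (nat_lit 4)
theorem c115543 : QOK q115543 := cut [] trivial (nd (nat_lit 320) (nat_lit 0) (cs (lf (nat_lit 42) (nat_lit 253)) (nd (nat_lit 255) (nat_lit 0) (cs (lf (nat_lit 36) (nat_lit 232)) (nd (nat_lit 274) (nat_lit 0) (cs (lf (nat_lit 17) (nat_lit 252)) (lf (nat_lit 0) (nat_lit 273)))))))) q115543 (by decide +kernel)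

end Crest.Agent.H3.Snaky.CR
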