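import Crest.Agent.H3.Snaky.Cert

set_option autoImplicit false
set_option maxRecDepth 100000

namespace Crest.Agent.H3.Snaky.CR

open T

def q6384 : Q := Q.p (nat_lit 0x8000020000180000400000000000000000000000000000000000) (nat_lit 0x200001000004000000000000000000000000) (nat_lit 2)
theorem c6384 : QOK q6384 := cut [] trivial (nd (nat_lit 120) (nat_lit 0) (cs (lf (nat_lit 36) (nat_lit 97)) (lf (nat_lit 33) (nat_lit 119)))) q6384 (by decide +kernel)
def q6386 : Q := Q.p (nat_lit 0xf8000000000000000000000000000000000000000) (nat_lit 0x7000000000000000000000000000000000000000000000) (nat_lit 2)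
theorem c6386 : QOK q6386 := cut [] trivial (nd (nat_lit 181) (nat_lit 0) (cs (lf (nat_lit 10) (nat_lit 159)) (lf (nat_lit 11) (nat_lit 158)))) q6386 (by decide +kernel)
def q6395 : Q := Q.p (nat_lit 0x3e0000000000000000000000000000000000000000) (nat_lit 0x1c000000000000000000000000000000000000000000000) (nat_lit 2)
theorem c6395 : QOK q6395 := cut [] trivial (nd (nat_lit 183) (nat_lit 0) (cs (lf (nat_lit 10) (nat_lit 161)) (lf (nat_lit 11) (nat_lit 160)))) q6395 (by decide +kernel)
def q6413 : Q := Q.p (nat_lit 0xf80000000000000000000000000000000000000000) (nat_lit 0x7000000000000000000000000000000000000) (nat_lit 2)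
theorem c6413 : QOK q6413 := cut [] trivial (nd (nat_lit 145) (nat_lit 0) (cs (lf (nat_lit 17) (nat_lit 142)) (lf (nat_lit 16) (nat_lit 141)))) q6413 (by decide +kernel)
def q6419 : Q := Q.p (nat_lit 0x7c0000000000000000000000000000000000000000) (nat_lit 0x380000000000000000000000000000000000000000000000) (nat_lit 2)
theorem c6419 : QOK q6419 := cut [] trivial (nd (nat_lit 188) (nat_lit 0) (cs (lf (nat_lit 4) (nat_lit 162)) (lf (nat_lit 5) (nat_lit 163)))) q6419 (by decide +kernel)
def q6430 : Q := Q.p (nat_lit 0x20000380000000000000000000000000000000000000000) (nat_lit 0x3d0003c4000e000000000000000000000000000000000000) (nat_lit 7)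
theorem c6430 : QOK q6430 := cut [] trivial (nd (nat_lit 166) (nat_lit 0) (cs (lf (nat_lit 11) (nat_lit 162)) (nd (nat_lit 188) (nat_lit 0) (cs (lf (nat_lit 5) (nat_lit 163)) (nd (nat_lit 167) (nat_lit 0) (cs (lf (nat_lit 10) (nat_lit 163)) (nd (nat_lit 146) (nat_lit 0) (cs (nd (nat_lit 187) (nat_lit 0) (cs (lf (nat_lit 0) (nat_lit 162)) (nd (nat_lit 168) (nat_lit 0) (cs (lf (nat_lit 6) (nat_lit 165)) (lf (nat_lit 17) (nat_lit 143)))))) (lf (nat_lit 16) (nat_lit 142)))))))))) q6430 (by decide +kernel)
def q6475 : Q := Q.p (nat_lit 0x7c0000000000000000000000000000000000) (nat_lit 0x380000000000000000000000000000) (nat_lit 2)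
theorem c6475 : QOK q6475 := cut [] trivial (nd (nat_lit 116) (nat_lit 0) (cs (lf (nat_lit 23) (nat_lit 115)) (lf (nat_lit 22) (nat_lit 116)))) q6475 (by decide +kernel)
def q6489 : Q := Q.p (nat_lit 0x3e0000000000000000000000000000000000) (nat_lit 0x1c0000000000000000000000000000) (nat_lit 2)
theorem c6489 : QOK q6489 := cut [] trivial (nd (nat_lit 115) (nat_lit 0) (cs (lf (nat_lit 23) (nat_lit 114)) (lf (nat_lit 22) (nat_lit 115)))) q6489 (by decide +kernel)
def q6511 : Q := Q.p (nat_lit 0x180000e0000080000000000000000000000000000000000000000) (nat_lit 0x300000040000000000000000000000000000000000000000) (nat_lit 2)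
theorem c6511 : QOK q6511 := cut [] trivial (nd (nat_lit 188) (nat_lit 0) (cs (lf (nat_lit 6) (nat_lit 185)) (lf (nat_lit 23) (nat_lit 162)))) q6511 (by decide +kernel)
def q6513 : Q := Q.p (nat_lit 0x40000100000c0000200000000000000000000000000000000000000000) (nat_lit 0x20000000000000000800002000000000000000000000000000000) (nat_lit 2)
theorem c6513 : QOK q6513 := cut [] trivial (nd (nat_lit 143) (nat_lit 0) (cs (lf (nat_lit 36) (nat_lit 120)) (lf (nat_lit 39) (nat_lit 142)))) q6513 (by decide +kernel)
def q6533 : Q := Q.p (nat_lit 0x300001c0000680000000000000000000000000000000000000000) (nat_lit 0x310000fc0003f000000000000000000000000000000) (nat_lit 8)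
theorem c6533 : QOK q6533 := cut [] trivial (nd (nat_lit 144) (nat_lit 0) (cs (lf (nat_lit 36) (nat_lit 121)) (nd (nat_lit 143) (nat_lit 0) (cs (lf (nat_lit 36) (nat_lit 120)) (nd (nat_lit 145) (nat_lit 0) (cs (nd (nat_lit 146) (nat_lit 0) (cs (nd (nat_lit 168) (nat_lit 0) (cs (nd (nat_lit 124) (nat_lit 0) (cs (nd (nat_lit 142) (nat_lit 0) (cs (lf (nat_lit 47) (nat_lit 120)) (lf (nat_lit 16) (nat_lit 120)))) (lf (nat_lit 17) (nat_lit 121)))) (lf (nat_lit 5) (nat_lit 143)))) (lf (nat_lit 6) (nat_lit 143)))) (lf (nat_lit 13) (nat_lit 141)))))))) q6533 (by decide +kernel)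
def q6550 : Q := Q.p (nat_lit 0x4000018000020000000000000000000000000000000000000000000000) (nat_lit 0x400001000002000000000040000080000000000000000000000000000000000000000) (nat_lit 3)
theorem c6550 : QOK q6550 := cut [] trivial (nd (nat_lit 252) (nat_lit 0) (cs (lf (nat_lit 42) (nat_lit 185)) (nd (nat_lit 163) (nat_lit 0) (cs (lf (nat_lit 27) (nat_lit 163)) (lf (nat_lit 45) (nat_lit 163)))))) q6550 (by decide +kernel)
def q6559 : Q := Q.p (nat_lit 0x6000018000020000000000000000000000000000000000000000000000) (nat_lit 0x400001000000000000000000000080000000000000000000000000000000000000000) (nat_lit 2)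
theorem c6559 : QOK q6559 := cut [] trivial (nd (nat_lit 252) (nat_lit 0) (cs (lf (nat_lit 42) (nat_lit 185)) (lf (nat_lit 24) (nat_lit 163)))) q6559 (by decide +kernel)
def q6563 : Q := Q.p (nat_lit 0x3000004000010000020000000000000000000000000000000000000000000000) (nat_lit 0x800000000000000000000040000080000000000000000000000000000000000000000) (nat_lit 2)
theorem c6563 : QOK q6563 := cut [] trivial (nd (nat_lit 186) (nat_lit 0) (cs (lf (nat_lit 47) (nat_lit 163)) (lf (nat_lit 29) (nat_lit 186)))) q6563 (by decide +kernel)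
def q6590 : Q := Q.p (nat_lit 0x400001800004000010000000000000000000000000000000000000000000000) (nat_lit 0x80000200000000000000000000040000000000000000000000000000000000000000) (nat_lit 2)
theorem c6590 : QOK q6590 := cut [] trivial (nd (nat_lit 249) (nat_lit 0) (cs (lf (nat_lit 41) (nat_lit 183)) (lf (nat_lit 36) (nat_lit 161)))) q6590 (by decide +kernel)
def q6607 : Q := Q.p (nat_lit 0x700001c000010000040000000000000000000000000000000000000000) (nat_lit 0x10000000000200001a0000780001e00000000000000000000000000000000000) (nat_lit 7)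
theorem c6607 : QOK q6607 := cut [] trivial (nd (nat_lit 163) (nat_lit 0) (cs (lf (nat_lit 35) (nat_lit 140)) (nd (nat_lit 185) (nat_lit 0) (cs (lf (nat_lit 29) (nat_lit 163)) (nd (nat_lit 164) (nat_lit 0) (cs (lf (nat_lit 35) (nat_lit 141)) (nd (nat_lit 165) (nat_lit 0) (cs (lf (nat_lit 6) (nat_lit 162)) (nd (nat_lit 187) (nat_lit 0) (cs (lf (nat_lit 5) (nat_lit 162)) (nd (nat_lit 143) (nat_lit 0) (cs (lf (nat_lit 17) (nat_lit 140)) (lf (nat_lit 39) (nat_lit 142)))))))))))))) q6607 (by decide +kernel)
def q6623 : Q := Q.p (nat_lit 0x40000100000400001000004000000000000000000000000000000000000000000000000000) (nat_lit 0x20000080000200000000000000000000000000000000000000000000000000000000000000000000) (nat_lit 2)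
theorem c6623 : QOK q6623 := cut [] trivial (nd (nat_lit 295) (nat_lit 0) (cs (lf (nat_lit 29) (nat_lit 228)) (lf (nat_lit 28) (nat_lit 206)))) q6623 (by decide +kernel)
def q6642 : Q := Q.p (nat_lit 0xf000010000000000000000000000000000000000000000000000) (nat_lit 0x700000800020000000000000000000000000000000000000000000000) (nat_lit 3)
theorem c6642 : QOK q6642 := cut [] trivial (nd (nat_lit 225) (nat_lit 0) (cs (lf (nat_lit 10) (nat_lit 203)) (nd (nat_lit 203) (nat_lit 0) (cs (lf (nat_lit 11) (nat_lit 202)) (lf (nat_lit 17) (nat_lit 181)))))) q6642 (by decide +kernel)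
def q6665 : Q := Q.p (nat_lit 0x200003c00000000004000000000000000000000000000000000000000000000000000) (nat_lit 0x1800000000010000000000000000000000000000000000000000000000) (nat_lit 2)
theorem c6665 : QOK q6665 := cut [] trivial (nd (nat_lit 228) (nat_lit 0) (cs (lf (nat_lit 24) (nat_lit 184)) (lf (nat_lit 23) (nat_lit 227)))) q6665 (by decide +kernel)
def q6696 : Q := Q.p (nat_lit 0x1c000008000000000000000000000000000000000000000000000) (nat_lit 0x2000036000000000000000000000000000000000000000000000) (nat_lit 3)
theorem c6696 : QOK q6696 := cut [] trivial (nd (nat_lit 182) (nat_lit 0) (cs (lf (nat_lit 21) (nat_lit 182)) (nd (nat_lit 184) (nat_lit 0) (cs (lf (nat_lit 0) (nat_lit 181)) (lf (nat_lit 3) (nat_lit 182)))))) q6696 (by decide +kernel)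
def q6717 : Q := Q.p (nat_lit 0x100000c000030000040000000000000000000000000000000000000000) (nat_lit 0x20000180000600000000000000000000000000000) (nat_lit 3)
theorem c6717 : QOK q6717 := cut [] trivial (nd (nat_lit 139) (nat_lit 0) (cs (lf (nat_lit 46) (nat_lit 139)) (nd (nat_lit 140) (nat_lit 0) (cs (lf (nat_lit 24) (nat_lit 118)) (lf (nat_lit 47) (nat_lit 117)))))) q6717 (by decide +kernel)
def q6721 : Q := Q.p (nat_lit 0x800001c00001000004000010000000000000000000000000000000000000000000000) (nat_lit 0x480000200000000000000000000000000000000000000000000000000000000000000) (nat_lit 2)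
theorem c6721 : QOK q6721 := cut [] trivial (nd (nat_lit 249) (nat_lit 0) (cs (lf (nat_lit 41) (nat_lit 183)) (lf (nat_lit 4) (nat_lit 249)))) q6721 (by decide +kernel)
def q6730 : Q := Q.p (nat_lit 0x3e00000000000000000000000000000000000000000000000000000000000000) (nat_lit 0x1c00000000000000000000000000000000000000000000000000000000000000000000) (nat_lit 2)
theorem c6730 : QOK q6730 := cut [] trivial (nd (nat_lit 275) (nat_lit 0) (cs (lf (nat_lit 5) (nat_lit 250)) (lf (nat_lit 4) (nat_lit 249)))) q6730 (by decide +kernel)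
def q6757 : Q := Q.p (nat_lit 0x20000080000e0000180000000000000000000000000000000000000000) (nat_lit 0x60000100000000000000000000000000000000000) (nat_lit 2)
theorem c6757 : QOK q6757 := cut [] trivial (nd (nat_lit 162) (nat_lit 0) (cs (lf (nat_lit 0) (nat_lit 161)) (lf (nat_lit 47) (nat_lit 140)))) q6757 (by decide +kernel)
def q6778 : Q := Q.p (nat_lit 0x4000010000140000100000000000000000000000000000000000) (nat_lit 0x10000000000000002a00000c0000200000000000000000000000000000) (nat_lit 4)
theorem c6778 : QOK q6778 := cut [] trivial (nd (nat_lit 139) (nat_lit 0) (cs (lf (nat_lit 47) (nat_lit 117)) (nd (nat_lit 163) (nat_lit 0) (cs (lf (nat_lit 18) (nat_lit 139)) (nd (nat_lit 161) (nat_lit 0) (cs (lf (nat_lit 23) (nat_lit 138)) (lf (nat_lit 42) (nat_lit 139)))))))) q6778 (by decide +kernel)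
def q6787 : Q := Q.p (nat_lit 0xc000058000100000000000000000000000000000000000000000) (nat_lit 0x20000020000200002c0000300000c00002000000000000000000000000) (nat_lit 6)
theorem c6787 : QOK q6787 := cut [] trivial (nd (nat_lit 165) (nat_lit 0) (cs (lf (nat_lit 14) (nat_lit 161)) (nd (nat_lit 162) (nat_lit 0) (cs (lf (nat_lit 8) (nat_lit 161)) (nd (nat_lit 140) (nat_lit 0) (cs (lf (nat_lit 29) (nat_lit 140)) (nd (nat_lit 119) (nat_lit 0) (cs (lf (nat_lit 34) (nat_lit 118)) (nd (nat_lit 118) (nat_lit 0) (cs (lf (nat_lit 35) (nat_lit 96)) (lf (nat_lit 41) (nat_lit 117)))))))))))) q6787 (by decide +kernel)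
def q6789 : Q := Q.p (nat_lit 0x1c000018000000000000000000000000000000000000000000000) (nat_lit 0x2000006000000000000000000000000000000000000000000000) (nat_lit 2)
theorem c6789 : QOK q6789 := cut [] trivial (nd (nat_lit 182) (nat_lit 0) (cs (lf (nat_lit 21) (nat_lit 182)) (lf (nat_lit 0) (nat_lit 181)))) q6789 (by decide +kernel)
def q6837 : Q := Q.p (nat_lit 0x200001e000000000000000000000000000000000000000000000000000) (nat_lit 0x4e00001000000000000000000000000000000000000000000000000000) (nat_lit 3)
theorem c6837 : QOK q6837 := cut [] trivial (nd (nat_lit 226) (nat_lit 0) (cs (lf (nat_lit 10) (nat_lit 204)) (nd (nat_lit 204) (nat_lit 0) (cs (lf (nat_lit 11) (nat_lit 203)) (lf (nat_lit 5) (nat_lit 204)))))) q6837 (by decide +kernel)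
def q6838 : Q := Q.p (nat_lit 0x1400007000018000000000000000000000000000000000000000000000) (nat_lit 0x400000000000000000000020000080000000000000000000000000000000000) (nat_lit 2)
theorem c6838 : QOK q6838 := cut [] trivial (nd (nat_lit 161) (nat_lit 0) (cs (lf (nat_lit 36) (nat_lit 138)) (lf (nat_lit 42) (nat_lit 161)))) q6838 (by decide +kernel)
def q6858 : Q := Q.p (nat_lit 0x180001c0000000000000000000000000000000000000000000000) (nat_lit 0x26000000000000000000000000000000000000000000000000000) (nat_lit 2)
theorem c6858 : QOK q6858 := cut [] trivial (nd (nat_lit 206) (nat_lit 0) (cs (lf (nat_lit 12) (nat_lit 183)) (lf (nat_lit 15) (nat_lit 184)))) q6858 (by decide +kernel)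
def q6895 : Q := Q.p (nat_lit 0x80000c0000100000400000000000000000000000000000000000) (nat_lit 0x20000020000000000000001000000000000000000000000000000) (nat_lit 2)
theorem c6895 : QOK q6895 := cut [] trivial (nd (nat_lit 120) (nat_lit 0) (cs (lf (nat_lit 40) (nat_lit 119)) (lf (nat_lit 29) (nat_lit 120)))) q6895 (by decide +kernel)
def q6930 : Q := Q.p (nat_lit 0xc0000100001c0000000000000000000000000000000000000000) (nat_lit 0x2000000000000000200000180000200000000000000000000000000000) (nat_lit 3)
theorem c6930 : QOK q6930 := cut [] trivial (nd (nat_lit 140) (nat_lit 0) (cs (lf (nat_lit 29) (nat_lit 140)) (nd (nat_lit 139) (nat_lit 0) (cs (lf (nat_lit 47) (nat_lit 117)) (lf (nat_lit 18) (nat_lit 139)))))) q6930 (by decide +kernel)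
def q6953 : Q := Q.p (nat_lit 0xe00005000000000000000000000000000000000000000000000000000000000) (nat_lit 0x10000a000000000000000000000000000000000000000000000000000000000) (nat_lit 2)
theorem c6953 : QOK q6953 := cut [] trivial (nd (nat_lit 229) (nat_lit 0) (cs (lf (nat_lit 12) (nat_lit 226)) (lf (nat_lit 6) (nat_lit 227)))) q6953 (by decide +kernel)
def q6964 : Q := Q.p (nat_lit 0x200000c000030000000000000000000000000000000000000000000000000000) (nat_lit 0x200000800000000000000000000040000000000000000000000000000000000000000000000) (nat_lit 2)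
theorem c6964 : QOK q6964 := cut [] trivial (nd (nat_lit 275) (nat_lit 0) (cs (lf (nat_lit 42) (nat_lit 208)) (lf (nat_lit 47) (nat_lit 186)))) q6964 (by decide +kernel)
def q6988 : Q := Q.p (nat_lit 0x2000008000030000040000000000000000000000000000000000000000) (nat_lit 0x4000000000000000100000400000000000000000000000000000) (nat_lit 2)
theorem c6988 : QOK q6988 := cut [] trivial (nd (nat_lit 140) (nat_lit 0) (cs (lf (nat_lit 24) (nat_lit 118)) (lf (nat_lit 27) (nat_lit 140)))) q6988 (by decide +kernel)
def q7017 : Q := Q.p (nat_lit 0x380000e0000000000000000000000000000000000000000000000) (nat_lit 0x180006e0001f00007c00000000000000000000000000000) (nat_lit 9)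
theorem c7017 : QOK q7017 := cut [] trivial (nd (nat_lit 184) (nat_lit 0) (cs (lf (nat_lit 0) (nat_lit 183)) (nd (nat_lit 165) (nat_lit 0) (cs (lf (nat_lit 17) (nat_lit 162)) (nd (nat_lit 143) (nat_lit 0) (cs (lf (nat_lit 36) (nat_lit 120)) (nd (nat_lit 162) (nat_lit 0) (cs (lf (nat_lit 23) (nat_lit 161)) (nd (nat_lit 118) (nat_lit 0) (cs (lf (nat_lit 25) (nat_lit 118)) (nd (nat_lit 142) (nat_lit 0) (cs (lf (nat_lit 47) (nat_lit 120)) (nd (nat_lit 144) (nat_lit 0) (cs (lf (nat_lit 35) (nat_lit 121)) (nd (nat_lit 141) (nat_lit 0) (cs (lf (nat_lit 22) (nat_lit 118)) (lf (nat_lit 10) (nat_lit 140)))))))))))))))))) q7017 (by decide +kernel)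
def q7027 : Q := Q.p (nat_lit 0x380000e0000000000000000000000000000000000000000000000) (nat_lit 0x2000000000018000780001f80007e00000000000000000000000000000) (nat_lit 10)
theorem c7027 : QOK q7027 := cut [] trivial (nd (nat_lit 184) (nat_lit 0) (cs (lf (nat_lit 0) (nat_lit 183)) (nd (nat_lit 165) (nat_lit 0) (cs (lf (nat_lit 17) (nat_lit 162)) (nd (nat_lit 143) (nat_lit 0) (cs (lf (nat_lit 36) (nat_lit 120)) (nd (nat_lit 122) (nat_lit 0) (cs (lf (nat_lit 34) (nat_lit 121)) (nd (nat_lit 142) (nat_lit 0) (cs (lf (nat_lit 47) (nat_lit 120)) (nd (nat_lit 164) (nat_lit 0) (cs (lf (nat_lit 41) (nat_lit 141)) (nd (nat_lit 141) (nat_lit 0) (cs (lf (nat_lit 47) (nat_lit 119)) (nd (nat_lit 140) (nat_lit 0) (cs (lf (nat_lit 0) (nat_lit 139)) (nd (nat_lit 118) (nat_lit 0) (cs (lf (nat_lit 23) (nat_lit 117)) (lf (nat_lit 44) (nat_lit 118)))))))))))))))))))) q7027 (by decide +kernel)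
def q7040 : Q := Q.p (nat_lit 0x180001e0000600000000000000000000000000000000000000000) (nat_lit 0x1c0000300000c00000000000000000000000000000) (nat_lit 4)
theorem c7040 : QOK q7040 := cut [] trivial (nd (nat_lit 163) (nat_lit 0) (cs (lf (nat_lit 23) (nat_lit 162)) (nd (nat_lit 141) (nat_lit 0) (cs (lf (nat_lit 24) (nat_lit 119)) (nd (nat_lit 140) (nat_lit 0) (cs (lf (nat_lit 47) (nat_lit 118)) (lf (nat_lit 20) (nat_lit 140)))))))) q7040 (by decide +kernel)
def q7046 : Q := Q.p (nat_lit 0x18000040000000000600000000000000000000000000000000000) (nat_lit 0x2000000000000000100000000000800000000000000000000000000000) (nat_lit 2)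
theorem c7046 : QOK q7046 := cut [] trivial (nd (nat_lit 164) (nat_lit 0) (cs (lf (nat_lit 47) (nat_lit 119)) (lf (nat_lit 41) (nat_lit 141)))) q7046 (by decide +kernel)
def q7057 : Q := Q.p (nat_lit 0x300001e0000600000800000000000000000000000000000000000) (nat_lit 0xc0000700001800000000000000000000000000000) (nat_lit 4)
theorem c7057 : QOK q7057 := cut [] trivial (nd (nat_lit 142) (nat_lit 0) (cs (lf (nat_lit 47) (nat_lit 120)) (nd (nat_lit 163) (nat_lit 0) (cs (lf (nat_lit 23) (nat_lit 162)) (nd (nat_lit 141) (nat_lit 0) (cs (lf (nat_lit 24) (nat_lit 119)) (lf (nat_lit 0) (nat_lit 140)))))))) q7057 (by decide +kernel)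
def q7082 : Q := Q.p (nat_lit 0x18000030000000000000000000000000000000000000000000000) (nat_lit 0x2400004c000000000000000000000000000000000000000000000) (nat_lit 3)
theorem c7082 : QOK q7082 := cut [] trivial (nd (nat_lit 183) (nat_lit 0) (cs (lf (nat_lit 0) (nat_lit 182)) (nd (nat_lit 209) (nat_lit 0) (cs (lf (nat_lit 21) (nat_lit 183)) (lf (nat_lit 3) (nat_lit 183)))))) q7082 (by decide +kernel)
def q7086 : Q := Q.p (nat_lit 0x180000e0000000000000000000000000000000000000000000000) (nat_lit 0x6000100000000000000000000000000000000000000000000000) (nat_lit 2)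
theorem c7086 : QOK q7086 := cut [] trivial (nd (nat_lit 206) (nat_lit 0) (cs (lf (nat_lit 12) (nat_lit 183)) (lf (nat_lit 6) (nat_lit 184)))) q7086 (by decide +kernel)
def q7092 : Q := Q.p (nat_lit 0x3c00000000008000020000000000000000000000000000000000000000000000) (nat_lit 0x180000000001800004000000000000000000000000000000000000000000000000000) (nat_lit 3)
theorem c7092 : QOK q7092 := cut [] trivial (nd (nat_lit 228) (nat_lit 0) (cs (lf (nat_lit 23) (nat_lit 227)) (nd (nat_lit 272) (nat_lit 0) (cs (lf (nat_lit 11) (nat_lit 249)) (lf (nat_lit 33) (nat_lit 184)))))) q7092 (by decide +kernel)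
def q7112 : Q := Q.p (nat_lit 0xe000034000000000000000000000000000000000000000000000) (nat_lit 0x1800002000000000000000000000000000000000000000000000) (nat_lit 2)
theorem c7112 : QOK q7112 := cut [] trivial (nd (nat_lit 204) (nat_lit 0) (cs (lf (nat_lit 23) (nat_lit 181)) (lf (nat_lit 12) (nat_lit 181)))) q7112 (by decide +kernel)
def q7120 : Q := Q.p (nat_lit 0x2000018000020000080000000000000000000000000000000000000000) (nat_lit 0x400005c00024000000000100000400000000000000000000000000000000000) (nat_lit 5)
theorem c7120 : QOK q7120 := cut [] trivial (nd (nat_lit 228) (nat_lit 0) (cs (lf (nat_lit 41) (nat_lit 162)) (nd (nat_lit 142) (nat_lit 0) (cs (lf (nat_lit 34) (nat_lit 141)) (nd (nat_lit 227) (nat_lit 0) (cs (lf (nat_lit 12) (nat_lit 204)) (nd (nat_lit 209) (nat_lit 0) (cs (lf (nat_lit 9) (nat_lit 205)) (lf (nat_lit 15) (nat_lit 205)))))))))) q7120 (by decide +kernel)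
def q7139 : Q := Q.p (nat_lit 0xe000030000040000000000000000000000000000000000000000) (nat_lit 0x800000000000000000000100000400000000000000000000000000000) (nat_lit 2)
theorem c7139 : QOK q7139 := cut [] trivial (nd (nat_lit 140) (nat_lit 0) (cs (lf (nat_lit 24) (nat_lit 118)) (lf (nat_lit 41) (nat_lit 139)))) q7139 (by decide +kernel)
def q7148 : Q := Q.p (nat_lit 0x100000300001c0000000000000000000000000000000000000000) (nat_lit 0x4000020000180000620001c00001000000000000000000000000000000) (nat_lit 6)
theorem c7148 : QOK q7148 := cut [] trivial (nd (nat_lit 165) (nat_lit 0) (cs (lf (nat_lit 6) (nat_lit 162)) (nd (nat_lit 187) (nat_lit 0) (cs (lf (nat_lit 5) (nat_lit 162)) (nd (nat_lit 143) (nat_lit 0) (cs (lf (nat_lit 17) (nat_lit 140)) (nd (nat_lit 142) (nat_lit 0) (cs (lf (nat_lit 12) (nat_lit 139)) (nd (nat_lit 209) (nat_lit 0) (cs (lf (nat_lit 47) (nat_lit 120)) (lf (nat_lit 41) (nat_lit 142)))))))))))) q7148 (by decide +kernel)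
def q7151 : Q := Q.p (nat_lit 0x80000600001c0000000000000000000000000000000000000000) (nat_lit 0x30000c00001000000000000000000000000000000) (nat_lit 3)
theorem c7151 : QOK q7151 := cut [] trivial (nd (nat_lit 142) (nat_lit 0) (cs (lf (nat_lit 36) (nat_lit 119)) (nd (nat_lit 161) (nat_lit 0) (cs (lf (nat_lit 0) (nat_lit 160)) (lf (nat_lit 17) (nat_lit 139)))))) q7151 (by decide +kernel)
def q7156 : Q := Q.p (nat_lit 0x100000000003c0000000000000000000000000000000000000000) (nat_lit 0x4000000000040000020001c00002000000000000000000000000000000) (nat_lit 4)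
theorem c7156 : QOK q7156 := cut [] trivial (nd (nat_lit 143) (nat_lit 0) (cs (lf (nat_lit 17) (nat_lit 140)) (nd (nat_lit 142) (nat_lit 0) (cs (lf (nat_lit 12) (nat_lit 139)) (nd (nat_lit 186) (nat_lit 0) (cs (lf (nat_lit 35) (nat_lit 120)) (lf (nat_lit 30) (nat_lit 142)))))))) q7156 (by decide +kernel)
def q7171 : Q := Q.p (nat_lit 0x40000100002c0000100000000000000000000000000000000000) (nat_lit 0x100000080000200000000000000000000000000000) (nat_lit 2)
theorem c7171 : QOK q7171 := cut [] trivial (nd (nat_lit 139) (nat_lit 0) (cs (lf (nat_lit 47) (nat_lit 117)) (lf (nat_lit 19) (nat_lit 139)))) q7171 (by decide +kernel)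
def q7179 : Q := Q.p (nat_lit 0x100000000003c0000000000000000000000000000000000000000) (nat_lit 0x40000200001c0000000001800000000000000000000000000000000000) (nat_lit 4)
theorem c7179 : QOK q7179 := cut [] trivial (nd (nat_lit 143) (nat_lit 0) (cs (lf (nat_lit 17) (nat_lit 140)) (nd (nat_lit 187) (nat_lit 0) (cs (lf (nat_lit 5) (nat_lit 162)) (nd (nat_lit 230) (nat_lit 0) (cs (lf (nat_lit 32) (nat_lit 142)) (lf (nat_lit 39) (nat_lit 142)))))))) q7179 (by decide +kernel)
def q7193 : Q := Q.p (nat_lit 0x40000100000c0000200000000000000000000000000000000000000000) (nat_lit 0x100000800002000000000000000000000000000000) (nat_lit 2)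
theorem c7193 : QOK q7193 := cut [] trivial (nd (nat_lit 143) (nat_lit 0) (cs (lf (nat_lit 36) (nat_lit 120)) (lf (nat_lit 33) (nat_lit 142)))) q7193 (by decide +kernel)
def q7202 : Q := Q.p (nat_lit 0x18000060000080000400000000000000000000000000000) (nat_lit 0x200001800000000000000000000000) (nat_lit 2)
theorem c7202 : QOK q7202 := cut [] trivial (nd (nat_lit 117) (nat_lit 0) (cs (lf (nat_lit 24) (nat_lit 95)) (lf (nat_lit 35) (nat_lit 95)))) q7202 (by decide +kernel)
def q7214 : Q := Q.p (nat_lit 0x100000400001a0000400000000000000000000000000000000000) (nat_lit 0x40000800002000000000000000000000000000000) (nat_lit 2)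
theorem c7214 : QOK q7214 := cut [] trivial (nd (nat_lit 143) (nat_lit 0) (cs (lf (nat_lit 35) (nat_lit 120)) (lf (nat_lit 13) (nat_lit 139)))) q7214 (by decide +kernel)
def q7236 : Q := Q.p (nat_lit 0x2000008000020000080000200000000000000000000000000000000000) (nat_lit 0x40000100000400000000000000000000000000000) (nat_lit 2)
theorem c7236 : QOK q7236 := cut [] trivial (nd (nat_lit 140) (nat_lit 0) (cs (lf (nat_lit 47) (nat_lit 118)) (lf (nat_lit 46) (nat_lit 140)))) q7236 (by decide +kernel)
def q7254 : Q := Q.p (nat_lit 0x80000300003c0000000000000000000000000000000000000000) (nat_lit 0x180000400000000000000000000000000000) (nat_lit 2)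
theorem c7254 : QOK q7254 := cut [] trivial (nd (nat_lit 140) (nat_lit 0) (cs (lf (nat_lit 24) (nat_lit 118)) (lf (nat_lit 23) (nat_lit 139)))) q7254 (by decide +kernel)
def q7257 : Q := Q.p (nat_lit 0x38000180000000000000000000000000000000000000000) (nat_lit 0x640000000000000000000000000000000000000000) (nat_lit 2)
theorem c7257 : QOK q7257 := cut [] trivial (nd (nat_lit 165) (nat_lit 0) (cs (lf (nat_lit 9) (nat_lit 161)) (lf (nat_lit 6) (nat_lit 162)))) q7257 (by decide +kernel)
def q7272 : Q := Q.p (nat_lit 0xe0000300000000000000000000000000000000000000000) (nat_lit 0x18000400000000000000000000000000000000000000000) (nat_lit 2)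
theorem c7272 : QOK q7272 := cut [] trivial (nd (nat_lit 184) (nat_lit 0) (cs (lf (nat_lit 12) (nat_lit 161)) (lf (nat_lit 17) (nat_lit 162)))) q7272 (by decide +kernel)
def q7284 : Q := Q.p (nat_lit 0x2000018000040000100000000000000000000000000000000000) (nat_lit 0x200000800004000000000000000000000000000000000000000000000000000) (nat_lit 2)
theorem c7284 : QOK q7284 := cut [] trivial (nd (nat_lit 227) (nat_lit 0) (cs (lf (nat_lit 30) (nat_lit 161)) (lf (nat_lit 39) (nat_lit 139)))) q7284 (by decide +kernel)
def q7303 : Q := Q.p (nat_lit 0x200001000004000010000080000000000000000000000000000000000000000000000) (nat_lit 0x800000000000000040000200000000000000000000000000000000000000000) (nat_lit 2)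
theorem c7303 : QOK q7303 := cut [] trivial (nd (nat_lit 186) (nat_lit 0) (cs (lf (nat_lit 35) (nat_lit 164)) (lf (nat_lit 40) (nat_lit 185)))) q7303 (by decide +kernel)
def q7338 : Q := Q.p (nat_lit 0x180001c0000000000000000000000000000000000000000000000) (nat_lit 0x6000020000000000000000000000000000000000000000000000) (nat_lit 2)
theorem c7338 : QOK q7338 := cut [] trivial (nd (nat_lit 206) (nat_lit 0) (cs (lf (nat_lit 12) (nat_lit 183)) (lf (nat_lit 9) (nat_lit 184)))) q7338 (by decide +kernel)
def q7345 : Q := Q.p (nat_lit 0x4000018000040000100000400000000000000000000000000000000000) (nat_lit 0x400001000000000000000020000080000000001000000000000000000000000000000) (nat_lit 3)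
theorem c7345 : QOK q7345 := cut [] trivial (nd (nat_lit 185) (nat_lit 0) (cs (lf (nat_lit 36) (nat_lit 119)) (nd (nat_lit 252) (nat_lit 0) (cs (lf (nat_lit 47) (nat_lit 163)) (lf (nat_lit 42) (nat_lit 185)))))) q7345 (by decide +kernel)
def q7416 : Q := Q.p (nat_lit 0xf0000000000000000000000000000000000000000000000000000) (nat_lit 0x3f0000700001ce0000000000000000000000000000000000000000000000) (nat_lit 8)
theorem c7416 : QOK q7416 := cut [] trivial (nd (nat_lit 186) (nat_lit 0) (cs (lf (nat_lit 23) (nat_lit 185)) (nd (nat_lit 233) (nat_lit 0) (cs (lf (nat_lit 5) (nat_lit 208)) (nd (nat_lit 212) (nat_lit 0) (cs (lf (nat_lit 22) (nat_lit 186)) (nd (nat_lit 191) (nat_lit 0) (cs (lf (nat_lit 16) (nat_lit 187)) (nd (nat_lit 213) (nat_lit 0) (cs (lf (nat_lit 17) (nat_lit 188)) (nd (nat_lit 236) (nat_lit 0) (cs (nd (nat_lit 214) (nat_lit 0) (cs (lf (nat_lit 5) (nat_lit 211)) (lf (nat_lit 11) (nat_lit 210)))) (lf (nat_lit 4) (nat_lit 210)))))))))))))) q7416 (by decide +kernel)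
def q7417 : Q := Q.p (nat_lit 0x20000040000100000c0000000000000000000000000000000000000000000000) (nat_lit 0x800001000000000000000000000200000000000000000000000000000000000000000) (nat_lit 2)
theorem c7417 : QOK q7417 := cut [] trivial (nd (nat_lit 252) (nat_lit 0) (cs (lf (nat_lit 35) (nat_lit 164)) (lf (nat_lit 29) (nat_lit 186)))) q7417 (by decide +kernel)
def q7425 : Q := Q.p (nat_lit 0x2800002000018000020000000000000000000000000000000000000000000000) (nat_lit 0x1d00001400004000000000040000100000000000000000000000000000000000000000) (nat_lit 5)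
theorem c7425 : QOK q7425 := cut [] trivial (nd (nat_lit 250) (nat_lit 0) (cs (lf (nat_lit 41) (nat_lit 184)) (nd (nat_lit 252) (nat_lit 0) (cs (lf (nat_lit 29) (nat_lit 185)) (nd (nat_lit 275) (nat_lit 0) (cs (lf (nat_lit 5) (nat_lit 250)) (nd (nat_lit 186) (nat_lit 0) (cs (lf (nat_lit 26) (nat_lit 186)) (lf (nat_lit 35) (nat_lit 163)))))))))) q7425 (by decide +kernel)
def q7441 : Q := Q.p (nat_lit 0xf8000000000000000000000000000000000000000000000000000) (nat_lit 0x70000000000000000000000000000000000000000000000) (nat_lit 2)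
theorem c7441 : QOK q7441 := cut [] trivial (nd (nat_lit 185) (nat_lit 0) (cs (lf (nat_lit 23) (nat_lit 184)) (lf (nat_lit 22) (nat_lit 185)))) q7441 (by decide +kernel)
def q7456 : Q := Q.p (nat_lit 0x60000080000200000800000000000000000000000000000000000) (nat_lit 0x100000000001000006000010000000000000000000000000) (nat_lit 3)
theorem c7456 : QOK q7456 := cut [] trivial (nd (nat_lit 122) (nat_lit 0) (cs (lf (nat_lit 34) (nat_lit 121)) (nd (nat_lit 121) (nat_lit 0) (cs (lf (nat_lit 35) (nat_lit 99)) (lf (nat_lit 28) (nat_lit 121)))))) q7456 (by decide +kernel)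
def q7471 : Q := Q.p (nat_lit 0x380000d000000000000000000000000000000000000000000000000000000000) (nat_lit 0x600000800000000000000000000000000000000000000000000000000000000) (nat_lit 2)
theorem c7471 : QOK q7471 := cut [] trivial (nd (nat_lit 250) (nat_lit 0) (cs (lf (nat_lit 23) (nat_lit 227)) (lf (nat_lit 12) (nat_lit 227)))) q7471 (by decide +kernel)
def q7486 : Q := Q.p (nat_lit 0xf800000000000000000000000000000000000) (nat_lit 0x70000000000000000000000000000000) (nat_lit 2)
theorem c7486 : QOK q7486 := cut [] trivial (nd (nat_lit 125) (nat_lit 0) (cs (lf (nat_lit 16) (nat_lit 121)) (lf (nat_lit 17) (nat_lit 122)))) q7486 (by decide +kernel)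
def q7501 : Q := Q.p (nat_lit 0x70000080000000000800000000000000000000000000000000000) (nat_lit 0x14000000000000000200000000000000000000000000000000000000000) (nat_lit 2)
theorem c7501 : QOK q7501 := cut [] trivial (nd (nat_lit 165) (nat_lit 0) (cs (lf (nat_lit 29) (nat_lit 143)) (lf (nat_lit 41) (nat_lit 142)))) q7501 (by decide +kernel)
def q7523 : Q := Q.p (nat_lit 0x200000c0000200000000001000000000000000000000000000000000000) (nat_lit 0x100000c00000000000000000000000000000000000000000) (nat_lit 2)
theorem c7523 : QOK q7523 := cut [] trivial (nd (nat_lit 166) (nat_lit 0) (cs (lf (nat_lit 45) (nat_lit 144)) (lf (nat_lit 26) (nat_lit 144)))) q7523 (by decide +kernel)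
def q7538 : Q := Q.p (nat_lit 0x2000000000060000100000400000000000000000000000000000000000000000) (nat_lit 0x8000000000080000000001000000000000000000000000000000000000) (nat_lit 2)
theorem c7538 : QOK q7538 := cut [] trivial (nd (nat_lit 231) (nat_lit 0) (cs (lf (nat_lit 36) (nat_lit 143)) (lf (nat_lit 33) (nat_lit 165)))) q7538 (by decide +kernel)
def q7539 : Q := Q.p (nat_lit 0x2000000000060000100000400000000000000000000000000000000000000000) (nat_lit 0x18000000000000000000001000000000000000000000000000000000000) (nat_lit 2)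
theorem c7539 : QOK q7539 := cut [] trivial (nd (nat_lit 231) (nat_lit 0) (cs (lf (nat_lit 36) (nat_lit 143)) (lf (nat_lit 39) (nat_lit 165)))) q7539 (by decide +kernel)
def q7548 : Q := Q.p (nat_lit 0x2000000000060000100000400000000000000000000000000000000000000000) (nat_lit 0x18000000000080000000000000000000000000000000000000000000000) (nat_lit 2)
theorem c7548 : QOK q7548 := cut [] trivial (nd (nat_lit 231) (nat_lit 0) (cs (lf (nat_lit 39) (nat_lit 165)) (lf (nat_lit 33) (nat_lit 165)))) q7548 (by decide +kernel)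
def q7561 : Q := Q.p (nat_lit 0x200000a000038000000000000000000000000000000000000000000000000000) (nat_lit 0x310000c00000f0000100000400000000000000000000000000000000000) (nat_lit 6)
theorem c7561 : QOK q7561 := cut [] trivial (nd (nat_lit 210) (nat_lit 0) (cs (lf (nat_lit 11) (nat_lit 206)) (nd (nat_lit 232) (nat_lit 0) (cs (lf (nat_lit 5) (nat_lit 207)) (nd (nat_lit 185) (nat_lit 0) (cs (lf (nat_lit 23) (nat_lit 184)) (nd (nat_lit 186) (nat_lit 0) (cs (lf (nat_lit 18) (nat_lit 185)) (nd (nat_lit 164) (nat_lit 0) (cs (lf (nat_lit 45) (nat_lit 164)) (lf (nat_lit 36) (nat_lit 141)))))))))))) q7561 (by decide +kernel)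
def q7564 : Q := Q.p (nat_lit 0x10000080000300000c0000000000000000000000000000000000000000000000) (nat_lit 0x4000000000000000600001800006000000000000000000000000000000) (nat_lit 4)
theorem c7564 : QOK q7564 := cut [] trivial (nd (nat_lit 165) (nat_lit 0) (cs (lf (nat_lit 31) (nat_lit 164)) (nd (nat_lit 144) (nat_lit 0) (cs (lf (nat_lit 34) (nat_lit 143)) (nd (nat_lit 143) (nat_lit 0) (cs (lf (nat_lit 36) (nat_lit 120)) (lf (nat_lit 35) (nat_lit 121)))))))) q7564 (by decide +kernel)
def q7569 : Q := Q.p (nat_lit 0x3800008000018000000000000000000000000000000000000000000000000000) (nat_lit 0x400074000000000000000000000000000000000000000000000000000000000) (nat_lit 3)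
theorem c7569 : QOK q7569 := cut [] trivial (nd (nat_lit 232) (nat_lit 0) (cs (lf (nat_lit 12) (nat_lit 228)) (nd (nat_lit 233) (nat_lit 0) (cs (lf (nat_lit 21) (nat_lit 207)) (lf (nat_lit 6) (nat_lit 230)))))) q7569 (by decide +kernel)
def q7581 : Q := Q.p (nat_lit 0x200001e000018000000000000000000000000000000000000000000000000000) (nat_lit 0x200000c00000000000000040000100000000000000000000000000000000000000000) (nat_lit 3)
theorem c7581 : QOK q7581 := cut [] trivial (nd (nat_lit 251) (nat_lit 0) (cs (lf (nat_lit 11) (nat_lit 228)) (nd (nat_lit 186) (nat_lit 0) (cs (lf (nat_lit 30) (nat_lit 185)) (lf (nat_lit 24) (nat_lit 164)))))) q7581 (by decide +kernel)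
def q7622 : Q := Q.p (nat_lit 0x700000c0000200000000000000000000000000000000000000000) (nat_lit 0x10000000000000000000000800002000000000000000000000000000000) (nat_lit 2)
theorem c7622 : QOK q7622 := cut [] trivial (nd (nat_lit 143) (nat_lit 0) (cs (lf (nat_lit 29) (nat_lit 143)) (lf (nat_lit 36) (nat_lit 120)))) q7622 (by decide +kernel)
def q7631 : Q := Q.p (nat_lit 0x3e0000000000000000000000000000000000000000000000) (nat_lit 0x1c0000000000000000000000000000000000000000) (nat_lit 2)
theorem c7631 : QOK q7631 := cut [] trivial (nd (nat_lit 163) (nat_lit 0) (cs (lf (nat_lit 23) (nat_lit 162)) (lf (nat_lit 22) (nat_lit 163)))) q7631 (by decide +kernel)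
def q7643 : Q := Q.p (nat_lit 0x4000010000040000100000000000000000000000000000000000000000) (nat_lit 0x200001800002000000000080000200000800000000000000000000000000000000000) (nat_lit 4)
theorem c7643 : QOK q7643 := cut [] trivial (nd (nat_lit 251) (nat_lit 0) (cs (lf (nat_lit 40) (nat_lit 163)) (nd (nat_lit 165) (nat_lit 0) (cs (lf (nat_lit 35) (nat_lit 142)) (nd (nat_lit 252) (nat_lit 0) (cs (lf (nat_lit 41) (nat_lit 185)) (lf (nat_lit 34) (nat_lit 164)))))))) q7643 (by decide +kernel)
def q7645 : Q := Q.p (nat_lit 0x40000300000c0000000000000000000000000000000000000000000000) (nat_lit 0x1000000000000000000000200000800000000000000000000000000000000000) (nat_lit 2)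
theorem c7645 : QOK q7645 := cut [] trivial (nd (nat_lit 165) (nat_lit 0) (cs (lf (nat_lit 36) (nat_lit 142)) (lf (nat_lit 30) (nat_lit 164)))) q7645 (by decide +kernel)
def q7677 : Q := Q.p (nat_lit 0x300000c0000200000800000000000000000000000000000000000) (nat_lit 0x138001ce000700000000001000004000000000000000000000000000000) (nat_lit 8)
theorem c7677 : QOK q7677 := cut [] trivial (nd (nat_lit 122) (nat_lit 0) (cs (lf (nat_lit 34) (nat_lit 121)) (nd (nat_lit 210) (nat_lit 0) (cs (lf (nat_lit 29) (nat_lit 143)) (nd (nat_lit 211) (nat_lit 0) (cs (lf (nat_lit 18) (nat_lit 186)) (nd (nat_lit 189) (nat_lit 0) (cs (lf (nat_lit 17) (nat_lit 186)) (nd (nat_lit 207) (nat_lit 0) (cs (lf (nat_lit 16) (nat_lit 185)) (nd (nat_lit 228) (nat_lit 0) (cs (lf (nat_lit 10) (nat_lit 206)) (nd (nat_lit 206) (nat_lit 0) (cs (lf (nat_lit 12) (nat_lit 183)) (lf (nat_lit 11) (nat_lit 205)))))))))))))))) q7677 (by decide +kernel)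
def q7693 : Q := Q.p (nat_lit 0x2000008000078000080000000000000000000000000000000000000000000000) (nat_lit 0x400001000034000000000000000200000800000000000000000000000000000000000) (nat_lit 4)
theorem c7693 : QOK q7693 := cut [] trivial (nd (nat_lit 252) (nat_lit 0) (cs (lf (nat_lit 41) (nat_lit 186)) (nd (nat_lit 165) (nat_lit 0) (cs (lf (nat_lit 40) (nat_lit 164)) (nd (nat_lit 232) (nat_lit 0) (cs (lf (nat_lit 5) (nat_lit 207)) (lf (nat_lit 24) (nat_lit 143)))))))) q7693 (by decide +kernel)
def q7714 : Q := Q.p (nat_lit 0x800002000008000020000000000000000000000000000000000000000000000) (nat_lit 0x140000700001400000000000000000000000000000000000000000000000000000000000000) (nat_lit 4)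
theorem c7714 : QOK q7714 := cut [] trivial (nd (nat_lit 272) (nat_lit 0) (cs (lf (nat_lit 40) (nat_lit 184)) (nd (nat_lit 274) (nat_lit 0) (cs (lf (nat_lit 28) (nat_lit 185)) (nd (nat_lit 273) (nat_lit 0) (cs (lf (nat_lit 41) (nat_lit 206)) (lf (nat_lit 29) (nat_lit 207)))))))) q7714 (by decide +kernel)
def q7721 : Q := Q.p (nat_lit 0x100000400001000004000010000000000000000000000000000000000000000000000) (nat_lit 0x20000080000200000000000000000000000000000000000000000000000000000000000000) (nat_lit 2)
theorem c7721 : QOK q7721 := cut [] trivial (nd (nat_lit 271) (nat_lit 0) (cs (lf (nat_lit 41) (nat_lit 205)) (lf (nat_lit 40) (nat_lit 183)))) q7721 (by decide +kernel)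
def q7758 : Q := Q.p (nat_lit 0x600000c00000000000000000000000000000000000) (nat_lit 0x1900000300000000000000000000000000000000000) (nat_lit 3)
theorem c7758 : QOK q7758 := cut [] trivial (nd (nat_lit 141) (nat_lit 0) (cs (lf (nat_lit 0) (nat_lit 140)) (nd (nat_lit 167) (nat_lit 0) (cs (lf (nat_lit 21) (nat_lit 141)) (lf (nat_lit 18) (nat_lit 142)))))) q7758 (by decide +kernel)
def q7766 : Q := Q.p (nat_lit 0x40000100000400000800000000000000000000000000000000000) (nat_lit 0x10000000000000000200001000002000008000000000000000000000000) (nat_lit 3)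
theorem c7766 : QOK q7766 := cut [] trivial (nd (nat_lit 121) (nat_lit 0) (cs (lf (nat_lit 45) (nat_lit 121)) (nd (nat_lit 165) (nat_lit 0) (cs (lf (nat_lit 42) (nat_lit 143)) (lf (nat_lit 24) (nat_lit 99)))))) q7766 (by decide +kernel)
def q7768 : Q := Q.p (nat_lit 0x40000100000600000800000000000000000000000000000000000) (nat_lit 0x80000000000000002000008000000000000000000000000) (nat_lit 2)
theorem c7768 : QOK q7768 := cut [] trivial (nd (nat_lit 121) (nat_lit 0) (cs (lf (nat_lit 24) (nat_lit 99)) (lf (nat_lit 27) (nat_lit 121)))) q7768 (by decide +kernel)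
def q7801 : Q := Q.p (nat_lit 0x8000078000000000000000000000000000000000000000000000000000) (nat_lit 0x30000004000000000000000000000000000000000000000000000000000) (nat_lit 2)
theorem c7801 : QOK q7801 := cut [] trivial (nd (nat_lit 232) (nat_lit 0) (cs (lf (nat_lit 5) (nat_lit 207)) (lf (nat_lit 0) (nat_lit 206)))) q7801 (by decide +kernel)
def q7858 : Q := Q.p (nat_lit 0x70000040000000000000000000000000000000000000000000000) (nat_lit 0x7380018c0001a0000000000000000000000000000000000000000000000) (nat_lit 7)
theorem c7858 : QOK q7858 := cut [] trivial (nd (nat_lit 211) (nat_lit 0) (cs (lf (nat_lit 23) (nat_lit 185)) (nd (nat_lit 233) (nat_lit 0) (cs (lf (nat_lit 5) (nat_lit 208)) (nd (nat_lit 207) (nat_lit 0) (cs (lf (nat_lit 4) (nat_lit 207)) (nd (nat_lit 228) (nat_lit 0) (cs (lf (nat_lit 10) (nat_lit 206)) (nd (nat_lit 206) (nat_lit 0) (cs (lf (nat_lit 11) (nat_lit 205)) (nd (nat_lit 187) (nat_lit 0) (cs (lf (nat_lit 18) (nat_lit 186)) (lf (nat_lit 17) (nat_lit 184)))))))))))))) q7858 (by decide +kernel)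
def q7862 : Q := Q.p (nat_lit 0x7c000000000000000000000000000000000000000000000000000) (nat_lit 0x3800000000000000000000000000000000000000000000000000000000) (nat_lit 2)
theorem c7862 : QOK q7862 := cut [] trivial (nd (nat_lit 228) (nat_lit 0) (cs (lf (nat_lit 11) (nat_lit 205)) (lf (nat_lit 10) (nat_lit 206)))) q7862 (by decide +kernel)
def q7872 : Q := Q.p (nat_lit 0x3c00002000008000000000000000000000000000000000000000000000000000) (nat_lit 0x180000000000000000000020000000000000000000000000000000000000000000000) (nat_lit 2)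
theorem c7872 : QOK q7872 := cut [] trivial (nd (nat_lit 272) (nat_lit 0) (cs (lf (nat_lit 11) (nat_lit 249)) (lf (nat_lit 36) (nat_lit 184)))) q7872 (by decide +kernel)
def q7908 : Q := Q.p (nat_lit 0x30000080000700000c0000000000000000000000000000000000000000000000) (nat_lit 0xc00070000188000600001e00003800000000000000000000000000000000000) (nat_lit 9)
theorem c7908 : QOK q7908 := cut [] trivial (nd (nat_lit 211) (nat_lit 0) (cs (lf (nat_lit 18) (nat_lit 186)) (nd (nat_lit 189) (nat_lit 0) (cs (lf (nat_lit 17) (nat_lit 186)) (nd (nat_lit 233) (nat_lit 0) (cs (lf (nat_lit 5) (nat_lit 208)) (nd (nat_lit 232) (nat_lit 0) (cs (nd (nat_lit 250) (nat_lit 0) (cs (nd (nat_lit 167) (nat_lit 0) (cs (nd (nat_lit 165) (nat_lit 0) (cs (lf (nat_lit 24) (nat_lit 143)) (nd (nat_lit 166) (nat_lit 0) (cs (lf (nat_lit 6) (nat_lit 164)) (lf (nat_lit 47) (nat_lit 144)))))) (lf (nat_lit 36) (nat_lit 144)))) (lf (nat_lit 13) (nat_lit 228)))) (lf (nat_lit 0) (nat_lit 207)))))))))) q7908 (by decide +kernel)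
def q7922 : Q := Q.p (nat_lit 0x1e000040000000000000000000000000000000000000000000000) (nat_lit 0xe00001000020000000000000000000000000000000000000000000000) (nat_lit 3)
theorem c7922 : QOK q7922 := cut [] trivial (nd (nat_lit 226) (nat_lit 0) (cs (lf (nat_lit 10) (nat_lit 204)) (nd (nat_lit 204) (nat_lit 0) (cs (lf (nat_lit 16) (nat_lit 182)) (lf (nat_lit 11) (nat_lit 203)))))) q7922 (by decide +kernel)
def q7948 : Q := Q.p (nat_lit 0x3c000040000000000000000000000000000000000000000000000000000) (nat_lit 0x2000180000000000000000000000000000000000000000000000000000) (nat_lit 2)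
theorem c7948 : QOK q7948 := cut [] trivial (nd (nat_lit 211) (nat_lit 0) (cs (lf (nat_lit 17) (nat_lit 208)) (lf (nat_lit 12) (nat_lit 207)))) q7948 (by decide +kernel)
def q7956 : Q := Q.p (nat_lit 0x1e000018000040000000000000000000000000000000000000000000000) (nat_lit 0x200000c00000000000000000000000000000000000000000000000000000000000000) (nat_lit 2)
theorem c7956 : QOK q7956 := cut [] trivial (nd (nat_lit 251) (nat_lit 0) (cs (lf (nat_lit 30) (nat_lit 185)) (lf (nat_lit 11) (nat_lit 228)))) q7956 (by decide +kernel)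
def q7962 : Q := Q.p (nat_lit 0x1c0000c0000000000000000000000000000000000000000000000000000) (nat_lit 0x20000300000000000000000000000000000000000000000000000000000) (nat_lit 2)
theorem c7962 : QOK q7962 := cut [] trivial (nd (nat_lit 212) (nat_lit 0) (cs (lf (nat_lit 6) (nat_lit 209)) (lf (nat_lit 15) (nat_lit 208)))) q7962 (by decide +kernel)
def q7975 : Q := Q.p (nat_lit 0x200003c000000000000000000000000000000000000000000000000000000000) (nat_lit 0x1800040000000000000000000000000000000000000000000000000000000000) (nat_lit 2)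
theorem c7975 : QOK q7975 := cut [] trivial (nd (nat_lit 252) (nat_lit 0) (cs (lf (nat_lit 6) (nat_lit 230)) (lf (nat_lit 11) (nat_lit 229)))) q7975 (by decide +kernel)
def q7985 : Q := Q.p (nat_lit 0x100000380001000000000000000000000000000000000000000000) (nat_lit 0x200000400002000000000000000000000000000000000000000000) (nat_lit 2)
theorem c7985 : QOK q7985 := cut [] trivial (nd (nat_lit 190) (nat_lit 0) (cs (lf (nat_lit 17) (nat_lit 165)) (lf (nat_lit 5) (nat_lit 187)))) q7985 (by decide +kernel)
def q7991 : Q := Q.p (nat_lit 0x40000100001e0000080000000000000000000000000000000000000000) (nat_lit 0xc000000000000000200000000000000000000000000000000000) (nat_lit 2)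
theorem c7991 : QOK q7991 := cut [] trivial (nd (nat_lit 207) (nat_lit 0) (cs (lf (nat_lit 11) (nat_lit 184)) (lf (nat_lit 24) (nat_lit 141)))) q7991 (by decide +kernel)
def q8000 : Q := Q.p (nat_lit 0xc00001c0000000000000000000000000000000000000000000000) (nat_lit 0x300000200000000000000000000000000000000000000000000000) (nat_lit 2)
theorem c8000 : QOK q8000 := cut [] trivial (nd (nat_lit 212) (nat_lit 0) (cs (lf (nat_lit 18) (nat_lit 187)) (lf (nat_lit 3) (nat_lit 186)))) q8000 (by decide +kernel)
def q8005 : Q := Q.p (nat_lit 0x80000300000c00000000000000000000000000000000000000000) (nat_lit 0x8000020000000000000000000001000000000000000000000000000000000000) (nat_lit 2)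
theorem c8005 : QOK q8005 := cut [] trivial (nd (nat_lit 233) (nat_lit 0) (cs (lf (nat_lit 42) (nat_lit 166)) (lf (nat_lit 47) (nat_lit 144)))) q8005 (by decide +kernel)
def q8008 : Q := Q.p (nat_lit 0x20000080000300000400000000000000000000000000000000000000000) (nat_lit 0x40000000000000001000004000000000000000000000000000000) (nat_lit 2)
theorem c8008 : QOK q8008 := cut [] trivial (nd (nat_lit 144) (nat_lit 0) (cs (lf (nat_lit 24) (nat_lit 122)) (lf (nat_lit 27) (nat_lit 144)))) q8008 (by decide +kernel)
def q8023 : Q := Q.p (nat_lit 0x1f0000000000000000000000000000000000000000000000) (nat_lit 0xe00000000000000000000000000000000000000000) (nat_lit 2)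
theorem c8023 : QOK q8023 := cut [] trivial (nd (nat_lit 166) (nat_lit 0) (cs (lf (nat_lit 17) (nat_lit 163)) (lf (nat_lit 16) (nat_lit 162)))) q8023 (by decide +kernel)
def q8028 : Q := Q.p (nat_lit 0x100003c0000000000000000000000000000000000000000000000) (nat_lit 0x3a0000400000000000000000000000000000000000000000000000) (nat_lit 3)
theorem c8028 : QOK q8028 := cut [] trivial (nd (nat_lit 190) (nat_lit 0) (cs (lf (nat_lit 10) (nat_lit 186)) (nd (nat_lit 212) (nat_lit 0) (cs (lf (nat_lit 5) (nat_lit 187)) (lf (nat_lit 4) (nat_lit 186)))))) q8028 (by decide +kernel)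
def q8040 : Q := Q.p (nat_lit 0x780001c0000400000000000000000000000000000000000000000) (nat_lit 0x30000000000000001a00002800000000000000000000000000000000000) (nat_lit 4)
theorem c8040 : QOK q8040 := cut [] trivial (nd (nat_lit 232) (nat_lit 0) (cs (lf (nat_lit 5) (nat_lit 207)) (nd (nat_lit 167) (nat_lit 0) (cs (lf (nat_lit 35) (nat_lit 144)) (nd (nat_lit 165) (nat_lit 0) (cs (lf (nat_lit 6) (nat_lit 164)) (lf (nat_lit 47) (nat_lit 143)))))))) q8040 (by decide +kernel)
def q8042 : Q := Q.p (nat_lit 0x20000080000e00001800000000000000000000000000000000000) (nat_lit 0x600001000000000000000000000000000000) (nat_lit 2)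
theorem c8042 : QOK q8042 := cut [] trivial (nd (nat_lit 142) (nat_lit 0) (cs (lf (nat_lit 47) (nat_lit 120)) (lf (nat_lit 0) (nat_lit 141)))) q8042 (by decide +kernel)
def q8049 : Q := Q.p (nat_lit 0xc00003800000000000000000000000000000000000) (nat_lit 0x1000000600000000000000000000000000000000000) (nat_lit 2)
theorem c8049 : QOK q8049 := cut [] trivial (nd (nat_lit 142) (nat_lit 0) (cs (lf (nat_lit 0) (nat_lit 141)) (lf (nat_lit 5) (nat_lit 142)))) q8049 (by decide +kernel)
def q8059 : Q := Q.p (nat_lit 0x80000200000c0000100000000000000000000000000000000000000000000000) (nat_lit 0x10000000000000000400001000000000000000000000000000000000000) (nat_lit 2)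
theorem c8059 : QOK q8059 := cut [] trivial (nd (nat_lit 166) (nat_lit 0) (cs (lf (nat_lit 24) (nat_lit 144)) (lf (nat_lit 27) (nat_lit 166)))) q8059 (by decide +kernel)
def q8087 : Q := Q.p (nat_lit 0x100001c0000000000000000000000000000000000000000000000) (nat_lit 0x728001e00001e00000000000000000000000000000000000000000) (nat_lit 7)
theorem c8087 : QOK q8087 := cut [] trivial (nd (nat_lit 189) (nat_lit 0) (cs (lf (nat_lit 11) (nat_lit 185)) (nd (nat_lit 167) (nat_lit 0) (cs (lf (nat_lit 17) (nat_lit 164)) (nd (nat_lit 190) (nat_lit 0) (cs (lf (nat_lit 10) (nat_lit 186)) (nd (nat_lit 213) (nat_lit 0) (cs (nd (nat_lit 191) (nat_lit 0) (cs (nd (nat_lit 166) (nat_lit 0) (cs (lf (nat_lit 23) (nat_lit 165)) (lf (nat_lit 18) (nat_lit 166)))) (lf (nat_lit 5) (nat_lit 188)))) (lf (nat_lit 4) (nat_lit 187)))))))))) q8087 (by decide +kernel)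
def q8140 : Q := Q.p (nat_lit 0x300001c0000000000000000000000000000000000000000000000) (nat_lit 0x20000180000620001c00001000004000000000000000000000000000000) (nat_lit 6)
theorem c8140 : QOK q8140 := cut [] trivial (nd (nat_lit 189) (nat_lit 0) (cs (lf (nat_lit 6) (nat_lit 186)) (nd (nat_lit 211) (nat_lit 0) (cs (lf (nat_lit 5) (nat_lit 186)) (nd (nat_lit 167) (nat_lit 0) (cs (lf (nat_lit 17) (nat_lit 164)) (nd (nat_lit 166) (nat_lit 0) (cs (lf (nat_lit 12) (nat_lit 163)) (nd (nat_lit 144) (nat_lit 0) (cs (lf (nat_lit 36) (nat_lit 121)) (lf (nat_lit 42) (nat_lit 144)))))))))))) q8140 (by decide +kernel)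
def q8148 : Q := Q.p (nat_lit 0x80000f0000000000000000000000000000000000000000000000000000) (nat_lit 0x6000100000000000000000000000000000000000000000000000000000) (nat_lit 2)
theorem c8148 : QOK q8148 := cut [] trivial (nd (nat_lit 230) (nat_lit 0) (cs (lf (nat_lit 11) (nat_lit 207)) (lf (nat_lit 6) (nat_lit 208)))) q8148 (by decide +kernel)
def q8176 : Q := Q.p (nat_lit 0x1f00000000000000000000000000000000000) (nat_lit 0xe0000000000000000000000000000000000000000) (nat_lit 2)
theorem c8176 : QOK q8176 := cut [] trivial (nd (nat_lit 162) (nat_lit 0) (cs (lf (nat_lit 11) (nat_lit 139)) (lf (nat_lit 10) (nat_lit 140)))) q8176 (by decide +kernel)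
def q8180 : Q := Q.p (nat_lit 0x1f00000000000000000000000000000000000) (nat_lit 0xe00000000000000000000000000000) (nat_lit 2)
theorem c8180 : QOK q8180 := cut [] trivial (nd (nat_lit 118) (nat_lit 0) (cs (lf (nat_lit 22) (nat_lit 118)) (lf (nat_lit 23) (nat_lit 117)))) q8180 (by decide +kernel)
def q8200 : Q := Q.p (nat_lit 0x8000020000080001600000000000000000000000000000000000) (nat_lit 0x2000000000000000040000900000400000000000000000000000000000) (nat_lit 3)
theorem c8200 : QOK q8200 := cut [] trivial (nd (nat_lit 140) (nat_lit 0) (cs (lf (nat_lit 47) (nat_lit 118)) (nd (nat_lit 162) (nat_lit 0) (cs (lf (nat_lit 42) (nat_lit 140)) (lf (nat_lit 7) (nat_lit 140)))))) q8200 (by decide +kernel)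
def q8235 : Q := Q.p (nat_lit 0x1f00000000000000000000000000000000000) (nat_lit 0xe000000000000000000000000000000) (nat_lit 2)
theorem c8235 : QOK q8235 := cut [] trivial (nd (nat_lit 122) (nat_lit 0) (cs (lf (nat_lit 17) (nat_lit 119)) (lf (nat_lit 16) (nat_lit 118)))) q8235 (by decide +kernel)
def q8255 : Q := Q.p (nat_lit 0xc0000780000000000000000000000000000000000000000) (nat_lit 0x1800007000000000000000000000000000000000000) (nat_lit 3)
theorem c8255 : QOK q8255 := cut [] trivial (nd (nat_lit 145) (nat_lit 0) (cs (lf (nat_lit 16) (nat_lit 141)) (nd (nat_lit 167) (nat_lit 0) (cs (lf (nat_lit 6) (nat_lit 164)) (lf (nat_lit 17) (nat_lit 142)))))) q8255 (by decide +kernel)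
def q8269 : Q := Q.p (nat_lit 0xf0000300000000000000000000000000000000000000000000000) (nat_lit 0x2000008000060000000000000000400000000000000000000000000000000000000000) (nat_lit 3)
theorem c8269 : QOK q8269 := cut [] trivial (nd (nat_lit 233) (nat_lit 0) (cs (lf (nat_lit 5) (nat_lit 208)) (nd (nat_lit 255) (nat_lit 0) (cs (lf (nat_lit 42) (nat_lit 188)) (lf (nat_lit 47) (nat_lit 166)))))) q8269 (by decide +kernel)
def q8290 : Q := Q.p (nat_lit 0x300000c0000300000000000000000000000000000000000000000) (nat_lit 0x700001c0000600000cc0003800006000000000000000000000000000000) (nat_lit 9)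
theorem c8290 : QOK q8290 := cut [] trivial (nd (nat_lit 143) (nat_lit 0) (cs (lf (nat_lit 36) (nat_lit 120)) (nd (nat_lit 210) (nat_lit 0) (cs (lf (nat_lit 29) (nat_lit 143)) (nd (nat_lit 211) (nat_lit 0) (cs (lf (nat_lit 18) (nat_lit 186)) (nd (nat_lit 233) (nat_lit 0) (cs (lf (nat_lit 5) (nat_lit 208)) (nd (nat_lit 189) (nat_lit 0) (cs (lf (nat_lit 17) (nat_lit 186)) (nd (nat_lit 144) (nat_lit 0) (cs (lf (nat_lit 35) (nat_lit 121)) (nd (nat_lit 166) (nat_lit 0) (cs (lf (nat_lit 45) (nat_lit 144)) (nd (nat_lit 163) (nat_lit 0) (cs (lf (nat_lit 17) (nat_lit 141)) (lf (nat_lit 12) (nat_lit 140)))))))))))))))))) q8290 (by decide +kernel)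
def q8292 : Q := Q.p (nat_lit 0x300001800000000000000000000000000000000000) (nat_lit 0x4c0006000000000000000000000000000000000000) (nat_lit 3)
theorem c8292 : QOK q8292 := cut [] trivial (nd (nat_lit 145) (nat_lit 0) (cs (lf (nat_lit 6) (nat_lit 142)) (nd (nat_lit 163) (nat_lit 0) (cs (lf (nat_lit 12) (nat_lit 140)) (lf (nat_lit 15) (nat_lit 141)))))) q8292 (by decide +kernel)
def q8311 : Q := Q.p (nat_lit 0x700002c0000000000000000000000000000000000000000000000) (nat_lit 0x180000400000000000000000000000000000000000000000000000) (nat_lit 2)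
theorem c8311 : QOK q8311 := cut [] trivial (nd (nat_lit 211) (nat_lit 0) (cs (lf (nat_lit 18) (nat_lit 186)) (lf (nat_lit 17) (nat_lit 186)))) q8311 (by decide +kernel)
def q8348 : Q := Q.p (nat_lit 0xc0000700000000000000000000000000000000000000000) (nat_lit 0x80000600001880007000004000010000000000000000000000000) (nat_lit 6)
theorem c8348 : QOK q8348 := cut [] trivial (nd (nat_lit 167) (nat_lit 0) (cs (lf (nat_lit 6) (nat_lit 164)) (nd (nat_lit 189) (nat_lit 0) (cs (lf (nat_lit 5) (nat_lit 164)) (nd (nat_lit 145) (nat_lit 0) (cs (lf (nat_lit 17) (nat_lit 142)) (nd (nat_lit 144) (nat_lit 0) (cs (nd (nat_lit 122) (nat_lit 0) (cs (lf (nat_lit 36) (nat_lit 99)) (lf (nat_lit 42) (nat_lit 122)))) (lf (nat_lit 12) (nat_lit 141)))))))))) q8348 (by decide +kernel)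
def q8351 : Q := Q.p (nat_lit 0xc0000780000000000000000000000000000000000000000) (nat_lit 0x38000060000000000000000000000000000000000000000) (nat_lit 3)
theorem c8351 : QOK q8351 := cut [] trivial (nd (nat_lit 184) (nat_lit 0) (cs (lf (nat_lit 13) (nat_lit 162)) (nd (nat_lit 162) (nat_lit 0) (cs (lf (nat_lit 0) (nat_lit 161)) (lf (nat_lit 11) (nat_lit 161)))))) q8351 (by decide +kernel)
def q8352 : Q := Q.p (nat_lit 0x7c0000000000000000000000000000000000000000) (nat_lit 0x380000000000000000000000000000000000) (nat_lit 2)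
theorem c8352 : QOK q8352 := cut [] trivial (nd (nat_lit 140) (nat_lit 0) (cs (lf (nat_lit 23) (nat_lit 139)) (lf (nat_lit 22) (nat_lit 140)))) q8352 (by decide +kernel)
def q8354 : Q := Q.p (nat_lit 0x10000060000780000000000000000000000000000000000000000) (nat_lit 0x300000800000000000000000000000000000) (nat_lit 2)
theorem c8354 : QOK q8354 := cut [] trivial (nd (nat_lit 141) (nat_lit 0) (cs (lf (nat_lit 24) (nat_lit 119)) (lf (nat_lit 23) (nat_lit 140)))) q8354 (by decide +kernel)
def q8367 : Q := Q.p (nat_lit 0x200000d0000200000000000000000000000000000000000000000) (nat_lit 0x40000020000400000000000000000000000000000000000000000) (nat_lit 2)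
theorem c8367 : QOK q8367 := cut [] trivial (nd (nat_lit 185) (nat_lit 0) (cs (lf (nat_lit 5) (nat_lit 184)) (lf (nat_lit 17) (nat_lit 162)))) q8367 (by decide +kernel)
def q8391 : Q := Q.p (nat_lit 0xf0000200001800000000000000000000000000000000000) (nat_lit 0x1000001e0000000000000000000000000000000000000000) (nat_lit 3)
theorem c8391 : QOK q8391 := cut [] trivial (nd (nat_lit 162) (nat_lit 0) (cs (lf (nat_lit 23) (nat_lit 161)) (nd (nat_lit 163) (nat_lit 0) (cs (lf (nat_lit 18) (nat_lit 162)) (lf (nat_lit 14) (nat_lit 140)))))) q8391 (by decide +kernel)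
def q8398 : Q := Q.p (nat_lit 0x300000e0000000000000000000000000000000000000000000000) (nat_lit 0xc0000010000000000000000000000000000000000000000000000) (nat_lit 2)
theorem c8398 : QOK q8398 := cut [] trivial (nd (nat_lit 210) (nat_lit 0) (cs (lf (nat_lit 18) (nat_lit 185)) (lf (nat_lit 0) (nat_lit 184)))) q8398 (by decide +kernel)
def q8399 : Q := Q.p (nat_lit 0x10000040000000001e00000000000000000000000000000000000) (nat_lit 0x100000000000c00000000000000000000000000000) (nat_lit 2)
theorem c8399 : QOK q8399 := cut [] trivial (nd (nat_lit 119) (nat_lit 0) (cs (lf (nat_lit 44) (nat_lit 119)) (lf (nat_lit 23) (nat_lit 118)))) q8399 (by decide +kernel)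
def q8424 : Q := Q.p (nat_lit 0x300001c0000800000000000000000000000000000000000000000) (nat_lit 0x600001000000000000000000000000000000000000000000) (nat_lit 2)
theorem c8424 : QOK q8424 := cut [] trivial (nd (nat_lit 189) (nat_lit 0) (cs (lf (nat_lit 6) (nat_lit 186)) (lf (nat_lit 17) (nat_lit 164)))) q8424 (by decide +kernel)
def q8438 : Q := Q.p (nat_lit 0x20000080000600000a00000000000000000000000000000000000) (nat_lit 0x500001000000000000000000000000000000) (nat_lit 2)
theorem c8438 : QOK q8438 := cut [] trivial (nd (nat_lit 142) (nat_lit 0) (cs (lf (nat_lit 47) (nat_lit 120)) (lf (nat_lit 0) (nat_lit 140)))) q8438 (by decide +kernel)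
def q8448 : Q := Q.p (nat_lit 0x80003800000800000000000000000000000000000) (nat_lit 0x100000400001000000000000000000000000000000) (nat_lit 2)
theorem c8448 : QOK q8448 := cut [] trivial (nd (nat_lit 142) (nat_lit 0) (cs (lf (nat_lit 22) (nat_lit 119)) (lf (nat_lit 10) (nat_lit 141)))) q8448 (by decide +kernel)
def q8461 : Q := Q.p (nat_lit 0x18000040000000000c00000000000000000000000000000000000) (nat_lit 0x2000000000000000100000000002000000000000000000000000000000) (nat_lit 2)
theorem c8461 : QOK q8461 := cut [] trivial (nd (nat_lit 164) (nat_lit 0) (cs (lf (nat_lit 35) (nat_lit 120)) (lf (nat_lit 41) (nat_lit 141)))) q8461 (by decide +kernel)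
def q8489 : Q := Q.p (nat_lit 0x600003800000000000000000000000000000000000) (nat_lit 0x10000c000000000000000000000000000000000000) (nat_lit 2)
theorem c8489 : QOK q8489 := cut [] trivial (nd (nat_lit 146) (nat_lit 0) (cs (lf (nat_lit 6) (nat_lit 143)) (lf (nat_lit 11) (nat_lit 142)))) q8489 (by decide +kernel)
def q8518 : Q := Q.p (nat_lit 0x80000300000f0000000000000000000000000000000000000000000000) (nat_lit 0x1000000e000100000000000000000000000000000000000000000000000) (nat_lit 3)
theorem c8518 : QOK q8518 := cut [] trivial (nd (nat_lit 206) (nat_lit 0) (cs (lf (nat_lit 11) (nat_lit 183)) (nd (nat_lit 207) (nat_lit 0) (cs (lf (nat_lit 5) (nat_lit 206)) (lf (nat_lit 6) (nat_lit 184)))))) q8518 (by decide +kernel)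
def q8544 : Q := Q.p (nat_lit 0xb00001c0000000000000000000000000000000000000000000000) (nat_lit 0x100000600000000000000000000000000000000000000000000000) (nat_lit 2)
theorem c8544 : QOK q8544 := cut [] trivial (nd (nat_lit 189) (nat_lit 0) (cs (lf (nat_lit 6) (nat_lit 186)) (lf (nat_lit 5) (nat_lit 186)))) q8544 (by decide +kernel)
def q8561 : Q := Q.p (nat_lit 0x1000004000010000040000100000000000000000000000000000000000) (nat_lit 0x200000800002000000000000000000000000000000000000000000000000000) (nat_lit 2)
theorem c8561 : QOK q8561 := cut [] trivial (nd (nat_lit 227) (nat_lit 0) (cs (lf (nat_lit 41) (nat_lit 161)) (lf (nat_lit 40) (nat_lit 139)))) q8561 (by decide +kernel)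
def q8576 : Q := Q.p (nat_lit 0x4000010000060000080000000000000000000000000000000000000000) (nat_lit 0x8000000000000000200000800000000000000000000000000000) (nat_lit 2)
theorem c8576 : QOK q8576 := cut [] trivial (nd (nat_lit 141) (nat_lit 0) (cs (lf (nat_lit 24) (nat_lit 119)) (lf (nat_lit 27) (nat_lit 141)))) q8576 (by decide +kernel)
def q8585 : Q := Q.p (nat_lit 0x40000b00003000008000000000000000000000000000000) (nat_lit 0x120000400000000000000020000080000000000000000000) (nat_lit 3)
theorem c8585 : QOK q8585 := cut [] trivial (nd (nat_lit 166) (nat_lit 0) (cs (lf (nat_lit 11) (nat_lit 163)) (nd (nat_lit 101) (nat_lit 0) (cs (lf (nat_lit 41) (nat_lit 100)) (lf (nat_lit 36) (nat_lit 78)))))) q8585 (by decide +kernel)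
def q8608 : Q := Q.p (nat_lit 0x10000040000100001c00000000000000000000000000000000000) (nat_lit 0x8000220001c800000000000000000000000000000) (nat_lit 4)
theorem c8608 : QOK q8608 := cut [] trivial (nd (nat_lit 145) (nat_lit 0) (cs (lf (nat_lit 11) (nat_lit 141)) (nd (nat_lit 123) (nat_lit 0) (cs (lf (nat_lit 17) (nat_lit 120)) (nd (nat_lit 141) (nat_lit 0) (cs (lf (nat_lit 47) (nat_lit 119)) (lf (nat_lit 16) (nat_lit 119)))))))) q8608 (by decide +kernel)
def q8612 : Q := Q.p (nat_lit 0x10000060000100000400000000000000000000000000000000000) (nat_lit 0x2000008000000000000000000001000000000000000000000000000000) (nat_lit 2)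
theorem c8612 : QOK q8612 := cut [] trivial (nd (nat_lit 207) (nat_lit 0) (cs (lf (nat_lit 41) (nat_lit 141)) (lf (nat_lit 36) (nat_lit 119)))) q8612 (by decide +kernel)
def q8656 : Q := Q.p (nat_lit 0x2000008000020000080000200000000000000000000000000000) (nat_lit 0x40000100000400000000000000000000000) (nat_lit 2)
theorem c8656 : QOK q8656 := cut [] trivial (nd (nat_lit 116) (nat_lit 0) (cs (lf (nat_lit 46) (nat_lit 116)) (lf (nat_lit 47) (nat_lit 94)))) q8656 (by decide +kernel)
def q8665 : Q := Q.p (nat_lit 0x10000068000020000000000000000000000000000000000000000) (nat_lit 0x20000010000010000000000000000000000000000000000000000) (nat_lit 2)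
theorem c8665 : QOK q8665 := cut [] trivial (nd (nat_lit 184) (nat_lit 0) (cs (lf (nat_lit 5) (nat_lit 183)) (lf (nat_lit 23) (nat_lit 160)))) q8665 (by decide +kernel)
def q8667 : Q := Q.p (nat_lit 0x2000008000020000080000200000000000000000000000000000) (nat_lit 0x400001000004000000000000000000000000000000000000000000000) (nat_lit 2)
theorem c8667 : QOK q8667 := cut [] trivial (nd (nat_lit 204) (nat_lit 0) (cs (lf (nat_lit 40) (nat_lit 116)) (lf (nat_lit 41) (nat_lit 138)))) q8667 (by decide +kernel)
def q8693 : Q := Q.p (nat_lit 0x100000600001e0000000000000000000000000000000000000000) (nat_lit 0x2000001c000200000000000000000000000000000000000000000) (nat_lit 3)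
theorem c8693 : QOK q8693 := cut [] trivial (nd (nat_lit 183) (nat_lit 0) (cs (lf (nat_lit 11) (nat_lit 160)) (nd (nat_lit 184) (nat_lit 0) (cs (lf (nat_lit 5) (nat_lit 183)) (lf (nat_lit 6) (nat_lit 161)))))) q8693 (by decide +kernel)
def q8698 : Q := Q.p (nat_lit 0x8000060000180000000000000000000000000000000000) (nat_lit 0x2000000000000000000000400001000000000000000000000000) (nat_lit 2)
theorem c8698 : QOK q8698 := cut [] trivial (nd (nat_lit 118) (nat_lit 0) (cs (lf (nat_lit 36) (nat_lit 95)) (lf (nat_lit 30) (nat_lit 117)))) q8698 (by decide +kernel)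
def q8711 : Q := Q.p (nat_lit 0x300003c0000000000000000000000000000000000000000) (nat_lit 0x8000000000000000180000400001000000000000000000000000) (nat_lit 3)
theorem c8711 : QOK q8711 := cut [] trivial (nd (nat_lit 140) (nat_lit 0) (cs (lf (nat_lit 23) (nat_lit 139)) (nd (nat_lit 118) (nat_lit 0) (cs (lf (nat_lit 24) (nat_lit 96)) (lf (nat_lit 29) (nat_lit 118)))))) q8711 (by decide +kernel)
def q8730 : Q := Q.p (nat_lit 0x80000600001c0000000000000000000000000000000000000000) (nat_lit 0x20000000000000002300001c0000000000000000000000000000000000) (nat_lit 4)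
theorem c8730 : QOK q8730 := cut [] trivial (nd (nat_lit 140) (nat_lit 0) (cs (lf (nat_lit 42) (nat_lit 140)) (nd (nat_lit 139) (nat_lit 0) (cs (lf (nat_lit 18) (nat_lit 139)) (nd (nat_lit 161) (nat_lit 0) (cs (lf (nat_lit 23) (nat_lit 138)) (lf (nat_lit 0) (nat_lit 160)))))))) q8730 (by decide +kernel)
def q8735 : Q := Q.p (nat_lit 0x60000180001a0000000000000000000000000000000000000000) (nat_lit 0x400000c0000300000000000000000000000000000) (nat_lit 3)
theorem c8735 : QOK q8735 := cut [] trivial (nd (nat_lit 139) (nat_lit 0) (cs (lf (nat_lit 24) (nat_lit 117)) (nd (nat_lit 138) (nat_lit 0) (cs (lf (nat_lit 47) (nat_lit 116)) (lf (nat_lit 20) (nat_lit 138)))))) q8735 (by decide +kernel)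
def q8748 : Q := Q.p (nat_lit 0x10000060000180000000000000000000000000000000000000000) (nat_lit 0x4000000000000000000000200000800000000000000000000000000000) (nat_lit 2)
theorem c8748 : QOK q8748 := cut [] trivial (nd (nat_lit 141) (nat_lit 0) (cs (lf (nat_lit 24) (nat_lit 119)) (lf (nat_lit 42) (nat_lit 141)))) q8748 (by decide +kernel)
def q8753 : Q := Q.p (nat_lit 0x40000100000f0000200000000000000000000000000000000000000000) (nat_lit 0x60000000000000000800000000000000000000000000000000000) (nat_lit 2)
theorem c8753 : QOK q8753 := cut [] trivial (nd (nat_lit 209) (nat_lit 0) (cs (lf (nat_lit 5) (nat_lit 184)) (lf (nat_lit 36) (nat_lit 142)))) q8753 (by decide +kernel)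
def q8760 : Q := Q.p (nat_lit 0x14000070000040000100000000000000000000000000000000000) (nat_lit 0x1000005000000000000000180000200000800000000000000000000000000000) (nat_lit 4)
theorem c8760 : QOK q8760 := cut [] trivial (nd (nat_lit 141) (nat_lit 0) (cs (lf (nat_lit 35) (nat_lit 118)) (nd (nat_lit 163) (nat_lit 0) (cs (lf (nat_lit 30) (nat_lit 140)) (nd (nat_lit 230) (nat_lit 0) (cs (lf (nat_lit 42) (nat_lit 163)) (lf (nat_lit 45) (nat_lit 141)))))))) q8760 (by decide +kernel)
def q8778 : Q := Q.p (nat_lit 0x2000070000200000000000000000000000000000000000000000) (nat_lit 0x4000080000400000000000000000000000000000000000000000) (nat_lit 2)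
theorem c8778 : QOK q8778 := cut [] trivial (nd (nat_lit 187) (nat_lit 0) (cs (lf (nat_lit 17) (nat_lit 162)) (lf (nat_lit 10) (nat_lit 183)))) q8778 (by decide +kernel)
def q8788 : Q := Q.p (nat_lit 0x20000080000240000800000000000000000000000000000000000) (nat_lit 0x180001600005000000000000000000000000000000) (nat_lit 4)
theorem c8788 : QOK q8788 := cut [] trivial (nd (nat_lit 142) (nat_lit 0) (cs (lf (nat_lit 47) (nat_lit 120)) (nd (nat_lit 144) (nat_lit 0) (cs (lf (nat_lit 35) (nat_lit 121)) (nd (nat_lit 163) (nat_lit 0) (cs (lf (nat_lit 14) (nat_lit 140)) (lf (nat_lit 9) (nat_lit 140)))))))) q8788 (by decide +kernel)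
def q8811 : Q := Q.p (nat_lit 0x70000300000000000000000000000000000000000000000) (nat_lit 0xc80000000000000000000000000000000000000000) (nat_lit 2)
theorem c8811 : QOK q8811 := cut [] trivial (nd (nat_lit 166) (nat_lit 0) (cs (lf (nat_lit 6) (nat_lit 163)) (lf (nat_lit 9) (nat_lit 162)))) q8811 (by decide +kernel)
def q8831 : Q := Q.p (nat_lit 0x7c000040000000000000000000000000000000000000000000000) (nat_lit 0x1c00003000030000000000000000000000000000000000000000000000) (nat_lit 4)
theorem c8831 : QOK q8831 := cut [] trivial (nd (nat_lit 227) (nat_lit 0) (cs (lf (nat_lit 10) (nat_lit 205)) (nd (nat_lit 205) (nat_lit 0) (cs (lf (nat_lit 11) (nat_lit 204)) (nd (nat_lit 185) (nat_lit 0) (cs (lf (nat_lit 23) (nat_lit 184)) (lf (nat_lit 12) (nat_lit 182)))))))) q8831 (by decide +kernel)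
def q8848 : Q := Q.p (nat_lit 0x600001c0000400000000000000000000000000000000000000000) (nat_lit 0x30000800000000000000000000000000000000000000000) (nat_lit 2)
theorem c8848 : QOK q8848 := cut [] trivial (nd (nat_lit 185) (nat_lit 0) (cs (lf (nat_lit 0) (nat_lit 184)) (lf (nat_lit 17) (nat_lit 163)))) q8848 (by decide +kernel)
def q8871 : Q := Q.p (nat_lit 0x80000340000c0000000000000000000000000000000000000000000000) (nat_lit 0x1000000a000000000000000000000000000000000000000000000000000) (nat_lit 2)
theorem c8871 : QOK q8871 := cut [] trivial (nd (nat_lit 207) (nat_lit 0) (cs (lf (nat_lit 12) (nat_lit 183)) (lf (nat_lit 5) (nat_lit 206)))) q8871 (by decide +kernel)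
def q8879 : Q := Q.p (nat_lit 0x300000d0000000000000000000000000000000000000000000000) (nat_lit 0x40000028000000000000000000000000000000000000000000000) (nat_lit 2)
theorem c8879 : QOK q8879 := cut [] trivial (nd (nat_lit 185) (nat_lit 0) (cs (lf (nat_lit 5) (nat_lit 184)) (lf (nat_lit 0) (nat_lit 183)))) q8879 (by decide +kernel)
def q8903 : Q := Q.p (nat_lit 0x10000040000100000400001000000000000000000000000000000000000000000000000000000000) (nat_lit 0x2000008000020000000000000000000000000000000000000000000000000000000000000000000000000) (nat_lit 2)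
theorem c8903 : QOK q8903 := cut [] trivial (nd (nat_lit 315) (nat_lit 0) (cs (lf (nat_lit 41) (nat_lit 249)) (lf (nat_lit 40) (nat_lit 227)))) q8903 (by decide +kernel)
def q8952 : Q := Q.p (nat_lit 0x180000000001e00000000000000000000000000000000000) (nat_lit 0x20000000000c0000000000c000000000000000000000000000000) (nat_lit 3)
theorem c8952 : QOK q8952 := cut [] trivial (nd (nat_lit 122) (nat_lit 0) (cs (lf (nat_lit 17) (nat_lit 119)) (nd (nat_lit 166) (nat_lit 0) (cs (lf (nat_lit 41) (nat_lit 121)) (lf (nat_lit 5) (nat_lit 141)))))) q8952 (by decide +kernel)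
def q8967 : Q := Q.p (nat_lit 0x100000000003c00000000000000000000000000000000000) (nat_lit 0x40000000001c00000000018000020000000000000000000000000) (nat_lit 4)
theorem c8967 : QOK q8967 := cut [] trivial (nd (nat_lit 167) (nat_lit 0) (cs (lf (nat_lit 5) (nat_lit 142)) (nd (nat_lit 123) (nat_lit 0) (cs (lf (nat_lit 17) (nat_lit 120)) (nd (nat_lit 166) (nat_lit 0) (cs (lf (nat_lit 36) (nat_lit 100)) (lf (nat_lit 30) (nat_lit 122)))))))) q8967 (by decide +kernel)
def q8970 : Q := Q.p (nat_lit 0xc0000000003c00000000000000000000000000000000000) (nat_lit 0x20000000000180000000001800000000000000000000000000000) (nat_lit 3)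
theorem c8970 : QOK q8970 := cut [] trivial (nd (nat_lit 120) (nat_lit 0) (cs (nd (nat_lit 164) (nat_lit 0) (cs (lf (nat_lit 11) (nat_lit 141)) (lf (nat_lit 29) (nat_lit 120)))) (lf (nat_lit 23) (nat_lit 119)))) q8970 (by decide +kernel)
def q8979 : Q := Q.p (nat_lit 0x100000000003c00000000000000000000000000000000000) (nat_lit 0x4000000000040000000001c000020000080000000000000000000) (nat_lit 4)
theorem c8979 : QOK q8979 := cut [] trivial (nd (nat_lit 123) (nat_lit 0) (cs (lf (nat_lit 17) (nat_lit 120)) (nd (nat_lit 166) (nat_lit 0) (cs (lf (nat_lit 30) (nat_lit 122)) (nd (nat_lit 101) (nat_lit 0) (cs (lf (nat_lit 36) (nat_lit 78)) (lf (nat_lit 33) (nat_lit 100)))))))) q8979 (by decide +kernel)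
def q8984 : Q := Q.p (nat_lit 0x3c00000000000000000000000000000000000) (nat_lit 0x3800004000003800000000000000000000000000000) (nat_lit 4)
theorem c8984 : QOK q8984 := cut [] trivial (nd (nat_lit 168) (nat_lit 0) (cs (lf (nat_lit 4) (nat_lit 142)) (nd (nat_lit 120) (nat_lit 0) (cs (lf (nat_lit 23) (nat_lit 119)) (nd (nat_lit 146) (nat_lit 0) (cs (lf (nat_lit 5) (nat_lit 143)) (lf (nat_lit 22) (nat_lit 120)))))))) q8984 (by decide +kernel)
def q9006 : Q := Q.p (nat_lit 0x100001c0000000003c00000000000000000000000000000000000) (nat_lit 0x6e0000100004e0000300019c00022000088000000000000000000) (nat_lit 11)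
theorem c9006 : QOK q9006 := cut [] trivial (nd (nat_lit 119) (nat_lit 0) (cs (lf (nat_lit 22) (nat_lit 119)) (nd (nat_lit 141) (nat_lit 0) (cs (lf (nat_lit 23) (nat_lit 118)) (nd (nat_lit 123) (nat_lit 0) (cs (lf (nat_lit 17) (nat_lit 120)) (nd (nat_lit 162) (nat_lit 0) (cs (lf (nat_lit 10) (nat_lit 140)) (nd (nat_lit 140) (nat_lit 0) (cs (lf (nat_lit 11) (nat_lit 139)) (nd (nat_lit 75) (nat_lit 0) (cs (nd (nat_lit 166) (nat_lit 0) (cs (lf (nat_lit 30) (nat_lit 122)) (nd (nat_lit 79) (nat_lit 0) (cs (nd (nat_lit 206) (nat_lit 0) (cs (nd (nat_lit 207) (nat_lit 0) (cs (lf (nat_lit 12) (nat_lit 183)) (lf (nat_lit 15) (nat_lit 184)))) (lf (nat_lit 31) (nat_lit 118)))) (lf (nat_lit 37) (nat_lit 78)))))) (lf (nat_lit 37) (nat_lit 74)))))))))))))) q9006 (by decide +kernel)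
def q9008 : Q := Q.p (nat_lit 0x100000400001800004000000000000000000000000000000) (nat_lit 0x40000000000000000000002000008000000000000000000000000) (nat_lit 2)
theorem c9008 : QOK q9008 := cut [] trivial (nd (nat_lit 121) (nat_lit 0) (cs (lf (nat_lit 42) (nat_lit 121)) (lf (nat_lit 47) (nat_lit 99)))) q9008 (by decide +kernel)
def q9020 : Q := Q.p (nat_lit 0x18000000000100000c000000000000000000000000000000) (nat_lit 0x20000000000400000000000000020000000000000000000000000) (nat_lit 2)
theorem c9020 : QOK q9020 := cut [] trivial (nd (nat_lit 166) (nat_lit 0) (cs (lf (nat_lit 41) (nat_lit 121)) (lf (nat_lit 35) (nat_lit 100)))) q9020 (by decide +kernel)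
def q9026 : Q := Q.p (nat_lit 0x1c00004000000000000000000000000000000) (nat_lit 0x20003a000000000000000000000000000000) (nat_lit 3)
theorem c9026 : QOK q9026 := cut [] trivial (nd (nat_lit 123) (nat_lit 0) (cs (lf (nat_lit 12) (nat_lit 119)) (nd (nat_lit 124) (nat_lit 0) (cs (lf (nat_lit 9) (nat_lit 120)) (lf (nat_lit 6) (nat_lit 121)))))) q9026 (by decide +kernel)
def q9031 : Q := Q.p (nat_lit 0x3c00000000000000000000000000000000000) (nat_lit 0x1dc0000200000000000000000000000000000000000) (nat_lit 4)
theorem c9031 : QOK q9031 := cut [] trivial (nd (nat_lit 163) (nat_lit 0) (cs (lf (nat_lit 10) (nat_lit 141)) (nd (nat_lit 167) (nat_lit 0) (cs (lf (nat_lit 5) (nat_lit 142)) (nd (nat_lit 141) (nat_lit 0) (cs (lf (nat_lit 11) (nat_lit 140)) (lf (nat_lit 4) (nat_lit 141)))))))) q9031 (by decide +kernel)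
def q9036 : Q := Q.p (nat_lit 0x7c00000000000000000000000000000000000) (nat_lit 0x3800000000000000000000000000000000000000000) (nat_lit 2)
theorem c9036 : QOK q9036 := cut [] trivial (nd (nat_lit 168) (nat_lit 0) (cs (lf (nat_lit 5) (nat_lit 143)) (lf (nat_lit 4) (nat_lit 142)))) q9036 (by decide +kernel)
def q9045 : Q := Q.p (nat_lit 0x100003c0000000000000000000000000000000000000000000000) (nat_lit 0x3a0000400000000000000000000000000000000000000000000000) (nat_lit 3)
theorem c9045 : QOK q9045 := cut [] trivial (nd (nat_lit 212) (nat_lit 0) (cs (lf (nat_lit 4) (nat_lit 186)) (nd (nat_lit 190) (nat_lit 0) (cs (lf (nat_lit 10) (nat_lit 186)) (lf (nat_lit 5) (nat_lit 187)))))) q9045 (by decide +kernel)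
def q9049 : Q := Q.p (nat_lit 0x100000c0000100000400000000000000000000000000000000000) (nat_lit 0x20000000000000000200001800002000000000000000000000000) (nat_lit 3)
theorem c9049 : QOK q9049 := cut [] trivial (nd (nat_lit 119) (nat_lit 0) (cs (lf (nat_lit 46) (nat_lit 119)) (nd (nat_lit 120) (nat_lit 0) (cs (lf (nat_lit 47) (nat_lit 97)) (lf (nat_lit 29) (nat_lit 120)))))) q9049 (by decide +kernel)
def q9054 : Q := Q.p (nat_lit 0x7c0000000000000000000000000000000000000000000000) (nat_lit 0x3800000000000000000000000000000000000000000) (nat_lit 2)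
theorem c9054 : QOK q9054 := cut [] trivial (nd (nat_lit 168) (nat_lit 0) (cs (lf (nat_lit 17) (nat_lit 165)) (lf (nat_lit 16) (nat_lit 164)))) q9054 (by decide +kernel)
def q9058 : Q := Q.p (nat_lit 0x100000c0000200000800000000000000000000000000000000000) (nat_lit 0x1000004000020000000000000000000000000000000000000000000000000000) (nat_lit 2)
theorem c9058 : QOK q9058 := cut [] trivial (nd (nat_lit 230) (nat_lit 0) (cs (lf (nat_lit 30) (nat_lit 164)) (lf (nat_lit 39) (nat_lit 142)))) q9058 (by decide +kernel)
def q9059 : Q := Q.p (nat_lit 0x100000c0000200000800000000000000000000000000000000000) (nat_lit 0x1000004000000000000000100000000000000000000000000000000000000000) (nat_lit 2)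
theorem c9059 : QOK q9059 := cut [] trivial (nd (nat_lit 230) (nat_lit 0) (cs (lf (nat_lit 30) (nat_lit 164)) (lf (nat_lit 33) (nat_lit 142)))) q9059 (by decide +kernel)
def q9062 : Q := Q.p (nat_lit 0x80000200000c00001000000000000000000000000000000) (nat_lit 0x100000000000000004000010000000000000000000) (nat_lit 2)
theorem c9062 : QOK q9062 := cut [] trivial (nd (nat_lit 98) (nat_lit 0) (cs (lf (nat_lit 24) (nat_lit 76)) (lf (nat_lit 27) (nat_lit 98)))) q9062 (by decide +kernel)
def q9067 : Q := Q.p (nat_lit 0x80000200001e00000000000000000000000000000000000) (nat_lit 0x2000000000000000000000c000000000000000000000000000000) (nat_lit 2)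
theorem c9067 : QOK q9067 := cut [] trivial (nd (nat_lit 122) (nat_lit 0) (cs (lf (nat_lit 17) (nat_lit 119)) (lf (nat_lit 30) (nat_lit 121)))) q9067 (by decide +kernel)
def q9071 : Q := Q.p (nat_lit 0x10000040000300000800000000000000000000000000000) (nat_lit 0x80000000000000002000008000000000000000000) (nat_lit 2)
theorem c9071 : QOK q9071 := cut [] trivial (nd (nat_lit 97) (nat_lit 0) (cs (lf (nat_lit 36) (nat_lit 74)) (lf (nat_lit 39) (nat_lit 96)))) q9071 (by decide +kernel)
def q9079 : Q := Q.p (nat_lit 0xe00000800000000000000000000000000000) (nat_lit 0x1000001700000000000000000000000000000) (nat_lit 3)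
theorem c9079 : QOK q9079 := cut [] trivial (nd (nat_lit 118) (nat_lit 0) (cs (lf (nat_lit 18) (nat_lit 118)) (nd (nat_lit 117) (nat_lit 0) (cs (lf (nat_lit 0) (nat_lit 116)) (lf (nat_lit 3) (nat_lit 117)))))) q9079 (by decide +kernel)
def q9089 : Q := Q.p (nat_lit 0x7c00000000000000000000000000000000000) (nat_lit 0x38000000000000000000000000000000) (nat_lit 2)
theorem c9089 : QOK q9089 := cut [] trivial (nd (nat_lit 124) (nat_lit 0) (cs (lf (nat_lit 16) (nat_lit 120)) (lf (nat_lit 17) (nat_lit 121)))) q9089 (by decide +kernel)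
def q9102 : Q := Q.p (nat_lit 0x10000040000000001e00000000000000000000000000000000000) (nat_lit 0x200000c0000000000c00000000000000000000000000000) (nat_lit 3)
theorem c9102 : QOK q9102 := cut [] trivial (nd (nat_lit 163) (nat_lit 0) (cs (lf (nat_lit 11) (nat_lit 140)) (nd (nat_lit 119) (nat_lit 0) (cs (lf (nat_lit 27) (nat_lit 119)) (lf (nat_lit 23) (nat_lit 118)))))) q9102 (by decide +kernel)
def q9115 : Q := Q.p (nat_lit 0x10000060000000000f00000400000000000000000000000000000) (nat_lit 0xe0000000006800001000000000000000000000000) (nat_lit 4)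
theorem c9115 : QOK q9115 := cut [] trivial (nd (nat_lit 121) (nat_lit 0) (cs (lf (nat_lit 17) (nat_lit 118)) (nd (nat_lit 162) (nat_lit 0) (cs (lf (nat_lit 11) (nat_lit 139)) (nd (nat_lit 163) (nat_lit 0) (cs (lf (nat_lit 24) (nat_lit 119)) (lf (nat_lit 24) (nat_lit 96)))))))) q9115 (by decide +kernel)
def q9126 : Q := Q.p (nat_lit 0x1e00000000000000000000000000000000000) (nat_lit 0x1ce000618001b800000000000000000000000000000) (nat_lit 8)
theorem c9126 : QOK q9126 := cut [] trivial (nd (nat_lit 162) (nat_lit 0) (cs (lf (nat_lit 10) (nat_lit 140)) (nd (nat_lit 167) (nat_lit 0) (cs (lf (nat_lit 4) (nat_lit 141)) (nd (nat_lit 140) (nat_lit 0) (cs (lf (nat_lit 11) (nat_lit 139)) (nd (nat_lit 145) (nat_lit 0) (cs (lf (nat_lit 5) (nat_lit 142)) (nd (nat_lit 123) (nat_lit 0) (cs (lf (nat_lit 17) (nat_lit 120)) (nd (nat_lit 120) (nat_lit 0) (cs (lf (nat_lit 23) (nat_lit 119)) (nd (nat_lit 121) (nat_lit 0) (cs (lf (nat_lit 18) (nat_lit 120)) (lf (nat_lit 12) (nat_lit 117)))))))))))))))) q9126 (by decide +kernel)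
def q9127 : Q := Q.p (nat_lit 0x1c00003000000000000000000000000000000) (nat_lit 0x6000000800000000000000000000000000000) (nat_lit 2)
theorem c9127 : QOK q9127 := cut [] trivial (nd (nat_lit 145) (nat_lit 0) (cs (lf (nat_lit 23) (nat_lit 119)) (lf (nat_lit 18) (nat_lit 120)))) q9127 (by decide +kernel)
def q9139 : Q := Q.p (nat_lit 0x7c0000000000000000000000000000000000) (nat_lit 0x3800000000000000000000000000000) (nat_lit 2)
theorem c9139 : QOK q9139 := cut [] trivial (nd (nat_lit 120) (nat_lit 0) (cs (lf (nat_lit 17) (nat_lit 117)) (lf (nat_lit 16) (nat_lit 116)))) q9139 (by decide +kernel)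
def q9153 : Q := Q.p (nat_lit 0xf00000000000000000000000000000000000) (nat_lit 0x700030c0003c00000000000000000000000000000) (nat_lit 6)
theorem c9153 : QOK q9153 := cut [] trivial (nd (nat_lit 161) (nat_lit 0) (cs (lf (nat_lit 10) (nat_lit 139)) (nd (nat_lit 139) (nat_lit 0) (cs (lf (nat_lit 11) (nat_lit 138)) (nd (nat_lit 120) (nat_lit 0) (cs (lf (nat_lit 17) (nat_lit 117)) (nd (nat_lit 119) (nat_lit 0) (cs (nd (nat_lit 144) (nat_lit 0) (cs (lf (nat_lit 23) (nat_lit 118)) (lf (nat_lit 18) (nat_lit 119)))) (lf (nat_lit 12) (nat_lit 116)))))))))) q9153 (by decide +kernel)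
def q9159 : Q := Q.p (nat_lit 0x10000040000000000f00000000000000000000000000000000000) (nat_lit 0x200000c00030c0003f00000000000000000000000000000) (nat_lit 7)
theorem c9159 : QOK q9159 := cut [] trivial (nd (nat_lit 117) (nat_lit 0) (cs (lf (nat_lit 22) (nat_lit 117)) (nd (nat_lit 139) (nat_lit 0) (cs (lf (nat_lit 23) (nat_lit 116)) (nd (nat_lit 120) (nat_lit 0) (cs (lf (nat_lit 17) (nat_lit 117)) (nd (nat_lit 119) (nat_lit 0) (cs (lf (nat_lit 12) (nat_lit 116)) (nd (nat_lit 144) (nat_lit 0) (cs (lf (nat_lit 18) (nat_lit 119)) (nd (nat_lit 163) (nat_lit 0) (cs (lf (nat_lit 11) (nat_lit 140)) (lf (nat_lit 27) (nat_lit 119)))))))))))))) q9159 (by decide +kernel)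
def q9174 : Q := Q.p (nat_lit 0x180000600001000000000000000000000000000000) (nat_lit 0x20000000000000000000004000010000000000000000000) (nat_lit 2)
theorem c9174 : QOK q9174 := cut [] trivial (nd (nat_lit 98) (nat_lit 0) (cs (lf (nat_lit 36) (nat_lit 75)) (lf (nat_lit 41) (nat_lit 97)))) q9174 (by decide +kernel)
def q9184 : Q := Q.p (nat_lit 0x40000100000c0000000000800000000000000000000000000000000000) (nat_lit 0x20000000000300000000000000000000000000000000000000000) (nat_lit 2)
theorem c9184 : QOK q9184 := cut [] trivial (nd (nat_lit 165) (nat_lit 0) (cs (lf (nat_lit 39) (nat_lit 142)) (lf (nat_lit 33) (nat_lit 142)))) q9184 (by decide +kernel)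
def q9190 : Q := Q.p (nat_lit 0x100000c0000140000c00000000000000000000000000000000000) (nat_lit 0x20000000000e8000130000c800000000000000000000000000000) (nat_lit 6)
theorem c9190 : QOK q9190 := cut [] trivial (nd (nat_lit 141) (nat_lit 0) (cs (lf (nat_lit 47) (nat_lit 119)) (nd (nat_lit 144) (nat_lit 0) (cs (lf (nat_lit 10) (nat_lit 140)) (nd (nat_lit 122) (nat_lit 0) (cs (lf (nat_lit 17) (nat_lit 119)) (nd (nat_lit 166) (nat_lit 0) (cs (lf (nat_lit 5) (nat_lit 141)) (nd (nat_lit 165) (nat_lit 0) (cs (lf (nat_lit 0) (nat_lit 140)) (lf (nat_lit 30) (nat_lit 121)))))))))))) q9190 (by decide +kernel)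
def q9193 : Q := Q.p (nat_lit 0xc0000100000400001000000000000000000000000000000) (nat_lit 0x8000020000280000000000000004000000000000000000000000) (nat_lit 3)
theorem c9193 : QOK q9193 := cut [] trivial (nd (nat_lit 98) (nat_lit 0) (cs (lf (nat_lit 28) (nat_lit 98)) (nd (nat_lit 185) (nat_lit 0) (cs (lf (nat_lit 41) (nat_lit 119)) (lf (nat_lit 40) (nat_lit 97)))))) q9193 (by decide +kernel)
def q9197 : Q := Q.p (nat_lit 0x100000c0000000000c00000000000000000000000000000000000) (nat_lit 0x300000000002000000000000000000000000000000) (nat_lit 2)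
theorem c9197 : QOK q9197 := cut [] trivial (nd (nat_lit 121) (nat_lit 0) (cs (lf (nat_lit 38) (nat_lit 120)) (lf (nat_lit 32) (nat_lit 120)))) q9197 (by decide +kernel)
def q9201 : Q := Q.p (nat_lit 0x100000f0000000000000000000000000000000000000000000000) (nat_lit 0x60000008000000000000000000000000000000000000000000000) (nat_lit 2)
theorem c9201 : QOK q9201 := cut [] trivial (nd (nat_lit 209) (nat_lit 0) (cs (lf (nat_lit 5) (nat_lit 184)) (lf (nat_lit 0) (nat_lit 183)))) q9201 (by decide +kernel)
def q9207 : Q := Q.p (nat_lit 0x180000400001000004000000000000000000000000000000) (nat_lit 0x200000000008000030000080000000000000000000) (nat_lit 3)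
theorem c9207 : QOK q9207 := cut [] trivial (nd (nat_lit 101) (nat_lit 0) (cs (lf (nat_lit 34) (nat_lit 100)) (nd (nat_lit 100) (nat_lit 0) (cs (lf (nat_lit 35) (nat_lit 78)) (lf (nat_lit 40) (nat_lit 99)))))) q9207 (by decide +kernel)
def q9211 : Q := Q.p (nat_lit 0x400001c0000400001000000000000000000000000000000000000) (nat_lit 0x200003a0000000000000000000000000000000000000000000000000000) (nat_lit 3)
theorem c9211 : QOK q9211 := cut [] trivial (nd (nat_lit 211) (nat_lit 0) (cs (lf (nat_lit 29) (nat_lit 144)) (nd (nat_lit 212) (nat_lit 0) (cs (lf (nat_lit 18) (nat_lit 187)) (lf (nat_lit 21) (nat_lit 186)))))) q9211 (by decide +kernel)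
def q9217 : Q := Q.p (nat_lit 0x180000400001000000000000000000000000000000000000) (nat_lit 0x2000000000000000000000e0000380000a0000000000000000000) (nat_lit 5)
theorem c9217 : QOK q9217 := cut [] trivial (nd (nat_lit 122) (nat_lit 0) (cs (lf (nat_lit 41) (nat_lit 121)) (nd (nat_lit 99) (nat_lit 0) (cs (lf (nat_lit 46) (nat_lit 99)) (nd (nat_lit 101) (nat_lit 0) (cs (lf (nat_lit 34) (nat_lit 100)) (nd (nat_lit 100) (nat_lit 0) (cs (lf (nat_lit 47) (nat_lit 77)) (lf (nat_lit 35) (nat_lit 78)))))))))) q9217 (by decide +kernel)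
def q9225 : Q := Q.p (nat_lit 0x180000400001000000000000000000000000000000000000) (nat_lit 0x20000000000200000000006000018000020000000000000000000) (nat_lit 4)
theorem c9225 : QOK q9225 := cut [] trivial (nd (nat_lit 122) (nat_lit 0) (cs (lf (nat_lit 41) (nat_lit 121)) (nd (nat_lit 99) (nat_lit 0) (cs (lf (nat_lit 46) (nat_lit 99)) (nd (nat_lit 100) (nat_lit 0) (cs (lf (nat_lit 47) (nat_lit 77)) (lf (nat_lit 40) (nat_lit 99)))))))) q9225 (by decide +kernel)
def q9232 : Q := Q.p (nat_lit 0x400001c0000000000000000000000000000000000000000000000) (nat_lit 0xae000030000000000000000000000000000000000000000000000) (nat_lit 4)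
theorem c9232 : QOK q9232 := cut [] trivial (nd (nat_lit 185) (nat_lit 0) (cs (lf (nat_lit 5) (nat_lit 185)) (nd (nat_lit 206) (nat_lit 0) (cs (lf (nat_lit 10) (nat_lit 184)) (nd (nat_lit 184) (nat_lit 0) (cs (lf (nat_lit 11) (nat_lit 183)) (lf (nat_lit 4) (nat_lit 184)))))))) q9232 (by decide +kernel)
def q9233 : Q := Q.p (nat_lit 0x100000c0000200000800000000000000000000000000000000000) (nat_lit 0x4000020000000000100000000000000000000000000000000000000000) (nat_lit 2)
theorem c9233 : QOK q9233 := cut [] trivial (nd (nat_lit 230) (nat_lit 0) (cs (lf (nat_lit 39) (nat_lit 142)) (lf (nat_lit 33) (nat_lit 142)))) q9233 (by decide +kernel)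
def q9235 : Q := Q.p (nat_lit 0x180000400001000008000000000000000000000000000000) (nat_lit 0x20000000000000000000004000020000000000000000000000000) (nat_lit 2)
theorem c9235 : QOK q9235 := cut [] trivial (nd (nat_lit 122) (nat_lit 0) (cs (lf (nat_lit 41) (nat_lit 121)) (lf (nat_lit 35) (nat_lit 100)))) q9235 (by decide +kernel)
def q9253 : Q := Q.p (nat_lit 0x3e0000000000000000000000000000000000000000000000) (nat_lit 0x1c0000000000000000000000000000000000000000000000000000) (nat_lit 2)
theorem c9253 : QOK q9253 := cut [] trivial (nd (nat_lit 211) (nat_lit 0) (cs (lf (nat_lit 5) (nat_lit 186)) (lf (nat_lit 4) (nat_lit 185)))) q9253 (by decide +kernel)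
def q9258 : Q := Q.p (nat_lit 0x40000300000f0000000000000000000000000000000000000000000000) (nat_lit 0x600000800000000000000000000000000000000000) (nat_lit 2)
theorem c9258 : QOK q9258 := cut [] trivial (nd (nat_lit 165) (nat_lit 0) (cs (lf (nat_lit 17) (nat_lit 162)) (lf (nat_lit 36) (nat_lit 142)))) q9258 (by decide +kernel)
def q9273 : Q := Q.p (nat_lit 0xe0000600000000000000000000000000000000000000000) (nat_lit 0x1900000000000000000000000000000000000000000) (nat_lit 2)
theorem c9273 : QOK q9273 := cut [] trivial (nd (nat_lit 167) (nat_lit 0) (cs (lf (nat_lit 6) (nat_lit 164)) (lf (nat_lit 9) (nat_lit 163)))) q9273 (by decide +kernel)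
def q9280 : Q := Q.p (nat_lit 0x10000380000200000000000000000000000000000000000000000) (nat_lit 0x20000400000100000000000000000000000000000000000000000) (nat_lit 2)
theorem c9280 : QOK q9280 := cut [] trivial (nd (nat_lit 190) (nat_lit 0) (cs (lf (nat_lit 10) (nat_lit 186)) (lf (nat_lit 23) (nat_lit 164)))) q9280 (by decide +kernel)
def q9291 : Q := Q.p (nat_lit 0xe0000600000000000000000000000000000000000000000) (nat_lit 0x100001800000000000000000000000000000000000000000) (nat_lit 2)
theorem c9291 : QOK q9291 := cut [] trivial (nd (nat_lit 167) (nat_lit 0) (cs (lf (nat_lit 6) (nat_lit 164)) (lf (nat_lit 15) (nat_lit 163)))) q9291 (by decide +kernel)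
def q9350 : Q := Q.p (nat_lit 0x200000c0000200000400000000000000000000000000000000000000000) (nat_lit 0x8000000000000000100000000001000000000000000000000000000000000000) (nat_lit 2)
theorem c9350 : QOK q9350 := cut [] trivial (nd (nat_lit 188) (nat_lit 0) (cs (lf (nat_lit 24) (nat_lit 144)) (lf (nat_lit 42) (nat_lit 166)))) q9350 (by decide +kernel)
def q9377 : Q := Q.p (nat_lit 0x2000078000000000100000000000000000000000000000000000000000) (nat_lit 0x800000000000000070000000000400000000000000000000000000000000000) (nat_lit 3)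
theorem c9377 : QOK q9377 := cut [] trivial (nd (nat_lit 185) (nat_lit 0) (cs (lf (nat_lit 23) (nat_lit 184)) (nd (nat_lit 186) (nat_lit 0) (cs (lf (nat_lit 30) (nat_lit 163)) (lf (nat_lit 36) (nat_lit 141)))))) q9377 (by decide +kernel)
def q9391 : Q := Q.p (nat_lit 0x7c0000000000000000000000000000000000000000) (nat_lit 0x3800000000000000000000000000000000000) (nat_lit 2)
theorem c9391 : QOK q9391 := cut [] trivial (nd (nat_lit 144) (nat_lit 0) (cs (lf (nat_lit 17) (nat_lit 141)) (lf (nat_lit 16) (nat_lit 140)))) q9391 (by decide +kernel)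
def q9406 : Q := Q.p (nat_lit 0x780000000000000000000000000000000000000000) (nat_lit 0xe0000380001ff00000000000000000000000000000000000) (nat_lit 8)
theorem c9406 : QOK q9406 := cut [] trivial (nd (nat_lit 141) (nat_lit 0) (cs (lf (nat_lit 23) (nat_lit 140)) (nd (nat_lit 144) (nat_lit 0) (cs (lf (nat_lit 17) (nat_lit 141)) (nd (nat_lit 167) (nat_lit 0) (cs (nd (nat_lit 190) (nat_lit 0) (cs (lf (nat_lit 4) (nat_lit 164)) (nd (nat_lit 168) (nat_lit 0) (cs (lf (nat_lit 5) (nat_lit 165)) (nd (nat_lit 169) (nat_lit 0) (cs (nd (nat_lit 147) (nat_lit 0) (cs (lf (nat_lit 17) (nat_lit 144)) (lf (nat_lit 16) (nat_lit 143)))) (lf (nat_lit 23) (nat_lit 143)))))))) (lf (nat_lit 22) (nat_lit 141)))))))) q9406 (by decide +kernel)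
def q9412 : Q := Q.p (nat_lit 0x2000008000060000000000400000000000000000000000000000000000000000) (nat_lit 0x10000000000100000000001000000000000000000000000000000000000) (nat_lit 2)
theorem c9412 : QOK q9412 := cut [] trivial (nd (nat_lit 188) (nat_lit 0) (cs (lf (nat_lit 36) (nat_lit 143)) (lf (nat_lit 39) (nat_lit 165)))) q9412 (by decide +kernel)
def q9413 : Q := Q.p (nat_lit 0x2000008000060000000000400000000000000000000000000000000000000000) (nat_lit 0x10000000000180000000000000000000000000000000000000000000000) (nat_lit 2)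
theorem c9413 : QOK q9413 := cut [] trivial (nd (nat_lit 188) (nat_lit 0) (cs (lf (nat_lit 39) (nat_lit 165)) (lf (nat_lit 33) (nat_lit 165)))) q9413 (by decide +kernel)
def q9417 : Q := Q.p (nat_lit 0x800002c000080000200000000000000000000000000000000000000000000000) (nat_lit 0x4000010000010000000000000000000000000000000000000000000000000000000000) (nat_lit 2)
theorem c9417 : QOK q9417 := cut [] trivial (nd (nat_lit 256) (nat_lit 0) (cs (lf (nat_lit 29) (nat_lit 189)) (lf (nat_lit 2) (nat_lit 230)))) q9417 (by decide +kernel)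
def q9426 : Q := Q.p (nat_lit 0x3e0000000000000000000000000000000000000000000000000000) (nat_lit 0x1c0000000000000000000000000000000000000000000000000000000000) (nat_lit 2)
theorem c9426 : QOK q9426 := cut [] trivial (nd (nat_lit 235) (nat_lit 0) (cs (lf (nat_lit 5) (nat_lit 210)) (lf (nat_lit 4) (nat_lit 209)))) q9426 (by decide +kernel)
def q9435 : Q := Q.p (nat_lit 0x7c0000000000000000000000000000000000000000) (nat_lit 0x38000000000000000000000000000000000000000000000) (nat_lit 2)
theorem c9435 : QOK q9435 := cut [] trivial (nd (nat_lit 184) (nat_lit 0) (cs (lf (nat_lit 11) (nat_lit 161)) (lf (nat_lit 10) (nat_lit 162)))) q9435 (by decide +kernel)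
def q9467 : Q := Q.p (nat_lit 0x200000c000070000000000000000000000000000000000000000000000000000) (nat_lit 0x200000800000000000000000000100000000000000000000000000000000000000000000000) (nat_lit 2)
theorem c9467 : QOK q9467 := cut [] trivial (nd (nat_lit 275) (nat_lit 0) (cs (lf (nat_lit 42) (nat_lit 208)) (lf (nat_lit 35) (nat_lit 187)))) q9467 (by decide +kernel)
def q9488 : Q := Q.p (nat_lit 0x70000080000200000000000000000000000000000000000000000) (nat_lit 0x14000000000000000000000800000000000000000000000000000000000) (nat_lit 2)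
theorem c9488 : QOK q9488 := cut [] trivial (nd (nat_lit 143) (nat_lit 0) (cs (lf (nat_lit 29) (nat_lit 143)) (lf (nat_lit 41) (nat_lit 142)))) q9488 (by decide +kernel)
def q9495 : Q := Q.p (nat_lit 0x5000034000010000040000000000000000000000000000000000000000) (nat_lit 0x200002800000000000000000000000000000000000000000000000000000000) (nat_lit 2)
theorem c9495 : QOK q9495 := cut [] trivial (nd (nat_lit 227) (nat_lit 0) (cs (lf (nat_lit 14) (nat_lit 205)) (lf (nat_lit 41) (nat_lit 161)))) q9495 (by decide +kernel)
def q9507 : Q := Q.p (nat_lit 0xc0000300000e0000000000000000000000000000000000000000000000) (nat_lit 0x18000060001380000e000018000060000000000000000000000000000000000000000) (nat_lit 8)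
theorem c9507 : QOK q9507 := cut [] trivial (nd (nat_lit 184) (nat_lit 0) (cs (lf (nat_lit 0) (nat_lit 183)) (nd (nat_lit 161) (nat_lit 0) (cs (lf (nat_lit 22) (nat_lit 161)) (nd (nat_lit 206) (nat_lit 0) (cs (lf (nat_lit 11) (nat_lit 183)) (nd (nat_lit 207) (nat_lit 0) (cs (lf (nat_lit 5) (nat_lit 206)) (nd (nat_lit 228) (nat_lit 0) (cs (lf (nat_lit 11) (nat_lit 205)) (nd (nat_lit 250) (nat_lit 0) (cs (lf (nat_lit 30) (nat_lit 184)) (nd (nat_lit 249) (nat_lit 0) (cs (lf (nat_lit 41) (nat_lit 183)) (lf (nat_lit 8) (nat_lit 227)))))))))))))))) q9507 (by decide +kernel)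
def q9509 : Q := Q.p (nat_lit 0x1c000030000000000000000000000000000000000000000000000000000) (nat_lit 0x60000008000000000000000000000000000000000000000000000000000) (nat_lit 2)
theorem c9509 : QOK q9509 := cut [] trivial (nd (nat_lit 233) (nat_lit 0) (cs (lf (nat_lit 18) (nat_lit 208)) (lf (nat_lit 23) (nat_lit 207)))) q9509 (by decide +kernel)
def q9525 : Q := Q.p (nat_lit 0x8000034000010000000000000000000000000000000000000000000000) (nat_lit 0x10000008000008000000000000000000000000000000000000000000000) (nat_lit 2)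
theorem c9525 : QOK q9525 := cut [] trivial (nd (nat_lit 207) (nat_lit 0) (cs (lf (nat_lit 23) (nat_lit 183)) (lf (nat_lit 5) (nat_lit 206)))) q9525 (by decide +kernel)
def q9550 : Q := Q.p (nat_lit 0x340000e0000000000000000000000000000000000000000000000) (nat_lit 0x2000018000000000000000000000000000000000000000000000) (nat_lit 2)
theorem c9550 : QOK q9550 := cut [] trivial (nd (nat_lit 184) (nat_lit 0) (cs (lf (nat_lit 0) (nat_lit 183)) (lf (nat_lit 11) (nat_lit 183)))) q9550 (by decide +kernel)
def q9591 : Q := Q.p (nat_lit 0x300001c0000100000400000000000000000000000000000000000) (nat_lit 0x4000000000020001e0000780001e000020000000000000000000000000) (nat_lit 8)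
theorem c9591 : QOK q9591 := cut [] trivial (nd (nat_lit 143) (nat_lit 0) (cs (lf (nat_lit 35) (nat_lit 120)) (nd (nat_lit 165) (nat_lit 0) (cs (lf (nat_lit 30) (nat_lit 142)) (nd (nat_lit 144) (nat_lit 0) (cs (lf (nat_lit 35) (nat_lit 121)) (nd (nat_lit 145) (nat_lit 0) (cs (lf (nat_lit 6) (nat_lit 142)) (nd (nat_lit 123) (nat_lit 0) (cs (lf (nat_lit 17) (nat_lit 120)) (nd (nat_lit 167) (nat_lit 0) (cs (lf (nat_lit 5) (nat_lit 142)) (nd (nat_lit 166) (nat_lit 0) (cs (lf (nat_lit 12) (nat_lit 163)) (lf (nat_lit 36) (nat_lit 100)))))))))))))))) q9591 (by decide +kernel)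
def q9613 : Q := Q.p (nat_lit 0x30000080000000000c00000000000000000000000000000000000) (nat_lit 0x4000000000000000200000000001000000000000000000000000000000) (nat_lit 2)
theorem c9613 : QOK q9613 := cut [] trivial (nd (nat_lit 165) (nat_lit 0) (cs (lf (nat_lit 47) (nat_lit 120)) (lf (nat_lit 41) (nat_lit 142)))) q9613 (by decide +kernel)
def q9657 : Q := Q.p (nat_lit 0x28000070000000000000000000000000000000000000000000000000000) (nat_lit 0x50000008000000000000000000000000000000000000000000000000000) (nat_lit 2)
theorem c9657 : QOK q9657 := cut [] trivial (nd (nat_lit 232) (nat_lit 0) (cs (lf (nat_lit 18) (nat_lit 208)) (lf (nat_lit 0) (nat_lit 207)))) q9657 (by decide +kernel)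
def q9666 : Q := Q.p (nat_lit 0x800002000008000050000000000000000000000000000000000000000000000000000) (nat_lit 0x200000000000000014000000000000000000000000000000000000000000000000000000000) (nat_lit 2)
theorem c9666 : QOK q9666 := cut [] trivial (nd (nat_lit 297) (nat_lit 0) (cs (lf (nat_lit 46) (nat_lit 208)) (lf (nat_lit 34) (nat_lit 209)))) q9666 (by decide +kernel)
def q9679 : Q := Q.p (nat_lit 0x2000018000078000040000000000000000000000000000000000000000000000) (nat_lit 0x200001c00007000000000030000000000000000000000000000000000000000000000) (nat_lit 5)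
theorem c9679 : QOK q9679 := cut [] trivial (nd (nat_lit 184) (nat_lit 0) (cs (lf (nat_lit 22) (nat_lit 184)) (nd (nat_lit 229) (nat_lit 0) (cs (lf (nat_lit 11) (nat_lit 206)) (nd (nat_lit 251) (nat_lit 0) (cs (lf (nat_lit 30) (nat_lit 185)) (nd (nat_lit 250) (nat_lit 0) (cs (lf (nat_lit 8) (nat_lit 228)) (lf (nat_lit 14) (nat_lit 228)))))))))) q9679 (by decide +kernel)
def q9708 : Q := Q.p (nat_lit 0x800002000008000010000040000000000000000000000000000000000000000000000) (nat_lit 0x1000004000000000000000100000000000000000000000000000000000000000) (nat_lit 2)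
theorem c9708 : QOK q9708 := cut [] trivial (nd (nat_lit 230) (nat_lit 0) (cs (lf (nat_lit 27) (nat_lit 186)) (lf (nat_lit 24) (nat_lit 164)))) q9708 (by decide +kernel)
def q9715 : Q := Q.p (nat_lit 0x10000060000080000000000000000000000000000000000000000) (nat_lit 0x1000004000008000000000000000200000800000000000000000000000000000) (nat_lit 3)
theorem c9715 : QOK q9715 := cut [] trivial (nd (nat_lit 141) (nat_lit 0) (cs (lf (nat_lit 24) (nat_lit 119)) (nd (nat_lit 230) (nat_lit 0) (cs (lf (nat_lit 42) (nat_lit 163)) (lf (nat_lit 27) (nat_lit 141)))))) q9715 (by decide +kernel)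
def q9732 : Q := Q.p (nat_lit 0x10000070000100000400000000000000000000000000000000000000000) (nat_lit 0x8000020000008000000000000000000000000000000000000000000000000000) (nat_lit 2)
theorem c9732 : QOK q9732 := cut [] trivial (nd (nat_lit 233) (nat_lit 0) (cs (lf (nat_lit 0) (nat_lit 207)) (lf (nat_lit 29) (nat_lit 166)))) q9732 (by decide +kernel)
def q9757 : Q := Q.p (nat_lit 0xf0000040000000000000000000000000000000000000000000000) (nat_lit 0xe0000100000080000000000000000000000000000000000000000000000) (nat_lit 3)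
theorem c9757 : QOK q9757 := cut [] trivial (nd (nat_lit 234) (nat_lit 0) (cs (lf (nat_lit 4) (nat_lit 208)) (nd (nat_lit 212) (nat_lit 0) (cs (lf (nat_lit 5) (nat_lit 209)) (lf (nat_lit 22) (nat_lit 186)))))) q9757 (by decide +kernel)
def q9763 : Q := Q.p (nat_lit 0xa000070000000000000000000000000000000000000000000000000000) (nat_lit 0x5000008000000000000000000000000000000000000000000000000000) (nat_lit 2)
theorem c9763 : QOK q9763 := cut [] trivial (nd (nat_lit 228) (nat_lit 0) (cs (lf (nat_lit 9) (nat_lit 206)) (lf (nat_lit 14) (nat_lit 206)))) q9763 (by decide +kernel)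
def q9769 : Q := Q.p (nat_lit 0x1f00000000000000000000000000000000000000000000000000000000000000) (nat_lit 0xe00000000000000000000000000000000000000000000000000000000) (nat_lit 2)
theorem c9769 : QOK q9769 := cut [] trivial (nd (nat_lit 226) (nat_lit 0) (cs (lf (nat_lit 22) (nat_lit 226)) (lf (nat_lit 23) (nat_lit 225)))) q9769 (by decide +kernel)
def q9779 : Q := Q.p (nat_lit 0x380000c000000000000000000000000000000000000000000000000000000000) (nat_lit 0x600010000000000000000000000000000000000000000000000000000000000) (nat_lit 2)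
theorem c9779 : QOK q9779 := cut [] trivial (nd (nat_lit 250) (nat_lit 0) (cs (lf (nat_lit 17) (nat_lit 228)) (lf (nat_lit 12) (nat_lit 227)))) q9779 (by decide +kernel)
def q9794 : Q := Q.p (nat_lit 0x1c0000b0000000000000000000000000000000000000000000000000000) (nat_lit 0x60000100000000000000000000000000000000000000000000000000000) (nat_lit 2)
theorem c9794 : QOK q9794 := cut [] trivial (nd (nat_lit 233) (nat_lit 0) (cs (lf (nat_lit 18) (nat_lit 208)) (lf (nat_lit 17) (nat_lit 208)))) q9794 (by decide +kernel)
def q9839 : Q := Q.p (nat_lit 0x8000020000080000200000800000000000000000000000000000) (nat_lit 0x400001000004000000000000000000000000) (nat_lit 2)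
theorem c9839 : QOK q9839 := cut [] trivial (nd (nat_lit 120) (nat_lit 0) (cs (lf (nat_lit 35) (nat_lit 97)) (lf (nat_lit 34) (nat_lit 119)))) q9839 (by decide +kernel)
def q9858 : Q := Q.p (nat_lit 0x200000800002000018000000000000000000000000000000000000000000000000000) (nat_lit 0x40000180000400000000004000000000000000000000000000000000000000000000000000000000) (nat_lit 3)
theorem c9858 : QOK q9858 := cut [] trivial (nd (nat_lit 296) (nat_lit 0) (cs (nd (nat_lit 295) (nat_lit 0) (cs (lf (nat_lit 34) (nat_lit 207)) (lf (nat_lit 29) (nat_lit 229)))) (lf (nat_lit 28) (nat_lit 207)))) q9858 (by decide +kernel)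
def q9863 : Q := Q.p (nat_lit 0x8000020000080000200000800000000000000000000000000000000000000000000000000000000000000) (nat_lit 0x1000004000010000000000000000000000000000000000000000000000000000000000000000000000000000000) (nat_lit 2)
theorem c9863 : QOK q9863 := cut [] trivial (nd (nat_lit 338) (nat_lit 0) (cs (lf (nat_lit 41) (nat_lit 272)) (lf (nat_lit 40) (nat_lit 250)))) q9863 (by decide +kernel)
def q9887 : Q := Q.p (nat_lit 0xf0000000000000000000000000000000000000000000000000000) (nat_lit 0x8000770000000000000000000000000000000000000000000000) (nat_lit 4)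
theorem c9887 : QOK q9887 := cut [] trivial (nd (nat_lit 185) (nat_lit 0) (cs (lf (nat_lit 22) (nat_lit 185)) (nd (nat_lit 189) (nat_lit 0) (cs (lf (nat_lit 17) (nat_lit 186)) (nd (nat_lit 207) (nat_lit 0) (cs (lf (nat_lit 16) (nat_lit 185)) (lf (nat_lit 23) (nat_lit 184)))))))) q9887 (by decide +kernel)
def q9894 : Q := Q.p (nat_lit 0x30000080000200000800000000000000000000000000000000000) (nat_lit 0x40000000000400003000004000000000000000000000000) (nat_lit 3)
theorem c9894 : QOK q9894 := cut [] trivial (nd (nat_lit 120) (nat_lit 0) (cs (lf (nat_lit 46) (nat_lit 120)) (nd (nat_lit 121) (nat_lit 0) (cs (lf (nat_lit 47) (nat_lit 98)) (lf (nat_lit 40) (nat_lit 120)))))) q9894 (by decide +kernel)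
def q9902 : Q := Q.p (nat_lit 0xf0000080000200000800000000000000000000000000000000000) (nat_lit 0x60000000000000002000000000000000000000000000000) (nat_lit 2)
theorem c9902 : QOK q9902 := cut [] trivial (nd (nat_lit 186) (nat_lit 0) (cs (lf (nat_lit 23) (nat_lit 185)) (lf (nat_lit 36) (nat_lit 120)))) q9902 (by decide +kernel)
def q9907 : Q := Q.p (nat_lit 0x7c00000000000000000000000000000000000) (nat_lit 0x3800000000000000000000000000000) (nat_lit 2)
theorem c9907 : QOK q9907 := cut [] trivial (nd (nat_lit 120) (nat_lit 0) (cs (lf (nat_lit 23) (nat_lit 119)) (lf (nat_lit 22) (nat_lit 120)))) q9907 (by decide +kernel)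
def q9913 : Q := Q.p (nat_lit 0x2000007000002000000000000000000000000000000) (nat_lit 0x4000008000004000000000000000000000000000000) (nat_lit 2)
theorem c9913 : QOK q9913 := cut [] trivial (nd (nat_lit 147) (nat_lit 0) (cs (lf (nat_lit 5) (nat_lit 144)) (lf (nat_lit 22) (nat_lit 121)))) q9913 (by decide +kernel)
def q9934 : Q := Q.p (nat_lit 0x20000080000200000800002000000000000000000000000000000000000) (nat_lit 0x1000004000010000000000000000000000000000000) (nat_lit 2)
theorem c9934 : QOK q9934 := cut [] trivial (nd (nat_lit 146) (nat_lit 0) (cs (lf (nat_lit 34) (nat_lit 145)) (lf (nat_lit 35) (nat_lit 123)))) q9934 (by decide +kernel)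
def q9941 : Q := Q.p (nat_lit 0xc0000200000800001000000000000000000000000000000000000) (nat_lit 0x10000000000000000000002000004000000000000000000000000000000) (nat_lit 2)
theorem c9941 : QOK q9941 := cut [] trivial (nd (nat_lit 145) (nat_lit 0) (cs (lf (nat_lit 41) (nat_lit 144)) (lf (nat_lit 47) (nat_lit 122)))) q9941 (by decide +kernel)
def q9948 : Q := Q.p (nat_lit 0xf0000080000000000000000000000000000000000000000000000) (nat_lit 0x100000060000000000000000000000000000000000000000000000) (nat_lit 2)
theorem c9948 : QOK q9948 := cut [] trivial (nd (nat_lit 186) (nat_lit 0) (cs (lf (nat_lit 18) (nat_lit 186)) (lf (nat_lit 23) (nat_lit 185)))) q9948 (by decide +kernel)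
def q9959 : Q := Q.p (nat_lit 0x80000200000800002000008000000000000000000000000000000) (nat_lit 0x1000004000010000000000000000000000000) (nat_lit 2)
theorem c9959 : QOK q9959 := cut [] trivial (nd (nat_lit 122) (nat_lit 0) (cs (lf (nat_lit 47) (nat_lit 100)) (lf (nat_lit 46) (nat_lit 122)))) q9959 (by decide +kernel)
def q9964 : Q := Q.p (nat_lit 0xc00002c0000800000000000000000000000000000000000000000) (nat_lit 0x10000000000100001000002000008000000000000000000000000000000) (nat_lit 3)
theorem c9964 : QOK q9964 := cut [] trivial (nd (nat_lit 145) (nat_lit 0) (cs (lf (nat_lit 41) (nat_lit 144)) (nd (nat_lit 188) (nat_lit 0) (cs (lf (nat_lit 17) (nat_lit 164)) (lf (nat_lit 36) (nat_lit 122)))))) q9964 (by decide +kernel)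
def q9970 : Q := Q.p (nat_lit 0x20000280000a0000280000000000000000000000000000000000000000000000) (nat_lit 0x100000e00001000000000000000000000000000000000000) (nat_lit 3)
theorem c9970 : QOK q9970 := cut [] trivial (nd (nat_lit 166) (nat_lit 0) (cs (lf (nat_lit 34) (nat_lit 165)) (nd (nat_lit 144) (nat_lit 0) (cs (lf (nat_lit 45) (nat_lit 144)) (lf (nat_lit 33) (nat_lit 143)))))) q9970 (by decide +kernel)
def q10016 : Q := Q.p (nat_lit 0x10000040000b0000040000000000000000000000000000000000000000000000) (nat_lit 0x40000020000080000000000000000000000000000000000000000) (nat_lit 2)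
theorem c10016 : QOK q10016 := cut [] trivial (nd (nat_lit 185) (nat_lit 0) (cs (lf (nat_lit 47) (nat_lit 163)) (lf (nat_lit 19) (nat_lit 185)))) q10016 (by decide +kernel)
def q10046 : Q := Q.p (nat_lit 0x200000c0000f000000000000000000000000000000000000000000000000000000000) (nat_lit 0x6000010000000000000000000000000000000000000000000000) (nat_lit 2)
theorem c10046 : QOK q10046 := cut [] trivial (nd (nat_lit 206) (nat_lit 0) (cs (lf (nat_lit 24) (nat_lit 184)) (lf (nat_lit 23) (nat_lit 205)))) q10046 (by decide +kernel)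
def q10061 : Q := Q.p (nat_lit 0x200001800004000010000000000000000000000000000000000000000000000000000) (nat_lit 0x20000080000000000000002000000000000000000000000000000000000000000000000000000000) (nat_lit 2)
theorem c10061 : QOK q10061 := cut [] trivial (nd (nat_lit 295) (nat_lit 0) (cs (lf (nat_lit 33) (nat_lit 207)) (lf (nat_lit 30) (nat_lit 229)))) q10061 (by decide +kernel)
def q10079 : Q := Q.p (nat_lit 0x30000380000000000000000000000000000000000000000000000) (nat_lit 0xc000040000000000000000000000000000000000000000000000) (nat_lit 2)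
theorem c10079 : QOK q10079 := cut [] trivial (nd (nat_lit 207) (nat_lit 0) (cs (lf (nat_lit 12) (nat_lit 184)) (lf (nat_lit 9) (nat_lit 185)))) q10079 (by decide +kernel)
def q10104 : Q := Q.p (nat_lit 0x180000e0000400000000000000000000000000000000000000000000000) (nat_lit 0x300000800000000000000000000000000000000000000000000000) (nat_lit 2)
theorem c10104 : QOK q10104 := cut [] trivial (nd (nat_lit 212) (nat_lit 0) (cs (lf (nat_lit 6) (nat_lit 209)) (lf (nat_lit 17) (nat_lit 187)))) q10104 (by decide +kernel)
def q10110 : Q := Q.p (nat_lit 0x3000008000038000020000000000000000000000000000000000000000000000) (nat_lit 0x400000000004000000000080000000000000000000000000000000000000000000000) (nat_lit 2)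
theorem c10110 : QOK q10110 := cut [] trivial (nd (nat_lit 274) (nat_lit 0) (cs (lf (nat_lit 36) (nat_lit 186)) (lf (nat_lit 44) (nat_lit 185)))) q10110 (by decide +kernel)
def q10159 : Q := Q.p (nat_lit 0x200000f0000000000400000000000000000000000000000000000000000) (nat_lit 0x2000008000010000000000160000000001000000000000000000000000000000000000) (nat_lit 4)
theorem c10159 : QOK q10159 := cut [] trivial (nd (nat_lit 185) (nat_lit 0) (cs (lf (nat_lit 22) (nat_lit 185)) (nd (nat_lit 188) (nat_lit 0) (cs (lf (nat_lit 24) (nat_lit 144)) (nd (nat_lit 255) (nat_lit 0) (cs (lf (nat_lit 42) (nat_lit 188)) (lf (nat_lit 27) (nat_lit 166)))))))) q10159 (by decide +kernel)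
def q10171 : Q := Q.p (nat_lit 0x200000c0000200000400000000000000000000000000000000000000000) (nat_lit 0x100001c00007000018000010000000000100000000000000000000000000000000000000000000000) (nat_lit 6)
theorem c10171 : QOK q10171 := cut [] trivial (nd (nat_lit 255) (nat_lit 0) (cs (nd (nat_lit 278) (nat_lit 0) (cs (nd (nat_lit 277) (nat_lit 0) (cs (nd (nat_lit 298) (nat_lit 0) (cs (nd (nat_lit 299) (nat_lit 0) (cs (lf (nat_lit 41) (nat_lit 232)) (lf (nat_lit 46) (nat_lit 210)))) (lf (nat_lit 40) (nat_lit 210)))) (lf (nat_lit 29) (nat_lit 211)))) (lf (nat_lit 28) (nat_lit 189)))) (lf (nat_lit 46) (nat_lit 166)))) q10171 (by decide +kernel)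
def q10177 : Q := Q.p (nat_lit 0x1f0000000000000000000000000000000000000000000000000000) (nat_lit 0xe0000000000000000000000000000000000000000000000) (nat_lit 2)
theorem c10177 : QOK q10177 := cut [] trivial (nd (nat_lit 186) (nat_lit 0) (cs (lf (nat_lit 23) (nat_lit 185)) (lf (nat_lit 22) (nat_lit 186)))) q10177 (by decide +kernel)
def q10186 : Q := Q.p (nat_lit 0x2000018000020000080000000000000000000000000000000000000000) (nat_lit 0x4000000000000000040000300000400000000000000000000000000000) (nat_lit 3)
theorem c10186 : QOK q10186 := cut [] trivial (nd (nat_lit 140) (nat_lit 0) (cs (lf (nat_lit 46) (nat_lit 140)) (nd (nat_lit 141) (nat_lit 0) (cs (lf (nat_lit 47) (nat_lit 118)) (lf (nat_lit 29) (nat_lit 141)))))) q10186 (by decide +kernel)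
def q10194 : Q := Q.p (nat_lit 0x12000048000120000180000000000000000000000000000000000000000) (nat_lit 0x80000640001900000000000000000000000000000000000) (nat_lit 4)
theorem c10194 : QOK q10194 := cut [] trivial (nd (nat_lit 162) (nat_lit 0) (cs (lf (nat_lit 47) (nat_lit 140)) (nd (nat_lit 165) (nat_lit 0) (cs (lf (nat_lit 4) (nat_lit 162)) (nd (nat_lit 143) (nat_lit 0) (cs (lf (nat_lit 17) (nat_lit 140)) (lf (nat_lit 45) (nat_lit 143)))))))) q10194 (by decide +kernel)
def q10216 : Q := Q.p (nat_lit 0xe00009000004000010000000000000000000000000000000000000000000000) (nat_lit 0x6000000000000000040000000000000000000000000000000000000000) (nat_lit 2)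
theorem c10216 : QOK q10216 := cut [] trivial (nd (nat_lit 229) (nat_lit 0) (cs (lf (nat_lit 24) (nat_lit 162)) (lf (nat_lit 7) (nat_lit 227)))) q10216 (by decide +kernel)
def q10222 : Q := Q.p (nat_lit 0x400001000004000010000000000000000000000000000000000000000000000) (nat_lit 0xa0000380000a00000000000000000000000000000000000000000000000000000000000000) (nat_lit 4)
theorem c10222 : QOK q10222 := cut [] trivial (nd (nat_lit 271) (nat_lit 0) (cs (lf (nat_lit 40) (nat_lit 183)) (nd (nat_lit 273) (nat_lit 0) (cs (nd (nat_lit 272) (nat_lit 0) (cs (lf (nat_lit 41) (nat_lit 205)) (lf (nat_lit 29) (nat_lit 206)))) (lf (nat_lit 28) (nat_lit 184)))))) q10222 (by decide +kernel)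
def q10228 : Q := Q.p (nat_lit 0x40000300000400000000008000000000000000000000000000000000000000000000) (nat_lit 0x800003000000000000000000000000000000000000000000000000000) (nat_lit 2)
theorem c10228 : QOK q10228 := cut [] trivial (nd (nat_lit 205) (nat_lit 0) (cs (lf (nat_lit 33) (nat_lit 182)) (lf (nat_lit 38) (nat_lit 182)))) q10228 (by decide +kernel)
def q10277 : Q := Q.p (nat_lit 0x80000200000c0000200000000000000000000000000000000000) (nat_lit 0x2000000000000000000000100000400000000000000000000000000000) (nat_lit 2)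
theorem c10277 : QOK q10277 := cut [] trivial (nd (nat_lit 140) (nat_lit 0) (cs (lf (nat_lit 47) (nat_lit 118)) (lf (nat_lit 42) (nat_lit 140)))) q10277 (by decide +kernel)
def q10320 : Q := Q.p (nat_lit 0x180000700001000000000000000000000000000000000000) (nat_lit 0xc0002000000000000000000000000000000000000) (nat_lit 2)
theorem c10320 : QOK q10320 := cut [] trivial (nd (nat_lit 163) (nat_lit 0) (cs (lf (nat_lit 17) (nat_lit 141)) (lf (nat_lit 0) (nat_lit 162)))) q10320 (by decide +kernel)
def q10329 : Q := Q.p (nat_lit 0x3c0000200000000000000000000000000000000000) (nat_lit 0x400000180000000000000000000000000000000000) (nat_lit 2)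
theorem c10329 : QOK q10329 := cut [] trivial (nd (nat_lit 140) (nat_lit 0) (cs (lf (nat_lit 23) (nat_lit 139)) (lf (nat_lit 18) (nat_lit 140)))) q10329 (by decide +kernel)
def q10346 : Q := Q.p (nat_lit 0x10000040000700000c0000000000000000000000000000000000000000) (nat_lit 0x30000080000000000000000000000000000000000) (nat_lit 2)
theorem c10346 : QOK q10346 := cut [] trivial (nd (nat_lit 161) (nat_lit 0) (cs (lf (nat_lit 47) (nat_lit 139)) (lf (nat_lit 0) (nat_lit 160)))) q10346 (by decide +kernel)
def q10352 : Q := Q.p (nat_lit 0x1000014000070000080000000000000000000000000000000000000000) (nat_lit 0x40000200000800000000000000000000000000000) (nat_lit 2)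
theorem c10352 : QOK q10352 := cut [] trivial (nd (nat_lit 141) (nat_lit 0) (cs (lf (nat_lit 24) (nat_lit 119)) (lf (nat_lit 33) (nat_lit 140)))) q10352 (by decide +kernel)
def q10359 : Q := Q.p (nat_lit 0x22000070000000000000000000000000000000000000000000000000000) (nat_lit 0x44000080000000000000000000000000000000000000000000000000000) (nat_lit 2)
theorem c10359 : QOK q10359 := cut [] trivial (nd (nat_lit 211) (nat_lit 0) (cs (lf (nat_lit 5) (nat_lit 208)) (lf (nat_lit 10) (nat_lit 207)))) q10359 (by decide +kernel)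
def q10382 : Q := Q.p (nat_lit 0x80001e0000000000000000000000000000000000000000000000000000) (nat_lit 0x1d0000200000000000000000000000000000000000000000000000000000) (nat_lit 3)
theorem c10382 : QOK q10382 := cut [] trivial (nd (nat_lit 235) (nat_lit 0) (cs (lf (nat_lit 4) (nat_lit 209)) (nd (nat_lit 213) (nat_lit 0) (cs (lf (nat_lit 10) (nat_lit 209)) (lf (nat_lit 5) (nat_lit 210)))))) q10382 (by decide +kernel)
def q10395 : Q := Q.p (nat_lit 0x2000008000020000080000200000000000000000000000000000000000000000) (nat_lit 0x400001000004000000000000000000000000000000000000000000000000000000000) (nat_lit 2)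
theorem c10395 : QOK q10395 := cut [] trivial (nd (nat_lit 252) (nat_lit 0) (cs (lf (nat_lit 41) (nat_lit 186)) (lf (nat_lit 40) (nat_lit 164)))) q10395 (by decide +kernel)
def q10401 : Q := Q.p (nat_lit 0x20000080000200000800000000000000000000000000000000000) (nat_lit 0x8000000000000000500001400005000000000000000000000000000000) (nat_lit 4)
theorem c10401 : QOK q10401 := cut [] trivial (nd (nat_lit 142) (nat_lit 0) (cs (lf (nat_lit 47) (nat_lit 120)) (nd (nat_lit 144) (nat_lit 0) (cs (lf (nat_lit 35) (nat_lit 121)) (nd (nat_lit 231) (nat_lit 0) (cs (lf (nat_lit 46) (nat_lit 142)) (lf (nat_lit 34) (nat_lit 143)))))))) q10401 (by decide +kernel)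
def q10426 : Q := Q.p (nat_lit 0x40000300000c0000100000000000000000000000000000000000000000) (nat_lit 0x80000600001800000000000000000000000000000) (nat_lit 3)
theorem c10426 : QOK q10426 := cut [] trivial (nd (nat_lit 141) (nat_lit 0) (cs (lf (nat_lit 46) (nat_lit 141)) (nd (nat_lit 142) (nat_lit 0) (cs (lf (nat_lit 47) (nat_lit 119)) (lf (nat_lit 24) (nat_lit 120)))))) q10426 (by decide +kernel)
def q10427 : Q := Q.p (nat_lit 0x300000c0000100000800000000000000000000000000000000000) (nat_lit 0x400003000000000000000000000000000000) (nat_lit 2)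
theorem c10427 : QOK q10427 := cut [] trivial (nd (nat_lit 142) (nat_lit 0) (cs (lf (nat_lit 35) (nat_lit 120)) (lf (nat_lit 24) (nat_lit 120)))) q10427 (by decide +kernel)
def q10454 : Q := Q.p (nat_lit 0xc00001c0000000000000000000000000000000000000000) (nat_lit 0x300000200000000000000000000000000000000000000000) (nat_lit 2)
theorem c10454 : QOK q10454 := cut [] trivial (nd (nat_lit 188) (nat_lit 0) (cs (lf (nat_lit 3) (nat_lit 162)) (lf (nat_lit 18) (nat_lit 163)))) q10454 (by decide +kernel)
def q10489 : Q := Q.p (nat_lit 0x300001c0000100000000000000000000000000000000000000000) (nat_lit 0x600000080000000000000000000000000000000000000000) (nat_lit 2)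
theorem c10489 : QOK q10489 := cut [] trivial (nd (nat_lit 189) (nat_lit 0) (cs (lf (nat_lit 6) (nat_lit 186)) (lf (nat_lit 23) (nat_lit 163)))) q10489 (by decide +kernel)
def q10531 : Q := Q.p (nat_lit 0xf0000000000000000000000000000000000000000000000000000) (nat_lit 0xee000100000000000000000000000000000000000000000000000000000) (nat_lit 4)
theorem c10531 : QOK q10531 := cut [] trivial (nd (nat_lit 230) (nat_lit 0) (cs (lf (nat_lit 11) (nat_lit 207)) (nd (nat_lit 234) (nat_lit 0) (cs (lf (nat_lit 4) (nat_lit 208)) (nd (nat_lit 212) (nat_lit 0) (cs (lf (nat_lit 5) (nat_lit 209)) (lf (nat_lit 10) (nat_lit 208)))))))) q10531 (by decide +kernel)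
def q10540 : Q := Q.p (nat_lit 0x3e000000000000000000000000000000000000000000000000000) (nat_lit 0x1c000000000000000000000000000000000000000000000000000000000) (nat_lit 2)
theorem c10540 : QOK q10540 := cut [] trivial (nd (nat_lit 231) (nat_lit 0) (cs (lf (nat_lit 5) (nat_lit 206)) (lf (nat_lit 4) (nat_lit 205)))) q10540 (by decide +kernel)
def q10546 : Q := Q.p (nat_lit 0x200000c0000f0000000000000000000000000000000000000000000000000000) (nat_lit 0x60000100000000000000000000000000000000000000000) (nat_lit 2)
theorem c10546 : QOK q10546 := cut [] trivial (nd (nat_lit 186) (nat_lit 0) (cs (lf (nat_lit 23) (nat_lit 185)) (lf (nat_lit 24) (nat_lit 164)))) q10546 (by decide +kernel)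
def q10565 : Q := Q.p (nat_lit 0x200000800002000008000020000000000000000000) (nat_lit 0x4000010000040000000000000) (nat_lit 2)
theorem c10565 : QOK q10565 := cut [] trivial (nd (nat_lit 76) (nat_lit 0) (cs (lf (nat_lit 46) (nat_lit 76)) (lf (nat_lit 47) (nat_lit 54)))) q10565 (by decide +kernel)
def q10575 : Q := Q.p (nat_lit 0x600001c00000000000000000000000000000000000) (nat_lit 0x800000300000000000000000000000000000000000) (nat_lit 2)
theorem c10575 : QOK q10575 := cut [] trivial (nd (nat_lit 141) (nat_lit 0) (cs (lf (nat_lit 5) (nat_lit 141)) (lf (nat_lit 0) (nat_lit 140)))) q10575 (by decide +kernel)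
def q10593 : Q := Q.p (nat_lit 0x3000000000030000080000000000000000000000000000000000000000000000) (nat_lit 0x40000000000c000000000000000000000000000000000000000000000000000000000) (nat_lit 2)
theorem c10593 : QOK q10593 := cut [] trivial (nd (nat_lit 274) (nat_lit 0) (cs (lf (nat_lit 38) (nat_lit 186)) (lf (nat_lit 32) (nat_lit 186)))) q10593 (by decide +kernel)
def q10596 : Q := Q.p (nat_lit 0x1000004000030000080000000000000000000000000000000000000000000000) (nat_lit 0x40000200000800000000000000000000000000000000000) (nat_lit 2)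
theorem c10596 : QOK q10596 := cut [] trivial (nd (nat_lit 165) (nat_lit 0) (cs (lf (nat_lit 36) (nat_lit 142)) (lf (nat_lit 33) (nat_lit 164)))) q10596 (by decide +kernel)
def q10611 : Q := Q.p (nat_lit 0x1000004000030000080000000000000000000000000000000000000000000000) (nat_lit 0x8000000000000000200000800000000000000000000000000000000000) (nat_lit 2)
theorem c10611 : QOK q10611 := cut [] trivial (nd (nat_lit 165) (nat_lit 0) (cs (lf (nat_lit 39) (nat_lit 164)) (lf (nat_lit 36) (nat_lit 142)))) q10611 (by decide +kernel)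
def q10646 : Q := Q.p (nat_lit 0x38000100000000000000000000000000000000000000000000000) (nat_lit 0x400006c0000000000000000000000000000000000000000000000) (nat_lit 3)
theorem c10646 : QOK q10646 := cut [] trivial (nd (nat_lit 189) (nat_lit 0) (cs (lf (nat_lit 15) (nat_lit 185)) (nd (nat_lit 187) (nat_lit 0) (cs (lf (nat_lit 6) (nat_lit 186)) (lf (nat_lit 9) (nat_lit 185)))))) q10646 (by decide +kernel)
def q10658 : Q := Q.p (nat_lit 0x2000008000030000080000200000800000000000000000000000000000000000) (nat_lit 0x40000100000000002000000000000000000000000000000) (nat_lit 2)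
theorem c10658 : QOK q10658 := cut [] trivial (nd (nat_lit 186) (nat_lit 0) (cs (lf (nat_lit 36) (nat_lit 120)) (lf (nat_lit 47) (nat_lit 164)))) q10658 (by decide +kernel)
def q10678 : Q := Q.p (nat_lit 0x300000c0000200000400000000000000000000000000000000000000000) (nat_lit 0x800003000000000000000000000000000000000000) (nat_lit 2)
theorem c10678 : QOK q10678 := cut [] trivial (nd (nat_lit 167) (nat_lit 0) (cs (lf (nat_lit 47) (nat_lit 144)) (lf (nat_lit 36) (nat_lit 144)))) q10678 (by decide +kernel)
def q10692 : Q := Q.p (nat_lit 0x80000100000c00003000000000000000000000000000000000000000000000000000000000) (nat_lit 0x30000040000000000000000000000000000000000000000000000000000000000000000000000000) (nat_lit 2)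
theorem c10692 : QOK q10692 := cut [] trivial (nd (nat_lit 294) (nat_lit 0) (cs (lf (nat_lit 30) (nat_lit 228)) (lf (nat_lit 29) (nat_lit 228)))) q10692 (by decide +kernel)
def q10704 : Q := Q.p (nat_lit 0x340000e000000000000000000000000000000000000000000000000000000000) (nat_lit 0x200001800000000000000000000000000000000000000000000000000000000) (nat_lit 2)
theorem c10704 : QOK q10704 := cut [] trivial (nd (nat_lit 228) (nat_lit 0) (cs (lf (nat_lit 11) (nat_lit 227)) (lf (nat_lit 0) (nat_lit 227)))) q10704 (by decide +kernel)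
def q10727 : Q := Q.p (nat_lit 0x10000080000f0000040000000000000000000000000000000000000000000000) (nat_lit 0x200000800076000000000000000000000000000000000000000000000000000000000) (nat_lit 4)
theorem c10727 : QOK q10727 := cut [] trivial (nd (nat_lit 233) (nat_lit 0) (cs (lf (nat_lit 5) (nat_lit 208)) (nd (nat_lit 230) (nat_lit 0) (cs (lf (nat_lit 11) (nat_lit 207)) (nd (nat_lit 251) (nat_lit 0) (cs (lf (nat_lit 41) (nat_lit 185)) (lf (nat_lit 7) (nat_lit 229)))))))) q10727 (by decide +kernel)
def q10732 : Q := Q.p (nat_lit 0x3c0000c0000100000000000000000000000000000000000000000000000) (nat_lit 0x2000018000000000000000000000000000000000000000000000000000000000000000) (nat_lit 2)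
theorem c10732 : QOK q10732 := cut [] trivial (nd (nat_lit 255) (nat_lit 0) (cs (lf (nat_lit 42) (nat_lit 188)) (lf (nat_lit 5) (nat_lit 230)))) q10732 (by decide +kernel)

end Crest.Agent.H3.Snaky.CR
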