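import Crest.Agent.H3.Snaky.Cert
import Crest.Agent.H3.Snaky.CR.CR0
import Crest.Agent.H3.Snaky.CR.CR1

set_option autoImplicit false
set_option maxRecDepth 100000

namespace Crest.Agent.H3.Snaky.CR

open T

def q6 : Q := Q.p (nat_lit 0x4000010000040000100000000000000000000000000000000000000000) (nat_lit 0x800002000008000000000200000c00002000000000000000000000000000000) (nat_lit 4)
theorem c6 : QOK q6 := cut [q2] ⟨c2, trivial⟩ (nd (nat_lit 229) (nat_lit 0) (cs (nd (nat_lit 142) (nat_lit 0) (cs (rf (nat_lit 0)) (lf (nat_lit 40) (nat_lit 141)))) (lf (nat_lit 41) (nat_lit 163)))) q6 (by decide +kernel)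
def q13 : Q := Q.p (nat_lit 0x10000040000300000c0000000000000000000000000000000000000000000000) (nat_lit 0x40000038000080000000000000000000000000000000000000000) (nat_lit 3)
theorem c13 : QOK q13 := cut [q11] ⟨c11, trivial⟩ (nd (nat_lit 185) (nat_lit 0) (cs (rf (nat_lit 0)) (lf (nat_lit 47) (nat_lit 163)))) q13 (by decide +kernel)
def q26 : Q := Q.p (nat_lit 0x2000004000010000040000000000000000000000000000000000000000000000) (nat_lit 0x800001000008000000000080000300000800000000000000000000000000000000000) (nat_lit 4)
theorem c26 : QOK q26 := cut [q25] ⟨c25, trivial⟩ (nd (nat_lit 252) (nat_lit 0) (cs (lf (nat_lit 29) (nat_lit 186)) (rf (nat_lit 0)))) q26 (by decide +kernel)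
def q30 : Q := Q.p (nat_lit 0x2000004000010000040000000000000000000000000000000000000000000000) (nat_lit 0xa0000180000a000000000000000100000000000000000000000000000000000000000) (nat_lit 4)
theorem c30 : QOK q30 := cut [q29] ⟨c29, trivial⟩ (nd (nat_lit 252) (nat_lit 0) (cs (lf (nat_lit 29) (nat_lit 186)) (rf (nat_lit 0)))) q30 (by decide +kernel)
def q35 : Q := Q.p (nat_lit 0x2000000000030000040000000000000000000000000000000000000000000000) (nat_lit 0x800000000008000000000080000100000400000000000000000000000000000000000) (nat_lit 3)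
theorem c35 : QOK q35 := cut [q33] ⟨c33, trivial⟩ (nd (nat_lit 231) (nat_lit 0) (cs (rf (nat_lit 0)) (lf (nat_lit 42) (nat_lit 186)))) q35 (by decide +kernel)
def q39 : Q := Q.p (nat_lit 0x70000040000000000000000000000000000000000000000000000) (nat_lit 0x88000038000000000000000000000000000000000000000000000) (nat_lit 3)
theorem c39 : QOK q39 := cut [q37] ⟨c37, trivial⟩ (nd (nat_lit 185) (nat_lit 0) (cs (rf (nat_lit 0)) (lf (nat_lit 18) (nat_lit 185)))) q39 (by decide +kernel)
def q44 : Q := Q.p (nat_lit 0x70000200000000000000000000000000000000000000000000000) (nat_lit 0x88000d00000000000000000000000000000000000000000000000) (nat_lit 3)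
theorem c44 : QOK q44 := cut [q42] ⟨c42, trivial⟩ (nd (nat_lit 188) (nat_lit 0) (cs (rf (nat_lit 0)) (lf (nat_lit 12) (nat_lit 185)))) q44 (by decide +kernel)
def q55 : Q := Q.p (nat_lit 0xf0000040000000000000000000000000000000000000000000000) (nat_lit 0x7380010e000080000000000000000000000000000000000000000000000) (nat_lit 6)
theorem c55 : QOK q55 := cut [q47] ⟨c47, trivial⟩ (nd (nat_lit 233) (nat_lit 0) (cs (nd (nat_lit 207) (nat_lit 0) (cs (nd (nat_lit 228) (nat_lit 0) (cs (nd (nat_lit 206) (nat_lit 0) (cs (rf (nat_lit 0)) (lf (nat_lit 11) (nat_lit 205)))) (lf (nat_lit 10) (nat_lit 206)))) (lf (nat_lit 4) (nat_lit 207)))) (lf (nat_lit 5) (nat_lit 208)))) q55 (by decide +kernel)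
def q60 : Q := Q.p (nat_lit 0x70000200000000000000000000000000000000000000000000000) (nat_lit 0x8000d80000000000000000000000000000000000000000000000) (nat_lit 3)
theorem c60 : QOK q60 := cut [q59] ⟨c59, trivial⟩ (nd (nat_lit 188) (nat_lit 0) (cs (lf (nat_lit 12) (nat_lit 185)) (rf (nat_lit 0)))) q60 (by decide +kernel)
def q75 : Q := Q.p (nat_lit 0x70000040000000000000000000000000000000000000000000000) (nat_lit 0x800000b8000000000000000000000000000000000000000000000) (nat_lit 3)
theorem c75 : QOK q75 := cut [q74] ⟨c74, trivial⟩ (nd (nat_lit 185) (nat_lit 0) (cs (lf (nat_lit 18) (nat_lit 185)) (rf (nat_lit 0)))) q75 (by decide +kernel)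
def q78 : Q := Q.p (nat_lit 0x78000010000000000000000000000000000000000000000000000) (nat_lit 0x3800004000008000000000000000000000000000000000000000000000) (nat_lit 3)
theorem c78 : QOK q78 := cut [q77] ⟨c77, trivial⟩ (nd (nat_lit 228) (nat_lit 0) (cs (lf (nat_lit 10) (nat_lit 206)) (rf (nat_lit 0)))) q78 (by decide +kernel)
def q87 : Q := Q.p (nat_lit 0x78000000000000000000000000000000000000000000000000000) (nat_lit 0x3800004000380000000000000000000000000000000000000000000000) (nat_lit 4)
theorem c87 : QOK q87 := cut [q85] ⟨c85, trivial⟩ (nd (nat_lit 228) (nat_lit 0) (cs (lf (nat_lit 10) (nat_lit 206)) (nd (nat_lit 206) (nat_lit 0) (cs (lf (nat_lit 11) (nat_lit 205)) (rf (nat_lit 0)))))) q87 (by decide +kernel)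
def q94 : Q := Q.p (nat_lit 0x78000040000000000000000000000000000000000000000000000) (nat_lit 0x800003000000000030000100000400000000000000000000000000000000000) (nat_lit 4)
theorem c94 : QOK q94 := cut [q90] ⟨c90, trivial⟩ (nd (nat_lit 229) (nat_lit 0) (cs (nd (nat_lit 185) (nat_lit 0) (cs (rf (nat_lit 0)) (lf (nat_lit 23) (nat_lit 184)))) (lf (nat_lit 11) (nat_lit 206)))) q94 (by decide +kernel)
def q98 : Q := Q.p (nat_lit 0x78000000000000000000000000000000000000000000000000000) (nat_lit 0x300000040003b8000000000000000000000000000000000000000000000) (nat_lit 5)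
theorem c98 : QOK q98 := cut [q96] ⟨c96, trivial⟩ (nd (nat_lit 184) (nat_lit 0) (cs (lf (nat_lit 22) (nat_lit 184)) (nd (nat_lit 232) (nat_lit 0) (cs (lf (nat_lit 5) (nat_lit 207)) (rf (nat_lit 0)))))) q98 (by decide +kernel)
def q101 : Q := Q.p (nat_lit 0x200000f0000000000000000000000000000000000000000000000000000) (nat_lit 0x10000008000700000000000000000000000000000000000000000000000) (nat_lit 3)
theorem c101 : QOK q101 := cut [q100] ⟨c100, trivial⟩ (nd (nat_lit 207) (nat_lit 0) (cs (lf (nat_lit 4) (nat_lit 207)) (rf (nat_lit 0)))) q101 (by decide +kernel)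
def q108 : Q := Q.p (nat_lit 0x2000008000078000000000000000000000000000000000000000000000000000) (nat_lit 0x30000000000300000400000000000000000000000000000000000000000) (nat_lit 3)
theorem c108 : QOK q108 := cut [q107] ⟨c107, trivial⟩ (nd (nat_lit 232) (nat_lit 0) (cs (lf (nat_lit 5) (nat_lit 207)) (rf (nat_lit 0)))) q108 (by decide +kernel)
def q117 : Q := Q.p (nat_lit 0x3c000000000000000000000000000000000000000000000000000) (nat_lit 0x1c0000200001c000000000000000000000000000000000000000000000) (nat_lit 4)
theorem c117 : QOK q117 := cut [q113] ⟨c113, trivial⟩ (nd (nat_lit 227) (nat_lit 0) (cs (nd (nat_lit 205) (nat_lit 0) (cs (rf (nat_lit 0)) (lf (nat_lit 11) (nat_lit 204)))) (lf (nat_lit 10) (nat_lit 205)))) q117 (by decide +kernel)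
def q128 : Q := Q.p (nat_lit 0x1e000040000000000000000000000000000000000000000000000) (nat_lit 0x100002e000000000000000000000000000000000000000000000) (nat_lit 3)
theorem c128 : QOK q128 := cut [q126] ⟨c126, trivial⟩ (nd (nat_lit 204) (nat_lit 0) (cs (rf (nat_lit 0)) (lf (nat_lit 16) (nat_lit 182)))) q128 (by decide +kernel)
def q139 : Q := Q.p (nat_lit 0x78000000000000000000000000000000000000000000000000000) (nat_lit 0x70000080000700000000000000000000000000000000000000000000000) (nat_lit 4)
theorem c139 : QOK q139 := cut [q137] ⟨c137, trivial⟩ (nd (nat_lit 189) (nat_lit 0) (cs (lf (nat_lit 16) (nat_lit 185)) (nd (nat_lit 211) (nat_lit 0) (cs (lf (nat_lit 17) (nat_lit 186)) (rf (nat_lit 0)))))) q139 (by decide +kernel)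
def q143 : Q := Q.p (nat_lit 0x20000078000000000000000000000000000000000000000000000000000) (nat_lit 0x40000080000700000000000000000000000000000000000000000000000) (nat_lit 3)
theorem c143 : QOK q143 := cut [q100] ⟨c100, trivial⟩ (nd (nat_lit 211) (nat_lit 0) (cs (lf (nat_lit 5) (nat_lit 208)) (rf (nat_lit 0)))) q143 (by decide +kernel)
def q154 : Q := Q.p (nat_lit 0x1e000040000000000000000000000000000000000000000000000) (nat_lit 0xe00001000020000000000000000000000000000000000000000000000) (nat_lit 3)
theorem c154 : QOK q154 := cut [q153] ⟨c153, trivial⟩ (nd (nat_lit 204) (nat_lit 0) (cs (lf (nat_lit 16) (nat_lit 182)) (rf (nat_lit 0)))) q154 (by decide +kernel)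
def q160 : Q := Q.p (nat_lit 0x38000060000100000000000000000000000000000000000000000) (nat_lit 0x8000030000c0000000000000000000000000000000000000000000000000000) (nat_lit 3)
theorem c160 : QOK q160 := cut [q159] ⟨c159, trivial⟩ (nd (nat_lit 229) (nat_lit 0) (cs (lf (nat_lit 30) (nat_lit 163)) (rf (nat_lit 0)))) q160 (by decide +kernel)
def q168 : Q := Q.p (nat_lit 0x3e000040000000000000000000000000000000000000000000000) (nat_lit 0xc1000030000000000000000000000000000000000000000000000) (nat_lit 3)
theorem c168 : QOK q168 := cut [q167] ⟨c167, trivial⟩ (nd (nat_lit 185) (nat_lit 0) (cs (lf (nat_lit 12) (nat_lit 182)) (rf (nat_lit 0)))) q168 (by decide +kernel)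
def q174 : Q := Q.p (nat_lit 0x100003c000000000000000000000000000000000000000000000000000) (nat_lit 0x2000040000038000000000000000000000000000000000000000000000) (nat_lit 3)
theorem c174 : QOK q174 := cut [q173] ⟨c173, trivial⟩ (nd (nat_lit 210) (nat_lit 0) (cs (lf (nat_lit 10) (nat_lit 206)) (rf (nat_lit 0)))) q174 (by decide +kernel)
def q186 : Q := Q.p (nat_lit 0x78000000000000000000000000000000000000000000000000000) (nat_lit 0x3800004000038000000000000000000000000000000000000000000000) (nat_lit 4)
theorem c186 : QOK q186 := cut [q173] ⟨c173, trivial⟩ (nd (nat_lit 228) (nat_lit 0) (cs (lf (nat_lit 10) (nat_lit 206)) (nd (nat_lit 206) (nat_lit 0) (cs (lf (nat_lit 11) (nat_lit 205)) (rf (nat_lit 0)))))) q186 (by decide +kernel)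
def q202 : Q := Q.p (nat_lit 0x80000f0000000000000000000000000000000000000000000000000000) (nat_lit 0x40000100000f0000700003f00000000000000000000000000000000000000000000000) (nat_lit 8)
theorem c202 : QOK q202 := cut [q201] ⟨c201, trivial⟩ (nd (nat_lit 189) (nat_lit 0) (cs (lf (nat_lit 17) (nat_lit 186)) (rf (nat_lit 0)))) q202 (by decide +kernel)
def q209 : Q := Q.p (nat_lit 0x20000080000f0000000000000000000000000000000000000000000000000000) (nat_lit 0x10000008000700000400001000000000000000000000000000000000000) (nat_lit 4)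
theorem c209 : QOK q209 := cut [q207] ⟨c207, trivial⟩ (nd (nat_lit 189) (nat_lit 0) (cs (lf (nat_lit 17) (nat_lit 186)) (nd (nat_lit 188) (nat_lit 0) (cs (lf (nat_lit 12) (nat_lit 185)) (rf (nat_lit 0)))))) q209 (by decide +kernel)
def q214 : Q := Q.p (nat_lit 0x800018000070000040000000000000000000000000000000000000000000000) (nat_lit 0x20000000000300000c000000000000000000000000000000000000000000000000000) (nat_lit 3)
theorem c214 : QOK q214 := cut [q212] ⟨c212, trivial⟩ (nd (nat_lit 207) (nat_lit 0) (cs (rf (nat_lit 0)) (lf (nat_lit 0) (nat_lit 206)))) q214 (by decide +kernel)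
def q230 : Q := Q.p (nat_lit 0x200000f0000000000000000000000000000000000000000000000000000) (nat_lit 0x8000000000008000700000400001000000000000000000000000000000000000) (nat_lit 4)
theorem c230 : QOK q230 := cut [q228] ⟨c228, trivial⟩ (nd (nat_lit 189) (nat_lit 0) (cs (lf (nat_lit 17) (nat_lit 186)) (nd (nat_lit 188) (nat_lit 0) (cs (lf (nat_lit 12) (nat_lit 185)) (rf (nat_lit 0)))))) q230 (by decide +kernel)
def q242 : Q := Q.p (nat_lit 0x8000030000200000f8000000000000000000000000000000000000000000000000000) (nat_lit 0x7400008c00000000000000300000400001000000000000000000000000000000000000) (nat_lit 6)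
theorem c242 : QOK q242 := cut [q235] ⟨c235, trivial⟩ (nd (nat_lit 188) (nat_lit 0) (cs (lf (nat_lit 17) (nat_lit 185)) (nd (nat_lit 144) (nat_lit 0) (cs (nd (nat_lit 277) (nat_lit 0) (cs (nd (nat_lit 276) (nat_lit 0) (cs (rf (nat_lit 0)) (lf (nat_lit 18) (nat_lit 252)))) (lf (nat_lit 43) (nat_lit 188)))) (lf (nat_lit 25) (nat_lit 144)))))) q242 (by decide +kernel)
def q261 : Q := Q.p (nat_lit 0x20000000000f0000040000000000000000000000000000000000000000000000) (nat_lit 0x48000100000f8000700003f00000000000000000000000000000000000000000000000) (nat_lit 9)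
theorem c261 : QOK q261 := cut [q201] ⟨c201, trivial⟩ (nd (nat_lit 189) (nat_lit 0) (cs (lf (nat_lit 17) (nat_lit 186)) (nd (nat_lit 231) (nat_lit 0) (cs (lf (nat_lit 42) (nat_lit 186)) (rf (nat_lit 0)))))) q261 (by decide +kernel)
def q267 : Q := Q.p (nat_lit 0x300000c0000600000800000000000000000000000000000000000) (nat_lit 0x100000c0000030000000000000000000000000000000000000000000000) (nat_lit 3)
theorem c267 : QOK q267 := cut [q265] ⟨c265, trivial⟩ (nd (nat_lit 185) (nat_lit 0) (cs (rf (nat_lit 0)) (lf (nat_lit 12) (nat_lit 162)))) q267 (by decide +kernel)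
def q283 : Q := Q.p (nat_lit 0x1000000000078000060000000000000000000000000000000000000000000000) (nat_lit 0x600000800003000000000000000000000000000000000000000000000000000000000) (nat_lit 3)
theorem c283 : QOK q283 := cut [q282] ⟨c282, trivial⟩ (nd (nat_lit 229) (nat_lit 0) (cs (lf (nat_lit 11) (nat_lit 206)) (rf (nat_lit 0)))) q283 (by decide +kernel)
def q289 : Q := Q.p (nat_lit 0x3000008000038000040000000000000000000000000000000000000000000000) (nat_lit 0x400000000010000006000080000000000000000000000000000000000000000000000) (nat_lit 3)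
theorem c289 : QOK q289 := cut [q288] ⟨c288, trivial⟩ (nd (nat_lit 187) (nat_lit 0) (cs (lf (nat_lit 41) (nat_lit 186)) (rf (nat_lit 0)))) q289 (by decide +kernel)
def q294 : Q := Q.p (nat_lit 0x30000080000780000c0000000000000000000000000000000000000000000000) (nat_lit 0x200000c00033000000000000000200000800000000000000000000000000000000000) (nat_lit 5)
theorem c294 : QOK q294 := cut [q212] ⟨c212, trivial⟩ (nd (nat_lit 232) (nat_lit 0) (cs (lf (nat_lit 5) (nat_lit 207)) (nd (nat_lit 143) (nat_lit 0) (cs (nd (nat_lit 251) (nat_lit 0) (cs (rf (nat_lit 0)) (lf (nat_lit 12) (nat_lit 228)))) (lf (nat_lit 25) (nat_lit 143)))))) q294 (by decide +kernel)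
def q317 : Q := Q.p (nat_lit 0x10000380000c0000000000000000000000000000000000000000000000) (nat_lit 0x720001c0000000000000000000000000000000000000000000000000000) (nat_lit 4)
theorem c317 : QOK q317 := cut [q62] ⟨c62, trivial⟩ (nd (nat_lit 210) (nat_lit 0) (cs (lf (nat_lit 10) (nat_lit 206)) (rf (nat_lit 0)))) q317 (by decide +kernel)
def q323 : Q := Q.p (nat_lit 0x78000040000000000000000000000000000000000000000000000) (nat_lit 0x73800186000080000000000000000000000000000000000000000000000) (nat_lit 6)
theorem c323 : QOK q323 := cut [q62] ⟨c62, trivial⟩ (nd (nat_lit 228) (nat_lit 0) (cs (lf (nat_lit 10) (nat_lit 206)) (nd (nat_lit 206) (nat_lit 0) (cs (lf (nat_lit 11) (nat_lit 205)) (nd (nat_lit 187) (nat_lit 0) (cs (lf (nat_lit 12) (nat_lit 183)) (rf (nat_lit 0)))))))) q323 (by decide +kernel)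
def q328 : Q := Q.p (nat_lit 0x3c0000c0000000000000000000000000000000000000000000000) (nat_lit 0x38001c0000020000000000000000000000000000000000000000000000) (nat_lit 4)
theorem c328 : QOK q328 := cut [q326] ⟨c326, trivial⟩ (nd (nat_lit 228) (nat_lit 0) (cs (lf (nat_lit 11) (nat_lit 205)) (nd (nat_lit 210) (nat_lit 0) (cs (lf (nat_lit 10) (nat_lit 206)) (rf (nat_lit 0)))))) q328 (by decide +kernel)
def q337 : Q := Q.p (nat_lit 0xc0000f0000000000000000000000000000000000000000000000) (nat_lit 0x2000000000000000060000100000400000000000000000000000000000) (nat_lit 3)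
theorem c337 : QOK q337 := cut [q335] ⟨c335, trivial⟩ (nd (nat_lit 162) (nat_lit 0) (cs (rf (nat_lit 0)) (lf (nat_lit 23) (nat_lit 161)))) q337 (by decide +kernel)
def q351 : Q := Q.p (nat_lit 0x20000080000300000c0000000000000000000000000000000000000000000000) (nat_lit 0x100001c0000120001e00001c00003000000000000000000000000000000) (nat_lit 8)
theorem c351 : QOK q351 := cut [q326] ⟨c326, trivial⟩ (nd (nat_lit 166) (nat_lit 0) (cs (lf (nat_lit 34) (nat_lit 165)) (nd (nat_lit 165) (nat_lit 0) (cs (lf (nat_lit 35) (nat_lit 143)) (nd (nat_lit 143) (nat_lit 0) (cs (lf (nat_lit 36) (nat_lit 120)) (nd (nat_lit 167) (nat_lit 0) (cs (lf (nat_lit 6) (nat_lit 164)) (nd (nat_lit 120) (nat_lit 0) (cs (lf (nat_lit 46) (nat_lit 120)) (nd (nat_lit 210) (nat_lit 0) (cs (lf (nat_lit 29) (nat_lit 143)) (rf (nat_lit 0)))))))))))))) q351 (by decide +kernel)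
def q358 : Q := Q.p (nat_lit 0x20000080000300000c0000000000000000000000000000000000000000000000) (nat_lit 0x8000700000400000000000000000000000000000000000000000) (nat_lit 3)
theorem c358 : QOK q358 := cut [q356] ⟨c356, trivial⟩ (nd (nat_lit 188) (nat_lit 0) (cs (rf (nat_lit 0)) (lf (nat_lit 35) (nat_lit 165)))) q358 (by decide +kernel)
def q381 : Q := Q.p (nat_lit 0x40000b0000300000800000000000000000000000000000000000000000) (nat_lit 0x12000040000000000000002000008000000000000000000000000000000) (nat_lit 3)
theorem c381 : QOK q381 := cut [q379] ⟨c379, trivial⟩ (nd (nat_lit 210) (nat_lit 0) (cs (rf (nat_lit 0)) (lf (nat_lit 11) (nat_lit 207)))) q381 (by decide +kernel)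
def q395 : Q := Q.p (nat_lit 0x30000040000100001c0000000000000000000000000000000000000000000000) (nat_lit 0x80000e0000030000c80000000000000000000000000000000000000000) (nat_lit 5)
theorem c395 : QOK q395 := cut [q394] ⟨c394, trivial⟩ (nd (nat_lit 185) (nat_lit 0) (cs (lf (nat_lit 47) (nat_lit 163)) (rf (nat_lit 0)))) q395 (by decide +kernel)
def q416 : Q := Q.p (nat_lit 0x3000000000010000040000000000000000000000000000000000000000000000) (nat_lit 0x80000e00000800004000020000080000200000000000000000000000000000000000000000) (nat_lit 5)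
theorem c416 : QOK q416 := cut [q367] ⟨c367, trivial⟩ (nd (nat_lit 230) (nat_lit 0) (cs (lf (nat_lit 29) (nat_lit 186)) (rf (nat_lit 0)))) q416 (by decide +kernel)
def q420 : Q := Q.p (nat_lit 0x1000004000018000060000000000000000000000000000000000000000000000) (nat_lit 0x4000380000200000000000000000000000000000000000000000) (nat_lit 3)
theorem c420 : QOK q420 := cut [q419] ⟨c419, trivial⟩ (nd (nat_lit 187) (nat_lit 0) (cs (lf (nat_lit 35) (nat_lit 164)) (rf (nat_lit 0)))) q420 (by decide +kernel)
def q430 : Q := Q.p (nat_lit 0x3000000000010000040000000000000000000000000000000000000000000000) (nat_lit 0x80000e00000800004000008000020000080000000000000000000000000000000000000000) (nat_lit 5)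
theorem c430 : QOK q430 := cut [q371] ⟨c371, trivial⟩ (nd (nat_lit 230) (nat_lit 0) (cs (lf (nat_lit 29) (nat_lit 186)) (rf (nat_lit 0)))) q430 (by decide +kernel)
def q433 : Q := Q.p (nat_lit 0x1800004000010000040000000000000000000000000000000000000000000000) (nat_lit 0x2000000000080000300000800000000000000000000000000000000000) (nat_lit 3)
theorem c433 : QOK q433 := cut [q432] ⟨c432, trivial⟩ (nd (nat_lit 164) (nat_lit 0) (cs (lf (nat_lit 40) (nat_lit 163)) (rf (nat_lit 0)))) q433 (by decide +kernel)
def q436 : Q := Q.p (nat_lit 0x2000004000010000040000000000000000000000000000000000000000000000) (nat_lit 0x80000e00001800000000020000080000200000000000000000000000000000000000000000) (nat_lit 5)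
theorem c436 : QOK q436 := cut [q367] ⟨c367, trivial⟩ (nd (nat_lit 252) (nat_lit 0) (cs (lf (nat_lit 29) (nat_lit 186)) (rf (nat_lit 0)))) q436 (by decide +kernel)
def q438 : Q := Q.p (nat_lit 0x2000004000010000040000000000000000000000000000000000000000000000) (nat_lit 0x80000e00001800000000008000020000080000000000000000000000000000000000000000) (nat_lit 5)
theorem c438 : QOK q438 := cut [q371] ⟨c371, trivial⟩ (nd (nat_lit 252) (nat_lit 0) (cs (lf (nat_lit 29) (nat_lit 186)) (rf (nat_lit 0)))) q438 (by decide +kernel)
def q442 : Q := Q.p (nat_lit 0x2000004000010000040000000000000000000000000000000000000000000000) (nat_lit 0x800001000008000000000020000180000200000000000000000000000000000000000) (nat_lit 4)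
theorem c442 : QOK q442 := cut [q441] ⟨c441, trivial⟩ (nd (nat_lit 252) (nat_lit 0) (cs (lf (nat_lit 29) (nat_lit 186)) (rf (nat_lit 0)))) q442 (by decide +kernel)
def q449 : Q := Q.p (nat_lit 0x4000010000040000100000000000000000000000000000000000000000) (nat_lit 0x800002000000000000000280000e00002800000000000000000000000000000) (nat_lit 5)
theorem c449 : QOK q449 := cut [q448] ⟨c448, trivial⟩ (nd (nat_lit 229) (nat_lit 0) (cs (lf (nat_lit 41) (nat_lit 163)) (rf (nat_lit 0)))) q449 (by decide +kernel)
def q456 : Q := Q.p (nat_lit 0x50000300000000000000000000000000000000000000000) (nat_lit 0xa8000c00000000000000000000000000000000000000000) (nat_lit 3)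
theorem c456 : QOK q456 := cut [q454] ⟨c454, trivial⟩ (nd (nat_lit 185) (nat_lit 0) (cs (rf (nat_lit 0)) (lf (nat_lit 12) (nat_lit 161)))) q456 (by decide +kernel)
def q461 : Q := Q.p (nat_lit 0x50000380000000000000000000000000000000000000000) (nat_lit 0x188000060000000000000000000000000000000000000000) (nat_lit 3)
theorem c461 : QOK q461 := cut [q459] ⟨c459, trivial⟩ (nd (nat_lit 162) (nat_lit 0) (cs (rf (nat_lit 0)) (lf (nat_lit 11) (nat_lit 161)))) q461 (by decide +kernel)
def q468 : Q := Q.p (nat_lit 0x7000010000000000000000000000000000000000000000000000000000) (nat_lit 0x8000e8000000000000000000000000000000000000000000000000000) (nat_lit 3)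
theorem c468 : QOK q468 := cut [q466] ⟨c466, trivial⟩ (nd (nat_lit 209) (nat_lit 0) (cs (rf (nat_lit 0)) (lf (nat_lit 12) (nat_lit 205)))) q468 (by decide +kernel)
def q495 : Q := Q.p (nat_lit 0x4000010000040000100000000000000000000000000000000000000000) (nat_lit 0x800002000008000000000080000600000800000000000000000000000000000) (nat_lit 4)
theorem c495 : QOK q495 := cut [q493] ⟨c493, trivial⟩ (nd (nat_lit 141) (nat_lit 0) (cs (lf (nat_lit 46) (nat_lit 141)) (nd (nat_lit 229) (nat_lit 0) (cs (lf (nat_lit 41) (nat_lit 163)) (rf (nat_lit 0)))))) q495 (by decide +kernel)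
def q499 : Q := Q.p (nat_lit 0x1000004000010000040000000000000000000000000000000000000000000000) (nat_lit 0xa0000380000a00000000000000000000000000000000000) (nat_lit 4)
theorem c499 : QOK q499 := cut [q497] ⟨c497, trivial⟩ (nd (nat_lit 165) (nat_lit 0) (cs (lf (nat_lit 34) (nat_lit 164)) (nd (nat_lit 164) (nat_lit 0) (cs (lf (nat_lit 35) (nat_lit 142)) (rf (nat_lit 0)))))) q499 (by decide +kernel)
def q504 : Q := Q.p (nat_lit 0x2000008000010000040000000000000000000000000000000000000000000000) (nat_lit 0x800000000004000020000080000100000000000000000000000000000000000000000) (nat_lit 3)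
theorem c504 : QOK q504 := cut [q502] ⟨c502, trivial⟩ (nd (nat_lit 164) (nat_lit 0) (cs (rf (nat_lit 0)) (lf (nat_lit 27) (nat_lit 164)))) q504 (by decide +kernel)
def q512 : Q := Q.p (nat_lit 0x2000008000010000040000000000000000000000000000000000000000000000) (nat_lit 0x200000800001000004000020000000000000000000000000000000000000000000000000000) (nat_lit 3)
theorem c512 : QOK q512 := cut [q510] ⟨c510, trivial⟩ (nd (nat_lit 275) (nat_lit 0) (cs (rf (nat_lit 0)) (lf (nat_lit 45) (nat_lit 186)))) q512 (by decide +kernel)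
def q515 : Q := Q.p (nat_lit 0x2000008000010000040000000000000000000000000000000000000000000000) (nat_lit 0x800000000000000020000080000100000400000000000000000000000000000000000) (nat_lit 3)
theorem c515 : QOK q515 := cut [q33] ⟨c33, trivial⟩ (nd (nat_lit 209) (nat_lit 0) (cs (rf (nat_lit 0)) (lf (nat_lit 42) (nat_lit 186)))) q515 (by decide +kernel)
def q522 : Q := Q.p (nat_lit 0x18000040000100000400000000000000000000000000000000000) (nat_lit 0x20000000000800003000008000000000000000000000000) (nat_lit 3)
theorem c522 : QOK q522 := cut [q520] ⟨c520, trivial⟩ (nd (nat_lit 121) (nat_lit 0) (cs (rf (nat_lit 0)) (lf (nat_lit 34) (nat_lit 120)))) q522 (by decide +kernel)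
def q527 : Q := Q.p (nat_lit 0x1c000040000000000000000000000000000000000000000000000) (nat_lit 0x20003a0000000000000000000000000000000000000000000000) (nat_lit 3)
theorem c527 : QOK q527 := cut [q526] ⟨c526, trivial⟩ (nd (nat_lit 187) (nat_lit 0) (cs (lf (nat_lit 12) (nat_lit 183)) (rf (nat_lit 0)))) q527 (by decide +kernel)
def q530 : Q := Q.p (nat_lit 0x1c000040000000000000000000000000000000000000000000000) (nat_lit 0x22000380000000000000000000000000000000000000000000000) (nat_lit 3)
theorem c530 : QOK q530 := cut [q529] ⟨c529, trivial⟩ (nd (nat_lit 187) (nat_lit 0) (cs (lf (nat_lit 12) (nat_lit 183)) (rf (nat_lit 0)))) q530 (by decide +kernel)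
def q558 : Q := Q.p (nat_lit 0x10000040000100000400000000000000000000000000000000000) (nat_lit 0xa0000380000a000000000000000000000000) (nat_lit 4)
theorem c558 : QOK q558 := cut [q556] ⟨c556, trivial⟩ (nd (nat_lit 121) (nat_lit 0) (cs (lf (nat_lit 34) (nat_lit 120)) (nd (nat_lit 120) (nat_lit 0) (cs (lf (nat_lit 35) (nat_lit 98)) (rf (nat_lit 0)))))) q558 (by decide +kernel)
def q562 : Q := Q.p (nat_lit 0x20000000000180000c0000100000000000000000000000000000000000000000) (nat_lit 0x8000024000300000000000000000000000000000000000000000000000) (nat_lit 3)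
theorem c562 : QOK q562 := cut [q561] ⟨c561, trivial⟩ (nd (nat_lit 209) (nat_lit 0) (cs (lf (nat_lit 43) (nat_lit 164)) (rf (nat_lit 0)))) q562 (by decide +kernel)
def q567 : Q := Q.p (nat_lit 0xc0000f0000300000000000000000000000000000000000000000) (nat_lit 0xe0000180000600000000000000000000000000000) (nat_lit 4)
theorem c567 : QOK q567 := cut [q565] ⟨c565, trivial⟩ (nd (nat_lit 162) (nat_lit 0) (cs (lf (nat_lit 23) (nat_lit 161)) (nd (nat_lit 140) (nat_lit 0) (cs (lf (nat_lit 24) (nat_lit 118)) (rf (nat_lit 0)))))) q567 (by decide +kernel)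
def q579 : Q := Q.p (nat_lit 0x180000c0000000000000000000000000000000000000000000000) (nat_lit 0x6000320000000000000000000000000000000000000000000000) (nat_lit 3)
theorem c579 : QOK q579 := cut [q526] ⟨c526, trivial⟩ (nd (nat_lit 206) (nat_lit 0) (cs (lf (nat_lit 12) (nat_lit 183)) (rf (nat_lit 0)))) q579 (by decide +kernel)
def q582 : Q := Q.p (nat_lit 0x500001e0000400000000000000000000000000000000000000000) (nat_lit 0x10000000000010000200000800002000000000000000000000000000000) (nat_lit 3)
theorem c582 : QOK q582 := cut [q581] ⟨c581, trivial⟩ (nd (nat_lit 165) (nat_lit 0) (cs (lf (nat_lit 12) (nat_lit 162)) (rf (nat_lit 0)))) q582 (by decide +kernel)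
def q612 : Q := Q.p (nat_lit 0x6000010000040000100000000000000000000000000000000000000000) (nat_lit 0x8000000000080000600000800000000000000000000000000000) (nat_lit 3)
theorem c612 : QOK q612 := cut [q611] ⟨c611, trivial⟩ (nd (nat_lit 142) (nat_lit 0) (cs (lf (nat_lit 40) (nat_lit 141)) (rf (nat_lit 0)))) q612 (by decide +kernel)
def q616 : Q := Q.p (nat_lit 0x18000040000100000400000000000000000000000000000000000) (nat_lit 0x20000000000800003000008000000000000000000000000) (nat_lit 3)
theorem c616 : QOK q616 := cut [q615] ⟨c615, trivial⟩ (nd (nat_lit 120) (nat_lit 0) (cs (lf (nat_lit 40) (nat_lit 119)) (rf (nat_lit 0)))) q616 (by decide +kernel)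
def q618 : Q := Q.p (nat_lit 0x18000040000100000400000000000000000000000000000000000) (nat_lit 0x20000000000200001800002000000000000000000000000) (nat_lit 3)
theorem c618 : QOK q618 := cut [q556] ⟨c556, trivial⟩ (nd (nat_lit 120) (nat_lit 0) (cs (lf (nat_lit 40) (nat_lit 119)) (rf (nat_lit 0)))) q618 (by decide +kernel)
def q623 : Q := Q.p (nat_lit 0x10000040000300000c00000000000000000000000000000000000) (nat_lit 0x400000380000800000000000000000000000000000) (nat_lit 3)
theorem c623 : QOK q623 := cut [q622] ⟨c622, trivial⟩ (nd (nat_lit 141) (nat_lit 0) (cs (lf (nat_lit 47) (nat_lit 119)) (rf (nat_lit 0)))) q623 (by decide +kernel)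
def q630 : Q := Q.p (nat_lit 0x4000010000040000100000000000000000000000000000000000000000) (nat_lit 0x280000e00002800000000000000000000000000000) (nat_lit 4)
theorem c630 : QOK q630 := cut [q611] ⟨c611, trivial⟩ (nd (nat_lit 143) (nat_lit 0) (cs (lf (nat_lit 34) (nat_lit 142)) (nd (nat_lit 142) (nat_lit 0) (cs (lf (nat_lit 35) (nat_lit 120)) (rf (nat_lit 0)))))) q630 (by decide +kernel)
def q636 : Q := Q.p (nat_lit 0x2000000000010000040000100000000000000000000000000000000000000000) (nat_lit 0x180000e0000000000a0000280000a00000000000000000000000000000000000) (nat_lit 6)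
theorem c636 : QOK q636 := cut [q635] ⟨c635, trivial⟩ (nd (nat_lit 230) (nat_lit 0) (cs (lf (nat_lit 28) (nat_lit 164)) (rf (nat_lit 0)))) q636 (by decide +kernel)
def q639 : Q := Q.p (nat_lit 0x2000004000010000040000000000000000000000000000000000000000000000) (nat_lit 0x200000800000000008000020000000000100000000000000000000000000000000000000000) (nat_lit 3)
theorem c639 : QOK q639 := cut [q638] ⟨c638, trivial⟩ (nd (nat_lit 231) (nat_lit 0) (cs (lf (nat_lit 24) (nat_lit 164)) (rf (nat_lit 0)))) q639 (by decide +kernel)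
def q640 : Q := Q.p (nat_lit 0x2000004000010000040000000000000000000000000000000000000000000000) (nat_lit 0x180000a0000000000a0000380000a00000000000000000000000000000000000) (nat_lit 6)
theorem c640 : QOK q640 := cut [q635] ⟨c635, trivial⟩ (nd (nat_lit 164) (nat_lit 0) (cs (lf (nat_lit 28) (nat_lit 164)) (rf (nat_lit 0)))) q640 (by decide +kernel)
def q653 : Q := Q.p (nat_lit 0x300000c0000200000000000000000000000000000000000000000) (nat_lit 0x8000000000130001c00001c00007000000000000000000000000000000) (nat_lit 7)
theorem c653 : QOK q653 := cut [q646] ⟨c646, trivial⟩ (nd (nat_lit 143) (nat_lit 0) (cs (lf (nat_lit 36) (nat_lit 120)) (nd (nat_lit 120) (nat_lit 0) (cs (lf (nat_lit 46) (nat_lit 120)) (nd (nat_lit 144) (nat_lit 0) (cs (nd (nat_lit 166) (nat_lit 0) (cs (nd (nat_lit 167) (nat_lit 0) (cs (lf (nat_lit 6) (nat_lit 164)) (rf (nat_lit 0)))) (lf (nat_lit 30) (nat_lit 143)))) (lf (nat_lit 35) (nat_lit 121)))))))) q653 (by decide +kernel)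
def q666 : Q := Q.p (nat_lit 0x1e000000000000000000000000000000000000000000000000000) (nat_lit 0xee00001000000000000000000000000000000000000000000000000000) (nat_lit 4)
theorem c666 : QOK q666 := cut [q664] ⟨c664, trivial⟩ (nd (nat_lit 226) (nat_lit 0) (cs (lf (nat_lit 10) (nat_lit 204)) (nd (nat_lit 204) (nat_lit 0) (cs (lf (nat_lit 11) (nat_lit 203)) (rf (nat_lit 0)))))) q666 (by decide +kernel)
def q671 : Q := Q.p (nat_lit 0x1e000000000000000000000000000000000000000000000000000) (nat_lit 0xe00000100000e000000000000000000000000000000000000000000000) (nat_lit 4)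
theorem c671 : QOK q671 := cut [q664] ⟨c664, trivial⟩ (nd (nat_lit 182) (nat_lit 0) (cs (lf (nat_lit 22) (nat_lit 182)) (nd (nat_lit 204) (nat_lit 0) (cs (lf (nat_lit 23) (nat_lit 181)) (rf (nat_lit 0)))))) q671 (by decide +kernel)
def q676 : Q := Q.p (nat_lit 0x400003e000000000000000000000000000000000000000000000000000) (nat_lit 0x30000c1000000000000000000000000000000000000000000000000000) (nat_lit 3)
theorem c676 : QOK q676 := cut [q674] ⟨c674, trivial⟩ (nd (nat_lit 229) (nat_lit 0) (cs (rf (nat_lit 0)) (lf (nat_lit 0) (nat_lit 204)))) q676 (by decide +kernel)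
def q689 : Q := Q.p (nat_lit 0x2000000000060000100000000000000000000000000000000000000000000000) (nat_lit 0x800000000008000000000080000400001000000000000000000000000000000000000) (nat_lit 3)
theorem c689 : QOK q689 := cut [q687] ⟨c687, trivial⟩ (nd (nat_lit 231) (nat_lit 0) (cs (rf (nat_lit 0)) (lf (nat_lit 30) (nat_lit 187)))) q689 (by decide +kernel)
def q694 : Q := Q.p (nat_lit 0xf0000000000000000000000000000000000000000000000000000) (nat_lit 0xe0000100000e00000000000000000000000000000000000000000000000) (nat_lit 4)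
theorem c694 : QOK q694 := cut [q691] ⟨c691, trivial⟩ (nd (nat_lit 234) (nat_lit 0) (cs (lf (nat_lit 4) (nat_lit 208)) (nd (nat_lit 190) (nat_lit 0) (cs (rf (nat_lit 0)) (lf (nat_lit 16) (nat_lit 186)))))) q694 (by decide +kernel)
def q715 : Q := Q.p (nat_lit 0x100000800002000008000020000000000000000000000000000000000000000000000000000) (nat_lit 0x140000600001000000000000000000000000000000000000000000000000000000000000000000000) (nat_lit 3)
theorem c715 : QOK q715 := cut [q713] ⟨c713, trivial⟩ (nd (nat_lit 298) (nat_lit 0) (cs (rf (nat_lit 0)) (lf (nat_lit 28) (nat_lit 209)))) q715 (by decide +kernel)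
def q721 : Q := Q.p (nat_lit 0xc00003000008000020000000000000000000000000000000000000000000000000000) (nat_lit 0x400003000000c00000000000000000000000000000000000000000000000000000000000000) (nat_lit 3)
theorem c721 : QOK q721 := cut [q700] ⟨c700, trivial⟩ (nd (nat_lit 276) (nat_lit 0) (cs (rf (nat_lit 0)) (lf (nat_lit 29) (nat_lit 209)))) q721 (by decide +kernel)
def q732 : Q := Q.p (nat_lit 0x800002000008000030000000000000000000000000000000000000000000000000000) (nat_lit 0x100000600001000000000004000000000000000000000000000000000000000000000000000000000) (nat_lit 3)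
theorem c732 : QOK q732 := cut [q731] ⟨c731, trivial⟩ (nd (nat_lit 298) (nat_lit 0) (cs (lf (nat_lit 28) (nat_lit 209)) (rf (nat_lit 0)))) q732 (by decide +kernel)
def q737 : Q := Q.p (nat_lit 0x78000020000000000000000000000000000000000000000000000) (nat_lit 0x1000007000080000000000080000200000000000000000000000000000000000) (nat_lit 4)
theorem c737 : QOK q737 := cut [q735] ⟨c735, trivial⟩ (nd (nat_lit 229) (nat_lit 0) (cs (lf (nat_lit 11) (nat_lit 206)) (nd (nat_lit 230) (nat_lit 0) (cs (lf (nat_lit 6) (nat_lit 207)) (rf (nat_lit 0)))))) q737 (by decide +kernel)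
def q743 : Q := Q.p (nat_lit 0x38000100000000000000000000000000000000000000000000000) (nat_lit 0x44000680000000000000000000000000000000000000000000000) (nat_lit 3)
theorem c743 : QOK q743 := cut [q742] ⟨c742, trivial⟩ (nd (nat_lit 187) (nat_lit 0) (cs (lf (nat_lit 12) (nat_lit 184)) (rf (nat_lit 0)))) q743 (by decide +kernel)
def q760 : Q := Q.p (nat_lit 0x8000078000000000000000000000000000000000000000000000000000) (nat_lit 0x6000186000038000000000000000000000000000000000000000000000) (nat_lit 5)
theorem c760 : QOK q760 := cut [q756] ⟨c756, trivial⟩ (nd (nat_lit 184) (nat_lit 0) (cs (lf (nat_lit 22) (nat_lit 184)) (nd (nat_lit 206) (nat_lit 0) (cs (lf (nat_lit 23) (nat_lit 183)) (nd (nat_lit 230) (nat_lit 0) (cs (rf (nat_lit 0)) (lf (nat_lit 0) (nat_lit 205)))))))) q760 (by decide +kernel)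
def q781 : Q := Q.p (nat_lit 0x3c000100000000000000000000000000000000000000000000000) (nat_lit 0x40000238000000000000000000000000000000000000000000000) (nat_lit 3)
theorem c781 : QOK q781 := cut [q173] ⟨c173, trivial⟩ (nd (nat_lit 210) (nat_lit 0) (cs (lf (nat_lit 17) (nat_lit 185)) (rf (nat_lit 0)))) q781 (by decide +kernel)
def q791 : Q := Q.p (nat_lit 0x3c000000000000000000000000000000000000000000000000000) (nat_lit 0x400003b8000000000000000000000000000000000000000000000) (nat_lit 4)
theorem c791 : QOK q791 := cut [q85] ⟨c85, trivial⟩ (nd (nat_lit 184) (nat_lit 0) (cs (lf (nat_lit 23) (nat_lit 183)) (nd (nat_lit 210) (nat_lit 0) (cs (lf (nat_lit 22) (nat_lit 184)) (rf (nat_lit 0)))))) q791 (by decide +kernel)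
def q798 : Q := Q.p (nat_lit 0x4000030000080000000000000000000000000000000000000000000000) (nat_lit 0x400001000008000000000000000200000800000000000000000000000000000000000) (nat_lit 3)
theorem c798 : QOK q798 := cut [q796] ⟨c796, trivial⟩ (nd (nat_lit 165) (nat_lit 0) (cs (rf (nat_lit 0)) (lf (nat_lit 36) (nat_lit 142)))) q798 (by decide +kernel)
def q804 : Q := Q.p (nat_lit 0xc000010000040000100000000000000000000000000000000000) (nat_lit 0x20000000000200000c00002000000000000000000000000) (nat_lit 3)
theorem c804 : QOK q804 := cut [q802] ⟨c802, trivial⟩ (nd (nat_lit 118) (nat_lit 0) (cs (rf (nat_lit 0)) (lf (nat_lit 28) (nat_lit 118)))) q804 (by decide +kernel)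
def q817 : Q := Q.p (nat_lit 0x40000100000c0000800000000000000000000000000000000000) (nat_lit 0x1000000000000000130001600000800002000000000000000000000000) (nat_lit 5)
theorem c817 : QOK q817 := cut [q812] ⟨c812, trivial⟩ (nd (nat_lit 141) (nat_lit 0) (cs (lf (nat_lit 30) (nat_lit 140)) (nd (nat_lit 97) (nat_lit 0) (cs (nd (nat_lit 142) (nat_lit 0) (cs (rf (nat_lit 0)) (lf (nat_lit 6) (nat_lit 140)))) (lf (nat_lit 37) (nat_lit 96)))))) q817 (by decide +kernel)
def q825 : Q := Q.p (nat_lit 0x100000400000c0000100000c0000000000000000000000000000000000000000) (nat_lit 0x200000800003000000000020000000000000000000000000000000000000000000000) (nat_lit 3)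
theorem c825 : QOK q825 := cut [q823] ⟨c823, trivial⟩ (nd (nat_lit 229) (nat_lit 0) (cs (rf (nat_lit 0)) (lf (nat_lit 25) (nat_lit 163)))) q825 (by decide +kernel)
def q863 : Q := Q.p (nat_lit 0xc000010000040000100000000000000000000000000000000000) (nat_lit 0x20000000000080000600000800000000000000000000000) (nat_lit 3)
theorem c863 : QOK q863 := cut [q862] ⟨c862, trivial⟩ (nd (nat_lit 118) (nat_lit 0) (cs (lf (nat_lit 28) (nat_lit 118)) (rf (nat_lit 0)))) q863 (by decide +kernel)
def q875 : Q := Q.p (nat_lit 0x20000380000b0000080000000000000000000000000000000000000000) (nat_lit 0x1000004000000000000000700000c00000000000000000000000000000000000) (nat_lit 4)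
theorem c875 : QOK q875 := cut [q872] ⟨c872, trivial⟩ (nd (nat_lit 164) (nat_lit 0) (cs (nd (nat_lit 230) (nat_lit 0) (cs (lf (nat_lit 29) (nat_lit 163)) (rf (nat_lit 0)))) (lf (nat_lit 35) (nat_lit 141)))) q875 (by decide +kernel)
def q891 : Q := Q.p (nat_lit 0x3c000010000040000000000000000000000000000000000000000) (nat_lit 0x18000000001800000a0000380000a00000000000000000000000000000) (nat_lit 6)
theorem c891 : QOK q891 := cut [q889] ⟨c889, trivial⟩ (nd (nat_lit 228) (nat_lit 0) (cs (lf (nat_lit 11) (nat_lit 205)) (nd (nat_lit 187) (nat_lit 0) (cs (lf (nat_lit 17) (nat_lit 184)) (rf (nat_lit 0)))))) q891 (by decide +kernel)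
def q900 : Q := Q.p (nat_lit 0xf000020000000000000000000000000000000000000000000000) (nat_lit 0x800017000000000000000000000000000000000000000000000) (nat_lit 3)
theorem c900 : QOK q900 := cut [q898] ⟨c898, trivial⟩ (nd (nat_lit 203) (nat_lit 0) (cs (rf (nat_lit 0)) (lf (nat_lit 16) (nat_lit 181)))) q900 (by decide +kernel)
def q905 : Q := Q.p (nat_lit 0x4000018000020000000000000000000000000000000000000000000000) (nat_lit 0x400001000002000000000000000080000200000000000000000000000000000000000) (nat_lit 3)
theorem c905 : QOK q905 := cut [q904] ⟨c904, trivial⟩ (nd (nat_lit 163) (nat_lit 0) (cs (lf (nat_lit 24) (nat_lit 141)) (rf (nat_lit 0)))) q905 (by decide +kernel)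
def q918 : Q := Q.p (nat_lit 0x2000002000038000000000000000000000000000000000000000000000000000) (nat_lit 0x800000000009000044000380000400000000000000000000000000000000000000000) (nat_lit 5)
theorem c918 : QOK q918 := cut [q917] ⟨c917, trivial⟩ (nd (nat_lit 210) (nat_lit 0) (cs (lf (nat_lit 11) (nat_lit 206)) (rf (nat_lit 0)))) q918 (by decide +kernel)
def q926 : Q := Q.p (nat_lit 0x2000006000038000000000000000000000000000000000000000000000000000) (nat_lit 0x80000c4000380000600001800006000000000000000000000000000000) (nat_lit 7)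
theorem c926 : QOK q926 := cut [q922] ⟨c922, trivial⟩ (nd (nat_lit 210) (nat_lit 0) (cs (lf (nat_lit 6) (nat_lit 207)) (nd (nat_lit 188) (nat_lit 0) (cs (lf (nat_lit 17) (nat_lit 185)) (nd (nat_lit 187) (nat_lit 0) (cs (lf (nat_lit 12) (nat_lit 184)) (nd (nat_lit 166) (nat_lit 0) (cs (lf (nat_lit 31) (nat_lit 165)) (rf (nat_lit 0)))))))))) q926 (by decide +kernel)
def q933 : Q := Q.p (nat_lit 0x3800006000018000000000000000000000000000000000000000000000000000) (nat_lit 0xc00003c0000400000000000000000000000000000000000000000000000000000000000000) (nat_lit 4)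
theorem c933 : QOK q933 := cut [q929] ⟨c929, trivial⟩ (nd (nat_lit 273) (nat_lit 0) (cs (nd (nat_lit 272) (nat_lit 0) (cs (rf (nat_lit 0)) (lf (nat_lit 41) (nat_lit 206)))) (lf (nat_lit 30) (nat_lit 207)))) q933 (by decide +kernel)
def q937 : Q := Q.p (nat_lit 0x800006000018000000000000000000000000000000000000000000000000000) (nat_lit 0xc0000300001400000000000000020000080000200000000000000000000000000000000000) (nat_lit 5)
theorem c937 : QOK q937 := cut [q735] ⟨c735, trivial⟩ (nd (nat_lit 273) (nat_lit 0) (cs (lf (nat_lit 30) (nat_lit 207)) (nd (nat_lit 272) (nat_lit 0) (cs (lf (nat_lit 41) (nat_lit 206)) (nd (nat_lit 185) (nat_lit 0) (cs (rf (nat_lit 0)) (lf (nat_lit 40) (nat_lit 184)))))))) q937 (by decide +kernel)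
def q943 : Q := Q.p (nat_lit 0x600000800006000008000000000000000000000000000000000000000000000000000) (nat_lit 0x40000900000700000000000000020000000000000000000000000000000000000000000000) (nat_lit 4)
theorem c943 : QOK q943 := cut [q942] ⟨c942, trivial⟩ (nd (nat_lit 272) (nat_lit 0) (cs (lf (nat_lit 41) (nat_lit 206)) (rf (nat_lit 0)))) q943 (by decide +kernel)
def q979 : Q := Q.p (nat_lit 0x100000400001000004000000000000000000000000000000000000000000000) (nat_lit 0xa0000380000a0000000000000000000000000000000000) (nat_lit 4)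
theorem c979 : QOK q979 := cut [q975] ⟨c975, trivial⟩ (nd (nat_lit 161) (nat_lit 0) (cs (nd (nat_lit 160) (nat_lit 0) (cs (rf (nat_lit 0)) (lf (nat_lit 35) (nat_lit 138)))) (lf (nat_lit 34) (nat_lit 160)))) q979 (by decide +kernel)
def q1014 : Q := Q.p (nat_lit 0x800006000038000000000000000000000000000000000000000000000000000) (nat_lit 0x1800006000010000000000000000a0000000000000000000000000000000000000000000000) (nat_lit 4)
theorem c1014 : QOK q1014 := cut [q1013] ⟨c1013, trivial⟩ (nd (nat_lit 273) (nat_lit 0) (cs (lf (nat_lit 30) (nat_lit 207)) (rf (nat_lit 0)))) q1014 (by decide +kernel)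
def q1018 : Q := Q.p (nat_lit 0x800002000006000038000000000000000000000000000000000000000000000000000) (nat_lit 0x80000c0000300000000000000000000000000000000000000000000000) (nat_lit 3)
theorem c1018 : QOK q1018 := cut [q1017] ⟨c1017, trivial⟩ (nd (nat_lit 210) (nat_lit 0) (cs (lf (nat_lit 6) (nat_lit 207)) (rf (nat_lit 0)))) q1018 (by decide +kernel)
def q1056 : Q := Q.p (nat_lit 0x2800006000038000000000000000000000000000000000000000000000000000) (nat_lit 0x1c0000780001000000000000000080000000000000000000000000000000000000000000000) (nat_lit 5)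
theorem c1056 : QOK q1056 := cut [q1054] ⟨c1054, trivial⟩ (nd (nat_lit 273) (nat_lit 0) (cs (lf (nat_lit 30) (nat_lit 207)) (nd (nat_lit 272) (nat_lit 0) (cs (lf (nat_lit 41) (nat_lit 206)) (rf (nat_lit 0)))))) q1056 (by decide +kernel)
def q1059 : Q := Q.p (nat_lit 0x1800006000008000020000000000000000000000000000000000000000000000) (nat_lit 0x100000700008000000000000000000000000000000000000000000000000000000000) (nat_lit 3)
theorem c1059 : QOK q1059 := cut [q1058] ⟨c1058, trivial⟩ (nd (nat_lit 250) (nat_lit 0) (cs (lf (nat_lit 41) (nat_lit 184)) (rf (nat_lit 0)))) q1059 (by decide +kernel)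
def q1073 : Q := Q.p (nat_lit 0x700000c000000000000000000000000000000000000000000000000000) (nat_lit 0x100000f80008000000000020000080000000000000000000000000000000000000000) (nat_lit 4)
theorem c1073 : QOK q1073 := cut [q1066, q1071] ⟨c1066, c1071, trivial⟩ (nd (nat_lit 250) (nat_lit 0) (cs (rf (nat_lit 0)) (rf (nat_lit 1)))) q1073 (by decide +kernel)
def q1076 : Q := Q.p (nat_lit 0x600003c000000000000000000000000000000000000000000000000000) (nat_lit 0x1c00003000000000000000000000000000000000000000000000000000) (nat_lit 3)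
theorem c1076 : QOK q1076 := cut [q1075] ⟨c1075, trivial⟩ (nd (nat_lit 205) (nat_lit 0) (cs (lf (nat_lit 0) (nat_lit 204)) (rf (nat_lit 0)))) q1076 (by decide +kernel)
def q1082 : Q := Q.p (nat_lit 0x1800006800008000020000000000000000000000000000000000000000000000) (nat_lit 0x100000700000400000000000000000000000000000000000000000000000000000000) (nat_lit 3)
theorem c1082 : QOK q1082 := cut [q1081] ⟨c1081, trivial⟩ (nd (nat_lit 250) (nat_lit 0) (cs (lf (nat_lit 41) (nat_lit 184)) (rf (nat_lit 0)))) q1082 (by decide +kernel)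
def q1100 : Q := Q.p (nat_lit 0x340000c000030000000000000000000000000000000000000000000000000000) (nat_lit 0x600001800000800000000000000000000000000000000000000000000000000000000000000) (nat_lit 3)
theorem c1100 : QOK q1100 := cut [q1099] ⟨c1099, trivial⟩ (nd (nat_lit 275) (nat_lit 0) (cs (lf (nat_lit 42) (nat_lit 208)) (rf (nat_lit 0)))) q1100 (by decide +kernel)
def q1110 : Q := Q.p (nat_lit 0x400003000006000018000000000000000000000000000000000000000000000000000) (nat_lit 0x2e0000b80000800000000000000000000000000000000000000000000000000000000000000) (nat_lit 5)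
theorem c1110 : QOK q1110 := cut [q1107] ⟨c1107, trivial⟩ (nd (nat_lit 273) (nat_lit 0) (cs (lf (nat_lit 41) (nat_lit 207)) (nd (nat_lit 272) (nat_lit 0) (cs (lf (nat_lit 12) (nat_lit 249)) (nd (nat_lit 275) (nat_lit 0) (cs (lf (nat_lit 29) (nat_lit 208)) (rf (nat_lit 0)))))))) q1110 (by decide +kernel)
def q1124 : Q := Q.p (nat_lit 0x6000078000000000000000000000000000000000000000000000000000) (nat_lit 0x1000000000000000030000080000200000000000000000000000000000000000) (nat_lit 3)
theorem c1124 : QOK q1124 := cut [q735] ⟨c735, trivial⟩ (nd (nat_lit 185) (nat_lit 0) (cs (lf (nat_lit 23) (nat_lit 184)) (rf (nat_lit 0)))) q1124 (by decide +kernel)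
def q1133 : Q := Q.p (nat_lit 0x3c000030000000000000000000000000000000000000000000000) (nat_lit 0x400001800000000000000080000200000000000000000000000000000000000) (nat_lit 3)
theorem c1133 : QOK q1133 := cut [q1132] ⟨c1132, trivial⟩ (nd (nat_lit 228) (nat_lit 0) (cs (lf (nat_lit 11) (nat_lit 205)) (rf (nat_lit 0)))) q1133 (by decide +kernel)
def q1142 : Q := Q.p (nat_lit 0x800002000004000010000000000000000000000000000000000000000000000000000) (nat_lit 0x80000200000400001000000000000000040000000000000000000000000000000000000000000000) (nat_lit 3)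
theorem c1142 : QOK q1142 := cut [q1140] ⟨c1140, trivial⟩ (nd (nat_lit 252) (nat_lit 0) (cs (rf (nat_lit 0)) (lf (nat_lit 24) (nat_lit 186)))) q1142 (by decide +kernel)
def q1156 : Q := Q.p (nat_lit 0x400001c000000000000000000000000000000000000000000000000000) (nat_lit 0xae00003000000000000000000000000000000000000000000000000000) (nat_lit 4)
theorem c1156 : QOK q1156 := cut [q1155] ⟨c1155, trivial⟩ (nd (nat_lit 205) (nat_lit 0) (cs (lf (nat_lit 5) (nat_lit 205)) (rf (nat_lit 0)))) q1156 (by decide +kernel)
def q1160 : Q := Q.p (nat_lit 0x4000070000040000000000000000000000000000000000000000000000) (nat_lit 0x100000b80000f00003c000080000200000000000000000000000000000000000) (nat_lit 7)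
theorem c1160 : QOK q1160 := cut [q113, q1158] ⟨c113, c1158, trivial⟩ (nd (nat_lit 207) (nat_lit 0) (cs (nd (nat_lit 228) (nat_lit 0) (cs (lf (nat_lit 10) (nat_lit 206)) (nd (nat_lit 206) (nat_lit 0) (cs (lf (nat_lit 11) (nat_lit 205)) (nd (nat_lit 205) (nat_lit 0) (cs (rf (nat_lit 0)) (lf (nat_lit 5) (nat_lit 205)))))))) (cs (nd (nat_lit 228) (nat_lit 0) (cs (lf (nat_lit 10) (nat_lit 206)) (nd (nat_lit 206) (nat_lit 0) (cs (lf (nat_lit 11) (nat_lit 205)) (nd (nat_lit 205) (nat_lit 0) (cs (lf (nat_lit 5) (nat_lit 205)) (nd (nat_lit 185) (nat_lit 0) (cs (lf (nat_lit 12) (nat_lit 182)) (nd (nat_lit 163) (nat_lit 0) (cs (lf (nat_lit 36) (nat_lit 140)) (lf (nat_lit 42) (nat_lit 163)))))))))))) (nd (nat_lit 185) (nat_lit 0) (cs (lf (nat_lit 23) (nat_lit 184)) (rf (nat_lit 1))))))) q1160 (by decide +kernel)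
def q1163 : Q := Q.p (nat_lit 0x40000f0000000000000000000000000000000000000000000000000000) (nat_lit 0xe8000100000000000000000000000000000000000000000000000000000) (nat_lit 3)
theorem c1163 : QOK q1163 := cut [q1161] ⟨c1161, trivial⟩ (nd (nat_lit 212) (nat_lit 0) (cs (rf (nat_lit 0)) (lf (nat_lit 10) (nat_lit 208)))) q1163 (by decide +kernel)
def q1170 : Q := Q.p (nat_lit 0x30000060000000000000000000000000000000000000000000000) (nat_lit 0xc8000018000000000000000000000000000000000000000000000) (nat_lit 3)
theorem c1170 : QOK q1170 := cut [q1169] ⟨c1169, trivial⟩ (nd (nat_lit 184) (nat_lit 0) (cs (lf (nat_lit 0) (nat_lit 183)) (rf (nat_lit 0)))) q1170 (by decide +kernel)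
def q1174 : Q := Q.p (nat_lit 0x4000010000060000000000000000000000000000000000000000000000) (nat_lit 0x1000000000000000000000180000200000800000000000000000000000000000) (nat_lit 3)
theorem c1174 : QOK q1174 := cut [q1173] ⟨c1173, trivial⟩ (nd (nat_lit 163) (nat_lit 0) (cs (lf (nat_lit 42) (nat_lit 163)) (rf (nat_lit 0)))) q1174 (by decide +kernel)
def q1178 : Q := Q.p (nat_lit 0x6000030000000000000000000000000000000000000000000000000000) (nat_lit 0x18000c8000000000000000000000000000000000000000000000000000) (nat_lit 3)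
theorem c1178 : QOK q1178 := cut [q1177] ⟨c1177, trivial⟩ (nd (nat_lit 210) (nat_lit 0) (cs (lf (nat_lit 6) (nat_lit 207)) (rf (nat_lit 0)))) q1178 (by decide +kernel)
def q1180 : Q := Q.p (nat_lit 0xe00003000002000008000000000000000000000000000000000000000000000000000) (nat_lit 0x60000180000800000000000000000000000000000000000000000000000000000000000000) (nat_lit 3)
theorem c1180 : QOK q1180 := cut [q1107] ⟨c1107, trivial⟩ (nd (nat_lit 272) (nat_lit 0) (cs (lf (nat_lit 12) (nat_lit 249)) (rf (nat_lit 0)))) q1180 (by decide +kernel)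
def q1187 : Q := Q.p (nat_lit 0xe00000800002000008000000000000000000000000000000000000000000000000000) (nat_lit 0x40001100000600000000000000000000000000000000000000000000000000000000000000) (nat_lit 3)
theorem c1187 : QOK q1187 := cut [q1186] ⟨c1186, trivial⟩ (nd (nat_lit 272) (nat_lit 0) (cs (lf (nat_lit 41) (nat_lit 206)) (rf (nat_lit 0)))) q1187 (by decide +kernel)
def q1195 : Q := Q.p (nat_lit 0x200000f00000000000000000000000000000000000000000000000000000000000000000000) (nat_lit 0x170000080000000000000000000000000000000000000000000000000000000000000000000) (nat_lit 3)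
theorem c1195 : QOK q1195 := cut [q1193] ⟨c1193, trivial⟩ (nd (nat_lit 271) (nat_lit 0) (cs (rf (nat_lit 0)) (lf (nat_lit 4) (nat_lit 271)))) q1195 (by decide +kernel)
def q1203 : Q := Q.p (nat_lit 0x200000f00000000000000000000000000000000000000000000000000000000000000000000) (nat_lit 0x100000080000700000000000000000000000000000000000000000000000000000000000000) (nat_lit 3)
theorem c1203 : QOK q1203 := cut [q1202] ⟨c1202, trivial⟩ (nd (nat_lit 271) (nat_lit 0) (cs (lf (nat_lit 4) (nat_lit 271)) (rf (nat_lit 0)))) q1203 (by decide +kernel)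
def q1206 : Q := Q.p (nat_lit 0xf00000000000000000000000000000000000000000000000000000000000000000000) (nat_lit 0x70000080000700000000000000000000000000000000000000000000000000000000000000) (nat_lit 4)
theorem c1206 : QOK q1206 := cut [q1202] ⟨c1202, trivial⟩ (nd (nat_lit 293) (nat_lit 0) (cs (lf (nat_lit 10) (nat_lit 271)) (nd (nat_lit 271) (nat_lit 0) (cs (lf (nat_lit 11) (nat_lit 270)) (rf (nat_lit 0)))))) q1206 (by decide +kernel)
def q1225 : Q := Q.p (nat_lit 0x800002000004000010000000000000000000000000000000000000000000000000000) (nat_lit 0x80000200000400001000008000000000000000000000000000000000000000000000000000000000) (nat_lit 3)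
theorem c1225 : QOK q1225 := cut [q1223] ⟨c1223, trivial⟩ (nd (nat_lit 297) (nat_lit 0) (cs (rf (nat_lit 0)) (lf (nat_lit 45) (nat_lit 208)))) q1225 (by decide +kernel)
def q1233 : Q := Q.p (nat_lit 0x2000038000020000040000000000000000000000000000000000000000) (nat_lit 0x80000000000400001c000000000000000000000000000000000000000000000) (nat_lit 3)
theorem c1233 : QOK q1233 := cut [q1231] ⟨c1231, trivial⟩ (nd (nat_lit 184) (nat_lit 0) (cs (rf (nat_lit 0)) (lf (nat_lit 42) (nat_lit 162)))) q1233 (by decide +kernel)
def q1239 : Q := Q.p (nat_lit 0x800006000018000020000000000000000000000000000000000000000000000) (nat_lit 0xc0000300000400000000000000000000000000000000000000000000000000000000000000) (nat_lit 3)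
theorem c1239 : QOK q1239 := cut [q1238] ⟨c1238, trivial⟩ (nd (nat_lit 273) (nat_lit 0) (cs (lf (nat_lit 30) (nat_lit 207)) (rf (nat_lit 0)))) q1239 (by decide +kernel)
def q1258 : Q := Q.p (nat_lit 0xc00003000008000020000000000000000000000000000000000000000000000000000) (nat_lit 0x400007000000800000000000000000000000000000000000000000000000000000000000000) (nat_lit 3)
theorem c1258 : QOK q1258 := cut [q1257] ⟨c1257, trivial⟩ (nd (nat_lit 276) (nat_lit 0) (cs (lf (nat_lit 29) (nat_lit 209)) (rf (nat_lit 0)))) q1258 (by decide +kernel)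
def q1267 : Q := Q.p (nat_lit 0x7000004000000000000000000000000000000000000000000000000000) (nat_lit 0x800000b800000000000000000000000000000000000000000000000000) (nat_lit 3)
theorem c1267 : QOK q1267 := cut [q1266] ⟨c1266, trivial⟩ (nd (nat_lit 205) (nat_lit 0) (cs (lf (nat_lit 18) (nat_lit 205)) (rf (nat_lit 0)))) q1267 (by decide +kernel)
def q1273 : Q := Q.p (nat_lit 0x1000004000010000040000000000000000000000000000000000000000) (nat_lit 0xa0000380000a00000000000000000000000000000) (nat_lit 4)
theorem c1273 : QOK q1273 := cut [q1271] ⟨c1271, trivial⟩ (nd (nat_lit 141) (nat_lit 0) (cs (lf (nat_lit 34) (nat_lit 140)) (nd (nat_lit 140) (nat_lit 0) (cs (lf (nat_lit 35) (nat_lit 118)) (rf (nat_lit 0)))))) q1273 (by decide +kernel)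
def q1279 : Q := Q.p (nat_lit 0x1000004000018000000000000000000000000000000000000000000000) (nat_lit 0x400000000002000000000020000080000200000000000000000000000000000) (nat_lit 3)
theorem c1279 : QOK q1279 := cut [q1277] ⟨c1277, trivial⟩ (nd (nat_lit 161) (nat_lit 0) (cs (rf (nat_lit 0)) (lf (nat_lit 42) (nat_lit 161)))) q1279 (by decide +kernel)
def q1288 : Q := Q.p (nat_lit 0x1000004000018000000000000000000000000000000000000000000000) (nat_lit 0x400000000000000000000060000080000200000000000000000000000000000) (nat_lit 3)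
theorem c1288 : QOK q1288 := cut [q1287] ⟨c1287, trivial⟩ (nd (nat_lit 161) (nat_lit 0) (cs (lf (nat_lit 42) (nat_lit 161)) (rf (nat_lit 0)))) q1288 (by decide +kernel)
def q1306 : Q := Q.p (nat_lit 0xc00003000004000030000000000000000000000000000000000000000000000000000) (nat_lit 0xce0001380000e00008000000000000000000000000000000000000000000000000000000000) (nat_lit 7)
theorem c1306 : QOK q1306 := cut [q1301] ⟨c1301, trivial⟩ (nd (nat_lit 273) (nat_lit 0) (cs (lf (nat_lit 41) (nat_lit 207)) (nd (nat_lit 272) (nat_lit 0) (cs (lf (nat_lit 12) (nat_lit 249)) (nd (nat_lit 250) (nat_lit 0) (cs (lf (nat_lit 23) (nat_lit 249)) (nd (nat_lit 293) (nat_lit 0) (cs (lf (nat_lit 10) (nat_lit 271)) (nd (nat_lit 276) (nat_lit 0) (cs (lf (nat_lit 1) (nat_lit 250)) (rf (nat_lit 0)))))))))))) q1306 (by decide +kernel)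
def q1310 : Q := Q.p (nat_lit 0x1e00003000000000000000000000000000000000000000000000000000000000000000) (nat_lit 0x1c00006000000000000000000000000000000000000000000000000000000000000000000000) (nat_lit 3)
theorem c1310 : QOK q1310 := cut [q1308] ⟨c1308, trivial⟩ (nd (nat_lit 299) (nat_lit 0) (cs (rf (nat_lit 0)) (lf (nat_lit 4) (nat_lit 273)))) q1310 (by decide +kernel)
def q1322 : Q := Q.p (nat_lit 0x400001000004000030000000000000000000000000000000000000000000000000000) (nat_lit 0x20000180000200000000008000000000000000000000000000000000000000000000000000000000) (nat_lit 3)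
theorem c1322 : QOK q1322 := cut [q1320] ⟨c1320, trivial⟩ (nd (nat_lit 295) (nat_lit 0) (cs (rf (nat_lit 0)) (lf (nat_lit 40) (nat_lit 207)))) q1322 (by decide +kernel)
def q1327 : Q := Q.p (nat_lit 0x200000800006000018000000000000000000000000000000000000000000000000000) (nat_lit 0x8000007000010000000000000000000000000000000000000000000000) (nat_lit 3)
theorem c1327 : QOK q1327 := cut [q1079] ⟨c1079, trivial⟩ (nd (nat_lit 206) (nat_lit 0) (cs (rf (nat_lit 0)) (lf (nat_lit 47) (nat_lit 184)))) q1327 (by decide +kernel)
def q1339 : Q := Q.p (nat_lit 0x400001000004000010000000000000000000000000000000000000000000000000000) (nat_lit 0xa0000380000a00000000000000000000000000000000000000000000000000000000000000000000) (nat_lit 4)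
theorem c1339 : QOK q1339 := cut [q1337] ⟨c1337, trivial⟩ (nd (nat_lit 295) (nat_lit 0) (cs (lf (nat_lit 40) (nat_lit 207)) (nd (nat_lit 296) (nat_lit 0) (cs (lf (nat_lit 41) (nat_lit 229)) (rf (nat_lit 0)))))) q1339 (by decide +kernel)
def q1347 : Q := Q.p (nat_lit 0x100000600003c000000000000000000000000000000000000000000000000000) (nat_lit 0x18000000000380000c0000300000000000000000000000000000000000) (nat_lit 5)
theorem c1347 : QOK q1347 := cut [q1345] ⟨c1345, trivial⟩ (nd (nat_lit 228) (nat_lit 0) (cs (lf (nat_lit 11) (nat_lit 205)) (nd (nat_lit 163) (nat_lit 0) (cs (lf (nat_lit 25) (nat_lit 163)) (rf (nat_lit 0)))))) q1347 (by decide +kernel)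
def q1384 : Q := Q.p (nat_lit 0x6000078000000000100000000000000000000000000000000000000000) (nat_lit 0x30000080000600000000000000000000000000000000000) (nat_lit 3)
theorem c1384 : QOK q1384 := cut [q1383] ⟨c1383, trivial⟩ (nd (nat_lit 185) (nat_lit 0) (cs (lf (nat_lit 23) (nat_lit 184)) (rf (nat_lit 0)))) q1384 (by decide +kernel)
def q1399 : Q := Q.p (nat_lit 0xc000070000000000000000000000000000000000000000000000000000) (nat_lit 0x8000060000188000700000400001000000000000000000000000000000000000) (nat_lit 6)
theorem c1399 : QOK q1399 := cut [q1397] ⟨c1397, trivial⟩ (nd (nat_lit 211) (nat_lit 0) (cs (lf (nat_lit 6) (nat_lit 208)) (nd (nat_lit 233) (nat_lit 0) (cs (lf (nat_lit 5) (nat_lit 208)) (rf (nat_lit 0)))))) q1399 (by decide +kernel)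
def q1402 : Q := Q.p (nat_lit 0x80000200000c000030000000000000000000000000000000000000000000000000000) (nat_lit 0x20001c0000100000000000000000000000000000000000000000000000) (nat_lit 3)
theorem c1402 : QOK q1402 := cut [q756] ⟨c756, trivial⟩ (nd (nat_lit 210) (nat_lit 0) (cs (lf (nat_lit 35) (nat_lit 187)) (rf (nat_lit 0)))) q1402 (by decide +kernel)
def q1408 : Q := Q.p (nat_lit 0x1000004000010000040000000000000000000000000000000000000000000000) (nat_lit 0x200000800002000000000020000180000200000000000000000000000000000000000) (nat_lit 4)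
theorem c1408 : QOK q1408 := cut [q497] ⟨c497, trivial⟩ (nd (nat_lit 251) (nat_lit 0) (cs (lf (nat_lit 41) (nat_lit 185)) (nd (nat_lit 164) (nat_lit 0) (cs (lf (nat_lit 40) (nat_lit 163)) (rf (nat_lit 0)))))) q1408 (by decide +kernel)
def q1411 : Q := Q.p (nat_lit 0x1000004000018000000000000000000000000000000000000000000000000000) (nat_lit 0x400000000002000000000020000080000200000000000000000000000000000000000) (nat_lit 3)
theorem c1411 : QOK q1411 := cut [q1410] ⟨c1410, trivial⟩ (nd (nat_lit 185) (nat_lit 0) (cs (lf (nat_lit 42) (nat_lit 185)) (rf (nat_lit 0)))) q1411 (by decide +kernel)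
def q1412 : Q := Q.p (nat_lit 0x38000020000000000000000000000000000000000000000000000) (nat_lit 0x4400001c000000000000000000000000000000000000000000000) (nat_lit 3)
theorem c1412 : QOK q1412 := cut [q1231] ⟨c1231, trivial⟩ (nd (nat_lit 184) (nat_lit 0) (cs (lf (nat_lit 18) (nat_lit 184)) (rf (nat_lit 0)))) q1412 (by decide +kernel)
def q1414 : Q := Q.p (nat_lit 0x400001e000000000000000000000000000000000000000000000000000) (nat_lit 0x2e00001000000000000000000000000000000000000000000000000000) (nat_lit 3)
theorem c1414 : QOK q1414 := cut [q153] ⟨c153, trivial⟩ (nd (nat_lit 204) (nat_lit 0) (cs (rf (nat_lit 0)) (lf (nat_lit 4) (nat_lit 204)))) q1414 (by decide +kernel)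
def q1417 : Q := Q.p (nat_lit 0x400001e000000000000000000000000000000000000000000000000000) (nat_lit 0x200000100000e000000000000000000000000000000000000000000000) (nat_lit 3)
theorem c1417 : QOK q1417 := cut [q126] ⟨c126, trivial⟩ (nd (nat_lit 204) (nat_lit 0) (cs (rf (nat_lit 0)) (lf (nat_lit 4) (nat_lit 204)))) q1417 (by decide +kernel)
def q1430 : Q := Q.p (nat_lit 0x400001000004000038000000000000000000000000000000000000000000000000000) (nat_lit 0x1000000000000000030000c0000000000000000000000000000000000000000000000000000) (nat_lit 3)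
theorem c1430 : QOK q1430 := cut [q674] ⟨c674, trivial⟩ (nd (nat_lit 229) (nat_lit 0) (cs (rf (nat_lit 0)) (lf (nat_lit 42) (nat_lit 207)))) q1430 (by decide +kernel)
def q1434 : Q := Q.p (nat_lit 0x30000060000000000000000000000000000000000000000000000) (nat_lit 0xc8000018000000000000000000000000000000000000000000000) (nat_lit 3)
theorem c1434 : QOK q1434 := cut [q37] ⟨c37, trivial⟩ (nd (nat_lit 210) (nat_lit 0) (cs (rf (nat_lit 0)) (lf (nat_lit 18) (nat_lit 185)))) q1434 (by decide +kernel)
def q1457 : Q := Q.p (nat_lit 0x2000078000020000000000000000000000000000000000000000000000) (nat_lit 0x800000000080000040000100000400000000000000000000000000000000000) (nat_lit 3)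
theorem c1457 : QOK q1457 := cut [q90] ⟨c90, trivial⟩ (nd (nat_lit 186) (nat_lit 0) (cs (lf (nat_lit 18) (nat_lit 185)) (rf (nat_lit 0)))) q1457 (by decide +kernel)
def q1468 : Q := Q.p (nat_lit 0x38000080000000000000000000000000000000000000000000000) (nat_lit 0x4000740000000000000000000000000000000000000000000000) (nat_lit 3)
theorem c1468 : QOK q1468 := cut [q1467] ⟨c1467, trivial⟩ (nd (nat_lit 188) (nat_lit 0) (cs (lf (nat_lit 12) (nat_lit 184)) (rf (nat_lit 0)))) q1468 (by decide +kernel)
def q1473 : Q := Q.p (nat_lit 0x2000000000030000180000000000000000000000000000000000000000000000) (nat_lit 0x800000000008000000000040000500000000000000000000000000000000000000000) (nat_lit 3)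
theorem c1473 : QOK q1473 := cut [q1472] ⟨c1472, trivial⟩ (nd (nat_lit 231) (nat_lit 0) (cs (lf (nat_lit 35) (nat_lit 165)) (rf (nat_lit 0)))) q1473 (by decide +kernel)
def q1475 : Q := Q.p (nat_lit 0x38000080000000000000000000000000000000000000000000000) (nat_lit 0x44000700000000000000000000000000000000000000000000000) (nat_lit 3)
theorem c1475 : QOK q1475 := cut [q742] ⟨c742, trivial⟩ (nd (nat_lit 188) (nat_lit 0) (cs (lf (nat_lit 12) (nat_lit 184)) (rf (nat_lit 0)))) q1475 (by decide +kernel)
def q1483 : Q := Q.p (nat_lit 0x78000000000000000000000000000000000000000000000000000) (nat_lit 0x80000770000000000000000000000000000000000000000000000) (nat_lit 4)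
theorem c1483 : QOK q1483 := cut [q1481] ⟨c1481, trivial⟩ (nd (nat_lit 185) (nat_lit 0) (cs (lf (nat_lit 23) (nat_lit 184)) (nd (nat_lit 189) (nat_lit 0) (cs (lf (nat_lit 16) (nat_lit 185)) (rf (nat_lit 0)))))) q1483 (by decide +kernel)
def q1485 : Q := Q.p (nat_lit 0x100003c000010000000000000000000000000000000000000000000000) (nat_lit 0x400000000040000020000080000200000000000000000000000000000000000) (nat_lit 3)
theorem c1485 : QOK q1485 := cut [q1132] ⟨c1132, trivial⟩ (nd (nat_lit 185) (nat_lit 0) (cs (lf (nat_lit 18) (nat_lit 184)) (rf (nat_lit 0)))) q1485 (by decide +kernel)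
def q1491 : Q := Q.p (nat_lit 0x1000038000000000000000000000000000000000000000000000000000) (nat_lit 0x2c00044000000000000000000000000000000000000000000000000000) (nat_lit 3)
theorem c1491 : QOK q1491 := cut [q1490] ⟨c1490, trivial⟩ (nd (nat_lit 229) (nat_lit 0) (cs (lf (nat_lit 6) (nat_lit 206)) (rf (nat_lit 0)))) q1491 (by decide +kernel)
def q1496 : Q := Q.p (nat_lit 0x40000100000c000000000000000000000000000000000000000000000000000) (nat_lit 0x100000000002000000000020000080000200000000000000000000000000000000000) (nat_lit 3)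
theorem c1496 : QOK q1496 := cut [q1495] ⟨c1495, trivial⟩ (nd (nat_lit 185) (nat_lit 0) (cs (lf (nat_lit 30) (nat_lit 184)) (rf (nat_lit 0)))) q1496 (by decide +kernel)
def q1500 : Q := Q.p (nat_lit 0x40000100000c000010000000000000000000000000000000000000000000000) (nat_lit 0x8000020000000000200000c0000300000000000000000000000000000000000) (nat_lit 4)
theorem c1500 : QOK q1500 := cut [q1497] ⟨c1497, trivial⟩ (nd (nat_lit 163) (nat_lit 0) (cs (nd (nat_lit 162) (nat_lit 0) (cs (lf (nat_lit 35) (nat_lit 140)) (rf (nat_lit 0)))) (lf (nat_lit 34) (nat_lit 162)))) q1500 (by decide +kernel)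
def q1519 : Q := Q.p (nat_lit 0x200000000003c000000000000000000000000000000000000000000000000000) (nat_lit 0x80000080000b0000c30000fc000100000400000000000000000000000000000000000) (nat_lit 9)
theorem c1519 : QOK q1519 := cut [q1515] ⟨c1515, trivial⟩ (nd (nat_lit 183) (nat_lit 0) (cs (lf (nat_lit 22) (nat_lit 183)) (nd (nat_lit 205) (nat_lit 0) (cs (lf (nat_lit 23) (nat_lit 182)) (nd (nat_lit 186) (nat_lit 0) (cs (lf (nat_lit 17) (nat_lit 183)) (nd (nat_lit 231) (nat_lit 0) (cs (lf (nat_lit 42) (nat_lit 186)) (rf (nat_lit 0)))))))))) q1519 (by decide +kernel)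
def q1540 : Q := Q.p (nat_lit 0x240000100001c000000000000000000000000000000000000000000000000000) (nat_lit 0xe0000380001800002000000000060000000000000000000000000000000000000000000000) (nat_lit 6)
theorem c1540 : QOK q1540 := cut [q1533] ⟨c1533, trivial⟩ (nd (nat_lit 272) (nat_lit 0) (cs (nd (nat_lit 271) (nat_lit 0) (cs (nd (nat_lit 229) (nat_lit 0) (cs (lf (nat_lit 30) (nat_lit 206)) (nd (nat_lit 251) (nat_lit 0) (cs (rf (nat_lit 0)) (lf (nat_lit 7) (nat_lit 249)))))) (lf (nat_lit 41) (nat_lit 205)))) (lf (nat_lit 35) (nat_lit 184)))) q1540 (by decide +kernel)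
def q1550 : Q := Q.p (nat_lit 0x3c000000000000000000000000000000000000000000000000000) (nat_lit 0x1c000020001c0000000000000000000000000000000000000000000000) (nat_lit 4)
theorem c1550 : QOK q1550 := cut [q1548] ⟨c1548, trivial⟩ (nd (nat_lit 227) (nat_lit 0) (cs (lf (nat_lit 10) (nat_lit 205)) (nd (nat_lit 205) (nat_lit 0) (cs (lf (nat_lit 11) (nat_lit 204)) (rf (nat_lit 0)))))) q1550 (by decide +kernel)
def q1555 : Q := Q.p (nat_lit 0x200000000003c000000000000000000000000000000000000000000000000000) (nat_lit 0x8000000000080000020001c0000100000000000000000000000000000000000000000) (nat_lit 4)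
theorem c1555 : QOK q1555 := cut [q1553] ⟨c1553, trivial⟩ (nd (nat_lit 187) (nat_lit 0) (cs (lf (nat_lit 17) (nat_lit 184)) (nd (nat_lit 186) (nat_lit 0) (cs (lf (nat_lit 12) (nat_lit 183)) (rf (nat_lit 0)))))) q1555 (by decide +kernel)
def q1559 : Q := Q.p (nat_lit 0x38000010000000000000000000000000000000000000000000000) (nat_lit 0x4000006c000000000000000000000000000000000000000000000) (nat_lit 3)
theorem c1559 : QOK q1559 := cut [q1558] ⟨c1558, trivial⟩ (nd (nat_lit 185) (nat_lit 0) (cs (lf (nat_lit 18) (nat_lit 184)) (rf (nat_lit 0)))) q1559 (by decide +kernel)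
def q1563 : Q := Q.p (nat_lit 0x2000008000030000000000000000000000000000000000000000000000000000) (nat_lit 0x800000000004000000000040000100000400000000000000000000000000000000000) (nat_lit 3)
theorem c1563 : QOK q1563 := cut [q1562] ⟨c1562, trivial⟩ (nd (nat_lit 186) (nat_lit 0) (cs (lf (nat_lit 42) (nat_lit 186)) (rf (nat_lit 0)))) q1563 (by decide +kernel)
def q1568 : Q := Q.p (nat_lit 0x2000008000020000080000000000000000000000000000000000000000000000) (nat_lit 0x400001000004000000000040000300000400000000000000000000000000000000000) (nat_lit 4)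
theorem c1568 : QOK q1568 := cut [q1565] ⟨c1565, trivial⟩ (nd (nat_lit 164) (nat_lit 0) (cs (nd (nat_lit 252) (nat_lit 0) (cs (lf (nat_lit 41) (nat_lit 186)) (rf (nat_lit 0)))) (lf (nat_lit 46) (nat_lit 164)))) q1568 (by decide +kernel)
def q1576 : Q := Q.p (nat_lit 0x20000080000300000c0000000000000000000000000000000000000000000000) (nat_lit 0x4000010000040001c00007200004c0000000000000000000000000000000000000000) (nat_lit 7)
theorem c1576 : QOK q1576 := cut [q1570] ⟨c1570, trivial⟩ (nd (nat_lit 252) (nat_lit 0) (cs (lf (nat_lit 41) (nat_lit 186)) (nd (nat_lit 188) (nat_lit 0) (cs (lf (nat_lit 35) (nat_lit 165)) (nd (nat_lit 189) (nat_lit 0) (cs (lf (nat_lit 6) (nat_lit 186)) (nd (nat_lit 211) (nat_lit 0) (cs (lf (nat_lit 5) (nat_lit 186)) (nd (nat_lit 185) (nat_lit 0) (cs (rf (nat_lit 0)) (lf (nat_lit 19) (nat_lit 185)))))))))))) q1576 (by decide +kernel)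
def q1580 : Q := Q.p (nat_lit 0x2000008000020000080000000000000000000000000000000000000000000000) (nat_lit 0x140000700001400000000000000000000000000000000000) (nat_lit 4)
theorem c1580 : QOK q1580 := cut [q1578] ⟨c1578, trivial⟩ (nd (nat_lit 166) (nat_lit 0) (cs (lf (nat_lit 34) (nat_lit 165)) (nd (nat_lit 165) (nat_lit 0) (cs (lf (nat_lit 35) (nat_lit 143)) (rf (nat_lit 0)))))) q1580 (by decide +kernel)
def q1584 : Q := Q.p (nat_lit 0x2000008000030000080000000000000000000000000000000000000000000000) (nat_lit 0x1000004000000000100000600001800000000000000000000000000000000000) (nat_lit 4)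
theorem c1584 : QOK q1584 := cut [q1582] ⟨c1582, trivial⟩ (nd (nat_lit 166) (nat_lit 0) (cs (lf (nat_lit 34) (nat_lit 165)) (nd (nat_lit 165) (nat_lit 0) (cs (lf (nat_lit 35) (nat_lit 143)) (rf (nat_lit 0)))))) q1584 (by decide +kernel)
def q1587 : Q := Q.p (nat_lit 0x800002000008000020000100000000000000000000000000000000000000000000000) (nat_lit 0x100000400001000000000000000080000400000000000000000000000000000000000000000) (nat_lit 3)
theorem c1587 : QOK q1587 := cut [q1586] ⟨c1586, trivial⟩ (nd (nat_lit 274) (nat_lit 0) (cs (lf (nat_lit 41) (nat_lit 208)) (rf (nat_lit 0)))) q1587 (by decide +kernel)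
def q1592 : Q := Q.p (nat_lit 0xc00002000008000020000000000000000000000000000000000000000000000000000) (nat_lit 0x1000000000040000180000400000000000000000000000000000000000000000) (nat_lit 3)
theorem c1592 : QOK q1592 := cut [q1591] ⟨c1591, trivial⟩ (nd (nat_lit 187) (nat_lit 0) (cs (lf (nat_lit 40) (nat_lit 186)) (rf (nat_lit 0)))) q1592 (by decide +kernel)
def q1595 : Q := Q.p (nat_lit 0x2000008000030000000000000000000000000000000000000000000000000000) (nat_lit 0x8000000000000000000000c0000100000400000000000000000000000000000000000) (nat_lit 3)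
theorem c1595 : QOK q1595 := cut [q33] ⟨c33, trivial⟩ (nd (nat_lit 186) (nat_lit 0) (cs (rf (nat_lit 0)) (lf (nat_lit 42) (nat_lit 186)))) q1595 (by decide +kernel)
def q1597 : Q := Q.p (nat_lit 0x38000020000000000000000000000000000000000000000000000) (nat_lit 0x4000005c000000000000000000000000000000000000000000000) (nat_lit 3)
theorem c1597 : QOK q1597 := cut [q1558] ⟨c1558, trivial⟩ (nd (nat_lit 184) (nat_lit 0) (cs (lf (nat_lit 18) (nat_lit 184)) (rf (nat_lit 0)))) q1597 (by decide +kernel)
def q1604 : Q := Q.p (nat_lit 0xf0000100000000000000000000000000000000000000000000000) (nat_lit 0xe0000300001c80000000000000000000000000000000000000000000000) (nat_lit 5)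
theorem c1604 : QOK q1604 := cut [q1600] ⟨c1600, trivial⟩ (nd (nat_lit 234) (nat_lit 0) (cs (lf (nat_lit 4) (nat_lit 208)) (nd (nat_lit 212) (nat_lit 0) (cs (lf (nat_lit 5) (nat_lit 209)) (nd (nat_lit 213) (nat_lit 0) (cs (rf (nat_lit 0)) (lf (nat_lit 23) (nat_lit 187)))))))) q1604 (by decide +kernel)
def q1615 : Q := Q.p (nat_lit 0x18000020000080000000000000000000000000000000000000000) (nat_lit 0x4000000000040000000000600001800004000000000000000000000000) (nat_lit 4)
theorem c1615 : QOK q1615 := cut [q1613] ⟨c1613, trivial⟩ (nd (nat_lit 141) (nat_lit 0) (cs (rf (nat_lit 0)) (lf (nat_lit 29) (nat_lit 141)))) q1615 (by decide +kernel)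
def q1620 : Q := Q.p (nat_lit 0x8000020000080000200000000000000000000000000000000000) (nat_lit 0x500001c00005000000000000000000000000) (nat_lit 4)
theorem c1620 : QOK q1620 := cut [q1618] ⟨c1618, trivial⟩ (nd (nat_lit 120) (nat_lit 0) (cs (lf (nat_lit 34) (nat_lit 119)) (nd (nat_lit 119) (nat_lit 0) (cs (lf (nat_lit 35) (nat_lit 97)) (rf (nat_lit 0)))))) q1620 (by decide +kernel)
def q1623 : Q := Q.p (nat_lit 0x2000038000020000080000000000000000000000000000000000000000) (nat_lit 0x1400005800000000000000000000000000000000000000000000000000000000) (nat_lit 3)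
theorem c1623 : QOK q1623 := cut [q1622] ⟨c1622, trivial⟩ (nd (nat_lit 230) (nat_lit 0) (cs (lf (nat_lit 29) (nat_lit 163)) (rf (nat_lit 0)))) q1623 (by decide +kernel)
def q1639 : Q := Q.p (nat_lit 0x18000020000080000200000000000000000000000000000000000) (nat_lit 0x40000000000100000c00001000000000000000000000000) (nat_lit 3)
theorem c1639 : QOK q1639 := cut [q1618] ⟨c1618, trivial⟩ (nd (nat_lit 119) (nat_lit 0) (cs (lf (nat_lit 28) (nat_lit 119)) (rf (nat_lit 0)))) q1639 (by decide +kernel)
def q1644 : Q := Q.p (nat_lit 0x8000020000080000400000000000000000000000000000000000) (nat_lit 0x2000000000040000100000000001000004000000000000000000000000) (nat_lit 3)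
theorem c1644 : QOK q1644 := cut [q1643] ⟨c1643, trivial⟩ (nd (nat_lit 164) (nat_lit 0) (cs (lf (nat_lit 30) (nat_lit 141)) (rf (nat_lit 0)))) q1644 (by decide +kernel)
def q1650 : Q := Q.p (nat_lit 0x10000040000180000400000000000000000000000000000000000) (nat_lit 0x260003800002000000000000000000000000000000) (nat_lit 4)
theorem c1650 : QOK q1650 := cut [q1649] ⟨c1649, trivial⟩ (nd (nat_lit 143) (nat_lit 0) (cs (lf (nat_lit 35) (nat_lit 120)) (rf (nat_lit 0)))) q1650 (by decide +kernel)
def q1663 : Q := Q.p (nat_lit 0x2000018000060000080000000000000000000000000000000000000000) (nat_lit 0x40000300000c00000000000000000000000000000) (nat_lit 3)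
theorem c1663 : QOK q1663 := cut [q1662] ⟨c1662, trivial⟩ (nd (nat_lit 140) (nat_lit 0) (cs (lf (nat_lit 46) (nat_lit 140)) (rf (nat_lit 0)))) q1663 (by decide +kernel)
def q1699 : Q := Q.p (nat_lit 0x20000080000300000c00000000000000000000000000000000000) (nat_lit 0x80007000004000000000000000000000000000000) (nat_lit 3)
theorem c1699 : QOK q1699 := cut [q1698] ⟨c1698, trivial⟩ (nd (nat_lit 144) (nat_lit 0) (cs (lf (nat_lit 35) (nat_lit 121)) (rf (nat_lit 0)))) q1699 (by decide +kernel)
def q1719 : Q := Q.p (nat_lit 0x800002000018000020000000000000000000000000000000000000000000000) (nat_lit 0x100000600001000000000000000040000000000000000000000000000000000000000000000) (nat_lit 3)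
theorem c1719 : QOK q1719 := cut [q1718] ⟨c1718, trivial⟩ (nd (nat_lit 273) (nat_lit 0) (cs (lf (nat_lit 35) (nat_lit 185)) (rf (nat_lit 0)))) q1719 (by decide +kernel)
def q1756 : Q := Q.p (nat_lit 0x100000400001000004000000000000000000000000000000) (nat_lit 0xa0000380000a0000000000000000000) (nat_lit 4)
theorem c1756 : QOK q1756 := cut [q1752] ⟨c1752, trivial⟩ (nd (nat_lit 101) (nat_lit 0) (cs (nd (nat_lit 100) (nat_lit 0) (cs (rf (nat_lit 0)) (lf (nat_lit 35) (nat_lit 78)))) (lf (nat_lit 34) (nat_lit 100)))) q1756 (by decide +kernel)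
def q1774 : Q := Q.p (nat_lit 0x2000018000040000000000000000000000000000000000000000000000) (nat_lit 0x200000800004000000000000000100000400000000000000000000000000000000000) (nat_lit 3)
theorem c1774 : QOK q1774 := cut [q1773] ⟨c1773, trivial⟩ (nd (nat_lit 251) (nat_lit 0) (cs (lf (nat_lit 30) (nat_lit 185)) (rf (nat_lit 0)))) q1774 (by decide +kernel)
def q1800 : Q := Q.p (nat_lit 0x180001e0000000000000000000000000000000000000000000000) (nat_lit 0x40000000000000000c0000200000800000000000000000000000000000) (nat_lit 3)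
theorem c1800 : QOK q1800 := cut [q1799] ⟨c1799, trivial⟩ (nd (nat_lit 163) (nat_lit 0) (cs (lf (nat_lit 23) (nat_lit 162)) (rf (nat_lit 0)))) q1800 (by decide +kernel)
def q1820 : Q := Q.p (nat_lit 0x2000004000030000040000000000000000000000000000000000000000000000) (nat_lit 0xc00001000000000000000080000200000000000000000000000000000000000000000) (nat_lit 3)
theorem c1820 : QOK q1820 := cut [q1819] ⟨c1819, trivial⟩ (nd (nat_lit 252) (nat_lit 0) (cs (lf (nat_lit 29) (nat_lit 186)) (rf (nat_lit 0)))) q1820 (by decide +kernel)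
def q1824 : Q := Q.p (nat_lit 0x2000004000018000040000000000000000000000000000000000000000000000) (nat_lit 0xc00001000000000000000020000080000000000000000000000000000000000000000) (nat_lit 3)
theorem c1824 : QOK q1824 := cut [q1823] ⟨c1823, trivial⟩ (nd (nat_lit 252) (nat_lit 0) (cs (lf (nat_lit 29) (nat_lit 186)) (rf (nat_lit 0)))) q1824 (by decide +kernel)
def q1828 : Q := Q.p (nat_lit 0x2000018000040000000000000000000000000000000000000000000000) (nat_lit 0x200000800000000000000020000100000400000000000000000000000000000000000) (nat_lit 3)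
theorem c1828 : QOK q1828 := cut [q1827] ⟨c1827, trivial⟩ (nd (nat_lit 251) (nat_lit 0) (cs (lf (nat_lit 30) (nat_lit 185)) (rf (nat_lit 0)))) q1828 (by decide +kernel)
def q1830 : Q := Q.p (nat_lit 0x2000018000040000000000000000000000000000000000000000000000) (nat_lit 0x200000800004000000000020000100000000000000000000000000000000000000000) (nat_lit 3)
theorem c1830 : QOK q1830 := cut [q1829] ⟨c1829, trivial⟩ (nd (nat_lit 251) (nat_lit 0) (cs (lf (nat_lit 30) (nat_lit 185)) (rf (nat_lit 0)))) q1830 (by decide +kernel)
def q1832 : Q := Q.p (nat_lit 0x800002000018000000000000000000000000000000000000000000000000000) (nat_lit 0x200000000004000000000040000100000400000000000000000000000000000000000) (nat_lit 3)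
theorem c1832 : QOK q1832 := cut [q1773] ⟨c1773, trivial⟩ (nd (nat_lit 186) (nat_lit 0) (cs (lf (nat_lit 30) (nat_lit 185)) (rf (nat_lit 0)))) q1832 (by decide +kernel)
def q1836 : Q := Q.p (nat_lit 0x3800002000008000000000000000000000000000000000000000000000000000) (nat_lit 0x500000400001800000000020000080000000000000000000000000000000000000000) (nat_lit 4)
theorem c1836 : QOK q1836 := cut [q1835] ⟨c1835, trivial⟩ (nd (nat_lit 185) (nat_lit 0) (cs (lf (nat_lit 29) (nat_lit 185)) (rf (nat_lit 0)))) q1836 (by decide +kernel)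
def q1837 : Q := Q.p (nat_lit 0x3000000000030000040000000000000000000000000000000000000000000000) (nat_lit 0xc00000000004000000000080000200000000000000000000000000000000000000000) (nat_lit 3)
theorem c1837 : QOK q1837 := cut [q1819] ⟨c1819, trivial⟩ (nd (nat_lit 230) (nat_lit 0) (cs (lf (nat_lit 29) (nat_lit 186)) (rf (nat_lit 0)))) q1837 (by decide +kernel)
def q1845 : Q := Q.p (nat_lit 0x200000800002000008000000000000000000000000000000000000000000000000000) (nat_lit 0x140000500001400000000000000020000000000000000000000000000000000000000000000) (nat_lit 4)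
theorem c1845 : QOK q1845 := cut [q1718] ⟨c1718, trivial⟩ (nd (nat_lit 272) (nat_lit 0) (cs (lf (nat_lit 41) (nat_lit 206)) (nd (nat_lit 185) (nat_lit 0) (cs (lf (nat_lit 40) (nat_lit 184)) (rf (nat_lit 0)))))) q1845 (by decide +kernel)
def q1847 : Q := Q.p (nat_lit 0x200000800002000038000000000000000000000000000000000000000000000000000) (nat_lit 0x1800004000010000058000000000a0000000000000000000000000000000000000000000000) (nat_lit 5)
theorem c1847 : QOK q1847 := cut [q1013] ⟨c1013, trivial⟩ (nd (nat_lit 230) (nat_lit 0) (cs (lf (nat_lit 30) (nat_lit 207)) (nd (nat_lit 227) (nat_lit 0) (cs (rf (nat_lit 0)) (lf (nat_lit 13) (nat_lit 205)))))) q1847 (by decide +kernel)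
def q1848 : Q := Q.p (nat_lit 0x200000800002000018000020000000000000000000000000000000000000000000000) (nat_lit 0x80000000001000004000000000000000080000200000000000000000000000000000000000) (nat_lit 3)
theorem c1848 : QOK q1848 := cut [q735] ⟨c735, trivial⟩ (nd (nat_lit 230) (nat_lit 0) (cs (rf (nat_lit 0)) (lf (nat_lit 30) (nat_lit 207)))) q1848 (by decide +kernel)
def q1855 : Q := Q.p (nat_lit 0x200002800002000038000000000000000000000000000000000000000000000000000) (nat_lit 0x1c0000580001000005800000000080000000000000000000000000000000000000000000000) (nat_lit 6)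
theorem c1855 : QOK q1855 := cut [q1054] ⟨c1054, trivial⟩ (nd (nat_lit 272) (nat_lit 0) (cs (lf (nat_lit 41) (nat_lit 206)) (nd (nat_lit 230) (nat_lit 0) (cs (lf (nat_lit 30) (nat_lit 207)) (nd (nat_lit 227) (nat_lit 0) (cs (rf (nat_lit 0)) (lf (nat_lit 13) (nat_lit 205)))))))) q1855 (by decide +kernel)
def q1857 : Q := Q.p (nat_lit 0x800002000018000000000000000000000000000000000000000000000000000) (nat_lit 0x200000000000000000000060000100000400000000000000000000000000000000000) (nat_lit 3)
theorem c1857 : QOK q1857 := cut [q1827] ⟨c1827, trivial⟩ (nd (nat_lit 186) (nat_lit 0) (cs (lf (nat_lit 30) (nat_lit 185)) (rf (nat_lit 0)))) q1857 (by decide +kernel)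
def q1860 : Q := Q.p (nat_lit 0xf0000040000000000000000000000000000000000000000000000) (nat_lit 0xe0000100000080000000000000000000000000000000000000000000000) (nat_lit 3)
theorem c1860 : QOK q1860 := cut [q1161] ⟨c1161, trivial⟩ (nd (nat_lit 212) (nat_lit 0) (cs (rf (nat_lit 0)) (lf (nat_lit 22) (nat_lit 186)))) q1860 (by decide +kernel)
def q1885 : Q := Q.p (nat_lit 0x6000018000020000080000000000000000000000000000000000000000) (nat_lit 0xc0000300000c00000000000000040000140000500000000000000000000000000000000000) (nat_lit 6)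
theorem c1885 : QOK q1885 := cut [q1884] ⟨c1884, trivial⟩ (nd (nat_lit 140) (nat_lit 0) (cs (lf (nat_lit 46) (nat_lit 140)) (rf (nat_lit 0)))) q1885 (by decide +kernel)
def q1918 : Q := Q.p (nat_lit 0x58000160000480001000000000000000000000000000000000000) (nat_lit 0x2000000000000000300002400009000000000000000000000000000000) (nat_lit 4)
theorem c1918 : QOK q1918 := cut [q1916] ⟨c1916, trivial⟩ (nd (nat_lit 145) (nat_lit 0) (cs (lf (nat_lit 35) (nat_lit 122)) (nd (nat_lit 164) (nat_lit 0) (cs (lf (nat_lit 14) (nat_lit 141)) (rf (nat_lit 0)))))) q1918 (by decide +kernel)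
def q1927 : Q := Q.p (nat_lit 0x10000040000180000600000000000000000000000000000000000) (nat_lit 0x40003800002000000000000000000000000000000) (nat_lit 3)
theorem c1927 : QOK q1927 := cut [q1926] ⟨c1926, trivial⟩ (nd (nat_lit 143) (nat_lit 0) (cs (lf (nat_lit 35) (nat_lit 120)) (rf (nat_lit 0)))) q1927 (by decide +kernel)
def q1935 : Q := Q.p (nat_lit 0x80000200000c0000300000000000000000000000000000000000) (nat_lit 0x20001c00001000000000000000000000000000000) (nat_lit 3)
theorem c1935 : QOK q1935 := cut [q1934] ⟨c1934, trivial⟩ (nd (nat_lit 142) (nat_lit 0) (cs (lf (nat_lit 35) (nat_lit 119)) (rf (nat_lit 0)))) q1935 (by decide +kernel)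
def q1946 : Q := Q.p (nat_lit 0x20000080000200000800000000000000000000000000000000000) (nat_lit 0x1400007000014000000000000000000000000) (nat_lit 4)
theorem c1946 : QOK q1946 := cut [q1942] ⟨c1942, trivial⟩ (nd (nat_lit 122) (nat_lit 0) (cs (nd (nat_lit 121) (nat_lit 0) (cs (rf (nat_lit 0)) (lf (nat_lit 35) (nat_lit 99)))) (lf (nat_lit 34) (nat_lit 121)))) q1946 (by decide +kernel)
def q1981 : Q := Q.p (nat_lit 0x78000060000000000000000000000000000000000000000000000) (nat_lit 0x800003000000000000000100000400000000000000000000000000000000000) (nat_lit 3)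
theorem c1981 : QOK q1981 := cut [q90] ⟨c90, trivial⟩ (nd (nat_lit 229) (nat_lit 0) (cs (rf (nat_lit 0)) (lf (nat_lit 11) (nat_lit 206)))) q1981 (by decide +kernel)
def q1992 : Q := Q.p (nat_lit 0x800002000008000030000000000000000000000000000000000000000000000000000) (nat_lit 0x200000000001000004000040000180000600000800000000000000000000000000000000000) (nat_lit 5)
theorem c1992 : QOK q1992 := cut [q1989] ⟨c1989, trivial⟩ (nd (nat_lit 188) (nat_lit 0) (cs (lf (nat_lit 34) (nat_lit 187)) (nd (nat_lit 230) (nat_lit 0) (cs (lf (nat_lit 42) (nat_lit 208)) (nd (nat_lit 187) (nat_lit 0) (cs (lf (nat_lit 35) (nat_lit 165)) (rf (nat_lit 0)))))))) q1992 (by decide +kernel)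
def q1998 : Q := Q.p (nat_lit 0x800003c00000000000000000000000000000000000000000000000000000000000000) (nat_lit 0x5c0000200000000000000000000000000000000000000000000000000000000000000) (nat_lit 3)
theorem c1998 : QOK q1998 := cut [q1996] ⟨c1996, trivial⟩ (nd (nat_lit 271) (nat_lit 0) (cs (rf (nat_lit 0)) (lf (nat_lit 10) (nat_lit 249)))) q1998 (by decide +kernel)
def q2016 : Q := Q.p (nat_lit 0x38000100000000000000000000000000000000000000000000000) (nat_lit 0x40006c0000000000000000000000000000000000000000000000) (nat_lit 3)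
theorem c2016 : QOK q2016 := cut [q1467] ⟨c1467, trivial⟩ (nd (nat_lit 187) (nat_lit 0) (cs (lf (nat_lit 12) (nat_lit 184)) (rf (nat_lit 0)))) q2016 (by decide +kernel)
def q2020 : Q := Q.p (nat_lit 0x80000000000c000010000000000000000000000000000000000000000000000) (nat_lit 0x200000000002000000000020000040000100000000000000000000000000000000000) (nat_lit 3)
theorem c2020 : QOK q2020 := cut [q2019] ⟨c2019, trivial⟩ (nd (nat_lit 229) (nat_lit 0) (cs (lf (nat_lit 42) (nat_lit 184)) (rf (nat_lit 0)))) q2020 (by decide +kernel)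
def q2032 : Q := Q.p (nat_lit 0x20000480000200000800000000000000000000000000000000000000000000000000000000000000) (nat_lit 0x140000d0000300000000000000000000000000000000000000000000000000000000000000000000000000) (nat_lit 4)
theorem c2032 : QOK q2032 := cut [q2028] ⟨c2028, trivial⟩ (nd (nat_lit 318) (nat_lit 0) (cs (nd (nat_lit 316) (nat_lit 0) (cs (rf (nat_lit 0)) (lf (nat_lit 41) (nat_lit 250)))) (lf (nat_lit 29) (nat_lit 251)))) q2032 (by decide +kernel)
def q2049 : Q := Q.p (nat_lit 0x240000c00003000000000000000000000000000000000000000000000000000000000000000) (nat_lit 0x700001e0000180000000000000000000000000000000000000000000000000000000000000000000000000) (nat_lit 5)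
theorem c2049 : QOK q2049 := cut [q2047] ⟨c2047, trivial⟩ (nd (nat_lit 319) (nat_lit 0) (cs (rf (nat_lit 0)) (lf (nat_lit 42) (nat_lit 252)))) q2049 (by decide +kernel)
def q2056 : Q := Q.p (nat_lit 0xe00003800000000000000000000000000000000000000000000000000000000000000) (nat_lit 0xe0003180000000000000000000000000000000000000000000000000000000000000000000) (nat_lit 4)
theorem c2056 : QOK q2056 := cut [q1208] ⟨c1208, trivial⟩ (nd (nat_lit 272) (nat_lit 0) (cs (lf (nat_lit 12) (nat_lit 249)) (nd (nat_lit 276) (nat_lit 0) (cs (lf (nat_lit 18) (nat_lit 251)) (rf (nat_lit 0)))))) q2056 (by decide +kernel)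
def q2059 : Q := Q.p (nat_lit 0xe00003800000000000000000000000000000000000000000000000000000000000000) (nat_lit 0xe00003180000000000000000000000000000000000000000000000000000000000000000000) (nat_lit 4)
theorem c2059 : QOK q2059 := cut [q2057] ⟨c2057, trivial⟩ (nd (nat_lit 272) (nat_lit 0) (cs (lf (nat_lit 12) (nat_lit 249)) (nd (nat_lit 276) (nat_lit 0) (cs (lf (nat_lit 18) (nat_lit 251)) (rf (nat_lit 0)))))) q2059 (by decide +kernel)
def q2064 : Q := Q.p (nat_lit 0x80003c00000000000000000000000000000000000000000000000000000000000000) (nat_lit 0x40000200001c00000000000000000000000000000000000000000000000000000000) (nat_lit 3)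
theorem c2064 : QOK q2064 := cut [q2063] ⟨c2063, trivial⟩ (nd (nat_lit 249) (nat_lit 0) (cs (lf (nat_lit 11) (nat_lit 248)) (rf (nat_lit 0)))) q2064 (by decide +kernel)
def q2068 : Q := Q.p (nat_lit 0x800003c00000000000000000000000000000000000000000000000000000000000000) (nat_lit 0x400000200001c00000000000000000000000000000000000000000000000000000000) (nat_lit 3)
theorem c2068 : QOK q2068 := cut [q2067] ⟨c2067, trivial⟩ (nd (nat_lit 227) (nat_lit 0) (cs (lf (nat_lit 22) (nat_lit 227)) (rf (nat_lit 0)))) q2068 (by decide +kernel)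
def q2070 : Q := Q.p (nat_lit 0xc00001000034000000000000000000000000000000000000000000000000000) (nat_lit 0x200000000000000008000018000020000000000000000000000000000000000000000) (nat_lit 3)
theorem c2070 : QOK q2070 := cut [q2069] ⟨c2069, trivial⟩ (nd (nat_lit 184) (nat_lit 0) (cs (lf (nat_lit 29) (nat_lit 184)) (rf (nat_lit 0)))) q2070 (by decide +kernel)
def q2074 : Q := Q.p (nat_lit 0xc00001000004000000000000000000000000000000000000000000000000000) (nat_lit 0x2000000000020000000000300000c0000200000000000000000000000000000000000) (nat_lit 4)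
theorem c2074 : QOK q2074 := cut [q2073] ⟨c2073, trivial⟩ (nd (nat_lit 184) (nat_lit 0) (cs (lf (nat_lit 29) (nat_lit 184)) (rf (nat_lit 0)))) q2074 (by decide +kernel)
def q2085 : Q := Q.p (nat_lit 0x100000400001000004000000000000000000000000000000000000000000000000000) (nat_lit 0xa0000380000a0000000000000000000000000000000000000000) (nat_lit 4)
theorem c2085 : QOK q2085 := cut [q2082] ⟨c2082, trivial⟩ (nd (nat_lit 185) (nat_lit 0) (cs (nd (nat_lit 184) (nat_lit 0) (cs (lf (nat_lit 35) (nat_lit 162)) (rf (nat_lit 0)))) (lf (nat_lit 34) (nat_lit 184)))) q2085 (by decide +kernel)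
def q2090 : Q := Q.p (nat_lit 0x800003c00000000000000000000000000000000000000000000000000000000000000) (nat_lit 0x400000200001c00000000000000000000000000000000000000000000000000000000) (nat_lit 3)
theorem c2090 : QOK q2090 := cut [q2063] ⟨c2063, trivial⟩ (nd (nat_lit 249) (nat_lit 0) (cs (lf (nat_lit 4) (nat_lit 249)) (rf (nat_lit 0)))) q2090 (by decide +kernel)
def q2097 : Q := Q.p (nat_lit 0x38000060000000000000000000000000000000000000000000000) (nat_lit 0x38000c7000080000000000000000000000000000000000000000000000) (nat_lit 5)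
theorem c2097 : QOK q2097 := cut [q2094] ⟨c2094, trivial⟩ (nd (nat_lit 210) (nat_lit 0) (cs (lf (nat_lit 18) (nat_lit 185)) (nd (nat_lit 228) (nat_lit 0) (cs (lf (nat_lit 10) (nat_lit 206)) (nd (nat_lit 206) (nat_lit 0) (cs (lf (nat_lit 11) (nat_lit 205)) (rf (nat_lit 0)))))))) q2097 (by decide +kernel)
def q2103 : Q := Q.p (nat_lit 0x100000c000020000000000000000000000000000000000000000000000) (nat_lit 0x100000400002000000000000000080000200000000000000000000000000000000000) (nat_lit 3)
theorem c2103 : QOK q2103 := cut [q1495] ⟨c1495, trivial⟩ (nd (nat_lit 250) (nat_lit 0) (cs (lf (nat_lit 30) (nat_lit 184)) (rf (nat_lit 0)))) q2103 (by decide +kernel)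
def q2116 : Q := Q.p (nat_lit 0x600001e0000000000800000000000000000000000000000000000) (nat_lit 0xc00001000006000000000000000000000000000000) (nat_lit 3)
theorem c2116 : QOK q2116 := cut [q1786] ⟨c1786, trivial⟩ (nd (nat_lit 166) (nat_lit 0) (cs (lf (nat_lit 17) (nat_lit 163)) (rf (nat_lit 0)))) q2116 (by decide +kernel)
def q2134 : Q := Q.p (nat_lit 0x300000e0000040000000000000000000000000000000000000000) (nat_lit 0x8000700000080000000000000000000000000000000000000000) (nat_lit 3)
theorem c2134 : QOK q2134 := cut [q356] ⟨c356, trivial⟩ (nd (nat_lit 188) (nat_lit 0) (cs (rf (nat_lit 0)) (lf (nat_lit 22) (nat_lit 162)))) q2134 (by decide +kernel)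
def q2146 : Q := Q.p (nat_lit 0x8000030000040000000000000000000000000000000000000000) (nat_lit 0x800002000000000000000080000100000400000000000000000000000000000) (nat_lit 3)
theorem c2146 : QOK q2146 := cut [q2145] ⟨c2145, trivial⟩ (nd (nat_lit 229) (nat_lit 0) (cs (lf (nat_lit 42) (nat_lit 162)) (rf (nat_lit 0)))) q2146 (by decide +kernel)
def q2160 : Q := Q.p (nat_lit 0x40000f0000040000000000000000000000000000000000000000) (nat_lit 0x1000000000100000080000200000800000000000000000000000000000) (nat_lit 3)
theorem c2160 : QOK q2160 := cut [q2158] ⟨c2158, trivial⟩ (nd (nat_lit 163) (nat_lit 0) (cs (rf (nat_lit 0)) (lf (nat_lit 18) (nat_lit 162)))) q2160 (by decide +kernel)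
def q2175 : Q := Q.p (nat_lit 0x30000060000000000000000000000000000000000000000000000) (nat_lit 0xc0000098000000000000000000000000000000000000000000000) (nat_lit 3)
theorem c2175 : QOK q2175 := cut [q74] ⟨c74, trivial⟩ (nd (nat_lit 210) (nat_lit 0) (cs (lf (nat_lit 18) (nat_lit 185)) (rf (nat_lit 0)))) q2175 (by decide +kernel)
def q2180 : Q := Q.p (nat_lit 0x1e00003000000000000000000000000000000000000000000000000000000000000000) (nat_lit 0x180000e00000000000000000000000000000000000000000000000000000000000000) (nat_lit 3)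
theorem c2180 : QOK q2180 := cut [q2179] ⟨c2179, trivial⟩ (nd (nat_lit 250) (nat_lit 0) (cs (lf (nat_lit 1) (nat_lit 250)) (rf (nat_lit 0)))) q2180 (by decide +kernel)
def q2182 : Q := Q.p (nat_lit 0x1e00003000000000000000000000000000000000000000000000000000000000000000) (nat_lit 0xe0000180000000000000000000000000000000000000000000000000000000000000000000) (nat_lit 3)
theorem c2182 : QOK q2182 := cut [q1208] ⟨c1208, trivial⟩ (nd (nat_lit 272) (nat_lit 0) (cs (lf (nat_lit 12) (nat_lit 249)) (rf (nat_lit 0)))) q2182 (by decide +kernel)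
def q2187 : Q := Q.p (nat_lit 0x3c00000000000000000000000000000000000000000000000000000000000000000000) (nat_lit 0x1dc0000200000000000000000000000000000000000000000000000000000000000000000000) (nat_lit 4)
theorem c2187 : QOK q2187 := cut [q2185] ⟨c2185, trivial⟩ (nd (nat_lit 299) (nat_lit 0) (cs (lf (nat_lit 5) (nat_lit 274)) (nd (nat_lit 273) (nat_lit 0) (cs (lf (nat_lit 4) (nat_lit 273)) (rf (nat_lit 0)))))) q2187 (by decide +kernel)
def q2197 : Q := Q.p (nat_lit 0x800003000000000010000000000000000000000000000000000000000000000000000) (nat_lit 0x80000200000400000000004000000000040000000000000000000000000000000000000000000000) (nat_lit 3)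
theorem c2197 : QOK q2197 := cut [q1140] ⟨c1140, trivial⟩ (nd (nat_lit 230) (nat_lit 0) (cs (rf (nat_lit 0)) (lf (nat_lit 24) (nat_lit 186)))) q2197 (by decide +kernel)
def q2205 : Q := Q.p (nat_lit 0x1c00002000008000020000000000000000000000000000000000000000000000000000) (nat_lit 0x2000001c00000000000000080000000000000000000000000000000000000000000000) (nat_lit 3)
theorem c2205 : QOK q2205 := cut [q700] ⟨c700, trivial⟩ (nd (nat_lit 252) (nat_lit 0) (cs (lf (nat_lit 36) (nat_lit 186)) (rf (nat_lit 0)))) q2205 (by decide +kernel)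
def q2212 : Q := Q.p (nat_lit 0x2000008000030000080000000000000000000000000000000000000000000000) (nat_lit 0x4c000700000400000000000000000000000000000000000000000) (nat_lit 4)
theorem c2212 : QOK q2212 := cut [q742] ⟨c742, trivial⟩ (nd (nat_lit 188) (nat_lit 0) (cs (lf (nat_lit 35) (nat_lit 165)) (nd (nat_lit 207) (nat_lit 0) (cs (lf (nat_lit 12) (nat_lit 184)) (rf (nat_lit 0)))))) q2212 (by decide +kernel)
def q2220 : Q := Q.p (nat_lit 0x20000000000f0000040000000000000000000000000000000000000000000000) (nat_lit 0x80000000000c000100000080000000000000000000000000000000000000000000000) (nat_lit 3)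
theorem c2220 : QOK q2220 := cut [q2219] ⟨c2219, trivial⟩ (nd (nat_lit 231) (nat_lit 0) (cs (lf (nat_lit 42) (nat_lit 186)) (rf (nat_lit 0)))) q2220 (by decide +kernel)
def q2225 : Q := Q.p (nat_lit 0x300000f0000000000000000000000000000000000000000000000) (nat_lit 0x4000000000000000600000800002000000000000000000000000000000) (nat_lit 3)
theorem c2225 : QOK q2225 := cut [q2224] ⟨c2224, trivial⟩ (nd (nat_lit 165) (nat_lit 0) (cs (lf (nat_lit 17) (nat_lit 162)) (rf (nat_lit 0)))) q2225 (by decide +kernel)
def q2238 : Q := Q.p (nat_lit 0x2000000000030000040000000000000000000000000000000000000000000000) (nat_lit 0x80000000000c000000000000000100000400000000000000000000000000000000000) (nat_lit 3)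
theorem c2238 : QOK q2238 := cut [q1562] ⟨c1562, trivial⟩ (nd (nat_lit 231) (nat_lit 0) (cs (lf (nat_lit 42) (nat_lit 186)) (rf (nat_lit 0)))) q2238 (by decide +kernel)
def q2244 : Q := Q.p (nat_lit 0x400001e0000000000000000000000000000000000000000) (nat_lit 0x2e000010000000000000000000000000000000000000000) (nat_lit 3)
theorem c2244 : QOK q2244 := cut [q2242] ⟨c2242, trivial⟩ (nd (nat_lit 160) (nat_lit 0) (cs (rf (nat_lit 0)) (lf (nat_lit 4) (nat_lit 160)))) q2244 (by decide +kernel)
def q2257 : Q := Q.p (nat_lit 0x400003c0000000000000000000000000000000000000000) (nat_lit 0x3b8000c00007180000000000000000000000000000000000) (nat_lit 7)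
theorem c2257 : QOK q2257 := cut [q2254] ⟨c2254, trivial⟩ (nd (nat_lit 139) (nat_lit 0) (cs (lf (nat_lit 22) (nat_lit 139)) (nd (nat_lit 183) (nat_lit 0) (cs (rf (nat_lit 0)) (lf (nat_lit 10) (nat_lit 161)))))) q2257 (by decide +kernel)
def q2269 : Q := Q.p (nat_lit 0x400001e0000000000000000000000000000000000000000) (nat_lit 0x200000100000e0000000000000000000000000000000000) (nat_lit 3)
theorem c2269 : QOK q2269 := cut [q2268] ⟨c2268, trivial⟩ (nd (nat_lit 160) (nat_lit 0) (cs (lf (nat_lit 4) (nat_lit 160)) (rf (nat_lit 0)))) q2269 (by decide +kernel)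
def q2277 : Q := Q.p (nat_lit 0x2000000000030000040000000000000000000000000000000000000000000000) (nat_lit 0x80000000000c000000000080000100000000000000000000000000000000000000000) (nat_lit 3)
theorem c2277 : QOK q2277 := cut [q2276] ⟨c2276, trivial⟩ (nd (nat_lit 231) (nat_lit 0) (cs (lf (nat_lit 42) (nat_lit 186)) (rf (nat_lit 0)))) q2277 (by decide +kernel)
def q2302 : Q := Q.p (nat_lit 0x1000034000030000000000000000000000000000000000000000000000) (nat_lit 0x100000400000800008000000000080000000000000000000000000000000000000000) (nat_lit 3)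
theorem c2302 : QOK q2302 := cut [q2301] ⟨c2301, trivial⟩ (nd (nat_lit 207) (nat_lit 0) (cs (lf (nat_lit 11) (nat_lit 205)) (rf (nat_lit 0)))) q2302 (by decide +kernel)
def q2312 : Q := Q.p (nat_lit 0x4000070000000000000000000000000000000000000000000000) (nat_lit 0xb800080000000000000000000000000000000000000000000000) (nat_lit 3)
theorem c2312 : QOK q2312 := cut [q2310] ⟨c2310, trivial⟩ (nd (nat_lit 205) (nat_lit 0) (cs (rf (nat_lit 0)) (lf (nat_lit 6) (nat_lit 183)))) q2312 (by decide +kernel)
def q2331 : Q := Q.p (nat_lit 0x2000008000030000000000000000000000000000000000000000000000000000) (nat_lit 0x8000000000040000000000c0000100000000000000000000000000000000000000000) (nat_lit 3)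
theorem c2331 : QOK q2331 := cut [q2276] ⟨c2276, trivial⟩ (nd (nat_lit 186) (nat_lit 0) (cs (lf (nat_lit 42) (nat_lit 186)) (rf (nat_lit 0)))) q2331 (by decide +kernel)
def q2336 : Q := Q.p (nat_lit 0x20000080000300000c0000000000000000000000000000000000000000000000) (nat_lit 0x400001000004000000000000000600001800006000000000000000000000000000000) (nat_lit 5)
theorem c2336 : QOK q2336 := cut [q2333] ⟨c2333, trivial⟩ (nd (nat_lit 252) (nat_lit 0) (cs (lf (nat_lit 41) (nat_lit 186)) (nd (nat_lit 165) (nat_lit 0) (cs (lf (nat_lit 40) (nat_lit 164)) (nd (nat_lit 143) (nat_lit 0) (cs (lf (nat_lit 36) (nat_lit 120)) (rf (nat_lit 0)))))))) q2336 (by decide +kernel)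
def q2354 : Q := Q.p (nat_lit 0xe000038000000000000000000000000000000000000000000000000000) (nat_lit 0x40000100000e00001800000000020000080000000000000000000000000000000000000000) (nat_lit 5)
theorem c2354 : QOK q2354 := cut [q2352] ⟨c2352, trivial⟩ (nd (nat_lit 228) (nat_lit 0) (cs (lf (nat_lit 12) (nat_lit 205)) (nd (nat_lit 250) (nat_lit 0) (cs (lf (nat_lit 11) (nat_lit 227)) (rf (nat_lit 0)))))) q2354 (by decide +kernel)
def q2356 : Q := Q.p (nat_lit 0xc00003c000000000000000000000000000000000000000000000000000) (nat_lit 0x1000000000000000180000200000800000000000000000000000000000000000) (nat_lit 3)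
theorem c2356 : QOK q2356 := cut [q1989] ⟨c1989, trivial⟩ (nd (nat_lit 187) (nat_lit 0) (cs (lf (nat_lit 17) (nat_lit 184)) (rf (nat_lit 0)))) q2356 (by decide +kernel)
def q2382 : Q := Q.p (nat_lit 0xf0000000000000000000000000000000000000000000000000000) (nat_lit 0x7000008000700000000000000000000000000000000000000000000000) (nat_lit 4)
theorem c2382 : QOK q2382 := cut [q100] ⟨c100, trivial⟩ (nd (nat_lit 229) (nat_lit 0) (cs (lf (nat_lit 10) (nat_lit 207)) (nd (nat_lit 207) (nat_lit 0) (cs (lf (nat_lit 11) (nat_lit 206)) (rf (nat_lit 0)))))) q2382 (by decide +kernel)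
def q2394 : Q := Q.p (nat_lit 0x200000800002000008000000000000000000000000000000000000000000000000000000000) (nat_lit 0x500001c0000500000000000000000000000000000000000000000000000000000000000000000000000000) (nat_lit 4)
theorem c2394 : QOK q2394 := cut [q2390] ⟨c2390, trivial⟩ (nd (nat_lit 320) (nat_lit 0) (cs (nd (nat_lit 318) (nat_lit 0) (cs (rf (nat_lit 0)) (lf (nat_lit 40) (nat_lit 230)))) (lf (nat_lit 28) (nat_lit 231)))) q2394 (by decide +kernel)
def q2399 : Q := Q.p (nat_lit 0x800002800002000008000020000000000000000000000000000000000000000000000) (nat_lit 0x1500001400000000000000000000000000000000000000000000000000000000000000) (nat_lit 3)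
theorem c2399 : QOK q2399 := cut [q2098] ⟨c2098, trivial⟩ (nd (nat_lit 252) (nat_lit 0) (cs (lf (nat_lit 29) (nat_lit 185)) (rf (nat_lit 0)))) q2399 (by decide +kernel)
def q2412 : Q := Q.p (nat_lit 0x1c000010000000000000000000000000000000000000000000000) (nat_lit 0x2000002e000000000000000000000000000000000000000000000) (nat_lit 3)
theorem c2412 : QOK q2412 := cut [q2411] ⟨c2411, trivial⟩ (nd (nat_lit 183) (nat_lit 0) (cs (lf (nat_lit 18) (nat_lit 183)) (rf (nat_lit 0)))) q2412 (by decide +kernel)
def q2434 : Q := Q.p (nat_lit 0x80000600000c0000300000000000000000000000000000000000) (nat_lit 0x30000c00001000000000000000000000000000000) (nat_lit 3)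
theorem c2434 : QOK q2434 := cut [q2432] ⟨c2432, trivial⟩ (nd (nat_lit 161) (nat_lit 0) (cs (rf (nat_lit 0)) (lf (nat_lit 0) (nat_lit 160)))) q2434 (by decide +kernel)
def q2449 : Q := Q.p (nat_lit 0x80001e000000000000000000000000000000000000000000000000000) (nat_lit 0x100002000001c000000000000000000000000000000000000000000000) (nat_lit 3)
theorem c2449 : QOK q2449 := cut [q113] ⟨c113, trivial⟩ (nd (nat_lit 209) (nat_lit 0) (cs (rf (nat_lit 0)) (lf (nat_lit 10) (nat_lit 205)))) q2449 (by decide +kernel)
def q2454 : Q := Q.p (nat_lit 0xf0000040000000000000000000000000000000000000000000000) (nat_lit 0x100000e80000000000000000000000000000000000000000000000) (nat_lit 3)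
theorem c2454 : QOK q2454 := cut [q2453] ⟨c2453, trivial⟩ (nd (nat_lit 212) (nat_lit 0) (cs (lf (nat_lit 22) (nat_lit 186)) (rf (nat_lit 0)))) q2454 (by decide +kernel)
def q2468 : Q := Q.p (nat_lit 0x78000040000000000000000000000000000000000000000000000) (nat_lit 0x70000080000020000000000000000000000000000000000000000000000) (nat_lit 3)
theorem c2468 : QOK q2468 := cut [q137] ⟨c137, trivial⟩ (nd (nat_lit 211) (nat_lit 0) (cs (lf (nat_lit 23) (nat_lit 185)) (rf (nat_lit 0)))) q2468 (by decide +kernel)
def q2479 : Q := Q.p (nat_lit 0x100000c000030000040000000000000000000000000000000000000000) (nat_lit 0x80000300000c00000000000000000000000000000) (nat_lit 3)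
theorem c2479 : QOK q2479 := cut [q2478] ⟨c2478, trivial⟩ (nd (nat_lit 140) (nat_lit 0) (cs (lf (nat_lit 24) (nat_lit 118)) (rf (nat_lit 0)))) q2479 (by decide +kernel)
def q2497 : Q := Q.p (nat_lit 0x4000010000040000100000000000000000000000000000000000) (nat_lit 0x280000e00002800000000000000000000000) (nat_lit 4)
theorem c2497 : QOK q2497 := cut [q862] ⟨c862, trivial⟩ (nd (nat_lit 119) (nat_lit 0) (cs (lf (nat_lit 34) (nat_lit 118)) (nd (nat_lit 118) (nat_lit 0) (cs (lf (nat_lit 35) (nat_lit 96)) (rf (nat_lit 0)))))) q2497 (by decide +kernel)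
def q2512 : Q := Q.p (nat_lit 0xc00001000004000010000000000000000000000000000000000000000000000) (nat_lit 0x2000000000008000060000080000000000000000000000000000000000) (nat_lit 3)
theorem c2512 : QOK q2512 := cut [q2511] ⟨c2511, trivial⟩ (nd (nat_lit 162) (nat_lit 0) (cs (lf (nat_lit 28) (nat_lit 162)) (rf (nat_lit 0)))) q2512 (by decide +kernel)
def q2528 : Q := Q.p (nat_lit 0x20000080000200000800000000000000000000000000000000000000000000000000000000000000000000) (nat_lit 0x100000c000010000000000100000400001000000000000000000000000000000000000000000000000000000000000000) (nat_lit 4)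
theorem c2528 : QOK q2528 := cut [q2524] ⟨c2524, trivial⟩ (nd (nat_lit 362) (nat_lit 0) (cs (nd (nat_lit 274) (nat_lit 0) (cs (rf (nat_lit 0)) (lf (nat_lit 47) (nat_lit 252)))) (lf (nat_lit 40) (nat_lit 274)))) q2528 (by decide +kernel)
def q2541 : Q := Q.p (nat_lit 0x80000200000800002000000000000000000000000000000000000000000000000000000000000000) (nat_lit 0x400001c000070000040000100000400001000000000000000000000000000000000000000000000000000000000000000) (nat_lit 6)
theorem c2541 : QOK q2541 := cut [q2534] ⟨c2534, trivial⟩ (nd (nat_lit 340) (nat_lit 0) (cs (nd (nat_lit 341) (nat_lit 0) (cs (nd (nat_lit 364) (nat_lit 0) (cs (nd (nat_lit 274) (nat_lit 0) (cs (lf (nat_lit 47) (nat_lit 252)) (rf (nat_lit 0)))) (lf (nat_lit 28) (nat_lit 275)))) (lf (nat_lit 41) (nat_lit 274)))) (lf (nat_lit 40) (nat_lit 252)))) q2541 (by decide +kernel)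
def q2545 : Q := Q.p (nat_lit 0x180000600000800002000000000000000000000000000000000000000000000000000000000000000) (nat_lit 0x10000060001800000000000000000000000000000000000000000000000000000000000000000000000000) (nat_lit 3)
theorem c2545 : QOK q2545 := cut [q2544] ⟨c2544, trivial⟩ (nd (nat_lit 318) (nat_lit 0) (cs (lf (nat_lit 41) (nat_lit 252)) (rf (nat_lit 0)))) q2545 (by decide +kernel)
def q2552 : Q := Q.p (nat_lit 0x20000080000200000c00000000000000000000000000000000000000000000000000000000000000000000) (nat_lit 0x4000018000040000000000100000000000000000000000000000000000000000000000000000000000000000000000000) (nat_lit 3)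
theorem c2552 : QOK q2552 := cut [q2534] ⟨c2534, trivial⟩ (nd (nat_lit 364) (nat_lit 0) (cs (rf (nat_lit 0)) (lf (nat_lit 28) (nat_lit 275)))) q2552 (by decide +kernel)
def q2556 : Q := Q.p (nat_lit 0x600000c00000000000000000000000000000000000000000000000000000000000000000000) (nat_lit 0x1800001300000000000000000000000000000000000000000000000000000000000000000000) (nat_lit 3)
theorem c2556 : QOK q2556 := cut [q2555] ⟨c2555, trivial⟩ (nd (nat_lit 273) (nat_lit 0) (cs (lf (nat_lit 0) (nat_lit 272)) (rf (nat_lit 0)))) q2556 (by decide +kernel)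
def q2561 : Q := Q.p (nat_lit 0x300000c00002000008000000000000000000000000000000000000000000000000000000000) (nat_lit 0x100000c00000300000000000000000000000000000000000000000000000000000000000000000000) (nat_lit 3)
theorem c2561 : QOK q2561 := cut [q2560] ⟨c2560, trivial⟩ (nd (nat_lit 298) (nat_lit 0) (cs (lf (nat_lit 29) (nat_lit 231)) (rf (nat_lit 0)))) q2561 (by decide +kernel)
def q2578 : Q := Q.p (nat_lit 0x10000080000200000800002000000000000000000000000000000000000000000000000000000000000000) (nat_lit 0x14000060000100000000000000000000000000000000000000000000000000000000000000000000000000000000) (nat_lit 3)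
theorem c2578 : QOK q2578 := cut [q2577] ⟨c2577, trivial⟩ (nd (nat_lit 342) (nat_lit 0) (cs (lf (nat_lit 28) (nat_lit 253)) (rf (nat_lit 0)))) q2578 (by decide +kernel)
def q2583 : Q := Q.p (nat_lit 0xe0000200000000000000000000000000000000000000000000000000000000000000000000000000) (nat_lit 0x10001d00000000000000000000000000000000000000000000000000000000000000000000000000) (nat_lit 3)
theorem c2583 : QOK q2583 := cut [q2581] ⟨c2581, trivial⟩ (nd (nat_lit 298) (nat_lit 0) (cs (rf (nat_lit 0)) (lf (nat_lit 12) (nat_lit 294)))) q2583 (by decide +kernel)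
def q2590 : Q := Q.p (nat_lit 0x1e0000000000000000000000000000000000000000000000000000000000000000000000000000000) (nat_lit 0xe0000100000e0000000000000000000000000000000000000000000000000000000000000000000000000) (nat_lit 4)
theorem c2590 : QOK q2590 := cut [q2586] ⟨c2586, trivial⟩ (nd (nat_lit 338) (nat_lit 0) (cs (nd (nat_lit 316) (nat_lit 0) (cs (rf (nat_lit 0)) (lf (nat_lit 11) (nat_lit 315)))) (lf (nat_lit 10) (nat_lit 316)))) q2590 (by decide +kernel)
def q2600 : Q := Q.p (nat_lit 0x1c0000a00000000000000000000000000000000000000000000000000000000000000000000000000) (nat_lit 0x380000600001100000000000000000000000000000000000000000000000000000000000000000000000000) (nat_lit 4)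
theorem c2600 : QOK q2600 := cut [q2598] ⟨c2598, trivial⟩ (nd (nat_lit 321) (nat_lit 0) (cs (rf (nat_lit 0)) (lf (nat_lit 17) (nat_lit 296)))) q2600 (by decide +kernel)
def q2611 : Q := Q.p (nat_lit 0x80000200000800003000000000000000000000000000000000000000000000000000000000000000) (nat_lit 0x10000060000100000000000400000000000000000000000000000000000000000000000000000000000000000000) (nat_lit 3)
theorem c2611 : QOK q2611 := cut [q2609] ⟨c2609, trivial⟩ (nd (nat_lit 341) (nat_lit 0) (cs (rf (nat_lit 0)) (lf (nat_lit 46) (nat_lit 252)))) q2611 (by decide +kernel)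
def q2615 : Q := Q.p (nat_lit 0x80000200000800003000000000000000000000000000000000000000000000000000000000000000) (nat_lit 0x4000030000040000000000400000000000000000000000000000000000000000000000000000000000000000000) (nat_lit 3)
theorem c2615 : QOK q2615 := cut [q2614] ⟨c2614, trivial⟩ (nd (nat_lit 341) (nat_lit 0) (cs (lf (nat_lit 46) (nat_lit 252)) (rf (nat_lit 0)))) q2615 (by decide +kernel)
def q2623 : Q := Q.p (nat_lit 0x3c00000000000000000000000000000000000000000000000000000000000000) (nat_lit 0x1c0000200001c00000000000000000000000000000000000000000000000000000000) (nat_lit 4)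
theorem c2623 : QOK q2623 := cut [q2622] ⟨c2622, trivial⟩ (nd (nat_lit 227) (nat_lit 0) (cs (lf (nat_lit 22) (nat_lit 227)) (rf (nat_lit 0)))) q2623 (by decide +kernel)
def q2647 : Q := Q.p (nat_lit 0x1c0000400000000000000000000000000000000000000000) (nat_lit 0x20003a00000000000000000000000000000000000000000) (nat_lit 3)
theorem c2647 : QOK q2647 := cut [q2645] ⟨c2645, trivial⟩ (nd (nat_lit 167) (nat_lit 0) (cs (rf (nat_lit 0)) (lf (nat_lit 12) (nat_lit 163)))) q2647 (by decide +kernel)
def q2659 : Q := Q.p (nat_lit 0x1800004000010000000000000000000000000000000000000000000000) (nat_lit 0x2000000000020000000000c0000300000800000000000000000000000000000) (nat_lit 4)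
theorem c2659 : QOK q2659 := cut [q2658] ⟨c2658, trivial⟩ (nd (nat_lit 162) (nat_lit 0) (cs (lf (nat_lit 41) (nat_lit 161)) (rf (nat_lit 0)))) q2659 (by decide +kernel)
def q2683 : Q := Q.p (nat_lit 0x2000008000078000000000000000000000000000000000000000000000000000) (nat_lit 0x10000000000300000400001000000000000000000000000000000000000) (nat_lit 3)
theorem c2683 : QOK q2683 := cut [q207] ⟨c207, trivial⟩ (nd (nat_lit 188) (nat_lit 0) (cs (lf (nat_lit 17) (nat_lit 185)) (rf (nat_lit 0)))) q2683 (by decide +kernel)
def q2691 : Q := Q.p (nat_lit 0x18000060000080000400000000000000000000000000000000000) (nat_lit 0x300000c00003000000000000000100000000000000000000000000000000000000000) (nat_lit 4)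
theorem c2691 : QOK q2691 := cut [q2690] ⟨c2690, trivial⟩ (nd (nat_lit 229) (nat_lit 0) (cs (lf (nat_lit 37) (nat_lit 141)) (rf (nat_lit 0)))) q2691 (by decide +kernel)
def q2703 : Q := Q.p (nat_lit 0x3c000060000100000400000000000000000000000000000000000) (nat_lit 0x1800000000000000080000200000800000000000000000000000000000) (nat_lit 3)
theorem c2703 : QOK q2703 := cut [q2702] ⟨c2702, trivial⟩ (nd (nat_lit 228) (nat_lit 0) (cs (lf (nat_lit 11) (nat_lit 205)) (rf (nat_lit 0)))) q2703 (by decide +kernel)
def q2712 : Q := Q.p (nat_lit 0x300000f0000100000000000000000000000000000000000000000) (nat_lit 0x6e0001800006000000000000000000000000000000) (nat_lit 5)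
theorem c2712 : QOK q2712 := cut [q2709] ⟨c2709, trivial⟩ (nd (nat_lit 162) (nat_lit 0) (cs (lf (nat_lit 23) (nat_lit 161)) (nd (nat_lit 165) (nat_lit 0) (cs (lf (nat_lit 17) (nat_lit 162)) (nd (nat_lit 143) (nat_lit 0) (cs (lf (nat_lit 36) (nat_lit 120)) (rf (nat_lit 0)))))))) q2712 (by decide +kernel)
def q2725 : Q := Q.p (nat_lit 0x380000e0000000000200000000000000000000000000000000000) (nat_lit 0x1800006000000000080000000000000000000000000000000000000000) (nat_lit 3)
theorem c2725 : QOK q2725 := cut [q2724] ⟨c2724, trivial⟩ (nd (nat_lit 206) (nat_lit 0) (cs (lf (nat_lit 12) (nat_lit 183)) (rf (nat_lit 0)))) q2725 (by decide +kernel)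
def q2735 : Q := Q.p (nat_lit 0xf0000040000000000000000000000000000000000000000) (nat_lit 0x200000e000100000000000100000400000000000000000000000000000) (nat_lit 4)
theorem c2735 : QOK q2735 := cut [q335] ⟨c335, trivial⟩ (nd (nat_lit 206) (nat_lit 0) (cs (lf (nat_lit 11) (nat_lit 183)) (nd (nat_lit 207) (nat_lit 0) (cs (rf (nat_lit 0)) (lf (nat_lit 6) (nat_lit 184)))))) q2735 (by decide +kernel)
def q2762 : Q := Q.p (nat_lit 0x3c0000000000000000000000000000000000000000) (nat_lit 0x1c0000200001c0000000000000000000000000000000000) (nat_lit 4)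
theorem c2762 : QOK q2762 := cut [q2760] ⟨c2760, trivial⟩ (nd (nat_lit 183) (nat_lit 0) (cs (lf (nat_lit 10) (nat_lit 161)) (nd (nat_lit 161) (nat_lit 0) (cs (lf (nat_lit 11) (nat_lit 160)) (rf (nat_lit 0)))))) q2762 (by decide +kernel)
def q2772 : Q := Q.p (nat_lit 0x300000c0000200000800000000000000000000000000000000000) (nat_lit 0x100000c0000030000000000000000000000000000000000000000000000) (nat_lit 3)
theorem c2772 : QOK q2772 := cut [q2771] ⟨c2771, trivial⟩ (nd (nat_lit 210) (nat_lit 0) (cs (lf (nat_lit 29) (nat_lit 143)) (rf (nat_lit 0)))) q2772 (by decide +kernel)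
def q2801 : Q := Q.p (nat_lit 0x40000100000400001000000000000000000000000000000) (nat_lit 0x2000008000020000000000200000c000020000000000000000000) (nat_lit 4)
theorem c2801 : QOK q2801 := cut [q2797] ⟨c2797, trivial⟩ (nd (nat_lit 99) (nat_lit 0) (cs (nd (nat_lit 98) (nat_lit 0) (cs (rf (nat_lit 0)) (lf (nat_lit 35) (nat_lit 76)))) (lf (nat_lit 34) (nat_lit 98)))) q2801 (by decide +kernel)
def q2808 : Q := Q.p (nat_lit 0x100000c0000100000400001000000000000000000000000000000) (nat_lit 0x1000004000000000000000200000800000000004000000000000000000000000) (nat_lit 3)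
theorem c2808 : QOK q2808 := cut [q2806] ⟨c2806, trivial⟩ (nd (nat_lit 165) (nat_lit 0) (cs (rf (nat_lit 0)) (lf (nat_lit 24) (nat_lit 98)))) q2808 (by decide +kernel)
def q2829 : Q := Q.p (nat_lit 0x40000100000400001000000000000000000000000000000) (nat_lit 0x20000080000200000000000800006000008000000000000000000) (nat_lit 4)
theorem c2829 : QOK q2829 := cut [q2797] ⟨c2797, trivial⟩ (nd (nat_lit 97) (nat_lit 0) (cs (nd (nat_lit 98) (nat_lit 0) (cs (rf (nat_lit 0)) (lf (nat_lit 47) (nat_lit 75)))) (lf (nat_lit 46) (nat_lit 97)))) q2829 (by decide +kernel)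
def q2869 : Q := Q.p (nat_lit 0x18000040000100000000000000000000000000000000000000000) (nat_lit 0x200000800002000000000020000000000400000000000000000000000000000000000) (nat_lit 3)
theorem c2869 : QOK q2869 := cut [q2868] ⟨c2868, trivial⟩ (nd (nat_lit 229) (nat_lit 0) (cs (lf (nat_lit 36) (nat_lit 141)) (rf (nat_lit 0)))) q2869 (by decide +kernel)
def q2875 : Q := Q.p (nat_lit 0x10000040000100000600000000000000000000000000000000000) (nat_lit 0x4000000000000000600000980002000000000000000000000000000000) (nat_lit 4)
theorem c2875 : QOK q2875 := cut [q622] ⟨c622, trivial⟩ (nd (nat_lit 143) (nat_lit 0) (cs (lf (nat_lit 35) (nat_lit 120)) (nd (nat_lit 165) (nat_lit 0) (cs (rf (nat_lit 0)) (lf (nat_lit 30) (nat_lit 142)))))) q2875 (by decide +kernel)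
def q2880 : Q := Q.p (nat_lit 0x10000040000100000200000000000000000000000000000000000) (nat_lit 0x4000000000020000080000000000800002000000000000000000000000) (nat_lit 3)
theorem c2880 : QOK q2880 := cut [q2879] ⟨c2879, trivial⟩ (nd (nat_lit 163) (nat_lit 0) (cs (lf (nat_lit 42) (nat_lit 141)) (rf (nat_lit 0)))) q2880 (by decide +kernel)
def q2882 : Q := Q.p (nat_lit 0x10000040000100000200000000000000000000000000000000000) (nat_lit 0x20000080000400000800002000000000000000000000000) (nat_lit 3)
theorem c2882 : QOK q2882 := cut [q2881] ⟨c2881, trivial⟩ (nd (nat_lit 119) (nat_lit 0) (cs (lf (nat_lit 45) (nat_lit 119)) (rf (nat_lit 0)))) q2882 (by decide +kernel)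
def q2888 : Q := Q.p (nat_lit 0x140000180000000000000000000000000000000000000000) (nat_lit 0x2a0000060000000000000000000000000000000000000000) (nat_lit 3)
theorem c2888 : QOK q2888 := cut [q1812] ⟨c1812, trivial⟩ (nd (nat_lit 187) (nat_lit 0) (cs (rf (nat_lit 0)) (lf (nat_lit 18) (nat_lit 163)))) q2888 (by decide +kernel)
def q2891 : Q := Q.p (nat_lit 0x140000380000000000000000000000000000000000000000) (nat_lit 0x230000c00000000000000000000000000000000000000000) (nat_lit 3)
theorem c2891 : QOK q2891 := cut [q2890] ⟨c2890, trivial⟩ (nd (nat_lit 166) (nat_lit 0) (cs (lf (nat_lit 5) (nat_lit 163)) (rf (nat_lit 0)))) q2891 (by decide +kernel)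
def q2906 : Q := Q.p (nat_lit 0x10000040000100000400000000000000000000000000000000000) (nat_lit 0x800006000008000000000200000800002000000000000000000000000000000) (nat_lit 4)
theorem c2906 : QOK q2906 := cut [q2] ⟨c2, trivial⟩ (nd (nat_lit 229) (nat_lit 0) (cs (lf (nat_lit 40) (nat_lit 141)) (nd (nat_lit 230) (nat_lit 0) (cs (rf (nat_lit 0)) (lf (nat_lit 41) (nat_lit 163)))))) q2906 (by decide +kernel)
def q2917 : Q := Q.p (nat_lit 0x78000000000000000000000000000000000000000000000000000) (nat_lit 0x38001860001e0000000000000000000000000000000000000000000000) (nat_lit 6)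
theorem c2917 : QOK q2917 := cut [q326] ⟨c326, trivial⟩ (nd (nat_lit 228) (nat_lit 0) (cs (lf (nat_lit 10) (nat_lit 206)) (nd (nat_lit 206) (nat_lit 0) (cs (lf (nat_lit 11) (nat_lit 205)) (nd (nat_lit 187) (nat_lit 0) (cs (lf (nat_lit 17) (nat_lit 184)) (nd (nat_lit 186) (nat_lit 0) (cs (lf (nat_lit 12) (nat_lit 183)) (rf (nat_lit 0)))))))))) q2917 (by decide +kernel)
def q2921 : Q := Q.p (nat_lit 0x20000000000f00000c0000000000000000000000000000000000000000000000) (nat_lit 0xc00001000006000000000000000000000000000000000000000000000000000000000) (nat_lit 3)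
theorem c2921 : QOK q2921 := cut [q2920] ⟨c2920, trivial⟩ (nd (nat_lit 230) (nat_lit 0) (cs (lf (nat_lit 11) (nat_lit 207)) (rf (nat_lit 0)))) q2921 (by decide +kernel)
def q2924 : Q := Q.p (nat_lit 0x20000078000000000000000000000000000000000000000000000000000) (nat_lit 0x40000080000070000000000000000000000000000000000000000000000) (nat_lit 3)
theorem c2924 : QOK q2924 := cut [q2923] ⟨c2923, trivial⟩ (nd (nat_lit 185) (nat_lit 0) (cs (lf (nat_lit 23) (nat_lit 184)) (rf (nat_lit 0)))) q2924 (by decide +kernel)
def q2931 : Q := Q.p (nat_lit 0x800002000008000030000000000000000000000000000000000000000000000000000) (nat_lit 0x20000000000000003000004c000100000000000000000000000000000000000000000000000) (nat_lit 4)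
theorem c2931 : QOK q2931 := cut [q2928] ⟨c2928, trivial⟩ (nd (nat_lit 210) (nat_lit 0) (cs (lf (nat_lit 35) (nat_lit 187)) (nd (nat_lit 232) (nat_lit 0) (cs (rf (nat_lit 0)) (lf (nat_lit 30) (nat_lit 209)))))) q2931 (by decide +kernel)
def q2934 : Q := Q.p (nat_lit 0x800003c000000000000000000000000000000000000000000000000000) (nat_lit 0x400000200001c000000000000000000000000000000000000000000000) (nat_lit 3)
theorem c2934 : QOK q2934 := cut [q113] ⟨c113, trivial⟩ (nd (nat_lit 205) (nat_lit 0) (cs (rf (nat_lit 0)) (lf (nat_lit 4) (nat_lit 205)))) q2934 (by decide +kernel)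
def q2938 : Q := Q.p (nat_lit 0x8000038000000000000000000000000000000000000000000000000000) (nat_lit 0x15c00006000000000000000000000000000000000000000000000000000) (nat_lit 4)
theorem c2938 : QOK q2938 := cut [q2937] ⟨c2937, trivial⟩ (nd (nat_lit 206) (nat_lit 0) (cs (lf (nat_lit 5) (nat_lit 206)) (rf (nat_lit 0)))) q2938 (by decide +kernel)
def q2953 : Q := Q.p (nat_lit 0x40000100000c000030000000000000000000000000000000000000000000000000000) (nat_lit 0x1000000e000020000000000000000000000000000000000000000000000) (nat_lit 3)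
theorem c2953 : QOK q2953 := cut [q2952] ⟨c2952, trivial⟩ (nd (nat_lit 207) (nat_lit 0) (cs (lf (nat_lit 47) (nat_lit 185)) (rf (nat_lit 0)))) q2953 (by decide +kernel)

end Crest.Agent.H3.Snaky.CR
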