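import Crest.Agent.H3.Snaky.Cert
import Crest.Agent.H3.Snaky.CR.CR0
import Crest.Agent.H3.Snaky.CR.CR1
import Crest.Agent.H3.Snaky.CR.CR2

set_option autoImplicit false
set_option maxRecDepth 100000

namespace Crest.Agent.H3.Snaky.CR

open T

def q2973 : Q := Q.p (nat_lit 0x300001c0000000000000000000000000000000000000000000000) (nat_lit 0x1c00006380000e0000000000000000000000000000000000000000) (nat_lit 6)
theorem c2973 : QOK q2973 := cut [q2969] ⟨c2969, trivial⟩ (nd (nat_lit 189) (nat_lit 0) (cs (lf (nat_lit 6) (nat_lit 186)) (nd (nat_lit 211) (nat_lit 0) (cs (lf (nat_lit 5) (nat_lit 186)) (nd (nat_lit 185) (nat_lit 0) (cs (rf (nat_lit 0)) (lf (nat_lit 4) (nat_lit 185)))))))) q2973 (by decide +kernel)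
def q2975 : Q := Q.p (nat_lit 0x300000c000010000040000000000000000000000000000000000000000000000) (nat_lit 0x200000c00030000000000000000000000000000000000000000000000000000000000) (nat_lit 3)
theorem c2975 : QOK q2975 := cut [q426] ⟨c426, trivial⟩ (nd (nat_lit 251) (nat_lit 0) (cs (lf (nat_lit 41) (nat_lit 185)) (rf (nat_lit 0)))) q2975 (by decide +kernel)
def q3002 : Q := Q.p (nat_lit 0x2000008000038000060000000000000000000000000000000000000000000000) (nat_lit 0x40000100000780001e00017c000020000980000c0000700001c00000000000000000000000000000) (nat_lit 10)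
theorem c3002 : QOK q3002 := cut [q2992, q312, q2994] ⟨c2992, c312, c2994, trivial⟩ (nd (nat_lit 252) (nat_lit 0) (cs (rf (nat_lit 0)) (cs (nd (nat_lit 183) (nat_lit 0) (cs (rf (nat_lit 1)) (lf (nat_lit 1) (nat_lit 183)))) (nd (nat_lit 163) (nat_lit 0) (cs (lf (nat_lit 43) (nat_lit 163)) (nd (nat_lit 141) (nat_lit 0) (cs (lf (nat_lit 24) (nat_lit 119)) (nd (nat_lit 183) (nat_lit 0) (cs (lf (nat_lit 1) (nat_lit 183)) (nd (nat_lit 120) (nat_lit 0) (cs (lf (nat_lit 34) (nat_lit 119)) (nd (nat_lit 140) (nat_lit 0) (cs (lf (nat_lit 47) (nat_lit 118)) (nd (nat_lit 229) (nat_lit 0) (cs (lf (nat_lit 46) (nat_lit 140)) (nd (nat_lit 251) (nat_lit 0) (cs (lf (nat_lit 30) (nat_lit 185)) (rf (nat_lit 2))))))))))))))))))) q3002 (by decide +kernel)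
def q3007 : Q := Q.p (nat_lit 0x8000078000060000000000000000000000000000000000000000000000) (nat_lit 0x300000c00037000000000000000000000000000000000000000000000000000000000) (nat_lit 5)
theorem c3007 : QOK q3007 := cut [q3005] ⟨c3005, trivial⟩ (nd (nat_lit 229) (nat_lit 0) (cs (lf (nat_lit 11) (nat_lit 206)) (nd (nat_lit 232) (nat_lit 0) (cs (lf (nat_lit 5) (nat_lit 207)) (rf (nat_lit 0)))))) q3007 (by decide +kernel)
def q3027 : Q := Q.p (nat_lit 0x100002c0000c00002000000000000000000000000000000000000) (nat_lit 0x48000100000000000000008000020000000000000000000000000) (nat_lit 3)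
theorem c3027 : QOK q3027 := cut [q3026] ⟨c3026, trivial⟩ (nd (nat_lit 188) (nat_lit 0) (cs (lf (nat_lit 11) (nat_lit 185)) (rf (nat_lit 0)))) q3027 (by decide +kernel)
def q3039 : Q := Q.p (nat_lit 0x780000000000000000000000000000000000000000) (nat_lit 0x20000380000040003000004000010000000000000000000000000) (nat_lit 5)
theorem c3039 : QOK q3039 := cut [q3036] ⟨c3036, trivial⟩ (nd (nat_lit 144) (nat_lit 0) (cs (lf (nat_lit 17) (nat_lit 141)) (nd (nat_lit 188) (nat_lit 0) (cs (lf (nat_lit 5) (nat_lit 163)) (nd (nat_lit 187) (nat_lit 0) (cs (lf (nat_lit 0) (nat_lit 162)) (rf (nat_lit 0)))))))) q3039 (by decide +kernel)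
def q3049 : Q := Q.p (nat_lit 0x40000f00000000000000000000000000000000000000000) (nat_lit 0xe80001000000000000000000000000000000000000000000) (nat_lit 3)
theorem c3049 : QOK q3049 := cut [q3047] ⟨c3047, trivial⟩ (nd (nat_lit 168) (nat_lit 0) (cs (rf (nat_lit 0)) (lf (nat_lit 10) (nat_lit 164)))) q3049 (by decide +kernel)
def q3077 : Q := Q.p (nat_lit 0x7000010000000000000000000000000000000000000000000000000000) (nat_lit 0x380000c00023800000000000000000000000000000000000000000000000000) (nat_lit 5)
theorem c3077 : QOK q3077 := cut [q3075] ⟨c3075, trivial⟩ (nd (nat_lit 227) (nat_lit 0) (cs (rf (nat_lit 0)) (lf (nat_lit 17) (nat_lit 205)))) q3077 (by decide +kernel)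
def q3101 : Q := Q.p (nat_lit 0x6000050000000000000000000000000000000000000000000000000000) (nat_lit 0x18000a8000000000000000000000000000000000000000000000000000) (nat_lit 3)
theorem c3101 : QOK q3101 := cut [q1177] ⟨c1177, trivial⟩ (nd (nat_lit 209) (nat_lit 0) (cs (lf (nat_lit 6) (nat_lit 207)) (rf (nat_lit 0)))) q3101 (by decide +kernel)
def q3123 : Q := Q.p (nat_lit 0x1c000040000000000000000000000000000000000000000000000) (nat_lit 0x100000c0000030000a0000080000200000000000000000000000000000000000) (nat_lit 5)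
theorem c3123 : QOK q3123 := cut [q1158] ⟨c1158, trivial⟩ (nd (nat_lit 205) (nat_lit 0) (cs (lf (nat_lit 17) (nat_lit 183)) (nd (nat_lit 185) (nat_lit 0) (cs (lf (nat_lit 12) (nat_lit 182)) (nd (nat_lit 230) (nat_lit 0) (cs (lf (nat_lit 5) (nat_lit 205)) (rf (nat_lit 0)))))))) q3123 (by decide +kernel)
def q3125 : Q := Q.p (nat_lit 0x2800002000008000020000000000000000000000000000000000000000000000) (nat_lit 0x500001400001800000000000000080000000000000000000000000000000000000000) (nat_lit 4)
theorem c3125 : QOK q3125 := cut [q1835] ⟨c1835, trivial⟩ (nd (nat_lit 252) (nat_lit 0) (cs (lf (nat_lit 29) (nat_lit 185)) (rf (nat_lit 0)))) q3125 (by decide +kernel)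
def q3129 : Q := Q.p (nat_lit 0x2000018000060000080000000000000000000000000000000000000000) (nat_lit 0x100000600001800000000000000000000000000000) (nat_lit 3)
theorem c3129 : QOK q3129 := cut [q3128] ⟨c3128, trivial⟩ (nd (nat_lit 142) (nat_lit 0) (cs (lf (nat_lit 37) (nat_lit 141)) (rf (nat_lit 0)))) q3129 (by decide +kernel)
def q3131 : Q := Q.p (nat_lit 0x2000008000070000080000000000000000000000000000000000000000) (nat_lit 0x80000070000100000000000000000000000000000000000) (nat_lit 3)
theorem c3131 : QOK q3131 := cut [q3130] ⟨c3130, trivial⟩ (nd (nat_lit 162) (nat_lit 0) (cs (lf (nat_lit 47) (nat_lit 140)) (rf (nat_lit 0)))) q3131 (by decide +kernel)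
def q3145 : Q := Q.p (nat_lit 0x8000038000060000080000000000000000000000000000000000000000) (nat_lit 0xc00003c0000000001c000170000500000000000000000000000000000000000) (nat_lit 8)
theorem c3145 : QOK q3145 := cut [q3140] ⟨c3140, trivial⟩ (nd (nat_lit 164) (nat_lit 0) (cs (lf (nat_lit 24) (nat_lit 142)) (nd (nat_lit 183) (nat_lit 0) (cs (lf (nat_lit 1) (nat_lit 183)) (nd (nat_lit 229) (nat_lit 0) (cs (lf (nat_lit 30) (nat_lit 163)) (nd (nat_lit 228) (nat_lit 0) (cs (lf (nat_lit 41) (nat_lit 162)) (nd (nat_lit 226) (nat_lit 0) (cs (lf (nat_lit 13) (nat_lit 204)) (rf (nat_lit 0)))))))))))) q3145 (by decide +kernel)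
def q3156 : Q := Q.p (nat_lit 0x38000060000080000000000000000000000000000000000000000) (nat_lit 0x280000200001c0003700003c0000c00000000000000000000000000000) (nat_lit 9)
theorem c3156 : QOK q3156 := cut [q3148] ⟨c3148, trivial⟩ (nd (nat_lit 183) (nat_lit 0) (cs (lf (nat_lit 1) (nat_lit 183)) (nd (nat_lit 141) (nat_lit 0) (cs (lf (nat_lit 24) (nat_lit 119)) (nd (nat_lit 140) (nat_lit 0) (cs (lf (nat_lit 47) (nat_lit 118)) (nd (nat_lit 162) (nat_lit 0) (cs (lf (nat_lit 42) (nat_lit 140)) (nd (nat_lit 161) (nat_lit 0) (cs (lf (nat_lit 0) (nat_lit 160)) (nd (nat_lit 205) (nat_lit 0) (cs (nd (nat_lit 164) (nat_lit 0) (cs (lf (nat_lit 11) (nat_lit 160)) (rf (nat_lit 0)))) (lf (nat_lit 30) (nat_lit 139)))))))))))))) q3156 (by decide +kernel)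
def q3164 : Q := Q.p (nat_lit 0x3000018000060000000000400000000000000000000000000000000000000000) (nat_lit 0x400000000000000000000080000200001800000000000000000000000000000000000) (nat_lit 3)
theorem c3164 : QOK q3164 := cut [q3163] ⟨c3163, trivial⟩ (nd (nat_lit 187) (nat_lit 0) (cs (lf (nat_lit 41) (nat_lit 186)) (rf (nat_lit 0)))) q3164 (by decide +kernel)
def q3176 : Q := Q.p (nat_lit 0x800002000018000060000000000000000000000000000000000000000000000) (nat_lit 0x2000001c000040000000000000000000000000000000000000000) (nat_lit 3)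
theorem c3176 : QOK q3176 := cut [q3175] ⟨c3175, trivial⟩ (nd (nat_lit 184) (nat_lit 0) (cs (lf (nat_lit 47) (nat_lit 162)) (rf (nat_lit 0)))) q3176 (by decide +kernel)
def q3189 : Q := Q.p (nat_lit 0x3000004000018000040000000000000000000000000000000000000000000000) (nat_lit 0x380000e0001a000000000020000080000000000000000000000000000000000000000) (nat_lit 5)
theorem c3189 : QOK q3189 := cut [q3184, q3187] ⟨c3184, c3187, trivial⟩ (nd (nat_lit 251) (nat_lit 0) (cs (lf (nat_lit 41) (nat_lit 185)) (nd (nat_lit 250) (nat_lit 0) (cs (nd (nat_lit 185) (nat_lit 0) (cs (lf (nat_lit 47) (nat_lit 163)) (rf (nat_lit 0)))) (rf (nat_lit 1)))))) q3189 (by decide +kernel)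
def q3192 : Q := Q.p (nat_lit 0x3000000000018000040000000000000000000000000000000000000000000000) (nat_lit 0xc00000000004000000000020000080000000000000000000000000000000000000000) (nat_lit 3)
theorem c3192 : QOK q3192 := cut [q1823] ⟨c1823, trivial⟩ (nd (nat_lit 230) (nat_lit 0) (cs (lf (nat_lit 29) (nat_lit 186)) (rf (nat_lit 0)))) q3192 (by decide +kernel)
def q3194 : Q := Q.p (nat_lit 0x2000000000010000040000100000000000000000000000000000000000000000) (nat_lit 0x80000000000c000020000080000000000000000000000000000000000000000000000) (nat_lit 3)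
theorem c3194 : QOK q3194 := cut [q502] ⟨c502, trivial⟩ (nd (nat_lit 231) (nat_lit 0) (cs (rf (nat_lit 0)) (lf (nat_lit 27) (nat_lit 164)))) q3194 (by decide +kernel)
def q3199 : Q := Q.p (nat_lit 0x40000780000000000000000000000000000000000000000) (nat_lit 0x180001860007000000000000000000000000000000000000) (nat_lit 5)
theorem c3199 : QOK q3199 := cut [q3196] ⟨c3196, trivial⟩ (nd (nat_lit 145) (nat_lit 0) (cs (lf (nat_lit 16) (nat_lit 141)) (nd (nat_lit 167) (nat_lit 0) (cs (lf (nat_lit 17) (nat_lit 142)) (nd (nat_lit 187) (nat_lit 0) (cs (lf (nat_lit 6) (nat_lit 164)) (rf (nat_lit 0)))))))) q3199 (by decide +kernel)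
def q3211 : Q := Q.p (nat_lit 0x1e000000000000000000000000000000000000000000000000000) (nat_lit 0xe0000100000e000000000000000000000000000000000000000000000) (nat_lit 4)
theorem c3211 : QOK q3211 := cut [q3210] ⟨c3210, trivial⟩ (nd (nat_lit 182) (nat_lit 0) (cs (lf (nat_lit 22) (nat_lit 182)) (rf (nat_lit 0)))) q3211 (by decide +kernel)
def q3212 : Q := Q.p (nat_lit 0x200000080001c000040000000000000000000000000000000000000000000000) (nat_lit 0x800000000019000020000000000000000000000000000000000000000000000000000) (nat_lit 3)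
theorem c3212 : QOK q3212 := cut [q3119] ⟨c3119, trivial⟩ (nd (nat_lit 209) (nat_lit 0) (cs (lf (nat_lit 10) (nat_lit 205)) (rf (nat_lit 0)))) q3212 (by decide +kernel)
def q3218 : Q := Q.p (nat_lit 0x200000000003c000000000000000000000000000000000000000000000000000) (nat_lit 0x8000000000180000000001c0000100000000000000000000000000000000000000000) (nat_lit 4)
theorem c3218 : QOK q3218 := cut [q1472] ⟨c1472, trivial⟩ (nd (nat_lit 187) (nat_lit 0) (cs (lf (nat_lit 17) (nat_lit 184)) (nd (nat_lit 231) (nat_lit 0) (cs (lf (nat_lit 5) (nat_lit 206)) (rf (nat_lit 0)))))) q3218 (by decide +kernel)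
def q3224 : Q := Q.p (nat_lit 0x800006000000000040000000000000000000000000000000000000000) (nat_lit 0x80000200001000000000010000000000100000000000000000000000000000000000) (nat_lit 3)
theorem c3224 : QOK q3224 := cut [q3222] ⟨c3222, trivial⟩ (nd (nat_lit 184) (nat_lit 0) (cs (rf (nat_lit 0)) (lf (nat_lit 36) (nat_lit 139)))) q3224 (by decide +kernel)
def q3229 : Q := Q.p (nat_lit 0x800006000008000040000000000000000000000000000000000000000) (nat_lit 0x400001000000000000000020000180000000000000000000000000000000000) (nat_lit 3)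
theorem c3229 : QOK q3229 := cut [q3227] ⟨c3227, trivial⟩ (nd (nat_lit 161) (nat_lit 0) (cs (rf (nat_lit 0)) (lf (nat_lit 35) (nat_lit 139)))) q3229 (by decide +kernel)
def q3256 : Q := Q.p (nat_lit 0x200000000001c000048000000000000000000000000000000000000000000000) (nat_lit 0x800000000018000020000010000000000000000000000000000000000000000000000) (nat_lit 3)
theorem c3256 : QOK q3256 := cut [q3119] ⟨c3119, trivial⟩ (nd (nat_lit 209) (nat_lit 0) (cs (lf (nat_lit 22) (nat_lit 183)) (rf (nat_lit 0)))) q3256 (by decide +kernel)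
def q3281 : Q := Q.p (nat_lit 0x80001e000000000000000000000000000000000000000000000000000) (nat_lit 0x20000000002000001c000040000100000000000000000000000000000000000) (nat_lit 4)
theorem c3281 : QOK q3281 := cut [q3279] ⟨c3279, trivial⟩ (nd (nat_lit 183) (nat_lit 0) (cs (lf (nat_lit 23) (nat_lit 182)) (nd (nat_lit 184) (nat_lit 0) (cs (lf (nat_lit 18) (nat_lit 183)) (rf (nat_lit 0)))))) q3281 (by decide +kernel)
def q3310 : Q := Q.p (nat_lit 0x1f000000000000000000000000000000000000000000000000000) (nat_lit 0x60800078000000000000000000000000000000000000000000000) (nat_lit 4)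
theorem c3310 : QOK q3310 := cut [q3308] ⟨c3308, trivial⟩ (nd (nat_lit 185) (nat_lit 0) (cs (lf (nat_lit 17) (nat_lit 182)) (nd (nat_lit 184) (nat_lit 0) (cs (lf (nat_lit 12) (nat_lit 181)) (rf (nat_lit 0)))))) q3310 (by decide +kernel)
def q3321 : Q := Q.p (nat_lit 0x100003c000010000000000000000000000000000000000000000000000) (nat_lit 0x800002000040000000000040000100000000000000000000000000000000000) (nat_lit 3)
theorem c3321 : QOK q3321 := cut [q3320] ⟨c3320, trivial⟩ (nd (nat_lit 229) (nat_lit 0) (cs (lf (nat_lit 6) (nat_lit 206)) (rf (nat_lit 0)))) q3321 (by decide +kernel)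
def q3339 : Q := Q.p (nat_lit 0xf000000000000000000000000000000000000000000000000000) (nat_lit 0x7700000800000000000000000000000000000000000000000000000000) (nat_lit 4)
theorem c3339 : QOK q3339 := cut [q3337] ⟨c3337, trivial⟩ (nd (nat_lit 225) (nat_lit 0) (cs (lf (nat_lit 10) (nat_lit 203)) (nd (nat_lit 203) (nat_lit 0) (cs (lf (nat_lit 11) (nat_lit 202)) (rf (nat_lit 0)))))) q3339 (by decide +kernel)
def q3344 : Q := Q.p (nat_lit 0x200001f000000000000000000000000000000000000000000000000000) (nat_lit 0x1800060800000000000000000000000000000000000000000000000000) (nat_lit 3)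
theorem c3344 : QOK q3344 := cut [q3343] ⟨c3343, trivial⟩ (nd (nat_lit 228) (nat_lit 0) (cs (lf (nat_lit 0) (nat_lit 203)) (rf (nat_lit 0)))) q3344 (by decide +kernel)
def q3353 : Q := Q.p (nat_lit 0x1e000000000000000000000000000000000000000000000000000) (nat_lit 0x7e00001800007000000000000000000000000000000000000000000000) (nat_lit 6)
theorem c3353 : QOK q3353 := cut [q3337] ⟨c3337, trivial⟩ (nd (nat_lit 226) (nat_lit 0) (cs (lf (nat_lit 10) (nat_lit 204)) (nd (nat_lit 204) (nat_lit 0) (cs (lf (nat_lit 11) (nat_lit 203)) (nd (nat_lit 181) (nat_lit 0) (cs (lf (nat_lit 22) (nat_lit 181)) (nd (nat_lit 203) (nat_lit 0) (cs (lf (nat_lit 23) (nat_lit 180)) (rf (nat_lit 0)))))))))) q3353 (by decide +kernel)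
def q3362 : Q := Q.p (nat_lit 0x1e000040000000000000000000000000000000000000000000000) (nat_lit 0x200000800007e00061800018000140000400000000000000000000000000000000000) (nat_lit 9)
theorem c3362 : QOK q3362 := cut [q3356] ⟨c3356, trivial⟩ (nd (nat_lit 226) (nat_lit 0) (cs (lf (nat_lit 10) (nat_lit 204)) (nd (nat_lit 204) (nat_lit 0) (cs (lf (nat_lit 11) (nat_lit 203)) (nd (nat_lit 229) (nat_lit 0) (cs (lf (nat_lit 5) (nat_lit 204)) (nd (nat_lit 251) (nat_lit 0) (cs (lf (nat_lit 30) (nat_lit 185)) (nd (nat_lit 228) (nat_lit 0) (cs (lf (nat_lit 0) (nat_lit 203)) (nd (nat_lit 142) (nat_lit 0) (cs (lf (nat_lit 37) (nat_lit 141)) (rf (nat_lit 0)))))))))))))) q3362 (by decide +kernel)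
def q3369 : Q := Q.p (nat_lit 0x800001c000000000000000000000000000000000000000000000000000) (nat_lit 0x36000002000000000000000000000000000000000000000000000000000) (nat_lit 3)
theorem c3369 : QOK q3369 := cut [q3368] ⟨c3368, trivial⟩ (nd (nat_lit 230) (nat_lit 0) (cs (lf (nat_lit 0) (nat_lit 205)) (rf (nat_lit 0)))) q3369 (by decide +kernel)
def q3375 : Q := Q.p (nat_lit 0x200000800001c000000000000000000000000000000000000000000000000000) (nat_lit 0x8000000000100000200001c0000100000000000000000000000000000000000000000) (nat_lit 4)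
theorem c3375 : QOK q3375 := cut [q1472] ⟨c1472, trivial⟩ (nd (nat_lit 209) (nat_lit 0) (cs (lf (nat_lit 5) (nat_lit 206)) (nd (nat_lit 187) (nat_lit 0) (cs (lf (nat_lit 17) (nat_lit 184)) (rf (nat_lit 0)))))) q3375 (by decide +kernel)
def q3385 : Q := Q.p (nat_lit 0x600001000004000010000000000000000000000000000000000000000000000) (nat_lit 0x8000000000200000c0000200000000000000000000000000000000000) (nat_lit 3)
theorem c3385 : QOK q3385 := cut [q3383] ⟨c3383, trivial⟩ (nd (nat_lit 162) (nat_lit 0) (cs (rf (nat_lit 0)) (lf (nat_lit 40) (nat_lit 161)))) q3385 (by decide +kernel)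
def q3392 : Q := Q.p (nat_lit 0x40000100000c000000000000000000000000000000000000000000000000000) (nat_lit 0x100000000000000000000030000080000200000000000000000000000000000000000) (nat_lit 3)
theorem c3392 : QOK q3392 := cut [q3391] ⟨c3391, trivial⟩ (nd (nat_lit 185) (nat_lit 0) (cs (lf (nat_lit 30) (nat_lit 184)) (rf (nat_lit 0)))) q3392 (by decide +kernel)
def q3411 : Q := Q.p (nat_lit 0x100001c000000000000000000000000000000000000000000000000000) (nat_lit 0x3a800060000180000000000000000000000000000000000000000000000) (nat_lit 5)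
theorem c3411 : QOK q3411 := cut [q3408] ⟨c3408, trivial⟩ (nd (nat_lit 209) (nat_lit 0) (cs (lf (nat_lit 11) (nat_lit 205)) (nd (nat_lit 187) (nat_lit 0) (cs (lf (nat_lit 17) (nat_lit 184)) (nd (nat_lit 210) (nat_lit 0) (cs (lf (nat_lit 10) (nat_lit 206)) (rf (nat_lit 0)))))))) q3411 (by decide +kernel)
def q3425 : Q := Q.p (nat_lit 0x400000000006000008000000000000000000000000000000000000000000000) (nat_lit 0x100000000001000000000010000020000080000000000000000000000000000000000) (nat_lit 3)
theorem c3425 : QOK q3425 := cut [q3424] ⟨c3424, trivial⟩ (nd (nat_lit 228) (nat_lit 0) (cs (lf (nat_lit 42) (nat_lit 183)) (rf (nat_lit 0)))) q3425 (by decide +kernel)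
def q3428 : Q := Q.p (nat_lit 0x400000800006000008000000000000000000000000000000000000000000000) (nat_lit 0x180000200000000000000010000040000000000000000000000000000000000000000) (nat_lit 3)
theorem c3428 : QOK q3428 := cut [q3427] ⟨c3427, trivial⟩ (nd (nat_lit 249) (nat_lit 0) (cs (lf (nat_lit 29) (nat_lit 183)) (rf (nat_lit 0)))) q3428 (by decide +kernel)
def q3435 : Q := Q.p (nat_lit 0x800002000008000020000000000000000000000000000000000000000) (nat_lit 0x500001c0000500000000000000000000000000000) (nat_lit 4)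
theorem c3435 : QOK q3435 := cut [q3431] ⟨c3431, trivial⟩ (nd (nat_lit 140) (nat_lit 0) (cs (nd (nat_lit 139) (nat_lit 0) (cs (rf (nat_lit 0)) (lf (nat_lit 35) (nat_lit 117)))) (lf (nat_lit 34) (nat_lit 139)))) q3435 (by decide +kernel)
def q3443 : Q := Q.p (nat_lit 0x800002000008000020000000000000000000000000000000000000000000000000000) (nat_lit 0x140000700001400000000000000000000000000000000000000000000000000000000000000000000) (nat_lit 4)
theorem c3443 : QOK q3443 := cut [q713] ⟨c713, trivial⟩ (nd (nat_lit 298) (nat_lit 0) (cs (lf (nat_lit 28) (nat_lit 209)) (nd (nat_lit 296) (nat_lit 0) (cs (rf (nat_lit 0)) (lf (nat_lit 40) (nat_lit 208)))))) q3443 (by decide +kernel)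
def q3478 : Q := Q.p (nat_lit 0x200003000004000018000000000000000000000000000000000000000000000000000) (nat_lit 0x200000c000038000058000000000a000000000000000000000000000000000000000000000000000000000) (nat_lit 6)
theorem c3478 : QOK q3478 := cut [q3476] ⟨c3476, trivial⟩ (nd (nat_lit 274) (nat_lit 0) (cs (lf (nat_lit 41) (nat_lit 207)) (nd (nat_lit 271) (nat_lit 0) (cs (lf (nat_lit 13) (nat_lit 249)) (rf (nat_lit 0)))))) q3478 (by decide +kernel)
def q3485 : Q := Q.p (nat_lit 0x600000c0000000000000000000000000000000000000000) (nat_lit 0x190000030000000000000000000000000000000000000000) (nat_lit 3)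
theorem c3485 : QOK q3485 := cut [q3484] ⟨c3484, trivial⟩ (nd (nat_lit 161) (nat_lit 0) (cs (lf (nat_lit 0) (nat_lit 160)) (rf (nat_lit 0)))) q3485 (by decide +kernel)
def q3499 : Q := Q.p (nat_lit 0x18000078000000000000000000000000000000000000000000000) (nat_lit 0x2000000000000000300000400001000000000000000000000000000000) (nat_lit 3)
theorem c3499 : QOK q3499 := cut [q1916] ⟨c1916, trivial⟩ (nd (nat_lit 164) (nat_lit 0) (cs (lf (nat_lit 17) (nat_lit 161)) (rf (nat_lit 0)))) q3499 (by decide +kernel)
def q3505 : Q := Q.p (nat_lit 0x800006000010000000000000000000000000000000000000000000000) (nat_lit 0x80000200001000000000000000040000100000000000000000000000000000000000) (nat_lit 3)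
theorem c3505 : QOK q3505 := cut [q3504] ⟨c3504, trivial⟩ (nd (nat_lit 249) (nat_lit 0) (cs (lf (nat_lit 30) (nat_lit 183)) (rf (nat_lit 0)))) q3505 (by decide +kernel)
def q3509 : Q := Q.p (nat_lit 0x1e000018000000000000000000000000000000000000000000000) (nat_lit 0x200000c00000000000000040000100000000000000000000000000000000000) (nat_lit 3)
theorem c3509 : QOK q3509 := cut [q3279] ⟨c3279, trivial⟩ (nd (nat_lit 227) (nat_lit 0) (cs (lf (nat_lit 11) (nat_lit 204)) (rf (nat_lit 0)))) q3509 (by decide +kernel)
def q3527 : Q := Q.p (nat_lit 0x18000070000000000000000000000000000000000000000000000) (nat_lit 0x80000200000300008c0000f0000100000400000000000000000000000000000) (nat_lit 7)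
theorem c3527 : QOK q3527 := cut [q3521] ⟨c3521, trivial⟩ (nd (nat_lit 183) (nat_lit 0) (cs (lf (nat_lit 0) (nat_lit 182)) (nd (nat_lit 204) (nat_lit 0) (cs (nd (nat_lit 161) (nat_lit 0) (cs (nd (nat_lit 162) (nat_lit 0) (cs (lf (nat_lit 18) (nat_lit 161)) (rf (nat_lit 0)))) (lf (nat_lit 23) (nat_lit 160)))) (lf (nat_lit 10) (nat_lit 182)))))) q3527 (by decide +kernel)
def q3529 : Q := Q.p (nat_lit 0x2400000800004000030000000000000000000000000000000000000000000000) (nat_lit 0x200001800001000000000000000080000000000000000000000000000000000000000) (nat_lit 3)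
theorem c3529 : QOK q3529 := cut [q3528] ⟨c3528, trivial⟩ (nd (nat_lit 228) (nat_lit 0) (cs (lf (nat_lit 35) (nat_lit 162)) (rf (nat_lit 0)))) q3529 (by decide +kernel)
def q3539 : Q := Q.p (nat_lit 0x8000030000040000000000000000000000000000000000000000) (nat_lit 0x800002000004000000000000000100000400000000000000000000000000000) (nat_lit 3)
theorem c3539 : QOK q3539 := cut [q3538] ⟨c3538, trivial⟩ (nd (nat_lit 140) (nat_lit 0) (cs (lf (nat_lit 24) (nat_lit 118)) (rf (nat_lit 0)))) q3539 (by decide +kernel)
def q3560 : Q := Q.p (nat_lit 0x1c000070000000000000000000000000000000000000000000000) (nat_lit 0x2c0000300000c0000f0000fc0003f00000000000000000000000000000) (nat_lit 12)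
theorem c3560 : QOK q3560 := cut [q3551] ⟨c3551, trivial⟩ (nd (nat_lit 205) (nat_lit 0) (cs (lf (nat_lit 12) (nat_lit 182)) (nd (nat_lit 183) (nat_lit 0) (cs (lf (nat_lit 0) (nat_lit 182)) (nd (nat_lit 226) (nat_lit 0) (cs (lf (nat_lit 10) (nat_lit 204)) (nd (nat_lit 161) (nat_lit 0) (cs (lf (nat_lit 23) (nat_lit 160)) (nd (nat_lit 139) (nat_lit 0) (cs (lf (nat_lit 24) (nat_lit 117)) (nd (nat_lit 116) (nat_lit 0) (cs (nd (nat_lit 140) (nat_lit 0) (cs (lf (nat_lit 35) (nat_lit 117)) (nd (nat_lit 162) (nat_lit 0) (cs (lf (nat_lit 29) (nat_lit 140)) (rf (nat_lit 0)))))) (lf (nat_lit 46) (nat_lit 116)))))))))))))) q3560 (by decide +kernel)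
def q3564 : Q := Q.p (nat_lit 0x1c000070000000000000000000000000000000000000000000000) (nat_lit 0x40000100000000000c000070000080000200000000000000000000000000000) (nat_lit 5)
theorem c3564 : QOK q3564 := cut [q3563] ⟨c3563, trivial⟩ (nd (nat_lit 183) (nat_lit 0) (cs (lf (nat_lit 0) (nat_lit 182)) (rf (nat_lit 0)))) q3564 (by decide +kernel)
def q3568 : Q := Q.p (nat_lit 0x200000100000c000030000040000000000000000000000000000000000000000) (nat_lit 0x300001e00000800000000000000000000000000000000000000000000000000000000) (nat_lit 4)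
theorem c3568 : QOK q3568 := cut [q3528] ⟨c3528, trivial⟩ (nd (nat_lit 227) (nat_lit 0) (cs (lf (nat_lit 41) (nat_lit 161)) (nd (nat_lit 250) (nat_lit 0) (cs (lf (nat_lit 30) (nat_lit 184)) (rf (nat_lit 0)))))) q3568 (by decide +kernel)
def q3580 : Q := Q.p (nat_lit 0x2000078000000000000000000000000000000000000000000000) (nat_lit 0x800000000080000070000100000400000000000000000000000000000) (nat_lit 4)
theorem c3580 : QOK q3580 := cut [q3578] ⟨c3578, trivial⟩ (nd (nat_lit 161) (nat_lit 0) (cs (lf (nat_lit 23) (nat_lit 160)) (nd (nat_lit 162) (nat_lit 0) (cs (lf (nat_lit 18) (nat_lit 161)) (rf (nat_lit 0)))))) q3580 (by decide +kernel)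
def q3630 : Q := Q.p (nat_lit 0xc00002000008000020000000000000000000000000000000000000000) (nat_lit 0x10000000000100000c0000100000000000000000000000000000) (nat_lit 3)
theorem c3630 : QOK q3630 := cut [q3431] ⟨c3431, trivial⟩ (nd (nat_lit 139) (nat_lit 0) (cs (rf (nat_lit 0)) (lf (nat_lit 40) (nat_lit 138)))) q3630 (by decide +kernel)
def q3641 : Q := Q.p (nat_lit 0x20000080000200000c000000000000000000000000000000000000000000000) (nat_lit 0x100000c0000100000000001000000000000000000000000000000000000000000000000000) (nat_lit 3)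
theorem c3641 : QOK q3641 := cut [q3639] ⟨c3639, trivial⟩ (nd (nat_lit 271) (nat_lit 0) (cs (rf (nat_lit 0)) (lf (nat_lit 46) (nat_lit 182)))) q3641 (by decide +kernel)
def q3657 : Q := Q.p (nat_lit 0x200000800002000008000000000000000000000000000000000000000000000) (nat_lit 0x40000100000400000000004000030000040000000000000000000000000000000000) (nat_lit 4)
theorem c3657 : QOK q3657 := cut [q3654] ⟨c3654, trivial⟩ (nd (nat_lit 248) (nat_lit 0) (cs (lf (nat_lit 41) (nat_lit 182)) (nd (nat_lit 160) (nat_lit 0) (cs (rf (nat_lit 0)) (lf (nat_lit 46) (nat_lit 160)))))) q3657 (by decide +kernel)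
def q3667 : Q := Q.p (nat_lit 0x200000800002000008000000000000000000000000000000000000000000000) (nat_lit 0x80000600001c0000500000400001000000000020000000000000000000000000000000000000000) (nat_lit 6)
theorem c3667 : QOK q3667 := cut [q3662] ⟨c3662, trivial⟩ (nd (nat_lit 248) (nat_lit 0) (cs (lf (nat_lit 41) (nat_lit 182)) (nd (nat_lit 226) (nat_lit 0) (cs (nd (nat_lit 272) (nat_lit 0) (cs (lf (nat_lit 28) (nat_lit 183)) (nd (nat_lit 271) (nat_lit 0) (cs (lf (nat_lit 29) (nat_lit 205)) (rf (nat_lit 0)))))) (lf (nat_lit 36) (nat_lit 160)))))) q3667 (by decide +kernel)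
def q3688 : Q := Q.p (nat_lit 0x100001c000010000040000000000000000000000000000000000000000) (nat_lit 0xa00002c00000000000000000000000000000000000000000000000000000000) (nat_lit 3)
theorem c3688 : QOK q3688 := cut [q3687] ⟨c3687, trivial⟩ (nd (nat_lit 229) (nat_lit 0) (cs (lf (nat_lit 29) (nat_lit 162)) (rf (nat_lit 0)))) q3688 (by decide +kernel)
def q3723 : Q := Q.p (nat_lit 0x600001e0000000000000000000000000000000000000000) (nat_lit 0x1c000e00003800000000000000000000000000000000000) (nat_lit 5)
theorem c3723 : QOK q3723 := cut [q3721] ⟨c3721, trivial⟩ (nd (nat_lit 183) (nat_lit 0) (cs (lf (nat_lit 11) (nat_lit 160)) (nd (nat_lit 165) (nat_lit 0) (cs (lf (nat_lit 10) (nat_lit 161)) (rf (nat_lit 0)))))) q3723 (by decide +kernel)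
def q3734 : Q := Q.p (nat_lit 0x70000040000000000000000000000000000000000000000) (nat_lit 0x800000b8000000000000000000000000000000000000000) (nat_lit 3)
theorem c3734 : QOK q3734 := cut [q3733] ⟨c3733, trivial⟩ (nd (nat_lit 161) (nat_lit 0) (cs (lf (nat_lit 18) (nat_lit 161)) (rf (nat_lit 0)))) q3734 (by decide +kernel)
def q3739 : Q := Q.p (nat_lit 0x600000c0000000000000000000000000000000000000000) (nat_lit 0x180000130000000000000000000000000000000000000000) (nat_lit 3)
theorem c3739 : QOK q3739 := cut [q3738] ⟨c3738, trivial⟩ (nd (nat_lit 187) (nat_lit 0) (cs (lf (nat_lit 18) (nat_lit 162)) (rf (nat_lit 0)))) q3739 (by decide +kernel)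
def q3743 : Q := Q.p (nat_lit 0x80000200000c0000000000000000000000000000000000000000) (nat_lit 0x2000000000010000000000100000400001000000000000000000000000) (nat_lit 3)
theorem c3743 : QOK q3743 := cut [q3742] ⟨c3742, trivial⟩ (nd (nat_lit 140) (nat_lit 0) (cs (lf (nat_lit 42) (nat_lit 140)) (rf (nat_lit 0)))) q3743 (by decide +kernel)
def q3747 : Q := Q.p (nat_lit 0x18000060000080000000000000000000000000000000000000000) (nat_lit 0x1000006000180000000000200000800000000000000000000000000000) (nat_lit 4)
theorem c3747 : QOK q3747 := cut [q3745] ⟨c3745, trivial⟩ (nd (nat_lit 141) (nat_lit 0) (cs (lf (nat_lit 24) (nat_lit 119)) (nd (nat_lit 206) (nat_lit 0) (cs (lf (nat_lit 41) (nat_lit 140)) (rf (nat_lit 0)))))) q3747 (by decide +kernel)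
def q3750 : Q := Q.p (nat_lit 0x18000060000080000100000000000000000000000000000000000) (nat_lit 0x200000800002000000000000000140000000000000000000000000000000000000000) (nat_lit 3)
theorem c3750 : QOK q3750 := cut [q3749] ⟨c3749, trivial⟩ (nd (nat_lit 229) (nat_lit 0) (cs (lf (nat_lit 46) (nat_lit 140)) (rf (nat_lit 0)))) q3750 (by decide +kernel)
def q3763 : Q := Q.p (nat_lit 0x800003c00000000000000000000000000000000000000000000000000000000000000) (nat_lit 0x5c0000200000000000000000000000000000000000000000000000000000000000000) (nat_lit 3)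
theorem c3763 : QOK q3763 := cut [q3762] ⟨c3762, trivial⟩ (nd (nat_lit 249) (nat_lit 0) (cs (lf (nat_lit 4) (nat_lit 249)) (rf (nat_lit 0)))) q3763 (by decide +kernel)
def q3767 : Q := Q.p (nat_lit 0x400001000004000010000000000000000000000000000000000000000000000) (nat_lit 0x280000e0000280000000000000000000000000000000000) (nat_lit 4)
theorem c3767 : QOK q3767 := cut [q2511] ⟨c2511, trivial⟩ (nd (nat_lit 163) (nat_lit 0) (cs (lf (nat_lit 34) (nat_lit 162)) (nd (nat_lit 162) (nat_lit 0) (cs (lf (nat_lit 35) (nat_lit 140)) (rf (nat_lit 0)))))) q3767 (by decide +kernel)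
def q3779 : Q := Q.p (nat_lit 0x3c00000000018000040000000000000000000000000000000000000000000000) (nat_lit 0x380000000002000000000020000000000000000000000000000000000000000000000) (nat_lit 3)
theorem c3779 : QOK q3779 := cut [q3778] ⟨c3778, trivial⟩ (nd (nat_lit 272) (nat_lit 0) (cs (lf (nat_lit 11) (nat_lit 249)) (rf (nat_lit 0)))) q3779 (by decide +kernel)
def q3782 : Q := Q.p (nat_lit 0x3c00002000008000000000000000000000000000000000000000000000000000) (nat_lit 0x40000180000000001800000000000000000000000000000000000000000000000000000000) (nat_lit 3)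
theorem c3782 : QOK q3782 := cut [q3781] ⟨c3781, trivial⟩ (nd (nat_lit 272) (nat_lit 0) (cs (lf (nat_lit 11) (nat_lit 249)) (rf (nat_lit 0)))) q3782 (by decide +kernel)
def q3802 : Q := Q.p (nat_lit 0x1e0000000000000000000000000000000000000000) (nat_lit 0xe0000100000e0000000000000000000000000000000000) (nat_lit 4)
theorem c3802 : QOK q3802 := cut [q2268] ⟨c2268, trivial⟩ (nd (nat_lit 182) (nat_lit 0) (cs (lf (nat_lit 10) (nat_lit 160)) (nd (nat_lit 160) (nat_lit 0) (cs (lf (nat_lit 11) (nat_lit 159)) (rf (nat_lit 0)))))) q3802 (by decide +kernel)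
def q3818 : Q := Q.p (nat_lit 0x2000004000018000040000000000000000000000000000000000000000000000) (nat_lit 0x80000a000000000000000100000400000000000000000000000000000000000) (nat_lit 3)
theorem c3818 : QOK q3818 := cut [q3817] ⟨c3817, trivial⟩ (nd (nat_lit 164) (nat_lit 0) (cs (lf (nat_lit 28) (nat_lit 164)) (rf (nat_lit 0)))) q3818 (by decide +kernel)
def q3822 : Q := Q.p (nat_lit 0x800003c000000000000000000000000000000000000000000000000000) (nat_lit 0x5c00002000000000000000000000000000000000000000000000000000) (nat_lit 3)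
theorem c3822 : QOK q3822 := cut [q1075] ⟨c1075, trivial⟩ (nd (nat_lit 205) (nat_lit 0) (cs (lf (nat_lit 4) (nat_lit 205)) (rf (nat_lit 0)))) q3822 (by decide +kernel)
def q3828 : Q := Q.p (nat_lit 0x100001c000010000000000000000000000000000000000000000000000) (nat_lit 0x2800060000020000000000000000000000000000000000000000000000) (nat_lit 3)
theorem c3828 : QOK q3828 := cut [q3827] ⟨c3827, trivial⟩ (nd (nat_lit 209) (nat_lit 0) (cs (lf (nat_lit 11) (nat_lit 205)) (rf (nat_lit 0)))) q3828 (by decide +kernel)
def q3856 : Q := Q.p (nat_lit 0x200000100000c000010000040000000000000000000000000000000000000000) (nat_lit 0x200001e00000e00000000020000080000200000000000000000000000000000000000) (nat_lit 6)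
theorem c3856 : QOK q3856 := cut [q3528] ⟨c3528, trivial⟩ (nd (nat_lit 227) (nat_lit 0) (cs (lf (nat_lit 41) (nat_lit 161)) (nd (nat_lit 225) (nat_lit 0) (cs (nd (nat_lit 163) (nat_lit 0) (cs (lf (nat_lit 35) (nat_lit 140)) (nd (nat_lit 250) (nat_lit 0) (cs (lf (nat_lit 34) (nat_lit 162)) (rf (nat_lit 0)))))) (lf (nat_lit 13) (nat_lit 203)))))) q3856 (by decide +kernel)
def q3859 : Q := Q.p (nat_lit 0x100001c000010000040000000000000000000000000000000000000000) (nat_lit 0x200002e00000000000000000000000000000000000000000000000000000000) (nat_lit 3)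
theorem c3859 : QOK q3859 := cut [q3858] ⟨c3858, trivial⟩ (nd (nat_lit 227) (nat_lit 0) (cs (lf (nat_lit 41) (nat_lit 161)) (rf (nat_lit 0)))) q3859 (by decide +kernel)
def q3870 : Q := Q.p (nat_lit 0x4000010000040000200000000000000000000000000000000000) (nat_lit 0x1000000000020000080000000000800002000000000000000000000000) (nat_lit 3)
theorem c3870 : QOK q3870 := cut [q3869] ⟨c3869, trivial⟩ (nd (nat_lit 163) (nat_lit 0) (cs (lf (nat_lit 30) (nat_lit 140)) (rf (nat_lit 0)))) q3870 (by decide +kernel)
def q3871 : Q := Q.p (nat_lit 0xc0000600000000000000000000000000000000000) (nat_lit 0x130001800000000000000000000000000000000000) (nat_lit 3)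
theorem c3871 : QOK q3871 := cut [q812] ⟨c812, trivial⟩ (nd (nat_lit 143) (nat_lit 0) (cs (rf (nat_lit 0)) (lf (nat_lit 6) (nat_lit 140)))) q3871 (by decide +kernel)
def q3881 : Q := Q.p (nat_lit 0x1e000000000000000000000000000000000000000000000000000) (nat_lit 0x1c000200001c0000000000000000000000000000000000000000000000) (nat_lit 4)
theorem c3881 : QOK q3881 := cut [q1075] ⟨c1075, trivial⟩ (nd (nat_lit 187) (nat_lit 0) (cs (lf (nat_lit 16) (nat_lit 183)) (nd (nat_lit 209) (nat_lit 0) (cs (lf (nat_lit 17) (nat_lit 184)) (rf (nat_lit 0)))))) q3881 (by decide +kernel)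
def q3901 : Q := Q.p (nat_lit 0x200001c000048000000000000000000000000000000000000000000000) (nat_lit 0x200000800001000020000010000040000100000000000000000000000000000000000) (nat_lit 4)
theorem c3901 : QOK q3901 := cut [q3899] ⟨c3899, trivial⟩ (nd (nat_lit 251) (nat_lit 0) (cs (lf (nat_lit 30) (nat_lit 185)) (nd (nat_lit 184) (nat_lit 0) (cs (lf (nat_lit 18) (nat_lit 183)) (rf (nat_lit 0)))))) q3901 (by decide +kernel)
def q3903 : Q := Q.p (nat_lit 0x1c000008000000000000000000000000000000000000000000000) (nat_lit 0x20000036000000000000000000000000000000000000000000000) (nat_lit 3)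
theorem c3903 : QOK q3903 := cut [q2411] ⟨c2411, trivial⟩ (nd (nat_lit 184) (nat_lit 0) (cs (lf (nat_lit 18) (nat_lit 183)) (rf (nat_lit 0)))) q3903 (by decide +kernel)
def q3908 : Q := Q.p (nat_lit 0x780000c0000000000000000000000000000000000000000000000) (nat_lit 0x70000180000000000000000000000000000000000000000000000000000) (nat_lit 3)
theorem c3908 : QOK q3908 := cut [q137] ⟨c137, trivial⟩ (nd (nat_lit 211) (nat_lit 0) (cs (lf (nat_lit 18) (nat_lit 186)) (rf (nat_lit 0)))) q3908 (by decide +kernel)
def q3914 : Q := Q.p (nat_lit 0x280001c000040000000000000000000000000000000000000000000000) (nat_lit 0x4400003000020000000000000000000000000000000000000000000000) (nat_lit 3)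
theorem c3914 : QOK q3914 := cut [q3913] ⟨c3913, trivial⟩ (nd (nat_lit 205) (nat_lit 0) (cs (lf (nat_lit 11) (nat_lit 204)) (rf (nat_lit 0)))) q3914 (by decide +kernel)
def q3926 : Q := Q.p (nat_lit 0x1e000060000000000000000000000000000000000000000000000) (nat_lit 0x1c000e0000010000000000000000000000000000000000000000000000) (nat_lit 4)
theorem c3926 : QOK q3926 := cut [q167] ⟨c167, trivial⟩ (nd (nat_lit 227) (nat_lit 0) (cs (lf (nat_lit 11) (nat_lit 204)) (nd (nat_lit 209) (nat_lit 0) (cs (lf (nat_lit 10) (nat_lit 205)) (rf (nat_lit 0)))))) q3926 (by decide +kernel)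
def q3932 : Q := Q.p (nat_lit 0x100000c0000180000000000000000000000000000000000000000) (nat_lit 0x1000004000000000000000200000a00000000000000000000000000000000000) (nat_lit 3)
theorem c3932 : QOK q3932 := cut [q3931] ⟨c3931, trivial⟩ (nd (nat_lit 230) (nat_lit 0) (cs (lf (nat_lit 47) (nat_lit 141)) (rf (nat_lit 0)))) q3932 (by decide +kernel)
def q3946 : Q := Q.p (nat_lit 0x7800004000000000000000000000000000000000000000000000000000) (nat_lit 0x20000080000700000000000000010000040000000000000000000000000000000000000000) (nat_lit 4)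
theorem c3946 : QOK q3946 := cut [q3917] ⟨c3917, trivial⟩ (nd (nat_lit 249) (nat_lit 0) (cs (lf (nat_lit 11) (nat_lit 226)) (rf (nat_lit 0)))) q3946 (by decide +kernel)
def q3968 : Q := Q.p (nat_lit 0x7800000000000000000000000000000000000000000000000000) (nat_lit 0x380000400003800000000000000000000000000000000000000000000) (nat_lit 4)
theorem c3968 : QOK q3968 := cut [q3964] ⟨c3964, trivial⟩ (nd (nat_lit 224) (nat_lit 0) (cs (nd (nat_lit 202) (nat_lit 0) (cs (rf (nat_lit 0)) (lf (nat_lit 11) (nat_lit 201)))) (lf (nat_lit 10) (nat_lit 202)))) q3968 (by decide +kernel)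
def q3984 : Q := Q.p (nat_lit 0x200000c000010000000000000000000000000000000000000000000000000000) (nat_lit 0x200000800001000000000000000040000100000000000000000000000000000000000000000) (nat_lit 3)
theorem c3984 : QOK q3984 := cut [q3983] ⟨c3983, trivial⟩ (nd (nat_lit 275) (nat_lit 0) (cs (lf (nat_lit 42) (nat_lit 208)) (rf (nat_lit 0)))) q3984 (by decide +kernel)
def q3986 : Q := Q.p (nat_lit 0x200000c000010000000000000000000000000000000000000000000000000000) (nat_lit 0x200000800000000000000020000040000100000000000000000000000000000000000000000) (nat_lit 3)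
theorem c3986 : QOK q3986 := cut [q3985] ⟨c3985, trivial⟩ (nd (nat_lit 275) (nat_lit 0) (cs (lf (nat_lit 42) (nat_lit 208)) (rf (nat_lit 0)))) q3986 (by decide +kernel)
def q3988 : Q := Q.p (nat_lit 0xc000018000000000000000000000000000000000000000000000000000) (nat_lit 0x32000006000000000000000000000000000000000000000000000000000) (nat_lit 3)
theorem c3988 : QOK q3988 := cut [q3987] ⟨c3987, trivial⟩ (nd (nat_lit 232) (nat_lit 0) (cs (lf (nat_lit 18) (nat_lit 207)) (rf (nat_lit 0)))) q3988 (by decide +kernel)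
def q3990 : Q := Q.p (nat_lit 0x3000004000018000000000000000000000000000000000000000000000000000) (nat_lit 0xc00000000000000000000060000080000000000000000000000000000000000000000) (nat_lit 3)
theorem c3990 : QOK q3990 := cut [q1823] ⟨c1823, trivial⟩ (nd (nat_lit 186) (nat_lit 0) (cs (lf (nat_lit 29) (nat_lit 186)) (rf (nat_lit 0)))) q3990 (by decide +kernel)
def q3995 : Q := Q.p (nat_lit 0xc000018000000000000000000000000000000000000000000000000000) (nat_lit 0x30000026000000000000000000000000000000000000000000000000000) (nat_lit 3)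
theorem c3995 : QOK q3995 := cut [q3994] ⟨c3994, trivial⟩ (nd (nat_lit 232) (nat_lit 0) (cs (lf (nat_lit 18) (nat_lit 207)) (rf (nat_lit 0)))) q3995 (by decide +kernel)
def q4000 : Q := Q.p (nat_lit 0x300000080001e000000000000000000000000000000000000000000000000000) (nat_lit 0x40000100000c00001000020000020000000000000000000000000000000000000000000000) (nat_lit 4)
theorem c4000 : QOK q4000 := cut [q3997] ⟨c3997, trivial⟩ (nd (nat_lit 228) (nat_lit 0) (cs (lf (nat_lit 6) (nat_lit 205)) (nd (nat_lit 250) (nat_lit 0) (cs (rf (nat_lit 0)) (lf (nat_lit 20) (nat_lit 227)))))) q4000 (by decide +kernel)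
def q4010 : Q := Q.p (nat_lit 0x100000500001c000000000000000000000000000000000000000000000000000) (nat_lit 0x18800020000180000200000000000000000000000000000000000000000) (nat_lit 4)
theorem c4010 : QOK q4010 := cut [q4009] ⟨c4009, trivial⟩ (nd (nat_lit 209) (nat_lit 0) (cs (lf (nat_lit 11) (nat_lit 205)) (rf (nat_lit 0)))) q4010 (by decide +kernel)
def q4037 : Q := Q.p (nat_lit 0xe00003000004000018000000000000000000000000000000000000000000000000000) (nat_lit 0x100000180000000038000024000080000000000000000000000000000000000000000000000) (nat_lit 5)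
theorem c4037 : QOK q4037 := cut [q4036] ⟨c4036, trivial⟩ (nd (nat_lit 271) (nat_lit 0) (cs (lf (nat_lit 13) (nat_lit 249)) (rf (nat_lit 0)))) q4037 (by decide +kernel)
def q4050 : Q := Q.p (nat_lit 0x100000600003000000000000000000000000000000000000000000000000000000000000000) (nat_lit 0x10000040000000000800000800008000000000000000000000000000000000000000000000000000000000) (nat_lit 3)
theorem c4050 : QOK q4050 := cut [q4049] ⟨c4049, trivial⟩ (nd (nat_lit 318) (nat_lit 0) (cs (lf (nat_lit 35) (nat_lit 230)) (rf (nat_lit 0)))) q4050 (by decide +kernel)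
def q4059 : Q := Q.p (nat_lit 0x1000004000018000000000000000000000000000000000000000000000000000) (nat_lit 0x400000000000000000000060000080000200000000000000000000000000000000000) (nat_lit 3)
theorem c4059 : QOK q4059 := cut [q4058] ⟨c4058, trivial⟩ (nd (nat_lit 185) (nat_lit 0) (cs (lf (nat_lit 42) (nat_lit 185)) (rf (nat_lit 0)))) q4059 (by decide +kernel)
def q4074 : Q := Q.p (nat_lit 0xf8000040000000000000000000000000000000000000000000000) (nat_lit 0x106000180000000000000000000000000000000000000000000000) (nat_lit 3)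
theorem c4074 : QOK q4074 := cut [q4073] ⟨c4073, trivial⟩ (nd (nat_lit 187) (nat_lit 0) (cs (lf (nat_lit 18) (nat_lit 186)) (rf (nat_lit 0)))) q4074 (by decide +kernel)
def q4082 : Q := Q.p (nat_lit 0x20000080000300000c0000000000000000000000000000000000000000000000) (nat_lit 0x4000000000100000600001800002000000000000000000000000000000) (nat_lit 4)
theorem c4082 : QOK q4082 := cut [q2224] ⟨c2224, trivial⟩ (nd (nat_lit 166) (nat_lit 0) (cs (lf (nat_lit 34) (nat_lit 165)) (nd (nat_lit 165) (nat_lit 0) (cs (lf (nat_lit 35) (nat_lit 143)) (rf (nat_lit 0)))))) q4082 (by decide +kernel)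
def q4089 : Q := Q.p (nat_lit 0x200000000001c000000000000000000000000000000000000000000000000000) (nat_lit 0x3a0000620001fc000100000400001000000000000000000000000000000) (nat_lit 6)
theorem c4089 : QOK q4089 := cut [q1464, q1678, q3286] ⟨c1464, c1678, c3286, trivial⟩ (nd (nat_lit 209) (nat_lit 0) (cs (rf (nat_lit 0)) (cs (rf (nat_lit 1)) (rf (nat_lit 2))))) q4089 (by decide +kernel)
def q4090 : Q := Q.p (nat_lit 0x3000008000020000080000000000000000000000000000000000000000000000) (nat_lit 0x4000000000040000300000400000000000000000000000000000000000) (nat_lit 3)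
theorem c4090 : QOK q4090 := cut [q1578] ⟨c1578, trivial⟩ (nd (nat_lit 165) (nat_lit 0) (cs (lf (nat_lit 40) (nat_lit 164)) (rf (nat_lit 0)))) q4090 (by decide +kernel)
def q4100 : Q := Q.p (nat_lit 0x8000038000000000000000000000000000000000000000000000000000) (nat_lit 0x70000044000000000000000000000000000000000000000000000000000) (nat_lit 3)
theorem c4100 : QOK q4100 := cut [q4099] ⟨c4099, trivial⟩ (nd (nat_lit 232) (nat_lit 0) (cs (lf (nat_lit 0) (nat_lit 206)) (rf (nat_lit 0)))) q4100 (by decide +kernel)
def q4123 : Q := Q.p (nat_lit 0xf00000000000000000000000000000000000000000000000000000000000000) (nat_lit 0x70000080000700000000000000000000000000000000000000000000000000000000) (nat_lit 4)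
theorem c4123 : QOK q4123 := cut [q4119] ⟨c4119, trivial⟩ (nd (nat_lit 269) (nat_lit 0) (cs (nd (nat_lit 247) (nat_lit 0) (cs (rf (nat_lit 0)) (lf (nat_lit 11) (nat_lit 246)))) (lf (nat_lit 10) (nat_lit 247)))) q4123 (by decide +kernel)
def q4135 : Q := Q.p (nat_lit 0x40000100000c000010000000000000000000000000000000000000000000000) (nat_lit 0x800002000020000000000200000e0000380000200000000000000000000000000000) (nat_lit 6)
theorem c4135 : QOK q4135 := cut [q4134] ⟨c4134, trivial⟩ (nd (nat_lit 249) (nat_lit 0) (cs (lf (nat_lit 41) (nat_lit 183)) (rf (nat_lit 0)))) q4135 (by decide +kernel)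
def q4157 : Q := Q.p (nat_lit 0x10000040000100000c000000000000000000000000000000000000000000000000000) (nat_lit 0x8000060000080000000002000000000000000000000000000000000000000000000000000000000) (nat_lit 3)
theorem c4157 : QOK q4157 := cut [q4155] ⟨c4155, trivial⟩ (nd (nat_lit 294) (nat_lit 0) (cs (rf (nat_lit 0)) (lf (nat_lit 34) (nat_lit 206)))) q4157 (by decide +kernel)
def q4164 : Q := Q.p (nat_lit 0x100001c000000000000000000000000000000000000000000000000000) (nat_lit 0xe00022000000000000000000000000000000000000000000000000000) (nat_lit 3)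
theorem c4164 : QOK q4164 := cut [q4163] ⟨c4163, trivial⟩ (nd (nat_lit 227) (nat_lit 0) (cs (lf (nat_lit 6) (nat_lit 205)) (rf (nat_lit 0)))) q4164 (by decide +kernel)
def q4169 : Q := Q.p (nat_lit 0xf000000000000000000000000000000000000000000000000000) (nat_lit 0x700000800007000000000000000000000000000000000000000000000) (nat_lit 4)
theorem c4169 : QOK q4169 := cut [q898] ⟨c898, trivial⟩ (nd (nat_lit 225) (nat_lit 0) (cs (lf (nat_lit 10) (nat_lit 203)) (nd (nat_lit 203) (nat_lit 0) (cs (rf (nat_lit 0)) (lf (nat_lit 11) (nat_lit 202)))))) q4169 (by decide +kernel)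
def q4173 : Q := Q.p (nat_lit 0x400001c000000000000000000000000000000000000000000000000000) (nat_lit 0x1a000022000000000000000000000000000000000000000000000000000) (nat_lit 3)
theorem c4173 : QOK q4173 := cut [q4172] ⟨c4172, trivial⟩ (nd (nat_lit 231) (nat_lit 0) (cs (lf (nat_lit 0) (nat_lit 205)) (rf (nat_lit 0)))) q4173 (by decide +kernel)
def q4186 : Q := Q.p (nat_lit 0x40000100000c000000000000000000000000000000000000000000000000000) (nat_lit 0x280000e0000380000000000000000000020000000000000000000000000000000000000000000000) (nat_lit 5)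
theorem c4186 : QOK q4186 := cut [q4155] ⟨c4155, trivial⟩ (nd (nat_lit 272) (nat_lit 0) (cs (lf (nat_lit 35) (nat_lit 184)) (nd (nat_lit 295) (nat_lit 0) (cs (lf (nat_lit 28) (nat_lit 206)) (nd (nat_lit 294) (nat_lit 0) (cs (lf (nat_lit 29) (nat_lit 228)) (rf (nat_lit 0)))))))) q4186 (by decide +kernel)
def q4204 : Q := Q.p (nat_lit 0xe00003000000000000000000000000000000000000000000000000000000000000000) (nat_lit 0x40000160001180000e00019800020000000000000000000000000000000000000000000000000000) (nat_lit 8)
theorem c4204 : QOK q4204 := cut [q4198] ⟨c4198, trivial⟩ (nd (nat_lit 272) (nat_lit 0) (cs (lf (nat_lit 12) (nat_lit 249)) (nd (nat_lit 293) (nat_lit 0) (cs (lf (nat_lit 10) (nat_lit 271)) (nd (nat_lit 250) (nat_lit 0) (cs (lf (nat_lit 23) (nat_lit 249)) (nd (nat_lit 251) (nat_lit 0) (cs (lf (nat_lit 18) (nat_lit 250)) (nd (nat_lit 227) (nat_lit 0) (cs (lf (nat_lit 22) (nat_lit 227)) (nd (nat_lit 231) (nat_lit 0) (cs (lf (nat_lit 17) (nat_lit 228)) (rf (nat_lit 0)))))))))))))) q4204 (by decide +kernel)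
def q4213 : Q := Q.p (nat_lit 0x300000e000018000000000000000000000000000000000000000000000000000) (nat_lit 0x240001980000e00001800060000000000000000000000000000000000000000000000000000) (nat_lit 7)
theorem c4213 : QOK q4213 := cut [q4210] ⟨c4210, trivial⟩ (nd (nat_lit 228) (nat_lit 0) (cs (lf (nat_lit 0) (nat_lit 227)) (nd (nat_lit 209) (nat_lit 0) (cs (lf (nat_lit 6) (nat_lit 206)) (nd (nat_lit 250) (nat_lit 0) (cs (lf (nat_lit 11) (nat_lit 227)) (rf (nat_lit 0)))))))) q4213 (by decide +kernel)
def q4233 : Q := Q.p (nat_lit 0x300001e000000000000000000000000000000000000000000000000000000000) (nat_lit 0x18000e0000000000000000000000000000000000000000000000000000) (nat_lit 3)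
theorem c4233 : QOK q4233 := cut [q4231] ⟨c4231, trivial⟩ (nd (nat_lit 210) (nat_lit 0) (cs (rf (nat_lit 0)) (lf (nat_lit 17) (nat_lit 207)))) q4233 (by decide +kernel)
def q4247 : Q := Q.p (nat_lit 0x200000600001c000020000000000000000000000000000000000000000000000) (nat_lit 0x300000f00019000000000040000100000000000000000000000000000000000000000) (nat_lit 6)
theorem c4247 : QOK q4247 := cut [q4242] ⟨c4242, trivial⟩ (nd (nat_lit 231) (nat_lit 0) (cs (nd (nat_lit 186) (nat_lit 0) (cs (lf (nat_lit 24) (nat_lit 164)) (nd (nat_lit 251) (nat_lit 0) (cs (lf (nat_lit 30) (nat_lit 185)) (nd (nat_lit 250) (nat_lit 0) (cs (lf (nat_lit 41) (nat_lit 184)) (rf (nat_lit 0)))))))) (lf (nat_lit 18) (nat_lit 206)))) q4247 (by decide +kernel)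
def q4254 : Q := Q.p (nat_lit 0x200003c000020000000000000000000000000000000000000000000000) (nat_lit 0x800000000000000018000040000100000000000000000000000000000000000) (nat_lit 3)
theorem c4254 : QOK q4254 := cut [q4253] ⟨c4253, trivial⟩ (nd (nat_lit 184) (nat_lit 0) (cs (lf (nat_lit 23) (nat_lit 183)) (rf (nat_lit 0)))) q4254 (by decide +kernel)
def q4263 : Q := Q.p (nat_lit 0x200000600001c000020000000000000000000000000000000000000000000000) (nat_lit 0x18000000000040000180000600000000000000000000000000000000000) (nat_lit 4)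
theorem c4263 : QOK q4263 := cut [q1383] ⟨c1383, trivial⟩ (nd (nat_lit 231) (nat_lit 0) (cs (lf (nat_lit 18) (nat_lit 206)) (nd (nat_lit 164) (nat_lit 0) (cs (rf (nat_lit 0)) (lf (nat_lit 25) (nat_lit 164)))))) q4263 (by decide +kernel)
def q4266 : Q := Q.p (nat_lit 0x6000018000020000080000000000000000000000000000000000000000) (nat_lit 0x400001c00020000000000000000000000000000000000000000000000000000) (nat_lit 3)
theorem c4266 : QOK q4266 := cut [q4265] ⟨c4265, trivial⟩ (nd (nat_lit 228) (nat_lit 0) (cs (lf (nat_lit 41) (nat_lit 162)) (rf (nat_lit 0)))) q4266 (by decide +kernel)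
def q4286 : Q := Q.p (nat_lit 0x78000000000000000000000000000000000000000000000000000) (nat_lit 0x77000080000000000000000000000000000000000000000000000000000) (nat_lit 4)
theorem c4286 : QOK q4286 := cut [q4284] ⟨c4284, trivial⟩ (nd (nat_lit 233) (nat_lit 0) (cs (lf (nat_lit 4) (nat_lit 207)) (nd (nat_lit 211) (nat_lit 0) (cs (lf (nat_lit 5) (nat_lit 208)) (rf (nat_lit 0)))))) q4286 (by decide +kernel)
def q4298 : Q := Q.p (nat_lit 0x8000020000080000200000000000000000000000000000000000000000) (nat_lit 0x500001c00005000000000000000000000000000000) (nat_lit 4)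
theorem c4298 : QOK q4298 := cut [q4296] ⟨c4296, trivial⟩ (nd (nat_lit 144) (nat_lit 0) (cs (lf (nat_lit 34) (nat_lit 143)) (nd (nat_lit 143) (nat_lit 0) (cs (lf (nat_lit 35) (nat_lit 121)) (rf (nat_lit 0)))))) q4298 (by decide +kernel)
def q4333 : Q := Q.p (nat_lit 0x3000004000010000000000000000000000000000000000000000000000000000) (nat_lit 0x80000200000800000000008000000000040000000000000000000000000000000000000000000000) (nat_lit 3)
theorem c4333 : QOK q4333 := cut [q1298] ⟨c1298, trivial⟩ (nd (nat_lit 275) (nat_lit 0) (cs (lf (nat_lit 24) (nat_lit 186)) (rf (nat_lit 0)))) q4333 (by decide +kernel)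
def q4346 : Q := Q.p (nat_lit 0x3000004000018000000000000000000000000000000000000000000000000000) (nat_lit 0xe000008000000000260001c0000200000000000000000000000000000000000000000) (nat_lit 6)
theorem c4346 : QOK q4346 := cut [q4073] ⟨c4073, trivial⟩ (nd (nat_lit 186) (nat_lit 0) (cs (lf (nat_lit 29) (nat_lit 186)) (nd (nat_lit 251) (nat_lit 0) (cs (lf (nat_lit 41) (nat_lit 185)) (nd (nat_lit 187) (nat_lit 0) (cs (lf (nat_lit 35) (nat_lit 164)) (nd (nat_lit 209) (nat_lit 0) (cs (lf (nat_lit 30) (nat_lit 186)) (rf (nat_lit 0)))))))))) q4346 (by decide +kernel)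
def q4377 : Q := Q.p (nat_lit 0x80000f0000000000000000000000000000000000000000000000000000) (nat_lit 0xf0000300001c00000000000000000000000000000000000000000000000) (nat_lit 5)
theorem c4377 : QOK q4377 := cut [q1600] ⟨c1600, trivial⟩ (nd (nat_lit 234) (nat_lit 0) (cs (lf (nat_lit 4) (nat_lit 208)) (nd (nat_lit 212) (nat_lit 0) (cs (lf (nat_lit 5) (nat_lit 209)) (nd (nat_lit 213) (nat_lit 0) (cs (lf (nat_lit 10) (nat_lit 209)) (rf (nat_lit 0)))))))) q4377 (by decide +kernel)
def q4380 : Q := Q.p (nat_lit 0x2000018000070000000000000000000000000000000000000000000000000000) (nat_lit 0xc000300000400000000000000000000000000000000000000000) (nat_lit 3)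
theorem c4380 : QOK q4380 := cut [q107] ⟨c107, trivial⟩ (nd (nat_lit 207) (nat_lit 0) (cs (rf (nat_lit 0)) (lf (nat_lit 0) (nat_lit 206)))) q4380 (by decide +kernel)
def q4406 : Q := Q.p (nat_lit 0x2000008000038000100000000000000000000000000000000000000000000000) (nat_lit 0x10000040000200000400001000000000000000000000000000000000000) (nat_lit 3)
theorem c4406 : QOK q4406 := cut [q207] ⟨c207, trivial⟩ (nd (nat_lit 210) (nat_lit 0) (cs (lf (nat_lit 17) (nat_lit 185)) (rf (nat_lit 0)))) q4406 (by decide +kernel)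
def q4412 : Q := Q.p (nat_lit 0x2000000000030000140000000000000000000000000000000000000000000000) (nat_lit 0x800000000018000040000080000400001000000000000000000000000000000000000) (nat_lit 4)
theorem c4412 : QOK q4412 := cut [q4411] ⟨c4411, trivial⟩ (nd (nat_lit 231) (nat_lit 0) (cs (lf (nat_lit 42) (nat_lit 186)) (rf (nat_lit 0)))) q4412 (by decide +kernel)
def q4421 : Q := Q.p (nat_lit 0x600003000004000008000000000000000000000000000000000000000000000000000) (nat_lit 0x4000010000018000000000a000020000000000000000000000000000000000000000000000000000) (nat_lit 4)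
theorem c4421 : QOK q4421 := cut [q4419] ⟨c4419, trivial⟩ (nd (nat_lit 271) (nat_lit 0) (cs (lf (nat_lit 13) (nat_lit 249)) (nd (nat_lit 296) (nat_lit 0) (cs (lf (nat_lit 46) (nat_lit 207)) (rf (nat_lit 0)))))) q4421 (by decide +kernel)
def q4446 : Q := Q.p (nat_lit 0x2000038000000000000000000000000000000000000000000000000000) (nat_lit 0x1c00044000000000000000000000000000000000000000000000000000) (nat_lit 3)
theorem c4446 : QOK q4446 := cut [q1490] ⟨c1490, trivial⟩ (nd (nat_lit 228) (nat_lit 0) (cs (lf (nat_lit 6) (nat_lit 206)) (rf (nat_lit 0)))) q4446 (by decide +kernel)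
def q4450 : Q := Q.p (nat_lit 0x100001c000060000100000000000000000000000000000000000000000) (nat_lit 0x80000600001800000000000000000000000000000) (nat_lit 3)
theorem c4450 : QOK q4450 := cut [q2702] ⟨c2702, trivial⟩ (nd (nat_lit 142) (nat_lit 0) (cs (lf (nat_lit 36) (nat_lit 119)) (rf (nat_lit 0)))) q4450 (by decide +kernel)
def q4457 : Q := Q.p (nat_lit 0x10000040000780000000000000000000000000000000000000000) (nat_lit 0x80000040003800002000008000000000000000000000000) (nat_lit 4)
theorem c4457 : QOK q4457 := cut [q4454] ⟨c4454, trivial⟩ (nd (nat_lit 144) (nat_lit 0) (cs (lf (nat_lit 17) (nat_lit 141)) (nd (nat_lit 143) (nat_lit 0) (cs (rf (nat_lit 0)) (lf (nat_lit 12) (nat_lit 140)))))) q4457 (by decide +kernel)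
def q4466 : Q := Q.p (nat_lit 0x100000c0000380000000000000000000000000000000000000000) (nat_lit 0x60001800002000000000000000000000000000000) (nat_lit 3)
theorem c4466 : QOK q4466 := cut [q4465] ⟨c4465, trivial⟩ (nd (nat_lit 162) (nat_lit 0) (cs (lf (nat_lit 0) (nat_lit 161)) (rf (nat_lit 0)))) q4466 (by decide +kernel)
def q4481 : Q := Q.p (nat_lit 0x3c000000000000000800000000000000000000000000000000000) (nat_lit 0x30000040000380000e0000300000a000000000000000000000000000000) (nat_lit 7)
theorem c4481 : QOK q4481 := cut [q4475] ⟨c4475, trivial⟩ (nd (nat_lit 188) (nat_lit 0) (cs (lf (nat_lit 16) (nat_lit 184)) (nd (nat_lit 210) (nat_lit 0) (cs (lf (nat_lit 17) (nat_lit 185)) (nd (nat_lit 232) (nat_lit 0) (cs (lf (nat_lit 5) (nat_lit 207)) (nd (nat_lit 166) (nat_lit 0) (cs (nd (nat_lit 144) (nat_lit 0) (cs (lf (nat_lit 47) (nat_lit 121)) (rf (nat_lit 0)))) (lf (nat_lit 46) (nat_lit 143)))))))))) q4481 (by decide +kernel)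
def q4505 : Q := Q.p (nat_lit 0x8000020000180000600000000000000000000000000000000000) (nat_lit 0x2000001c0000400000000000000000000000000000) (nat_lit 3)
theorem c4505 : QOK q4505 := cut [q4504] ⟨c4504, trivial⟩ (nd (nat_lit 140) (nat_lit 0) (cs (lf (nat_lit 47) (nat_lit 118)) (rf (nat_lit 0)))) q4505 (by decide +kernel)
def q4513 : Q := Q.p (nat_lit 0x180000600001a0000400000000000000000000000000000000000) (nat_lit 0x10000bc0002c00000000000000000000000000000) (nat_lit 5)
theorem c4513 : QOK q4513 := cut [q4511] ⟨c4511, trivial⟩ (nd (nat_lit 121) (nat_lit 0) (cs (lf (nat_lit 34) (nat_lit 120)) (nd (nat_lit 141) (nat_lit 0) (cs (lf (nat_lit 47) (nat_lit 119)) (rf (nat_lit 0)))))) q4513 (by decide +kernel)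
def q4517 : Q := Q.p (nat_lit 0x80000200001c0000200000000000000000000000000000000000) (nat_lit 0x2000001c0000400000000000000000000000000000) (nat_lit 3)
theorem c4517 : QOK q4517 := cut [q3148] ⟨c3148, trivial⟩ (nd (nat_lit 140) (nat_lit 0) (cs (lf (nat_lit 47) (nat_lit 118)) (rf (nat_lit 0)))) q4517 (by decide +kernel)
def q4533 : Q := Q.p (nat_lit 0x100000400001c0000400000000000000000000000000000000000) (nat_lit 0x200003800002000000000000000000000000000000) (nat_lit 3)
theorem c4533 : QOK q4533 := cut [q4532] ⟨c4532, trivial⟩ (nd (nat_lit 143) (nat_lit 0) (cs (lf (nat_lit 35) (nat_lit 120)) (rf (nat_lit 0)))) q4533 (by decide +kernel)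
def q4565 : Q := Q.p (nat_lit 0x380000e0000000000000000000000000000000000000000000000) (nat_lit 0x2000000000300000fc0001700005c00000000000000000000000000000) (nat_lit 9)
theorem c4565 : QOK q4565 := cut [q4561] ⟨c4561, trivial⟩ (nd (nat_lit 188) (nat_lit 0) (cs (lf (nat_lit 6) (nat_lit 185)) (nd (nat_lit 166) (nat_lit 0) (cs (lf (nat_lit 17) (nat_lit 163)) (nd (nat_lit 122) (nat_lit 0) (cs (lf (nat_lit 37) (nat_lit 121)) (nd (nat_lit 163) (nat_lit 0) (cs (lf (nat_lit 23) (nat_lit 162)) (rf (nat_lit 0)))))))))) q4565 (by decide +kernel)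
def q4600 : Q := Q.p (nat_lit 0x300000c0000180000400000000000000000000000000000000000) (nat_lit 0x200003a0000e800000000000000000000000000000) (nat_lit 5)
theorem c4600 : QOK q4600 := cut [q4542] ⟨c4542, trivial⟩ (nd (nat_lit 141) (nat_lit 0) (cs (lf (nat_lit 47) (nat_lit 119)) (rf (nat_lit 0)))) q4600 (by decide +kernel)
def q4607 : Q := Q.p (nat_lit 0x2000038000000000000000000000000000000000000000000000000000) (nat_lit 0x5c00040000000000000000000000000000000000000000000000000000) (nat_lit 3)
theorem c4607 : QOK q4607 := cut [q1726] ⟨c1726, trivial⟩ (nd (nat_lit 228) (nat_lit 0) (cs (lf (nat_lit 6) (nat_lit 206)) (rf (nat_lit 0)))) q4607 (by decide +kernel)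
def q4621 : Q := Q.p (nat_lit 0x2000000000070000140000000000000000000000000000000000000000000000) (nat_lit 0x800000000018000000000000000400001000000000000000000000000000000000000) (nat_lit 3)
theorem c4621 : QOK q4621 := cut [q207] ⟨c207, trivial⟩ (nd (nat_lit 231) (nat_lit 0) (cs (lf (nat_lit 42) (nat_lit 186)) (rf (nat_lit 0)))) q4621 (by decide +kernel)
def q4622 : Q := Q.p (nat_lit 0x70000100000000000000000000000000000000000000000000000) (nat_lit 0x88000e00000000000000000000000000000000000000000000000) (nat_lit 3)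
theorem c4622 : QOK q4622 := cut [q42] ⟨c42, trivial⟩ (nd (nat_lit 189) (nat_lit 0) (cs (rf (nat_lit 0)) (lf (nat_lit 12) (nat_lit 185)))) q4622 (by decide +kernel)
def q4627 : Q := Q.p (nat_lit 0x10000040000100000400000000000000000000000000000000000000000) (nat_lit 0xa0000380000a000000000000000000000000000000) (nat_lit 4)
theorem c4627 : QOK q4627 := cut [q4625] ⟨c4625, trivial⟩ (nd (nat_lit 145) (nat_lit 0) (cs (lf (nat_lit 34) (nat_lit 144)) (nd (nat_lit 144) (nat_lit 0) (cs (lf (nat_lit 35) (nat_lit 122)) (rf (nat_lit 0)))))) q4627 (by decide +kernel)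
def q4630 : Q := Q.p (nat_lit 0x18000160000400000800002000000000000000000000000000000) (nat_lit 0x800008c0000700005c00000000000000000000000000000) (nat_lit 6)
theorem c4630 : QOK q4630 := cut [q2122] ⟨c2122, trivial⟩ (nd (nat_lit 187) (nat_lit 0) (cs (lf (nat_lit 17) (nat_lit 163)) (nd (nat_lit 163) (nat_lit 0) (cs (lf (nat_lit 23) (nat_lit 162)) (rf (nat_lit 0)))))) q4630 (by decide +kernel)
def q4638 : Q := Q.p (nat_lit 0x60000100000400001000000000000000000000000000000000000) (nat_lit 0x8000000000200000c000020000000000000000000000000) (nat_lit 3)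
theorem c4638 : QOK q4638 := cut [q4637] ⟨c4637, trivial⟩ (nd (nat_lit 122) (nat_lit 0) (cs (lf (nat_lit 40) (nat_lit 121)) (rf (nat_lit 0)))) q4638 (by decide +kernel)
def q4656 : Q := Q.p (nat_lit 0x60000100000400001000000000000000000000000000000000000) (nat_lit 0x80000000000800006000008000000000000000000000000) (nat_lit 3)
theorem c4656 : QOK q4656 := cut [q4655] ⟨c4655, trivial⟩ (nd (nat_lit 122) (nat_lit 0) (cs (lf (nat_lit 40) (nat_lit 121)) (rf (nat_lit 0)))) q4656 (by decide +kernel)
def q4659 : Q := Q.p (nat_lit 0x40000100000400001000000000000000000000000000000000000) (nat_lit 0x280000e000028000000000000000000000000) (nat_lit 4)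
theorem c4659 : QOK q4659 := cut [q4655] ⟨c4655, trivial⟩ (nd (nat_lit 123) (nat_lit 0) (cs (lf (nat_lit 34) (nat_lit 122)) (nd (nat_lit 122) (nat_lit 0) (cs (lf (nat_lit 35) (nat_lit 100)) (rf (nat_lit 0)))))) q4659 (by decide +kernel)
def q4677 : Q := Q.p (nat_lit 0x10000040000100000c0000000000000000000000000000000000000000000000) (nat_lit 0x40000000000000000c000320000080000000000000000000000000000000000000000) (nat_lit 4)
theorem c4677 : QOK q4677 := cut [q419] ⟨c419, trivial⟩ (nd (nat_lit 185) (nat_lit 0) (cs (lf (nat_lit 47) (nat_lit 163)) (nd (nat_lit 207) (nat_lit 0) (cs (rf (nat_lit 0)) (lf (nat_lit 42) (nat_lit 185)))))) q4677 (by decide +kernel)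
def q4698 : Q := Q.p (nat_lit 0x1e0000000000000000000000000000000000000000000000) (nat_lit 0xe0000100000e0000000000000000000000000000000000000000) (nat_lit 4)
theorem c4698 : QOK q4698 := cut [q4697] ⟨c4697, trivial⟩ (nd (nat_lit 162) (nat_lit 0) (cs (lf (nat_lit 22) (nat_lit 162)) (rf (nat_lit 0)))) q4698 (by decide +kernel)
def q4703 : Q := Q.p (nat_lit 0x3c0000c00000000000000000000000000000000000000000) (nat_lit 0x20000180000000000000001000004000000000000000000000000000000) (nat_lit 3)
theorem c4703 : QOK q4703 := cut [q4702] ⟨c4702, trivial⟩ (nd (nat_lit 211) (nat_lit 0) (cs (lf (nat_lit 5) (nat_lit 186)) (rf (nat_lit 0)))) q4703 (by decide +kernel)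
def q4710 : Q := Q.p (nat_lit 0xb0000300000c00000000000000000000000000000000000000000) (nat_lit 0x18000060000040000000000000000000000000000000000000000000000000000) (nat_lit 3)
theorem c4710 : QOK q4710 := cut [q4709] ⟨c4709, trivial⟩ (nd (nat_lit 233) (nat_lit 0) (cs (lf (nat_lit 42) (nat_lit 166)) (rf (nat_lit 0)))) q4710 (by decide +kernel)
def q4727 : Q := Q.p (nat_lit 0x20000000000100001c0000000000000000000000000000000000000000000000) (nat_lit 0x8000028000620001c00000000000000000000000000000000000000000) (nat_lit 5)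
theorem c4727 : QOK q4727 := cut [q4726] ⟨c4726, trivial⟩ (nd (nat_lit 189) (nat_lit 0) (cs (lf (nat_lit 11) (nat_lit 185)) (rf (nat_lit 0)))) q4727 (by decide +kernel)
def q4753 : Q := Q.p (nat_lit 0x10000070000000000000000000000000000000000000000000000) (nat_lit 0x2b80000c000000000000000000000000000000000000000000000) (nat_lit 4)
theorem c4753 : QOK q4753 := cut [q4752] ⟨c4752, trivial⟩ (nd (nat_lit 183) (nat_lit 0) (cs (lf (nat_lit 5) (nat_lit 183)) (rf (nat_lit 0)))) q4753 (by decide +kernel)
def q4771 : Q := Q.p (nat_lit 0x78000000000000000000000000000000000000000000000) (nat_lit 0x3800004000038000000000000000000000000000000000000000) (nat_lit 4)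
theorem c4771 : QOK q4771 := cut [q4769] ⟨c4769, trivial⟩ (nd (nat_lit 204) (nat_lit 0) (cs (lf (nat_lit 10) (nat_lit 182)) (nd (nat_lit 182) (nat_lit 0) (cs (lf (nat_lit 11) (nat_lit 181)) (rf (nat_lit 0)))))) q4771 (by decide +kernel)
def q4773 : Q := Q.p (nat_lit 0x10000078000000000000000000000000000000000000000000000) (nat_lit 0x8000004000038000000000000000000000000000000000000000) (nat_lit 3)
theorem c4773 : QOK q4773 := cut [q4769] ⟨c4769, trivial⟩ (nd (nat_lit 182) (nat_lit 0) (cs (lf (nat_lit 4) (nat_lit 182)) (rf (nat_lit 0)))) q4773 (by decide +kernel)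
def q4806 : Q := Q.p (nat_lit 0x10000040000180000000000000000000000000000000000000000) (nat_lit 0x4000000000020000000000200000800002000000000000000000000000) (nat_lit 3)
theorem c4806 : QOK q4806 := cut [q2879] ⟨c2879, trivial⟩ (nd (nat_lit 141) (nat_lit 0) (cs (lf (nat_lit 42) (nat_lit 141)) (rf (nat_lit 0)))) q4806 (by decide +kernel)
def q4807 : Q := Q.p (nat_lit 0x2000004000010000040000100000000000000000000000000000000000000000) (nat_lit 0x800001000000000000000080000200000800000000000000000000000000000000000) (nat_lit 3)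
theorem c4807 : QOK q4807 := cut [q432] ⟨c432, trivial⟩ (nd (nat_lit 252) (nat_lit 0) (cs (lf (nat_lit 29) (nat_lit 186)) (rf (nat_lit 0)))) q4807 (by decide +kernel)
def q4811 : Q := Q.p (nat_lit 0x40000780000000000000000000000000000000000000000) (nat_lit 0x720000800000000000000000000000000000000000000000) (nat_lit 3)
theorem c4811 : QOK q4811 := cut [q4810] ⟨c4810, trivial⟩ (nd (nat_lit 167) (nat_lit 0) (cs (lf (nat_lit 11) (nat_lit 163)) (rf (nat_lit 0)))) q4811 (by decide +kernel)
def q4816 : Q := Q.p (nat_lit 0x100000400003c0000000000000000000000000000000000000000) (nat_lit 0x80000000001800002000008000000000000000000000000) (nat_lit 3)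
theorem c4816 : QOK q4816 := cut [q4454] ⟨c4454, trivial⟩ (nd (nat_lit 143) (nat_lit 0) (cs (lf (nat_lit 17) (nat_lit 140)) (rf (nat_lit 0)))) q4816 (by decide +kernel)
def q4829 : Q := Q.p (nat_lit 0x10000040000380000100000000000000000000000000000000000) (nat_lit 0x20000400000200000800002000000000000000000000000) (nat_lit 3)
theorem c4829 : QOK q4829 := cut [q2879] ⟨c2879, trivial⟩ (nd (nat_lit 141) (nat_lit 0) (cs (rf (nat_lit 0)) (lf (nat_lit 18) (nat_lit 140)))) q4829 (by decide +kernel)
def q4850 : Q := Q.p (nat_lit 0x10000040000300000000000000000000000000000000000000000) (nat_lit 0x4000000000080000000000800002000008000000000000000000000000) (nat_lit 3)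
theorem c4850 : QOK q4850 := cut [q4454] ⟨c4454, trivial⟩ (nd (nat_lit 143) (nat_lit 0) (cs (lf (nat_lit 30) (nat_lit 142)) (rf (nat_lit 0)))) q4850 (by decide +kernel)
def q4854 : Q := Q.p (nat_lit 0x10000040000380000000000000000000000000000000000000000) (nat_lit 0x4000000000000000440007800000000000000000000000000000000000) (nat_lit 4)
theorem c4854 : QOK q4854 := cut [q4852] ⟨c4852, trivial⟩ (nd (nat_lit 143) (nat_lit 0) (cs (lf (nat_lit 30) (nat_lit 142)) (nd (nat_lit 144) (nat_lit 0) (cs (lf (nat_lit 12) (nat_lit 140)) (rf (nat_lit 0)))))) q4854 (by decide +kernel)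
def q4866 : Q := Q.p (nat_lit 0x10000040000100000400000000000000000000000000000000000) (nat_lit 0x2000008000020000080000380000e000008000000000000000000) (nat_lit 6)
theorem c4866 : QOK q4866 := cut [q4864] ⟨c4864, trivial⟩ (nd (nat_lit 121) (nat_lit 0) (cs (lf (nat_lit 34) (nat_lit 120)) (nd (nat_lit 120) (nat_lit 0) (cs (lf (nat_lit 35) (nat_lit 98)) (rf (nat_lit 0)))))) q4866 (by decide +kernel)
def q4890 : Q := Q.p (nat_lit 0x180000c0000000000000000000000000000000000000000000000) (nat_lit 0x26000300000000000000000000000000000000000000000000000) (nat_lit 3)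
theorem c4890 : QOK q4890 := cut [q529] ⟨c529, trivial⟩ (nd (nat_lit 206) (nat_lit 0) (cs (lf (nat_lit 12) (nat_lit 183)) (rf (nat_lit 0)))) q4890 (by decide +kernel)
def q4911 : Q := Q.p (nat_lit 0x100000400001000004000000000000000000000000) (nat_lit 0xa0000380000a0000000000000) (nat_lit 4)
theorem c4911 : QOK q4911 := cut [q4907] ⟨c4907, trivial⟩ (nd (nat_lit 77) (nat_lit 0) (cs (nd (nat_lit 76) (nat_lit 0) (cs (rf (nat_lit 0)) (lf (nat_lit 35) (nat_lit 54)))) (lf (nat_lit 34) (nat_lit 76)))) q4911 (by decide +kernel)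
def q4929 : Q := Q.p (nat_lit 0x10000040000100000400000000000000000000000000000000000) (nat_lit 0x40000200000a0000280000a0000300000c000010000000000000000000) (nat_lit 7)
theorem c4929 : QOK q4929 := cut [q4927] ⟨c4927, trivial⟩ (nd (nat_lit 121) (nat_lit 0) (cs (lf (nat_lit 34) (nat_lit 120)) (nd (nat_lit 120) (nat_lit 0) (cs (lf (nat_lit 35) (nat_lit 98)) (rf (nat_lit 0)))))) q4929 (by decide +kernel)
def q4940 : Q := Q.p (nat_lit 0x180001e000000000000000000000000000000000000000000000000000) (nat_lit 0x40000000000000000c000020000080000000000000000000000000000000000) (nat_lit 3)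
theorem c4940 : QOK q4940 := cut [q4939] ⟨c4939, trivial⟩ (nd (nat_lit 183) (nat_lit 0) (cs (lf (nat_lit 23) (nat_lit 182)) (rf (nat_lit 0)))) q4940 (by decide +kernel)
def q4950 : Q := Q.p (nat_lit 0xc0000180000000000000000000000000000000000000000) (nat_lit 0x320000060000000000000000000000000000000000000000) (nat_lit 3)
theorem c4950 : QOK q4950 := cut [q4949] ⟨c4949, trivial⟩ (nd (nat_lit 162) (nat_lit 0) (cs (lf (nat_lit 0) (nat_lit 161)) (rf (nat_lit 0)))) q4950 (by decide +kernel)
def q4961 : Q := Q.p (nat_lit 0x1e0000000000000000000000000000000000000000000000) (nat_lit 0xee000010000000000000000000000000000000000000000000000) (nat_lit 4)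
theorem c4961 : QOK q4961 := cut [q4958] ⟨c4958, trivial⟩ (nd (nat_lit 210) (nat_lit 0) (cs (lf (nat_lit 5) (nat_lit 185)) (nd (nat_lit 184) (nat_lit 0) (cs (rf (nat_lit 0)) (lf (nat_lit 4) (nat_lit 184)))))) q4961 (by decide +kernel)
def q4979 : Q := Q.p (nat_lit 0x100000400000800002000000000000000000000000000000) (nat_lit 0x40000000000000001000004000008000020000000000000000000) (nat_lit 3)
theorem c4979 : QOK q4979 := cut [q4978] ⟨c4978, trivial⟩ (nd (nat_lit 144) (nat_lit 0) (cs (lf (nat_lit 42) (nat_lit 121)) (rf (nat_lit 0)))) q4979 (by decide +kernel)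
def q4986 : Q := Q.p (nat_lit 0x40000100000c0000300000000000000000000000000000000000000000) (nat_lit 0x1000000e0000200000000000000000000000000000000000) (nat_lit 3)
theorem c4986 : QOK q4986 := cut [q3196] ⟨c3196, trivial⟩ (nd (nat_lit 163) (nat_lit 0) (cs (lf (nat_lit 47) (nat_lit 141)) (rf (nat_lit 0)))) q4986 (by decide +kernel)
def q5015 : Q := Q.p (nat_lit 0x400003000006000018000000000000000000000000000000000000000000000000000) (nat_lit 0x1800060000080000000000000000000000000000000000000000000000) (nat_lit 3)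
theorem c5015 : QOK q5015 := cut [q5014] ⟨c5014, trivial⟩ (nd (nat_lit 228) (nat_lit 0) (cs (lf (nat_lit 0) (nat_lit 227)) (rf (nat_lit 0)))) q5015 (by decide +kernel)
def q5023 : Q := Q.p (nat_lit 0x6000018000020000080000000000000000000000000000000000000000) (nat_lit 0x400001800060000000000000000000000000000000000000000000000000000) (nat_lit 3)
theorem c5023 : QOK q5023 := cut [q5022] ⟨c5022, trivial⟩ (nd (nat_lit 228) (nat_lit 0) (cs (lf (nat_lit 41) (nat_lit 162)) (rf (nat_lit 0)))) q5023 (by decide +kernel)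
def q5049 : Q := Q.p (nat_lit 0x300000600003000000000000000000000000000000000000000000000000000000000000000) (nat_lit 0x2000018000060000c00000000000800008000000000000000000000000000000000000000000000000000000000) (nat_lit 5)
theorem c5049 : QOK q5049 := cut [q5047] ⟨c5047, trivial⟩ (nd (nat_lit 298) (nat_lit 0) (cs (lf (nat_lit 18) (nat_lit 273)) (nd (nat_lit 318) (nat_lit 0) (cs (lf (nat_lit 35) (nat_lit 230)) (rf (nat_lit 0)))))) q5049 (by decide +kernel)
def q5056 : Q := Q.p (nat_lit 0x800006000018000020000000000000000000000000000000000000000000000) (nat_lit 0x40000180000600000000000000000000000000000000000) (nat_lit 3)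
theorem c5056 : QOK q5056 := cut [q1383] ⟨c1383, trivial⟩ (nd (nat_lit 164) (nat_lit 0) (cs (rf (nat_lit 0)) (lf (nat_lit 37) (nat_lit 163)))) q5056 (by decide +kernel)
def q5059 : Q := Q.p (nat_lit 0x800006000008000020000000000000000000000000000000000000000000000) (nat_lit 0x100000700019000000000000000000000000000000000000000000000000000000000) (nat_lit 4)
theorem c5059 : QOK q5059 := cut [q4242] ⟨c4242, trivial⟩ (nd (nat_lit 250) (nat_lit 0) (cs (lf (nat_lit 41) (nat_lit 184)) (nd (nat_lit 231) (nat_lit 0) (cs (rf (nat_lit 0)) (lf (nat_lit 6) (nat_lit 228)))))) q5059 (by decide +kernel)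
def q5089 : Q := Q.p (nat_lit 0x800006000018000020000000000000000000000000000000000000000000000) (nat_lit 0x100000c0000300000000000000000000000000000000000) (nat_lit 3)
theorem c5089 : QOK q5089 := cut [q5088] ⟨c5088, trivial⟩ (nd (nat_lit 163) (nat_lit 0) (cs (lf (nat_lit 24) (nat_lit 141)) (rf (nat_lit 0)))) q5089 (by decide +kernel)
def q5115 : Q := Q.p (nat_lit 0x200001c000010000060000000000000000000000000000000000000000) (nat_lit 0x200001c00000000000000000000080000000000000000000000000000000000) (nat_lit 3)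
theorem c5115 : QOK q5115 := cut [q3687] ⟨c3687, trivial⟩ (nd (nat_lit 228) (nat_lit 0) (cs (lf (nat_lit 47) (nat_lit 139)) (rf (nat_lit 0)))) q5115 (by decide +kernel)
def q5136 : Q := Q.p (nat_lit 0x6000018000060000000000000000000000000000000000000000000000) (nat_lit 0x20000080000800000700009c000070000000000000000000000000000000000000000) (nat_lit 7)
theorem c5136 : QOK q5136 := cut [q5134] ⟨c5134, trivial⟩ (nd (nat_lit 251) (nat_lit 0) (cs (lf (nat_lit 30) (nat_lit 185)) (nd (nat_lit 184) (nat_lit 0) (cs (lf (nat_lit 47) (nat_lit 162)) (rf (nat_lit 0)))))) q5136 (by decide +kernel)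
def q5142 : Q := Q.p (nat_lit 0x6000018000020000000000000000000000000000000000000000000000) (nat_lit 0x800002000008000000000000000500000c0000300000000000000000000000000000000000) (nat_lit 5)
theorem c5142 : QOK q5142 := cut [q5139] ⟨c5139, trivial⟩ (nd (nat_lit 163) (nat_lit 0) (cs (lf (nat_lit 24) (nat_lit 141)) (nd (nat_lit 162) (nat_lit 0) (cs (lf (nat_lit 47) (nat_lit 140)) (nd (nat_lit 251) (nat_lit 0) (cs (lf (nat_lit 46) (nat_lit 162)) (rf (nat_lit 0)))))))) q5142 (by decide +kernel)
def q5157 : Q := Q.p (nat_lit 0x7000018000000000000000000000000000000000000000000000000000) (nat_lit 0x100000700008c00003000008000020000000000000000000000000000000000000000) (nat_lit 6)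
theorem c5157 : QOK q5157 := cut [q5153] ⟨c5153, trivial⟩ (nd (nat_lit 227) (nat_lit 0) (cs (lf (nat_lit 12) (nat_lit 204)) (nd (nat_lit 205) (nat_lit 0) (cs (lf (nat_lit 23) (nat_lit 204)) (nd (nat_lit 249) (nat_lit 0) (cs (lf (nat_lit 11) (nat_lit 226)) (nd (nat_lit 250) (nat_lit 0) (cs (lf (nat_lit 6) (nat_lit 227)) (rf (nat_lit 0)))))))))) q5157 (by decide +kernel)
def q5162 : Q := Q.p (nat_lit 0xf00000c000000000000000000000000000000000000000000000000000) (nat_lit 0x100000600000000000000020000080000000000000000000000000000000000000000) (nat_lit 3)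
theorem c5162 : QOK q5162 := cut [q1066] ⟨c1066, trivial⟩ (nd (nat_lit 250) (nat_lit 0) (cs (rf (nat_lit 0)) (lf (nat_lit 11) (nat_lit 227)))) q5162 (by decide +kernel)
def q5168 : Q := Q.p (nat_lit 0x100001e000000000000000000000000000000000000000000000000000) (nat_lit 0x10000040000000000000001c000020000080000000000000000000000000000000000) (nat_lit 4)
theorem c5168 : QOK q5168 := cut [q5166] ⟨c5166, trivial⟩ (nd (nat_lit 183) (nat_lit 0) (cs (lf (nat_lit 23) (nat_lit 182)) (nd (nat_lit 161) (nat_lit 0) (cs (lf (nat_lit 24) (nat_lit 139)) (rf (nat_lit 0)))))) q5168 (by decide +kernel)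
def q5182 : Q := Q.p (nat_lit 0x7800006000000000000000000000000000000000000000000000000000) (nat_lit 0x80000300000000000000010000040000000000000000000000000000000000000000) (nat_lit 3)
theorem c5182 : QOK q5182 := cut [q5181] ⟨c5181, trivial⟩ (nd (nat_lit 249) (nat_lit 0) (cs (lf (nat_lit 11) (nat_lit 226)) (rf (nat_lit 0)))) q5182 (by decide +kernel)
def q5255 : Q := Q.p (nat_lit 0x80000200000c000000000000000000000000000000000000000000000) (nat_lit 0x200000000001000000000010000040000100000000000000000000000000000) (nat_lit 3)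
theorem c5255 : QOK q5255 := cut [q5253] ⟨c5253, trivial⟩ (nd (nat_lit 160) (nat_lit 0) (cs (rf (nat_lit 0)) (lf (nat_lit 42) (nat_lit 160)))) q5255 (by decide +kernel)
def q5260 : Q := Q.p (nat_lit 0x800002000008000020000000000000000000000000000000000000000) (nat_lit 0x1000004000010000000000100000c0000100000000000000000000000000000) (nat_lit 4)
theorem c5260 : QOK q5260 := cut [q5258] ⟨c5258, trivial⟩ (nd (nat_lit 138) (nat_lit 0) (cs (lf (nat_lit 46) (nat_lit 138)) (nd (nat_lit 139) (nat_lit 0) (cs (lf (nat_lit 47) (nat_lit 116)) (rf (nat_lit 0)))))) q5260 (by decide +kernel)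
def q5291 : Q := Q.p (nat_lit 0x40000300000c000000000000000000000000000000000000000000000000000) (nat_lit 0xc0000300000800000000000000018000060000180000000000000000000000000000000000) (nat_lit 6)
theorem c5291 : QOK q5291 := cut [q2511] ⟨c2511, trivial⟩ (nd (nat_lit 272) (nat_lit 0) (cs (lf (nat_lit 30) (nat_lit 206)) (nd (nat_lit 273) (nat_lit 0) (cs (lf (nat_lit 29) (nat_lit 206)) (nd (nat_lit 184) (nat_lit 0) (cs (nd (nat_lit 162) (nat_lit 0) (cs (lf (nat_lit 24) (nat_lit 140)) (rf (nat_lit 0)))) (lf (nat_lit 43) (nat_lit 184)))))))) q5291 (by decide +kernel)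
def q5305 : Q := Q.p (nat_lit 0x400003800004000010000000000000000000000000000000000000000000000000000) (nat_lit 0x200001800000600000000000000000000000000000000000000000000000000000000000000) (nat_lit 3)
theorem c5305 : QOK q5305 := cut [q5304] ⟨c5304, trivial⟩ (nd (nat_lit 275) (nat_lit 0) (cs (lf (nat_lit 29) (nat_lit 208)) (rf (nat_lit 0)))) q5305 (by decide +kernel)
def q5353 : Q := Q.p (nat_lit 0x3000004000010000000000000000000000000000000000000000000000000000) (nat_lit 0x80000200000c00000000000000000000040000000000000000000000000000000000000000000000) (nat_lit 3)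
theorem c5353 : QOK q5353 := cut [q1140] ⟨c1140, trivial⟩ (nd (nat_lit 275) (nat_lit 0) (cs (rf (nat_lit 0)) (lf (nat_lit 24) (nat_lit 186)))) q5353 (by decide +kernel)
def q5376 : Q := Q.p (nat_lit 0x3000018000000000000000000000000000000000000000000000000000) (nat_lit 0xc00064000000000000000000000000000000000000000000000000000) (nat_lit 3)
theorem c5376 : QOK q5376 := cut [q1490] ⟨c1490, trivial⟩ (nd (nat_lit 209) (nat_lit 0) (cs (lf (nat_lit 6) (nat_lit 206)) (rf (nat_lit 0)))) q5376 (by decide +kernel)
def q5389 : Q := Q.p (nat_lit 0x3000018000000000000000000000000000000000000000000000000000) (nat_lit 0x4c00060000000000000000000000000000000000000000000000000000) (nat_lit 3)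
theorem c5389 : QOK q5389 := cut [q1726] ⟨c1726, trivial⟩ (nd (nat_lit 209) (nat_lit 0) (cs (lf (nat_lit 6) (nat_lit 206)) (rf (nat_lit 0)))) q5389 (by decide +kernel)
def q5391 : Q := Q.p (nat_lit 0x400003000008000000000000000000000000000000000000000000000000000) (nat_lit 0x40000100000000000000004000020000080000000000000000000000000000000000000000) (nat_lit 3)
theorem c5391 : QOK q5391 := cut [q5390] ⟨c5390, trivial⟩ (nd (nat_lit 272) (nat_lit 0) (cs (lf (nat_lit 30) (nat_lit 206)) (rf (nat_lit 0)))) q5391 (by decide +kernel)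
def q5398 : Q := Q.p (nat_lit 0x2000018000040000000000000000000000000000000000000000000000) (nat_lit 0x200000800004000000000000000100000400000000000000000000000000000000000) (nat_lit 3)
theorem c5398 : QOK q5398 := cut [q5397] ⟨c5397, trivial⟩ (nd (nat_lit 164) (nat_lit 0) (cs (lf (nat_lit 36) (nat_lit 141)) (rf (nat_lit 0)))) q5398 (by decide +kernel)
def q5404 : Q := Q.p (nat_lit 0x300003c000000000000000000000000000000000000000000000000000) (nat_lit 0x800000000000000018000040000100000000000000000000000000000000000) (nat_lit 3)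
theorem c5404 : QOK q5404 := cut [q3320] ⟨c3320, trivial⟩ (nd (nat_lit 184) (nat_lit 0) (cs (lf (nat_lit 23) (nat_lit 183)) (rf (nat_lit 0)))) q5404 (by decide +kernel)
def q5418 : Q := Q.p (nat_lit 0x300000c000010000080000000000000000000000000000000000000000) (nat_lit 0x60000180000600000000000000020000000000000000000000000000000000000000000000) (nat_lit 4)
theorem c5418 : QOK q5418 := cut [q5415] ⟨c5415, trivial⟩ (nd (nat_lit 250) (nat_lit 0) (cs (lf (nat_lit 37) (nat_lit 162)) (nd (nat_lit 271) (nat_lit 0) (cs (rf (nat_lit 0)) (lf (nat_lit 40) (nat_lit 183)))))) q5418 (by decide +kernel)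
def q5428 : Q := Q.p (nat_lit 0x1800002000008000020000000000000000000000000000000000000000000000) (nat_lit 0x4000000000040000180000400000000000000000000000000000000000) (nat_lit 3)
theorem c5428 : QOK q5428 := cut [q5427] ⟨c5427, trivial⟩ (nd (nat_lit 163) (nat_lit 0) (cs (lf (nat_lit 28) (nat_lit 163)) (rf (nat_lit 0)))) q5428 (by decide +kernel)
def q5431 : Q := Q.p (nat_lit 0x800002000018000020000000000000000000000000000000000000000000000) (nat_lit 0x6400001c000040000000000000000000000000000000000000000) (nat_lit 4)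
theorem c5431 : QOK q5431 := cut [q1231] ⟨c1231, trivial⟩ (nd (nat_lit 184) (nat_lit 0) (cs (lf (nat_lit 47) (nat_lit 162)) (nd (nat_lit 209) (nat_lit 0) (cs (lf (nat_lit 18) (nat_lit 184)) (rf (nat_lit 0)))))) q5431 (by decide +kernel)
def q5435 : Q := Q.p (nat_lit 0x200000800002000018000000000000000000000000000000000000000000000000000) (nat_lit 0x800000000010000040000040000300000c0000200000000000000000000000000000000000) (nat_lit 5)
theorem c5435 : QOK q5435 := cut [q735] ⟨c735, trivial⟩ (nd (nat_lit 184) (nat_lit 0) (cs (lf (nat_lit 46) (nat_lit 184)) (nd (nat_lit 230) (nat_lit 0) (cs (lf (nat_lit 30) (nat_lit 207)) (nd (nat_lit 185) (nat_lit 0) (cs (rf (nat_lit 0)) (lf (nat_lit 47) (nat_lit 162)))))))) q5435 (by decide +kernel)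
def q5439 : Q := Q.p (nat_lit 0x200000800002000018000000000000000000000000000000000000000000000000000) (nat_lit 0xc0000100000400004000004000030000040000000000000000000000000000000000000000) (nat_lit 5)
theorem c5439 : QOK q5439 := cut [q5436] ⟨c5436, trivial⟩ (nd (nat_lit 272) (nat_lit 0) (cs (lf (nat_lit 41) (nat_lit 206)) (nd (nat_lit 230) (nat_lit 0) (cs (lf (nat_lit 30) (nat_lit 207)) (nd (nat_lit 184) (nat_lit 0) (cs (lf (nat_lit 46) (nat_lit 184)) (rf (nat_lit 0)))))))) q5439 (by decide +kernel)
def q5468 : Q := Q.p (nat_lit 0x780000000000000000000000000000000000000000000000000000000000000000000) (nat_lit 0x38000040000380000000000000000000000000000000000000000000000000000000000000) (nat_lit 4)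
theorem c5468 : QOK q5468 := cut [q5464] ⟨c5464, trivial⟩ (nd (nat_lit 292) (nat_lit 0) (cs (nd (nat_lit 270) (nat_lit 0) (cs (rf (nat_lit 0)) (lf (nat_lit 11) (nat_lit 269)))) (lf (nat_lit 10) (nat_lit 270)))) q5468 (by decide +kernel)
def q5482 : Q := Q.p (nat_lit 0x1800002000008000000000000000000000000000000000000000000000000000) (nat_lit 0x400000000004000000000060000180000400000000000000000000000000000000000) (nat_lit 4)
theorem c5482 : QOK q5482 := cut [q5481] ⟨c5481, trivial⟩ (nd (nat_lit 185) (nat_lit 0) (cs (lf (nat_lit 29) (nat_lit 185)) (rf (nat_lit 0)))) q5482 (by decide +kernel)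
def q5495 : Q := Q.p (nat_lit 0x200000800002000018000000000000000000000000000000000000000000000000000) (nat_lit 0x1c0000d00000700004000000000020000000000000000000000000000000000000000000000) (nat_lit 6)
theorem c5495 : QOK q5495 := cut [q942] ⟨c942, trivial⟩ (nd (nat_lit 274) (nat_lit 0) (cs (lf (nat_lit 29) (nat_lit 207)) (nd (nat_lit 272) (nat_lit 0) (cs (lf (nat_lit 41) (nat_lit 206)) (nd (nat_lit 230) (nat_lit 0) (cs (lf (nat_lit 30) (nat_lit 207)) (rf (nat_lit 0)))))))) q5495 (by decide +kernel)
def q5507 : Q := Q.p (nat_lit 0x180000e0000080000000000000000000000000000000000000000) (nat_lit 0x1000006000000000000000200000800000000000000000000000000000) (nat_lit 3)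
theorem c5507 : QOK q5507 := cut [q2409] ⟨c2409, trivial⟩ (nd (nat_lit 206) (nat_lit 0) (cs (lf (nat_lit 12) (nat_lit 183)) (rf (nat_lit 0)))) q5507 (by decide +kernel)
def q5517 : Q := Q.p (nat_lit 0x2800002000018000060000000000000000000000000000000000000000000000) (nat_lit 0xc00001000004000000000000000080000000000000000000000000000000000000000) (nat_lit 3)
theorem c5517 : QOK q5517 := cut [q4748] ⟨c4748, trivial⟩ (nd (nat_lit 252) (nat_lit 0) (cs (lf (nat_lit 29) (nat_lit 185)) (rf (nat_lit 0)))) q5517 (by decide +kernel)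
def q5534 : Q := Q.p (nat_lit 0x2000004000010000040000100000000000000000000000000000000000000000) (nat_lit 0xa00001800002000000000000000000000000000000000000000000000000000000000) (nat_lit 3)
theorem c5534 : QOK q5534 := cut [q5533] ⟨c5533, trivial⟩ (nd (nat_lit 252) (nat_lit 0) (cs (lf (nat_lit 29) (nat_lit 186)) (rf (nat_lit 0)))) q5534 (by decide +kernel)
def q5551 : Q := Q.p (nat_lit 0x180000600001e0000000000000000000000000000000000000000) (nat_lit 0x80002300001c000000000100000400000000000000000000000000000) (nat_lit 5)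
theorem c5551 : QOK q5551 := cut [q5549] ⟨c5549, trivial⟩ (nd (nat_lit 183) (nat_lit 0) (cs (lf (nat_lit 11) (nat_lit 160)) (nd (nat_lit 184) (nat_lit 0) (cs (lf (nat_lit 5) (nat_lit 183)) (rf (nat_lit 0)))))) q5551 (by decide +kernel)
def q5634 : Q := Q.p (nat_lit 0x2000008000078000040000000000000000000000000000000000000000000000) (nat_lit 0x300001c00033000000000338000000000000000000000000000000000000000000000) (nat_lit 7)
theorem c5634 : QOK q5634 := cut [q37, q5630] ⟨c37, c5630, trivial⟩ (nd (nat_lit 185) (nat_lit 0) (cs (rf (nat_lit 0)) (nd (nat_lit 188) (nat_lit 0) (cs (lf (nat_lit 17) (nat_lit 185)) (nd (nat_lit 229) (nat_lit 0) (cs (lf (nat_lit 11) (nat_lit 206)) (nd (nat_lit 232) (nat_lit 0) (cs (lf (nat_lit 5) (nat_lit 207)) (rf (nat_lit 1)))))))))) q5634 (by decide +kernel)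
def q5640 : Q := Q.p (nat_lit 0x800003800000000078000100000000000000000000000000000000000000000000000) (nat_lit 0x7400008000070000080000000000000000000000000000000000000000000000000000) (nat_lit 5)
theorem c5640 : QOK q5640 := cut [q2460] ⟨c2460, trivial⟩ (nd (nat_lit 233) (nat_lit 0) (cs (lf (nat_lit 4) (nat_lit 207)) (nd (nat_lit 211) (nat_lit 0) (cs (lf (nat_lit 5) (nat_lit 208)) (rf (nat_lit 0)))))) q5640 (by decide +kernel)
def q5672 : Q := Q.p (nat_lit 0x40000100000400001c0000000000000000000000000000000000000000) (nat_lit 0x80000200000c0001b8000200000980000000000000000000000000000000000) (nat_lit 7)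
theorem c5672 : QOK q5672 := cut [q5668] ⟨c5668, trivial⟩ (nd (nat_lit 229) (nat_lit 0) (cs (lf (nat_lit 41) (nat_lit 163)) (nd (nat_lit 165) (nat_lit 0) (cs (lf (nat_lit 35) (nat_lit 142)) (nd (nat_lit 187) (nat_lit 0) (cs (lf (nat_lit 5) (nat_lit 162)) (nd (nat_lit 184) (nat_lit 0) (cs (lf (nat_lit 11) (nat_lit 161)) (rf (nat_lit 0)))))))))) q5672 (by decide +kernel)
def q5673 : Q := Q.p (nat_lit 0x3c0000000000000000000000000000000000000000) (nat_lit 0x1c0000200001c0000000000000000000000000000000000) (nat_lit 4)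
theorem c5673 : QOK q5673 := cut [q2263] ⟨c2263, trivial⟩ (nd (nat_lit 139) (nat_lit 0) (cs (lf (nat_lit 22) (nat_lit 139)) (rf (nat_lit 0)))) q5673 (by decide +kernel)
def q5709 : Q := Q.p (nat_lit 0x10000040000000000e00000000000000000000000000000000000) (nat_lit 0x100001100000f00000000000000000000000000000) (nat_lit 4)
theorem c5709 : QOK q5709 := cut [q5707] ⟨c5707, trivial⟩ (nd (nat_lit 119) (nat_lit 0) (cs (rf (nat_lit 0)) (lf (nat_lit 44) (nat_lit 119)))) q5709 (by decide +kernel)
def q5713 : Q := Q.p (nat_lit 0xf00000000000000000000000000000000000) (nat_lit 0x70000080000700000000000000000000000000000) (nat_lit 4)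
theorem c5713 : QOK q5713 := cut [q5711] ⟨c5711, trivial⟩ (nd (nat_lit 161) (nat_lit 0) (cs (lf (nat_lit 10) (nat_lit 139)) (nd (nat_lit 139) (nat_lit 0) (cs (lf (nat_lit 11) (nat_lit 138)) (rf (nat_lit 0)))))) q5713 (by decide +kernel)
def q5725 : Q := Q.p (nat_lit 0x800001e00000000000000000000000000000000000) (nat_lit 0x1000002000001c00000000000000000000000000000) (nat_lit 3)
theorem c5725 : QOK q5725 := cut [q5723] ⟨c5723, trivial⟩ (nd (nat_lit 145) (nat_lit 0) (cs (rf (nat_lit 0)) (lf (nat_lit 5) (nat_lit 142)))) q5725 (by decide +kernel)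
def q5749 : Q := Q.p (nat_lit 0x1e00000000000000000000000000000000000) (nat_lit 0x1c0000200001c000000000000000000000000000000) (nat_lit 4)
theorem c5749 : QOK q5749 := cut [q5746] ⟨c5746, trivial⟩ (nd (nat_lit 123) (nat_lit 0) (cs (nd (nat_lit 167) (nat_lit 0) (cs (lf (nat_lit 4) (nat_lit 141)) (rf (nat_lit 0)))) (lf (nat_lit 16) (nat_lit 119)))) q5749 (by decide +kernel)
def q5770 : Q := Q.p (nat_lit 0xf00000000000000000000000000000000000) (nat_lit 0x70000080007000000000000000000000000000000) (nat_lit 4)
theorem c5770 : QOK q5770 := cut [q5768] ⟨c5768, trivial⟩ (nd (nat_lit 161) (nat_lit 0) (cs (lf (nat_lit 10) (nat_lit 139)) (nd (nat_lit 139) (nat_lit 0) (cs (lf (nat_lit 11) (nat_lit 138)) (rf (nat_lit 0)))))) q5770 (by decide +kernel)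
def q5815 : Q := Q.p (nat_lit 0x18000060000080000000000000000000000000000000000000000) (nat_lit 0x20000000000800003700003c0000c00000000000000000000000000000) (nat_lit 7)
theorem c5815 : QOK q5815 := cut [q3148] ⟨c3148, trivial⟩ (nd (nat_lit 141) (nat_lit 0) (cs (lf (nat_lit 24) (nat_lit 119)) (nd (nat_lit 140) (nat_lit 0) (cs (lf (nat_lit 47) (nat_lit 118)) (nd (nat_lit 162) (nat_lit 0) (cs (lf (nat_lit 42) (nat_lit 140)) (nd (nat_lit 161) (nat_lit 0) (cs (lf (nat_lit 0) (nat_lit 160)) (nd (nat_lit 164) (nat_lit 0) (cs (lf (nat_lit 5) (nat_lit 161)) (rf (nat_lit 0)))))))))))) q5815 (by decide +kernel)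
def q5827 : Q := Q.p (nat_lit 0x38000060000080000000000000000000000000000000000000000) (nat_lit 0x320000c0000000000700000780001c00000000000000000000000000000) (nat_lit 8)
theorem c5827 : QOK q5827 := cut [q5824] ⟨c5824, trivial⟩ (nd (nat_lit 141) (nat_lit 0) (cs (lf (nat_lit 24) (nat_lit 119)) (nd (nat_lit 210) (nat_lit 0) (cs (lf (nat_lit 18) (nat_lit 185)) (nd (nat_lit 232) (nat_lit 0) (cs (lf (nat_lit 5) (nat_lit 207)) (rf (nat_lit 0)))))))) q5827 (by decide +kernel)
def q5834 : Q := Q.p (nat_lit 0x38000060000180000000000000000000000000000000000000000) (nat_lit 0x300000c00000000006400003c0000c00000000000000000000000000000) (nat_lit 7)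
theorem c5834 : QOK q5834 := cut [q5832] ⟨c5832, trivial⟩ (nd (nat_lit 210) (nat_lit 0) (cs (lf (nat_lit 18) (nat_lit 185)) (nd (nat_lit 232) (nat_lit 0) (cs (lf (nat_lit 5) (nat_lit 207)) (rf (nat_lit 0)))))) q5834 (by decide +kernel)
def q5846 : Q := Q.p (nat_lit 0x38000060000180000000000000000000000000000000000000000) (nat_lit 0x8000320000c0000080000070000100000000000000000000000000000000000) (nat_lit 6)
theorem c5846 : QOK q5846 := cut [q3493] ⟨c3493, trivial⟩ (nd (nat_lit 229) (nat_lit 0) (cs (lf (nat_lit 30) (nat_lit 163)) (nd (nat_lit 210) (nat_lit 0) (cs (lf (nat_lit 18) (nat_lit 185)) (nd (nat_lit 232) (nat_lit 0) (cs (lf (nat_lit 5) (nat_lit 207)) (rf (nat_lit 0)))))))) q5846 (by decide +kernel)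
def q5851 : Q := Q.p (nat_lit 0x30000060000000000000000000000000000000000000000000000) (nat_lit 0xc8000090000000000000000000000000000000000000000000000) (nat_lit 3)
theorem c5851 : QOK q5851 := cut [q5850] ⟨c5850, trivial⟩ (nd (nat_lit 210) (nat_lit 0) (cs (lf (nat_lit 18) (nat_lit 185)) (rf (nat_lit 0)))) q5851 (by decide +kernel)
def q5854 : Q := Q.p (nat_lit 0x4000010000060000000000000000000000000000000000000000) (nat_lit 0x1000000000000000000000180000200000800000000000000000000000) (nat_lit 3)
theorem c5854 : QOK q5854 := cut [q5853] ⟨c5853, trivial⟩ (nd (nat_lit 139) (nat_lit 0) (cs (lf (nat_lit 42) (nat_lit 139)) (rf (nat_lit 0)))) q5854 (by decide +kernel)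
def q5857 : Q := Q.p (nat_lit 0x4000070000040000100000000000000000000000000000000000) (nat_lit 0x80000b800000000000000000000000000000000000000000000000000) (nat_lit 3)
theorem c5857 : QOK q5857 := cut [q2310] ⟨c2310, trivial⟩ (nd (nat_lit 205) (nat_lit 0) (cs (lf (nat_lit 41) (nat_lit 139)) (rf (nat_lit 0)))) q5857 (by decide +kernel)
def q5869 : Q := Q.p (nat_lit 0x30000040000100000400000000000000000000000000000) (nat_lit 0x80000000000200001800002000000000000000000) (nat_lit 3)
theorem c5869 : QOK q5869 := cut [q5868] ⟨c5868, trivial⟩ (nd (nat_lit 96) (nat_lit 0) (cs (lf (nat_lit 28) (nat_lit 96)) (rf (nat_lit 0)))) q5869 (by decide +kernel)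
def q5878 : Q := Q.p (nat_lit 0x10000040000100000400000000000000000000000000000) (nat_lit 0xa0000380000a000000000000000000) (nat_lit 4)
theorem c5878 : QOK q5878 := cut [q5877] ⟨c5877, trivial⟩ (nd (nat_lit 95) (nat_lit 0) (cs (lf (nat_lit 46) (nat_lit 95)) (rf (nat_lit 0)))) q5878 (by decide +kernel)
def q5881 : Q := Q.p (nat_lit 0x2c00001000004000010000000000000000000000000000000000000000000000) (nat_lit 0x20000180001200000000000000000000000000000000000000000000000000000000000000) (nat_lit 3)
theorem c5881 : QOK q5881 := cut [q5880] ⟨c5880, trivial⟩ (nd (nat_lit 271) (nat_lit 0) (cs (lf (nat_lit 40) (nat_lit 183)) (rf (nat_lit 0)))) q5881 (by decide +kernel)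
def q5955 : Q := Q.p (nat_lit 0x200000000001e000060000000000000000000000000000000000000000000000) (nat_lit 0xc0000100000cc00000000000000000000000000000000000000000000000000000000) (nat_lit 4)
theorem c5955 : QOK q5955 := cut [q5952] ⟨c5952, trivial⟩ (nd (nat_lit 226) (nat_lit 0) (cs (lf (nat_lit 10) (nat_lit 204)) (nd (nat_lit 230) (nat_lit 0) (cs (lf (nat_lit 5) (nat_lit 205)) (rf (nat_lit 0)))))) q5955 (by decide +kernel)
def q6007 : Q := Q.p (nat_lit 0x1e000038000000000000000000000000000000000000000000000) (nat_lit 0x1c0000f0000fc00000000000000080000200000000000000000000000000000000000) (nat_lit 8)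
theorem c6007 : QOK q6007 := cut [q6003] ⟨c6003, trivial⟩ (nd (nat_lit 227) (nat_lit 0) (cs (lf (nat_lit 11) (nat_lit 204)) (nd (nat_lit 230) (nat_lit 0) (cs (lf (nat_lit 5) (nat_lit 205)) (nd (nat_lit 141) (nat_lit 0) (cs (lf (nat_lit 25) (nat_lit 141)) (nd (nat_lit 249) (nat_lit 0) (cs (lf (nat_lit 30) (nat_lit 183)) (rf (nat_lit 0)))))))))) q6007 (by decide +kernel)
def q6024 : Q := Q.p (nat_lit 0x800002000018000060000000000000000000000000000000000000000000000) (nat_lit 0x100000400005000000000000000080000200000800000000000000000000000000000) (nat_lit 4)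
theorem c6024 : QOK q6024 := cut [q1799] ⟨c1799, trivial⟩ (nd (nat_lit 250) (nat_lit 0) (cs (lf (nat_lit 41) (nat_lit 184)) (nd (nat_lit 163) (nat_lit 0) (cs (lf (nat_lit 40) (nat_lit 162)) (rf (nat_lit 0)))))) q6024 (by decide +kernel)
def q6044 : Q := Q.p (nat_lit 0xf0000040000000000000000000000000000000000000000000000) (nat_lit 0x100000e80000000000000000000000000000000000000000000000) (nat_lit 3)
theorem c6044 : QOK q6044 := cut [q6043] ⟨c6043, trivial⟩ (nd (nat_lit 190) (nat_lit 0) (cs (lf (nat_lit 16) (nat_lit 186)) (rf (nat_lit 0)))) q6044 (by decide +kernel)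
def q6076 : Q := Q.p (nat_lit 0xc000038000010000000000000000000000000000000000000000000000) (nat_lit 0x20001c0000020000000000000000000000000000000000000000000000) (nat_lit 3)
theorem c6076 : QOK q6076 := cut [q756] ⟨c756, trivial⟩ (nd (nat_lit 210) (nat_lit 0) (cs (lf (nat_lit 22) (nat_lit 184)) (rf (nat_lit 0)))) q6076 (by decide +kernel)
def q6121 : Q := Q.p (nat_lit 0x50000380000000000000000000000000000000000000000) (nat_lit 0x880000600001c0000000000000000000000000000000000) (nat_lit 4)
theorem c6121 : QOK q6121 := cut [q2760] ⟨c2760, trivial⟩ (nd (nat_lit 162) (nat_lit 0) (cs (lf (nat_lit 11) (nat_lit 161)) (nd (nat_lit 161) (nat_lit 0) (cs (lf (nat_lit 5) (nat_lit 161)) (rf (nat_lit 0)))))) q6121 (by decide +kernel)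
def q6148 : Q := Q.p (nat_lit 0x140000c00000000000000000000000000000000000) (nat_lit 0x2a0003000000000000000000000000000000000000) (nat_lit 3)
theorem c6148 : QOK q6148 := cut [q4532] ⟨c4532, trivial⟩ (nd (nat_lit 163) (nat_lit 0) (cs (lf (nat_lit 12) (nat_lit 139)) (rf (nat_lit 0)))) q6148 (by decide +kernel)
def q6151 : Q := Q.p (nat_lit 0x10000040000140000c00000000000000000000000000000000000) (nat_lit 0x620000380000800000000000000000000000000000) (nat_lit 4)
theorem c6151 : QOK q6151 := cut [q6150] ⟨c6150, trivial⟩ (nd (nat_lit 141) (nat_lit 0) (cs (lf (nat_lit 47) (nat_lit 119)) (rf (nat_lit 0)))) q6151 (by decide +kernel)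
def q6166 : Q := Q.p (nat_lit 0x10000040000140000c00000000000000000000000000000000000) (nat_lit 0xa0000300000800000000000000000000000000000) (nat_lit 3)
theorem c6166 : QOK q6166 := cut [q6164] ⟨c6164, trivial⟩ (nd (nat_lit 161) (nat_lit 0) (cs (rf (nat_lit 0)) (lf (nat_lit 14) (nat_lit 139)))) q6166 (by decide +kernel)
def q6173 : Q := Q.p (nat_lit 0x2000018000020000080000000000000000000000000000000000000000) (nat_lit 0x1400005c00020000000000000000000000000000000000000000000000000000) (nat_lit 4)
theorem c6173 : QOK q6173 := cut [q4265] ⟨c4265, trivial⟩ (nd (nat_lit 228) (nat_lit 0) (cs (lf (nat_lit 41) (nat_lit 162)) (nd (nat_lit 230) (nat_lit 0) (cs (lf (nat_lit 29) (nat_lit 163)) (rf (nat_lit 0)))))) q6173 (by decide +kernel)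
def q6175 : Q := Q.p (nat_lit 0x4000010000060000180000000000000000000000000000000000000000) (nat_lit 0x10000e00000800000000000000000000000000000000000) (nat_lit 3)
theorem c6175 : QOK q6175 := cut [q6174] ⟨c6174, trivial⟩ (nd (nat_lit 165) (nat_lit 0) (cs (lf (nat_lit 35) (nat_lit 142)) (rf (nat_lit 0)))) q6175 (by decide +kernel)
def q6180 : Q := Q.p (nat_lit 0x2000008000020000180000000000000000000000000000000000000000) (nat_lit 0x800000000000000018000640000100000000000000000000000000000000000) (nat_lit 4)
theorem c6180 : QOK q6180 := cut [q3701] ⟨c3701, trivial⟩ (nd (nat_lit 162) (nat_lit 0) (cs (lf (nat_lit 47) (nat_lit 140)) (nd (nat_lit 184) (nat_lit 0) (cs (lf (nat_lit 42) (nat_lit 162)) (rf (nat_lit 0)))))) q6180 (by decide +kernel)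
def q6185 : Q := Q.p (nat_lit 0x2000008000020000080000000000000000000000000000000000000000) (nat_lit 0x100000c00001000000000010000040000100000000000000000000000000000000000) (nat_lit 4)
theorem c6185 : QOK q6185 := cut [q6184] ⟨c6184, trivial⟩ (nd (nat_lit 162) (nat_lit 0) (cs (lf (nat_lit 47) (nat_lit 140)) (rf (nat_lit 0)))) q6185 (by decide +kernel)
def q6188 : Q := Q.p (nat_lit 0x8000020000080000600000000000000000000000000000000000) (nat_lit 0x2000000000000000060001900000400000000000000000000000000000) (nat_lit 4)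
theorem c6188 : QOK q6188 := cut [q1934] ⟨c1934, trivial⟩ (nd (nat_lit 140) (nat_lit 0) (cs (lf (nat_lit 47) (nat_lit 118)) (nd (nat_lit 162) (nat_lit 0) (cs (rf (nat_lit 0)) (lf (nat_lit 42) (nat_lit 140)))))) q6188 (by decide +kernel)
def q6202 : Q := Q.p (nat_lit 0x18000020000080000000000000000000000000000000000000000) (nat_lit 0x400001000006000000000000000000000200000000000000000000000000000000000) (nat_lit 3)
theorem c6202 : QOK q6202 := cut [q904] ⟨c904, trivial⟩ (nd (nat_lit 230) (nat_lit 0) (cs (lf (nat_lit 24) (nat_lit 141)) (rf (nat_lit 0)))) q6202 (by decide +kernel)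
def q6217 : Q := Q.p (nat_lit 0x8000000000380000e0000000000000000000000000000000000000000000000) (nat_lit 0x2000000000018000060000000000000000000000000000000000000000) (nat_lit 3)
theorem c6217 : QOK q6217 := cut [q6216] ⟨c6216, trivial⟩ (nd (nat_lit 184) (nat_lit 0) (cs (lf (nat_lit 0) (nat_lit 183)) (rf (nat_lit 0)))) q6217 (by decide +kernel)
def q6227 : Q := Q.p (nat_lit 0x3000000000018000060000000000000000000000000000000000000000000000) (nat_lit 0xe000000000080000300000c00001000000000000000000000000000000) (nat_lit 4)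
theorem c6227 : QOK q6227 := cut [q1916, q432] ⟨c1916, c432, trivial⟩ (nd (nat_lit 164) (nat_lit 0) (cs (rf (nat_lit 0)) (nd (nat_lit 230) (nat_lit 0) (cs (lf (nat_lit 28) (nat_lit 164)) (rf (nat_lit 1)))))) q6227 (by decide +kernel)
def q6231 : Q := Q.p (nat_lit 0x1800000000018000020000000000000000000000000000000000000000000000) (nat_lit 0x600000000002000000000040000100000000000000000000000000000000000000000) (nat_lit 3)
theorem c6231 : QOK q6231 := cut [q6230] ⟨c6230, trivial⟩ (nd (nat_lit 229) (nat_lit 0) (cs (lf (nat_lit 29) (nat_lit 185)) (rf (nat_lit 0)))) q6231 (by decide +kernel)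
def q6234 : Q := Q.p (nat_lit 0x800003c00000000010000000000000000000000000000000000000000000000000000) (nat_lit 0x1000004000000000180000200000c0000000000000000000000000000000000000000000000) (nat_lit 4)
theorem c6234 : QOK q6234 := cut [q6232] ⟨c6232, trivial⟩ (nd (nat_lit 231) (nat_lit 0) (cs (lf (nat_lit 17) (nat_lit 228)) (nd (nat_lit 209) (nat_lit 0) (cs (lf (nat_lit 47) (nat_lit 186)) (rf (nat_lit 0)))))) q6234 (by decide +kernel)
def q6259 : Q := Q.p (nat_lit 0x3000004000010000000000000000000000000000000000000000000000000000) (nat_lit 0x8000000000080000000000c0000300000800000000000000000000000000000000000) (nat_lit 4)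
theorem c6259 : QOK q6259 := cut [q25] ⟨c25, trivial⟩ (nd (nat_lit 186) (nat_lit 0) (cs (lf (nat_lit 29) (nat_lit 186)) (rf (nat_lit 0)))) q6259 (by decide +kernel)
def q6263 : Q := Q.p (nat_lit 0x3c00000800000000000000000000000000000000000000000000000000000000) (nat_lit 0x20001c400000000000000000000000000000000000000000000000000000000) (nat_lit 3)
theorem c6263 : QOK q6263 := cut [q6262] ⟨c6262, trivial⟩ (nd (nat_lit 231) (nat_lit 0) (cs (lf (nat_lit 17) (nat_lit 228)) (rf (nat_lit 0)))) q6263 (by decide +kernel)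
def q6271 : Q := Q.p (nat_lit 0x3800004000010000000000000000000000000000000000000000000000000000) (nat_lit 0x2000000000080000000000c0000300000800000000000000000000000000000000000) (nat_lit 4)
theorem c6271 : QOK q6271 := cut [q25] ⟨c25, trivial⟩ (nd (nat_lit 186) (nat_lit 0) (cs (lf (nat_lit 41) (nat_lit 185)) (rf (nat_lit 0)))) q6271 (by decide +kernel)
def q6297 : Q := Q.p (nat_lit 0x1e0000040000000000000000000000000000000000) (nat_lit 0xe000010000020000000000000000000000000000000000) (nat_lit 3)
theorem c6297 : QOK q6297 := cut [q6296] ⟨c6296, trivial⟩ (nd (nat_lit 182) (nat_lit 0) (cs (lf (nat_lit 10) (nat_lit 160)) (rf (nat_lit 0)))) q6297 (by decide +kernel)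
def q6303 : Q := Q.p (nat_lit 0x200000f0000000000000000000000000000000000000000) (nat_lit 0x10000008000070000000000000000000000000000000000) (nat_lit 3)
theorem c6303 : QOK q6303 := cut [q6302] ⟨c6302, trivial⟩ (nd (nat_lit 159) (nat_lit 0) (cs (lf (nat_lit 4) (nat_lit 159)) (rf (nat_lit 0)))) q6303 (by decide +kernel)
def q6338 : Q := Q.p (nat_lit 0xf0000000000000000000000000000000000000000) (nat_lit 0x7000008000070000000000000000000000000000000000) (nat_lit 4)
theorem c6338 : QOK q6338 := cut [q6302] ⟨c6302, trivial⟩ (nd (nat_lit 181) (nat_lit 0) (cs (lf (nat_lit 10) (nat_lit 159)) (nd (nat_lit 159) (nat_lit 0) (cs (lf (nat_lit 11) (nat_lit 158)) (rf (nat_lit 0)))))) q6338 (by decide +kernel)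
def q6383 : Q := Q.p (nat_lit 0x8000020000180000000000000000000000000000000000000000) (nat_lit 0x2000000000040000000000400001000004000000000000000000000000) (nat_lit 3)
theorem c6383 : QOK q6383 := cut [q1643] ⟨c1643, trivial⟩ (nd (nat_lit 142) (nat_lit 0) (cs (lf (nat_lit 30) (nat_lit 141)) (rf (nat_lit 0)))) q6383 (by decide +kernel)
def q6414 : Q := Q.p (nat_lit 0x20000780000000000000000000000000000000000000000) (nat_lit 0x40000800007000000000000000000000000000000000000) (nat_lit 3)
theorem c6414 : QOK q6414 := cut [q6413] ⟨c6413, trivial⟩ (nd (nat_lit 167) (nat_lit 0) (cs (lf (nat_lit 10) (nat_lit 163)) (rf (nat_lit 0)))) q6414 (by decide +kernel)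
def q6418 : Q := Q.p (nat_lit 0x20000380000000000000000000000000000000000000000) (nat_lit 0x750000c00003000000000000000000000000000000000000) (nat_lit 5)
theorem c6418 : QOK q6418 := cut [q4810] ⟨c4810, trivial⟩ (nd (nat_lit 166) (nat_lit 0) (cs (lf (nat_lit 11) (nat_lit 162)) (nd (nat_lit 144) (nat_lit 0) (cs (lf (nat_lit 17) (nat_lit 141)) (nd (nat_lit 167) (nat_lit 0) (cs (rf (nat_lit 0)) (lf (nat_lit 10) (nat_lit 163)))))))) q6418 (by decide +kernel)
def q6422 : Q := Q.p (nat_lit 0x20000380000000000000000000000000000000000000000) (nat_lit 0x390000440003800000000000000000000000000000000000) (nat_lit 5)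
theorem c6422 : QOK q6422 := cut [q6419] ⟨c6419, trivial⟩ (nd (nat_lit 166) (nat_lit 0) (cs (lf (nat_lit 11) (nat_lit 162)) (nd (nat_lit 144) (nat_lit 0) (cs (lf (nat_lit 17) (nat_lit 141)) (nd (nat_lit 162) (nat_lit 0) (cs (lf (nat_lit 16) (nat_lit 140)) (rf (nat_lit 0)))))))) q6422 (by decide +kernel)
def q6479 : Q := Q.p (nat_lit 0x780000000000000000000000000000000000) (nat_lit 0x38000040000380000000000000000000000000000) (nat_lit 4)
theorem c6479 : QOK q6479 := cut [q6475] ⟨c6475, trivial⟩ (nd (nat_lit 160) (nat_lit 0) (cs (nd (nat_lit 138) (nat_lit 0) (cs (rf (nat_lit 0)) (lf (nat_lit 11) (nat_lit 137)))) (lf (nat_lit 10) (nat_lit 138)))) q6479 (by decide +kernel)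
def q6514 : Q := Q.p (nat_lit 0x40000100000f0000000000000000000000000000000000000000000000) (nat_lit 0x20000000000600000800002000000000000000000000000000000) (nat_lit 3)
theorem c6514 : QOK q6514 := cut [q6513] ⟨c6513, trivial⟩ (nd (nat_lit 165) (nat_lit 0) (cs (lf (nat_lit 17) (nat_lit 162)) (rf (nat_lit 0)))) q6514 (by decide +kernel)
def q6561 : Q := Q.p (nat_lit 0x3000004000010000000000000000000000000000000000000000000000000000) (nat_lit 0xa0000080000a000000000040000100000000000000000000000000000000000000000) (nat_lit 4)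
theorem c6561 : QOK q6561 := cut [q29] ⟨c29, trivial⟩ (nd (nat_lit 186) (nat_lit 0) (cs (lf (nat_lit 29) (nat_lit 186)) (rf (nat_lit 0)))) q6561 (by decide +kernel)
def q6572 : Q := Q.p (nat_lit 0x60000300000000000000000000000000000000000000000) (nat_lit 0x98000c00000000000000000000000000000000000000000) (nat_lit 3)
theorem c6572 : QOK q6572 := cut [q454] ⟨c454, trivial⟩ (nd (nat_lit 184) (nat_lit 0) (cs (rf (nat_lit 0)) (lf (nat_lit 12) (nat_lit 161)))) q6572 (by decide +kernel)
def q6591 : Q := Q.p (nat_lit 0xc00001800004000000000000000000000000000000000000000000000000000) (nat_lit 0x280000200000000000000010000040000000000000000000000000000000000000000) (nat_lit 3)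
theorem c6591 : QOK q6591 := cut [q6590] ⟨c6590, trivial⟩ (nd (nat_lit 184) (nat_lit 0) (cs (lf (nat_lit 29) (nat_lit 184)) (rf (nat_lit 0)))) q6591 (by decide +kernel)
def q6596 : Q := Q.p (nat_lit 0x100001c000000000000000000000000000000000000000000000000000) (nat_lit 0x2e00020000000000000000000000000000000000000000000000000000) (nat_lit 3)
theorem c6596 : QOK q6596 := cut [q3858] ⟨c3858, trivial⟩ (nd (nat_lit 227) (nat_lit 0) (cs (lf (nat_lit 6) (nat_lit 205)) (rf (nat_lit 0)))) q6596 (by decide +kernel)
def q6598 : Q := Q.p (nat_lit 0x800001e000000000000000000000000000000000000000000000000000) (nat_lit 0x1000002000001c000000000000000000000000000000000000000000000) (nat_lit 3)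
theorem c6598 : QOK q6598 := cut [q113] ⟨c113, trivial⟩ (nd (nat_lit 209) (nat_lit 0) (cs (rf (nat_lit 0)) (lf (nat_lit 5) (nat_lit 206)))) q6598 (by decide +kernel)
def q6611 : Q := Q.p (nat_lit 0x400001c000000000000000000000000000000000000000000000000000) (nat_lit 0x38000022000000000000000000000000000000000000000000000000000) (nat_lit 3)
theorem c6611 : QOK q6611 := cut [q4011] ⟨c4011, trivial⟩ (nd (nat_lit 231) (nat_lit 0) (cs (lf (nat_lit 0) (nat_lit 205)) (rf (nat_lit 0)))) q6611 (by decide +kernel)
def q6628 : Q := Q.p (nat_lit 0x100000c000010000040000000000000000000000000000000000000000) (nat_lit 0x200000e0000380000600002000000000020000080000200000000000000000000000000000000000) (nat_lit 7)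
theorem c6628 : QOK q6628 := cut [q6623] ⟨c6623, trivial⟩ (nd (nat_lit 163) (nat_lit 0) (cs (lf (nat_lit 35) (nat_lit 140)) (nd (nat_lit 250) (nat_lit 0) (cs (lf (nat_lit 34) (nat_lit 162)) (nd (nat_lit 271) (nat_lit 0) (cs (lf (nat_lit 40) (nat_lit 183)) (nd (nat_lit 272) (nat_lit 0) (cs (lf (nat_lit 41) (nat_lit 205)) (nd (nat_lit 294) (nat_lit 0) (cs (lf (nat_lit 34) (nat_lit 206)) (rf (nat_lit 0)))))))))))) q6628 (by decide +kernel)
def q6644 : Q := Q.p (nat_lit 0x1e000010000000000000000000000000000000000000000000000) (nat_lit 0x70000180002e000000000000000000000000000000000000000000000) (nat_lit 5)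
theorem c6644 : QOK q6644 := cut [q6642] ⟨c6642, trivial⟩ (nd (nat_lit 182) (nat_lit 0) (cs (lf (nat_lit 22) (nat_lit 182)) (nd (nat_lit 204) (nat_lit 0) (cs (lf (nat_lit 23) (nat_lit 181)) (rf (nat_lit 0)))))) q6644 (by decide +kernel)
def q6671 : Q := Q.p (nat_lit 0x400003000004000014000000000000000000000000000000000000000000000000000) (nat_lit 0x2e0001b80000e00001800000000010000000000000000000000000000000000000000000000) (nat_lit 8)
theorem c6671 : QOK q6671 := cut [q6665] ⟨c6665, trivial⟩ (nd (nat_lit 275) (nat_lit 0) (cs (lf (nat_lit 29) (nat_lit 208)) (nd (nat_lit 273) (nat_lit 0) (cs (lf (nat_lit 41) (nat_lit 207)) (nd (nat_lit 272) (nat_lit 0) (cs (lf (nat_lit 12) (nat_lit 249)) (nd (nat_lit 293) (nat_lit 0) (cs (lf (nat_lit 10) (nat_lit 271)) (nd (nat_lit 250) (nat_lit 0) (cs (lf (nat_lit 23) (nat_lit 249)) (nd (nat_lit 251) (nat_lit 0) (cs (lf (nat_lit 18) (nat_lit 250)) (rf (nat_lit 0)))))))))))))) q6671 (by decide +kernel)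
def q6674 : Q := Q.p (nat_lit 0x300000600001c000000000000000000000000000000000000000000000000000) (nat_lit 0x1c00003000000000000000000000000000000000000000000000000000) (nat_lit 3)
theorem c6674 : QOK q6674 := cut [q5282] ⟨c5282, trivial⟩ (nd (nat_lit 205) (nat_lit 0) (cs (lf (nat_lit 0) (nat_lit 204)) (rf (nat_lit 0)))) q6674 (by decide +kernel)
def q6688 : Q := Q.p (nat_lit 0x400002000008800022000008000000000000000000000000000000000000000000000) (nat_lit 0x100000750001bc0000700000000000000000000000000000000000000000000000000000000000000) (nat_lit 8)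
theorem c6688 : QOK q6688 := cut [q3639] ⟨c3639, trivial⟩ (nd (nat_lit 275) (nat_lit 0) (cs (lf (nat_lit 41) (nat_lit 208)) (nd (nat_lit 298) (nat_lit 0) (cs (lf (nat_lit 28) (nat_lit 209)) (nd (nat_lit 297) (nat_lit 0) (cs (lf (nat_lit 29) (nat_lit 231)) (nd (nat_lit 272) (nat_lit 0) (cs (lf (nat_lit 1) (nat_lit 272)) (nd (nat_lit 249) (nat_lit 0) (cs (lf (nat_lit 28) (nat_lit 183)) (nd (nat_lit 271) (nat_lit 0) (cs (rf (nat_lit 0)) (lf (nat_lit 29) (nat_lit 205)))))))))))))) q6688 (by decide +kernel)
def q6720 : Q := Q.p (nat_lit 0x100000c000030000000000000000000000000000000000000000000000) (nat_lit 0x300000c00002000000000000000060000180000600000000000000000000000000000) (nat_lit 6)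
theorem c6720 : QOK q6720 := cut [q6717] ⟨c6717, trivial⟩ (nd (nat_lit 250) (nat_lit 0) (cs (lf (nat_lit 30) (nat_lit 184)) (nd (nat_lit 251) (nat_lit 0) (cs (lf (nat_lit 29) (nat_lit 184)) (nd (nat_lit 162) (nat_lit 0) (cs (lf (nat_lit 28) (nat_lit 162)) (rf (nat_lit 0)))))))) q6720 (by decide +kernel)
def q6722 : Q := Q.p (nat_lit 0x3c00001000004000010000000000000000000000000000000000000000000000) (nat_lit 0x1c80000200000000000000000000000000000000000000000000000000000000000000) (nat_lit 3)
theorem c6722 : QOK q6722 := cut [q6721] ⟨c6721, trivial⟩ (nd (nat_lit 275) (nat_lit 0) (cs (lf (nat_lit 5) (nat_lit 250)) (rf (nat_lit 0)))) q6722 (by decide +kernel)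
def q6766 : Q := Q.p (nat_lit 0x100000c000020000000000000000000000000000000000000000000000) (nat_lit 0x100000400000000000000010000080000200000000000000000000000000000000000) (nat_lit 3)
theorem c6766 : QOK q6766 := cut [q3391] ⟨c3391, trivial⟩ (nd (nat_lit 250) (nat_lit 0) (cs (lf (nat_lit 30) (nat_lit 184)) (rf (nat_lit 0)))) q6766 (by decide +kernel)
def q6788 : Q := Q.p (nat_lit 0x1c000050000100000000000000000000000000000000000000000) (nat_lit 0x20000220000280002c0000300000c00002000000000000000000000000) (nat_lit 7)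
theorem c6788 : QOK q6788 := cut [q6787] ⟨c6787, trivial⟩ (nd (nat_lit 183) (nat_lit 0) (cs (lf (nat_lit 18) (nat_lit 183)) (rf (nat_lit 0)))) q6788 (by decide +kernel)
def q6790 : Q := Q.p (nat_lit 0x1c000010000000000000000000000000000000000000000000000) (nat_lit 0x2200000e000000000000000000000000000000000000000000000) (nat_lit 3)
theorem c6790 : QOK q6790 := cut [q6789] ⟨c6789, trivial⟩ (nd (nat_lit 183) (nat_lit 0) (cs (lf (nat_lit 18) (nat_lit 183)) (rf (nat_lit 0)))) q6790 (by decide +kernel)
def q6804 : Q := Q.p (nat_lit 0x200000000001c000050000000000000000000000000000000000000000000000) (nat_lit 0x800000000018000020000008000000000000000000000000000000000000000000000) (nat_lit 3)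
theorem c6804 : QOK q6804 := cut [q3119] ⟨c3119, trivial⟩ (nd (nat_lit 209) (nat_lit 0) (cs (lf (nat_lit 23) (nat_lit 183)) (rf (nat_lit 0)))) q6804 (by decide +kernel)
def q6859 : Q := Q.p (nat_lit 0x180000c0000000000000000000000000000000000000000000000) (nat_lit 0x26000300000000000000000000000000000000000000000000000) (nat_lit 3)
theorem c6859 : QOK q6859 := cut [q6858] ⟨c6858, trivial⟩ (nd (nat_lit 188) (nat_lit 0) (cs (lf (nat_lit 6) (nat_lit 185)) (rf (nat_lit 0)))) q6859 (by decide +kernel)
def q6870 : Q := Q.p (nat_lit 0x340000400001c000000000000000000000000000000000000000000000000000) (nat_lit 0x200001800000a00038000020000000000000000000000000000000000000000000000000000) (nat_lit 4)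
theorem c6870 : QOK q6870 := cut [q4011, q4013] ⟨c4011, c4013, trivial⟩ (nd (nat_lit 231) (nat_lit 0) (cs (rf (nat_lit 0)) (rf (nat_lit 1)))) q6870 (by decide +kernel)
def q6884 : Q := Q.p (nat_lit 0x400001000004000018000000000000000000000000000000000000000000000000000) (nat_lit 0x100000000000000018000026000080000000000000000000000000000000000000000000000) (nat_lit 4)
theorem c6884 : QOK q6884 := cut [q2952] ⟨c2952, trivial⟩ (nd (nat_lit 209) (nat_lit 0) (cs (lf (nat_lit 35) (nat_lit 186)) (nd (nat_lit 231) (nat_lit 0) (cs (lf (nat_lit 30) (nat_lit 208)) (rf (nat_lit 0)))))) q6884 (by decide +kernel)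
def q6889 : Q := Q.p (nat_lit 0x3000004000018000000000000000000000000000000000000000000000000000) (nat_lit 0x300000c000000000380000240000a0000000000000000000000000000000000000000000000) (nat_lit 6)
theorem c6889 : QOK q6889 := cut [q4036] ⟨c4036, trivial⟩ (nd (nat_lit 274) (nat_lit 0) (cs (lf (nat_lit 47) (nat_lit 185)) (nd (nat_lit 275) (nat_lit 0) (cs (lf (nat_lit 29) (nat_lit 208)) (rf (nat_lit 0)))))) q6889 (by decide +kernel)
def q6896 : Q := Q.p (nat_lit 0x180000c0000100000800000000000000000000000000000000000) (nat_lit 0x20000020000000000400003000000000000000000000000000000) (nat_lit 3)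
theorem c6896 : QOK q6896 := cut [q6895] ⟨c6895, trivial⟩ (nd (nat_lit 142) (nat_lit 0) (cs (lf (nat_lit 35) (nat_lit 120)) (rf (nat_lit 0)))) q6896 (by decide +kernel)
def q6912 : Q := Q.p (nat_lit 0x40000100000c0000000000000000000000000000000000000000000000) (nat_lit 0x1000000000020000000000200000800002000000000000000000000000000000) (nat_lit 3)
theorem c6912 : QOK q6912 := cut [q6513] ⟨c6513, trivial⟩ (nd (nat_lit 165) (nat_lit 0) (cs (lf (nat_lit 30) (nat_lit 164)) (rf (nat_lit 0)))) q6912 (by decide +kernel)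
def q6938 : Q := Q.p (nat_lit 0xc000018000000000000000000000000000000000000000000000000000) (nat_lit 0x32000006000000000000000000000000000000000000000000000000000) (nat_lit 3)
theorem c6938 : QOK q6938 := cut [q3368] ⟨c3368, trivial⟩ (nd (nat_lit 206) (nat_lit 0) (cs (lf (nat_lit 0) (nat_lit 205)) (rf (nat_lit 0)))) q6938 (by decide +kernel)
def q6975 : Q := Q.p (nat_lit 0x20000000000180000c0000000000000000000000000000000000000000000000) (nat_lit 0x800000000008000024000300000400000000000000000000000000000000000000000) (nat_lit 4)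
theorem c6975 : QOK q6975 := cut [q4408] ⟨c4408, trivial⟩ (nd (nat_lit 188) (nat_lit 0) (cs (lf (nat_lit 6) (nat_lit 185)) (nd (nat_lit 209) (nat_lit 0) (cs (lf (nat_lit 12) (nat_lit 184)) (rf (nat_lit 0)))))) q6975 (by decide +kernel)
def q6989 : Q := Q.p (nat_lit 0x8000030000040000000000000000000000000000000000000000) (nat_lit 0x800002000004000000000000000100000400000000000000000000000000000) (nat_lit 3)
theorem c6989 : QOK q6989 := cut [q6988] ⟨c6988, trivial⟩ (nd (nat_lit 229) (nat_lit 0) (cs (lf (nat_lit 42) (nat_lit 162)) (rf (nat_lit 0)))) q6989 (by decide +kernel)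
def q7043 : Q := Q.p (nat_lit 0x180001e0000000000000000000000000000000000000000000000) (nat_lit 0x10000fc0000b00002c00000000000000000000000000000) (nat_lit 7)
theorem c7043 : QOK q7043 := cut [q7040] ⟨c7040, trivial⟩ (nd (nat_lit 166) (nat_lit 0) (cs (lf (nat_lit 17) (nat_lit 163)) (nd (nat_lit 165) (nat_lit 0) (cs (lf (nat_lit 12) (nat_lit 162)) (nd (nat_lit 121) (nat_lit 0) (cs (lf (nat_lit 37) (nat_lit 120)) (rf (nat_lit 0)))))))) q7043 (by decide +kernel)
def q7054 : Q := Q.p (nat_lit 0x20000000000180000e0000000000000000000000000000000000000000000000) (nat_lit 0xa000020000310000f00001f00007800000000000000000000000000000) (nat_lit 10)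
theorem c7054 : QOK q7054 := cut [q7046] ⟨c7046, trivial⟩ (nd (nat_lit 188) (nat_lit 0) (cs (lf (nat_lit 6) (nat_lit 185)) (nd (nat_lit 166) (nat_lit 0) (cs (lf (nat_lit 17) (nat_lit 163)) (nd (nat_lit 165) (nat_lit 0) (cs (lf (nat_lit 12) (nat_lit 162)) (nd (nat_lit 143) (nat_lit 0) (cs (lf (nat_lit 36) (nat_lit 120)) (nd (nat_lit 209) (nat_lit 0) (cs (lf (nat_lit 31) (nat_lit 165)) (nd (nat_lit 122) (nat_lit 0) (cs (lf (nat_lit 37) (nat_lit 121)) (nd (nat_lit 142) (nat_lit 0) (cs (lf (nat_lit 47) (nat_lit 120)) (nd (nat_lit 141) (nat_lit 0) (cs (lf (nat_lit 0) (nat_lit 140)) (rf (nat_lit 0)))))))))))))))))) q7054 (by decide +kernel)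
def q7062 : Q := Q.p (nat_lit 0x20000000000100001e0000000000000000000000000000000000000000000000) (nat_lit 0x8000020000010000ec0001f00007800000000000000000000000000000) (nat_lit 9)
theorem c7062 : QOK q7062 := cut [q7057] ⟨c7057, trivial⟩ (nd (nat_lit 166) (nat_lit 0) (cs (lf (nat_lit 17) (nat_lit 163)) (nd (nat_lit 165) (nat_lit 0) (cs (lf (nat_lit 12) (nat_lit 162)) (nd (nat_lit 143) (nat_lit 0) (cs (lf (nat_lit 36) (nat_lit 120)) (nd (nat_lit 209) (nat_lit 0) (cs (lf (nat_lit 31) (nat_lit 165)) (nd (nat_lit 122) (nat_lit 0) (cs (lf (nat_lit 37) (nat_lit 121)) (rf (nat_lit 0)))))))))))) q7062 (by decide +kernel)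
def q7087 : Q := Q.p (nat_lit 0x1000004000018000060000000000000000000000000000000000000000000000) (nat_lit 0x6000180000200000000000000000000000000000000000000000) (nat_lit 3)
theorem c7087 : QOK q7087 := cut [q7086] ⟨c7086, trivial⟩ (nd (nat_lit 187) (nat_lit 0) (cs (lf (nat_lit 35) (nat_lit 164)) (rf (nat_lit 0)))) q7087 (by decide +kernel)
def q7096 : Q := Q.p (nat_lit 0x800000000018000030000000000000000000000000000000000000000000000) (nat_lit 0x200000000002000000000040000140000000000000000000000000000000000000000) (nat_lit 3)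
theorem c7096 : QOK q7096 := cut [q6230] ⟨c6230, trivial⟩ (nd (nat_lit 229) (nat_lit 0) (cs (lf (nat_lit 47) (nat_lit 162)) (rf (nat_lit 0)))) q7096 (by decide +kernel)
def q7101 : Q := Q.p (nat_lit 0x4000018000060000200000000000000000000000000000000000000000) (nat_lit 0x2000000000000000100000c00001000000000000000000000000000000) (nat_lit 3)
theorem c7101 : QOK q7101 := cut [q1916] ⟨c1916, trivial⟩ (nd (nat_lit 164) (nat_lit 0) (cs (lf (nat_lit 35) (nat_lit 142)) (rf (nat_lit 0)))) q7101 (by decide +kernel)
def q7157 : Q := Q.p (nat_lit 0x100000300001c0000000000000000000000000000000000000000) (nat_lit 0x4000000000040000620001c00002000000000000000000000000000000) (nat_lit 5)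
theorem c7157 : QOK q7157 := cut [q7156] ⟨c7156, trivial⟩ (nd (nat_lit 165) (nat_lit 0) (cs (lf (nat_lit 6) (nat_lit 162)) (rf (nat_lit 0)))) q7157 (by decide +kernel)
def q7194 : Q := Q.p (nat_lit 0x100000c0000200000000000000000000000000000000000000000) (nat_lit 0x1000004000000000000000100000800002000000000000000000000000000000) (nat_lit 3)
theorem c7194 : QOK q7194 := cut [q7193] ⟨c7193, trivial⟩ (nd (nat_lit 230) (nat_lit 0) (cs (lf (nat_lit 30) (nat_lit 164)) (rf (nat_lit 0)))) q7194 (by decide +kernel)
def q7209 : Q := Q.p (nat_lit 0x18000078000080000000000000000000000000000000000000000) (nat_lit 0x10000040000000000800003700005c0001600001800000000000000000000000) (nat_lit 9)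
theorem c7209 : QOK q7209 := cut [q7202] ⟨c7202, trivial⟩ (nd (nat_lit 164) (nat_lit 0) (cs (lf (nat_lit 17) (nat_lit 161)) (nd (nat_lit 120) (nat_lit 0) (cs (lf (nat_lit 37) (nat_lit 119)) (nd (nat_lit 230) (nat_lit 0) (cs (lf (nat_lit 42) (nat_lit 163)) (nd (nat_lit 161) (nat_lit 0) (cs (lf (nat_lit 23) (nat_lit 160)) (nd (nat_lit 162) (nat_lit 0) (cs (lf (nat_lit 18) (nat_lit 161)) (nd (nat_lit 118) (nat_lit 0) (cs (lf (nat_lit 25) (nat_lit 118)) (nd (nat_lit 139) (nat_lit 0) (cs (lf (nat_lit 23) (nat_lit 138)) (rf (nat_lit 0)))))))))))))))) q7209 (by decide +kernel)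
def q7237 : Q := Q.p (nat_lit 0x3000008000020000080000000000000000000000000000000000000000) (nat_lit 0x4000000000040000300000400000000000000000000000000000) (nat_lit 3)
theorem c7237 : QOK q7237 := cut [q7236] ⟨c7236, trivial⟩ (nd (nat_lit 141) (nat_lit 0) (cs (lf (nat_lit 40) (nat_lit 140)) (rf (nat_lit 0)))) q7237 (by decide +kernel)
def q7259 : Q := Q.p (nat_lit 0x30000180000000000000000000000000000000000000000) (nat_lit 0xc000640000000000000000000000000000000000000000) (nat_lit 3)
theorem c7259 : QOK q7259 := cut [q7257] ⟨c7257, trivial⟩ (nd (nat_lit 183) (nat_lit 0) (cs (rf (nat_lit 0)) (lf (nat_lit 12) (nat_lit 160)))) q7259 (by decide +kernel)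
def q7319 : Q := Q.p (nat_lit 0x80001c000000000000000000000000000000000000000000000000000) (nat_lit 0x3600020000000000000000000000000000000000000000000000000000) (nat_lit 3)
theorem c7319 : QOK q7319 := cut [q3858] ⟨c3858, trivial⟩ (nd (nat_lit 228) (nat_lit 0) (cs (lf (nat_lit 6) (nat_lit 205)) (rf (nat_lit 0)))) q7319 (by decide +kernel)
def q7339 : Q := Q.p (nat_lit 0x180000c0000000000000000000000000000000000000000000000) (nat_lit 0x6000320000000000000000000000000000000000000000000000) (nat_lit 3)
theorem c7339 : QOK q7339 := cut [q7338] ⟨c7338, trivial⟩ (nd (nat_lit 188) (nat_lit 0) (cs (lf (nat_lit 6) (nat_lit 185)) (rf (nat_lit 0)))) q7339 (by decide +kernel)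
def q7348 : Q := Q.p (nat_lit 0x2000000000018000040000100000000000000000000000000000000000000000) (nat_lit 0x40000100000c000000000020000280000c00003000000000000000000000000000000) (nat_lit 6)
theorem c7348 : QOK q7348 := cut [q7345] ⟨c7345, trivial⟩ (nd (nat_lit 230) (nat_lit 0) (cs (lf (nat_lit 28) (nat_lit 164)) (nd (nat_lit 143) (nat_lit 0) (cs (lf (nat_lit 34) (nat_lit 142)) (nd (nat_lit 142) (nat_lit 0) (cs (lf (nat_lit 35) (nat_lit 120)) (rf (nat_lit 0)))))))) q7348 (by decide +kernel)
def q7388 : Q := Q.p (nat_lit 0x180000e0000000000000000000000000000000000000000000000) (nat_lit 0x2000031c0000e0000000000000000000000000000000000000000) (nat_lit 5)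
theorem c7388 : QOK q7388 := cut [q3175] ⟨c3175, trivial⟩ (nd (nat_lit 188) (nat_lit 0) (cs (lf (nat_lit 6) (nat_lit 185)) (nd (nat_lit 162) (nat_lit 0) (cs (lf (nat_lit 22) (nat_lit 162)) (nd (nat_lit 184) (nat_lit 0) (cs (lf (nat_lit 23) (nat_lit 161)) (rf (nat_lit 0)))))))) q7388 (by decide +kernel)
def q7420 : Q := Q.p (nat_lit 0x20000000000f0000000000000000000000000000000000000000000000000000) (nat_lit 0x8000010000060001000000e0000200000000000000000000000000000000000000000) (nat_lit 5)
theorem c7420 : QOK q7420 := cut [q7417] ⟨c7417, trivial⟩ (nd (nat_lit 230) (nat_lit 0) (cs (lf (nat_lit 11) (nat_lit 207)) (nd (nat_lit 186) (nat_lit 0) (cs (lf (nat_lit 23) (nat_lit 185)) (nd (nat_lit 187) (nat_lit 0) (cs (lf (nat_lit 18) (nat_lit 186)) (rf (nat_lit 0)))))))) q7420 (by decide +kernel)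
def q7427 : Q := Q.p (nat_lit 0x2800002000078000000000000000000000000000000000000000000000000000) (nat_lit 0x1d00001400004000000000370000100000000000000000000000000000000000000000) (nat_lit 7)
theorem c7427 : QOK q7427 := cut [q7425] ⟨c7425, trivial⟩ (nd (nat_lit 185) (nat_lit 0) (cs (lf (nat_lit 23) (nat_lit 184)) (nd (nat_lit 188) (nat_lit 0) (cs (lf (nat_lit 17) (nat_lit 185)) (rf (nat_lit 0)))))) q7427 (by decide +kernel)
def q7439 : Q := Q.p (nat_lit 0xf0000000000000000000000000000000000000000000000000000) (nat_lit 0x77000008000000000000000000000000000000000000000000000000000) (nat_lit 4)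
theorem c7439 : QOK q7439 := cut [q4284] ⟨c4284, trivial⟩ (nd (nat_lit 233) (nat_lit 0) (cs (lf (nat_lit 5) (nat_lit 208)) (nd (nat_lit 207) (nat_lit 0) (cs (lf (nat_lit 4) (nat_lit 207)) (rf (nat_lit 0)))))) q7439 (by decide +kernel)

end Crest.Agent.H3.Snaky.CR
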