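import Crest.Agent.H3.Snaky.Cert

set_option autoImplicit false
set_option maxRecDepth 100000

namespace Crest.Agent.H3.Snaky.CR

open T

def q10759 : Q := Q.p (nat_lit 0x3000038000000000000000000000000000000000000000000000000000000000) (nat_lit 0xc00004000000000000000000000000000000000000000000000000000000000) (nat_lit 2)
theorem c10759 : QOK q10759 := cut [] trivial (nd (nat_lit 251) (nat_lit 0) (cs (lf (nat_lit 12) (nat_lit 228)) (lf (nat_lit 9) (nat_lit 229)))) q10759 (by decide +kernel)
def q10772 : Q := Q.p (nat_lit 0x3000008000078000080000000000000000000000000000000000000000000000) (nat_lit 0x200000c00033000000000340000100000000000000000000000000000000000000000) (nat_lit 6)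
theorem c10772 : QOK q10772 := cut [] trivial (nd (nat_lit 186) (nat_lit 0) (cs (lf (nat_lit 47) (nat_lit 164)) (nd (nat_lit 229) (nat_lit 0) (cs (lf (nat_lit 11) (nat_lit 206)) (nd (nat_lit 188) (nat_lit 0) (cs (lf (nat_lit 6) (nat_lit 185)) (nd (nat_lit 232) (nat_lit 0) (cs (lf (nat_lit 5) (nat_lit 207)) (nd (nat_lit 251) (nat_lit 0) (cs (lf (nat_lit 30) (nat_lit 185)) (lf (nat_lit 12) (nat_lit 228)))))))))))) q10772 (by decide +kernel)
def q10808 : Q := Q.p (nat_lit 0xc00003000004000000000000000000000000000000000000000000000000000) (nat_lit 0x200000000000000000000010000040000000000000000000000000000000000000000) (nat_lit 2)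
theorem c10808 : QOK q10808 := cut [] trivial (nd (nat_lit 184) (nat_lit 0) (cs (lf (nat_lit 29) (nat_lit 184)) (lf (nat_lit 24) (nat_lit 162)))) q10808 (by decide +kernel)
def q10841 : Q := Q.p (nat_lit 0x30000040000100000200000000000000000000000000000000000) (nat_lit 0x80000000000c00003800008000000000000000000000000) (nat_lit 4)
theorem c10841 : QOK q10841 := cut [] trivial (nd (nat_lit 142) (nat_lit 0) (cs (lf (nat_lit 47) (nat_lit 119)) (nd (nat_lit 121) (nat_lit 0) (cs (lf (nat_lit 34) (nat_lit 120)) (nd (nat_lit 120) (nat_lit 0) (cs (lf (nat_lit 35) (nat_lit 98)) (lf (nat_lit 28) (nat_lit 120)))))))) q10841 (by decide +kernel)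
def q10877 : Q := Q.p (nat_lit 0x6000030000040000000000000000000000000000000000000000000000) (nat_lit 0x800000000000000080000300000e00003800002000000000000000000000000) (nat_lit 6)
theorem c10877 : QOK q10877 := cut [] trivial (nd (nat_lit 164) (nat_lit 0) (cs (lf (nat_lit 41) (nat_lit 163)) (nd (nat_lit 143) (nat_lit 0) (cs (lf (nat_lit 34) (nat_lit 142)) (nd (nat_lit 142) (nat_lit 0) (cs (lf (nat_lit 35) (nat_lit 120)) (nd (nat_lit 119) (nat_lit 0) (cs (lf (nat_lit 46) (nat_lit 119)) (nd (nat_lit 120) (nat_lit 0) (cs (lf (nat_lit 47) (nat_lit 97)) (lf (nat_lit 28) (nat_lit 120)))))))))))) q10877 (by decide +kernel)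
def q10888 : Q := Q.p (nat_lit 0x300000c00002000000000000000000000000000000000000000000000000000000000) (nat_lit 0x40000000000000000000008000020000000000000000000000000000000000000000000000) (nat_lit 2)
theorem c10888 : QOK q10888 := cut [] trivial (nd (nat_lit 207) (nat_lit 0) (cs (lf (nat_lit 41) (nat_lit 206)) (lf (nat_lit 36) (nat_lit 184)))) q10888 (by decide +kernel)
def q10901 : Q := Q.p (nat_lit 0x1000006000010000040000000000000000000000000000000000000000000000) (nat_lit 0x200000800000000000000000000100000000000000000000000000000000000000000) (nat_lit 2)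
theorem c10901 : QOK q10901 := cut [] trivial (nd (nat_lit 251) (nat_lit 0) (cs (lf (nat_lit 41) (nat_lit 185)) (lf (nat_lit 36) (nat_lit 163)))) q10901 (by decide +kernel)
def q10904 : Q := Q.p (nat_lit 0x40000100000400001000004000000000000000000000000000000000000000000000000000000000) (nat_lit 0x20000080000200000000000000000000000000000000000000000000000000000000000000000000000000) (nat_lit 2)
theorem c10904 : QOK q10904 := cut [] trivial (nd (nat_lit 319) (nat_lit 0) (cs (lf (nat_lit 29) (nat_lit 252)) (lf (nat_lit 28) (nat_lit 230)))) q10904 (by decide +kernel)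
def q10948 : Q := Q.p (nat_lit 0x200000800006000010000000000000000000000000000000000000000000000000000) (nat_lit 0x1000000000000000040000100000000000000000000000000000000000000000) (nat_lit 2)
theorem c10948 : QOK q10948 := cut [] trivial (nd (nat_lit 186) (nat_lit 0) (cs (lf (nat_lit 36) (nat_lit 163)) (lf (nat_lit 39) (nat_lit 185)))) q10948 (by decide +kernel)
def q10952 : Q := Q.p (nat_lit 0x80001c000030000000000000000000000000000000000000000000000000000) (nat_lit 0x1000060000000000000000000000000000000000000000000000000000000000) (nat_lit 2)
theorem c10952 : QOK q10952 := cut [] trivial (nd (nat_lit 233) (nat_lit 0) (cs (lf (nat_lit 18) (nat_lit 208)) (lf (nat_lit 10) (nat_lit 229)))) q10952 (by decide +kernel)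
def q10970 : Q := Q.p (nat_lit 0x200000800003000004000000000000000000000000000000000000000000000000000) (nat_lit 0x400000000000000010000040000000000000000000000000000000000000000) (nat_lit 2)
theorem c10970 : QOK q10970 := cut [] trivial (nd (nat_lit 184) (nat_lit 0) (cs (lf (nat_lit 24) (nat_lit 162)) (lf (nat_lit 27) (nat_lit 184)))) q10970 (by decide +kernel)
def q10992 : Q := Q.p (nat_lit 0x100000c00001000000000020000000000000000000000000000000000000000000000) (nat_lit 0x200000c000000000000000000000000000000000000000000000000000) (nat_lit 2)
theorem c10992 : QOK q10992 := cut [] trivial (nd (nat_lit 207) (nat_lit 0) (cs (lf (nat_lit 33) (nat_lit 184)) (lf (nat_lit 38) (nat_lit 184)))) q10992 (by decide +kernel)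
def q11003 : Q := Q.p (nat_lit 0x40000300000c000010000000000000000000000000000000000000000000000000000) (nat_lit 0x80000200000800000000000000040000100000000000000000000000000000000000000000) (nat_lit 3)
theorem c11003 : QOK q11003 := cut [] trivial (nd (nat_lit 273) (nat_lit 0) (cs (lf (nat_lit 41) (nat_lit 207)) (nd (nat_lit 186) (nat_lit 0) (cs (lf (nat_lit 40) (nat_lit 185)) (lf (nat_lit 24) (nat_lit 164)))))) q11003 (by decide +kernel)
def q11016 : Q := Q.p (nat_lit 0x100000c00003000000000000000000000000000000000000000000000000000000000) (nat_lit 0x10000040000000000000000000008000000000000000000000000000000000000000000000000000) (nat_lit 2)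
theorem c11016 : QOK q11016 := cut [] trivial (nd (nat_lit 294) (nat_lit 0) (cs (lf (nat_lit 30) (nat_lit 228)) (lf (nat_lit 35) (nat_lit 206)))) q11016 (by decide +kernel)
def q11035 : Q := Q.p (nat_lit 0x400001000004000010000040000000000000000000000000000000000000000000000) (nat_lit 0x80000200000800000000000000000000000000000000000000000000000000000000000000) (nat_lit 2)
theorem c11035 : QOK q11035 := cut [] trivial (nd (nat_lit 273) (nat_lit 0) (cs (lf (nat_lit 41) (nat_lit 207)) (lf (nat_lit 40) (nat_lit 185)))) q11035 (by decide +kernel)
def q11042 : Q := Q.p (nat_lit 0x40000100000600001000000000000000000000000000000000000000000000000000000000000000) (nat_lit 0x10000000000000000000000800002000000000000000000000000000000000000000000000000000000000) (nat_lit 2)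
theorem c11042 : QOK q11042 := cut [] trivial (nd (nat_lit 251) (nat_lit 0) (cs (lf (nat_lit 42) (nat_lit 251)) (lf (nat_lit 47) (nat_lit 229)))) q11042 (by decide +kernel)
def q11157 : Q := Q.p (nat_lit 0x1c0000a000008000020000000000000000000000000000000000000000000000) (nat_lit 0x200004000000000000000080000000000000000000000000000000000000000) (nat_lit 2)
theorem c11157 : QOK q11157 := cut [] trivial (nd (nat_lit 230) (nat_lit 0) (cs (lf (nat_lit 24) (nat_lit 163)) (lf (nat_lit 12) (nat_lit 227)))) q11157 (by decide +kernel)
def q11164 : Q := Q.p (nat_lit 0x2c0000300000c000000000000000000000000000000000000000000000000000) (nat_lit 0x60000180001000000000000000000000000000000000000000000000000000000000000000) (nat_lit 3)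
theorem c11164 : QOK q11164 := cut [] trivial (nd (nat_lit 272) (nat_lit 0) (cs (lf (nat_lit 30) (nat_lit 206)) (nd (nat_lit 271) (nat_lit 0) (cs (lf (nat_lit 7) (nat_lit 249)) (lf (nat_lit 41) (nat_lit 205)))))) q11164 (by decide +kernel)
def q11170 : Q := Q.p (nat_lit 0xc0000300000400000000000000000000000000000000000000000000000000000000) (nat_lit 0x20000000000000000000001000004000000000000000000000000000000000000000000000) (nat_lit 2)
theorem c11170 : QOK q11170 := cut [] trivial (nd (nat_lit 204) (nat_lit 0) (cs (lf (nat_lit 29) (nat_lit 204)) (lf (nat_lit 24) (nat_lit 182)))) q11170 (by decide +kernel)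
def q11179 : Q := Q.p (nat_lit 0x3000038000000000000000000000000000000000000000000000000000) (nat_lit 0x4800004000000000000000000000000000000000000000000000000000) (nat_lit 2)
theorem c11179 : QOK q11179 := cut [] trivial (nd (nat_lit 227) (nat_lit 0) (cs (lf (nat_lit 9) (nat_lit 205)) (lf (nat_lit 15) (nat_lit 205)))) q11179 (by decide +kernel)
def q11200 : Q := Q.p (nat_lit 0x40000100000400001000004000000000000000000000000) (nat_lit 0x800002000008000000000000000000) (nat_lit 2)
theorem c11200 : QOK q11200 := cut [] trivial (nd (nat_lit 97) (nat_lit 0) (cs (lf (nat_lit 47) (nat_lit 75)) (lf (nat_lit 46) (nat_lit 97)))) q11200 (by decide +kernel)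
def q11210 : Q := Q.p (nat_lit 0x4000030000040000100000400000000000000000000000000000000000) (nat_lit 0x400001000000000000000080000200000000001000000000000000000000000000000) (nat_lit 3)
theorem c11210 : QOK q11210 := cut [] trivial (nd (nat_lit 187) (nat_lit 0) (cs (lf (nat_lit 24) (nat_lit 120)) (nd (nat_lit 252) (nat_lit 0) (cs (lf (nat_lit 30) (nat_lit 186)) (lf (nat_lit 35) (nat_lit 164)))))) q11210 (by decide +kernel)
def q11267 : Q := Q.p (nat_lit 0x400003000004000030000000000000000000000000000000000000000000000000000) (nat_lit 0x100000000000000003800048000020000000000000000000000000000000000000000000000) (nat_lit 4)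
theorem c11267 : QOK q11267 := cut [] trivial (nd (nat_lit 207) (nat_lit 0) (cs (lf (nat_lit 47) (nat_lit 185)) (nd (nat_lit 229) (nat_lit 0) (cs (lf (nat_lit 42) (nat_lit 207)) (nd (nat_lit 228) (nat_lit 0) (cs (lf (nat_lit 0) (nat_lit 227)) (lf (nat_lit 6) (nat_lit 206)))))))) q11267 (by decide +kernel)
def q11278 : Q := Q.p (nat_lit 0x4000070000000000000000000000000000000000000000000000000000) (nat_lit 0x1ca000788000700000000000000000000000000000000000000000000000) (nat_lit 7)
theorem c11278 : QOK q11278 := cut [] trivial (nd (nat_lit 211) (nat_lit 0) (cs (lf (nat_lit 11) (nat_lit 207)) (nd (nat_lit 189) (nat_lit 0) (cs (lf (nat_lit 17) (nat_lit 186)) (nd (nat_lit 188) (nat_lit 0) (cs (lf (nat_lit 12) (nat_lit 185)) (nd (nat_lit 212) (nat_lit 0) (cs (lf (nat_lit 10) (nat_lit 208)) (nd (nat_lit 235) (nat_lit 0) (cs (lf (nat_lit 4) (nat_lit 209)) (nd (nat_lit 213) (nat_lit 0) (cs (lf (nat_lit 5) (nat_lit 210)) (lf (nat_lit 18) (nat_lit 188)))))))))))))) q11278 (by decide +kernel)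
def q11289 : Q := Q.p (nat_lit 0x800001c0000800000000000000000000000000000000000000000000000) (nat_lit 0x100000200001000000000000000000000000000000000000000000000000) (nat_lit 2)
theorem c11289 : QOK q11289 := cut [] trivial (nd (nat_lit 213) (nat_lit 0) (cs (lf (nat_lit 17) (nat_lit 188)) (lf (nat_lit 5) (nat_lit 210)))) q11289 (by decide +kernel)
def q11307 : Q := Q.p (nat_lit 0x2000006000010000040000000000000000000000000000000000000000000000) (nat_lit 0x800008000000000000000100000000000000000000000000000000000000000) (nat_lit 2)
theorem c11307 : QOK q11307 := cut [] trivial (nd (nat_lit 164) (nat_lit 0) (cs (lf (nat_lit 41) (nat_lit 163)) (lf (nat_lit 28) (nat_lit 164)))) q11307 (by decide +kernel)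
def q11335 : Q := Q.p (nat_lit 0x200001000004000010000020000000000000000000000000000000000000000000000) (nat_lit 0x800000000000000040000080000000000000000000000000000000000000000) (nat_lit 2)
theorem c11335 : QOK q11335 := cut [] trivial (nd (nat_lit 186) (nat_lit 0) (cs (lf (nat_lit 47) (nat_lit 163)) (lf (nat_lit 40) (nat_lit 185)))) q11335 (by decide +kernel)
def q11360 : Q := Q.p (nat_lit 0x700000600000000000000000000000000000000000000000000000000000000000000) (nat_lit 0x980000000000000000000000000000000000000000000000000000000000000) (nat_lit 2)
theorem c11360 : QOK q11360 := cut [] trivial (nd (nat_lit 248) (nat_lit 0) (cs (lf (nat_lit 0) (nat_lit 247)) (lf (nat_lit 3) (nat_lit 248)))) q11360 (by decide +kernel)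
def q11374 : Q := Q.p (nat_lit 0x200000800006000010000000000000000000000000000000000000000000000) (nat_lit 0x8000040000100000000000000000000000000000000000) (nat_lit 2)
theorem c11374 : QOK q11374 := cut [] trivial (nd (nat_lit 162) (nat_lit 0) (cs (lf (nat_lit 36) (nat_lit 139)) (lf (nat_lit 33) (nat_lit 161)))) q11374 (by decide +kernel)
def q11402 : Q := Q.p (nat_lit 0x1600000800002000008000000000000000000000000000000000000000000000) (nat_lit 0x100000c0000900000000000000000000000000000000000000000000000000000000000000) (nat_lit 3)
theorem c11402 : QOK q11402 := cut [] trivial (nd (nat_lit 270) (nat_lit 0) (cs (lf (nat_lit 40) (nat_lit 182)) (nd (nat_lit 271) (nat_lit 0) (cs (lf (nat_lit 41) (nat_lit 204)) (lf (nat_lit 7) (nat_lit 248)))))) q11402 (by decide +kernel)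
def q11410 : Q := Q.p (nat_lit 0x7c000000000000000000000000000000000000000) (nat_lit 0x38000000000000000000000000000000000) (nat_lit 2)
theorem c11410 : QOK q11410 := cut [] trivial (nd (nat_lit 136) (nat_lit 0) (cs (lf (nat_lit 22) (nat_lit 136)) (lf (nat_lit 23) (nat_lit 135)))) q11410 (by decide +kernel)
def q11430 : Q := Q.p (nat_lit 0x6000008000020000080000000000000000000000000000000000) (nat_lit 0x10000000000100000600001000000000000000000000000) (nat_lit 3)
theorem c11430 : QOK q11430 := cut [] trivial (nd (nat_lit 117) (nat_lit 0) (cs (nd (nat_lit 118) (nat_lit 0) (cs (lf (nat_lit 35) (nat_lit 95)) (lf (nat_lit 34) (nat_lit 117)))) (lf (nat_lit 28) (nat_lit 117)))) q11430 (by decide +kernel)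
def q11439 : Q := Q.p (nat_lit 0x6000008000020000080000000000000000000000000000000000) (nat_lit 0x10000000000100000600001000000000000000000000000) (nat_lit 3)
theorem c11439 : QOK q11439 := cut [] trivial (nd (nat_lit 118) (nat_lit 0) (cs (lf (nat_lit 34) (nat_lit 117)) (nd (nat_lit 117) (nat_lit 0) (cs (lf (nat_lit 35) (nat_lit 95)) (lf (nat_lit 28) (nat_lit 117)))))) q11439 (by decide +kernel)
def q11451 : Q := Q.p (nat_lit 0xc000020000080000200000000000000000000000000000000000) (nat_lit 0x10000000000400001800004000000000000000000000000) (nat_lit 3)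
theorem c11451 : QOK q11451 := cut [] trivial (nd (nat_lit 120) (nat_lit 0) (cs (lf (nat_lit 34) (nat_lit 119)) (nd (nat_lit 119) (nat_lit 0) (cs (lf (nat_lit 35) (nat_lit 97)) (lf (nat_lit 40) (nat_lit 118)))))) q11451 (by decide +kernel)
def q11487 : Q := Q.p (nat_lit 0x400001800002000008000000000000000000000000000000000000000000000000000) (nat_lit 0x40000100000200000000000000000000000000000000000000000000000000000000000000000000) (nat_lit 2)
theorem c11487 : QOK q11487 := cut [] trivial (nd (nat_lit 296) (nat_lit 0) (cs (lf (nat_lit 42) (nat_lit 229)) (lf (nat_lit 27) (nat_lit 207)))) q11487 (by decide +kernel)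
def q11506 : Q := Q.p (nat_lit 0x100000c00003000000000000000000000000000000000000000000000000000000000000000) (nat_lit 0x40000000000000000000008000020000000000000000000000000000000000000000000000000000) (nat_lit 2)
theorem c11506 : QOK q11506 := cut [] trivial (nd (nat_lit 231) (nat_lit 0) (cs (lf (nat_lit 30) (nat_lit 230)) (lf (nat_lit 36) (nat_lit 208)))) q11506 (by decide +kernel)
def q11530 : Q := Q.p (nat_lit 0xe00000c00000000000000000000000000000000000000000000000000000000000000000000) (nat_lit 0x1300000000000000000000000000000000000000000000000000000000000000000000) (nat_lit 2)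
theorem c11530 : QOK q11530 := cut [] trivial (nd (nat_lit 273) (nat_lit 0) (cs (lf (nat_lit 0) (nat_lit 272)) (lf (nat_lit 3) (nat_lit 273)))) q11530 (by decide +kernel)
def q11559 : Q := Q.p (nat_lit 0x1800006000010000000000000000000000000000000000000000000000000000000000000000) (nat_lit 0x200000000000000000000040000100000000000000000000000000000000000000000000000000000) (nat_lit 2)
theorem c11559 : QOK q11559 := cut [] trivial (nd (nat_lit 234) (nat_lit 0) (cs (lf (nat_lit 36) (nat_lit 211)) (lf (nat_lit 41) (nat_lit 233)))) q11559 (by decide +kernel)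
def q11568 : Q := Q.p (nat_lit 0x1e00000800000000000000000000000000000000000000000000000000000000000000000000) (nat_lit 0x1c00002000001000000000000000000000000000000000000000000000000000000000000000000000) (nat_lit 3)
theorem c11568 : QOK q11568 := cut [] trivial (nd (nat_lit 323) (nat_lit 0) (cs (nd (nat_lit 301) (nat_lit 0) (cs (lf (nat_lit 22) (nat_lit 275)) (lf (nat_lit 5) (nat_lit 298)))) (lf (nat_lit 4) (nat_lit 297)))) q11568 (by decide +kernel)
def q11573 : Q := Q.p (nat_lit 0x1e00008000000000000000000000000000000000000000000000000000000000000000000000) (nat_lit 0x1c00002000010000000000000000000000000000000000000000000000000000000000000000000000) (nat_lit 3)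
theorem c11573 : QOK q11573 := cut [] trivial (nd (nat_lit 323) (nat_lit 0) (cs (lf (nat_lit 4) (nat_lit 297)) (nd (nat_lit 301) (nat_lit 0) (cs (lf (nat_lit 5) (nat_lit 298)) (lf (nat_lit 17) (nat_lit 276)))))) q11573 (by decide +kernel)
def q11580 : Q := Q.p (nat_lit 0x200000800002000008000020000000000000000000000000000000000000000000000000000) (nat_lit 0x10000040000100000000000000000000000000000000000000000000000) (nat_lit 2)
theorem c11580 : QOK q11580 := cut [] trivial (nd (nat_lit 210) (nat_lit 0) (cs (lf (nat_lit 35) (nat_lit 187)) (lf (nat_lit 34) (nat_lit 209)))) q11580 (by decide +kernel)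
def q11582 : Q := Q.p (nat_lit 0x400000800002000000000030000000000000000000000000000000000000000000000000000) (nat_lit 0x1000000000008000000000040000000000000000000000000000000000000000000000) (nat_lit 2)
theorem c11582 : QOK q11582 := cut [] trivial (nd (nat_lit 231) (nat_lit 0) (cs (lf (nat_lit 28) (nat_lit 209)) (lf (nat_lit 47) (nat_lit 186)))) q11582 (by decide +kernel)
def q11585 : Q := Q.p (nat_lit 0x200000800002000008000010000000000000000000000000000000000000000000000000000) (nat_lit 0x10000060000140000000000000000000000000000000000000000000000) (nat_lit 3)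
theorem c11585 : QOK q11585 := cut [] trivial (nd (nat_lit 210) (nat_lit 0) (cs (lf (nat_lit 34) (nat_lit 209)) (nd (nat_lit 209) (nat_lit 0) (cs (lf (nat_lit 35) (nat_lit 187)) (lf (nat_lit 47) (nat_lit 186)))))) q11585 (by decide +kernel)
def q11587 : Q := Q.p (nat_lit 0x600001c00000000000000000000000000000000000000000000000000000000000000000000) (nat_lit 0x800000300000000000000000000000000000000000000000000000000000000000000000000) (nat_lit 2)
theorem c11587 : QOK q11587 := cut [] trivial (nd (nat_lit 273) (nat_lit 0) (cs (lf (nat_lit 5) (nat_lit 273)) (lf (nat_lit 0) (nat_lit 272)))) q11587 (by decide +kernel)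
def q11595 : Q := Q.p (nat_lit 0xc0000e00000000000000000000000000000000000000000000000000000000000000000000000000) (nat_lit 0x130000000000000000000000000000000000000000000000000000000000000000000000000000000) (nat_lit 2)
theorem c11595 : QOK q11595 := cut [] trivial (nd (nat_lit 317) (nat_lit 0) (cs (lf (nat_lit 12) (nat_lit 294)) (lf (nat_lit 15) (nat_lit 295)))) q11595 (by decide +kernel)
def q11603 : Q := Q.p (nat_lit 0x300000c00002000000000000000000000000000000000000000000000000000000000000000) (nat_lit 0x40000000000000000000008000020000000000000000000000000000000000000000000000000000) (nat_lit 2)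
theorem c11603 : QOK q11603 := cut [] trivial (nd (nat_lit 231) (nat_lit 0) (cs (lf (nat_lit 41) (nat_lit 230)) (lf (nat_lit 36) (nat_lit 208)))) q11603 (by decide +kernel)
def q11617 : Q := Q.p (nat_lit 0xf00000000000000000000000000000000000000000000000000000000000000000000000000) (nat_lit 0x700000080000700000000000000000000000000000000000000000000000000000000000000000000) (nat_lit 4)
theorem c11617 : QOK q11617 := cut [] trivial (nd (nat_lit 273) (nat_lit 0) (cs (nd (nat_lit 321) (nat_lit 0) (cs (nd (nat_lit 295) (nat_lit 0) (cs (lf (nat_lit 23) (nat_lit 272)) (lf (nat_lit 4) (nat_lit 295)))) (lf (nat_lit 5) (nat_lit 296)))) (lf (nat_lit 22) (nat_lit 273)))) q11617 (by decide +kernel)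
def q11623 : Q := Q.p (nat_lit 0x1f00000000000000000000000000000000000000000000000000000000000000000000000000) (nat_lit 0xe000000000000000000000000000000000000000000000000000000000000000000000) (nat_lit 2)
theorem c11623 : QOK q11623 := cut [] trivial (nd (nat_lit 278) (nat_lit 0) (cs (lf (nat_lit 17) (nat_lit 275)) (lf (nat_lit 16) (nat_lit 274)))) q11623 (by decide +kernel)
def q11629 : Q := Q.p (nat_lit 0x700002200000000000000000000000000000000000000000000000000000000000000000000) (nat_lit 0x80001100000000000000000000000000000000000000000000000000000000000000000000) (nat_lit 2)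
theorem c11629 : QOK q11629 := cut [] trivial (nd (nat_lit 295) (nat_lit 0) (cs (lf (nat_lit 23) (nat_lit 272)) (lf (nat_lit 16) (nat_lit 273)))) q11629 (by decide +kernel)
def q11633 : Q := Q.p (nat_lit 0xf00000800000000000000000000000000000000000000000000000000000000000000000000) (nat_lit 0x1000000600000000000000000000000000000000000000000000000000000000000000000000) (nat_lit 2)
theorem c11633 : QOK q11633 := cut [] trivial (nd (nat_lit 274) (nat_lit 0) (cs (lf (nat_lit 18) (nat_lit 274)) (lf (nat_lit 23) (nat_lit 273)))) q11633 (by decide +kernel)
def q11636 : Q := Q.p (nat_lit 0xe00000c00000000000000000000000000000000000000000000000000000000000000000000) (nat_lit 0x100000300000000000000000000000000000000000000000000000000000000000000000000) (nat_lit 2)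
theorem c11636 : QOK q11636 := cut [] trivial (nd (nat_lit 273) (nat_lit 0) (cs (lf (nat_lit 21) (nat_lit 273)) (lf (nat_lit 0) (nat_lit 272)))) q11636 (by decide +kernel)
def q11641 : Q := Q.p (nat_lit 0x40000000000600000800002000000000000000000000000000000000000000000000000000000000000000) (nat_lit 0x180000000001000000000000000000000000000000000000000000000000000000000000000000000) (nat_lit 2)
theorem c11641 : QOK q11641 := cut [] trivial (nd (nat_lit 320) (nat_lit 0) (cs (lf (nat_lit 27) (nat_lit 253)) (lf (nat_lit 45) (nat_lit 253)))) q11641 (by decide +kernel)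
def q11657 : Q := Q.p (nat_lit 0x780000800000000000000000000000000000000000000000000000000000000000000000000) (nat_lit 0x40003000000000000000000000000000000000000000000000000000000000000000000000) (nat_lit 2)
theorem c11657 : QOK q11657 := cut [] trivial (nd (nat_lit 276) (nat_lit 0) (cs (lf (nat_lit 17) (nat_lit 273)) (lf (nat_lit 12) (nat_lit 272)))) q11657 (by decide +kernel)
def q11665 : Q := Q.p (nat_lit 0x380001800000000000000000000000000000000000000000000000000000000000000000000) (nat_lit 0x6400000000000000000000000000000000000000000000000000000000000000000000) (nat_lit 2)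
theorem c11665 : QOK q11665 := cut [] trivial (nd (nat_lit 277) (nat_lit 0) (cs (lf (nat_lit 9) (nat_lit 273)) (lf (nat_lit 6) (nat_lit 274)))) q11665 (by decide +kernel)
def q11700 : Q := Q.p (nat_lit 0x20000180000600000000000000000000000000000000000000000000000000000000000000000000) (nat_lit 0x2000008000000000000000000001000000000000000000000000000000000000000000000000000000000000000) (nat_lit 2)
theorem c11700 : QOK q11700 := cut [] trivial (nd (nat_lit 339) (nat_lit 0) (cs (lf (nat_lit 35) (nat_lit 251)) (lf (nat_lit 30) (nat_lit 273)))) q11700 (by decide +kernel)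
def q11706 : Q := Q.p (nat_lit 0xf00000800000000000000000000000000000000000000000000000000000000000000000000) (nat_lit 0xe00001000000400000000000000000000000000000000000000000000000000000000000000000000) (nat_lit 3)
theorem c11706 : QOK q11706 := cut [] trivial (nd (nat_lit 322) (nat_lit 0) (cs (lf (nat_lit 4) (nat_lit 296)) (nd (nat_lit 300) (nat_lit 0) (cs (lf (nat_lit 5) (nat_lit 297)) (lf (nat_lit 23) (nat_lit 274)))))) q11706 (by decide +kernel)
def q11724 : Q := Q.p (nat_lit 0x100000800002000000000030000000000000000000000000000000000000000000000000000) (nat_lit 0x400000000008000000000040000000000000000000000000000000000000000000000) (nat_lit 2)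
theorem c11724 : QOK q11724 := cut [] trivial (nd (nat_lit 231) (nat_lit 0) (cs (lf (nat_lit 40) (nat_lit 208)) (lf (nat_lit 47) (nat_lit 186)))) q11724 (by decide +kernel)
def q11727 : Q := Q.p (nat_lit 0x380001800000000000000000000000000000000000000000000000000000000000000000000) (nat_lit 0x400006000000000000000000000000000000000000000000000000000000000000000000000) (nat_lit 2)
theorem c11727 : QOK q11727 := cut [] trivial (nd (nat_lit 277) (nat_lit 0) (cs (lf (nat_lit 6) (nat_lit 274)) (lf (nat_lit 15) (nat_lit 273)))) q11727 (by decide +kernel)
def q11731 : Q := Q.p (nat_lit 0x1c0000880000000000000000000000000000000000000000000000000000000000000000000) (nat_lit 0x20000440000000000000000000000000000000000000000000000000000000000000000000) (nat_lit 2)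
theorem c11731 : QOK q11731 := cut [] trivial (nd (nat_lit 293) (nat_lit 0) (cs (lf (nat_lit 16) (nat_lit 271)) (lf (nat_lit 23) (nat_lit 270)))) q11731 (by decide +kernel)
def q11737 : Q := Q.p (nat_lit 0x3c0000800000000000000000000000000000000000000000000000000000000000000000000) (nat_lit 0x1c000020000400000000000000000000000000000000000000000000000000000000000000000000) (nat_lit 3)
theorem c11737 : QOK q11737 := cut [] trivial (nd (nat_lit 315) (nat_lit 0) (cs (nd (nat_lit 293) (nat_lit 0) (cs (lf (nat_lit 16) (nat_lit 271)) (lf (nat_lit 11) (nat_lit 292)))) (lf (nat_lit 10) (nat_lit 293)))) q11737 (by decide +kernel)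
def q11748 : Q := Q.p (nat_lit 0x3e0000000000000000000000000000000000000000000000000000000000000000000000000) (nat_lit 0x1c0000000000000000000000000000000000000000000000000000000000000000000) (nat_lit 2)
theorem c11748 : QOK q11748 := cut [] trivial (nd (nat_lit 271) (nat_lit 0) (cs (lf (nat_lit 23) (nat_lit 270)) (lf (nat_lit 22) (nat_lit 271)))) q11748 (by decide +kernel)
def q11755 : Q := Q.p (nat_lit 0xf00001800000000000000000000000000000000000000000000000000000000000000000000) (nat_lit 0xe00003000000000000000000000000000000000000000000000000000000000000000000000000000) (nat_lit 3)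
theorem c11755 : QOK q11755 := cut [] trivial (nd (nat_lit 322) (nat_lit 0) (cs (lf (nat_lit 4) (nat_lit 296)) (nd (nat_lit 300) (nat_lit 0) (cs (lf (nat_lit 18) (nat_lit 275)) (lf (nat_lit 5) (nat_lit 297)))))) q11755 (by decide +kernel)
def q11761 : Q := Q.p (nat_lit 0x60000180000400000000000000000000000000000000000000000000000000000000000000000000) (nat_lit 0x2000008000000000000000000001000000000000000000000000000000000000000000000000000000000000000) (nat_lit 2)
theorem c11761 : QOK q11761 := cut [] trivial (nd (nat_lit 339) (nat_lit 0) (cs (lf (nat_lit 30) (nat_lit 273)) (lf (nat_lit 36) (nat_lit 251)))) q11761 (by decide +kernel)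
def q11767 : Q := Q.p (nat_lit 0xe00000c00000000000000000000000000000000000000000000000000000000000000) (nat_lit 0x1300000000000000000000000000000000000000000000000000000000000000) (nat_lit 2)
theorem c11767 : QOK q11767 := cut [] trivial (nd (nat_lit 249) (nat_lit 0) (cs (lf (nat_lit 0) (nat_lit 248)) (lf (nat_lit 3) (nat_lit 249)))) q11767 (by decide +kernel)
def q11774 : Q := Q.p (nat_lit 0x400000e00004000000000000000000000000000000000000000000000000000000000000000000000) (nat_lit 0x800001000008000000000000000000000000000000000000000000000000000000000000000000000) (nat_lit 2)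
theorem c11774 : QOK q11774 := cut [] trivial (nd (nat_lit 300) (nat_lit 0) (cs (lf (nat_lit 17) (nat_lit 275)) (lf (nat_lit 5) (nat_lit 297)))) q11774 (by decide +kernel)
def q11781 : Q := Q.p (nat_lit 0x7c0000000000000000000000000000000000000000000000000000000000000000000000000) (nat_lit 0x380000000000000000000000000000000000000000000000000000000000000000000) (nat_lit 2)
theorem c11781 : QOK q11781 := cut [] trivial (nd (nat_lit 272) (nat_lit 0) (cs (lf (nat_lit 22) (nat_lit 272)) (lf (nat_lit 23) (nat_lit 271)))) q11781 (by decide +kernel)
def q11791 : Q := Q.p (nat_lit 0x380000200000800002000000000000000000000000000000000000000000000000000000000000000) (nat_lit 0x10000440000180000000000000000000000000000000000000000000000000000000000000000000000000) (nat_lit 3)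
theorem c11791 : QOK q11791 := cut [] trivial (nd (nat_lit 296) (nat_lit 0) (cs (nd (nat_lit 318) (nat_lit 0) (cs (lf (nat_lit 41) (nat_lit 252)) (lf (nat_lit 23) (nat_lit 295)))) (lf (nat_lit 18) (nat_lit 296)))) q11791 (by decide +kernel)
def q11792 : Q := Q.p (nat_lit 0x7c0000000000000000000000000000000000000000000000000000000000000000000000000000000) (nat_lit 0x380000000000000000000000000000000000000000000000000000000000000000000000000000000000000) (nat_lit 2)
theorem c11792 : QOK q11792 := cut [] trivial (nd (nat_lit 344) (nat_lit 0) (cs (lf (nat_lit 5) (nat_lit 319)) (lf (nat_lit 4) (nat_lit 318)))) q11792 (by decide +kernel)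
def q11799 : Q := Q.p (nat_lit 0x1c0000880000000000000000000000000000000000000000000000000000000000000000000000000) (nat_lit 0x20000440000000000000000000000000000000000000000000000000000000000000000000000000) (nat_lit 2)
theorem c11799 : QOK q11799 := cut [] trivial (nd (nat_lit 317) (nat_lit 0) (cs (lf (nat_lit 16) (nat_lit 295)) (lf (nat_lit 23) (nat_lit 294)))) q11799 (by decide +kernel)
def q11808 : Q := Q.p (nat_lit 0x380000300000000000000000000000000000000000000000000000000000000000000000000000000) (nat_lit 0x4c0000000000000000000000000000000000000000000000000000000000000000000000000) (nat_lit 2)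
theorem c11808 : QOK q11808 := cut [] trivial (nd (nat_lit 295) (nat_lit 0) (cs (lf (nat_lit 0) (nat_lit 294)) (lf (nat_lit 3) (nat_lit 295)))) q11808 (by decide +kernel)
def q11814 : Q := Q.p (nat_lit 0x180000300000000000000000000000000000000000000000000000000000000000000000000000000) (nat_lit 0x6400000c0000000000000000000000000000000000000000000000000000000000000000000000000) (nat_lit 3)
theorem c11814 : QOK q11814 := cut [] trivial (nd (nat_lit 295) (nat_lit 0) (cs (lf (nat_lit 0) (nat_lit 294)) (nd (nat_lit 321) (nat_lit 0) (cs (lf (nat_lit 18) (nat_lit 296)) (lf (nat_lit 21) (nat_lit 295)))))) q11814 (by decide +kernel)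
def q11816 : Q := Q.p (nat_lit 0x80000300000c00000000000000000000000000000000000000000000000000000000000000000000) (nat_lit 0x8000020000000000000000000001000000000000000000000000000000000000000000000000000000000000000) (nat_lit 2)
theorem c11816 : QOK q11816 := cut [] trivial (nd (nat_lit 341) (nat_lit 0) (cs (lf (nat_lit 47) (nat_lit 252)) (lf (nat_lit 42) (nat_lit 274)))) q11816 (by decide +kernel)
def q11821 : Q := Q.p (nat_lit 0x20000080000300000800000000000000000000000000000000000000000000000000000000000000000000) (nat_lit 0x8000000000000000000000400001000000000000000000000000000000000000000000000000000000000000000) (nat_lit 2)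
theorem c11821 : QOK q11821 := cut [] trivial (nd (nat_lit 274) (nat_lit 0) (cs (lf (nat_lit 47) (nat_lit 252)) (lf (nat_lit 42) (nat_lit 274)))) q11821 (by decide +kernel)
def q11837 : Q := Q.p (nat_lit 0x8000020000080000600000000000000000000000000000000000000000000000000000000000000000000000000) (nat_lit 0x1000006000010000000000100000000000000000000000000000000000000000000000000000000000000000000000000000000) (nat_lit 3)
theorem c11837 : QOK q11837 := cut [] trivial (nd (nat_lit 386) (nat_lit 0) (cs (nd (nat_lit 385) (nat_lit 0) (cs (lf (nat_lit 29) (nat_lit 319)) (lf (nat_lit 34) (nat_lit 297)))) (lf (nat_lit 28) (nat_lit 297)))) q11837 (by decide +kernel)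
def q11848 : Q := Q.p (nat_lit 0x40000100000200000800002000000000000000000000000000000000000000000000000000000000000000) (nat_lit 0x10000000000000000400001000000000000000000000000000000000000000000000000000000000000000000000) (nat_lit 2)
theorem c11848 : QOK q11848 := cut [] trivial (nd (nat_lit 298) (nat_lit 0) (cs (lf (nat_lit 45) (nat_lit 253)) (lf (nat_lit 42) (nat_lit 275)))) q11848 (by decide +kernel)
def q11855 : Q := Q.p (nat_lit 0x300003800000000000000000000000000000000000000000000000000000000000000) (nat_lit 0x4c0000000000000000000000000000000000000000000000000000000000000000000) (nat_lit 2)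
theorem c11855 : QOK q11855 := cut [] trivial (nd (nat_lit 271) (nat_lit 0) (cs (lf (nat_lit 12) (nat_lit 248)) (lf (nat_lit 15) (nat_lit 249)))) q11855 (by decide +kernel)
def q11867 : Q := Q.p (nat_lit 0x200000800002000008000020000000000000000000000000000000000000000000000000000) (nat_lit 0x100000400001000000000000000000000000000000000000000000000000000000000000000000000) (nat_lit 2)
theorem c11867 : QOK q11867 := cut [] trivial (nd (nat_lit 298) (nat_lit 0) (cs (lf (nat_lit 29) (nat_lit 231)) (lf (nat_lit 28) (nat_lit 209)))) q11867 (by decide +kernel)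
def q11911 : Q := Q.p (nat_lit 0x20000000000300001c000000000000000000000000000000000000000000000000000) (nat_lit 0x80000000000800000000000000040000000000000000000000000000000000000000000000) (nat_lit 2)
theorem c11911 : QOK q11911 := cut [] trivial (nd (nat_lit 251) (nat_lit 0) (cs (lf (nat_lit 35) (nat_lit 185)) (lf (nat_lit 42) (nat_lit 206)))) q11911 (by decide +kernel)
def q11918 : Q := Q.p (nat_lit 0x3e0000000000000000000000000000000000000000000000000000000000000000000) (nat_lit 0x1c000000000000000000000000000000000000000000000000000000000000000000000000) (nat_lit 2)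
theorem c11918 : QOK q11918 := cut [] trivial (nd (nat_lit 291) (nat_lit 0) (cs (lf (nat_lit 10) (nat_lit 269)) (lf (nat_lit 11) (nat_lit 268)))) q11918 (by decide +kernel)
def q11927 : Q := Q.p (nat_lit 0x40000100000400001000004000000000000000000000000000000000000000000000) (nat_lit 0x800002000008000000000000000000000000000000000000000) (nat_lit 2)
theorem c11927 : QOK q11927 := cut [] trivial (nd (nat_lit 181) (nat_lit 0) (cs (lf (nat_lit 47) (nat_lit 159)) (lf (nat_lit 46) (nat_lit 181)))) q11927 (by decide +kernel)
def q11939 : Q := Q.p (nat_lit 0x3e0000000000000000000000000000000000000000000000000000000000000000000) (nat_lit 0x1c0000000000000000000000000000000000000000000000000000000000000000000000000) (nat_lit 2)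
theorem c11939 : QOK q11939 := cut [] trivial (nd (nat_lit 295) (nat_lit 0) (cs (lf (nat_lit 4) (nat_lit 269)) (lf (nat_lit 5) (nat_lit 270)))) q11939 (by decide +kernel)
def q11943 : Q := Q.p (nat_lit 0x80001c0000080000000000000000000000000000000000000000000000000000000000000) (nat_lit 0x4000020000040000000000000000000000000000000000000000000000000000000000000) (nat_lit 2)
theorem c11943 : QOK q11943 := cut [] trivial (nd (nat_lit 269) (nat_lit 0) (cs (lf (nat_lit 11) (nat_lit 268)) (lf (nat_lit 23) (nat_lit 246)))) q11943 (by decide +kernel)
def q11958 : Q := Q.p (nat_lit 0x7c0000000000000000000000000000000000000000000000000000000000000000000) (nat_lit 0x38000000000000000000000000000000000000000000000000000000000000000000000000) (nat_lit 2)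
theorem c11958 : QOK q11958 := cut [] trivial (nd (nat_lit 292) (nat_lit 0) (cs (lf (nat_lit 11) (nat_lit 269)) (lf (nat_lit 10) (nat_lit 270)))) q11958 (by decide +kernel)
def q11979 : Q := Q.p (nat_lit 0x380002400000000000000000000000000000000000000000000000000000000000000) (nat_lit 0x400001800000000000000000000000000000000000000000000000000000000000000) (nat_lit 2)
theorem c11979 : QOK q11979 := cut [] trivial (nd (nat_lit 252) (nat_lit 0) (cs (lf (nat_lit 8) (nat_lit 249)) (lf (nat_lit 15) (nat_lit 249)))) q11979 (by decide +kernel)
def q12021 : Q := Q.p (nat_lit 0x3800018000000000000000000000000000000000000000000000000000) (nat_lit 0x64000000000000000000000000000000000000000000000000000) (nat_lit 2)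
theorem c12021 : QOK q12021 := cut [] trivial (nd (nat_lit 209) (nat_lit 0) (cs (lf (nat_lit 6) (nat_lit 206)) (lf (nat_lit 9) (nat_lit 205)))) q12021 (by decide +kernel)
def q12030 : Q := Q.p (nat_lit 0x20000080000200000800002000000000000000000000000000000000000000000000000000) (nat_lit 0x4000010000040000000000000000000000000000000000000000000000000000000000000000000) (nat_lit 2)
theorem c12030 : QOK q12030 := cut [] trivial (nd (nat_lit 292) (nat_lit 0) (cs (lf (nat_lit 41) (nat_lit 226)) (lf (nat_lit 40) (nat_lit 204)))) q12030 (by decide +kernel)
def q12039 : Q := Q.p (nat_lit 0x140000200000800002000000000000000000000000000000000000000000000000000) (nat_lit 0x50000080000000000000000000000000000000000000000000000000000000000000000000) (nat_lit 2)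
theorem c12039 : QOK q12039 := cut [] trivial (nd (nat_lit 271) (nat_lit 0) (cs (lf (nat_lit 41) (nat_lit 204)) (lf (nat_lit 29) (nat_lit 205)))) q12039 (by decide +kernel)
def q12055 : Q := Q.p (nat_lit 0x6000018000000000080000000000000000000000000000000000000000) (nat_lit 0x1000000000000000020000000000200000000000000000000000000000000000) (nat_lit 2)
theorem c12055 : QOK q12055 := cut [] trivial (nd (nat_lit 185) (nat_lit 0) (cs (lf (nat_lit 29) (nat_lit 163)) (lf (nat_lit 24) (nat_lit 141)))) q12055 (by decide +kernel)
def q12063 : Q := Q.p (nat_lit 0x20000080000000001e0000000000000000000000000000000000000000) (nat_lit 0x20000000000c00000000000000000000000000000000000) (nat_lit 2)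
theorem c12063 : QOK q12063 := cut [] trivial (nd (nat_lit 142) (nat_lit 0) (cs (lf (nat_lit 17) (nat_lit 139)) (lf (nat_lit 32) (nat_lit 141)))) q12063 (by decide +kernel)
def q12076 : Q := Q.p (nat_lit 0x200000800002000008000020000000000000000000000000000000000000000) (nat_lit 0x10000040000100000000000000000000000000000000000) (nat_lit 2)
theorem c12076 : QOK q12076 := cut [] trivial (nd (nat_lit 162) (nat_lit 0) (cs (lf (nat_lit 35) (nat_lit 139)) (lf (nat_lit 34) (nat_lit 161)))) q12076 (by decide +kernel)
def q12091 : Q := Q.p (nat_lit 0x2000008000020000080000000000000000000000000000000000) (nat_lit 0x400001000004000000000040000300000400000000000000000000000) (nat_lit 4)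
theorem c12091 : QOK q12091 := cut [] trivial (nd (nat_lit 116) (nat_lit 0) (cs (lf (nat_lit 46) (nat_lit 116)) (nd (nat_lit 204) (nat_lit 0) (cs (lf (nat_lit 41) (nat_lit 138)) (nd (nat_lit 117) (nat_lit 0) (cs (lf (nat_lit 40) (nat_lit 116)) (lf (nat_lit 47) (nat_lit 94)))))))) q12091 (by decide +kernel)
def q12112 : Q := Q.p (nat_lit 0x1c000060000000000000000000000000000000000000000) (nat_lit 0x2000180000000000000000000000000000000000000000) (nat_lit 2)
theorem c12112 : QOK q12112 := cut [] trivial (nd (nat_lit 163) (nat_lit 0) (cs (lf (nat_lit 6) (nat_lit 160)) (lf (nat_lit 12) (nat_lit 159)))) q12112 (by decide +kernel)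
def q12121 : Q := Q.p (nat_lit 0x100000800002000008000010000000000000000000000000000000000000000) (nat_lit 0x40000200000000000000004000000000000000000000000000000000000000000000) (nat_lit 2)
theorem c12121 : QOK q12121 := cut [] trivial (nd (nat_lit 249) (nat_lit 0) (cs (lf (nat_lit 41) (nat_lit 182)) (lf (nat_lit 46) (nat_lit 160)))) q12121 (by decide +kernel)
def q12129 : Q := Q.p (nat_lit 0x200000e000010000000000000000000000000000000000000000000000) (nat_lit 0x4000001800060000000000000000000000000000000000000000000000) (nat_lit 3)
theorem c12129 : QOK q12129 := cut [] trivial (nd (nat_lit 204) (nat_lit 0) (cs (lf (nat_lit 5) (nat_lit 204)) (nd (nat_lit 185) (nat_lit 0) (cs (lf (nat_lit 17) (nat_lit 182)) (lf (nat_lit 12) (nat_lit 181)))))) q12129 (by decide +kernel)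
def q12147 : Q := Q.p (nat_lit 0x3800018000000000000000000000000000000000000000000000000000) (nat_lit 0x4000060000000000000000000000000000000000000000000000000000) (nat_lit 2)
theorem c12147 : QOK q12147 := cut [] trivial (nd (nat_lit 209) (nat_lit 0) (cs (lf (nat_lit 6) (nat_lit 206)) (lf (nat_lit 15) (nat_lit 205)))) q12147 (by decide +kernel)
def q12154 : Q := Q.p (nat_lit 0x100000400001800002000000000000000000000000000000000000000000000000000) (nat_lit 0x4000008000020000000000000000000000000000000000000000) (nat_lit 2)
theorem c12154 : QOK q12154 := cut [] trivial (nd (nat_lit 183) (nat_lit 0) (cs (lf (nat_lit 45) (nat_lit 183)) (lf (nat_lit 24) (nat_lit 161)))) q12154 (by decide +kernel)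
def q12189 : Q := Q.p (nat_lit 0x800002000008000010000000000000000000000000000000000000000000000) (nat_lit 0x1000004000020000040000100000000000000000000000000000000000) (nat_lit 3)
theorem c12189 : QOK q12189 := cut [] trivial (nd (nat_lit 162) (nat_lit 0) (cs (lf (nat_lit 45) (nat_lit 162)) (nd (nat_lit 206) (nat_lit 0) (cs (lf (nat_lit 27) (nat_lit 162)) (lf (nat_lit 24) (nat_lit 140)))))) q12189 (by decide +kernel)
def q12193 : Q := Q.p (nat_lit 0x80000380000c000000000000000000000000000000000000000000000000000000000) (nat_lit 0x1000000600000000000000000000000000000000000000000000000000000000000000) (nat_lit 2)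
theorem c12193 : QOK q12193 := cut [] trivial (nd (nat_lit 250) (nat_lit 0) (cs (lf (nat_lit 5) (nat_lit 250)) (lf (nat_lit 12) (nat_lit 227)))) q12193 (by decide +kernel)
def q12194 : Q := Q.p (nat_lit 0x80000200000e000030000000000000000000000000000000000000000000000000000) (nat_lit 0xc0000100000000000000000000000000000000000000000000000) (nat_lit 2)
theorem c12194 : QOK q12194 := cut [] trivial (nd (nat_lit 210) (nat_lit 0) (cs (lf (nat_lit 6) (nat_lit 207)) (lf (nat_lit 35) (nat_lit 187)))) q12194 (by decide +kernel)
def q12206 : Q := Q.p (nat_lit 0x800002000018000040000000000000000000000000000000000000000000000000000) (nat_lit 0x20000100000400000000000000000000000000000000000000000) (nat_lit 2)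
theorem c12206 : QOK q12206 := cut [] trivial (nd (nat_lit 188) (nat_lit 0) (cs (lf (nat_lit 36) (nat_lit 165)) (lf (nat_lit 33) (nat_lit 187)))) q12206 (by decide +kernel)
def q12220 : Q := Q.p (nat_lit 0x1c0000c0000000000000000000000000000000000000000000000000000) (nat_lit 0x320000000000000000000000000000000000000000000000000000) (nat_lit 2)
theorem c12220 : QOK q12220 := cut [] trivial (nd (nat_lit 212) (nat_lit 0) (cs (lf (nat_lit 6) (nat_lit 209)) (lf (nat_lit 9) (nat_lit 208)))) q12220 (by decide +kernel)
def q12240 : Q := Q.p (nat_lit 0x2800003000018000000000000000000000000000000000000000000000000000) (nat_lit 0x1400004c00000000000000000000000000000000000000000000000000000000) (nat_lit 3)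
theorem c12240 : QOK q12240 := cut [] trivial (nd (nat_lit 227) (nat_lit 0) (cs (lf (nat_lit 12) (nat_lit 204)) (nd (nat_lit 252) (nat_lit 0) (cs (lf (nat_lit 3) (nat_lit 227)) (lf (nat_lit 21) (nat_lit 227)))))) q12240 (by decide +kernel)
def q12242 : Q := Q.p (nat_lit 0x80000300000c000000000000000000000000000000000000000000000000000) (nat_lit 0x200000000000000000000010000040000000000000000000000000000000000000000) (nat_lit 2)
theorem c12242 : QOK q12242 := cut [] trivial (nd (nat_lit 184) (nat_lit 0) (cs (lf (nat_lit 42) (nat_lit 184)) (lf (nat_lit 24) (nat_lit 162)))) q12242 (by decide +kernel)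
def q12282 : Q := Q.p (nat_lit 0x80000600001c000000000000000000000000000000000000000000000000000) (nat_lit 0x80000200000000000000000000010000000000000000000000000000000000000000000000) (nat_lit 2)
theorem c12282 : QOK q12282 := cut [] trivial (nd (nat_lit 273) (nat_lit 0) (cs (lf (nat_lit 30) (nat_lit 207)) (lf (nat_lit 47) (nat_lit 184)))) q12282 (by decide +kernel)
def q12289 : Q := Q.p (nat_lit 0x800000000006000018000020000080000000000000000000000000000000000000000) (nat_lit 0x180001700000c00001000000000000000000000000000000000000000000000000000000000) (nat_lit 5)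
theorem c12289 : QOK q12289 := cut [] trivial (nd (nat_lit 250) (nat_lit 0) (cs (lf (nat_lit 40) (nat_lit 162)) (nd (nat_lit 251) (nat_lit 0) (cs (lf (nat_lit 41) (nat_lit 184)) (nd (nat_lit 273) (nat_lit 0) (cs (lf (nat_lit 30) (nat_lit 207)) (nd (nat_lit 274) (nat_lit 0) (cs (lf (nat_lit 29) (nat_lit 207)) (lf (nat_lit 18) (nat_lit 250)))))))))) q12289 (by decide +kernel)
def q12295 : Q := Q.p (nat_lit 0x3e0000000000000000000000000000000000000000) (nat_lit 0x1c00000000000000000000000000000000000) (nat_lit 2)
theorem c12295 : QOK q12295 := cut [] trivial (nd (nat_lit 143) (nat_lit 0) (cs (lf (nat_lit 16) (nat_lit 139)) (lf (nat_lit 17) (nat_lit 140)))) q12295 (by decide +kernel)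
def q12325 : Q := Q.p (nat_lit 0x600001c000020000080000000000000000000000000000000000000000) (nat_lit 0x700001c00000000010000040000100000000000000000000000000000000000) (nat_lit 5)
theorem c12325 : QOK q12325 := cut [] trivial (nd (nat_lit 228) (nat_lit 0) (cs (lf (nat_lit 41) (nat_lit 162)) (nd (nat_lit 227) (nat_lit 0) (cs (lf (nat_lit 12) (nat_lit 204)) (nd (nat_lit 162) (nat_lit 0) (cs (lf (nat_lit 47) (nat_lit 140)) (nd (nat_lit 249) (nat_lit 0) (cs (lf (nat_lit 11) (nat_lit 226)) (lf (nat_lit 37) (nat_lit 161)))))))))) q12325 (by decide +kernel)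
def q12330 : Q := Q.p (nat_lit 0x1c0000180000000000000000000000000000000000) (nat_lit 0x20000060000000000000000000000000000000000) (nat_lit 2)
theorem c12330 : QOK q12330 := cut [] trivial (nd (nat_lit 138) (nat_lit 0) (cs (lf (nat_lit 0) (nat_lit 137)) (lf (nat_lit 21) (nat_lit 138)))) q12330 (by decide +kernel)
def q12356 : Q := Q.p (nat_lit 0x1c0000180000000000000000000000000000000000) (nat_lit 0x260000000000000000000000000000000000) (nat_lit 2)
theorem c12356 : QOK q12356 := cut [] trivial (nd (nat_lit 138) (nat_lit 0) (cs (lf (nat_lit 0) (nat_lit 137)) (lf (nat_lit 3) (nat_lit 138)))) q12356 (by decide +kernel)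
def q12361 : Q := Q.p (nat_lit 0x1f0000000000000000000000000000000000000000) (nat_lit 0xe00000000000000000000000000000000000) (nat_lit 2)
theorem c12361 : QOK q12361 := cut [] trivial (nd (nat_lit 142) (nat_lit 0) (cs (lf (nat_lit 16) (nat_lit 138)) (lf (nat_lit 17) (nat_lit 139)))) q12361 (by decide +kernel)
def q12366 : Q := Q.p (nat_lit 0x180001c0000000000000000000000000000000000000000) (nat_lit 0x6000020000000000000000000000000000000000000000) (nat_lit 2)
theorem c12366 : QOK q12366 := cut [] trivial (nd (nat_lit 182) (nat_lit 0) (cs (lf (nat_lit 12) (nat_lit 159)) (lf (nat_lit 9) (nat_lit 160)))) q12366 (by decide +kernel)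
def q12395 : Q := Q.p (nat_lit 0x40000100000c0000200000000000000000000000000000000000) (nat_lit 0x100000800002000000000000000000000000) (nat_lit 2)
theorem c12395 : QOK q12395 := cut [] trivial (nd (nat_lit 119) (nat_lit 0) (cs (lf (nat_lit 36) (nat_lit 96)) (lf (nat_lit 33) (nat_lit 118)))) q12395 (by decide +kernel)
def q12442 : Q := Q.p (nat_lit 0x100000c00001000008000000000000000000000000000000000000000000000000000) (nat_lit 0x40000000000000002000000000020000000000000000000000000000000000000000000000) (nat_lit 2)
theorem c12442 : QOK q12442 := cut [] trivial (nd (nat_lit 229) (nat_lit 0) (cs (lf (nat_lit 36) (nat_lit 184)) (lf (nat_lit 30) (nat_lit 206)))) q12442 (by decide +kernel)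
def q12458 : Q := Q.p (nat_lit 0x40000e000018000000000000000000000000000000000000000000000000000) (nat_lit 0x800030000000000000000000000000000000000000000000000000000000000) (nat_lit 2)
theorem c12458 : QOK q12458 := cut [] trivial (nd (nat_lit 232) (nat_lit 0) (cs (lf (nat_lit 18) (nat_lit 207)) (lf (nat_lit 10) (nat_lit 228)))) q12458 (by decide +kernel)
def q12472 : Q := Q.p (nat_lit 0x200000c000010000040000000000000000000000000000000000000000) (nat_lit 0x200000800000000000000020000000000000000000000000000000000000000000000) (nat_lit 2)
theorem c12472 : QOK q12472 := cut [] trivial (nd (nat_lit 251) (nat_lit 0) (cs (lf (nat_lit 42) (nat_lit 184)) (lf (nat_lit 45) (nat_lit 162)))) q12472 (by decide +kernel)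
def q12494 : Q := Q.p (nat_lit 0x2000008000020000080000200000000000000000000000000000000000) (nat_lit 0x100000400001000000000000000000000000000000) (nat_lit 2)
theorem c12494 : QOK q12494 := cut [] trivial (nd (nat_lit 142) (nat_lit 0) (cs (lf (nat_lit 34) (nat_lit 141)) (lf (nat_lit 35) (nat_lit 119)))) q12494 (by decide +kernel)
def q12508 : Q := Q.p (nat_lit 0x2000008000078000000000000000000000000000000000000000000000000000) (nat_lit 0x800000000000000000000300000000000000000000000000000000000000000000000) (nat_lit 2)
theorem c12508 : QOK q12508 := cut [] trivial (nd (nat_lit 188) (nat_lit 0) (cs (lf (nat_lit 17) (nat_lit 185)) (lf (nat_lit 30) (nat_lit 187)))) q12508 (by decide +kernel)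
def q12539 : Q := Q.p (nat_lit 0x680001c000000000000000000000000000000000000000000000000000) (nat_lit 0x400003000000000000000000000000000000000000000000000000000) (nat_lit 2)
theorem c12539 : QOK q12539 := cut [] trivial (nd (nat_lit 205) (nat_lit 0) (cs (lf (nat_lit 11) (nat_lit 204)) (lf (nat_lit 0) (nat_lit 204)))) q12539 (by decide +kernel)
def q12588 : Q := Q.p (nat_lit 0x3c00001000004000010000000000000000000000000000000000000000000000) (nat_lit 0x180000200000000000000000000000000000000000000000000000000000000000000) (nat_lit 2)
theorem c12588 : QOK q12588 := cut [] trivial (nd (nat_lit 271) (nat_lit 0) (cs (lf (nat_lit 10) (nat_lit 249)) (lf (nat_lit 40) (nat_lit 183)))) q12588 (by decide +kernel)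
def q12620 : Q := Q.p (nat_lit 0x60000380000000000000000000000000000000000) (nat_lit 0x10000c00000000000000000000000000000000000) (nat_lit 2)
theorem c12620 : QOK q12620 := cut [] trivial (nd (nat_lit 142) (nat_lit 0) (cs (lf (nat_lit 6) (nat_lit 139)) (lf (nat_lit 11) (nat_lit 138)))) q12620 (by decide +kernel)
def q12635 : Q := Q.p (nat_lit 0x1c000030000000000000000000000000000000000000000000000) (nat_lit 0x2000000c000000000000000000000000000000000000000000000) (nat_lit 2)
theorem c12635 : QOK q12635 := cut [] trivial (nd (nat_lit 183) (nat_lit 0) (cs (lf (nat_lit 18) (nat_lit 183)) (lf (nat_lit 0) (nat_lit 182)))) q12635 (by decide +kernel)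
def q12648 : Q := Q.p (nat_lit 0x400000800002000008000040000000000000000000000000000000000000000000000000000) (nat_lit 0x1000000000000000020000100000000000000000000000000000000000000000000000) (nat_lit 2)
theorem c12648 : QOK q12648 := cut [] trivial (nd (nat_lit 209) (nat_lit 0) (cs (lf (nat_lit 35) (nat_lit 187)) (lf (nat_lit 28) (nat_lit 209)))) q12648 (by decide +kernel)
def q12652 : Q := Q.p (nat_lit 0xc00003000000000010000000000000000000000000000000000000000000000000000) (nat_lit 0x200000000000000004000000000040000000000000000000000000000000000000000000000) (nat_lit 2)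
theorem c12652 : QOK q12652 := cut [] trivial (nd (nat_lit 230) (nat_lit 0) (cs (lf (nat_lit 29) (nat_lit 208)) (lf (nat_lit 24) (nat_lit 186)))) q12652 (by decide +kernel)
def q12654 : Q := Q.p (nat_lit 0x80000200000800002000008000000000000000000000000000000000000000000000000000) (nat_lit 0x1000004000010000000000000000000000000000000000000000000000) (nat_lit 2)
theorem c12654 : QOK q12654 := cut [] trivial (nd (nat_lit 206) (nat_lit 0) (cs (lf (nat_lit 47) (nat_lit 184)) (lf (nat_lit 46) (nat_lit 206)))) q12654 (by decide +kernel)
def q12664 : Q := Q.p (nat_lit 0x40000e00003000000000000000000000000000000000000000000000000000000000000000) (nat_lit 0x20000180000000000000000000000000000000000000000000000000000000000000000000) (nat_lit 2)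
theorem c12664 : QOK q12664 := cut [] trivial (nd (nat_lit 272) (nat_lit 0) (cs (lf (nat_lit 12) (nat_lit 249)) (lf (nat_lit 11) (nat_lit 271)))) q12664 (by decide +kernel)
def q12673 : Q := Q.p (nat_lit 0xf00000000000000000000000000000000000000000000000000000000000000000000) (nat_lit 0x70000080000700000000000000000000000000000000000000000000000000000000000000) (nat_lit 4)
theorem c12673 : QOK q12673 := cut [] trivial (nd (nat_lit 249) (nat_lit 0) (cs (lf (nat_lit 22) (nat_lit 249)) (nd (nat_lit 293) (nat_lit 0) (cs (lf (nat_lit 10) (nat_lit 271)) (nd (nat_lit 271) (nat_lit 0) (cs (lf (nat_lit 11) (nat_lit 270)) (lf (nat_lit 23) (nat_lit 248)))))))) q12673 (by decide +kernel)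
def q12676 : Q := Q.p (nat_lit 0xf00000000000000000000000000000000000000000000000000000000000000000000) (nat_lit 0x700000080000700000000000000000000000000000000000000000000000000000000000000) (nat_lit 4)
theorem c12676 : QOK q12676 := cut [] trivial (nd (nat_lit 249) (nat_lit 0) (cs (lf (nat_lit 22) (nat_lit 249)) (nd (nat_lit 297) (nat_lit 0) (cs (lf (nat_lit 5) (nat_lit 272)) (nd (nat_lit 271) (nat_lit 0) (cs (lf (nat_lit 4) (nat_lit 271)) (lf (nat_lit 23) (nat_lit 248)))))))) q12676 (by decide +kernel)
def q12678 : Q := Q.p (nat_lit 0x40000300000c00000000000000000000000000000000000000000000000000000000000000) (nat_lit 0x10000000000000000000002000008000000000000000000000000000000000000000000000000000) (nat_lit 2)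
theorem c12678 : QOK q12678 := cut [] trivial (nd (nat_lit 229) (nat_lit 0) (cs (lf (nat_lit 30) (nat_lit 228)) (lf (nat_lit 36) (nat_lit 206)))) q12678 (by decide +kernel)
def q12684 : Q := Q.p (nat_lit 0x3e00000000000000000000000000000000000000000000000000000000000000000000) (nat_lit 0x1c00000000000000000000000000000000000000000000000000000000000000000000000000) (nat_lit 2)
theorem c12684 : QOK q12684 := cut [] trivial (nd (nat_lit 299) (nat_lit 0) (cs (lf (nat_lit 5) (nat_lit 274)) (lf (nat_lit 4) (nat_lit 273)))) q12684 (by decide +kernel)
def q12686 : Q := Q.p (nat_lit 0x80000200000800002000010000000000000000000000000000000000000000000000000000) (nat_lit 0x100000c000050000000000000000000000000000000000000000000000) (nat_lit 3)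
theorem c12686 : QOK q12686 := cut [] trivial (nd (nat_lit 206) (nat_lit 0) (cs (lf (nat_lit 46) (nat_lit 206)) (nd (nat_lit 207) (nat_lit 0) (cs (lf (nat_lit 47) (nat_lit 184)) (lf (nat_lit 35) (nat_lit 185)))))) q12686 (by decide +kernel)
def q12695 : Q := Q.p (nat_lit 0x30000180000c00000000000000000000000000000000000000000000000000000000000000000000) (nat_lit 0x8000660000000000000000000000000000000000000000000000000000000000000000000000000) (nat_lit 3)
theorem c12695 : QOK q12695 := cut [] trivial (nd (nat_lit 294) (nat_lit 0) (cs (nd (nat_lit 297) (nat_lit 0) (cs (lf (nat_lit 11) (nat_lit 293)) (lf (nat_lit 6) (nat_lit 294)))) (lf (nat_lit 12) (nat_lit 271)))) q12695 (by decide +kernel)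
def q12705 : Q := Q.p (nat_lit 0x2000008000020000080000200000000000000000000000000000000000000000000000000000000000000000000) (nat_lit 0x1000004000010000000000000000000000000000000000000000000000000000000000000000000000000000000000000) (nat_lit 2)
theorem c12705 : QOK q12705 := cut [] trivial (nd (nat_lit 362) (nat_lit 0) (cs (lf (nat_lit 29) (nat_lit 295)) (lf (nat_lit 28) (nat_lit 273)))) q12705 (by decide +kernel)
def q12714 : Q := Q.p (nat_lit 0x38000080000c00000000000000000000000000000000000000000000000000000000000000000000) (nat_lit 0x4000360000000000000000000000000000000000000000000000000000000000000000000000000) (nat_lit 3)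
theorem c12714 : QOK q12714 := cut [] trivial (nd (nat_lit 296) (nat_lit 0) (cs (nd (nat_lit 294) (nat_lit 0) (cs (lf (nat_lit 12) (nat_lit 271)) (lf (nat_lit 6) (nat_lit 293)))) (lf (nat_lit 12) (nat_lit 292)))) q12714 (by decide +kernel)
def q12717 : Q := Q.p (nat_lit 0xa0000e00000000000000000000000000000000000000000000000000000000000000000000) (nat_lit 0x150000000000000000000000000000000000000000000000000000000000000000000000000) (nat_lit 2)
theorem c12717 : QOK q12717 := cut [] trivial (nd (nat_lit 294) (nat_lit 0) (cs (lf (nat_lit 15) (nat_lit 271)) (lf (nat_lit 12) (nat_lit 270)))) q12717 (by decide +kernel)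
def q12719 : Q := Q.p (nat_lit 0xf0000200000800002000000000000000000000000000000000000000000000000000000000000000) (nat_lit 0x60000100000000000000000000000000000000000000000000000000000000000000000000000000000000) (nat_lit 2)
theorem c12719 : QOK q12719 := cut [] trivial (nd (nat_lit 342) (nat_lit 0) (cs (lf (nat_lit 28) (nat_lit 253)) (lf (nat_lit 4) (nat_lit 316)))) q12719 (by decide +kernel)
def q12728 : Q := Q.p (nat_lit 0x38000180000000000000000000000000000000000000000000000000000000000000000000000000) (nat_lit 0x40000600000000000000000000000000000000000000000000000000000000000000000000000000) (nat_lit 2)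
theorem c12728 : QOK q12728 := cut [] trivial (nd (nat_lit 297) (nat_lit 0) (cs (lf (nat_lit 6) (nat_lit 294)) (lf (nat_lit 15) (nat_lit 293)))) q12728 (by decide +kernel)
def q12743 : Q := Q.p (nat_lit 0x3c000010000000000000000000000000000000000000000000000000000000000000000000000000) (nat_lit 0x800003800040000000000040000100000000000000000000000000000000000000000000000000000000000000) (nat_lit 4)
theorem c12743 : QOK q12743 := cut [] trivial (nd (nat_lit 336) (nat_lit 0) (cs (nd (nat_lit 337) (nat_lit 0) (cs (nd (nat_lit 270) (nat_lit 0) (cs (lf (nat_lit 29) (nat_lit 270)) (lf (nat_lit 24) (nat_lit 248)))) (lf (nat_lit 6) (nat_lit 314)))) (lf (nat_lit 11) (nat_lit 313)))) q12743 (by decide +kernel)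
def q12751 : Q := Q.p (nat_lit 0x38000030000000000000000000000000000000000000000000000000000000000000000000000000) (nat_lit 0x400000c000000000000000000000000000000000000000000000000000000000000000000000000) (nat_lit 2)
theorem c12751 : QOK q12751 := cut [] trivial (nd (nat_lit 291) (nat_lit 0) (cs (lf (nat_lit 21) (nat_lit 291)) (lf (nat_lit 0) (nat_lit 290)))) q12751 (by decide +kernel)
def q12761 : Q := Q.p (nat_lit 0x2000008000020000080000200000000000000000000000000000000000000000000000000000000000000000000) (nat_lit 0x400001000004000000000000000000000000000000000000000000000000000000000000000000000000000000000000) (nat_lit 2)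
theorem c12761 : QOK q12761 := cut [] trivial (nd (nat_lit 360) (nat_lit 0) (cs (lf (nat_lit 41) (nat_lit 294)) (lf (nat_lit 40) (nat_lit 272)))) q12761 (by decide +kernel)
def q12767 : Q := Q.p (nat_lit 0xe00000c0000600000000000000000000000000000000000000000000000000000000000000000000) (nat_lit 0x10000030000000000000000000000000000000000000000000000000000000000000000000000000) (nat_lit 2)
theorem c12767 : QOK q12767 := cut [] trivial (nd (nat_lit 293) (nat_lit 0) (cs (lf (nat_lit 12) (nat_lit 270)) (lf (nat_lit 21) (nat_lit 293)))) q12767 (by decide +kernel)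
def q12772 : Q := Q.p (nat_lit 0xf0000300000400000000000000000000000000000000000000000000000000000000000000000000) (nat_lit 0x8000060000000000000000000000000000000000000000000000000000000000000000000000000000000000000) (nat_lit 2)
theorem c12772 : QOK q12772 := cut [] trivial (nd (nat_lit 341) (nat_lit 0) (cs (lf (nat_lit 42) (nat_lit 274)) (lf (nat_lit 5) (nat_lit 316)))) q12772 (by decide +kernel)
def q12777 : Q := Q.p (nat_lit 0x5000008000020000080000000000000000000000000000000000000000000000000000000000000000000000000000000) (nat_lit 0x1400002000000000000000000000000000000000000000000000000000000000000000000000000000000000000000000000000) (nat_lit 2)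
theorem c12777 : QOK q12777 := cut [] trivial (nd (nat_lit 385) (nat_lit 0) (cs (lf (nat_lit 29) (nat_lit 319)) (lf (nat_lit 41) (nat_lit 318)))) q12777 (by decide +kernel)
def q12799 : Q := Q.p (nat_lit 0x1e0000000000800002000000000000000000000000000000000000000000000000000000000000000) (nat_lit 0xc0000000000200000000000000000000000000000000000000000000000000000000000000000000000000) (nat_lit 2)
theorem c12799 : QOK q12799 := cut [] trivial (nd (nat_lit 342) (nat_lit 0) (cs (lf (nat_lit 5) (nat_lit 317)) (lf (nat_lit 26) (nat_lit 253)))) q12799 (by decide +kernel)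
def q12801 : Q := Q.p (nat_lit 0x3e0000000000000000000000000000000000000000000000000000000000000000000000000000000) (nat_lit 0x1c00000000000000000000000000000000000000000000000000000000000000000000000000) (nat_lit 2)
theorem c12801 : QOK q12801 := cut [] trivial (nd (nat_lit 299) (nat_lit 0) (cs (lf (nat_lit 17) (nat_lit 296)) (lf (nat_lit 16) (nat_lit 295)))) q12801 (by decide +kernel)
def q12806 : Q := Q.p (nat_lit 0x14000020000080000200000000000000000000000000000000000000000000000000000000000000000000) (nat_lit 0x5000008000000000000000000000000000000000000000000000000000000000000000000000000000000000000) (nat_lit 2)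
theorem c12806 : QOK q12806 := cut [] trivial (nd (nat_lit 339) (nat_lit 0) (cs (lf (nat_lit 41) (nat_lit 272)) (lf (nat_lit 29) (nat_lit 273)))) q12806 (by decide +kernel)
def q12811 : Q := Q.p (nat_lit 0x600000800002000010000000000000000000000000000000000000000000000000000) (nat_lit 0x100000000000000000000008000040000000000000000000000000000000000000000000000) (nat_lit 2)
theorem c12811 : QOK q12811 := cut [] trivial (nd (nat_lit 207) (nat_lit 0) (cs (lf (nat_lit 29) (nat_lit 207)) (lf (nat_lit 35) (nat_lit 185)))) q12811 (by decide +kernel)
def q12823 : Q := Q.p (nat_lit 0xf800000000000000000000000000000000000000000000000000000000000000000000) (nat_lit 0x7000000000000000000000000000000000000000000000000000000000000000000000000000) (nat_lit 2)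
theorem c12823 : QOK q12823 := cut [] trivial (nd (nat_lit 301) (nat_lit 0) (cs (lf (nat_lit 5) (nat_lit 276)) (lf (nat_lit 4) (nat_lit 275)))) q12823 (by decide +kernel)
def q12839 : Q := Q.p (nat_lit 0x80000300000c00002000000000000000000000000000000000000000000000000000000000000000) (nat_lit 0xc000030000040000000000000000000000000000000000000000000000000000000000000000000000000000000) (nat_lit 3)
theorem c12839 : QOK q12839 := cut [] trivial (nd (nat_lit 341) (nat_lit 0) (cs (lf (nat_lit 42) (nat_lit 274)) (nd (nat_lit 340) (nat_lit 0) (cs (lf (nat_lit 41) (nat_lit 274)) (lf (nat_lit 31) (nat_lit 252)))))) q12839 (by decide +kernel)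
def q12842 : Q := Q.p (nat_lit 0x1c0000300000000000000000000000000000000000000000000000000000000000000000000000000) (nat_lit 0x600000080000000000000000000000000000000000000000000000000000000000000000000000000) (nat_lit 2)
theorem c12842 : QOK q12842 := cut [] trivial (nd (nat_lit 321) (nat_lit 0) (cs (lf (nat_lit 23) (nat_lit 295)) (lf (nat_lit 18) (nat_lit 296)))) q12842 (by decide +kernel)
def q12846 : Q := Q.p (nat_lit 0x1c0001300000000000000000000000000000000000000000000000000000000000000000000000000) (nat_lit 0x600000800000000000000000000000000000000000000000000000000000000000000000000000000) (nat_lit 2)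
theorem c12846 : QOK q12846 := cut [] trivial (nd (nat_lit 321) (nat_lit 0) (cs (lf (nat_lit 18) (nat_lit 296)) (lf (nat_lit 16) (nat_lit 296)))) q12846 (by decide +kernel)
def q12851 : Q := Q.p (nat_lit 0x1300000e00000000000000000000000000000000000000000000000000000000000000000000) (nat_lit 0x800007180000e00000000000000000000000000000000000000000000000000000000000000) (nat_lit 5)
theorem c12851 : QOK q12851 := cut [] trivial (nd (nat_lit 272) (nat_lit 0) (cs (lf (nat_lit 0) (nat_lit 271)) (nd (nat_lit 250) (nat_lit 0) (cs (lf (nat_lit 23) (nat_lit 249)) (nd (nat_lit 276) (nat_lit 0) (cs (lf (nat_lit 22) (nat_lit 250)) (nd (nat_lit 277) (nat_lit 0) (cs (lf (nat_lit 6) (nat_lit 274)) (lf (nat_lit 4) (nat_lit 274)))))))))) q12851 (by decide +kernel)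
def q12856 : Q := Q.p (nat_lit 0x400001000006000000000000000000000000000000000000000000000000000000000000000000000) (nat_lit 0x100000000000000000000018000020000080000000000000000000000000000000000000000000000000000) (nat_lit 3)
theorem c12856 : QOK q12856 := cut [] trivial (nd (nat_lit 255) (nat_lit 0) (cs (nd (nat_lit 233) (nat_lit 0) (cs (lf (nat_lit 45) (nat_lit 233)) (lf (nat_lit 24) (nat_lit 211)))) (lf (nat_lit 42) (nat_lit 255)))) q12856 (by decide +kernel)
def q12865 : Q := Q.p (nat_lit 0x100000400001000004000000000000000000000000000000000000000000000000000000000000000000000) (nat_lit 0x8000060000080000000002000008000020000000000000000000000000000000000000000000000000000000000000000) (nat_lit 4)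
theorem c12865 : QOK q12865 := cut [] trivial (nd (nat_lit 365) (nat_lit 0) (cs (nd (nat_lit 279) (nat_lit 0) (cs (nd (nat_lit 366) (nat_lit 0) (cs (lf (nat_lit 34) (nat_lit 278)) (lf (nat_lit 41) (nat_lit 299)))) (lf (nat_lit 35) (nat_lit 256)))) (lf (nat_lit 40) (nat_lit 277)))) q12865 (by decide +kernel)
def q12867 : Q := Q.p (nat_lit 0x300000e00000400000000000000000000000000000000000000000000000000000000000000) (nat_lit 0x180000200000000000000000000000000000000000000000000000000000000000000) (nat_lit 2)
theorem c12867 : QOK q12867 := cut [] trivial (nd (nat_lit 272) (nat_lit 0) (cs (lf (nat_lit 23) (nat_lit 249)) (lf (nat_lit 0) (nat_lit 271)))) q12867 (by decide +kernel)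
def q12873 : Q := Q.p (nat_lit 0x400001000004000010000040000000000000000000000000000000000000000000000000000000000) (nat_lit 0x8000020000080000000000000000000000000000000000000000000000000000) (nat_lit 2)
theorem c12873 : QOK q12873 := cut [] trivial (nd (nat_lit 233) (nat_lit 0) (cs (lf (nat_lit 47) (nat_lit 211)) (lf (nat_lit 46) (nat_lit 233)))) q12873 (by decide +kernel)
def q12886 : Q := Q.p (nat_lit 0x300000c00001000004000000000000000000000000000000000000000000000000000000000000000000000) (nat_lit 0x18000060000080000000002000008000000000000000000000000000000000000000000000000000000000000000000000) (nat_lit 4)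
theorem c12886 : QOK q12886 := cut [] trivial (nd (nat_lit 365) (nat_lit 0) (cs (lf (nat_lit 40) (nat_lit 277)) (nd (nat_lit 366) (nat_lit 0) (cs (lf (nat_lit 41) (nat_lit 299)) (nd (nat_lit 301) (nat_lit 0) (cs (lf (nat_lit 30) (nat_lit 300)) (lf (nat_lit 36) (nat_lit 278)))))))) q12886 (by decide +kernel)
def q12900 : Q := Q.p (nat_lit 0x80000300000c00000000000000000000000000000000000000000000000000000000000000) (nat_lit 0x20000000000000000000001000004000000000000000000000000000000000000000000000000000) (nat_lit 2)
theorem c12900 : QOK q12900 := cut [] trivial (nd (nat_lit 228) (nat_lit 0) (cs (lf (nat_lit 42) (nat_lit 228)) (lf (nat_lit 24) (nat_lit 206)))) q12900 (by decide +kernel)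
def q12910 : Q := Q.p (nat_lit 0x300000300000600000000000000000000000000000000000000000000000000000000000000000000) (nat_lit 0xc80000000000000000000000000000000000000000000000000000000000000000000000000) (nat_lit 2)
theorem c12910 : QOK q12910 := cut [] trivial (nd (nat_lit 298) (nat_lit 0) (cs (lf (nat_lit 18) (nat_lit 273)) (lf (nat_lit 0) (nat_lit 295)))) q12910 (by decide +kernel)
def q12919 : Q := Q.p (nat_lit 0x20000080000600000400000000000000000000000000000000000000000000000000000000000000000000) (nat_lit 0x8000000000000000100001000000000000000000000000000000000000000000000000000000000000000000000) (nat_lit 2)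
theorem c12919 : QOK q12919 := cut [] trivial (nd (nat_lit 363) (nat_lit 0) (cs (lf (nat_lit 46) (nat_lit 274)) (lf (nat_lit 35) (nat_lit 275)))) q12919 (by decide +kernel)
def q12922 : Q := Q.p (nat_lit 0x600000e00000000000000000000000000000000000000000000000000000000000000000000) (nat_lit 0x1900000000000000000000000000000000000000000000000000000000000000000000000000) (nat_lit 2)
theorem c12922 : QOK q12922 := cut [] trivial (nd (nat_lit 299) (nat_lit 0) (cs (lf (nat_lit 21) (nat_lit 273)) (lf (nat_lit 18) (nat_lit 274)))) q12922 (by decide +kernel)
def q12924 : Q := Q.p (nat_lit 0xa00000e00000000000000000000000000000000000000000000000000000000000000000000) (nat_lit 0x500001000000000000000000000000000000000000000000000000000000000000000000000) (nat_lit 2)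
theorem c12924 : QOK q12924 := cut [] trivial (nd (nat_lit 298) (nat_lit 0) (cs (lf (nat_lit 21) (nat_lit 273)) (lf (nat_lit 3) (nat_lit 273)))) q12924 (by decide +kernel)
def q12926 : Q := Q.p (nat_lit 0x1c0000a00000000000000000000000000000000000000000000000000000000000000000000000000) (nat_lit 0x600001180000000000000000000000000000000000000000000000000000000000000000000000000) (nat_lit 3)
theorem c12926 : QOK q12926 := cut [] trivial (nd (nat_lit 321) (nat_lit 0) (cs (lf (nat_lit 17) (nat_lit 296)) (nd (nat_lit 296) (nat_lit 0) (cs (lf (nat_lit 23) (nat_lit 295)) (lf (nat_lit 18) (nat_lit 296)))))) q12926 (by decide +kernel)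
def q12944 : Q := Q.p (nat_lit 0xf00000000000000000000000000000000000000000000000000000000000000000000) (nat_lit 0xee0001000000000000000000000000000000000000000000000000000000000000000000000) (nat_lit 4)
theorem c12944 : QOK q12944 := cut [] trivial (nd (nat_lit 298) (nat_lit 0) (cs (lf (nat_lit 4) (nat_lit 272)) (nd (nat_lit 294) (nat_lit 0) (cs (lf (nat_lit 11) (nat_lit 271)) (nd (nat_lit 276) (nat_lit 0) (cs (lf (nat_lit 10) (nat_lit 272)) (lf (nat_lit 5) (nat_lit 273)))))))) q12944 (by decide +kernel)
def q12946 : Q := Q.p (nat_lit 0xe00000c00000000000000000000000000000000000000000000000000000000000000) (nat_lit 0x100000300000000000000000000000000000000000000000000000000000000000000) (nat_lit 2)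
theorem c12946 : QOK q12946 := cut [] trivial (nd (nat_lit 249) (nat_lit 0) (cs (lf (nat_lit 21) (nat_lit 249)) (lf (nat_lit 0) (nat_lit 248)))) q12946 (by decide +kernel)
def q12949 : Q := Q.p (nat_lit 0x180000e00000800002000000000000000000000000000000000000000000000000000000000) (nat_lit 0x10000060000000000000000000000000000000000000000000000000000000000000000000000000) (nat_lit 2)
theorem c12949 : QOK q12949 := cut [] trivial (nd (nat_lit 294) (nat_lit 0) (cs (lf (nat_lit 12) (nat_lit 271)) (lf (nat_lit 41) (nat_lit 228)))) q12949 (by decide +kernel)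
def q12953 : Q := Q.p (nat_lit 0x200000800006000010000000000000000000000000000000000000000000000000000) (nat_lit 0x8000040000100000000000000000000000000000000000000000) (nat_lit 2)
theorem c12953 : QOK q12953 := cut [] trivial (nd (nat_lit 186) (nat_lit 0) (cs (lf (nat_lit 36) (nat_lit 163)) (lf (nat_lit 33) (nat_lit 185)))) q12953 (by decide +kernel)
def q12958 : Q := Q.p (nat_lit 0x20000080000300000400000000000000000000000000000000000000000000000000000000000000) (nat_lit 0x800001000004000000000000000000000000000000000000000000000000000) (nat_lit 2)
theorem c12958 : QOK q12958 := cut [] trivial (nd (nat_lit 228) (nat_lit 0) (cs (lf (nat_lit 24) (nat_lit 206)) (lf (nat_lit 45) (nat_lit 228)))) q12958 (by decide +kernel)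
def q12962 : Q := Q.p (nat_lit 0x10000040000300000400000000000000000000000000000000000000000000000000000000000000) (nat_lit 0x4000000000000000000000800002000000000000000000000000000000000000000000000000000000000) (nat_lit 2)
theorem c12962 : QOK q12962 := cut [] trivial (nd (nat_lit 251) (nat_lit 0) (cs (lf (nat_lit 30) (nat_lit 250)) (lf (nat_lit 35) (nat_lit 228)))) q12962 (by decide +kernel)
def q12970 : Q := Q.p (nat_lit 0x38000200000800002000000000000000000000000000000000000000000000000000000000000000) (nat_lit 0x300000c0000100000000000000000000000000000000000000000000000000000000000000000000000000) (nat_lit 3)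
theorem c12970 : QOK q12970 := cut [] trivial (nd (nat_lit 318) (nat_lit 0) (cs (lf (nat_lit 16) (nat_lit 293)) (nd (nat_lit 340) (nat_lit 0) (cs (lf (nat_lit 5) (nat_lit 315)) (lf (nat_lit 39) (nat_lit 252)))))) q12970 (by decide +kernel)
def q12986 : Q := Q.p (nat_lit 0x20000000000f00000400000000000000000000000000000000000000000000000000000000000000) (nat_lit 0x80000100000e0000000000000000000000000000000000000000000000000000000000000000000000000) (nat_lit 3)
theorem c12986 : QOK q12986 := cut [] trivial (nd (nat_lit 294) (nat_lit 0) (cs (lf (nat_lit 11) (nat_lit 271)) (nd (nat_lit 339) (nat_lit 0) (cs (lf (nat_lit 27) (nat_lit 250)) (lf (nat_lit 44) (nat_lit 250)))))) q12986 (by decide +kernel)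
def q13000 : Q := Q.p (nat_lit 0x1000003800010000000000000000000000000000000000000000000000000000000000000000) (nat_lit 0x2000004000020000000000000000000000000000000000000000000000000000000000000000) (nat_lit 2)
theorem c13000 : QOK q13000 := cut [] trivial (nd (nat_lit 278) (nat_lit 0) (cs (lf (nat_lit 17) (nat_lit 253)) (lf (nat_lit 5) (nat_lit 275)))) q13000 (by decide +kernel)
def q13010 : Q := Q.p (nat_lit 0x100000c0000300000000000000000000000000000000000000000000000000000000000000000000) (nat_lit 0x4000000000000000000000800002000000000000000000000000000000000000000000000000000000000) (nat_lit 2)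
theorem c13010 : QOK q13010 := cut [] trivial (nd (nat_lit 251) (nat_lit 0) (cs (lf (nat_lit 30) (nat_lit 250)) (lf (nat_lit 36) (nat_lit 228)))) q13010 (by decide +kernel)
def q13022 : Q := Q.p (nat_lit 0x7c0000000000000000000000000000000000000000000000000000000000000000000000000000000) (nat_lit 0x3800000000000000000000000000000000000000000000000000000000000000000000000000) (nat_lit 2)
theorem c13022 : QOK q13022 := cut [] trivial (nd (nat_lit 300) (nat_lit 0) (cs (lf (nat_lit 16) (nat_lit 296)) (lf (nat_lit 17) (nat_lit 297)))) q13022 (by decide +kernel)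
def q13034 : Q := Q.p (nat_lit 0x80000300000e00000000000000000000000000000000000000000000000000000000000000000000) (nat_lit 0x1000000e0001180000000000000000000000000000000000000000000000000000000000000000000) (nat_lit 4)
theorem c13034 : QOK q13034 := cut [] trivial (nd (nat_lit 272) (nat_lit 0) (cs (lf (nat_lit 0) (nat_lit 271)) (nd (nat_lit 294) (nat_lit 0) (cs (lf (nat_lit 11) (nat_lit 271)) (nd (nat_lit 295) (nat_lit 0) (cs (lf (nat_lit 6) (nat_lit 272)) (lf (nat_lit 5) (nat_lit 294)))))))) q13034 (by decide +kernel)
def q13041 : Q := Q.p (nat_lit 0x200000e00000000000000000000000000000000000000000000000000000000000000000000) (nat_lit 0x570000180000000000000000000000000000000000000000000000000000000000000000000) (nat_lit 4)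
theorem c13041 : QOK q13041 := cut [] trivial (nd (nat_lit 272) (nat_lit 0) (cs (lf (nat_lit 5) (nat_lit 272)) (nd (nat_lit 293) (nat_lit 0) (cs (lf (nat_lit 10) (nat_lit 271)) (nd (nat_lit 271) (nat_lit 0) (cs (lf (nat_lit 11) (nat_lit 270)) (lf (nat_lit 4) (nat_lit 271)))))))) q13041 (by decide +kernel)
def q13048 : Q := Q.p (nat_lit 0x80000200000c00000000000000010000000000000000000000000000000000000000000000000000) (nat_lit 0x20000000000000000000001000004000000000000000000000000000000000000000000000000000000000) (nat_lit 2)
theorem c13048 : QOK q13048 := cut [] trivial (nd (nat_lit 252) (nat_lit 0) (cs (lf (nat_lit 42) (nat_lit 252)) (lf (nat_lit 25) (nat_lit 208)))) q13048 (by decide +kernel)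
def q13055 : Q := Q.p (nat_lit 0x3e0000000000000000000000000000000000000000000000000000000000000000000000000000000) (nat_lit 0x1c0000000000000000000000000000000000000000000000000000000000000000000000000000000000000) (nat_lit 2)
theorem c13055 : QOK q13055 := cut [] trivial (nd (nat_lit 343) (nat_lit 0) (cs (lf (nat_lit 5) (nat_lit 318)) (lf (nat_lit 4) (nat_lit 317)))) q13055 (by decide +kernel)
def q13064 : Q := Q.p (nat_lit 0x400000e0000040000000000000000000000000000000000000000000000000000000000000000000000000) (nat_lit 0x20000010000020000000000000000000000000000000000000000000000000000000000000000000000000) (nat_lit 2)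
theorem c13064 : QOK q13064 := cut [] trivial (nd (nat_lit 316) (nat_lit 0) (cs (lf (nat_lit 23) (nat_lit 293)) (lf (nat_lit 4) (nat_lit 316)))) q13064 (by decide +kernel)
def q13069 : Q := Q.p (nat_lit 0x1e0000000000000000000000000000000000000000000000000000000000000000000000000000000) (nat_lit 0xe0000100000e0000000000000000000000000000000000000000000000000000000000000000000000000) (nat_lit 4)
theorem c13069 : QOK q13069 := cut [] trivial (nd (nat_lit 294) (nat_lit 0) (cs (lf (nat_lit 22) (nat_lit 294)) (nd (nat_lit 338) (nat_lit 0) (cs (lf (nat_lit 10) (nat_lit 316)) (nd (nat_lit 316) (nat_lit 0) (cs (lf (nat_lit 23) (nat_lit 293)) (lf (nat_lit 11) (nat_lit 315)))))))) q13069 (by decide +kernel)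
def q13070 : Q := Q.p (nat_lit 0x400001e0000000000800002000000000000000000000000000000000000000000000000000000000000000) (nat_lit 0xc00001000000000000000000000000000000000000000000000000000000000000000000000) (nat_lit 2)
theorem c13070 : QOK q13070 := cut [] trivial (nd (nat_lit 298) (nat_lit 0) (cs (lf (nat_lit 45) (nat_lit 253)) (lf (nat_lit 17) (nat_lit 295)))) q13070 (by decide +kernel)
def q13084 : Q := Q.p (nat_lit 0x80000200000800003800002000000000000000000000000000000000000000000000000000000000000000) (nat_lit 0x4000011000000000000000000000000000000000000000000000000000000000000000) (nat_lit 2)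
theorem c13084 : QOK q13084 := cut [] trivial (nd (nat_lit 278) (nat_lit 0) (cs (lf (nat_lit 23) (nat_lit 252)) (lf (nat_lit 35) (nat_lit 255)))) q13084 (by decide +kernel)
def q13089 : Q := Q.p (nat_lit 0x200000800002c00008000000000000000000000000000000000000000000000000000000000000000) (nat_lit 0x1000010000040000000000000000000000000000000000000000000000000000000000) (nat_lit 2)
theorem c13089 : QOK q13089 := cut [] trivial (nd (nat_lit 256) (nat_lit 0) (cs (lf (nat_lit 35) (nat_lit 233)) (lf (nat_lit 14) (nat_lit 252)))) q13089 (by decide +kernel)
def q13096 : Q := Q.p (nat_lit 0x7c0000000000000000000000000000000000000000000000000000000000000000000000000000000) (nat_lit 0x38000000000000000000000000000000000000000000000000000000000000000000000000000000000000) (nat_lit 2)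
theorem c13096 : QOK q13096 := cut [] trivial (nd (nat_lit 340) (nat_lit 0) (cs (lf (nat_lit 10) (nat_lit 318)) (lf (nat_lit 11) (nat_lit 317)))) q13096 (by decide +kernel)
def q13103 : Q := Q.p (nat_lit 0x3e0000000000000000000000000000000000000000000000000000000000000000000000000000000) (nat_lit 0x1c000000000000000000000000000000000000000000000000000000000000000000000000000000000000) (nat_lit 2)
theorem c13103 : QOK q13103 := cut [] trivial (nd (nat_lit 339) (nat_lit 0) (cs (lf (nat_lit 11) (nat_lit 316)) (lf (nat_lit 10) (nat_lit 317)))) q13103 (by decide +kernel)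
def q13110 : Q := Q.p (nat_lit 0x3c0000000000800002000000000000000000000000000000000000000000000000000000000000000) (nat_lit 0x10000040000020001c00003000008000000000000000000000000000000000000000000000000000000000000000) (nat_lit 5)
theorem c13110 : QOK q13110 := cut [] trivial (nd (nat_lit 299) (nat_lit 0) (cs (lf (nat_lit 17) (nat_lit 296)) (nd (nat_lit 298) (nat_lit 0) (cs (lf (nat_lit 12) (nat_lit 295)) (nd (nat_lit 342) (nat_lit 0) (cs (lf (nat_lit 45) (nat_lit 253)) (nd (nat_lit 277) (nat_lit 0) (cs (lf (nat_lit 30) (nat_lit 276)) (lf (nat_lit 36) (nat_lit 254)))))))))) q13110 (by decide +kernel)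
def q13112 : Q := Q.p (nat_lit 0xf80000000000000000000000000000000000000000000000000000000000000000000000000000000) (nat_lit 0x7000000000000000000000000000000000000000000000000000000000000000000000000000) (nat_lit 2)
theorem c13112 : QOK q13112 := cut [] trivial (nd (nat_lit 301) (nat_lit 0) (cs (lf (nat_lit 17) (nat_lit 298)) (lf (nat_lit 16) (nat_lit 297)))) q13112 (by decide +kernel)
def q13131 : Q := Q.p (nat_lit 0xe0000600000000000000000000000000000000000000000000000000000000000000000000000000) (nat_lit 0x100001800000000000000000000000000000000000000000000000000000000000000000000000000) (nat_lit 2)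
theorem c13131 : QOK q13131 := cut [] trivial (nd (nat_lit 299) (nat_lit 0) (cs (lf (nat_lit 6) (nat_lit 296)) (lf (nat_lit 15) (nat_lit 295)))) q13131 (by decide +kernel)
def q13136 : Q := Q.p (nat_lit 0xf0000020000000000000000000000000000000000000000000000000000000000000000000000000) (nat_lit 0x7000008000010000000000000000000000000000000000000000000000000000000000000000000000000) (nat_lit 3)
theorem c13136 : QOK q13136 := cut [] trivial (nd (nat_lit 337) (nat_lit 0) (cs (nd (nat_lit 315) (nat_lit 0) (cs (lf (nat_lit 23) (nat_lit 292)) (lf (nat_lit 11) (nat_lit 314)))) (lf (nat_lit 10) (nat_lit 315)))) q13136 (by decide +kernel)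
def q13144 : Q := Q.p (nat_lit 0x3c0000200000000000000000000000000000000000000000000000000000000000000000000000000) (nat_lit 0x380000c00007400000000000000000000000000000000000000000000000000000000000000000000000000) (nat_lit 5)
theorem c13144 : QOK q13144 := cut [] trivial (nd (nat_lit 344) (nat_lit 0) (cs (lf (nat_lit 4) (nat_lit 318)) (nd (nat_lit 322) (nat_lit 0) (cs (lf (nat_lit 5) (nat_lit 319)) (nd (nat_lit 301) (nat_lit 0) (cs (lf (nat_lit 16) (nat_lit 297)) (nd (nat_lit 323) (nat_lit 0) (cs (lf (nat_lit 17) (nat_lit 298)) (lf (nat_lit 22) (nat_lit 297)))))))))) q13144 (by decide +kernel)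
def q13158 : Q := Q.p (nat_lit 0x1c0000000000800002000000000000000000000000000000000000000000000000000000000000000) (nat_lit 0x50000000000200000000000000000000000000000000000000000000000000000000000000000000000000) (nat_lit 2)
theorem c13158 : QOK q13158 := cut [] trivial (nd (nat_lit 297) (nat_lit 0) (cs (lf (nat_lit 29) (nat_lit 253)) (lf (nat_lit 41) (nat_lit 252)))) q13158 (by decide +kernel)
def q13163 : Q := Q.p (nat_lit 0xc0000000000c00001000000000000000000000000000000000000000000000000000000000000000) (nat_lit 0x20000000000300000000000000000000000000000000000000000000000000000000000000000000000000) (nat_lit 2)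
theorem c13163 : QOK q13163 := cut [] trivial (nd (nat_lit 341) (nat_lit 0) (cs (lf (nat_lit 26) (nat_lit 252)) (lf (nat_lit 44) (nat_lit 252)))) q13163 (by decide +kernel)
def q13164 : Q := Q.p (nat_lit 0x180000000001800002000000000000000000000000000000000000000000000000000000000000000) (nat_lit 0x40000000000600000000000000000000000000000000000000000000000000000000000000000000000000) (nat_lit 2)
theorem c13164 : QOK q13164 := cut [] trivial (nd (nat_lit 342) (nat_lit 0) (cs (lf (nat_lit 26) (nat_lit 253)) (lf (nat_lit 44) (nat_lit 253)))) q13164 (by decide +kernel)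
def q13166 : Q := Q.p (nat_lit 0x1e0000100000000000000000000000000000000000000000000000000000000000000000000000000) (nat_lit 0x2000000c0000000000000000000000000000000000000000000000000000000000000000000000000) (nat_lit 2)
theorem c13166 : QOK q13166 := cut [] trivial (nd (nat_lit 295) (nat_lit 0) (cs (lf (nat_lit 23) (nat_lit 294)) (lf (nat_lit 18) (nat_lit 295)))) q13166 (by decide +kernel)
def q13172 : Q := Q.p (nat_lit 0xc0000000000400001800000000000000000000000000000000000000000000000000000000000000) (nat_lit 0x20000000000100000000000000002000000000000000000000000000000000000000000000000000000000) (nat_lit 2)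
theorem c13172 : QOK q13172 := cut [] trivial (nd (nat_lit 296) (nat_lit 0) (cs (lf (nat_lit 29) (nat_lit 252)) (lf (nat_lit 47) (nat_lit 229)))) q13172 (by decide +kernel)
def q13185 : Q := Q.p (nat_lit 0x1c0000000003c00008000000000000000000000000000000000000000000000000000000000000000) (nat_lit 0x20001c00000000000000020000000000000000000000000000000000000000000000000000000000) (nat_lit 3)
theorem c13185 : QOK q13185 := cut [] trivial (nd (nat_lit 299) (nat_lit 0) (cs (lf (nat_lit 5) (nat_lit 274)) (nd (nat_lit 298) (nat_lit 0) (cs (lf (nat_lit 12) (nat_lit 295)) (lf (nat_lit 36) (nat_lit 232)))))) q13185 (by decide +kernel)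
def q13202 : Q := Q.p (nat_lit 0x40000100000400001000004000000000000000000000000000000000000000000000000000000000) (nat_lit 0x8000020000080000000000000000000000000000000000000000000000000000000000000000000000000) (nat_lit 2)
theorem c13202 : QOK q13202 := cut [] trivial (nd (nat_lit 317) (nat_lit 0) (cs (lf (nat_lit 41) (nat_lit 251)) (lf (nat_lit 40) (nat_lit 229)))) q13202 (by decide +kernel)
def q13214 : Q := Q.p (nat_lit 0x40000100000c00003000000000010000000000000000000000000000000000000000000000000000) (nat_lit 0x8000020000080000000000000004000000000040000000000000000000000000000000000000000000000) (nat_lit 3)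
theorem c13214 : QOK q13214 := cut [] trivial (nd (nat_lit 317) (nat_lit 0) (cs (lf (nat_lit 41) (nat_lit 251)) (nd (nat_lit 230) (nat_lit 0) (cs (lf (nat_lit 24) (nat_lit 186)) (lf (nat_lit 40) (nat_lit 229)))))) q13214 (by decide +kernel)
def q13219 : Q := Q.p (nat_lit 0x110000380000000000000000000000000000000000000000000000000000000000000000000000000000000) (nat_lit 0x220000400000000000000000000000000000000000000000000000000000000000000000000000000000000) (nat_lit 2)
theorem c13219 : QOK q13219 := cut [] trivial (nd (nat_lit 322) (nat_lit 0) (cs (lf (nat_lit 5) (nat_lit 319)) (lf (nat_lit 10) (nat_lit 318)))) q13219 (by decide +kernel)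
def q13229 : Q := Q.p (nat_lit 0xc0000000000c00002000000000000000000000000000000000000000000000000000000000000000) (nat_lit 0x10000000000300000000000000000000000000000000000000000000000000000000000000000000000000) (nat_lit 2)
theorem c13229 : QOK q13229 := cut [] trivial (nd (nat_lit 340) (nat_lit 0) (cs (lf (nat_lit 32) (nat_lit 252)) (lf (nat_lit 38) (nat_lit 252)))) q13229 (by decide +kernel)
def q13254 : Q := Q.p (nat_lit 0x3c00002000000000000000000000000000000000000000000000000000000000000000) (nat_lit 0x4000001800000000000000000000000000000000000000000000000000000000000000) (nat_lit 2)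
theorem c13254 : QOK q13254 := cut [] trivial (nd (nat_lit 252) (nat_lit 0) (cs (lf (nat_lit 18) (nat_lit 252)) (lf (nat_lit 23) (nat_lit 251)))) q13254 (by decide +kernel)
def q13268 : Q := Q.p (nat_lit 0x40000000000000001e00002000000000000000000000000000000000000000000000000000000000000000) (nat_lit 0x100000c00000000000000000000000000000000000000000000000000000000000000000000000000) (nat_lit 2)
theorem c13268 : QOK q13268 := cut [] trivial (nd (nat_lit 298) (nat_lit 0) (cs (lf (nat_lit 5) (nat_lit 273)) (lf (nat_lit 43) (nat_lit 253)))) q13268 (by decide +kernel)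
def q13273 : Q := Q.p (nat_lit 0x7c000000000000000000000000000000000000000000000000000000000000000000000000000000000000) (nat_lit 0x38000000000000000000000000000000000000000000000000000000000000000000000000000000) (nat_lit 2)
theorem c13273 : QOK q13273 := cut [] trivial (nd (nat_lit 316) (nat_lit 0) (cs (lf (nat_lit 23) (nat_lit 315)) (lf (nat_lit 22) (nat_lit 316)))) q13273 (by decide +kernel)
def q13287 : Q := Q.p (nat_lit 0x800012000008000020000000000000000000000000000000000000000000000000000000000000000000000000000000) (nat_lit 0x50000340000c000000000000000000000000000000000000000000000000000000000000000000000000000000000000000000) (nat_lit 4)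
theorem c13287 : QOK q13287 := cut [] trivial (nd (nat_lit 384) (nat_lit 0) (cs (nd (nat_lit 382) (nat_lit 0) (cs (nd (nat_lit 363) (nat_lit 0) (cs (lf (nat_lit 15) (nat_lit 360)) (lf (nat_lit 8) (nat_lit 360)))) (lf (nat_lit 41) (nat_lit 316)))) (lf (nat_lit 29) (nat_lit 317)))) q13287 (by decide +kernel)
def q13291 : Q := Q.p (nat_lit 0x7c000000000000000000000000000000000000000000000000000000000000000000000000000000000000) (nat_lit 0x38000000000000000000000000000000000000000000000000000000000000000000000000000000000000000000) (nat_lit 2)
theorem c13291 : QOK q13291 := cut [] trivial (nd (nat_lit 364) (nat_lit 0) (cs (lf (nat_lit 5) (nat_lit 339)) (lf (nat_lit 4) (nat_lit 338)))) q13291 (by decide +kernel)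
def q13298 : Q := Q.p (nat_lit 0xf8000000000000000000000000000000000000000000000000000000000000000000000000000000000000) (nat_lit 0x70000000000000000000000000000000000000000000000000000000000000000000000000000000000000000000) (nat_lit 2)
theorem c13298 : QOK q13298 := cut [] trivial (nd (nat_lit 365) (nat_lit 0) (cs (lf (nat_lit 4) (nat_lit 339)) (lf (nat_lit 5) (nat_lit 340)))) q13298 (by decide +kernel)
def q13306 : Q := Q.p (nat_lit 0xf0000040000000000000000000000000000000000000000000000000000000000000000000000000000000) (nat_lit 0x100000e80000000000000000000000000000000000000000000000000000000000000000000000000000000) (nat_lit 3)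
theorem c13306 : QOK q13306 := cut [] trivial (nd (nat_lit 322) (nat_lit 0) (cs (nd (nat_lit 344) (nat_lit 0) (cs (lf (nat_lit 17) (nat_lit 319)) (lf (nat_lit 22) (nat_lit 318)))) (lf (nat_lit 16) (nat_lit 318)))) q13306 (by decide +kernel)
def q13308 : Q := Q.p (nat_lit 0x70000060000000000000000000000000000000000000000000000000000000000000000000000000000000) (nat_lit 0x98000000000000000000000000000000000000000000000000000000000000000000000000000000) (nat_lit 2)
theorem c13308 : QOK q13308 := cut [] trivial (nd (nat_lit 316) (nat_lit 0) (cs (lf (nat_lit 0) (nat_lit 315)) (lf (nat_lit 3) (nat_lit 316)))) q13308 (by decide +kernel)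
def q13373 : Q := Q.p (nat_lit 0xe00002000004000010000000000000000000000000000000000000000000000000000) (nat_lit 0x80000000001000000000000000040000000000000000000000000000000000000000000000) (nat_lit 2)
theorem c13373 : QOK q13373 := cut [] trivial (nd (nat_lit 252) (nat_lit 0) (cs (lf (nat_lit 41) (nat_lit 207)) (lf (nat_lit 24) (nat_lit 186)))) q13373 (by decide +kernel)
def q13396 : Q := Q.p (nat_lit 0x160000080000200000800000000000000000000000000000000000000000000000000000000000000) (nat_lit 0x100000c000090000000000000000000000000000000000000000000000000000000000000000000000000000000) (nat_lit 3)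
theorem c13396 : QOK q13396 := cut [] trivial (nd (nat_lit 338) (nat_lit 0) (cs (lf (nat_lit 40) (nat_lit 250)) (nd (nat_lit 339) (nat_lit 0) (cs (lf (nat_lit 41) (nat_lit 272)) (lf (nat_lit 7) (nat_lit 316)))))) q13396 (by decide +kernel)
def q13404 : Q := Q.p (nat_lit 0x80000600000800000000010000000000000000000000000000000000000000000000000000) (nat_lit 0x1000006000000000000000000000000000000000000000000000000000000000) (nat_lit 2)
theorem c13404 : QOK q13404 := cut [] trivial (nd (nat_lit 230) (nat_lit 0) (cs (lf (nat_lit 33) (nat_lit 207)) (lf (nat_lit 38) (nat_lit 207)))) q13404 (by decide +kernel)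
def q13407 : Q := Q.p (nat_lit 0xe00003000000000010000000000000000000000000000000000000000000000000000) (nat_lit 0x80000000000000004000000000040000000000000000000000000000000000000000000000) (nat_lit 2)
theorem c13407 : QOK q13407 := cut [] trivial (nd (nat_lit 230) (nat_lit 0) (cs (lf (nat_lit 41) (nat_lit 207)) (lf (nat_lit 24) (nat_lit 186)))) q13407 (by decide +kernel)
def q13423 : Q := Q.p (nat_lit 0x3e00000000000000000000000000000000000000000000000000000000000000000000) (nat_lit 0x1c00000000000000000000000000000000000000000000000000000000000000) (nat_lit 2)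
theorem c13423 : QOK q13423 := cut [] trivial (nd (nat_lit 251) (nat_lit 0) (cs (lf (nat_lit 23) (nat_lit 250)) (lf (nat_lit 22) (nat_lit 251)))) q13423 (by decide +kernel)
def q13437 : Q := Q.p (nat_lit 0x40000070000400000000000000000000000000000000000000000000000000000000000000000000000000) (nat_lit 0x20000080000200000000000000000000000000000000000000000000000000000000000000000000000000) (nat_lit 2)
theorem c13437 : QOK q13437 := cut [] trivial (nd (nat_lit 319) (nat_lit 0) (cs (lf (nat_lit 4) (nat_lit 316)) (lf (nat_lit 16) (nat_lit 294)))) q13437 (by decide +kernel)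
def q13445 : Q := Q.p (nat_lit 0x1e00003000000000000000000000000000000000000000000000000000000000000000) (nat_lit 0xe00000180000000000000000000000000000000000000000000000000000000000000000000) (nat_lit 3)
theorem c13445 : QOK q13445 := cut [] trivial (nd (nat_lit 298) (nat_lit 0) (cs (lf (nat_lit 5) (nat_lit 273)) (nd (nat_lit 272) (nat_lit 0) (cs (lf (nat_lit 12) (nat_lit 249)) (lf (nat_lit 4) (nat_lit 272)))))) q13445 (by decide +kernel)
def q13456 : Q := Q.p (nat_lit 0xc00001c00000000000000000000000000000000000000000000000000000000000000000000) (nat_lit 0x3000002000000000000000000000000000000000000000000000000000000000000000000000) (nat_lit 2)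
theorem c13456 : QOK q13456 := cut [] trivial (nd (nat_lit 300) (nat_lit 0) (cs (lf (nat_lit 18) (nat_lit 275)) (lf (nat_lit 3) (nat_lit 274)))) q13456 (by decide +kernel)
def q13459 : Q := Q.p (nat_lit 0xc00000e00000000000000000000000000000000000000000000000000000000000000000000) (nat_lit 0x300000100000000000000000000000000000000000000000000000000000000000000000000) (nat_lit 2)
theorem c13459 : QOK q13459 := cut [] trivial (nd (nat_lit 297) (nat_lit 0) (cs (lf (nat_lit 21) (nat_lit 273)) (lf (nat_lit 0) (nat_lit 272)))) q13459 (by decide +kernel)
def q13474 : Q := Q.p (nat_lit 0x40000200000c00003000000000000000000000000000000000000000000000000000000000000000) (nat_lit 0x30000080000000000000000000000000000000000000000000000000000000000000000000000000000000) (nat_lit 2)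
theorem c13474 : QOK q13474 := cut [] trivial (nd (nat_lit 319) (nat_lit 0) (cs (lf (nat_lit 41) (nat_lit 252)) (lf (nat_lit 42) (nat_lit 252)))) q13474 (by decide +kernel)
def q13484 : Q := Q.p (nat_lit 0x40000d0000040000100000000000000000000000000000000000000000000000000000000000000000000) (nat_lit 0x800002000020000000000000000000000000000000000000000000000000000000000000000000000000000000) (nat_lit 2)
theorem c13484 : QOK q13484 := cut [] trivial (nd (nat_lit 337) (nat_lit 0) (cs (lf (nat_lit 8) (nat_lit 315)) (lf (nat_lit 41) (nat_lit 271)))) q13484 (by decide +kernel)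
def q13507 : Q := Q.p (nat_lit 0x40000000000c00003800000000000000000000000000000000000000000000000000000000000000) (nat_lit 0x10000000000100000000000000002000000000000000000000000000000000000000000000000000000000) (nat_lit 2)
theorem c13507 : QOK q13507 := cut [] trivial (nd (nat_lit 296) (nat_lit 0) (cs (lf (nat_lit 47) (nat_lit 229)) (lf (nat_lit 30) (nat_lit 252)))) q13507 (by decide +kernel)
def q13509 : Q := Q.p (nat_lit 0x800001c0000000000800002000000000000000000000000000000000000000000000000000000000000000) (nat_lit 0x40000020000200000000000000000000000000000000000000000000000000000000000000000000000000) (nat_lit 2)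
theorem c13509 : QOK q13509 := cut [] trivial (nd (nat_lit 342) (nat_lit 0) (cs (lf (nat_lit 26) (nat_lit 253)) (lf (nat_lit 0) (nat_lit 317)))) q13509 (by decide +kernel)
def q13516 : Q := Q.p (nat_lit 0x80000200000800002000008000000000000000000000000000000000000000000000000000000000000000) (nat_lit 0x4000010000040000000000000000000000000000000000000000000000000000000000) (nat_lit 2)
theorem c13516 : QOK q13516 := cut [] trivial (nd (nat_lit 256) (nat_lit 0) (cs (lf (nat_lit 35) (nat_lit 233)) (lf (nat_lit 34) (nat_lit 255)))) q13516 (by decide +kernel)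
def q13527 : Q := Q.p (nat_lit 0x80000200000800002000000000000000000000000000000000000000000000000000000000000000000000) (nat_lit 0x4000030000040000000001000004000010000000000000000000000000000000000000000000000000000000000000000) (nat_lit 4)
theorem c13527 : QOK q13527 := cut [] trivial (nd (nat_lit 278) (nat_lit 0) (cs (lf (nat_lit 35) (nat_lit 255)) (nd (nat_lit 364) (nat_lit 0) (cs (nd (nat_lit 365) (nat_lit 0) (cs (lf (nat_lit 41) (nat_lit 298)) (lf (nat_lit 34) (nat_lit 277)))) (lf (nat_lit 40) (nat_lit 276)))))) q13527 (by decide +kernel)
def q13532 : Q := Q.p (nat_lit 0x800002000008000060000010000000000000000000000000000000000000000000000000000) (nat_lit 0x100000e0000100000000000000000000000000000000000000000000000) (nat_lit 3)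
theorem c13532 : QOK q13532 := cut [] trivial (nd (nat_lit 210) (nat_lit 0) (cs (lf (nat_lit 46) (nat_lit 210)) (nd (nat_lit 211) (nat_lit 0) (cs (lf (nat_lit 47) (nat_lit 188)) (lf (nat_lit 1) (nat_lit 208)))))) q13532 (by decide +kernel)
def q13543 : Q := Q.p (nat_lit 0x20000180000600000000000000000000000000000000000000000000000000000000000000000000000000000000) (nat_lit 0x8000000000000000000001000004000000000000000000000000000000000000000000000000000000000000000000000) (nat_lit 2)
theorem c13543 : QOK q13543 := cut [] trivial (nd (nat_lit 300) (nat_lit 0) (cs (lf (nat_lit 30) (nat_lit 299)) (lf (nat_lit 36) (nat_lit 277)))) q13543 (by decide +kernel)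
def q13556 : Q := Q.p (nat_lit 0x2c0000800000c00001800000000000000000000000000000000000000000000000000000000000000) (nat_lit 0x380000500001100003000008000002000000000000000000000000000000000000000000000000000000000) (nat_lit 6)
theorem c13556 : QOK q13556 := cut [] trivial (nd (nat_lit 320) (nat_lit 0) (cs (lf (nat_lit 17) (nat_lit 296)) (nd (nat_lit 344) (nat_lit 0) (cs (lf (nat_lit 4) (nat_lit 318)) (nd (nat_lit 229) (nat_lit 0) (cs (lf (nat_lit 43) (nat_lit 229)) (nd (nat_lit 322) (nat_lit 0) (cs (lf (nat_lit 5) (nat_lit 319)) (nd (nat_lit 277) (nat_lit 0) (cs (lf (nat_lit 19) (nat_lit 251)) (lf (nat_lit 24) (nat_lit 255)))))))))))) q13556 (by decide +kernel)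
def q13567 : Q := Q.p (nat_lit 0xc0000a00002800002000000000000000000000000000000000000000000000000000000000000000) (nat_lit 0x3c0000700001000000000008000000000000000000000000000000000000000000000000000000000000000) (nat_lit 5)
theorem c13567 : QOK q13567 := cut [] trivial (nd (nat_lit 320) (nat_lit 0) (cs (lf (nat_lit 29) (nat_lit 253)) (nd (nat_lit 321) (nat_lit 0) (cs (lf (nat_lit 17) (nat_lit 296)) (nd (nat_lit 344) (nat_lit 0) (cs (lf (nat_lit 4) (nat_lit 318)) (nd (nat_lit 322) (nat_lit 0) (cs (lf (nat_lit 5) (nat_lit 319)) (lf (nat_lit 24) (nat_lit 255)))))))))) q13567 (by decide +kernel)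
def q13603 : Q := Q.p (nat_lit 0xc0000000000c00003000000000000000000000000000000000000000000000000000000000000000) (nat_lit 0x30000000000200000000000000000000000000000000000000000000000000000000000000000000000000) (nat_lit 2)
theorem c13603 : QOK q13603 := cut [] trivial (nd (nat_lit 297) (nat_lit 0) (cs (lf (nat_lit 41) (nat_lit 252)) (lf (nat_lit 42) (nat_lit 252)))) q13603 (by decide +kernel)
def q13606 : Q := Q.p (nat_lit 0x40000100000c00001000000000000000000000000000000000000000000000000000000000) (nat_lit 0x10000000000000000000002000008000000000000000000000000000000000000000000000000000) (nat_lit 2)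
theorem c13606 : QOK q13606 := cut [] trivial (nd (nat_lit 229) (nat_lit 0) (cs (lf (nat_lit 30) (nat_lit 228)) (lf (nat_lit 35) (nat_lit 206)))) q13606 (by decide +kernel)
def q13608 : Q := Q.p (nat_lit 0x40000d00000400001000000000000000000000000000000000000000000000000000000000) (nat_lit 0x8000020000200000000000000000000000000000000000000000000000000000000000000000000) (nat_lit 2)
theorem c13608 : QOK q13608 := cut [] trivial (nd (nat_lit 293) (nat_lit 0) (cs (lf (nat_lit 41) (nat_lit 227)) (lf (nat_lit 8) (nat_lit 271)))) q13608 (by decide +kernel)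
def q13624 : Q := Q.p (nat_lit 0x2c00003000000000000000000000000000000000000000000000000000000000000000) (nat_lit 0x5000000800000000000000000000000000000000000000000000000000000000000000) (nat_lit 2)
theorem c13624 : QOK q13624 := cut [] trivial (nd (nat_lit 276) (nat_lit 0) (cs (lf (nat_lit 18) (nat_lit 252)) (lf (nat_lit 23) (nat_lit 251)))) q13624 (by decide +kernel)
def q13626 : Q := Q.p (nat_lit 0x80000200000800002000008000000000000000000000000000000000000000000000000000000000000000) (nat_lit 0x10000040000100000000000000000000000000000000000000000000000000000000000000000000000000000000) (nat_lit 2)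
theorem c13626 : QOK q13626 := cut [] trivial (nd (nat_lit 342) (nat_lit 0) (cs (lf (nat_lit 41) (nat_lit 276)) (lf (nat_lit 40) (nat_lit 254)))) q13626 (by decide +kernel)
def q13630 : Q := Q.p (nat_lit 0x200000800002000008000020000000000000000000000000000000000000000000000000000000000) (nat_lit 0x10000040000100000000000000000000000000000000000000000000000000000) (nat_lit 2)
theorem c13630 : QOK q13630 := cut [] trivial (nd (nat_lit 234) (nat_lit 0) (cs (lf (nat_lit 35) (nat_lit 211)) (lf (nat_lit 34) (nat_lit 233)))) q13630 (by decide +kernel)
def q13637 : Q := Q.p (nat_lit 0x200000800002000008000000000030000000000000000000000000000000000000000000000000000) (nat_lit 0x400001000000000000000100000700001c0000000000000000000000000000000000000000000000000000) (nat_lit 5)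
theorem c13637 : QOK q13637 := cut [] trivial (nd (nat_lit 320) (nat_lit 0) (cs (lf (nat_lit 41) (nat_lit 254)) (nd (nat_lit 234) (nat_lit 0) (cs (lf (nat_lit 34) (nat_lit 233)) (nd (nat_lit 233) (nat_lit 0) (cs (lf (nat_lit 35) (nat_lit 211)) (nd (nat_lit 210) (nat_lit 0) (cs (lf (nat_lit 46) (nat_lit 210)) (lf (nat_lit 3) (nat_lit 208)))))))))) q13637 (by decide +kernel)
def q13642 : Q := Q.p (nat_lit 0x200000800002000008000004000030000000000000000000000000000000000000000000000000000) (nat_lit 0x1000004000010000000000000000320000c0000100000000000000000000000000000000000000000000000) (nat_lit 5)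
theorem c13642 : QOK q13642 := cut [] trivial (nd (nat_lit 322) (nat_lit 0) (cs (lf (nat_lit 29) (nat_lit 255)) (nd (nat_lit 233) (nat_lit 0) (cs (lf (nat_lit 28) (nat_lit 233)) (nd (nat_lit 210) (nat_lit 0) (cs (lf (nat_lit 46) (nat_lit 210)) (nd (nat_lit 211) (nat_lit 0) (cs (lf (nat_lit 11) (nat_lit 207)) (lf (nat_lit 47) (nat_lit 188)))))))))) q13642 (by decide +kernel)
def q13645 : Q := Q.p (nat_lit 0x100000c00003000002000000000000000000000000000000000000000000000000000000000) (nat_lit 0x10000040000000000000000800000000000000000000000000000000000000000000000000000000000000) (nat_lit 2)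
theorem c13645 : QOK q13645 := cut [] trivial (nd (nat_lit 318) (nat_lit 0) (cs (lf (nat_lit 46) (nat_lit 229)) (lf (nat_lit 30) (nat_lit 252)))) q13645 (by decide +kernel)
def q13650 : Q := Q.p (nat_lit 0x40000000000c00003000002000000000000000000000000000000000000000000000000000000000) (nat_lit 0x10000000000100000000000800000000000000000000000000000000000000000000000000000000000000) (nat_lit 2)
theorem c13650 : QOK q13650 := cut [] trivial (nd (nat_lit 296) (nat_lit 0) (cs (lf (nat_lit 46) (nat_lit 229)) (lf (nat_lit 30) (nat_lit 252)))) q13650 (by decide +kernel)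
def q13697 : Q := Q.p (nat_lit 0x80000240000800002000000000000000000000000000000000000000000000000000000000000000000000) (nat_lit 0x100000400001a0001000000000008000000000000000000000000000000000000000000000000000000000000000) (nat_lit 4)
theorem c13697 : QOK q13697 := cut [] trivial (nd (nat_lit 342) (nat_lit 0) (cs (lf (nat_lit 41) (nat_lit 276)) (nd (nat_lit 320) (nat_lit 0) (cs (lf (nat_lit 36) (nat_lit 254)) (nd (nat_lit 319) (nat_lit 0) (cs (lf (nat_lit 17) (nat_lit 296)) (lf (nat_lit 0) (nat_lit 317)))))))) q13697 (by decide +kernel)
def q13704 : Q := Q.p (nat_lit 0x50000080000200000800000000000000000000000000000000000000000000000000000000000000000000000000) (nat_lit 0x14000020000000000000000000000000000000000000000000000000000000000000000000000000000000000000000000) (nat_lit 2)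
theorem c13704 : QOK q13704 := cut [] trivial (nd (nat_lit 365) (nat_lit 0) (cs (lf (nat_lit 29) (nat_lit 299)) (lf (nat_lit 41) (nat_lit 298)))) q13704 (by decide +kernel)
def q13725 : Q := Q.p (nat_lit 0xe00004000000400001000004000010000000000000000000000000000000000000000000000000000) (nat_lit 0x110001a000000000000000000000020000080000000000000000000000000000000000000000000000) (nat_lit 4)
theorem c13725 : QOK q13725 := cut [] trivial (nd (nat_lit 187) (nat_lit 0) (cs (lf (nat_lit 34) (nat_lit 186)) (nd (nat_lit 303) (nat_lit 0) (cs (nd (nat_lit 301) (nat_lit 0) (cs (lf (nat_lit 12) (nat_lit 298)) (lf (nat_lit 6) (nat_lit 300)))) (lf (nat_lit 15) (nat_lit 299)))))) q13725 (by decide +kernel)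
def q13728 : Q := Q.p (nat_lit 0x80000e000006000010000000000000000000000000000000000000000000000000000000000000000) (nat_lit 0x200000000000000018000000000000000000000000000000000000000000000000000000000000000000000) (nat_lit 2)
theorem c13728 : QOK q13728 := cut [] trivial (nd (nat_lit 279) (nat_lit 0) (cs (lf (nat_lit 42) (nat_lit 256)) (lf (nat_lit 3) (nat_lit 277)))) q13728 (by decide +kernel)
def q13821 : Q := Q.p (nat_lit 0x2000008000020000080000200000000000000000000000000000000000000000000000) (nat_lit 0x100000400001000000000000000000000000000000000000000000) (nat_lit 2)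
theorem c13821 : QOK q13821 := cut [] trivial (nd (nat_lit 190) (nat_lit 0) (cs (lf (nat_lit 34) (nat_lit 189)) (lf (nat_lit 35) (nat_lit 167)))) q13821 (by decide +kernel)
def q13828 : Q := Q.p (nat_lit 0x8000020000080000200000800000000000000000000000000000000000000000000000000000000000000000000000000) (nat_lit 0x1000004000010000000000000000000000000000000000000000000000000000000000000000000000000000000000000000000) (nat_lit 2)
theorem c13828 : QOK q13828 := cut [] trivial (nd (nat_lit 386) (nat_lit 0) (cs (lf (nat_lit 41) (nat_lit 320)) (lf (nat_lit 40) (nat_lit 298)))) q13828 (by decide +kernel)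
def q13842 : Q := Q.p (nat_lit 0x200000800002000010000000000000000000000000000000000000000000000000000000000000000) (nat_lit 0x80000000001000004000000000040000100000000000000000000000000000000000000000000000000000) (nat_lit 3)
theorem c13842 : QOK q13842 := cut [] trivial (nd (nat_lit 278) (nat_lit 0) (cs (lf (nat_lit 30) (nat_lit 255)) (nd (nat_lit 234) (nat_lit 0) (cs (lf (nat_lit 36) (nat_lit 211)) (lf (nat_lit 39) (nat_lit 233)))))) q13842 (by decide +kernel)
def q13851 : Q := Q.p (nat_lit 0x80000200000800002000000000000000000000000000000000000000000000000000000000000000000000) (nat_lit 0x400001c000070000040000400001000004000000000000000000000000000000000000000000000000000000000000000000000) (nat_lit 6)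
theorem c13851 : QOK q13851 := cut [] trivial (nd (nat_lit 364) (nat_lit 0) (cs (lf (nat_lit 40) (nat_lit 276)) (nd (nat_lit 365) (nat_lit 0) (cs (lf (nat_lit 41) (nat_lit 298)) (nd (nat_lit 388) (nat_lit 0) (cs (lf (nat_lit 28) (nat_lit 299)) (nd (nat_lit 300) (nat_lit 0) (cs (nd (nat_lit 387) (nat_lit 0) (cs (lf (nat_lit 29) (nat_lit 321)) (lf (nat_lit 34) (nat_lit 299)))) (lf (nat_lit 35) (nat_lit 277)))))))))) q13851 (by decide +kernel)
def q13857 : Q := Q.p (nat_lit 0x80000200000800002000000000000000000000000000000000000000000000000000000000000000000000) (nat_lit 0x100001c000070000100000400001000004000000000000000000000000000000000000000000000000000000000000000000000) (nat_lit 6)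
theorem c13857 : QOK q13857 := cut [] trivial (nd (nat_lit 366) (nat_lit 0) (cs (lf (nat_lit 28) (nat_lit 277)) (nd (nat_lit 365) (nat_lit 0) (cs (lf (nat_lit 29) (nat_lit 299)) (nd (nat_lit 386) (nat_lit 0) (cs (lf (nat_lit 40) (nat_lit 298)) (nd (nat_lit 300) (nat_lit 0) (cs (lf (nat_lit 35) (nat_lit 277)) (nd (nat_lit 387) (nat_lit 0) (cs (lf (nat_lit 41) (nat_lit 320)) (lf (nat_lit 34) (nat_lit 299)))))))))))) q13857 (by decide +kernel)
def q13859 : Q := Q.p (nat_lit 0x800002000008000020000080000000000000000000000000000000000000000000000000000) (nat_lit 0x10000040000100000000000000000000000000000000000000000000000) (nat_lit 2)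
theorem c13859 : QOK q13859 := cut [] trivial (nd (nat_lit 210) (nat_lit 0) (cs (lf (nat_lit 46) (nat_lit 210)) (lf (nat_lit 47) (nat_lit 188)))) q13859 (by decide +kernel)
def q13871 : Q := Q.p (nat_lit 0x1c0000300000000000000000000000000000000000000000000000000000000000000000000000000000000) (nat_lit 0x2000000c0000000000000000000000000000000000000000000000000000000000000000000000000000000) (nat_lit 2)
theorem c13871 : QOK q13871 := cut [] trivial (nd (nat_lit 319) (nat_lit 0) (cs (lf (nat_lit 18) (nat_lit 319)) (lf (nat_lit 0) (nat_lit 318)))) q13871 (by decide +kernel)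
def q13876 : Q := Q.p (nat_lit 0x40000100000400001000004000000000000000000000000000000000000000000000000000000000) (nat_lit 0x800002000008000000000000000000000000000000000000000000000000000) (nat_lit 2)
theorem c13876 : QOK q13876 := cut [] trivial (nd (nat_lit 229) (nat_lit 0) (cs (lf (nat_lit 46) (nat_lit 229)) (lf (nat_lit 47) (nat_lit 207)))) q13876 (by decide +kernel)
def q13890 : Q := Q.p (nat_lit 0x40000100000200000800002000000000000000000000000000000000000000000000000000000000000000000000) (nat_lit 0x10000000000000000400001000000000000000000000000000000000000000000000000000000000000000000000000000) (nat_lit 2)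
theorem c13890 : QOK q13890 := cut [] trivial (nd (nat_lit 322) (nat_lit 0) (cs (lf (nat_lit 45) (nat_lit 277)) (lf (nat_lit 42) (nat_lit 299)))) q13890 (by decide +kernel)
def q13897 : Q := Q.p (nat_lit 0x80000240000800002000000000000000000000000000000000000000000000000000000000000000000000) (nat_lit 0x50000160000180000000004000010000000000000000000000000000000000000000000000000000000000000000) (nat_lit 5)
theorem c13897 : QOK q13897 := cut [] trivial (nd (nat_lit 342) (nat_lit 0) (cs (lf (nat_lit 41) (nat_lit 276)) (nd (nat_lit 256) (nat_lit 0) (cs (lf (nat_lit 34) (nat_lit 255)) (nd (nat_lit 344) (nat_lit 0) (cs (lf (nat_lit 29) (nat_lit 277)) (nd (nat_lit 319) (nat_lit 0) (cs (lf (nat_lit 21) (nat_lit 318)) (lf (nat_lit 2) (nat_lit 318)))))))))) q13897 (by decide +kernel)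
def q13902 : Q := Q.p (nat_lit 0x20000080000200000800002000000000000000000000000000000000000000000000000000000000000000000000) (nat_lit 0x1000004000010000000000000000000000000000000000000000000000000000000000000000) (nat_lit 2)
theorem c13902 : QOK q13902 := cut [] trivial (nd (nat_lit 278) (nat_lit 0) (cs (lf (nat_lit 35) (nat_lit 255)) (lf (nat_lit 34) (nat_lit 277)))) q13902 (by decide +kernel)
def q13912 : Q := Q.p (nat_lit 0x800002c00001000000000000000000000000000000000000000000000000000000000000000) (nat_lit 0x1000001000000800000000000000000000000000000000000000000000000000000000000000) (nat_lit 2)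
theorem c13912 : QOK q13912 := cut [] trivial (nd (nat_lit 276) (nat_lit 0) (cs (lf (nat_lit 23) (nat_lit 251)) (lf (nat_lit 5) (nat_lit 274)))) q13912 (by decide +kernel)
def q13921 : Q := Q.p (nat_lit 0x40000200000c00002000000000000000000000000000000000000000000000000000000000000000) (nat_lit 0x10000080000100000000000000000000000000000000000000000000000000000000000000000000000000) (nat_lit 2)
theorem c13921 : QOK q13921 := cut [] trivial (nd (nat_lit 340) (nat_lit 0) (cs (lf (nat_lit 39) (nat_lit 252)) (lf (nat_lit 32) (nat_lit 252)))) q13921 (by decide +kernel)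
def q13923 : Q := Q.p (nat_lit 0x40000b00000400000000000000000000000000000000000000000000000000000000000000000000) (nat_lit 0x20000400000200000000000000000000000000000000000000000000000000000000000000000000) (nat_lit 2)
theorem c13923 : QOK q13923 := cut [] trivial (nd (nat_lit 298) (nat_lit 0) (cs (lf (nat_lit 23) (nat_lit 273)) (lf (nat_lit 11) (nat_lit 295)))) q13923 (by decide +kernel)
def q13932 : Q := Q.p (nat_lit 0x180000e00000800002000000000000000000000000000000000000000000000000000000000000000) (nat_lit 0x10000060000000000000000000000000000000000000000000000000000000000000000000000000000000) (nat_lit 2)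
theorem c13932 : QOK q13932 := cut [] trivial (nd (nat_lit 318) (nat_lit 0) (cs (lf (nat_lit 41) (nat_lit 252)) (lf (nat_lit 12) (nat_lit 295)))) q13932 (by decide +kernel)
def q13941 : Q := Q.p (nat_lit 0x1800000c00000000000000000000000000000000000000000000000000000000000000000000) (nat_lit 0x2600003000000000000000000000000000000000000000000000000000000000000000000000) (nat_lit 3)
theorem c13941 : QOK q13941 := cut [] trivial (nd (nat_lit 276) (nat_lit 0) (cs (lf (nat_lit 3) (nat_lit 274)) (nd (nat_lit 298) (nat_lit 0) (cs (lf (nat_lit 18) (nat_lit 275)) (lf (nat_lit 21) (nat_lit 274)))))) q13941 (by decide +kernel)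
def q13948 : Q := Q.p (nat_lit 0x1800000c00002000000000010000000000000000000000000000000000000000000000000000) (nat_lit 0x700003c0000600000000001000004000000000000000000000000000000000000000000000000000000000) (nat_lit 6)
theorem c13948 : QOK q13948 := cut [] trivial (nd (nat_lit 297) (nat_lit 0) (cs (nd (nat_lit 252) (nat_lit 0) (cs (lf (nat_lit 25) (nat_lit 208)) (nd (nat_lit 319) (nat_lit 0) (cs (lf (nat_lit 42) (nat_lit 252)) (nd (nat_lit 318) (nat_lit 0) (cs (lf (nat_lit 41) (nat_lit 252)) (nd (nat_lit 320) (nat_lit 0) (cs (lf (nat_lit 29) (nat_lit 253)) (lf (nat_lit 15) (nat_lit 296)))))))))) (lf (nat_lit 20) (nat_lit 274)))) q13948 (by decide +kernel)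
def q13952 : Q := Q.p (nat_lit 0x400001800002000000000000000000000000000000000000000000000000000000000000000000000) (nat_lit 0x40000100000000000000004000008000020000000000000000000000000000000000000000000000000000000000) (nat_lit 3)
theorem c13952 : QOK q13952 := cut [] trivial (nd (nat_lit 255) (nat_lit 0) (cs (nd (nat_lit 344) (nat_lit 0) (cs (lf (nat_lit 42) (nat_lit 277)) (lf (nat_lit 45) (nat_lit 255)))) (lf (nat_lit 24) (nat_lit 233)))) q13952 (by decide +kernel)
def q13962 : Q := Q.p (nat_lit 0x800000000010000078000000000000000000000000000000000000000000000000000000000000000) (nat_lit 0x6000008000000000300000000000000000000000000000000000000000000000000000000000) (nat_lit 3)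
theorem c13962 : QOK q13962 := cut [] trivial (nd (nat_lit 236) (nat_lit 0) (cs (nd (nat_lit 301) (nat_lit 0) (cs (lf (nat_lit 32) (nat_lit 235)) (lf (nat_lit 39) (nat_lit 235)))) (lf (nat_lit 17) (nat_lit 233)))) q13962 (by decide +kernel)
def q13973 : Q := Q.p (nat_lit 0x200001800006000000000000000000000000000000000000000000000000000000000000000000000) (nat_lit 0x80000000000000000000010000040000000000000000000000000000000000000000000000000000000000) (nat_lit 2)
theorem c13973 : QOK q13973 := cut [] trivial (nd (nat_lit 256) (nat_lit 0) (cs (lf (nat_lit 30) (nat_lit 255)) (lf (nat_lit 36) (nat_lit 233)))) q13973 (by decide +kernel)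
def q13976 : Q := Q.p (nat_lit 0xc0000e00000000000000000000000000000000000000000000000000000000000000000000000000000000) (nat_lit 0x30000100000000000000000000000000000000000000000000000000000000000000000000000000000000) (nat_lit 2)
theorem c13976 : QOK q13976 := cut [] trivial (nd (nat_lit 341) (nat_lit 0) (cs (lf (nat_lit 12) (nat_lit 318)) (lf (nat_lit 9) (nat_lit 319)))) q13976 (by decide +kernel)
def q13995 : Q := Q.p (nat_lit 0x600001800002000000000000000000000000000000000000000000000000000000000000000000000) (nat_lit 0x40000180006000000000008000020000000000000000000000000000000000000000000000000000000000) (nat_lit 4)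
theorem c13995 : QOK q13995 := cut [] trivial (nd (nat_lit 255) (nat_lit 0) (cs (lf (nat_lit 24) (nat_lit 233)) (nd (nat_lit 320) (nat_lit 0) (cs (lf (nat_lit 41) (nat_lit 254)) (nd (nat_lit 301) (nat_lit 0) (cs (lf (nat_lit 12) (nat_lit 297)) (lf (nat_lit 6) (nat_lit 298)))))))) q13995 (by decide +kernel)
def q14011 : Q := Q.p (nat_lit 0x100000400001800006000000000000000000000000000000000000000000000000000000000000000000000) (nat_lit 0xa000028000180000e0000380000e0000000000000000000000000000000000000000000000000000000000000000) (nat_lit 8)
theorem c14011 : QOK q14011 := cut [] trivial (nd (nat_lit 345) (nat_lit 0) (cs (lf (nat_lit 29) (nat_lit 278)) (nd (nat_lit 343) (nat_lit 0) (cs (nd (nat_lit 279) (nat_lit 0) (cs (lf (nat_lit 35) (nat_lit 256)) (nd (nat_lit 280) (nat_lit 0) (cs (nd (nat_lit 302) (nat_lit 0) (cs (nd (nat_lit 258) (nat_lit 0) (cs (nd (nat_lit 323) (nat_lit 0) (cs (lf (nat_lit 39) (nat_lit 257)) (lf (nat_lit 32) (nat_lit 257)))) (lf (nat_lit 17) (nat_lit 255)))) (lf (nat_lit 5) (nat_lit 277)))) (lf (nat_lit 6) (nat_lit 277)))))) (lf (nat_lit 41) (nat_lit 277)))))) q14011 (by decide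 +kernel)
def q14019 : Q := Q.p (nat_lit 0x100000400001800002000000000000000000000000000000000000000000000000000000000000000000000) (nat_lit 0x200000000000000008000020000000000000000000000000000000000000000000000000000000000) (nat_lit 2)
theorem c14019 : QOK q14019 := cut [] trivial (nd (nat_lit 255) (nat_lit 0) (cs (lf (nat_lit 24) (nat_lit 233)) (lf (nat_lit 27) (nat_lit 255)))) q14019 (by decide +kernel)
def q14034 : Q := Q.p (nat_lit 0x3800000c00000000000000000000000000000000000000000000000000000000000000000000) (nat_lit 0x400003000000000000000000000000000000000000000000000000000000000000000000000) (nat_lit 2)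
theorem c14034 : QOK q14034 := cut [] trivial (nd (nat_lit 276) (nat_lit 0) (cs (lf (nat_lit 3) (nat_lit 274)) (lf (nat_lit 21) (nat_lit 275)))) q14034 (by decide +kernel)
def q14037 : Q := Q.p (nat_lit 0x1100003800000000000000000000000000000000000000000000000000000000000000000000000000) (nat_lit 0x2200004000000000000000000000000000000000000000000000000000000000000000000000000000) (nat_lit 2)
theorem c14037 : QOK q14037 := cut [] trivial (nd (nat_lit 302) (nat_lit 0) (cs (lf (nat_lit 10) (nat_lit 298)) (lf (nat_lit 5) (nat_lit 299)))) q14037 (by decide +kernel)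
def q14062 : Q := Q.p (nat_lit 0x1000006000018000000000000000000000000000000000000000000000000000000000000000000000) (nat_lit 0x400000000000000000000020000080000000000000000000000000000000000000000000000000000000000) (nat_lit 2)
theorem c14062 : QOK q14062 := cut [] trivial (nd (nat_lit 257) (nat_lit 0) (cs (lf (nat_lit 24) (nat_lit 235)) (lf (nat_lit 42) (nat_lit 257)))) q14062 (by decide +kernel)
def q14078 : Q := Q.p (nat_lit 0x100000400001800002000000000000000000000000000000000000000000000000000000000000000000000) (nat_lit 0x4000008000020000000000000000000000000000000000000000000000000000000000) (nat_lit 2)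
theorem c14078 : QOK q14078 := cut [] trivial (nd (nat_lit 255) (nat_lit 0) (cs (lf (nat_lit 45) (nat_lit 255)) (lf (nat_lit 24) (nat_lit 233)))) q14078 (by decide +kernel)
def q14081 : Q := Q.p (nat_lit 0x100000200001800002000000000000000000000000000000000000000000000000000000000000000000000) (nat_lit 0x60000080000000000000004000010000000000000000000000000000000000000000000000000000000000000000) (nat_lit 3)
theorem c14081 : QOK q14081 := cut [] trivial (nd (nat_lit 343) (nat_lit 0) (cs (lf (nat_lit 29) (nat_lit 277)) (nd (nat_lit 278) (nat_lit 0) (cs (lf (nat_lit 35) (nat_lit 255)) (lf (nat_lit 30) (nat_lit 277)))))) q14081 (by decide +kernel)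
def q14092 : Q := Q.p (nat_lit 0x100000000007800002000000000000000010000000000000000000000000000000000000000000000000000) (nat_lit 0x37000000000340000180000700001e0000000000000000000000000000000000000000000000000000) (nat_lit 9)
theorem c14092 : QOK q14092 := cut [] trivial (nd (nat_lit 321) (nat_lit 0) (cs (lf (nat_lit 11) (nat_lit 298)) (nd (nat_lit 324) (nat_lit 0) (cs (lf (nat_lit 5) (nat_lit 299)) (nd (nat_lit 280) (nat_lit 0) (cs (lf (nat_lit 17) (nat_lit 277)) (nd (nat_lit 255) (nat_lit 0) (cs (lf (nat_lit 28) (nat_lit 255)) (nd (nat_lit 234) (nat_lit 0) (cs (lf (nat_lit 34) (nat_lit 233)) (nd (nat_lit 233) (nat_lit 0) (cs (lf (nat_lit 35) (nat_lit 211)) (nd (nat_lit 211) (nat_lit 0) (cs (nd (nat_lit 210) (nat_lit 0) (cs (lf (nat_lit 46) (nat_lit 210)) (lf (nat_lit 1) (nat_lit 208)))) (lf (nat_lit 28) (nat_lit 211)))))))))))))))) q14092 (by decide +kernel)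
def q14094 : Q := Q.p (nat_lit 0x100000000007800002000000000000000000000000000000000000000000000000000000000000000000000) (nat_lit 0x40000000000700000000000000008000000000000000000000000000000000000000000000000000000000000000) (nat_lit 3)
theorem c14094 : QOK q14094 := cut [] trivial (nd (nat_lit 322) (nat_lit 0) (cs (lf (nat_lit 42) (nat_lit 277)) (nd (nat_lit 321) (nat_lit 0) (cs (lf (nat_lit 24) (nat_lit 255)) (lf (nat_lit 11) (nat_lit 298)))))) q14094 (by decide +kernel)
def q14108 : Q := Q.p (nat_lit 0xc00000c00000000000000000000000000000000000000000000000000000000000000000000) (nat_lit 0x3200003000000000000000000000000000000000000000000000000000000000000000000000) (nat_lit 3)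
theorem c14108 : QOK q14108 := cut [] trivial (nd (nat_lit 300) (nat_lit 0) (cs (lf (nat_lit 21) (nat_lit 274)) (nd (nat_lit 276) (nat_lit 0) (cs (lf (nat_lit 18) (nat_lit 275)) (lf (nat_lit 3) (nat_lit 274)))))) q14108 (by decide +kernel)
def q14112 : Q := Q.p (nat_lit 0x20000040000100000400000800000000000000000000000000000000000000000000000000000000) (nat_lit 0x80000000000000001000002000000000000000000000000000000000000000000000000000) (nat_lit 2)
theorem c14112 : QOK q14112 := cut [] trivial (nd (nat_lit 228) (nat_lit 0) (cs (lf (nat_lit 28) (nat_lit 228)) (lf (nat_lit 47) (nat_lit 205)))) q14112 (by decide +kernel)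
def q14118 : Q := Q.p (nat_lit 0x8000010000040000100000200000000000000000000000000000000000000000000000000000000000000) (nat_lit 0x2000004000000000000000080000000000000000000000000000000000000000000000000000000000000000000) (nat_lit 2)
theorem c14118 : QOK q14118 := cut [] trivial (nd (nat_lit 338) (nat_lit 0) (cs (lf (nat_lit 46) (nat_lit 249)) (lf (nat_lit 29) (nat_lit 272)))) q14118 (by decide +kernel)
def q14122 : Q := Q.p (nat_lit 0x8000040000100000400000800000000000000000000000000000000000000000000000000000000) (nat_lit 0x20000000000000001000002000000000000000000000000000000000000000000000000000) (nat_lit 2)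
theorem c14122 : QOK q14122 := cut [] trivial (nd (nat_lit 228) (nat_lit 0) (cs (lf (nat_lit 40) (nat_lit 227)) (lf (nat_lit 47) (nat_lit 205)))) q14122 (by decide +kernel)
def q14126 : Q := Q.p (nat_lit 0x4000010000040000100000400000000000000000000000000000000000000000000000000000000000000) (nat_lit 0x800002000008000000000000000000000000000000000000000000000000000000000000000000000000000000) (nat_lit 2)
theorem c14126 : QOK q14126 := cut [] trivial (nd (nat_lit 337) (nat_lit 0) (cs (lf (nat_lit 41) (nat_lit 271)) (lf (nat_lit 40) (nat_lit 249)))) q14126 (by decide +kernel)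
def q14136 : Q := Q.p (nat_lit 0x60000d00000400001000000000000000000000000000000000000000000000000000000000) (nat_lit 0x20000180000000000000000000000000000000000000000000000000000000000000000000000000) (nat_lit 2)
theorem c14136 : QOK q14136 := cut [] trivial (nd (nat_lit 295) (nat_lit 0) (cs (lf (nat_lit 29) (nat_lit 228)) (lf (nat_lit 15) (nat_lit 271)))) q14136 (by decide +kernel)
def q14138 : Q := Q.p (nat_lit 0x40000100000400001000004000000000000000000000000000000000000000000000000000) (nat_lit 0x800002000008000000000000000000000000000000000000000000000) (nat_lit 2)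
theorem c14138 : QOK q14138 := cut [] trivial (nd (nat_lit 205) (nat_lit 0) (cs (lf (nat_lit 47) (nat_lit 183)) (lf (nat_lit 46) (nat_lit 205)))) q14138 (by decide +kernel)
def q14148 : Q := Q.p (nat_lit 0x10000040000100001c000000000000000000000000000000000000000000000000000) (nat_lit 0x22000018000020000000000000000000000000000000000000000) (nat_lit 3)
theorem c14148 : QOK q14148 := cut [] trivial (nd (nat_lit 183) (nat_lit 0) (cs (lf (nat_lit 46) (nat_lit 183)) (nd (nat_lit 184) (nat_lit 0) (cs (lf (nat_lit 18) (nat_lit 183)) (lf (nat_lit 47) (nat_lit 161)))))) q14148 (by decide +kernel)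
def q14158 : Q := Q.p (nat_lit 0x40000100000600000800000000000000000000000000000000000000000000000000000000) (nat_lit 0x80000000000000002000008000000000000000000000000000000000000000000000) (nat_lit 2)
theorem c14158 : QOK q14158 := cut [] trivial (nd (nat_lit 205) (nat_lit 0) (cs (lf (nat_lit 24) (nat_lit 183)) (lf (nat_lit 27) (nat_lit 205)))) q14158 (by decide +kernel)
def q14174 : Q := Q.p (nat_lit 0x3e000000000000000000000000000000000000000000000000000000000000000000000000000000) (nat_lit 0x1c000000000000000000000000000000000000000000000000000000000000000000000000) (nat_lit 2)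
theorem c14174 : QOK q14174 := cut [] trivial (nd (nat_lit 291) (nat_lit 0) (cs (lf (nat_lit 23) (nat_lit 290)) (lf (nat_lit 22) (nat_lit 291)))) q14174 (by decide +kernel)
def q14182 : Q := Q.p (nat_lit 0xa000010000040000100000000000000000000000000000000000000000000000000000000000000000000) (nat_lit 0x2800004000000000000000000000000000000000000000000000000000000000000000000000000000000000000) (nat_lit 2)
theorem c14182 : QOK q14182 := cut [] trivial (nd (nat_lit 338) (nat_lit 0) (cs (lf (nat_lit 41) (nat_lit 271)) (lf (nat_lit 29) (nat_lit 272)))) q14182 (by decide +kernel)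
def q14187 : Q := Q.p (nat_lit 0x200000c0000100000400000000000000000000000000000000000000000000000000000000000000) (nat_lit 0x2000008000010000000000000000000000000000000000000000000000000000000000000000000000000000000) (nat_lit 2)
theorem c14187 : QOK q14187 := cut [] trivial (nd (nat_lit 339) (nat_lit 0) (cs (lf (nat_lit 27) (nat_lit 250)) (lf (nat_lit 42) (nat_lit 272)))) q14187 (by decide +kernel)
def q14195 : Q := Q.p (nat_lit 0x40000100000400001000010000000000000000000000000000000000000000000000000000) (nat_lit 0x800002000008000000000200002e000018000020000000000000000000000000000000000000000) (nat_lit 6)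
theorem c14195 : QOK q14195 := cut [] trivial (nd (nat_lit 293) (nat_lit 0) (cs (lf (nat_lit 41) (nat_lit 227)) (nd (nat_lit 206) (nat_lit 0) (cs (lf (nat_lit 40) (nat_lit 205)) (nd (nat_lit 183) (nat_lit 0) (cs (lf (nat_lit 46) (nat_lit 183)) (nd (nat_lit 184) (nat_lit 0) (cs (lf (nat_lit 47) (nat_lit 161)) (nd (nat_lit 207) (nat_lit 0) (cs (lf (nat_lit 18) (nat_lit 183)) (lf (nat_lit 34) (nat_lit 206)))))))))))) q14195 (by decide +kernel)
def q14196 : Q := Q.p (nat_lit 0x600001800004000000000000000000000000000000000000000000000000000) (nat_lit 0x80000000000000000000010000040000000000000000000000000000000000000000) (nat_lit 2)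
theorem c14196 : QOK q14196 := cut [] trivial (nd (nat_lit 184) (nat_lit 0) (cs (lf (nat_lit 41) (nat_lit 183)) (lf (nat_lit 36) (nat_lit 161)))) q14196 (by decide +kernel)
def q14210 : Q := Q.p (nat_lit 0x40000300000c0000000000000000000000000000000000000000000000000000000000000000000) (nat_lit 0x1000000000000000000000200000800000000000000000000000000000000000000000000000000000000) (nat_lit 2)
theorem c14210 : QOK q14210 := cut [] trivial (nd (nat_lit 249) (nat_lit 0) (cs (lf (nat_lit 30) (nat_lit 248)) (lf (nat_lit 36) (nat_lit 226)))) q14210 (by decide +kernel)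
def q14218 : Q := Q.p (nat_lit 0x800002000018000040000000000000000000000000000000000000000000000000000000000000000000) (nat_lit 0x4000000000000000100000400000000000000000000000000000000000000000000000000000000) (nat_lit 2)
theorem c14218 : QOK q14218 := cut [] trivial (nd (nat_lit 248) (nat_lit 0) (cs (lf (nat_lit 36) (nat_lit 225)) (lf (nat_lit 39) (nat_lit 247)))) q14218 (by decide +kernel)
def q14234 : Q := Q.p (nat_lit 0x18000060000080000000000000000000000000000000000000000000000000000000000000) (nat_lit 0x4000000000000000000000200000800000000000000000000000000000000000000000000000000) (nat_lit 2)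
theorem c14234 : QOK q14234 := cut [] trivial (nd (nat_lit 225) (nat_lit 0) (cs (lf (nat_lit 24) (nat_lit 203)) (lf (nat_lit 29) (nat_lit 225)))) q14234 (by decide +kernel)
def q14241 : Q := Q.p (nat_lit 0xf8000000000000000000000000000000000000000000000000000000000000000000000000) (nat_lit 0x70000000000000000000000000000000000000000000000000000000000000000000) (nat_lit 2)
theorem c14241 : QOK q14241 := cut [] trivial (nd (nat_lit 269) (nat_lit 0) (cs (lf (nat_lit 23) (nat_lit 268)) (lf (nat_lit 22) (nat_lit 269)))) q14241 (by decide +kernel)
def q14247 : Q := Q.p (nat_lit 0x10000040000100000400001000000000000000000000000000000000000000000000000000000000) (nat_lit 0x200000800002000000000000000000000000000000000000000000000000000) (nat_lit 2)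
theorem c14247 : QOK q14247 := cut [] trivial (nd (nat_lit 227) (nat_lit 0) (cs (lf (nat_lit 47) (nat_lit 205)) (lf (nat_lit 46) (nat_lit 227)))) q14247 (by decide +kernel)
def q14255 : Q := Q.p (nat_lit 0x3c00008000020000000000000000000000000000000000000000000000000000000000) (nat_lit 0x100001c00000000000000000000080000000000000000000000000000000000000000000000000000) (nat_lit 3)
theorem c14255 : QOK q14255 := cut [] trivial (nd (nat_lit 299) (nat_lit 0) (cs (lf (nat_lit 5) (nat_lit 274)) (nd (nat_lit 298) (nat_lit 0) (cs (lf (nat_lit 41) (nat_lit 232)) (lf (nat_lit 36) (nat_lit 210)))))) q14255 (by decide +kernel)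
def q14270 : Q := Q.p (nat_lit 0x200000800002000008000020000000000000000000000000000000000000000000000000000000000) (nat_lit 0x40000100000400000000000000000000000000000000000000000000000000000000000000000000000000) (nat_lit 2)
theorem c14270 : QOK q14270 := cut [] trivial (nd (nat_lit 320) (nat_lit 0) (cs (lf (nat_lit 41) (nat_lit 254)) (lf (nat_lit 40) (nat_lit 232)))) q14270 (by decide +kernel)

end Crest.Agent.H3.Snaky.CR
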