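import Crest.Agent.H3.Snaky.Cert
import Crest.Agent.H3.Snaky.CR.CR0
import Crest.Agent.H3.Snaky.CR.CR1
import Crest.Agent.H3.Snaky.CR.CR2
import Crest.Agent.H3.Snaky.CR.CR3

set_option autoImplicit false
set_option maxRecDepth 100000

namespace Crest.Agent.H3.Snaky.CR

open T

def q7443 : Q := Q.p (nat_lit 0xf0000000000000000000000000000000000000000000000000000) (nat_lit 0x70000008000070000000000000000000000000000000000000000000000) (nat_lit 4)
theorem c7443 : QOK q7443 := cut [q7441] ⟨c7441, trivial⟩ (nd (nat_lit 233) (nat_lit 0) (cs (lf (nat_lit 5) (nat_lit 208)) (nd (nat_lit 207) (nat_lit 0) (cs (lf (nat_lit 4) (nat_lit 207)) (rf (nat_lit 0)))))) q7443 (by decide +kernel)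
def q7444 : Q := Q.p (nat_lit 0xc00003c0000000000000000000000000000000000000000000000) (nat_lit 0x10000000000000001800002000008000000000000000000000000000000) (nat_lit 3)
theorem c7444 : QOK q7444 := cut [q379] ⟨c379, trivial⟩ (nd (nat_lit 167) (nat_lit 0) (cs (lf (nat_lit 17) (nat_lit 164)) (rf (nat_lit 0)))) q7444 (by decide +kernel)
def q7457 : Q := Q.p (nat_lit 0x20000080000200000800000000000000000000000000000000000) (nat_lit 0x10000040000100000000001000006000010000000000000000000000000) (nat_lit 4)
theorem c7457 : QOK q7457 := cut [q7456] ⟨c7456, trivial⟩ (nd (nat_lit 210) (nat_lit 0) (cs (lf (nat_lit 29) (nat_lit 143)) (rf (nat_lit 0)))) q7457 (by decide +kernel)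
def q7464 : Q := Q.p (nat_lit 0x2000008000060000000000000000000000000000000000000000000000000000) (nat_lit 0x800000000010000000000100000400001000000000000000000000000000000000000) (nat_lit 3)
theorem c7464 : QOK q7464 := cut [q207] ⟨c207, trivial⟩ (nd (nat_lit 188) (nat_lit 0) (cs (rf (nat_lit 0)) (lf (nat_lit 30) (nat_lit 187)))) q7464 (by decide +kernel)
def q7479 : Q := Q.p (nat_lit 0x20000000000700000c0000000000000000000000000000000000000000000000) (nat_lit 0x600001e0000f800000000130000580000000000000000000000000000000000000000) (nat_lit 9)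
theorem c7479 : QOK q7479 := cut [q7471] ⟨c7471, trivial⟩ (nd (nat_lit 231) (nat_lit 0) (cs (lf (nat_lit 47) (nat_lit 164)) (nd (nat_lit 185) (nat_lit 0) (cs (lf (nat_lit 0) (nat_lit 184)) (nd (nat_lit 166) (nat_lit 0) (cs (lf (nat_lit 34) (nat_lit 165)) (nd (nat_lit 252) (nat_lit 0) (cs (lf (nat_lit 41) (nat_lit 186)) (nd (nat_lit 230) (nat_lit 0) (cs (lf (nat_lit 47) (nat_lit 163)) (nd (nat_lit 228) (nat_lit 0) (cs (nd (nat_lit 251) (nat_lit 0) (cs (lf (nat_lit 41) (nat_lit 185)) (rf (nat_lit 0)))) (lf (nat_lit 13) (nat_lit 206)))))))))))))) q7479 (by decide +kernel)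
def q7481 : Q := Q.p (nat_lit 0x20000000000300000c0000200000000000000000000000000000000000000000) (nat_lit 0x40000100000c000000000100000400001000000000000000000000000000000000000) (nat_lit 4)
theorem c7481 : QOK q7481 := cut [q2204] ⟨c2204, trivial⟩ (nd (nat_lit 252) (nat_lit 0) (cs (lf (nat_lit 31) (nat_lit 164)) (nd (nat_lit 231) (nat_lit 0) (cs (lf (nat_lit 41) (nat_lit 186)) (rf (nat_lit 0)))))) q7481 (by decide +kernel)
def q7495 : Q := Q.p (nat_lit 0x600003c0000100000000000000000000000000000000000000000) (nat_lit 0x10000000000000001e0001f80007e000000000000000000000000000000) (nat_lit 9)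
theorem c7495 : QOK q7495 := cut [q7486] ⟨c7486, trivial⟩ (nd (nat_lit 167) (nat_lit 0) (cs (lf (nat_lit 17) (nat_lit 164)) (nd (nat_lit 145) (nat_lit 0) (cs (lf (nat_lit 36) (nat_lit 122)) (nd (nat_lit 166) (nat_lit 0) (cs (lf (nat_lit 30) (nat_lit 144)) (nd (nat_lit 146) (nat_lit 0) (cs (nd (nat_lit 147) (nat_lit 0) (cs (nd (nat_lit 144) (nat_lit 0) (cs (lf (nat_lit 36) (nat_lit 121)) (nd (nat_lit 143) (nat_lit 0) (cs (lf (nat_lit 47) (nat_lit 121)) (rf (nat_lit 0)))))) (lf (nat_lit 6) (nat_lit 144)))) (lf (nat_lit 13) (nat_lit 142)))))))))) q7495 (by decide +kernel)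
def q7502 : Q := Q.p (nat_lit 0x70000180000400001000000000000000000000000000000000000) (nat_lit 0x14000000000000000200000800002000000000000000000000000000000) (nat_lit 3)
theorem c7502 : QOK q7502 := cut [q7501] ⟨c7501, trivial⟩ (nd (nat_lit 143) (nat_lit 0) (cs (lf (nat_lit 47) (nat_lit 121)) (rf (nat_lit 0)))) q7502 (by decide +kernel)
def q7508 : Q := Q.p (nat_lit 0x300001e0000000000000000000000000000000000000000000000) (nat_lit 0x600001c00000000000000000000000000000000000000000) (nat_lit 3)
theorem c7508 : QOK q7508 := cut [q4969] ⟨c4969, trivial⟩ (nd (nat_lit 189) (nat_lit 0) (cs (lf (nat_lit 6) (nat_lit 186)) (rf (nat_lit 0)))) q7508 (by decide +kernel)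
def q7537 : Q := Q.p (nat_lit 0x70000100000000000000000000000000000000000000000000000) (nat_lit 0x8000e80000000000000000000000000000000000000000000000) (nat_lit 3)
theorem c7537 : QOK q7537 := cut [q59] ⟨c59, trivial⟩ (nd (nat_lit 189) (nat_lit 0) (cs (lf (nat_lit 12) (nat_lit 185)) (rf (nat_lit 0)))) q7537 (by decide +kernel)
def q7550 : Q := Q.p (nat_lit 0x70000100000000000000000000000000000000000000000000000) (nat_lit 0x3800000c000238000000000000000000000000000000000000000000000) (nat_lit 5)
theorem c7550 : QOK q7550 := cut [q4294] ⟨c4294, trivial⟩ (nd (nat_lit 207) (nat_lit 0) (cs (lf (nat_lit 17) (nat_lit 185)) (rf (nat_lit 0)))) q7550 (by decide +kernel)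
def q7582 : Q := Q.p (nat_lit 0x200000e000018000000000000000000000000000000000000000000000000000) (nat_lit 0x200000c00030000000000040000100000000000000000000000000000000000000000) (nat_lit 4)
theorem c7582 : QOK q7582 := cut [q7581] ⟨c7581, trivial⟩ (nd (nat_lit 232) (nat_lit 0) (cs (lf (nat_lit 18) (nat_lit 207)) (rf (nat_lit 0)))) q7582 (by decide +kernel)
def q7587 : Q := Q.p (nat_lit 0x30000080000200000800000000000000000000000000000000000) (nat_lit 0x40000000000400003000004000000000000000000000000) (nat_lit 3)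
theorem c7587 : QOK q7587 := cut [q1942] ⟨c1942, trivial⟩ (nd (nat_lit 121) (nat_lit 0) (cs (rf (nat_lit 0)) (lf (nat_lit 40) (nat_lit 120)))) q7587 (by decide +kernel)
def q7629 : Q := Q.p (nat_lit 0x20000000000700000c0000000000000000000000000000000000000000000000) (nat_lit 0x40000100001c000000000000000300000800002000000000000000000000000000000) (nat_lit 5)
theorem c7629 : QOK q7629 := cut [q7622] ⟨c7622, trivial⟩ (nd (nat_lit 231) (nat_lit 0) (cs (lf (nat_lit 47) (nat_lit 164)) (nd (nat_lit 252) (nat_lit 0) (cs (lf (nat_lit 41) (nat_lit 186)) (nd (nat_lit 165) (nat_lit 0) (cs (lf (nat_lit 40) (nat_lit 164)) (rf (nat_lit 0)))))))) q7629 (by decide +kernel)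
def q7632 : Q := Q.p (nat_lit 0x300001e0000000000000000000000000000000000000000000000) (nat_lit 0x6000001c0000000000000000000000000000000000000000) (nat_lit 3)
theorem c7632 : QOK q7632 := cut [q7631] ⟨c7631, trivial⟩ (nd (nat_lit 189) (nat_lit 0) (cs (lf (nat_lit 6) (nat_lit 186)) (rf (nat_lit 0)))) q7632 (by decide +kernel)
def q7644 : Q := Q.p (nat_lit 0x2000004000010000040000000000000000000000000000000000000000000000) (nat_lit 0x20000180000a000000000080000300000800000000000000000000000000000000000) (nat_lit 5)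
theorem c7644 : QOK q7644 := cut [q7643] ⟨c7643, trivial⟩ (nd (nat_lit 164) (nat_lit 0) (cs (lf (nat_lit 28) (nat_lit 164)) (rf (nat_lit 0)))) q7644 (by decide +kernel)
def q7649 : Q := Q.p (nat_lit 0x4000070000040000000000000000000000000000000000000000000000) (nat_lit 0x1000062000180000680000200000800000000000000000000000000000000000) (nat_lit 6)
theorem c7649 : QOK q7649 := cut [q7645] ⟨c7645, trivial⟩ (nd (nat_lit 211) (nat_lit 0) (cs (lf (nat_lit 11) (nat_lit 207)) (nd (nat_lit 189) (nat_lit 0) (cs (lf (nat_lit 17) (nat_lit 186)) (nd (nat_lit 233) (nat_lit 0) (cs (lf (nat_lit 5) (nat_lit 208)) (nd (nat_lit 187) (nat_lit 0) (cs (lf (nat_lit 18) (nat_lit 186)) (rf (nat_lit 0)))))))))) q7649 (by decide +kernel)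
def q7653 : Q := Q.p (nat_lit 0x2000004000010000040000000000000000000000000000000000000000000000) (nat_lit 0x10000080000000001800003e0000a00000000000000000000000000000000000) (nat_lit 6)
theorem c7653 : QOK q7653 := cut [q3196] ⟨c3196, trivial⟩ (nd (nat_lit 164) (nat_lit 0) (cs (lf (nat_lit 28) (nat_lit 164)) (nd (nat_lit 163) (nat_lit 0) (cs (lf (nat_lit 47) (nat_lit 141)) (nd (nat_lit 165) (nat_lit 0) (cs (lf (nat_lit 35) (nat_lit 142)) (nd (nat_lit 187) (nat_lit 0) (cs (lf (nat_lit 30) (nat_lit 164)) (rf (nat_lit 0)))))))))) q7653 (by decide +kernel)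
def q7718 : Q := Q.p (nat_lit 0x2000038000020000000000000000000000000000000000000000000000) (nat_lit 0x140000700001c0000000004000001c000040000000000000000000000000000000000000000) (nat_lit 7)
theorem c7718 : QOK q7718 := cut [q7714] ⟨c7714, trivial⟩ (nd (nat_lit 184) (nat_lit 0) (cs (lf (nat_lit 18) (nat_lit 184)) (nd (nat_lit 182) (nat_lit 0) (cs (lf (nat_lit 1) (nat_lit 182)) (nd (nat_lit 251) (nat_lit 0) (cs (lf (nat_lit 47) (nat_lit 162)) (rf (nat_lit 0)))))))) q7718 (by decide +kernel)
def q7723 : Q := Q.p (nat_lit 0x80000100000c000010000000000000000000000000000000000000000000000) (nat_lit 0x20000380000600000000000000020000000000000000000000000000000000000000000000) (nat_lit 4)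
theorem c7723 : QOK q7723 := cut [q7721] ⟨c7721, trivial⟩ (nd (nat_lit 250) (nat_lit 0) (cs (lf (nat_lit 29) (nat_lit 184)) (nd (nat_lit 272) (nat_lit 0) (cs (lf (nat_lit 35) (nat_lit 184)) (rf (nat_lit 0)))))) q7723 (by decide +kernel)
def q7775 : Q := Q.p (nat_lit 0x30000040000100000400000000000000000000000000000000000) (nat_lit 0x80000000000200001800002000000000000000000000000) (nat_lit 3)
theorem c7775 : QOK q7775 := cut [q556] ⟨c556, trivial⟩ (nd (nat_lit 120) (nat_lit 0) (cs (rf (nat_lit 0)) (lf (nat_lit 28) (nat_lit 120)))) q7775 (by decide +kernel)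
def q7803 : Q := Q.p (nat_lit 0x8000070000040000000000000000000000000000000000000000000000) (nat_lit 0x3000008c000030000000000000000000000000000000000000000000000) (nat_lit 4)
theorem c7803 : QOK q7803 := cut [q7801] ⟨c7801, trivial⟩ (nd (nat_lit 185) (nat_lit 0) (cs (lf (nat_lit 18) (nat_lit 185)) (nd (nat_lit 207) (nat_lit 0) (cs (lf (nat_lit 23) (nat_lit 184)) (rf (nat_lit 0)))))) q7803 (by decide +kernel)
def q7812 : Q := Q.p (nat_lit 0x70000040000000000000000000000000000000000000000000000) (nat_lit 0x880000b0000000000000000000000000000000000000000000000) (nat_lit 3)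
theorem c7812 : QOK q7812 := cut [q5850] ⟨c5850, trivial⟩ (nd (nat_lit 185) (nat_lit 0) (cs (lf (nat_lit 18) (nat_lit 185)) (rf (nat_lit 0)))) q7812 (by decide +kernel)
def q7826 : Q := Q.p (nat_lit 0x2000000000078000040000000000000000000000000000000000000000000000) (nat_lit 0x800000000038000004000000000000000000000000000000000000000000000000000) (nat_lit 3)
theorem c7826 : QOK q7826 := cut [q7801] ⟨c7801, trivial⟩ (nd (nat_lit 231) (nat_lit 0) (cs (lf (nat_lit 42) (nat_lit 186)) (rf (nat_lit 0)))) q7826 (by decide +kernel)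
def q7864 : Q := Q.p (nat_lit 0x78000000000000000000000000000000000000000000000000000) (nat_lit 0x3b800004000000000000000000000000000000000000000000000000000) (nat_lit 4)
theorem c7864 : QOK q7864 := cut [q7862] ⟨c7862, trivial⟩ (nd (nat_lit 232) (nat_lit 0) (cs (lf (nat_lit 5) (nat_lit 207)) (nd (nat_lit 206) (nat_lit 0) (cs (lf (nat_lit 4) (nat_lit 206)) (rf (nat_lit 0)))))) q7864 (by decide +kernel)
def q7889 : Q := Q.p (nat_lit 0x3000004000010000040000000000000000000000000000000000000000000000) (nat_lit 0x200000800018000fe8001fa0007e80000000000000000000000000000000000000000) (nat_lit 11)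
theorem c7889 : QOK q7889 := cut [q376, q409, q4691] ⟨c376, c409, c4691, trivial⟩ (nd (nat_lit 251) (nat_lit 0) (cs (lf (nat_lit 41) (nat_lit 185)) (nd (nat_lit 187) (nat_lit 0) (cs (lf (nat_lit 35) (nat_lit 164)) (nd (nat_lit 188) (nat_lit 0) (cs (rf (nat_lit 0)) (cs (rf (nat_lit 1)) (nd (nat_lit 185) (nat_lit 0) (cs (lf (nat_lit 47) (nat_lit 163)) (nd (nat_lit 166) (nat_lit 0) (cs (lf (nat_lit 17) (nat_lit 163)) (nd (nat_lit 210) (nat_lit 0) (cs (lf (nat_lit 5) (nat_lit 185)) (rf (nat_lit 2))))))))))))))) q7889 (by decide +kernel)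
def q7954 : Q := Q.p (nat_lit 0x1c000010000000000000000000000000000000000000000000000000000) (nat_lit 0x2200000e000000000000000000000000000000000000000000000000000) (nat_lit 3)
theorem c7954 : QOK q7954 := cut [q3987] ⟨c3987, trivial⟩ (nd (nat_lit 207) (nat_lit 0) (cs (lf (nat_lit 18) (nat_lit 207)) (rf (nat_lit 0)))) q7954 (by decide +kernel)
def q7959 : Q := Q.p (nat_lit 0x200001c000010000140000000000000000000000000000000000000000000000) (nat_lit 0x200000c000020000cc000000000400000000000000000000000000000000000000000) (nat_lit 5)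
theorem c7959 : QOK q7959 := cut [q7956] ⟨c7956, trivial⟩ (nd (nat_lit 210) (nat_lit 0) (cs (lf (nat_lit 36) (nat_lit 165)) (nd (nat_lit 229) (nat_lit 0) (cs (lf (nat_lit 17) (nat_lit 207)) (nd (nat_lit 207) (nat_lit 0) (cs (lf (nat_lit 23) (nat_lit 206)) (rf (nat_lit 0)))))))) q7959 (by decide +kernel)
def q7963 : Q := Q.p (nat_lit 0x1c000040000000000000000000000000000000000000000000000000000) (nat_lit 0x22000380000000000000000000000000000000000000000000000000000) (nat_lit 3)
theorem c7963 : QOK q7963 := cut [q7962] ⟨c7962, trivial⟩ (nd (nat_lit 211) (nat_lit 0) (cs (lf (nat_lit 12) (nat_lit 207)) (rf (nat_lit 0)))) q7963 (by decide +kernel)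
def q7976 : Q := Q.p (nat_lit 0x200001c000010000000000000000000000000000000000000000000000000000) (nat_lit 0x1800060000008000000000000000000000000000000000000000000000000000) (nat_lit 3)
theorem c7976 : QOK q7976 := cut [q7975] ⟨c7975, trivial⟩ (nd (nat_lit 233) (nat_lit 0) (cs (lf (nat_lit 23) (nat_lit 207)) (rf (nat_lit 0)))) q7976 (by decide +kernel)
def q7989 : Q := Q.p (nat_lit 0x3c0000000000000000000000000000000000000000000000) (nat_lit 0x380000400003800000000000000000000000000000000000000000) (nat_lit 4)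
theorem c7989 : QOK q7989 := cut [q7985] ⟨c7985, trivial⟩ (nd (nat_lit 212) (nat_lit 0) (cs (nd (nat_lit 168) (nat_lit 0) (cs (rf (nat_lit 0)) (lf (nat_lit 16) (nat_lit 164)))) (lf (nat_lit 4) (nat_lit 186)))) q7989 (by decide +kernel)
def q7992 : Q := Q.p (nat_lit 0x100001e0000080000000000000000000000000000000000000000) (nat_lit 0x100000400000c000000000000000200000000000000000000000000000000000) (nat_lit 3)
theorem c7992 : QOK q7992 := cut [q7991] ⟨c7991, trivial⟩ (nd (nat_lit 230) (nat_lit 0) (cs (lf (nat_lit 42) (nat_lit 163)) (rf (nat_lit 0)))) q7992 (by decide +kernel)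
def q7997 : Q := Q.p (nat_lit 0x1e0000000000000000000000000000000000000000000000) (nat_lit 0x10000ee0000000000000000000000000000000000000000) (nat_lit 4)
theorem c7997 : QOK q7997 := cut [q4891] ⟨c4891, trivial⟩ (nd (nat_lit 166) (nat_lit 0) (cs (lf (nat_lit 17) (nat_lit 163)) (nd (nat_lit 184) (nat_lit 0) (cs (lf (nat_lit 16) (nat_lit 162)) (rf (nat_lit 0)))))) q7997 (by decide +kernel)
def q8001 : Q := Q.p (nat_lit 0x800001c0000000000000000000000000000000000000000000000) (nat_lit 0x340000220000000000000000000000000000000000000000000000) (nat_lit 3)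
theorem c8001 : QOK q8001 := cut [q8000] ⟨c8000, trivial⟩ (nd (nat_lit 210) (nat_lit 0) (cs (lf (nat_lit 0) (nat_lit 185)) (rf (nat_lit 0)))) q8001 (by decide +kernel)
def q8002 : Q := Q.p (nat_lit 0x800003c0000800000000000000000000000000000000000000000) (nat_lit 0x20000000000020000400001000004000000000000000000000000000000) (nat_lit 3)
theorem c8002 : QOK q8002 := cut [q4702] ⟨c4702, trivial⟩ (nd (nat_lit 166) (nat_lit 0) (cs (lf (nat_lit 12) (nat_lit 163)) (rf (nat_lit 0)))) q8002 (by decide +kernel)
def q8009 : Q := Q.p (nat_lit 0x80000300000400000000000000000000000000000000000000000) (nat_lit 0x8000020000040000000000000001000004000000000000000000000000000000) (nat_lit 3)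
theorem c8009 : QOK q8009 := cut [q8008] ⟨c8008, trivial⟩ (nd (nat_lit 233) (nat_lit 0) (cs (lf (nat_lit 42) (nat_lit 166)) (rf (nat_lit 0)))) q8009 (by decide +kernel)
def q8021 : Q := Q.p (nat_lit 0x100001c0000000000000000000000000000000000000000000000) (nat_lit 0xe000220000000000000000000000000000000000000000000000) (nat_lit 3)
theorem c8021 : QOK q8021 := cut [q7338] ⟨c7338, trivial⟩ (nd (nat_lit 207) (nat_lit 0) (cs (lf (nat_lit 6) (nat_lit 185)) (rf (nat_lit 0)))) q8021 (by decide +kernel)
def q8025 : Q := Q.p (nat_lit 0x1e0000000000000000000000000000000000000000000000) (nat_lit 0xe000010000e00000000000000000000000000000000000000000) (nat_lit 4)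
theorem c8025 : QOK q8025 := cut [q8023] ⟨c8023, trivial⟩ (nd (nat_lit 206) (nat_lit 0) (cs (lf (nat_lit 10) (nat_lit 184)) (nd (nat_lit 184) (nat_lit 0) (cs (lf (nat_lit 11) (nat_lit 183)) (rf (nat_lit 0)))))) q8025 (by decide +kernel)
def q8034 : Q := Q.p (nat_lit 0x400001c0000400001000000000000000000000000000000000000) (nat_lit 0x10000000000000003a00002000008000000000000000000000000000000) (nat_lit 4)
theorem c8034 : QOK q8034 := cut [q2645] ⟨c2645, trivial⟩ (nd (nat_lit 145) (nat_lit 0) (cs (lf (nat_lit 35) (nat_lit 122)) (nd (nat_lit 167) (nat_lit 0) (cs (rf (nat_lit 0)) (lf (nat_lit 30) (nat_lit 144)))))) q8034 (by decide +kernel)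
def q8043 : Q := Q.p (nat_lit 0x200000c0000600001800000000000000000000000000000000000) (nat_lit 0x1800000600001000000000000000000000000000000) (nat_lit 3)
theorem c8043 : QOK q8043 := cut [q8042] ⟨c8042, trivial⟩ (nd (nat_lit 167) (nat_lit 0) (cs (lf (nat_lit 6) (nat_lit 164)) (rf (nat_lit 0)))) q8043 (by decide +kernel)
def q8052 : Q := Q.p (nat_lit 0x40000100000400001000000000000000000000000000000000000) (nat_lit 0x10000000000000001800002e0000a000000000000000000000000000000) (nat_lit 5)
theorem c8052 : QOK q8052 := cut [q8049] ⟨c8049, trivial⟩ (nd (nat_lit 143) (nat_lit 0) (cs (lf (nat_lit 47) (nat_lit 121)) (nd (nat_lit 145) (nat_lit 0) (cs (lf (nat_lit 35) (nat_lit 122)) (nd (nat_lit 167) (nat_lit 0) (cs (lf (nat_lit 30) (nat_lit 144)) (rf (nat_lit 0)))))))) q8052 (by decide +kernel)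
def q8060 : Q := Q.p (nat_lit 0x200000c0000100000000000000000000000000000000000000000000000) (nat_lit 0x2000008000010000000000000000400001000000000000000000000000000000000000) (nat_lit 3)
theorem c8060 : QOK q8060 := cut [q8059] ⟨c8059, trivial⟩ (nd (nat_lit 255) (nat_lit 0) (cs (lf (nat_lit 42) (nat_lit 188)) (rf (nat_lit 0)))) q8060 (by decide +kernel)
def q8088 : Q := Q.p (nat_lit 0x20000000000100003c0000000000000000000000000000000000000000000000) (nat_lit 0x800000000008000020000400000400000000000000000000000000000000000000000) (nat_lit 3)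
theorem c8088 : QOK q8088 := cut [q4408] ⟨c4408, trivial⟩ (nd (nat_lit 209) (nat_lit 0) (cs (lf (nat_lit 6) (nat_lit 186)) (rf (nat_lit 0)))) q8088 (by decide +kernel)
def q8144 : Q := Q.p (nat_lit 0x300001c0000000000000000000000000000000000000000000000) (nat_lit 0x40000638001c00000000000000000000000000000000000000000) (nat_lit 5)
theorem c8144 : QOK q8144 := cut [q11] ⟨c11, trivial⟩ (nd (nat_lit 189) (nat_lit 0) (cs (lf (nat_lit 6) (nat_lit 186)) (nd (nat_lit 167) (nat_lit 0) (cs (lf (nat_lit 17) (nat_lit 164)) (nd (nat_lit 185) (nat_lit 0) (cs (rf (nat_lit 0)) (lf (nat_lit 16) (nat_lit 163)))))))) q8144 (by decide +kernel)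
def q8178 : Q := Q.p (nat_lit 0x1e00000000000000000000000000000000000) (nat_lit 0xe000010000e000000000000000000000000000000) (nat_lit 4)
theorem c8178 : QOK q8178 := cut [q8176] ⟨c8176, trivial⟩ (nd (nat_lit 122) (nat_lit 0) (cs (lf (nat_lit 17) (nat_lit 119)) (nd (nat_lit 140) (nat_lit 0) (cs (lf (nat_lit 16) (nat_lit 118)) (rf (nat_lit 0)))))) q8178 (by decide +kernel)
def q8182 : Q := Q.p (nat_lit 0x1e00000000000000000000000000000000000) (nat_lit 0xe0000100000e00000000000000000000000000000) (nat_lit 4)
theorem c8182 : QOK q8182 := cut [q8180] ⟨c8180, trivial⟩ (nd (nat_lit 162) (nat_lit 0) (cs (lf (nat_lit 10) (nat_lit 140)) (nd (nat_lit 140) (nat_lit 0) (cs (lf (nat_lit 11) (nat_lit 139)) (rf (nat_lit 0)))))) q8182 (by decide +kernel)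
def q8189 : Q := Q.p (nat_lit 0x1e00000800000000000000000000000000000) (nat_lit 0x380000e00007f000000000000000000000000000000) (nat_lit 7)
theorem c8189 : QOK q8189 := cut [q7486] ⟨c7486, trivial⟩ (nd (nat_lit 122) (nat_lit 0) (cs (lf (nat_lit 17) (nat_lit 119)) (nd (nat_lit 145) (nat_lit 0) (cs (lf (nat_lit 22) (nat_lit 119)) (nd (nat_lit 168) (nat_lit 0) (cs (nd (nat_lit 146) (nat_lit 0) (cs (lf (nat_lit 5) (nat_lit 143)) (nd (nat_lit 147) (nat_lit 0) (cs (rf (nat_lit 0)) (lf (nat_lit 23) (nat_lit 121)))))) (lf (nat_lit 4) (nat_lit 142)))))))) q8189 (by decide +kernel)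
def q8228 : Q := Q.p (nat_lit 0xf00000000000000000000000000000000000) (nat_lit 0x80007700000000000000000000000000000) (nat_lit 4)
theorem c8228 : QOK q8228 := cut [q5711] ⟨c5711, trivial⟩ (nd (nat_lit 121) (nat_lit 0) (cs (lf (nat_lit 17) (nat_lit 118)) (nd (nat_lit 139) (nat_lit 0) (cs (rf (nat_lit 0)) (lf (nat_lit 16) (nat_lit 117)))))) q8228 (by decide +kernel)
def q8250 : Q := Q.p (nat_lit 0x300000c0000100000400000000000000000000000000000000000) (nat_lit 0x200000c000300000000000000000000000000000000000000000000000) (nat_lit 3)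
theorem c8250 : QOK q8250 := cut [q561] ⟨c561, trivial⟩ (nd (nat_lit 207) (nat_lit 0) (cs (lf (nat_lit 41) (nat_lit 141)) (rf (nat_lit 0)))) q8250 (by decide +kernel)
def q8266 : Q := Q.p (nat_lit 0x200000c0000300000000000000000000000000000000000000000) (nat_lit 0x718001ce0007380004000000000000000000000000000000) (nat_lit 8)
theorem c8266 : QOK q8266 := cut [q3196, q8255] ⟨c3196, c8255, trivial⟩ (nd (nat_lit 163) (nat_lit 0) (cs (rf (nat_lit 0)) (cs (nd (nat_lit 162) (nat_lit 0) (cs (lf (nat_lit 0) (nat_lit 161)) (nd (nat_lit 183) (nat_lit 0) (cs (lf (nat_lit 10) (nat_lit 161)) (nd (nat_lit 140) (nat_lit 0) (cs (lf (nat_lit 23) (nat_lit 139)) (nd (nat_lit 166) (nat_lit 0) (cs (lf (nat_lit 22) (nat_lit 140)) (rf (nat_lit 1)))))))))) (nd (nat_lit 166) (nat_lit 0) (cs (rf (nat_lit 1)) (cs (nd (nat_lit 167) (nat_lit 0) (cs (lf (nat_lit 6) (nat_lit 164)) (nd (nat_lit 189) (nat_lit 0) (cs (lf (nat_lit 5) (nat_lit 164)) (lf (nat_lit 19) (nat_lit 163)))))) (nd (nat_lit 144) (nat_lit 0) (cs (lf (nat_lit 17) (nat_lit 141)) (nd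 (nat_lit 188) (nat_lit 0) (cs (lf (nat_lit 5) (nat_lit 163)) (lf (nat_lit 36) (nat_lit 121)))))))))))) q8266 (by decide +kernel)
def q8276 : Q := Q.p (nat_lit 0x300000c0000200000800000000000000000000000000000000000) (nat_lit 0x20000080000700001c8000700001c0000300000c000000000000000000000000000000) (nat_lit 10)
theorem c8276 : QOK q8276 := cut [q8269] ⟨c8269, trivial⟩ (nd (nat_lit 122) (nat_lit 0) (cs (lf (nat_lit 34) (nat_lit 121)) (nd (nat_lit 210) (nat_lit 0) (cs (lf (nat_lit 29) (nat_lit 143)) (nd (nat_lit 211) (nat_lit 0) (cs (lf (nat_lit 18) (nat_lit 186)) (nd (nat_lit 189) (nat_lit 0) (cs (lf (nat_lit 17) (nat_lit 186)) (nd (nat_lit 188) (nat_lit 0) (cs (lf (nat_lit 11) (nat_lit 185)) (nd (nat_lit 167) (nat_lit 0) (cs (lf (nat_lit 17) (nat_lit 164)) (nd (nat_lit 123) (nat_lit 0) (cs (lf (nat_lit 37) (nat_lit 122)) (rf (nat_lit 0)))))))))))))))) q8276 (by decide +kernel)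
def q8293 : Q := Q.p (nat_lit 0x20000080000300000800000000000000000000000000000000000) (nat_lit 0x4c0007000004000000000000000000000000000000) (nat_lit 4)
theorem c8293 : QOK q8293 := cut [q8292] ⟨c8292, trivial⟩ (nd (nat_lit 144) (nat_lit 0) (cs (lf (nat_lit 35) (nat_lit 121)) (rf (nat_lit 0)))) q8293 (by decide +kernel)
def q8299 : Q := Q.p (nat_lit 0x300000c0000100000400000000000000000000000000000000000) (nat_lit 0x200000e000100000000000000000000000000000000000000000000000) (nat_lit 3)
theorem c8299 : QOK q8299 := cut [q4073] ⟨c4073, trivial⟩ (nd (nat_lit 207) (nat_lit 0) (cs (lf (nat_lit 41) (nat_lit 141)) (rf (nat_lit 0)))) q8299 (by decide +kernel)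
def q8320 : Q := Q.p (nat_lit 0x300000600000000000000000000000000000000000) (nat_lit 0xc80000180000000000000000000000000000000000) (nat_lit 3)
theorem c8320 : QOK q8320 := cut [q3621] ⟨c3621, trivial⟩ (nd (nat_lit 166) (nat_lit 0) (cs (rf (nat_lit 0)) (lf (nat_lit 18) (nat_lit 141)))) q8320 (by decide +kernel)
def q8327 : Q := Q.p (nat_lit 0x300000c0000300000000000000000000000000000000000000000) (nat_lit 0x400000f80003800000000000000000000000000000) (nat_lit 5)
theorem c8327 : QOK q8327 := cut [q622] ⟨c622, trivial⟩ (nd (nat_lit 142) (nat_lit 0) (cs (lf (nat_lit 24) (nat_lit 120)) (nd (nat_lit 141) (nat_lit 0) (cs (lf (nat_lit 47) (nat_lit 119)) (nd (nat_lit 143) (nat_lit 0) (cs (lf (nat_lit 35) (nat_lit 120)) (rf (nat_lit 0)))))))) q8327 (by decide +kernel)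
def q8355 : Q := Q.p (nat_lit 0x100000c0000780000000000000000000000000000000000000000) (nat_lit 0x30000000000300000800000000000000000000000000000) (nat_lit 3)
theorem c8355 : QOK q8355 := cut [q8354] ⟨c8354, trivial⟩ (nd (nat_lit 185) (nat_lit 0) (cs (lf (nat_lit 12) (nat_lit 162)) (rf (nat_lit 0)))) q8355 (by decide +kernel)
def q8380 : Q := Q.p (nat_lit 0x300000c0000300000000000000000000000000000000000000000) (nat_lit 0x4c0007800006000000000000000000000000000000) (nat_lit 5)
theorem c8380 : QOK q8380 := cut [q4852] ⟨c4852, trivial⟩ (nd (nat_lit 143) (nat_lit 0) (cs (lf (nat_lit 36) (nat_lit 120)) (nd (nat_lit 144) (nat_lit 0) (cs (lf (nat_lit 35) (nat_lit 121)) (nd (nat_lit 163) (nat_lit 0) (cs (lf (nat_lit 12) (nat_lit 140)) (rf (nat_lit 0)))))))) q8380 (by decide +kernel)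
def q8397 : Q := Q.p (nat_lit 0x300000e0000000000000000000000000000000000000000000000) (nat_lit 0x60001180007e0001c00007000000000000000000000000000000) (nat_lit 9)
theorem c8397 : QOK q8397 := cut [q8391] ⟨c8391, trivial⟩ (nd (nat_lit 184) (nat_lit 0) (cs (lf (nat_lit 0) (nat_lit 183)) (nd (nat_lit 165) (nat_lit 0) (cs (lf (nat_lit 17) (nat_lit 162)) (nd (nat_lit 143) (nat_lit 0) (cs (lf (nat_lit 36) (nat_lit 120)) (nd (nat_lit 205) (nat_lit 0) (cs (lf (nat_lit 10) (nat_lit 183)) (nd (nat_lit 120) (nat_lit 0) (cs (lf (nat_lit 46) (nat_lit 120)) (nd (nat_lit 144) (nat_lit 0) (cs (lf (nat_lit 35) (nat_lit 121)) (rf (nat_lit 0)))))))))))))) q8397 (by decide +kernel)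
def q8404 : Q := Q.p (nat_lit 0x700001c0000400001000000000000000000000000000000000000) (nat_lit 0x10000000000000000300002f0000bc00000000000000000000000000000) (nat_lit 7)
theorem c8404 : QOK q8404 := cut [q8399] ⟨c8399, trivial⟩ (nd (nat_lit 123) (nat_lit 0) (cs (lf (nat_lit 34) (nat_lit 122)) (nd (nat_lit 143) (nat_lit 0) (cs (lf (nat_lit 47) (nat_lit 121)) (nd (nat_lit 165) (nat_lit 0) (cs (lf (nat_lit 42) (nat_lit 143)) (nd (nat_lit 142) (nat_lit 0) (cs (lf (nat_lit 47) (nat_lit 120)) (nd (nat_lit 141) (nat_lit 0) (cs (lf (nat_lit 0) (nat_lit 140)) (rf (nat_lit 0)))))))))))) q8404 (by decide +kernel)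
def q8418 : Q := Q.p (nat_lit 0x380000c0000200000000000000000000000000000000000000000) (nat_lit 0x2000000000000000180007c00007000000000000000000000000000000) (nat_lit 6)
theorem c8418 : QOK q8418 := cut [q1698] ⟨c1698, trivial⟩ (nd (nat_lit 143) (nat_lit 0) (cs (lf (nat_lit 36) (nat_lit 120)) (nd (nat_lit 144) (nat_lit 0) (cs (lf (nat_lit 35) (nat_lit 121)) (nd (nat_lit 142) (nat_lit 0) (cs (lf (nat_lit 47) (nat_lit 120)) (nd (nat_lit 164) (nat_lit 0) (cs (lf (nat_lit 41) (nat_lit 141)) (rf (nat_lit 0)))))))))) q8418 (by decide +kernel)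
def q8425 : Q := Q.p (nat_lit 0x300001e0000000000000000000000000000000000000000000000) (nat_lit 0x600001c00000000000000000000000000000000000000000) (nat_lit 3)
theorem c8425 : QOK q8425 := cut [q8424] ⟨c8424, trivial⟩ (nd (nat_lit 167) (nat_lit 0) (cs (lf (nat_lit 16) (nat_lit 163)) (rf (nat_lit 0)))) q8425 (by decide +kernel)
def q8433 : Q := Q.p (nat_lit 0x300000e0000400000000000000000000000000000000000000000) (nat_lit 0x8000700000800000000000000000000000000000000000000000) (nat_lit 3)
theorem c8433 : QOK q8433 := cut [q356] ⟨c356, trivial⟩ (nd (nat_lit 188) (nat_lit 0) (cs (rf (nat_lit 0)) (lf (nat_lit 17) (nat_lit 163)))) q8433 (by decide +kernel)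
def q8446 : Q := Q.p (nat_lit 0x700001c0000000000000000000000000000000000000000000000) (nat_lit 0x10000000000030000ec0003f0000f800000000000000000000000000000) (nat_lit 10)
theorem c8446 : QOK q8446 := cut [q8438] ⟨c8438, trivial⟩ (nd (nat_lit 185) (nat_lit 0) (cs (lf (nat_lit 0) (nat_lit 184)) (nd (nat_lit 166) (nat_lit 0) (cs (lf (nat_lit 17) (nat_lit 163)) (nd (nat_lit 144) (nat_lit 0) (cs (lf (nat_lit 36) (nat_lit 121)) (nd (nat_lit 163) (nat_lit 0) (cs (lf (nat_lit 23) (nat_lit 162)) (nd (nat_lit 123) (nat_lit 0) (cs (lf (nat_lit 34) (nat_lit 122)) (nd (nat_lit 141) (nat_lit 0) (cs (lf (nat_lit 24) (nat_lit 119)) (nd (nat_lit 143) (nat_lit 0) (cs (lf (nat_lit 47) (nat_lit 121)) (nd (nat_lit 165) (nat_lit 0) (cs (lf (nat_lit 29) (nat_lit 143)) (rf (nat_lit 0)))))))))))))))))) q8446 (by decide +kernel)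
def q8495 : Q := Q.p (nat_lit 0x600001e0000000000000000000000000000000000000000000000) (nat_lit 0x10000000000000000fc000f80000e000000000000000000000000000000) (nat_lit 8)
theorem c8495 : QOK q8495 := cut [q8489] ⟨c8489, trivial⟩ (nd (nat_lit 166) (nat_lit 0) (cs (lf (nat_lit 17) (nat_lit 163)) (nd (nat_lit 144) (nat_lit 0) (cs (lf (nat_lit 36) (nat_lit 121)) (nd (nat_lit 162) (nat_lit 0) (cs (lf (nat_lit 22) (nat_lit 162)) (nd (nat_lit 145) (nat_lit 0) (cs (lf (nat_lit 35) (nat_lit 122)) (nd (nat_lit 143) (nat_lit 0) (cs (lf (nat_lit 47) (nat_lit 121)) (nd (nat_lit 165) (nat_lit 0) (cs (lf (nat_lit 29) (nat_lit 143)) (rf (nat_lit 0)))))))))))))) q8495 (by decide +kernel)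
def q8520 : Q := Q.p (nat_lit 0x80000300000e0000000000000000000000000000000000000000000000) (nat_lit 0x1000000e000118000060000000000000000000000000000000000000000) (nat_lit 5)
theorem c8520 : QOK q8520 := cut [q8518] ⟨c8518, trivial⟩ (nd (nat_lit 184) (nat_lit 0) (cs (lf (nat_lit 0) (nat_lit 183)) (nd (nat_lit 161) (nat_lit 0) (cs (lf (nat_lit 22) (nat_lit 161)) (rf (nat_lit 0)))))) q8520 (by decide +kernel)
def q8545 : Q := Q.p (nat_lit 0x300001e0000000000000000000000000000000000000000000000) (nat_lit 0x1c0000600000000000000000000000000000000000000000000000) (nat_lit 3)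
theorem c8545 : QOK q8545 := cut [q8544] ⟨c8544, trivial⟩ (nd (nat_lit 211) (nat_lit 0) (cs (lf (nat_lit 4) (nat_lit 185)) (rf (nat_lit 0)))) q8545 (by decide +kernel)
def q8563 : Q := Q.p (nat_lit 0x1000004000010000040000000000000000000000000000000000000000) (nat_lit 0x200000800002000000000080000300000800000000000000000000000000000) (nat_lit 4)
theorem c8563 : QOK q8563 := cut [q8561] ⟨c8561, trivial⟩ (nd (nat_lit 141) (nat_lit 0) (cs (lf (nat_lit 34) (nat_lit 140)) (nd (nat_lit 140) (nat_lit 0) (cs (lf (nat_lit 35) (nat_lit 118)) (rf (nat_lit 0)))))) q8563 (by decide +kernel)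
def q8565 : Q := Q.p (nat_lit 0x200001000004000010000040000000000000000000000000000000000000000) (nat_lit 0x80000400000000000000008000020000080000000000000000000000000000000000) (nat_lit 3)
theorem c8565 : QOK q8565 := cut [q2511] ⟨c2511, trivial⟩ (nd (nat_lit 250) (nat_lit 0) (cs (lf (nat_lit 41) (nat_lit 183)) (rf (nat_lit 0)))) q8565 (by decide +kernel)
def q8577 : Q := Q.p (nat_lit 0x4000010000060000000000000000000000000000000000000000000000) (nat_lit 0x1000000000008000000000080000200000800000000000000000000000000000) (nat_lit 3)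
theorem c8577 : QOK q8577 := cut [q8576] ⟨c8576, trivial⟩ (nd (nat_lit 163) (nat_lit 0) (cs (lf (nat_lit 42) (nat_lit 163)) (rf (nat_lit 0)))) q8577 (by decide +kernel)
def q8581 : Q := Q.p (nat_lit 0x2000004000010000040000100000000000000000000000000000000000000000) (nat_lit 0x800001000000000000000020000080000200000000000000000000000000000000000) (nat_lit 3)
theorem c8581 : QOK q8581 := cut [q497] ⟨c497, trivial⟩ (nd (nat_lit 252) (nat_lit 0) (cs (lf (nat_lit 29) (nat_lit 186)) (rf (nat_lit 0)))) q8581 (by decide +kernel)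
def q8586 : Q := Q.p (nat_lit 0x40000900003800008000000000000000000000000000000) (nat_lit 0x120000600004000000000020000080000000000000000000) (nat_lit 4)
theorem c8586 : QOK q8586 := cut [q8585] ⟨c8585, trivial⟩ (nd (nat_lit 165) (nat_lit 0) (cs (lf (nat_lit 6) (nat_lit 142)) (rf (nat_lit 0)))) q8586 (by decide +kernel)
def q8616 : Q := Q.p (nat_lit 0x2000004000010000040000100000000000000000000000000000000000000000) (nat_lit 0x800001000002000008000020000280000c00003000000000000000000000000000000) (nat_lit 6)
theorem c8616 : QOK q8616 := cut [q8612] ⟨c8612, trivial⟩ (nd (nat_lit 143) (nat_lit 0) (cs (lf (nat_lit 34) (nat_lit 142)) (nd (nat_lit 252) (nat_lit 0) (cs (lf (nat_lit 29) (nat_lit 186)) (nd (nat_lit 142) (nat_lit 0) (cs (lf (nat_lit 35) (nat_lit 120)) (nd (nat_lit 185) (nat_lit 0) (cs (lf (nat_lit 47) (nat_lit 163)) (rf (nat_lit 0)))))))))) q8616 (by decide +kernel)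
def q8621 : Q := Q.p (nat_lit 0x10000060000080000000000000000000000000000000000000000) (nat_lit 0x1000004000008000000000000000200000800000000000000000000000000000) (nat_lit 3)
theorem c8621 : QOK q8621 := cut [q8576] ⟨c8576, trivial⟩ (nd (nat_lit 230) (nat_lit 0) (cs (lf (nat_lit 42) (nat_lit 163)) (rf (nat_lit 0)))) q8621 (by decide +kernel)
def q8622 : Q := Q.p (nat_lit 0xe0000080000000000000000000000000000000000000000) (nat_lit 0x100000170000000000000000000000000000000000000000) (nat_lit 3)
theorem c8622 : QOK q8622 := cut [q3738] ⟨c3738, trivial⟩ (nd (nat_lit 162) (nat_lit 0) (cs (lf (nat_lit 18) (nat_lit 162)) (rf (nat_lit 0)))) q8622 (by decide +kernel)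
def q8623 : Q := Q.p (nat_lit 0x10000060000080000000000000000000000000000000000000000) (nat_lit 0x1000004000000000000000100000200000800000000000000000000000000000) (nat_lit 3)
theorem c8623 : QOK q8623 := cut [q1173] ⟨c1173, trivial⟩ (nd (nat_lit 230) (nat_lit 0) (cs (lf (nat_lit 42) (nat_lit 163)) (rf (nat_lit 0)))) q8623 (by decide +kernel)
def q8633 : Q := Q.p (nat_lit 0x4000010000060000180000000000000000000000000000000000000000) (nat_lit 0x380000e700009c0000000000000000000000000000000000) (nat_lit 7)
theorem c8633 : QOK q8633 := cut [q2760] ⟨c2760, trivial⟩ (nd (nat_lit 165) (nat_lit 0) (cs (lf (nat_lit 35) (nat_lit 142)) (nd (nat_lit 166) (nat_lit 0) (cs (lf (nat_lit 6) (nat_lit 163)) (nd (nat_lit 188) (nat_lit 0) (cs (lf (nat_lit 5) (nat_lit 163)) (nd (nat_lit 162) (nat_lit 0) (cs (lf (nat_lit 19) (nat_lit 162)) (nd (nat_lit 161) (nat_lit 0) (cs (lf (nat_lit 0) (nat_lit 160)) (rf (nat_lit 0)))))))))))) q8633 (by decide +kernel)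
def q8636 : Q := Q.p (nat_lit 0x4000010000060000100000000000000000000000000000000000000000) (nat_lit 0x2000008000000000080000600001800000000000000000000000000000) (nat_lit 4)
theorem c8636 : QOK q8636 := cut [q8612] ⟨c8612, trivial⟩ (nd (nat_lit 141) (nat_lit 0) (cs (lf (nat_lit 46) (nat_lit 141)) (nd (nat_lit 142) (nat_lit 0) (cs (lf (nat_lit 47) (nat_lit 119)) (rf (nat_lit 0)))))) q8636 (by decide +kernel)
def q8638 : Q := Q.p (nat_lit 0x4000010000060000100000000000000000000000000000000000000000) (nat_lit 0x2000008000000000200000c00003000000000000000000000000000000) (nat_lit 4)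
theorem c8638 : QOK q8638 := cut [q8612] ⟨c8612, trivial⟩ (nd (nat_lit 143) (nat_lit 0) (cs (lf (nat_lit 34) (nat_lit 142)) (nd (nat_lit 142) (nat_lit 0) (cs (lf (nat_lit 35) (nat_lit 120)) (rf (nat_lit 0)))))) q8638 (by decide +kernel)
def q8643 : Q := Q.p (nat_lit 0x10000060000180000000000000000000000000000000000000000) (nat_lit 0x1000004000008000000000200000c00003000004000000000000000000000000) (nat_lit 5)
theorem c8643 : QOK q8643 := cut [q4998] ⟨c4998, trivial⟩ (nd (nat_lit 230) (nat_lit 0) (cs (lf (nat_lit 42) (nat_lit 163)) (nd (nat_lit 143) (nat_lit 0) (cs (lf (nat_lit 34) (nat_lit 142)) (nd (nat_lit 142) (nat_lit 0) (cs (lf (nat_lit 35) (nat_lit 120)) (rf (nat_lit 0)))))))) q8643 (by decide +kernel)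
def q8658 : Q := Q.p (nat_lit 0x2000008000020000080000000000000000000000000000000000) (nat_lit 0x140000700001400000000000000000000000) (nat_lit 4)
theorem c8658 : QOK q8658 := cut [q8656] ⟨c8656, trivial⟩ (nd (nat_lit 118) (nat_lit 0) (cs (lf (nat_lit 34) (nat_lit 117)) (nd (nat_lit 117) (nat_lit 0) (cs (lf (nat_lit 35) (nat_lit 95)) (rf (nat_lit 0)))))) q8658 (by decide +kernel)
def q8669 : Q := Q.p (nat_lit 0x2000008000020000080000000000000000000000000000000000) (nat_lit 0x400001000004000000000100000600001000000000000000000000000) (nat_lit 4)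
theorem c8669 : QOK q8669 := cut [q8667] ⟨c8667, trivial⟩ (nd (nat_lit 118) (nat_lit 0) (cs (lf (nat_lit 34) (nat_lit 117)) (nd (nat_lit 117) (nat_lit 0) (cs (lf (nat_lit 35) (nat_lit 95)) (rf (nat_lit 0)))))) q8669 (by decide +kernel)
def q8687 : Q := Q.p (nat_lit 0x1a000060000020000000000000000000000000000000000000000) (nat_lit 0x2500001c000010000000000000000000000000000000000000000) (nat_lit 4)
theorem c8687 : QOK q8687 := cut [q8665] ⟨c8665, trivial⟩ (nd (nat_lit 206) (nat_lit 0) (cs (lf (nat_lit 12) (nat_lit 182)) (nd (nat_lit 183) (nat_lit 0) (cs (lf (nat_lit 23) (nat_lit 182)) (rf (nat_lit 0)))))) q8687 (by decide +kernel)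
def q8695 : Q := Q.p (nat_lit 0x100000600001c0000000000000000000000000000000000000000) (nat_lit 0x2000001c0002300000c0000000000000000000000000000000000) (nat_lit 5)
theorem c8695 : QOK q8695 := cut [q8693] ⟨c8693, trivial⟩ (nd (nat_lit 161) (nat_lit 0) (cs (lf (nat_lit 0) (nat_lit 160)) (nd (nat_lit 138) (nat_lit 0) (cs (lf (nat_lit 22) (nat_lit 138)) (rf (nat_lit 0)))))) q8695 (by decide +kernel)
def q8700 : Q := Q.p (nat_lit 0x80001e0000000000000000000000000000000000000000) (nat_lit 0x20000000002000001c0000400001000000000000000000000000) (nat_lit 4)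
theorem c8700 : QOK q8700 := cut [q8698] ⟨c8698, trivial⟩ (nd (nat_lit 139) (nat_lit 0) (cs (lf (nat_lit 23) (nat_lit 138)) (nd (nat_lit 140) (nat_lit 0) (cs (lf (nat_lit 18) (nat_lit 139)) (rf (nat_lit 0)))))) q8700 (by decide +kernel)
def q8715 : Q := Q.p (nat_lit 0x78000060000000000000000000000000000000000000000) (nat_lit 0x800003000000000000000100000400000000000000000000000000000) (nat_lit 3)
theorem c8715 : QOK q8715 := cut [q3578] ⟨c3578, trivial⟩ (nd (nat_lit 205) (nat_lit 0) (cs (lf (nat_lit 11) (nat_lit 182)) (rf (nat_lit 0)))) q8715 (by decide +kernel)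
def q8722 : Q := Q.p (nat_lit 0x100000600001c0000000000000000000000000000000000000000) (nat_lit 0x100000400002000001c000230000000000000000000000000000000000000000) (nat_lit 5)
theorem c8722 : QOK q8722 := cut [q8693] ⟨c8693, trivial⟩ (nd (nat_lit 230) (nat_lit 0) (cs (lf (nat_lit 42) (nat_lit 163)) (nd (nat_lit 161) (nat_lit 0) (cs (lf (nat_lit 0) (nat_lit 160)) (rf (nat_lit 0)))))) q8722 (by decide +kernel)
def q8741 : Q := Q.p (nat_lit 0x1c000060000080000000000000000000000000000000000000000) (nat_lit 0xc0002300001c0003700000c0000300000000000000000000000000000) (nat_lit 9)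
theorem c8741 : QOK q8741 := cut [q8735] ⟨c8735, trivial⟩ (nd (nat_lit 205) (nat_lit 0) (cs (lf (nat_lit 12) (nat_lit 182)) (nd (nat_lit 183) (nat_lit 0) (cs (lf (nat_lit 23) (nat_lit 182)) (nd (nat_lit 226) (nat_lit 0) (cs (lf (nat_lit 10) (nat_lit 204)) (nd (nat_lit 184) (nat_lit 0) (cs (lf (nat_lit 5) (nat_lit 183)) (nd (nat_lit 164) (nat_lit 0) (cs (lf (nat_lit 17) (nat_lit 161)) (nd (nat_lit 161) (nat_lit 0) (cs (lf (nat_lit 23) (nat_lit 160)) (rf (nat_lit 0)))))))))))))) q8741 (by decide +kernel)
def q8750 : Q := Q.p (nat_lit 0x10000078000000000000000000000000000000000000000000000) (nat_lit 0x4000000000004000380000200000800000000000000000000000000000) (nat_lit 4)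
theorem c8750 : QOK q8750 := cut [q8748] ⟨c8748, trivial⟩ (nd (nat_lit 164) (nat_lit 0) (cs (lf (nat_lit 17) (nat_lit 161)) (nd (nat_lit 163) (nat_lit 0) (cs (lf (nat_lit 12) (nat_lit 160)) (rf (nat_lit 0)))))) q8750 (by decide +kernel)
def q8755 : Q := Q.p (nat_lit 0x100000f0000000000000000000000000000000000000000000000) (nat_lit 0x1000004000060000000000600000800000000000000000000000000000000000) (nat_lit 4)
theorem c8755 : QOK q8755 := cut [q8753] ⟨c8753, trivial⟩ (nd (nat_lit 165) (nat_lit 0) (cs (lf (nat_lit 17) (nat_lit 162)) (nd (nat_lit 230) (nat_lit 0) (cs (lf (nat_lit 30) (nat_lit 164)) (rf (nat_lit 0)))))) q8755 (by decide +kernel)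
def q8766 : Q := Q.p (nat_lit 0x20000000000300000c0000000000800000000000000000000000000000000000) (nat_lit 0xc00001000004000000000000000200000000000000000000000000000000000000000) (nat_lit 3)
theorem c8766 : QOK q8766 := cut [q2920] ⟨c2920, trivial⟩ (nd (nat_lit 230) (nat_lit 0) (cs (lf (nat_lit 37) (nat_lit 142)) (rf (nat_lit 0)))) q8766 (by decide +kernel)
def q8790 : Q := Q.p (nat_lit 0x300000f0000040000000000000000000000000000000000000000) (nat_lit 0x780001e00007000000000000000000000000000000) (nat_lit 6)
theorem c8790 : QOK q8790 := cut [q8788] ⟨c8788, trivial⟩ (nd (nat_lit 165) (nat_lit 0) (cs (lf (nat_lit 17) (nat_lit 162)) (nd (nat_lit 143) (nat_lit 0) (cs (lf (nat_lit 36) (nat_lit 120)) (rf (nat_lit 0)))))) q8790 (by decide +kernel)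
def q8800 : Q := Q.p (nat_lit 0x40000180000e0000000000000000000000000000000000000000000000) (nat_lit 0x3000000c0000200000000000000000000000000000000000) (nat_lit 3)
theorem c8800 : QOK q8800 := cut [q6511] ⟨c6511, trivial⟩ (nd (nat_lit 163) (nat_lit 0) (cs (lf (nat_lit 24) (nat_lit 141)) (rf (nat_lit 0)))) q8800 (by decide +kernel)
def q8865 : Q := Q.p (nat_lit 0x78000040000000000000000000000000000000000000000000000) (nat_lit 0x1c000060000b8000000000000000000000000000000000000000000000) (nat_lit 5)
theorem c8865 : QOK q8865 := cut [q1075] ⟨c1075, trivial⟩ (nd (nat_lit 184) (nat_lit 0) (cs (lf (nat_lit 22) (nat_lit 184)) (nd (nat_lit 206) (nat_lit 0) (cs (lf (nat_lit 23) (nat_lit 183)) (nd (nat_lit 205) (nat_lit 0) (cs (rf (nat_lit 0)) (lf (nat_lit 17) (nat_lit 183)))))))) q8865 (by decide +kernel)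
def q8886 : Q := Q.p (nat_lit 0x80000300000c0000000000800000000000000000000000000000000000) (nat_lit 0x600001000006000000000000000000000000000000) (nat_lit 3)
theorem c8886 : QOK q8886 := cut [q2333] ⟨c2333, trivial⟩ (nd (nat_lit 165) (nat_lit 0) (cs (lf (nat_lit 36) (nat_lit 120)) (rf (nat_lit 0)))) q8886 (by decide +kernel)
def q8931 : Q := Q.p (nat_lit 0x1000000000030000060000000000000000000000000000000000000000000000) (nat_lit 0x400000000004000000000080000280000000000000000000000000000000000000000) (nat_lit 3)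
theorem c8931 : QOK q8931 := cut [q1819] ⟨c1819, trivial⟩ (nd (nat_lit 230) (nat_lit 0) (cs (lf (nat_lit 47) (nat_lit 163)) (rf (nat_lit 0)))) q8931 (by decide +kernel)
def q8949 : Q := Q.p (nat_lit 0x100000c0000100000400000000000000000000000000000000000) (nat_lit 0x20000000000000000200001800002000000000000000000000000) (nat_lit 3)
theorem c8949 : QOK q8949 := cut [q556] ⟨c556, trivial⟩ (nd (nat_lit 120) (nat_lit 0) (cs (rf (nat_lit 0)) (lf (nat_lit 29) (nat_lit 120)))) q8949 (by decide +kernel)
def q8955 : Q := Q.p (nat_lit 0x100001c0000000000e00000000000000000000000000000000000) (nat_lit 0x4000020000000000dc000300000c000000000000000000000000000000) (nat_lit 4)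
theorem c8955 : QOK q8955 := cut [q8952] ⟨c8952, trivial⟩ (nd (nat_lit 144) (nat_lit 0) (cs (rf (nat_lit 0)) (nd (nat_lit 163) (nat_lit 0) (cs (lf (nat_lit 11) (nat_lit 140)) (nd (nat_lit 164) (nat_lit 0) (cs (lf (nat_lit 6) (nat_lit 141)) (lf (nat_lit 42) (nat_lit 141)))))))) q8955 (by decide +kernel)
def q8958 : Q := Q.p (nat_lit 0x20000000000100000c0000000000600000000000000000000000000000000000) (nat_lit 0xc00001000004000020000000000180000000001800000000000000000000000000000) (nat_lit 5)
theorem c8958 : QOK q8958 := cut [q2920] ⟨c2920, trivial⟩ (nd (nat_lit 164) (nat_lit 0) (cs (lf (nat_lit 47) (nat_lit 119)) (nd (nat_lit 230) (nat_lit 0) (cs (lf (nat_lit 46) (nat_lit 141)) (nd (nat_lit 209) (nat_lit 0) (cs (lf (nat_lit 24) (nat_lit 120)) (rf (nat_lit 0)))))))) q8958 (by decide +kernel)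
def q8961 : Q := Q.p (nat_lit 0x100000000001800002000000000000000000000000000000) (nat_lit 0x40000000000400000000004000008000020000000000000000000) (nat_lit 3)
theorem c8961 : QOK q8961 := cut [q4978] ⟨c4978, trivial⟩ (nd (nat_lit 166) (nat_lit 0) (cs (lf (nat_lit 42) (nat_lit 121)) (rf (nat_lit 0)))) q8961 (by decide +kernel)
def q8980 : Q := Q.p (nat_lit 0x100000000003c00000000000000000000000000000000000) (nat_lit 0x4000000000040000000001d800020000080000000000000000000) (nat_lit 5)
theorem c8980 : QOK q8980 := cut [q8979] ⟨c8979, trivial⟩ (nd (nat_lit 119) (nat_lit 0) (cs (lf (nat_lit 22) (nat_lit 119)) (rf (nat_lit 0)))) q8980 (by decide +kernel)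
def q8993 : Q := Q.p (nat_lit 0x10000040000000000c00000000000000000000000000000000000) (nat_lit 0x40000000000000001c0003200002800000000000000000000000000000) (nat_lit 5)
theorem c8993 : QOK q8993 := cut [q1926] ⟨c1926, trivial⟩ (nd (nat_lit 164) (nat_lit 0) (cs (lf (nat_lit 35) (nat_lit 120)) (nd (nat_lit 141) (nat_lit 0) (cs (lf (nat_lit 47) (nat_lit 119)) (nd (nat_lit 163) (nat_lit 0) (cs (rf (nat_lit 0)) (lf (nat_lit 42) (nat_lit 141)))))))) q8993 (by decide +kernel)
def q9009 : Q := Q.p (nat_lit 0x180000400001800000000000000000000000000000000000) (nat_lit 0x60000000000000000000006000008000000000000000000000000) (nat_lit 3)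
theorem c9009 : QOK q9009 := cut [q9008] ⟨c9008, trivial⟩ (nd (nat_lit 122) (nat_lit 0) (cs (lf (nat_lit 41) (nat_lit 121)) (rf (nat_lit 0)))) q9009 (by decide +kernel)
def q9013 : Q := Q.p (nat_lit 0x3c00000000000000000000000000000000000) (nat_lit 0x1c00000200001c00000000000000000000000000000) (nat_lit 4)
theorem c9013 : QOK q9013 := cut [q5723] ⟨c5723, trivial⟩ (nd (nat_lit 167) (nat_lit 0) (cs (lf (nat_lit 5) (nat_lit 142)) (nd (nat_lit 141) (nat_lit 0) (cs (rf (nat_lit 0)) (lf (nat_lit 4) (nat_lit 141)))))) q9013 (by decide +kernel)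
def q9015 : Q := Q.p (nat_lit 0x3c00000000000000000000000000000000000) (nat_lit 0x20001dc00000000000000000000000000000) (nat_lit 4)
theorem c9015 : QOK q9015 := cut [q5723] ⟨c5723, trivial⟩ (nd (nat_lit 123) (nat_lit 0) (cs (lf (nat_lit 17) (nat_lit 120)) (nd (nat_lit 141) (nat_lit 0) (cs (rf (nat_lit 0)) (lf (nat_lit 16) (nat_lit 119)))))) q9015 (by decide +kernel)
def q9027 : Q := Q.p (nat_lit 0x180000000001c00000000000000000000000000000000000) (nat_lit 0x6000000000040000020003e000028000000000000000000000000) (nat_lit 4)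
theorem c9027 : QOK q9027 := cut [q9020, q9008, q9026] ⟨c9020, c9008, c9026, trivial⟩ (nd (nat_lit 122) (nat_lit 0) (cs (nd (nat_lit 123) (nat_lit 0) (cs (lf (nat_lit 12) (nat_lit 119)) (rf (nat_lit 0)))) (cs (nd (nat_lit 166) (nat_lit 0) (cs (lf (nat_lit 41) (nat_lit 121)) (rf (nat_lit 1)))) (rf (nat_lit 2))))) q9027 (by decide +kernel)
def q9038 : Q := Q.p (nat_lit 0x3c00000000000000000000000000000000000) (nat_lit 0x3800004000038000000000000000000000000000000) (nat_lit 4)
theorem c9038 : QOK q9038 := cut [q9036] ⟨c9036, trivial⟩ (nd (nat_lit 124) (nat_lit 0) (cs (lf (nat_lit 16) (nat_lit 120)) (nd (nat_lit 146) (nat_lit 0) (cs (lf (nat_lit 17) (nat_lit 121)) (rf (nat_lit 0)))))) q9038 (by decide +kernel)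
def q9047 : Q := Q.p (nat_lit 0x100001c0000000000000000000000000000000000000000000000) (nat_lit 0x3a8000600000180000000000000000000000000000000000000000) (nat_lit 5)
theorem c9047 : QOK q9047 := cut [q9045] ⟨c9045, trivial⟩ (nd (nat_lit 189) (nat_lit 0) (cs (lf (nat_lit 11) (nat_lit 185)) (nd (nat_lit 163) (nat_lit 0) (cs (lf (nat_lit 22) (nat_lit 163)) (rf (nat_lit 0)))))) q9047 (by decide +kernel)
def q9055 : Q := Q.p (nat_lit 0x100003c0000000000000000000000000000000000000000000000) (nat_lit 0x20000400003800000000000000000000000000000000000000000) (nat_lit 3)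
theorem c9055 : QOK q9055 := cut [q9054] ⟨c9054, trivial⟩ (nd (nat_lit 190) (nat_lit 0) (cs (lf (nat_lit 10) (nat_lit 186)) (rf (nat_lit 0)))) q9055 (by decide +kernel)
def q9064 : Q := Q.p (nat_lit 0x80000200000c00000000000000000000000000000000000) (nat_lit 0x20000000000100000000001000004000010000000000000000000) (nat_lit 3)
theorem c9064 : QOK q9064 := cut [q9062] ⟨c9062, trivial⟩ (nd (nat_lit 120) (nat_lit 0) (cs (rf (nat_lit 0)) (lf (nat_lit 42) (nat_lit 120)))) q9064 (by decide +kernel)
def q9072 : Q := Q.p (nat_lit 0x40000300000800000000000000000000000000000) (nat_lit 0x4000010000080000000000000002000008000000000000000000) (nat_lit 3)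
theorem c9072 : QOK q9072 := cut [q9071] ⟨c9071, trivial⟩ (nd (nat_lit 184) (nat_lit 0) (cs (lf (nat_lit 30) (nat_lit 118)) (rf (nat_lit 0)))) q9072 (by decide +kernel)
def q9080 : Q := Q.p (nat_lit 0x10000040000000000e00000000000000000000000000000000000) (nat_lit 0x100001000001f00000000000000000000000000000) (nat_lit 4)
theorem c9080 : QOK q9080 := cut [q9079] ⟨c9079, trivial⟩ (nd (nat_lit 119) (nat_lit 0) (cs (lf (nat_lit 44) (nat_lit 119)) (rf (nat_lit 0)))) q9080 (by decide +kernel)
def q9084 : Q := Q.p (nat_lit 0x100000c0000000000800000000000000000000000000000000000) (nat_lit 0x1000004000020000000000200000000002000000000000000000000000000000) (nat_lit 3)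
theorem c9084 : QOK q9084 := cut [q9058] ⟨c9058, trivial⟩ (nd (nat_lit 165) (nat_lit 0) (cs (lf (nat_lit 36) (nat_lit 120)) (rf (nat_lit 0)))) q9084 (by decide +kernel)
def q9085 : Q := Q.p (nat_lit 0x100000c0000000000800000000000000000000000000000000000) (nat_lit 0x1000004000000000000000300000000002000000000000000000000000000000) (nat_lit 3)
theorem c9085 : QOK q9085 := cut [q9059] ⟨c9059, trivial⟩ (nd (nat_lit 165) (nat_lit 0) (cs (lf (nat_lit 36) (nat_lit 120)) (rf (nat_lit 0)))) q9085 (by decide +kernel)
def q9093 : Q := Q.p (nat_lit 0x1e00002000000000000000000000000000000) (nat_lit 0x1c00006000039000000000000000000000000000000) (nat_lit 5)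
theorem c9093 : QOK q9093 := cut [q9089] ⟨c9089, trivial⟩ (nd (nat_lit 167) (nat_lit 0) (cs (lf (nat_lit 4) (nat_lit 141)) (nd (nat_lit 145) (nat_lit 0) (cs (lf (nat_lit 5) (nat_lit 142)) (nd (nat_lit 146) (nat_lit 0) (cs (rf (nat_lit 0)) (lf (nat_lit 23) (nat_lit 120)))))))) q9093 (by decide +kernel)
def q9117 : Q := Q.p (nat_lit 0x10000040000000000f00000000000000000000000000000000000) (nat_lit 0xc0000300000e0000000006e00003000000000000000000000000) (nat_lit 7)
theorem c9117 : QOK q9117 := cut [q9115] ⟨c9115, trivial⟩ (nd (nat_lit 118) (nat_lit 0) (cs (lf (nat_lit 23) (nat_lit 117)) (nd (nat_lit 185) (nat_lit 0) (cs (nd (nat_lit 163) (nat_lit 0) (cs (lf (nat_lit 24) (nat_lit 119)) (lf (nat_lit 42) (nat_lit 118)))) (cs (nd (nat_lit 162) (nat_lit 0) (cs (lf (nat_lit 11) (nat_lit 139)) (nd (nat_lit 121) (nat_lit 0) (cs (lf (nat_lit 17) (nat_lit 118)) (nd (nat_lit 184) (nat_lit 0) (cs (lf (nat_lit 29) (nat_lit 118)) (nd (nat_lit 119) (nat_lit 0) (cs (lf (nat_lit 35) (nat_lit 96)) (lf (nat_lit 30) (nat_lit 118)))))))))) (cs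 (nd (nat_lit 162) (nat_lit 0) (cs (lf (nat_lit 11) (nat_lit 139)) (nd (nat_lit 207) (nat_lit 0) (cs (lf (nat_lit 27) (nat_lit 118)) (lf (nat_lit 44) (nat_lit 118)))))) (rf (nat_lit 0)))))))) q9117 (by decide +kernel)
def q9131 : Q := Q.p (nat_lit 0x1e00000000000000000000000000000000000) (nat_lit 0xe0006180007800000000000000000000000000000) (nat_lit 6)
theorem c9131 : QOK q9131 := cut [q9127] ⟨c9127, trivial⟩ (nd (nat_lit 162) (nat_lit 0) (cs (lf (nat_lit 10) (nat_lit 140)) (nd (nat_lit 140) (nat_lit 0) (cs (lf (nat_lit 11) (nat_lit 139)) (nd (nat_lit 121) (nat_lit 0) (cs (lf (nat_lit 17) (nat_lit 118)) (nd (nat_lit 120) (nat_lit 0) (cs (lf (nat_lit 12) (nat_lit 117)) (rf (nat_lit 0)))))))))) q9131 (by decide +kernel)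
def q9143 : Q := Q.p (nat_lit 0xf00000000000000000000000000000000000) (nat_lit 0x700000c0003b80000000000000000000000000000) (nat_lit 6)
theorem c9143 : QOK q9143 := cut [q9139] ⟨c9139, trivial⟩ (nd (nat_lit 161) (nat_lit 0) (cs (lf (nat_lit 10) (nat_lit 139)) (nd (nat_lit 139) (nat_lit 0) (cs (lf (nat_lit 11) (nat_lit 138)) (nd (nat_lit 116) (nat_lit 0) (cs (lf (nat_lit 22) (nat_lit 116)) (nd (nat_lit 138) (nat_lit 0) (cs (lf (nat_lit 23) (nat_lit 115)) (rf (nat_lit 0)))))))))) q9143 (by decide +kernel)
def q9145 : Q := Q.p (nat_lit 0x780000000000000000000000000000000000) (nat_lit 0x38000040003800000000000000000000000000000) (nat_lit 4)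
theorem c9145 : QOK q9145 := cut [q9139] ⟨c9139, trivial⟩ (nd (nat_lit 160) (nat_lit 0) (cs (lf (nat_lit 10) (nat_lit 138)) (nd (nat_lit 138) (nat_lit 0) (cs (lf (nat_lit 11) (nat_lit 137)) (rf (nat_lit 0)))))) q9145 (by decide +kernel)
def q9161 : Q := Q.p (nat_lit 0x3c00000000000000000000000000000000000) (nat_lit 0x400003b800000000000000000000000000000) (nat_lit 4)
theorem c9161 : QOK q9161 := cut [q9089] ⟨c9089, trivial⟩ (nd (nat_lit 120) (nat_lit 0) (cs (lf (nat_lit 23) (nat_lit 119)) (nd (nat_lit 146) (nat_lit 0) (cs (lf (nat_lit 22) (nat_lit 120)) (rf (nat_lit 0)))))) q9161 (by decide +kernel)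
def q9181 : Q := Q.p (nat_lit 0x100000c0000000000e00000000000000000000000000000000000) (nat_lit 0x4000020000020001dc000300001d000004000010000000000000000000) (nat_lit 6)
theorem c9181 : QOK q9181 := cut [q9174] ⟨c9174, trivial⟩ (nd (nat_lit 163) (nat_lit 0) (cs (nd (nat_lit 164) (nat_lit 0) (cs (lf (nat_lit 42) (nat_lit 141)) (nd (nat_lit 120) (nat_lit 0) (cs (lf (nat_lit 29) (nat_lit 120)) (rf (nat_lit 0)))))) (nd (nat_lit 144) (nat_lit 0) (cs (lf (nat_lit 11) (nat_lit 140)) (nd (nat_lit 123) (nat_lit 0) (cs (lf (nat_lit 16) (nat_lit 119)) (nd (nat_lit 145) (nat_lit 0) (cs (lf (nat_lit 17) (nat_lit 120)) (nd (nat_lit 167) (nat_lit 0) (cs (lf (nat_lit 5) (nat_lit 142)) (lf (nat_lit 4) (nat_lit 141)))))))))))) q9181 (by decide +kernel)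
def q9195 : Q := Q.p (nat_lit 0x100000c0000100000400000000000000000000000000000000000) (nat_lit 0x8000020000280000200001800006000000000000000000000000) (nat_lit 5)
theorem c9195 : QOK q9195 := cut [q9193] ⟨c9193, trivial⟩ (nd (nat_lit 119) (nat_lit 0) (cs (lf (nat_lit 46) (nat_lit 119)) (nd (nat_lit 120) (nat_lit 0) (cs (lf (nat_lit 47) (nat_lit 97)) (rf (nat_lit 0)))))) q9195 (by decide +kernel)
def q9208 : Q := Q.p (nat_lit 0x180000400001000000000000000000000000000000000000) (nat_lit 0x2000000000020000000000c000030000080000000000000000000) (nat_lit 4)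
theorem c9208 : QOK q9208 := cut [q9207] ⟨c9207, trivial⟩ (nd (nat_lit 122) (nat_lit 0) (cs (lf (nat_lit 41) (nat_lit 121)) (rf (nat_lit 0)))) q9208 (by decide +kernel)
def q9219 : Q := Q.p (nat_lit 0x180000400001000002000000000000000000000000000000) (nat_lit 0x20000000000c000038000080000000000000000000) (nat_lit 4)
theorem c9219 : QOK q9219 := cut [q9207] ⟨c9207, trivial⟩ (nd (nat_lit 122) (nat_lit 0) (cs (lf (nat_lit 47) (nat_lit 99)) (rf (nat_lit 0)))) q9219 (by decide +kernel)
def q9234 : Q := Q.p (nat_lit 0x500001c0000400000800000000000000000000000000000000000) (nat_lit 0x14000020000000000300000000000000000000000000000000000000000) (nat_lit 3)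
theorem c9234 : QOK q9234 := cut [q9233] ⟨c9233, trivial⟩ (nd (nat_lit 165) (nat_lit 0) (cs (lf (nat_lit 42) (nat_lit 143)) (rf (nat_lit 0)))) q9234 (by decide +kernel)
def q9255 : Q := Q.p (nat_lit 0x3c0000000000000000000000000000000000000000000000) (nat_lit 0x1c00000200001c0000000000000000000000000000000000000000) (nat_lit 4)
theorem c9255 : QOK q9255 := cut [q9253] ⟨c9253, trivial⟩ (nd (nat_lit 163) (nat_lit 0) (cs (lf (nat_lit 22) (nat_lit 163)) (nd (nat_lit 185) (nat_lit 0) (cs (lf (nat_lit 23) (nat_lit 162)) (rf (nat_lit 0)))))) q9255 (by decide +kernel)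
def q9266 : Q := Q.p (nat_lit 0x1c0000080000000000000000000000000000000000000000) (nat_lit 0x200000360000000000000000000000000000000000000000) (nat_lit 3)
theorem c9266 : QOK q9266 := cut [q2769] ⟨c2769, trivial⟩ (nd (nat_lit 164) (nat_lit 0) (cs (rf (nat_lit 0)) (lf (nat_lit 18) (nat_lit 163)))) q9266 (by decide +kernel)
def q9274 : Q := Q.p (nat_lit 0xe0000200000000000000000000000000000000000000000) (nat_lit 0x10001d00000000000000000000000000000000000000000) (nat_lit 3)
theorem c9274 : QOK q9274 := cut [q9273] ⟨c9273, trivial⟩ (nd (nat_lit 166) (nat_lit 0) (cs (lf (nat_lit 12) (nat_lit 162)) (rf (nat_lit 0)))) q9274 (by decide +kernel)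
def q9277 : Q := Q.p (nat_lit 0x40000100001e0000000000000000000000000000000000000000000000) (nat_lit 0xc0000000000dc0000200000800000000000000000000000000000) (nat_lit 5)
theorem c9277 : QOK q9277 := cut [q1173] ⟨c1173, trivial⟩ (nd (nat_lit 210) (nat_lit 0) (cs (lf (nat_lit 5) (nat_lit 185)) (nd (nat_lit 166) (nat_lit 0) (cs (lf (nat_lit 17) (nat_lit 163)) (nd (nat_lit 163) (nat_lit 0) (cs (lf (nat_lit 23) (nat_lit 162)) (rf (nat_lit 0)))))))) q9277 (by decide +kernel)
def q9281 : Q := Q.p (nat_lit 0x900001c0000200000000000000000000000000000000000000000) (nat_lit 0x120000600000100000000000000000000000000000000000000000) (nat_lit 3)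
theorem c9281 : QOK q9281 := cut [q9280] ⟨c9280, trivial⟩ (nd (nat_lit 189) (nat_lit 0) (cs (lf (nat_lit 5) (nat_lit 186)) (rf (nat_lit 0)))) q9281 (by decide +kernel)
def q9292 : Q := Q.p (nat_lit 0xe0000200000000000000000000000000000000000000000) (nat_lit 0x110001c00000000000000000000000000000000000000000) (nat_lit 3)
theorem c9292 : QOK q9292 := cut [q9291] ⟨c9291, trivial⟩ (nd (nat_lit 166) (nat_lit 0) (cs (lf (nat_lit 12) (nat_lit 162)) (rf (nat_lit 0)))) q9292 (by decide +kernel)
def q9295 : Q := Q.p (nat_lit 0x100000c0000200000000000000000000000000000000000000000) (nat_lit 0x1000004000020000000000000000800002000000000000000000000000000000) (nat_lit 3)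
theorem c9295 : QOK q9295 := cut [q6513] ⟨c6513, trivial⟩ (nd (nat_lit 230) (nat_lit 0) (cs (lf (nat_lit 30) (nat_lit 164)) (rf (nat_lit 0)))) q9295 (by decide +kernel)
def q9296 : Q := Q.p (nat_lit 0x100001c0000a00000000000000000000000000000000000000000) (nat_lit 0x20000600001100000000000000000000000000000000000000000) (nat_lit 3)
theorem c9296 : QOK q9296 := cut [q9280] ⟨c9280, trivial⟩ (nd (nat_lit 189) (nat_lit 0) (cs (lf (nat_lit 17) (nat_lit 164)) (rf (nat_lit 0)))) q9296 (by decide +kernel)
def q9365 : Q := Q.p (nat_lit 0x2000018000000000100000000000000000000000000000000000000000) (nat_lit 0x200000800004000000000040000000000400000000000000000000000000000000000) (nat_lit 3)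
theorem c9365 : QOK q9365 := cut [q5397] ⟨c5397, trivial⟩ (nd (nat_lit 186) (nat_lit 0) (cs (lf (nat_lit 36) (nat_lit 141)) (rf (nat_lit 0)))) q9365 (by decide +kernel)
def q9388 : Q := Q.p (nat_lit 0x700000400000000000000000000000000000000000) (nat_lit 0x880000380000000000000000000000000000000000) (nat_lit 3)
theorem c9388 : QOK q9388 := cut [q3621] ⟨c3621, trivial⟩ (nd (nat_lit 141) (nat_lit 0) (cs (rf (nat_lit 0)) (lf (nat_lit 18) (nat_lit 141)))) q9388 (by decide +kernel)
def q9393 : Q := Q.p (nat_lit 0x780000000000000000000000000000000000000000) (nat_lit 0x38000040003800000000000000000000000000000000000) (nat_lit 4)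
theorem c9393 : QOK q9393 := cut [q9391] ⟨c9391, trivial⟩ (nd (nat_lit 184) (nat_lit 0) (cs (lf (nat_lit 10) (nat_lit 162)) (nd (nat_lit 162) (nat_lit 0) (cs (lf (nat_lit 11) (nat_lit 161)) (rf (nat_lit 0)))))) q9393 (by decide +kernel)
def q9419 : Q := Q.p (nat_lit 0xc0000f0000300000000000000000000000000000000000000000000000) (nat_lit 0x6000018000070000000000000000000000000000000000000000000000000000000000) (nat_lit 4)
theorem c9419 : QOK q9419 := cut [q9417] ⟨c9417, trivial⟩ (nd (nat_lit 233) (nat_lit 0) (cs (lf (nat_lit 5) (nat_lit 208)) (nd (nat_lit 255) (nat_lit 0) (cs (lf (nat_lit 42) (nat_lit 188)) (rf (nat_lit 0)))))) q9419 (by decide +kernel)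
def q9436 : Q := Q.p (nat_lit 0x100000780000000000000000000000000000000000000000) (nat_lit 0xb8000040000000000000000000000000000000000000000) (nat_lit 3)
theorem c9436 : QOK q9436 := cut [q9435] ⟨c9435, trivial⟩ (nd (nat_lit 162) (nat_lit 0) (cs (lf (nat_lit 4) (nat_lit 162)) (rf (nat_lit 0)))) q9436 (by decide +kernel)
def q9461 : Q := Q.p (nat_lit 0x2000000000060000100000000000000000000000000000000000000000000000) (nat_lit 0x800000000018000000000000000400001000000000000000000000000000000000000) (nat_lit 3)
theorem c9461 : QOK q9461 := cut [q207] ⟨c207, trivial⟩ (nd (nat_lit 231) (nat_lit 0) (cs (rf (nat_lit 0)) (lf (nat_lit 30) (nat_lit 187)))) q9461 (by decide +kernel)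
def q9468 : Q := Q.p (nat_lit 0x20000040000f0000000000000000000000000000000000000000000000000000) (nat_lit 0x200000800000000008000100000100000000000000000000000000000000000000000000000) (nat_lit 3)
theorem c9468 : QOK q9468 := cut [q9467] ⟨c9467, trivial⟩ (nd (nat_lit 231) (nat_lit 0) (cs (lf (nat_lit 6) (nat_lit 208)) (rf (nat_lit 0)))) q9468 (by decide +kernel)
def q9490 : Q := Q.p (nat_lit 0x2000008000070000080000000000000000000000000000000000000000000000) (nat_lit 0x14000000000040000300000c00000000000000000000000000000000000) (nat_lit 4)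
theorem c9490 : QOK q9490 := cut [q9488] ⟨c9488, trivial⟩ (nd (nat_lit 164) (nat_lit 0) (cs (lf (nat_lit 46) (nat_lit 164)) (nd (nat_lit 165) (nat_lit 0) (cs (lf (nat_lit 47) (nat_lit 142)) (rf (nat_lit 0)))))) q9490 (by decide +kernel)
def q9496 : Q := Q.p (nat_lit 0x40000340000300000c0000000000000000000000000000000000000000) (nat_lit 0x600003800000000000000000000000000000000000000000000000000000000) (nat_lit 3)
theorem c9496 : QOK q9496 := cut [q9495] ⟨c9495, trivial⟩ (nd (nat_lit 228) (nat_lit 0) (cs (lf (nat_lit 30) (nat_lit 162)) (rf (nat_lit 0)))) q9496 (by decide +kernel)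
def q9511 : Q := Q.p (nat_lit 0x40000e000030000000000000000000000000000000000000000000000000000) (nat_lit 0x800070000008000000000000000000000000000000000000000000000000000) (nat_lit 3)
theorem c9511 : QOK q9511 := cut [q9509] ⟨c9509, trivial⟩ (nd (nat_lit 232) (nat_lit 0) (cs (rf (nat_lit 0)) (lf (nat_lit 10) (nat_lit 228)))) q9511 (by decide +kernel)
def q9541 : Q := Q.p (nat_lit 0x40000100000f0000000000000000000000000000000000000000000000) (nat_lit 0x80001000000e0000200000800000000000000000000000000000) (nat_lit 4)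
theorem c9541 : QOK q9541 := cut [q8576] ⟨c8576, trivial⟩ (nd (nat_lit 162) (nat_lit 0) (cs (lf (nat_lit 23) (nat_lit 161)) (nd (nat_lit 163) (nat_lit 0) (cs (lf (nat_lit 18) (nat_lit 162)) (rf (nat_lit 0)))))) q9541 (by decide +kernel)
def q9551 : Q := Q.p (nat_lit 0x300001e0000000000000000000000000000000000000000000000) (nat_lit 0xe000018000000000000000000000000000000000000000000000) (nat_lit 3)
theorem c9551 : QOK q9551 := cut [q9550] ⟨c9550, trivial⟩ (nd (nat_lit 206) (nat_lit 0) (cs (lf (nat_lit 13) (nat_lit 184)) (rf (nat_lit 0)))) q9551 (by decide +kernel)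
def q9566 : Q := Q.p (nat_lit 0x300000c0000100000400000000000000000000000000000000000) (nat_lit 0x4000000000120001e00007a0001e800020000080000000000000000000) (nat_lit 10)
theorem c9566 : QOK q9566 := cut [q8585] ⟨c8585, trivial⟩ (nd (nat_lit 119) (nat_lit 0) (cs (lf (nat_lit 46) (nat_lit 119)) (nd (nat_lit 143) (nat_lit 0) (cs (lf (nat_lit 35) (nat_lit 120)) (nd (nat_lit 165) (nat_lit 0) (cs (lf (nat_lit 41) (nat_lit 142)) (nd (nat_lit 144) (nat_lit 0) (cs (lf (nat_lit 35) (nat_lit 121)) (nd (nat_lit 145) (nat_lit 0) (cs (lf (nat_lit 6) (nat_lit 142)) (nd (nat_lit 123) (nat_lit 0) (cs (lf (nat_lit 17) (nat_lit 120)) (nd (nat_lit 167) (nat_lit 0) (cs (lf (nat_lit 5) (nat_lit 142)) (rf (nat_lit 0)))))))))))))))) q9566 (by decide +kernel)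
def q9583 : Q := Q.p (nat_lit 0x20000000000300000c0000100000000000000000000000000000000000000000) (nat_lit 0x80000100000600000e000000000280000600001800000000000000000000000000000) (nat_lit 7)
theorem c9583 : QOK q9583 := cut [q7417] ⟨c7417, trivial⟩ (nd (nat_lit 142) (nat_lit 0) (cs (lf (nat_lit 24) (nat_lit 120)) (nd (nat_lit 207) (nat_lit 0) (cs (lf (nat_lit 41) (nat_lit 141)) (nd (nat_lit 141) (nat_lit 0) (cs (lf (nat_lit 47) (nat_lit 119)) (nd (nat_lit 205) (nat_lit 0) (cs (lf (nat_lit 13) (nat_lit 183)) (nd (nat_lit 230) (nat_lit 0) (cs (lf (nat_lit 46) (nat_lit 141)) (rf (nat_lit 0)))))))))))) q9583 (by decide +kernel)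
def q9653 : Q := Q.p (nat_lit 0x2000008000030000080000000000000000000000000000000000000000000000) (nat_lit 0x1000004000000000040000300000c00000000000000000000000000000000000) (nat_lit 4)
theorem c9653 : QOK q9653 := cut [q1582] ⟨c1582, trivial⟩ (nd (nat_lit 164) (nat_lit 0) (cs (lf (nat_lit 46) (nat_lit 164)) (nd (nat_lit 165) (nat_lit 0) (cs (lf (nat_lit 47) (nat_lit 142)) (rf (nat_lit 0)))))) q9653 (by decide +kernel)
def q9659 : Q := Q.p (nat_lit 0x28000070000000000000000000000000000000000000000000000000000) (nat_lit 0x44000180000e00000000000000000000000000000000000000000000000) (nat_lit 4)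
theorem c9659 : QOK q9659 := cut [q2453] ⟨c2453, trivial⟩ (nd (nat_lit 211) (nat_lit 0) (cs (lf (nat_lit 5) (nat_lit 208)) (nd (nat_lit 212) (nat_lit 0) (cs (lf (nat_lit 11) (nat_lit 208)) (rf (nat_lit 0)))))) q9659 (by decide +kernel)
def q9667 : Q := Q.p (nat_lit 0x2000008000070000000000000000000000000000000000000000000000000000) (nat_lit 0x200000800000000014000000000100000000000000000000000000000000000000000000000) (nat_lit 3)
theorem c9667 : QOK q9667 := cut [q9666] ⟨c9666, trivial⟩ (nd (nat_lit 275) (nat_lit 0) (cs (lf (nat_lit 35) (nat_lit 187)) (rf (nat_lit 0)))) q9667 (by decide +kernel)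
def q9673 : Q := Q.p (nat_lit 0x2000008000060000000000000000000000000000000000000000000000000000) (nat_lit 0x800000000000000000000180000400001000000000000000000000000000000000000) (nat_lit 3)
theorem c9673 : QOK q9673 := cut [q687] ⟨c687, trivial⟩ (nd (nat_lit 188) (nat_lit 0) (cs (rf (nat_lit 0)) (lf (nat_lit 30) (nat_lit 187)))) q9673 (by decide +kernel)
def q9680 : Q := Q.p (nat_lit 0x2000008000078000040000000000000000000000000000000000000000000000) (nat_lit 0x200001c00037000000000030000000000000000000000000000000000000000000000) (nat_lit 6)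
theorem c9680 : QOK q9680 := cut [q9679] ⟨c9679, trivial⟩ (nd (nat_lit 232) (nat_lit 0) (cs (lf (nat_lit 5) (nat_lit 207)) (rf (nat_lit 0)))) q9680 (by decide +kernel)
def q9684 : Q := Q.p (nat_lit 0x2000008000070000080000000000000000000000000000000000000000000000) (nat_lit 0x180000060000100000000000000000000000000000000000000000) (nat_lit 3)
theorem c9684 : QOK q9684 := cut [q326] ⟨c326, trivial⟩ (nd (nat_lit 186) (nat_lit 0) (cs (rf (nat_lit 0)) (lf (nat_lit 47) (nat_lit 164)))) q9684 (by decide +kernel)
def q9716 : Q := Q.p (nat_lit 0x100001e0000000000000000000000000000000000000000000000) (nat_lit 0x10000040000080000000000c0000200000800000000000000000000000000000) (nat_lit 4)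
theorem c9716 : QOK q9716 := cut [q9715] ⟨c9715, trivial⟩ (nd (nat_lit 163) (nat_lit 0) (cs (lf (nat_lit 23) (nat_lit 162)) (rf (nat_lit 0)))) q9716 (by decide +kernel)
def q9722 : Q := Q.p (nat_lit 0x100000e0000040000000000000000000000000000000000000000) (nat_lit 0x1000004000008000100000080000200000800000000000000000000000000000) (nat_lit 4)
theorem c9722 : QOK q9722 := cut [q9715] ⟨c9715, trivial⟩ (nd (nat_lit 163) (nat_lit 0) (cs (lf (nat_lit 18) (nat_lit 162)) (rf (nat_lit 0)))) q9722 (by decide +kernel)
def q9771 : Q := Q.p (nat_lit 0x400001e00000000000000000000000000000000000000000000000000000000000000) (nat_lit 0x200000100000e00000000000000000000000000000000000000000000000000000000) (nat_lit 3)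
theorem c9771 : QOK q9771 := cut [q9769] ⟨c9769, trivial⟩ (nd (nat_lit 248) (nat_lit 0) (cs (rf (nat_lit 0)) (lf (nat_lit 4) (nat_lit 248)))) q9771 (by decide +kernel)
def q9781 : Q := Q.p (nat_lit 0x3000008000010000060000000000000000000000000000000000000000000000) (nat_lit 0x200000e00014000000000000000080000000000000000000000000000000000000000) (nat_lit 4)
theorem c9781 : QOK q9781 := cut [q9779] ⟨c9779, trivial⟩ (nd (nat_lit 230) (nat_lit 0) (cs (lf (nat_lit 47) (nat_lit 163)) (nd (nat_lit 251) (nat_lit 0) (cs (lf (nat_lit 41) (nat_lit 185)) (rf (nat_lit 0)))))) q9781 (by decide +kernel)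
def q9783 : Q := Q.p (nat_lit 0x4000030000060000000000000000000000000000000000000000000000) (nat_lit 0x400001000000000000000080000280000000000000000000000000000000000000000) (nat_lit 3)
theorem c9783 : QOK q9783 := cut [q1819] ⟨c1819, trivial⟩ (nd (nat_lit 252) (nat_lit 0) (cs (lf (nat_lit 47) (nat_lit 163)) (rf (nat_lit 0)))) q9783 (by decide +kernel)
def q9823 : Q := Q.p (nat_lit 0x40000100000480001800000800000000000000000000000000000) (nat_lit 0x100002400009000000000000000000000000000000) (nat_lit 3)
theorem c9823 : QOK q9823 := cut [q8448] ⟨c8448, trivial⟩ (nd (nat_lit 145) (nat_lit 0) (cs (lf (nat_lit 35) (nat_lit 122)) (rf (nat_lit 0)))) q9823 (by decide +kernel)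
def q9895 : Q := Q.p (nat_lit 0x70000080000200000000000000000000000000000000000000000) (nat_lit 0x10000000000040000000000c00003000004000000000000000000000000) (nat_lit 4)
theorem c9895 : QOK q9895 := cut [q9894] ⟨c9894, trivial⟩ (nd (nat_lit 143) (nat_lit 0) (cs (lf (nat_lit 29) (nat_lit 143)) (rf (nat_lit 0)))) q9895 (by decide +kernel)
def q9908 : Q := Q.p (nat_lit 0x7800010000000000000000000000000000000) (nat_lit 0x40000b800000000000000000000000000000) (nat_lit 3)
theorem c9908 : QOK q9908 := cut [q9907] ⟨c9907, trivial⟩ (nd (nat_lit 142) (nat_lit 0) (cs (lf (nat_lit 16) (nat_lit 120)) (rf (nat_lit 0)))) q9908 (by decide +kernel)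
def q9961 : Q := Q.p (nat_lit 0x80000200000800002000000000000000000000000000000000000) (nat_lit 0x500001c000050000000000000000000000000) (nat_lit 4)
theorem c9961 : QOK q9961 := cut [q9959] ⟨c9959, trivial⟩ (nd (nat_lit 124) (nat_lit 0) (cs (lf (nat_lit 34) (nat_lit 123)) (nd (nat_lit 123) (nat_lit 0) (cs (lf (nat_lit 35) (nat_lit 101)) (rf (nat_lit 0)))))) q9961 (by decide +kernel)
def q10018 : Q := Q.p (nat_lit 0x1800004000030000380000000000000000000000000000000000000000000000) (nat_lit 0x2000000000000001c0000060000080000000000000000000000000000000000000000) (nat_lit 4)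
theorem c10018 : QOK q10018 := cut [q10016] ⟨c10016, trivial⟩ (nd (nat_lit 186) (nat_lit 0) (cs (lf (nat_lit 41) (nat_lit 185)) (nd (nat_lit 211) (nat_lit 0) (cs (lf (nat_lit 5) (nat_lit 186)) (rf (nat_lit 0)))))) q10018 (by decide +kernel)
def q10029 : Q := Q.p (nat_lit 0x20000080000200000800000000000000000000000000000000000000000) (nat_lit 0x10000040000100000000001000006000010000000000000000000000000000000) (nat_lit 4)
theorem c10029 : QOK q10029 := cut [q9934] ⟨c9934, trivial⟩ (nd (nat_lit 234) (nat_lit 0) (cs (lf (nat_lit 29) (nat_lit 167)) (nd (nat_lit 145) (nat_lit 0) (cs (rf (nat_lit 0)) (lf (nat_lit 28) (nat_lit 145)))))) q10029 (by decide +kernel)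
def q10048 : Q := Q.p (nat_lit 0xc0000d000030000000000000000000000000000000000000000000000000000) (nat_lit 0x80000200000000002000046000010000000000000000000000000000000000000000000000) (nat_lit 4)
theorem c10048 : QOK q10048 := cut [q10046] ⟨c10046, trivial⟩ (nd (nat_lit 229) (nat_lit 0) (cs (lf (nat_lit 17) (nat_lit 206)) (nd (nat_lit 273) (nat_lit 0) (cs (lf (nat_lit 30) (nat_lit 207)) (rf (nat_lit 0)))))) q10048 (by decide +kernel)
def q10062 : Q := Q.p (nat_lit 0x1800004000010000000000000000000000000000000000000000000000000000) (nat_lit 0x20000080000200000000002000000000040000000000000000000000000000000000000000000000) (nat_lit 3)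
theorem c10062 : QOK q10062 := cut [q10061] ⟨c10061, trivial⟩ (nd (nat_lit 273) (nat_lit 0) (cs (lf (nat_lit 36) (nat_lit 185)) (rf (nat_lit 0)))) q10062 (by decide +kernel)
def q10081 : Q := Q.p (nat_lit 0x2000008000030000080000000000000000000000000000000000000000000000) (nat_lit 0xc000740000400000000000000000000000000000000000000000) (nat_lit 4)
theorem c10081 : QOK q10081 := cut [q10079] ⟨c10079, trivial⟩ (nd (nat_lit 188) (nat_lit 0) (cs (lf (nat_lit 35) (nat_lit 165)) (nd (nat_lit 189) (nat_lit 0) (cs (lf (nat_lit 6) (nat_lit 186)) (rf (nat_lit 0)))))) q10081 (by decide +kernel)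
def q10105 : Q := Q.p (nat_lit 0x180000f0000000000000000000000000000000000000000000000000000) (nat_lit 0x300000e00000000000000000000000000000000000000000000000) (nat_lit 3)
theorem c10105 : QOK q10105 := cut [q10104] ⟨c10104, trivial⟩ (nd (nat_lit 190) (nat_lit 0) (cs (lf (nat_lit 16) (nat_lit 186)) (rf (nat_lit 0)))) q10105 (by decide +kernel)
def q10121 : Q := Q.p (nat_lit 0x1000000000018000020000000000000000000000000000000000000000000000) (nat_lit 0x400000000006000000000000000080000200000000000000000000000000000000000) (nat_lit 3)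
theorem c10121 : QOK q10121 := cut [q1410] ⟨c1410, trivial⟩ (nd (nat_lit 230) (nat_lit 0) (cs (lf (nat_lit 42) (nat_lit 185)) (rf (nat_lit 0)))) q10121 (by decide +kernel)
def q10151 : Q := Q.p (nat_lit 0x200000f0000000000400000000000000000000000000000000000000000) (nat_lit 0x8000000000000000700000000001000000000000000000000000000000000000) (nat_lit 3)
theorem c10151 : QOK q10151 := cut [q9350] ⟨c9350, trivial⟩ (nd (nat_lit 189) (nat_lit 0) (cs (lf (nat_lit 17) (nat_lit 186)) (rf (nat_lit 0)))) q10151 (by decide +kernel)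
def q10152 : Q := Q.p (nat_lit 0x200000c0000200000800000000000000000000000000000000000000000) (nat_lit 0x10000000000000001000006000010000000000000000000000000000000) (nat_lit 3)
theorem c10152 : QOK q10152 := cut [q9934] ⟨c9934, trivial⟩ (nd (nat_lit 145) (nat_lit 0) (cs (lf (nat_lit 41) (nat_lit 144)) (rf (nat_lit 0)))) q10152 (by decide +kernel)
def q10173 : Q := Q.p (nat_lit 0x200000f0000000000400000000000000000000000000000000000000000) (nat_lit 0x100001c00007000018000010000000000760000000000000000000000000000000000000000000000) (nat_lit 8)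
theorem c10173 : QOK q10173 := cut [q10171] ⟨c10171, trivial⟩ (nd (nat_lit 185) (nat_lit 0) (cs (lf (nat_lit 22) (nat_lit 185)) (nd (nat_lit 189) (nat_lit 0) (cs (lf (nat_lit 17) (nat_lit 186)) (rf (nat_lit 0)))))) q10173 (by decide +kernel)
def q10178 : Q := Q.p (nat_lit 0x400000f0000000000000000000000000000000000000000000000000000) (nat_lit 0x800001000000e0000000000000000000000000000000000000000000000) (nat_lit 3)
theorem c10178 : QOK q10178 := cut [q10177] ⟨c10177, trivial⟩ (nd (nat_lit 212) (nat_lit 0) (cs (lf (nat_lit 5) (nat_lit 209)) (rf (nat_lit 0)))) q10178 (by decide +kernel)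
def q10182 : Q := Q.p (nat_lit 0xf0000000000000000000000000000000000000000000000000000) (nat_lit 0x100000ee0000000000000000000000000000000000000000000000) (nat_lit 4)
theorem c10182 : QOK q10182 := cut [q10177] ⟨c10177, trivial⟩ (nd (nat_lit 190) (nat_lit 0) (cs (lf (nat_lit 16) (nat_lit 186)) (nd (nat_lit 212) (nat_lit 0) (cs (lf (nat_lit 17) (nat_lit 187)) (rf (nat_lit 0)))))) q10182 (by decide +kernel)
def q10249 : Q := Q.p (nat_lit 0x200000400001000004000010000000000000000000000000000000000000000000000) (nat_lit 0x80000100000000000000002000008000020000000000000000000000000000000000000000) (nat_lit 3)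
theorem c10249 : QOK q10249 := cut [q2082] ⟨c2082, trivial⟩ (nd (nat_lit 272) (nat_lit 0) (cs (lf (nat_lit 29) (nat_lit 206)) (rf (nat_lit 0)))) q10249 (by decide +kernel)
def q10295 : Q := Q.p (nat_lit 0xc0000180000000000000000000000000000000000000000) (nat_lit 0x300000260000000000000000000000000000000000000000) (nat_lit 3)
theorem c10295 : QOK q10295 := cut [q2769] ⟨c2769, trivial⟩ (nd (nat_lit 188) (nat_lit 0) (cs (rf (nat_lit 0)) (lf (nat_lit 18) (nat_lit 163)))) q10295 (by decide +kernel)
def q10360 : Q := Q.p (nat_lit 0x2000078000000000000000000000000000000000000000000000000000) (nat_lit 0x74000080000000000000000000000000000000000000000000000000000) (nat_lit 3)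
theorem c10360 : QOK q10360 := cut [q10359] ⟨c10359, trivial⟩ (nd (nat_lit 233) (nat_lit 0) (cs (lf (nat_lit 4) (nat_lit 207)) (rf (nat_lit 0)))) q10360 (by decide +kernel)
def q10384 : Q := Q.p (nat_lit 0x80000f0000000000000000000000000000000000000000000000000000) (nat_lit 0x1d0000300000e00000000000000000000000000000000000000000000000) (nat_lit 5)
theorem c10384 : QOK q10384 := cut [q10382] ⟨c10382, trivial⟩ (nd (nat_lit 190) (nat_lit 0) (cs (lf (nat_lit 16) (nat_lit 186)) (nd (nat_lit 212) (nat_lit 0) (cs (lf (nat_lit 17) (nat_lit 187)) (rf (nat_lit 0)))))) q10384 (by decide +kernel)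
def q10396 : Q := Q.p (nat_lit 0x2000000000020000080000200000000000000000000000000000000000000000) (nat_lit 0x40000100000c000000000100000400001000000000000000000000000000000000000) (nat_lit 3)
theorem c10396 : QOK q10396 := cut [q2204, q10395] ⟨c2204, c10395, trivial⟩ (nd (nat_lit 231) (nat_lit 0) (cs (rf (nat_lit 0)) (rf (nat_lit 1)))) q10396 (by decide +kernel)
def q10398 : Q := Q.p (nat_lit 0x20000080000200000800000000000000000000000000000000000) (nat_lit 0x10000040000100000000000400003000004000000000000000000000000) (nat_lit 4)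
theorem c10398 : QOK q10398 := cut [q1942] ⟨c1942, trivial⟩ (nd (nat_lit 210) (nat_lit 0) (cs (lf (nat_lit 29) (nat_lit 143)) (nd (nat_lit 121) (nat_lit 0) (cs (rf (nat_lit 0)) (lf (nat_lit 28) (nat_lit 121)))))) q10398 (by decide +kernel)
def q10407 : Q := Q.p (nat_lit 0x20000000000300001c0000000000000000000000000000000000000000000000) (nat_lit 0x8000040000038000c00000000000000000000000000000000000000000) (nat_lit 4)
theorem c10407 : QOK q10407 := cut [q11] ⟨c11, trivial⟩ (nd (nat_lit 166) (nat_lit 0) (cs (lf (nat_lit 31) (nat_lit 165)) (nd (nat_lit 185) (nat_lit 0) (cs (rf (nat_lit 0)) (lf (nat_lit 17) (nat_lit 163)))))) q10407 (by decide +kernel)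
def q10420 : Q := Q.p (nat_lit 0x300000c0000100000000000000000000000000000000000000000) (nat_lit 0x600001800006000000000000000080000e00003800000000000000000000000000000) (nat_lit 7)
theorem c10420 : QOK q10420 := cut [q5533] ⟨c5533, trivial⟩ (nd (nat_lit 142) (nat_lit 0) (cs (lf (nat_lit 24) (nat_lit 120)) (nd (nat_lit 121) (nat_lit 0) (cs (lf (nat_lit 34) (nat_lit 120)) (nd (nat_lit 141) (nat_lit 0) (cs (lf (nat_lit 47) (nat_lit 119)) (nd (nat_lit 230) (nat_lit 0) (cs (lf (nat_lit 46) (nat_lit 141)) (nd (nat_lit 252) (nat_lit 0) (cs (lf (nat_lit 30) (nat_lit 186)) (rf (nat_lit 0)))))))))))) q10420 (by decide +kernel)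
def q10428 : Q := Q.p (nat_lit 0x40000300000c0000100000000000000000000000000000000000000000) (nat_lit 0x200000c00003000000000000000000000000000000) (nat_lit 3)
theorem c10428 : QOK q10428 := cut [q10427] ⟨c10427, trivial⟩ (nd (nat_lit 143) (nat_lit 0) (cs (lf (nat_lit 34) (nat_lit 142)) (rf (nat_lit 0)))) q10428 (by decide +kernel)
def q10455 : Q := Q.p (nat_lit 0xc0000180000000000000000000000000000000000000000) (nat_lit 0x300000260000000000000000000000000000000000000000) (nat_lit 3)
theorem c10455 : QOK q10455 := cut [q10454] ⟨c10454, trivial⟩ (nd (nat_lit 162) (nat_lit 0) (cs (lf (nat_lit 0) (nat_lit 161)) (rf (nat_lit 0)))) q10455 (by decide +kernel)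
def q10490 : Q := Q.p (nat_lit 0x20000000000300001c0000000000000000000000000000000000000000000000) (nat_lit 0x8000000000600000180000000000000000000000000000000000000000) (nat_lit 3)
theorem c10490 : QOK q10490 := cut [q10489] ⟨c10489, trivial⟩ (nd (nat_lit 164) (nat_lit 0) (cs (lf (nat_lit 43) (nat_lit 164)) (rf (nat_lit 0)))) q10490 (by decide +kernel)
def q10496 : Q := Q.p (nat_lit 0x2000000000020000080000200000000000000000000000000000000000000000) (nat_lit 0x40000100000c000000000040000100000400000000000000000000000000000000000) (nat_lit 3)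
theorem c10496 : QOK q10496 := cut [q1578, q10395] ⟨c1578, c10395, trivial⟩ (nd (nat_lit 231) (nat_lit 0) (cs (rf (nat_lit 0)) (rf (nat_lit 1)))) q10496 (by decide +kernel)
def q10509 : Q := Q.p (nat_lit 0x300001e0000000000000000000000000000000000000000000000) (nat_lit 0x180000e0000000000000000000000000000000000000000) (nat_lit 3)
theorem c10509 : QOK q10509 := cut [q4891] ⟨c4891, trivial⟩ (nd (nat_lit 184) (nat_lit 0) (cs (lf (nat_lit 0) (nat_lit 183)) (rf (nat_lit 0)))) q10509 (by decide +kernel)
def q10518 : Q := Q.p (nat_lit 0x3000008000020000080000000000000000000000000000000000000000000000) (nat_lit 0x4000000000100000600001000000000000000000000000000000000000) (nat_lit 3)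
theorem c10518 : QOK q10518 := cut [q2204] ⟨c2204, trivial⟩ (nd (nat_lit 165) (nat_lit 0) (cs (lf (nat_lit 40) (nat_lit 164)) (rf (nat_lit 0)))) q10518 (by decide +kernel)
def q10558 : Q := Q.p (nat_lit 0x78000000000000000000000000000000000000000000000000000) (nat_lit 0x40003b8000000000000000000000000000000000000000000000) (nat_lit 4)
theorem c10558 : QOK q10558 := cut [q96] ⟨c96, trivial⟩ (nd (nat_lit 184) (nat_lit 0) (cs (lf (nat_lit 22) (nat_lit 184)) (rf (nat_lit 0)))) q10558 (by decide +kernel)
def q10569 : Q := Q.p (nat_lit 0x600000c00002000000000000000000000000000000) (nat_lit 0x10000010000000000000000c000030000040000000000000) (nat_lit 4)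
theorem c10569 : QOK q10569 := cut [q10565] ⟨c10565, trivial⟩ (nd (nat_lit 99) (nat_lit 0) (cs (nd (nat_lit 77) (nat_lit 0) (cs (rf (nat_lit 0)) (lf (nat_lit 41) (nat_lit 76)))) (lf (nat_lit 29) (nat_lit 99)))) q10569 (by decide +kernel)
def q10640 : Q := Q.p (nat_lit 0x78000000000000000000000000000000000000000000000000000) (nat_lit 0x3b800004000000000000000000000000000000000000000000000000000) (nat_lit 4)
theorem c10640 : QOK q10640 := cut [q3408] ⟨c3408, trivial⟩ (nd (nat_lit 228) (nat_lit 0) (cs (lf (nat_lit 10) (nat_lit 206)) (nd (nat_lit 206) (nat_lit 0) (cs (lf (nat_lit 11) (nat_lit 205)) (rf (nat_lit 0)))))) q10640 (by decide +kernel)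
def q10643 : Q := Q.p (nat_lit 0x3c000000000000000000000000000000000000000000000000000) (nat_lit 0x3b800040000000000000000000000000000000000000000000000000000) (nat_lit 4)
theorem c10643 : QOK q10643 := cut [q7862] ⟨c7862, trivial⟩ (nd (nat_lit 232) (nat_lit 0) (cs (lf (nat_lit 4) (nat_lit 206)) (nd (nat_lit 210) (nat_lit 0) (cs (lf (nat_lit 5) (nat_lit 207)) (rf (nat_lit 0)))))) q10643 (by decide +kernel)
def q10660 : Q := Q.p (nat_lit 0x2000008000030000080000200000000000000000000000000000000000000000) (nat_lit 0x40000500001800006000000000000000000000000000000) (nat_lit 4)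
theorem c10660 : QOK q10660 := cut [q10658] ⟨c10658, trivial⟩ (nd (nat_lit 144) (nat_lit 0) (cs (lf (nat_lit 34) (nat_lit 143)) (nd (nat_lit 143) (nat_lit 0) (cs (lf (nat_lit 35) (nat_lit 121)) (rf (nat_lit 0)))))) q10660 (by decide +kernel)
def q10663 : Q := Q.p (nat_lit 0x2000008000078000080000000000000000000000000000000000000000000000) (nat_lit 0x180000740000100000000000000000000000000000000000000000) (nat_lit 4)
theorem c10663 : QOK q10663 := cut [q8311] ⟨c8311, trivial⟩ (nd (nat_lit 189) (nat_lit 0) (cs (lf (nat_lit 16) (nat_lit 185)) (nd (nat_lit 186) (nat_lit 0) (cs (lf (nat_lit 47) (nat_lit 164)) (rf (nat_lit 0)))))) q10663 (by decide +kernel)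
def q10670 : Q := Q.p (nat_lit 0x80000f0000000000000000000000000000000000000000000000000000) (nat_lit 0xe4000100000000000000000000000000000000000000000000000000000) (nat_lit 3)
theorem c10670 : QOK q10670 := cut [q1161] ⟨c1161, trivial⟩ (nd (nat_lit 212) (nat_lit 0) (cs (rf (nat_lit 0)) (lf (nat_lit 11) (nat_lit 208)))) q10670 (by decide +kernel)
def q10708 : Q := Q.p (nat_lit 0x100000400001000004000000000000000000000000000000000000000000000000000) (nat_lit 0x280000e0000280000000000000000000000000000000000000000000000000000000000000000000) (nat_lit 4)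
theorem c10708 : QOK q10708 := cut [q6623] ⟨c6623, trivial⟩ (nd (nat_lit 293) (nat_lit 0) (cs (lf (nat_lit 40) (nat_lit 205)) (nd (nat_lit 294) (nat_lit 0) (cs (lf (nat_lit 41) (nat_lit 227)) (rf (nat_lit 0)))))) q10708 (by decide +kernel)
def q10753 : Q := Q.p (nat_lit 0x18000030000000000000000000000000000000000000000000000000000) (nat_lit 0x6000004c000000000000000000000000000000000000000000000000000) (nat_lit 3)
theorem c10753 : QOK q10753 := cut [q4099] ⟨c4099, trivial⟩ (nd (nat_lit 207) (nat_lit 0) (cs (lf (nat_lit 0) (nat_lit 206)) (rf (nat_lit 0)))) q10753 (by decide +kernel)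
def q10764 : Q := Q.p (nat_lit 0x2000018000020000080000000000000000000000000000000000000000000000) (nat_lit 0x40000040000700001c00004000000000000000000000000000000) (nat_lit 5)
theorem c10764 : QOK q10764 := cut [q2333] ⟨c2333, trivial⟩ (nd (nat_lit 164) (nat_lit 0) (cs (lf (nat_lit 46) (nat_lit 164)) (nd (nat_lit 165) (nat_lit 0) (cs (lf (nat_lit 47) (nat_lit 142)) (nd (nat_lit 143) (nat_lit 0) (cs (rf (nat_lit 0)) (lf (nat_lit 28) (nat_lit 143)))))))) q10764 (by decide +kernel)
def q10791 : Q := Q.p (nat_lit 0x600003c000000000000000000000000000000000000000000000000000) (nat_lit 0x300001c000000000000000000000000000000000000000000000) (nat_lit 3)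
theorem c10791 : QOK q10791 := cut [q113] ⟨c113, trivial⟩ (nd (nat_lit 205) (nat_lit 0) (cs (rf (nat_lit 0)) (lf (nat_lit 0) (nat_lit 204)))) q10791 (by decide +kernel)
def q10803 : Q := Q.p (nat_lit 0x1000004000030000000000000000000000000000000000000000000000000000) (nat_lit 0x400000000008000000000080000200000800000000000000000000000000000000000) (nat_lit 3)
theorem c10803 : QOK q10803 := cut [q10611] ⟨c10611, trivial⟩ (nd (nat_lit 187) (nat_lit 0) (cs (lf (nat_lit 30) (nat_lit 186)) (rf (nat_lit 0)))) q10803 (by decide +kernel)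
def q10810 : Q := Q.p (nat_lit 0xf000004000000000000000000000000000000000000000000000000000) (nat_lit 0x200000e00010000000000010000040000000000000000000000000000000000000000) (nat_lit 4)
theorem c10810 : QOK q10810 := cut [q10808] ⟨c10808, trivial⟩ (nd (nat_lit 250) (nat_lit 0) (cs (lf (nat_lit 11) (nat_lit 227)) (nd (nat_lit 251) (nat_lit 0) (cs (lf (nat_lit 6) (nat_lit 228)) (rf (nat_lit 0)))))) q10810 (by decide +kernel)
def q10815 : Q := Q.p (nat_lit 0x300000f00000c000000000000000000000000000000000000000000000000000) (nat_lit 0x60000180000e00000000000000000000000000000000000000000000000000000000000000) (nat_lit 4)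
theorem c10815 : QOK q10815 := cut [q4142] ⟨c4142, trivial⟩ (nd (nat_lit 250) (nat_lit 0) (cs (lf (nat_lit 11) (nat_lit 227)) (nd (nat_lit 272) (nat_lit 0) (cs (lf (nat_lit 30) (nat_lit 206)) (rf (nat_lit 0)))))) q10815 (by decide +kernel)
def q10824 : Q := Q.p (nat_lit 0x1000006000030000000000000000000000000000000000000000000000000000) (nat_lit 0x1000004000000000000000080000a0000000000000000000000000000000000000000000000) (nat_lit 3)
theorem c10824 : QOK q10824 := cut [q1252] ⟨c1252, trivial⟩ (nd (nat_lit 274) (nat_lit 0) (cs (lf (nat_lit 35) (nat_lit 186)) (rf (nat_lit 0)))) q10824 (by decide +kernel)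
def q10831 : Q := Q.p (nat_lit 0x3800005000000000000000000000000000000000000000000000000000000000) (nat_lit 0x600018800000000000000000000000000000000000000000000000000000000) (nat_lit 3)
theorem c10831 : QOK q10831 := cut [q3187] ⟨c3187, trivial⟩ (nd (nat_lit 250) (nat_lit 0) (cs (lf (nat_lit 23) (nat_lit 227)) (rf (nat_lit 0)))) q10831 (by decide +kernel)
def q10845 : Q := Q.p (nat_lit 0x4000030000040000100000000000000000000000000000000000000000) (nat_lit 0x8000038000c0000080000080000e00003800008000000000000000000000000) (nat_lit 8)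
theorem c10845 : QOK q10845 := cut [q10841] ⟨c10841, trivial⟩ (nd (nat_lit 141) (nat_lit 0) (cs (lf (nat_lit 46) (nat_lit 141)) (nd (nat_lit 229) (nat_lit 0) (cs (lf (nat_lit 41) (nat_lit 163)) (nd (nat_lit 227) (nat_lit 0) (cs (lf (nat_lit 13) (nat_lit 205)) (nd (nat_lit 210) (nat_lit 0) (cs (lf (nat_lit 6) (nat_lit 207)) (rf (nat_lit 0)))))))))) q10845 (by decide +kernel)
def q10849 : Q := Q.p (nat_lit 0x4000030000040000100000000000000000000000000000000000000000) (nat_lit 0x600001800002000000000080000280000600000800000000000000000000000000000) (nat_lit 6)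
theorem c10849 : QOK q10849 := cut [q1819] ⟨c1819, trivial⟩ (nd (nat_lit 141) (nat_lit 0) (cs (lf (nat_lit 46) (nat_lit 141)) (nd (nat_lit 119) (nat_lit 0) (cs (lf (nat_lit 45) (nat_lit 119)) (nd (nat_lit 251) (nat_lit 0) (cs (lf (nat_lit 40) (nat_lit 163)) (nd (nat_lit 252) (nat_lit 0) (cs (lf (nat_lit 41) (nat_lit 185)) (rf (nat_lit 0)))))))))) q10849 (by decide +kernel)
def q10862 : Q := Q.p (nat_lit 0x6000030000040000000000000000000000000000000000000000000000) (nat_lit 0x800000000000000080000180000e00003800008000000000000000000000000) (nat_lit 6)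
theorem c10862 : QOK q10862 := cut [q10841] ⟨c10841, trivial⟩ (nd (nat_lit 164) (nat_lit 0) (cs (lf (nat_lit 41) (nat_lit 163)) (nd (nat_lit 141) (nat_lit 0) (cs (lf (nat_lit 46) (nat_lit 141)) (rf (nat_lit 0)))))) q10862 (by decide +kernel)
def q10885 : Q := Q.p (nat_lit 0x1000004000030000000000000000000000000000000000000000000000000000) (nat_lit 0x4000000000000000000000c0000200000800000000000000000000000000000000000) (nat_lit 3)
theorem c10885 : QOK q10885 := cut [q10596] ⟨c10596, trivial⟩ (nd (nat_lit 187) (nat_lit 0) (cs (lf (nat_lit 30) (nat_lit 186)) (rf (nat_lit 0)))) q10885 (by decide +kernel)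
def q10890 : Q := Q.p (nat_lit 0x3c00006000010000000000000000000000000000000000000000000000000000) (nat_lit 0xc0000380000000000000008000020000000000000000000000000000000000000000000000) (nat_lit 4)
theorem c10890 : QOK q10890 := cut [q10888] ⟨c10888, trivial⟩ (nd (nat_lit 273) (nat_lit 0) (cs (lf (nat_lit 30) (nat_lit 207)) (nd (nat_lit 272) (nat_lit 0) (cs (lf (nat_lit 11) (nat_lit 249)) (rf (nat_lit 0)))))) q10890 (by decide +kernel)
def q10923 : Q := Q.p (nat_lit 0x4000070000000000000000000000000000000000000000000000000000) (nat_lit 0xa0001800006e0000000000000000000000000000000000000000000000) (nat_lit 5)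
theorem c10923 : QOK q10923 := cut [q10177] ⟨c10177, trivial⟩ (nd (nat_lit 211) (nat_lit 0) (cs (lf (nat_lit 11) (nat_lit 207)) (nd (nat_lit 189) (nat_lit 0) (cs (lf (nat_lit 17) (nat_lit 186)) (nd (nat_lit 212) (nat_lit 0) (cs (lf (nat_lit 10) (nat_lit 208)) (rf (nat_lit 0)))))))) q10923 (by decide +kernel)
def q10949 : Q := Q.p (nat_lit 0x800006000010000000000000000000000000000000000000000000000000000) (nat_lit 0x80000200001000000000000000040000100000000000000000000000000000000000000000) (nat_lit 3)
theorem c10949 : QOK q10949 := cut [q10948] ⟨c10948, trivial⟩ (nd (nat_lit 273) (nat_lit 0) (cs (lf (nat_lit 30) (nat_lit 207)) (rf (nat_lit 0)))) q10949 (by decide +kernel)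
def q10961 : Q := Q.p (nat_lit 0xc0000f000030000000000000000000000000000000000000000000000000000) (nat_lit 0xe000018000060000000000000000000000000000000000000000) (nat_lit 4)
theorem c10961 : QOK q10961 := cut [q2069] ⟨c2069, trivial⟩ (nd (nat_lit 206) (nat_lit 0) (cs (lf (nat_lit 23) (nat_lit 205)) (nd (nat_lit 184) (nat_lit 0) (cs (rf (nat_lit 0)) (lf (nat_lit 24) (nat_lit 162)))))) q10961 (by decide +kernel)
def q10986 : Q := Q.p (nat_lit 0x10000040000340000c0000000000000000000000000000000000000000000000) (nat_lit 0x2000038000080000000000000000000000000000000000000000) (nat_lit 3)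
theorem c10986 : QOK q10986 := cut [q9550] ⟨c9550, trivial⟩ (nd (nat_lit 185) (nat_lit 0) (cs (lf (nat_lit 47) (nat_lit 163)) (rf (nat_lit 0)))) q10986 (by decide +kernel)
def q11004 : Q := Q.p (nat_lit 0x300000c000030000000000000000000000000000000000000000000000000000) (nat_lit 0x180000600000800000000000000040000100000000000000000000000000000000000000000) (nat_lit 4)
theorem c11004 : QOK q11004 := cut [q11003] ⟨c11003, trivial⟩ (nd (nat_lit 274) (nat_lit 0) (cs (lf (nat_lit 30) (nat_lit 208)) (rf (nat_lit 0)))) q11004 (by decide +kernel)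
def q11017 : Q := Q.p (nat_lit 0x3c00003000000000000000000000000000000000000000000000000000000000) (nat_lit 0x10000040000180000000000000008000000000000000000000000000000000000000000000000000) (nat_lit 3)
theorem c11017 : QOK q11017 := cut [q11016] ⟨c11016, trivial⟩ (nd (nat_lit 272) (nat_lit 0) (cs (lf (nat_lit 11) (nat_lit 249)) (rf (nat_lit 0)))) q11017 (by decide +kernel)
def q11066 : Q := Q.p (nat_lit 0xc00002000008000020000000000000000000000000000000000000000000000) (nat_lit 0x10000000000100000c0000100000000000000000000000000000000000) (nat_lit 3)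
theorem c11066 : QOK q11066 := cut [q5088] ⟨c5088, trivial⟩ (nd (nat_lit 163) (nat_lit 0) (cs (lf (nat_lit 40) (nat_lit 162)) (rf (nat_lit 0)))) q11066 (by decide +kernel)
def q11118 : Q := Q.p (nat_lit 0xf0000000000000000000000000000000000000000000000000000) (nat_lit 0x1dc000300000e00000000000000000000000000000000000000000000000) (nat_lit 6)
theorem c11118 : QOK q11118 := cut [q10382] ⟨c10382, trivial⟩ (nd (nat_lit 190) (nat_lit 0) (cs (lf (nat_lit 16) (nat_lit 186)) (nd (nat_lit 212) (nat_lit 0) (cs (lf (nat_lit 17) (nat_lit 187)) (nd (nat_lit 231) (nat_lit 0) (cs (lf (nat_lit 11) (nat_lit 208)) (rf (nat_lit 0)))))))) q11118 (by decide +kernel)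
def q11143 : Q := Q.p (nat_lit 0x1e00000000000000000000000000000000000000000000000000000000000000) (nat_lit 0xe0000100000e00000000000000000000000000000000000000000000000000000000) (nat_lit 4)
theorem c11143 : QOK q11143 := cut [q9769] ⟨c9769, trivial⟩ (nd (nat_lit 270) (nat_lit 0) (cs (lf (nat_lit 10) (nat_lit 248)) (nd (nat_lit 248) (nat_lit 0) (cs (lf (nat_lit 11) (nat_lit 247)) (rf (nat_lit 0)))))) q11143 (by decide +kernel)
def q11149 : Q := Q.p (nat_lit 0x800002000018000020000000000000000000000000000000000000000000000) (nat_lit 0x40000000000400001c0000700000400000000000000000000000000000) (nat_lit 5)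
theorem c11149 : QOK q11149 := cut [q10186] ⟨c10186, trivial⟩ (nd (nat_lit 164) (nat_lit 0) (cs (lf (nat_lit 34) (nat_lit 163)) (nd (nat_lit 163) (nat_lit 0) (cs (lf (nat_lit 35) (nat_lit 141)) (rf (nat_lit 0)))))) q11149 (by decide +kernel)
def q11202 : Q := Q.p (nat_lit 0x40000100000400001000000000000000000000000000000) (nat_lit 0x280000e000028000000000000000000) (nat_lit 4)
theorem c11202 : QOK q11202 := cut [q11200] ⟨c11200, trivial⟩ (nd (nat_lit 99) (nat_lit 0) (cs (lf (nat_lit 34) (nat_lit 98)) (nd (nat_lit 98) (nat_lit 0) (cs (lf (nat_lit 35) (nat_lit 76)) (rf (nat_lit 0)))))) q11202 (by decide +kernel)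
def q11336 : Q := Q.p (nat_lit 0x400001000004000010000020000000000000000000000000000000000000000000000) (nat_lit 0x80000200000800000000000000040000080000000000000000000000000000000000000000) (nat_lit 3)
theorem c11336 : QOK q11336 := cut [q11335] ⟨c11335, trivial⟩ (nd (nat_lit 273) (nat_lit 0) (cs (lf (nat_lit 41) (nat_lit 207)) (rf (nat_lit 0)))) q11336 (by decide +kernel)
def q11356 : Q := Q.p (nat_lit 0x1e000020000000000000000000000000000000000000000000000) (nat_lit 0x40000100000c000000000040000080000200000000000000000000000000000000000) (nat_lit 4)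
theorem c11356 : QOK q11356 := cut [q4058] ⟨c4058, trivial⟩ (nd (nat_lit 230) (nat_lit 0) (cs (lf (nat_lit 5) (nat_lit 205)) (nd (nat_lit 252) (nat_lit 0) (cs (lf (nat_lit 42) (nat_lit 185)) (rf (nat_lit 0)))))) q11356 (by decide +kernel)
def q11414 : Q := Q.p (nat_lit 0x78000000000000000000000000000000000000000) (nat_lit 0x3800004000038000000000000000000000000000000000) (nat_lit 4)
theorem c11414 : QOK q11414 := cut [q11410] ⟨c11410, trivial⟩ (nd (nat_lit 180) (nat_lit 0) (cs (nd (nat_lit 158) (nat_lit 0) (cs (rf (nat_lit 0)) (lf (nat_lit 11) (nat_lit 157)))) (lf (nat_lit 10) (nat_lit 158)))) q11414 (by decide +kernel)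
def q11440 : Q := Q.p (nat_lit 0x6000008000020000000000000000000000000000000000000000) (nat_lit 0x1000000000010000000000180000600001000000000000000000000000) (nat_lit 4)
theorem c11440 : QOK q11440 := cut [q11439] ⟨c11439, trivial⟩ (nd (nat_lit 139) (nat_lit 0) (cs (lf (nat_lit 29) (nat_lit 139)) (rf (nat_lit 0)))) q11440 (by decide +kernel)
def q11443 : Q := Q.p (nat_lit 0x6000008000020000080000000000000000000000000000000000) (nat_lit 0x10000000000040000300000400000000000000000000000) (nat_lit 3)
theorem c11443 : QOK q11443 := cut [q8656] ⟨c8656, trivial⟩ (nd (nat_lit 117) (nat_lit 0) (cs (rf (nat_lit 0)) (lf (nat_lit 28) (nat_lit 117)))) q11443 (by decide +kernel)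
def q11474 : Q := Q.p (nat_lit 0x800002000004000010000000000000000000000000000000000000000000000000000) (nat_lit 0x200000000000000008000020000040000100000000000000000000000000000000000000000) (nat_lit 3)
theorem c11474 : QOK q11474 := cut [q3985] ⟨c3985, trivial⟩ (nd (nat_lit 231) (nat_lit 0) (cs (lf (nat_lit 42) (nat_lit 208)) (rf (nat_lit 0)))) q11474 (by decide +kernel)
def q11483 : Q := Q.p (nat_lit 0x800002000008000020000000000000000000000000000000000000000000000) (nat_lit 0x500001c0000500000000000000000000000000000000000) (nat_lit 4)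
theorem c11483 : QOK q11483 := cut [q5088] ⟨c5088, trivial⟩ (nd (nat_lit 164) (nat_lit 0) (cs (lf (nat_lit 34) (nat_lit 163)) (nd (nat_lit 163) (nat_lit 0) (cs (lf (nat_lit 35) (nat_lit 141)) (rf (nat_lit 0)))))) q11483 (by decide +kernel)
def q11488 : Q := Q.p (nat_lit 0x1800002000008000000000000000000000000000000000000000000000000000) (nat_lit 0x40000100000600000000000000000000020000000000000000000000000000000000000000000000) (nat_lit 3)
theorem c11488 : QOK q11488 := cut [q11487] ⟨c11487, trivial⟩ (nd (nat_lit 274) (nat_lit 0) (cs (lf (nat_lit 24) (nat_lit 185)) (rf (nat_lit 0)))) q11488 (by decide +kernel)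
def q11490 : Q := Q.p (nat_lit 0x800000000018000040000000000000000000000000000000000000000000000) (nat_lit 0x200000000002000000000020000100000400000000000000000000000000000000000) (nat_lit 3)
theorem c11490 : QOK q11490 := cut [q1827] ⟨c1827, trivial⟩ (nd (nat_lit 229) (nat_lit 0) (cs (lf (nat_lit 30) (nat_lit 185)) (rf (nat_lit 0)))) q11490 (by decide +kernel)
def q11501 : Q := Q.p (nat_lit 0xc00003000000000018000000000000000000000000000000000000000000000000000) (nat_lit 0x1000000e00006000000000020000000000000000000000000000000000000000000000) (nat_lit 4)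
theorem c11501 : QOK q11501 := cut [q5304] ⟨c5304, trivial⟩ (nd (nat_lit 185) (nat_lit 0) (cs (lf (nat_lit 44) (nat_lit 185)) (nd (nat_lit 251) (nat_lit 0) (cs (lf (nat_lit 26) (nat_lit 185)) (rf (nat_lit 0)))))) q11501 (by decide +kernel)
def q11502 : Q := Q.p (nat_lit 0x400001800000000008000000000000000000000000000000000000000000000000000) (nat_lit 0x40000100000200000000002000000000020000000000000000000000000000000000000000000000) (nat_lit 3)
theorem c11502 : QOK q11502 := cut [q11487] ⟨c11487, trivial⟩ (nd (nat_lit 229) (nat_lit 0) (cs (lf (nat_lit 24) (nat_lit 185)) (rf (nat_lit 0)))) q11502 (by decide +kernel)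
def q11531 : Q := Q.p (nat_lit 0xe00000800000000000000000000000000000000000000000000000000000000000000000000) (nat_lit 0x1000001700000000000000000000000000000000000000000000000000000000000000000000) (nat_lit 3)
theorem c11531 : QOK q11531 := cut [q11530] ⟨c11530, trivial⟩ (nd (nat_lit 274) (nat_lit 0) (cs (lf (nat_lit 18) (nat_lit 274)) (rf (nat_lit 0)))) q11531 (by decide +kernel)
def q11561 : Q := Q.p (nat_lit 0x1800007800000000000000000000000000000000000000000000000000000000000000000000) (nat_lit 0x200000000000000030000040000100000000000000000000000000000000000000000000000000000) (nat_lit 3)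
theorem c11561 : QOK q11561 := cut [q11559] ⟨c11559, trivial⟩ (nd (nat_lit 256) (nat_lit 0) (cs (rf (nat_lit 0)) (lf (nat_lit 17) (nat_lit 253)))) q11561 (by decide +kernel)
def q11581 : Q := Q.p (nat_lit 0x600000800002000000000020000000000000000000000000000000000000000000000000000) (nat_lit 0x1000000000018000040000100000000000000000000000000000000000000000000000) (nat_lit 3)
theorem c11581 : QOK q11581 := cut [q11580] ⟨c11580, trivial⟩ (nd (nat_lit 231) (nat_lit 0) (cs (lf (nat_lit 28) (nat_lit 209)) (rf (nat_lit 0)))) q11581 (by decide +kernel)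
def q11586 : Q := Q.p (nat_lit 0x600000800002000000000010000000000000000000000000000000000000000000000000000) (nat_lit 0x100000000000000000000018000060000140000000000000000000000000000000000000000000000) (nat_lit 4)
theorem c11586 : QOK q11586 := cut [q11585] ⟨c11585, trivial⟩ (nd (nat_lit 231) (nat_lit 0) (cs (lf (nat_lit 29) (nat_lit 231)) (rf (nat_lit 0)))) q11586 (by decide +kernel)
def q11588 : Q := Q.p (nat_lit 0x20000080000600001800000000000000000000000000000000000000000000000000000000000000000000) (nat_lit 0x800000700001000000000000000000000000000000000000000000000000000000000000000) (nat_lit 3)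
theorem c11588 : QOK q11588 := cut [q11587] ⟨c11587, trivial⟩ (nd (nat_lit 274) (nat_lit 0) (cs (lf (nat_lit 47) (nat_lit 252)) (rf (nat_lit 0)))) q11588 (by decide +kernel)
def q11597 : Q := Q.p (nat_lit 0x80000600000800002000000000000000000000000000000000000000000000000000000000000000) (nat_lit 0x10000170001800000000000000000000000000000000000000000000000000000000000000000000000000) (nat_lit 4)
theorem c11597 : QOK q11597 := cut [q11595] ⟨c11595, trivial⟩ (nd (nat_lit 318) (nat_lit 0) (cs (lf (nat_lit 41) (nat_lit 252)) (nd (nat_lit 299) (nat_lit 0) (cs (lf (nat_lit 6) (nat_lit 296)) (rf (nat_lit 0)))))) q11597 (by decide +kernel)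
def q11604 : Q := Q.p (nat_lit 0x20000080000200000c00002000000000000000000000000000000000000000000000000000000000000000) (nat_lit 0x8000000000040000100000000000000008000020000000000000000000000000000000000000000000000000000) (nat_lit 3)
theorem c11604 : QOK q11604 := cut [q11603] ⟨c11603, trivial⟩ (nd (nat_lit 296) (nat_lit 0) (cs (lf (nat_lit 42) (nat_lit 274)) (rf (nat_lit 0)))) q11604 (by decide +kernel)
def q11609 : Q := Q.p (nat_lit 0x80000200000800002000000000010000000000000000000000000000000000000000000000000000) (nat_lit 0x10000040000100000000000000018000060000140000000000000000000000000000000000000000000000) (nat_lit 5)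
theorem c11609 : QOK q11609 := cut [q11585] ⟨c11585, trivial⟩ (nd (nat_lit 318) (nat_lit 0) (cs (lf (nat_lit 41) (nat_lit 252)) (nd (nat_lit 231) (nat_lit 0) (cs (lf (nat_lit 40) (nat_lit 230)) (rf (nat_lit 0)))))) q11609 (by decide +kernel)
def q11626 : Q := Q.p (nat_lit 0x1e00000000000000000000000000000000000000000000000000000000000000000000000000) (nat_lit 0xe0000010000e000000000000000000000000000000000000000000000000000000000000000000000) (nat_lit 4)
theorem c11626 : QOK q11626 := cut [q11623] ⟨c11623, trivial⟩ (nd (nat_lit 322) (nat_lit 0) (cs (lf (nat_lit 5) (nat_lit 297)) (nd (nat_lit 296) (nat_lit 0) (cs (rf (nat_lit 0)) (lf (nat_lit 4) (nat_lit 296)))))) q11626 (by decide +kernel)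
def q11631 : Q := Q.p (nat_lit 0xf00000200000000000000000000000000000000000000000000000000000000000000000000) (nat_lit 0x80007100000000000000000000000000000000000000000000000000000000000000000000) (nat_lit 3)
theorem c11631 : QOK q11631 := cut [q11629] ⟨c11629, trivial⟩ (nd (nat_lit 277) (nat_lit 0) (cs (rf (nat_lit 0)) (lf (nat_lit 17) (nat_lit 274)))) q11631 (by decide +kernel)
def q11637 : Q := Q.p (nat_lit 0xe00000800000000000000000000000000000000000000000000000000000000000000000000) (nat_lit 0x1100000700000000000000000000000000000000000000000000000000000000000000000000) (nat_lit 3)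
theorem c11637 : QOK q11637 := cut [q11636] ⟨c11636, trivial⟩ (nd (nat_lit 274) (nat_lit 0) (cs (lf (nat_lit 18) (nat_lit 274)) (rf (nat_lit 0)))) q11637 (by decide +kernel)
def q11659 : Q := Q.p (nat_lit 0xf00000800000000000000000000000000000000000000000000000000000000000000000000) (nat_lit 0x7000000c0003000000000000000000000000000000000000000000000000000000000000000000000) (nat_lit 4)
theorem c11659 : QOK q11659 := cut [q11657] ⟨c11657, trivial⟩ (nd (nat_lit 321) (nat_lit 0) (cs (lf (nat_lit 5) (nat_lit 296)) (nd (nat_lit 295) (nat_lit 0) (cs (lf (nat_lit 4) (nat_lit 295)) (rf (nat_lit 0)))))) q11659 (by decide +kernel)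
def q11666 : Q := Q.p (nat_lit 0x380000800000000000000000000000000000000000000000000000000000000000000000000) (nat_lit 0x40007400000000000000000000000000000000000000000000000000000000000000000000) (nat_lit 3)
theorem c11666 : QOK q11666 := cut [q11665] ⟨c11665, trivial⟩ (nd (nat_lit 276) (nat_lit 0) (cs (lf (nat_lit 12) (nat_lit 272)) (rf (nat_lit 0)))) q11666 (by decide +kernel)
def q11668 : Q := Q.p (nat_lit 0x78000000000000000000000000000000000000000000000000000) (nat_lit 0x80000770000000000000000000000000000000000000000000000) (nat_lit 4)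
theorem c11668 : QOK q11668 := cut [q1481] ⟨c1481, trivial⟩ (nd (nat_lit 189) (nat_lit 0) (cs (lf (nat_lit 16) (nat_lit 185)) (nd (nat_lit 185) (nat_lit 0) (cs (lf (nat_lit 23) (nat_lit 184)) (rf (nat_lit 0)))))) q11668 (by decide +kernel)
def q11701 : Q := Q.p (nat_lit 0x780000600000000000000000000000000000000000000000000000000000000000000000000) (nat_lit 0x2000008000030000000000000001000000000000000000000000000000000000000000000000000000000000000) (nat_lit 3)
theorem c11701 : QOK q11701 := cut [q11700] ⟨c11700, trivial⟩ (nd (nat_lit 317) (nat_lit 0) (cs (lf (nat_lit 11) (nat_lit 294)) (rf (nat_lit 0)))) q11701 (by decide +kernel)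
def q11707 : Q := Q.p (nat_lit 0x700002800000000000000000000000000000000000000000000000000000000000000000000) (nat_lit 0xe00001800004400000000000000000000000000000000000000000000000000000000000000000000) (nat_lit 4)
theorem c11707 : QOK q11707 := cut [q11706] ⟨c11706, trivial⟩ (nd (nat_lit 299) (nat_lit 0) (cs (lf (nat_lit 17) (nat_lit 274)) (rf (nat_lit 0)))) q11707 (by decide +kernel)
def q11728 : Q := Q.p (nat_lit 0x380000800000000000000000000000000000000000000000000000000000000000000000000) (nat_lit 0x440007000000000000000000000000000000000000000000000000000000000000000000000) (nat_lit 3)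
theorem c11728 : QOK q11728 := cut [q11727] ⟨c11727, trivial⟩ (nd (nat_lit 276) (nat_lit 0) (cs (lf (nat_lit 12) (nat_lit 272)) (rf (nat_lit 0)))) q11728 (by decide +kernel)
def q11733 : Q := Q.p (nat_lit 0x3c0000800000000000000000000000000000000000000000000000000000000000000000000) (nat_lit 0x200005c0000000000000000000000000000000000000000000000000000000000000000000) (nat_lit 3)
theorem c11733 : QOK q11733 := cut [q11731] ⟨c11731, trivial⟩ (nd (nat_lit 271) (nat_lit 0) (cs (rf (nat_lit 0)) (lf (nat_lit 22) (nat_lit 271)))) q11733 (by decide +kernel)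
def q11750 : Q := Q.p (nat_lit 0x3c0000000000000000000000000000000000000000000000000000000000000000000000000) (nat_lit 0x1c0000200001c0000000000000000000000000000000000000000000000000000000000000000000) (nat_lit 4)
theorem c11750 : QOK q11750 := cut [q11748] ⟨c11748, trivial⟩ (nd (nat_lit 315) (nat_lit 0) (cs (lf (nat_lit 10) (nat_lit 293)) (nd (nat_lit 293) (nat_lit 0) (cs (lf (nat_lit 11) (nat_lit 292)) (rf (nat_lit 0)))))) q11750 (by decide +kernel)
def q11756 : Q := Q.p (nat_lit 0x20000700001800000000000000000000000000000000000000000000000000000000000000000000) (nat_lit 0xe40003800000000000000000000000000000000000000000000000000000000000000000000000000) (nat_lit 4)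
theorem c11756 : QOK q11756 := cut [q11755] ⟨c11755, trivial⟩ (nd (nat_lit 299) (nat_lit 0) (cs (lf (nat_lit 10) (nat_lit 295)) (rf (nat_lit 0)))) q11756 (by decide +kernel)
def q11768 : Q := Q.p (nat_lit 0xe00000800000000000000000000000000000000000000000000000000000000000000) (nat_lit 0x1000001700000000000000000000000000000000000000000000000000000000000000) (nat_lit 3)
theorem c11768 : QOK q11768 := cut [q11767] ⟨c11767, trivial⟩ (nd (nat_lit 250) (nat_lit 0) (cs (lf (nat_lit 18) (nat_lit 250)) (rf (nat_lit 0)))) q11768 (by decide +kernel)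
def q11778 : Q := Q.p (nat_lit 0x780000000000000000000000000000000000000000000000000000000000000000000000000) (nat_lit 0xe0000180000e700000000000000000000000000000000000000000000000000000000000000000000) (nat_lit 6)
theorem c11778 : QOK q11778 := cut [q11774] ⟨c11774, trivial⟩ (nd (nat_lit 273) (nat_lit 0) (cs (lf (nat_lit 23) (nat_lit 272)) (nd (nat_lit 299) (nat_lit 0) (cs (lf (nat_lit 22) (nat_lit 273)) (nd (nat_lit 278) (nat_lit 0) (cs (lf (nat_lit 16) (nat_lit 274)) (nd (nat_lit 322) (nat_lit 0) (cs (lf (nat_lit 4) (nat_lit 296)) (rf (nat_lit 0)))))))))) q11778 (by decide +kernel)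
def q11794 : Q := Q.p (nat_lit 0x3c0000600000000000000000000000000000000000000000000000000000000000000000000000000) (nat_lit 0x380000c00000000000000000000000000000000000000000000000000000000000000000000000000000000) (nat_lit 3)
theorem c11794 : QOK q11794 := cut [q11792] ⟨c11792, trivial⟩ (nd (nat_lit 322) (nat_lit 0) (cs (rf (nat_lit 0)) (lf (nat_lit 18) (nat_lit 297)))) q11794 (by decide +kernel)
def q11800 : Q := Q.p (nat_lit 0x3c0000080000000000000000000000000000000000000000000000000000000000000000000000000) (nat_lit 0x20001c40000000000000000000000000000000000000000000000000000000000000000000000000) (nat_lit 3)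
theorem c11800 : QOK q11800 := cut [q11799] ⟨c11799, trivial⟩ (nd (nat_lit 299) (nat_lit 0) (cs (lf (nat_lit 17) (nat_lit 296)) (rf (nat_lit 0)))) q11800 (by decide +kernel)
def q11809 : Q := Q.p (nat_lit 0x380000200000000000000000000000000000000000000000000000000000000000000000000000000) (nat_lit 0x4000005c0000000000000000000000000000000000000000000000000000000000000000000000000) (nat_lit 3)
theorem c11809 : QOK q11809 := cut [q11808] ⟨c11808, trivial⟩ (nd (nat_lit 296) (nat_lit 0) (cs (lf (nat_lit 18) (nat_lit 296)) (rf (nat_lit 0)))) q11809 (by decide +kernel)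
def q11815 : Q := Q.p (nat_lit 0x80000300000800002000000000000000000000000000000000000000000000000000000000000000) (nat_lit 0x400007400000c0000000000000000000000000000000000000000000000000000000000000000000000000) (nat_lit 4)
theorem c11815 : QOK q11815 := cut [q11814] ⟨c11814, trivial⟩ (nd (nat_lit 320) (nat_lit 0) (cs (lf (nat_lit 29) (nat_lit 253)) (rf (nat_lit 0)))) q11815 (by decide +kernel)
def q11823 : Q := Q.p (nat_lit 0x80000300000800002000000000000000000000000000000000000000000000000000000000000000) (nat_lit 0x18000060000100000000000400001000000000000000000000000000000000000000000000000000000000000000) (nat_lit 4)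
theorem c11823 : QOK q11823 := cut [q11821] ⟨c11821, trivial⟩ (nd (nat_lit 342) (nat_lit 0) (cs (lf (nat_lit 28) (nat_lit 253)) (nd (nat_lit 341) (nat_lit 0) (cs (lf (nat_lit 29) (nat_lit 275)) (rf (nat_lit 0)))))) q11823 (by decide +kernel)
def q11856 : Q := Q.p (nat_lit 0x200003800002000008000000000000000000000000000000000000000000000000000) (nat_lit 0x400005c0000000000000000000000000000000000000000000000000000000000000000000) (nat_lit 3)
theorem c11856 : QOK q11856 := cut [q11855] ⟨c11855, trivial⟩ (nd (nat_lit 272) (nat_lit 0) (cs (lf (nat_lit 41) (nat_lit 206)) (rf (nat_lit 0)))) q11856 (by decide +kernel)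
def q11865 : Q := Q.p (nat_lit 0x200000800002000000000010000000000000000000000000000000000000000000000000000) (nat_lit 0x8000000000040000100000c000000000000000000000000000000000000000000000000000000000) (nat_lit 3)
theorem c11865 : QOK q11865 := cut [q1223] ⟨c1223, trivial⟩ (nd (nat_lit 230) (nat_lit 0) (cs (rf (nat_lit 0)) (lf (nat_lit 45) (nat_lit 208)))) q11865 (by decide +kernel)
def q11869 : Q := Q.p (nat_lit 0x200000800002000008000000000000000000000000000000000000000000000000000000000) (nat_lit 0x100000400001000000000010000060000100000000000000000000000000000000000000000000000) (nat_lit 4)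
theorem c11869 : QOK q11869 := cut [q11867] ⟨c11867, trivial⟩ (nd (nat_lit 210) (nat_lit 0) (cs (lf (nat_lit 34) (nat_lit 209)) (nd (nat_lit 209) (nat_lit 0) (cs (lf (nat_lit 35) (nat_lit 187)) (rf (nat_lit 0)))))) q11869 (by decide +kernel)
def q11877 : Q := Q.p (nat_lit 0x100000800002000008000020000000000000000000000000000000000000000000000000000) (nat_lit 0x140000600001000000000000000000000000000000000000000000000000000000000000000000000) (nat_lit 3)
theorem c11877 : QOK q11877 := cut [q11867] ⟨c11867, trivial⟩ (nd (nat_lit 297) (nat_lit 0) (cs (lf (nat_lit 41) (nat_lit 230)) (rf (nat_lit 0)))) q11877 (by decide +kernel)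
def q11929 : Q := Q.p (nat_lit 0xc0000100000400001000000000000000000000000000000000000000000000000000) (nat_lit 0x200000000000800006000008000000000000000000000000000000000000000) (nat_lit 3)
theorem c11929 : QOK q11929 := cut [q11927] ⟨c11927, trivial⟩ (nd (nat_lit 182) (nat_lit 0) (cs (rf (nat_lit 0)) (lf (nat_lit 28) (nat_lit 182)))) q11929 (by decide +kernel)
def q11944 : Q := Q.p (nat_lit 0x3c0000080000000000000000000000000000000000000000000000000000000000000) (nat_lit 0x1c000020000040000000000000000000000000000000000000000000000000000000000000) (nat_lit 3)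
theorem c11944 : QOK q11944 := cut [q11943] ⟨c11943, trivial⟩ (nd (nat_lit 291) (nat_lit 0) (cs (lf (nat_lit 10) (nat_lit 269)) (rf (nat_lit 0)))) q11944 (by decide +kernel)
def q11954 : Q := Q.p (nat_lit 0x100000780000000000000000000000000000000000000000000000000000000000000000000) (nat_lit 0x80000040000380000000000000000000000000000000000000000000000000000000000000) (nat_lit 3)
theorem c11954 : QOK q11954 := cut [q5464] ⟨c5464, trivial⟩ (nd (nat_lit 270) (nat_lit 0) (cs (rf (nat_lit 0)) (lf (nat_lit 4) (nat_lit 270)))) q11954 (by decide +kernel)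
def q11959 : Q := Q.p (nat_lit 0x100000780000000000000000000000000000000000000000000000000000000000000000000) (nat_lit 0xb8000040000000000000000000000000000000000000000000000000000000000000000000) (nat_lit 3)
theorem c11959 : QOK q11959 := cut [q11958] ⟨c11958, trivial⟩ (nd (nat_lit 270) (nat_lit 0) (cs (lf (nat_lit 4) (nat_lit 270)) (rf (nat_lit 0)))) q11959 (by decide +kernel)
def q11980 : Q := Q.p (nat_lit 0x180002400001000004000000000000000000000000000000000000000000000000000) (nat_lit 0x80000600001800000000000000000000000000000000000000000000000000000000000000) (nat_lit 3)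
theorem c11980 : QOK q11980 := cut [q11979] ⟨c11979, trivial⟩ (nd (nat_lit 273) (nat_lit 0) (cs (lf (nat_lit 29) (nat_lit 206)) (rf (nat_lit 0)))) q11980 (by decide +kernel)
def q11983 : Q := Q.p (nat_lit 0x10000040000300000c000000000000000000000000000000000000000000000000000) (nat_lit 0x4000003800008000000000000000000000000000000000000000000000) (nat_lit 3)
theorem c11983 : QOK q11983 := cut [q5402] ⟨c5402, trivial⟩ (nd (nat_lit 205) (nat_lit 0) (cs (lf (nat_lit 47) (nat_lit 183)) (rf (nat_lit 0)))) q11983 (by decide +kernel)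
def q12023 : Q := Q.p (nat_lit 0x200001e000000000000000000000000000000000000000000000000000) (nat_lit 0x400000100000e000000000000000000000000000000000000000000000) (nat_lit 3)
theorem c12023 : QOK q12023 := cut [q126] ⟨c126, trivial⟩ (nd (nat_lit 204) (nat_lit 0) (cs (rf (nat_lit 0)) (lf (nat_lit 5) (nat_lit 204)))) q12023 (by decide +kernel)
def q12042 : Q := Q.p (nat_lit 0x200000800002000008000000000000000000000000000000000000000000000) (nat_lit 0x500001c0000500000000000000010000040000000000000000000000000000000000000000) (nat_lit 5)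
theorem c12042 : QOK q12042 := cut [q12039] ⟨c12039, trivial⟩ (nd (nat_lit 270) (nat_lit 0) (cs (lf (nat_lit 40) (nat_lit 182)) (nd (nat_lit 162) (nat_lit 0) (cs (lf (nat_lit 34) (nat_lit 161)) (nd (nat_lit 272) (nat_lit 0) (cs (lf (nat_lit 28) (nat_lit 183)) (rf (nat_lit 0)))))))) q12042 (by decide +kernel)
def q12078 : Q := Q.p (nat_lit 0x200000800002000008000000000000000000000000000000000000000000000) (nat_lit 0x40000100000400000000010000060000100000000000000000000000000000000000) (nat_lit 4)
theorem c12078 : QOK q12078 := cut [q12076] ⟨c12076, trivial⟩ (nd (nat_lit 248) (nat_lit 0) (cs (lf (nat_lit 41) (nat_lit 182)) (nd (nat_lit 161) (nat_lit 0) (cs (lf (nat_lit 40) (nat_lit 160)) (rf (nat_lit 0)))))) q12078 (by decide +kernel)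
def q12114 : Q := Q.p (nat_lit 0x80001a000008000060000000000000000000000000000000000000000) (nat_lit 0x200000000000000036000180000000000000000000000000000000000000000) (nat_lit 4)
theorem c12114 : QOK q12114 := cut [q12112] ⟨c12112, trivial⟩ (nd (nat_lit 184) (nat_lit 0) (cs (lf (nat_lit 30) (nat_lit 161)) (nd (nat_lit 182) (nat_lit 0) (cs (lf (nat_lit 3) (nat_lit 182)) (rf (nat_lit 0)))))) q12114 (by decide +kernel)
def q12135 : Q := Q.p (nat_lit 0x200000e000010000000000000000000000000000000000000000000000) (nat_lit 0x4000001800060000040000100000000000000000000000000000000000) (nat_lit 4)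
theorem c12135 : QOK q12135 := cut [q12129] ⟨c12129, trivial⟩ (nd (nat_lit 140) (nat_lit 0) (cs (lf (nat_lit 25) (nat_lit 140)) (rf (nat_lit 0)))) q12135 (by decide +kernel)
def q12207 : Q := Q.p (nat_lit 0x2000018000040000000000000000000000000000000000000000000000000000) (nat_lit 0x200000800000000000000020000100000400000000000000000000000000000000000000000) (nat_lit 3)
theorem c12207 : QOK q12207 := cut [q12206] ⟨c12206, trivial⟩ (nd (nat_lit 275) (nat_lit 0) (cs (lf (nat_lit 30) (nat_lit 209)) (rf (nat_lit 0)))) q12207 (by decide +kernel)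
def q12209 : Q := Q.p (nat_lit 0x80000200000c000050000000000000000000000000000000000000000000000000000) (nat_lit 0x20001a0000100000000000000000000000000000000000000000000000) (nat_lit 3)
theorem c12209 : QOK q12209 := cut [q756] ⟨c756, trivial⟩ (nd (nat_lit 209) (nat_lit 0) (cs (lf (nat_lit 35) (nat_lit 187)) (rf (nat_lit 0)))) q12209 (by decide +kernel)
def q12211 : Q := Q.p (nat_lit 0x800006000018000020000000000000000000000000000000000000000000000) (nat_lit 0x100000c0000300000000000000000000000000000000000) (nat_lit 3)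
theorem c12211 : QOK q12211 := cut [q5105] ⟨c5105, trivial⟩ (nd (nat_lit 162) (nat_lit 0) (cs (lf (nat_lit 46) (nat_lit 162)) (rf (nat_lit 0)))) q12211 (by decide +kernel)
def q12221 : Q := Q.p (nat_lit 0x1c000040000000000000000000000000000000000000000000000000000) (nat_lit 0x20003a0000000000000000000000000000000000000000000000000000) (nat_lit 3)
theorem c12221 : QOK q12221 := cut [q12220] ⟨c12220, trivial⟩ (nd (nat_lit 211) (nat_lit 0) (cs (lf (nat_lit 12) (nat_lit 207)) (rf (nat_lit 0)))) q12221 (by decide +kernel)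
def q12231 : Q := Q.p (nat_lit 0x300001c000000000000000000000000000000000000000000000000000) (nat_lit 0x1c00006380000e000000000000000000000000000000000000000000000) (nat_lit 6)
theorem c12231 : QOK q12231 := cut [q126] ⟨c126, trivial⟩ (nd (nat_lit 209) (nat_lit 0) (cs (lf (nat_lit 6) (nat_lit 206)) (nd (nat_lit 231) (nat_lit 0) (cs (lf (nat_lit 5) (nat_lit 206)) (nd (nat_lit 205) (nat_lit 0) (cs (nd (nat_lit 204) (nat_lit 0) (cs (rf (nat_lit 0)) (lf (nat_lit 0) (nat_lit 203)))) (lf (nat_lit 19) (nat_lit 205)))))))) q12231 (by decide +kernel)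
def q12246 : Q := Q.p (nat_lit 0x3c00008000000000000000000000000000000000000000000000000000000000) (nat_lit 0x200005c00000000000000000000000000000000000000000000000000000000) (nat_lit 3)
theorem c12246 : QOK q12246 := cut [q2063] ⟨c2063, trivial⟩ (nd (nat_lit 249) (nat_lit 0) (cs (rf (nat_lit 0)) (lf (nat_lit 16) (nat_lit 227)))) q12246 (by decide +kernel)
def q12284 : Q := Q.p (nat_lit 0x600001c000020000080000000000000000000000000000000000000000) (nat_lit 0x80000300000c00001000000000010000000000000000000000000000000000000000000000) (nat_lit 4)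
theorem c12284 : QOK q12284 := cut [q12282] ⟨c12282, trivial⟩ (nd (nat_lit 250) (nat_lit 0) (cs (lf (nat_lit 40) (nat_lit 162)) (nd (nat_lit 251) (nat_lit 0) (cs (lf (nat_lit 41) (nat_lit 184)) (rf (nat_lit 0)))))) q12284 (by decide +kernel)
def q12296 : Q := Q.p (nat_lit 0x1e0000080000000000000000000000000000000000) (nat_lit 0x200001d00000000000000000000000000000000000) (nat_lit 3)
theorem c12296 : QOK q12296 := cut [q12295] ⟨c12295, trivial⟩ (nd (nat_lit 165) (nat_lit 0) (cs (lf (nat_lit 22) (nat_lit 139)) (rf (nat_lit 0)))) q12296 (by decide +kernel)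
def q12331 : Q := Q.p (nat_lit 0x1c0000100000000000000000000000000000000000) (nat_lit 0x2200000e0000000000000000000000000000000000) (nat_lit 3)
theorem c12331 : QOK q12331 := cut [q12330] ⟨c12330, trivial⟩ (nd (nat_lit 139) (nat_lit 0) (cs (lf (nat_lit 18) (nat_lit 139)) (rf (nat_lit 0)))) q12331 (by decide +kernel)
def q12357 : Q := Q.p (nat_lit 0x1c0000100000000000000000000000000000000000) (nat_lit 0x2000002e0000000000000000000000000000000000) (nat_lit 3)
theorem c12357 : QOK q12357 := cut [q12356] ⟨c12356, trivial⟩ (nd (nat_lit 139) (nat_lit 0) (cs (lf (nat_lit 18) (nat_lit 139)) (rf (nat_lit 0)))) q12357 (by decide +kernel)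
def q12363 : Q := Q.p (nat_lit 0x1e0000000000000000000000000000000000000000) (nat_lit 0xe000010000e00000000000000000000000000000000000) (nat_lit 4)
theorem c12363 : QOK q12363 := cut [q12361] ⟨c12361, trivial⟩ (nd (nat_lit 182) (nat_lit 0) (cs (lf (nat_lit 10) (nat_lit 160)) (nd (nat_lit 160) (nat_lit 0) (cs (lf (nat_lit 11) (nat_lit 159)) (rf (nat_lit 0)))))) q12363 (by decide +kernel)
def q12369 : Q := Q.p (nat_lit 0x4000000000060000080000000000000000000000000000000000) (nat_lit 0x1000000000010000000000100000200000800000000000000000000000) (nat_lit 3)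
theorem c12369 : QOK q12369 := cut [q5853] ⟨c5853, trivial⟩ (nd (nat_lit 184) (nat_lit 0) (cs (lf (nat_lit 42) (nat_lit 139)) (rf (nat_lit 0)))) q12369 (by decide +kernel)
def q12454 : Q := Q.p (nat_lit 0x80000200001e000000000000000000000000000000000000000000000000000000000) (nat_lit 0xe0000100000400000000000000000000000000000000000000000) (nat_lit 3)
theorem c12454 : QOK q12454 := cut [q12206] ⟨c12206, trivial⟩ (nd (nat_lit 210) (nat_lit 0) (cs (lf (nat_lit 17) (nat_lit 207)) (rf (nat_lit 0)))) q12454 (by decide +kernel)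
def q12505 : Q := Q.p (nat_lit 0x200000c000010000000000000000000000000000000000000000000000) (nat_lit 0x200000800001000000000000000040000100000000000000000000000000000000000) (nat_lit 3)
theorem c12505 : QOK q12505 := cut [q3899] ⟨c3899, trivial⟩ (nd (nat_lit 251) (nat_lit 0) (cs (lf (nat_lit 42) (nat_lit 184)) (rf (nat_lit 0)))) q12505 (by decide +kernel)
def q12509 : Q := Q.p (nat_lit 0x2000009000038000000000000000000000000000000000000000000000000000) (nat_lit 0x800000000002000040000300000000000000000000000000000000000000000000000) (nat_lit 3)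
theorem c12509 : QOK q12509 := cut [q12508] ⟨c12508, trivial⟩ (nd (nat_lit 210) (nat_lit 0) (cs (lf (nat_lit 10) (nat_lit 206)) (rf (nat_lit 0)))) q12509 (by decide +kernel)
def q12540 : Q := Q.p (nat_lit 0x200000800006800018000000000000000000000000000000000000000000000000000) (nat_lit 0x400007000010000000000000000000000000000000000000000000000) (nat_lit 3)
theorem c12540 : QOK q12540 := cut [q12539] ⟨c12539, trivial⟩ (nd (nat_lit 206) (nat_lit 0) (cs (lf (nat_lit 47) (nat_lit 184)) (rf (nat_lit 0)))) q12540 (by decide +kernel)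
def q12550 : Q := Q.p (nat_lit 0x1000004000018000040000100000000000000000000000000000000000000000) (nat_lit 0x20000280000c00003000000000000000000000000000000) (nat_lit 4)
theorem c12550 : QOK q12550 := cut [q2] ⟨c2, trivial⟩ (nd (nat_lit 185) (nat_lit 0) (cs (lf (nat_lit 47) (nat_lit 163)) (nd (nat_lit 142) (nat_lit 0) (cs (rf (nat_lit 0)) (lf (nat_lit 36) (nat_lit 119)))))) q12550 (by decide +kernel)
def q12622 : Q := Q.p (nat_lit 0x4000010000040000300000000000000000000000000000000000) (nat_lit 0x1000000000000000030000c80000200000000000000000000000000000) (nat_lit 4)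
theorem c12622 : QOK q12622 := cut [q12620] ⟨c12620, trivial⟩ (nd (nat_lit 139) (nat_lit 0) (cs (lf (nat_lit 47) (nat_lit 117)) (nd (nat_lit 161) (nat_lit 0) (cs (lf (nat_lit 42) (nat_lit 139)) (rf (nat_lit 0)))))) q12622 (by decide +kernel)
def q12646 : Q := Q.p (nat_lit 0x800002000008000010000000000000000000000000000000000000000000000000000) (nat_lit 0x200000000001000004000000000040000100000000000000000000000000000000000000000) (nat_lit 3)
theorem c12646 : QOK q12646 := cut [q3983] ⟨c3983, trivial⟩ (nd (nat_lit 230) (nat_lit 0) (cs (lf (nat_lit 42) (nat_lit 208)) (rf (nat_lit 0)))) q12646 (by decide +kernel)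
def q12650 : Q := Q.p (nat_lit 0x200000800002000008000000000000000000000000000000000000000000000000000000000) (nat_lit 0x100000400001000000000010000060000100000000000000000000000000000000000000000000000) (nat_lit 4)
theorem c12650 : QOK q12650 := cut [q12648] ⟨c12648, trivial⟩ (nd (nat_lit 210) (nat_lit 0) (cs (lf (nat_lit 34) (nat_lit 209)) (nd (nat_lit 298) (nat_lit 0) (cs (lf (nat_lit 29) (nat_lit 231)) (rf (nat_lit 0)))))) q12650 (by decide +kernel)
def q12655 : Q := Q.p (nat_lit 0x80000200000800002000010000000000000000000000000000000000000000000000000000) (nat_lit 0x100000c000050000000000000000000000000000000000000000000000) (nat_lit 3)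
theorem c12655 : QOK q12655 := cut [q12654] ⟨c12654, trivial⟩ (nd (nat_lit 207) (nat_lit 0) (cs (lf (nat_lit 35) (nat_lit 185)) (rf (nat_lit 0)))) q12655 (by decide +kernel)
def q12665 : Q := Q.p (nat_lit 0x1e00003000000000000000000000000000000000000000000000000000000000000000) (nat_lit 0xe0000180000000000000000000000000000000000000000000000000000000000000000000) (nat_lit 3)
theorem c12665 : QOK q12665 := cut [q12664] ⟨c12664, trivial⟩ (nd (nat_lit 294) (nat_lit 0) (cs (lf (nat_lit 10) (nat_lit 272)) (rf (nat_lit 0)))) q12665 (by decide +kernel)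
def q12679 : Q := Q.p (nat_lit 0xf00000c00000000000000000000000000000000000000000000000000000000000000) (nat_lit 0x10000060000000000000002000008000000000000000000000000000000000000000000000000000) (nat_lit 3)
theorem c12679 : QOK q12679 := cut [q12678] ⟨c12678, trivial⟩ (nd (nat_lit 294) (nat_lit 0) (cs (lf (nat_lit 11) (nat_lit 271)) (rf (nat_lit 0)))) q12679 (by decide +kernel)
def q12687 : Q := Q.p (nat_lit 0x80000200000800000000010000000000000000000000000000000000000000000000000000) (nat_lit 0x700000c000050000000000000000000000000000000000000000000000) (nat_lit 4)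
theorem c12687 : QOK q12687 := cut [q12686] ⟨c12686, trivial⟩ (nd (nat_lit 229) (nat_lit 0) (cs (lf (nat_lit 34) (nat_lit 207)) (rf (nat_lit 0)))) q12687 (by decide +kernel)
def q12762 : Q := Q.p (nat_lit 0x8000020000080000600000000000000000000000000000000000000000000000000000000000000000000) (nat_lit 0x400003000004000000000100000000000000000000000000000000000000000000000000000000000000000000000000) (nat_lit 3)
theorem c12762 : QOK q12762 := cut [q12761] ⟨c12761, trivial⟩ (nd (nat_lit 361) (nat_lit 0) (cs (lf (nat_lit 34) (nat_lit 273)) (rf (nat_lit 0)))) q12762 (by decide +kernel)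

end Crest.Agent.H3.Snaky.CR
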