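import Crest.Agent.H3.Snaky.Cert

set_option autoImplicit false
set_option maxRecDepth 100000

namespace Crest.Agent.H3.Snaky.CR

open T

def q14273 : Q := Q.p (nat_lit 0x80000200000800003000000000000000000000000000000000000000000000000000000000000000000000) (nat_lit 0x4000030000040000000000400000000000000000000000000000000000000000000000000000000000000000000000000) (nat_lit 3)
theorem c14273 : QOK q14273 := cut [] trivial (nd (nat_lit 364) (nat_lit 0) (cs (lf (nat_lit 40) (nat_lit 276)) (nd (nat_lit 365) (nat_lit 0) (cs (lf (nat_lit 41) (nat_lit 298)) (lf (nat_lit 46) (nat_lit 276)))))) q14273 (by decide +kernel)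
def q14279 : Q := Q.p (nat_lit 0x80000200000800002000008000000000000000000000000000000000000000000000000000000000000000) (nat_lit 0x40000100000400000000000000000000000000000000000000000000000000000000000000000000000000000000) (nat_lit 2)
theorem c14279 : QOK q14279 := cut [] trivial (nd (nat_lit 344) (nat_lit 0) (cs (lf (nat_lit 29) (nat_lit 277)) (lf (nat_lit 28) (nat_lit 255)))) q14279 (by decide +kernel)
def q14298 : Q := Q.p (nat_lit 0x180000200000f00000000000000000000000000000000000000000000000000000000000000000000) (nat_lit 0x1e0001000000000000000000000000000000000000000000000000000000000000000000000) (nat_lit 3)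
theorem c14298 : QOK q14298 := cut [] trivial (nd (nat_lit 294) (nat_lit 0) (cs (lf (nat_lit 11) (nat_lit 271)) (nd (nat_lit 295) (nat_lit 0) (cs (lf (nat_lit 2) (nat_lit 294)) (lf (nat_lit 6) (nat_lit 272)))))) q14298 (by decide +kernel)
def q14305 : Q := Q.p (nat_lit 0xd00001400000000000000000000000000000000000000000000000000000000000000) (nat_lit 0x200000a00000000000000000000000000000000000000000000000000000000000000) (nat_lit 2)
theorem c14305 : QOK q14305 := cut [] trivial (nd (nat_lit 249) (nat_lit 0) (cs (lf (nat_lit 20) (nat_lit 249)) (lf (nat_lit 2) (nat_lit 249)))) q14305 (by decide +kernel)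
def q14306 : Q := Q.p (nat_lit 0xd00003400000000000000000000000000000000000000000000000000000000000000) (nat_lit 0x80000a00000000000000000000000000000000000000000000000000000000000000) (nat_lit 2)
theorem c14306 : QOK q14306 := cut [] trivial (nd (nat_lit 251) (nat_lit 0) (cs (lf (nat_lit 11) (nat_lit 249)) (lf (nat_lit 0) (nat_lit 249)))) q14306 (by decide +kernel)
def q14308 : Q := Q.p (nat_lit 0x500003400000000000000000000000000000000000000000000000000000000000000) (nat_lit 0x280000800000000000000000000000000000000000000000000000000000000000000) (nat_lit 2)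
theorem c14308 : QOK q14308 := cut [] trivial (nd (nat_lit 271) (nat_lit 0) (cs (lf (nat_lit 8) (nat_lit 249)) (lf (nat_lit 14) (nat_lit 249)))) q14308 (by decide +kernel)
def q14309 : Q := Q.p (nat_lit 0xd00003400000000000000000000000000000000000000000000000000000000000000) (nat_lit 0x280000200000000000000000000000000000000000000000000000000000000000000) (nat_lit 2)
theorem c14309 : QOK q14309 := cut [] trivial (nd (nat_lit 273) (nat_lit 0) (cs (lf (nat_lit 23) (nat_lit 249)) (lf (nat_lit 12) (nat_lit 249)))) q14309 (by decide +kernel)
def q14315 : Q := Q.p (nat_lit 0x60000700000000000000000000000000000000000000000000000000000000000000000000000000) (nat_lit 0x18000080000000000000000000000000000000000000000000000000000000000000000000000000) (nat_lit 2)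
theorem c14315 : QOK q14315 := cut [] trivial (nd (nat_lit 316) (nat_lit 0) (cs (lf (nat_lit 12) (nat_lit 293)) (lf (nat_lit 9) (nat_lit 294)))) q14315 (by decide +kernel)
def q14322 : Q := Q.p (nat_lit 0x780000c00000000000000000000000000000000000000000000000000000000000000000000) (nat_lit 0x38000060000000000000000000000000000000000000000000000000000000000000000000000000) (nat_lit 3)
theorem c14322 : QOK q14322 := cut [] trivial (nd (nat_lit 316) (nat_lit 0) (cs (lf (nat_lit 10) (nat_lit 294)) (nd (nat_lit 294) (nat_lit 0) (cs (lf (nat_lit 11) (nat_lit 293)) (lf (nat_lit 12) (nat_lit 271)))))) q14322 (by decide +kernel)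
def q14327 : Q := Q.p (nat_lit 0x780000600001000000000000000000000000000000000000000000000000000000000000000) (nat_lit 0x8000030000000000000000000000000000000000000000000000000000000000000000000000000000000) (nat_lit 2)
theorem c14327 : QOK q14327 := cut [] trivial (nd (nat_lit 317) (nat_lit 0) (cs (lf (nat_lit 30) (nat_lit 251)) (lf (nat_lit 11) (nat_lit 294)))) q14327 (by decide +kernel)
def q14329 : Q := Q.p (nat_lit 0x380000d00000000000000000000000000000000000000000000000000000000000000000000) (nat_lit 0x60000080000000000000000000000000000000000000000000000000000000000000000000) (nat_lit 2)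
theorem c14329 : QOK q14329 := cut [] trivial (nd (nat_lit 294) (nat_lit 0) (cs (lf (nat_lit 23) (nat_lit 271)) (lf (nat_lit 12) (nat_lit 271)))) q14329 (by decide +kernel)
def q14337 : Q := Q.p (nat_lit 0x28000000000100000400001000000000000000000000000000000000000000000000000000000000) (nat_lit 0xe0000000000000000000000000000000000000000000000000000000000000000000000000) (nat_lit 2)
theorem c14337 : QOK q14337 := cut [] trivial (nd (nat_lit 294) (nat_lit 0) (cs (lf (nat_lit 40) (nat_lit 227)) (lf (nat_lit 28) (nat_lit 228)))) q14337 (by decide +kernel)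
def q14354 : Q := Q.p (nat_lit 0x300000c00003000000000000000000000000000000000000000000000000000000000000000) (nat_lit 0x160000580004e0000380000e00003800000000000000000000000000000000000000000000000000000000) (nat_lit 10)
theorem c14354 : QOK q14354 := cut [] trivial (nd (nat_lit 318) (nat_lit 0) (cs (lf (nat_lit 30) (nat_lit 252)) (nd (nat_lit 251) (nat_lit 0) (cs (lf (nat_lit 47) (nat_lit 229)) (nd (nat_lit 250) (nat_lit 0) (cs (lf (nat_lit 0) (nat_lit 249)) (nd (nat_lit 227) (nat_lit 0) (cs (lf (nat_lit 22) (nat_lit 227)) (nd (nat_lit 272) (nat_lit 0) (cs (lf (nat_lit 11) (nat_lit 249)) (nd (nat_lit 273) (nat_lit 0) (cs (lf (nat_lit 5) (nat_lit 272)) (nd (nat_lit 294) (nat_lit 0) (cs (lf (nat_lit 11) (nat_lit 271)) (nd (nat_lit 316) (nat_lit 0) (cs (lf (nat_lit 30) (nat_lit 250)) (nd (nat_lit 315) (nat_lit 0) (cs (lf (nat_lit 41) (nat_lit 249)) (lf (nat_lit 8) (nat_lit 293)))))))))))))))))))) q14354 (by decide +kernel)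
def q14355 : Q := Q.p (nat_lit 0xd00003800000000000000000000000000000000000000000000000000000000000000) (nat_lit 0x80000600000000000000000000000000000000000000000000000000000000000000) (nat_lit 2)
theorem c14355 : QOK q14355 := cut [] trivial (nd (nat_lit 250) (nat_lit 0) (cs (lf (nat_lit 11) (nat_lit 249)) (lf (nat_lit 0) (nat_lit 249)))) q14355 (by decide +kernel)
def q14363 : Q := Q.p (nat_lit 0x8000020000080000200000800000000000000000000000000000000000000000000000000000000000000000000) (nat_lit 0x1000004000010000000000000000000000000000000000000000000000000000000000000000000000000000000000000) (nat_lit 2)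
theorem c14363 : QOK q14363 := cut [] trivial (nd (nat_lit 362) (nat_lit 0) (cs (lf (nat_lit 41) (nat_lit 296)) (lf (nat_lit 40) (nat_lit 274)))) q14363 (by decide +kernel)
def q14367 : Q := Q.p (nat_lit 0x380000300000000000000000000000000000000000000000000000000000000000000000000000000) (nat_lit 0x400000c0000000000000000000000000000000000000000000000000000000000000000000000000) (nat_lit 2)
theorem c14367 : QOK q14367 := cut [] trivial (nd (nat_lit 295) (nat_lit 0) (cs (lf (nat_lit 0) (nat_lit 294)) (lf (nat_lit 21) (nat_lit 295)))) q14367 (by decide +kernel)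
def q14369 : Q := Q.p (nat_lit 0xa00000e00000000000000000000000000000000000000000000000000000000000000000000) (nat_lit 0x1500000000000000000000000000000000000000000000000000000000000000000000000000) (nat_lit 2)
theorem c14369 : QOK q14369 := cut [] trivial (nd (nat_lit 298) (nat_lit 0) (cs (lf (nat_lit 21) (nat_lit 273)) (lf (nat_lit 18) (nat_lit 274)))) q14369 (by decide +kernel)
def q14384 : Q := Q.p (nat_lit 0x780001000000000000000000000000000000000000000000000000000000000000000000000000000) (nat_lit 0x20000380000040000000004000010000000000000000000000000000000000000000000000000000000000000000) (nat_lit 4)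
theorem c14384 : QOK q14384 := cut [] trivial (nd (nat_lit 344) (nat_lit 0) (cs (lf (nat_lit 5) (nat_lit 319)) (nd (nat_lit 343) (nat_lit 0) (cs (lf (nat_lit 0) (nat_lit 318)) (nd (nat_lit 278) (nat_lit 0) (cs (lf (nat_lit 41) (nat_lit 277)) (lf (nat_lit 36) (nat_lit 255)))))))) q14384 (by decide +kernel)
def q14400 : Q := Q.p (nat_lit 0x1400002000008000020000000000000000000000000000000000000000000000000000000000000000000000000000000) (nat_lit 0x500000800000000000000000000000000000000000000000000000000000000000000000000000000000000000000000000000) (nat_lit 2)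
theorem c14400 : QOK q14400 := cut [] trivial (nd (nat_lit 383) (nat_lit 0) (cs (lf (nat_lit 41) (nat_lit 316)) (lf (nat_lit 29) (nat_lit 317)))) q14400 (by decide +kernel)
def q14412 : Q := Q.p (nat_lit 0x100000380001000000000000000000000000000000000000000000000000000000000000000000000000000) (nat_lit 0x200000400002000000000000000000000000000000000000000000000000000000000000000000000000000) (nat_lit 2)
theorem c14412 : QOK q14412 := cut [] trivial (nd (nat_lit 322) (nat_lit 0) (cs (lf (nat_lit 5) (nat_lit 319)) (lf (nat_lit 17) (nat_lit 297)))) q14412 (by decide +kernel)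
def q14420 : Q := Q.p (nat_lit 0xf0000200000000000000000000000000000000000000000000000000000000000000000000000000) (nat_lit 0x7000008000100000000000000000000000000000000000000000000000000000000000000000000000000) (nat_lit 3)
theorem c14420 : QOK q14420 := cut [] trivial (nd (nat_lit 337) (nat_lit 0) (cs (lf (nat_lit 10) (nat_lit 315)) (nd (nat_lit 315) (nat_lit 0) (cs (lf (nat_lit 16) (nat_lit 293)) (lf (nat_lit 11) (nat_lit 314)))))) q14420 (by decide +kernel)
def q14448 : Q := Q.p (nat_lit 0x40000300000400001000000000000000000000000000000000000000000000000000000000) (nat_lit 0x20000080000000000000000000004000000000000000000000000000000000000000000000000000) (nat_lit 2)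
theorem c14448 : QOK q14448 := cut [] trivial (nd (nat_lit 295) (nat_lit 0) (cs (lf (nat_lit 29) (nat_lit 228)) (lf (nat_lit 24) (nat_lit 206)))) q14448 (by decide +kernel)
def q14470 : Q := Q.p (nat_lit 0x200000e00003000000000000000000000000000000000000000000000000000000000000000) (nat_lit 0x400000180000000000000000000000000000000000000000000000000000000000000000000) (nat_lit 2)
theorem c14470 : QOK q14470 := cut [] trivial (nd (nat_lit 272) (nat_lit 0) (cs (lf (nat_lit 12) (nat_lit 249)) (lf (nat_lit 5) (nat_lit 272)))) q14470 (by decide +kernel)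
def q14473 : Q := Q.p (nat_lit 0x180000380000000000000000000000000000000000000000000000000000000000000000000000000) (nat_lit 0x600000400000000000000000000000000000000000000000000000000000000000000000000000000) (nat_lit 2)
theorem c14473 : QOK q14473 := cut [] trivial (nd (nat_lit 321) (nat_lit 0) (cs (lf (nat_lit 18) (nat_lit 296)) (lf (nat_lit 3) (nat_lit 295)))) q14473 (by decide +kernel)
def q14477 : Q := Q.p (nat_lit 0x80000200000c00001000000000000000000000000000000000000000000000000000000000) (nat_lit 0x2000004000010000000000000000000000000000000000000000000000) (nat_lit 2)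
theorem c14477 : QOK q14477 := cut [] trivial (nd (nat_lit 206) (nat_lit 0) (cs (lf (nat_lit 24) (nat_lit 184)) (lf (nat_lit 45) (nat_lit 206)))) q14477 (by decide +kernel)
def q14481 : Q := Q.p (nat_lit 0x20000080000e00001800000000000000000000000000000000000000000000000000000000000000) (nat_lit 0x600001000000000000000000000000000000000000000000000000000000000) (nat_lit 2)
theorem c14481 : QOK q14481 := cut [] trivial (nd (nat_lit 250) (nat_lit 0) (cs (lf (nat_lit 0) (nat_lit 249)) (lf (nat_lit 47) (nat_lit 228)))) q14481 (by decide +kernel)
def q14489 : Q := Q.p (nat_lit 0xc0000e00000000000000000000000000000000000000000000000000000000000000000000) (nat_lit 0x30000100000000000000000000000000000000000000000000000000000000000000000000) (nat_lit 2)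
theorem c14489 : QOK q14489 := cut [] trivial (nd (nat_lit 293) (nat_lit 0) (cs (lf (nat_lit 12) (nat_lit 270)) (lf (nat_lit 9) (nat_lit 271)))) q14489 (by decide +kernel)
def q14492 : Q := Q.p (nat_lit 0x20000080000f00000400000000000000000000000000000000000000000000000000000000000000) (nat_lit 0x60000000000000001000000000000000000000000000000000000000000000000000000000) (nat_lit 2)
theorem c14492 : QOK q14492 := cut [] trivial (nd (nat_lit 294) (nat_lit 0) (cs (lf (nat_lit 11) (nat_lit 271)) (lf (nat_lit 24) (nat_lit 228)))) q14492 (by decide +kernel)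
def q14498 : Q := Q.p (nat_lit 0xe0000c00000000000000000000000000000000000000000000000000000000000000000000) (nat_lit 0x10000300000000000000000000000000000000000000000000000000000000000000000000) (nat_lit 2)
theorem c14498 : QOK q14498 := cut [] trivial (nd (nat_lit 273) (nat_lit 0) (cs (lf (nat_lit 12) (nat_lit 270)) (lf (nat_lit 9) (nat_lit 271)))) q14498 (by decide +kernel)
def q14500 : Q := Q.p (nat_lit 0x300000c0000100000000000000000000000000000000000000000000000000000000000000000000) (nat_lit 0x8000000000000000000000400001000000000000000000000000000000000000000000000000000000000) (nat_lit 2)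
theorem c14500 : QOK q14500 := cut [] trivial (nd (nat_lit 250) (nat_lit 0) (cs (lf (nat_lit 29) (nat_lit 250)) (lf (nat_lit 24) (nat_lit 228)))) q14500 (by decide +kernel)
def q14507 : Q := Q.p (nat_lit 0xf0000020000000000000000000000000000000000000000000000000000000000000000000) (nat_lit 0x7000008000010000000000000000000000000000000000000000000000000000000000000000000) (nat_lit 3)
theorem c14507 : QOK q14507 := cut [] trivial (nd (nat_lit 313) (nat_lit 0) (cs (lf (nat_lit 10) (nat_lit 291)) (nd (nat_lit 291) (nat_lit 0) (cs (lf (nat_lit 11) (nat_lit 290)) (lf (nat_lit 23) (nat_lit 268)))))) q14507 (by decide +kernel)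
def q14516 : Q := Q.p (nat_lit 0xc0000300000400000000000000000000000000000000000000000000000000000000000000) (nat_lit 0x20000000000000000000001000004000000000000000000000000000000000000000000000000000) (nat_lit 2)
theorem c14516 : QOK q14516 := cut [] trivial (nd (nat_lit 228) (nat_lit 0) (cs (lf (nat_lit 29) (nat_lit 228)) (lf (nat_lit 24) (nat_lit 206)))) q14516 (by decide +kernel)
def q14566 : Q := Q.p (nat_lit 0xf8000000000000000000000000000000000000000000000000000000000000000000000000000000) (nat_lit 0x70000000000000000000000000000000000000000000000000000000000000000000000000) (nat_lit 2)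
theorem c14566 : QOK q14566 := cut [] trivial (nd (nat_lit 293) (nat_lit 0) (cs (lf (nat_lit 23) (nat_lit 292)) (lf (nat_lit 22) (nat_lit 293)))) q14566 (by decide +kernel)
def q14604 : Q := Q.p (nat_lit 0x60000000000600001000000000000000000000000000000000000000000000000000000000000000) (nat_lit 0x8000000000180000000000000000000000000000000000000000000000000000000000000000000000000) (nat_lit 2)
theorem c14604 : QOK q14604 := cut [] trivial (nd (nat_lit 339) (nat_lit 0) (cs (lf (nat_lit 32) (nat_lit 251)) (lf (nat_lit 38) (nat_lit 251)))) q14604 (by decide +kernel)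
def q14616 : Q := Q.p (nat_lit 0x40000000001e00000800000000000000000000000000000000000000000000000000000000000000) (nat_lit 0x100001c0000300000c0000000001000000000000000000000000000000000000000000000000000000000000000) (nat_lit 5)
theorem c14616 : QOK q14616 := cut [] trivial (nd (nat_lit 295) (nat_lit 0) (cs (lf (nat_lit 11) (nat_lit 272)) (nd (nat_lit 317) (nat_lit 0) (cs (lf (nat_lit 29) (nat_lit 251)) (nd (nat_lit 338) (nat_lit 0) (cs (lf (nat_lit 40) (nat_lit 250)) (nd (nat_lit 339) (nat_lit 0) (cs (lf (nat_lit 41) (nat_lit 272)) (lf (nat_lit 35) (nat_lit 251)))))))))) q14616 (by decide +kernel)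
def q14627 : Q := Q.p (nat_lit 0x40000100001c00003000000000000000000000000000000000000000000000000000000000000000) (nat_lit 0xc00002000000000000000000000000000000000000000000000000000000000) (nat_lit 2)
theorem c14627 : QOK q14627 := cut [] trivial (nd (nat_lit 251) (nat_lit 0) (cs (lf (nat_lit 0) (nat_lit 250)) (lf (nat_lit 47) (nat_lit 229)))) q14627 (by decide +kernel)
def q14629 : Q := Q.p (nat_lit 0x1c0000180000c00000000000000000000000000000000000000000000000000000000000000000000) (nat_lit 0x20000060000000000000000000000000000000000000000000000000000000000000000000000000) (nat_lit 2)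
theorem c14629 : QOK q14629 := cut [] trivial (nd (nat_lit 294) (nat_lit 0) (cs (lf (nat_lit 21) (nat_lit 294)) (lf (nat_lit 12) (nat_lit 271)))) q14629 (by decide +kernel)
def q14637 : Q := Q.p (nat_lit 0x40000900000400001000000000000000000000000000000000000000000000000000000000000000) (nat_lit 0x280001a0000600000000000000000000000000000000000000000000000000000000000000000000000000) (nat_lit 4)
theorem c14637 : QOK q14637 := cut [] trivial (nd (nat_lit 319) (nat_lit 0) (cs (lf (nat_lit 29) (nat_lit 252)) (nd (nat_lit 317) (nat_lit 0) (cs (lf (nat_lit 41) (nat_lit 251)) (nd (nat_lit 298) (nat_lit 0) (cs (lf (nat_lit 15) (nat_lit 295)) (lf (nat_lit 8) (nat_lit 295)))))))) q14637 (by decide +kernel)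
def q14641 : Q := Q.p (nat_lit 0xc00003000008000000000000000000000000000000000000000000000000000000000000000) (nat_lit 0x100000000000000000000020000080000000000000000000000000000000000000000000000000000) (nat_lit 2)
theorem c14641 : QOK q14641 := cut [] trivial (nd (nat_lit 233) (nat_lit 0) (cs (lf (nat_lit 41) (nat_lit 232)) (lf (nat_lit 36) (nat_lit 210)))) q14641 (by decide +kernel)
def q14653 : Q := Q.p (nat_lit 0x3c00002000000000000000000000000000000000000000000000000000000000000000) (nat_lit 0x4000039000000000000000000000000000000000000000000000000000000000000000) (nat_lit 3)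
theorem c14653 : QOK q14653 := cut [] trivial (nd (nat_lit 256) (nat_lit 0) (cs (lf (nat_lit 16) (nat_lit 252)) (nd (nat_lit 278) (nat_lit 0) (cs (lf (nat_lit 23) (nat_lit 252)) (lf (nat_lit 17) (nat_lit 253)))))) q14653 (by decide +kernel)
def q14657 : Q := Q.p (nat_lit 0xf00002000000000000000000000000000000000000000000000000000000000000000) (nat_lit 0x700000080001000000000000000000000000000000000000000000000000000000000000000) (nat_lit 3)
theorem c14657 : QOK q14657 := cut [] trivial (nd (nat_lit 297) (nat_lit 0) (cs (lf (nat_lit 5) (nat_lit 272)) (nd (nat_lit 271) (nat_lit 0) (cs (lf (nat_lit 4) (nat_lit 271)) (lf (nat_lit 16) (nat_lit 249)))))) q14657 (by decide +kernel)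
def q14665 : Q := Q.p (nat_lit 0xe0000400000c00001000000000000000000000000000000000000000000000000000000000000000) (nat_lit 0x20000010000200000000000000000000000000000000000000000000000000000000000000000000000000) (nat_lit 2)
theorem c14665 : QOK q14665 := cut [] trivial (nd (nat_lit 297) (nat_lit 0) (cs (lf (nat_lit 42) (nat_lit 252)) (lf (nat_lit 12) (nat_lit 294)))) q14665 (by decide +kernel)
def q14673 : Q := Q.p (nat_lit 0x400000e0000000000000000000000000000000000000000000000000000000000000000000000000000000) (nat_lit 0x1b0000010000000000000000000000000000000000000000000000000000000000000000000000000000000) (nat_lit 3)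
theorem c14673 : QOK q14673 := cut [] trivial (nd (nat_lit 341) (nat_lit 0) (cs (lf (nat_lit 0) (nat_lit 316)) (nd (nat_lit 343) (nat_lit 0) (cs (lf (nat_lit 18) (nat_lit 318)) (lf (nat_lit 21) (nat_lit 317)))))) q14673 (by decide +kernel)
def q14697 : Q := Q.p (nat_lit 0x120000680000000000000000000000000000000000000000000000000000000000000000000000000) (nat_lit 0x210000100000000000000000000000000000000000000000000000000000000000000000000000000) (nat_lit 2)
theorem c14697 : QOK q14697 := cut [] trivial (nd (nat_lit 296) (nat_lit 0) (cs (lf (nat_lit 11) (nat_lit 294)) (lf (nat_lit 5) (nat_lit 295)))) q14697 (by decide +kernel)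
def q14721 : Q := Q.p (nat_lit 0x1c0000680000000000000000000000000000000000000000000000000000000000000000000000000) (nat_lit 0x380000e00000100000000000000000000000000000000000000000000000000000000000000000000000000) (nat_lit 4)
theorem c14721 : QOK q14721 := cut [] trivial (nd (nat_lit 321) (nat_lit 0) (cs (lf (nat_lit 22) (nat_lit 295)) (nd (nat_lit 344) (nat_lit 0) (cs (lf (nat_lit 4) (nat_lit 318)) (nd (nat_lit 322) (nat_lit 0) (cs (lf (nat_lit 5) (nat_lit 319)) (lf (nat_lit 18) (nat_lit 297)))))))) q14721 (by decide +kernel)
def q14740 : Q := Q.p (nat_lit 0xc0000e00000000000000000000000000000000000000000000000000000000000000000000000000) (nat_lit 0x120000100000000000000000000000000000000000000000000000000000000000000000000000000) (nat_lit 2)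
theorem c14740 : QOK q14740 := cut [] trivial (nd (nat_lit 317) (nat_lit 0) (cs (lf (nat_lit 9) (nat_lit 295)) (lf (nat_lit 15) (nat_lit 295)))) q14740 (by decide +kernel)
def q14747 : Q := Q.p (nat_lit 0x80000300000c00000000000000000000000000000000000000000000000000000000000000000000000000) (nat_lit 0x8000020000000000000000000001000000000000000000000000000000000000000000000000000000000000000000000) (nat_lit 2)
theorem c14747 : QOK q14747 := cut [] trivial (nd (nat_lit 365) (nat_lit 0) (cs (lf (nat_lit 47) (nat_lit 276)) (lf (nat_lit 42) (nat_lit 298)))) q14747 (by decide +kernel)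
def q14763 : Q := Q.p (nat_lit 0xc0000e00000000000000000000000000000000000000000000000000000000000000000000) (nat_lit 0x130000000000000000000000000000000000000000000000000000000000000000000000000) (nat_lit 2)
theorem c14763 : QOK q14763 := cut [] trivial (nd (nat_lit 293) (nat_lit 0) (cs (lf (nat_lit 15) (nat_lit 271)) (lf (nat_lit 12) (nat_lit 270)))) q14763 (by decide +kernel)
def q14766 : Q := Q.p (nat_lit 0x200000c00001000004000000000000000000000000000000000000000000000000000) (nat_lit 0x20000080000000000000002000000000000000000000000000000000000000000000000000000000) (nat_lit 2)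
theorem c14766 : QOK q14766 := cut [] trivial (nd (nat_lit 295) (nat_lit 0) (cs (lf (nat_lit 42) (nat_lit 228)) (lf (nat_lit 45) (nat_lit 206)))) q14766 (by decide +kernel)
def q14782 : Q := Q.p (nat_lit 0x20000000000200003c00000000000000000000000000000000000000000000000000000000000000) (nat_lit 0x80000000000000001800000000000000000000000000000000000000000000000000000000) (nat_lit 2)
theorem c14782 : QOK q14782 := cut [] trivial (nd (nat_lit 228) (nat_lit 0) (cs (lf (nat_lit 23) (nat_lit 227)) (lf (nat_lit 43) (nat_lit 228)))) q14782 (by decide +kernel)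
def q14789 : Q := Q.p (nat_lit 0x80000340000800002000000000000000000000000000000000000000000000000000000000000000) (nat_lit 0x40000100000080000000000000000000000000000000000000000000000000000000000000000000000000) (nat_lit 2)
theorem c14789 : QOK q14789 := cut [] trivial (nd (nat_lit 320) (nat_lit 0) (cs (lf (nat_lit 29) (nat_lit 253)) (lf (nat_lit 1) (nat_lit 294)))) q14789 (by decide +kernel)
def q14796 : Q := Q.p (nat_lit 0x60000300000f00000800000000000000000000000000000000000000000000000000000000000000) (nat_lit 0x4000018000060000000000000000000000000000000000000000000000000000000000000000000000000) (nat_lit 3)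
theorem c14796 : QOK q14796 := cut [] trivial (nd (nat_lit 316) (nat_lit 0) (cs (lf (nat_lit 12) (nat_lit 293)) (nd (nat_lit 294) (nat_lit 0) (cs (lf (nat_lit 11) (nat_lit 271)) (lf (nat_lit 30) (nat_lit 250)))))) q14796 (by decide +kernel)
def q14824 : Q := Q.p (nat_lit 0x60000080000e00002000000000000000000000000000000000000000000000000000000000000000) (nat_lit 0x10000000000100000000000800000000000000000000000000000000000000000000000000000000000000) (nat_lit 2)
theorem c14824 : QOK q14824 := cut [] trivial (nd (nat_lit 340) (nat_lit 0) (cs (lf (nat_lit 32) (nat_lit 252)) (lf (nat_lit 24) (nat_lit 251)))) q14824 (by decide +kernel)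
def q14832 : Q := Q.p (nat_lit 0x120000580000000000000000000000000000000000000000000000000000000000000000000000000) (nat_lit 0x210000200000000000000000000000000000000000000000000000000000000000000000000000000) (nat_lit 2)
theorem c14832 : QOK q14832 := cut [] trivial (nd (nat_lit 297) (nat_lit 0) (cs (lf (nat_lit 11) (nat_lit 294)) (lf (nat_lit 5) (nat_lit 295)))) q14832 (by decide +kernel)
def q14837 : Q := Q.p (nat_lit 0x140000180000400001000000000000000000000000000000000000000000000000000000000000000) (nat_lit 0x20000280000000000000000000000000000000000000000000000000000000000000000000000000000000) (nat_lit 2)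
theorem c14837 : QOK q14837 := cut [] trivial (nd (nat_lit 319) (nat_lit 0) (cs (lf (nat_lit 29) (nat_lit 252)) (lf (nat_lit 18) (nat_lit 295)))) q14837 (by decide +kernel)
def q14842 : Q := Q.p (nat_lit 0xc0000680000600001000000000000000000000000000000000000000000000000000000000000000) (nat_lit 0x8000030000000000000000000000000000000000000000000000000000000000000000000000000000000) (nat_lit 2)
theorem c14842 : QOK q14842 := cut [] trivial (nd (nat_lit 317) (nat_lit 0) (cs (lf (nat_lit 30) (nat_lit 251)) (lf (nat_lit 12) (nat_lit 294)))) q14842 (by decide +kernel)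
def q14853 : Q := Q.p (nat_lit 0xe0000480000200000800000000000000000000000000000000000000000000000000000000000000) (nat_lit 0x4000010000200000000000000000000000000000000000000000000000000000000000000000000000000) (nat_lit 2)
theorem c14853 : QOK q14853 := cut [] trivial (nd (nat_lit 316) (nat_lit 0) (cs (lf (nat_lit 41) (nat_lit 250)) (lf (nat_lit 16) (nat_lit 294)))) q14853 (by decide +kernel)
def q14882 : Q := Q.p (nat_lit 0x2c0000c00003000000000000000000000000000000000000000000000000000000000000000) (nat_lit 0x60000180000100000000000000000000000000000000000000000000000000000000000000000000000000) (nat_lit 3)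
theorem c14882 : QOK q14882 := cut [] trivial (nd (nat_lit 319) (nat_lit 0) (cs (lf (nat_lit 42) (nat_lit 252)) (nd (nat_lit 320) (nat_lit 0) (cs (lf (nat_lit 2) (nat_lit 294)) (lf (nat_lit 29) (nat_lit 253)))))) q14882 (by decide +kernel)
def q14896 : Q := Q.p (nat_lit 0x300000c00001000000000000000000000000000000000000000000000000000000000) (nat_lit 0x80000000000000000000004000010000000000000000000000000000000000000000000000) (nat_lit 2)
theorem c14896 : QOK q14896 := cut [] trivial (nd (nat_lit 206) (nat_lit 0) (cs (lf (nat_lit 24) (nat_lit 184)) (lf (nat_lit 29) (nat_lit 206)))) q14896 (by decide +kernel)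
def q14907 : Q := Q.p (nat_lit 0xe00003800000000000000000000000000000000000000000000000000000000000000) (nat_lit 0x40000100000e0000180000000002000008000000000000000000000000000000000000000000000000000) (nat_lit 5)
theorem c14907 : QOK q14907 := cut [] trivial (nd (nat_lit 272) (nat_lit 0) (cs (lf (nat_lit 12) (nat_lit 249)) (nd (nat_lit 294) (nat_lit 0) (cs (lf (nat_lit 11) (nat_lit 271)) (nd (nat_lit 316) (nat_lit 0) (cs (lf (nat_lit 30) (nat_lit 250)) (nd (nat_lit 229) (nat_lit 0) (cs (lf (nat_lit 36) (nat_lit 206)) (lf (nat_lit 39) (nat_lit 228)))))))))) q14907 (by decide +kernel)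
def q14920 : Q := Q.p (nat_lit 0x40000b00000c00003000000000000000000000000000000000000000000000000000000000000000) (nat_lit 0x60000780001000000000000000000000000000000000000000000000000000000000000000000000000000) (nat_lit 4)
theorem c14920 : QOK q14920 := cut [] trivial (nd (nat_lit 319) (nat_lit 0) (cs (lf (nat_lit 29) (nat_lit 252)) (nd (nat_lit 320) (nat_lit 0) (cs (lf (nat_lit 29) (nat_lit 253)) (nd (nat_lit 321) (nat_lit 0) (cs (lf (nat_lit 17) (nat_lit 296)) (lf (nat_lit 18) (nat_lit 296)))))))) q14920 (by decide +kernel)
def q14923 : Q := Q.p (nat_lit 0x40000000000200000c00003000000000000000000000000000000000000000000000000000000000000000) (nat_lit 0x20000180000000000000000000000000000000000000000000000000000000000000000000000000000000) (nat_lit 2)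
theorem c14923 : QOK q14923 := cut [] trivial (nd (nat_lit 319) (nat_lit 0) (cs (lf (nat_lit 42) (nat_lit 252)) (lf (nat_lit 28) (nat_lit 253)))) q14923 (by decide +kernel)
def q14939 : Q := Q.p (nat_lit 0x80000100000c00003000000000000000000000000000000000000000000000000000000000000000) (nat_lit 0x30000040000000000000000000000000000000000000000000000000000000000000000000000000000000) (nat_lit 2)
theorem c14939 : QOK q14939 := cut [] trivial (nd (nat_lit 318) (nat_lit 0) (cs (lf (nat_lit 29) (nat_lit 252)) (lf (nat_lit 30) (nat_lit 252)))) q14939 (by decide +kernel)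
def q14954 : Q := Q.p (nat_lit 0x100001c00003000000000000000000000000000000000000000000000000000000000000000) (nat_lit 0x80006000000000000000000000000000000000000000000000000000000000000000000000) (nat_lit 2)
theorem c14954 : QOK q14954 := cut [] trivial (nd (nat_lit 277) (nat_lit 0) (cs (lf (nat_lit 18) (nat_lit 252)) (lf (nat_lit 11) (nat_lit 273)))) q14954 (by decide +kernel)
def q14973 : Q := Q.p (nat_lit 0xc00003400000000000000000000000000000000000000000000000000000000000000) (nat_lit 0x1000000a00000000000000000000000000000000000000000000000000000000000000) (nat_lit 2)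
theorem c14973 : QOK q14973 := cut [] trivial (nd (nat_lit 251) (nat_lit 0) (cs (lf (nat_lit 5) (nat_lit 250)) (lf (nat_lit 0) (nat_lit 249)))) q14973 (by decide +kernel)
def q14974 : Q := Q.p (nat_lit 0x900003400000000000000000000000000000000000000000000000000000000000000) (nat_lit 0x1080000800000000000000000000000000000000000000000000000000000000000000) (nat_lit 2)
theorem c14974 : QOK q14974 := cut [] trivial (nd (nat_lit 251) (nat_lit 0) (cs (lf (nat_lit 11) (nat_lit 249)) (lf (nat_lit 5) (nat_lit 250)))) q14974 (by decide +kernel)
def q14977 : Q := Q.p (nat_lit 0x80000300000f00002000000000000000000000000000000000000000000000000000000000000000) (nat_lit 0x400001000000e0000000000000000000000000000000000000000000000000000000000000000000000000) (nat_lit 3)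
theorem c14977 : QOK q14977 := cut [] trivial (nd (nat_lit 320) (nat_lit 0) (cs (lf (nat_lit 29) (nat_lit 253)) (nd (nat_lit 294) (nat_lit 0) (cs (lf (nat_lit 11) (nat_lit 271)) (lf (nat_lit 1) (nat_lit 294)))))) q14977 (by decide +kernel)
def q14990 : Q := Q.p (nat_lit 0xe0000200000800002000000000000000000000000000000000000000000000000000000000000000000000) (nat_lit 0x10000060000110000000000000000000000000000000000000000000000000000000000000000000000000000000000000) (nat_lit 3)
theorem c14990 : QOK q14990 := cut [] trivial (nd (nat_lit 366) (nat_lit 0) (cs (lf (nat_lit 28) (nat_lit 277)) (nd (nat_lit 365) (nat_lit 0) (cs (lf (nat_lit 29) (nat_lit 299)) (lf (nat_lit 0) (nat_lit 340)))))) q14990 (by decide +kernel)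
def q15006 : Q := Q.p (nat_lit 0x1f0000000000000000000000000000000000000000000000000000000000000000000000000000000000000) (nat_lit 0xe00000000000000000000000000000000000000000000000000000000000000000000000000000000) (nat_lit 2)
theorem c15006 : QOK q15006 := cut [] trivial (nd (nat_lit 322) (nat_lit 0) (cs (lf (nat_lit 17) (nat_lit 319)) (lf (nat_lit 16) (nat_lit 318)))) q15006 (by decide +kernel)
def q15014 : Q := Q.p (nat_lit 0x1e0000000000800002000000000000000000000000000000000000000000000000000000000000000000000) (nat_lit 0xc0000000000c00001000000000000000000000000000000000000000000000000000000000000000000000000000) (nat_lit 3)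
theorem c15014 : QOK q15014 := cut [] trivial (nd (nat_lit 366) (nat_lit 0) (cs (nd (nat_lit 322) (nat_lit 0) (cs (lf (nat_lit 17) (nat_lit 319)) (lf (nat_lit 45) (nat_lit 277)))) (lf (nat_lit 5) (nat_lit 341)))) q15014 (by decide +kernel)
def q15027 : Q := Q.p (nat_lit 0x1f0000000000000000000000000000000000000000000000000000000000000000000000000000000000000) (nat_lit 0xe000000000000000000000000000000000000000000000000000000000000000000000000000000000000000000) (nat_lit 2)
theorem c15027 : QOK q15027 := cut [] trivial (nd (nat_lit 362) (nat_lit 0) (cs (lf (nat_lit 11) (nat_lit 339)) (lf (nat_lit 10) (nat_lit 340)))) q15027 (by decide +kernel)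
def q15033 : Q := Q.p (nat_lit 0xe0000600000000000000000000000000000000000000000000000000000000000000000000000000000000) (nat_lit 0x100001800000000000000000000000000000000000000000000000000000000000000000000000000000000) (nat_lit 2)
theorem c15033 : QOK q15033 := cut [] trivial (nd (nat_lit 323) (nat_lit 0) (cs (lf (nat_lit 6) (nat_lit 320)) (lf (nat_lit 15) (nat_lit 319)))) q15033 (by decide +kernel)
def q15042 : Q := Q.p (nat_lit 0x40000000000600000800002000000000000000000000000000000000000000000000000000000000000000) (nat_lit 0x10000000000100000000001000000000000000000000000000000000000000000000000000000000000000000000) (nat_lit 2)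
theorem c15042 : QOK q15042 := cut [] trivial (nd (nat_lit 320) (nat_lit 0) (cs (lf (nat_lit 45) (nat_lit 253)) (lf (nat_lit 42) (nat_lit 275)))) q15042 (by decide +kernel)
def q15058 : Q := Q.p (nat_lit 0x780001800002000000000000000000000000000000000000000000000000000000000000000) (nat_lit 0x40000300000000000000000000000000000000000000000000000000000000000000000000000000000000) (nat_lit 2)
theorem c15058 : QOK q15058 := cut [] trivial (nd (nat_lit 320) (nat_lit 0) (cs (lf (nat_lit 42) (nat_lit 253)) (lf (nat_lit 5) (nat_lit 295)))) q15058 (by decide +kernel)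
def q15069 : Q := Q.p (nat_lit 0x340000d00000000000000000000000000000000000000000000000000000000000000000000) (nat_lit 0x20000280000000000000000000000000000000000000000000000000000000000000000000) (nat_lit 2)
theorem c15069 : QOK q15069 := cut [] trivial (nd (nat_lit 273) (nat_lit 0) (cs (lf (nat_lit 11) (nat_lit 271)) (lf (nat_lit 0) (nat_lit 271)))) q15069 (by decide +kernel)
def q15073 : Q := Q.p (nat_lit 0x40000100003400001000000000000000000000000000000000000000000000000000000000) (nat_lit 0x800000800002000000000000000000000000000000000000000000000000000) (nat_lit 2)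
theorem c15073 : QOK q15073 := cut [] trivial (nd (nat_lit 227) (nat_lit 0) (cs (lf (nat_lit 20) (nat_lit 227)) (lf (nat_lit 47) (nat_lit 205)))) q15073 (by decide +kernel)
def q15107 : Q := Q.p (nat_lit 0x400001c00000000000000000000000000000000000000000000000000000000000000000000) (nat_lit 0x3a00000200000000000000000000000000000000000000000000000000000000000000000000) (nat_lit 3)
theorem c15107 : QOK q15107 := cut [] trivial (nd (nat_lit 299) (nat_lit 0) (cs (lf (nat_lit 0) (nat_lit 273)) (nd (nat_lit 300) (nat_lit 0) (cs (lf (nat_lit 18) (nat_lit 275)) (lf (nat_lit 21) (nat_lit 274)))))) q15107 (by decide +kernel)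
def q15118 : Q := Q.p (nat_lit 0x3c0000000001c00000000000000000000000000000000000000000000000000000000000000000000) (nat_lit 0x20001c00000200000000000000000000000000000000000000000000000000000000000000000000) (nat_lit 3)
theorem c15118 : QOK q15118 := cut [] trivial (nd (nat_lit 299) (nat_lit 0) (cs (lf (nat_lit 17) (nat_lit 296)) (nd (nat_lit 298) (nat_lit 0) (cs (lf (nat_lit 12) (nat_lit 295)) (lf (nat_lit 0) (nat_lit 273)))))) q15118 (by decide +kernel)
def q15129 : Q := Q.p (nat_lit 0x140000000001c00003000000000000000000000000000000000000000000000000000000000000000) (nat_lit 0x400002a0003c00000200000c00000000000000000000000000000000000000000000000000000000000000) (nat_lit 6)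
theorem c15129 : QOK q15129 := cut [] trivial (nd (nat_lit 250) (nat_lit 0) (cs (lf (nat_lit 1) (nat_lit 250)) (nd (nat_lit 298) (nat_lit 0) (cs (lf (nat_lit 42) (nat_lit 253)) (nd (nat_lit 299) (nat_lit 0) (cs (lf (nat_lit 0) (nat_lit 273)) (nd (nat_lit 300) (nat_lit 0) (cs (lf (nat_lit 18) (nat_lit 275)) (nd (nat_lit 319) (nat_lit 0) (cs (lf (nat_lit 12) (nat_lit 295)) (lf (nat_lit 15) (nat_lit 296)))))))))))) q15129 (by decide +kernel)
def q15131 : Q := Q.p (nat_lit 0xc0000000000c00003000000000000000000000000000000000000000000000000000000000000000) (nat_lit 0x30000000000100000000000000000000000000000000000000000000000000000000000000000000000000) (nat_lit 2)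
theorem c15131 : QOK q15131 := cut [] trivial (nd (nat_lit 296) (nat_lit 0) (cs (lf (nat_lit 29) (nat_lit 252)) (lf (nat_lit 30) (nat_lit 252)))) q15131 (by decide +kernel)
def q15146 : Q := Q.p (nat_lit 0x3c00006000000000000000000000000000000000000000000000000000000000) (nat_lit 0x1c0000300000000000000000000000000000000000000000000000000000000000000) (nat_lit 3)
theorem c15146 : QOK q15146 := cut [] trivial (nd (nat_lit 271) (nat_lit 0) (cs (lf (nat_lit 10) (nat_lit 249)) (nd (nat_lit 249) (nat_lit 0) (cs (lf (nat_lit 12) (nat_lit 226)) (lf (nat_lit 11) (nat_lit 248)))))) q15146 (by decide +kernel)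
def q15153 : Q := Q.p (nat_lit 0xe00001800000000000000000000000000000000000000000000000000000000000000) (nat_lit 0x1000000600000000000000000000000000000000000000000000000000000000000000) (nat_lit 2)
theorem c15153 : QOK q15153 := cut [] trivial (nd (nat_lit 250) (nat_lit 0) (cs (lf (nat_lit 18) (nat_lit 250)) (lf (nat_lit 0) (nat_lit 249)))) q15153 (by decide +kernel)
def q15183 : Q := Q.p (nat_lit 0x78000180000400000000000000000000000000000000000000000) (nat_lit 0x30000000000000000200001800006000000000000000000000000000000) (nat_lit 4)
theorem c15183 : QOK q15183 := cut [] trivial (nd (nat_lit 144) (nat_lit 0) (cs (lf (nat_lit 36) (nat_lit 121)) (nd (nat_lit 232) (nat_lit 0) (cs (lf (nat_lit 5) (nat_lit 207)) (nd (nat_lit 143) (nat_lit 0) (cs (lf (nat_lit 25) (nat_lit 143)) (lf (nat_lit 47) (nat_lit 121)))))))) q15183 (by decide +kernel)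
def q15227 : Q := Q.p (nat_lit 0xa000010000040000100000000000000000000000000000000000000000000000000000000000000) (nat_lit 0x2800004000000000000000000000000000000000000000000000000000000000000000000000000000000) (nat_lit 2)
theorem c15227 : QOK q15227 := cut [] trivial (nd (nat_lit 314) (nat_lit 0) (cs (lf (nat_lit 29) (nat_lit 248)) (lf (nat_lit 41) (nat_lit 247)))) q15227 (by decide +kernel)
def q15251 : Q := Q.p (nat_lit 0xf80000000000000000000000000000000000000000000000000000000000000) (nat_lit 0x700000000000000000000000000000000000000000000000000000000000000000000) (nat_lit 2)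
theorem c15251 : QOK q15251 := cut [] trivial (nd (nat_lit 273) (nat_lit 0) (cs (lf (nat_lit 5) (nat_lit 248)) (lf (nat_lit 4) (nat_lit 247)))) q15251 (by decide +kernel)
def q15262 : Q := Q.p (nat_lit 0x200000c00001000004000000000000000000000000000000000000000000000000000) (nat_lit 0x20000080000100000000000000000000000000000000000000000000000000000000000000000000) (nat_lit 2)
theorem c15262 : QOK q15262 := cut [] trivial (nd (nat_lit 295) (nat_lit 0) (cs (lf (nat_lit 42) (nat_lit 228)) (lf (nat_lit 27) (nat_lit 206)))) q15262 (by decide +kernel)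
def q15282 : Q := Q.p (nat_lit 0x4000010000040000300000000000000000000000000000000000000000000000000000000000000) (nat_lit 0x800003000008000000000080000000000000000000000000000000000000000000000000000000000000000000) (nat_lit 3)
theorem c15282 : QOK q15282 := cut [] trivial (nd (nat_lit 337) (nat_lit 0) (cs (nd (nat_lit 336) (nat_lit 0) (cs (lf (nat_lit 29) (nat_lit 270)) (lf (nat_lit 34) (nat_lit 248)))) (lf (nat_lit 28) (nat_lit 248)))) q15282 (by decide +kernel)
def q15305 : Q := Q.p (nat_lit 0xf00000000000000000000000000000000000000000000000000000000000000) (nat_lit 0x70000080000700000000000000000000000000000000000000000000000000000000) (nat_lit 4)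
theorem c15305 : QOK q15305 := cut [] trivial (nd (nat_lit 225) (nat_lit 0) (cs (lf (nat_lit 22) (nat_lit 225)) (nd (nat_lit 269) (nat_lit 0) (cs (lf (nat_lit 10) (nat_lit 247)) (nd (nat_lit 247) (nat_lit 0) (cs (lf (nat_lit 23) (nat_lit 224)) (lf (nat_lit 11) (nat_lit 246)))))))) q15305 (by decide +kernel)
def q15307 : Q := Q.p (nat_lit 0xa00000e00000000000000000000000000000000000000000000000000000000000000) (nat_lit 0x1400000100000000000000000000000000000000000000000000000000000000000000) (nat_lit 2)
theorem c15307 : QOK q15307 := cut [] trivial (nd (nat_lit 274) (nat_lit 0) (cs (lf (nat_lit 18) (nat_lit 250)) (lf (nat_lit 0) (nat_lit 248)))) q15307 (by decide +kernel)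
def q15313 : Q := Q.p (nat_lit 0x20000080001e000000000000000000000000000000000000000000000000000) (nat_lit 0x8000000000000000100000e000000000000000000000000000000000000000000000) (nat_lit 3)
theorem c15313 : QOK q15313 := cut [] trivial (nd (nat_lit 182) (nat_lit 0) (cs (lf (nat_lit 22) (nat_lit 182)) (nd (nat_lit 204) (nat_lit 0) (cs (lf (nat_lit 23) (nat_lit 181)) (lf (nat_lit 42) (nat_lit 182)))))) q15313 (by decide +kernel)
def q15320 : Q := Q.p (nat_lit 0x800002c00001000000000000000000000000000000000000000000000000000000000) (nat_lit 0x1000001000000800000000000000000000000000000000000000000000000000000000) (nat_lit 2)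
theorem c15320 : QOK q15320 := cut [] trivial (nd (nat_lit 252) (nat_lit 0) (cs (lf (nat_lit 5) (nat_lit 250)) (lf (nat_lit 23) (nat_lit 227)))) q15320 (by decide +kernel)
def q15321 : Q := Q.p (nat_lit 0x80000200000c00001000000000000000000000000000000000000000000000000000000000) (nat_lit 0x100000000000000004000010000000000000000000000000000000000000000000000) (nat_lit 2)
theorem c15321 : QOK q15321 := cut [] trivial (nd (nat_lit 206) (nat_lit 0) (cs (lf (nat_lit 24) (nat_lit 184)) (lf (nat_lit 27) (nat_lit 206)))) q15321 (by decide +kernel)
def q15338 : Q := Q.p (nat_lit 0xc00000e00000000000000000000000000000000000000000000000000000000000000) (nat_lit 0x300000100000000000000000000000000000000000000000000000000000000000000) (nat_lit 2)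
theorem c15338 : QOK q15338 := cut [] trivial (nd (nat_lit 273) (nat_lit 0) (cs (lf (nat_lit 21) (nat_lit 249)) (lf (nat_lit 0) (nat_lit 248)))) q15338 (by decide +kernel)
def q15358 : Q := Q.p (nat_lit 0xa00003800000000018000000000000000000000000000000000000000000000000000) (nat_lit 0x6000000000040000000000000000000000000000000000000000000000) (nat_lit 2)
theorem c15358 : QOK q15358 := cut [] trivial (nd (nat_lit 186) (nat_lit 0) (cs (lf (nat_lit 26) (nat_lit 186)) (lf (nat_lit 32) (nat_lit 185)))) q15358 (by decide +kernel)
def q15359 : Q := Q.p (nat_lit 0x200001800004000010000000000000000000000000000000000000000000000000000) (nat_lit 0x20000080000400000000000000000000000000000000000000000000000000000000000000000000) (nat_lit 2)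
theorem c15359 : QOK q15359 := cut [] trivial (nd (nat_lit 295) (nat_lit 0) (cs (lf (nat_lit 39) (nat_lit 207)) (lf (nat_lit 30) (nat_lit 229)))) q15359 (by decide +kernel)
def q15375 : Q := Q.p (nat_lit 0x600003800002000008000000000000000000000000000000000000000000000000000) (nat_lit 0x40000180000000000000000000000000000000000000000000000000000000000000000000) (nat_lit 2)
theorem c15375 : QOK q15375 := cut [] trivial (nd (nat_lit 272) (nat_lit 0) (cs (lf (nat_lit 41) (nat_lit 206)) (lf (nat_lit 12) (nat_lit 249)))) q15375 (by decide +kernel)
def q15386 : Q := Q.p (nat_lit 0x1800003800000000000000000000000000000000000000000000000000000000000000) (nat_lit 0x6400000000000000000000000000000000000000000000000000000000000000000000) (nat_lit 2)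
theorem c15386 : QOK q15386 := cut [] trivial (nd (nat_lit 277) (nat_lit 0) (cs (lf (nat_lit 21) (nat_lit 251)) (lf (nat_lit 18) (nat_lit 252)))) q15386 (by decide +kernel)
def q15394 : Q := Q.p (nat_lit 0x800002e00000000000000000000000000000000000000000000000000000000000000) (nat_lit 0x1400001000000000000000000000000000000000000000000000000000000000000000) (nat_lit 2)
theorem c15394 : QOK q15394 := cut [] trivial (nd (nat_lit 252) (nat_lit 0) (cs (lf (nat_lit 5) (nat_lit 250)) (lf (nat_lit 4) (nat_lit 249)))) q15394 (by decide +kernel)
def q15411 : Q := Q.p (nat_lit 0xf0000000000000000000000000000000000000000000000000000) (nat_lit 0xe0000300001dc0000000000000000000000000000000000000000000000) (nat_lit 6)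
theorem c15411 : QOK q15411 := cut [] trivial (nd (nat_lit 234) (nat_lit 0) (cs (lf (nat_lit 4) (nat_lit 208)) (nd (nat_lit 212) (nat_lit 0) (cs (lf (nat_lit 5) (nat_lit 209)) (nd (nat_lit 191) (nat_lit 0) (cs (lf (nat_lit 16) (nat_lit 187)) (nd (nat_lit 187) (nat_lit 0) (cs (lf (nat_lit 23) (nat_lit 186)) (nd (nat_lit 213) (nat_lit 0) (cs (lf (nat_lit 17) (nat_lit 188)) (lf (nat_lit 22) (nat_lit 187)))))))))))) q15411 (by decide +kernel)
def q15415 : Q := Q.p (nat_lit 0x400001800003000020000080000000000000000000000000000000000000000000000000000) (nat_lit 0x6000008000000000000000000000000000000000000000000000000000000000000000) (nat_lit 2)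
theorem c15415 : QOK q15415 := cut [] trivial (nd (nat_lit 277) (nat_lit 0) (cs (lf (nat_lit 18) (nat_lit 252)) (lf (nat_lit 38) (nat_lit 210)))) q15415 (by decide +kernel)
def q15438 : Q := Q.p (nat_lit 0xf0000000000000000000000000000000000000000000000000000) (nat_lit 0x1c0000300000fc0000000000000000000000000000000000000000000000) (nat_lit 6)
theorem c15438 : QOK q15438 := cut [] trivial (nd (nat_lit 190) (nat_lit 0) (cs (lf (nat_lit 16) (nat_lit 186)) (nd (nat_lit 212) (nat_lit 0) (cs (lf (nat_lit 17) (nat_lit 187)) (nd (nat_lit 235) (nat_lit 0) (cs (lf (nat_lit 4) (nat_lit 209)) (nd (nat_lit 187) (nat_lit 0) (cs (lf (nat_lit 23) (nat_lit 186)) (nd (nat_lit 213) (nat_lit 0) (cs (lf (nat_lit 5) (nat_lit 210)) (lf (nat_lit 22) (nat_lit 187)))))))))))) q15438 (by decide +kernel)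
def q15442 : Q := Q.p (nat_lit 0x300001c00000000000000000000000000000000000000000) (nat_lit 0x80006000000000000000000000000000000000000000000) (nat_lit 2)
theorem c15442 : QOK q15442 := cut [] trivial (nd (nat_lit 169) (nat_lit 0) (cs (lf (nat_lit 6) (nat_lit 166)) (lf (nat_lit 11) (nat_lit 165)))) q15442 (by decide +kernel)
def q15447 : Q := Q.p (nat_lit 0xc00007000000000000000000000000000000000000) (nat_lit 0x200018000000000000000000000000000000000000) (nat_lit 2)
theorem c15447 : QOK q15447 := cut [] trivial (nd (nat_lit 147) (nat_lit 0) (cs (lf (nat_lit 6) (nat_lit 144)) (lf (nat_lit 11) (nat_lit 143)))) q15447 (by decide +kernel)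
def q15464 : Q := Q.p (nat_lit 0x200000f0000000000000000000000000000000000000000000000000000) (nat_lit 0x17000008000000000000000000000000000000000000000000000000000) (nat_lit 3)
theorem c15464 : QOK q15464 := cut [] trivial (nd (nat_lit 229) (nat_lit 0) (cs (lf (nat_lit 10) (nat_lit 207)) (nd (nat_lit 207) (nat_lit 0) (cs (lf (nat_lit 4) (nat_lit 207)) (lf (nat_lit 11) (nat_lit 206)))))) q15464 (by decide +kernel)
def q15466 : Q := Q.p (nat_lit 0x8000020000040000e0000000000000000000000000000000000000000000000000000) (nat_lit 0x8000100000100000000000000000000000000000000000000000000000) (nat_lit 2)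
theorem c15466 : QOK q15466 := cut [] trivial (nd (nat_lit 231) (nat_lit 0) (cs (lf (nat_lit 35) (nat_lit 187)) (lf (nat_lit 6) (nat_lit 208)))) q15466 (by decide +kernel)
def q15484 : Q := Q.p (nat_lit 0x38000030000000000000000000000000000000000000000000000000000) (nat_lit 0x400000c000000000000000000000000000000000000000000000000000) (nat_lit 2)
theorem c15484 : QOK q15484 := cut [] trivial (nd (nat_lit 207) (nat_lit 0) (cs (lf (nat_lit 0) (nat_lit 206)) (lf (nat_lit 21) (nat_lit 207)))) q15484 (by decide +kernel)
def q15497 : Q := Q.p (nat_lit 0x800002000028000030000000000000000000000000000000000000000000000000000) (nat_lit 0x50000048000100000000000000000000000000000000000000000000000) (nat_lit 3)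
theorem c15497 : QOK q15497 := cut [] trivial (nd (nat_lit 232) (nat_lit 0) (cs (lf (nat_lit 18) (nat_lit 208)) (nd (nat_lit 210) (nat_lit 0) (cs (lf (nat_lit 35) (nat_lit 187)) (lf (nat_lit 0) (nat_lit 207)))))) q15497 (by decide +kernel)
def q15499 : Q := Q.p (nat_lit 0x800003000000000030000000000000000000000000000000000000000000000000000) (nat_lit 0xc000000000040000000000000000000000000000000000000000000000) (nat_lit 2)
theorem c15499 : QOK q15499 := cut [] trivial (nd (nat_lit 186) (nat_lit 0) (cs (lf (nat_lit 44) (nat_lit 186)) (lf (nat_lit 26) (nat_lit 186)))) q15499 (by decide +kernel)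
def q15503 : Q := Q.p (nat_lit 0xc00003000000000020000000000000000000000000000000000000000000000000000) (nat_lit 0x100000000000000008000000000080000000000000000000000000000000000000000000000) (nat_lit 2)
theorem c15503 : QOK q15503 := cut [] trivial (nd (nat_lit 231) (nat_lit 0) (cs (lf (nat_lit 36) (nat_lit 186)) (lf (nat_lit 41) (nat_lit 208)))) q15503 (by decide +kernel)
def q15512 : Q := Q.p (nat_lit 0x400001800002000000000000000000000000000000000000000000000000000000000000000) (nat_lit 0x40000100000200000000000000008000020000000000000000000000000000000000000000000000000000) (nat_lit 3)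
theorem c15512 : QOK q15512 := cut [] trivial (nd (nat_lit 320) (nat_lit 0) (cs (lf (nat_lit 42) (nat_lit 253)) (nd (nat_lit 231) (nat_lit 0) (cs (lf (nat_lit 24) (nat_lit 209)) (lf (nat_lit 27) (nat_lit 231)))))) q15512 (by decide +kernel)
def q15521 : Q := Q.p (nat_lit 0x1e00000000000000000000000000000000000000000000000000000000000000000000) (nat_lit 0xe0000100000e00000000000000000000000000000000000000000000000000000000000000) (nat_lit 4)
theorem c15521 : QOK q15521 := cut [] trivial (nd (nat_lit 250) (nat_lit 0) (cs (lf (nat_lit 22) (nat_lit 250)) (nd (nat_lit 294) (nat_lit 0) (cs (lf (nat_lit 10) (nat_lit 272)) (nd (nat_lit 272) (nat_lit 0) (cs (lf (nat_lit 23) (nat_lit 249)) (lf (nat_lit 11) (nat_lit 271)))))))) q15521 (by decide +kernel)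
def q15523 : Q := Q.p (nat_lit 0x1800002000000000030000000000000000000000000000000000000000000000000000) (nat_lit 0x400000000000000008000000000040000000000000000000000000000000000000000000000) (nat_lit 2)
theorem c15523 : QOK q15523 := cut [] trivial (nd (nat_lit 231) (nat_lit 0) (cs (lf (nat_lit 29) (nat_lit 209)) (lf (nat_lit 47) (nat_lit 186)))) q15523 (by decide +kernel)
def q15540 : Q := Q.p (nat_lit 0x10000000000080001e00000800000000000000000000000000000000000000000000000000000000000000) (nat_lit 0x8000060000000002000001000000000000000000000000000000000000000000000000000000000000000) (nat_lit 3)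
theorem c15540 : QOK q15540 := cut [] trivial (nd (nat_lit 252) (nat_lit 0) (cs (lf (nat_lit 18) (nat_lit 251)) (nd (nat_lit 317) (nat_lit 0) (cs (lf (nat_lit 30) (nat_lit 251)) (lf (nat_lit 28) (nat_lit 251)))))) q15540 (by decide +kernel)
def q15553 : Q := Q.p (nat_lit 0x8000000000080001e00000800000000000000000000000000000000000000000000000000000000000000) (nat_lit 0x20000000002000001000000000000000000000000000000000000000000000000000000000000000) (nat_lit 2)
theorem c15553 : QOK q15553 := cut [] trivial (nd (nat_lit 252) (nat_lit 0) (cs (lf (nat_lit 18) (nat_lit 251)) (lf (nat_lit 31) (nat_lit 251)))) q15553 (by decide +kernel)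
def q15559 : Q := Q.p (nat_lit 0x400007800000000000000000000000000000000000000000000000000000000000000000000) (nat_lit 0x7200008000000000000000000000000000000000000000000000000000000000000000000000) (nat_lit 3)
theorem c15559 : QOK q15559 := cut [] trivial (nd (nat_lit 301) (nat_lit 0) (cs (lf (nat_lit 4) (nat_lit 275)) (nd (nat_lit 279) (nat_lit 0) (cs (lf (nat_lit 5) (nat_lit 276)) (lf (nat_lit 11) (nat_lit 275)))))) q15559 (by decide +kernel)
def q15576 : Q := Q.p (nat_lit 0x200003c00000000000000000000000000000000000000000000000000000000000000000000) (nat_lit 0x740000c000038000000000000000000000000000000000000000000000000000000000000000) (nat_lit 5)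
theorem c15576 : QOK q15576 := cut [] trivial (nd (nat_lit 256) (nat_lit 0) (cs (lf (nat_lit 16) (nat_lit 252)) (nd (nat_lit 278) (nat_lit 0) (cs (lf (nat_lit 17) (nat_lit 253)) (nd (nat_lit 301) (nat_lit 0) (cs (lf (nat_lit 4) (nat_lit 275)) (nd (nat_lit 279) (nat_lit 0) (cs (lf (nat_lit 5) (nat_lit 276)) (lf (nat_lit 10) (nat_lit 275)))))))))) q15576 (by decide +kernel)
def q15584 : Q := Q.p (nat_lit 0x3e000000000000000000000000000000000000000000000000000000000000000000000000000000000000) (nat_lit 0x1c000000000000000000000000000000000000000000000000000000000000000000000000000000000000000000) (nat_lit 2)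
theorem c15584 : QOK q15584 := cut [] trivial (nd (nat_lit 363) (nat_lit 0) (cs (lf (nat_lit 4) (nat_lit 337)) (lf (nat_lit 5) (nat_lit 338)))) q15584 (by decide +kernel)
def q15593 : Q := Q.p (nat_lit 0x7c000000000000000000000000000000000000000000000000000000000000000000000000000000000000) (nat_lit 0x380000000000000000000000000000000000000000000000000000000000000000000000000000000) (nat_lit 2)
theorem c15593 : QOK q15593 := cut [] trivial (nd (nat_lit 320) (nat_lit 0) (cs (lf (nat_lit 17) (nat_lit 317)) (lf (nat_lit 16) (nat_lit 316)))) q15593 (by decide +kernel)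
def q15611 : Q := Q.p (nat_lit 0x58000000000000001c00002800000000000000000000000000000000000000000000000000000000000000) (nat_lit 0x300000c00003f0000a4000380000400002000001000000000000000000000000000000000000000000000000000000000000000) (nat_lit 10)
theorem c15611 : QOK q15611 := cut [] trivial (nd (nat_lit 320) (nat_lit 0) (cs (lf (nat_lit 44) (nat_lit 253)) (nd (nat_lit 252) (nat_lit 0) (cs (lf (nat_lit 18) (nat_lit 251)) (nd (nat_lit 341) (nat_lit 0) (cs (lf (nat_lit 17) (nat_lit 317)) (nd (nat_lit 319) (nat_lit 0) (cs (nd (nat_lit 361) (nat_lit 0) (cs (lf (nat_lit 11) (nat_lit 338)) (nd (nat_lit 364) (nat_lit 0) (cs (lf (nat_lit 5) (nat_lit 339)) (nd (nat_lit 362) (nat_lit 0) (cs (nd (nat_lit 386) (nat_lit 0) (cs (nd (nat_lit 387) (nat_lit 0) (cs (lf (nat_lit 2) (nat_lit 361)) (lf (nat_lit 29) (nat_lit 320)))) (lf (nat_lit 42) (nat_lit 319)))) (lf (nat_lit 6) (nat_lit 339)))))))) (lf (nat_lit 12) (nat_lit 316)))))))))) q15611 (by decide +kernel)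
def q15619 : Q := Q.p (nat_lit 0x1f00000000000000000000000000000000000000000000000000000000000000000000) (nat_lit 0xe00000000000000000000000000000000000000000000000000000000000000) (nat_lit 2)
theorem c15619 : QOK q15619 := cut [] trivial (nd (nat_lit 250) (nat_lit 0) (cs (lf (nat_lit 23) (nat_lit 249)) (lf (nat_lit 22) (nat_lit 250)))) q15619 (by decide +kernel)
def q15641 : Q := Q.p (nat_lit 0x20000070000200000000000000000000000000000000000000000000000) (nat_lit 0x40000080000400000000000000000000000000000000000000000000000) (nat_lit 2)
theorem c15641 : QOK q15641 := cut [] trivial (nd (nat_lit 211) (nat_lit 0) (cs (lf (nat_lit 5) (nat_lit 208)) (lf (nat_lit 17) (nat_lit 186)))) q15641 (by decide +kernel)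
def q15653 : Q := Q.p (nat_lit 0xc00002000000000030000000000000000000000000000000000000000000000000000) (nat_lit 0x100000000000000008000000000040000000000000000000000000000000000000000000000) (nat_lit 2)
theorem c15653 : QOK q15653 := cut [] trivial (nd (nat_lit 231) (nat_lit 0) (cs (lf (nat_lit 41) (nat_lit 208)) (lf (nat_lit 47) (nat_lit 186)))) q15653 (by decide +kernel)
def q15668 : Q := Q.p (nat_lit 0x600000800000000018000000000000000000000000000000000000000000000000000) (nat_lit 0x100000000000000002000000000040000000000000000000000000000000000000000000000) (nat_lit 2)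
theorem c15668 : QOK q15668 := cut [] trivial (nd (nat_lit 229) (nat_lit 0) (cs (lf (nat_lit 29) (nat_lit 207)) (lf (nat_lit 35) (nat_lit 185)))) q15668 (by decide +kernel)
def q15683 : Q := Q.p (nat_lit 0xc00002000008000010000000000000000000000000000000000000000000000000000) (nat_lit 0x100000000000000000000020000040000000000000000000000000000000000000000000000) (nat_lit 2)
theorem c15683 : QOK q15683 := cut [] trivial (nd (nat_lit 209) (nat_lit 0) (cs (lf (nat_lit 41) (nat_lit 208)) (lf (nat_lit 47) (nat_lit 186)))) q15683 (by decide +kernel)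
def q15693 : Q := Q.p (nat_lit 0x10000040000300000800000000000000000000000000000000000000000000000000000000000000) (nat_lit 0x400002000008000000000000000000000000000000000000000000000000000) (nat_lit 2)
theorem c15693 : QOK q15693 := cut [] trivial (nd (nat_lit 229) (nat_lit 0) (cs (lf (nat_lit 36) (nat_lit 206)) (lf (nat_lit 33) (nat_lit 228)))) q15693 (by decide +kernel)
def q15706 : Q := Q.p (nat_lit 0x40000e00000000000000000000000000000000000000000000000000000000000000000000) (nat_lit 0x1b0000100000000000000000000000000000000000000000000000000000000000000000000) (nat_lit 3)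
theorem c15706 : QOK q15706 := cut [] trivial (nd (nat_lit 293) (nat_lit 0) (cs (lf (nat_lit 9) (nat_lit 271)) (nd (nat_lit 295) (nat_lit 0) (cs (lf (nat_lit 15) (nat_lit 271)) (lf (nat_lit 12) (nat_lit 270)))))) q15706 (by decide +kernel)
def q15728 : Q := Q.p (nat_lit 0x300002c00000000000000000000000000000000000000000000000000000000000000000000) (nat_lit 0x80005000000000000000000000000000000000000000000000000000000000000000000000) (nat_lit 2)
theorem c15728 : QOK q15728 := cut [] trivial (nd (nat_lit 276) (nat_lit 0) (cs (lf (nat_lit 6) (nat_lit 274)) (lf (nat_lit 11) (nat_lit 273)))) q15728 (by decide +kernel)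
def q15730 : Q := Q.p (nat_lit 0x7c00000000000000000000000000000000000000000000000000000000000000000000) (nat_lit 0x38000000000000000000000000000000000000000000000000000000000000000) (nat_lit 2)
theorem c15730 : QOK q15730 := cut [] trivial (nd (nat_lit 256) (nat_lit 0) (cs (lf (nat_lit 17) (nat_lit 253)) (lf (nat_lit 16) (nat_lit 252)))) q15730 (by decide +kernel)
def q15742 : Q := Q.p (nat_lit 0x2000008000060000100000000000000000000000000000000000000000000000000000) (nat_lit 0x80000400001000000000000000000000000000000000000000000) (nat_lit 2)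
theorem c15742 : QOK q15742 := cut [] trivial (nd (nat_lit 190) (nat_lit 0) (cs (lf (nat_lit 33) (nat_lit 189)) (lf (nat_lit 36) (nat_lit 167)))) q15742 (by decide +kernel)
def q15775 : Q := Q.p (nat_lit 0x4000010000040000100000400000000000000000000000000000000000000000000000) (nat_lit 0x80000200000800000000000000000000000000000000000000000) (nat_lit 2)
theorem c15775 : QOK q15775 := cut [] trivial (nd (nat_lit 189) (nat_lit 0) (cs (lf (nat_lit 47) (nat_lit 167)) (lf (nat_lit 46) (nat_lit 189)))) q15775 (by decide +kernel)
def q15788 : Q := Q.p (nat_lit 0x7c00000000000000000000000000000000000000000000000000000000000000000000) (nat_lit 0x3800000000000000000000000000000000000000000000000000000000000000000000000000) (nat_lit 2)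
theorem c15788 : QOK q15788 := cut [] trivial (nd (nat_lit 300) (nat_lit 0) (cs (lf (nat_lit 4) (nat_lit 274)) (lf (nat_lit 5) (nat_lit 275)))) q15788 (by decide +kernel)
def q15793 : Q := Q.p (nat_lit 0x80000200000800002000008000000000000000000000000000000000000000000000000000000000) (nat_lit 0x10000040000100000000000000000000000000000000000000000000000000000000000000000000000000) (nat_lit 2)
theorem c15793 : QOK q15793 := cut [] trivial (nd (nat_lit 318) (nat_lit 0) (cs (lf (nat_lit 41) (nat_lit 252)) (lf (nat_lit 40) (nat_lit 230)))) q15793 (by decide +kernel)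
def q15801 : Q := Q.p (nat_lit 0x100000c00002000008000000000000000000000000000000000000000000000000000000000) (nat_lit 0x10000040000200000000000000000000000000000000000000000000000000000000000000000000000000) (nat_lit 2)
theorem c15801 : QOK q15801 := cut [] trivial (nd (nat_lit 318) (nat_lit 0) (cs (lf (nat_lit 30) (nat_lit 252)) (lf (nat_lit 39) (nat_lit 230)))) q15801 (by decide +kernel)
def q15803 : Q := Q.p (nat_lit 0x40000100000e00000000000000000000000000000000000000000000000000000000000000) (nat_lit 0x10000000000000000000002800000000000000000000000000000000000000000000000000000000) (nat_lit 2)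
theorem c15803 : QOK q15803 := cut [] trivial (nd (nat_lit 316) (nat_lit 0) (cs (lf (nat_lit 47) (nat_lit 227)) (lf (nat_lit 35) (nat_lit 228)))) q15803 (by decide +kernel)
def q15814 : Q := Q.p (nat_lit 0x20000000000000003c00000000000000000000000000000000000000000000000000000000) (nat_lit 0xc0000380000000001800000000000000000000000000000000000000000000000000) (nat_lit 4)
theorem c15814 : QOK q15814 := cut [] trivial (nd (nat_lit 248) (nat_lit 0) (cs (lf (nat_lit 11) (nat_lit 225)) (nd (nat_lit 204) (nat_lit 0) (cs (lf (nat_lit 23) (nat_lit 203)) (nd (nat_lit 271) (nat_lit 0) (cs (lf (nat_lit 27) (nat_lit 204)) (lf (nat_lit 44) (nat_lit 204)))))))) q15814 (by decide +kernel)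
def q15822 : Q := Q.p (nat_lit 0x40000100000400001000030000000000000000000000000000000000000000000000000000) (nat_lit 0x280000e000000000000000000000000000000000000000000000000000) (nat_lit 3)
theorem c15822 : QOK q15822 := cut [] trivial (nd (nat_lit 207) (nat_lit 0) (cs (lf (nat_lit 34) (nat_lit 206)) (nd (nat_lit 227) (nat_lit 0) (cs (lf (nat_lit 9) (nat_lit 205)) (lf (nat_lit 47) (nat_lit 205)))))) q15822 (by decide +kernel)
def q15826 : Q := Q.p (nat_lit 0x140000d00000000000000000000000000000000000000000000000000000000000000000000) (nat_lit 0xa0000200000000000000000000000000000000000000000000000000000000000000000000) (nat_lit 2)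
theorem c15826 : QOK q15826 := cut [] trivial (nd (nat_lit 293) (nat_lit 0) (cs (lf (nat_lit 8) (nat_lit 271)) (lf (nat_lit 14) (nat_lit 271)))) q15826 (by decide +kernel)
def q15828 : Q := Q.p (nat_lit 0x100000c00002000008000000000000000000000000000000000000000000000000000000000) (nat_lit 0x10000040000000000000001000000000000000000000000000000000000000000000000000000000000000) (nat_lit 2)
theorem c15828 : QOK q15828 := cut [] trivial (nd (nat_lit 318) (nat_lit 0) (cs (lf (nat_lit 30) (nat_lit 252)) (lf (nat_lit 33) (nat_lit 230)))) q15828 (by decide +kernel)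
def q15831 : Q := Q.p (nat_lit 0xe0000100000400000000000000000000000000000000000000000000000000000000000000000000) (nat_lit 0x28000000000000000000001000000000000000000000000000000000000000000000000000000000000000) (nat_lit 2)
theorem c15831 : QOK q15831 := cut [] trivial (nd (nat_lit 252) (nat_lit 0) (cs (lf (nat_lit 29) (nat_lit 252)) (lf (nat_lit 41) (nat_lit 251)))) q15831 (by decide +kernel)
def q15838 : Q := Q.p (nat_lit 0xe0000140000c00000000000000000000000000000000000000000000000000000000000000000000) (nat_lit 0x100000a0000000000000000000000000000000000000000000000000000000000000000000000000) (nat_lit 2)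
theorem c15838 : QOK q15838 := cut [] trivial (nd (nat_lit 293) (nat_lit 0) (cs (lf (nat_lit 21) (nat_lit 293)) (lf (nat_lit 14) (nat_lit 271)))) q15838 (by decide +kernel)
def q15840 : Q := Q.p (nat_lit 0xf0000100000000000000000000000000000000000000000000000000000000000000000000000000) (nat_lit 0x8000600000000000000000000000000000000000000000000000000000000000000000000000000) (nat_lit 2)
theorem c15840 : QOK q15840 := cut [] trivial (nd (nat_lit 297) (nat_lit 0) (cs (lf (nat_lit 17) (nat_lit 294)) (lf (nat_lit 12) (nat_lit 293)))) q15840 (by decide +kernel)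
def q15846 : Q := Q.p (nat_lit 0x20000000000000003c00000000000000000000000000000000000000000000000000000000000000) (nat_lit 0xc0000380000000001800000000000000000000000000000000000000000000000000000000) (nat_lit 4)
theorem c15846 : QOK q15846 := cut [] trivial (nd (nat_lit 272) (nat_lit 0) (cs (lf (nat_lit 11) (nat_lit 249)) (nd (nat_lit 228) (nat_lit 0) (cs (lf (nat_lit 23) (nat_lit 227)) (nd (nat_lit 295) (nat_lit 0) (cs (lf (nat_lit 44) (nat_lit 228)) (lf (nat_lit 27) (nat_lit 228)))))))) q15846 (by decide +kernel)
def q15851 : Q := Q.p (nat_lit 0x70000300000000000000000000000000000000000000000000000000000000000000000000000000) (nat_lit 0xc80000000000000000000000000000000000000000000000000000000000000000000000000) (nat_lit 2)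
theorem c15851 : QOK q15851 := cut [] trivial (nd (nat_lit 298) (nat_lit 0) (cs (lf (nat_lit 9) (nat_lit 294)) (lf (nat_lit 6) (nat_lit 295)))) q15851 (by decide +kernel)
def q15853 : Q := Q.p (nat_lit 0x70000300000000000000000000000000000000000000000000000000000000000000000000000000) (nat_lit 0x80000c00000000000000000000000000000000000000000000000000000000000000000000000000) (nat_lit 2)
theorem c15853 : QOK q15853 := cut [] trivial (nd (nat_lit 298) (nat_lit 0) (cs (lf (nat_lit 15) (nat_lit 294)) (lf (nat_lit 6) (nat_lit 295)))) q15853 (by decide +kernel)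
def q15857 : Q := Q.p (nat_lit 0x40000e0000100000000000000000000000000000000000000000000000000000000000000000000000000) (nat_lit 0x8000300001c80000000000000000000000000000000000000000000000000000000000000000000000000) (nat_lit 4)
theorem c15857 : QOK q15857 := cut [] trivial (nd (nat_lit 320) (nat_lit 0) (cs (lf (nat_lit 10) (nat_lit 316)) (nd (nat_lit 299) (nat_lit 0) (cs (lf (nat_lit 16) (nat_lit 295)) (nd (nat_lit 321) (nat_lit 0) (cs (lf (nat_lit 17) (nat_lit 296)) (lf (nat_lit 23) (nat_lit 295)))))))) q15857 (by decide +kernel)
def q15862 : Q := Q.p (nat_lit 0x200000c0000100000400000000000000000000000000000000000000000000000000000000000000000000) (nat_lit 0x2000008000000000000000200000000000000000000000000000000000000000000000000000000000000000000000000) (nat_lit 2)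
theorem c15862 : QOK q15862 := cut [] trivial (nd (nat_lit 363) (nat_lit 0) (cs (lf (nat_lit 42) (nat_lit 296)) (lf (nat_lit 45) (nat_lit 274)))) q15862 (by decide +kernel)
def q15868 : Q := Q.p (nat_lit 0xf0000180000000000000000000000000000000000000000000000000000000000000000000000000) (nat_lit 0xe0000300000000000000000000000000000000000000000000000000000000000000000000000000000000) (nat_lit 3)
theorem c15868 : QOK q15868 := cut [] trivial (nd (nat_lit 342) (nat_lit 0) (cs (lf (nat_lit 4) (nat_lit 316)) (nd (nat_lit 320) (nat_lit 0) (cs (lf (nat_lit 5) (nat_lit 317)) (lf (nat_lit 18) (nat_lit 295)))))) q15868 (by decide +kernel)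
def q15886 : Q := Q.p (nat_lit 0x1c0000c00000000000000000000000000000000000000000000000000000000000000000000) (nat_lit 0x3200000000000000000000000000000000000000000000000000000000000000000000) (nat_lit 2)
theorem c15886 : QOK q15886 := cut [] trivial (nd (nat_lit 276) (nat_lit 0) (cs (lf (nat_lit 6) (nat_lit 273)) (lf (nat_lit 9) (nat_lit 272)))) q15886 (by decide +kernel)
def q15891 : Q := Q.p (nat_lit 0x40000100002400001000000000000000000000000000000000000000000000000000000000) (nat_lit 0x1800002000000000180000280000a000000000000000000000000000000000000000000000000000) (nat_lit 5)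
theorem c15891 : QOK q15891 := cut [] trivial (nd (nat_lit 229) (nat_lit 0) (cs (lf (nat_lit 35) (nat_lit 206)) (nd (nat_lit 293) (nat_lit 0) (cs (lf (nat_lit 41) (nat_lit 227)) (nd (nat_lit 251) (nat_lit 0) (cs (lf (nat_lit 30) (nat_lit 228)) (nd (nat_lit 227) (nat_lit 0) (cs (lf (nat_lit 19) (nat_lit 227)) (lf (nat_lit 47) (nat_lit 205)))))))))) q15891 (by decide +kernel)
def q15903 : Q := Q.p (nat_lit 0x40000100000400000800030000000000000000000000000000000000000000000000000000) (nat_lit 0x300000e000000000000000000000000000000000000000000000000000) (nat_lit 3)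
theorem c15903 : QOK q15903 := cut [] trivial (nd (nat_lit 228) (nat_lit 0) (cs (lf (nat_lit 47) (nat_lit 205)) (nd (nat_lit 207) (nat_lit 0) (cs (lf (nat_lit 9) (nat_lit 205)) (lf (nat_lit 34) (nat_lit 206)))))) q15903 (by decide +kernel)
def q15907 : Q := Q.p (nat_lit 0x40000100002400000800000000000000000000000000000000000000000000000000000000) (nat_lit 0x10000000000080001a00003000000000000000000000000000000000000000000000000000000000) (nat_lit 4)
theorem c15907 : QOK q15907 := cut [] trivial (nd (nat_lit 316) (nat_lit 0) (cs (lf (nat_lit 46) (nat_lit 227)) (nd (nat_lit 251) (nat_lit 0) (cs (lf (nat_lit 35) (nat_lit 228)) (nd (nat_lit 252) (nat_lit 0) (cs (lf (nat_lit 11) (nat_lit 249)) (lf (nat_lit 22) (nat_lit 227)))))))) q15907 (by decide +kernel)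
def q15911 : Q := Q.p (nat_lit 0x100000700002000000000000000000000000000000000000000000000000000000000000000) (nat_lit 0x200000080001000000000000000000000000000000000000000000000000000000000000000) (nat_lit 2)
theorem c15911 : QOK q15911 := cut [] trivial (nd (nat_lit 271) (nat_lit 0) (cs (lf (nat_lit 5) (nat_lit 271)) (lf (nat_lit 16) (nat_lit 249)))) q15911 (by decide +kernel)
def q15930 : Q := Q.p (nat_lit 0x1c0000180000000000000000000000000000000000000000000000000000000000000000000) (nat_lit 0x260000000000000000000000000000000000000000000000000000000000000000000) (nat_lit 2)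
theorem c15930 : QOK q15930 := cut [] trivial (nd (nat_lit 270) (nat_lit 0) (cs (lf (nat_lit 0) (nat_lit 269)) (lf (nat_lit 3) (nat_lit 270)))) q15930 (by decide +kernel)
def q15934 : Q := Q.p (nat_lit 0x1c0000c00000000000000000000000000000000000000000000000000000000000000000000) (nat_lit 0x200003000000000000000000000000000000000000000000000000000000000000000000000) (nat_lit 2)
theorem c15934 : QOK q15934 := cut [] trivial (nd (nat_lit 276) (nat_lit 0) (cs (lf (nat_lit 6) (nat_lit 273)) (lf (nat_lit 15) (nat_lit 272)))) q15934 (by decide +kernel)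
def q15938 : Q := Q.p (nat_lit 0x80000100000400001000002000000000000000000000000000000000000000000000000000) (nat_lit 0x200000000000000004000008000000000000000000000000000000000000000000000) (nat_lit 2)
theorem c15938 : QOK q15938 := cut [] trivial (nd (nat_lit 206) (nat_lit 0) (cs (lf (nat_lit 47) (nat_lit 183)) (lf (nat_lit 28) (nat_lit 206)))) q15938 (by decide +kernel)
def q15947 : Q := Q.p (nat_lit 0x10000040000100000400001000000000000000000000000000000000000000000000000000000000) (nat_lit 0x800002000008000000000000000000000000000000000000000000000000000) (nat_lit 2)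
theorem c15947 : QOK q15947 := cut [] trivial (nd (nat_lit 229) (nat_lit 0) (cs (lf (nat_lit 35) (nat_lit 206)) (lf (nat_lit 34) (nat_lit 228)))) q15947 (by decide +kernel)
def q15959 : Q := Q.p (nat_lit 0x1c00002800000000000000000000000000000000000000000000000000000000000000) (nat_lit 0x200001400000000000000000000000000000000000000000000000000000000000000) (nat_lit 2)
theorem c15959 : QOK q15959 := cut [] trivial (nd (nat_lit 250) (nat_lit 0) (cs (lf (nat_lit 2) (nat_lit 250)) (lf (nat_lit 21) (nat_lit 250)))) q15959 (by decide +kernel)
def q15961 : Q := Q.p (nat_lit 0x100000c00003800000000000000000000000000000000000000000000000000000000000000) (nat_lit 0x10000040000000000000000000002000000000000000000000000000000000000000000000000000000000) (nat_lit 2)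
theorem c15961 : QOK q15961 := cut [] trivial (nd (nat_lit 318) (nat_lit 0) (cs (lf (nat_lit 47) (nat_lit 229)) (lf (nat_lit 30) (nat_lit 252)))) q15961 (by decide +kernel)
def q15964 : Q := Q.p (nat_lit 0x180000e00000800000000000000000000000000000000000000000000000000000000000000) (nat_lit 0x3000000400000000000000000000000000000000000000000000000000000000000000) (nat_lit 2)
theorem c15964 : QOK q15964 := cut [] trivial (nd (nat_lit 276) (nat_lit 0) (cs (lf (nat_lit 23) (nat_lit 250)) (lf (nat_lit 6) (nat_lit 273)))) q15964 (by decide +kernel)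
def q15974 : Q := Q.p (nat_lit 0x180000c00000000000000000000000000000000000000000000000000000000000000000000) (nat_lit 0x260003000000000000000000000000000000000000000000000000000000000000000000000) (nat_lit 3)
theorem c15974 : QOK q15974 := cut [] trivial (nd (nat_lit 276) (nat_lit 0) (cs (lf (nat_lit 6) (nat_lit 273)) (nd (nat_lit 294) (nat_lit 0) (cs (lf (nat_lit 12) (nat_lit 271)) (lf (nat_lit 15) (nat_lit 272)))))) q15974 (by decide +kernel)
def q15985 : Q := Q.p (nat_lit 0x1c0000180000000000000000000000000000000000000000000000000000000000000000000000000) (nat_lit 0x20000060000000000000000000000000000000000000000000000000000000000000000000000000) (nat_lit 2)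
theorem c15985 : QOK q15985 := cut [] trivial (nd (nat_lit 294) (nat_lit 0) (cs (lf (nat_lit 21) (nat_lit 294)) (lf (nat_lit 0) (nat_lit 293)))) q15985 (by decide +kernel)
def q15996 : Q := Q.p (nat_lit 0x100000c00002000000000000000000000000000000000000000000000000000000000000000) (nat_lit 0x10000040000200000000000000008000020000000000000000000000000000000000000000000000000000) (nat_lit 3)
theorem c15996 : QOK q15996 := cut [] trivial (nd (nat_lit 318) (nat_lit 0) (cs (lf (nat_lit 30) (nat_lit 252)) (nd (nat_lit 231) (nat_lit 0) (cs (lf (nat_lit 36) (nat_lit 208)) (lf (nat_lit 39) (nat_lit 230)))))) q15996 (by decide +kernel)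
def q16001 : Q := Q.p (nat_lit 0x300001c00000000000000000000000000000000000000000000000000000000000000000000) (nat_lit 0x80006000000000000000000000000000000000000000000000000000000000000000000000) (nat_lit 2)
theorem c16001 : QOK q16001 := cut [] trivial (nd (nat_lit 277) (nat_lit 0) (cs (lf (nat_lit 6) (nat_lit 274)) (lf (nat_lit 11) (nat_lit 273)))) q16001 (by decide +kernel)
def q16010 : Q := Q.p (nat_lit 0x20000580000200000800000000000000000000000000000000000000000000000000000000000000) (nat_lit 0x4000010000200000000000000000000000000000000000000000000000000000000000000000000000000) (nat_lit 2)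
theorem c16010 : QOK q16010 := cut [] trivial (nd (nat_lit 316) (nat_lit 0) (cs (lf (nat_lit 41) (nat_lit 250)) (lf (nat_lit 7) (nat_lit 294)))) q16010 (by decide +kernel)
def q16025 : Q := Q.p (nat_lit 0x200000800002000000000010000000000000000000000000000000000000000000000000000) (nat_lit 0x40000100000c000000000040000000000000000000000000000000000000000000000) (nat_lit 3)
theorem c16025 : QOK q16025 := cut [] trivial (nd (nat_lit 230) (nat_lit 0) (cs (lf (nat_lit 45) (nat_lit 208)) (nd (nat_lit 252) (nat_lit 0) (cs (lf (nat_lit 27) (nat_lit 208)) (lf (nat_lit 24) (nat_lit 186)))))) q16025 (by decide +kernel)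
def q16038 : Q := Q.p (nat_lit 0x800002000004000010000040000000000000000000000000000000000000000000000) (nat_lit 0x8000020000000000100000000000000000000000000000000000000000) (nat_lit 2)
theorem c16038 : QOK q16038 := cut [] trivial (nd (nat_lit 231) (nat_lit 0) (cs (lf (nat_lit 24) (nat_lit 164)) (lf (nat_lit 45) (nat_lit 186)))) q16038 (by decide +kernel)
def q16045 : Q := Q.p (nat_lit 0x2000008000038000080000000000000000000000000000000000000000000000) (nat_lit 0x4000100000400000000000000000000000000000000000000000) (nat_lit 2)
theorem c16045 : QOK q16045 := cut [] trivial (nd (nat_lit 188) (nat_lit 0) (cs (lf (nat_lit 35) (nat_lit 165)) (lf (nat_lit 12) (nat_lit 184)))) q16045 (by decide +kernel)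
def q16059 : Q := Q.p (nat_lit 0x78000040000000000000000000000000000000000000000000000) (nat_lit 0x80000030000000000000000000000000000000000000000000000) (nat_lit 2)
theorem c16059 : QOK q16059 := cut [] trivial (nd (nat_lit 185) (nat_lit 0) (cs (lf (nat_lit 18) (nat_lit 185)) (lf (nat_lit 23) (nat_lit 184)))) q16059 (by decide +kernel)
def q16142 : Q := Q.p (nat_lit 0x800002000018000020000000000000000000000000000000000000000000000000000) (nat_lit 0x500003400001c00000000000000080000000000000000000000000000000000000000000000) (nat_lit 5)
theorem c16142 : QOK q16142 := cut [] trivial (nd (nat_lit 276) (nat_lit 0) (cs (lf (nat_lit 29) (nat_lit 209)) (nd (nat_lit 274) (nat_lit 0) (cs (lf (nat_lit 41) (nat_lit 208)) (nd (nat_lit 252) (nat_lit 0) (cs (lf (nat_lit 36) (nat_lit 186)) (nd (nat_lit 251) (nat_lit 0) (cs (lf (nat_lit 12) (nat_lit 228)) (lf (nat_lit 18) (nat_lit 251)))))))))) q16142 (by decide +kernel)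
def q16237 : Q := Q.p (nat_lit 0x3c000040000000000000000000000000000000000000000000000) (nat_lit 0x1c00002000080000000000000000000000000000000000000000000000) (nat_lit 3)
theorem c16237 : QOK q16237 := cut [] trivial (nd (nat_lit 227) (nat_lit 0) (cs (lf (nat_lit 10) (nat_lit 205)) (nd (nat_lit 205) (nat_lit 0) (cs (lf (nat_lit 11) (nat_lit 204)) (lf (nat_lit 17) (nat_lit 183)))))) q16237 (by decide +kernel)
def q16253 : Q := Q.p (nat_lit 0x8000060000180000000000000000000000000000000000000000) (nat_lit 0x2000000000000000000000400001000000000000000000000000000000) (nat_lit 2)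
theorem c16253 : QOK q16253 := cut [] trivial (nd (nat_lit 142) (nat_lit 0) (cs (lf (nat_lit 30) (nat_lit 141)) (lf (nat_lit 36) (nat_lit 119)))) q16253 (by decide +kernel)
def q16272 : Q := Q.p (nat_lit 0x4000030000040000100000000000000000000000000000000000) (nat_lit 0x2000008000000000000000000000400000000000000000000000000000) (nat_lit 2)
theorem c16272 : QOK q16272 := cut [] trivial (nd (nat_lit 207) (nat_lit 0) (cs (lf (nat_lit 24) (nat_lit 118)) (lf (nat_lit 29) (nat_lit 140)))) q16272 (by decide +kernel)
def q16274 : Q := Q.p (nat_lit 0x2000001800004000010000040000000000000000000000000000000000000000) (nat_lit 0x200001c00002000000000000000000000000000000000000000000000000000000000) (nat_lit 3)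
theorem c16274 : QOK q16274 := cut [] trivial (nd (nat_lit 251) (nat_lit 0) (cs (lf (nat_lit 28) (nat_lit 162)) (nd (nat_lit 250) (nat_lit 0) (cs (lf (nat_lit 29) (nat_lit 184)) (lf (nat_lit 19) (nat_lit 227)))))) q16274 (by decide +kernel)
def q16280 : Q := Q.p (nat_lit 0x4000030000040000200000000000000000000000000000000000) (nat_lit 0x80000100000800000000000000000000000000000) (nat_lit 2)
theorem c16280 : QOK q16280 := cut [] trivial (nd (nat_lit 119) (nat_lit 0) (cs (lf (nat_lit 33) (nat_lit 118)) (lf (nat_lit 38) (nat_lit 118)))) q16280 (by decide +kernel)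
def q16281 : Q := Q.p (nat_lit 0x1000034000010000040000000000000000000000000000000000000000) (nat_lit 0x200000800008000000000000000000000000000000000000000000000000000) (nat_lit 2)
theorem c16281 : QOK q16281 := cut [] trivial (nd (nat_lit 227) (nat_lit 0) (cs (lf (nat_lit 8) (nat_lit 205)) (lf (nat_lit 41) (nat_lit 161)))) q16281 (by decide +kernel)
def q16287 : Q := Q.p (nat_lit 0x10000040000100000400001000000000000000000000000) (nat_lit 0x800002000008000000000000000000) (nat_lit 2)
theorem c16287 : QOK q16287 := cut [] trivial (nd (nat_lit 97) (nat_lit 0) (cs (lf (nat_lit 34) (nat_lit 96)) (lf (nat_lit 35) (nat_lit 74)))) q16287 (by decide +kernel)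
def q16290 : Q := Q.p (nat_lit 0x10000040000000000f00000000000000000000000000000000000) (nat_lit 0x100000000006000000000000000000000000000000) (nat_lit 2)
theorem c16290 : QOK q16290 := cut [] trivial (nd (nat_lit 121) (nat_lit 0) (cs (lf (nat_lit 17) (nat_lit 118)) (lf (nat_lit 32) (nat_lit 120)))) q16290 (by decide +kernel)
def q16319 : Q := Q.p (nat_lit 0x2000000000078000000000000000000000000000000000000000000000000000) (nat_lit 0x800000000038000000000300000400000000000000000000000000000000000000000) (nat_lit 4)
theorem c16319 : QOK q16319 := cut [] trivial (nd (nat_lit 232) (nat_lit 0) (cs (lf (nat_lit 5) (nat_lit 207)) (nd (nat_lit 188) (nat_lit 0) (cs (lf (nat_lit 17) (nat_lit 185)) (nd (nat_lit 231) (nat_lit 0) (cs (lf (nat_lit 36) (nat_lit 165)) (lf (nat_lit 30) (nat_lit 187)))))))) q16319 (by decide +kernel)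
def q16360 : Q := Q.p (nat_lit 0x2000008000060000000000400000000000000000000000000000000000000000) (nat_lit 0x180000000001000000000000000000000000000000000000) (nat_lit 2)
theorem c16360 : QOK q16360 := cut [] trivial (nd (nat_lit 188) (nat_lit 0) (cs (lf (nat_lit 36) (nat_lit 143)) (lf (nat_lit 33) (nat_lit 165)))) q16360 (by decide +kernel)
def q16366 : Q := Q.p (nat_lit 0x780000000000000000000000000000000000000000) (nat_lit 0x38000040000380000000000000000000000000000000000) (nat_lit 4)
theorem c16366 : QOK q16366 := cut [] trivial (nd (nat_lit 140) (nat_lit 0) (cs (lf (nat_lit 22) (nat_lit 140)) (nd (nat_lit 184) (nat_lit 0) (cs (lf (nat_lit 10) (nat_lit 162)) (nd (nat_lit 162) (nat_lit 0) (cs (lf (nat_lit 11) (nat_lit 161)) (lf (nat_lit 23) (nat_lit 139)))))))) q16366 (by decide +kernel)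
def q16396 : Q := Q.p (nat_lit 0x1c00003000000000000000000000000000000000000) (nat_lit 0x6000000800000000000000000000000000000000000) (nat_lit 2)
theorem c16396 : QOK q16396 := cut [] trivial (nd (nat_lit 169) (nat_lit 0) (cs (lf (nat_lit 23) (nat_lit 143)) (lf (nat_lit 18) (nat_lit 144)))) q16396 (by decide +kernel)
def q16406 : Q := Q.p (nat_lit 0x700000600000000000000000000000000000000000) (nat_lit 0x980000000000000000000000000000000000) (nat_lit 2)
theorem c16406 : QOK q16406 := cut [] trivial (nd (nat_lit 140) (nat_lit 0) (cs (lf (nat_lit 0) (nat_lit 139)) (lf (nat_lit 3) (nat_lit 140)))) q16406 (by decide +kernel)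
def q16427 : Q := Q.p (nat_lit 0x200000800002000008000020000000000000000000000000000000000000000000000000000) (nat_lit 0x40000100000400000000000000000000000000000000000000000000000000000000000000000000) (nat_lit 2)
theorem c16427 : QOK q16427 := cut [] trivial (nd (nat_lit 296) (nat_lit 0) (cs (lf (nat_lit 41) (nat_lit 230)) (lf (nat_lit 40) (nat_lit 208)))) q16427 (by decide +kernel)
def q16446 : Q := Q.p (nat_lit 0x80000f0000000000000000000000000000000000000000000000000000) (nat_lit 0xf0000300001c00000000000000000000000000000000000000000000000) (nat_lit 5)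
theorem c16446 : QOK q16446 := cut [] trivial (nd (nat_lit 234) (nat_lit 0) (cs (lf (nat_lit 4) (nat_lit 208)) (nd (nat_lit 212) (nat_lit 0) (cs (lf (nat_lit 5) (nat_lit 209)) (nd (nat_lit 191) (nat_lit 0) (cs (lf (nat_lit 16) (nat_lit 187)) (nd (nat_lit 213) (nat_lit 0) (cs (lf (nat_lit 10) (nat_lit 209)) (lf (nat_lit 17) (nat_lit 188)))))))))) q16446 (by decide +kernel)
def q16449 : Q := Q.p (nat_lit 0x80000200000c00002000000000000000000000000000000000000) (nat_lit 0x20000000000000000000001000004000000000000000000000000000000) (nat_lit 2)
theorem c16449 : QOK q16449 := cut [] trivial (nd (nat_lit 144) (nat_lit 0) (cs (lf (nat_lit 42) (nat_lit 144)) (lf (nat_lit 47) (nat_lit 122)))) q16449 (by decide +kernel)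
def q16452 : Q := Q.p (nat_lit 0xc00001400000000000000000000000000000000000) (nat_lit 0x3200000a00000000000000000000000000000000000) (nat_lit 3)
theorem c16452 : QOK q16452 := cut [] trivial (nd (nat_lit 143) (nat_lit 0) (cs (lf (nat_lit 0) (nat_lit 141)) (nd (nat_lit 168) (nat_lit 0) (cs (lf (nat_lit 21) (nat_lit 142)) (lf (nat_lit 18) (nat_lit 143)))))) q16452 (by decide +kernel)
def q16475 : Q := Q.p (nat_lit 0xc0000000000800003000000000000000000000000000000000000) (nat_lit 0x10000000000200000000000000004000000000000000000000000000000) (nat_lit 2)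
theorem c16475 : QOK q16475 := cut [] trivial (nd (nat_lit 189) (nat_lit 0) (cs (lf (nat_lit 41) (nat_lit 144)) (lf (nat_lit 47) (nat_lit 122)))) q16475 (by decide +kernel)
def q16542 : Q := Q.p (nat_lit 0xc00001c00000000000000000000000000000000000) (nat_lit 0x3000002000000000000000000000000000000000000) (nat_lit 2)
theorem c16542 : QOK q16542 := cut [] trivial (nd (nat_lit 168) (nat_lit 0) (cs (lf (nat_lit 18) (nat_lit 143)) (lf (nat_lit 3) (nat_lit 142)))) q16542 (by decide +kernel)
def q16569 : Q := Q.p (nat_lit 0x80000f0000000000000000400000000000000000000000000000000000) (nat_lit 0x60000100000000000000000000000000000000000000000) (nat_lit 2)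
theorem c16569 : QOK q16569 := cut [] trivial (nd (nat_lit 186) (nat_lit 0) (cs (lf (nat_lit 23) (nat_lit 185)) (lf (nat_lit 25) (nat_lit 142)))) q16569 (by decide +kernel)
def q16574 : Q := Q.p (nat_lit 0x7c0000000000000000000000000000000000000000000000000000) (nat_lit 0x3800000000000000000000000000000000000000000000000) (nat_lit 2)
theorem c16574 : QOK q16574 := cut [] trivial (nd (nat_lit 192) (nat_lit 0) (cs (lf (nat_lit 17) (nat_lit 189)) (lf (nat_lit 16) (nat_lit 188)))) q16574 (by decide +kernel)
def q16586 : Q := Q.p (nat_lit 0x80001c0000000000000010000000000000000000000000000000000000) (nat_lit 0x710000e00003800004000000000000000000000000000000000000000000) (nat_lit 6)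
theorem c16586 : QOK q16586 := cut [] trivial (nd (nat_lit 213) (nat_lit 0) (cs (lf (nat_lit 10) (nat_lit 209)) (nd (nat_lit 192) (nat_lit 0) (cs (lf (nat_lit 16) (nat_lit 188)) (nd (nat_lit 214) (nat_lit 0) (cs (lf (nat_lit 17) (nat_lit 189)) (nd (nat_lit 237) (nat_lit 0) (cs (lf (nat_lit 4) (nat_lit 211)) (nd (nat_lit 215) (nat_lit 0) (cs (lf (nat_lit 5) (nat_lit 212)) (lf (nat_lit 25) (nat_lit 148)))))))))))) q16586 (by decide +kernel)
def q16596 : Q := Q.p (nat_lit 0xe00000c00000000000000000000000000000000000) (nat_lit 0x1300000000000000000000000000000000000) (nat_lit 2)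
theorem c16596 : QOK q16596 := cut [] trivial (nd (nat_lit 141) (nat_lit 0) (cs (lf (nat_lit 3) (nat_lit 141)) (lf (nat_lit 0) (nat_lit 140)))) q16596 (by decide +kernel)
def q16632 : Q := Q.p (nat_lit 0x400001e00000000000000000000000000000000000) (nat_lit 0x2e0000100000000000000000000000000000000000) (nat_lit 3)
theorem c16632 : QOK q16632 := cut [] trivial (nd (nat_lit 162) (nat_lit 0) (cs (lf (nat_lit 10) (nat_lit 140)) (nd (nat_lit 140) (nat_lit 0) (cs (lf (nat_lit 11) (nat_lit 139)) (lf (nat_lit 4) (nat_lit 140)))))) q16632 (by decide +kernel)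
def q16666 : Q := Q.p (nat_lit 0x1c00008800000000000000000000000000000) (nat_lit 0x2000011000000000000000000000000000000) (nat_lit 2)
theorem c16666 : QOK q16666 := cut [] trivial (nd (nat_lit 145) (nat_lit 0) (cs (lf (nat_lit 22) (nat_lit 119)) (lf (nat_lit 17) (nat_lit 120)))) q16666 (by decide +kernel)
def q16704 : Q := Q.p (nat_lit 0x2000007000020000000000000000000000000000000000000000000000000000000000000000) (nat_lit 0x4000008000040000000000000000000000000000000000000000000000000000000000000000) (nat_lit 2)
theorem c16704 : QOK q16704 := cut [] trivial (nd (nat_lit 279) (nat_lit 0) (cs (lf (nat_lit 5) (nat_lit 276)) (lf (nat_lit 17) (nat_lit 254)))) q16704 (by decide +kernel)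
def q16724 : Q := Q.p (nat_lit 0x3c00002000000000020000000000000000000000000000000000000000000000000000) (nat_lit 0x1c00000200000000008000000000000000000000000000000000000000000000000000000000) (nat_lit 3)
theorem c16724 : QOK q16724 := cut [] trivial (nd (nat_lit 299) (nat_lit 0) (cs (lf (nat_lit 5) (nat_lit 274)) (nd (nat_lit 298) (nat_lit 0) (cs (lf (nat_lit 25) (nat_lit 209)) (lf (nat_lit 0) (nat_lit 273)))))) q16724 (by decide +kernel)
def q16726 : Q := Q.p (nat_lit 0x3c00002000000000020000000000000000000000000000000000000000000000000000) (nat_lit 0x180000000000000008000000000000000000000000000000000000000000000000000000000) (nat_lit 2)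
theorem c16726 : QOK q16726 := cut [] trivial (nd (nat_lit 296) (nat_lit 0) (cs (lf (nat_lit 37) (nat_lit 208)) (lf (nat_lit 11) (nat_lit 273)))) q16726 (by decide +kernel)
def q16728 : Q := Q.p (nat_lit 0x20000000000200000e0000400000000000000000000000000000000000000000000000) (nat_lit 0x8000000000100000800000000000000000000000000000000000000000000000) (nat_lit 2)
theorem c16728 : QOK q16728 := cut [] trivial (nd (nat_lit 212) (nat_lit 0) (cs (lf (nat_lit 17) (nat_lit 187)) (lf (nat_lit 31) (nat_lit 189)))) q16728 (by decide +kernel)
def q16750 : Q := Q.p (nat_lit 0x80000200000c0000200000000000000000000000000000000000000000000000000000000000000000000000000) (nat_lit 0x400003000004000000000000000100000000000000000000000000000000000000000000000000000000000000000000000000) (nat_lit 3)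
theorem c16750 : QOK q16750 := cut [] trivial (nd (nat_lit 384) (nat_lit 0) (cs (lf (nat_lit 40) (nat_lit 296)) (nd (nat_lit 385) (nat_lit 0) (cs (lf (nat_lit 41) (nat_lit 318)) (lf (nat_lit 47) (nat_lit 296)))))) q16750 (by decide +kernel)
def q16756 : Q := Q.p (nat_lit 0x1c0000600000000000000000000000000000000000000000000000000000000000000000000000000) (nat_lit 0x30000800000000000000000000000000000000000000000000000000000000000000000000000000) (nat_lit 2)
theorem c16756 : QOK q16756 := cut [] trivial (nd (nat_lit 317) (nat_lit 0) (cs (lf (nat_lit 12) (nat_lit 294)) (lf (nat_lit 17) (nat_lit 295)))) q16756 (by decide +kernel)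
def q16758 : Q := Q.p (nat_lit 0xc0000e00000000000000000000000000000000000000000000000000000000000000000000000000) (nat_lit 0x30000100000000000000000000000000000000000000000000000000000000000000000000000000) (nat_lit 2)
theorem c16758 : QOK q16758 := cut [] trivial (nd (nat_lit 317) (nat_lit 0) (cs (lf (nat_lit 9) (nat_lit 295)) (lf (nat_lit 12) (nat_lit 294)))) q16758 (by decide +kernel)
def q16766 : Q := Q.p (nat_lit 0x200003800002000000000000000000000000000000000000000000000000000000000000000) (nat_lit 0x100004000001000000000000000000000000000000000000000000000000000000000000000) (nat_lit 2)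
theorem c16766 : QOK q16766 := cut [] trivial (nd (nat_lit 278) (nat_lit 0) (cs (lf (nat_lit 23) (nat_lit 252)) (lf (nat_lit 11) (nat_lit 274)))) q16766 (by decide +kernel)
def q16777 : Q := Q.p (nat_lit 0xc0000700000000000000000000000000000000000000000000000000000000000000000000000000) (nat_lit 0x20001800000000000000000000000000000000000000000000000000000000000000000000000000) (nat_lit 2)
theorem c16777 : QOK q16777 := cut [] trivial (nd (nat_lit 299) (nat_lit 0) (cs (lf (nat_lit 6) (nat_lit 296)) (lf (nat_lit 11) (nat_lit 295)))) q16777 (by decide +kernel)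
def q16795 : Q := Q.p (nat_lit 0x600003800002000000000000000000000000000000000000000000000000000000000000000) (nat_lit 0xc000001000000000000000000000000000000000000000000000000000000000000000) (nat_lit 2)
theorem c16795 : QOK q16795 := cut [] trivial (nd (nat_lit 278) (nat_lit 0) (cs (lf (nat_lit 23) (nat_lit 252)) (lf (nat_lit 6) (nat_lit 275)))) q16795 (by decide +kernel)
def q16805 : Q := Q.p (nat_lit 0xe00000c0000000000000000000000000000000000000000000000000000000000000000000000000) (nat_lit 0x130000000000000000000000000000000000000000000000000000000000000000000000000) (nat_lit 2)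
theorem c16805 : QOK q16805 := cut [] trivial (nd (nat_lit 293) (nat_lit 0) (cs (lf (nat_lit 0) (nat_lit 292)) (lf (nat_lit 3) (nat_lit 293)))) q16805 (by decide +kernel)
def q16814 : Q := Q.p (nat_lit 0xc000030000040000000000000000000000000000000000000000000000000000000000000000000000000) (nat_lit 0x2000000000000000000000100000400000000000000000000000000000000000000000000000000000000000000) (nat_lit 2)
theorem c16814 : QOK q16814 := cut [] trivial (nd (nat_lit 272) (nat_lit 0) (cs (lf (nat_lit 29) (nat_lit 272)) (lf (nat_lit 24) (nat_lit 250)))) q16814 (by decide +kernel)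
def q16830 : Q := Q.p (nat_lit 0xe00000c0000000000000000000000000000000000000000000000000000000000000000000000000) (nat_lit 0x10000030000000000000000000000000000000000000000000000000000000000000000000000000) (nat_lit 2)
theorem c16830 : QOK q16830 := cut [] trivial (nd (nat_lit 293) (nat_lit 0) (cs (lf (nat_lit 21) (nat_lit 293)) (lf (nat_lit 0) (nat_lit 292)))) q16830 (by decide +kernel)
def q16883 : Q := Q.p (nat_lit 0x3c000000000200001f8000400000000000000000000000000000000000000000000000) (nat_lit 0xc0000300001c00003000000000000001000004000000000000000000000000000000000000) (nat_lit 6)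
theorem c16883 : QOK q16883 := cut [] trivial (nd (nat_lit 146) (nat_lit 0) (cs (lf (nat_lit 37) (nat_lit 145)) (nd (nat_lit 229) (nat_lit 0) (cs (lf (nat_lit 11) (nat_lit 206)) (nd (nat_lit 251) (nat_lit 0) (cs (lf (nat_lit 22) (nat_lit 251)) (nd (nat_lit 273) (nat_lit 0) (cs (lf (nat_lit 23) (nat_lit 250)) (nd (nat_lit 294) (nat_lit 0) (cs (lf (nat_lit 10) (nat_lit 272)) (lf (nat_lit 40) (nat_lit 206)))))))))))) q16883 (by decide +kernel)
def q16886 : Q := Q.p (nat_lit 0x1c00003000000000020000000000000000000000000000000000000000000000000000) (nat_lit 0x400000000000000008000000000080000000000000000000000000000000000000000000000) (nat_lit 2)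
theorem c16886 : QOK q16886 := cut [] trivial (nd (nat_lit 231) (nat_lit 0) (cs (lf (nat_lit 36) (nat_lit 186)) (lf (nat_lit 29) (nat_lit 209)))) q16886 (by decide +kernel)
def q16924 : Q := Q.p (nat_lit 0x40000f000000000000000000000000000000000000000000000000000000000000000000000) (nat_lit 0xe800010000000000000000000000000000000000000000000000000000000000000000000000) (nat_lit 3)
theorem c16924 : QOK q16924 := cut [] trivial (nd (nat_lit 302) (nat_lit 0) (cs (nd (nat_lit 280) (nat_lit 0) (cs (lf (nat_lit 5) (nat_lit 277)) (lf (nat_lit 10) (nat_lit 276)))) (lf (nat_lit 4) (nat_lit 276)))) q16924 (by decide +kernel)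
def q16930 : Q := Q.p (nat_lit 0xc00003800000000000000000000000000000000000000000000000000000000000000000000) (nat_lit 0x1000000600000000000000000000000000000000000000000000000000000000000000000000) (nat_lit 2)
theorem c16930 : QOK q16930 := cut [] trivial (nd (nat_lit 274) (nat_lit 0) (cs (lf (nat_lit 5) (nat_lit 274)) (lf (nat_lit 0) (nat_lit 273)))) q16930 (by decide +kernel)
def q16956 : Q := Q.p (nat_lit 0xf800000000000000000000000000000000000000000000000000000000000000000000) (nat_lit 0x70000000000000000000000000000000000000000000000000000000000000000) (nat_lit 2)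
theorem c16956 : QOK q16956 := cut [] trivial (nd (nat_lit 257) (nat_lit 0) (cs (lf (nat_lit 17) (nat_lit 254)) (lf (nat_lit 16) (nat_lit 253)))) q16956 (by decide +kernel)
def q16964 : Q := Q.p (nat_lit 0x7800000000000000000000000000000000000000000000000000000000000000000000) (nat_lit 0x3b80000400000000000000000000000000000000000000000000000000000000000000000000) (nat_lit 4)
theorem c16964 : QOK q16964 := cut [] trivial (nd (nat_lit 300) (nat_lit 0) (cs (lf (nat_lit 5) (nat_lit 275)) (nd (nat_lit 274) (nat_lit 0) (cs (lf (nat_lit 4) (nat_lit 274)) (nd (nat_lit 296) (nat_lit 0) (cs (lf (nat_lit 11) (nat_lit 273)) (lf (nat_lit 10) (nat_lit 274)))))))) q16964 (by decide +kernel)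
def q16976 : Q := Q.p (nat_lit 0x700001800000000000000000000000000000000000000000000000000000000000000000000) (nat_lit 0x80006000000000000000000000000000000000000000000000000000000000000000000000) (nat_lit 2)
theorem c16976 : QOK q16976 := cut [] trivial (nd (nat_lit 277) (nat_lit 0) (cs (lf (nat_lit 6) (nat_lit 274)) (lf (nat_lit 12) (nat_lit 273)))) q16976 (by decide +kernel)
def q16980 : Q := Q.p (nat_lit 0x100000600000800002000000000000000000000000000000000000000000000000000000000000000) (nat_lit 0x10000040000080000000000000000000000000000000000000000000000000000000000000000000000000000000) (nat_lit 2)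
theorem c16980 : QOK q16980 := cut [] trivial (nd (nat_lit 342) (nat_lit 0) (cs (lf (nat_lit 27) (nat_lit 253)) (lf (nat_lit 42) (nat_lit 275)))) q16980 (by decide +kernel)
def q16993 : Q := Q.p (nat_lit 0x8000020000080000300000000000000000000000000000000000000000000000000000000000000000000000000) (nat_lit 0x400003000004000000000040000000000000000000000000000000000000000000000000000000000000000000000000000000) (nat_lit 3)
theorem c16993 : QOK q16993 := cut [] trivial (nd (nat_lit 384) (nat_lit 0) (cs (lf (nat_lit 40) (nat_lit 296)) (nd (nat_lit 385) (nat_lit 0) (cs (lf (nat_lit 41) (nat_lit 318)) (lf (nat_lit 46) (nat_lit 296)))))) q16993 (by decide +kernel)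
def q16998 : Q := Q.p (nat_lit 0x8000020000080000200000800000000000000000000000000000000000000000000000000000000000000000000) (nat_lit 0x4000010000040000000000000000000000000000000000000000000000000000000000000000000000000000000000000) (nat_lit 2)
theorem c16998 : QOK q16998 := cut [] trivial (nd (nat_lit 364) (nat_lit 0) (cs (lf (nat_lit 29) (nat_lit 297)) (lf (nat_lit 28) (nat_lit 275)))) q16998 (by decide +kernel)
def q17012 : Q := Q.p (nat_lit 0x40000780000000000000000000000000000000000000000000000000000000000000000000000000) (nat_lit 0x30000800000000000000000000000000000000000000000000000000000000000000000000000000) (nat_lit 2)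
theorem c17012 : QOK q17012 := cut [] trivial (nd (nat_lit 317) (nat_lit 0) (cs (lf (nat_lit 11) (nat_lit 294)) (lf (nat_lit 6) (nat_lit 295)))) q17012 (by decide +kernel)
def q17024 : Q := Q.p (nat_lit 0x40000300000800002000000000000000000000000000000000000000000000000000000000000000) (nat_lit 0x4000010000080000000000000000000000000000000000000000000000000000000000000000000000000000000) (nat_lit 2)
theorem c17024 : QOK q17024 := cut [] trivial (nd (nat_lit 340) (nat_lit 0) (cs (lf (nat_lit 39) (nat_lit 252)) (lf (nat_lit 30) (nat_lit 274)))) q17024 (by decide +kernel)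
def q17053 : Q := Q.p (nat_lit 0x1c0000000001c00002000000000000000000000000000000000000000000000000000000000000000) (nat_lit 0x40000020000c00000200000000000000000000000000000000000000000000000000000000000000000000) (nat_lit 3)
theorem c17053 : QOK q17053 := cut [] trivial (nd (nat_lit 298) (nat_lit 0) (cs (lf (nat_lit 42) (nat_lit 253)) (nd (nat_lit 299) (nat_lit 0) (cs (lf (nat_lit 12) (nat_lit 295)) (lf (nat_lit 0) (nat_lit 273)))))) q17053 (by decide +kernel)
def q17066 : Q := Q.p (nat_lit 0x50000060000100000400000000000000000000000000000000000000000000000000000000000000) (nat_lit 0x80000a0000000000000000000000000000000000000000000000000000000000000000000000000000000) (nat_lit 2)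
theorem c17066 : QOK q17066 := cut [] trivial (nd (nat_lit 317) (nat_lit 0) (cs (lf (nat_lit 29) (nat_lit 250)) (lf (nat_lit 18) (nat_lit 293)))) q17066 (by decide +kernel)
def q17092 : Q := Q.p (nat_lit 0x100000400000000000000078000000000000000000000000000000000000000000000000000) (nat_lit 0x200001800003000000000030000000000000000000000000000000000000000000000) (nat_lit 4)
theorem c17092 : QOK q17092 := cut [] trivial (nd (nat_lit 185) (nat_lit 0) (cs (lf (nat_lit 23) (nat_lit 184)) (nd (nat_lit 229) (nat_lit 0) (cs (lf (nat_lit 11) (nat_lit 206)) (nd (nat_lit 251) (nat_lit 0) (cs (lf (nat_lit 28) (nat_lit 185)) (lf (nat_lit 27) (nat_lit 207)))))))) q17092 (by decide +kernel)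
def q17117 : Q := Q.p (nat_lit 0x200000400001000004000008000000000000000000000000000000000000000000000) (nat_lit 0x800000000000000010000020000000000000000000000000000000000000000) (nat_lit 2)
theorem c17117 : QOK q17117 := cut [] trivial (nd (nat_lit 184) (nat_lit 0) (cs (lf (nat_lit 47) (nat_lit 161)) (lf (nat_lit 28) (nat_lit 184)))) q17117 (by decide +kernel)
def q17129 : Q := Q.p (nat_lit 0x200001000004000010000020000000000000000000000000000000000000000) (nat_lit 0x800000000000000040000080000000000000000000000000000000000) (nat_lit 2)
theorem c17129 : QOK q17129 := cut [] trivial (nd (nat_lit 162) (nat_lit 0) (cs (lf (nat_lit 47) (nat_lit 139)) (lf (nat_lit 40) (nat_lit 161)))) q17129 (by decide +kernel)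
def q17133 : Q := Q.p (nat_lit 0x2400011000004000010000000000000000000000000000000000000000000000) (nat_lit 0x200001800008800000000000000000000000000000000000000000000000000000000) (nat_lit 3)
theorem c17133 : QOK q17133 := cut [] trivial (nd (nat_lit 251) (nat_lit 0) (cs (lf (nat_lit 29) (nat_lit 184)) (nd (nat_lit 252) (nat_lit 0) (cs (lf (nat_lit 23) (nat_lit 227)) (lf (nat_lit 16) (nat_lit 228)))))) q17133 (by decide +kernel)
def q17142 : Q := Q.p (nat_lit 0x80000200001a00006000000000000000000000000000000000000000000000000000) (nat_lit 0x100001c00004000000000000000000000000000000000000000000000) (nat_lit 3)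
theorem c17142 : QOK q17142 := cut [] trivial (nd (nat_lit 204) (nat_lit 0) (cs (lf (nat_lit 47) (nat_lit 182)) (nd (nat_lit 203) (nat_lit 0) (cs (lf (nat_lit 11) (nat_lit 202)) (lf (nat_lit 0) (nat_lit 202)))))) q17142 (by decide +kernel)
def q17159 : Q := Q.p (nat_lit 0x180000400001000004000000000000000000000000000000000000000000000000000) (nat_lit 0x80000600000380000000000000010000000000000000000000000000000000000000000000) (nat_lit 4)
theorem c17159 : QOK q17159 := cut [] trivial (nd (nat_lit 249) (nat_lit 0) (cs (lf (nat_lit 36) (nat_lit 183)) (nd (nat_lit 273) (nat_lit 0) (cs (lf (nat_lit 29) (nat_lit 206)) (nd (nat_lit 248) (nat_lit 0) (cs (lf (nat_lit 0) (nat_lit 247)) (lf (nat_lit 18) (nat_lit 248)))))))) q17159 (by decide +kernel)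
def q17165 : Q := Q.p (nat_lit 0x400001000004000010000040000000000000000000000000000000000000000) (nat_lit 0x80000200000800000000000000000000000000000000000000000000000000000000) (nat_lit 2)
theorem c17165 : QOK q17165 := cut [] trivial (nd (nat_lit 249) (nat_lit 0) (cs (lf (nat_lit 41) (nat_lit 183)) (lf (nat_lit 40) (nat_lit 161)))) q17165 (by decide +kernel)
def q17178 : Q := Q.p (nat_lit 0x80002400001000004000000000000000000000000000000000000000000000000000) (nat_lit 0x20000100001a000020000000000300000c0000200000000000000000000000000000000000) (nat_lit 6)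
theorem c17178 : QOK q17178 := cut [] trivial (nd (nat_lit 272) (nat_lit 0) (cs (lf (nat_lit 41) (nat_lit 205)) (nd (nat_lit 184) (nat_lit 0) (cs (lf (nat_lit 40) (nat_lit 183)) (nd (nat_lit 163) (nat_lit 0) (cs (lf (nat_lit 34) (nat_lit 162)) (nd (nat_lit 162) (nat_lit 0) (cs (lf (nat_lit 35) (nat_lit 140)) (nd (nat_lit 251) (nat_lit 0) (cs (lf (nat_lit 28) (nat_lit 162)) (lf (nat_lit 7) (nat_lit 249)))))))))))) q17178 (by decide +kernel)
def q17189 : Q := Q.p (nat_lit 0x2400001000004000010000000000000000000000000000000000000000000000) (nat_lit 0x200001a00002800000000000000040000000000000000000000000000000000000000) (nat_lit 4)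
theorem c17189 : QOK q17189 := cut [] trivial (nd (nat_lit 251) (nat_lit 0) (cs (lf (nat_lit 29) (nat_lit 184)) (nd (nat_lit 162) (nat_lit 0) (cs (lf (nat_lit 28) (nat_lit 162)) (nd (nat_lit 227) (nat_lit 0) (cs (lf (nat_lit 41) (nat_lit 161)) (lf (nat_lit 19) (nat_lit 227)))))))) q17189 (by decide +kernel)
def q17202 : Q := Q.p (nat_lit 0x400001000004000010000040000000000000000000000000000000000000000) (nat_lit 0x200000800002000000000000000000000000000000000000000000000000000000000) (nat_lit 2)
theorem c17202 : QOK q17202 := cut [] trivial (nd (nat_lit 251) (nat_lit 0) (cs (lf (nat_lit 28) (nat_lit 162)) (lf (nat_lit 29) (nat_lit 184)))) q17202 (by decide +kernel)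
def q17210 : Q := Q.p (nat_lit 0x10000040000180000200000000000000000000000000000000000000000000000000000000) (nat_lit 0x400000800002000000000000000000000000000000000000000000000) (nat_lit 2)
theorem c17210 : QOK q17210 := cut [] trivial (nd (nat_lit 203) (nat_lit 0) (cs (lf (nat_lit 45) (nat_lit 203)) (lf (nat_lit 24) (nat_lit 181)))) q17210 (by decide +kernel)
def q17223 : Q := Q.p (nat_lit 0x3e000000000000000000000000000000000000000000000) (nat_lit 0x1c000000000000000000000000000000000000000) (nat_lit 2)
theorem c17223 : QOK q17223 := cut [] trivial (nd (nat_lit 159) (nat_lit 0) (cs (lf (nat_lit 23) (nat_lit 158)) (lf (nat_lit 22) (nat_lit 159)))) q17223 (by decide +kernel)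
def q17230 : Q := Q.p (nat_lit 0x680001c00000000000000000000000000000000000000000000000000000000) (nat_lit 0x40000300000000000000000000000000000000000000000000000000000000) (nat_lit 2)
theorem c17230 : QOK q17230 := cut [] trivial (nd (nat_lit 225) (nat_lit 0) (cs (lf (nat_lit 0) (nat_lit 224)) (lf (nat_lit 11) (nat_lit 224)))) q17230 (by decide +kernel)
def q17239 : Q := Q.p (nat_lit 0x1f000000000000000000000000000000000000000000000) (nat_lit 0xe00000000000000000000000000000000000000000000000000) (nat_lit 2)
theorem c17239 : QOK q17239 := cut [] trivial (nd (nat_lit 202) (nat_lit 0) (cs (lf (nat_lit 10) (nat_lit 180)) (lf (nat_lit 11) (nat_lit 179)))) q17239 (by decide +kernel)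
def q17273 : Q := Q.p (nat_lit 0x1e000000000000000000000000000000000000000000000) (nat_lit 0xe0000100000e000000000000000000000000000000000000000) (nat_lit 4)
theorem c17273 : QOK q17273 := cut [] trivial (nd (nat_lit 202) (nat_lit 0) (cs (lf (nat_lit 10) (nat_lit 180)) (nd (nat_lit 180) (nat_lit 0) (cs (lf (nat_lit 11) (nat_lit 179)) (nd (nat_lit 158) (nat_lit 0) (cs (lf (nat_lit 22) (nat_lit 158)) (lf (nat_lit 23) (nat_lit 157)))))))) q17273 (by decide +kernel)
def q17277 : Q := Q.p (nat_lit 0x7c0000000000000000000000000000000000000000000000000000000000000) (nat_lit 0x38000000000000000000000000000000000000000000000000000000000000000000) (nat_lit 2)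
theorem c17277 : QOK q17277 := cut [] trivial (nd (nat_lit 268) (nat_lit 0) (cs (lf (nat_lit 10) (nat_lit 246)) (lf (nat_lit 11) (nat_lit 245)))) q17277 (by decide +kernel)
def q17283 : Q := Q.p (nat_lit 0x8000020000080001a000000000000000000000000000000000000000000000) (nat_lit 0x400004000010000000000000000000000000000000000000000) (nat_lit 2)
theorem c17283 : QOK q17283 := cut [] trivial (nd (nat_lit 182) (nat_lit 0) (cs (lf (nat_lit 11) (nat_lit 180)) (lf (nat_lit 35) (nat_lit 159)))) q17283 (by decide +kernel)
def q17289 : Q := Q.p (nat_lit 0x80000200000800002000008000000000000000000000000000000000000000) (nat_lit 0x1000004000010000000000000000000000000000000000) (nat_lit 2)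
theorem c17289 : QOK q17289 := cut [] trivial (nd (nat_lit 158) (nat_lit 0) (cs (lf (nat_lit 47) (nat_lit 136)) (lf (nat_lit 46) (nat_lit 158)))) q17289 (by decide +kernel)
def q17299 : Q := Q.p (nat_lit 0x400001000004800018000000000000000000000000000000000000000000000) (nat_lit 0x3000024000080000000000000000000000000000000000000000) (nat_lit 3)
theorem c17299 : QOK q17299 := cut [] trivial (nd (nat_lit 185) (nat_lit 0) (cs (lf (nat_lit 35) (nat_lit 162)) (nd (nat_lit 204) (nat_lit 0) (cs (lf (nat_lit 9) (nat_lit 181)) (lf (nat_lit 14) (nat_lit 181)))))) q17299 (by decide +kernel)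
def q17318 : Q := Q.p (nat_lit 0x400001800004000010000040000000000000000000000000000000000000000) (nat_lit 0x40000100000000000000002000008000000000100000000000000000000000000000000000) (nat_lit 3)
theorem c17318 : QOK q17318 := cut [] trivial (nd (nat_lit 205) (nat_lit 0) (cs (lf (nat_lit 36) (nat_lit 139)) (nd (nat_lit 272) (nat_lit 0) (cs (lf (nat_lit 47) (nat_lit 183)) (lf (nat_lit 42) (nat_lit 205)))))) q17318 (by decide +kernel)
def q17322 : Q := Q.p (nat_lit 0x800002000010000060000000000000000000000000000000000000000000000000000) (nat_lit 0x200000000000000008000000000100000000000000000000000000000000000000000000000) (nat_lit 2)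
theorem c17322 : QOK q17322 := cut [] trivial (nd (nat_lit 231) (nat_lit 0) (cs (lf (nat_lit 35) (nat_lit 187)) (lf (nat_lit 30) (nat_lit 209)))) q17322 (by decide +kernel)
def q17331 : Q := Q.p (nat_lit 0x800000400001000004000010000000000000000000000000000000000000000000000) (nat_lit 0x1e80003e0001700000000000000002000008000020000000000000000000000000000000000000000) (nat_lit 9)
theorem c17331 : QOK q17331 := cut [] trivial (nd (nat_lit 183) (nat_lit 0) (cs (lf (nat_lit 47) (nat_lit 161)) (nd (nat_lit 272) (nat_lit 0) (cs (lf (nat_lit 46) (nat_lit 183)) (nd (nat_lit 295) (nat_lit 0) (cs (lf (nat_lit 28) (nat_lit 206)) (nd (nat_lit 294) (nat_lit 0) (cs (lf (nat_lit 29) (nat_lit 228)) (nd (nat_lit 293) (nat_lit 0) (cs (lf (nat_lit 41) (nat_lit 227)) (nd (nat_lit 296) (nat_lit 0) (cs (lf (nat_lit 16) (nat_lit 271)) (nd (nat_lit 319) (nat_lit 0) (cs (nd (nat_lit 297) (nat_lit 0) (cs (lf (nat_lit 17) (nat_lit 272)) (lf (nat_lit 5) (nat_lit 294)))) (lf (nat_lit 4) (nat_lit 293)))))))))))))))) q17331 (by decide +kernel)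
def q17367 : Q := Q.p (nat_lit 0xa0000100000400001000000000000000000000000000000000000000000000000000000000) (nat_lit 0x28000040000000000000000000000000000000000000000000000000000000000000000000000000) (nat_lit 2)
theorem c17367 : QOK q17367 := cut [] trivial (nd (nat_lit 294) (nat_lit 0) (cs (lf (nat_lit 29) (nat_lit 228)) (lf (nat_lit 41) (nat_lit 227)))) q17367 (by decide +kernel)
def q17373 : Q := Q.p (nat_lit 0x20000100000400001000002000000000000000000000000000000000000000000000000000) (nat_lit 0x8000040000000000000000800000000000000000000000000000000000000000000000000000000) (nat_lit 2)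
theorem c17373 : QOK q17373 := cut [] trivial (nd (nat_lit 294) (nat_lit 0) (cs (lf (nat_lit 41) (nat_lit 227)) (lf (nat_lit 46) (nat_lit 205)))) q17373 (by decide +kernel)
def q17378 : Q := Q.p (nat_lit 0x18000060000000000600000000000000000000000000000000000000000) (nat_lit 0x80000000001800000000000000000000000000000000000) (nat_lit 2)
theorem c17378 : QOK q17378 := cut [] trivial (nd (nat_lit 187) (nat_lit 0) (cs (lf (nat_lit 35) (nat_lit 143)) (lf (nat_lit 24) (nat_lit 143)))) q17378 (by decide +kernel)
def q17394 : Q := Q.p (nat_lit 0x100002400019000064000000000000000000000000000000000000000000000000000) (nat_lit 0x720001e80001000000000000000080000000000000000000000000000000000000000000000) (nat_lit 6)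
theorem c17394 : QOK q17394 := cut [] trivial (nd (nat_lit 275) (nat_lit 0) (cs (lf (nat_lit 30) (nat_lit 209)) (nd (nat_lit 276) (nat_lit 0) (cs (lf (nat_lit 29) (nat_lit 209)) (nd (nat_lit 271) (nat_lit 0) (cs (lf (nat_lit 41) (nat_lit 205)) (nd (nat_lit 274) (nat_lit 0) (cs (lf (nat_lit 41) (nat_lit 208)) (nd (nat_lit 252) (nat_lit 0) (cs (lf (nat_lit 36) (nat_lit 186)) (lf (nat_lit 14) (nat_lit 249)))))))))))) q17394 (by decide +kernel)
def q17422 : Q := Q.p (nat_lit 0x10000040000100000400001000000000000000000000000000000000000000000000000000000000) (nat_lit 0x8000020000080000000000000000000000000000000000000000000000000000000000000000000000000) (nat_lit 2)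
theorem c17422 : QOK q17422 := cut [] trivial (nd (nat_lit 317) (nat_lit 0) (cs (lf (nat_lit 29) (nat_lit 250)) (lf (nat_lit 28) (nat_lit 228)))) q17422 (by decide +kernel)
def q17429 : Q := Q.p (nat_lit 0x2000018000060000000000000000000000000000000000000000000000000000) (nat_lit 0x200000800000000000000000000100000000000000000000000000000000000000000000000) (nat_lit 2)
theorem c17429 : QOK q17429 := cut [] trivial (nd (nat_lit 275) (nat_lit 0) (cs (lf (nat_lit 35) (nat_lit 187)) (lf (nat_lit 30) (nat_lit 209)))) q17429 (by decide +kernel)
def q17432 : Q := Q.p (nat_lit 0x100000c0000100000000002000000000000000000000000000000000000000000000000000) (nat_lit 0x200000c00000000000000000000000000000000000000000000000000000000) (nat_lit 2)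
theorem c17432 : QOK q17432 := cut [] trivial (nd (nat_lit 227) (nat_lit 0) (cs (lf (nat_lit 33) (nat_lit 204)) (lf (nat_lit 38) (nat_lit 204)))) q17432 (by decide +kernel)
def q17457 : Q := Q.p (nat_lit 0xf80000000000000000000000000000000000000000000000000000000000000000000) (nat_lit 0x700000000000000000000000000000000000000000000000000000000000000000000000000) (nat_lit 2)
theorem c17457 : QOK q17457 := cut [] trivial (nd (nat_lit 297) (nat_lit 0) (cs (lf (nat_lit 4) (nat_lit 271)) (lf (nat_lit 5) (nat_lit 272)))) q17457 (by decide +kernel)
def q17490 : Q := Q.p (nat_lit 0x3c00000000000000000000000000000000000000000000000000000000000000000000) (nat_lit 0x1c0000200001c00000000000000000000000000000000000000000000000000000000000000) (nat_lit 4)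
theorem c17490 : QOK q17490 := cut [] trivial (nd (nat_lit 251) (nat_lit 0) (cs (lf (nat_lit 22) (nat_lit 251)) (nd (nat_lit 295) (nat_lit 0) (cs (lf (nat_lit 10) (nat_lit 273)) (nd (nat_lit 273) (nat_lit 0) (cs (lf (nat_lit 11) (nat_lit 272)) (lf (nat_lit 23) (nat_lit 250)))))))) q17490 (by decide +kernel)
def q17502 : Q := Q.p (nat_lit 0x3800018000000000000000000000000000000000000000000000000000000000000000) (nat_lit 0x4000060000000000000000000000000000000000000000000000000000000000000000) (nat_lit 2)
theorem c17502 : QOK q17502 := cut [] trivial (nd (nat_lit 257) (nat_lit 0) (cs (lf (nat_lit 15) (nat_lit 253)) (lf (nat_lit 6) (nat_lit 254)))) q17502 (by decide +kernel)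
def q17515 : Q := Q.p (nat_lit 0x30000070000000000000000000000000000000000000000000000000000) (nat_lit 0xc0000080000000000000000000000000000000000000000000000000000) (nat_lit 2)
theorem c17515 : QOK q17515 := cut [] trivial (nd (nat_lit 234) (nat_lit 0) (cs (lf (nat_lit 3) (nat_lit 208)) (lf (nat_lit 18) (nat_lit 209)))) q17515 (by decide +kernel)
def q17524 : Q := Q.p (nat_lit 0x180000e0000000000000000000000000000000000000000) (nat_lit 0x4000300000000000000000000000000000000000000000) (nat_lit 2)
theorem c17524 : QOK q17524 := cut [] trivial (nd (nat_lit 164) (nat_lit 0) (cs (lf (nat_lit 11) (nat_lit 160)) (lf (nat_lit 6) (nat_lit 161)))) q17524 (by decide +kernel)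
def q17533 : Q := Q.p (nat_lit 0x3400008000004000010000000000000000000000000000000000000000000000) (nat_lit 0x1c0000a00010c00002000000000000000000000000000000000000000000000000000) (nat_lit 5)
theorem c17533 : QOK q17533 := cut [] trivial (nd (nat_lit 251) (nat_lit 0) (cs (lf (nat_lit 17) (nat_lit 228)) (nd (nat_lit 271) (nat_lit 0) (cs (lf (nat_lit 10) (nat_lit 249)) (nd (nat_lit 249) (nat_lit 0) (cs (lf (nat_lit 11) (nat_lit 248)) (nd (nat_lit 227) (nat_lit 0) (cs (lf (nat_lit 23) (nat_lit 226)) (lf (nat_lit 33) (nat_lit 183)))))))))) q17533 (by decide +kernel)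
def q17541 : Q := Q.p (nat_lit 0x400003c00000000000000000000000000000000000000000000000000000000000000) (nat_lit 0x1800000200000000000000000000000000000000000000000000000000000000000000) (nat_lit 2)
theorem c17541 : QOK q17541 := cut [] trivial (nd (nat_lit 275) (nat_lit 0) (cs (lf (nat_lit 5) (nat_lit 250)) (lf (nat_lit 0) (nat_lit 249)))) q17541 (by decide +kernel)
def q17544 : Q := Q.p (nat_lit 0x400003000008000020000000000000000000000000000000000000000000000000000) (nat_lit 0x40000100000800000000000000000000000000000000000000000000000000000000000000000000) (nat_lit 2)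
theorem c17544 : QOK q17544 := cut [] trivial (nd (nat_lit 296) (nat_lit 0) (cs (lf (nat_lit 30) (nat_lit 230)) (lf (nat_lit 39) (nat_lit 208)))) q17544 (by decide +kernel)
def q17553 : Q := Q.p (nat_lit 0x2c00001000030000000000000000000000000000000000000000000000000000) (nat_lit 0x1800001000018800000000040000000000000000000000000000000000000000000000) (nat_lit 4)
theorem c17553 : QOK q17553 := cut [] trivial (nd (nat_lit 252) (nat_lit 0) (cs (lf (nat_lit 23) (nat_lit 227)) (nd (nat_lit 231) (nat_lit 0) (cs (lf (nat_lit 17) (nat_lit 228)) (nd (nat_lit 275) (nat_lit 0) (cs (lf (nat_lit 5) (nat_lit 250)) (lf (nat_lit 47) (nat_lit 186)))))))) q17553 (by decide +kernel)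
def q17564 : Q := Q.p (nat_lit 0x400000000004000038000000000000000000000000000000000000000000000) (nat_lit 0x10000000000000000a0000000000000000000000000000000000000000) (nat_lit 2)
theorem c17564 : QOK q17564 := cut [] trivial (nd (nat_lit 228) (nat_lit 0) (cs (lf (nat_lit 47) (nat_lit 161)) (lf (nat_lit 35) (nat_lit 162)))) q17564 (by decide +kernel)
def q17571 : Q := Q.p (nat_lit 0x40000100000c00001000000000000000000000000000000000000000000000000000000000) (nat_lit 0x8000030000080000000000000002000000000000000000000000000000000000000000000000000000000) (nat_lit 3)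
theorem c17571 : QOK q17571 := cut [] trivial (nd (nat_lit 317) (nat_lit 0) (cs (lf (nat_lit 28) (nat_lit 228)) (nd (nat_lit 316) (nat_lit 0) (cs (lf (nat_lit 35) (nat_lit 228)) (lf (nat_lit 29) (nat_lit 250)))))) q17571 (by decide +kernel)
def q17589 : Q := Q.p (nat_lit 0x40000100000600001000000000000000000000000000000000000000000000000000000000) (nat_lit 0x10000000000000000000000800002000000000000000000000000000000000000000000000000000) (nat_lit 2)
theorem c17589 : QOK q17589 := cut [] trivial (nd (nat_lit 227) (nat_lit 0) (cs (lf (nat_lit 42) (nat_lit 227)) (lf (nat_lit 47) (nat_lit 205)))) q17589 (by decide +kernel)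
def q17596 : Q := Q.p (nat_lit 0x2400009000004000010000000000000000000000000000000000000000000000) (nat_lit 0x200001800010800000000000000000000000000000000000000000000000000000000) (nat_lit 3)
theorem c17596 : QOK q17596 := cut [] trivial (nd (nat_lit 251) (nat_lit 0) (cs (lf (nat_lit 29) (nat_lit 184)) (nd (nat_lit 252) (nat_lit 0) (cs (lf (nat_lit 17) (nat_lit 228)) (lf (nat_lit 23) (nat_lit 227)))))) q17596 (by decide +kernel)
def q17609 : Q := Q.p (nat_lit 0x2000000000030000040000100000000000000000000000000000000000000000) (nat_lit 0x800000000008000000000000000000000400000000000000000000000000000000000) (nat_lit 2)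
theorem c17609 : QOK q17609 := cut [] trivial (nd (nat_lit 231) (nat_lit 0) (cs (lf (nat_lit 24) (nat_lit 142)) (lf (nat_lit 42) (nat_lit 186)))) q17609 (by decide +kernel)
def q17619 : Q := Q.p (nat_lit 0xf0000000000000000000000000000000000000000) (nat_lit 0x7000008000070000000000000000000000000000000000) (nat_lit 4)
theorem c17619 : QOK q17619 := cut [] trivial (nd (nat_lit 137) (nat_lit 0) (cs (lf (nat_lit 22) (nat_lit 137)) (nd (nat_lit 181) (nat_lit 0) (cs (lf (nat_lit 10) (nat_lit 159)) (nd (nat_lit 159) (nat_lit 0) (cs (lf (nat_lit 23) (nat_lit 136)) (lf (nat_lit 11) (nat_lit 158)))))))) q17619 (by decide +kernel)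
def q17623 : Q := Q.p (nat_lit 0x1000004000010000070000000000000000000000000000000000000000) (nat_lit 0x60000088000200000000000000000000000000000000000) (nat_lit 3)
theorem c17623 : QOK q17623 := cut [] trivial (nd (nat_lit 163) (nat_lit 0) (cs (lf (nat_lit 35) (nat_lit 140)) (nd (nat_lit 185) (nat_lit 0) (cs (lf (nat_lit 0) (nat_lit 159)) (lf (nat_lit 5) (nat_lit 160)))))) q17623 (by decide +kernel)
def q17694 : Q := Q.p (nat_lit 0x20000080000200000f0000000000000000000000000000000000000000000000) (nat_lit 0x100000600000000000000000000000000000000000000000) (nat_lit 2)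
theorem c17694 : QOK q17694 := cut [] trivial (nd (nat_lit 166) (nat_lit 0) (cs (lf (nat_lit 34) (nat_lit 165)) (lf (nat_lit 16) (nat_lit 162)))) q17694 (by decide +kernel)
def q17699 : Q := Q.p (nat_lit 0x40000100001c0000300000000000000000000000000000000000) (nat_lit 0xc0000200000000000000000000000000000) (nat_lit 2)
theorem c17699 : QOK q17699 := cut [] trivial (nd (nat_lit 139) (nat_lit 0) (cs (lf (nat_lit 47) (nat_lit 117)) (lf (nat_lit 0) (nat_lit 138)))) q17699 (by decide +kernel)
def q17720 : Q := Q.p (nat_lit 0x1f0000000000000000000000000000000000) (nat_lit 0xe0000000000000000000000000000) (nat_lit 2)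
theorem c17720 : QOK q17720 := cut [] trivial (nd (nat_lit 114) (nat_lit 0) (cs (lf (nat_lit 22) (nat_lit 114)) (lf (nat_lit 23) (nat_lit 113)))) q17720 (by decide +kernel)
def q17749 : Q := Q.p (nat_lit 0x1c0000c0000000000000000000000000000000000000000) (nat_lit 0x20000300000000000000000000000000000000000000000) (nat_lit 2)
theorem c17749 : QOK q17749 := cut [] trivial (nd (nat_lit 164) (nat_lit 0) (cs (lf (nat_lit 6) (nat_lit 161)) (lf (nat_lit 15) (nat_lit 160)))) q17749 (by decide +kernel)
def q17756 : Q := Q.p (nat_lit 0x110000380000000000000000000000000000000000000000) (nat_lit 0x220000400000000000000000000000000000000000000000) (nat_lit 2)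
theorem c17756 : QOK q17756 := cut [] trivial (nd (nat_lit 166) (nat_lit 0) (cs (lf (nat_lit 5) (nat_lit 163)) (lf (nat_lit 10) (nat_lit 162)))) q17756 (by decide +kernel)
def q17777 : Q := Q.p (nat_lit 0x40000300000c0000000000000000000000000000000000000000) (nat_lit 0x400001000000000000000000000200000000000000000000000000000000000) (nat_lit 2)
theorem c17777 : QOK q17777 := cut [] trivial (nd (nat_lit 228) (nat_lit 0) (cs (lf (nat_lit 35) (nat_lit 140)) (lf (nat_lit 30) (nat_lit 162)))) q17777 (by decide +kernel)
def q17783 : Q := Q.p (nat_lit 0x30000040000100000400000000000000000000000000000) (nat_lit 0x80000000000800003000008000000000000000000) (nat_lit 3)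
theorem c17783 : QOK q17783 := cut [] trivial (nd (nat_lit 97) (nat_lit 0) (cs (lf (nat_lit 34) (nat_lit 96)) (nd (nat_lit 96) (nat_lit 0) (cs (lf (nat_lit 35) (nat_lit 74)) (lf (nat_lit 28) (nat_lit 96)))))) q17783 (by decide +kernel)
def q17800 : Q := Q.p (nat_lit 0x4000030000040000200000000000000000000000000000000000) (nat_lit 0x1000000000000000080000000000800000000000000000000000000000) (nat_lit 2)
theorem c17800 : QOK q17800 := cut [] trivial (nd (nat_lit 163) (nat_lit 0) (cs (lf (nat_lit 30) (nat_lit 140)) (lf (nat_lit 36) (nat_lit 118)))) q17800 (by decide +kernel)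
def q17816 : Q := Q.p (nat_lit 0x4000018000060000000000000000000000000000000000000000) (nat_lit 0x400001000000000000000000000080000000000000000000000000000000000) (nat_lit 2)
theorem c17816 : QOK q17816 := cut [] trivial (nd (nat_lit 228) (nat_lit 0) (cs (lf (nat_lit 42) (nat_lit 161)) (lf (nat_lit 47) (nat_lit 139)))) q17816 (by decide +kernel)
def q17825 : Q := Q.p (nat_lit 0xc0000380000000000000000000000000000000000) (nat_lit 0x100000060000000000000000000000000000000000) (nat_lit 2)
theorem c17825 : QOK q17825 := cut [] trivial (nd (nat_lit 138) (nat_lit 0) (cs (lf (nat_lit 5) (nat_lit 138)) (lf (nat_lit 0) (nat_lit 137)))) q17825 (by decide +kernel)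
def q17830 : Q := Q.p (nat_lit 0x4000018000040000080000000000000000000000000000000000) (nat_lit 0x20000100000200000000000000000000000000000) (nat_lit 2)
theorem c17830 : QOK q17830 := cut [] trivial (nd (nat_lit 117) (nat_lit 0) (cs (lf (nat_lit 45) (nat_lit 117)) (lf (nat_lit 26) (nat_lit 117)))) q17830 (by decide +kernel)
def q17870 : Q := Q.p (nat_lit 0x100001e0000000000000000000000000000000000000000) (nat_lit 0xc000200000000000000000000000000000000000000000) (nat_lit 2)
theorem c17870 : QOK q17870 := cut [] trivial (nd (nat_lit 183) (nat_lit 0) (cs (lf (nat_lit 11) (nat_lit 160)) (lf (nat_lit 6) (nat_lit 161)))) q17870 (by decide +kernel)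
def q17879 : Q := Q.p (nat_lit 0x8000040000100000400000800000000000000000000000) (nat_lit 0x20000000000000001000002000000000000000000) (nat_lit 2)
theorem c17879 : QOK q17879 := cut [] trivial (nd (nat_lit 96) (nat_lit 0) (cs (lf (nat_lit 47) (nat_lit 73)) (lf (nat_lit 40) (nat_lit 95)))) q17879 (by decide +kernel)
def q17893 : Q := Q.p (nat_lit 0x3e00000000000000000000000000000000000000000000000000000000) (nat_lit 0x1c00000000000000000000000000000000000000000000000000) (nat_lit 2)
theorem c17893 : QOK q17893 := cut [] trivial (nd (nat_lit 203) (nat_lit 0) (cs (lf (nat_lit 23) (nat_lit 202)) (lf (nat_lit 22) (nat_lit 203)))) q17893 (by decide +kernel)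
def q17907 : Q := Q.p (nat_lit 0x3c00000000008000020000000000000000000000000000000000000000) (nat_lit 0x180000000002000000000000000000000000000000000000000000000000000) (nat_lit 2)
theorem c17907 : QOK q17907 := cut [] trivial (nd (nat_lit 248) (nat_lit 0) (cs (lf (nat_lit 11) (nat_lit 225)) (lf (nat_lit 38) (nat_lit 160)))) q17907 (by decide +kernel)
def q17920 : Q := Q.p (nat_lit 0x500000000018000070000000000000000000000000000000000000000) (nat_lit 0x1c0000300000c000030000000000000000000000000000000000) (nat_lit 5)
theorem c17920 : QOK q17920 := cut [] trivial (nd (nat_lit 159) (nat_lit 0) (cs (lf (nat_lit 0) (nat_lit 158)) (nd (nat_lit 181) (nat_lit 0) (cs (lf (nat_lit 11) (nat_lit 158)) (nd (nat_lit 137) (nat_lit 0) (cs (lf (nat_lit 23) (nat_lit 136)) (nd (nat_lit 203) (nat_lit 0) (cs (lf (nat_lit 28) (nat_lit 137)) (lf (nat_lit 40) (nat_lit 136)))))))))) q17920 (by decide +kernel)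
def q17933 : Q := Q.p (nat_lit 0x400000e000020000000000000000000000000000000000000000) (nat_lit 0x2000001000040000000000000000000000000000000000000000) (nat_lit 2)
theorem c17933 : QOK q17933 := cut [] trivial (nd (nat_lit 180) (nat_lit 0) (cs (lf (nat_lit 4) (nat_lit 180)) (lf (nat_lit 17) (nat_lit 158)))) q17933 (by decide +kernel)
def q17947 : Q := Q.p (nat_lit 0x1c00006800000000000000000000000000000000000000000000000000) (nat_lit 0x300000400000000000000000000000000000000000000000000000000) (nat_lit 2)
theorem c17947 : QOK q17947 := cut [] trivial (nd (nat_lit 225) (nat_lit 0) (cs (lf (nat_lit 23) (nat_lit 202)) (lf (nat_lit 12) (nat_lit 202)))) q17947 (by decide +kernel)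
def q17967 : Q := Q.p (nat_lit 0x6000008000020000000000000000000000000000000000) (nat_lit 0x1000000000010000000000180000600001000000000000000000) (nat_lit 4)
theorem c17967 : QOK q17967 := cut [] trivial (nd (nat_lit 115) (nat_lit 0) (cs (nd (nat_lit 94) (nat_lit 0) (cs (nd (nat_lit 93) (nat_lit 0) (cs (lf (nat_lit 28) (nat_lit 93)) (lf (nat_lit 35) (nat_lit 71)))) (lf (nat_lit 34) (nat_lit 93)))) (lf (nat_lit 29) (nat_lit 115)))) q17967 (by decide +kernel)
def q17981 : Q := Q.p (nat_lit 0x800002000008000020000080000000000000000000000000000) (nat_lit 0x10000040000100000000000000000000000) (nat_lit 2)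
theorem c17981 : QOK q17981 := cut [] trivial (nd (nat_lit 114) (nat_lit 0) (cs (lf (nat_lit 46) (nat_lit 114)) (lf (nat_lit 47) (nat_lit 92)))) q17981 (by decide +kernel)
def q17989 : Q := Q.p (nat_lit 0x2000008000020000080000200000000000000000000000) (nat_lit 0x40000100000400000000000000000) (nat_lit 2)
theorem c17989 : QOK q17989 := cut [] trivial (nd (nat_lit 92) (nat_lit 0) (cs (lf (nat_lit 47) (nat_lit 70)) (lf (nat_lit 46) (nat_lit 92)))) q17989 (by decide +kernel)
def q18005 : Q := Q.p (nat_lit 0x7000018000000000000000000000000000000000000000000000) (nat_lit 0xc00020000000000000000000000000000000000000000000000) (nat_lit 2)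
theorem c18005 : QOK q18005 := cut [] trivial (nd (nat_lit 203) (nat_lit 0) (cs (lf (nat_lit 12) (nat_lit 180)) (lf (nat_lit 17) (nat_lit 181)))) q18005 (by decide +kernel)
def q18033 : Q := Q.p (nat_lit 0x4000018000040000080000000000000000000000000000000000) (nat_lit 0x1000000000000000020000000000200000000000000000000000000000) (nat_lit 2)
theorem c18033 : QOK q18033 := cut [] trivial (nd (nat_lit 161) (nat_lit 0) (cs (lf (nat_lit 24) (nat_lit 117)) (lf (nat_lit 42) (nat_lit 139)))) q18033 (by decide +kernel)
def q18039 : Q := Q.p (nat_lit 0x2000010000040000100000200000000000000000000000000000) (nat_lit 0x8000000000000000400000800000000000000000000000) (nat_lit 2)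
theorem c18039 : QOK q18039 := cut [] trivial (nd (nat_lit 118) (nat_lit 0) (cs (lf (nat_lit 47) (nat_lit 95)) (lf (nat_lit 40) (nat_lit 117)))) q18039 (by decide +kernel)
def q18054 : Q := Q.p (nat_lit 0x1000004000010000040000000000000000000000000000000000000000) (nat_lit 0x100000c000028000038000080000a0000300000c00000000000000000000000000000) (nat_lit 8)
theorem c18054 : QOK q18054 := cut [] trivial (nd (nat_lit 229) (nat_lit 0) (cs (lf (nat_lit 29) (nat_lit 162)) (nd (nat_lit 141) (nat_lit 0) (cs (lf (nat_lit 34) (nat_lit 140)) (nd (nat_lit 140) (nat_lit 0) (cs (lf (nat_lit 35) (nat_lit 118)) (nd (nat_lit 205) (nat_lit 0) (cs (lf (nat_lit 41) (nat_lit 139)) (nd (nat_lit 203) (nat_lit 0) (cs (lf (nat_lit 1) (nat_lit 203)) (nd (nat_lit 183) (nat_lit 0) (cs (lf (nat_lit 36) (nat_lit 117)) (nd (nat_lit 250) (nat_lit 0) (cs (lf (nat_lit 47) (nat_lit 161)) (lf (nat_lit 42) (nat_lit 183)))))))))))))))) q18054 (by decide +kernel)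
def q18074 : Q := Q.p (nat_lit 0x200000000003c000000000000000000000000000000000000000000000000000) (nat_lit 0x108000760001f8000140001b8000020001a8000000000000000000000000000000000000000000000) (nat_lit 13)
theorem c18074 : QOK q18074 := cut [] trivial (nd (nat_lit 231) (nat_lit 0) (cs (lf (nat_lit 5) (nat_lit 206)) (nd (nat_lit 228) (nat_lit 0) (cs (lf (nat_lit 11) (nat_lit 205)) (nd (nat_lit 187) (nat_lit 0) (cs (lf (nat_lit 17) (nat_lit 184)) (nd (nat_lit 274) (nat_lit 0) (cs (lf (nat_lit 40) (nat_lit 186)) (nd (nat_lit 275) (nat_lit 0) (cs (lf (nat_lit 41) (nat_lit 208)) (nd (nat_lit 298) (nat_lit 0) (cs (lf (nat_lit 28) (nat_lit 209)) (nd (nat_lit 297) (nat_lit 0) (cs (lf (nat_lit 29) (nat_lit 231)) (nd (nat_lit 272) (nat_lit 0) (cs (lf (nat_lit 1) (nat_lit 272)) (nd (nat_lit 250) (nat_lit 0) (cs (lf (nat_lit 35) (nat_lit 184)) (nd (nat_lit 183) (nat_lit 0) (cs (lf (nat_lit 46) (nat_lit 183)) (nd (nat_lit 293) (nat_lit 0) (cs (lf (nat_lit 40) (nat_lit 205)) (nd (nat_lit 294) (nat_lit 0) (cs (lf (nat_lit 41) (nat_lit 227)) (lf (nat_lit 34) (nat_lit 206)))))))))))))))))))))))))) q18074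 (by decide +kernel)

end Crest.Agent.H3.Snaky.CR
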