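import Crest.Agent.H3.Snaky.Cert
import Crest.Agent.H3.Snaky.CR.CR0
import Crest.Agent.H3.Snaky.CR.CR1
import Crest.Agent.H3.Snaky.CR.CR2
import Crest.Agent.H3.Snaky.CR.CR3
import Crest.Agent.H3.Snaky.CR.CR4

set_option autoImplicit false
set_option maxRecDepth 100000

namespace Crest.Agent.H3.Snaky.CR

open T

def q12769 : Q := Q.p (nat_lit 0xe0000080000600000000000000000000000000000000000000000000000000000000000000000000) (nat_lit 0x110000070000000000000000000000000000000000000000000000000000000000000000000000000) (nat_lit 3)
theorem c12769 : QOK q12769 := cut [q12767] ⟨c12767, trivial⟩ (nd (nat_lit 294) (nat_lit 0) (cs (rf (nat_lit 0)) (lf (nat_lit 18) (nat_lit 294)))) q12769 (by decide +kernel)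
def q12775 : Q := Q.p (nat_lit 0xf0000000000400000000000000000000000000000000000000000000000000000000000000000000) (nat_lit 0x8000060000008000700000000000000000000000000000000000000000000000000000000000000000000000000) (nat_lit 4)
theorem c12775 : QOK q12775 := cut [q12772] ⟨c12772, trivial⟩ (nd (nat_lit 297) (nat_lit 0) (cs (lf (nat_lit 17) (nat_lit 294)) (nd (nat_lit 296) (nat_lit 0) (cs (rf (nat_lit 0)) (lf (nat_lit 12) (nat_lit 293)))))) q12775 (by decide +kernel)
def q12780 : Q := Q.p (nat_lit 0x8000020000080000200000000000000000000000000000000000000000000000000000000000000000000000000) (nat_lit 0x1400007000014000000000000000000000000000000000000000000000000000000000000000000000000000000000000000000) (nat_lit 4)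
theorem c12780 : QOK q12780 := cut [q12777] ⟨c12777, trivial⟩ (nd (nat_lit 386) (nat_lit 0) (cs (lf (nat_lit 28) (nat_lit 297)) (nd (nat_lit 384) (nat_lit 0) (cs (rf (nat_lit 0)) (lf (nat_lit 40) (nat_lit 296)))))) q12780 (by decide +kernel)
def q12803 : Q := Q.p (nat_lit 0xe0000080000800002000000000000000000000000000000000000000000000000000000000000000) (nat_lit 0xc0000300001f00000000000000000000000000000000000000000000000000000000000000000000000000) (nat_lit 4)
theorem c12803 : QOK q12803 := cut [q12799, q12801] ⟨c12799, c12801, trivial⟩ (nd (nat_lit 320) (nat_lit 0) (cs (rf (nat_lit 0)) (nd (nat_lit 321) (nat_lit 0) (cs (lf (nat_lit 22) (nat_lit 295)) (rf (nat_lit 1)))))) q12803 (by decide +kernel)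
def q12807 : Q := Q.p (nat_lit 0x10000020000080000200000800000000000000000000000000000000000000000000000000000000000000) (nat_lit 0x500000c000010000000000000000000000000000000000000000000000000000000000000000000000000000000) (nat_lit 3)
theorem c12807 : QOK q12807 := cut [q12806] ⟨c12806, trivial⟩ (nd (nat_lit 338) (nat_lit 0) (cs (lf (nat_lit 40) (nat_lit 250)) (rf (nat_lit 0)))) q12807 (by decide +kernel)
def q12812 : Q := Q.p (nat_lit 0x80000600000800000000010000000000000000000000000000000000000000000000000000) (nat_lit 0x100000000000000006000008000040000000000000000000000000000000000000000000000) (nat_lit 3)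
theorem c12812 : QOK q12812 := cut [q12811] ⟨c12811, trivial⟩ (nd (nat_lit 229) (nat_lit 0) (cs (lf (nat_lit 34) (nat_lit 207)) (rf (nat_lit 0)))) q12812 (by decide +kernel)
def q12815 : Q := Q.p (nat_lit 0x20000080000200000800000000000000000000000000000000000000000000000000000000000000) (nat_lit 0x500001c000050000000000000000000000000000000000000000000000000000000000000000000000000000000) (nat_lit 4)
theorem c12815 : QOK q12815 := cut [q12806] ⟨c12806, trivial⟩ (nd (nat_lit 338) (nat_lit 0) (cs (lf (nat_lit 40) (nat_lit 250)) (nd (nat_lit 340) (nat_lit 0) (cs (lf (nat_lit 28) (nat_lit 251)) (rf (nat_lit 0)))))) q12815 (by decide +kernel)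
def q12828 : Q := Q.p (nat_lit 0x400003c00000000000000000000000000000000000000000000000000000000000000000000) (nat_lit 0x720000c000038000000000000000000000000000000000000000000000000000000000000000) (nat_lit 5)
theorem c12828 : QOK q12828 := cut [q12823] ⟨c12823, trivial⟩ (nd (nat_lit 256) (nat_lit 0) (cs (nd (nat_lit 278) (nat_lit 0) (cs (lf (nat_lit 17) (nat_lit 253)) (nd (nat_lit 279) (nat_lit 0) (cs (rf (nat_lit 0)) (lf (nat_lit 11) (nat_lit 275)))))) (lf (nat_lit 16) (nat_lit 252)))) q12828 (by decide +kernel)
def q12841 : Q := Q.p (nat_lit 0x80000300000c00002000000000000000000000000000000000000000000000000000000000000000) (nat_lit 0x18000060000100000000000000000000000000000000000000000000000000000000000000000000000000000000) (nat_lit 3)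
theorem c12841 : QOK q12841 := cut [q2609] ⟨c2609, trivial⟩ (nd (nat_lit 341) (nat_lit 0) (cs (lf (nat_lit 42) (nat_lit 274)) (rf (nat_lit 0)))) q12841 (by decide +kernel)
def q12843 : Q := Q.p (nat_lit 0xc0000300000800002000000000000000000000000000000000000000000000000000000000000000) (nat_lit 0x40000700000080000000000000000000000000000000000000000000000000000000000000000000000000) (nat_lit 3)
theorem c12843 : QOK q12843 := cut [q12842] ⟨c12842, trivial⟩ (nd (nat_lit 320) (nat_lit 0) (cs (lf (nat_lit 29) (nat_lit 253)) (rf (nat_lit 0)))) q12843 (by decide +kernel)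
def q12858 : Q := Q.p (nat_lit 0x400001300004800000000000000000000000000000000000000000000000000000000000000000000) (nat_lit 0x100000000000000003000018000020000080000000000000000000000000000000000000000000000000000) (nat_lit 4)
theorem c12858 : QOK q12858 := cut [q12856] ⟨c12856, trivial⟩ (nd (nat_lit 277) (nat_lit 0) (cs (rf (nat_lit 0)) (lf (nat_lit 8) (nat_lit 274)))) q12858 (by decide +kernel)
def q12868 : Q := Q.p (nat_lit 0x300001e00000000000000000000000000000000000000000000000000000000000000000000) (nat_lit 0x180000e00000000000000000000000000000000000000000000000000000000000000) (nat_lit 3)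
theorem c12868 : QOK q12868 := cut [q12867] ⟨c12867, trivial⟩ (nd (nat_lit 250) (nat_lit 0) (cs (lf (nat_lit 22) (nat_lit 250)) (rf (nat_lit 0)))) q12868 (by decide +kernel)
def q12881 : Q := Q.p (nat_lit 0x100000400001300004600000000000000000000000000000000000000000000000000000000000000000000) (nat_lit 0x800002000008000000000001800380000e0000280000000000000000000000000000000000000000000000000000) (nat_lit 7)
theorem c12881 : QOK q12881 := cut [q12873] ⟨c12873, trivial⟩ (nd (nat_lit 271) (nat_lit 0) (cs (lf (nat_lit 1) (nat_lit 271)) (nd (nat_lit 345) (nat_lit 0) (cs (lf (nat_lit 29) (nat_lit 278)) (nd (nat_lit 256) (nat_lit 0) (cs (nd (nat_lit 235) (nat_lit 0) (cs (nd (nat_lit 234) (nat_lit 0) (cs (rf (nat_lit 0)) (lf (nat_lit 35) (nat_lit 212)))) (lf (nat_lit 34) (nat_lit 234)))) (lf (nat_lit 28) (nat_lit 256)))))))) q12881 (by decide +kernel)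
def q12908 : Q := Q.p (nat_lit 0x200000e00000000000000000000000000000000000000000000000000000000000000000000) (nat_lit 0x1c00001100000000000000000000000000000000000000000000000000000000000000000000) (nat_lit 3)
theorem c12908 : QOK q12908 := cut [q2555] ⟨c2555, trivial⟩ (nd (nat_lit 298) (nat_lit 0) (cs (lf (nat_lit 0) (nat_lit 272)) (rf (nat_lit 0)))) q12908 (by decide +kernel)
def q12921 : Q := Q.p (nat_lit 0x80000600000c00002000000000000000000000000000000000000000000000000000000000000000) (nat_lit 0x18000060000100000100001000000000000000000000000000000000000000000000000000000000000000000000) (nat_lit 4)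
theorem c12921 : QOK q12921 := cut [q12919] ⟨c12919, trivial⟩ (nd (nat_lit 342) (nat_lit 0) (cs (lf (nat_lit 28) (nat_lit 253)) (nd (nat_lit 341) (nat_lit 0) (cs (lf (nat_lit 29) (nat_lit 275)) (rf (nat_lit 0)))))) q12921 (by decide +kernel)
def q12930 : Q := Q.p (nat_lit 0x80000200000e00002000000000000000000000000000000000000000000000000000000000000000) (nat_lit 0x50000740001d80001000000000000000000000000000000000000000000000000000000000000000000000) (nat_lit 6)
theorem c12930 : QOK q12930 := cut [q12924, q12926] ⟨c12924, c12926, trivial⟩ (nd (nat_lit 320) (nat_lit 0) (cs (lf (nat_lit 29) (nat_lit 253)) (nd (nat_lit 299) (nat_lit 0) (cs (rf (nat_lit 0)) (cs (nd (nat_lit 318) (nat_lit 0) (cs (lf (nat_lit 41) (nat_lit 252)) (rf (nat_lit 1)))) (nd (nat_lit 298) (nat_lit 0) (cs (lf (nat_lit 18) (nat_lit 274)) (lf (nat_lit 3) (nat_lit 273))))))))) q12930 (by decide +kernel)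
def q12937 : Q := Q.p (nat_lit 0x80000200000c00002000000000000000000000000000000000000000000000000000000000000000) (nat_lit 0x100000600001c000030000140001d00001000000000000000000000000000000000000000000000000000000000000000000000) (nat_lit 8)
theorem c12937 : QOK q12937 := cut [q11837] ⟨c11837, trivial⟩ (nd (nat_lit 340) (nat_lit 0) (cs (lf (nat_lit 40) (nat_lit 252)) (nd (nat_lit 341) (nat_lit 0) (cs (lf (nat_lit 41) (nat_lit 274)) (nd (nat_lit 363) (nat_lit 0) (cs (lf (nat_lit 46) (nat_lit 274)) (nd (nat_lit 298) (nat_lit 0) (cs (lf (nat_lit 35) (nat_lit 275)) (nd (nat_lit 299) (nat_lit 0) (cs (lf (nat_lit 18) (nat_lit 274)) (rf (nat_lit 0)))))))))))) q12937 (by decide +kernel)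
def q12941 : Q := Q.p (nat_lit 0xf00000000000000000000000000000000000000000000000000000000000000000000) (nat_lit 0xe00001000000e00000000000000000000000000000000000000000000000000000000000000) (nat_lit 4)
theorem c12941 : QOK q12941 := cut [q2057] ⟨c2057, trivial⟩ (nd (nat_lit 250) (nat_lit 0) (cs (lf (nat_lit 23) (nat_lit 249)) (nd (nat_lit 276) (nat_lit 0) (cs (lf (nat_lit 22) (nat_lit 250)) (rf (nat_lit 0)))))) q12941 (by decide +kernel)
def q12947 : Q := Q.p (nat_lit 0xe00000800000000000000000000000000000000000000000000000000000000000000) (nat_lit 0x1100000700000000000000000000000000000000000000000000000000000000000000) (nat_lit 3)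
theorem c12947 : QOK q12947 := cut [q12946] ⟨c12946, trivial⟩ (nd (nat_lit 250) (nat_lit 0) (cs (lf (nat_lit 18) (nat_lit 250)) (rf (nat_lit 0)))) q12947 (by decide +kernel)
def q12950 : Q := Q.p (nat_lit 0x80000e00000800002000000000000000000000000000000000000000000000000000000000) (nat_lit 0x50000160000000000000000000000000000000000000000000000000000000000000000000000000) (nat_lit 3)
theorem c12950 : QOK q12950 := cut [q12949] ⟨c12949, trivial⟩ (nd (nat_lit 296) (nat_lit 0) (cs (lf (nat_lit 29) (nat_lit 229)) (rf (nat_lit 0)))) q12950 (by decide +kernel)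
def q12960 : Q := Q.p (nat_lit 0x20000000000300000400000000000000000000000000000000000000000000000000000000000000) (nat_lit 0x8000000000080000000000800001000004000000000000000000000000000000000000000000000000000) (nat_lit 3)
theorem c12960 : QOK q12960 := cut [q12958] ⟨c12958, trivial⟩ (nd (nat_lit 295) (nat_lit 0) (cs (rf (nat_lit 0)) (lf (nat_lit 42) (nat_lit 250)))) q12960 (by decide +kernel)
def q12964 : Q := Q.p (nat_lit 0x20000040000300000400000000000000000000000000000000000000000000000000000000000000) (nat_lit 0xc000010000000000000000800002000000000000000000000000000000000000000000000000000000000) (nat_lit 3)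
theorem c12964 : QOK q12964 := cut [q12962] ⟨c12962, trivial⟩ (nd (nat_lit 316) (nat_lit 0) (cs (rf (nat_lit 0)) (lf (nat_lit 29) (nat_lit 250)))) q12964 (by decide +kernel)
def q12991 : Q := Q.p (nat_lit 0x1e00000000000000000000000000000000000000000000000000000000000000000000) (nat_lit 0xee0000100000000000000000000000000000000000000000000000000000000000000000000) (nat_lit 4)
theorem c12991 : QOK q12991 := cut [q1208] ⟨c1208, trivial⟩ (nd (nat_lit 298) (nat_lit 0) (cs (lf (nat_lit 5) (nat_lit 273)) (nd (nat_lit 272) (nat_lit 0) (cs (rf (nat_lit 0)) (lf (nat_lit 4) (nat_lit 272)))))) q12991 (by decide +kernel)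
def q13001 : Q := Q.p (nat_lit 0x3c00010000000000000000000000000000000000000000000000000000000000000000) (nat_lit 0x3800004000020000000000000000000000000000000000000000000000000000000000000000) (nat_lit 3)
theorem c13001 : QOK q13001 := cut [q13000] ⟨c13000, trivial⟩ (nd (nat_lit 300) (nat_lit 0) (cs (lf (nat_lit 4) (nat_lit 274)) (rf (nat_lit 0)))) q13001 (by decide +kernel)
def q13008 : Q := Q.p (nat_lit 0xe00000000000000000000000000000000000000000000000000000000000000000000) (nat_lit 0xff0001180000700000000000000000000000000000000000000000000000000000000000000) (nat_lit 5)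
theorem c13008 : QOK q13008 := cut [q12673, q12676, q12944] ⟨c12673, c12676, c12944, trivial⟩ (nd (nat_lit 272) (nat_lit 0) (cs (rf (nat_lit 0)) (cs (rf (nat_lit 1)) (rf (nat_lit 2))))) q13008 (by decide +kernel)
def q13011 : Q := Q.p (nat_lit 0x3c0000300000000000000000000000000000000000000000000000000000000000000000000) (nat_lit 0x4000018000000000000000800002000000000000000000000000000000000000000000000000000000000) (nat_lit 3)
theorem c13011 : QOK q13011 := cut [q13010] ⟨c13010, trivial⟩ (nd (nat_lit 316) (nat_lit 0) (cs (lf (nat_lit 11) (nat_lit 293)) (rf (nat_lit 0)))) q13011 (by decide +kernel)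
def q13024 : Q := Q.p (nat_lit 0x3c0000000000000000000000000000000000000000000000000000000000000000000000000000000) (nat_lit 0x380000400003800000000000000000000000000000000000000000000000000000000000000000000000000) (nat_lit 4)
theorem c13024 : QOK q13024 := cut [q13022] ⟨c13022, trivial⟩ (nd (nat_lit 344) (nat_lit 0) (cs (lf (nat_lit 4) (nat_lit 318)) (nd (nat_lit 322) (nat_lit 0) (cs (lf (nat_lit 5) (nat_lit 319)) (rf (nat_lit 0)))))) q13024 (by decide +kernel)
def q13045 : Q := Q.p (nat_lit 0x40000100000c00003000000000000000000000000000000000000000000000000000000000000000) (nat_lit 0x1000000e00002000000000000000000000000000000000000000000000000000000000) (nat_lit 3)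
theorem c13045 : QOK q13045 := cut [q5304] ⟨c5304, trivial⟩ (nd (nat_lit 251) (nat_lit 0) (cs (rf (nat_lit 0)) (lf (nat_lit 47) (nat_lit 229)))) q13045 (by decide +kernel)
def q13049 : Q := Q.p (nat_lit 0xc0000000000c00002000000000010000000000000000000000000000000000000000000000000000) (nat_lit 0x30000000000200000000001000004000000000000000000000000000000000000000000000000000000000) (nat_lit 3)
theorem c13049 : QOK q13049 := cut [q13048] ⟨c13048, trivial⟩ (nd (nat_lit 297) (nat_lit 0) (cs (lf (nat_lit 41) (nat_lit 252)) (rf (nat_lit 0)))) q13049 (by decide +kernel)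
def q13053 : Q := Q.p (nat_lit 0x3c0000000000000000000000000000000000000000000000000000000000000000000000000000000) (nat_lit 0x1c000020001c00000000000000000000000000000000000000000000000000000000000000000000000000) (nat_lit 4)
theorem c13053 : QOK q13053 := cut [q12801] ⟨c12801, trivial⟩ (nd (nat_lit 339) (nat_lit 0) (cs (nd (nat_lit 317) (nat_lit 0) (cs (rf (nat_lit 0)) (lf (nat_lit 11) (nat_lit 316)))) (lf (nat_lit 10) (nat_lit 317)))) q13053 (by decide +kernel)
def q13057 : Q := Q.p (nat_lit 0x3c0000000000000000000000000000000000000000000000000000000000000000000000000000000) (nat_lit 0x1dc000020000000000000000000000000000000000000000000000000000000000000000000000000000000) (nat_lit 4)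
theorem c13057 : QOK q13057 := cut [q13055] ⟨c13055, trivial⟩ (nd (nat_lit 339) (nat_lit 0) (cs (lf (nat_lit 10) (nat_lit 317)) (nd (nat_lit 317) (nat_lit 0) (cs (lf (nat_lit 11) (nat_lit 316)) (rf (nat_lit 0)))))) q13057 (by decide +kernel)
def q13060 : Q := Q.p (nat_lit 0x100003c0000000000000000000000000000000000000000000000000000000000000000000000000000000) (nat_lit 0x3a0000400000000000000000000000000000000000000000000000000000000000000000000000000000000) (nat_lit 3)
theorem c13060 : QOK q13060 := cut [q11792] ⟨c11792, trivial⟩ (nd (nat_lit 322) (nat_lit 0) (cs (rf (nat_lit 0)) (lf (nat_lit 10) (nat_lit 318)))) q13060 (by decide +kernel)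
def q13066 : Q := Q.p (nat_lit 0x1e0000000000000000000000000000000000000000000000000000000000000000000000000000000) (nat_lit 0xe00000100000e0000000000000000000000000000000000000000000000000000000000000000000000000) (nat_lit 4)
theorem c13066 : QOK q13066 := cut [q13064] ⟨c13064, trivial⟩ (nd (nat_lit 294) (nat_lit 0) (cs (lf (nat_lit 22) (nat_lit 294)) (nd (nat_lit 342) (nat_lit 0) (cs (lf (nat_lit 5) (nat_lit 317)) (rf (nat_lit 0)))))) q13066 (by decide +kernel)
def q13071 : Q := Q.p (nat_lit 0x1e0000000000800002000000000000000000000000000000000000000000000000000000000000000) (nat_lit 0xc0000000000c00001000000000000000000000000000000000000000000000000000000000000000000000) (nat_lit 3)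
theorem c13071 : QOK q13071 := cut [q13070] ⟨c13070, trivial⟩ (nd (nat_lit 342) (nat_lit 0) (cs (lf (nat_lit 5) (nat_lit 317)) (rf (nat_lit 0)))) q13071 (by decide +kernel)
def q13098 : Q := Q.p (nat_lit 0x3c0000000000000000000000000000000000000000000000000000000000000000000000000000000) (nat_lit 0x38000400003800000000000000000000000000000000000000000000000000000000000000000000000000) (nat_lit 4)
theorem c13098 : QOK q13098 := cut [q13096] ⟨c13096, trivial⟩ (nd (nat_lit 300) (nat_lit 0) (cs (lf (nat_lit 16) (nat_lit 296)) (nd (nat_lit 322) (nat_lit 0) (cs (lf (nat_lit 17) (nat_lit 297)) (rf (nat_lit 0)))))) q13098 (by decide +kernel)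
def q13102 : Q := Q.p (nat_lit 0x1e0000000000800002000000000000000000000000000000000000000000000000000000000000000) (nat_lit 0x60000010000ce0001000000000000000000000000000000000000000000000000000000000000000000000) (nat_lit 5)
theorem c13102 : QOK q13102 := cut [q13064] ⟨c13064, trivial⟩ (nd (nat_lit 298) (nat_lit 0) (cs (lf (nat_lit 17) (nat_lit 295)) (nd (nat_lit 342) (nat_lit 0) (cs (lf (nat_lit 45) (nat_lit 253)) (nd (nat_lit 294) (nat_lit 0) (cs (lf (nat_lit 22) (nat_lit 294)) (rf (nat_lit 0)))))))) q13102 (by decide +kernel)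
def q13105 : Q := Q.p (nat_lit 0x1e0000000000000000000000000000000000000000000000000000000000000000000000000000000) (nat_lit 0x1c000200001c00000000000000000000000000000000000000000000000000000000000000000000000000) (nat_lit 4)
theorem c13105 : QOK q13105 := cut [q13103] ⟨c13103, trivial⟩ (nd (nat_lit 299) (nat_lit 0) (cs (lf (nat_lit 16) (nat_lit 295)) (nd (nat_lit 321) (nat_lit 0) (cs (lf (nat_lit 17) (nat_lit 296)) (rf (nat_lit 0)))))) q13105 (by decide +kernel)
def q13118 : Q := Q.p (nat_lit 0x3c0000000000000000000000000000000000000000000000000000000000000000000000000000000) (nat_lit 0x3f0000c00007000000000000000000000000000000000000000000000000000000000000000000000000000) (nat_lit 6)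
theorem c13118 : QOK q13118 := cut [q13112] ⟨c13112, trivial⟩ (nd (nat_lit 344) (nat_lit 0) (cs (lf (nat_lit 4) (nat_lit 318)) (nd (nat_lit 322) (nat_lit 0) (cs (lf (nat_lit 5) (nat_lit 319)) (nd (nat_lit 341) (nat_lit 0) (cs (nd (nat_lit 323) (nat_lit 0) (cs (rf (nat_lit 0)) (lf (nat_lit 10) (nat_lit 319)))) (lf (nat_lit 11) (nat_lit 318)))))))) q13118 (by decide +kernel)
def q13125 : Q := Q.p (nat_lit 0x3c0000000000800002000000000000000000000000000000000000000000000000000000000000000) (nat_lit 0x3f0000c30000c00001000000000000000000000000000000000000000000000000000000000000000000000) (nat_lit 7)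
theorem c13125 : QOK q13125 := cut [q13070] ⟨c13070, trivial⟩ (nd (nat_lit 344) (nat_lit 0) (cs (lf (nat_lit 4) (nat_lit 318)) (nd (nat_lit 322) (nat_lit 0) (cs (lf (nat_lit 5) (nat_lit 319)) (nd (nat_lit 341) (nat_lit 0) (cs (lf (nat_lit 11) (nat_lit 318)) (nd (nat_lit 342) (nat_lit 0) (cs (nd (nat_lit 317) (nat_lit 0) (cs (rf (nat_lit 0)) (lf (nat_lit 0) (nat_lit 316)))) (lf (nat_lit 6) (nat_lit 319)))))))))) q13125 (by decide +kernel)
def q13127 : Q := Q.p (nat_lit 0x800001e0000000000000000000000000000000000000000000000000000000000000000000000000000000) (nat_lit 0x11c000200000000000000000000000000000000000000000000000000000000000000000000000000000000) (nat_lit 3)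
theorem c13127 : QOK q13127 := cut [q13103] ⟨c13103, trivial⟩ (nd (nat_lit 321) (nat_lit 0) (cs (lf (nat_lit 5) (nat_lit 318)) (rf (nat_lit 0)))) q13127 (by decide +kernel)
def q13132 : Q := Q.p (nat_lit 0xe0000200000000000000000000000000000000000000000000000000000000000000000000000000) (nat_lit 0x110001c00000000000000000000000000000000000000000000000000000000000000000000000000) (nat_lit 3)
theorem c13132 : QOK q13132 := cut [q13131] ⟨c13131, trivial⟩ (nd (nat_lit 298) (nat_lit 0) (cs (lf (nat_lit 12) (nat_lit 294)) (rf (nat_lit 0)))) q13132 (by decide +kernel)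
def q13146 : Q := Q.p (nat_lit 0x3e0000200000000000000000000000000000000000000000000000000000000000000000000000000) (nat_lit 0x38c000c000074c0000000000000000000000000000000000000000000000000000000000000000000000000) (nat_lit 7)
theorem c13146 : QOK q13146 := cut [q13144] ⟨c13144, trivial⟩ (nd (nat_lit 294) (nat_lit 0) (cs (lf (nat_lit 22) (nat_lit 294)) (nd (nat_lit 338) (nat_lit 0) (cs (lf (nat_lit 10) (nat_lit 316)) (rf (nat_lit 0)))))) q13146 (by decide +kernel)
def q13150 : Q := Q.p (nat_lit 0xe0000200000800002000000000000000000000000000000000000000000000000000000000000000) (nat_lit 0x4e0001100000e0000000000000000000000000000000000000000000000000000000000000000000000000) (nat_lit 5)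
theorem c13150 : QOK q13150 := cut [q13069] ⟨c13069, trivial⟩ (nd (nat_lit 320) (nat_lit 0) (cs (lf (nat_lit 29) (nat_lit 253)) (rf (nat_lit 0)))) q13150 (by decide +kernel)
def q13152 : Q := Q.p (nat_lit 0xf0000000000000000000000000000000000000000000000000000000000000000000000000000000) (nat_lit 0x7000008000070000000000000000000000000000000000000000000000000000000000000000000000000) (nat_lit 4)
theorem c13152 : QOK q13152 := cut [q13136] ⟨c13136, trivial⟩ (nd (nat_lit 293) (nat_lit 0) (cs (lf (nat_lit 22) (nat_lit 293)) (rf (nat_lit 0)))) q13152 (by decide +kernel)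
def q13170 : Q := Q.p (nat_lit 0xc0000000001c00003000000000000000000000000000000000000000000000000000000000000000) (nat_lit 0x480003200007c0000000000c00002000000000000000000000000000000000000000000000000000000000) (nat_lit 6)
theorem c13170 : QOK q13170 := cut [q13164, q13166] ⟨c13164, c13166, trivial⟩ (nd (nat_lit 320) (nat_lit 0) (cs (rf (nat_lit 0)) (nd (nat_lit 251) (nat_lit 0) (cs (lf (nat_lit 0) (nat_lit 250)) (nd (nat_lit 296) (nat_lit 0) (cs (lf (nat_lit 47) (nat_lit 229)) (nd (nat_lit 317) (nat_lit 0) (cs (lf (nat_lit 41) (nat_lit 251)) (rf (nat_lit 1)))))))))) q13170 (by decide +kernel)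
def q13173 : Q := Q.p (nat_lit 0xc0000000001c00003000000000000000000000000000000000000000000000000000000000000000) (nat_lit 0x20000000000100000000000c00002000000000000000000000000000000000000000000000000000000000) (nat_lit 3)
theorem c13173 : QOK q13173 := cut [q13172] ⟨c13172, trivial⟩ (nd (nat_lit 251) (nat_lit 0) (cs (lf (nat_lit 0) (nat_lit 250)) (rf (nat_lit 0)))) q13173 (by decide +kernel)
def q13199 : Q := Q.p (nat_lit 0x40000000001c00003000000000000000000000000000000000000000000000000000000000000000) (nat_lit 0x400001e80007a0001f80006000018000020000000000000000000000000000000000000000000000000000000000) (nat_lit 9)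
theorem c13199 : QOK q13199 := cut [q13163, q13185] ⟨c13163, c13185, trivial⟩ (nd (nat_lit 320) (nat_lit 0) (cs (nd (nat_lit 298) (nat_lit 0) (cs (lf (nat_lit 42) (nat_lit 253)) (nd (nat_lit 277) (nat_lit 0) (cs (lf (nat_lit 18) (nat_lit 252)) (nd (nat_lit 255) (nat_lit 0) (cs (lf (nat_lit 17) (nat_lit 252)) (nd (nat_lit 299) (nat_lit 0) (cs (lf (nat_lit 5) (nat_lit 274)) (lf (nat_lit 36) (nat_lit 232)))))))))) (cs (nd (nat_lit 342) (nat_lit 0) (cs (lf (nat_lit 44) (nat_lit 253)) (nd (nat_lit 319) (nat_lit 0) (cs (lf (nat_lit 26) (nat_lit 253)) (nd (nat_lit 296) (nat_lit 0) (cs (lf (nat_lit 29) (nat_lit 252)) (nd (nat_lit 317) (nat_lit 0) (cs (lf (nat_lit 5) (nat_lit 317)) (lf (nat_lit 41) (nat_lit 251)))))))))) (cs (nd (nat_lit 319) (nat_lit 0) (cs (rf (nat_lit 0)) (nd (nat_lit 277) (nat_lit 0) (cs (lf (nat_lit 18) (nat_lit 252)) (nd (nat_lit 255) (nat_lit 0) (cs (lf (nat_lit 17) (nat_lit 252)) (rf (nat_lit 1)))))))) (nd (nat_lit 277) (nat_lit 0) (cs (lf (nat_lit 18) (nat_lit 252)) (nd (nat_lit 255) (nat_lit 0) (cs (lf (nat_lit 17) (nat_lit 252)) (nd (nat_lit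 299) (nat_lit 0) (cs (lf (nat_lit 5) (nat_lit 274)) (nd (nat_lit 321) (nat_lit 0) (cs (lf (nat_lit 41) (nat_lit 254)) (nd (nat_lit 295) (nat_lit 0) (cs (lf (nat_lit 10) (nat_lit 273)) (nd (nat_lit 344) (nat_lit 0) (cs (nd (nat_lit 343) (nat_lit 0) (cs (lf (nat_lit 1) (nat_lit 318)) (lf (nat_lit 29) (nat_lit 277)))) (lf (nat_lit 28) (nat_lit 255)))))))))))))))))) q13199 (by decide +kernel)
def q13203 : Q := Q.p (nat_lit 0x40000000000400001800004000000000000000000000000000000000000000000000000000000000) (nat_lit 0x8000020000180000000000000002000000000000000000000000000000000000000000000000000000000) (nat_lit 3)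
theorem c13203 : QOK q13203 := cut [q13202] ⟨c13202, trivial⟩ (nd (nat_lit 296) (nat_lit 0) (cs (lf (nat_lit 47) (nat_lit 229)) (rf (nat_lit 0)))) q13203 (by decide +kernel)
def q13220 : Q := Q.p (nat_lit 0x100003c0000000000000000000000000000000000000000000000000000000000000000000000000000000) (nat_lit 0x3a0000400000000000000000000000000000000000000000000000000000000000000000000000000000000) (nat_lit 3)
theorem c13220 : QOK q13220 := cut [q13219] ⟨c13219, trivial⟩ (nd (nat_lit 344) (nat_lit 0) (cs (lf (nat_lit 4) (nat_lit 318)) (rf (nat_lit 0)))) q13220 (by decide +kernel)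
def q13228 : Q := Q.p (nat_lit 0xc0000000000c00002000000000010000000000000000000000000000000000000000000000000000) (nat_lit 0x38000020000180000000001000004000000000040000000000000000000000000000000000000000000000) (nat_lit 5)
theorem c13228 : QOK q13228 := cut [q13214] ⟨c13214, trivial⟩ (nd (nat_lit 296) (nat_lit 0) (cs (lf (nat_lit 30) (nat_lit 252)) (nd (nat_lit 252) (nat_lit 0) (cs (lf (nat_lit 29) (nat_lit 252)) (rf (nat_lit 0)))))) q13228 (by decide +kernel)
def q13238 : Q := Q.p (nat_lit 0xf00002000000000000000000000000000000000000000000000000000000000000000) (nat_lit 0x70000080001000000000000000000000000000000000000000000000000000000000000000) (nat_lit 3)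
theorem c13238 : QOK q13238 := cut [q1193] ⟨c1193, trivial⟩ (nd (nat_lit 271) (nat_lit 0) (cs (rf (nat_lit 0)) (lf (nat_lit 16) (nat_lit 249)))) q13238 (by decide +kernel)
def q13256 : Q := Q.p (nat_lit 0xf00002000000000000000000000000000000000000000000000000000000000000000) (nat_lit 0x80001700000000000000000000000000000000000000000000000000000000000000) (nat_lit 3)
theorem c13256 : QOK q13256 := cut [q1202] ⟨c1202, trivial⟩ (nd (nat_lit 271) (nat_lit 0) (cs (rf (nat_lit 0)) (lf (nat_lit 16) (nat_lit 249)))) q13256 (by decide +kernel)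
def q13277 : Q := Q.p (nat_lit 0x78000000000000000000000000000000000000000000000000000000000000000000000000000000000000) (nat_lit 0x3800004000038000000000000000000000000000000000000000000000000000000000000000000000000000000) (nat_lit 4)
theorem c13277 : QOK q13277 := cut [q13273] ⟨c13273, trivial⟩ (nd (nat_lit 360) (nat_lit 0) (cs (nd (nat_lit 338) (nat_lit 0) (cs (rf (nat_lit 0)) (lf (nat_lit 11) (nat_lit 337)))) (lf (nat_lit 10) (nat_lit 338)))) q13277 (by decide +kernel)
def q13289 : Q := Q.p (nat_lit 0x800012000078000000000000000000000000000000000000000000000000000000000000000000000000000000000000) (nat_lit 0x50000340000c000000000030000000000000000000000000000000000000000000000000000000000000000000000000000000) (nat_lit 5)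
theorem c13289 : QOK q13289 := cut [q13287] ⟨c13287, trivial⟩ (nd (nat_lit 317) (nat_lit 0) (cs (rf (nat_lit 0)) (lf (nat_lit 23) (nat_lit 316)))) q13289 (by decide +kernel)
def q13293 : Q := Q.p (nat_lit 0x78000000000000000000000000000000000000000000000000000000000000000000000000000000000000) (nat_lit 0x3b800004000000000000000000000000000000000000000000000000000000000000000000000000000000000000) (nat_lit 4)
theorem c13293 : QOK q13293 := cut [q13291] ⟨c13291, trivial⟩ (nd (nat_lit 360) (nat_lit 0) (cs (lf (nat_lit 10) (nat_lit 338)) (nd (nat_lit 338) (nat_lit 0) (cs (lf (nat_lit 11) (nat_lit 337)) (rf (nat_lit 0)))))) q13293 (by decide +kernel)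
def q13294 : Q := Q.p (nat_lit 0x10000078000000000000000000000000000000000000000000000000000000000000000000000000000000000000) (nat_lit 0x8000004000038000000000000000000000000000000000000000000000000000000000000000000000000000000) (nat_lit 3)
theorem c13294 : QOK q13294 := cut [q13273] ⟨c13273, trivial⟩ (nd (nat_lit 338) (nat_lit 0) (cs (rf (nat_lit 0)) (lf (nat_lit 4) (nat_lit 338)))) q13294 (by decide +kernel)
def q13309 : Q := Q.p (nat_lit 0x70000040000000000000000000000000000000000000000000000000000000000000000000000000000000) (nat_lit 0x800000b8000000000000000000000000000000000000000000000000000000000000000000000000000000) (nat_lit 3)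
theorem c13309 : QOK q13309 := cut [q13308] ⟨c13308, trivial⟩ (nd (nat_lit 317) (nat_lit 0) (cs (lf (nat_lit 18) (nat_lit 317)) (rf (nat_lit 0)))) q13309 (by decide +kernel)
def q13340 : Q := Q.p (nat_lit 0x3c000000000000000000000000000000000000000000000000000) (nat_lit 0x20001dc000000000000000000000000000000000000000000000) (nat_lit 4)
theorem c13340 : QOK q13340 := cut [q1548] ⟨c1548, trivial⟩ (nd (nat_lit 183) (nat_lit 0) (cs (lf (nat_lit 22) (nat_lit 183)) (nd (nat_lit 205) (nat_lit 0) (cs (lf (nat_lit 23) (nat_lit 182)) (rf (nat_lit 0)))))) q13340 (by decide +kernel)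
def q13350 : Q := Q.p (nat_lit 0x20000070000180000000000000000000000000000000000000000000000) (nat_lit 0x40000380000040000000000000000000000000000000000000000000000) (nat_lit 3)
theorem c13350 : QOK q13350 := cut [q1683] ⟨c1683, trivial⟩ (nd (nat_lit 211) (nat_lit 0) (cs (lf (nat_lit 5) (nat_lit 208)) (rf (nat_lit 0)))) q13350 (by decide +kernel)
def q13356 : Q := Q.p (nat_lit 0x2000078000000000000000000000000000000000000000000000000000) (nat_lit 0x74000080000000000000000000000000000000000000000000000000000) (nat_lit 3)
theorem c13356 : QOK q13356 := cut [q137] ⟨c137, trivial⟩ (nd (nat_lit 211) (nat_lit 0) (cs (rf (nat_lit 0)) (lf (nat_lit 10) (nat_lit 207)))) q13356 (by decide +kernel)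
def q13397 : Q := Q.p (nat_lit 0x140000080000200000800000000000000000000000000000000000000000000000000000000000000) (nat_lit 0x100001c0000b0000000000000000000000000000000000000000000000000000000000000000000000000000000) (nat_lit 4)
theorem c13397 : QOK q13397 := cut [q13396] ⟨c13396, trivial⟩ (nd (nat_lit 317) (nat_lit 0) (cs (lf (nat_lit 29) (nat_lit 251)) (rf (nat_lit 0)))) q13397 (by decide +kernel)
def q13408 : Q := Q.p (nat_lit 0xf00002000000000010000000000000000000000000000000000000000000000000000) (nat_lit 0x80000080001000004000000000040000000000000000000000000000000000000000000000) (nat_lit 3)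
theorem c13408 : QOK q13408 := cut [q13407] ⟨c13407, trivial⟩ (nd (nat_lit 252) (nat_lit 0) (cs (lf (nat_lit 12) (nat_lit 249)) (rf (nat_lit 0)))) q13408 (by decide +kernel)
def q13424 : Q := Q.p (nat_lit 0x800003c00000000000000000000000000000000000000000000000000000000000000000000) (nat_lit 0x400000200001c00000000000000000000000000000000000000000000000000000000000000) (nat_lit 3)
theorem c13424 : QOK q13424 := cut [q13423] ⟨c13423, trivial⟩ (nd (nat_lit 273) (nat_lit 0) (cs (lf (nat_lit 4) (nat_lit 273)) (rf (nat_lit 0)))) q13424 (by decide +kernel)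
def q13430 : Q := Q.p (nat_lit 0xc00003400004000010000000000000000000000000000000000000000000000000000) (nat_lit 0x80000380000200000000000000000000000000000000000000000000000000000000000000) (nat_lit 3)
theorem c13430 : QOK q13430 := cut [q2179] ⟨c2179, trivial⟩ (nd (nat_lit 273) (nat_lit 0) (cs (lf (nat_lit 41) (nat_lit 207)) (rf (nat_lit 0)))) q13430 (by decide +kernel)
def q13439 : Q := Q.p (nat_lit 0x40000020000480000200000800000000000000000000000000000000000000000000000000000000000000) (nat_lit 0x340000d0000200000000000000000000000000000000000000000000000000000000000000000000000000) (nat_lit 4)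
theorem c13439 : QOK q13439 := cut [q13437] ⟨c13437, trivial⟩ (nd (nat_lit 316) (nat_lit 0) (cs (lf (nat_lit 41) (nat_lit 250)) (nd (nat_lit 318) (nat_lit 0) (cs (lf (nat_lit 29) (nat_lit 251)) (rf (nat_lit 0)))))) q13439 (by decide +kernel)
def q13458 : Q := Q.p (nat_lit 0xc00000c00000000000000000000000000000000000000000000000000000000000000000000) (nat_lit 0x3000003200000000000000000000000000000000000000000000000000000000000000000000) (nat_lit 3)
theorem c13458 : QOK q13458 := cut [q13456] ⟨c13456, trivial⟩ (nd (nat_lit 276) (nat_lit 0) (cs (rf (nat_lit 0)) (lf (nat_lit 0) (nat_lit 273)))) q13458 (by decide +kernel)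
def q13461 : Q := Q.p (nat_lit 0xc00000c00000000000000000000000000000000000000000000000000000000000000000000) (nat_lit 0x1300000300000000000000000000000000000000000000000000000000000000000000000000) (nat_lit 3)
theorem c13461 : QOK q13461 := cut [q11636] ⟨c11636, trivial⟩ (nd (nat_lit 297) (nat_lit 0) (cs (lf (nat_lit 18) (nat_lit 274)) (rf (nat_lit 0)))) q13461 (by decide +kernel)
def q13467 : Q := Q.p (nat_lit 0x40000f00000400000000000000000000000000000000000000000000000000000000000000) (nat_lit 0x10000000001000000800002000008000000000000000000000000000000000000000000000000000) (nat_lit 3)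
theorem c13467 : QOK q13467 := cut [q12678] ⟨c12678, trivial⟩ (nd (nat_lit 251) (nat_lit 0) (cs (lf (nat_lit 18) (nat_lit 250)) (rf (nat_lit 0)))) q13467 (by decide +kernel)
def q13504 : Q := Q.p (nat_lit 0x800001c00000000000000000000000000000000000000000000000000000000000000000000) (nat_lit 0x3400002200000000000000000000000000000000000000000000000000000000000000000000) (nat_lit 3)
theorem c13504 : QOK q13504 := cut [q13456] ⟨c13456, trivial⟩ (nd (nat_lit 298) (nat_lit 0) (cs (rf (nat_lit 0)) (lf (nat_lit 0) (nat_lit 273)))) q13504 (by decide +kernel)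
def q13505 : Q := Q.p (nat_lit 0x800001c00002000000000000000000000000000000000000000000000000000000000000000) (nat_lit 0x1000006000001800000000000000000000000000000000000000000000000000000000000000) (nat_lit 3)
theorem c13505 : QOK q13505 := cut [q13254] ⟨c13254, trivial⟩ (nd (nat_lit 277) (nat_lit 0) (cs (lf (nat_lit 5) (nat_lit 274)) (rf (nat_lit 0)))) q13505 (by decide +kernel)
def q13518 : Q := Q.p (nat_lit 0x80000200000800002000000000000000000000000000000000000000000000000000000000000000000000) (nat_lit 0x40000100000400000000004000018000040000000000000000000000000000000000000000000000000000000000) (nat_lit 4)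
theorem c13518 : QOK q13518 := cut [q13516] ⟨c13516, trivial⟩ (nd (nat_lit 344) (nat_lit 0) (cs (lf (nat_lit 29) (nat_lit 277)) (nd (nat_lit 255) (nat_lit 0) (cs (lf (nat_lit 28) (nat_lit 255)) (rf (nat_lit 0)))))) q13518 (by decide +kernel)
def q13539 : Q := Q.p (nat_lit 0x80000200000800002000000000000000010000000000000000000000000000000000000000000000000000) (nat_lit 0x500001400004000000000000000180000700001e0000100000000000000000000000000000000000000000000000) (nat_lit 8)
theorem c13539 : QOK q13539 := cut [q13532] ⟨c13532, trivial⟩ (nd (nat_lit 344) (nat_lit 0) (cs (lf (nat_lit 29) (nat_lit 277)) (nd (nat_lit 255) (nat_lit 0) (cs (lf (nat_lit 28) (nat_lit 255)) (nd (nat_lit 234) (nat_lit 0) (cs (nd (nat_lit 233) (nat_lit 0) (cs (nd (nat_lit 342) (nat_lit 0) (cs (lf (nat_lit 41) (nat_lit 276)) (rf (nat_lit 0)))) (lf (nat_lit 35) (nat_lit 211)))) (lf (nat_lit 34) (nat_lit 233)))))))) q13539 (by decide +kernel)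
def q13562 : Q := Q.p (nat_lit 0x2c0000800000800002000000000000000000000000000000000000000000000000000000000000000) (nat_lit 0x1c0000120001200000000000000000000000000000000000000000000000000000000000000000000000000) (nat_lit 4)
theorem c13562 : QOK q13562 := cut [q13509] ⟨c13509, trivial⟩ (nd (nat_lit 320) (nat_lit 0) (cs (lf (nat_lit 17) (nat_lit 296)) (nd (nat_lit 343) (nat_lit 0) (cs (lf (nat_lit 5) (nat_lit 318)) (rf (nat_lit 0)))))) q13562 (by decide +kernel)
def q13569 : Q := Q.p (nat_lit 0xc0000800000c00003800000000000000000000000000000000000000000000000000000000000000) (nat_lit 0x3e0000700001200003000008000000000000000000000000000000000000000000000000000000000000000) (nat_lit 7)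
theorem c13569 : QOK q13569 := cut [q13567] ⟨c13567, trivial⟩ (nd (nat_lit 277) (nat_lit 0) (cs (lf (nat_lit 19) (nat_lit 251)) (nd (nat_lit 297) (nat_lit 0) (cs (lf (nat_lit 42) (nat_lit 252)) (rf (nat_lit 0)))))) q13569 (by decide +kernel)
def q13573 : Q := Q.p (nat_lit 0x800003c0000000000000000000000000000000000000000000000000000000000000000000000000000000) (nat_lit 0x5c000020000000000000000000000000000000000000000000000000000000000000000000000000000000) (nat_lit 3)
theorem c13573 : QOK q13573 := cut [q13103] ⟨c13103, trivial⟩ (nd (nat_lit 317) (nat_lit 0) (cs (lf (nat_lit 4) (nat_lit 317)) (rf (nat_lit 0)))) q13573 (by decide +kernel)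
def q13616 : Q := Q.p (nat_lit 0x14000018000000000000000000000000000000000000000000000) (nat_lit 0x2a000006000000000000000000000000000000000000000000000) (nat_lit 3)
theorem c13616 : QOK q13616 := cut [q6789] ⟨c6789, trivial⟩ (nd (nat_lit 207) (nat_lit 0) (cs (lf (nat_lit 18) (nat_lit 183)) (rf (nat_lit 0)))) q13616 (by decide +kernel)
def q13628 : Q := Q.p (nat_lit 0x80000200000800002000000000000000000000000000000000000000000000000000000000000000000000) (nat_lit 0x50000140000500000000000000008000000000000000000000000000000000000000000000000000000000000000) (nat_lit 4)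
theorem c13628 : QOK q13628 := cut [q13626] ⟨c13626, trivial⟩ (nd (nat_lit 344) (nat_lit 0) (cs (lf (nat_lit 29) (nat_lit 277)) (nd (nat_lit 255) (nat_lit 0) (cs (lf (nat_lit 28) (nat_lit 255)) (rf (nat_lit 0)))))) q13628 (by decide +kernel)
def q13646 : Q := Q.p (nat_lit 0xc00003000006000000000000000000000000000000000000000000000000000000000) (nat_lit 0x10000040000100000000000800000000008000000000000000000000000000000000000000000000000000) (nat_lit 3)
theorem c13646 : QOK q13646 := cut [q13645] ⟨c13645, trivial⟩ (nd (nat_lit 296) (nat_lit 0) (cs (lf (nat_lit 47) (nat_lit 207)) (rf (nat_lit 0)))) q13646 (by decide +kernel)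
def q13688 : Q := Q.p (nat_lit 0x80000200000800002000000000000000000000000000000000000000000000000000000000000000000000) (nat_lit 0x10000040000100000000004000018000040000000000000000000000000000000000000000000000000000000000) (nat_lit 4)
theorem c13688 : QOK q13688 := cut [q13626] ⟨c13626, trivial⟩ (nd (nat_lit 256) (nat_lit 0) (cs (lf (nat_lit 34) (nat_lit 255)) (nd (nat_lit 255) (nat_lit 0) (cs (lf (nat_lit 35) (nat_lit 233)) (rf (nat_lit 0)))))) q13688 (by decide +kernel)
def q13705 : Q := Q.p (nat_lit 0x10000080000200000800002000000000000000000000000000000000000000000000000000000000000000000000) (nat_lit 0x14000060000100000000000000000000000000000000000000000000000000000000000000000000000000000000000000) (nat_lit 3)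
theorem c13705 : QOK q13705 := cut [q13704] ⟨c13704, trivial⟩ (nd (nat_lit 366) (nat_lit 0) (cs (lf (nat_lit 28) (nat_lit 277)) (rf (nat_lit 0)))) q13705 (by decide +kernel)
def q13793 : Q := Q.p (nat_lit 0xe00000800006400011000004000010000000000000000000000000000000000000000000000000000) (nat_lit 0x40000100001c0000310001f0000380000e80001a0000020000080000000000000000000000000000000000000000000000) (nat_lit 8)
theorem c13793 : QOK q13793 := cut [q13725] ⟨c13725, trivial⟩ (nd (nat_lit 302) (nat_lit 0) (cs (rf (nat_lit 0)) (cs (nd (nat_lit 300) (nat_lit 0) (cs (nd (nat_lit 324) (nat_lit 0) (cs (lf (nat_lit 18) (nat_lit 299)) (nd (nat_lit 346) (nat_lit 0) (cs (lf (nat_lit 5) (nat_lit 321)) (nd (nat_lit 257) (nat_lit 0) (cs (lf (nat_lit 35) (nat_lit 234)) (nd (nat_lit 259) (nat_lit 0) (cs (nd (nat_lit 280) (nat_lit 0) (cs (lf (nat_lit 34) (nat_lit 258)) (lf (nat_lit 46) (nat_lit 257)))) (lf (nat_lit 7) (nat_lit 255)))))))))) (cs (nd (nat_lit 233) (nat_lit 0) (cs (lf (nat_lit 46) (nat_lit 233)) (nd (nat_lit 301) (nat_lit 0) (cs (nd (nat_lit 324) (nat_lit 0) (cs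 (lf (nat_lit 18) (nat_lit 299)) (nd (nat_lit 346) (nat_lit 0) (cs (lf (nat_lit 5) (nat_lit 321)) (nd (nat_lit 368) (nat_lit 0) (cs (lf (nat_lit 47) (nat_lit 279)) (lf (nat_lit 42) (nat_lit 301)))))))) (lf (nat_lit 11) (nat_lit 298)))))) (nd (nat_lit 187) (nat_lit 0) (cs (lf (nat_lit 34) (nat_lit 186)) (nd (nat_lit 301) (nat_lit 0) (cs (lf (nat_lit 11) (nat_lit 298)) (nd (nat_lit 257) (nat_lit 0) (cs (lf (nat_lit 35) (nat_lit 234)) (nd (nat_lit 280) (nat_lit 0) (cs (nd (nat_lit 258) (nat_lit 0) (cs (lf (nat_lit 36) (nat_lit 235)) (lf (nat_lit 6) (nat_lit 255)))) (lf (nat_lit 17) (nat_lit 277))))))))))))) (cs (nd (nat_lit 187) (nat_lit 0) (cs (lf (nat_lit 34) (nat_lit 186)) (nd (nat_lit 324) (nat_lit 0) (cs (lf (nat_lit 17) (nat_lit 299)) (nd (nat_lit 325) (nat_lit 0) (cs (nd (nat_lit 347) (nat_lit 0) (cs (lf (nat_lit 5) (nat_lit 322)) (lf (nat_lit 4) (nat_lit 321)))) (lf (nat_lit 22) (nat_lit 299)))))))) (nd (nat_lit 301) (nat_lit 0) (cs (lf (nat_lit 12) (nat_lit 298)) (nd (nat_lit 303) (nat_lit 0) (cs (lf (nat_lit 6) (nat_lit 300)) (lf (nat_lit 21) (nat_lit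 277)))))))))) q13793 (by decide +kernel)
def q13852 : Q := Q.p (nat_lit 0x80000200000800002400001000004000010000000000000000000000000000000000000000000000000000) (nat_lit 0x400001c000070000040000400001000004000000000000000020000080000000000000000000000000000000000000000000000) (nat_lit 7)
theorem c13852 : QOK q13852 := cut [q13851] ⟨c13851, trivial⟩ (nd (nat_lit 187) (nat_lit 0) (cs (lf (nat_lit 34) (nat_lit 186)) (rf (nat_lit 0)))) q13852 (by decide +kernel)
def q13863 : Q := Q.p (nat_lit 0x800002000008000020000000000000000000000000000000000000000000000000000000000) (nat_lit 0x500001c0000500000000000000000000000000000000000000000000000) (nat_lit 4)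
theorem c13863 : QOK q13863 := cut [q13859] ⟨c13859, trivial⟩ (nd (nat_lit 212) (nat_lit 0) (cs (nd (nat_lit 211) (nat_lit 0) (cs (rf (nat_lit 0)) (lf (nat_lit 35) (nat_lit 189)))) (lf (nat_lit 34) (nat_lit 211)))) q13863 (by decide +kernel)
def q13877 : Q := Q.p (nat_lit 0x40000000000c00003000004000000000000000000000000000000000000000000000000000000000) (nat_lit 0x10000000000100000000000800002000008000000000000000000000000000000000000000000000000000) (nat_lit 3)
theorem c13877 : QOK q13877 := cut [q13876] ⟨c13876, trivial⟩ (nd (nat_lit 296) (nat_lit 0) (cs (lf (nat_lit 30) (nat_lit 252)) (rf (nat_lit 0)))) q13877 (by decide +kernel)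
def q13903 : Q := Q.p (nat_lit 0x40000080000200000800002000000000000000000000000000000000000000000000000000000000000000000000) (nat_lit 0x10000020000000000000001000004000010000000000000000000000000000000000000000000000000000000000000000) (nat_lit 3)
theorem c13903 : QOK q13903 := cut [q13902] ⟨c13902, trivial⟩ (nd (nat_lit 365) (nat_lit 0) (cs (lf (nat_lit 29) (nat_lit 299)) (rf (nat_lit 0)))) q13903 (by decide +kernel)
def q13915 : Q := Q.p (nat_lit 0xa00000c00000000000000000000000000000000000000000000000000000000000000000000) (nat_lit 0x1500000300000000000000000000000000000000000000000000000000000000000000000000) (nat_lit 3)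
theorem c13915 : QOK q13915 := cut [q11636] ⟨c11636, trivial⟩ (nd (nat_lit 298) (nat_lit 0) (cs (lf (nat_lit 18) (nat_lit 274)) (rf (nat_lit 0)))) q13915 (by decide +kernel)
def q13926 : Q := Q.p (nat_lit 0x1c0000a00000c00000000000000000000000000000000000000000000000000000000000000000000) (nat_lit 0x20000500000300000000000000000000000000000000000000000000000000000000000000000000) (nat_lit 3)
theorem c13926 : QOK q13926 := cut [q11636] ⟨c11636, trivial⟩ (nd (nat_lit 298) (nat_lit 0) (cs (lf (nat_lit 12) (nat_lit 295)) (rf (nat_lit 0)))) q13926 (by decide +kernel)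
def q13930 : Q := Q.p (nat_lit 0x40000200000c00002000000000010000000000000000000000000000000000000000000000000000) (nat_lit 0x30000080000000000000001000004000000000000000000000000000000000000000000000000000000000) (nat_lit 3)
theorem c13930 : QOK q13930 := cut [q13474] ⟨c13474, trivial⟩ (nd (nat_lit 252) (nat_lit 0) (cs (lf (nat_lit 25) (nat_lit 208)) (rf (nat_lit 0)))) q13930 (by decide +kernel)
def q13934 : Q := Q.p (nat_lit 0xe00000c00003000000000000000000000000000000000000000000000000000000000000000) (nat_lit 0x700001e0000000000000000000000000000000000000000000000000000000000000000000000000000000) (nat_lit 4)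
theorem c13934 : QOK q13934 := cut [q13932] ⟨c13932, trivial⟩ (nd (nat_lit 319) (nat_lit 0) (cs (lf (nat_lit 42) (nat_lit 252)) (nd (nat_lit 320) (nat_lit 0) (cs (lf (nat_lit 29) (nat_lit 253)) (rf (nat_lit 0)))))) q13934 (by decide +kernel)
def q13971 : Q := Q.p (nat_lit 0x600001800002000000000000000000000000000000000000000000000000000000000000000000000) (nat_lit 0x28000380000600003c0000f80003e0000000000000000000000000000000000000000000000000000000000) (nat_lit 11)
theorem c13971 : QOK q13971 := cut [q13962] ⟨c13962, trivial⟩ (nd (nat_lit 255) (nat_lit 0) (cs (lf (nat_lit 24) (nat_lit 233)) (nd (nat_lit 256) (nat_lit 0) (cs (lf (nat_lit 35) (nat_lit 233)) (nd (nat_lit 278) (nat_lit 0) (cs (lf (nat_lit 30) (nat_lit 255)) (nd (nat_lit 323) (nat_lit 0) (cs (lf (nat_lit 29) (nat_lit 256)) (nd (nat_lit 257) (nat_lit 0) (cs (lf (nat_lit 35) (nat_lit 234)) (nd (nat_lit 258) (nat_lit 0) (cs (lf (nat_lit 6) (nat_lit 255)) (nd (nat_lit 280) (nat_lit 0) (cs (nd (nat_lit 324) (nat_lit 0) (cs (lf (nat_lit 18) (nat_lit 299)) (rf (nat_lit 0)))) (lf (nat_lit 5) (nat_lit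 255)))))))))))))))) q13971 (by decide +kernel)
def q13978 : Q := Q.p (nat_lit 0xc0000600000000000000000000000000000000000000000000000000000000000000000000000000000000) (nat_lit 0x30001900000000000000000000000000000000000000000000000000000000000000000000000000000000) (nat_lit 3)
theorem c13978 : QOK q13978 := cut [q13976] ⟨c13976, trivial⟩ (nd (nat_lit 323) (nat_lit 0) (cs (rf (nat_lit 0)) (lf (nat_lit 6) (nat_lit 320)))) q13978 (by decide +kernel)
def q13999 : Q := Q.p (nat_lit 0x100000400001800006000000000000000000000000000000000000000000000000000000000000000000000) (nat_lit 0x2000000000080000300000c0000100000000000000000000000000000000000000000000000000000) (nat_lit 4)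
theorem c13999 : QOK q13999 := cut [q11559] ⟨c11559, trivial⟩ (nd (nat_lit 257) (nat_lit 0) (cs (nd (nat_lit 256) (nat_lit 0) (cs (rf (nat_lit 0)) (lf (nat_lit 35) (nat_lit 234)))) (lf (nat_lit 34) (nat_lit 256)))) q13999 (by decide +kernel)
def q14020 : Q := Q.p (nat_lit 0x400001800002000000000000000000000000000000000000000000000000000000000000000000000) (nat_lit 0x40000100000200000000000000008000020000000000000000000000000000000000000000000000000000000000) (nat_lit 3)
theorem c14020 : QOK q14020 := cut [q14019] ⟨c14019, trivial⟩ (nd (nat_lit 344) (nat_lit 0) (cs (lf (nat_lit 42) (nat_lit 277)) (rf (nat_lit 0)))) q14020 (by decide +kernel)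
def q14079 : Q := Q.p (nat_lit 0x100000000001800002000000000000000000000000000000000000000000000000000000000000000000000) (nat_lit 0x40000000000400000000004000008000020000000000000000000000000000000000000000000000000000000000) (nat_lit 3)
theorem c14079 : QOK q14079 := cut [q14078] ⟨c14078, trivial⟩ (nd (nat_lit 322) (nat_lit 0) (cs (lf (nat_lit 42) (nat_lit 277)) (rf (nat_lit 0)))) q14079 (by decide +kernel)
def q14115 : Q := Q.p (nat_lit 0x10000040000100000400000000000000000000000000000000000000000000000000000000000000) (nat_lit 0x8000020000080000000000200001800002000000000000000000000000000000000000000000000000000) (nat_lit 4)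
theorem c14115 : QOK q14115 := cut [q14112] ⟨c14112, trivial⟩ (nd (nat_lit 227) (nat_lit 0) (cs (nd (nat_lit 317) (nat_lit 0) (cs (lf (nat_lit 29) (nat_lit 250)) (rf (nat_lit 0)))) (lf (nat_lit 46) (nat_lit 227)))) q14115 (by decide +kernel)
def q14121 : Q := Q.p (nat_lit 0x10000040000100000400000000000000000000000000000000000000000000000000000000000000) (nat_lit 0x200000c000020000000000080000200000800000000000000000000000000000000000000000000000000000000) (nat_lit 4)
theorem c14121 : QOK q14121 := cut [q14118] ⟨c14118, trivial⟩ (nd (nat_lit 339) (nat_lit 0) (cs (nd (nat_lit 249) (nat_lit 0) (cs (lf (nat_lit 47) (nat_lit 227)) (rf (nat_lit 0)))) (lf (nat_lit 28) (nat_lit 250)))) q14121 (by decide +kernel)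
def q14123 : Q := Q.p (nat_lit 0x10000040000100000400000800000000000000000000000000000000000000000000000000000000) (nat_lit 0x2000008000020000000000000001000002000000000000000000000000000000000000000000000000000) (nat_lit 3)
theorem c14123 : QOK q14123 := cut [q14122] ⟨c14122, trivial⟩ (nd (nat_lit 315) (nat_lit 0) (cs (lf (nat_lit 41) (nat_lit 249)) (rf (nat_lit 0)))) q14123 (by decide +kernel)
def q14127 : Q := Q.p (nat_lit 0x10000040000100000600000000000000000000000000000000000000000000000000000000000000) (nat_lit 0x800006000008000000000080000000000000000000000000000000000000000000000000000000000000000000) (nat_lit 3)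
theorem c14127 : QOK q14127 := cut [q14126] ⟨c14126, trivial⟩ (nd (nat_lit 338) (nat_lit 0) (cs (lf (nat_lit 46) (nat_lit 249)) (rf (nat_lit 0)))) q14127 (by decide +kernel)
def q14144 : Q := Q.p (nat_lit 0x600001000004000010000000000000000000000000000000000000000000000) (nat_lit 0x800000000008000060000080000000000000000000000000000000000) (nat_lit 3)
theorem c14144 : QOK q14144 := cut [q2511] ⟨c2511, trivial⟩ (nd (nat_lit 162) (nat_lit 0) (cs (rf (nat_lit 0)) (lf (nat_lit 40) (nat_lit 161)))) q14144 (by decide +kernel)
def q14152 : Q := Q.p (nat_lit 0x40000100000400001000002000000000000000000000000000000000000000000000000000) (nat_lit 0x8000020000080000000000000004000008000000000000000000000000000000000000000000000) (nat_lit 3)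
theorem c14152 : QOK q14152 := cut [q4155] ⟨c4155, trivial⟩ (nd (nat_lit 206) (nat_lit 0) (cs (lf (nat_lit 47) (nat_lit 183)) (rf (nat_lit 0)))) q14152 (by decide +kernel)
def q14159 : Q := Q.p (nat_lit 0x40000100000400000800000000000000000000000000000000000000000000000000000000) (nat_lit 0x10000000000080000200000000002000008000000000000000000000000000000000000000000000) (nat_lit 3)
theorem c14159 : QOK q14159 := cut [q14158] ⟨c14158, trivial⟩ (nd (nat_lit 249) (nat_lit 0) (cs (lf (nat_lit 42) (nat_lit 227)) (rf (nat_lit 0)))) q14159 (by decide +kernel)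
def q14178 : Q := Q.p (nat_lit 0x3c000000000000000000000000000000000000000000000000000000000000000000000000000000) (nat_lit 0x1c0000200001c000000000000000000000000000000000000000000000000000000000000000000000000) (nat_lit 4)
theorem c14178 : QOK q14178 := cut [q14174] ⟨c14174, trivial⟩ (nd (nat_lit 335) (nat_lit 0) (cs (nd (nat_lit 313) (nat_lit 0) (cs (rf (nat_lit 0)) (lf (nat_lit 11) (nat_lit 312)))) (lf (nat_lit 10) (nat_lit 313)))) q14178 (by decide +kernel)
def q14183 : Q := Q.p (nat_lit 0x2000010000040000100000400000000000000000000000000000000000000000000000000000000000000) (nat_lit 0x280000c000020000000000000000000000000000000000000000000000000000000000000000000000000000000) (nat_lit 3)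
theorem c14183 : QOK q14183 := cut [q14182] ⟨c14182, trivial⟩ (nd (nat_lit 339) (nat_lit 0) (cs (lf (nat_lit 28) (nat_lit 250)) (rf (nat_lit 0)))) q14183 (by decide +kernel)
def q14188 : Q := Q.p (nat_lit 0xc0000100000400000000000000000000000000000000000000000000000000000000000000) (nat_lit 0x2000008000030000000000000000000001000000000000000000000000000000000000000000000000000000000) (nat_lit 3)
theorem c14188 : QOK q14188 := cut [q14187] ⟨c14187, trivial⟩ (nd (nat_lit 317) (nat_lit 0) (cs (lf (nat_lit 24) (nat_lit 228)) (rf (nat_lit 0)))) q14188 (by decide +kernel)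
def q14200 : Q := Q.p (nat_lit 0x40000100000400001000010000000000000000000000000000000000000000000000000000) (nat_lit 0x1000000000008000020000280002e000010000040000000000000000000000000000000000000000) (nat_lit 6)
theorem c14200 : QOK q14200 := cut [q14196] ⟨c14196, trivial⟩ (nd (nat_lit 207) (nat_lit 0) (cs (lf (nat_lit 34) (nat_lit 206)) (nd (nat_lit 227) (nat_lit 0) (cs (lf (nat_lit 47) (nat_lit 205)) (nd (nat_lit 249) (nat_lit 0) (cs (lf (nat_lit 42) (nat_lit 227)) (nd (nat_lit 206) (nat_lit 0) (cs (lf (nat_lit 6) (nat_lit 205)) (rf (nat_lit 0)))))))))) q14200 (by decide +kernel)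
def q14221 : Q := Q.p (nat_lit 0x78000040000000000000000000000000000000000000000000000000000000000000000000) (nat_lit 0x200000800007000000000000000100000400000000000000000000000000000000000000000000000000000000) (nat_lit 4)
theorem c14221 : QOK q14221 := cut [q14218] ⟨c14218, trivial⟩ (nd (nat_lit 313) (nat_lit 0) (cs (lf (nat_lit 11) (nat_lit 290)) (nd (nat_lit 335) (nat_lit 0) (cs (rf (nat_lit 0)) (lf (nat_lit 30) (nat_lit 269)))))) q14221 (by decide +kernel)
def q14235 : Q := Q.p (nat_lit 0x180001e0000000000000000000000000000000000000000000000000000000000000000000) (nat_lit 0x40000000000000000c0000200000800000000000000000000000000000000000000000000000000) (nat_lit 3)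
theorem c14235 : QOK q14235 := cut [q14234] ⟨c14234, trivial⟩ (nd (nat_lit 247) (nat_lit 0) (cs (lf (nat_lit 23) (nat_lit 246)) (rf (nat_lit 0)))) q14235 (by decide +kernel)
def q14248 : Q := Q.p (nat_lit 0x8000040000100000400001000000000000000000000000000000000000000000000000000000000) (nat_lit 0x2000010000000000000000200000800002000000000000000000000000000000000000000000000000000) (nat_lit 3)
theorem c14248 : QOK q14248 := cut [q14247] ⟨c14247, trivial⟩ (nd (nat_lit 316) (nat_lit 0) (cs (lf (nat_lit 41) (nat_lit 249)) (rf (nat_lit 0)))) q14248 (by decide +kernel)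
def q14275 : Q := Q.p (nat_lit 0x200000800003000008000000000000000000000000000000000000000000000000000000000000000) (nat_lit 0x40000700001c0000400000400000000000000000000000000000000000000000000000000000000000000000000000000) (nat_lit 5)
theorem c14275 : QOK q14275 := cut [q14273] ⟨c14273, trivial⟩ (nd (nat_lit 344) (nat_lit 0) (cs (lf (nat_lit 28) (nat_lit 255)) (nd (nat_lit 343) (nat_lit 0) (cs (lf (nat_lit 29) (nat_lit 277)) (rf (nat_lit 0)))))) q14275 (by decide +kernel)
def q14283 : Q := Q.p (nat_lit 0x100000200000800002000008000000000000000000000000000000000000000000000000000000000000000) (nat_lit 0x500000c0000100000000000000000000000000000000000000000000000000000000000000000000000000000000) (nat_lit 3)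
theorem c14283 : QOK q14283 := cut [q13626] ⟨c13626, trivial⟩ (nd (nat_lit 343) (nat_lit 0) (cs (lf (nat_lit 29) (nat_lit 277)) (rf (nat_lit 0)))) q14283 (by decide +kernel)
def q14299 : Q := Q.p (nat_lit 0x80000200000f00002000000000000000000000000000000000000000000000000000000000000000) (nat_lit 0x400001000001e0001000000000000000000000000000000000000000000000000000000000000000000000) (nat_lit 4)
theorem c14299 : QOK q14299 := cut [q14298] ⟨c14298, trivial⟩ (nd (nat_lit 320) (nat_lit 0) (cs (lf (nat_lit 29) (nat_lit 253)) (rf (nat_lit 0)))) q14299 (by decide +kernel)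
def q14310 : Q := Q.p (nat_lit 0xd00003000000000000000000000000000000000000000000000000000000000000000) (nat_lit 0x280000e00000000000000000000000000000000000000000000000000000000000000) (nat_lit 3)
theorem c14310 : QOK q14310 := cut [q14305, q14306, q14308, q14309] ⟨c14305, c14306, c14308, c14309, trivial⟩ (nd (nat_lit 250) (nat_lit 0) (cs (rf (nat_lit 0)) (cs (rf (nat_lit 1)) (cs (rf (nat_lit 2)) (rf (nat_lit 3)))))) q14310 (by decide +kernel)
def q14317 : Q := Q.p (nat_lit 0x60000300000000000000000000000000000000000000000000000000000000000000000000000000) (nat_lit 0x18000c80000000000000000000000000000000000000000000000000000000000000000000000000) (nat_lit 3)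
theorem c14317 : QOK q14317 := cut [q14315] ⟨c14315, trivial⟩ (nd (nat_lit 298) (nat_lit 0) (cs (rf (nat_lit 0)) (lf (nat_lit 6) (nat_lit 295)))) q14317 (by decide +kernel)
def q14326 : Q := Q.p (nat_lit 0x700000c00000000000000000000000000000000000000000000000000000000000000000000) (nat_lit 0x7380018e0006000000000000000000000000000000000000000000000000000000000000000000000) (nat_lit 7)
theorem c14326 : QOK q14326 := cut [q14322] ⟨c14322, trivial⟩ (nd (nat_lit 299) (nat_lit 0) (cs (lf (nat_lit 18) (nat_lit 274)) (nd (nat_lit 277) (nat_lit 0) (cs (lf (nat_lit 17) (nat_lit 274)) (nd (nat_lit 321) (nat_lit 0) (cs (lf (nat_lit 5) (nat_lit 296)) (nd (nat_lit 295) (nat_lit 0) (cs (lf (nat_lit 4) (nat_lit 295)) (rf (nat_lit 0)))))))))) q14326 (by decide +kernel)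
def q14340 : Q := Q.p (nat_lit 0x28000000000c00003800000000000000000000000000000000000000000000000000000000000000) (nat_lit 0xe0000180000600001800000000000000000000000000000000000000000000000000000000) (nat_lit 5)
theorem c14340 : QOK q14340 := cut [q14337] ⟨c14337, trivial⟩ (nd (nat_lit 250) (nat_lit 0) (cs (lf (nat_lit 0) (nat_lit 249)) (nd (nat_lit 272) (nat_lit 0) (cs (lf (nat_lit 11) (nat_lit 249)) (nd (nat_lit 228) (nat_lit 0) (cs (lf (nat_lit 23) (nat_lit 227)) (rf (nat_lit 0)))))))) q14340 (by decide +kernel)
def q14356 : Q := Q.p (nat_lit 0x40000100000d00003000000000000000000000000000000000000000000000000000000000000000) (nat_lit 0x80000e00002000000000000000000000000000000000000000000000000000000000) (nat_lit 3)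
theorem c14356 : QOK q14356 := cut [q14355] ⟨c14355, trivial⟩ (nd (nat_lit 251) (nat_lit 0) (cs (lf (nat_lit 47) (nat_lit 229)) (rf (nat_lit 0)))) q14356 (by decide +kernel)
def q14364 : Q := Q.p (nat_lit 0x20000080000200000c00000000000000000000000000000000000000000000000000000000000000000000) (nat_lit 0x100000c000010000000000100000000000000000000000000000000000000000000000000000000000000000000000000) (nat_lit 3)
theorem c14364 : QOK q14364 := cut [q14363] ⟨c14363, trivial⟩ (nd (nat_lit 363) (nat_lit 0) (cs (lf (nat_lit 46) (nat_lit 274)) (rf (nat_lit 0)))) q14364 (by decide +kernel)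
def q14368 : Q := Q.p (nat_lit 0x380000200000000000000000000000000000000000000000000000000000000000000000000000000) (nat_lit 0x4400001c0000000000000000000000000000000000000000000000000000000000000000000000000) (nat_lit 3)
theorem c14368 : QOK q14368 := cut [q14367] ⟨c14367, trivial⟩ (nd (nat_lit 296) (nat_lit 0) (cs (lf (nat_lit 18) (nat_lit 296)) (rf (nat_lit 0)))) q14368 (by decide +kernel)
def q14393 : Q := Q.p (nat_lit 0x380000200000c00000000000000000000000000000000000000000000000000000000000000000000) (nat_lit 0x20000380000c40007c00004000010000000000000000000000000000000000000000000000000000000000000000) (nat_lit 7)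
theorem c14393 : QOK q14393 := cut [q14384] ⟨c14384, trivial⟩ (nd (nat_lit 300) (nat_lit 0) (cs (nd (nat_lit 299) (nat_lit 0) (cs (lf (nat_lit 12) (nat_lit 296)) (lf (nat_lit 20) (nat_lit 274)))) (cs (nd (nat_lit 322) (nat_lit 0) (cs (lf (nat_lit 17) (nat_lit 297)) (nd (nat_lit 298) (nat_lit 0) (cs (lf (nat_lit 18) (nat_lit 297)) (rf (nat_lit 0)))))) (cs (nd (nat_lit 299) (nat_lit 0) (cs (lf (nat_lit 12) (nat_lit 296)) (nd (nat_lit 301) (nat_lit 0) (cs (lf (nat_lit 6) (nat_lit 298)) (lf (nat_lit 15) (nat_lit 297)))))) (nd (nat_lit 298) (nat_lit 0) (cs (nd (nat_lit 322) (nat_lit 0) (cs (lf (nat_lit 18) (nat_lit 297)) (lf (nat_lit 17) (nat_lit 297)))) (lf (nat_lit 19) (nat_lit 274)))))))) q14393 (by decide +kernel)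
def q14394 : Q := Q.p (nat_lit 0x380000200000600000000000000000000000000000000000000000000000000000000000000000000) (nat_lit 0x400000d80000000000000000000000000000000000000000000000000000000000000000000000000) (nat_lit 3)
theorem c14394 : QOK q14394 := cut [q12910] ⟨c12910, trivial⟩ (nd (nat_lit 296) (nat_lit 0) (cs (lf (nat_lit 18) (nat_lit 296)) (rf (nat_lit 0)))) q14394 (by decide +kernel)
def q14398 : Q := Q.p (nat_lit 0x1c0000a00000000000000000000000000000000000000000000000000000000000000000000000000) (nat_lit 0x380000600001100000000000000000000000000000000000000000000000000000000000000000000000000) (nat_lit 4)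
theorem c14398 : QOK q14398 := cut [q11792] ⟨c11792, trivial⟩ (nd (nat_lit 321) (nat_lit 0) (cs (lf (nat_lit 17) (nat_lit 296)) (nd (nat_lit 322) (nat_lit 0) (cs (lf (nat_lit 23) (nat_lit 296)) (rf (nat_lit 0)))))) q14398 (by decide +kernel)
def q14404 : Q := Q.p (nat_lit 0x2000008000020000080000000000000000000000000000000000000000000000000000000000000000000000000) (nat_lit 0x500001c00005000000000000000000000000000000000000000000000000000000000000000000000000000000000000000000) (nat_lit 4)
theorem c14404 : QOK q14404 := cut [q14400] ⟨c14400, trivial⟩ (nd (nat_lit 382) (nat_lit 0) (cs (nd (nat_lit 384) (nat_lit 0) (cs (rf (nat_lit 0)) (lf (nat_lit 28) (nat_lit 295)))) (lf (nat_lit 40) (nat_lit 294)))) q14404 (by decide +kernel)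
def q14414 : Q := Q.p (nat_lit 0x3c0000000000000000000000000000000000000000000000000000000000000000000000000000000) (nat_lit 0x380000400003800000000000000000000000000000000000000000000000000000000000000000000000000) (nat_lit 4)
theorem c14414 : QOK q14414 := cut [q14412] ⟨c14412, trivial⟩ (nd (nat_lit 300) (nat_lit 0) (cs (lf (nat_lit 16) (nat_lit 296)) (nd (nat_lit 344) (nat_lit 0) (cs (lf (nat_lit 4) (nat_lit 318)) (rf (nat_lit 0)))))) q14414 (by decide +kernel)
def q14433 : Q := Q.p (nat_lit 0x300000400001000004000000000000000000000000000000000000000000000000000) (nat_lit 0x800000000002000018000020000000000000000000000000000000000000000) (nat_lit 3)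
theorem c14433 : QOK q14433 := cut [q2082] ⟨c2082, trivial⟩ (nd (nat_lit 184) (nat_lit 0) (cs (rf (nat_lit 0)) (lf (nat_lit 28) (nat_lit 184)))) q14433 (by decide +kernel)
def q14471 : Q := Q.p (nat_lit 0x200000e00002000000000010000000000000000000000000000000000000000000000000000) (nat_lit 0x400000180001000004000000000000000000000000000000000000000000000000000000000) (nat_lit 3)
theorem c14471 : QOK q14471 := cut [q14470] ⟨c14470, trivial⟩ (nd (nat_lit 252) (nat_lit 0) (cs (lf (nat_lit 25) (nat_lit 208)) (rf (nat_lit 0)))) q14471 (by decide +kernel)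
def q14474 : Q := Q.p (nat_lit 0x180000280000000000000000000000000000000000000000000000000000000000000000000000000) (nat_lit 0x600000540000000000000000000000000000000000000000000000000000000000000000000000000) (nat_lit 3)
theorem c14474 : QOK q14474 := cut [q14473] ⟨c14473, trivial⟩ (nd (nat_lit 296) (nat_lit 0) (cs (lf (nat_lit 0) (nat_lit 294)) (rf (nat_lit 0)))) q14474 (by decide +kernel)
def q14478 : Q := Q.p (nat_lit 0x80000200000c00000000000000000000000000000000000000000000000000000000000000) (nat_lit 0x20000000000000000000003000004000010000000000000000000000000000000000000000000000) (nat_lit 3)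
theorem c14478 : QOK q14478 := cut [q14477] ⟨c14477, trivial⟩ (nd (nat_lit 228) (nat_lit 0) (cs (lf (nat_lit 42) (nat_lit 228)) (rf (nat_lit 0)))) q14478 (by decide +kernel)
def q14483 : Q := Q.p (nat_lit 0x280000e00000800000000010000000000000000000000000000000000000000000000000000) (nat_lit 0x8000020000000000000001600005000000000000000000000000000000000000000000000000000000000) (nat_lit 4)
theorem c14483 : QOK q14483 := cut [q14481] ⟨c14481, trivial⟩ (nd (nat_lit 252) (nat_lit 0) (cs (lf (nat_lit 25) (nat_lit 208)) (nd (nat_lit 317) (nat_lit 0) (cs (lf (nat_lit 30) (nat_lit 251)) (rf (nat_lit 0)))))) q14483 (by decide +kernel)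
def q14491 : Q := Q.p (nat_lit 0x80000280000e00002000000000000000000000000000000000000000000000000000000000000000) (nat_lit 0x40000100000170000100000000000000000000000000000000000000000000000000000000000000000000) (nat_lit 4)
theorem c14491 : QOK q14491 := cut [q14489] ⟨c14489, trivial⟩ (nd (nat_lit 320) (nat_lit 0) (cs (lf (nat_lit 29) (nat_lit 253)) (nd (nat_lit 294) (nat_lit 0) (cs (lf (nat_lit 2) (nat_lit 294)) (rf (nat_lit 0)))))) q14491 (by decide +kernel)
def q14502 : Q := Q.p (nat_lit 0x3c0000100000000000000000000000000000000000000000000000000000000000000000000) (nat_lit 0x8000038000400000000000400001000000000000000000000000000000000000000000000000000000000) (nat_lit 4)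
theorem c14502 : QOK q14502 := cut [q14500] ⟨c14500, trivial⟩ (nd (nat_lit 316) (nat_lit 0) (cs (lf (nat_lit 11) (nat_lit 293)) (nd (nat_lit 317) (nat_lit 0) (cs (lf (nat_lit 6) (nat_lit 294)) (rf (nat_lit 0)))))) q14502 (by decide +kernel)
def q14508 : Q := Q.p (nat_lit 0xf0000000000000000000000000000000000000000000000000000000000000000000000000) (nat_lit 0x7000008000070000000000000000000000000000000000000000000000000000000000000000000) (nat_lit 4)
theorem c14508 : QOK q14508 := cut [q14507] ⟨c14507, trivial⟩ (nd (nat_lit 269) (nat_lit 0) (cs (lf (nat_lit 22) (nat_lit 269)) (rf (nat_lit 0)))) q14508 (by decide +kernel)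
def q14517 : Q := Q.p (nat_lit 0xc0000f00000000000000000000000000000000000000000000000000000000000000000000) (nat_lit 0x20000000000000000600001000004000000000000000000000000000000000000000000000000000) (nat_lit 3)
theorem c14517 : QOK q14517 := cut [q14516] ⟨c14516, trivial⟩ (nd (nat_lit 250) (nat_lit 0) (cs (lf (nat_lit 23) (nat_lit 249)) (rf (nat_lit 0)))) q14517 (by decide +kernel)
def q14536 : Q := Q.p (nat_lit 0x80000200000c00000000000000000000000000000000000000000000000000000000000000000000) (nat_lit 0x140000700001c000020000000000100000000001000000000000000000000000000000000000000000000000000000000000000) (nat_lit 6)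
theorem c14536 : QOK q14536 := cut [q12777] ⟨c12777, trivial⟩ (nd (nat_lit 341) (nat_lit 0) (cs (lf (nat_lit 47) (nat_lit 252)) (nd (nat_lit 363) (nat_lit 0) (cs (lf (nat_lit 46) (nat_lit 274)) (nd (nat_lit 384) (nat_lit 0) (cs (lf (nat_lit 40) (nat_lit 296)) (nd (nat_lit 386) (nat_lit 0) (cs (lf (nat_lit 28) (nat_lit 297)) (rf (nat_lit 0)))))))))) q14536 (by decide +kernel)
def q14624 : Q := Q.p (nat_lit 0x1e00000000000000000000000000000000000000000000000000000000000000000000) (nat_lit 0xe00000100000e00000000000000000000000000000000000000000000000000000000000000) (nat_lit 4)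
theorem c14624 : QOK q14624 := cut [q2057] ⟨c2057, trivial⟩ (nd (nat_lit 250) (nat_lit 0) (cs (lf (nat_lit 22) (nat_lit 250)) (nd (nat_lit 272) (nat_lit 0) (cs (lf (nat_lit 23) (nat_lit 249)) (rf (nat_lit 0)))))) q14624 (by decide +kernel)
def q14626 : Q := Q.p (nat_lit 0x100001c00002000000000000000000000000000000000000000000000000000000000000000) (nat_lit 0x80006000001800000000000000000000000000000000000000000000000000000000000000) (nat_lit 3)
theorem c14626 : QOK q14626 := cut [q13254] ⟨c13254, trivial⟩ (nd (nat_lit 277) (nat_lit 0) (cs (lf (nat_lit 11) (nat_lit 273)) (rf (nat_lit 0)))) q14626 (by decide +kernel)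
def q14633 : Q := Q.p (nat_lit 0x100001c00002000000000000000000000000000000000000000000000000000000000000000) (nat_lit 0x700003e00006e0000000001c00002000000000000000000000000000000000000000000000000000000000) (nat_lit 6)
theorem c14633 : QOK q14633 := cut [q14627, q13164, q14629] ⟨c14627, c13164, c14629, trivial⟩ (nd (nat_lit 318) (nat_lit 0) (cs (lf (nat_lit 30) (nat_lit 252)) (nd (nat_lit 319) (nat_lit 0) (cs (nd (nat_lit 252) (nat_lit 0) (cs (lf (nat_lit 29) (nat_lit 252)) (rf (nat_lit 0)))) (nd (nat_lit 320) (nat_lit 0) (cs (rf (nat_lit 1)) (nd (nat_lit 295) (nat_lit 0) (cs (lf (nat_lit 18) (nat_lit 295)) (rf (nat_lit 2)))))))))) q14633 (by decide +kernel)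
def q14654 : Q := Q.p (nat_lit 0x80001c00002000000000000000000000000000000000000000000000000000000000000000) (nat_lit 0x100006000039000000000000000000000000000000000000000000000000000000000000000) (nat_lit 4)
theorem c14654 : QOK q14654 := cut [q14653] ⟨c14653, trivial⟩ (nd (nat_lit 277) (nat_lit 0) (cs (lf (nat_lit 10) (nat_lit 273)) (rf (nat_lit 0)))) q14654 (by decide +kernel)
def q14658 : Q := Q.p (nat_lit 0xe00002400000000000000000000000000000000000000000000000000000000000000) (nat_lit 0x700000180001200000000000000000000000000000000000000000000000000000000000000) (nat_lit 4)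
theorem c14658 : QOK q14658 := cut [q14657] ⟨c14657, trivial⟩ (nd (nat_lit 272) (nat_lit 0) (cs (lf (nat_lit 23) (nat_lit 249)) (rf (nat_lit 0)))) q14658 (by decide +kernel)
def q14678 : Q := Q.p (nat_lit 0x200000800002000018000000000000000000000000000000000000000000000000000) (nat_lit 0x80000000000000001800064000010000000000000000000000000000000000000000000000) (nat_lit 4)
theorem c14678 : QOK q14678 := cut [q3343] ⟨c3343, trivial⟩ (nd (nat_lit 206) (nat_lit 0) (cs (lf (nat_lit 47) (nat_lit 184)) (nd (nat_lit 228) (nat_lit 0) (cs (lf (nat_lit 42) (nat_lit 206)) (rf (nat_lit 0)))))) q14678 (by decide +kernel)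
def q14688 : Q := Q.p (nat_lit 0x3c00000000000000000000000000000000000000000000000000000000000000000000) (nat_lit 0x100001c00000200018000020000080000000000000000000000000000000000000000000000000000) (nat_lit 5)
theorem c14688 : QOK q14688 := cut [q14641] ⟨c14641, trivial⟩ (nd (nat_lit 255) (nat_lit 0) (cs (lf (nat_lit 17) (nat_lit 252)) (nd (nat_lit 299) (nat_lit 0) (cs (lf (nat_lit 5) (nat_lit 274)) (nd (nat_lit 298) (nat_lit 0) (cs (lf (nat_lit 0) (nat_lit 273)) (rf (nat_lit 0)))))))) q14688 (by decide +kernel)
def q14698 : Q := Q.p (nat_lit 0x100000680000600001000000000000000000000000000000000000000000000000000000000000000) (nat_lit 0x8000230000100000000000000000000000000000000000000000000000000000000000000000000000000) (nat_lit 3)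
theorem c14698 : QOK q14698 := cut [q14697] ⟨c14697, trivial⟩ (nd (nat_lit 317) (nat_lit 0) (cs (lf (nat_lit 30) (nat_lit 251)) (rf (nat_lit 0)))) q14698 (by decide +kernel)
def q14706 : Q := Q.p (nat_lit 0xf00000400000000000000000000000000000000000000000000000000000000000000) (nat_lit 0x200000e0001000000000001000004000000000000000000000000000000000000000000000000000) (nat_lit 4)
theorem c14706 : QOK q14706 := cut [q14516] ⟨c14516, trivial⟩ (nd (nat_lit 294) (nat_lit 0) (cs (lf (nat_lit 11) (nat_lit 271)) (nd (nat_lit 295) (nat_lit 0) (cs (lf (nat_lit 6) (nat_lit 272)) (rf (nat_lit 0)))))) q14706 (by decide +kernel)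
def q14711 : Q := Q.p (nat_lit 0xc0000c00000000000000000000000000000000000000000000000000000000000000000000) (nat_lit 0x30001300000000000000000000000000000000000000000000000000000000000000000000) (nat_lit 3)
theorem c14711 : QOK q14711 := cut [q14489] ⟨c14489, trivial⟩ (nd (nat_lit 273) (nat_lit 0) (cs (lf (nat_lit 6) (nat_lit 272)) (rf (nat_lit 0)))) q14711 (by decide +kernel)
def q14726 : Q := Q.p (nat_lit 0x180000600000c00002000000000000000000000000000000000000000000000000000000000000000) (nat_lit 0x39c000e700001c0000300000000000000000000000000000000000000000000000000000000000000000000) (nat_lit 9)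
theorem c14726 : QOK q14726 := cut [q14721] ⟨c14721, trivial⟩ (nd (nat_lit 272) (nat_lit 0) (cs (lf (nat_lit 1) (nat_lit 272)) (nd (nat_lit 318) (nat_lit 0) (cs (lf (nat_lit 41) (nat_lit 252)) (nd (nat_lit 317) (nat_lit 0) (cs (lf (nat_lit 12) (nat_lit 294)) (nd (nat_lit 295) (nat_lit 0) (cs (lf (nat_lit 23) (nat_lit 294)) (nd (nat_lit 338) (nat_lit 0) (cs (lf (nat_lit 10) (nat_lit 316)) (rf (nat_lit 0)))))))))))) q14726 (by decide +kernel)
def q14731 : Q := Q.p (nat_lit 0x600000c00000000000000000000000000000000000000000000000000000000000000000000) (nat_lit 0x1900000300000000000000000000000000000000000000000000000000000000000000000000) (nat_lit 3)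
theorem c14731 : QOK q14731 := cut [q11636] ⟨c11636, trivial⟩ (nd (nat_lit 299) (nat_lit 0) (cs (lf (nat_lit 18) (nat_lit 274)) (rf (nat_lit 0)))) q14731 (by decide +kernel)
def q14739 : Q := Q.p (nat_lit 0x600000c00002000000000010000000000000000000000000000000000000000000000000000) (nat_lit 0x380000f0000180000300001000004000000000000000000000000000000000000000000000000000000000) (nat_lit 7)
theorem c14739 : QOK q14739 := cut [q14604] ⟨c14604, trivial⟩ (nd (nat_lit 273) (nat_lit 0) (cs (lf (nat_lit 0) (nat_lit 272)) (nd (nat_lit 252) (nat_lit 0) (cs (lf (nat_lit 25) (nat_lit 208)) (nd (nat_lit 319) (nat_lit 0) (cs (lf (nat_lit 42) (nat_lit 252)) (nd (nat_lit 318) (nat_lit 0) (cs (lf (nat_lit 41) (nat_lit 252)) (nd (nat_lit 317) (nat_lit 0) (cs (lf (nat_lit 12) (nat_lit 294)) (rf (nat_lit 0)))))))))))) q14739 (by decide +kernel)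
def q14744 : Q := Q.p (nat_lit 0x600000c00002000000000010000000000000000000000000000000000000000000000000000) (nat_lit 0x300001e0001900000000001000004000000000000000000000000000000000000000000000000000000000) (nat_lit 6)
theorem c14744 : QOK q14744 := cut [q14740] ⟨c14740, trivial⟩ (nd (nat_lit 299) (nat_lit 0) (cs (lf (nat_lit 18) (nat_lit 274)) (nd (nat_lit 252) (nat_lit 0) (cs (lf (nat_lit 25) (nat_lit 208)) (nd (nat_lit 319) (nat_lit 0) (cs (lf (nat_lit 42) (nat_lit 252)) (nd (nat_lit 318) (nat_lit 0) (cs (lf (nat_lit 41) (nat_lit 252)) (rf (nat_lit 0)))))))))) q14744 (by decide +kernel)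
def q14748 : Q := Q.p (nat_lit 0x80000300000b00000400000000000000000000000000000000000000000000000000000000000000000000) (nat_lit 0x8000020000000000000000400001200000000000000000000000000000000000000000000000000000000000000000000) (nat_lit 3)
theorem c14748 : QOK q14748 := cut [q14747] ⟨c14747, trivial⟩ (nd (nat_lit 298) (nat_lit 0) (cs (lf (nat_lit 23) (nat_lit 273)) (rf (nat_lit 0)))) q14748 (by decide +kernel)
def q14764 : Q := Q.p (nat_lit 0x80000e00000000000000000000000000000000000000000000000000000000000000000000) (nat_lit 0x170001000000000000000000000000000000000000000000000000000000000000000000000) (nat_lit 3)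
theorem c14764 : QOK q14764 := cut [q14763] ⟨c14763, trivial⟩ (nd (nat_lit 294) (nat_lit 0) (cs (lf (nat_lit 6) (nat_lit 272)) (rf (nat_lit 0)))) q14764 (by decide +kernel)
def q14767 : Q := Q.p (nat_lit 0x200000c00001000000000000000000000000000000000000000000000000000000000) (nat_lit 0x20000080000000000000002000004000010000000000000000000000000000000000000000000000) (nat_lit 3)
theorem c14767 : QOK q14767 := cut [q14766] ⟨c14766, trivial⟩ (nd (nat_lit 206) (nat_lit 0) (cs (lf (nat_lit 24) (nat_lit 184)) (rf (nat_lit 0)))) q14767 (by decide +kernel)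
def q14783 : Q := Q.p (nat_lit 0x20000000000e00003800000000000000000000000000000000000000000000000000000000000000) (nat_lit 0x80000000000600001800000000000000000000000000000000000000000000000000000000) (nat_lit 3)
theorem c14783 : QOK q14783 := cut [q14782] ⟨c14782, trivial⟩ (nd (nat_lit 250) (nat_lit 0) (cs (lf (nat_lit 0) (nat_lit 249)) (rf (nat_lit 0)))) q14783 (by decide +kernel)
def q14790 : Q := Q.p (nat_lit 0x340000c00003000000000000000000000000000000000000000000000000000000000000000) (nat_lit 0x60000180000080000000000000000000000000000000000000000000000000000000000000000000000000) (nat_lit 3)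
theorem c14790 : QOK q14790 := cut [q14789] ⟨c14789, trivial⟩ (nd (nat_lit 319) (nat_lit 0) (cs (lf (nat_lit 42) (nat_lit 252)) (rf (nat_lit 0)))) q14790 (by decide +kernel)
def q14798 : Q := Q.p (nat_lit 0xe0000100000f00002800000000000000000000000000000000000000000000000000000000000000) (nat_lit 0x44000118000660000000000000000000000000000000000000000000000000000000000000000000000000) (nat_lit 5)
theorem c14798 : QOK q14798 := cut [q14796] ⟨c14796, trivial⟩ (nd (nat_lit 297) (nat_lit 0) (cs (lf (nat_lit 5) (nat_lit 272)) (nd (nat_lit 320) (nat_lit 0) (cs (lf (nat_lit 29) (nat_lit 253)) (rf (nat_lit 0)))))) q14798 (by decide +kernel)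
def q14833 : Q := Q.p (nat_lit 0x20000580001800002000000000000000000000000000000000000000000000000000000000000000) (nat_lit 0x40000310000200000000000000000000000000000000000000000000000000000000000000000000000000) (nat_lit 3)
theorem c14833 : QOK q14833 := cut [q14832] ⟨c14832, trivial⟩ (nd (nat_lit 320) (nat_lit 0) (cs (lf (nat_lit 42) (nat_lit 253)) (rf (nat_lit 0)))) q14833 (by decide +kernel)
def q14848 : Q := Q.p (nat_lit 0xe0000180000800002000000000000000000000000000000000000000000000000000000000000000) (nat_lit 0xc0000300000200000000000000000000000000000000000000000000000000000000000000000000000000) (nat_lit 3)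
theorem c14848 : QOK q14848 := cut [q12799] ⟨c12799, trivial⟩ (nd (nat_lit 320) (nat_lit 0) (cs (rf (nat_lit 0)) (lf (nat_lit 18) (nat_lit 295)))) q14848 (by decide +kernel)
def q14864 : Q := Q.p (nat_lit 0x40000e00003000000000000000000000000000000000000000000000000000000000000000) (nat_lit 0x80007000000800000000000000000000000000000000000000000000000000000000000000) (nat_lit 3)
theorem c14864 : QOK q14864 := cut [q1257] ⟨c1257, trivial⟩ (nd (nat_lit 276) (nat_lit 0) (cs (lf (nat_lit 10) (nat_lit 272)) (rf (nat_lit 0)))) q14864 (by decide +kernel)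
def q14879 : Q := Q.p (nat_lit 0xf00003000000000000000000000000000000000000000000000000000000000000000) (nat_lit 0xe00007000000800000000000000000000000000000000000000000000000000000000000000) (nat_lit 4)
theorem c14879 : QOK q14879 := cut [q1257] ⟨c1257, trivial⟩ (nd (nat_lit 298) (nat_lit 0) (cs (lf (nat_lit 4) (nat_lit 272)) (nd (nat_lit 276) (nat_lit 0) (cs (lf (nat_lit 5) (nat_lit 273)) (rf (nat_lit 0)))))) q14879 (by decide +kernel)
def q14892 : Q := Q.p (nat_lit 0xc00003000004000010000000000000000000000000000000000000000000000000000) (nat_lit 0x10000060000180000200000800002000028000080000000000000000000000000000000000000000000000) (nat_lit 6)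
theorem c14892 : QOK q14892 := cut [q13645] ⟨c13645, trivial⟩ (nd (nat_lit 187) (nat_lit 0) (cs (lf (nat_lit 34) (nat_lit 186)) (nd (nat_lit 295) (nat_lit 0) (cs (lf (nat_lit 40) (nat_lit 207)) (nd (nat_lit 296) (nat_lit 0) (cs (lf (nat_lit 41) (nat_lit 229)) (nd (nat_lit 229) (nat_lit 0) (cs (lf (nat_lit 47) (nat_lit 207)) (rf (nat_lit 0)))))))))) q14892 (by decide +kernel)
def q14897 : Q := Q.p (nat_lit 0x300003c00000000000000000000000000000000000000000000000000000000000000) (nat_lit 0x80000000000000001800004000010000000000000000000000000000000000000000000000) (nat_lit 3)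
theorem c14897 : QOK q14897 := cut [q14896] ⟨c14896, trivial⟩ (nd (nat_lit 228) (nat_lit 0) (cs (lf (nat_lit 23) (nat_lit 227)) (rf (nat_lit 0)))) q14897 (by decide +kernel)
def q14912 : Q := Q.p (nat_lit 0x180000300000000000000000000000000000000000000000000000000000000000000000000000000) (nat_lit 0x6000004c0000000000000000000000000000000000000000000000000000000000000000000000000) (nat_lit 3)
theorem c14912 : QOK q14912 := cut [q14473] ⟨c14473, trivial⟩ (nd (nat_lit 295) (nat_lit 0) (cs (lf (nat_lit 0) (nat_lit 294)) (rf (nat_lit 0)))) q14912 (by decide +kernel)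
def q14951 : Q := Q.p (nat_lit 0x80000300000800002000000000000000000000000000000000000000000000000000000000000000) (nat_lit 0x400007000004c0000000000000000000000000000000000000000000000000000000000000000000000000) (nat_lit 4)
theorem c14951 : QOK q14951 := cut [q11808] ⟨c11808, trivial⟩ (nd (nat_lit 320) (nat_lit 0) (cs (lf (nat_lit 29) (nat_lit 253)) (nd (nat_lit 321) (nat_lit 0) (cs (lf (nat_lit 18) (nat_lit 296)) (rf (nat_lit 0)))))) q14951 (by decide +kernel)
def q14956 : Q := Q.p (nat_lit 0x40000b00003400000000000000000000000000000000000000000000000000000000000000) (nat_lit 0x10000000001000000800002000008000000000000000000000000000000000000000000000000000) (nat_lit 3)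
theorem c14956 : QOK q14956 := cut [q12678] ⟨c12678, trivial⟩ (nd (nat_lit 251) (nat_lit 0) (cs (lf (nat_lit 5) (nat_lit 250)) (rf (nat_lit 0)))) q14956 (by decide +kernel)
def q14984 : Q := Q.p (nat_lit 0x300000c00003000000000000000000000000000000000000000000000000000000000000000) (nat_lit 0x60000780000c80000300000000000000000000000000000000000000000000000000000000000000000000) (nat_lit 6)
theorem c14984 : QOK q14984 := cut [q2560] ⟨c2560, trivial⟩ (nd (nat_lit 319) (nat_lit 0) (cs (lf (nat_lit 42) (nat_lit 252)) (nd (nat_lit 320) (nat_lit 0) (cs (lf (nat_lit 29) (nat_lit 253)) (nd (nat_lit 321) (nat_lit 0) (cs (lf (nat_lit 18) (nat_lit 296)) (nd (nat_lit 298) (nat_lit 0) (cs (rf (nat_lit 0)) (lf (nat_lit 0) (nat_lit 295)))))))))) q14984 (by decide +kernel)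
def q14985 : Q := Q.p (nat_lit 0x2d00003000000000000000000000000000000000000000000000000000000000000000) (nat_lit 0x1080000e00000000000000000000000000000000000000000000000000000000000000) (nat_lit 3)
theorem c14985 : QOK q14985 := cut [q14355] ⟨c14355, trivial⟩ (nd (nat_lit 251) (nat_lit 0) (cs (lf (nat_lit 19) (nat_lit 251)) (rf (nat_lit 0)))) q14985 (by decide +kernel)
def q14992 : Q := Q.p (nat_lit 0x60000000000f00002000000000000000000000000000000000000000000000000000000000000000000000) (nat_lit 0x10000070000190000600000000000000000000000000000000000000000000000000000000000000000000000000000000) (nat_lit 5)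
theorem c14992 : QOK q14992 := cut [q14990] ⟨c14990, trivial⟩ (nd (nat_lit 321) (nat_lit 0) (cs (lf (nat_lit 5) (nat_lit 296)) (nd (nat_lit 343) (nat_lit 0) (cs (lf (nat_lit 41) (nat_lit 276)) (rf (nat_lit 0)))))) q14992 (by decide +kernel)
def q15010 : Q := Q.p (nat_lit 0x1e0000000000000000000000000000000000000000000000000000000000000000000000000000000000000) (nat_lit 0xe000010000e00000000000000000000000000000000000000000000000000000000000000000000000000000000) (nat_lit 4)
theorem c15010 : QOK q15010 := cut [q15006] ⟨c15006, trivial⟩ (nd (nat_lit 362) (nat_lit 0) (cs (nd (nat_lit 340) (nat_lit 0) (cs (rf (nat_lit 0)) (lf (nat_lit 11) (nat_lit 339)))) (lf (nat_lit 10) (nat_lit 340)))) q15010 (by decide +kernel)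
def q15034 : Q := Q.p (nat_lit 0xe0000200000000000000000000000000000000000000000000000000000000000000000000000000000000) (nat_lit 0x110001c00000000000000000000000000000000000000000000000000000000000000000000000000000000) (nat_lit 3)
theorem c15034 : QOK q15034 := cut [q15033] ⟨c15033, trivial⟩ (nd (nat_lit 322) (nat_lit 0) (cs (lf (nat_lit 12) (nat_lit 318)) (rf (nat_lit 0)))) q15034 (by decide +kernel)
def q15075 : Q := Q.p (nat_lit 0xc0000f00003000000000000000000000000000000000000000000000000000000000000000) (nat_lit 0xe00001800006000000000000000000000000000000000000000000000000000) (nat_lit 4)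
theorem c15075 : QOK q15075 := cut [q15073] ⟨c15073, trivial⟩ (nd (nat_lit 250) (nat_lit 0) (cs (lf (nat_lit 23) (nat_lit 249)) (nd (nat_lit 228) (nat_lit 0) (cs (lf (nat_lit 24) (nat_lit 206)) (rf (nat_lit 0)))))) q15075 (by decide +kernel)
def q15108 : Q := Q.p (nat_lit 0x100000000001c00002000000000000000000000000000000000000000000000000000000000000000) (nat_lit 0x40000000003e00000200000000000000000000000000000000000000000000000000000000000000000000) (nat_lit 4)
theorem c15108 : QOK q15108 := cut [q15107] ⟨c15107, trivial⟩ (nd (nat_lit 298) (nat_lit 0) (cs (lf (nat_lit 42) (nat_lit 253)) (rf (nat_lit 0)))) q15108 (by decide +kernel)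
def q15116 : Q := Q.p (nat_lit 0x1c0000000001c00003000000000000000000000000000000000000000000000000000000000000000) (nat_lit 0x2e000030000ee0000200000c00000000000000000000000000000000000000000000000000000000000000) (nat_lit 5)
theorem c15116 : QOK q15116 := cut [q13069, q14665] ⟨c13069, c14665, trivial⟩ (nd (nat_lit 317) (nat_lit 0) (cs (rf (nat_lit 0)) (cs (nd (nat_lit 250) (nat_lit 0) (cs (lf (nat_lit 1) (nat_lit 250)) (nd (nat_lit 298) (nat_lit 0) (cs (lf (nat_lit 17) (nat_lit 295)) (rf (nat_lit 1)))))) (nd (nat_lit 298) (nat_lit 0) (cs (lf (nat_lit 17) (nat_lit 295)) (nd (nat_lit 339) (nat_lit 0) (cs (lf (nat_lit 11) (nat_lit 316)) (nd (nat_lit 295) (nat_lit 0) (cs (lf (nat_lit 23) (nat_lit 294)) (lf (nat_lit 33) (nat_lit 251))))))))))) q15116 (by decide +kernel)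
def q15121 : Q := Q.p (nat_lit 0x1c0000000001c00003000000000000000000000000000000000000000000000000000000000000000) (nat_lit 0x18000220001e00000200000c00000000000000000000000000000000000000000000000000000000000000) (nat_lit 6)
theorem c15121 : QOK q15121 := cut [q15118] ⟨c15118, trivial⟩ (nd (nat_lit 250) (nat_lit 0) (cs (lf (nat_lit 1) (nat_lit 250)) (nd (nat_lit 340) (nat_lit 0) (cs (lf (nat_lit 38) (nat_lit 252)) (nd (nat_lit 321) (nat_lit 0) (cs (lf (nat_lit 11) (nat_lit 317)) (rf (nat_lit 0)))))))) q15121 (by decide +kernel)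
def q15137 : Q := Q.p (nat_lit 0xf0000300000000000000000000000000000000000000000000000) (nat_lit 0x8000060000000000000000400001000000000000000000000000000000000000) (nat_lit 3)
theorem c15137 : QOK q15137 := cut [q228] ⟨c228, trivial⟩ (nd (nat_lit 233) (nat_lit 0) (cs (lf (nat_lit 5) (nat_lit 208)) (rf (nat_lit 0)))) q15137 (by decide +kernel)
def q15141 : Q := Q.p (nat_lit 0x78000000000000000000000000000000000000000000000000000) (nat_lit 0x3800004000380000000000000000000000000000000000000000000000) (nat_lit 4)
theorem c15141 : QOK q15141 := cut [q7862] ⟨c7862, trivial⟩ (nd (nat_lit 188) (nat_lit 0) (cs (lf (nat_lit 17) (nat_lit 185)) (nd (nat_lit 206) (nat_lit 0) (cs (lf (nat_lit 16) (nat_lit 184)) (rf (nat_lit 0)))))) q15141 (by decide +kernel)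
def q15151 : Q := Q.p (nat_lit 0xa00000800002000008000000000000000000000000000000000000000000000000000) (nat_lit 0x140001500000600000000000000000000000000000000000000000000000000000000000000) (nat_lit 4)
theorem c15151 : QOK q15151 := cut [q1186] ⟨c1186, trivial⟩ (nd (nat_lit 272) (nat_lit 0) (cs (lf (nat_lit 41) (nat_lit 206)) (nd (nat_lit 274) (nat_lit 0) (cs (lf (nat_lit 29) (nat_lit 207)) (rf (nat_lit 0)))))) q15151 (by decide +kernel)
def q15168 : Q := Q.p (nat_lit 0x78000100000400000000000000000000000000000000000000000) (nat_lit 0x3000000400008000080000300000c000000000000000000000000000000) (nat_lit 5)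
theorem c15168 : QOK q15168 := cut [q1889] ⟨c1889, trivial⟩ (nd (nat_lit 232) (nat_lit 0) (cs (lf (nat_lit 5) (nat_lit 207)) (nd (nat_lit 145) (nat_lit 0) (cs (lf (nat_lit 34) (nat_lit 144)) (nd (nat_lit 144) (nat_lit 0) (cs (rf (nat_lit 0)) (lf (nat_lit 35) (nat_lit 122)))))))) q15168 (by decide +kernel)
def q15229 : Q := Q.p (nat_lit 0x2000010000040000100000400000000000000000000000000000000000000000000000000000000) (nat_lit 0x280000c000020000000000000000000000000000000000000000000000000000000000000000000000000) (nat_lit 3)
theorem c15229 : QOK q15229 := cut [q15227] ⟨c15227, trivial⟩ (nd (nat_lit 315) (nat_lit 0) (cs (rf (nat_lit 0)) (lf (nat_lit 28) (nat_lit 226)))) q15229 (by decide +kernel)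
def q15253 : Q := Q.p (nat_lit 0xf00000000000000000000000000000000000000000000000000000000000000) (nat_lit 0x770000080000000000000000000000000000000000000000000000000000000000000) (nat_lit 4)
theorem c15253 : QOK q15253 := cut [q15251] ⟨c15251, trivial⟩ (nd (nat_lit 269) (nat_lit 0) (cs (lf (nat_lit 10) (nat_lit 247)) (nd (nat_lit 247) (nat_lit 0) (cs (lf (nat_lit 11) (nat_lit 246)) (rf (nat_lit 0)))))) q15253 (by decide +kernel)
def q15264 : Q := Q.p (nat_lit 0xc0000000003c000000000000000000000000000000000000000000000000000) (nat_lit 0x20000080000300000000001800000000010000000000000000000000000000000000000000000000) (nat_lit 4)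
theorem c15264 : QOK q15264 := cut [q15262] ⟨c15262, trivial⟩ (nd (nat_lit 228) (nat_lit 0) (cs (lf (nat_lit 11) (nat_lit 205)) (nd (nat_lit 273) (nat_lit 0) (cs (lf (nat_lit 24) (nat_lit 184)) (rf (nat_lit 0)))))) q15264 (by decide +kernel)
def q15267 : Q := Q.p (nat_lit 0xa00000c00000000000000000000000000000000000000000000000000000000000000) (nat_lit 0x1500000300000000000000000000000000000000000000000000000000000000000000) (nat_lit 3)
theorem c15267 : QOK q15267 := cut [q12946] ⟨c12946, trivial⟩ (nd (nat_lit 274) (nat_lit 0) (cs (lf (nat_lit 18) (nat_lit 250)) (rf (nat_lit 0)))) q15267 (by decide +kernel)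
def q15322 : Q := Q.p (nat_lit 0x200000c00001000000000000000000000000000000000000000000000000000000000) (nat_lit 0x20000080000100000000000000004000010000000000000000000000000000000000000000000000) (nat_lit 3)
theorem c15322 : QOK q15322 := cut [q15321] ⟨c15321, trivial⟩ (nd (nat_lit 295) (nat_lit 0) (cs (lf (nat_lit 42) (nat_lit 228)) (rf (nat_lit 0)))) q15322 (by decide +kernel)
def q15339 : Q := Q.p (nat_lit 0x800000e00000000000000000000000000000000000000000000000000000000000000) (nat_lit 0x700001100000000000000000000000000000000000000000000000000000000000000) (nat_lit 3)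
theorem c15339 : QOK q15339 := cut [q15338] ⟨c15338, trivial⟩ (nd (nat_lit 274) (nat_lit 0) (cs (lf (nat_lit 3) (nat_lit 249)) (rf (nat_lit 0)))) q15339 (by decide +kernel)
def q15361 : Q := Q.p (nat_lit 0xa00003800000000078000000000000000000000000000000000000000000000000000) (nat_lit 0x20000080000400000000034000000000040000000000000000000000000000000000000000000000) (nat_lit 4)
theorem c15361 : QOK q15361 := cut [q15359] ⟨c15359, trivial⟩ (nd (nat_lit 232) (nat_lit 0) (cs (lf (nat_lit 5) (nat_lit 207)) (nd (nat_lit 230) (nat_lit 0) (cs (lf (nat_lit 24) (nat_lit 186)) (rf (nat_lit 0)))))) q15361 (by decide +kernel)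
def q15387 : Q := Q.p (nat_lit 0x800003800000000000000000000000000000000000000000000000000000000000000) (nat_lit 0x7400000400000000000000000000000000000000000000000000000000000000000000) (nat_lit 3)
theorem c15387 : QOK q15387 := cut [q15386] ⟨c15386, trivial⟩ (nd (nat_lit 276) (nat_lit 0) (cs (lf (nat_lit 0) (nat_lit 250)) (rf (nat_lit 0)))) q15387 (by decide +kernel)
def q15395 : Q := Q.p (nat_lit 0x800002c00001000004000010000000000000000000000000000000000000000000000) (nat_lit 0x1480001200000000000000000000000000000000000000000000000000000000000000) (nat_lit 3)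
theorem c15395 : QOK q15395 := cut [q15394] ⟨c15394, trivial⟩ (nd (nat_lit 249) (nat_lit 0) (cs (lf (nat_lit 41) (nat_lit 183)) (rf (nat_lit 0)))) q15395 (by decide +kernel)
def q15421 : Q := Q.p (nat_lit 0xc00003000024000090000000000000000000000000000000000000000000000000000) (nat_lit 0xce0007380008e00000000000000000000000000000000000000000000000000000000000000) (nat_lit 8)
theorem c15421 : QOK q15421 := cut [q15415] ⟨c15415, trivial⟩ (nd (nat_lit 273) (nat_lit 0) (cs (lf (nat_lit 41) (nat_lit 207)) (nd (nat_lit 272) (nat_lit 0) (cs (lf (nat_lit 12) (nat_lit 249)) (nd (nat_lit 293) (nat_lit 0) (cs (lf (nat_lit 10) (nat_lit 271)) (nd (nat_lit 250) (nat_lit 0) (cs (lf (nat_lit 23) (nat_lit 249)) (nd (nat_lit 276) (nat_lit 0) (cs (lf (nat_lit 22) (nat_lit 250)) (nd (nat_lit 298) (nat_lit 0) (cs (lf (nat_lit 5) (nat_lit 273)) (rf (nat_lit 0)))))))))))))) q15421 (by decide +kernel)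
def q15448 : Q := Q.p (nat_lit 0x80000200000c00003000000000000000000000000000000000000) (nat_lit 0x20001c000010000000000000000000000000000000) (nat_lit 3)
theorem c15448 : QOK q15448 := cut [q15447] ⟨c15447, trivial⟩ (nd (nat_lit 146) (nat_lit 0) (cs (lf (nat_lit 35) (nat_lit 123)) (rf (nat_lit 0)))) q15448 (by decide +kernel)
def q15467 : Q := Q.p (nat_lit 0x8000020000000000f0000000000000000000000000000000000000000000000000000) (nat_lit 0xe000100000100000000000000000000000000000000000000000000000) (nat_lit 3)
theorem c15467 : QOK q15467 := cut [q15466] ⟨c15466, trivial⟩ (nd (nat_lit 230) (nat_lit 0) (cs (lf (nat_lit 11) (nat_lit 207)) (rf (nat_lit 0)))) q15467 (by decide +kernel)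
def q15485 : Q := Q.p (nat_lit 0x28000030000000000000000000000000000000000000000000000000000) (nat_lit 0x5400000c000000000000000000000000000000000000000000000000000) (nat_lit 3)
theorem c15485 : QOK q15485 := cut [q15484] ⟨c15484, trivial⟩ (nd (nat_lit 232) (nat_lit 0) (cs (lf (nat_lit 18) (nat_lit 208)) (rf (nat_lit 0)))) q15485 (by decide +kernel)
def q15486 : Q := Q.p (nat_lit 0x28000070000000000000000000000000000000000000000000000000000) (nat_lit 0x46000180000000000000000000000000000000000000000000000000000) (nat_lit 3)
theorem c15486 : QOK q15486 := cut [q8148] ⟨c8148, trivial⟩ (nd (nat_lit 211) (nat_lit 0) (cs (lf (nat_lit 5) (nat_lit 208)) (rf (nat_lit 0)))) q15486 (by decide +kernel)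
def q15501 : Q := Q.p (nat_lit 0x800003000000000030000000000000000000000000000000000000000000000000000) (nat_lit 0x1000004000000000080000000000c0000000000000000000000000000000000000000000000) (nat_lit 3)
theorem c15501 : QOK q15501 := cut [q6232] ⟨c6232, trivial⟩ (nd (nat_lit 231) (nat_lit 0) (cs (lf (nat_lit 47) (nat_lit 186)) (rf (nat_lit 0)))) q15501 (by decide +kernel)
def q15513 : Q := Q.p (nat_lit 0x1e00002000000000000000000000000000000000000000000000000000000000000000) (nat_lit 0x40000100000e00000000000000008000020000000000000000000000000000000000000000000000000000) (nat_lit 4)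
theorem c15513 : QOK q15513 := cut [q15512] ⟨c15512, trivial⟩ (nd (nat_lit 298) (nat_lit 0) (cs (lf (nat_lit 5) (nat_lit 273)) (rf (nat_lit 0)))) q15513 (by decide +kernel)
def q15514 : Q := Q.p (nat_lit 0x1f00002000000000000000000000000000000000000000000000000000000000000000) (nat_lit 0x6080001800000000000000000000000000000000000000000000000000000000000000) (nat_lit 3)
theorem c15514 : QOK q15514 := cut [q1257] ⟨c1257, trivial⟩ (nd (nat_lit 252) (nat_lit 0) (cs (lf (nat_lit 12) (nat_lit 249)) (rf (nat_lit 0)))) q15514 (by decide +kernel)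
def q15524 : Q := Q.p (nat_lit 0x80000200000800003000008000000000000000000000000000000000000000000000000000000000000000) (nat_lit 0x20000000000100000400000000000000020000080000000000000000000000000000000000000000000000000000) (nat_lit 3)
theorem c15524 : QOK q15524 := cut [q14641] ⟨c14641, trivial⟩ (nd (nat_lit 298) (nat_lit 0) (cs (lf (nat_lit 42) (nat_lit 276)) (rf (nat_lit 0)))) q15524 (by decide +kernel)
def q15536 : Q := Q.p (nat_lit 0xc00002000008000020000000000000000000000000000000000000000000000000000) (nat_lit 0x1000000000040000180000400000000000000000000000000000000000000000) (nat_lit 3)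
theorem c15536 : QOK q15536 := cut [q1586] ⟨c1586, trivial⟩ (nd (nat_lit 188) (nat_lit 0) (cs (rf (nat_lit 0)) (lf (nat_lit 34) (nat_lit 187)))) q15536 (by decide +kernel)
def q15561 : Q := Q.p (nat_lit 0x400003c00000000000000000000000000000000000000000000000000000000000000000000) (nat_lit 0x720000c000038000000000000000000000000000000000000000000000000000000000000000) (nat_lit 5)
theorem c15561 : QOK q15561 := cut [q15559] ⟨c15559, trivial⟩ (nd (nat_lit 256) (nat_lit 0) (cs (lf (nat_lit 16) (nat_lit 252)) (nd (nat_lit 278) (nat_lit 0) (cs (lf (nat_lit 17) (nat_lit 253)) (rf (nat_lit 0)))))) q15561 (by decide +kernel)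
def q15565 : Q := Q.p (nat_lit 0x400000f0000000000000000000000000000000000000000000000000000000000000000000000000000000000000) (nat_lit 0x80000100000e00000000000000000000000000000000000000000000000000000000000000000000000000000000) (nat_lit 3)
theorem c15565 : QOK q15565 := cut [q15006] ⟨c15006, trivial⟩ (nd (nat_lit 344) (nat_lit 0) (cs (rf (nat_lit 0)) (lf (nat_lit 5) (nat_lit 341)))) q15565 (by decide +kernel)
def q15586 : Q := Q.p (nat_lit 0x3c000000000000000000000000000000000000000000000000000000000000000000000000000000000000) (nat_lit 0x1c00000200001c000000000000000000000000000000000000000000000000000000000000000000000000000000) (nat_lit 4)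
theorem c15586 : QOK q15586 := cut [q15584] ⟨c15584, trivial⟩ (nd (nat_lit 315) (nat_lit 0) (cs (lf (nat_lit 22) (nat_lit 315)) (nd (nat_lit 337) (nat_lit 0) (cs (lf (nat_lit 23) (nat_lit 314)) (rf (nat_lit 0)))))) q15586 (by decide +kernel)
def q15625 : Q := Q.p (nat_lit 0x1e00000000000000000000000000000000000000000000000000000000000000000000) (nat_lit 0xe0000100000e00000000000000000000000000000000000000000000000000000000000000) (nat_lit 4)
theorem c15625 : QOK q15625 := cut [q15619] ⟨c15619, trivial⟩ (nd (nat_lit 294) (nat_lit 0) (cs (lf (nat_lit 10) (nat_lit 272)) (nd (nat_lit 272) (nat_lit 0) (cs (lf (nat_lit 11) (nat_lit 271)) (rf (nat_lit 0)))))) q15625 (by decide +kernel)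
def q15644 : Q := Q.p (nat_lit 0x2000038000000000000000000000000000000000000000000000000000) (nat_lit 0x710000c0000700000000000000000000000000000000000000000000000) (nat_lit 5)
theorem c15644 : QOK q15644 := cut [q15641] ⟨c15641, trivial⟩ (nd (nat_lit 210) (nat_lit 0) (cs (lf (nat_lit 11) (nat_lit 206)) (nd (nat_lit 233) (nat_lit 0) (cs (lf (nat_lit 4) (nat_lit 207)) (nd (nat_lit 189) (nat_lit 0) (cs (lf (nat_lit 16) (nat_lit 185)) (rf (nat_lit 0)))))))) q15644 (by decide +kernel)
def q15650 : Q := Q.p (nat_lit 0x40000e00000000000000000000000000000000000000000000000000000000000000000000) (nat_lit 0xb0001100000000000000000000000000000000000000000000000000000000000000000000) (nat_lit 3)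
theorem c15650 : QOK q15650 := cut [q14489] ⟨c14489, trivial⟩ (nd (nat_lit 295) (nat_lit 0) (cs (lf (nat_lit 6) (nat_lit 272)) (rf (nat_lit 0)))) q15650 (by decide +kernel)
def q15684 : Q := Q.p (nat_lit 0xc00003c00000000010000000000000000000000000000000000000000000000000000) (nat_lit 0x100000000000000018000020000040000000000000000000000000000000000000000000000) (nat_lit 3)
theorem c15684 : QOK q15684 := cut [q15683] ⟨c15683, trivial⟩ (nd (nat_lit 231) (nat_lit 0) (cs (lf (nat_lit 17) (nat_lit 228)) (rf (nat_lit 0)))) q15684 (by decide +kernel)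
def q15704 : Q := Q.p (nat_lit 0x40000e00000000000000000000000000000000000000000000000000000000000000000000) (nat_lit 0x1b0001000000000000000000000000000000000000000000000000000000000000000000000) (nat_lit 3)
theorem c15704 : QOK q15704 := cut [q14763] ⟨c14763, trivial⟩ (nd (nat_lit 295) (nat_lit 0) (cs (lf (nat_lit 6) (nat_lit 272)) (rf (nat_lit 0)))) q15704 (by decide +kernel)
def q15709 : Q := Q.p (nat_lit 0x80000200000c00002000000000000000000000000000000000000000000000000000000000000000) (nat_lit 0x4000030000040000000000000001000000000000000000000000000000000000000000000000000000000000000) (nat_lit 3)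
theorem c15709 : QOK q15709 := cut [q2614] ⟨c2614, trivial⟩ (nd (nat_lit 341) (nat_lit 0) (cs (lf (nat_lit 47) (nat_lit 252)) (rf (nat_lit 0)))) q15709 (by decide +kernel)
def q15714 : Q := Q.p (nat_lit 0x80000200000c00000000000000000000000000000000000000000000000000000000000000000000) (nat_lit 0x100000c000030000000000100000000001000000000000000000000000000000000000000000000000000000000000000) (nat_lit 4)
theorem c15714 : QOK q15714 := cut [q2524] ⟨c2524, trivial⟩ (nd (nat_lit 341) (nat_lit 0) (cs (lf (nat_lit 47) (nat_lit 252)) (nd (nat_lit 362) (nat_lit 0) (cs (rf (nat_lit 0)) (lf (nat_lit 40) (nat_lit 274)))))) q15714 (by decide +kernel)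
def q15723 : Q := Q.p (nat_lit 0x200000c00002000008000000000000000000000000000000000000000000000000000000000) (nat_lit 0x178001de0007000000000010000040000000000000000000000000000000000000000000000000000) (nat_lit 9)
theorem c15723 : QOK q15723 := cut [q14322] ⟨c14322, trivial⟩ (nd (nat_lit 296) (nat_lit 0) (cs (lf (nat_lit 41) (nat_lit 230)) (nd (nat_lit 210) (nat_lit 0) (cs (lf (nat_lit 34) (nat_lit 209)) (nd (nat_lit 298) (nat_lit 0) (cs (lf (nat_lit 29) (nat_lit 231)) (nd (nat_lit 299) (nat_lit 0) (cs (lf (nat_lit 18) (nat_lit 274)) (nd (nat_lit 277) (nat_lit 0) (cs (lf (nat_lit 17) (nat_lit 274)) (nd (nat_lit 295) (nat_lit 0) (cs (lf (nat_lit 16) (nat_lit 273)) (rf (nat_lit 0)))))))))))))) q15723 (by decide +kernel)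
def q15729 : Q := Q.p (nat_lit 0x200002c00002000008000000000000000000000000000000000000000000000000000000000) (nat_lit 0x40000180005000000000000000000000000000000000000000000000000000000000000000000000) (nat_lit 3)
theorem c15729 : QOK q15729 := cut [q15728] ⟨c15728, trivial⟩ (nd (nat_lit 296) (nat_lit 0) (cs (lf (nat_lit 41) (nat_lit 230)) (rf (nat_lit 0)))) q15729 (by decide +kernel)
def q15776 : Q := Q.p (nat_lit 0x6000010000040000100000000000000000000000000000000000000000000000000000) (nat_lit 0x8000000000080000600000800000000000000000000000000000000000000000) (nat_lit 3)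
theorem c15776 : QOK q15776 := cut [q15775] ⟨c15775, trivial⟩ (nd (nat_lit 190) (nat_lit 0) (cs (lf (nat_lit 40) (nat_lit 189)) (rf (nat_lit 0)))) q15776 (by decide +kernel)
def q15802 : Q := Q.p (nat_lit 0x100000c00002000000000000000000000000000000000000000000000000000000000000000) (nat_lit 0x10000040000200000000000000008000020000000000000000000000000000000000000000000000000000) (nat_lit 3)
theorem c15802 : QOK q15802 := cut [q15801] ⟨c15801, trivial⟩ (nd (nat_lit 231) (nat_lit 0) (cs (lf (nat_lit 36) (nat_lit 208)) (rf (nat_lit 0)))) q15802 (by decide +kernel)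
def q15805 : Q := Q.p (nat_lit 0x40000d00000400000000000000000000000000000000000000000000000000000000000000) (nat_lit 0x10000000000200001a00002800000000000000000000000000000000000000000000000000000000) (nat_lit 4)
theorem c15805 : QOK q15805 := cut [q15803] ⟨c15803, trivial⟩ (nd (nat_lit 249) (nat_lit 0) (cs (lf (nat_lit 20) (nat_lit 249)) (nd (nat_lit 251) (nat_lit 0) (cs (lf (nat_lit 3) (nat_lit 249)) (rf (nat_lit 0)))))) q15805 (by decide +kernel)
def q15820 : Q := Q.p (nat_lit 0x140000d00002400001000000000000000000000000000000000000000000000000000000000) (nat_lit 0x80000200000c0001b8000ae0002b800000000000000000000000000000000000000000000000000) (nat_lit 10)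
theorem c15820 : QOK q15820 := cut [q15814] ⟨c15814, trivial⟩ (nd (nat_lit 293) (nat_lit 0) (cs (lf (nat_lit 41) (nat_lit 227)) (nd (nat_lit 229) (nat_lit 0) (cs (lf (nat_lit 35) (nat_lit 206)) (nd (nat_lit 209) (nat_lit 0) (cs (lf (nat_lit 37) (nat_lit 208)) (nd (nat_lit 227) (nat_lit 0) (cs (lf (nat_lit 47) (nat_lit 205)) (nd (nat_lit 251) (nat_lit 0) (cs (lf (nat_lit 19) (nat_lit 227)) (nd (nat_lit 226) (nat_lit 0) (cs (lf (nat_lit 0) (nat_lit 225)) (rf (nat_lit 0)))))))))))))) q15820 (by decide +kernel)
def q15823 : Q := Q.p (nat_lit 0x140000d00002400001000010000000000000000000000000000000000000000000000000000) (nat_lit 0xa80002e000000000000000000000000000000000000000000000000000) (nat_lit 4)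
theorem c15823 : QOK q15823 := cut [q15822] ⟨c15822, trivial⟩ (nd (nat_lit 209) (nat_lit 0) (cs (lf (nat_lit 37) (nat_lit 208)) (rf (nat_lit 0)))) q15823 (by decide +kernel)
def q15829 : Q := Q.p (nat_lit 0x100000c00002000000000000000000000000000000000000000000000000000000000000000) (nat_lit 0x10000040000000000000001000008000020000000000000000000000000000000000000000000000000000) (nat_lit 3)
theorem c15829 : QOK q15829 := cut [q15828] ⟨c15828, trivial⟩ (nd (nat_lit 231) (nat_lit 0) (cs (lf (nat_lit 36) (nat_lit 208)) (rf (nat_lit 0)))) q15829 (by decide +kernel)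
def q15832 : Q := Q.p (nat_lit 0x80000e0000000000800002000000000000000000000000000000000000000000000000000000000000000) (nat_lit 0xc4000100000200000000000000000000000000000000000000000000000000000000000000000000000000) (nat_lit 3)
theorem c15832 : QOK q15832 := cut [q12799] ⟨c12799, trivial⟩ (nd (nat_lit 320) (nat_lit 0) (cs (rf (nat_lit 0)) (lf (nat_lit 11) (nat_lit 316)))) q15832 (by decide +kernel)
def q15839 : Q := Q.p (nat_lit 0xe0000040000800002000000000000000000000000000000000000000000000000000000000000000) (nat_lit 0xc0000100000280000000000000000000000000000000000000000000000000000000000000000000000000) (nat_lit 3)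
theorem c15839 : QOK q15839 := cut [q12799] ⟨c12799, trivial⟩ (nd (nat_lit 320) (nat_lit 0) (cs (lf (nat_lit 22) (nat_lit 294)) (rf (nat_lit 0)))) q15839 (by decide +kernel)
def q15841 : Q := Q.p (nat_lit 0xe0000140000000000000000000000000000000000000000000000000000000000000000000000000) (nat_lit 0x18000620000000000000000000000000000000000000000000000000000000000000000000000000) (nat_lit 3)
theorem c15841 : QOK q15841 := cut [q15840] ⟨c15840, trivial⟩ (nd (nat_lit 316) (nat_lit 0) (cs (lf (nat_lit 23) (nat_lit 293)) (rf (nat_lit 0)))) q15841 (by decide +kernel)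
def q15848 : Q := Q.p (nat_lit 0x60000100000c00003000000000000000000000000000000000000000000000000000000000000000) (nat_lit 0xc0000380000e00003800000000000000000000000000000000000000000000000000000000) (nat_lit 6)
theorem c15848 : QOK q15848 := cut [q15846] ⟨c15846, trivial⟩ (nd (nat_lit 251) (nat_lit 0) (cs (lf (nat_lit 47) (nat_lit 229)) (nd (nat_lit 250) (nat_lit 0) (cs (lf (nat_lit 0) (nat_lit 249)) (rf (nat_lit 0)))))) q15848 (by decide +kernel)
def q15852 : Q := Q.p (nat_lit 0x70000100000000000000000000000000000000000000000000000000000000000000000000000000) (nat_lit 0x8000e80000000000000000000000000000000000000000000000000000000000000000000000000) (nat_lit 3)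
theorem c15852 : QOK q15852 := cut [q15851] ⟨c15851, trivial⟩ (nd (nat_lit 297) (nat_lit 0) (cs (lf (nat_lit 12) (nat_lit 293)) (rf (nat_lit 0)))) q15852 (by decide +kernel)
def q15854 : Q := Q.p (nat_lit 0x70000100000000000000000000000000000000000000000000000000000000000000000000000000) (nat_lit 0x88000e00000000000000000000000000000000000000000000000000000000000000000000000000) (nat_lit 3)
theorem c15854 : QOK q15854 := cut [q15853] ⟨c15853, trivial⟩ (nd (nat_lit 297) (nat_lit 0) (cs (lf (nat_lit 12) (nat_lit 293)) (rf (nat_lit 0)))) q15854 (by decide +kernel)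
def q15887 : Q := Q.p (nat_lit 0x140000c00000000000000000000000000000000000000000000000000000000000000000000) (nat_lit 0xa0003200000000000000000000000000000000000000000000000000000000000000000000) (nat_lit 3)
theorem c15887 : QOK q15887 := cut [q15886] ⟨c15886, trivial⟩ (nd (nat_lit 295) (nat_lit 0) (cs (lf (nat_lit 12) (nat_lit 271)) (rf (nat_lit 0)))) q15887 (by decide +kernel)
def q15913 : Q := Q.p (nat_lit 0x140000d00002000000000000000000000000000000000000000000000000000000000000000) (nat_lit 0x220000280001000000000000000000000000000000000000000000000000000000000000000) (nat_lit 3)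
theorem c15913 : QOK q15913 := cut [q15911] ⟨c15911, trivial⟩ (nd (nat_lit 273) (nat_lit 0) (cs (lf (nat_lit 11) (nat_lit 271)) (rf (nat_lit 0)))) q15913 (by decide +kernel)
def q15920 : Q := Q.p (nat_lit 0x3c0000c00000000000000000000000000000000000000000000000000000000000000000000) (nat_lit 0x8000020000180000000000000001000000000000000000000000000000000000000000000000000000000000000) (nat_lit 3)
theorem c15920 : QOK q15920 := cut [q11816] ⟨c11816, trivial⟩ (nd (nat_lit 319) (nat_lit 0) (cs (rf (nat_lit 0)) (lf (nat_lit 5) (nat_lit 294)))) q15920 (by decide +kernel)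
def q15931 : Q := Q.p (nat_lit 0x1c0000100000000000000000000000000000000000000000000000000000000000000000000) (nat_lit 0x2000002e0000000000000000000000000000000000000000000000000000000000000000000) (nat_lit 3)
theorem c15931 : QOK q15931 := cut [q15930] ⟨c15930, trivial⟩ (nd (nat_lit 271) (nat_lit 0) (cs (lf (nat_lit 18) (nat_lit 271)) (rf (nat_lit 0)))) q15931 (by decide +kernel)
def q15936 : Q := Q.p (nat_lit 0x140000c00000000000000000000000000000000000000000000000000000000000000000000) (nat_lit 0x2a0003000000000000000000000000000000000000000000000000000000000000000000000) (nat_lit 3)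
theorem c15936 : QOK q15936 := cut [q15934] ⟨c15934, trivial⟩ (nd (nat_lit 295) (nat_lit 0) (cs (lf (nat_lit 12) (nat_lit 271)) (rf (nat_lit 0)))) q15936 (by decide +kernel)
def q15939 : Q := Q.p (nat_lit 0xc0000100000400001000000000000000000000000000000000000000000000000000000000) (nat_lit 0x200000000000800006000008000000000000000000000000000000000000000000000) (nat_lit 3)
theorem c15939 : QOK q15939 := cut [q15938] ⟨c15938, trivial⟩ (nd (nat_lit 205) (nat_lit 0) (cs (lf (nat_lit 46) (nat_lit 205)) (rf (nat_lit 0)))) q15939 (by decide +kernel)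
def q15953 : Q := Q.p (nat_lit 0x100000d00002400000000000000000000000000000000000000000000000000000000000000) (nat_lit 0x200000280001200008000020000000000000000000000000000000000000000000000000000) (nat_lit 4)
theorem c15953 : QOK q15953 := cut [q15911] ⟨c15911, trivial⟩ (nd (nat_lit 209) (nat_lit 0) (cs (lf (nat_lit 37) (nat_lit 208)) (nd (nat_lit 273) (nat_lit 0) (cs (lf (nat_lit 23) (nat_lit 249)) (rf (nat_lit 0)))))) q15953 (by decide +kernel)
def q15957 : Q := Q.p (nat_lit 0x180000c00000000000000000000000000000000000000000000000000000000000000000000) (nat_lit 0x60003200000000000000000000000000000000000000000000000000000000000000000000) (nat_lit 3)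
theorem c15957 : QOK q15957 := cut [q15886] ⟨c15886, trivial⟩ (nd (nat_lit 294) (nat_lit 0) (cs (lf (nat_lit 12) (nat_lit 271)) (rf (nat_lit 0)))) q15957 (by decide +kernel)
def q15972 : Q := Q.p (nat_lit 0x180000c00002000000000000000000000000000000000000000000000000000000000000000) (nat_lit 0x10000040000000003200001c00002000000000000000000000000000000000000000000000000000000000) (nat_lit 5)
theorem c15972 : QOK q15972 := cut [q15959, q15961, q15964] ⟨c15959, c15961, c15964, trivial⟩ (nd (nat_lit 251) (nat_lit 0) (cs (nd (nat_lit 276) (nat_lit 0) (cs (lf (nat_lit 6) (nat_lit 273)) (rf (nat_lit 0)))) (cs (nd (nat_lit 276) (nat_lit 0) (cs (lf (nat_lit 6) (nat_lit 273)) (nd (nat_lit 252) (nat_lit 0) (cs (lf (nat_lit 0) (nat_lit 250)) (rf (nat_lit 1)))))) (cs (nd (nat_lit 318) (nat_lit 0) (cs (lf (nat_lit 30) (nat_lit 252)) (nd (nat_lit 273) (nat_lit 0) (cs (rf (nat_lit 2)) (lf (nat_lit 24) (nat_lit 229)))))) (nd (nat_lit 318) (nat_lit 0) (cs (lf (nat_lit 30) (nat_lit 252)) (nd (nat_lit 229) (nat_lit 0) (cs (lf (nat_lit 45) (nat_lit 229)) (lf (nat_lit 26) (nat_lit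 229)))))))))) q15972 (by decide +kernel)
def q15986 : Q := Q.p (nat_lit 0xc0000180000000000000000000000000000000000000000000000000000000000000000000000000) (nat_lit 0x320000060000000000000000000000000000000000000000000000000000000000000000000000000) (nat_lit 3)
theorem c15986 : QOK q15986 := cut [q15985] ⟨c15985, trivial⟩ (nd (nat_lit 320) (nat_lit 0) (cs (lf (nat_lit 18) (nat_lit 295)) (rf (nat_lit 0)))) q15986 (by decide +kernel)
def q15999 : Q := Q.p (nat_lit 0x1e00002000000000000000000000000000000000000000000000000000000000000000) (nat_lit 0x100000400003c0002000000c00008000020000000000000000000000000000000000000000000000000000) (nat_lit 6)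
theorem c15999 : QOK q15999 := cut [q15996] ⟨c15996, trivial⟩ (nd (nat_lit 250) (nat_lit 0) (cs (lf (nat_lit 22) (nat_lit 250)) (nd (nat_lit 295) (nat_lit 0) (cs (lf (nat_lit 11) (nat_lit 272)) (nd (nat_lit 296) (nat_lit 0) (cs (lf (nat_lit 6) (nat_lit 273)) (rf (nat_lit 0)))))))) q15999 (by decide +kernel)
def q16004 : Q := Q.p (nat_lit 0x300000e00000000000000000000000000000000000000000000000000000000000000000000) (nat_lit 0x80007180000e00000000000000000000000000000000000000000000000000000000000000) (nat_lit 5)
theorem c16004 : QOK q16004 := cut [q16001] ⟨c16001, trivial⟩ (nd (nat_lit 272) (nat_lit 0) (cs (lf (nat_lit 0) (nat_lit 271)) (nd (nat_lit 250) (nat_lit 0) (cs (lf (nat_lit 23) (nat_lit 249)) (nd (nat_lit 276) (nat_lit 0) (cs (lf (nat_lit 22) (nat_lit 250)) (rf (nat_lit 0)))))))) q16004 (by decide +kernel)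
def q16011 : Q := Q.p (nat_lit 0x20000180001e00000800000000000000000000000000000000000000000000000000000000000000) (nat_lit 0x4000010000e00000000000000000000000000000000000000000000000000000000000000000000000000) (nat_lit 3)
theorem c16011 : QOK q16011 := cut [q16010] ⟨c16010, trivial⟩ (nd (nat_lit 298) (nat_lit 0) (cs (lf (nat_lit 5) (nat_lit 273)) (rf (nat_lit 0)))) q16011 (by decide +kernel)
def q16034 : Q := Q.p (nat_lit 0x800002000008000010000000000000000000000000000000000000000000000000000) (nat_lit 0x1000004000020000040000100000000000000000000000000000000000000000) (nat_lit 3)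
theorem c16034 : QOK q16034 := cut [q9708] ⟨c9708, trivial⟩ (nd (nat_lit 186) (nat_lit 0) (cs (lf (nat_lit 45) (nat_lit 186)) (rf (nat_lit 0)))) q16034 (by decide +kernel)
def q16048 : Q := Q.p (nat_lit 0x2000008000038000080000000000000000000000000000000000000000000000) (nat_lit 0x40000700000400000000000000000000000000000000000000000) (nat_lit 3)
theorem c16048 : QOK q16048 := cut [q742] ⟨c742, trivial⟩ (nd (nat_lit 188) (nat_lit 0) (cs (lf (nat_lit 35) (nat_lit 165)) (rf (nat_lit 0)))) q16048 (by decide +kernel)
def q16090 : Q := Q.p (nat_lit 0x2000018000060000080000000000000000000000000000000000000000000000) (nat_lit 0x40000300000c00000000000000000000000000000000000) (nat_lit 3)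
theorem c16090 : QOK q16090 := cut [q1578] ⟨c1578, trivial⟩ (nd (nat_lit 165) (nat_lit 0) (cs (rf (nat_lit 0)) (lf (nat_lit 24) (nat_lit 143)))) q16090 (by decide +kernel)
def q16099 : Q := Q.p (nat_lit 0x3c000000000000000000000000000000000000000000000000000) (nat_lit 0x3800040000380000000000000000000000000000000000000000000000) (nat_lit 4)
theorem c16099 : QOK q16099 := cut [q85] ⟨c85, trivial⟩ (nd (nat_lit 228) (nat_lit 0) (cs (lf (nat_lit 11) (nat_lit 205)) (nd (nat_lit 210) (nat_lit 0) (cs (lf (nat_lit 10) (nat_lit 206)) (rf (nat_lit 0)))))) q16099 (by decide +kernel)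
def q16117 : Q := Q.p (nat_lit 0x78000000000000000000000000000000000000000000000000000) (nat_lit 0x70000080000070000000000000000000000000000000000000000000000) (nat_lit 4)
theorem c16117 : QOK q16117 := cut [q2923] ⟨c2923, trivial⟩ (nd (nat_lit 185) (nat_lit 0) (cs (lf (nat_lit 23) (nat_lit 184)) (nd (nat_lit 233) (nat_lit 0) (cs (lf (nat_lit 4) (nat_lit 207)) (rf (nat_lit 0)))))) q16117 (by decide +kernel)
def q16135 : Q := Q.p (nat_lit 0x800002000008000060000000000000000000000000000000000000000000000000000) (nat_lit 0x100000600001000000000010000000000000000000000000000000000000000000000000000000000) (nat_lit 3)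
theorem c16135 : QOK q16135 := cut [q11867] ⟨c11867, trivial⟩ (nd (nat_lit 297) (nat_lit 0) (cs (lf (nat_lit 34) (nat_lit 209)) (rf (nat_lit 0)))) q16135 (by decide +kernel)
def q16143 : Q := Q.p (nat_lit 0x2000018000060000000000000000000000000000000000000000000000000000) (nat_lit 0x700003c00001c00000000000000080000000000000000000000000000000000000000000000) (nat_lit 6)
theorem c16143 : QOK q16143 := cut [q16142] ⟨c16142, trivial⟩ (nd (nat_lit 275) (nat_lit 0) (cs (lf (nat_lit 30) (nat_lit 209)) (rf (nat_lit 0)))) q16143 (by decide +kernel)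
def q16158 : Q := Q.p (nat_lit 0x18000060000080000000000000000000000000000000000000000) (nat_lit 0x300000c00003000000000000000040000700001c00000000000000000000000000000) (nat_lit 7)
theorem c16158 : QOK q16158 := cut [q2690] ⟨c2690, trivial⟩ (nd (nat_lit 141) (nat_lit 0) (cs (lf (nat_lit 24) (nat_lit 119)) (nd (nat_lit 120) (nat_lit 0) (cs (lf (nat_lit 34) (nat_lit 119)) (nd (nat_lit 140) (nat_lit 0) (cs (lf (nat_lit 47) (nat_lit 118)) (nd (nat_lit 229) (nat_lit 0) (cs (lf (nat_lit 46) (nat_lit 140)) (rf (nat_lit 0)))))))))) q16158 (by decide +kernel)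
def q16275 : Q := Q.p (nat_lit 0x2000000800004000010000040000000000000000000000000000000000000000) (nat_lit 0x200001e00003000000000000000000000000000000000000000000000000000000000) (nat_lit 4)
theorem c16275 : QOK q16275 := cut [q16274] ⟨c16274, trivial⟩ (nd (nat_lit 228) (nat_lit 0) (cs (lf (nat_lit 41) (nat_lit 161)) (rf (nat_lit 0)))) q16275 (by decide +kernel)
def q16288 : Q := Q.p (nat_lit 0x30000040000100000400000000000000000000000000000) (nat_lit 0x80000000000800003000008000000000000000000) (nat_lit 3)
theorem c16288 : QOK q16288 := cut [q16287] ⟨c16287, trivial⟩ (nd (nat_lit 96) (nat_lit 0) (cs (lf (nat_lit 28) (nat_lit 96)) (rf (nat_lit 0)))) q16288 (by decide +kernel)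
def q16292 : Q := Q.p (nat_lit 0x180000600000c0000300000000000000000000000000000000000) (nat_lit 0x100001c00007000000000000000000000000000000) (nat_lit 4)
theorem c16292 : QOK q16292 := cut [q16290] ⟨c16290, trivial⟩ (nd (nat_lit 142) (nat_lit 0) (cs (lf (nat_lit 35) (nat_lit 119)) (nd (nat_lit 143) (nat_lit 0) (cs (lf (nat_lit 6) (nat_lit 140)) (rf (nat_lit 0)))))) q16292 (by decide +kernel)
def q16301 : Q := Q.p (nat_lit 0x34000010000040000100000000000000000000000000000000000) (nat_lit 0x3800008000000000080000280000a00000000000000000000000000000) (nat_lit 5)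
theorem c16301 : QOK q16301 := cut [q2478] ⟨c2478, trivial⟩ (nd (nat_lit 117) (nat_lit 0) (cs (lf (nat_lit 46) (nat_lit 117)) (nd (nat_lit 207) (nat_lit 0) (cs (lf (nat_lit 29) (nat_lit 140)) (nd (nat_lit 228) (nat_lit 0) (cs (lf (nat_lit 11) (nat_lit 205)) (rf (nat_lit 0)))))))) q16301 (by decide +kernel)
def q16321 : Q := Q.p (nat_lit 0x2000000000078000000000000000000000000000000000000000000000000000) (nat_lit 0x80000000003b000000000330000400000000000000000000000000000000000000000) (nat_lit 6)
theorem c16321 : QOK q16321 := cut [q16319] ⟨c16319, trivial⟩ (nd (nat_lit 184) (nat_lit 0) (cs (lf (nat_lit 22) (nat_lit 184)) (nd (nat_lit 228) (nat_lit 0) (cs (lf (nat_lit 10) (nat_lit 206)) (rf (nat_lit 0)))))) q16321 (by decide +kernel)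
def q16368 : Q := Q.p (nat_lit 0x780000000000000000000000000000000000000000) (nat_lit 0x40003b80000000000000000000000000000000000) (nat_lit 4)
theorem c16368 : QOK q16368 := cut [q9391] ⟨c9391, trivial⟩ (nd (nat_lit 140) (nat_lit 0) (cs (lf (nat_lit 22) (nat_lit 140)) (nd (nat_lit 162) (nat_lit 0) (cs (lf (nat_lit 23) (nat_lit 139)) (rf (nat_lit 0)))))) q16368 (by decide +kernel)
def q16398 : Q := Q.p (nat_lit 0xf00003000000000000000000000000000000000000) (nat_lit 0xe00007000000800000000000000000000000000000000000) (nat_lit 4)
theorem c16398 : QOK q16398 := cut [q16396] ⟨c16396, trivial⟩ (nd (nat_lit 190) (nat_lit 0) (cs (lf (nat_lit 4) (nat_lit 164)) (nd (nat_lit 168) (nat_lit 0) (cs (lf (nat_lit 5) (nat_lit 165)) (rf (nat_lit 0)))))) q16398 (by decide +kernel)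
def q16454 : Q := Q.p (nat_lit 0x80000f0000000000c00001000000000000000000000000000000000000) (nat_lit 0x60003300000e00000000000000000000000000000000000) (nat_lit 5)
theorem c16454 : QOK q16454 := cut [q16452] ⟨c16452, trivial⟩ (nd (nat_lit 186) (nat_lit 0) (cs (lf (nat_lit 23) (nat_lit 185)) (nd (nat_lit 142) (nat_lit 0) (cs (lf (nat_lit 25) (nat_lit 142)) (rf (nat_lit 0)))))) q16454 (by decide +kernel)
def q16611 : Q := Q.p (nat_lit 0xc00000c00000000000000000000000000000000000) (nat_lit 0x3000003200000000000000000000000000000000000) (nat_lit 3)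
theorem c16611 : QOK q16611 := cut [q16542] ⟨c16542, trivial⟩ (nd (nat_lit 144) (nat_lit 0) (cs (lf (nat_lit 0) (nat_lit 141)) (rf (nat_lit 0)))) q16611 (by decide +kernel)
def q16624 : Q := Q.p (nat_lit 0x180000f0000000000000000000000000000000000000000000000000000) (nat_lit 0x300000e00000000000000000000000000000000000000000000000) (nat_lit 3)
theorem c16624 : QOK q16624 := cut [q2453] ⟨c2453, trivial⟩ (nd (nat_lit 212) (nat_lit 0) (cs (lf (nat_lit 6) (nat_lit 209)) (rf (nat_lit 0)))) q16624 (by decide +kernel)
def q16668 : Q := Q.p (nat_lit 0x1e00000000000000000000000000000000000) (nat_lit 0x200001dc00000000000000000000000000000) (nat_lit 4)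
theorem c16668 : QOK q16668 := cut [q16666] ⟨c16666, trivial⟩ (nd (nat_lit 123) (nat_lit 0) (cs (lf (nat_lit 16) (nat_lit 119)) (nd (nat_lit 119) (nat_lit 0) (cs (lf (nat_lit 23) (nat_lit 118)) (rf (nat_lit 0)))))) q16668 (by decide +kernel)
def q16672 : Q := Q.p (nat_lit 0x1e00000000000000000000000000000000000) (nat_lit 0xe000010000e000000000000000000000000000000) (nat_lit 4)
theorem c16672 : QOK q16672 := cut [q8235] ⟨c8235, trivial⟩ (nd (nat_lit 162) (nat_lit 0) (cs (lf (nat_lit 10) (nat_lit 140)) (nd (nat_lit 140) (nat_lit 0) (cs (lf (nat_lit 11) (nat_lit 139)) (rf (nat_lit 0)))))) q16672 (by decide +kernel)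
def q16680 : Q := Q.p (nat_lit 0x400001e00000000000000000000000000000000000) (nat_lit 0x200000100000e00000000000000000000000000000) (nat_lit 3)
theorem c16680 : QOK q16680 := cut [q8180] ⟨c8180, trivial⟩ (nd (nat_lit 140) (nat_lit 0) (cs (lf (nat_lit 4) (nat_lit 140)) (rf (nat_lit 0)))) q16680 (by decide +kernel)
def q16684 : Q := Q.p (nat_lit 0x400000f0000000000000000000000000000000000000000000000000000) (nat_lit 0x80000100000e00000000000000000000000000000000000000000000000) (nat_lit 3)
theorem c16684 : QOK q16684 := cut [q2453] ⟨c2453, trivial⟩ (nd (nat_lit 212) (nat_lit 0) (cs (lf (nat_lit 5) (nat_lit 209)) (rf (nat_lit 0)))) q16684 (by decide +kernel)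
def q16707 : Q := Q.p (nat_lit 0x7800000000000000000000000000000000000000000000000000000000000000000000) (nat_lit 0x7000008000070000000000000000000000000000000000000000000000000000000000000000) (nat_lit 4)
theorem c16707 : QOK q16707 := cut [q16704] ⟨c16704, trivial⟩ (nd (nat_lit 257) (nat_lit 0) (cs (nd (nat_lit 301) (nat_lit 0) (cs (lf (nat_lit 4) (nat_lit 275)) (rf (nat_lit 0)))) (lf (nat_lit 16) (nat_lit 253)))) q16707 (by decide +kernel)
def q16715 : Q := Q.p (nat_lit 0x3800002000000000000000000000000000000000000000000000000000000000000000) (nat_lit 0x4400001c00000000000000000000000000000000000000000000000000000000000000) (nat_lit 3)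
theorem c16715 : QOK q16715 := cut [q235] ⟨c235, trivial⟩ (nd (nat_lit 252) (nat_lit 0) (cs (rf (nat_lit 0)) (lf (nat_lit 18) (nat_lit 252)))) q16715 (by decide +kernel)
def q16729 : Q := Q.p (nat_lit 0x20000000000200000f0000000000000000000000000000000000000000000000000000) (nat_lit 0x8000000000100000e00000000000000000000000000000000000000000000000) (nat_lit 3)
theorem c16729 : QOK q16729 := cut [q16728] ⟨c16728, trivial⟩ (nd (nat_lit 190) (nat_lit 0) (cs (lf (nat_lit 16) (nat_lit 186)) (rf (nat_lit 0)))) q16729 (by decide +kernel)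
def q16741 : Q := Q.p (nat_lit 0x40000200000800002000000000000000000000000000000000000000000000000000000000000000) (nat_lit 0x500001a0001c00000000000000008000000000000000000000000000000000000000000000000000000000) (nat_lit 5)
theorem c16741 : QOK q16741 := cut [q2544] ⟨c2544, trivial⟩ (nd (nat_lit 319) (nat_lit 0) (cs (lf (nat_lit 41) (nat_lit 252)) (nd (nat_lit 320) (nat_lit 0) (cs (lf (nat_lit 29) (nat_lit 253)) (nd (nat_lit 298) (nat_lit 0) (cs (rf (nat_lit 0)) (lf (nat_lit 24) (nat_lit 231)))))))) q16741 (by decide +kernel)
def q16751 : Q := Q.p (nat_lit 0x200000c0000600000000000000000000000000000000000000000000000000000000000000000000000000) (nat_lit 0x40000300000c000000000000000100001000000000000000000000000000000000000000000000000000000000000000000000) (nat_lit 4)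
theorem c16751 : QOK q16751 := cut [q16750] ⟨c16750, trivial⟩ (nd (nat_lit 363) (nat_lit 0) (cs (lf (nat_lit 35) (nat_lit 275)) (rf (nat_lit 0)))) q16751 (by decide +kernel)
def q16759 : Q := Q.p (nat_lit 0xc0000600000000000000000000000000000000000000000000000000000000000000000000000000) (nat_lit 0x30001900000000000000000000000000000000000000000000000000000000000000000000000000) (nat_lit 3)
theorem c16759 : QOK q16759 := cut [q16758] ⟨c16758, trivial⟩ (nd (nat_lit 299) (nat_lit 0) (cs (lf (nat_lit 6) (nat_lit 296)) (rf (nat_lit 0)))) q16759 (by decide +kernel)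
def q16769 : Q := Q.p (nat_lit 0x2000018000020000200000f0000000000000000000000000000000000000000000000000000) (nat_lit 0x100006000009000000000100000e00000000000000000000000000000000000000000000000) (nat_lit 5)
theorem c16769 : QOK q16769 := cut [q16766] ⟨c16766, trivial⟩ (nd (nat_lit 190) (nat_lit 0) (cs (lf (nat_lit 16) (nat_lit 186)) (nd (nat_lit 212) (nat_lit 0) (cs (lf (nat_lit 17) (nat_lit 187)) (nd (nat_lit 277) (nat_lit 0) (cs (lf (nat_lit 31) (nat_lit 189)) (rf (nat_lit 0)))))))) q16769 (by decide +kernel)
def q16778 : Q := Q.p (nat_lit 0x80000200000c0000300000000000000000000000000000000000000000000000000000000000000000000000000) (nat_lit 0x20001c00001000000000000000000000000000000000000000000000000000000000000000000000) (nat_lit 3)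
theorem c16778 : QOK q16778 := cut [q16777] ⟨c16777, trivial⟩ (nd (nat_lit 298) (nat_lit 0) (cs (lf (nat_lit 35) (nat_lit 275)) (rf (nat_lit 0)))) q16778 (by decide +kernel)
def q16953 : Q := Q.p (nat_lit 0x3c00002000000000000000000000000000000000000000000000000000000000000000) (nat_lit 0x380001e0001f80000000001800000000000000000000000000000000000000000000000000000000000000) (nat_lit 8)
theorem c16953 : QOK q16953 := cut [q14637] ⟨c14637, trivial⟩ (nd (nat_lit 296) (nat_lit 0) (cs (lf (nat_lit 11) (nat_lit 273)) (nd (nat_lit 318) (nat_lit 0) (cs (lf (nat_lit 30) (nat_lit 252)) (nd (nat_lit 299) (nat_lit 0) (cs (lf (nat_lit 5) (nat_lit 274)) (nd (nat_lit 252) (nat_lit 0) (cs (lf (nat_lit 23) (nat_lit 251)) (rf (nat_lit 0)))))))))) q16953 (by decide +kernel)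
def q16981 : Q := Q.p (nat_lit 0x600000800002000000000000000000000000000000000000000000000000000000000000000) (nat_lit 0x10000040000180000000000000000000008000000000000000000000000000000000000000000000000000000000) (nat_lit 3)
theorem c16981 : QOK q16981 := cut [q16980] ⟨c16980, trivial⟩ (nd (nat_lit 320) (nat_lit 0) (cs (lf (nat_lit 24) (nat_lit 231)) (rf (nat_lit 0)))) q16981 (by decide +kernel)
def q17013 : Q := Q.p (nat_lit 0x40000380000200000000000000000000000000000000000000000000000000000000000000000000) (nat_lit 0x30000c00000100000000000000000000000000000000000000000000000000000000000000000000) (nat_lit 3)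
theorem c17013 : QOK q17013 := cut [q17012] ⟨c17012, trivial⟩ (nd (nat_lit 298) (nat_lit 0) (cs (lf (nat_lit 23) (nat_lit 272)) (rf (nat_lit 0)))) q17013 (by decide +kernel)
def q17059 : Q := Q.p (nat_lit 0xc0000100000400000000000000000000000000000000000000000000000000000000000000000000) (nat_lit 0x2000008000020000000000200000000001000000000000000000000000000000000000000000000000000000000000000) (nat_lit 3)
theorem c17059 : QOK q17059 := cut [q15862] ⟨c15862, trivial⟩ (nd (nat_lit 341) (nat_lit 0) (cs (rf (nat_lit 0)) (lf (nat_lit 24) (nat_lit 252)))) q17059 (by decide +kernel)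
def q17081 : Q := Q.p (nat_lit 0x100003c00000000000000000000000000000000000000000000000000000000000000000000) (nat_lit 0x200004000038000000000000000000000000000000000000000000000000000000000000000) (nat_lit 3)
theorem c17081 : QOK q17081 := cut [q15730] ⟨c15730, trivial⟩ (nd (nat_lit 278) (nat_lit 0) (cs (rf (nat_lit 0)) (lf (nat_lit 10) (nat_lit 274)))) q17081 (by decide +kernel)
def q17119 : Q := Q.p (nat_lit 0x100000400001000004000000000000000000000000000000000000000000000000000) (nat_lit 0x80000200000800000000002000018000020000000000000000000000000000000000000000) (nat_lit 4)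
theorem c17119 : QOK q17119 := cut [q17117] ⟨c17117, trivial⟩ (nd (nat_lit 183) (nat_lit 0) (cs (lf (nat_lit 46) (nat_lit 183)) (nd (nat_lit 273) (nat_lit 0) (cs (lf (nat_lit 29) (nat_lit 206)) (rf (nat_lit 0)))))) q17119 (by decide +kernel)
def q17120 : Q := Q.p (nat_lit 0x300002400001000004000000000000000000000000000000000000000000000000000) (nat_lit 0x20000480001800000000000000000000000000000000000000000000000000000000000000) (nat_lit 3)
theorem c17120 : QOK q17120 := cut [q11979] ⟨c11979, trivial⟩ (nd (nat_lit 271) (nat_lit 0) (cs (lf (nat_lit 41) (nat_lit 205)) (rf (nat_lit 0)))) q17120 (by decide +kernel)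
def q17126 : Q := Q.p (nat_lit 0x180000400001000004000000000000000000000000000000000000000000000000000) (nat_lit 0x200000000002000018000020000000000000000000000000000000000000000) (nat_lit 3)
theorem c17126 : QOK q17126 := cut [q2082] ⟨c2082, trivial⟩ (nd (nat_lit 184) (nat_lit 0) (cs (rf (nat_lit 0)) (lf (nat_lit 40) (nat_lit 183)))) q17126 (by decide +kernel)
def q17131 : Q := Q.p (nat_lit 0x400001000004000010000000000000000000000000000000000000000000000) (nat_lit 0x80000200000800000000008000060000080000000000000000000000000000000000) (nat_lit 4)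
theorem c17131 : QOK q17131 := cut [q17129] ⟨c17129, trivial⟩ (nd (nat_lit 161) (nat_lit 0) (cs (lf (nat_lit 46) (nat_lit 161)) (nd (nat_lit 249) (nat_lit 0) (cs (lf (nat_lit 41) (nat_lit 183)) (rf (nat_lit 0)))))) q17131 (by decide +kernel)
def q17150 : Q := Q.p (nat_lit 0x100002400001000004000000000000000000000000000000000000000000000000000) (nat_lit 0x700000e0001a00000f00003c0000c000000000000000000000000000000000000000000000) (nat_lit 10)
theorem c17150 : QOK q17150 := cut [q17142] ⟨c17142, trivial⟩ (nd (nat_lit 205) (nat_lit 0) (cs (lf (nat_lit 47) (nat_lit 183)) (nd (nat_lit 227) (nat_lit 0) (cs (lf (nat_lit 42) (nat_lit 205)) (nd (nat_lit 271) (nat_lit 0) (cs (lf (nat_lit 41) (nat_lit 205)) (nd (nat_lit 251) (nat_lit 0) (cs (lf (nat_lit 7) (nat_lit 249)) (nd (nat_lit 270) (nat_lit 0) (cs (lf (nat_lit 12) (nat_lit 247)) (nd (nat_lit 225) (nat_lit 0) (cs (nd (nat_lit 249) (nat_lit 0) (cs (lf (nat_lit 41) (nat_lit 204)) (rf (nat_lit 0)))) (lf (nat_lit 1) (nat_lit 225)))))))))))))) q17150 (by decide +kernel)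
def q17152 : Q := Q.p (nat_lit 0x100000400001000004000000000000000000000000000000000000000000000000000) (nat_lit 0x200000c0000200000000000800002000008000000000000000000000000000000000000000000000) (nat_lit 4)
theorem c17152 : QOK q17152 := cut [q14138] ⟨c14138, trivial⟩ (nd (nat_lit 295) (nat_lit 0) (cs (lf (nat_lit 28) (nat_lit 206)) (nd (nat_lit 294) (nat_lit 0) (cs (lf (nat_lit 29) (nat_lit 228)) (rf (nat_lit 0)))))) q17152 (by decide +kernel)
def q17162 : Q := Q.p (nat_lit 0x80000400001000004000010000000000000000000000000000000000000000000000) (nat_lit 0x20000100000000000000002000008000020000000000000000000000000000000000000000) (nat_lit 3)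
theorem c17162 : QOK q17162 := cut [q2082] ⟨c2082, trivial⟩ (nd (nat_lit 272) (nat_lit 0) (cs (lf (nat_lit 41) (nat_lit 205)) (rf (nat_lit 0)))) q17162 (by decide +kernel)
def q17167 : Q := Q.p (nat_lit 0x400001000004000010000000000000000000000000000000000000000000000) (nat_lit 0x800002000008000000000200000c0000200000000000000000000000000000000000) (nat_lit 4)
theorem c17167 : QOK q17167 := cut [q17165] ⟨c17165, trivial⟩ (nd (nat_lit 163) (nat_lit 0) (cs (lf (nat_lit 34) (nat_lit 162)) (nd (nat_lit 162) (nat_lit 0) (cs (lf (nat_lit 35) (nat_lit 140)) (rf (nat_lit 0)))))) q17167 (by decide +kernel)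
def q17173 : Q := Q.p (nat_lit 0x80000400001000004000000000000000000000000000000000000000000000000000) (nat_lit 0xa0000700000380000000000000010000000000000000000000000000000000000000000000) (nat_lit 5)
theorem c17173 : QOK q17173 := cut [q17159] ⟨c17159, trivial⟩ (nd (nat_lit 272) (nat_lit 0) (cs (lf (nat_lit 41) (nat_lit 205)) (rf (nat_lit 0)))) q17173 (by decide +kernel)
def q17182 : Q := Q.p (nat_lit 0x2600001000004000010000000000000000000000000000000000000000000000) (nat_lit 0x1e00001800000800000000000000000000000000000000000000000000000000000000) (nat_lit 4)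
theorem c17182 : QOK q17182 := cut [q6730] ⟨c6730, trivial⟩ (nd (nat_lit 251) (nat_lit 0) (cs (lf (nat_lit 29) (nat_lit 184)) (nd (nat_lit 252) (nat_lit 0) (cs (lf (nat_lit 23) (nat_lit 227)) (rf (nat_lit 0)))))) q17182 (by decide +kernel)
def q17191 : Q := Q.p (nat_lit 0xc00001000004000010000000000000000000000000000000000000000000000) (nat_lit 0x20000000000200000c0000200000000000000000000000000000000000) (nat_lit 3)
theorem c17191 : QOK q17191 := cut [q3383] ⟨c3383, trivial⟩ (nd (nat_lit 162) (nat_lit 0) (cs (lf (nat_lit 28) (nat_lit 162)) (rf (nat_lit 0)))) q17191 (by decide +kernel)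
def q17204 : Q := Q.p (nat_lit 0x400001000004000010000000000000000000000000000000000000000000000) (nat_lit 0x2000008000020000000000200000c0000200000000000000000000000000000000000) (nat_lit 4)
theorem c17204 : QOK q17204 := cut [q17202] ⟨c17202, trivial⟩ (nd (nat_lit 163) (nat_lit 0) (cs (lf (nat_lit 34) (nat_lit 162)) (nd (nat_lit 162) (nat_lit 0) (cs (lf (nat_lit 35) (nat_lit 140)) (rf (nat_lit 0)))))) q17204 (by decide +kernel)
def q17214 : Q := Q.p (nat_lit 0x780000800000000008000000000000000000000000000000000000000000000) (nat_lit 0x4000010000040000000000700002800002000000000000000000000000000000000000000000000) (nat_lit 5)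
theorem c17214 : QOK q17214 := cut [q17210] ⟨c17210, trivial⟩ (nd (nat_lit 225) (nat_lit 0) (cs (lf (nat_lit 23) (nat_lit 224)) (nd (nat_lit 270) (nat_lit 0) (cs (lf (nat_lit 37) (nat_lit 182)) (nd (nat_lit 292) (nat_lit 0) (cs (rf (nat_lit 0)) (lf (nat_lit 30) (nat_lit 226)))))))) q17214 (by decide +kernel)
def q17226 : Q := Q.p (nat_lit 0x3c000000000000000000000000000000000000000000000) (nat_lit 0x1c0000200001c000000000000000000000000000000000000000) (nat_lit 4)
theorem c17226 : QOK q17226 := cut [q17223] ⟨c17223, trivial⟩ (nd (nat_lit 203) (nat_lit 0) (cs (nd (nat_lit 181) (nat_lit 0) (cs (lf (nat_lit 11) (nat_lit 180)) (rf (nat_lit 0)))) (lf (nat_lit 10) (nat_lit 181)))) q17226 (by decide +kernel)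
def q17241 : Q := Q.p (nat_lit 0x400001e000000000000000000000000000000000000000000000) (nat_lit 0x2e00001000000000000000000000000000000000000000000000) (nat_lit 3)
theorem c17241 : QOK q17241 := cut [q17239] ⟨c17239, trivial⟩ (nd (nat_lit 180) (nat_lit 0) (cs (rf (nat_lit 0)) (lf (nat_lit 4) (nat_lit 180)))) q17241 (by decide +kernel)
def q17279 : Q := Q.p (nat_lit 0x780001000000000000000000000000000000000000000000000000000000000) (nat_lit 0x38000040000800000000000000000000000000000000000000000000000000000000) (nat_lit 3)
theorem c17279 : QOK q17279 := cut [q17277] ⟨c17277, trivial⟩ (nd (nat_lit 246) (nat_lit 0) (cs (rf (nat_lit 0)) (lf (nat_lit 16) (nat_lit 224)))) q17279 (by decide +kernel)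
def q17285 : Q := Q.p (nat_lit 0x180000200000800018000000000000000000000000000000000000000000000) (nat_lit 0x40000000000000000400006000010000000000000000000000000000000000000000) (nat_lit 3)
theorem c17285 : QOK q17285 := cut [q17283] ⟨c17283, trivial⟩ (nd (nat_lit 181) (nat_lit 0) (cs (rf (nat_lit 0)) (lf (nat_lit 29) (nat_lit 181)))) q17285 (by decide +kernel)
def q17291 : Q := Q.p (nat_lit 0x180000200000800002000000000000000000000000000000000000000000000) (nat_lit 0x40000000000100000c000010000000000000000000000000000000000) (nat_lit 3)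
theorem c17291 : QOK q17291 := cut [q17289] ⟨c17289, trivial⟩ (nd (nat_lit 159) (nat_lit 0) (cs (rf (nat_lit 0)) (lf (nat_lit 28) (nat_lit 159)))) q17291 (by decide +kernel)
def q17313 : Q := Q.p (nat_lit 0x1800004000010000040000000000000000000000000000000000000000) (nat_lit 0x2000000000020000180000200000000000000000000000000000) (nat_lit 3)
theorem c17313 : QOK q17313 := cut [q1271] ⟨c1271, trivial⟩ (nd (nat_lit 140) (nat_lit 0) (cs (rf (nat_lit 0)) (lf (nat_lit 40) (nat_lit 139)))) q17313 (by decide +kernel)
def q17321 : Q := Q.p (nat_lit 0x400001000004000010000000000000000000000000000000000000000000000) (nat_lit 0x400001000002000008000020000280000c0000300000000000000000000000000000000000) (nat_lit 6)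
theorem c17321 : QOK q17321 := cut [q17318] ⟨c17318, trivial⟩ (nd (nat_lit 163) (nat_lit 0) (cs (lf (nat_lit 34) (nat_lit 162)) (nd (nat_lit 162) (nat_lit 0) (cs (lf (nat_lit 35) (nat_lit 140)) (nd (nat_lit 227) (nat_lit 0) (cs (lf (nat_lit 41) (nat_lit 161)) (rf (nat_lit 0)))))))) q17321 (by decide +kernel)
def q17344 : Q := Q.p (nat_lit 0x1000004000010000040000000000000000000000000000000000000000) (nat_lit 0x200000800002000000000080000300000800000000000000000000000000000) (nat_lit 4)
theorem c17344 : QOK q17344 := cut [q2478] ⟨c2478, trivial⟩ (nd (nat_lit 227) (nat_lit 0) (cs (lf (nat_lit 41) (nat_lit 161)) (nd (nat_lit 140) (nat_lit 0) (cs (rf (nat_lit 0)) (lf (nat_lit 40) (nat_lit 139)))))) q17344 (by decide +kernel)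
def q17369 : Q := Q.p (nat_lit 0x100000400001000004000000000000000000000000000000000000000000000000000) (nat_lit 0x280000e0000280000000000000000000000000000000000000000000000000000000000000000000) (nat_lit 4)
theorem c17369 : QOK q17369 := cut [q17367] ⟨c17367, trivial⟩ (nd (nat_lit 295) (nat_lit 0) (cs (lf (nat_lit 28) (nat_lit 206)) (nd (nat_lit 293) (nat_lit 0) (cs (lf (nat_lit 40) (nat_lit 205)) (rf (nat_lit 0)))))) q17369 (by decide +kernel)
def q17370 : Q := Q.p (nat_lit 0x20000100000400001000004000000000000000000000000000000000000000000000000000) (nat_lit 0x8000040000000000000000800002000008000000000000000000000000000000000000000000000) (nat_lit 3)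
theorem c17370 : QOK q17370 := cut [q14138] ⟨c14138, trivial⟩ (nd (nat_lit 294) (nat_lit 0) (cs (lf (nat_lit 41) (nat_lit 227)) (rf (nat_lit 0)))) q17370 (by decide +kernel)
def q17375 : Q := Q.p (nat_lit 0x100000400001000004000000000000000000000000000000000000000000000000000) (nat_lit 0x8000060000080000000000800002000008000000000000000000000000000000000000000000000) (nat_lit 4)
theorem c17375 : QOK q17375 := cut [q17373] ⟨c17373, trivial⟩ (nd (nat_lit 293) (nat_lit 0) (cs (lf (nat_lit 40) (nat_lit 205)) (nd (nat_lit 205) (nat_lit 0) (cs (lf (nat_lit 47) (nat_lit 183)) (rf (nat_lit 0)))))) q17375 (by decide +kernel)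
def q17403 : Q := Q.p (nat_lit 0x40000100000400001800000000000000000000000000000000000000000000000000000000) (nat_lit 0x2000018000020000000000200000000000000000000000000000000000000000000000000000000000000) (nat_lit 3)
theorem c17403 : QOK q17403 := cut [q8903] ⟨c8903, trivial⟩ (nd (nat_lit 316) (nat_lit 0) (cs (rf (nat_lit 0)) (lf (nat_lit 46) (nat_lit 227)))) q17403 (by decide +kernel)
def q17410 : Q := Q.p (nat_lit 0x100000400001000004000000000000000000000000000000000000000000000000000) (nat_lit 0x300000c0000280000200000800002000010000040000000000000000000000000000000000000000) (nat_lit 6)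
theorem c17410 : QOK q17410 := cut [q14196] ⟨c14196, trivial⟩ (nd (nat_lit 295) (nat_lit 0) (cs (lf (nat_lit 28) (nat_lit 206)) (nd (nat_lit 294) (nat_lit 0) (cs (lf (nat_lit 29) (nat_lit 228)) (nd (nat_lit 227) (nat_lit 0) (cs (lf (nat_lit 47) (nat_lit 205)) (nd (nat_lit 249) (nat_lit 0) (cs (lf (nat_lit 42) (nat_lit 227)) (rf (nat_lit 0)))))))))) q17410 (by decide +kernel)
def q17424 : Q := Q.p (nat_lit 0x40000100000400001000000000000000000000000000000000000000000000000000000000) (nat_lit 0x8000030000080000000000200000800002000000000000000000000000000000000000000000000000000) (nat_lit 4)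
theorem c17424 : QOK q17424 := cut [q17422] ⟨c17422, trivial⟩ (nd (nat_lit 227) (nat_lit 0) (cs (lf (nat_lit 47) (nat_lit 205)) (nd (nat_lit 316) (nat_lit 0) (cs (lf (nat_lit 46) (nat_lit 227)) (rf (nat_lit 0)))))) q17424 (by decide +kernel)
def q17433 : Q := Q.p (nat_lit 0x3c0000100000000002000000000000000000000000000000000000000000000000000) (nat_lit 0x18000000000200000c00000000000000000000000000000000000000000000000000000000) (nat_lit 3)
theorem c17433 : QOK q17433 := cut [q17432] ⟨c17432, trivial⟩ (nd (nat_lit 292) (nat_lit 0) (cs (lf (nat_lit 11) (nat_lit 269)) (rf (nat_lit 0)))) q17433 (by decide +kernel)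
def q17445 : Q := Q.p (nat_lit 0x2400019000004000000000000000000000000000000000000000000000000000) (nat_lit 0x280001a000020000000000300000c0000200000000000000000000000000000000000) (nat_lit 6)
theorem c17445 : QOK q17445 := cut [q2073] ⟨c2073, trivial⟩ (nd (nat_lit 251) (nat_lit 0) (cs (lf (nat_lit 14) (nat_lit 228)) (nd (nat_lit 184) (nat_lit 0) (cs (lf (nat_lit 29) (nat_lit 184)) (nd (nat_lit 249) (nat_lit 0) (cs (lf (nat_lit 41) (nat_lit 183)) (rf (nat_lit 0)))))))) q17445 (by decide +kernel)
def q17482 : Q := Q.p (nat_lit 0x74000000000000000000000000000000000000000000000000000) (nat_lit 0x3800008000038000000000000000000000000000000000000000000000) (nat_lit 3)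
theorem c17482 : QOK q17482 := cut [q173, q7862] ⟨c173, c7862, trivial⟩ (nd (nat_lit 207) (nat_lit 0) (cs (rf (nat_lit 0)) (rf (nat_lit 1)))) q17482 (by decide +kernel)
def q17549 : Q := Q.p (nat_lit 0x2400008000024000010000000000000000000000000000000000000000000000) (nat_lit 0x5c0001a00010c000020001c0000700001400000000000000000000000000000000000) (nat_lit 7)
theorem c17549 : QOK q17549 := cut [q17533, q2204] ⟨c17533, c2204, trivial⟩ (nd (nat_lit 187) (nat_lit 0) (cs (nd (nat_lit 252) (nat_lit 0) (cs (lf (nat_lit 41) (nat_lit 186)) (rf (nat_lit 0)))) (nd (nat_lit 164) (nat_lit 0) (cs (lf (nat_lit 46) (nat_lit 164)) (nd (nat_lit 165) (nat_lit 0) (cs (lf (nat_lit 47) (nat_lit 142)) (rf (nat_lit 1)))))))) q17549 (by decide +kernel)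

end Crest.Agent.H3.Snaky.CR
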