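import Crest.Agent.H3.Snaky.Cert

set_option autoImplicit false
set_option maxRecDepth 100000

namespace Crest.Agent.H3.Snaky.CR

open T

def q18104 : Q := Q.p (nat_lit 0xc000010000040000100000000000000000000000000000000000) (nat_lit 0x20000000000200000c00002000000000000000000000000) (nat_lit 3)
theorem c18104 : QOK q18104 := cut [] trivial (nd (nat_lit 119) (nat_lit 0) (cs (lf (nat_lit 34) (nat_lit 118)) (nd (nat_lit 118) (nat_lit 0) (cs (lf (nat_lit 35) (nat_lit 96)) (lf (nat_lit 28) (nat_lit 118)))))) q18104 (by decide +kernel)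
def q18118 : Q := Q.p (nat_lit 0x400000e00002000008000000000000000000000000000000000000000000000000000000000) (nat_lit 0x100000200000100000000000000000000000000000000000000000000000000000000000000000000) (nat_lit 2)
theorem c18118 : QOK q18118 := cut [] trivial (nd (nat_lit 297) (nat_lit 0) (cs (lf (nat_lit 29) (nat_lit 231)) (lf (nat_lit 0) (nat_lit 272)))) q18118 (by decide +kernel)
def q18157 : Q := Q.p (nat_lit 0x4000010000040000100000400000000000000000000000000000000000) (nat_lit 0x800002000008000000000000000000000000000000000000000000000000000) (nat_lit 2)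
theorem c18157 : QOK q18157 := cut [] trivial (nd (nat_lit 229) (nat_lit 0) (cs (lf (nat_lit 40) (nat_lit 141)) (lf (nat_lit 41) (nat_lit 163)))) q18157 (by decide +kernel)
def q18161 : Q := Q.p (nat_lit 0x40000100000400002800000000000000000000000000000) (nat_lit 0x100000a000000000000000000000000) (nat_lit 2)
theorem c18161 : QOK q18161 := cut [] trivial (nd (nat_lit 120) (nat_lit 0) (cs (lf (nat_lit 35) (nat_lit 98)) (lf (nat_lit 47) (nat_lit 97)))) q18161 (by decide +kernel)
def q18166 : Q := Q.p (nat_lit 0x10000040000100000400000000000000000000000000000000000) (nat_lit 0x800006000008000000000200000800002000000000000000000000000000000) (nat_lit 4)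
theorem c18166 : QOK q18166 := cut [] trivial (nd (nat_lit 229) (nat_lit 0) (cs (lf (nat_lit 40) (nat_lit 141)) (nd (nat_lit 143) (nat_lit 0) (cs (lf (nat_lit 35) (nat_lit 120)) (nd (nat_lit 230) (nat_lit 0) (cs (lf (nat_lit 34) (nat_lit 142)) (lf (nat_lit 41) (nat_lit 163)))))))) q18166 (by decide +kernel)
def q18191 : Q := Q.p (nat_lit 0x3800000000010000040000000000000000000000000000000000000000000000) (nat_lit 0xa00000000004000000000000000000000000000000000000000000000000000000000) (nat_lit 2)
theorem c18191 : QOK q18191 := cut [] trivial (nd (nat_lit 230) (nat_lit 0) (cs (lf (nat_lit 41) (nat_lit 185)) (lf (nat_lit 29) (nat_lit 186)))) q18191 (by decide +kernel)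
def q18192 : Q := Q.p (nat_lit 0x1f00000000000000000000000000000000000000000000000000000000000000) (nat_lit 0xe0000000000000000000000000000000000000000000000000000000000000000000) (nat_lit 2)
theorem c18192 : QOK q18192 := cut [] trivial (nd (nat_lit 270) (nat_lit 0) (cs (lf (nat_lit 11) (nat_lit 247)) (lf (nat_lit 10) (nat_lit 248)))) q18192 (by decide +kernel)
def q18196 : Q := Q.p (nat_lit 0x220000700000000000000000000000000000000000000000000000000000000000000) (nat_lit 0x110000080000000000000000000000000000000000000000000000000000000000000) (nat_lit 2)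
theorem c18196 : QOK q18196 := cut [] trivial (nd (nat_lit 247) (nat_lit 0) (cs (lf (nat_lit 11) (nat_lit 246)) (lf (nat_lit 4) (nat_lit 247)))) q18196 (by decide +kernel)
def q18202 : Q := Q.p (nat_lit 0x38000060000300000000000000000000000000000000000000000000000000000000000000000000) (nat_lit 0x40000018000000000000000000000000000000000000000000000000000000000000000000000000) (nat_lit 2)
theorem c18202 : QOK q18202 := cut [] trivial (nd (nat_lit 292) (nat_lit 0) (cs (lf (nat_lit 18) (nat_lit 292)) (lf (nat_lit 12) (nat_lit 269)))) q18202 (by decide +kernel)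
def q18212 : Q := Q.p (nat_lit 0xe0000300000000000000000000000000000000000000000000000000000000000000000000) (nat_lit 0x18000400000000000000000000000000000000000000000000000000000000000000000000) (nat_lit 2)
theorem c18212 : QOK q18212 := cut [] trivial (nd (nat_lit 292) (nat_lit 0) (cs (lf (nat_lit 12) (nat_lit 269)) (lf (nat_lit 17) (nat_lit 270)))) q18212 (by decide +kernel)
def q18218 : Q := Q.p (nat_lit 0xc0000300000c00000000000000000000000000000000000000000000000000000000000000) (nat_lit 0x180001e0000130000000000000000000000000000000000000000000000000000000000000000000000000) (nat_lit 5)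
theorem c18218 : QOK q18218 := cut [] trivial (nd (nat_lit 317) (nat_lit 0) (cs (lf (nat_lit 42) (nat_lit 250)) (nd (nat_lit 318) (nat_lit 0) (cs (lf (nat_lit 29) (nat_lit 251)) (nd (nat_lit 293) (nat_lit 0) (cs (lf (nat_lit 0) (nat_lit 292)) (nd (nat_lit 319) (nat_lit 0) (cs (lf (nat_lit 18) (nat_lit 294)) (lf (nat_lit 3) (nat_lit 293)))))))))) q18218 (by decide +kernel)
def q18220 : Q := Q.p (nat_lit 0x700000c0000000000000000000000000000000000000000000000000000000000000000000000000) (nat_lit 0x80000030000000000000000000000000000000000000000000000000000000000000000000000000) (nat_lit 2)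
theorem c18220 : QOK q18220 := cut [] trivial (nd (nat_lit 293) (nat_lit 0) (cs (lf (nat_lit 18) (nat_lit 293)) (lf (nat_lit 0) (nat_lit 292)))) q18220 (by decide +kernel)
def q18230 : Q := Q.p (nat_lit 0x300000c0000300001c00000000000000000000000000000000000000000000000000000000000000) (nat_lit 0x720001c8000300000400000000000000000000000000000000000000000000000000000000000000000000) (nat_lit 6)
theorem c18230 : QOK q18230 := cut [] trivial (nd (nat_lit 318) (nat_lit 0) (cs (lf (nat_lit 29) (nat_lit 251)) (nd (nat_lit 319) (nat_lit 0) (cs (lf (nat_lit 18) (nat_lit 294)) (nd (nat_lit 341) (nat_lit 0) (cs (lf (nat_lit 5) (nat_lit 316)) (nd (nat_lit 315) (nat_lit 0) (cs (lf (nat_lit 41) (nat_lit 249)) (nd (nat_lit 296) (nat_lit 0) (cs (lf (nat_lit 6) (nat_lit 293)) (lf (nat_lit 25) (nat_lit 252)))))))))))) q18230 (by decide +kernel)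
def q18235 : Q := Q.p (nat_lit 0x180001c0000000000000000000000000000000000000000000000000000000000000000000000000) (nat_lit 0x6000020000000000000000000000000000000000000000000000000000000000000000000000000) (nat_lit 2)
theorem c18235 : QOK q18235 := cut [] trivial (nd (nat_lit 314) (nat_lit 0) (cs (lf (nat_lit 12) (nat_lit 291)) (lf (nat_lit 9) (nat_lit 292)))) q18235 (by decide +kernel)
def q18258 : Q := Q.p (nat_lit 0x10000040000100000c00000000000000000000000000000000000000000000000000000000000000) (nat_lit 0x200000c000020000000000200000000000000000000000000000000000000000000000000000000000000000000) (nat_lit 3)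
theorem c18258 : QOK q18258 := cut [] trivial (nd (nat_lit 339) (nat_lit 0) (cs (lf (nat_lit 28) (nat_lit 250)) (nd (nat_lit 338) (nat_lit 0) (cs (lf (nat_lit 29) (nat_lit 272)) (lf (nat_lit 34) (nat_lit 250)))))) q18258 (by decide +kernel)
def q18265 : Q := Q.p (nat_lit 0x28000040000100000400000000000000000000000000000000000000000000000000000000000000) (nat_lit 0xa000010000000000000000000000000000000000000000000000000000000000000000000000000000000) (nat_lit 2)
theorem c18265 : QOK q18265 := cut [] trivial (nd (nat_lit 316) (nat_lit 0) (cs (lf (nat_lit 41) (nat_lit 249)) (lf (nat_lit 29) (nat_lit 250)))) q18265 (by decide +kernel)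
def q18276 : Q := Q.p (nat_lit 0x10000040000100000c00000000000000000000000000000000000000000000000000000000000000) (nat_lit 0x800006000008000000000200000000000000000000000000000000000000000000000000000000000000000000) (nat_lit 3)
theorem c18276 : QOK q18276 := cut [] trivial (nd (nat_lit 337) (nat_lit 0) (cs (lf (nat_lit 40) (nat_lit 249)) (nd (nat_lit 338) (nat_lit 0) (cs (lf (nat_lit 41) (nat_lit 271)) (lf (nat_lit 34) (nat_lit 250)))))) q18276 (by decide +kernel)
def q18312 : Q := Q.p (nat_lit 0x3c00010000000000000000000000000000000) (nat_lit 0x3800004000020000000000000000000000000000000) (nat_lit 3)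
theorem c18312 : QOK q18312 := cut [] trivial (nd (nat_lit 168) (nat_lit 0) (cs (lf (nat_lit 4) (nat_lit 142)) (nd (nat_lit 146) (nat_lit 0) (cs (lf (nat_lit 17) (nat_lit 121)) (lf (nat_lit 5) (nat_lit 143)))))) q18312 (by decide +kernel)
def q18327 : Q := Q.p (nat_lit 0x1c000040000000001e00000000000000000000000000000000000) (nat_lit 0x60000380000c0000200001c000020000080000000000000000000) (nat_lit 7)
theorem c18327 : QOK q18327 := cut [] trivial (nd (nat_lit 123) (nat_lit 0) (cs (lf (nat_lit 16) (nat_lit 119)) (nd (nat_lit 166) (nat_lit 0) (cs (lf (nat_lit 5) (nat_lit 141)) (nd (nat_lit 145) (nat_lit 0) (cs (lf (nat_lit 17) (nat_lit 120)) (nd (nat_lit 79) (nat_lit 0) (cs (lf (nat_lit 37) (nat_lit 78)) (nd (nat_lit 188) (nat_lit 0) (cs (lf (nat_lit 30) (nat_lit 122)) (nd (nat_lit 187) (nat_lit 0) (cs (lf (nat_lit 6) (nat_lit 185)) (lf (nat_lit 15) (nat_lit 184)))))))))))))) q18327 (by decide +kernel)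
def q18361 : Q := Q.p (nat_lit 0x100000780000000000000000000000000000000000) (nat_lit 0xb8000040000000000000000000000000000000000) (nat_lit 3)
theorem c18361 : QOK q18361 := cut [] trivial (nd (nat_lit 160) (nat_lit 0) (cs (lf (nat_lit 10) (nat_lit 138)) (nd (nat_lit 138) (nat_lit 0) (cs (lf (nat_lit 11) (nat_lit 137)) (lf (nat_lit 4) (nat_lit 138)))))) q18361 (by decide +kernel)
def q18373 : Q := Q.p (nat_lit 0xf00000000000000000000000000000000000) (nat_lit 0x70000080000700000000000000000000000000000) (nat_lit 4)
theorem c18373 : QOK q18373 := cut [] trivial (nd (nat_lit 117) (nat_lit 0) (cs (lf (nat_lit 22) (nat_lit 117)) (nd (nat_lit 161) (nat_lit 0) (cs (lf (nat_lit 10) (nat_lit 139)) (nd (nat_lit 139) (nat_lit 0) (cs (lf (nat_lit 11) (nat_lit 138)) (lf (nat_lit 23) (nat_lit 116)))))))) q18373 (by decide +kernel)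
def q18390 : Q := Q.p (nat_lit 0x100000c0000100000400000000000000000000000000000000000) (nat_lit 0x20000000000000000800003000008000000000000000000000000) (nat_lit 3)
theorem c18390 : QOK q18390 := cut [] trivial (nd (nat_lit 121) (nat_lit 0) (cs (lf (nat_lit 34) (nat_lit 120)) (nd (nat_lit 120) (nat_lit 0) (cs (lf (nat_lit 35) (nat_lit 98)) (lf (nat_lit 29) (nat_lit 120)))))) q18390 (by decide +kernel)
def q18394 : Q := Q.p (nat_lit 0x100001c0000100000000000000000000000000000000000000000) (nat_lit 0x8000200000080000000000000000000000000000000000000000) (nat_lit 2)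
theorem c18394 : QOK q18394 := cut [] trivial (nd (nat_lit 189) (nat_lit 0) (cs (lf (nat_lit 11) (nat_lit 185)) (lf (nat_lit 23) (nat_lit 163)))) q18394 (by decide +kernel)
def q18416 : Q := Q.p (nat_lit 0x80000000001e00000000000000000000000000000000000) (nat_lit 0xe0000000000c0000380000e0000280000000000000) (nat_lit 7)
theorem c18416 : QOK q18416 := cut [] trivial (nd (nat_lit 166) (nat_lit 0) (cs (lf (nat_lit 5) (nat_lit 141)) (nd (nat_lit 122) (nat_lit 0) (cs (lf (nat_lit 17) (nat_lit 119)) (nd (nat_lit 100) (nat_lit 0) (cs (lf (nat_lit 40) (nat_lit 99)) (nd (nat_lit 79) (nat_lit 0) (cs (nd (nat_lit 78) (nat_lit 0) (cs (nd (nat_lit 77) (nat_lit 0) (cs (lf (nat_lit 47) (nat_lit 55)) (lf (nat_lit 46) (nat_lit 77)))) (lf (nat_lit 35) (nat_lit 56)))) (lf (nat_lit 34) (nat_lit 78)))))))))) q18416 (by decide +kernel)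
def q18427 : Q := Q.p (nat_lit 0x100000000003c00000000000000000000000000000000000) (nat_lit 0x4000000000040000020001c000020000000000000000000000000) (nat_lit 4)
theorem c18427 : QOK q18427 := cut [] trivial (nd (nat_lit 123) (nat_lit 0) (cs (lf (nat_lit 17) (nat_lit 120)) (nd (nat_lit 122) (nat_lit 0) (cs (lf (nat_lit 12) (nat_lit 119)) (nd (nat_lit 166) (nat_lit 0) (cs (lf (nat_lit 35) (nat_lit 100)) (lf (nat_lit 30) (nat_lit 122)))))))) q18427 (by decide +kernel)
def q18428 : Q := Q.p (nat_lit 0x100000c00003000000000000000000000000000000000000) (nat_lit 0x40000000000000000000008000020000000000000000000000000) (nat_lit 2)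
theorem c18428 : QOK q18428 := cut [] trivial (nd (nat_lit 123) (nat_lit 0) (cs (lf (nat_lit 36) (nat_lit 100)) (lf (nat_lit 30) (nat_lit 122)))) q18428 (by decide +kernel)
def q18450 : Q := Q.p (nat_lit 0x10000040000100000400000000000000000000000000000000000) (nat_lit 0x800006000008000000000080000200000800000000000000000000000000000) (nat_lit 4)
theorem c18450 : QOK q18450 := cut [] trivial (nd (nat_lit 229) (nat_lit 0) (cs (lf (nat_lit 40) (nat_lit 141)) (nd (nat_lit 141) (nat_lit 0) (cs (lf (nat_lit 47) (nat_lit 119)) (nd (nat_lit 230) (nat_lit 0) (cs (lf (nat_lit 41) (nat_lit 163)) (lf (nat_lit 46) (nat_lit 141)))))))) q18450 (by decide +kernel)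
def q18478 : Q := Q.p (nat_lit 0x6000010000040000100000000000000000000000000000000000) (nat_lit 0x8000000000200000c00002000000000000000000000000) (nat_lit 3)
theorem c18478 : QOK q18478 := cut [] trivial (nd (nat_lit 119) (nat_lit 0) (cs (lf (nat_lit 34) (nat_lit 118)) (nd (nat_lit 118) (nat_lit 0) (cs (lf (nat_lit 35) (nat_lit 96)) (lf (nat_lit 40) (nat_lit 117)))))) q18478 (by decide +kernel)
def q18485 : Q := Q.p (nat_lit 0x4000010000060000080000000000000000000000000000000000) (nat_lit 0x8000000000000000200000800000000000000000000000) (nat_lit 2)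
theorem c18485 : QOK q18485 := cut [] trivial (nd (nat_lit 117) (nat_lit 0) (cs (lf (nat_lit 24) (nat_lit 95)) (lf (nat_lit 27) (nat_lit 117)))) q18485 (by decide +kernel)
def q18528 : Q := Q.p (nat_lit 0x4000010000040000100000000000000000000000000000000000) (nat_lit 0x280000e00002800000000000000000000000) (nat_lit 4)
theorem c18528 : QOK q18528 := cut [] trivial (nd (nat_lit 117) (nat_lit 0) (cs (lf (nat_lit 46) (nat_lit 117)) (nd (nat_lit 119) (nat_lit 0) (cs (lf (nat_lit 34) (nat_lit 118)) (nd (nat_lit 118) (nat_lit 0) (cs (lf (nat_lit 35) (nat_lit 96)) (lf (nat_lit 47) (nat_lit 95)))))))) q18528 (by decide +kernel)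
def q18545 : Q := Q.p (nat_lit 0x800001000004000010000020000000000000000000000000000000000000000) (nat_lit 0x2000000000000000040000080000000000000000000000000000000000) (nat_lit 2)
theorem c18545 : QOK q18545 := cut [] trivial (nd (nat_lit 162) (nat_lit 0) (cs (lf (nat_lit 28) (nat_lit 162)) (lf (nat_lit 47) (nat_lit 139)))) q18545 (by decide +kernel)
def q18571 : Q := Q.p (nat_lit 0x8000040000100000600000000000000000000000000000000000000000000000000000000000000) (nat_lit 0x2000010000000000000000000000800000000000000000000000000000000000000000000000000000000) (nat_lit 2)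
theorem c18571 : QOK q18571 := cut [] trivial (nd (nat_lit 316) (nat_lit 0) (cs (lf (nat_lit 41) (nat_lit 249)) (lf (nat_lit 47) (nat_lit 227)))) q18571 (by decide +kernel)
def q18589 : Q := Q.p (nat_lit 0x1000004000010000040000000000000000000000000000000000000000) (nat_lit 0x800002000008000000000080000300000800000000000000000000000000000) (nat_lit 4)
theorem c18589 : QOK q18589 := cut [] trivial (nd (nat_lit 141) (nat_lit 0) (cs (lf (nat_lit 34) (nat_lit 140)) (nd (nat_lit 229) (nat_lit 0) (cs (lf (nat_lit 29) (nat_lit 162)) (nd (nat_lit 140) (nat_lit 0) (cs (lf (nat_lit 35) (nat_lit 118)) (lf (nat_lit 28) (nat_lit 140)))))))) q18589 (by decide +kernel)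
def q18594 : Q := Q.p (nat_lit 0x10000040000100000c000000000000000000000000000000000000000000000000000) (nat_lit 0x200000c0000200000000002000000000000000000000000000000000000000000000000000000000) (nat_lit 3)
theorem c18594 : QOK q18594 := cut [] trivial (nd (nat_lit 295) (nat_lit 0) (cs (lf (nat_lit 28) (nat_lit 206)) (nd (nat_lit 294) (nat_lit 0) (cs (lf (nat_lit 29) (nat_lit 228)) (lf (nat_lit 34) (nat_lit 206)))))) q18594 (by decide +kernel)
def q18602 : Q := Q.p (nat_lit 0x2c00001000010000040000000000000000000000000000000000000000000000) (nat_lit 0x1800001000004800000000000000000000000000000000000000000000000000000000) (nat_lit 3)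
theorem c18602 : QOK q18602 := cut [] trivial (nd (nat_lit 252) (nat_lit 0) (cs (lf (nat_lit 23) (nat_lit 227)) (nd (nat_lit 275) (nat_lit 0) (cs (lf (nat_lit 26) (nat_lit 186)) (lf (nat_lit 5) (nat_lit 250)))))) q18602 (by decide +kernel)
def q18616 : Q := Q.p (nat_lit 0x800003000004000010000000000000000000000000000000000000000000000) (nat_lit 0x80000200000000000000008000000000000000000000000000000000000000000000000000) (nat_lit 2)
theorem c18616 : QOK q18616 := cut [] trivial (nd (nat_lit 273) (nat_lit 0) (cs (lf (nat_lit 42) (nat_lit 206)) (lf (nat_lit 45) (nat_lit 184)))) q18616 (by decide +kernel)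
def q18622 : Q := Q.p (nat_lit 0x400001000004000010000000000000000000000000000000000000000000000) (nat_lit 0x20000180000200000000002000008000020000000000000000000000000000000000000000) (nat_lit 4)
theorem c18622 : QOK q18622 := cut [] trivial (nd (nat_lit 183) (nat_lit 0) (cs (lf (nat_lit 47) (nat_lit 161)) (nd (nat_lit 271) (nat_lit 0) (cs (lf (nat_lit 40) (nat_lit 183)) (nd (nat_lit 272) (nat_lit 0) (cs (lf (nat_lit 41) (nat_lit 205)) (lf (nat_lit 46) (nat_lit 183)))))))) q18622 (by decide +kernel)
def q18626 : Q := Q.p (nat_lit 0x2000003800010000000000000000000000000000000000000000000000000000) (nat_lit 0x1000004000020000000000000000000000000000000000000000000000000000) (nat_lit 2)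
theorem c18626 : QOK q18626 := cut [] trivial (nd (nat_lit 230) (nat_lit 0) (cs (lf (nat_lit 17) (nat_lit 205)) (lf (nat_lit 4) (nat_lit 227)))) q18626 (by decide +kernel)
def q18635 : Q := Q.p (nat_lit 0x3000001800010000040000000000000000000000000000000000000000000000) (nat_lit 0x800000000006000000000000000000000000000000000000000000000000000000000) (nat_lit 2)
theorem c18635 : QOK q18635 := cut [] trivial (nd (nat_lit 230) (nat_lit 0) (cs (lf (nat_lit 29) (nat_lit 186)) (lf (nat_lit 2) (nat_lit 227)))) q18635 (by decide +kernel)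
def q18667 : Q := Q.p (nat_lit 0xc0000780000000000000000000000000000000000) (nat_lit 0x1800007000000000000000000000000000000) (nat_lit 3)
theorem c18667 : QOK q18667 := cut [] trivial (nd (nat_lit 121) (nat_lit 0) (cs (lf (nat_lit 16) (nat_lit 117)) (nd (nat_lit 143) (nat_lit 0) (cs (lf (nat_lit 6) (nat_lit 140)) (lf (nat_lit 17) (nat_lit 118)))))) q18667 (by decide +kernel)
def q18739 : Q := Q.p (nat_lit 0x400001000004000010000040000000000000000000000000000000000000000000000) (nat_lit 0x20000080000200000000000000000000000000000000000000000) (nat_lit 2)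
theorem c18739 : QOK q18739 := cut [] trivial (nd (nat_lit 187) (nat_lit 0) (cs (lf (nat_lit 35) (nat_lit 164)) (lf (nat_lit 34) (nat_lit 186)))) q18739 (by decide +kernel)
def q18755 : Q := Q.p (nat_lit 0x180000f0000000000000000000000000000000000000000000000) (nat_lit 0xe0000300000000000000000000000000000000000000000000000) (nat_lit 3)
theorem c18755 : QOK q18755 := cut [] trivial (nd (nat_lit 188) (nat_lit 0) (cs (lf (nat_lit 6) (nat_lit 185)) (nd (nat_lit 210) (nat_lit 0) (cs (lf (nat_lit 5) (nat_lit 185)) (lf (nat_lit 19) (nat_lit 184)))))) q18755 (by decide +kernel)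
def q18772 : Q := Q.p (nat_lit 0x800002000018000060000080000000000000000000000000000000000000000) (nat_lit 0x400001000004000000000000000000000000000000000000000000000000000000000) (nat_lit 2)
theorem c18772 : QOK q18772 := cut [] trivial (nd (nat_lit 252) (nat_lit 0) (cs (lf (nat_lit 29) (nat_lit 185)) (lf (nat_lit 43) (nat_lit 163)))) q18772 (by decide +kernel)
def q18784 : Q := Q.p (nat_lit 0x1800002000008000010000000000000000000000000000000000000000000000) (nat_lit 0x400000000000000000000020000040000000000000000000000000000000000000000) (nat_lit 2)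
theorem c18784 : QOK q18784 := cut [] trivial (nd (nat_lit 185) (nat_lit 0) (cs (lf (nat_lit 29) (nat_lit 185)) (lf (nat_lit 47) (nat_lit 162)))) q18784 (by decide +kernel)
def q18834 : Q := Q.p (nat_lit 0x380000200000c000030000000000000000000000000000000000000000000000) (nat_lit 0x100000400001800000000000000080000000000000000000000000000000000000000) (nat_lit 3)
theorem c18834 : QOK q18834 := cut [] trivial (nd (nat_lit 250) (nat_lit 0) (cs (lf (nat_lit 41) (nat_lit 184)) (nd (nat_lit 228) (nat_lit 0) (cs (lf (nat_lit 35) (nat_lit 162)) (lf (nat_lit 23) (nat_lit 227)))))) q18834 (by decide +kernel)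
def q18846 : Q := Q.p (nat_lit 0x100000400001c000060000000000000000000000000000000000000000000000) (nat_lit 0x180000200000000000000000000000000000000000000000) (nat_lit 2)
theorem c18846 : QOK q18846 := cut [] trivial (nd (nat_lit 187) (nat_lit 0) (cs (lf (nat_lit 35) (nat_lit 164)) (lf (nat_lit 6) (nat_lit 184)))) q18846 (by decide +kernel)
def q18875 : Q := Q.p (nat_lit 0xc000030000080000000000000000000000000000000000000000) (nat_lit 0x1000000000000000000000200000800000000000000000000000000000) (nat_lit 2)
theorem c18875 : QOK q18875 := cut [] trivial (nd (nat_lit 141) (nat_lit 0) (cs (lf (nat_lit 36) (nat_lit 118)) (lf (nat_lit 41) (nat_lit 140)))) q18875 (by decide +kernel)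
def q18879 : Q := Q.p (nat_lit 0xc000050000040000100000000000000000000000000000000000) (nat_lit 0x800003000020000000000000000400000000000000000000000000000) (nat_lit 3)
theorem c18879 : QOK q18879 := cut [] trivial (nd (nat_lit 205) (nat_lit 0) (cs (lf (nat_lit 41) (nat_lit 139)) (nd (nat_lit 185) (nat_lit 0) (cs (lf (nat_lit 12) (nat_lit 182)) (lf (nat_lit 24) (nat_lit 118)))))) q18879 (by decide +kernel)
def q18910 : Q := Q.p (nat_lit 0x30000070000000000000000000000000000000000000000000000) (nat_lit 0xc0000080000000000000000000000000000000000000000000000) (nat_lit 2)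
theorem c18910 : QOK q18910 := cut [] trivial (nd (nat_lit 210) (nat_lit 0) (cs (lf (nat_lit 18) (nat_lit 185)) (lf (nat_lit 3) (nat_lit 184)))) q18910 (by decide +kernel)
def q18913 : Q := Q.p (nat_lit 0xe0000440000000000000000000000000000000000000000) (nat_lit 0x100000880000000000000000000000000000000000000000) (nat_lit 2)
theorem c18913 : QOK q18913 := cut [] trivial (nd (nat_lit 188) (nat_lit 0) (cs (lf (nat_lit 17) (nat_lit 163)) (lf (nat_lit 22) (nat_lit 162)))) q18913 (by decide +kernel)
def q18919 : Q := Q.p (nat_lit 0x6000070000000000000000000000000000000000000000000000) (nat_lit 0x1800008000000000000000000000000000000000000000000000) (nat_lit 2)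
theorem c18919 : QOK q18919 := cut [] trivial (nd (nat_lit 204) (nat_lit 0) (cs (lf (nat_lit 12) (nat_lit 181)) (lf (nat_lit 9) (nat_lit 182)))) q18919 (by decide +kernel)
def q18922 : Q := Q.p (nat_lit 0x800002000078000000000000000000000000000000000000000000000) (nat_lit 0x200000000000000004000038000000000000000000000000000000000000000) (nat_lit 3)
theorem c18922 : QOK q18922 := cut [] trivial (nd (nat_lit 160) (nat_lit 0) (cs (lf (nat_lit 22) (nat_lit 160)) (nd (nat_lit 182) (nat_lit 0) (cs (lf (nat_lit 23) (nat_lit 159)) (lf (nat_lit 42) (nat_lit 160)))))) q18922 (by decide +kernel)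
def q18923 : Q := Q.p (nat_lit 0x800002000018000040000000000000000000000000000000000000000) (nat_lit 0x4000000000000000100000400000000000000000000000000000) (nat_lit 2)
theorem c18923 : QOK q18923 := cut [] trivial (nd (nat_lit 140) (nat_lit 0) (cs (lf (nat_lit 36) (nat_lit 117)) (lf (nat_lit 39) (nat_lit 139)))) q18923 (by decide +kernel)
def q18928 : Q := Q.p (nat_lit 0x800002000078000000000000000000000000000000000000000000000) (nat_lit 0x1000004000000000070000180000600000000000000000000000000000) (nat_lit 5)
theorem c18928 : QOK q18928 := cut [] trivial (nd (nat_lit 161) (nat_lit 0) (cs (lf (nat_lit 23) (nat_lit 160)) (nd (nat_lit 140) (nat_lit 0) (cs (lf (nat_lit 34) (nat_lit 139)) (nd (nat_lit 139) (nat_lit 0) (cs (lf (nat_lit 35) (nat_lit 117)) (nd (nat_lit 206) (nat_lit 0) (cs (lf (nat_lit 24) (nat_lit 117)) (lf (nat_lit 29) (nat_lit 139)))))))))) q18928 (by decide +kernel)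
def q18959 : Q := Q.p (nat_lit 0x16000018000000000000000000000000000000000000000000000) (nat_lit 0x1400009c000070000fc0003f0000fc0000000000000000000000000000) (nat_lit 14)
theorem c18959 : QOK q18959 := cut [] trivial (nd (nat_lit 182) (nat_lit 0) (cs (nd (nat_lit 181) (nat_lit 0) (cs (lf (nat_lit 0) (nat_lit 180)) (nd (nat_lit 162) (nat_lit 0) (cs (lf (nat_lit 17) (nat_lit 159)) (nd (nat_lit 140) (nat_lit 0) (cs (lf (nat_lit 36) (nat_lit 117)) (nd (nat_lit 202) (nat_lit 0) (cs (lf (nat_lit 10) (nat_lit 180)) (nd (nat_lit 119) (nat_lit 0) (cs (lf (nat_lit 34) (nat_lit 118)) (nd (nat_lit 158) (nat_lit 0) (cs (lf (nat_lit 22) (nat_lit 158)) (nd (nat_lit 139) (nat_lit 0) (cs (lf (nat_lit 47) (nat_lit 117)) (nd (nat_lit 161) (nat_lit 0) (cs (lf (nat_lit 29) (nat_lit 139)) (nd (nat_lit 204) (nat_lit 0) (cs (lf (nat_lit 41) (nat_lit 138)) (nd (nat_lit 138) (nat_lit 0) (cs (lf (nat_lit 47) (nat_lit 116)) (nd (nat_lit 137) (nat_lit 0) (cs (nd (nat_lit 115) (nat_lit 0) (cs (lf (nat_lit 23) (nat_lit 114)) (lf (nat_lit 44) (nat_lit 115)))) (lf (nat_lit 0) (nat_lit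 136)))))))))))))))))))))))) (lf (nat_lit 19) (nat_lit 182)))) q18959 (by decide +kernel)
def q18975 : Q := Q.p (nat_lit 0x16000018000000000000000000000000000000000000000000000) (nat_lit 0x40000100007e00009c00004000000000000000000000000000000000000000000000) (nat_lit 7)
theorem c18975 : QOK q18975 := cut [] trivial (nd (nat_lit 207) (nat_lit 0) (cs (lf (nat_lit 23) (nat_lit 182)) (nd (nat_lit 226) (nat_lit 0) (cs (lf (nat_lit 10) (nat_lit 204)) (nd (nat_lit 204) (nat_lit 0) (cs (lf (nat_lit 11) (nat_lit 203)) (nd (nat_lit 248) (nat_lit 0) (cs (lf (nat_lit 30) (nat_lit 182)) (nd (nat_lit 229) (nat_lit 0) (cs (lf (nat_lit 5) (nat_lit 204)) (nd (nat_lit 203) (nat_lit 0) (cs (lf (nat_lit 4) (nat_lit 203)) (lf (nat_lit 12) (nat_lit 180)))))))))))))) q18975 (by decide +kernel)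
def q18976 : Q := Q.p (nat_lit 0x6000018000040000000000000000000000000000000000000000) (nat_lit 0x800000000000000000000100000400000000000000000000000000000) (nat_lit 2)
theorem c18976 : QOK q18976 := cut [] trivial (nd (nat_lit 140) (nat_lit 0) (cs (lf (nat_lit 36) (nat_lit 117)) (lf (nat_lit 41) (nat_lit 139)))) q18976 (by decide +kernel)
def q18986 : Q := Q.p (nat_lit 0x18000020000080000200000000000000000000000000000) (nat_lit 0x40000000000400001800004000000000000000000) (nat_lit 3)
theorem c18986 : QOK q18986 := cut [] trivial (nd (nat_lit 96) (nat_lit 0) (cs (nd (nat_lit 95) (nat_lit 0) (cs (lf (nat_lit 28) (nat_lit 95)) (lf (nat_lit 35) (nat_lit 73)))) (lf (nat_lit 34) (nat_lit 95)))) q18986 (by decide +kernel)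
def q19001 : Q := Q.p (nat_lit 0x8000020000080000200000800000000000000000000000) (nat_lit 0x100000400001000000000000000000) (nat_lit 2)
theorem c19001 : QOK q19001 := cut [] trivial (nd (nat_lit 94) (nat_lit 0) (cs (lf (nat_lit 47) (nat_lit 72)) (lf (nat_lit 46) (nat_lit 94)))) q19001 (by decide +kernel)
def q19013 : Q := Q.p (nat_lit 0x70000060000000000000000000000000000000000000000) (nat_lit 0x8000018000000000000000000000000000000000000000) (nat_lit 2)
theorem c19013 : QOK q19013 := cut [] trivial (nd (nat_lit 160) (nat_lit 0) (cs (lf (nat_lit 0) (nat_lit 159)) (lf (nat_lit 21) (nat_lit 160)))) q19013 (by decide +kernel)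
def q19060 : Q := Q.p (nat_lit 0x1c000030000040000100000000000000000000000000000000000) (nat_lit 0x5000000000000000080000200000800000000000000000000000000000) (nat_lit 3)
theorem c19060 : QOK q19060 := cut [] trivial (nd (nat_lit 141) (nat_lit 0) (cs (lf (nat_lit 35) (nat_lit 118)) (nd (nat_lit 163) (nat_lit 0) (cs (lf (nat_lit 29) (nat_lit 141)) (lf (nat_lit 41) (nat_lit 140)))))) q19060 (by decide +kernel)
def q19094 : Q := Q.p (nat_lit 0x4000070000000000000000000000000000000000000000000000) (nat_lit 0xa000180000e00000000000000000000000000000000000000000) (nat_lit 4)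
theorem c19094 : QOK q19094 := cut [] trivial (nd (nat_lit 187) (nat_lit 0) (cs (lf (nat_lit 11) (nat_lit 183)) (nd (nat_lit 166) (nat_lit 0) (cs (lf (nat_lit 16) (nat_lit 162)) (nd (nat_lit 188) (nat_lit 0) (cs (lf (nat_lit 17) (nat_lit 163)) (lf (nat_lit 10) (nat_lit 184)))))))) q19094 (by decide +kernel)
def q19097 : Q := Q.p (nat_lit 0x1000004000030000000000000000000000000000000000000000000000) (nat_lit 0x400000000008000000000080000200000800000000000000000000000000000) (nat_lit 3)
theorem c19097 : QOK q19097 := cut [] trivial (nd (nat_lit 163) (nat_lit 0) (cs (lf (nat_lit 30) (nat_lit 162)) (nd (nat_lit 141) (nat_lit 0) (cs (lf (nat_lit 36) (nat_lit 118)) (lf (nat_lit 39) (nat_lit 140)))))) q19097 (by decide +kernel)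
def q19143 : Q := Q.p (nat_lit 0xf0000000000000000000000000000000000000000000000) (nat_lit 0xee000100000000000000000000000000000000000000000000000) (nat_lit 4)
theorem c19143 : QOK q19143 := cut [] trivial (nd (nat_lit 210) (nat_lit 0) (cs (lf (nat_lit 4) (nat_lit 184)) (nd (nat_lit 206) (nat_lit 0) (cs (lf (nat_lit 11) (nat_lit 183)) (nd (nat_lit 188) (nat_lit 0) (cs (lf (nat_lit 5) (nat_lit 185)) (lf (nat_lit 10) (nat_lit 184)))))))) q19143 (by decide +kernel)
def q19151 : Q := Q.p (nat_lit 0x100000f0000200000000000000000000000000000000000000000) (nat_lit 0x7000008000100000800002000000000000000000000000000000) (nat_lit 4)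
theorem c19151 : QOK q19151 := cut [] trivial (nd (nat_lit 121) (nat_lit 0) (cs (lf (nat_lit 37) (nat_lit 120)) (nd (nat_lit 205) (nat_lit 0) (cs (lf (nat_lit 10) (nat_lit 183)) (nd (nat_lit 183) (nat_lit 0) (cs (lf (nat_lit 11) (nat_lit 182)) (lf (nat_lit 16) (nat_lit 161)))))))) q19151 (by decide +kernel)
def q19153 : Q := Q.p (nat_lit 0xf8000000000000000000000000000000000000000000000) (nat_lit 0x70000000000000000000000000000000000000000) (nat_lit 2)
theorem c19153 : QOK q19153 := cut [] trivial (nd (nat_lit 161) (nat_lit 0) (cs (lf (nat_lit 22) (nat_lit 161)) (lf (nat_lit 23) (nat_lit 160)))) q19153 (by decide +kernel)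
def q19161 : Q := Q.p (nat_lit 0x1e0000000000000000000000000000000000000000000000) (nat_lit 0x1c0000200001c00000000000000000000000000000000000000000) (nat_lit 4)
theorem c19161 : QOK q19161 := cut [] trivial (nd (nat_lit 167) (nat_lit 0) (cs (lf (nat_lit 16) (nat_lit 163)) (nd (nat_lit 211) (nat_lit 0) (cs (lf (nat_lit 4) (nat_lit 185)) (nd (nat_lit 189) (nat_lit 0) (cs (lf (nat_lit 17) (nat_lit 164)) (lf (nat_lit 5) (nat_lit 186)))))))) q19161 (by decide +kernel)
def q19180 : Q := Q.p (nat_lit 0x40000100000400001000002000000000000000000000000000000) (nat_lit 0x200000c000028000000000000000000000000) (nat_lit 3)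
theorem c19180 : QOK q19180 := cut [] trivial (nd (nat_lit 123) (nat_lit 0) (cs (lf (nat_lit 34) (nat_lit 122)) (nd (nat_lit 122) (nat_lit 0) (cs (lf (nat_lit 35) (nat_lit 100)) (lf (nat_lit 47) (nat_lit 99)))))) q19180 (by decide +kernel)
def q19216 : Q := Q.p (nat_lit 0x7c00000000000000000000000000000) (nat_lit 0x3800000000000000000000000) (nat_lit 2)
theorem c19216 : QOK q19216 := cut [] trivial (nd (nat_lit 96) (nat_lit 0) (cs (lf (nat_lit 23) (nat_lit 95)) (lf (nat_lit 22) (nat_lit 96)))) q19216 (by decide +kernel)
def q19231 : Q := Q.p (nat_lit 0x40000100000000007800000000000000000000000000000) (nat_lit 0x400000000003000000000000000000000000) (nat_lit 2)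
theorem c19231 : QOK q19231 := cut [] trivial (nd (nat_lit 97) (nat_lit 0) (cs (lf (nat_lit 23) (nat_lit 96)) (lf (nat_lit 44) (nat_lit 97)))) q19231 (by decide +kernel)
def q19252 : Q := Q.p (nat_lit 0xf800000000000000000000000000000) (nat_lit 0x7000000000000000000000000) (nat_lit 2)
theorem c19252 : QOK q19252 := cut [] trivial (nd (nat_lit 97) (nat_lit 0) (cs (lf (nat_lit 23) (nat_lit 96)) (lf (nat_lit 22) (nat_lit 97)))) q19252 (by decide +kernel)
def q19275 : Q := Q.p (nat_lit 0x1e0000400000800002000000000000000000000000000000) (nat_lit 0xc0000000000000001000000000000000000000000000000000000) (nat_lit 2)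
theorem c19275 : QOK q19275 := cut [] trivial (nd (nat_lit 210) (nat_lit 0) (cs (lf (nat_lit 5) (nat_lit 185)) (lf (nat_lit 45) (nat_lit 121)))) q19275 (by decide +kernel)
def q19289 : Q := Q.p (nat_lit 0x1e0000000000000000000000000000000000000000000000) (nat_lit 0x10000ee0000000000000000000000000000000000000000) (nat_lit 4)
theorem c19289 : QOK q19289 := cut [] trivial (nd (nat_lit 162) (nat_lit 0) (cs (lf (nat_lit 22) (nat_lit 162)) (nd (nat_lit 166) (nat_lit 0) (cs (lf (nat_lit 17) (nat_lit 163)) (nd (nat_lit 184) (nat_lit 0) (cs (lf (nat_lit 23) (nat_lit 161)) (lf (nat_lit 16) (nat_lit 162)))))))) q19289 (by decide +kernel)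
def q19293 : Q := Q.p (nat_lit 0x80000300000800001000000000000000000000000000000000000) (nat_lit 0x20000000000000000400000000004000000000000000000000000000000) (nat_lit 2)
theorem c19293 : QOK q19293 := cut [] trivial (nd (nat_lit 166) (nat_lit 0) (cs (lf (nat_lit 42) (nat_lit 144)) (lf (nat_lit 24) (nat_lit 122)))) q19293 (by decide +kernel)
def q19295 : Q := Q.p (nat_lit 0x80000300000800002000000000000000000000000000000000000) (nat_lit 0x10000040000000000000000000008000000000000000000000000000000) (nat_lit 2)
theorem c19295 : QOK q19295 := cut [] trivial (nd (nat_lit 210) (nat_lit 0) (cs (lf (nat_lit 36) (nat_lit 122)) (lf (nat_lit 41) (nat_lit 144)))) q19295 (by decide +kernel)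
def q19303 : Q := Q.p (nat_lit 0x80000300000000001000000000000000000000000000000000000) (nat_lit 0x8000020000040000000000400000000004000000000000000000000000000000) (nat_lit 3)
theorem c19303 : QOK q19303 := cut [] trivial (nd (nat_lit 166) (nat_lit 0) (cs (lf (nat_lit 24) (nat_lit 122)) (nd (nat_lit 233) (nat_lit 0) (cs (lf (nat_lit 42) (nat_lit 166)) (lf (nat_lit 27) (nat_lit 144)))))) q19303 (by decide +kernel)
def q19310 : Q := Q.p (nat_lit 0x1800002800000000000000000000000000000) (nat_lit 0x6400001400000000000000000000000000000) (nat_lit 3)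
theorem c19310 : QOK q19310 := cut [] trivial (nd (nat_lit 120) (nat_lit 0) (cs (nd (nat_lit 145) (nat_lit 0) (cs (lf (nat_lit 18) (nat_lit 120)) (lf (nat_lit 21) (nat_lit 119)))) (lf (nat_lit 0) (nat_lit 118)))) q19310 (by decide +kernel)
def q19317 : Q := Q.p (nat_lit 0x180001c000000000000000000000000000000) (nat_lit 0x2600000000000000000000000000000000000) (nat_lit 2)
theorem c19317 : QOK q19317 := cut [] trivial (nd (nat_lit 142) (nat_lit 0) (cs (lf (nat_lit 12) (nat_lit 119)) (lf (nat_lit 15) (nat_lit 120)))) q19317 (by decide +kernel)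
def q19331 : Q := Q.p (nat_lit 0x1800003800000000000000000000000000000000000) (nat_lit 0x6000004000000000000000000000000000000000000) (nat_lit 2)
theorem c19331 : QOK q19331 := cut [] trivial (nd (nat_lit 169) (nat_lit 0) (cs (lf (nat_lit 18) (nat_lit 144)) (lf (nat_lit 3) (nat_lit 143)))) q19331 (by decide +kernel)
def q19338 : Q := Q.p (nat_lit 0xa0000c000000000000000000000000000000) (nat_lit 0x1500003000000000000000000000000000000) (nat_lit 3)
theorem c19338 : QOK q19338 := cut [] trivial (nd (nat_lit 142) (nat_lit 0) (cs (lf (nat_lit 15) (nat_lit 119)) (nd (nat_lit 121) (nat_lit 0) (cs (lf (nat_lit 12) (nat_lit 118)) (lf (nat_lit 9) (nat_lit 119)))))) q19338 (by decide +kernel)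
def q19351 : Q := Q.p (nat_lit 0x3800018000000000000000000000000000000) (nat_lit 0x4000060000000000000000000000000000000) (nat_lit 2)
theorem c19351 : QOK q19351 := cut [] trivial (nd (nat_lit 125) (nat_lit 0) (cs (lf (nat_lit 15) (nat_lit 121)) (lf (nat_lit 6) (nat_lit 122)))) q19351 (by decide +kernel)
def q19402 : Q := Q.p (nat_lit 0x3800018000000000000000000000000000000) (nat_lit 0x64000000000000000000000000000000) (nat_lit 2)
theorem c19402 : QOK q19402 := cut [] trivial (nd (nat_lit 125) (nat_lit 0) (cs (lf (nat_lit 6) (nat_lit 122)) (lf (nat_lit 9) (nat_lit 121)))) q19402 (by decide +kernel)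
def q19433 : Q := Q.p (nat_lit 0x200000800002000008000020000000000000000000000000) (nat_lit 0x4000010000040000000000000000000) (nat_lit 2)
theorem c19433 : QOK q19433 := cut [] trivial (nd (nat_lit 100) (nat_lit 0) (cs (lf (nat_lit 47) (nat_lit 78)) (lf (nat_lit 46) (nat_lit 100)))) q19433 (by decide +kernel)
def q19491 : Q := Q.p (nat_lit 0xf8000000000000000000000000000000000000000000000) (nat_lit 0x7000000000000000000000000000000000000000000000000000) (nat_lit 2)
theorem c19491 : QOK q19491 := cut [] trivial (nd (nat_lit 205) (nat_lit 0) (cs (lf (nat_lit 10) (nat_lit 183)) (lf (nat_lit 11) (nat_lit 182)))) q19491 (by decide +kernel)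
def q19497 : Q := Q.p (nat_lit 0x1c0000c00000000000000000000000000000000000000000) (nat_lit 0x200003000000000000000000000000000000000000000000) (nat_lit 2)
theorem c19497 : QOK q19497 := cut [] trivial (nd (nat_lit 168) (nat_lit 0) (cs (lf (nat_lit 6) (nat_lit 165)) (lf (nat_lit 15) (nat_lit 164)))) q19497 (by decide +kernel)
def q19512 : Q := Q.p (nat_lit 0x40000100000c0000000000800000000000000000000000000000000000) (nat_lit 0x20000000000200000000002000000000000000000000000000000) (nat_lit 2)
theorem c19512 : QOK q19512 := cut [] trivial (nd (nat_lit 165) (nat_lit 0) (cs (lf (nat_lit 36) (nat_lit 120)) (lf (nat_lit 39) (nat_lit 142)))) q19512 (by decide +kernel)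
def q19519 : Q := Q.p (nat_lit 0x100001e0000000000000000800000000000000000000000000000) (nat_lit 0xc0000200000000000000000000000000000000000) (nat_lit 2)
theorem c19519 : QOK q19519 := cut [] trivial (nd (nat_lit 163) (nat_lit 0) (cs (lf (nat_lit 23) (nat_lit 162)) (lf (nat_lit 25) (nat_lit 119)))) q19519 (by decide +kernel)
def q19524 : Q := Q.p (nat_lit 0x1c0000c000000000000000000000000000000) (nat_lit 0x2000030000000000000000000000000000000) (nat_lit 2)
theorem c19524 : QOK q19524 := cut [] trivial (nd (nat_lit 124) (nat_lit 0) (cs (lf (nat_lit 6) (nat_lit 121)) (lf (nat_lit 15) (nat_lit 120)))) q19524 (by decide +kernel)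
def q19539 : Q := Q.p (nat_lit 0x40000e00004000000000000000000000000000000) (nat_lit 0x20000100002000000000000000000000000000000) (nat_lit 2)
theorem c19539 : QOK q19539 := cut [] trivial (nd (nat_lit 140) (nat_lit 0) (cs (lf (nat_lit 11) (nat_lit 139)) (lf (nat_lit 16) (nat_lit 118)))) q19539 (by decide +kernel)
def q19573 : Q := Q.p (nat_lit 0x1800001800000000000000000000000000000) (nat_lit 0x2400002600000000000000000000000000000) (nat_lit 3)
theorem c19573 : QOK q19573 := cut [] trivial (nd (nat_lit 142) (nat_lit 0) (cs (lf (nat_lit 18) (nat_lit 119)) (nd (nat_lit 118) (nat_lit 0) (cs (lf (nat_lit 3) (nat_lit 118)) (lf (nat_lit 0) (nat_lit 117)))))) q19573 (by decide +kernel)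
def q19581 : Q := Q.p (nat_lit 0x100001e0000000000000020000000000000000000000000000000) (nat_lit 0xfe0001e00007000008000000000000000000000000000000000000) (nat_lit 8)
theorem c19581 : QOK q19581 := cut [] trivial (nd (nat_lit 211) (nat_lit 0) (cs (lf (nat_lit 4) (nat_lit 185)) (nd (nat_lit 189) (nat_lit 0) (cs (lf (nat_lit 5) (nat_lit 186)) (nd (nat_lit 190) (nat_lit 0) (cs (lf (nat_lit 10) (nat_lit 186)) (nd (nat_lit 169) (nat_lit 0) (cs (lf (nat_lit 16) (nat_lit 165)) (nd (nat_lit 191) (nat_lit 0) (cs (lf (nat_lit 17) (nat_lit 166)) (nd (nat_lit 214) (nat_lit 0) (cs (lf (nat_lit 4) (nat_lit 188)) (nd (nat_lit 192) (nat_lit 0) (cs (lf (nat_lit 5) (nat_lit 189)) (lf (nat_lit 25) (nat_lit 125)))))))))))))))) q19581 (by decide +kernel)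
def q19583 : Q := Q.p (nat_lit 0x3800020000000000000000000000000000000) (nat_lit 0x400005c000000000000000000000000000000) (nat_lit 3)
theorem c19583 : QOK q19583 := cut [] trivial (nd (nat_lit 124) (nat_lit 0) (cs (lf (nat_lit 15) (nat_lit 121)) (nd (nat_lit 123) (nat_lit 0) (cs (lf (nat_lit 6) (nat_lit 122)) (lf (nat_lit 9) (nat_lit 121)))))) q19583 (by decide +kernel)
def q19593 : Q := Q.p (nat_lit 0x1e00000000000000000000000000000) (nat_lit 0xe000010000e000000000000000000000000) (nat_lit 4)
theorem c19593 : QOK q19593 := cut [] trivial (nd (nat_lit 138) (nat_lit 0) (cs (nd (nat_lit 116) (nat_lit 0) (cs (nd (nat_lit 98) (nat_lit 0) (cs (lf (nat_lit 17) (nat_lit 95)) (lf (nat_lit 16) (nat_lit 94)))) (lf (nat_lit 11) (nat_lit 115)))) (lf (nat_lit 10) (nat_lit 116)))) q19593 (by decide +kernel)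
def q19599 : Q := Q.p (nat_lit 0x1800001800000000000000000000000000000) (nat_lit 0x6000006400000000000000000000000000000) (nat_lit 3)
theorem c19599 : QOK q19599 := cut [] trivial (nd (nat_lit 121) (nat_lit 0) (cs (lf (nat_lit 0) (nat_lit 118)) (nd (nat_lit 145) (nat_lit 0) (cs (lf (nat_lit 18) (nat_lit 120)) (lf (nat_lit 3) (nat_lit 119)))))) q19599 (by decide +kernel)
def q19604 : Q := Q.p (nat_lit 0x1c00001800000000000000000000000000000) (nat_lit 0x200000600000000000000000000000000000) (nat_lit 2)
theorem c19604 : QOK q19604 := cut [] trivial (nd (nat_lit 118) (nat_lit 0) (cs (lf (nat_lit 0) (nat_lit 117)) (lf (nat_lit 21) (nat_lit 118)))) q19604 (by decide +kernel)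
def q19636 : Q := Q.p (nat_lit 0x3400001000004000010000000000000000000000000000000000000000000000) (nat_lit 0x200000800000800000000000000000000000000000000000000000000000000000000) (nat_lit 2)
theorem c19636 : QOK q19636 := cut [] trivial (nd (nat_lit 251) (nat_lit 0) (cs (lf (nat_lit 29) (nat_lit 184)) (lf (nat_lit 23) (nat_lit 227)))) q19636 (by decide +kernel)
def q19644 : Q := Q.p (nat_lit 0x40000900000400001000000000000000000000000000000000000000000000000000000000) (nat_lit 0x280001a0000600000000000000000000000000000000000000000000000000000000000000000000) (nat_lit 4)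
theorem c19644 : QOK q19644 := cut [] trivial (nd (nat_lit 295) (nat_lit 0) (cs (lf (nat_lit 29) (nat_lit 228)) (nd (nat_lit 293) (nat_lit 0) (cs (lf (nat_lit 41) (nat_lit 227)) (nd (nat_lit 274) (nat_lit 0) (cs (lf (nat_lit 15) (nat_lit 271)) (lf (nat_lit 8) (nat_lit 271)))))))) q19644 (by decide +kernel)
def q19679 : Q := Q.p (nat_lit 0x400000000002000008000020000000000000000000000000000000000000000) (nat_lit 0x140000300001c00000000000000000000000000000000000000000000000000000000) (nat_lit 4)
theorem c19679 : QOK q19679 := cut [] trivial (nd (nat_lit 227) (nat_lit 0) (cs (lf (nat_lit 28) (nat_lit 161)) (nd (nat_lit 248) (nat_lit 0) (cs (lf (nat_lit 40) (nat_lit 160)) (nd (nat_lit 249) (nat_lit 0) (cs (lf (nat_lit 41) (nat_lit 182)) (lf (nat_lit 29) (nat_lit 183)))))))) q19679 (by decide +kernel)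
def q19696 : Q := Q.p (nat_lit 0x4000000000000000f0000080000000000000000000000000000000000000000) (nat_lit 0x1000006000000000000000000000000000000000000000000000000000) (nat_lit 2)
theorem c19696 : QOK q19696 := cut [] trivial (nd (nat_lit 206) (nat_lit 0) (cs (lf (nat_lit 11) (nat_lit 183)) (lf (nat_lit 31) (nat_lit 162)))) q19696 (by decide +kernel)
def q19721 : Q := Q.p (nat_lit 0x1c0000800000000000000000000000000000000000000000) (nat_lit 0x200003600000000000000000000000000000000000000000) (nat_lit 3)
theorem c19721 : QOK q19721 := cut [] trivial (nd (nat_lit 168) (nat_lit 0) (cs (lf (nat_lit 15) (nat_lit 164)) (nd (nat_lit 166) (nat_lit 0) (cs (lf (nat_lit 9) (nat_lit 164)) (lf (nat_lit 6) (nat_lit 165)))))) q19721 (by decide +kernel)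
def q19735 : Q := Q.p (nat_lit 0xc0000100000400001000000000000000000000000000000) (nat_lit 0x20000000000200000c000020000000000000000000) (nat_lit 3)
theorem c19735 : QOK q19735 := cut [] trivial (nd (nat_lit 99) (nat_lit 0) (cs (lf (nat_lit 34) (nat_lit 98)) (nd (nat_lit 98) (nat_lit 0) (cs (lf (nat_lit 28) (nat_lit 98)) (lf (nat_lit 35) (nat_lit 76)))))) q19735 (by decide +kernel)
def q19760 : Q := Q.p (nat_lit 0xc0000300000400000000000000000000000000000000000) (nat_lit 0x20000000000000000000001000004000000000000000000000000) (nat_lit 2)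
theorem c19760 : QOK q19760 := cut [] trivial (nd (nat_lit 120) (nat_lit 0) (cs (lf (nat_lit 29) (nat_lit 120)) (lf (nat_lit 24) (nat_lit 98)))) q19760 (by decide +kernel)
def q19774 : Q := Q.p (nat_lit 0x40000180000400001000000000000000000000000000000000000) (nat_lit 0x20000000000000000800006000008000000000000000000000000) (nat_lit 3)
theorem c19774 : QOK q19774 := cut [] trivial (nd (nat_lit 121) (nat_lit 0) (cs (lf (nat_lit 46) (nat_lit 121)) (nd (nat_lit 122) (nat_lit 0) (cs (lf (nat_lit 41) (nat_lit 121)) (lf (nat_lit 47) (nat_lit 99)))))) q19774 (by decide +kernel)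
def q19779 : Q := Q.p (nat_lit 0x100003c0000000000000000000000000000000000000000000000) (nat_lit 0x20000400003800000000000000000000000000000000000000000) (nat_lit 3)
theorem c19779 : QOK q19779 := cut [] trivial (nd (nat_lit 168) (nat_lit 0) (cs (lf (nat_lit 16) (nat_lit 164)) (nd (nat_lit 190) (nat_lit 0) (cs (lf (nat_lit 10) (nat_lit 186)) (lf (nat_lit 17) (nat_lit 165)))))) q19779 (by decide +kernel)
def q19786 : Q := Q.p (nat_lit 0x780000000000000000000000000000000000000000000000) (nat_lit 0x800007700000000000000000000000000000000000000000) (nat_lit 4)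
theorem c19786 : QOK q19786 := cut [] trivial (nd (nat_lit 169) (nat_lit 0) (cs (lf (nat_lit 16) (nat_lit 165)) (nd (nat_lit 165) (nat_lit 0) (cs (lf (nat_lit 23) (nat_lit 164)) (nd (nat_lit 191) (nat_lit 0) (cs (lf (nat_lit 17) (nat_lit 166)) (lf (nat_lit 22) (nat_lit 165)))))))) q19786 (by decide +kernel)
def q19804 : Q := Q.p (nat_lit 0xc0000e00000000000000000000000000000000000000000) (nat_lit 0x30000100000000000000000000000000000000000000000) (nat_lit 2)
theorem c19804 : QOK q19804 := cut [] trivial (nd (nat_lit 185) (nat_lit 0) (cs (lf (nat_lit 12) (nat_lit 162)) (lf (nat_lit 9) (nat_lit 163)))) q19804 (by decide +kernel)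
def q19817 : Q := Q.p (nat_lit 0x1800002c0000800002000000000000000000000000000000000000) (nat_lit 0x10000060000000000000000000000000000000000000000000000000000) (nat_lit 2)
theorem c19817 : QOK q19817 := cut [] trivial (nd (nat_lit 210) (nat_lit 0) (cs (lf (nat_lit 41) (nat_lit 144)) (lf (nat_lit 21) (nat_lit 186)))) q19817 (by decide +kernel)
def q19835 : Q := Q.p (nat_lit 0x40000100000c0000000000800000000000000000000000000000000000) (nat_lit 0x300000000002000000000000000000000000000000) (nat_lit 2)
theorem c19835 : QOK q19835 := cut [] trivial (nd (nat_lit 165) (nat_lit 0) (cs (lf (nat_lit 36) (nat_lit 120)) (lf (nat_lit 33) (nat_lit 142)))) q19835 (by decide +kernel)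
def q19851 : Q := Q.p (nat_lit 0x40000d0000200000000000000000000000000000000000000000000000) (nat_lit 0x2000020000400000000000000000000000000000000000000000000000) (nat_lit 2)
theorem c19851 : QOK q19851 := cut [] trivial (nd (nat_lit 209) (nat_lit 0) (cs (lf (nat_lit 17) (nat_lit 186)) (lf (nat_lit 11) (nat_lit 207)))) q19851 (by decide +kernel)
def q19854 : Q := Q.p (nat_lit 0x100000200000800002000010000000000000000000000000000000) (nat_lit 0x400000000000000008000040000000000000000000000000) (nat_lit 2)
theorem c19854 : QOK q19854 := cut [] trivial (nd (nat_lit 123) (nat_lit 0) (cs (lf (nat_lit 35) (nat_lit 101)) (lf (nat_lit 28) (nat_lit 123)))) q19854 (by decide +kernel)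
def q19870 : Q := Q.p (nat_lit 0x90000240000800002000000000000000000000000000000000000) (nat_lit 0x10000060000420000000000000000000000000000000000000000000000) (nat_lit 3)
theorem c19870 : QOK q19870 := cut [] trivial (nd (nat_lit 210) (nat_lit 0) (cs (lf (nat_lit 41) (nat_lit 144)) (nd (nat_lit 209) (nat_lit 0) (cs (lf (nat_lit 17) (nat_lit 186)) (lf (nat_lit 23) (nat_lit 185)))))) q19870 (by decide +kernel)
def q19890 : Q := Q.p (nat_lit 0x200000800002c00000000000000000000000000000000000) (nat_lit 0x100000120001c000010000000000000000000000000) (nat_lit 4)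
theorem c19890 : QOK q19890 := cut [] trivial (nd (nat_lit 144) (nat_lit 0) (cs (lf (nat_lit 5) (nat_lit 142)) (nd (nat_lit 123) (nat_lit 0) (cs (lf (nat_lit 17) (nat_lit 120)) (nd (nat_lit 122) (nat_lit 0) (cs (lf (nat_lit 12) (nat_lit 119)) (lf (nat_lit 47) (nat_lit 100)))))))) q19890 (by decide +kernel)
def q19894 : Q := Q.p (nat_lit 0x200000800002c00000000000000000000000000000000000) (nat_lit 0x8000000000100000100000c000010000040000000000000000000) (nat_lit 4)
theorem c19894 : QOK q19894 := cut [] trivial (nd (nat_lit 144) (nat_lit 0) (cs (lf (nat_lit 5) (nat_lit 142)) (nd (nat_lit 122) (nat_lit 0) (cs (lf (nat_lit 42) (nat_lit 122)) (nd (nat_lit 100) (nat_lit 0) (cs (lf (nat_lit 24) (nat_lit 78)) (lf (nat_lit 45) (nat_lit 100)))))))) q19894 (by decide +kernel)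
def q19946 : Q := Q.p (nat_lit 0xc0000700000000000000000000000000000000000000000) (nat_lit 0x20001800000000000000000000000000000000000000000) (nat_lit 2)
theorem c19946 : QOK q19946 := cut [] trivial (nd (nat_lit 167) (nat_lit 0) (cs (lf (nat_lit 6) (nat_lit 164)) (lf (nat_lit 11) (nat_lit 163)))) q19946 (by decide +kernel)
def q19976 : Q := Q.p (nat_lit 0x80000200001800004000000000000000000000000000000) (nat_lit 0x400000000000000010000040000000000000000000) (nat_lit 2)
theorem c19976 : QOK q19976 := cut [] trivial (nd (nat_lit 100) (nat_lit 0) (cs (lf (nat_lit 36) (nat_lit 77)) (lf (nat_lit 39) (nat_lit 99)))) q19976 (by decide +kernel)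
def q20005 : Q := Q.p (nat_lit 0x1e0000580001000000000000000000000000000000000000) (nat_lit 0xc0000000000200002000008000000000000000000000000000000) (nat_lit 3)
theorem c20005 : QOK q20005 := cut [] trivial (nd (nat_lit 145) (nat_lit 0) (cs (lf (nat_lit 14) (nat_lit 141)) (nd (nat_lit 210) (nat_lit 0) (cs (lf (nat_lit 5) (nat_lit 185)) (lf (nat_lit 35) (nat_lit 122)))))) q20005 (by decide +kernel)
def q20020 : Q := Q.p (nat_lit 0x4000050000140000500000000000000000000000000000000000000000) (nat_lit 0x200001c00002000000000000000000000000000000) (nat_lit 3)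
theorem c20020 : QOK q20020 := cut [] trivial (nd (nat_lit 143) (nat_lit 0) (cs (lf (nat_lit 34) (nat_lit 142)) (nd (nat_lit 121) (nat_lit 0) (cs (lf (nat_lit 33) (nat_lit 120)) (lf (nat_lit 45) (nat_lit 121)))))) q20020 (by decide +kernel)
def q20025 : Q := Q.p (nat_lit 0x100000c0000300000000000000000000000000000000000000000) (nat_lit 0x4000000000000000000000800002000000000000000000000000000000) (nat_lit 2)
theorem c20025 : QOK q20025 := cut [] trivial (nd (nat_lit 143) (nat_lit 0) (cs (lf (nat_lit 36) (nat_lit 120)) (lf (nat_lit 30) (nat_lit 142)))) q20025 (by decide +kernel)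
def q20047 : Q := Q.p (nat_lit 0x1e0000600000800000000000000000000000000000000000) (nat_lit 0x100000c0000000000000000000000000000000000000000000000000000) (nat_lit 2)
theorem c20047 : QOK q20047 := cut [] trivial (nd (nat_lit 210) (nat_lit 0) (cs (lf (nat_lit 5) (nat_lit 185)) (lf (nat_lit 42) (nat_lit 143)))) q20047 (by decide +kernel)
def q20055 : Q := Q.p (nat_lit 0x10000040000180000200000000000000000000000000000000000) (nat_lit 0x400000800002000000000000000000000000) (nat_lit 2)
theorem c20055 : QOK q20055 := cut [] trivial (nd (nat_lit 119) (nat_lit 0) (cs (lf (nat_lit 24) (nat_lit 97)) (lf (nat_lit 45) (nat_lit 119)))) q20055 (by decide +kernel)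
def q20059 : Q := Q.p (nat_lit 0x40000100000400001000004000000000000000000000000) (nat_lit 0x2000008000020000000000000000000) (nat_lit 2)
theorem c20059 : QOK q20059 := cut [] trivial (nd (nat_lit 99) (nat_lit 0) (cs (lf (nat_lit 35) (nat_lit 76)) (lf (nat_lit 34) (nat_lit 98)))) q20059 (by decide +kernel)
def q20068 : Q := Q.p (nat_lit 0x80000180000400001000000000000000000000000000000) (nat_lit 0x20000200000000000000004000000000000000000000000) (nat_lit 2)
theorem c20068 : QOK q20068 := cut [] trivial (nd (nat_lit 98) (nat_lit 0) (cs (lf (nat_lit 28) (nat_lit 98)) (lf (nat_lit 41) (nat_lit 97)))) q20068 (by decide +kernel)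
def q20090 : Q := Q.p (nat_lit 0x400000e00004000000000000000000000000000000000000) (nat_lit 0x800001000008000000000000000000000000000000000000) (nat_lit 2)
theorem c20090 : QOK q20090 := cut [] trivial (nd (nat_lit 168) (nat_lit 0) (cs (lf (nat_lit 5) (nat_lit 165)) (lf (nat_lit 17) (nat_lit 143)))) q20090 (by decide +kernel)
def q20113 : Q := Q.p (nat_lit 0x4000010000040000700000000000000000000000000000000000000000) (nat_lit 0x800002000000000720000880000200000000000000000000000000000000000) (nat_lit 5)
theorem c20113 : QOK q20113 := cut [] trivial (nd (nat_lit 167) (nat_lit 0) (cs (lf (nat_lit 11) (nat_lit 163)) (nd (nat_lit 229) (nat_lit 0) (cs (lf (nat_lit 41) (nat_lit 163)) (nd (nat_lit 189) (nat_lit 0) (cs (lf (nat_lit 5) (nat_lit 164)) (nd (nat_lit 163) (nat_lit 0) (cs (lf (nat_lit 47) (nat_lit 141)) (lf (nat_lit 4) (nat_lit 163)))))))))) q20113 (by decide +kernel)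
def q20123 : Q := Q.p (nat_lit 0x10000040000100000200000000000000000000000000000000000) (nat_lit 0x4000000000000000080000400000800002000000000000000000000000) (nat_lit 3)
theorem c20123 : QOK q20123 := cut [] trivial (nd (nat_lit 119) (nat_lit 0) (cs (lf (nat_lit 45) (nat_lit 119)) (nd (nat_lit 163) (nat_lit 0) (cs (lf (nat_lit 42) (nat_lit 141)) (lf (nat_lit 24) (nat_lit 97)))))) q20123 (by decide +kernel)
def q20129 : Q := Q.p (nat_lit 0x10000040000100000400001000000000000000000000000000000) (nat_lit 0x2000008000020000000000000000000000000000000000000000000000) (nat_lit 2)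
theorem c20129 : QOK q20129 := cut [] trivial (nd (nat_lit 207) (nat_lit 0) (cs (lf (nat_lit 40) (nat_lit 119)) (lf (nat_lit 41) (nat_lit 141)))) q20129 (by decide +kernel)
def q20133 : Q := Q.p (nat_lit 0x20000100000400001000002000000000000000000000000) (nat_lit 0x80000000000000004000008000000000000000000) (nat_lit 2)
theorem c20133 : QOK q20133 := cut [] trivial (nd (nat_lit 98) (nat_lit 0) (cs (lf (nat_lit 47) (nat_lit 75)) (lf (nat_lit 40) (nat_lit 97)))) q20133 (by decide +kernel)
def q20142 : Q := Q.p (nat_lit 0x10000040000100000400000000000000000000000000000000000) (nat_lit 0x800002000008000020000380000e000020000000000000000000) (nat_lit 6)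
theorem c20142 : QOK q20142 := cut [] trivial (nd (nat_lit 119) (nat_lit 0) (cs (lf (nat_lit 46) (nat_lit 119)) (nd (nat_lit 120) (nat_lit 0) (cs (lf (nat_lit 47) (nat_lit 97)) (nd (nat_lit 99) (nat_lit 0) (cs (lf (nat_lit 34) (nat_lit 98)) (nd (nat_lit 185) (nat_lit 0) (cs (lf (nat_lit 41) (nat_lit 119)) (nd (nat_lit 98) (nat_lit 0) (cs (lf (nat_lit 35) (nat_lit 76)) (lf (nat_lit 40) (nat_lit 97)))))))))))) q20142 (by decide +kernel)
def q20157 : Q := Q.p (nat_lit 0x10000040000100000400000000000000000000000000000000000) (nat_lit 0x1000004000008000020000080000a0000300000c000000000000000000000000) (nat_lit 6)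
theorem c20157 : QOK q20157 := cut [] trivial (nd (nat_lit 121) (nat_lit 0) (cs (lf (nat_lit 34) (nat_lit 120)) (nd (nat_lit 120) (nat_lit 0) (cs (lf (nat_lit 35) (nat_lit 98)) (nd (nat_lit 185) (nat_lit 0) (cs (lf (nat_lit 41) (nat_lit 119)) (nd (nat_lit 163) (nat_lit 0) (cs (lf (nat_lit 36) (nat_lit 97)) (nd (nat_lit 230) (nat_lit 0) (cs (lf (nat_lit 47) (nat_lit 141)) (lf (nat_lit 42) (nat_lit 163)))))))))))) q20157 (by decide +kernel)
def q20161 : Q := Q.p (nat_lit 0x2000004000010000040000080000000000000000000000000000000000000000) (nat_lit 0x800001000000000000000020000000000000000000000000000000000000000000000) (nat_lit 2)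
theorem c20161 : QOK q20161 := cut [] trivial (nd (nat_lit 252) (nat_lit 0) (cs (lf (nat_lit 29) (nat_lit 186)) (lf (nat_lit 46) (nat_lit 163)))) q20161 (by decide +kernel)
def q20187 : Q := Q.p (nat_lit 0x10000040000100001c000040000000000000000000000000000000000000000000000) (nat_lit 0x2000088000000000000000000000000000000000000000000000) (nat_lit 2)
theorem c20187 : QOK q20187 := cut [] trivial (nd (nat_lit 205) (nat_lit 0) (cs (lf (nat_lit 47) (nat_lit 183)) (lf (nat_lit 17) (nat_lit 183)))) q20187 (by decide +kernel)
def q20230 : Q := Q.p (nat_lit 0x400001800006000000000000000000000000000000000000000000000000000000000) (nat_lit 0x100000000000000000000008000020000000000000000000000000000000000000000000000) (nat_lit 2)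
theorem c20230 : QOK q20230 := cut [] trivial (nd (nat_lit 207) (nat_lit 0) (cs (lf (nat_lit 42) (nat_lit 207)) (lf (nat_lit 24) (nat_lit 185)))) q20230 (by decide +kernel)
def q20249 : Q := Q.p (nat_lit 0x100000c00003000000000000000000000000000000000000000000000000000000000) (nat_lit 0x40000000000000000000008000020000000000000000000000000000000000000000000000) (nat_lit 2)
theorem c20249 : QOK q20249 := cut [] trivial (nd (nat_lit 207) (nat_lit 0) (cs (lf (nat_lit 36) (nat_lit 184)) (lf (nat_lit 30) (nat_lit 206)))) q20249 (by decide +kernel)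
def q20260 : Q := Q.p (nat_lit 0x3c000040000000000000000000000000000000000000000000000) (nat_lit 0x700000c00003a0000000000000000000000000000000000000000000000) (nat_lit 5)
theorem c20260 : QOK q20260 := cut [] trivial (nd (nat_lit 188) (nat_lit 0) (cs (lf (nat_lit 16) (nat_lit 184)) (nd (nat_lit 210) (nat_lit 0) (cs (lf (nat_lit 17) (nat_lit 185)) (nd (nat_lit 233) (nat_lit 0) (cs (lf (nat_lit 4) (nat_lit 207)) (nd (nat_lit 211) (nat_lit 0) (cs (lf (nat_lit 5) (nat_lit 208)) (lf (nat_lit 23) (nat_lit 185)))))))))) q20260 (by decide +kernel)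
def q20281 : Q := Q.p (nat_lit 0x1e000040000000000000000000000000000000000000000000000) (nat_lit 0x100002e000000000000000000000000000000000000000000000) (nat_lit 3)
theorem c20281 : QOK q20281 := cut [] trivial (nd (nat_lit 182) (nat_lit 0) (cs (lf (nat_lit 22) (nat_lit 182)) (nd (nat_lit 204) (nat_lit 0) (cs (lf (nat_lit 23) (nat_lit 181)) (lf (nat_lit 16) (nat_lit 182)))))) q20281 (by decide +kernel)
def q20295 : Q := Q.p (nat_lit 0x180000f0000000000000000000000000000000000000000000000) (nat_lit 0xc000700000000000000000000000000000000000000000) (nat_lit 3)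
theorem c20295 : QOK q20295 := cut [] trivial (nd (nat_lit 165) (nat_lit 0) (cs (lf (nat_lit 17) (nat_lit 162)) (nd (nat_lit 183) (nat_lit 0) (cs (lf (nat_lit 0) (nat_lit 182)) (lf (nat_lit 16) (nat_lit 161)))))) q20295 (by decide +kernel)
def q20297 : Q := Q.p (nat_lit 0x800000000008000070000000000000000000000000000000000000000000000) (nat_lit 0x2000000000000000140000000000000000000000000000000000000000) (nat_lit 2)
theorem c20297 : QOK q20297 := cut [] trivial (nd (nat_lit 229) (nat_lit 0) (cs (lf (nat_lit 47) (nat_lit 162)) (lf (nat_lit 35) (nat_lit 163)))) q20297 (by decide +kernel)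
def q20307 : Q := Q.p (nat_lit 0x2800002000010000040000000000000000000000000000000000000000000000) (nat_lit 0xa00001000004000000000000000100000000000000000000000000000000000000000) (nat_lit 3)
theorem c20307 : QOK q20307 := cut [] trivial (nd (nat_lit 230) (nat_lit 0) (cs (lf (nat_lit 36) (nat_lit 163)) (nd (nat_lit 252) (nat_lit 0) (cs (lf (nat_lit 41) (nat_lit 185)) (lf (nat_lit 29) (nat_lit 186)))))) q20307 (by decide +kernel)
def q20337 : Q := Q.p (nat_lit 0x2000058000140000400001000000000000000000000000000000000000) (nat_lit 0x2000008000020000010000240000c000020000000000000000000000000) (nat_lit 5)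
theorem c20337 : QOK q20337 := cut [] trivial (nd (nat_lit 123) (nat_lit 0) (cs (lf (nat_lit 34) (nat_lit 122)) (nd (nat_lit 142) (nat_lit 0) (cs (lf (nat_lit 37) (nat_lit 141)) (nd (nat_lit 211) (nat_lit 0) (cs (lf (nat_lit 29) (nat_lit 144)) (nd (nat_lit 122) (nat_lit 0) (cs (lf (nat_lit 35) (nat_lit 100)) (lf (nat_lit 28) (nat_lit 122)))))))))) q20337 (by decide +kernel)
def q20350 : Q := Q.p (nat_lit 0x40000100000c00002000000000000000000000000000000000000) (nat_lit 0x200000000000000008000020000000000000000000000000) (nat_lit 2)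
theorem c20350 : QOK q20350 := cut [] trivial (nd (nat_lit 123) (nat_lit 0) (cs (lf (nat_lit 36) (nat_lit 100)) (lf (nat_lit 39) (nat_lit 122)))) q20350 (by decide +kernel)
def q20391 : Q := Q.p (nat_lit 0xe00002000000000000000000000000000000) (nat_lit 0x110001c000000000000000000000000000000) (nat_lit 3)
theorem c20391 : QOK q20391 := cut [] trivial (nd (nat_lit 122) (nat_lit 0) (cs (lf (nat_lit 12) (nat_lit 118)) (nd (nat_lit 123) (nat_lit 0) (cs (lf (nat_lit 6) (nat_lit 120)) (lf (nat_lit 15) (nat_lit 119)))))) q20391 (by decide +kernel)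
def q20402 : Q := Q.p (nat_lit 0x1e00000000000000000000000000000000000) (nat_lit 0xe00000100000e00000000000000000000000000000) (nat_lit 4)
theorem c20402 : QOK q20402 := cut [] trivial (nd (nat_lit 118) (nat_lit 0) (cs (lf (nat_lit 22) (nat_lit 118)) (nd (nat_lit 166) (nat_lit 0) (cs (lf (nat_lit 5) (nat_lit 141)) (nd (nat_lit 140) (nat_lit 0) (cs (lf (nat_lit 4) (nat_lit 140)) (lf (nat_lit 23) (nat_lit 117)))))))) q20402 (by decide +kernel)
def q20416 : Q := Q.p (nat_lit 0x1e00000000000000000000000000000000000) (nat_lit 0x1c00002000001c00000000000000000000000000000) (nat_lit 4)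
theorem c20416 : QOK q20416 := cut [] trivial (nd (nat_lit 119) (nat_lit 0) (cs (lf (nat_lit 23) (nat_lit 118)) (nd (nat_lit 167) (nat_lit 0) (cs (lf (nat_lit 4) (nat_lit 141)) (nd (nat_lit 145) (nat_lit 0) (cs (lf (nat_lit 22) (nat_lit 119)) (lf (nat_lit 5) (nat_lit 142)))))))) q20416 (by decide +kernel)
def q20424 : Q := Q.p (nat_lit 0xe00002000000000000000000000000000000) (nat_lit 0x10001d000000000000000000000000000000) (nat_lit 3)
theorem c20424 : QOK q20424 := cut [] trivial (nd (nat_lit 122) (nat_lit 0) (cs (lf (nat_lit 12) (nat_lit 118)) (nd (nat_lit 123) (nat_lit 0) (cs (lf (nat_lit 6) (nat_lit 120)) (lf (nat_lit 9) (nat_lit 119)))))) q20424 (by decide +kernel)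
def q20529 : Q := Q.p (nat_lit 0x800006000018000000000000000000000000000000000000000000000) (nat_lit 0x80000200000000000000000000040000000000000000000000000000000000000000) (nat_lit 2)
theorem c20529 : QOK q20529 := cut [] trivial (nd (nat_lit 249) (nat_lit 0) (cs (lf (nat_lit 30) (nat_lit 183)) (lf (nat_lit 35) (nat_lit 161)))) q20529 (by decide +kernel)
def q20604 : Q := Q.p (nat_lit 0x20000000000f0000040000000000000000000000000000000000000000) (nat_lit 0x80000100000e000000000000000000000000000000000000000000000000000) (nat_lit 3)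
theorem c20604 : QOK q20604 := cut [] trivial (nd (nat_lit 206) (nat_lit 0) (cs (lf (nat_lit 11) (nat_lit 183)) (nd (nat_lit 251) (nat_lit 0) (cs (lf (nat_lit 27) (nat_lit 162)) (lf (nat_lit 44) (nat_lit 162)))))) q20604 (by decide +kernel)
def q20644 : Q := Q.p (nat_lit 0x7c000000000000000000000000000000000000000000000) (nat_lit 0x380000000000000000000000000000000000000000) (nat_lit 2)
theorem c20644 : QOK q20644 := cut [] trivial (nd (nat_lit 164) (nat_lit 0) (cs (lf (nat_lit 17) (nat_lit 161)) (lf (nat_lit 16) (nat_lit 160)))) q20644 (by decide +kernel)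
def q20656 : Q := Q.p (nat_lit 0x1f0000000000000000000000000000000000000000000000) (nat_lit 0xe0000000000000000000000000000000000000000000000000000) (nat_lit 2)
theorem c20656 : QOK q20656 := cut [] trivial (nd (nat_lit 210) (nat_lit 0) (cs (lf (nat_lit 5) (nat_lit 185)) (lf (nat_lit 4) (nat_lit 184)))) q20656 (by decide +kernel)
def q20675 : Q := Q.p (nat_lit 0x1a000070000000000000000000000000000000000000000000000) (nat_lit 0x100000c000000000000000000000000000000000000000000000) (nat_lit 2)
theorem c20675 : QOK q20675 := cut [] trivial (nd (nat_lit 183) (nat_lit 0) (cs (lf (nat_lit 0) (nat_lit 182)) (lf (nat_lit 11) (nat_lit 182)))) q20675 (by decide +kernel)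
def q20683 : Q := Q.p (nat_lit 0x2000008000020000080000200000000000000000000000000000000000) (nat_lit 0x400001000004000000000000000000000000000000000000000000000000000) (nat_lit 2)
theorem c20683 : QOK q20683 := cut [] trivial (nd (nat_lit 228) (nat_lit 0) (cs (lf (nat_lit 41) (nat_lit 162)) (lf (nat_lit 40) (nat_lit 140)))) q20683 (by decide +kernel)
def q20689 : Q := Q.p (nat_lit 0x800001c00006000000000000000000000000000000) (nat_lit 0x100000e000001000000000000000000000000000000) (nat_lit 3)
theorem c20689 : QOK q20689 := cut [] trivial (nd (nat_lit 145) (nat_lit 0) (cs (lf (nat_lit 5) (nat_lit 142)) (nd (nat_lit 146) (nat_lit 0) (cs (lf (nat_lit 23) (nat_lit 120)) (lf (nat_lit 18) (nat_lit 121)))))) q20689 (by decide +kernel)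
def q20722 : Q := Q.p (nat_lit 0xc000070000040000100000000000000000000000000000000000) (nat_lit 0x800003000000000000000000000000000000000000000000000000000) (nat_lit 2)
theorem c20722 : QOK q20722 := cut [] trivial (nd (nat_lit 205) (nat_lit 0) (cs (lf (nat_lit 12) (nat_lit 182)) (lf (nat_lit 41) (nat_lit 139)))) q20722 (by decide +kernel)
def q20743 : Q := Q.p (nat_lit 0x300000c0000100000800000000000000000000000000000) (nat_lit 0x400003000000000000000000000000) (nat_lit 2)
theorem c20743 : QOK q20743 := cut [] trivial (nd (nat_lit 118) (nat_lit 0) (cs (lf (nat_lit 35) (nat_lit 96)) (lf (nat_lit 24) (nat_lit 96)))) q20743 (by decide +kernel)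
def q20753 : Q := Q.p (nat_lit 0x1000014000010000040000000000000000000000000000000000000000) (nat_lit 0xa00002c00028000000000000000000000000000000000000000000000000000) (nat_lit 4)
theorem c20753 : QOK q20753 := cut [] trivial (nd (nat_lit 229) (nat_lit 0) (cs (lf (nat_lit 29) (nat_lit 162)) (nd (nat_lit 227) (nat_lit 0) (cs (lf (nat_lit 41) (nat_lit 161)) (nd (nat_lit 207) (nat_lit 0) (cs (lf (nat_lit 12) (nat_lit 204)) (lf (nat_lit 6) (nat_lit 205)))))))) q20753 (by decide +kernel)
def q20821 : Q := Q.p (nat_lit 0x28000000000900007c0000000000000000000000000000000000000000) (nat_lit 0xe000000000000003180004000010000000000000000000000000) (nat_lit 5)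
theorem c20821 : QOK q20821 := cut [] trivial (nd (nat_lit 144) (nat_lit 0) (cs (lf (nat_lit 17) (nat_lit 141)) (nd (nat_lit 100) (nat_lit 0) (cs (lf (nat_lit 37) (nat_lit 99)) (nd (nat_lit 140) (nat_lit 0) (cs (lf (nat_lit 23) (nat_lit 139)) (nd (nat_lit 206) (nat_lit 0) (cs (lf (nat_lit 40) (nat_lit 139)) (lf (nat_lit 28) (nat_lit 140)))))))))) q20821 (by decide +kernel)
def q20833 : Q := Q.p (nat_lit 0x7800010000000000000000000000000000000000000000000000000000) (nat_lit 0x380000400008000000000000000000000000000000000000000000000000000) (nat_lit 3)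
theorem c20833 : QOK q20833 := cut [] trivial (nd (nat_lit 226) (nat_lit 0) (cs (lf (nat_lit 16) (nat_lit 204)) (nd (nat_lit 248) (nat_lit 0) (cs (lf (nat_lit 11) (nat_lit 225)) (lf (nat_lit 10) (nat_lit 226)))))) q20833 (by decide +kernel)
def q20845 : Q := Q.p (nat_lit 0x2000058000020000080000000000000000000000000000000000000000) (nat_lit 0x400001000020000000000000000000000000000000000000000000000000000) (nat_lit 2)
theorem c20845 : QOK q20845 := cut [] trivial (nd (nat_lit 228) (nat_lit 0) (cs (lf (nat_lit 41) (nat_lit 162)) (lf (nat_lit 7) (nat_lit 206)))) q20845 (by decide +kernel)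
def q20861 : Q := Q.p (nat_lit 0x100001c0000000000000000000000000000000000000000000000) (nat_lit 0x728001e20001c00000000000000000000000000000000000000000) (nat_lit 7)
theorem c20861 : QOK q20861 := cut [] trivial (nd (nat_lit 189) (nat_lit 0) (cs (lf (nat_lit 11) (nat_lit 185)) (nd (nat_lit 167) (nat_lit 0) (cs (lf (nat_lit 17) (nat_lit 164)) (nd (nat_lit 166) (nat_lit 0) (cs (lf (nat_lit 12) (nat_lit 163)) (nd (nat_lit 190) (nat_lit 0) (cs (lf (nat_lit 10) (nat_lit 186)) (nd (nat_lit 213) (nat_lit 0) (cs (lf (nat_lit 4) (nat_lit 187)) (nd (nat_lit 191) (nat_lit 0) (cs (lf (nat_lit 18) (nat_lit 166)) (lf (nat_lit 5) (nat_lit 188)))))))))))))) q20861 (by decide +kernel)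
def q20883 : Q := Q.p (nat_lit 0x40000100000680001000000000000000000000000000000000000) (nat_lit 0x100002000008000000000000000000000000000000) (nat_lit 2)
theorem c20883 : QOK q20883 := cut [] trivial (nd (nat_lit 145) (nat_lit 0) (cs (lf (nat_lit 35) (nat_lit 122)) (lf (nat_lit 13) (nat_lit 141)))) q20883 (by decide +kernel)
def q20941 : Q := Q.p (nat_lit 0x7c0000000000000000000000000000000000000000000000) (nat_lit 0x380000000000000000000000000000000000000000) (nat_lit 2)
theorem c20941 : QOK q20941 := cut [] trivial (nd (nat_lit 164) (nat_lit 0) (cs (lf (nat_lit 23) (nat_lit 163)) (lf (nat_lit 22) (nat_lit 164)))) q20941 (by decide +kernel)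
def q20954 : Q := Q.p (nat_lit 0x10000380000000000000000000000000000000000000000000000) (nat_lit 0x720000c00007000000000000000000000000000000000000000000) (nat_lit 5)
theorem c20954 : QOK q20954 := cut [] trivial (nd (nat_lit 190) (nat_lit 0) (cs (lf (nat_lit 10) (nat_lit 186)) (nd (nat_lit 213) (nat_lit 0) (cs (lf (nat_lit 4) (nat_lit 187)) (nd (nat_lit 169) (nat_lit 0) (cs (lf (nat_lit 16) (nat_lit 165)) (nd (nat_lit 191) (nat_lit 0) (cs (lf (nat_lit 17) (nat_lit 166)) (lf (nat_lit 5) (nat_lit 188)))))))))) q20954 (by decide +kernel)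
def q20965 : Q := Q.p (nat_lit 0x100001c0000000000000000000000000000000000000000000000) (nat_lit 0x1000004000328000e30000fc0000000000000000000000000000000000000000) (nat_lit 9)
theorem c20965 : QOK q20965 := cut [] trivial (nd (nat_lit 189) (nat_lit 0) (cs (lf (nat_lit 11) (nat_lit 185)) (nd (nat_lit 163) (nat_lit 0) (cs (lf (nat_lit 22) (nat_lit 163)) (nd (nat_lit 190) (nat_lit 0) (cs (lf (nat_lit 10) (nat_lit 186)) (nd (nat_lit 212) (nat_lit 0) (cs (lf (nat_lit 5) (nat_lit 187)) (nd (nat_lit 185) (nat_lit 0) (cs (lf (nat_lit 23) (nat_lit 162)) (nd (nat_lit 230) (nat_lit 0) (cs (lf (nat_lit 42) (nat_lit 163)) (nd (nat_lit 166) (nat_lit 0) (cs (lf (nat_lit 17) (nat_lit 163)) (nd (nat_lit 165) (nat_lit 0) (cs (lf (nat_lit 12) (nat_lit 162)) (lf (nat_lit 18) (nat_lit 165)))))))))))))))))) q20965 (by decide +kernel)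
def q20976 : Q := Q.p (nat_lit 0x180001e0000100000000000000000000000000000000000000000) (nat_lit 0x8000030000e0000010000000000000000000000000000000000000000000000) (nat_lit 4)
theorem c20976 : QOK q20976 := cut [] trivial (nd (nat_lit 229) (nat_lit 0) (cs (lf (nat_lit 30) (nat_lit 163)) (nd (nat_lit 210) (nat_lit 0) (cs (lf (nat_lit 5) (nat_lit 185)) (nd (nat_lit 209) (nat_lit 0) (cs (lf (nat_lit 23) (nat_lit 184)) (lf (nat_lit 11) (nat_lit 206)))))))) q20976 (by decide +kernel)
def q20977 : Q := Q.p (nat_lit 0xf0000100000000000000000000000000000000000000000) (nat_lit 0x8000600000000000000000000000000000000000000000) (nat_lit 2)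
theorem c20977 : QOK q20977 := cut [] trivial (nd (nat_lit 165) (nat_lit 0) (cs (lf (nat_lit 12) (nat_lit 161)) (lf (nat_lit 17) (nat_lit 162)))) q20977 (by decide +kernel)
def q20985 : Q := Q.p (nat_lit 0x30000080000200000400000000000000000000000000000000000) (nat_lit 0x4000000000000000000000800001000000000000000000000000000000) (nat_lit 2)
theorem c20985 : QOK q20985 := cut [] trivial (nd (nat_lit 143) (nat_lit 0) (cs (lf (nat_lit 47) (nat_lit 120)) (lf (nat_lit 41) (nat_lit 142)))) q20985 (by decide +kernel)
def q21045 : Q := Q.p (nat_lit 0x100001c0000080000000000000000000000000000000000000000) (nat_lit 0x1c8000220000040000000000000000000000000000000000000000) (nat_lit 4)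
theorem c21045 : QOK q21045 := cut [] trivial (nd (nat_lit 189) (nat_lit 0) (cs (lf (nat_lit 11) (nat_lit 185)) (nd (nat_lit 211) (nat_lit 0) (cs (lf (nat_lit 5) (nat_lit 186)) (nd (nat_lit 185) (nat_lit 0) (cs (lf (nat_lit 23) (nat_lit 162)) (lf (nat_lit 4) (nat_lit 185)))))))) q21045 (by decide +kernel)
def q21047 : Q := Q.p (nat_lit 0x1c0000280000000000000000000000000000000000000000) (nat_lit 0x30000c40000000000000000000000000000000000000000) (nat_lit 3)
theorem c21047 : QOK q21047 := cut [] trivial (nd (nat_lit 185) (nat_lit 0) (cs (lf (nat_lit 23) (nat_lit 162)) (nd (nat_lit 166) (nat_lit 0) (cs (lf (nat_lit 12) (nat_lit 162)) (lf (nat_lit 17) (nat_lit 163)))))) q21047 (by decide +kernel)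
def q21050 : Q := Q.p (nat_lit 0x100001e0000000000000000000000000000000000000000000000) (nat_lit 0xc000200000000000000000000000000000000000000000000000) (nat_lit 2)
theorem c21050 : QOK q21050 := cut [] trivial (nd (nat_lit 207) (nat_lit 0) (cs (lf (nat_lit 6) (nat_lit 185)) (lf (nat_lit 11) (nat_lit 184)))) q21050 (by decide +kernel)
def q21064 : Q := Q.p (nat_lit 0x7c00000000000000000000000000000000000000000000000000000000) (nat_lit 0x3800000000000000000000000000000000000000000000000000) (nat_lit 2)
theorem c21064 : QOK q21064 := cut [] trivial (nd (nat_lit 204) (nat_lit 0) (cs (lf (nat_lit 23) (nat_lit 203)) (lf (nat_lit 22) (nat_lit 204)))) q21064 (by decide +kernel)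
def q21070 : Q := Q.p (nat_lit 0x3000008000000000780000000000000000000000000000000000000000) (nat_lit 0x400000000000000030000000000000000000000000000000000000000000000) (nat_lit 2)
theorem c21070 : QOK q21070 := cut [] trivial (nd (nat_lit 185) (nat_lit 0) (cs (lf (nat_lit 41) (nat_lit 162)) (lf (nat_lit 11) (nat_lit 162)))) q21070 (by decide +kernel)
def q21132 : Q := Q.p (nat_lit 0x180003400001000004000000000000000000000000000000000000000000000000000) (nat_lit 0x80000600000000000000000000000000000000000000000000000000000000000000000000) (nat_lit 2)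
theorem c21132 : QOK q21132 := cut [] trivial (nd (nat_lit 273) (nat_lit 0) (cs (lf (nat_lit 29) (nat_lit 206)) (lf (nat_lit 15) (nat_lit 249)))) q21132 (by decide +kernel)
def q21336 : Q := Q.p (nat_lit 0x200000c00003000000000000000000000000000000000000) (nat_lit 0x80000000000000000000004000010000000000000000000000000) (nat_lit 2)
theorem c21336 : QOK q21336 := cut [] trivial (nd (nat_lit 122) (nat_lit 0) (cs (lf (nat_lit 42) (nat_lit 122)) (lf (nat_lit 24) (nat_lit 100)))) q21336 (by decide +kernel)
def q21348 : Q := Q.p (nat_lit 0x240000f00000000000000000000000000000000000000000) (nat_lit 0x1800010e0000380000000000000000000000000000000000) (nat_lit 5)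
theorem c21348 : QOK q21348 := cut [] trivial (nd (nat_lit 163) (nat_lit 0) (cs (lf (nat_lit 4) (nat_lit 163)) (nd (nat_lit 140) (nat_lit 0) (cs (lf (nat_lit 22) (nat_lit 140)) (nd (nat_lit 187) (nat_lit 0) (cs (lf (nat_lit 6) (nat_lit 164)) (nd (nat_lit 162) (nat_lit 0) (cs (lf (nat_lit 0) (nat_lit 161)) (lf (nat_lit 23) (nat_lit 139)))))))))) q21348 (by decide +kernel)
def q21363 : Q := Q.p (nat_lit 0x10000040000300000800000000000000000000000000000000000) (nat_lit 0x400002000008000000000000000000000000) (nat_lit 2)
theorem c21363 : QOK q21363 := cut [] trivial (nd (nat_lit 121) (nat_lit 0) (cs (lf (nat_lit 33) (nat_lit 120)) (lf (nat_lit 36) (nat_lit 98)))) q21363 (by decide +kernel)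
def q21414 : Q := Q.p (nat_lit 0x300000c0000100000000000000000000000000000000000) (nat_lit 0x600001800006000000000000000080000e00003800000000000000000000000) (nat_lit 7)
theorem c21414 : QOK q21414 := cut [] trivial (nd (nat_lit 118) (nat_lit 0) (cs (lf (nat_lit 24) (nat_lit 96)) (nd (nat_lit 97) (nat_lit 0) (cs (lf (nat_lit 34) (nat_lit 96)) (nd (nat_lit 117) (nat_lit 0) (cs (lf (nat_lit 47) (nat_lit 95)) (nd (nat_lit 206) (nat_lit 0) (cs (lf (nat_lit 46) (nat_lit 117)) (nd (nat_lit 227) (nat_lit 0) (cs (lf (nat_lit 40) (nat_lit 139)) (nd (nat_lit 228) (nat_lit 0) (cs (lf (nat_lit 30) (nat_lit 162)) (lf (nat_lit 41) (nat_lit 161)))))))))))))) q21414 (by decide +kernel)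
def q21418 : Q := Q.p (nat_lit 0x40000100000d0000300000000000000000000000000000000000) (nat_lit 0x80000e0000200000000000000000000000000000) (nat_lit 3)
theorem c21418 : QOK q21418 := cut [] trivial (nd (nat_lit 139) (nat_lit 0) (cs (lf (nat_lit 47) (nat_lit 117)) (nd (nat_lit 138) (nat_lit 0) (cs (lf (nat_lit 11) (nat_lit 137)) (lf (nat_lit 0) (nat_lit 137)))))) q21418 (by decide +kernel)
def q21427 : Q := Q.p (nat_lit 0x380000600000000000000000000000000000) (nat_lit 0x400000180000000000000000000000000000) (nat_lit 2)
theorem c21427 : QOK q21427 := cut [] trivial (nd (nat_lit 116) (nat_lit 0) (cs (lf (nat_lit 18) (nat_lit 116)) (lf (nat_lit 0) (nat_lit 115)))) q21427 (by decide +kernel)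
def q21439 : Q := Q.p (nat_lit 0x100000700000c0000100000000000000000000000000000000000) (nat_lit 0x200000c00003000000000000000000000000) (nat_lit 3)
theorem c21439 : QOK q21439 := cut [] trivial (nd (nat_lit 118) (nat_lit 0) (cs (lf (nat_lit 24) (nat_lit 96)) (nd (nat_lit 119) (nat_lit 0) (cs (lf (nat_lit 35) (nat_lit 96)) (lf (nat_lit 25) (nat_lit 119)))))) q21439 (by decide +kernel)
def q21442 : Q := Q.p (nat_lit 0xf00000c0000200000000000000000000000000000000000) (nat_lit 0x1000006000000000000000000000000000000000000000000000000000) (nat_lit 2)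
theorem c21442 : QOK q21442 := cut [] trivial (nd (nat_lit 206) (nat_lit 0) (cs (lf (nat_lit 30) (nat_lit 140)) (lf (nat_lit 11) (nat_lit 183)))) q21442 (by decide +kernel)
def q21474 : Q := Q.p (nat_lit 0x3000034000010000040000000000000000000000000000000000000000) (nat_lit 0x200004800000000000000000000000000000000000000000000000000000000) (nat_lit 2)
theorem c21474 : QOK q21474 := cut [] trivial (nd (nat_lit 227) (nat_lit 0) (cs (lf (nat_lit 15) (nat_lit 205)) (lf (nat_lit 41) (nat_lit 161)))) q21474 (by decide +kernel)
def q21512 : Q := Q.p (nat_lit 0x400001000014000030000000000000000000000000000000000000000000000) (nat_lit 0x180000200000800068000000000000000000000000000000000000000000000000000) (nat_lit 4)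
theorem c21512 : QOK q21512 := cut [] trivial (nd (nat_lit 249) (nat_lit 0) (cs (lf (nat_lit 41) (nat_lit 183)) (nd (nat_lit 207) (nat_lit 0) (cs (lf (nat_lit 30) (nat_lit 184)) (nd (nat_lit 209) (nat_lit 0) (cs (lf (nat_lit 11) (nat_lit 205)) (lf (nat_lit 18) (nat_lit 184)))))))) q21512 (by decide +kernel)
def q21540 : Q := Q.p (nat_lit 0x4000010000060000100000400000000000000000000000000000000000) (nat_lit 0x80000a0000300000c000000000000000000000000) (nat_lit 4)
theorem c21540 : QOK q21540 := cut [] trivial (nd (nat_lit 121) (nat_lit 0) (cs (lf (nat_lit 34) (nat_lit 120)) (nd (nat_lit 120) (nat_lit 0) (cs (lf (nat_lit 35) (nat_lit 98)) (nd (nat_lit 163) (nat_lit 0) (cs (lf (nat_lit 47) (nat_lit 141)) (lf (nat_lit 36) (nat_lit 97)))))))) q21540 (by decide +kernel)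
def q21545 : Q := Q.p (nat_lit 0x2000004000010000060000000000000000000000000000000000000000000000) (nat_lit 0x800001000000000000000000000080000000000000000000000000000000000000000) (nat_lit 2)
theorem c21545 : QOK q21545 := cut [] trivial (nd (nat_lit 252) (nat_lit 0) (cs (lf (nat_lit 47) (nat_lit 163)) (lf (nat_lit 29) (nat_lit 186)))) q21545 (by decide +kernel)
def q21559 : Q := Q.p (nat_lit 0x3000000000030000080000000000000000000000000000000000000000) (nat_lit 0x40000000000c000000000000000000000000000000000000000000000000000) (nat_lit 2)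
theorem c21559 : QOK q21559 := cut [] trivial (nd (nat_lit 250) (nat_lit 0) (cs (lf (nat_lit 38) (nat_lit 162)) (lf (nat_lit 32) (nat_lit 162)))) q21559 (by decide +kernel)
def q21606 : Q := Q.p (nat_lit 0x6000018000020000000000000000000000000000000000000000) (nat_lit 0x1000000000000000000000080000200000000000000000000000000000) (nat_lit 2)
theorem c21606 : QOK q21606 := cut [] trivial (nd (nat_lit 139) (nat_lit 0) (cs (lf (nat_lit 24) (nat_lit 117)) (lf (nat_lit 29) (nat_lit 139)))) q21606 (by decide +kernel)
def q21655 : Q := Q.p (nat_lit 0x200001800006000000000000000000000000000000000000000000000000000) (nat_lit 0x20000080000000000000000000010000000000000000000000000000000000000000000000) (nat_lit 2)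
theorem c21655 : QOK q21655 := cut [] trivial (nd (nat_lit 271) (nat_lit 0) (cs (lf (nat_lit 30) (nat_lit 205)) (lf (nat_lit 35) (nat_lit 183)))) q21655 (by decide +kernel)
def q21683 : Q := Q.p (nat_lit 0x10000070000040000300000800000000000000000000000000000) (nat_lit 0xe8000100000d20003c8000700000a000028000000000000000000) (nat_lit 11)
theorem c21683 : QOK q21683 := cut [] trivial (nd (nat_lit 75) (nat_lit 0) (cs (lf (nat_lit 37) (nat_lit 74)) (nd (nat_lit 142) (nat_lit 0) (cs (lf (nat_lit 44) (nat_lit 119)) (nd (nat_lit 143) (nat_lit 0) (cs (lf (nat_lit 11) (nat_lit 139)) (nd (nat_lit 121) (nat_lit 0) (cs (lf (nat_lit 17) (nat_lit 118)) (nd (nat_lit 120) (nat_lit 0) (cs (lf (nat_lit 12) (nat_lit 117)) (nd (nat_lit 144) (nat_lit 0) (cs (lf (nat_lit 18) (nat_lit 119)) (nd (nat_lit 166) (nat_lit 0) (cs (lf (nat_lit 5) (nat_lit 141)) (nd (nat_lit 77) (nat_lit 0) (cs (lf (nat_lit 25) (nat_lit 77)) (nd (nat_lit 210) (nat_lit 0) (cs (nd (nat_lit 209) (nat_lit 0) (cs (lf (nat_lit 21) (nat_lit 184)) (lf (nat_lit 18) (nat_lit 185)))) (lf (nat_lit 43) (nat_lit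 121)))))))))))))))))))) q21683 (by decide +kernel)
def q21701 : Q := Q.p (nat_lit 0x140000e0000000000000000000000000000000000000000000000) (nat_lit 0xa000010000000000000000000000000000000000000000000000) (nat_lit 2)
theorem c21701 : QOK q21701 := cut [] trivial (nd (nat_lit 205) (nat_lit 0) (cs (lf (nat_lit 14) (nat_lit 183)) (lf (nat_lit 9) (nat_lit 183)))) q21701 (by decide +kernel)
def q21732 : Q := Q.p (nat_lit 0x40000300000400001000000000000000000000000000000) (nat_lit 0x20000080000000000000000000004000000000000000000000000) (nat_lit 2)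
theorem c21732 : QOK q21732 := cut [] trivial (nd (nat_lit 187) (nat_lit 0) (cs (lf (nat_lit 29) (nat_lit 120)) (lf (nat_lit 24) (nat_lit 98)))) q21732 (by decide +kernel)
def q21777 : Q := Q.p (nat_lit 0x3c00000000000000000000000000000000000) (nat_lit 0x1c00000200001c00000000000000000000000000000) (nat_lit 4)
theorem c21777 : QOK q21777 := cut [] trivial (nd (nat_lit 119) (nat_lit 0) (cs (lf (nat_lit 22) (nat_lit 119)) (nd (nat_lit 167) (nat_lit 0) (cs (lf (nat_lit 5) (nat_lit 142)) (nd (nat_lit 141) (nat_lit 0) (cs (lf (nat_lit 23) (nat_lit 118)) (lf (nat_lit 4) (nat_lit 141)))))))) q21777 (by decide +kernel)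
def q21801 : Q := Q.p (nat_lit 0xf00000000000000000000000000000000000) (nat_lit 0x80007700000000000000000000000000000) (nat_lit 4)
theorem c21801 : QOK q21801 := cut [] trivial (nd (nat_lit 117) (nat_lit 0) (cs (lf (nat_lit 22) (nat_lit 117)) (nd (nat_lit 121) (nat_lit 0) (cs (lf (nat_lit 17) (nat_lit 118)) (nd (nat_lit 139) (nat_lit 0) (cs (lf (nat_lit 23) (nat_lit 116)) (lf (nat_lit 16) (nat_lit 117)))))))) q21801 (by decide +kernel)
def q21806 : Q := Q.p (nat_lit 0x3e00000000000000000000000000000000000) (nat_lit 0x1c000000000000000000000000000000) (nat_lit 2)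
theorem c21806 : QOK q21806 := cut [] trivial (nd (nat_lit 123) (nat_lit 0) (cs (lf (nat_lit 17) (nat_lit 120)) (lf (nat_lit 16) (nat_lit 119)))) q21806 (by decide +kernel)
def q21823 : Q := Q.p (nat_lit 0xc0000300000800000000000000000000000000000) (nat_lit 0x10000000000000000000002000008000000000000000000) (nat_lit 2)
theorem c21823 : QOK q21823 := cut [] trivial (nd (nat_lit 97) (nat_lit 0) (cs (lf (nat_lit 36) (nat_lit 74)) (lf (nat_lit 41) (nat_lit 96)))) q21823 (by decide +kernel)
def q21907 : Q := Q.p (nat_lit 0x10000080000200000800001000000000000000000000000000000000000000000000000000000000000000) (nat_lit 0x4000020000000000000000400000000000000000000000000000000000000000000000000000000000000000000) (nat_lit 2)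
theorem c21907 : QOK q21907 := cut [] trivial (nd (nat_lit 341) (nat_lit 0) (cs (lf (nat_lit 41) (nat_lit 274)) (lf (nat_lit 46) (nat_lit 252)))) q21907 (by decide +kernel)
def q21910 : Q := Q.p (nat_lit 0x8000020000180000200000000000000000000000000000000000000000000000000000000000000000000000000) (nat_lit 0x2000000000000000000000400001000000000000000000000000000000000000000000000000000000000000000000000) (nat_lit 2)
theorem c21910 : QOK q21910 := cut [] trivial (nd (nat_lit 298) (nat_lit 0) (cs (lf (nat_lit 30) (nat_lit 297)) (lf (nat_lit 35) (nat_lit 275)))) q21910 (by decide +kernel)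
def q21914 : Q := Q.p (nat_lit 0x180000280000800002000000000000000000000000000000000000000000000000000000000000000) (nat_lit 0x10000060000140000000000000000000000000000000000000000000000000000000000000000000000000) (nat_lit 3)
theorem c21914 : QOK q21914 := cut [] trivial (nd (nat_lit 294) (nat_lit 0) (cs (lf (nat_lit 2) (nat_lit 294)) (nd (nat_lit 318) (nat_lit 0) (cs (lf (nat_lit 21) (nat_lit 294)) (lf (nat_lit 41) (nat_lit 252)))))) q21914 (by decide +kernel)
def q21918 : Q := Q.p (nat_lit 0x180000280000800002000000000000000000000000000000000000000000000000000000000000000) (nat_lit 0x10000070000c40000000001000004000000000000000000000000000000000000000000000000000000000) (nat_lit 5)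
theorem c21918 : QOK q21918 := cut [] trivial (nd (nat_lit 230) (nat_lit 0) (cs (lf (nat_lit 46) (nat_lit 230)) (nd (nat_lit 318) (nat_lit 0) (cs (lf (nat_lit 41) (nat_lit 252)) (nd (nat_lit 317) (nat_lit 0) (cs (lf (nat_lit 23) (nat_lit 294)) (nd (nat_lit 298) (nat_lit 0) (cs (lf (nat_lit 12) (nat_lit 294)) (lf (nat_lit 17) (nat_lit 295)))))))))) q21918 (by decide +kernel)
def q21933 : Q := Q.p (nat_lit 0x80000200000c00002000008000020000000000000000000000000000000000000000000000000000) (nat_lit 0x20000000000000000000001000000000000000080000000000000000000000000000000000000000000000) (nat_lit 2)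
theorem c21933 : QOK q21933 := cut [] trivial (nd (nat_lit 252) (nat_lit 0) (cs (lf (nat_lit 36) (nat_lit 186)) (lf (nat_lit 42) (nat_lit 252)))) q21933 (by decide +kernel)
def q21943 : Q := Q.p (nat_lit 0x100000800002000008000040000000000000000000000000000000000000000000000000000) (nat_lit 0x400000000000000020000100000000000000000000000000000000000000000000000) (nat_lit 2)
theorem c21943 : QOK q21943 := cut [] trivial (nd (nat_lit 209) (nat_lit 0) (cs (lf (nat_lit 35) (nat_lit 187)) (lf (nat_lit 40) (nat_lit 208)))) q21943 (by decide +kernel)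
def q21967 : Q := Q.p (nat_lit 0xc0000200000800002000008000000000000000000000000000000000000000000000000000000000) (nat_lit 0x8000020000130001c00001600001000000000020000000000000000000000000000000000000000000000000000) (nat_lit 7)
theorem c21967 : QOK q21967 := cut [] trivial (nd (nat_lit 298) (nat_lit 0) (cs (lf (nat_lit 29) (nat_lit 231)) (nd (nat_lit 316) (nat_lit 0) (cs (nd (nat_lit 299) (nat_lit 0) (cs (lf (nat_lit 6) (nat_lit 296)) (nd (nat_lit 276) (nat_lit 0) (cs (lf (nat_lit 24) (nat_lit 209)) (nd (nat_lit 274) (nat_lit 0) (cs (lf (nat_lit 0) (nat_lit 273)) (nd (nat_lit 341) (nat_lit 0) (cs (lf (nat_lit 47) (nat_lit 252)) (lf (nat_lit 30) (nat_lit 275)))))))))) (lf (nat_lit 13) (nat_lit 294)))))) q21967 (by decide +kernel)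
def q21970 : Q := Q.p (nat_lit 0x80000200000800002000008000000000000000000000000000000000000000000000000000000000) (nat_lit 0x40000100000400000000000000000000000000000000000000000000000000000000000000000000000000) (nat_lit 2)
theorem c21970 : QOK q21970 := cut [] trivial (nd (nat_lit 320) (nat_lit 0) (cs (lf (nat_lit 29) (nat_lit 253)) (lf (nat_lit 28) (nat_lit 231)))) q21970 (by decide +kernel)
def q21982 : Q := Q.p (nat_lit 0xc00003800008000020000000000000000000000000000000000000000000000000000) (nat_lit 0x400003000000000000000000000000000000000000000000000000000000000000000000000) (nat_lit 2)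
theorem c21982 : QOK q21982 := cut [] trivial (nd (nat_lit 276) (nat_lit 0) (cs (lf (nat_lit 18) (nat_lit 251)) (lf (nat_lit 29) (nat_lit 209)))) q21982 (by decide +kernel)
def q21992 : Q := Q.p (nat_lit 0x80000f0000000000000000000000000000000000000000000000000000) (nat_lit 0x4000100000e00000000000000000000000000000000000000000000000) (nat_lit 3)
theorem c21992 : QOK q21992 := cut [] trivial (nd (nat_lit 190) (nat_lit 0) (cs (lf (nat_lit 16) (nat_lit 186)) (nd (nat_lit 212) (nat_lit 0) (cs (lf (nat_lit 17) (nat_lit 187)) (lf (nat_lit 11) (nat_lit 208)))))) q21992 (by decide +kernel)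
def q22047 : Q := Q.p (nat_lit 0x1c0000300000000000000000000000000000000000000000000000000000000000000000000000000) (nat_lit 0x2000000c0000000000000000000000000000000000000000000000000000000000000000000000000) (nat_lit 2)
theorem c22047 : QOK q22047 := cut [] trivial (nd (nat_lit 295) (nat_lit 0) (cs (lf (nat_lit 0) (nat_lit 294)) (lf (nat_lit 18) (nat_lit 295)))) q22047 (by decide +kernel)
def q22060 : Q := Q.p (nat_lit 0x80000380000c00000000000000000000000000000000000000000000000000000000000000000000) (nat_lit 0x100000060000000000000000000000000000000000000000000000000000000000000000000000000) (nat_lit 2)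
theorem c22060 : QOK q22060 := cut [] trivial (nd (nat_lit 294) (nat_lit 0) (cs (lf (nat_lit 12) (nat_lit 271)) (lf (nat_lit 5) (nat_lit 294)))) q22060 (by decide +kernel)
def q22076 : Q := Q.p (nat_lit 0x100001e00000000000000000000000000000000000000000000000000000000000000000000) (nat_lit 0xc0002000000000000000000000000000000000000000000000000000000000000000000000) (nat_lit 2)
theorem c22076 : QOK q22076 := cut [] trivial (nd (nat_lit 295) (nat_lit 0) (cs (lf (nat_lit 11) (nat_lit 272)) (lf (nat_lit 6) (nat_lit 273)))) q22076 (by decide +kernel)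
def q22109 : Q := Q.p (nat_lit 0xc00002000004000010000000000000000000000000000000000000000000000000000) (nat_lit 0x200000000001000008000000000000000000000000000000000000000000000000000000000) (nat_lit 2)
theorem c22109 : QOK q22109 := cut [] trivial (nd (nat_lit 297) (nat_lit 0) (cs (lf (nat_lit 45) (nat_lit 208)) (lf (nat_lit 26) (nat_lit 208)))) q22109 (by decide +kernel)
def q22114 : Q := Q.p (nat_lit 0xe00000600000000000000000000000000000000000000000000000000000000000000) (nat_lit 0x1000000900000000000000000000000000000000000000000000000000000000000000) (nat_lit 2)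
theorem c22114 : QOK q22114 := cut [] trivial (nd (nat_lit 251) (nat_lit 0) (cs (lf (nat_lit 18) (nat_lit 250)) (lf (nat_lit 0) (nat_lit 248)))) q22114 (by decide +kernel)
def q22116 : Q := Q.p (nat_lit 0x880001c00000000000000000000000000000000000000000000000000000000000000000000) (nat_lit 0x1100002000000000000000000000000000000000000000000000000000000000000000000000) (nat_lit 2)
theorem c22116 : QOK q22116 := cut [] trivial (nd (nat_lit 277) (nat_lit 0) (cs (lf (nat_lit 5) (nat_lit 274)) (lf (nat_lit 10) (nat_lit 273)))) q22116 (by decide +kernel)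
def q22122 : Q := Q.p (nat_lit 0x3e0000000000000000000000000000000000000000000000000000000000000000000) (nat_lit 0x1c0000000000000000000000000000000000000000000000000000000000000) (nat_lit 2)
theorem c22122 : QOK q22122 := cut [] trivial (nd (nat_lit 247) (nat_lit 0) (cs (lf (nat_lit 22) (nat_lit 247)) (lf (nat_lit 23) (nat_lit 246)))) q22122 (by decide +kernel)
def q22136 : Q := Q.p (nat_lit 0x7c0000000000000000000000000000000000000000000000000000000000000000000000000) (nat_lit 0x38000000000000000000000000000000000000000000000000000000000000000000000000000000) (nat_lit 2)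
theorem c22136 : QOK q22136 := cut [] trivial (nd (nat_lit 316) (nat_lit 0) (cs (lf (nat_lit 10) (nat_lit 294)) (lf (nat_lit 11) (nat_lit 293)))) q22136 (by decide +kernel)
def q22164 : Q := Q.p (nat_lit 0x200000c00002000008000000000000000000000000000000000000000000000000000000000) (nat_lit 0x40000100000000000000000000020000000000000000000000000000000000000000000000000000) (nat_lit 2)
theorem c22164 : QOK q22164 := cut [] trivial (nd (nat_lit 296) (nat_lit 0) (cs (lf (nat_lit 41) (nat_lit 230)) (lf (nat_lit 36) (nat_lit 208)))) q22164 (by decide +kernel)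
def q22169 : Q := Q.p (nat_lit 0x3c00000000000000000000000000000000000000000000000000000000000000000000) (nat_lit 0x1c00000200001c00000000000000000000000000000000000000000000000000000000000000) (nat_lit 4)
theorem c22169 : QOK q22169 := cut [] trivial (nd (nat_lit 251) (nat_lit 0) (cs (lf (nat_lit 22) (nat_lit 251)) (nd (nat_lit 299) (nat_lit 0) (cs (lf (nat_lit 5) (nat_lit 274)) (nd (nat_lit 273) (nat_lit 0) (cs (lf (nat_lit 4) (nat_lit 273)) (lf (nat_lit 23) (nat_lit 250)))))))) q22169 (by decide +kernel)
def q22177 : Q := Q.p (nat_lit 0x3c00002000000000000000000000000000000000000000000000000000000000000000) (nat_lit 0x1ce0004380001000000000000000000000000000000000000000000000000000000000000000) (nat_lit 6)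
theorem c22177 : QOK q22177 := cut [] trivial (nd (nat_lit 299) (nat_lit 0) (cs (lf (nat_lit 5) (nat_lit 274)) (nd (nat_lit 273) (nat_lit 0) (cs (lf (nat_lit 4) (nat_lit 273)) (nd (nat_lit 294) (nat_lit 0) (cs (lf (nat_lit 10) (nat_lit 272)) (nd (nat_lit 272) (nat_lit 0) (cs (lf (nat_lit 11) (nat_lit 271)) (nd (nat_lit 252) (nat_lit 0) (cs (lf (nat_lit 18) (nat_lit 252)) (lf (nat_lit 12) (nat_lit 249)))))))))))) q22177 (by decide +kernel)
def q22194 : Q := Q.p (nat_lit 0x20000700002000000000000000000000000000000000000000000000000000000000000000) (nat_lit 0x10000080001000000000000000000000000000000000000000000000000000000000000000) (nat_lit 2)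
theorem c22194 : QOK q22194 := cut [] trivial (nd (nat_lit 271) (nat_lit 0) (cs (lf (nat_lit 11) (nat_lit 270)) (lf (nat_lit 16) (nat_lit 249)))) q22194 (by decide +kernel)
def q22198 : Q := Q.p (nat_lit 0xe00002400018000000000000000000000000000000000000000000000000000000000) (nat_lit 0x1000001800000000000000000000000000000000000000000000000000000000000000) (nat_lit 2)
theorem c22198 : QOK q22198 := cut [] trivial (nd (nat_lit 251) (nat_lit 0) (cs (lf (nat_lit 18) (nat_lit 250)) (lf (nat_lit 14) (nat_lit 228)))) q22198 (by decide +kernel)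
def q22203 : Q := Q.p (nat_lit 0xc00002c00008000000000000000000000000000000000000000000000000000000000) (nat_lit 0x1200010000000000000000000000000000000000000000000000000000000000) (nat_lit 2)
theorem c22203 : QOK q22203 := cut [] trivial (nd (nat_lit 252) (nat_lit 0) (cs (lf (nat_lit 17) (nat_lit 228)) (lf (nat_lit 0) (nat_lit 249)))) q22203 (by decide +kernel)
def q22214 : Q := Q.p (nat_lit 0xe00000400000000000000000000000000000000000000000000000000000000000000) (nat_lit 0x100001b00000000000000000000000000000000000000000000000000000000000000) (nat_lit 3)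
theorem c22214 : QOK q22214 := cut [] trivial (nd (nat_lit 249) (nat_lit 0) (cs (lf (nat_lit 21) (nat_lit 249)) (nd (nat_lit 251) (nat_lit 0) (cs (lf (nat_lit 0) (nat_lit 248)) (lf (nat_lit 3) (nat_lit 249)))))) q22214 (by decide +kernel)
def q22217 : Q := Q.p (nat_lit 0x300000c0000d000000000000000000000000000000000000000000000000000000000) (nat_lit 0x2000006000018000000000000000000000000000000000000000000000) (nat_lit 3)
theorem c22217 : QOK q22217 := cut [] trivial (nd (nat_lit 206) (nat_lit 0) (cs (lf (nat_lit 24) (nat_lit 184)) (nd (nat_lit 205) (nat_lit 0) (cs (lf (nat_lit 47) (nat_lit 183)) (lf (nat_lit 20) (nat_lit 205)))))) q22217 (by decide +kernel)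
def q22229 : Q := Q.p (nat_lit 0xf00003000008000000000000000000000000000000000000000000000000000000000) (nat_lit 0x1000000e00010000000000000000000000000000000000000000000000000000000000) (nat_lit 3)
theorem c22229 : QOK q22229 := cut [] trivial (nd (nat_lit 250) (nat_lit 0) (cs (lf (nat_lit 23) (nat_lit 249)) (nd (nat_lit 251) (nat_lit 0) (cs (lf (nat_lit 17) (nat_lit 228)) (lf (nat_lit 18) (nat_lit 250)))))) q22229 (by decide +kernel)
def q22238 : Q := Q.p (nat_lit 0xa0000380000c0000000000000000000000000000000000000000000000000000) (nat_lit 0x2000000000000000000000100000400000000000000000000000000000000000000000) (nat_lit 2)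
theorem c22238 : QOK q22238 := cut [] trivial (nd (nat_lit 188) (nat_lit 0) (cs (lf (nat_lit 36) (nat_lit 165)) (lf (nat_lit 42) (nat_lit 188)))) q22238 (by decide +kernel)
def q22261 : Q := Q.p (nat_lit 0x40000300000400000000008000000000000000000000000000000000000000000000000000) (nat_lit 0x800003000000000000000000000000000000000000000000000000000000000) (nat_lit 2)
theorem c22261 : QOK q22261 := cut [] trivial (nd (nat_lit 229) (nat_lit 0) (cs (lf (nat_lit 38) (nat_lit 206)) (lf (nat_lit 33) (nat_lit 206)))) q22261 (by decide +kernel)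
def q22283 : Q := Q.p (nat_lit 0x400003000000000030000000000000000000000000000000000000000000000000000) (nat_lit 0xc000000000080000000000000000000000000000000000000000000000) (nat_lit 2)
theorem c22283 : QOK q22283 := cut [] trivial (nd (nat_lit 187) (nat_lit 0) (cs (lf (nat_lit 38) (nat_lit 186)) (lf (nat_lit 32) (nat_lit 186)))) q22283 (by decide +kernel)
def q22287 : Q := Q.p (nat_lit 0x100000400001000004000010000000000000000000000000000000000000000000000000000) (nat_lit 0x2000008000020000000000000000000000000000000000000000000000) (nat_lit 2)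
theorem c22287 : QOK q22287 := cut [] trivial (nd (nat_lit 207) (nat_lit 0) (cs (lf (nat_lit 47) (nat_lit 185)) (lf (nat_lit 46) (nat_lit 207)))) q22287 (by decide +kernel)
def q22293 : Q := Q.p (nat_lit 0x100000c00003000000000000000000000000000000000000000000000000000000000000000) (nat_lit 0x10000040000000000000000000008000000000000000000000000000000000000000000000000000000000) (nat_lit 2)
theorem c22293 : QOK q22293 := cut [] trivial (nd (nat_lit 318) (nat_lit 0) (cs (lf (nat_lit 35) (nat_lit 230)) (lf (nat_lit 30) (nat_lit 252)))) q22293 (by decide +kernel)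
def q22301 : Q := Q.p (nat_lit 0x600001800002000004000000000000000000000000000000000000000000000000000) (nat_lit 0x8000030000000000000000000000000000000000000000000000) (nat_lit 2)
theorem c22301 : QOK q22301 := cut [] trivial (nd (nat_lit 207) (nat_lit 0) (cs (lf (nat_lit 47) (nat_lit 184)) (lf (nat_lit 24) (nat_lit 185)))) q22301 (by decide +kernel)
def q22343 : Q := Q.p (nat_lit 0x20000100000c00003000000000000000000000000000000000000000000000000000000000000000) (nat_lit 0x18000040000000000000000000000000000000000000000000000000000000000000000000000000000000) (nat_lit 2)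
theorem c22343 : QOK q22343 := cut [] trivial (nd (nat_lit 318) (nat_lit 0) (cs (lf (nat_lit 30) (nat_lit 252)) (lf (nat_lit 41) (nat_lit 251)))) q22343 (by decide +kernel)
def q22367 : Q := Q.p (nat_lit 0x3c000010000000000000000000000000000000000000000000000) (nat_lit 0x400003a0000000000000000000000000000000000000000000000) (nat_lit 3)
theorem c22367 : QOK q22367 := cut [] trivial (nd (nat_lit 188) (nat_lit 0) (cs (lf (nat_lit 16) (nat_lit 184)) (nd (nat_lit 210) (nat_lit 0) (cs (lf (nat_lit 22) (nat_lit 184)) (lf (nat_lit 17) (nat_lit 185)))))) q22367 (by decide +kernel)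
def q22378 : Q := Q.p (nat_lit 0x100003800002000000000000000000000000000000000000000000000000000000000000000) (nat_lit 0x200004000001000000000000000000000000000000000000000000000000000000000000000) (nat_lit 2)
theorem c22378 : QOK q22378 := cut [] trivial (nd (nat_lit 278) (nat_lit 0) (cs (lf (nat_lit 23) (nat_lit 252)) (lf (nat_lit 10) (nat_lit 274)))) q22378 (by decide +kernel)
def q22390 : Q := Q.p (nat_lit 0x100001e00002000000000000000000000000000000000000000000000000000000000000000) (nat_lit 0x100000400000c0000000000c00002000000000000000000000000000000000000000000000000000000000) (nat_lit 4)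
theorem c22390 : QOK q22390 := cut [] trivial (nd (nat_lit 318) (nat_lit 0) (cs (lf (nat_lit 30) (nat_lit 252)) (nd (nat_lit 251) (nat_lit 0) (cs (lf (nat_lit 23) (nat_lit 250)) (nd (nat_lit 295) (nat_lit 0) (cs (lf (nat_lit 11) (nat_lit 272)) (lf (nat_lit 24) (nat_lit 229)))))))) q22390 (by decide +kernel)
def q22422 : Q := Q.p (nat_lit 0x800002000000000078000000000000000000000000000000000000000000000000000000000) (nat_lit 0x8000000000300000000000000000000000000000000000000000000000000000) (nat_lit 2)
theorem c22422 : QOK q22422 := cut [] trivial (nd (nat_lit 212) (nat_lit 0) (cs (lf (nat_lit 17) (nat_lit 209)) (lf (nat_lit 32) (nat_lit 211)))) q22422 (by decide +kernel)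
def q22426 : Q := Q.p (nat_lit 0x800002000010000040000000000000000000000000000000000000000000000000000000000) (nat_lit 0x80000200001000004000008000000000000000000000000000000000000000000000000000000000000000) (nat_lit 3)
theorem c22426 : QOK q22426 := cut [] trivial (nd (nat_lit 321) (nat_lit 0) (cs (lf (nat_lit 33) (nat_lit 233)) (nd (nat_lit 278) (nat_lit 0) (cs (lf (nat_lit 39) (nat_lit 233)) (lf (nat_lit 30) (nat_lit 255)))))) q22426 (by decide +kernel)
def q22451 : Q := Q.p (nat_lit 0x10000040000100000400001000000000000000000000000000000000000000000) (nat_lit 0x200000800002000000000000000000000000000000000000) (nat_lit 2)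
theorem c22451 : QOK q22451 := cut [] trivial (nd (nat_lit 167) (nat_lit 0) (cs (lf (nat_lit 47) (nat_lit 145)) (lf (nat_lit 46) (nat_lit 167)))) q22451 (by decide +kernel)
def q22461 : Q := Q.p (nat_lit 0xa00002800012000048000000000000000000000000000000000000000000000000000000000) (nat_lit 0x80000240001100004000000000000000100000000000000000000000000000000000000000000000000000) (nat_lit 4)
theorem c22461 : QOK q22461 := cut [] trivial (nd (nat_lit 296) (nat_lit 0) (cs (lf (nat_lit 41) (nat_lit 230)) (nd (nat_lit 278) (nat_lit 0) (cs (lf (nat_lit 36) (nat_lit 211)) (nd (nat_lit 321) (nat_lit 0) (cs (lf (nat_lit 39) (nat_lit 233)) (lf (nat_lit 30) (nat_lit 255)))))))) q22461 (by decide +kernel)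
def q22465 : Q := Q.p (nat_lit 0x800002000018000040000000000000000000000000000000000000000000000000000000000) (nat_lit 0x20000100000400000000000000000000000000000000000000000000000) (nat_lit 2)
theorem c22465 : QOK q22465 := cut [] trivial (nd (nat_lit 212) (nat_lit 0) (cs (lf (nat_lit 33) (nat_lit 211)) (lf (nat_lit 36) (nat_lit 189)))) q22465 (by decide +kernel)
def q22522 : Q := Q.p (nat_lit 0xe00000800002000008000000000000000000000000000000000000000000000000000000000) (nat_lit 0x40001100000600000000000000000000000000000000000000000000000000000000000000000000) (nat_lit 3)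
theorem c22522 : QOK q22522 := cut [] trivial (nd (nat_lit 274) (nat_lit 0) (cs (lf (nat_lit 18) (nat_lit 274)) (nd (nat_lit 296) (nat_lit 0) (cs (lf (nat_lit 41) (nat_lit 230)) (lf (nat_lit 23) (nat_lit 273)))))) q22522 (by decide +kernel)
def q22528 : Q := Q.p (nat_lit 0x1f00000000000000000000000000000000000000000000000000000000000000000000000000) (nat_lit 0xe00000000000000000000000000000000000000000000000000000000000000000000000000000000) (nat_lit 2)
theorem c22528 : QOK q22528 := cut [] trivial (nd (nat_lit 322) (nat_lit 0) (cs (lf (nat_lit 5) (nat_lit 297)) (lf (nat_lit 4) (nat_lit 296)))) q22528 (by decide +kernel)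
def q22538 : Q := Q.p (nat_lit 0x40000e000004000000000000000000000000000000000000000000000000000) (nat_lit 0x200001000002000000000000000000000000000000000000000000000000000) (nat_lit 2)
theorem c22538 : QOK q22538 := cut [] trivial (nd (nat_lit 228) (nat_lit 0) (cs (lf (nat_lit 11) (nat_lit 227)) (lf (nat_lit 23) (nat_lit 205)))) q22538 (by decide +kernel)
def q22541 : Q := Q.p (nat_lit 0x1f000000000000000000000000000000000000000000000000000000000) (nat_lit 0xe000000000000000000000000000000000000000000000000000) (nat_lit 2)
theorem c22541 : QOK q22541 := cut [] trivial (nd (nat_lit 206) (nat_lit 0) (cs (lf (nat_lit 23) (nat_lit 205)) (lf (nat_lit 22) (nat_lit 206)))) q22541 (by decide +kernel)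
def q22543 : Q := Q.p (nat_lit 0xf800000000000000000000000000000000000000000000000000000000) (nat_lit 0x7000000000000000000000000000000000000000000000000000) (nat_lit 2)
theorem c22543 : QOK q22543 := cut [] trivial (nd (nat_lit 205) (nat_lit 0) (cs (lf (nat_lit 22) (nat_lit 205)) (lf (nat_lit 23) (nat_lit 204)))) q22543 (by decide +kernel)
def q22559 : Q := Q.p (nat_lit 0x200001e000010000000000000000000000000000000000000000000000000000) (nat_lit 0x1e00001c0000c000000000000000000000000000000000000000000000000000) (nat_lit 5)
theorem c22559 : QOK q22559 := cut [] trivial (nd (nat_lit 250) (nat_lit 0) (cs (lf (nat_lit 10) (nat_lit 228)) (nd (nat_lit 228) (nat_lit 0) (cs (lf (nat_lit 11) (nat_lit 227)) (nd (nat_lit 227) (nat_lit 0) (cs (lf (nat_lit 4) (nat_lit 227)) (nd (nat_lit 207) (nat_lit 0) (cs (lf (nat_lit 12) (nat_lit 204)) (lf (nat_lit 23) (nat_lit 206)))))))))) q22559 (by decide +kernel)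
def q22566 : Q := Q.p (nat_lit 0x400000c00002000008000000000000000000000000000000000000000000000000000000000) (nat_lit 0x100001000000000000000020000000000000000000000000000000000000000000000000000) (nat_lit 2)
theorem c22566 : QOK q22566 := cut [] trivial (nd (nat_lit 209) (nat_lit 0) (cs (lf (nat_lit 41) (nat_lit 208)) (lf (nat_lit 28) (nat_lit 209)))) q22566 (by decide +kernel)
def q22582 : Q := Q.p (nat_lit 0x800002000058000020000000000000000000000000000000000000000000000) (nat_lit 0x20000010000040000000000000000000000000000000000000000) (nat_lit 2)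
theorem c22582 : QOK q22582 := cut [] trivial (nd (nat_lit 184) (nat_lit 0) (cs (lf (nat_lit 47) (nat_lit 162)) (lf (nat_lit 19) (nat_lit 184)))) q22582 (by decide +kernel)
def q22590 : Q := Q.p (nat_lit 0x3e000000000000000000000000000000000000000000000000000000000) (nat_lit 0x1c0000000000000000000000000000000000000000000000000000) (nat_lit 2)
theorem c22590 : QOK q22590 := cut [] trivial (nd (nat_lit 211) (nat_lit 0) (cs (lf (nat_lit 17) (nat_lit 208)) (lf (nat_lit 16) (nat_lit 207)))) q22590 (by decide +kernel)
def q22601 : Q := Q.p (nat_lit 0x2000038000010000000000000000000000000000000000000000000000000000) (nat_lit 0x1000040000020000000000000000000000000000000000000000000000000000) (nat_lit 2)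
theorem c22601 : QOK q22601 := cut [] trivial (nd (nat_lit 234) (nat_lit 0) (cs (lf (nat_lit 11) (nat_lit 230)) (lf (nat_lit 22) (nat_lit 208)))) q22601 (by decide +kernel)
def q22660 : Q := Q.p (nat_lit 0x8000020000080000e00002000000000000000000000000000000000000000000000000000000000000000) (nat_lit 0x6000010000040000100000000000000000000000000000000000000000000000000000000000000000000000000) (nat_lit 3)
theorem c22660 : QOK q22660 := cut [] trivial (nd (nat_lit 296) (nat_lit 0) (cs (lf (nat_lit 30) (nat_lit 273)) (nd (nat_lit 340) (nat_lit 0) (cs (lf (nat_lit 29) (nat_lit 273)) (lf (nat_lit 31) (nat_lit 252)))))) q22660 (by decide +kernel)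
def q22663 : Q := Q.p (nat_lit 0x20000080000200000800002000000000000000000000000000000000000000000000000000000000) (nat_lit 0x10000040000100000000000000000000000000000000000000000000000000000000000000000000000000) (nat_lit 2)
theorem c22663 : QOK q22663 := cut [] trivial (nd (nat_lit 318) (nat_lit 0) (cs (lf (nat_lit 29) (nat_lit 251)) (lf (nat_lit 28) (nat_lit 229)))) q22663 (by decide +kernel)
def q22665 : Q := Q.p (nat_lit 0x600000800002000038000000000000000000000000000000000000000000000000000) (nat_lit 0x1000000000044000030000000000000000000000000000000000000000000000) (nat_lit 3)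
theorem c22665 : QOK q22665 := cut [] trivial (nd (nat_lit 185) (nat_lit 0) (cs (lf (nat_lit 28) (nat_lit 185)) (nd (nat_lit 184) (nat_lit 0) (cs (lf (nat_lit 18) (nat_lit 184)) (lf (nat_lit 46) (nat_lit 184)))))) q22665 (by decide +kernel)
def q22678 : Q := Q.p (nat_lit 0x200000800002000008000020000000000000000000000000000000000000000000000000000000000000000000000000000000) (nat_lit 0x40000100000400000000000000000000000000000000000000000000000000000000000000000000000000000000000000000000000) (nat_lit 2)
theorem c22678 : QOK q22678 := cut [] trivial (nd (nat_lit 404) (nat_lit 0) (cs (lf (nat_lit 41) (nat_lit 338)) (lf (nat_lit 40) (nat_lit 316)))) q22678 (by decide +kernel)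
def q22691 : Q := Q.p (nat_lit 0x8000020000080000600000000000000000000000000000000000000000000000000000000000000000000) (nat_lit 0x1000006000010000000000100000000000000000000000000000000000000000000000000000000000000000000000000) (nat_lit 3)
theorem c22691 : QOK q22691 := cut [] trivial (nd (nat_lit 362) (nat_lit 0) (cs (lf (nat_lit 28) (nat_lit 273)) (nd (nat_lit 361) (nat_lit 0) (cs (lf (nat_lit 29) (nat_lit 295)) (lf (nat_lit 34) (nat_lit 273)))))) q22691 (by decide +kernel)
def q22705 : Q := Q.p (nat_lit 0x20000080001e00002000000000000000000000000000000000000000000000000000000000000000) (nat_lit 0x500007c0001c0000c00000000001c00000000000000000000000000000000000000000000000000000000000000) (nat_lit 8)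
theorem c22705 : QOK q22705 := cut [] trivial (nd (nat_lit 298) (nat_lit 0) (cs (lf (nat_lit 5) (nat_lit 273)) (nd (nat_lit 320) (nat_lit 0) (cs (lf (nat_lit 42) (nat_lit 253)) (nd (nat_lit 250) (nat_lit 0) (cs (lf (nat_lit 22) (nat_lit 250)) (nd (nat_lit 339) (nat_lit 0) (cs (lf (nat_lit 35) (nat_lit 251)) (nd (nat_lit 340) (nat_lit 0) (cs (lf (nat_lit 29) (nat_lit 273)) (nd (nat_lit 338) (nat_lit 0) (cs (lf (nat_lit 41) (nat_lit 272)) (nd (nat_lit 319) (nat_lit 0) (cs (lf (nat_lit 15) (nat_lit 316)) (lf (nat_lit 8) (nat_lit 316)))))))))))))))) q22705 (by decide +kernel)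
def q22714 : Q := Q.p (nat_lit 0x100000700002000000000000000000000000000000000000000000000000000000000000000) (nat_lit 0x800000c0001380000000000000000000000000000000000000000000000000000000000000) (nat_lit 4)
theorem c22714 : QOK q22714 := cut [] trivial (nd (nat_lit 271) (nat_lit 0) (cs (lf (nat_lit 16) (nat_lit 249)) (nd (nat_lit 248) (nat_lit 0) (cs (lf (nat_lit 22) (nat_lit 248)) (nd (nat_lit 270) (nat_lit 0) (cs (lf (nat_lit 23) (nat_lit 247)) (lf (nat_lit 4) (nat_lit 270)))))))) q22714 (by decide +kernel)
def q22720 : Q := Q.p (nat_lit 0x180000600000800000000000000000000000000000000000000000000000000000000000000) (nat_lit 0x40000000000000000000002000008000000000000000000000000000000000000000000000000000) (nat_lit 2)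
theorem c22720 : QOK q22720 := cut [] trivial (nd (nat_lit 229) (nat_lit 0) (cs (lf (nat_lit 29) (nat_lit 229)) (lf (nat_lit 24) (nat_lit 207)))) q22720 (by decide +kernel)
def q22724 : Q := Q.p (nat_lit 0x3c000020000080000200000000000000000000000000000000000000000000000000000000000000000000) (nat_lit 0x18000000000000000800000000000000000000000000000000000000000000000000000000000000) (nat_lit 2)
theorem c22724 : QOK q22724 := cut [] trivial (nd (nat_lit 316) (nat_lit 0) (cs (lf (nat_lit 23) (nat_lit 315)) (lf (nat_lit 36) (nat_lit 250)))) q22724 (by decide +kernel)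
def q22739 : Q := Q.p (nat_lit 0x7c000000000000000000000000000000000000000000000000000000000000000000000000000000000000) (nat_lit 0x3800000000000000000000000000000000000000000000000000000000000000000000000000000000000000000) (nat_lit 2)
theorem c22739 : QOK q22739 := cut [] trivial (nd (nat_lit 360) (nat_lit 0) (cs (lf (nat_lit 11) (nat_lit 337)) (lf (nat_lit 10) (nat_lit 338)))) q22739 (by decide +kernel)
def q22746 : Q := Q.p (nat_lit 0x3e000000000000000000000000000000000000000000000000000000000000000000000000000000000000) (nat_lit 0x1c000000000000000000000000000000000000000000000000000000000000000000000000000000) (nat_lit 2)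
theorem c22746 : QOK q22746 := cut [] trivial (nd (nat_lit 315) (nat_lit 0) (cs (lf (nat_lit 22) (nat_lit 315)) (lf (nat_lit 23) (nat_lit 314)))) q22746 (by decide +kernel)
def q22754 : Q := Q.p (nat_lit 0x40000e0000400000000000000000000000000000000000000000000000000000000000000000000000000000000) (nat_lit 0x8000100000800000000000000000000000000000000000000000000000000000000000000000000000000000000) (nat_lit 2)
theorem c22754 : QOK q22754 := cut [] trivial (nd (nat_lit 344) (nat_lit 0) (cs (lf (nat_lit 17) (nat_lit 319)) (lf (nat_lit 10) (nat_lit 340)))) q22754 (by decide +kernel)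
def q22784 : Q := Q.p (nat_lit 0x600001a0000200000800000000000000000000000000000000000000000000000000000000000000) (nat_lit 0x400001c000010000000000000000000000000000000000000000000000000000000000000000000000000) (nat_lit 3)
theorem c22784 : QOK q22784 := cut [] trivial (nd (nat_lit 316) (nat_lit 0) (cs (lf (nat_lit 41) (nat_lit 250)) (nd (nat_lit 315) (nat_lit 0) (cs (lf (nat_lit 12) (nat_lit 292)) (lf (nat_lit 23) (nat_lit 292)))))) q22784 (by decide +kernel)
def q22789 : Q := Q.p (nat_lit 0x10000020000180000600000000000000000000000000000000000000000000000000000000000000000000) (nat_lit 0x6000008000000000000000000000000000000000000000000000000000000000000000000000000000000000000) (nat_lit 2)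
theorem c22789 : QOK q22789 := cut [] trivial (nd (nat_lit 339) (nat_lit 0) (cs (lf (nat_lit 30) (nat_lit 273)) (lf (nat_lit 29) (nat_lit 273)))) q22789 (by decide +kernel)
def q22803 : Q := Q.p (nat_lit 0x200000400001000004000020000000000000000000000000000000000000000000000) (nat_lit 0x800000000000000010000080000000000000000000000000000000000000000) (nat_lit 2)
theorem c22803 : QOK q22803 := cut [] trivial (nd (nat_lit 184) (nat_lit 0) (cs (lf (nat_lit 35) (nat_lit 162)) (lf (nat_lit 28) (nat_lit 184)))) q22803 (by decide +kernel)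
def q22892 : Q := Q.p (nat_lit 0x200000800002000038000000000000000000000000000000000000000000000000000) (nat_lit 0x44000030000040000000000000000000000000000000000000000) (nat_lit 3)
theorem c22892 : QOK q22892 := cut [] trivial (nd (nat_lit 184) (nat_lit 0) (cs (lf (nat_lit 46) (nat_lit 184)) (nd (nat_lit 185) (nat_lit 0) (cs (lf (nat_lit 18) (nat_lit 184)) (lf (nat_lit 47) (nat_lit 162)))))) q22892 (by decide +kernel)
def q22898 : Q := Q.p (nat_lit 0x1c00002000000000020000000000000000000000000000000000000000000000000000) (nat_lit 0x500000000000000008000000000000000000000000000000000000000000000000000000000) (nat_lit 2)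
theorem c22898 : QOK q22898 := cut [] trivial (nd (nat_lit 231) (nat_lit 0) (cs (lf (nat_lit 41) (nat_lit 208)) (lf (nat_lit 29) (nat_lit 209)))) q22898 (by decide +kernel)
def q22906 : Q := Q.p (nat_lit 0x80000200000c00002000000000000000000000000000000000000000000000000000000000000000) (nat_lit 0x50000160001c00000000000000008000000000000000000000000000000000000000000000000000000000) (nat_lit 5)
theorem c22906 : QOK q22906 := cut [] trivial (nd (nat_lit 318) (nat_lit 0) (cs (lf (nat_lit 41) (nat_lit 252)) (nd (nat_lit 320) (nat_lit 0) (cs (lf (nat_lit 29) (nat_lit 253)) (nd (nat_lit 298) (nat_lit 0) (cs (lf (nat_lit 24) (nat_lit 231)) (nd (nat_lit 299) (nat_lit 0) (cs (lf (nat_lit 12) (nat_lit 295)) (lf (nat_lit 18) (nat_lit 274)))))))))) q22906 (by decide +kernel)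
def q22908 : Q := Q.p (nat_lit 0x200000c00003000008000000000000000000000000000000000000000000000000000000000) (nat_lit 0x10000060000180000000000000000000000000000000000000000000000) (nat_lit 3)
theorem c22908 : QOK q22908 := cut [] trivial (nd (nat_lit 210) (nat_lit 0) (cs (lf (nat_lit 34) (nat_lit 209)) (nd (nat_lit 209) (nat_lit 0) (cs (lf (nat_lit 36) (nat_lit 186)) (lf (nat_lit 35) (nat_lit 187)))))) q22908 (by decide +kernel)
def q22915 : Q := Q.p (nat_lit 0x100000200000c00002000000000000000000000000000000000000000000000000000000000000000) (nat_lit 0x500000000000000018000060000100000000000000000000000000000000000000000000000) (nat_lit 4)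
theorem c22915 : QOK q22915 := cut [] trivial (nd (nat_lit 231) (nat_lit 0) (cs (lf (nat_lit 28) (nat_lit 231)) (nd (nat_lit 210) (nat_lit 0) (cs (lf (nat_lit 34) (nat_lit 209)) (nd (nat_lit 209) (nat_lit 0) (cs (lf (nat_lit 41) (nat_lit 208)) (lf (nat_lit 35) (nat_lit 187)))))))) q22915 (by decide +kernel)
def q22936 : Q := Q.p (nat_lit 0x40000100000c00002000000000000000000000000000000000000000000000000000000000) (nat_lit 0x1000008000020000000000000000000000000000000000000000000000) (nat_lit 2)
theorem c22936 : QOK q22936 := cut [] trivial (nd (nat_lit 207) (nat_lit 0) (cs (lf (nat_lit 36) (nat_lit 184)) (lf (nat_lit 33) (nat_lit 206)))) q22936 (by decide +kernel)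
def q22956 : Q := Q.p (nat_lit 0x10000040000d00000400000000000000000000000000000000000000000000000000000000000000) (nat_lit 0x1a00002800000000000000000000000000000000000000000000000000000000) (nat_lit 3)
theorem c22956 : QOK q22956 := cut [] trivial (nd (nat_lit 251) (nat_lit 0) (cs (lf (nat_lit 35) (nat_lit 228)) (nd (nat_lit 249) (nat_lit 0) (cs (lf (nat_lit 47) (nat_lit 227)) (lf (nat_lit 3) (nat_lit 249)))))) q22956 (by decide +kernel)
def q22964 : Q := Q.p (nat_lit 0x1000004000010000040000100000000000000000000000000000000000000000000000000000000000000000000) (nat_lit 0x200000800002000000000000000000000000000000000000000000000000000000000000000000000000000000000000) (nat_lit 2)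
theorem c22964 : QOK q22964 := cut [] trivial (nd (nat_lit 359) (nat_lit 0) (cs (lf (nat_lit 41) (nat_lit 293)) (lf (nat_lit 40) (nat_lit 271)))) q22964 (by decide +kernel)
def q22991 : Q := Q.p (nat_lit 0x10000040000100000400000000000000000000000000000000000000000000000000000000000000) (nat_lit 0x800006000008000000000080000200000800000000000000000000000000000000000000000000000000000000) (nat_lit 4)
theorem c22991 : QOK q22991 := cut [] trivial (nd (nat_lit 337) (nat_lit 0) (cs (lf (nat_lit 40) (nat_lit 249)) (nd (nat_lit 249) (nat_lit 0) (cs (lf (nat_lit 47) (nat_lit 227)) (nd (nat_lit 338) (nat_lit 0) (cs (lf (nat_lit 41) (nat_lit 271)) (lf (nat_lit 46) (nat_lit 249)))))))) q22991 (by decide +kernel)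
def q23007 : Q := Q.p (nat_lit 0x700000c00000000000000000000000000000000000000000000000000000000000000000000) (nat_lit 0x1800000200000000000000000000000000000000000000000000000000000000000000000000) (nat_lit 2)
theorem c23007 : QOK q23007 := cut [] trivial (nd (nat_lit 299) (nat_lit 0) (cs (lf (nat_lit 18) (nat_lit 274)) (lf (nat_lit 23) (nat_lit 273)))) q23007 (by decide +kernel)
def q23012 : Q := Q.p (nat_lit 0x300000e00000000000000000000000000000000000000000000000000000000000000000000) (nat_lit 0x400000180000000000000000000000000000000000000000000000000000000000000000000) (nat_lit 2)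
theorem c23012 : QOK q23012 := cut [] trivial (nd (nat_lit 272) (nat_lit 0) (cs (lf (nat_lit 5) (nat_lit 272)) (lf (nat_lit 0) (nat_lit 271)))) q23012 (by decide +kernel)
def q23047 : Q := Q.p (nat_lit 0x100000c00002000000000000000000000000000000000000000000000000000000000000000) (nat_lit 0x40000200000000001000008000020000000000000000000000000000000000000000000000000000) (nat_lit 3)
theorem c23047 : QOK q23047 := cut [] trivial (nd (nat_lit 231) (nat_lit 0) (cs (lf (nat_lit 36) (nat_lit 208)) (nd (nat_lit 318) (nat_lit 0) (cs (lf (nat_lit 39) (nat_lit 230)) (lf (nat_lit 33) (nat_lit 230)))))) q23047 (by decide +kernel)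
def q23048 : Q := Q.p (nat_lit 0xe0000300000000000000000000000000000000000000000000000000000000000000000000000000) (nat_lit 0x10000c00000000000000000000000000000000000000000000000000000000000000000000000000) (nat_lit 2)
theorem c23048 : QOK q23048 := cut [] trivial (nd (nat_lit 298) (nat_lit 0) (cs (lf (nat_lit 12) (nat_lit 294)) (lf (nat_lit 6) (nat_lit 295)))) q23048 (by decide +kernel)
def q23049 : Q := Q.p (nat_lit 0x1f0000000000000000000000000000000000000000000000000000000000000000000000000000000) (nat_lit 0xe000000000000000000000000000000000000000000000000000000000000000000000000000000000000) (nat_lit 2)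
theorem c23049 : QOK q23049 := cut [] trivial (nd (nat_lit 338) (nat_lit 0) (cs (lf (nat_lit 11) (nat_lit 315)) (lf (nat_lit 10) (nat_lit 316)))) q23049 (by decide +kernel)
def q23056 : Q := Q.p (nat_lit 0xe0000180000c00000000000000000000000000000000000000000000000000000000000000000000) (nat_lit 0x100000060000000000000000000000000000000000000000000000000000000000000000000000000) (nat_lit 2)
theorem c23056 : QOK q23056 := cut [] trivial (nd (nat_lit 294) (nat_lit 0) (cs (lf (nat_lit 12) (nat_lit 271)) (lf (nat_lit 18) (nat_lit 294)))) q23056 (by decide +kernel)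
def q23068 : Q := Q.p (nat_lit 0x900002c00000000000000000000000000000000000000000000000000000000000000) (nat_lit 0x1080001000000000000000000000000000000000000000000000000000000000000000) (nat_lit 2)
theorem c23068 : QOK q23068 := cut [] trivial (nd (nat_lit 252) (nat_lit 0) (cs (lf (nat_lit 11) (nat_lit 249)) (lf (nat_lit 5) (nat_lit 250)))) q23068 (by decide +kernel)
def q23075 : Q := Q.p (nat_lit 0x4000010000060000100000000000000000000000000000000000000000000000000000000000000000000) (nat_lit 0x1000000000000000000000080000200000000000000000000000000000000000000000000000000000000000000) (nat_lit 2)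
theorem c23075 : QOK q23075 := cut [] trivial (nd (nat_lit 271) (nat_lit 0) (cs (lf (nat_lit 47) (nat_lit 249)) (lf (nat_lit 42) (nat_lit 271)))) q23075 (by decide +kernel)
def q23088 : Q := Q.p (nat_lit 0x3c00000000000000000000000000000000000000000000000000000000) (nat_lit 0x1c0000200001c00000000000000000000000000000000000000000000000000) (nat_lit 4)
theorem c23088 : QOK q23088 := cut [] trivial (nd (nat_lit 203) (nat_lit 0) (cs (lf (nat_lit 22) (nat_lit 203)) (nd (nat_lit 247) (nat_lit 0) (cs (lf (nat_lit 10) (nat_lit 225)) (nd (nat_lit 225) (nat_lit 0) (cs (lf (nat_lit 11) (nat_lit 224)) (lf (nat_lit 23) (nat_lit 202)))))))) q23088 (by decide +kernel)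
def q23097 : Q := Q.p (nat_lit 0x8000018000060000100000000000000000000000000000000000000000000000000000000000000000000) (nat_lit 0x400003000004000000000000000080000000000000000000000000000000000000000000000000000000000000000000) (nat_lit 3)
theorem c23097 : QOK q23097 := cut [] trivial (nd (nat_lit 338) (nat_lit 0) (cs (lf (nat_lit 29) (nat_lit 272)) (nd (nat_lit 360) (nat_lit 0) (cs (lf (nat_lit 47) (nat_lit 271)) (lf (nat_lit 42) (nat_lit 293)))))) q23097 (by decide +kernel)
def q23102 : Q := Q.p (nat_lit 0x40000100000600000800000000000000000000000000000000000000000000000000000000) (nat_lit 0x1000002000008000000000000000000000000000000000000000000000) (nat_lit 2)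
theorem c23102 : QOK q23102 := cut [] trivial (nd (nat_lit 205) (nat_lit 0) (cs (lf (nat_lit 24) (nat_lit 183)) (lf (nat_lit 45) (nat_lit 205)))) q23102 (by decide +kernel)
def q23197 : Q := Q.p (nat_lit 0x4000010000040000100000400000000000000000000000000000000000000000000000000000000000000) (nat_lit 0x80000200000800000000000000000000000000000000000000000000000000000000) (nat_lit 2)
theorem c23197 : QOK q23197 := cut [] trivial (nd (nat_lit 249) (nat_lit 0) (cs (lf (nat_lit 47) (nat_lit 227)) (lf (nat_lit 46) (nat_lit 249)))) q23197 (by decide +kernel)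
def q23205 : Q := Q.p (nat_lit 0xf0000000000100000800000000000000000000000000000000000000000000000000000000000000) (nat_lit 0x6000000000060000200000000000000000000000000000000000000000000000000000000000000000000) (nat_lit 3)
theorem c23205 : QOK q23205 := cut [] trivial (nd (nat_lit 294) (nat_lit 0) (cs (lf (nat_lit 23) (nat_lit 293)) (nd (nat_lit 338) (nat_lit 0) (cs (lf (nat_lit 11) (nat_lit 315)) (lf (nat_lit 34) (nat_lit 250)))))) q23205 (by decide +kernel)
def q23210 : Q := Q.p (nat_lit 0xc00002c00000000000000000000000000000000000000000000000000000000000000) (nat_lit 0x1000001200000000000000000000000000000000000000000000000000000000000000) (nat_lit 2)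
theorem c23210 : QOK q23210 := cut [] trivial (nd (nat_lit 252) (nat_lit 0) (cs (lf (nat_lit 5) (nat_lit 250)) (lf (nat_lit 0) (nat_lit 249)))) q23210 (by decide +kernel)
def q23211 : Q := Q.p (nat_lit 0xc00002c00000000000000000000000000000000000000000000000000000000000000) (nat_lit 0x1200001000000000000000000000000000000000000000000000000000000000000000) (nat_lit 2)
theorem c23211 : QOK q23211 := cut [] trivial (nd (nat_lit 276) (nat_lit 0) (cs (lf (nat_lit 2) (nat_lit 250)) (lf (nat_lit 21) (nat_lit 250)))) q23211 (by decide +kernel)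
def q23262 : Q := Q.p (nat_lit 0x140000580000000000000000000000000000000000000000000000000000000000000000000000000) (nat_lit 0x280000200000000000000000000000000000000000000000000000000000000000000000000000000) (nat_lit 2)
theorem c23262 : QOK q23262 := cut [] trivial (nd (nat_lit 321) (nat_lit 0) (cs (lf (nat_lit 20) (nat_lit 295)) (lf (nat_lit 2) (nat_lit 295)))) q23262 (by decide +kernel)
def q23267 : Q := Q.p (nat_lit 0x40000100000600000800000000000000000000000000000000000000000000000000000000000000) (nat_lit 0x1000002000008000000000000000000000000000000000000000000000000000) (nat_lit 2)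
theorem c23267 : QOK q23267 := cut [] trivial (nd (nat_lit 229) (nat_lit 0) (cs (lf (nat_lit 24) (nat_lit 207)) (lf (nat_lit 45) (nat_lit 229)))) q23267 (by decide +kernel)
def q23274 : Q := Q.p (nat_lit 0x100003800010000000000000000000000000000000000000000000000000000000000000000) (nat_lit 0x200004000020000000000000000000000000000000000000000000000000000000000000000) (nat_lit 2)
theorem c23274 : QOK q23274 := cut [] trivial (nd (nat_lit 278) (nat_lit 0) (cs (lf (nat_lit 17) (nat_lit 253)) (lf (nat_lit 10) (nat_lit 274)))) q23274 (by decide +kernel)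
def q23293 : Q := Q.p (nat_lit 0x7c0000000000000000000000000000000000000000000000000000000000000000000) (nat_lit 0x380000000000000000000000000000000000000000000000000000000000000000000000000) (nat_lit 2)
theorem c23293 : QOK q23293 := cut [] trivial (nd (nat_lit 296) (nat_lit 0) (cs (lf (nat_lit 5) (nat_lit 271)) (lf (nat_lit 4) (nat_lit 270)))) q23293 (by decide +kernel)
def q23307 : Q := Q.p (nat_lit 0xf00002000000000000000000000000000000000000000000000000000000000000000) (nat_lit 0x100000400003c00030c0000700000000000000000000000000000000000000000000000000000000000000) (nat_lit 7)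
theorem c23307 : QOK q23307 := cut [] trivial (nd (nat_lit 249) (nat_lit 0) (cs (lf (nat_lit 22) (nat_lit 249)) (nd (nat_lit 271) (nat_lit 0) (cs (lf (nat_lit 23) (nat_lit 248)) (nd (nat_lit 296) (nat_lit 0) (cs (lf (nat_lit 5) (nat_lit 271)) (nd (nat_lit 318) (nat_lit 0) (cs (lf (nat_lit 30) (nat_lit 252)) (nd (nat_lit 295) (nat_lit 0) (cs (lf (nat_lit 0) (nat_lit 270)) (nd (nat_lit 276) (nat_lit 0) (cs (lf (nat_lit 11) (nat_lit 272)) (lf (nat_lit 6) (nat_lit 273)))))))))))))) q23307 (by decide +kernel)
def q23308 : Q := Q.p (nat_lit 0x40000180001e00000000000000000000000000000000000000000000000000000000000000000000) (nat_lit 0xc00002000000000000000000000000000000000000000000000000000000000) (nat_lit 2)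
theorem c23308 : QOK q23308 := cut [] trivial (nd (nat_lit 251) (nat_lit 0) (cs (lf (nat_lit 23) (nat_lit 250)) (lf (nat_lit 24) (nat_lit 229)))) q23308 (by decide +kernel)
def q23321 : Q := Q.p (nat_lit 0x700000c00002000000000000000000000000000000000000000000000000000000000000000) (nat_lit 0x100000000000000000000008000020000000000000000000000000000000000000000000000000000) (nat_lit 2)
theorem c23321 : QOK q23321 := cut [] trivial (nd (nat_lit 231) (nat_lit 0) (cs (lf (nat_lit 29) (nat_lit 231)) (lf (nat_lit 36) (nat_lit 208)))) q23321 (by decide +kernel)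
def q23346 : Q := Q.p (nat_lit 0x100000600000800002000000000000000000000000000000000000000000000000000000000000000) (nat_lit 0x40000080000000001000000000000000000000000000000000000000000000000000000000000000000000) (nat_lit 2)
theorem c23346 : QOK q23346 := cut [] trivial (nd (nat_lit 342) (nat_lit 0) (cs (lf (nat_lit 27) (nat_lit 253)) (lf (nat_lit 45) (nat_lit 253)))) q23346 (by decide +kernel)

end Crest.Agent.H3.Snaky.CR
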