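import Crest.Agent.H3.Snaky.Cert
import Crest.Agent.H3.Snaky.CR.CR0
import Crest.Agent.H3.Snaky.CR.CR1
import Crest.Agent.H3.Snaky.CR.CR2
import Crest.Agent.H3.Snaky.CR.CR3
import Crest.Agent.H3.Snaky.CR.CR4
import Crest.Agent.H3.Snaky.CR.CR5

set_option autoImplicit false
set_option maxRecDepth 100000

namespace Crest.Agent.H3.Snaky.CR

open T

def q17559 : Q := Q.p (nat_lit 0x2c00001000020000000000000000000000000000000000000000000000000000) (nat_lit 0x100001c00001000018800000000080000000000000000000000000000000000000000000000) (nat_lit 5)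
theorem c17559 : QOK q17559 := cut [q6232] ⟨c6232, trivial⟩ (nd (nat_lit 252) (nat_lit 0) (cs (lf (nat_lit 23) (nat_lit 227)) (nd (nat_lit 275) (nat_lit 0) (cs (lf (nat_lit 5) (nat_lit 250)) (nd (nat_lit 231) (nat_lit 0) (cs (lf (nat_lit 17) (nat_lit 228)) (rf (nat_lit 0)))))))) q17559 (by decide +kernel)
def q17565 : Q := Q.p (nat_lit 0x400000000034000018000000000000000000000000000000000000000000000) (nat_lit 0x10000000000600000a0000000000000000000000000000000000000000) (nat_lit 3)
theorem c17565 : QOK q17565 := cut [q17564] ⟨c17564, trivial⟩ (nd (nat_lit 185) (nat_lit 0) (cs (lf (nat_lit 3) (nat_lit 183)) (rf (nat_lit 0)))) q17565 (by decide +kernel)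
def q17579 : Q := Q.p (nat_lit 0x2400001000004000010000000000000000000000000000000000000000000000) (nat_lit 0x80000300000e00003e0001a00002e00002000020000080000000000000000000000000000000000000000) (nat_lit 11)
theorem c17579 : QOK q17579 := cut [q17571] ⟨c17571, trivial⟩ (nd (nat_lit 251) (nat_lit 0) (cs (lf (nat_lit 29) (nat_lit 184)) (nd (nat_lit 227) (nat_lit 0) (cs (lf (nat_lit 19) (nat_lit 227)) (nd (nat_lit 225) (nat_lit 0) (cs (lf (nat_lit 1) (nat_lit 225)) (nd (nat_lit 271) (nat_lit 0) (cs (lf (nat_lit 40) (nat_lit 183)) (nd (nat_lit 163) (nat_lit 0) (cs (lf (nat_lit 34) (nat_lit 162)) (nd (nat_lit 272) (nat_lit 0) (cs (lf (nat_lit 41) (nat_lit 205)) (nd (nat_lit 269) (nat_lit 0) (cs (lf (nat_lit 13) (nat_lit 247)) (nd (nat_lit 294) (nat_lit 0) (cs (lf (nat_lit 47) (nat_lit 205)) (rf (nat_lit 0)))))))))))))))))) q17579 (by decide +kernel)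
def q17582 : Q := Q.p (nat_lit 0x2400001000004000010000000000000000000000000000000000000000000000) (nat_lit 0x380001a00000800000000008000020000000000000000000000000000000000000000) (nat_lit 5)
theorem c17582 : QOK q17582 := cut [q12588] ⟨c12588, trivial⟩ (nd (nat_lit 161) (nat_lit 0) (cs (lf (nat_lit 46) (nat_lit 161)) (nd (nat_lit 251) (nat_lit 0) (cs (lf (nat_lit 29) (nat_lit 184)) (nd (nat_lit 252) (nat_lit 0) (cs (lf (nat_lit 23) (nat_lit 227)) (rf (nat_lit 0)))))))) q17582 (by decide +kernel)
def q17584 : Q := Q.p (nat_lit 0x400001000004000018000000000000000000000000000000000000000000000) (nat_lit 0x20000180000200000000002000000000000000000000000000000000000000000000000000) (nat_lit 3)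
theorem c17584 : QOK q17584 := cut [q7721] ⟨c7721, trivial⟩ (nd (nat_lit 272) (nat_lit 0) (cs (lf (nat_lit 46) (nat_lit 183)) (rf (nat_lit 0)))) q17584 (by decide +kernel)
def q17588 : Q := Q.p (nat_lit 0x2000001000004000010000040000000000000000000000000000000000000000) (nat_lit 0x200001e00002800000000000000000000000000000000000000000000000000000000) (nat_lit 4)
theorem c17588 : QOK q17588 := cut [q16274] ⟨c16274, trivial⟩ (nd (nat_lit 227) (nat_lit 0) (cs (lf (nat_lit 41) (nat_lit 161)) (rf (nat_lit 0)))) q17588 (by decide +kernel)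
def q17597 : Q := Q.p (nat_lit 0x2400009000004000010000000000000000000000000000000000000000000000) (nat_lit 0x200001800010800000000020000080000000000000000000000000000000000000000) (nat_lit 4)
theorem c17597 : QOK q17597 := cut [q17596] ⟨c17596, trivial⟩ (nd (nat_lit 163) (nat_lit 0) (cs (lf (nat_lit 34) (nat_lit 162)) (rf (nat_lit 0)))) q17597 (by decide +kernel)
def q17601 : Q := Q.p (nat_lit 0x3000008000020000000000000000000000000000000000000000000000000000) (nat_lit 0x40000100000c00000000000000000000080000000000000000000000000000000000000000000000) (nat_lit 3)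
theorem c17601 : QOK q17601 := cut [q17544] ⟨c17544, trivial⟩ (nd (nat_lit 274) (nat_lit 0) (cs (lf (nat_lit 36) (nat_lit 186)) (rf (nat_lit 0)))) q17601 (by decide +kernel)
def q17621 : Q := Q.p (nat_lit 0x1000004000010000070000000000000000000000000000000000000000) (nat_lit 0x200000800000000007000088000270000000000000000000000000000000000) (nat_lit 6)
theorem c17621 : QOK q17621 := cut [q17619] ⟨c17619, trivial⟩ (nd (nat_lit 163) (nat_lit 0) (cs (lf (nat_lit 35) (nat_lit 140)) (nd (nat_lit 227) (nat_lit 0) (cs (lf (nat_lit 41) (nat_lit 161)) (rf (nat_lit 0)))))) q17621 (by decide +kernel)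
def q17633 : Q := Q.p (nat_lit 0x2000001000034000010000040000000000000000000000000000000000000000) (nat_lit 0x1a00001c0001a800000000040000020000180000200000000000000000000000000000) (nat_lit 8)
theorem c17633 : QOK q17633 := cut [q17553] ⟨c17553, trivial⟩ (nd (nat_lit 139) (nat_lit 0) (cs (lf (nat_lit 46) (nat_lit 139)) (nd (nat_lit 251) (nat_lit 0) (cs (lf (nat_lit 28) (nat_lit 162)) (nd (nat_lit 250) (nat_lit 0) (cs (lf (nat_lit 29) (nat_lit 184)) (nd (nat_lit 117) (nat_lit 0) (cs (lf (nat_lit 45) (nat_lit 117)) (rf (nat_lit 0)))))))))) q17633 (by decide +kernel)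
def q17642 : Q := Q.p (nat_lit 0x10000040000100000c0000000000000000000000000000000000000000) (nat_lit 0x80000600000800000000020000000000000000000000000000000000000000000000) (nat_lit 3)
theorem c17642 : QOK q17642 := cut [q17165] ⟨c17165, trivial⟩ (nd (nat_lit 250) (nat_lit 0) (cs (lf (nat_lit 34) (nat_lit 162)) (rf (nat_lit 0)))) q17642 (by decide +kernel)
def q17652 : Q := Q.p (nat_lit 0x400001000034000010000000000000000000000000000000000000000000000) (nat_lit 0x280000e0000380000000000000002000068000080000000000000000000000000000000000000000) (nat_lit 7)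
theorem c17652 : QOK q17652 := cut [q17367] ⟨c17367, trivial⟩ (nd (nat_lit 185) (nat_lit 0) (cs (lf (nat_lit 35) (nat_lit 162)) (nd (nat_lit 183) (nat_lit 0) (cs (lf (nat_lit 3) (nat_lit 183)) (nd (nat_lit 272) (nat_lit 0) (cs (lf (nat_lit 46) (nat_lit 183)) (nd (nat_lit 293) (nat_lit 0) (cs (lf (nat_lit 40) (nat_lit 205)) (nd (nat_lit 295) (nat_lit 0) (cs (lf (nat_lit 28) (nat_lit 206)) (rf (nat_lit 0)))))))))))) q17652 (by decide +kernel)
def q17657 : Q := Q.p (nat_lit 0x2400001000004000010000000000000000000000000000000000000000000000) (nat_lit 0x40000100001800002e000020000280000c0000300000000000000000000000000000000000) (nat_lit 8)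
theorem c17657 : QOK q17657 := cut [q17318] ⟨c17318, trivial⟩ (nd (nat_lit 163) (nat_lit 0) (cs (lf (nat_lit 34) (nat_lit 162)) (nd (nat_lit 162) (nat_lit 0) (cs (lf (nat_lit 35) (nat_lit 140)) (nd (nat_lit 251) (nat_lit 0) (cs (lf (nat_lit 28) (nat_lit 162)) (nd (nat_lit 227) (nat_lit 0) (cs (lf (nat_lit 19) (nat_lit 227)) (nd (nat_lit 225) (nat_lit 0) (cs (lf (nat_lit 1) (nat_lit 225)) (rf (nat_lit 0)))))))))))) q17657 (by decide +kernel)
def q17688 : Q := Q.p (nat_lit 0x2400001000004000010000000000000000000000000000000000000000000000) (nat_lit 0x80000300000e00001e0001a00002800002000008000000000000000000000000000000000000000000000) (nat_lit 9)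
theorem c17688 : QOK q17688 := cut [q17571] ⟨c17571, trivial⟩ (nd (nat_lit 271) (nat_lit 0) (cs (lf (nat_lit 40) (nat_lit 183)) (nd (nat_lit 272) (nat_lit 0) (cs (lf (nat_lit 41) (nat_lit 205)) (nd (nat_lit 251) (nat_lit 0) (cs (lf (nat_lit 7) (nat_lit 249)) (nd (nat_lit 269) (nat_lit 0) (cs (lf (nat_lit 13) (nat_lit 247)) (nd (nat_lit 205) (nat_lit 0) (cs (lf (nat_lit 47) (nat_lit 183)) (nd (nat_lit 294) (nat_lit 0) (cs (lf (nat_lit 46) (nat_lit 205)) (rf (nat_lit 0)))))))))))))) q17688 (by decide +kernel)
def q17690 : Q := Q.p (nat_lit 0x600001000004000010000000000000000000000000000000000000000000000) (nat_lit 0x200000800002800000000000000040000000000000000000000000000000000000000) (nat_lit 3)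
theorem c17690 : QOK q17690 := cut [q17202] ⟨c17202, trivial⟩ (nd (nat_lit 162) (nat_lit 0) (cs (lf (nat_lit 40) (nat_lit 161)) (rf (nat_lit 0)))) q17690 (by decide +kernel)
def q17697 : Q := Q.p (nat_lit 0x2000000000034000050000000000000000000000000000000000000000000000) (nat_lit 0x8000000000080000020001a8000600000000000000000000000000000000000000000) (nat_lit 5)
theorem c17697 : QOK q17697 := cut [q17694] ⟨c17694, trivial⟩ (nd (nat_lit 231) (nat_lit 0) (cs (lf (nat_lit 42) (nat_lit 186)) (nd (nat_lit 185) (nat_lit 0) (cs (lf (nat_lit 0) (nat_lit 183)) (nd (nat_lit 187) (nat_lit 0) (cs (lf (nat_lit 11) (nat_lit 183)) (rf (nat_lit 0)))))))) q17697 (by decide +kernel)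
def q17698 : Q := Q.p (nat_lit 0x18000140000000000000000000000000000000000000000) (nat_lit 0x60002a0000000000000000000000000000000000000000) (nat_lit 3)
theorem c17698 : QOK q17698 := cut [q12366] ⟨c12366, trivial⟩ (nd (nat_lit 163) (nat_lit 0) (cs (lf (nat_lit 6) (nat_lit 161)) (rf (nat_lit 0)))) q17698 (by decide +kernel)
def q17700 : Q := Q.p (nat_lit 0x40000100001c0000100000000000000000000000000000000000) (nat_lit 0x2c0000a00000000000000000000000000000) (nat_lit 3)
theorem c17700 : QOK q17700 := cut [q17699] ⟨c17699, trivial⟩ (nd (nat_lit 141) (nat_lit 0) (cs (lf (nat_lit 35) (nat_lit 118)) (rf (nat_lit 0)))) q17700 (by decide +kernel)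
def q17716 : Q := Q.p (nat_lit 0x3c0000000000000000000000000000000000) (nat_lit 0x1c0000200001c0000000000000000000000000000) (nat_lit 4)
theorem c17716 : QOK q17716 := cut [q6489] ⟨c6489, trivial⟩ (nd (nat_lit 159) (nat_lit 0) (cs (lf (nat_lit 10) (nat_lit 137)) (nd (nat_lit 137) (nat_lit 0) (cs (lf (nat_lit 11) (nat_lit 136)) (rf (nat_lit 0)))))) q17716 (by decide +kernel)
def q17722 : Q := Q.p (nat_lit 0x400001e0000000000000000000000000000000000) (nat_lit 0x200000100000e0000000000000000000000000000) (nat_lit 3)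
theorem c17722 : QOK q17722 := cut [q17720] ⟨c17720, trivial⟩ (nd (nat_lit 136) (nat_lit 0) (cs (rf (nat_lit 0)) (lf (nat_lit 4) (nat_lit 136)))) q17722 (by decide +kernel)
def q17733 : Q := Q.p (nat_lit 0x40000100001c0000100000000000000000000000000000000000) (nat_lit 0x200000e0000200000000000000000000000000000) (nat_lit 3)
theorem c17733 : QOK q17733 := cut [q12330] ⟨c12330, trivial⟩ (nd (nat_lit 139) (nat_lit 0) (cs (lf (nat_lit 47) (nat_lit 117)) (rf (nat_lit 0)))) q17733 (by decide +kernel)
def q17746 : Q := Q.p (nat_lit 0x34000050000000000000000000000000000000000000000000000) (nat_lit 0x20001a80007e0001c00007000000000000000000000000000000) (nat_lit 9)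
theorem c17746 : QOK q17746 := cut [q8391] ⟨c8391, trivial⟩ (nd (nat_lit 185) (nat_lit 0) (cs (lf (nat_lit 0) (nat_lit 183)) (nd (nat_lit 187) (nat_lit 0) (cs (lf (nat_lit 11) (nat_lit 183)) (nd (nat_lit 165) (nat_lit 0) (cs (lf (nat_lit 17) (nat_lit 162)) (nd (nat_lit 143) (nat_lit 0) (cs (lf (nat_lit 36) (nat_lit 120)) (nd (nat_lit 144) (nat_lit 0) (cs (lf (nat_lit 35) (nat_lit 121)) (nd (nat_lit 120) (nat_lit 0) (cs (lf (nat_lit 46) (nat_lit 120)) (rf (nat_lit 0)))))))))))))) q17746 (by decide +kernel)
def q17752 : Q := Q.p (nat_lit 0x140000e0000000000000000000000000000000000000000) (nat_lit 0x22000018000070000000000000000000000000000000000) (nat_lit 4)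
theorem c17752 : QOK q17752 := cut [q6302] ⟨c6302, trivial⟩ (nd (nat_lit 160) (nat_lit 0) (cs (lf (nat_lit 11) (nat_lit 159)) (nd (nat_lit 159) (nat_lit 0) (cs (lf (nat_lit 5) (nat_lit 159)) (rf (nat_lit 0)))))) q17752 (by decide +kernel)
def q17757 : Q := Q.p (nat_lit 0x100003c0000000000000000000000000000000000000000) (nat_lit 0x3a0000400000000000000000000000000000000000000000) (nat_lit 3)
theorem c17757 : QOK q17757 := cut [q17756] ⟨c17756, trivial⟩ (nd (nat_lit 188) (nat_lit 0) (cs (lf (nat_lit 4) (nat_lit 162)) (rf (nat_lit 0)))) q17757 (by decide +kernel)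
def q17780 : Q := Q.p (nat_lit 0x4000030000040000100000000000000000000000000000000000) (nat_lit 0x400001000000000000000080000280000600001800000000000000000000000) (nat_lit 5)
theorem c17780 : QOK q17780 := cut [q17777] ⟨c17777, trivial⟩ (nd (nat_lit 117) (nat_lit 0) (cs (lf (nat_lit 46) (nat_lit 117)) (nd (nat_lit 118) (nat_lit 0) (cs (lf (nat_lit 47) (nat_lit 95)) (nd (nat_lit 163) (nat_lit 0) (cs (lf (nat_lit 24) (nat_lit 96)) (rf (nat_lit 0)))))))) q17780 (by decide +kernel)
def q17806 : Q := Q.p (nat_lit 0x40000100000c0000000000000000000000000000000000000000) (nat_lit 0x1000000000000000000000300000800002000000000000000000000000) (nat_lit 3)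
theorem c17806 : QOK q17806 := cut [q12395] ⟨c12395, trivial⟩ (nd (nat_lit 141) (nat_lit 0) (cs (lf (nat_lit 30) (nat_lit 140)) (rf (nat_lit 0)))) q17806 (by decide +kernel)
def q17811 : Q := Q.p (nat_lit 0x18000040000100000400000000000000000000000000000) (nat_lit 0x20000000000200001800002000000000000000000) (nat_lit 3)
theorem c17811 : QOK q17811 := cut [q5868] ⟨c5868, trivial⟩ (nd (nat_lit 96) (nat_lit 0) (cs (rf (nat_lit 0)) (lf (nat_lit 40) (nat_lit 95)))) q17811 (by decide +kernel)
def q17817 : Q := Q.p (nat_lit 0x4000018000040000100000400000000000000000000000000000) (nat_lit 0x400001000000000000000020000080000000001000000000000000000000000) (nat_lit 3)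
theorem c17817 : QOK q17817 := cut [q17816] ⟨c17816, trivial⟩ (nd (nat_lit 161) (nat_lit 0) (cs (lf (nat_lit 36) (nat_lit 95)) (rf (nat_lit 0)))) q17817 (by decide +kernel)
def q17828 : Q := Q.p (nat_lit 0x4000010000040000080000000000000000000000000000000000) (nat_lit 0x1000000000000000180000360000a00000000000000000000000000000) (nat_lit 5)
theorem c17828 : QOK q17828 := cut [q17825] ⟨c17825, trivial⟩ (nd (nat_lit 140) (nat_lit 0) (cs (lf (nat_lit 47) (nat_lit 117)) (nd (nat_lit 141) (nat_lit 0) (cs (lf (nat_lit 35) (nat_lit 118)) (nd (nat_lit 163) (nat_lit 0) (cs (lf (nat_lit 30) (nat_lit 140)) (rf (nat_lit 0)))))))) q17828 (by decide +kernel)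
def q17886 : Q := Q.p (nat_lit 0x4000018000060000100000000000000000000000000000000000) (nat_lit 0x200000c00003000000000000000000000000) (nat_lit 3)
theorem c17886 : QOK q17886 := cut [q802] ⟨c802, trivial⟩ (nd (nat_lit 118) (nat_lit 0) (cs (rf (nat_lit 0)) (lf (nat_lit 36) (nat_lit 95)))) q17886 (by decide +kernel)
def q17894 : Q := Q.p (nat_lit 0x80003c00000000000000000000000000000000000000000000000000000000) (nat_lit 0x40000200001c00000000000000000000000000000000000000000000000000) (nat_lit 3)
theorem c17894 : QOK q17894 := cut [q17893] ⟨c17893, trivial⟩ (nd (nat_lit 225) (nat_lit 0) (cs (lf (nat_lit 11) (nat_lit 224)) (rf (nat_lit 0)))) q17894 (by decide +kernel)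
def q17912 : Q := Q.p (nat_lit 0x4000018000040000080000000000000000000000000000000000) (nat_lit 0x2000000000000000300000e00002000000000000000000000000) (nat_lit 4)
theorem c17912 : QOK q17912 := cut [q802] ⟨c802, trivial⟩ (nd (nat_lit 140) (nat_lit 0) (cs (lf (nat_lit 47) (nat_lit 117)) (nd (nat_lit 118) (nat_lit 0) (cs (rf (nat_lit 0)) (lf (nat_lit 41) (nat_lit 117)))))) q17912 (by decide +kernel)
def q17985 : Q := Q.p (nat_lit 0x800002000008000020000000000000000000000000000000000) (nat_lit 0x500001c0000500000000000000000000000) (nat_lit 4)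
theorem c17985 : QOK q17985 := cut [q17981] ⟨c17981, trivial⟩ (nd (nat_lit 116) (nat_lit 0) (cs (nd (nat_lit 115) (nat_lit 0) (cs (rf (nat_lit 0)) (lf (nat_lit 35) (nat_lit 93)))) (lf (nat_lit 34) (nat_lit 115)))) q17985 (by decide +kernel)
def q17990 : Q := Q.p (nat_lit 0x6000008000020000080000000000000000000000000000) (nat_lit 0x10000000000040000300000400000000000000000) (nat_lit 3)
theorem c17990 : QOK q17990 := cut [q17989] ⟨c17989, trivial⟩ (nd (nat_lit 93) (nat_lit 0) (cs (lf (nat_lit 28) (nat_lit 93)) (rf (nat_lit 0)))) q17990 (by decide +kernel)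
def q18006 : Q := Q.p (nat_lit 0x6000018000020000080000000000000000000000000000000000) (nat_lit 0x400001c00020000000000000000000000000000000000000000000000) (nat_lit 3)
theorem c18006 : QOK q18006 := cut [q18005] ⟨c18005, trivial⟩ (nd (nat_lit 204) (nat_lit 0) (cs (lf (nat_lit 41) (nat_lit 138)) (rf (nat_lit 0)))) q18006 (by decide +kernel)
def q18007 : Q := Q.p (nat_lit 0x4000010000060000180000000000000000000000000000000000) (nat_lit 0x10000e00000800000000000000000000000000000) (nat_lit 3)
theorem c18007 : QOK q18007 := cut [q12620] ⟨c12620, trivial⟩ (nd (nat_lit 141) (nat_lit 0) (cs (lf (nat_lit 35) (nat_lit 118)) (rf (nat_lit 0)))) q18007 (by decide +kernel)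
def q18041 : Q := Q.p (nat_lit 0x4000010000040000100000000000000000000000000000000000) (nat_lit 0x800002000008000000000080000600000800000000000000000000000) (nat_lit 4)
theorem c18041 : QOK q18041 := cut [q18039] ⟨c18039, trivial⟩ (nd (nat_lit 117) (nat_lit 0) (cs (lf (nat_lit 46) (nat_lit 117)) (nd (nat_lit 205) (nat_lit 0) (cs (lf (nat_lit 41) (nat_lit 139)) (rf (nat_lit 0)))))) q18041 (by decide +kernel)
def q18086 : Q := Q.p (nat_lit 0x200000900003c000000000000000000000000000000000000000000000000000) (nat_lit 0x100001f60001f80001e000020000000001b0000040000100000000000000000000000000000000000) (nat_lit 13)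
theorem c18086 : QOK q18086 := cut [q3320] ⟨c3320, trivial⟩ (nd (nat_lit 187) (nat_lit 0) (cs (lf (nat_lit 17) (nat_lit 184)) (nd (nat_lit 274) (nat_lit 0) (cs (lf (nat_lit 40) (nat_lit 186)) (nd (nat_lit 275) (nat_lit 0) (cs (lf (nat_lit 41) (nat_lit 208)) (nd (nat_lit 298) (nat_lit 0) (cs (lf (nat_lit 28) (nat_lit 209)) (nd (nat_lit 297) (nat_lit 0) (cs (lf (nat_lit 29) (nat_lit 231)) (nd (nat_lit 299) (nat_lit 0) (cs (lf (nat_lit 18) (nat_lit 274)) (nd (nat_lit 272) (nat_lit 0) (cs (lf (nat_lit 1) (nat_lit 272)) (nd (nat_lit 250) (nat_lit 0) (cs (lf (nat_lit 35) (nat_lit 184)) (nd (nat_lit 271) (nat_lit 0) (cs (lf (nat_lit 41) (nat_lit 205)) (nd (nat_lit 184) (nat_lit 0) (cs (lf (nat_lit 40) (nat_lit 183)) (nd (nat_lit 229) (nat_lit 0) (cs (lf (nat_lit 30) (nat_lit 206)) (rf (nat_lit 0)))))))))))))))))))))))) q18086 (by decide +kernel)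
def q18105 : Q := Q.p (nat_lit 0xc000010000040000000000000000000000000000000000000000) (nat_lit 0x2000000000020000000000300000c00002000000000000000000000000) (nat_lit 4)
theorem c18105 : QOK q18105 := cut [q18104] ⟨c18104, trivial⟩ (nd (nat_lit 140) (nat_lit 0) (cs (lf (nat_lit 29) (nat_lit 140)) (rf (nat_lit 0)))) q18105 (by decide +kernel)
def q18142 : Q := Q.p (nat_lit 0x2000008000078000000000000000000000000000000000000000000000000000) (nat_lit 0x380000400001000000000000000000000000000000000000) (nat_lit 3)
theorem c18142 : QOK q18142 := cut [q687] ⟨c687, trivial⟩ (nd (nat_lit 188) (nat_lit 0) (cs (lf (nat_lit 17) (nat_lit 185)) (rf (nat_lit 0)))) q18142 (by decide +kernel)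
def q18159 : Q := Q.p (nat_lit 0x4000010000040000100000000000000000000000000000000000000000) (nat_lit 0x800002000008000000000200000c00002000000000000000000000000000000) (nat_lit 4)
theorem c18159 : QOK q18159 := cut [q18157] ⟨c18157, trivial⟩ (nd (nat_lit 143) (nat_lit 0) (cs (lf (nat_lit 34) (nat_lit 142)) (nd (nat_lit 142) (nat_lit 0) (cs (lf (nat_lit 35) (nat_lit 120)) (rf (nat_lit 0)))))) q18159 (by decide +kernel)
def q18163 : Q := Q.p (nat_lit 0x10000040000100000400000000000000000000000000000000000) (nat_lit 0xa0000380000a000000000000000000000000) (nat_lit 4)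
theorem c18163 : QOK q18163 := cut [q18161] ⟨c18161, trivial⟩ (nd (nat_lit 119) (nat_lit 0) (cs (lf (nat_lit 46) (nat_lit 119)) (nd (nat_lit 121) (nat_lit 0) (cs (lf (nat_lit 34) (nat_lit 120)) (rf (nat_lit 0)))))) q18163 (by decide +kernel)
def q18178 : Q := Q.p (nat_lit 0x40000100000400001c0000000000000000000000000000000000000000) (nat_lit 0x180000220000800000000000000000000000000000000000) (nat_lit 3)
theorem c18178 : QOK q18178 := cut [q459] ⟨c459, trivial⟩ (nd (nat_lit 165) (nat_lit 0) (cs (lf (nat_lit 35) (nat_lit 142)) (rf (nat_lit 0)))) q18178 (by decide +kernel)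
def q18182 : Q := Q.p (nat_lit 0x10000040000100000c0000000000000000000000000000000000000000000000) (nat_lit 0x80000600000800000000020000000000000000000000000000000000000000000000000000) (nat_lit 3)
theorem c18182 : QOK q18182 := cut [q11035] ⟨c11035, trivial⟩ (nd (nat_lit 274) (nat_lit 0) (cs (lf (nat_lit 34) (nat_lit 186)) (rf (nat_lit 0)))) q18182 (by decide +kernel)
def q18195 : Q := Q.p (nat_lit 0x200003c00000000000000000000000000000000000000000000000000000000000000) (nat_lit 0x4e0000300001c00000000000000000000000000000000000000000000000000000000) (nat_lit 5)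
theorem c18195 : QOK q18195 := cut [q18192] ⟨c18192, trivial⟩ (nd (nat_lit 227) (nat_lit 0) (cs (lf (nat_lit 22) (nat_lit 227)) (nd (nat_lit 249) (nat_lit 0) (cs (lf (nat_lit 23) (nat_lit 226)) (nd (nat_lit 248) (nat_lit 0) (cs (lf (nat_lit 5) (nat_lit 248)) (rf (nat_lit 0)))))))) q18195 (by decide +kernel)
def q18199 : Q := Q.p (nat_lit 0x200001c00000800000000000000000000000000000000000000000000000000000000) (nat_lit 0x570000380000400000000000000000000000000000000000000000000000000000000) (nat_lit 5)
theorem c18199 : QOK q18199 := cut [q18196] ⟨c18196, trivial⟩ (nd (nat_lit 249) (nat_lit 0) (cs (lf (nat_lit 23) (nat_lit 226)) (nd (nat_lit 248) (nat_lit 0) (cs (lf (nat_lit 5) (nat_lit 248)) (nd (nat_lit 269) (nat_lit 0) (cs (lf (nat_lit 10) (nat_lit 247)) (rf (nat_lit 0)))))))) q18199 (by decide +kernel)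
def q18210 : Q := Q.p (nat_lit 0x40000300000c00000000000000000000000000000000000000000000000000000000000000) (nat_lit 0x60000180000a0000000000000001000004000010000000000000000000000000000000000000000000000) (nat_lit 5)
theorem c18210 : QOK q18210 := cut [q14896] ⟨c14896, trivial⟩ (nd (nat_lit 316) (nat_lit 0) (cs (lf (nat_lit 30) (nat_lit 250)) (nd (nat_lit 315) (nat_lit 0) (cs (lf (nat_lit 41) (nat_lit 249)) (nd (nat_lit 228) (nat_lit 0) (cs (lf (nat_lit 40) (nat_lit 227)) (rf (nat_lit 0)))))))) q18210 (by decide +kernel)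
def q18214 : Q := Q.p (nat_lit 0xc0000300000400000000000000000000000000000000000000000000000000000000000000) (nat_lit 0x8000038000400000000001000004000000000000000000000000000000000000000000000000000) (nat_lit 4)
theorem c18214 : QOK q18214 := cut [q18212] ⟨c18212, trivial⟩ (nd (nat_lit 228) (nat_lit 0) (cs (lf (nat_lit 24) (nat_lit 206)) (nd (nat_lit 293) (nat_lit 0) (cs (lf (nat_lit 41) (nat_lit 227)) (rf (nat_lit 0)))))) q18214 (by decide +kernel)
def q18221 : Q := Q.p (nat_lit 0x300000c0000200000800000000000000000000000000000000000000000000000000000000000000) (nat_lit 0x100000c0000030000000000000000000000000000000000000000000000000000000000000000000000000) (nat_lit 3)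
theorem c18221 : QOK q18221 := cut [q18220] ⟨c18220, trivial⟩ (nd (nat_lit 318) (nat_lit 0) (cs (lf (nat_lit 29) (nat_lit 251)) (rf (nat_lit 0)))) q18221 (by decide +kernel)
def q18238 : Q := Q.p (nat_lit 0xc0000300000c00000000000000000000000000000000000000000000000000000000000000) (nat_lit 0x600001e000320000000000000000000000000000000000000000000000000000000000000000000000000) (nat_lit 5)
theorem c18238 : QOK q18238 := cut [q18235] ⟨c18235, trivial⟩ (nd (nat_lit 316) (nat_lit 0) (cs (lf (nat_lit 30) (nat_lit 250)) (nd (nat_lit 315) (nat_lit 0) (cs (lf (nat_lit 41) (nat_lit 249)) (nd (nat_lit 296) (nat_lit 0) (cs (lf (nat_lit 6) (nat_lit 293)) (rf (nat_lit 0)))))))) q18238 (by decide +kernel)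
def q18255 : Q := Q.p (nat_lit 0x3c00000000000000000000000000000000000000000000000000000000000000) (nat_lit 0x1c00000200001c00000000000000000000000000000000000000000000000000000000) (nat_lit 4)
theorem c18255 : QOK q18255 := cut [q6730] ⟨c6730, trivial⟩ (nd (nat_lit 227) (nat_lit 0) (cs (lf (nat_lit 22) (nat_lit 227)) (nd (nat_lit 249) (nat_lit 0) (cs (lf (nat_lit 23) (nat_lit 226)) (rf (nat_lit 0)))))) q18255 (by decide +kernel)
def q18266 : Q := Q.p (nat_lit 0x8000040000100000400001000000000000000000000000000000000000000000000000000000000) (nat_lit 0xa000030000080000000000000000000000000000000000000000000000000000000000000000000000000) (nat_lit 3)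
theorem c18266 : QOK q18266 := cut [q18265] ⟨c18265, trivial⟩ (nd (nat_lit 317) (nat_lit 0) (cs (lf (nat_lit 28) (nat_lit 228)) (rf (nat_lit 0)))) q18266 (by decide +kernel)
def q18269 : Q := Q.p (nat_lit 0xc0000f00003000000000000000000000000000000000000000000000000000000000000000) (nat_lit 0x60000180000700000000000000000000000000000000000000000000000000000000000000000000000000) (nat_lit 4)
theorem c18269 : QOK q18269 := cut [q14882] ⟨c14882, trivial⟩ (nd (nat_lit 297) (nat_lit 0) (cs (lf (nat_lit 5) (nat_lit 272)) (rf (nat_lit 0)))) q18269 (by decide +kernel)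
def q18290 : Q := Q.p (nat_lit 0x80000100001c000040000000000000000000000000000000000000000000000) (nat_lit 0x200000000002000060000018000040000000000000000000000000000000000000000) (nat_lit 4)
theorem c18290 : QOK q18290 := cut [q3356] ⟨c3356, trivial⟩ (nd (nat_lit 229) (nat_lit 0) (cs (lf (nat_lit 30) (nat_lit 185)) (rf (nat_lit 0)))) q18290 (by decide +kernel)
def q18292 : Q := Q.p (nat_lit 0x280000380000c000010000000000000000000000000000000000000000000000) (nat_lit 0x60000180001600000000000000000000000000000000000000000000000000000000000000) (nat_lit 4)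
theorem c18292 : QOK q18292 := cut [q7721] ⟨c7721, trivial⟩ (nd (nat_lit 250) (nat_lit 0) (cs (lf (nat_lit 19) (nat_lit 227)) (nd (nat_lit 272) (nat_lit 0) (cs (lf (nat_lit 30) (nat_lit 206)) (rf (nat_lit 0)))))) q18292 (by decide +kernel)
def q18313 : Q := Q.p (nat_lit 0x3c00000000000000000000000000000000000) (nat_lit 0x3800004000038000000000000000000000000000000) (nat_lit 4)
theorem c18313 : QOK q18313 := cut [q18312] ⟨c18312, trivial⟩ (nd (nat_lit 124) (nat_lit 0) (cs (lf (nat_lit 16) (nat_lit 120)) (rf (nat_lit 0)))) q18313 (by decide +kernel)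
def q18354 : Q := Q.p (nat_lit 0x1e000000000000000000000000000000000000000000000000000) (nat_lit 0xe0000100000e000000000000000000000000000000000000000000000) (nat_lit 4)
theorem c18354 : QOK q18354 := cut [q126] ⟨c126, trivial⟩ (nd (nat_lit 226) (nat_lit 0) (cs (lf (nat_lit 10) (nat_lit 204)) (nd (nat_lit 204) (nat_lit 0) (cs (rf (nat_lit 0)) (lf (nat_lit 11) (nat_lit 203)))))) q18354 (by decide +kernel)
def q18362 : Q := Q.p (nat_lit 0x100000700000000000000000000000000000000000) (nat_lit 0x2b80000c0000000000000000000000000000000000) (nat_lit 4)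
theorem c18362 : QOK q18362 := cut [q18361] ⟨c18361, trivial⟩ (nd (nat_lit 139) (nat_lit 0) (cs (lf (nat_lit 5) (nat_lit 139)) (rf (nat_lit 0)))) q18362 (by decide +kernel)
def q18377 : Q := Q.p (nat_lit 0x100000700000000000000000000000000000000000) (nat_lit 0x2800000c0000380000000000000000000000000000) (nat_lit 4)
theorem c18377 : QOK q18377 := cut [q6475] ⟨c6475, trivial⟩ (nd (nat_lit 139) (nat_lit 0) (cs (lf (nat_lit 5) (nat_lit 139)) (nd (nat_lit 138) (nat_lit 0) (cs (rf (nat_lit 0)) (lf (nat_lit 4) (nat_lit 138)))))) q18377 (by decide +kernel)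
def q18396 : Q := Q.p (nat_lit 0x1e00000000000000000000000000000000000) (nat_lit 0xee0000100000000000000000000000000000000000) (nat_lit 4)
theorem c18396 : QOK q18396 := cut [q8176] ⟨c8176, trivial⟩ (nd (nat_lit 166) (nat_lit 0) (cs (lf (nat_lit 5) (nat_lit 141)) (nd (nat_lit 140) (nat_lit 0) (cs (lf (nat_lit 4) (nat_lit 140)) (rf (nat_lit 0)))))) q18396 (by decide +kernel)
def q18432 : Q := Q.p (nat_lit 0x100003c00000000000000000000000000000000000) (nat_lit 0x3a00004000000000000000000000000000000000000) (nat_lit 3)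
theorem c18432 : QOK q18432 := cut [q9036] ⟨c9036, trivial⟩ (nd (nat_lit 146) (nat_lit 0) (cs (lf (nat_lit 10) (nat_lit 142)) (rf (nat_lit 0)))) q18432 (by decide +kernel)
def q18440 : Q := Q.p (nat_lit 0x1c0000100000000000000000000000000000000000000000) (nat_lit 0x2000002e0000000000000000000000000000000000000000) (nat_lit 3)
theorem c18440 : QOK q18440 := cut [q2769] ⟨c2769, trivial⟩ (nd (nat_lit 163) (nat_lit 0) (cs (rf (nat_lit 0)) (lf (nat_lit 18) (nat_lit 163)))) q18440 (by decide +kernel)
def q18464 : Q := Q.p (nat_lit 0x100001e0000000000000000000000000000000000000000000000) (nat_lit 0x1c8000200000000000000000000000000000000000000000000000) (nat_lit 3)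
theorem c18464 : QOK q18464 := cut [q9253] ⟨c9253, trivial⟩ (nd (nat_lit 189) (nat_lit 0) (cs (lf (nat_lit 11) (nat_lit 185)) (rf (nat_lit 0)))) q18464 (by decide +kernel)
def q18479 : Q := Q.p (nat_lit 0x6000010000040000000000000000000000000000000000000000) (nat_lit 0x800000000008000000000300000c00002000000000000000000000000) (nat_lit 4)
theorem c18479 : QOK q18479 := cut [q18478] ⟨c18478, trivial⟩ (nd (nat_lit 140) (nat_lit 0) (cs (lf (nat_lit 41) (nat_lit 139)) (rf (nat_lit 0)))) q18479 (by decide +kernel)
def q18482 : Q := Q.p (nat_lit 0x6000010000040000100000000000000000000000000000000000) (nat_lit 0x8000000000200000c00002000000000000000000000000) (nat_lit 3)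
theorem c18482 : QOK q18482 := cut [q802] ⟨c802, trivial⟩ (nd (nat_lit 118) (nat_lit 0) (cs (rf (nat_lit 0)) (lf (nat_lit 40) (nat_lit 117)))) q18482 (by decide +kernel)
def q18489 : Q := Q.p (nat_lit 0x1000006000010000040000000000000000000000000000000000000000) (nat_lit 0x20000380000e00002000000000008000000000000000000000000000000000000000000000) (nat_lit 5)
theorem c18489 : QOK q18489 := cut [q7721] ⟨c7721, trivial⟩ (nd (nat_lit 251) (nat_lit 0) (cs (lf (nat_lit 28) (nat_lit 162)) (nd (nat_lit 250) (nat_lit 0) (cs (lf (nat_lit 29) (nat_lit 184)) (nd (nat_lit 272) (nat_lit 0) (cs (lf (nat_lit 47) (nat_lit 183)) (rf (nat_lit 0)))))))) q18489 (by decide +kernel)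
def q18529 : Q := Q.p (nat_lit 0x6000010000040000000000000000000000000000000000000000) (nat_lit 0x800000000000000000000380000e00002800000000000000000000000) (nat_lit 5)
theorem c18529 : QOK q18529 := cut [q18528] ⟨c18528, trivial⟩ (nd (nat_lit 140) (nat_lit 0) (cs (lf (nat_lit 41) (nat_lit 139)) (rf (nat_lit 0)))) q18529 (by decide +kernel)
def q18530 : Q := Q.p (nat_lit 0x6000010000040000100000000000000000000000000000000000) (nat_lit 0x8000000000080000600000800000000000000000000000) (nat_lit 3)
theorem c18530 : QOK q18530 := cut [q862] ⟨c862, trivial⟩ (nd (nat_lit 118) (nat_lit 0) (cs (rf (nat_lit 0)) (lf (nat_lit 40) (nat_lit 117)))) q18530 (by decide +kernel)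
def q18547 : Q := Q.p (nat_lit 0x400001000004000010000000000000000000000000000000000000000000000) (nat_lit 0x200000800002000000000008000060000080000000000000000000000000000000000) (nat_lit 4)
theorem c18547 : QOK q18547 := cut [q18545] ⟨c18545, trivial⟩ (nd (nat_lit 161) (nat_lit 0) (cs (lf (nat_lit 46) (nat_lit 161)) (nd (nat_lit 251) (nat_lit 0) (cs (lf (nat_lit 29) (nat_lit 184)) (rf (nat_lit 0)))))) q18547 (by decide +kernel)
def q18570 : Q := Q.p (nat_lit 0x2400001000004000010000000000000000000000000000000000000000000000) (nat_lit 0x20000380001a00000000000000000000000000000000000000000000000000000000000000) (nat_lit 4)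
theorem c18570 : QOK q18570 := cut [q5880] ⟨c5880, trivial⟩ (nd (nat_lit 271) (nat_lit 0) (cs (lf (nat_lit 40) (nat_lit 183)) (nd (nat_lit 251) (nat_lit 0) (cs (lf (nat_lit 29) (nat_lit 184)) (rf (nat_lit 0)))))) q18570 (by decide +kernel)
def q18583 : Q := Q.p (nat_lit 0x1800014000000000000000000000000000000000000000000000000000) (nat_lit 0x2600028000000000000000000000000000000000000000000000000000) (nat_lit 3)
theorem c18583 : QOK q18583 := cut [q3858] ⟨c3858, trivial⟩ (nd (nat_lit 207) (nat_lit 0) (cs (lf (nat_lit 6) (nat_lit 205)) (rf (nat_lit 0)))) q18583 (by decide +kernel)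
def q18590 : Q := Q.p (nat_lit 0x1000004000010000020000000000000000000000000000000000000000) (nat_lit 0x8000020000080000000000c0000380000800000000000000000000000000000) (nat_lit 5)
theorem c18590 : QOK q18590 := cut [q18589] ⟨c18589, trivial⟩ (nd (nat_lit 162) (nat_lit 0) (cs (lf (nat_lit 47) (nat_lit 139)) (rf (nat_lit 0)))) q18590 (by decide +kernel)
def q18596 : Q := Q.p (nat_lit 0x40000100000c000010000000000000000000000000000000000000000000000) (nat_lit 0x200000e0000380000200002000000000000000000000000000000000000000000000000000000000) (nat_lit 5)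
theorem c18596 : QOK q18596 := cut [q18594] ⟨c18594, trivial⟩ (nd (nat_lit 271) (nat_lit 0) (cs (lf (nat_lit 40) (nat_lit 183)) (nd (nat_lit 272) (nat_lit 0) (cs (lf (nat_lit 41) (nat_lit 205)) (rf (nat_lit 0)))))) q18596 (by decide +kernel)
def q18617 : Q := Q.p (nat_lit 0x800001000004000010000000000000000000000000000000000000000000000) (nat_lit 0x80000200000000002000008000000000040000000000000000000000000000000000000000) (nat_lit 3)
theorem c18617 : QOK q18617 := cut [q18616] ⟨c18616, trivial⟩ (nd (nat_lit 229) (nat_lit 0) (cs (lf (nat_lit 24) (nat_lit 162)) (rf (nat_lit 0)))) q18617 (by decide +kernel)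
def q18625 : Q := Q.p (nat_lit 0x1000004000010000040000000000000000000000000000000000000000) (nat_lit 0x200000800002000000000020000180000200000000000000000000000000000) (nat_lit 4)
theorem c18625 : QOK q18625 := cut [q8561] ⟨c8561, trivial⟩ (nd (nat_lit 139) (nat_lit 0) (cs (lf (nat_lit 46) (nat_lit 139)) (nd (nat_lit 140) (nat_lit 0) (cs (lf (nat_lit 47) (nat_lit 117)) (rf (nat_lit 0)))))) q18625 (by decide +kernel)
def q18627 : Q := Q.p (nat_lit 0x2000001800014000010000040000000000000000000000000000000000000000) (nat_lit 0x1800006000020000000000000000000000000000000000000000000000000000) (nat_lit 3)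
theorem c18627 : QOK q18627 := cut [q18626] ⟨c18626, trivial⟩ (nd (nat_lit 229) (nat_lit 0) (cs (lf (nat_lit 29) (nat_lit 162)) (rf (nat_lit 0)))) q18627 (by decide +kernel)
def q18632 : Q := Q.p (nat_lit 0x2400001000014000050000000000000000000000000000000000000000000000) (nat_lit 0x1a00001800004800000000000000000000000000000000000000000000000000000000) (nat_lit 4)
theorem c18632 : QOK q18632 := cut [q18602] ⟨c18602, trivial⟩ (nd (nat_lit 251) (nat_lit 0) (cs (lf (nat_lit 29) (nat_lit 184)) (rf (nat_lit 0)))) q18632 (by decide +kernel)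
def q18669 : Q := Q.p (nat_lit 0xc00003c0000000000000000000000000000000000) (nat_lit 0x38001c00007000000000000000000000000000000) (nat_lit 5)
theorem c18669 : QOK q18669 := cut [q18667] ⟨c18667, trivial⟩ (nd (nat_lit 160) (nat_lit 0) (cs (lf (nat_lit 11) (nat_lit 137)) (nd (nat_lit 142) (nat_lit 0) (cs (lf (nat_lit 10) (nat_lit 138)) (rf (nat_lit 0)))))) q18669 (by decide +kernel)
def q18688 : Q := Q.p (nat_lit 0x10000078000000000000000000000000000000000000000) (nat_lit 0x8000004000038000000000000000000000000000000000) (nat_lit 3)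
theorem c18688 : QOK q18688 := cut [q11410] ⟨c11410, trivial⟩ (nd (nat_lit 158) (nat_lit 0) (cs (rf (nat_lit 0)) (lf (nat_lit 4) (nat_lit 158)))) q18688 (by decide +kernel)
def q18713 : Q := Q.p (nat_lit 0x100000c0000200000000000000000000000000000000000000000) (nat_lit 0x1000004000020000000000000000800002000000000000000000000000000000) (nat_lit 3)
theorem c18713 : QOK q18713 := cut [q9058] ⟨c9058, trivial⟩ (nd (nat_lit 143) (nat_lit 0) (cs (lf (nat_lit 36) (nat_lit 120)) (rf (nat_lit 0)))) q18713 (by decide +kernel)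
def q18722 : Q := Q.p (nat_lit 0x100000f0000000000000000000000000000000000000000000000) (nat_lit 0xe8000300001c00000000000000000000000000000000000000000) (nat_lit 5)
theorem c18722 : QOK q18722 := cut [q4969] ⟨c4969, trivial⟩ (nd (nat_lit 210) (nat_lit 0) (cs (lf (nat_lit 4) (nat_lit 184)) (nd (nat_lit 188) (nat_lit 0) (cs (lf (nat_lit 5) (nat_lit 185)) (nd (nat_lit 189) (nat_lit 0) (cs (lf (nat_lit 11) (nat_lit 185)) (rf (nat_lit 0)))))))) q18722 (by decide +kernel)
def q18740 : Q := Q.p (nat_lit 0x1000006000018000040000000000000000000000000000000000000000000000) (nat_lit 0x100000400000000000000020000080000200000000000000000000000000000000000000000) (nat_lit 3)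
theorem c18740 : QOK q18740 := cut [q18739] ⟨c18739, trivial⟩ (nd (nat_lit 274) (nat_lit 0) (cs (lf (nat_lit 42) (nat_lit 207)) (rf (nat_lit 0)))) q18740 (by decide +kernel)
def q18756 : Q := Q.p (nat_lit 0x180000f0000000000000000000000000000000000000000000000) (nat_lit 0x300000e00000000000000000000000000000000000000000) (nat_lit 3)
theorem c18756 : QOK q18756 := cut [q8023] ⟨c8023, trivial⟩ (nd (nat_lit 188) (nat_lit 0) (cs (lf (nat_lit 6) (nat_lit 185)) (rf (nat_lit 0)))) q18756 (by decide +kernel)
def q18783 : Q := Q.p (nat_lit 0x800000000018000050000000000000000000000000000000000000000000000) (nat_lit 0x200000000003000004000020000040000100000000000000000000000000000000000) (nat_lit 4)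
theorem c18783 : QOK q18783 := cut [q12189] ⟨c12189, trivial⟩ (nd (nat_lit 229) (nat_lit 0) (cs (lf (nat_lit 30) (nat_lit 185)) (rf (nat_lit 0)))) q18783 (by decide +kernel)
def q18785 : Q := Q.p (nat_lit 0x1800000000018000050000000000000000000000000000000000000000000000) (nat_lit 0x600000000002000000000020000040000000000000000000000000000000000000000) (nat_lit 3)
theorem c18785 : QOK q18785 := cut [q18784] ⟨c18784, trivial⟩ (nd (nat_lit 229) (nat_lit 0) (cs (lf (nat_lit 30) (nat_lit 185)) (rf (nat_lit 0)))) q18785 (by decide +kernel)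
def q18800 : Q := Q.p (nat_lit 0x1c0000f0000000000000000000000000000000000000000000000) (nat_lit 0x10000040000000000000006e0000b00002c00000000000000000000000000000) (nat_lit 7)
theorem c18800 : QOK q18800 := cut [q5964] ⟨c5964, trivial⟩ (nd (nat_lit 165) (nat_lit 0) (cs (lf (nat_lit 17) (nat_lit 162)) (nd (nat_lit 121) (nat_lit 0) (cs (lf (nat_lit 37) (nat_lit 120)) (nd (nat_lit 230) (nat_lit 0) (cs (lf (nat_lit 30) (nat_lit 164)) (nd (nat_lit 141) (nat_lit 0) (cs (lf (nat_lit 25) (nat_lit 141)) (nd (nat_lit 162) (nat_lit 0) (cs (lf (nat_lit 23) (nat_lit 161)) (rf (nat_lit 0)))))))))))) q18800 (by decide +kernel)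
def q18827 : Q := Q.p (nat_lit 0x78000000000000000000000000000000000000000000000000000) (nat_lit 0x70000080000700000000000000000000000000000000000000000000000) (nat_lit 4)
theorem c18827 : QOK q18827 := cut [q15641] ⟨c15641, trivial⟩ (nd (nat_lit 189) (nat_lit 0) (cs (lf (nat_lit 16) (nat_lit 185)) (nd (nat_lit 233) (nat_lit 0) (cs (lf (nat_lit 4) (nat_lit 207)) (rf (nat_lit 0)))))) q18827 (by decide +kernel)
def q18847 : Q := Q.p (nat_lit 0x300000000001c000060000000000000000000000000000000000000000000000) (nat_lit 0x800000000004000000000180000200000000000000000000000000000000000000000) (nat_lit 3)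
theorem c18847 : QOK q18847 := cut [q18846] ⟨c18846, trivial⟩ (nd (nat_lit 230) (nat_lit 0) (cs (lf (nat_lit 29) (nat_lit 186)) (rf (nat_lit 0)))) q18847 (by decide +kernel)
def q18858 : Q := Q.p (nat_lit 0x1c000050000000000000000000000000000000000000000000000) (nat_lit 0x1c000630000a0000000000000000000000000000000000000000000000) (nat_lit 5)
theorem c18858 : QOK q18858 := cut [q1075] ⟨c1075, trivial⟩ (nd (nat_lit 205) (nat_lit 0) (cs (lf (nat_lit 17) (nat_lit 183)) (nd (nat_lit 185) (nat_lit 0) (cs (lf (nat_lit 12) (nat_lit 182)) (nd (nat_lit 209) (nat_lit 0) (cs (lf (nat_lit 18) (nat_lit 184)) (rf (nat_lit 0)))))))) q18858 (by decide +kernel)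
def q18865 : Q := Q.p (nat_lit 0x80000100000c000010000000000000000000000000000000000000000000000) (nat_lit 0x2000000000020000060000380000e00002000000000000000000000000) (nat_lit 6)
theorem c18865 : QOK q18865 := cut [q18104] ⟨c18104, trivial⟩ (nd (nat_lit 162) (nat_lit 0) (cs (lf (nat_lit 28) (nat_lit 162)) (nd (nat_lit 139) (nat_lit 0) (cs (lf (nat_lit 46) (nat_lit 139)) (nd (nat_lit 140) (nat_lit 0) (cs (lf (nat_lit 47) (nat_lit 117)) (rf (nat_lit 0)))))))) q18865 (by decide +kernel)
def q18873 : Q := Q.p (nat_lit 0x2000018000060000080000000000000000000000000000000000000000) (nat_lit 0x600001800004000000000000000000000000000000000000000000000000000000000) (nat_lit 3)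
theorem c18873 : QOK q18873 := cut [q18772] ⟨c18772, trivial⟩ (nd (nat_lit 251) (nat_lit 0) (cs (lf (nat_lit 30) (nat_lit 185)) (rf (nat_lit 0)))) q18873 (by decide +kernel)
def q18880 : Q := Q.p (nat_lit 0xc000050000040000000000000000000000000000000000000000) (nat_lit 0x2800003000020000000000100000400000000000000000000000000000) (nat_lit 4)
theorem c18880 : QOK q18880 := cut [q18879] ⟨c18879, trivial⟩ (nd (nat_lit 140) (nat_lit 0) (cs (lf (nat_lit 29) (nat_lit 140)) (rf (nat_lit 0)))) q18880 (by decide +kernel)
def q18907 : Q := Q.p (nat_lit 0xf0000000000000000000000000000000000000000000000) (nat_lit 0xe00001000000e0000000000000000000000000000000000000000) (nat_lit 4)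
theorem c18907 : QOK q18907 := cut [q4891] ⟨c4891, trivial⟩ (nd (nat_lit 210) (nat_lit 0) (cs (lf (nat_lit 4) (nat_lit 184)) (nd (nat_lit 188) (nat_lit 0) (cs (lf (nat_lit 5) (nat_lit 185)) (rf (nat_lit 0)))))) q18907 (by decide +kernel)
def q18911 : Q := Q.p (nat_lit 0x10000070000000000000000000000000000000000000000000000) (nat_lit 0xe0000088000000000000000000000000000000000000000000000) (nat_lit 3)
theorem c18911 : QOK q18911 := cut [q18910] ⟨c18910, trivial⟩ (nd (nat_lit 209) (nat_lit 0) (cs (lf (nat_lit 0) (nat_lit 183)) (rf (nat_lit 0)))) q18911 (by decide +kernel)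
def q18914 : Q := Q.p (nat_lit 0xf0000040000000000000000000000000000000000000000) (nat_lit 0x100000e80000000000000000000000000000000000000000) (nat_lit 3)
theorem c18914 : QOK q18914 := cut [q18913] ⟨c18913, trivial⟩ (nd (nat_lit 166) (nat_lit 0) (cs (lf (nat_lit 16) (nat_lit 162)) (rf (nat_lit 0)))) q18914 (by decide +kernel)
def q18920 : Q := Q.p (nat_lit 0x2000070000000000000000000000000000000000000000000000) (nat_lit 0x5800088000000000000000000000000000000000000000000000) (nat_lit 3)
theorem c18920 : QOK q18920 := cut [q18919] ⟨c18919, trivial⟩ (nd (nat_lit 206) (nat_lit 0) (cs (lf (nat_lit 6) (nat_lit 183)) (rf (nat_lit 0)))) q18920 (by decide +kernel)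
def q18924 : Q := Q.p (nat_lit 0x800002000018000000000000000000000000000000000000000000000) (nat_lit 0x200000000004000000000040000100000400000000000000000000000000000) (nat_lit 3)
theorem c18924 : QOK q18924 := cut [q18923] ⟨c18923, trivial⟩ (nd (nat_lit 162) (nat_lit 0) (cs (lf (nat_lit 30) (nat_lit 161)) (rf (nat_lit 0)))) q18924 (by decide +kernel)
def q18960 : Q := Q.p (nat_lit 0xc00006000018000000000100000000000000000000000000000000000) (nat_lit 0x100000000000000000000020000080000600000000000000000000000000000) (nat_lit 3)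
theorem c18960 : QOK q18960 := cut [q3892] ⟨c3892, trivial⟩ (nd (nat_lit 161) (nat_lit 0) (cs (lf (nat_lit 41) (nat_lit 160)) (rf (nat_lit 0)))) q18960 (by decide +kernel)
def q18967 : Q := Q.p (nat_lit 0x800006000018000000000000000000000000000000000000000000000) (nat_lit 0x1800006000010000000000000000300000c0000300000000000000000000000000000) (nat_lit 6)
theorem c18967 : QOK q18967 := cut [q3431] ⟨c3431, trivial⟩ (nd (nat_lit 249) (nat_lit 0) (cs (lf (nat_lit 30) (nat_lit 183)) (nd (nat_lit 250) (nat_lit 0) (cs (lf (nat_lit 29) (nat_lit 183)) (nd (nat_lit 161) (nat_lit 0) (cs (lf (nat_lit 43) (nat_lit 161)) (nd (nat_lit 139) (nat_lit 0) (cs (lf (nat_lit 24) (nat_lit 117)) (rf (nat_lit 0)))))))))) q18967 (by decide +kernel)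
def q18978 : Q := Q.p (nat_lit 0x600001c000000000000000000000000000000000000000000000) (nat_lit 0x8000000000030000c0000100000400000000000000000000000000000) (nat_lit 4)
theorem c18978 : QOK q18978 := cut [q18976] ⟨c18976, trivial⟩ (nd (nat_lit 181) (nat_lit 0) (cs (lf (nat_lit 0) (nat_lit 180)) (nd (nat_lit 162) (nat_lit 0) (cs (lf (nat_lit 17) (nat_lit 159)) (rf (nat_lit 0)))))) q18978 (by decide +kernel)
def q18988 : Q := Q.p (nat_lit 0x18000020000080000000000000000000000000000000000) (nat_lit 0x4000000000040000000000600001800004000000000000000000) (nat_lit 4)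
theorem c18988 : QOK q18988 := cut [q18986] ⟨c18986, trivial⟩ (nd (nat_lit 117) (nat_lit 0) (cs (rf (nat_lit 0)) (lf (nat_lit 29) (nat_lit 117)))) q18988 (by decide +kernel)
def q19002 : Q := Q.p (nat_lit 0x18000020000080000200000000000000000000000000000) (nat_lit 0x40000000000100000c00001000000000000000000) (nat_lit 3)
theorem c19002 : QOK q19002 := cut [q19001] ⟨c19001, trivial⟩ (nd (nat_lit 95) (nat_lit 0) (cs (lf (nat_lit 28) (nat_lit 95)) (rf (nat_lit 0)))) q19002 (by decide +kernel)
def q19014 : Q := Q.p (nat_lit 0x70000040000000000000000000000000000000000000000) (nat_lit 0x88000038000000000000000000000000000000000000000) (nat_lit 3)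
theorem c19014 : QOK q19014 := cut [q19013] ⟨c19013, trivial⟩ (nd (nat_lit 161) (nat_lit 0) (cs (lf (nat_lit 18) (nat_lit 161)) (rf (nat_lit 0)))) q19014 (by decide +kernel)
def q19045 : Q := Q.p (nat_lit 0x30000040000100000000000000000000000000000000000) (nat_lit 0x8000000000080000000000c00003000008000000000000000000) (nat_lit 4)
theorem c19045 : QOK q19045 := cut [q17783] ⟨c17783, trivial⟩ (nd (nat_lit 118) (nat_lit 0) (cs (lf (nat_lit 29) (nat_lit 118)) (rf (nat_lit 0)))) q19045 (by decide +kernel)
def q19047 : Q := Q.p (nat_lit 0x4000070000040000100000000000000000000000000000000000) (nat_lit 0x10000000000000000b8000080000200000000000000000000000000000) (nat_lit 4)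
theorem c19047 : QOK q19047 := cut [q3733] ⟨c3733, trivial⟩ (nd (nat_lit 139) (nat_lit 0) (cs (lf (nat_lit 47) (nat_lit 117)) (nd (nat_lit 161) (nat_lit 0) (cs (rf (nat_lit 0)) (lf (nat_lit 42) (nat_lit 139)))))) q19047 (by decide +kernel)
def q19066 : Q := Q.p (nat_lit 0x10000040000100000400000000000000000000000000000) (nat_lit 0xa0000380000a000000000000000000) (nat_lit 4)
theorem c19066 : QOK q19066 := cut [q5868] ⟨c5868, trivial⟩ (nd (nat_lit 97) (nat_lit 0) (cs (lf (nat_lit 34) (nat_lit 96)) (nd (nat_lit 96) (nat_lit 0) (cs (lf (nat_lit 35) (nat_lit 74)) (rf (nat_lit 0)))))) q19066 (by decide +kernel)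
def q19068 : Q := Q.p (nat_lit 0x10000070000040000100000400000000000000000000000000000) (nat_lit 0x4000000000080000200000800002000000000000000000000000) (nat_lit 3)
theorem c19068 : QOK q19068 := cut [q5865] ⟨c5865, trivial⟩ (nd (nat_lit 119) (nat_lit 0) (cs (lf (nat_lit 35) (nat_lit 96)) (rf (nat_lit 0)))) q19068 (by decide +kernel)
def q19155 : Q := Q.p (nat_lit 0xf0000000000000000000000000000000000000000000000) (nat_lit 0x7000008000070000000000000000000000000000000000000000) (nat_lit 4)
theorem c19155 : QOK q19155 := cut [q19153] ⟨c19153, trivial⟩ (nd (nat_lit 205) (nat_lit 0) (cs (lf (nat_lit 10) (nat_lit 183)) (nd (nat_lit 183) (nat_lit 0) (cs (lf (nat_lit 11) (nat_lit 182)) (rf (nat_lit 0)))))) q19155 (by decide +kernel)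
def q19166 : Q := Q.p (nat_lit 0x100003e0000000000000000000000000000000000000000000000) (nat_lit 0x60000418000000000000000000000000000000000000000000000) (nat_lit 3)
theorem c19166 : QOK q19166 := cut [q11] ⟨c11, trivial⟩ (nd (nat_lit 209) (nat_lit 0) (cs (rf (nat_lit 0)) (lf (nat_lit 6) (nat_lit 186)))) q19166 (by decide +kernel)
def q19171 : Q := Q.p (nat_lit 0x100001c0000800000000000000000000000000000000000000000) (nat_lit 0x3a0000600001000000000000000000000000000000000000000000) (nat_lit 4)
theorem c19171 : QOK q19171 := cut [q8028] ⟨c8028, trivial⟩ (nd (nat_lit 189) (nat_lit 0) (cs (lf (nat_lit 17) (nat_lit 164)) (rf (nat_lit 0)))) q19171 (by decide +kernel)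
def q19184 : Q := Q.p (nat_lit 0x10000040000100000000002000000000000000000000000000000) (nat_lit 0xe0000180000a000000000000000000000000) (nat_lit 4)
theorem c19184 : QOK q19184 := cut [q18161] ⟨c18161, trivial⟩ (nd (nat_lit 142) (nat_lit 0) (cs (lf (nat_lit 34) (nat_lit 120)) (nd (nat_lit 119) (nat_lit 0) (cs (lf (nat_lit 46) (nat_lit 119)) (rf (nat_lit 0)))))) q19184 (by decide +kernel)
def q19219 : Q := Q.p (nat_lit 0x7800000000000000000000000000000) (nat_lit 0x40003b800000000000000000000000) (nat_lit 4)
theorem c19219 : QOK q19219 := cut [q19216] ⟨c19216, trivial⟩ (nd (nat_lit 100) (nat_lit 0) (cs (lf (nat_lit 17) (nat_lit 97)) (nd (nat_lit 118) (nat_lit 0) (cs (rf (nat_lit 0)) (lf (nat_lit 16) (nat_lit 96)))))) q19219 (by decide +kernel)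
def q19272 : Q := Q.p (nat_lit 0xe0000080000000000000000000000000000000000000000) (nat_lit 0x110000070000000000000000000000000000000000000000) (nat_lit 3)
theorem c19272 : QOK q19272 := cut [q3937] ⟨c3937, trivial⟩ (nd (nat_lit 162) (nat_lit 0) (cs (lf (nat_lit 18) (nat_lit 162)) (rf (nat_lit 0)))) q19272 (by decide +kernel)
def q19276 : Q := Q.p (nat_lit 0x100001e0000400000800000000000000000000000000000000000) (nat_lit 0xc0000000000200001000002000000000000000000000000000000) (nat_lit 3)
theorem c19276 : QOK q19276 := cut [q19275] ⟨c19275, trivial⟩ (nd (nat_lit 121) (nat_lit 0) (cs (lf (nat_lit 38) (nat_lit 120)) (rf (nat_lit 0)))) q19276 (by decide +kernel)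
def q19279 : Q := Q.p (nat_lit 0x100001e0000400000800000000000000000000000000000000000) (nat_lit 0x10000140000e0000000000200000000000000000000000000000000000000000) (nat_lit 4)
theorem c19279 : QOK q19279 := cut [q9058] ⟨c9058, trivial⟩ (nd (nat_lit 210) (nat_lit 0) (cs (lf (nat_lit 5) (nat_lit 185)) (nd (nat_lit 165) (nat_lit 0) (cs (lf (nat_lit 42) (nat_lit 143)) (rf (nat_lit 0)))))) q19279 (by decide +kernel)
def q19281 : Q := Q.p (nat_lit 0x40000180000400001000000000000000000000000000000000000) (nat_lit 0x2000000000000000200000c000020000000000000000000000000) (nat_lit 3)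
theorem c19281 : QOK q19281 := cut [q4637] ⟨c4637, trivial⟩ (nd (nat_lit 122) (nat_lit 0) (cs (lf (nat_lit 41) (nat_lit 121)) (rf (nat_lit 0)))) q19281 (by decide +kernel)
def q19290 : Q := Q.p (nat_lit 0x400001e0000000000000000000000000000000000000000000000) (nat_lit 0x20000010000e00000000000000000000000000000000000000000) (nat_lit 3)
theorem c19290 : QOK q19290 := cut [q8023] ⟨c8023, trivial⟩ (nd (nat_lit 184) (nat_lit 0) (cs (lf (nat_lit 4) (nat_lit 184)) (rf (nat_lit 0)))) q19290 (by decide +kernel)
def q19294 : Q := Q.p (nat_lit 0x800003c0000000001000000000000000000000000000000000000) (nat_lit 0x20000000000000001c00000000004000000000000000000000000000000) (nat_lit 3)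
theorem c19294 : QOK q19294 := cut [q19293] ⟨c19293, trivial⟩ (nd (nat_lit 167) (nat_lit 0) (cs (lf (nat_lit 17) (nat_lit 164)) (rf (nat_lit 0)))) q19294 (by decide +kernel)
def q19297 : Q := Q.p (nat_lit 0x800003c0000000001000000000000000000000000000000000000) (nat_lit 0x1000004000000000180000200000c000000000000000000000000000000) (nat_lit 4)
theorem c19297 : QOK q19297 := cut [q19295] ⟨c19295, trivial⟩ (nd (nat_lit 167) (nat_lit 0) (cs (lf (nat_lit 17) (nat_lit 164)) (nd (nat_lit 145) (nat_lit 0) (cs (lf (nat_lit 47) (nat_lit 122)) (rf (nat_lit 0)))))) q19297 (by decide +kernel)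
def q19299 : Q := Q.p (nat_lit 0x20000090000300000800000000000000000000000000000000000000000) (nat_lit 0x10000050000060000000000000002000008000000000000000000000000000000) (nat_lit 4)
theorem c19299 : QOK q19299 := cut [q379] ⟨c379, trivial⟩ (nd (nat_lit 234) (nat_lit 0) (cs (lf (nat_lit 29) (nat_lit 167)) (nd (nat_lit 210) (nat_lit 0) (cs (rf (nat_lit 0)) (lf (nat_lit 1) (nat_lit 208)))))) q19299 (by decide +kernel)
def q19312 : Q := Q.p (nat_lit 0x100001e0000000001800002000000000000000000000000000000) (nat_lit 0xc0006600001c00000000000000000000000000000) (nat_lit 5)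
theorem c19312 : QOK q19312 := cut [q19310] ⟨c19310, trivial⟩ (nd (nat_lit 163) (nat_lit 0) (cs (lf (nat_lit 23) (nat_lit 162)) (nd (nat_lit 119) (nat_lit 0) (cs (lf (nat_lit 25) (nat_lit 119)) (rf (nat_lit 0)))))) q19312 (by decide +kernel)
def q19320 : Q := Q.p (nat_lit 0x180000400001800000000000000000000000000000000000) (nat_lit 0x2000000000000000260003c000020000000000000000000000000) (nat_lit 5)
theorem c19320 : QOK q19320 := cut [q19317] ⟨c19317, trivial⟩ (nd (nat_lit 122) (nat_lit 0) (cs (lf (nat_lit 41) (nat_lit 121)) (nd (nat_lit 123) (nat_lit 0) (cs (lf (nat_lit 35) (nat_lit 100)) (nd (nat_lit 124) (nat_lit 0) (cs (lf (nat_lit 6) (nat_lit 121)) (rf (nat_lit 0)))))))) q19320 (by decide +kernel)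
def q19329 : Q := Q.p (nat_lit 0x100001e0000000000000000000000000000000000000000000000) (nat_lit 0x600000180000e0000000000000000000000000000000000000000) (nat_lit 4)
theorem c19329 : QOK q19329 := cut [q9201] ⟨c9201, trivial⟩ (nd (nat_lit 162) (nat_lit 0) (cs (lf (nat_lit 22) (nat_lit 162)) (nd (nat_lit 184) (nat_lit 0) (cs (lf (nat_lit 23) (nat_lit 161)) (rf (nat_lit 0)))))) q19329 (by decide +kernel)
def q19333 : Q := Q.p (nat_lit 0x1800002800000000000000000000000000000000000) (nat_lit 0x6000005400000000000000000000000000000000000) (nat_lit 3)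
theorem c19333 : QOK q19333 := cut [q19331] ⟨c19331, trivial⟩ (nd (nat_lit 144) (nat_lit 0) (cs (rf (nat_lit 0)) (lf (nat_lit 0) (nat_lit 142)))) q19333 (by decide +kernel)
def q19339 : Q := Q.p (nat_lit 0x200000800002a00008000000000000000000000000000000) (nat_lit 0x1500007000010000000000000000000000000) (nat_lit 4)
theorem c19339 : QOK q19339 := cut [q19338] ⟨c19338, trivial⟩ (nd (nat_lit 122) (nat_lit 0) (cs (lf (nat_lit 47) (nat_lit 100)) (rf (nat_lit 0)))) q19339 (by decide +kernel)
def q19353 : Q := Q.p (nat_lit 0x200000800002800008000000000000000000000000000000) (nat_lit 0x5400070000040000000000000000000000000) (nat_lit 4)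
theorem c19353 : QOK q19353 := cut [q19351] ⟨c19351, trivial⟩ (nd (nat_lit 124) (nat_lit 0) (cs (lf (nat_lit 35) (nat_lit 101)) (nd (nat_lit 144) (nat_lit 0) (cs (lf (nat_lit 12) (nat_lit 120)) (rf (nat_lit 0)))))) q19353 (by decide +kernel)
def q19403 : Q := Q.p (nat_lit 0x2800018000000000000000000000000000000) (nat_lit 0x1400064000000000000000000000000000000) (nat_lit 3)
theorem c19403 : QOK q19403 := cut [q19402] ⟨c19402, trivial⟩ (nd (nat_lit 144) (nat_lit 0) (cs (lf (nat_lit 12) (nat_lit 120)) (rf (nat_lit 0)))) q19403 (by decide +kernel)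
def q19426 : Q := Q.p (nat_lit 0x3800008000000000000000000000000000000) (nat_lit 0x4400070000000000000000000000000000000) (nat_lit 3)
theorem c19426 : QOK q19426 := cut [q19351] ⟨c19351, trivial⟩ (nd (nat_lit 124) (nat_lit 0) (cs (lf (nat_lit 12) (nat_lit 120)) (rf (nat_lit 0)))) q19426 (by decide +kernel)
def q19436 : Q := Q.p (nat_lit 0x200000800002000008000000000000000000000000000000) (nat_lit 0x14000070000140000000000000000000) (nat_lit 4)
theorem c19436 : QOK q19436 := cut [q19433] ⟨c19433, trivial⟩ (nd (nat_lit 102) (nat_lit 0) (cs (lf (nat_lit 34) (nat_lit 101)) (nd (nat_lit 101) (nat_lit 0) (cs (rf (nat_lit 0)) (lf (nat_lit 35) (nat_lit 79)))))) q19436 (by decide +kernel)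
def q19492 : Q := Q.p (nat_lit 0x100000f0000000000000000000000000000000000000000000000) (nat_lit 0x27000008000000000000000000000000000000000000000000000) (nat_lit 3)
theorem c19492 : QOK q19492 := cut [q19491] ⟨c19491, trivial⟩ (nd (nat_lit 183) (nat_lit 0) (cs (lf (nat_lit 5) (nat_lit 183)) (rf (nat_lit 0)))) q19492 (by decide +kernel)
def q19498 : Q := Q.p (nat_lit 0x1c0000800000000000000000000000000000000000000000) (nat_lit 0x220003400000000000000000000000000000000000000000) (nat_lit 3)
theorem c19498 : QOK q19498 := cut [q19497] ⟨c19497, trivial⟩ (nd (nat_lit 166) (nat_lit 0) (cs (lf (nat_lit 12) (nat_lit 163)) (rf (nat_lit 0)))) q19498 (by decide +kernel)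
def q19504 : Q := Q.p (nat_lit 0x1c0000400000000000000000000000000000000000000000) (nat_lit 0x220003800000000000000000000000000000000000000000) (nat_lit 3)
theorem c19504 : QOK q19504 := cut [q19497] ⟨c19497, trivial⟩ (nd (nat_lit 167) (nat_lit 0) (cs (lf (nat_lit 12) (nat_lit 163)) (rf (nat_lit 0)))) q19504 (by decide +kernel)
def q19513 : Q := Q.p (nat_lit 0x40000900001c0000000000800000000000000000000000000000000000) (nat_lit 0x120000600000200000000000000000000000000000000000000000) (nat_lit 3)
theorem c19513 : QOK q19513 := cut [q8544] ⟨c8544, trivial⟩ (nd (nat_lit 209) (nat_lit 0) (cs (lf (nat_lit 37) (nat_lit 142)) (rf (nat_lit 0)))) q19513 (by decide +kernel)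
def q19523 : Q := Q.p (nat_lit 0x100001e0000000001800000000000000000000000000000000000) (nat_lit 0xc00000000004c0006600003c00000000000000000000000000000) (nat_lit 6)
theorem c19523 : QOK q19523 := cut [q19519, q19310] ⟨c19519, c19310, trivial⟩ (nd (nat_lit 119) (nat_lit 0) (cs (rf (nat_lit 0)) (nd (nat_lit 210) (nat_lit 0) (cs (lf (nat_lit 5) (nat_lit 185)) (nd (nat_lit 121) (nat_lit 0) (cs (rf (nat_lit 1)) (lf (nat_lit 44) (nat_lit 121)))))))) q19523 (by decide +kernel)
def q19526 : Q := Q.p (nat_lit 0x100000400001800004000000000000000000000000000000) (nat_lit 0x2600038000020000000000000000000000000) (nat_lit 4)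
theorem c19526 : QOK q19526 := cut [q19524] ⟨c19524, trivial⟩ (nd (nat_lit 123) (nat_lit 0) (cs (lf (nat_lit 35) (nat_lit 100)) (nd (nat_lit 142) (nat_lit 0) (cs (lf (nat_lit 12) (nat_lit 119)) (rf (nat_lit 0)))))) q19526 (by decide +kernel)
def q19542 : Q := Q.p (nat_lit 0x1e00004000000000000000000000000000000) (nat_lit 0x100002e00000000000000000000000000000) (nat_lit 3)
theorem c19542 : QOK q19542 := cut [q8180] ⟨c8180, trivial⟩ (nd (nat_lit 140) (nat_lit 0) (cs (lf (nat_lit 16) (nat_lit 118)) (rf (nat_lit 0)))) q19542 (by decide +kernel)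
def q19548 : Q := Q.p (nat_lit 0x3800008000000000000000000000000000000) (nat_lit 0x400074000000000000000000000000000000) (nat_lit 3)
theorem c19548 : QOK q19548 := cut [q19402] ⟨c19402, trivial⟩ (nd (nat_lit 124) (nat_lit 0) (cs (lf (nat_lit 12) (nat_lit 120)) (rf (nat_lit 0)))) q19548 (by decide +kernel)
def q19596 : Q := Q.p (nat_lit 0x1800001800000000000000000000000000000) (nat_lit 0x4e000270000e000000000000000000000000) (nat_lit 6)
theorem c19596 : QOK q19596 := cut [q19593] ⟨c19593, trivial⟩ (nd (nat_lit 118) (nat_lit 0) (cs (lf (nat_lit 3) (nat_lit 118)) (nd (nat_lit 117) (nat_lit 0) (cs (rf (nat_lit 0)) (lf (nat_lit 4) (nat_lit 117)))))) q19596 (by decide +kernel)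
def q19641 : Q := Q.p (nat_lit 0x40000100000c00000000000000000000000000000000000000000000000000000000000000) (nat_lit 0x800006000018000000000200000000002000000000000000000000000000000000000000000000000000000000) (nat_lit 4)
theorem c19641 : QOK q19641 := cut [q18276] ⟨c18276, trivial⟩ (nd (nat_lit 316) (nat_lit 0) (cs (lf (nat_lit 35) (nat_lit 228)) (rf (nat_lit 0)))) q19641 (by decide +kernel)
def q19650 : Q := Q.p (nat_lit 0x40000100000c00000000000000000000000000000000000000000000000000000000000000) (nat_lit 0x200000c000030000000000200000000002000000000000000000000000000000000000000000000000000000000) (nat_lit 4)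
theorem c19650 : QOK q19650 := cut [q18258] ⟨c18258, trivial⟩ (nd (nat_lit 316) (nat_lit 0) (cs (lf (nat_lit 35) (nat_lit 228)) (rf (nat_lit 0)))) q19650 (by decide +kernel)
def q19658 : Q := Q.p (nat_lit 0x40000100003c00000000000000000000000000000000000000000000000000000000000000) (nat_lit 0x80000380000a0000000000000003800000000000000000000000000000000000000000000000000000000) (nat_lit 5)
theorem c19658 : QOK q19658 := cut [q17571] ⟨c17571, trivial⟩ (nd (nat_lit 228) (nat_lit 0) (cs (lf (nat_lit 23) (nat_lit 227)) (nd (nat_lit 293) (nat_lit 0) (cs (lf (nat_lit 41) (nat_lit 227)) (rf (nat_lit 0)))))) q19658 (by decide +kernel)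
def q19668 : Q := Q.p (nat_lit 0x3600000000000000000000000000000000000000000000000000000000000000) (nat_lit 0x1dc0000800000000000000000000000000000000000000000000000000000000000000) (nat_lit 3)
theorem c19668 : QOK q19668 := cut [q3762, q6730] ⟨c3762, c6730, trivial⟩ (nd (nat_lit 251) (nat_lit 0) (cs (rf (nat_lit 0)) (rf (nat_lit 1)))) q19668 (by decide +kernel)
def q19697 : Q := Q.p (nat_lit 0x4000000000000001f0000000000000000000000000000000000000000000000) (nat_lit 0x10000060000000000c0000000000000000000000000000000000000000) (nat_lit 3)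
theorem c19697 : QOK q19697 := cut [q19696] ⟨c19696, trivial⟩ (nd (nat_lit 163) (nat_lit 0) (cs (lf (nat_lit 23) (nat_lit 162)) (rf (nat_lit 0)))) q19697 (by decide +kernel)
def q19717 : Q := Q.p (nat_lit 0x3c0000800000000000000000000000000000000000000000) (nat_lit 0x100001c0000020000000002000008000000000000000000000000000000) (nat_lit 4)
theorem c19717 : QOK q19717 := cut [q379] ⟨c379, trivial⟩ (nd (nat_lit 211) (nat_lit 0) (cs (lf (nat_lit 5) (nat_lit 186)) (nd (nat_lit 210) (nat_lit 0) (cs (rf (nat_lit 0)) (lf (nat_lit 0) (nat_lit 185)))))) q19717 (by decide +kernel)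
def q19719 : Q := Q.p (nat_lit 0x1c0000800000000000000000000000000000000000000000) (nat_lit 0x20003600000000000000000000000000000000000000000) (nat_lit 3)
theorem c19719 : QOK q19719 := cut [q2645] ⟨c2645, trivial⟩ (nd (nat_lit 166) (nat_lit 0) (cs (rf (nat_lit 0)) (lf (nat_lit 12) (nat_lit 163)))) q19719 (by decide +kernel)
def q19725 : Q := Q.p (nat_lit 0xf0000000000000000000000000000000000000000000000) (nat_lit 0xe0000100000e00000000000000000000000000000000000000000) (nat_lit 4)
theorem c19725 : QOK q19725 := cut [q8023] ⟨c8023, trivial⟩ (nd (nat_lit 210) (nat_lit 0) (cs (lf (nat_lit 4) (nat_lit 184)) (nd (nat_lit 188) (nat_lit 0) (cs (lf (nat_lit 5) (nat_lit 185)) (rf (nat_lit 0)))))) q19725 (by decide +kernel)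
def q19728 : Q := Q.p (nat_lit 0xf0000000000000000000000000000000000000000000000) (nat_lit 0x7000008000700000000000000000000000000000000000000000) (nat_lit 4)
theorem c19728 : QOK q19728 := cut [q19491] ⟨c19491, trivial⟩ (nd (nat_lit 165) (nat_lit 0) (cs (lf (nat_lit 17) (nat_lit 162)) (nd (nat_lit 183) (nat_lit 0) (cs (lf (nat_lit 16) (nat_lit 161)) (rf (nat_lit 0)))))) q19728 (by decide +kernel)
def q19732 : Q := Q.p (nat_lit 0x40000100000c0000100000000000000000000000000000000000000000) (nat_lit 0x20000000000080000e00003800008000000000000000000000000) (nat_lit 5)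
theorem c19732 : QOK q19732 := cut [q18390] ⟨c18390, trivial⟩ (nd (nat_lit 141) (nat_lit 0) (cs (lf (nat_lit 46) (nat_lit 141)) (nd (nat_lit 142) (nat_lit 0) (cs (lf (nat_lit 47) (nat_lit 119)) (rf (nat_lit 0)))))) q19732 (by decide +kernel)
def q19736 : Q := Q.p (nat_lit 0xc0000100000400000000000000000000000000000000000) (nat_lit 0x2000000000020000000000300000c000020000000000000000000) (nat_lit 4)
theorem c19736 : QOK q19736 := cut [q19735] ⟨c19735, trivial⟩ (nd (nat_lit 120) (nat_lit 0) (cs (lf (nat_lit 29) (nat_lit 120)) (rf (nat_lit 0)))) q19736 (by decide +kernel)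
def q19754 : Q := Q.p (nat_lit 0xc00003c0000000000000000000000000000000000000000) (nat_lit 0x38001c00007000000000000000000000000000000000000) (nat_lit 5)
theorem c19754 : QOK q19754 := cut [q8255] ⟨c8255, trivial⟩ (nd (nat_lit 184) (nat_lit 0) (cs (lf (nat_lit 11) (nat_lit 161)) (nd (nat_lit 166) (nat_lit 0) (cs (lf (nat_lit 10) (nat_lit 162)) (rf (nat_lit 0)))))) q19754 (by decide +kernel)
def q19762 : Q := Q.p (nat_lit 0x40000100000c0000300000000000000000000000000000000000000000) (nat_lit 0x20000000000080000600001800004000000000000000000000000) (nat_lit 4)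
theorem c19762 : QOK q19762 := cut [q19760] ⟨c19760, trivial⟩ (nd (nat_lit 141) (nat_lit 0) (cs (lf (nat_lit 46) (nat_lit 141)) (nd (nat_lit 142) (nat_lit 0) (cs (lf (nat_lit 47) (nat_lit 119)) (rf (nat_lit 0)))))) q19762 (by decide +kernel)
def q19775 : Q := Q.p (nat_lit 0x1e0000400001000000000000000000000000000000000000) (nat_lit 0xe0000000000000000800006000008000000000000000000000000) (nat_lit 4)
theorem c19775 : QOK q19775 := cut [q19774] ⟨c19774, trivial⟩ (nd (nat_lit 210) (nat_lit 0) (cs (lf (nat_lit 5) (nat_lit 185)) (rf (nat_lit 0)))) q19775 (by decide +kernel)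
def q19788 : Q := Q.p (nat_lit 0x900001c0000000000000000000000000000000000000000000000) (nat_lit 0x120000e00007700000000000000000000000000000000000000000) (nat_lit 6)
theorem c19788 : QOK q19788 := cut [q19786] ⟨c19786, trivial⟩ (nd (nat_lit 189) (nat_lit 0) (cs (lf (nat_lit 5) (nat_lit 186)) (nd (nat_lit 190) (nat_lit 0) (cs (lf (nat_lit 10) (nat_lit 186)) (rf (nat_lit 0)))))) q19788 (by decide +kernel)
def q19799 : Q := Q.p (nat_lit 0x100000f0000000000000000000000000000000000000000000000) (nat_lit 0x10000660000000007e0001e00007800000000000000000000000000000) (nat_lit 10)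
theorem c19799 : QOK q19799 := cut [q2158] ⟨c2158, trivial⟩ (nd (nat_lit 165) (nat_lit 0) (cs (lf (nat_lit 17) (nat_lit 162)) (nd (nat_lit 143) (nat_lit 0) (cs (lf (nat_lit 36) (nat_lit 120)) (nd (nat_lit 162) (nat_lit 0) (cs (lf (nat_lit 23) (nat_lit 161)) (nd (nat_lit 209) (nat_lit 0) (cs (lf (nat_lit 5) (nat_lit 184)) (nd (nat_lit 120) (nat_lit 0) (cs (lf (nat_lit 46) (nat_lit 120)) (nd (nat_lit 206) (nat_lit 0) (cs (lf (nat_lit 11) (nat_lit 183)) (nd (nat_lit 144) (nat_lit 0) (cs (lf (nat_lit 35) (nat_lit 121)) (nd (nat_lit 163) (nat_lit 0) (cs (rf (nat_lit 0)) (lf (nat_lit 14) (nat_lit 140)))))))))))))))))) q19799 (by decide +kernel)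
def q19812 : Q := Q.p (nat_lit 0x40000100002c0000e00000000000000000000000000000000000000000) (nat_lit 0x800002000020000400000100006600001000004000000000000000000000000) (nat_lit 6)
theorem c19812 : QOK q19812 := cut [q19760] ⟨c19760, trivial⟩ (nd (nat_lit 164) (nat_lit 0) (cs (lf (nat_lit 5) (nat_lit 164)) (nd (nat_lit 145) (nat_lit 0) (cs (lf (nat_lit 17) (nat_lit 142)) (nd (nat_lit 229) (nat_lit 0) (cs (lf (nat_lit 41) (nat_lit 163)) (nd (nat_lit 142) (nat_lit 0) (cs (lf (nat_lit 23) (nat_lit 141)) (rf (nat_lit 0)))))))))) q19812 (by decide +kernel)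
def q19820 : Q := Q.p (nat_lit 0x800002c0000800000000000000000000000000000000000000000) (nat_lit 0x50000160000100000000002000000000000000000000000000000000000) (nat_lit 4)
theorem c19820 : QOK q19820 := cut [q19817] ⟨c19817, trivial⟩ (nd (nat_lit 212) (nat_lit 0) (cs (nd (nat_lit 145) (nat_lit 0) (cs (lf (nat_lit 29) (nat_lit 145)) (rf (nat_lit 0)))) (lf (nat_lit 2) (nat_lit 186)))) q19820 (by decide +kernel)
def q19842 : Q := Q.p (nat_lit 0x200000800002000008000000000000000000000000000000) (nat_lit 0x100000400001000000000004000030000040000000000000000000) (nat_lit 4)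
theorem c19842 : QOK q19842 := cut [q19433] ⟨c19433, trivial⟩ (nd (nat_lit 190) (nat_lit 0) (cs (lf (nat_lit 29) (nat_lit 123)) (nd (nat_lit 101) (nat_lit 0) (cs (rf (nat_lit 0)) (lf (nat_lit 28) (nat_lit 101)))))) q19842 (by decide +kernel)
def q19857 : Q := Q.p (nat_lit 0x800002c0000800000000000000000000000000000000000000000) (nat_lit 0x40000100000500000000006000018000040000000000000000000000000) (nat_lit 5)
theorem c19857 : QOK q19857 := cut [q19854] ⟨c19854, trivial⟩ (nd (nat_lit 212) (nat_lit 0) (cs (lf (nat_lit 2) (nat_lit 186)) (nd (nat_lit 145) (nat_lit 0) (cs (lf (nat_lit 29) (nat_lit 145)) (nd (nat_lit 124) (nat_lit 0) (cs (lf (nat_lit 34) (nat_lit 123)) (rf (nat_lit 0)))))))) q19857 (by decide +kernel)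
def q19861 : Q := Q.p (nat_lit 0x800002c0000800002000000000000000000000000000000000000) (nat_lit 0x50000160000000000000000000000000000000000000000000000000000) (nat_lit 3)
theorem c19861 : QOK q19861 := cut [q19817] ⟨c19817, trivial⟩ (nd (nat_lit 212) (nat_lit 0) (cs (lf (nat_lit 29) (nat_lit 145)) (rf (nat_lit 0)))) q19861 (by decide +kernel)
def q19938 : Q := Q.p (nat_lit 0xc0000c00000000000000000000000000000000000000000) (nat_lit 0x320003000000000000000000000000000000000000000000) (nat_lit 3)
theorem c19938 : QOK q19938 := cut [q19497] ⟨c19497, trivial⟩ (nd (nat_lit 188) (nat_lit 0) (cs (lf (nat_lit 12) (nat_lit 163)) (rf (nat_lit 0)))) q19938 (by decide +kernel)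
def q19956 : Q := Q.p (nat_lit 0x180000780000000000000000000000000000000000000000) (nat_lit 0x20000000000000003000004000010000000000000000000000000) (nat_lit 3)
theorem c19956 : QOK q19956 := cut [q3036] ⟨c3036, trivial⟩ (nd (nat_lit 144) (nat_lit 0) (cs (lf (nat_lit 17) (nat_lit 141)) (rf (nat_lit 0)))) q19956 (by decide +kernel)
def q19977 : Q := Q.p (nat_lit 0x80000200001800000000000000000000000000000000000) (nat_lit 0x20000000000400000000004000010000040000000000000000000) (nat_lit 3)
theorem c19977 : QOK q19977 := cut [q19976] ⟨c19976, trivial⟩ (nd (nat_lit 122) (nat_lit 0) (cs (lf (nat_lit 30) (nat_lit 121)) (rf (nat_lit 0)))) q19977 (by decide +kernel)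
def q19986 : Q := Q.p (nat_lit 0x10000060000180000400000000000000000000000000000000000) (nat_lit 0x80000300000c000000000000000000000000) (nat_lit 3)
theorem c19986 : QOK q19986 := cut [q615] ⟨c615, trivial⟩ (nd (nat_lit 120) (nat_lit 0) (cs (rf (nat_lit 0)) (lf (nat_lit 36) (nat_lit 97)))) q19986 (by decide +kernel)
def q19991 : Q := Q.p (nat_lit 0x78000100000000000000000000000000000000000000000) (nat_lit 0x40000b8000000000000000000000000000000000000000) (nat_lit 3)
theorem c19991 : QOK q19991 := cut [q4769] ⟨c4769, trivial⟩ (nd (nat_lit 182) (nat_lit 0) (cs (rf (nat_lit 0)) (lf (nat_lit 16) (nat_lit 160)))) q19991 (by decide +kernel)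
def q20002 : Q := Q.p (nat_lit 0x1c0000100000000000000000000000000000000000000000) (nat_lit 0x2200000e0000000000000000000000000000000000000000) (nat_lit 3)
theorem c20002 : QOK q20002 := cut [q1812] ⟨c1812, trivial⟩ (nd (nat_lit 163) (nat_lit 0) (cs (rf (nat_lit 0)) (lf (nat_lit 18) (nat_lit 163)))) q20002 (by decide +kernel)
def q20024 : Q := Q.p (nat_lit 0x100001e0000100000000000000000000000000000000000000000) (nat_lit 0x10000040000c0000000000ec0001c00002000000000000000000000000000000) (nat_lit 7)
theorem c20024 : QOK q20024 := cut [q20020] ⟨c20020, trivial⟩ (nd (nat_lit 166) (nat_lit 0) (cs (lf (nat_lit 17) (nat_lit 163)) (nd (nat_lit 163) (nat_lit 0) (cs (lf (nat_lit 23) (nat_lit 162)) (nd (nat_lit 210) (nat_lit 0) (cs (lf (nat_lit 5) (nat_lit 185)) (nd (nat_lit 230) (nat_lit 0) (cs (lf (nat_lit 42) (nat_lit 163)) (rf (nat_lit 0)))))))))) q20024 (by decide +kernel)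
def q20048 : Q := Q.p (nat_lit 0x100001e0000600000000000000000000000000000000000000000) (nat_lit 0x100000c0000000000000000800002000000000000000000000000000000) (nat_lit 3)
theorem c20048 : QOK q20048 := cut [q20047] ⟨c20047, trivial⟩ (nd (nat_lit 143) (nat_lit 0) (cs (lf (nat_lit 36) (nat_lit 120)) (rf (nat_lit 0)))) q20048 (by decide +kernel)
def q20054 : Q := Q.p (nat_lit 0xc0000180000000000000000000000000000000000000000) (nat_lit 0x320000060000000000000000000000000000000000000000) (nat_lit 3)
theorem c20054 : QOK q20054 := cut [q1812] ⟨c1812, trivial⟩ (nd (nat_lit 188) (nat_lit 0) (cs (rf (nat_lit 0)) (lf (nat_lit 18) (nat_lit 163)))) q20054 (by decide +kernel)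
def q20056 : Q := Q.p (nat_lit 0x10000040000180000000000000000000000000000000000000000) (nat_lit 0x4000000000000000000000600000800002000000000000000000000000) (nat_lit 3)
theorem c20056 : QOK q20056 := cut [q20055] ⟨c20055, trivial⟩ (nd (nat_lit 141) (nat_lit 0) (cs (lf (nat_lit 42) (nat_lit 141)) (rf (nat_lit 0)))) q20056 (by decide +kernel)
def q20060 : Q := Q.p (nat_lit 0xc0000100000400001000000000000000000000000000000) (nat_lit 0x20000000000200000c000020000000000000000000) (nat_lit 3)
theorem c20060 : QOK q20060 := cut [q20059] ⟨c20059, trivial⟩ (nd (nat_lit 98) (nat_lit 0) (cs (lf (nat_lit 28) (nat_lit 98)) (rf (nat_lit 0)))) q20060 (by decide +kernel)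
def q20070 : Q := Q.p (nat_lit 0x100000c0000180000400000000000000000000000000000000000) (nat_lit 0x2000020000080000300000c000000000000000000000000) (nat_lit 4)
theorem c20070 : QOK q20070 := cut [q20068] ⟨c20068, trivial⟩ (nd (nat_lit 121) (nat_lit 0) (cs (lf (nat_lit 34) (nat_lit 120)) (nd (nat_lit 120) (nat_lit 0) (cs (lf (nat_lit 35) (nat_lit 98)) (rf (nat_lit 0)))))) q20070 (by decide +kernel)
def q20076 : Q := Q.p (nat_lit 0x10000040000180000600000000000000000000000000000000000) (nat_lit 0xe000039c0002700000000000000000000000000000) (nat_lit 7)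
theorem c20076 : QOK q20076 := cut [q5711] ⟨c5711, trivial⟩ (nd (nat_lit 143) (nat_lit 0) (cs (lf (nat_lit 35) (nat_lit 120)) (nd (nat_lit 144) (nat_lit 0) (cs (lf (nat_lit 6) (nat_lit 141)) (nd (nat_lit 166) (nat_lit 0) (cs (lf (nat_lit 5) (nat_lit 141)) (nd (nat_lit 140) (nat_lit 0) (cs (lf (nat_lit 19) (nat_lit 140)) (nd (nat_lit 139) (nat_lit 0) (cs (lf (nat_lit 0) (nat_lit 138)) (rf (nat_lit 0)))))))))))) q20076 (by decide +kernel)
def q20080 : Q := Q.p (nat_lit 0x100000c0000180000400000000000000000000000000000000000) (nat_lit 0x20000200000200001800006000000000000000000000000) (nat_lit 4)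
theorem c20080 : QOK q20080 := cut [q20068] ⟨c20068, trivial⟩ (nd (nat_lit 119) (nat_lit 0) (cs (lf (nat_lit 46) (nat_lit 119)) (nd (nat_lit 120) (nat_lit 0) (cs (lf (nat_lit 47) (nat_lit 97)) (rf (nat_lit 0)))))) q20080 (by decide +kernel)
def q20091 : Q := Q.p (nat_lit 0xf00004000000000000000000000000000000000000) (nat_lit 0xe00001000008000000000000000000000000000000000000) (nat_lit 3)
theorem c20091 : QOK q20091 := cut [q20090] ⟨c20090, trivial⟩ (nd (nat_lit 190) (nat_lit 0) (cs (lf (nat_lit 4) (nat_lit 164)) (rf (nat_lit 0)))) q20091 (by decide +kernel)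
def q20131 : Q := Q.p (nat_lit 0x10000040000100000400000000000000000000000000000000000) (nat_lit 0x2000008000020000000000800003000008000000000000000000000000) (nat_lit 4)
theorem c20131 : QOK q20131 := cut [q20129] ⟨c20129, trivial⟩ (nd (nat_lit 121) (nat_lit 0) (cs (lf (nat_lit 34) (nat_lit 120)) (nd (nat_lit 120) (nat_lit 0) (cs (lf (nat_lit 35) (nat_lit 98)) (rf (nat_lit 0)))))) q20131 (by decide +kernel)
def q20137 : Q := Q.p (nat_lit 0x10000040000100000400000000000000000000000000000000000) (nat_lit 0x800002000008000080000380000e000008000000000000000000) (nat_lit 6)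
theorem c20137 : QOK q20137 := cut [q20133] ⟨c20133, trivial⟩ (nd (nat_lit 121) (nat_lit 0) (cs (lf (nat_lit 34) (nat_lit 120)) (nd (nat_lit 120) (nat_lit 0) (cs (lf (nat_lit 35) (nat_lit 98)) (nd (nat_lit 97) (nat_lit 0) (cs (lf (nat_lit 46) (nat_lit 97)) (nd (nat_lit 185) (nat_lit 0) (cs (lf (nat_lit 41) (nat_lit 119)) (rf (nat_lit 0)))))))))) q20137 (by decide +kernel)
def q20148 : Q := Q.p (nat_lit 0x1000004000010000040000000000000000000000000000000000000000000000) (nat_lit 0x80000600000800000000008000020000080000000000000000000000000000000000000000) (nat_lit 4)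
theorem c20148 : QOK q20148 := cut [q11035] ⟨c11035, trivial⟩ (nd (nat_lit 185) (nat_lit 0) (cs (lf (nat_lit 47) (nat_lit 163)) (nd (nat_lit 274) (nat_lit 0) (cs (lf (nat_lit 46) (nat_lit 185)) (rf (nat_lit 0)))))) q20148 (by decide +kernel)
def q20177 : Q := Q.p (nat_lit 0x40000180000400000800000000000000000000000000000) (nat_lit 0x2000000000000000300000e000020000000000000000000) (nat_lit 4)
theorem c20177 : QOK q20177 := cut [q20059] ⟨c20059, trivial⟩ (nd (nat_lit 120) (nat_lit 0) (cs (lf (nat_lit 47) (nat_lit 97)) (nd (nat_lit 98) (nat_lit 0) (cs (lf (nat_lit 41) (nat_lit 97)) (rf (nat_lit 0)))))) q20177 (by decide +kernel)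
def q20189 : Q := Q.p (nat_lit 0x40000100000400001000010000040000000000000000000000000000000000000000000000) (nat_lit 0x200000e0000a8000000000000000000000000000000000000000000000) (nat_lit 4)
theorem c20189 : QOK q20189 := cut [q20187] ⟨c20187, trivial⟩ (nd (nat_lit 207) (nat_lit 0) (cs (lf (nat_lit 34) (nat_lit 206)) (nd (nat_lit 206) (nat_lit 0) (cs (lf (nat_lit 35) (nat_lit 184)) (rf (nat_lit 0)))))) q20189 (by decide +kernel)
def q20203 : Q := Q.p (nat_lit 0x3c00006000000000000000000000000000000000000000000000000000000000) (nat_lit 0x1c0000300000000000000000000000000000000000000000000000000000000000000) (nat_lit 3)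
theorem c20203 : QOK q20203 := cut [q3762] ⟨c3762, trivial⟩ (nd (nat_lit 249) (nat_lit 0) (cs (lf (nat_lit 12) (nat_lit 226)) (rf (nat_lit 0)))) q20203 (by decide +kernel)
def q20232 : Q := Q.p (nat_lit 0x1800006000010000040000000000000000000000000000000000000000000000) (nat_lit 0x1000004000000000000000280000a0000200000000000000000000000000000000000000000) (nat_lit 4)
theorem c20232 : QOK q20232 := cut [q20230] ⟨c20230, trivial⟩ (nd (nat_lit 187) (nat_lit 0) (cs (lf (nat_lit 35) (nat_lit 164)) (nd (nat_lit 274) (nat_lit 0) (cs (lf (nat_lit 34) (nat_lit 186)) (rf (nat_lit 0)))))) q20232 (by decide +kernel)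
def q20250 : Q := Q.p (nat_lit 0x3c00003000000000000000000000000000000000000000000000000000000000) (nat_lit 0x40000180000000000000008000020000000000000000000000000000000000000000000000) (nat_lit 3)
theorem c20250 : QOK q20250 := cut [q20249] ⟨c20249, trivial⟩ (nd (nat_lit 272) (nat_lit 0) (cs (lf (nat_lit 11) (nat_lit 249)) (rf (nat_lit 0)))) q20250 (by decide +kernel)
def q20296 : Q := Q.p (nat_lit 0x1c000070000000000000000000000000000000000000000000000) (nat_lit 0x18c000700000000000000000000000000000000000000000) (nat_lit 4)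
theorem c20296 : QOK q20296 := cut [q20295] ⟨c20295, trivial⟩ (nd (nat_lit 187) (nat_lit 0) (cs (lf (nat_lit 6) (nat_lit 184)) (rf (nat_lit 0)))) q20296 (by decide +kernel)
def q20317 : Q := Q.p (nat_lit 0x100001c000160000000000000000000000000000000000000000000000) (nat_lit 0x8000e0000200000000000000000000000000000000000000000000000) (nat_lit 3)
theorem c20317 : QOK q20317 := cut [q1796] ⟨c1796, trivial⟩ (nd (nat_lit 209) (nat_lit 0) (cs (lf (nat_lit 11) (nat_lit 205)) (rf (nat_lit 0)))) q20317 (by decide +kernel)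
def q20332 : Q := Q.p (nat_lit 0x40000100000400001000000000000000000000000000000000000) (nat_lit 0x280000e000028000000000000000000000000) (nat_lit 4)
theorem c20332 : QOK q20332 := cut [q19180] ⟨c19180, trivial⟩ (nd (nat_lit 121) (nat_lit 0) (cs (lf (nat_lit 46) (nat_lit 121)) (rf (nat_lit 0)))) q20332 (by decide +kernel)
def q20343 : Q := Q.p (nat_lit 0x40000100000400001000000000000000000000000000000000000) (nat_lit 0x20000080000200000000000800006000008000000000000000000000000) (nat_lit 4)
theorem c20343 : QOK q20343 := cut [q4655] ⟨c4655, trivial⟩ (nd (nat_lit 211) (nat_lit 0) (cs (lf (nat_lit 29) (nat_lit 144)) (nd (nat_lit 122) (nat_lit 0) (cs (rf (nat_lit 0)) (lf (nat_lit 28) (nat_lit 122)))))) q20343 (by decide +kernel)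
def q20357 : Q := Q.p (nat_lit 0x40000100000400001000000000000000000000000000000000000) (nat_lit 0x8000030000080000000000800002000008000000000000000000000000000000) (nat_lit 4)
theorem c20357 : QOK q20357 := cut [q4475] ⟨c4475, trivial⟩ (nd (nat_lit 233) (nat_lit 0) (cs (lf (nat_lit 28) (nat_lit 144)) (nd (nat_lit 232) (nat_lit 0) (cs (rf (nat_lit 0)) (lf (nat_lit 29) (nat_lit 166)))))) q20357 (by decide +kernel)
def q20365 : Q := Q.p (nat_lit 0xf00002000000000000000000000000000000000000000000000000000000000) (nat_lit 0x80001700000000000000000000000000000000000000000000000000000000) (nat_lit 3)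
theorem c20365 : QOK q20365 := cut [q4119] ⟨c4119, trivial⟩ (nd (nat_lit 247) (nat_lit 0) (cs (rf (nat_lit 0)) (lf (nat_lit 16) (nat_lit 225)))) q20365 (by decide +kernel)
def q20381 : Q := Q.p (nat_lit 0x200000000001c000060000000000000000000000000000000000000000000000) (nat_lit 0x300001c00003c0002300000c000100000000000000000000000000000000000000000) (nat_lit 8)
theorem c20381 : QOK q20381 := cut [q6239] ⟨c6239, trivial⟩ (nd (nat_lit 205) (nat_lit 0) (cs (lf (nat_lit 12) (nat_lit 182)) (nd (nat_lit 182) (nat_lit 0) (cs (lf (nat_lit 22) (nat_lit 182)) (nd (nat_lit 227) (nat_lit 0) (cs (lf (nat_lit 11) (nat_lit 204)) (nd (nat_lit 228) (nat_lit 0) (cs (lf (nat_lit 6) (nat_lit 205)) (nd (nat_lit 250) (nat_lit 0) (cs (lf (nat_lit 30) (nat_lit 184)) (nd (nat_lit 251) (nat_lit 0) (cs (lf (nat_lit 19) (nat_lit 227)) (rf (nat_lit 0)))))))))))))) q20381 (by decide +kernel)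
def q20386 : Q := Q.p (nat_lit 0x1e000000000000000000000000000000000000000000000000000) (nat_lit 0x400001c0002000000c000020000080000000000000000000000000000000000) (nat_lit 5)
theorem c20386 : QOK q20386 := cut [q4939] ⟨c4939, trivial⟩ (nd (nat_lit 183) (nat_lit 0) (cs (lf (nat_lit 23) (nat_lit 182)) (nd (nat_lit 227) (nat_lit 0) (cs (lf (nat_lit 11) (nat_lit 204)) (nd (nat_lit 228) (nat_lit 0) (cs (lf (nat_lit 6) (nat_lit 205)) (rf (nat_lit 0)))))))) q20386 (by decide +kernel)
def q20393 : Q := Q.p (nat_lit 0x1c000060000000000e00000000000000000000000000000000000) (nat_lit 0x18000020000110001e000000000000000000000000000000) (nat_lit 5)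
theorem c20393 : QOK q20393 := cut [q20391] ⟨c20391, trivial⟩ (nd (nat_lit 187) (nat_lit 0) (cs (lf (nat_lit 6) (nat_lit 184)) (nd (nat_lit 121) (nat_lit 0) (cs (lf (nat_lit 38) (nat_lit 120)) (rf (nat_lit 0)))))) q20393 (by decide +kernel)
def q20449 : Q := Q.p (nat_lit 0x18000060000080000000000000000000000000000000000000000) (nat_lit 0x2000000000000000700000780001c00000000000000000000000000000) (nat_lit 6)
theorem c20449 : QOK q20449 := cut [q5824] ⟨c5824, trivial⟩ (nd (nat_lit 141) (nat_lit 0) (cs (lf (nat_lit 24) (nat_lit 119)) (rf (nat_lit 0)))) q20449 (by decide +kernel)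
def q20465 : Q := Q.p (nat_lit 0x40000100000c000070000000000000000000000000000000000000000000000) (nat_lit 0x200000800002000000000000000140000000000000000000000000000000000000000) (nat_lit 3)
theorem c20465 : QOK q20465 := cut [q20297] ⟨c20297, trivial⟩ (nd (nat_lit 251) (nat_lit 0) (cs (lf (nat_lit 29) (nat_lit 184)) (rf (nat_lit 0)))) q20465 (by decide +kernel)
def q20478 : Q := Q.p (nat_lit 0x1c000070000000000000000000000000000000000000000000000) (nat_lit 0x40000100000000000c000370000480001200000000000000000000000000000) (nat_lit 7)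
theorem c20478 : QOK q20478 := cut [q3563] ⟨c3563, trivial⟩ (nd (nat_lit 183) (nat_lit 0) (cs (lf (nat_lit 0) (nat_lit 182)) (nd (nat_lit 164) (nat_lit 0) (cs (lf (nat_lit 17) (nat_lit 161)) (nd (nat_lit 120) (nat_lit 0) (cs (lf (nat_lit 37) (nat_lit 119)) (rf (nat_lit 0)))))))) q20478 (by decide +kernel)
def q20536 : Q := Q.p (nat_lit 0x18000060000080000000000000000000000000000000000000000) (nat_lit 0x80000200001c0002700001c000040000300000c00000000000000000000000000000) (nat_lit 9)
theorem c20536 : QOK q20536 := cut [q20529] ⟨c20529, trivial⟩ (nd (nat_lit 141) (nat_lit 0) (cs (lf (nat_lit 24) (nat_lit 119)) (nd (nat_lit 118) (nat_lit 0) (cs (lf (nat_lit 46) (nat_lit 118)) (nd (nat_lit 206) (nat_lit 0) (cs (lf (nat_lit 41) (nat_lit 140)) (nd (nat_lit 205) (nat_lit 0) (cs (lf (nat_lit 12) (nat_lit 182)) (nd (nat_lit 183) (nat_lit 0) (cs (lf (nat_lit 23) (nat_lit 182)) (nd (nat_lit 227) (nat_lit 0) (cs (lf (nat_lit 11) (nat_lit 204)) (nd (nat_lit 184) (nat_lit 0) (cs (lf (nat_lit 18) (nat_lit 183)) (rf (nat_lit 0))))))))))))))))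 q20536 (by decide +kernel)
def q20564 : Q := Q.p (nat_lit 0x100001c0000000000000000000000000000000000000000000000) (nat_lit 0x3a8000600000000000000000000000000000000000000000000000) (nat_lit 4)
theorem c20564 : QOK q20564 := cut [q9045] ⟨c9045, trivial⟩ (nd (nat_lit 189) (nat_lit 0) (cs (lf (nat_lit 11) (nat_lit 185)) (rf (nat_lit 0)))) q20564 (by decide +kernel)
def q20609 : Q := Q.p (nat_lit 0x3c000030000000000000000000000000000000000000000000000) (nat_lit 0x100000400001800000000000000080000000000000000000000000000000000000000) (nat_lit 3)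
theorem c20609 : QOK q20609 := cut [q2301] ⟨c2301, trivial⟩ (nd (nat_lit 228) (nat_lit 0) (cs (lf (nat_lit 11) (nat_lit 205)) (rf (nat_lit 0)))) q20609 (by decide +kernel)
def q20667 : Q := Q.p (nat_lit 0x4000070000000000000000000000000000000000000000000000) (nat_lit 0x1ca000380001c60000000000000000000000000000000000000000) (nat_lit 7)
theorem c20667 : QOK q20667 := cut [q19161] ⟨c19161, trivial⟩ (nd (nat_lit 187) (nat_lit 0) (cs (lf (nat_lit 11) (nat_lit 183)) (nd (nat_lit 161) (nat_lit 0) (cs (lf (nat_lit 22) (nat_lit 161)) (nd (nat_lit 188) (nat_lit 0) (cs (lf (nat_lit 10) (nat_lit 184)) (rf (nat_lit 0)))))))) q20667 (by decide +kernel)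
def q20670 : Q := Q.p (nat_lit 0x78000000000000000000000000000000000000000000000) (nat_lit 0x7000080000070000000000000000000000000000000000000000) (nat_lit 4)
theorem c20670 : QOK q20670 := cut [q19153] ⟨c19153, trivial⟩ (nd (nat_lit 205) (nat_lit 0) (cs (lf (nat_lit 11) (nat_lit 182)) (nd (nat_lit 187) (nat_lit 0) (cs (lf (nat_lit 10) (nat_lit 183)) (rf (nat_lit 0)))))) q20670 (by decide +kernel)
def q20676 : Q := Q.p (nat_lit 0x180000f0000000000000000000000000000000000000000000000) (nat_lit 0x700000c000000000000000000000000000000000000000000000) (nat_lit 3)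
theorem c20676 : QOK q20676 := cut [q20675] ⟨c20675, trivial⟩ (nd (nat_lit 205) (nat_lit 0) (cs (lf (nat_lit 13) (nat_lit 183)) (rf (nat_lit 0)))) q20676 (by decide +kernel)
def q20690 : Q := Q.p (nat_lit 0x1e00006000000000000000000000000000000) (nat_lit 0x1c0000e000001000000000000000000000000000000) (nat_lit 4)
theorem c20690 : QOK q20690 := cut [q20689] ⟨c20689, trivial⟩ (nd (nat_lit 167) (nat_lit 0) (cs (lf (nat_lit 4) (nat_lit 141)) (rf (nat_lit 0)))) q20690 (by decide +kernel)
def q20723 : Q := Q.p (nat_lit 0x4000070000040000100000000000000000000000000000000000) (nat_lit 0x280000b000000000000000000000000000000000000000000000000000) (nat_lit 3)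
theorem c20723 : QOK q20723 := cut [q20722] ⟨c20722, trivial⟩ (nd (nat_lit 207) (nat_lit 0) (cs (lf (nat_lit 29) (nat_lit 140)) (rf (nat_lit 0)))) q20723 (by decide +kernel)
def q20762 : Q := Q.p (nat_lit 0x40000f0000000000000000000000000000000000000000000000) (nat_lit 0xe8000100000000000000000000000000000000000000000000000) (nat_lit 3)
theorem c20762 : QOK q20762 := cut [q20656] ⟨c20656, trivial⟩ (nd (nat_lit 188) (nat_lit 0) (cs (lf (nat_lit 10) (nat_lit 184)) (rf (nat_lit 0)))) q20762 (by decide +kernel)
def q20766 : Q := Q.p (nat_lit 0x3c0000000000000000000000000000000000000000000000) (nat_lit 0x400003b80000000000000000000000000000000000000000) (nat_lit 4)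
theorem c20766 : QOK q20766 := cut [q9054] ⟨c9054, trivial⟩ (nd (nat_lit 164) (nat_lit 0) (cs (lf (nat_lit 23) (nat_lit 163)) (nd (nat_lit 190) (nat_lit 0) (cs (rf (nat_lit 0)) (lf (nat_lit 22) (nat_lit 164)))))) q20766 (by decide +kernel)
def q20777 : Q := Q.p (nat_lit 0x40000780000000000000000000000000000000000000000) (nat_lit 0x20000800007000000000000000000000000000000000000) (nat_lit 3)
theorem c20777 : QOK q20777 := cut [q6413] ⟨c6413, trivial⟩ (nd (nat_lit 167) (nat_lit 0) (cs (lf (nat_lit 11) (nat_lit 163)) (rf (nat_lit 0)))) q20777 (by decide +kernel)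
def q20791 : Q := Q.p (nat_lit 0x40000100000c0000100000000000000000000000000000000000000000) (nat_lit 0x800002000028000000000000000c00003000008000000000000000000000000) (nat_lit 5)
theorem c20791 : QOK q20791 := cut [q18390] ⟨c18390, trivial⟩ (nd (nat_lit 229) (nat_lit 0) (cs (lf (nat_lit 41) (nat_lit 163)) (nd (nat_lit 142) (nat_lit 0) (cs (lf (nat_lit 40) (nat_lit 141)) (rf (nat_lit 0)))))) q20791 (by decide +kernel)
def q20796 : Q := Q.p (nat_lit 0xc0000700000000000000000000000000000000000000000) (nat_lit 0x6000010000188000700000c000030000000000000000000000000) (nat_lit 7)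
theorem c20796 : QOK q20796 := cut [q18428] ⟨c18428, trivial⟩ (nd (nat_lit 167) (nat_lit 0) (cs (lf (nat_lit 6) (nat_lit 164)) (nd (nat_lit 145) (nat_lit 0) (cs (lf (nat_lit 17) (nat_lit 142)) (nd (nat_lit 144) (nat_lit 0) (cs (lf (nat_lit 12) (nat_lit 141)) (nd (nat_lit 122) (nat_lit 0) (cs (lf (nat_lit 36) (nat_lit 99)) (nd (nat_lit 188) (nat_lit 0) (cs (lf (nat_lit 41) (nat_lit 121)) (rf (nat_lit 0)))))))))))) q20796 (by decide +kernel)
def q20853 : Q := Q.p (nat_lit 0x1e0000000000000000000000000000000000000000000000) (nat_lit 0xe0000100000e0000000000000000000000000000000000000000) (nat_lit 4)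
theorem c20853 : QOK q20853 := cut [q4891] ⟨c4891, trivial⟩ (nd (nat_lit 206) (nat_lit 0) (cs (lf (nat_lit 10) (nat_lit 184)) (nd (nat_lit 184) (nat_lit 0) (cs (lf (nat_lit 11) (nat_lit 183)) (rf (nat_lit 0)))))) q20853 (by decide +kernel)
def q20874 : Q := Q.p (nat_lit 0x1e0000400001000004000000000000000000000000000000) (nat_lit 0xc0000000000000002000008000020000000000000000000000000) (nat_lit 3)
theorem c20874 : QOK q20874 := cut [q4637] ⟨c4637, trivial⟩ (nd (nat_lit 210) (nat_lit 0) (cs (lf (nat_lit 5) (nat_lit 185)) (rf (nat_lit 0)))) q20874 (by decide +kernel)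
def q20910 : Q := Q.p (nat_lit 0x100001e0000100000000000000000000000000000000000000000) (nat_lit 0x200000c000000000000000400001000000000000000000000000000000) (nat_lit 3)
theorem c20910 : QOK q20910 := cut [q1916] ⟨c1916, trivial⟩ (nd (nat_lit 207) (nat_lit 0) (cs (lf (nat_lit 11) (nat_lit 184)) (rf (nat_lit 0)))) q20910 (by decide +kernel)
def q20915 : Q := Q.p (nat_lit 0x100003c0000000000000000000000000000000000000000000000) (nat_lit 0x4000000000400000380000800002000000000000000000000000000000) (nat_lit 4)
theorem c20915 : QOK q20915 := cut [q20025] ⟨c20025, trivial⟩ (nd (nat_lit 164) (nat_lit 0) (cs (lf (nat_lit 23) (nat_lit 163)) (nd (nat_lit 165) (nat_lit 0) (cs (lf (nat_lit 18) (nat_lit 164)) (rf (nat_lit 0)))))) q20915 (by decide +kernel)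
def q20919 : Q := Q.p (nat_lit 0x800003c0000000000000000000000000000000000000000000000) (nat_lit 0x400000200001c0000000000000000000000000000000000000000) (nat_lit 3)
theorem c20919 : QOK q20919 := cut [q7631] ⟨c7631, trivial⟩ (nd (nat_lit 185) (nat_lit 0) (cs (lf (nat_lit 4) (nat_lit 185)) (rf (nat_lit 0)))) q20919 (by decide +kernel)
def q20936 : Q := Q.p (nat_lit 0x300001c0000080000000000000000000000000000000000000000) (nat_lit 0x40000038000040000000000000000000000000000000000000000) (nat_lit 3)
theorem c20936 : QOK q20936 := cut [q11] ⟨c11, trivial⟩ (nd (nat_lit 185) (nat_lit 0) (cs (rf (nat_lit 0)) (lf (nat_lit 23) (nat_lit 162)))) q20936 (by decide +kernel)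
def q20944 : Q := Q.p (nat_lit 0x100001c0000000000000000000000000000000000000000000000) (nat_lit 0x28000600001b80000000000000000000000000000000000000000) (nat_lit 5)
theorem c20944 : QOK q20944 := cut [q20941] ⟨c20941, trivial⟩ (nd (nat_lit 189) (nat_lit 0) (cs (lf (nat_lit 11) (nat_lit 185)) (nd (nat_lit 167) (nat_lit 0) (cs (lf (nat_lit 17) (nat_lit 164)) (nd (nat_lit 190) (nat_lit 0) (cs (lf (nat_lit 10) (nat_lit 186)) (rf (nat_lit 0)))))))) q20944 (by decide +kernel)
def q20957 : Q := Q.p (nat_lit 0x100001c0000000000000000000000000000000000000000000000) (nat_lit 0x728000e200071c0000000000000000000000000000000000000000) (nat_lit 8)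
theorem c20957 : QOK q20957 := cut [q20954] ⟨c20954, trivial⟩ (nd (nat_lit 189) (nat_lit 0) (cs (lf (nat_lit 11) (nat_lit 185)) (nd (nat_lit 163) (nat_lit 0) (cs (lf (nat_lit 22) (nat_lit 163)) (nd (nat_lit 162) (nat_lit 0) (cs (lf (nat_lit 21) (nat_lit 162)) (rf (nat_lit 0)))))))) q20957 (by decide +kernel)
def q20979 : Q := Q.p (nat_lit 0x1e0000100000000000000000000000000000000000000000) (nat_lit 0x180006e0000000000000000000000000000000000000000) (nat_lit 4)
theorem c20979 : QOK q20979 := cut [q20977] ⟨c20977, trivial⟩ (nd (nat_lit 162) (nat_lit 0) (cs (lf (nat_lit 22) (nat_lit 162)) (nd (nat_lit 184) (nat_lit 0) (cs (lf (nat_lit 23) (nat_lit 161)) (rf (nat_lit 0)))))) q20979 (by decide +kernel)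
def q20982 : Q := Q.p (nat_lit 0x180000c0000100000000000000000000000000000000000000000) (nat_lit 0x2000020000020000000000400001000000000000000000000000000000) (nat_lit 3)
theorem c20982 : QOK q20982 := cut [q6895] ⟨c6895, trivial⟩ (nd (nat_lit 142) (nat_lit 0) (cs (lf (nat_lit 41) (nat_lit 141)) (rf (nat_lit 0)))) q20982 (by decide +kernel)
def q21004 : Q := Q.p (nat_lit 0x180000c0000100000000000000000000000000000000000000000) (nat_lit 0x2000020000000000000000c00003000008000000000000000000000000) (nat_lit 4)
theorem c21004 : QOK q21004 := cut [q18390] ⟨c18390, trivial⟩ (nd (nat_lit 142) (nat_lit 0) (cs (lf (nat_lit 41) (nat_lit 141)) (rf (nat_lit 0)))) q21004 (by decide +kernel)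
def q21027 : Q := Q.p (nat_lit 0x400003c0000000000000000000000000000000000000000) (nat_lit 0x30000c300001c0000000000000000000000000000000000) (nat_lit 5)
theorem c21027 : QOK q21027 := cut [q6174] ⟨c6174, trivial⟩ (nd (nat_lit 139) (nat_lit 0) (cs (lf (nat_lit 22) (nat_lit 139)) (nd (nat_lit 161) (nat_lit 0) (cs (lf (nat_lit 23) (nat_lit 138)) (nd (nat_lit 185) (nat_lit 0) (cs (lf (nat_lit 0) (nat_lit 160)) (rf (nat_lit 0)))))))) q21027 (by decide +kernel)
def q21041 : Q := Q.p (nat_lit 0x100001c0000200000000000000000000000000000000000000000) (nat_lit 0x80000200001c8000e00003c00005000014000000000000000000000000000000) (nat_lit 9)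
theorem c21041 : QOK q21041 := cut [q8008] ⟨c8008, trivial⟩ (nd (nat_lit 189) (nat_lit 0) (cs (lf (nat_lit 11) (nat_lit 185)) (nd (nat_lit 168) (nat_lit 0) (cs (lf (nat_lit 16) (nat_lit 164)) (nd (nat_lit 211) (nat_lit 0) (cs (lf (nat_lit 5) (nat_lit 186)) (nd (nat_lit 190) (nat_lit 0) (cs (lf (nat_lit 17) (nat_lit 165)) (nd (nat_lit 233) (nat_lit 0) (cs (nd (nat_lit 124) (nat_lit 0) (cs (lf (nat_lit 37) (nat_lit 123)) (nd (nat_lit 166) (nat_lit 0) (cs (rf (nat_lit 0)) (lf (nat_lit 18) (nat_lit 165)))))) (lf (nat_lit 30) (nat_lit 167)))))))))))) q21041 (by decide +kernel)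
def q21051 : Q := Q.p (nat_lit 0x100000e0000080000000000000000000000000000000000000000) (nat_lit 0xc000300000040000000000000000000000000000000000000000) (nat_lit 3)
theorem c21051 : QOK q21051 := cut [q21050] ⟨c21050, trivial⟩ (nd (nat_lit 188) (nat_lit 0) (cs (lf (nat_lit 23) (nat_lit 162)) (rf (nat_lit 0)))) q21051 (by decide +kernel)
def q21067 : Q := Q.p (nat_lit 0x7000010000000000000000000000000000000000000000000000000000) (nat_lit 0x380000c00023800000000000000000000000000000000000000000000000000) (nat_lit 5)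
theorem c21067 : QOK q21067 := cut [q21064] ⟨c21064, trivial⟩ (nd (nat_lit 227) (nat_lit 0) (cs (lf (nat_lit 17) (nat_lit 205)) (nd (nat_lit 248) (nat_lit 0) (cs (lf (nat_lit 10) (nat_lit 226)) (nd (nat_lit 226) (nat_lit 0) (cs (lf (nat_lit 11) (nat_lit 225)) (rf (nat_lit 0)))))))) q21067 (by decide +kernel)
def q21094 : Q := Q.p (nat_lit 0x4000010000040000780000000000000000000000000000000000000000) (nat_lit 0x8000020000000003b8000040000000000000000000000000000000000000000) (nat_lit 5)
theorem c21094 : QOK q21094 := cut [q6419] ⟨c6419, trivial⟩ (nd (nat_lit 229) (nat_lit 0) (cs (lf (nat_lit 41) (nat_lit 163)) (nd (nat_lit 184) (nat_lit 0) (cs (lf (nat_lit 10) (nat_lit 162)) (nd (nat_lit 162) (nat_lit 0) (cs (lf (nat_lit 11) (nat_lit 161)) (rf (nat_lit 0)))))))) q21094 (by decide +kernel)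
def q21133 : Q := Q.p (nat_lit 0x100003400001000004000000000000000000000000000000000000000000000000000) (nat_lit 0xa0000680000000000000000000000000000000000000000000000000000000000000000000) (nat_lit 3)
theorem c21133 : QOK q21133 := cut [q21132] ⟨c21132, trivial⟩ (nd (nat_lit 271) (nat_lit 0) (cs (lf (nat_lit 41) (nat_lit 205)) (rf (nat_lit 0)))) q21133 (by decide +kernel)
def q21142 : Q := Q.p (nat_lit 0x100000c0000f0000000000000000000000000000000000000000000000) (nat_lit 0xe0000300000c00000000000000000000000000000) (nat_lit 4)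
theorem c21142 : QOK q21142 := cut [q5964] ⟨c5964, trivial⟩ (nd (nat_lit 162) (nat_lit 0) (cs (lf (nat_lit 23) (nat_lit 161)) (nd (nat_lit 141) (nat_lit 0) (cs (lf (nat_lit 37) (nat_lit 140)) (rf (nat_lit 0)))))) q21142 (by decide +kernel)
def q21162 : Q := Q.p (nat_lit 0x3000008000040000180000000000000000000000000000000000000000) (nat_lit 0x4000000000000000a0000070000100000000000000000000000000000000000) (nat_lit 4)
theorem c21162 : QOK q21162 := cut [q3493] ⟨c3493, trivial⟩ (nd (nat_lit 185) (nat_lit 0) (cs (lf (nat_lit 41) (nat_lit 162)) (rf (nat_lit 0)))) q21162 (by decide +kernel)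
def q21241 : Q := Q.p (nat_lit 0xc0000780000000000000000000000000000000000000000) (nat_lit 0x1800007000000000000000000000000000000000000) (nat_lit 3)
theorem c21241 : QOK q21241 := cut [q6413] ⟨c6413, trivial⟩ (nd (nat_lit 167) (nat_lit 0) (cs (lf (nat_lit 6) (nat_lit 164)) (rf (nat_lit 0)))) q21241 (by decide +kernel)
def q21364 : Q := Q.p (nat_lit 0x10000040000300000000000000000000000000000000000000000) (nat_lit 0x4000000000000000000000c00002000008000000000000000000000000) (nat_lit 3)
theorem c21364 : QOK q21364 := cut [q21363] ⟨c21363, trivial⟩ (nd (nat_lit 143) (nat_lit 0) (cs (lf (nat_lit 30) (nat_lit 142)) (rf (nat_lit 0)))) q21364 (by decide +kernel)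
def q21365 : Q := Q.p (nat_lit 0xd0000300000000000000000000000000000000000000000) (nat_lit 0x80000620001c80007000004000010000000000000000000000000) (nat_lit 7)
theorem c21365 : QOK q21365 := cut [q8348] ⟨c8348, trivial⟩ (nd (nat_lit 166) (nat_lit 0) (cs (lf (nat_lit 13) (nat_lit 162)) (rf (nat_lit 0)))) q21365 (by decide +kernel)
def q21393 : Q := Q.p (nat_lit 0x1e0000080000000000000000000000000000000000000000) (nat_lit 0x200001d00000000000000000000000000000000000000000) (nat_lit 3)
theorem c21393 : QOK q21393 := cut [q4969] ⟨c4969, trivial⟩ (nd (nat_lit 189) (nat_lit 0) (cs (rf (nat_lit 0)) (lf (nat_lit 22) (nat_lit 163)))) q21393 (by decide +kernel)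
def q21435 : Q := Q.p (nat_lit 0x300000d0000100000000000000000000000000000000000) (nat_lit 0x50000040000080006e0000780001800000000000000000000000) (nat_lit 8)
theorem c21435 : QOK q21435 := cut [q21427] ⟨c21427, trivial⟩ (nd (nat_lit 118) (nat_lit 0) (cs (lf (nat_lit 24) (nat_lit 96)) (nd (nat_lit 117) (nat_lit 0) (cs (lf (nat_lit 47) (nat_lit 95)) (nd (nat_lit 139) (nat_lit 0) (cs (nd (nat_lit 138) (nat_lit 0) (cs (lf (nat_lit 0) (nat_lit 137)) (nd (nat_lit 182) (nat_lit 0) (cs (nd (nat_lit 141) (nat_lit 0) (cs (lf (nat_lit 11) (nat_lit 137)) (rf (nat_lit 0)))) (lf (nat_lit 30) (nat_lit 116)))))) (lf (nat_lit 42) (nat_lit 117)))))))) q21435 (by decide +kernel)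
def q21490 : Q := Q.p (nat_lit 0x1e0000000000000000000000000000000000000000000000) (nat_lit 0x1c0000200001c00000000000000000000000000000000000000000) (nat_lit 4)
theorem c21490 : QOK q21490 := cut [q9253] ⟨c9253, trivial⟩ (nd (nat_lit 167) (nat_lit 0) (cs (lf (nat_lit 16) (nat_lit 163)) (nd (nat_lit 189) (nat_lit 0) (cs (lf (nat_lit 17) (nat_lit 164)) (rf (nat_lit 0)))))) q21490 (by decide +kernel)
def q21536 : Q := Q.p (nat_lit 0x10000060000100000400000000000000000000000000000000000) (nat_lit 0x8000080000380000e000008000000000000000000) (nat_lit 5)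
theorem c21536 : QOK q21536 := cut [q11200] ⟨c11200, trivial⟩ (nd (nat_lit 121) (nat_lit 0) (cs (lf (nat_lit 34) (nat_lit 120)) (nd (nat_lit 120) (nat_lit 0) (cs (lf (nat_lit 35) (nat_lit 98)) (nd (nat_lit 98) (nat_lit 0) (cs (lf (nat_lit 40) (nat_lit 97)) (rf (nat_lit 0)))))))) q21536 (by decide +kernel)
def q21543 : Q := Q.p (nat_lit 0x4000010000060000100000000000000000000000000000000000000000) (nat_lit 0x800002000008000000000080000e0000300000c000000000000000000000000) (nat_lit 6)
theorem c21543 : QOK q21543 := cut [q21540] ⟨c21540, trivial⟩ (nd (nat_lit 229) (nat_lit 0) (cs (lf (nat_lit 41) (nat_lit 163)) (nd (nat_lit 142) (nat_lit 0) (cs (lf (nat_lit 40) (nat_lit 141)) (rf (nat_lit 0)))))) q21543 (by decide +kernel)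
def q21548 : Q := Q.p (nat_lit 0x1800014000000000000000000000000000000000000000000000000000) (nat_lit 0x60002a000000000000000000000000000000000000000000000000000) (nat_lit 3)
theorem c21548 : QOK q21548 := cut [q4163] ⟨c4163, trivial⟩ (nd (nat_lit 207) (nat_lit 0) (cs (lf (nat_lit 6) (nat_lit 205)) (rf (nat_lit 0)))) q21548 (by decide +kernel)
def q21566 : Q := Q.p (nat_lit 0x30000040000100000400000000000000000000000000000000000) (nat_lit 0x80000000000800003000008000000000000000000000000) (nat_lit 3)
theorem c21566 : QOK q21566 := cut [q615] ⟨c615, trivial⟩ (nd (nat_lit 120) (nat_lit 0) (cs (rf (nat_lit 0)) (lf (nat_lit 28) (nat_lit 120)))) q21566 (by decide +kernel)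
def q21610 : Q := Q.p (nat_lit 0x18000070000000000000000000000000000000000000000000000) (nat_lit 0x100000700008c000030000080000200000000000000000000000000000) (nat_lit 6)
theorem c21610 : QOK q21610 := cut [q21606] ⟨c21606, trivial⟩ (nd (nat_lit 183) (nat_lit 0) (cs (lf (nat_lit 0) (nat_lit 182)) (nd (nat_lit 161) (nat_lit 0) (cs (lf (nat_lit 23) (nat_lit 160)) (nd (nat_lit 205) (nat_lit 0) (cs (lf (nat_lit 11) (nat_lit 182)) (nd (nat_lit 206) (nat_lit 0) (cs (lf (nat_lit 6) (nat_lit 183)) (rf (nat_lit 0)))))))))) q21610 (by decide +kernel)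
def q21626 : Q := Q.p (nat_lit 0x18000078000000000000000000000000000000000000000000000) (nat_lit 0x4000380000070000000000000000000000000000000000000000) (nat_lit 4)
theorem c21626 : QOK q21626 := cut [q419] ⟨c419, trivial⟩ (nd (nat_lit 161) (nat_lit 0) (cs (lf (nat_lit 23) (nat_lit 160)) (nd (nat_lit 187) (nat_lit 0) (cs (rf (nat_lit 0)) (lf (nat_lit 22) (nat_lit 161)))))) q21626 (by decide +kernel)
def q21734 : Q := Q.p (nat_lit 0x10000040000300000400000000000000000000000000000000000) (nat_lit 0x20000080000000000200001800006000000000000000000000000) (nat_lit 4)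
theorem c21734 : QOK q21734 := cut [q21732] ⟨c21732, trivial⟩ (nd (nat_lit 119) (nat_lit 0) (cs (lf (nat_lit 46) (nat_lit 119)) (nd (nat_lit 120) (nat_lit 0) (cs (lf (nat_lit 47) (nat_lit 97)) (rf (nat_lit 0)))))) q21734 (by decide +kernel)
def q21751 : Q := Q.p (nat_lit 0x10000060000300000200000000000000000000000000000000000) (nat_lit 0x28000080000000000400001800004000000000000000000000000) (nat_lit 4)
theorem c21751 : QOK q21751 := cut [q21732] ⟨c21732, trivial⟩ (nd (nat_lit 142) (nat_lit 0) (cs (lf (nat_lit 47) (nat_lit 119)) (nd (nat_lit 120) (nat_lit 0) (cs (lf (nat_lit 41) (nat_lit 119)) (rf (nat_lit 0)))))) q21751 (by decide +kernel)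
def q21807 : Q := Q.p (nat_lit 0x800001e00000000000000000000000000000000000) (nat_lit 0x100000200001c000000000000000000000000000000) (nat_lit 3)
theorem c21807 : QOK q21807 := cut [q21806] ⟨c21806, trivial⟩ (nd (nat_lit 145) (nat_lit 0) (cs (lf (nat_lit 5) (nat_lit 142)) (rf (nat_lit 0)))) q21807 (by decide +kernel)
def q21908 : Q := Q.p (nat_lit 0x80000200000800003000000000000000000000000000000000000000000000000000000000000000) (nat_lit 0x4000030000040000000000400000000000000000000000000000000000000000000000000000000000000000000) (nat_lit 3)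
theorem c21908 : QOK q21908 := cut [q21907] ⟨c21907, trivial⟩ (nd (nat_lit 340) (nat_lit 0) (cs (lf (nat_lit 40) (nat_lit 252)) (rf (nat_lit 0)))) q21908 (by decide +kernel)
def q21912 : Q := Q.p (nat_lit 0x20000180000200000800000000000000000000000000000000000000000000000000000000000000000000) (nat_lit 0x300000c000010000000000400001000000000000000000000000000000000000000000000000000000000000000000000) (nat_lit 4)
theorem c21912 : QOK q21912 := cut [q21910] ⟨c21910, trivial⟩ (nd (nat_lit 362) (nat_lit 0) (cs (lf (nat_lit 40) (nat_lit 274)) (nd (nat_lit 363) (nat_lit 0) (cs (lf (nat_lit 41) (nat_lit 296)) (rf (nat_lit 0)))))) q21912 (by decide +kernel)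
def q21921 : Q := Q.p (nat_lit 0x3c0000000000000000000000000000000000000000000000000000000000000000000000000000000) (nat_lit 0x8000020000180000020001c00001000000000000000000000000000000000000000000000000000000000000000000000) (nat_lit 5)
theorem c21921 : QOK q21921 := cut [q14747] ⟨c14747, trivial⟩ (nd (nat_lit 343) (nat_lit 0) (cs (lf (nat_lit 5) (nat_lit 318)) (nd (nat_lit 299) (nat_lit 0) (cs (lf (nat_lit 17) (nat_lit 296)) (nd (nat_lit 298) (nat_lit 0) (cs (lf (nat_lit 12) (nat_lit 295)) (rf (nat_lit 0)))))))) q21921 (by decide +kernel)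
def q21929 : Q := Q.p (nat_lit 0x80000200000800002000000000000000000000000000000000000000000000000000000000000000) (nat_lit 0x14000070000140000000000000000000000000000000000000000000000000000000000000000000000000000000) (nat_lit 4)
theorem c21929 : QOK q21929 := cut [q2577] ⟨c2577, trivial⟩ (nd (nat_lit 342) (nat_lit 0) (cs (lf (nat_lit 28) (nat_lit 253)) (nd (nat_lit 340) (nat_lit 0) (cs (lf (nat_lit 40) (nat_lit 252)) (rf (nat_lit 0)))))) q21929 (by decide +kernel)
def q21944 : Q := Q.p (nat_lit 0x300000800002000008000000000000000000000000000000000000000000000000000000000) (nat_lit 0x400000000010000060000100000000000000000000000000000000000000000000000) (nat_lit 3)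
theorem c21944 : QOK q21944 := cut [q21943] ⟨c21943, trivial⟩ (nd (nat_lit 210) (nat_lit 0) (cs (lf (nat_lit 34) (nat_lit 209)) (rf (nat_lit 0)))) q21944 (by decide +kernel)
def q21953 : Q := Q.p (nat_lit 0x200000800002000008000000000000000000000000000000000000000000000000000000000) (nat_lit 0x140000500001400000000000000020000000000000000000000000000000000000000000000000000) (nat_lit 4)
theorem c21953 : QOK q21953 := cut [q11867] ⟨c11867, trivial⟩ (nd (nat_lit 296) (nat_lit 0) (cs (lf (nat_lit 41) (nat_lit 230)) (nd (nat_lit 209) (nat_lit 0) (cs (lf (nat_lit 40) (nat_lit 208)) (rf (nat_lit 0)))))) q21953 (by decide +kernel)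
def q21955 : Q := Q.p (nat_lit 0x80000300000800002000008000000000000000000000000000000000000000000000000000000000) (nat_lit 0x8000020000000000000000400001000000000020000000000000000000000000000000000000000000000000000) (nat_lit 3)
theorem c21955 : QOK q21955 := cut [q11816] ⟨c11816, trivial⟩ (nd (nat_lit 274) (nat_lit 0) (cs (lf (nat_lit 36) (nat_lit 208)) (rf (nat_lit 0)))) q21955 (by decide +kernel)
def q21971 : Q := Q.p (nat_lit 0xc0000200000800002000000000000000000000000000000000000000000000000000000000000000) (nat_lit 0x40000100000500000000000000008000000000000000000000000000000000000000000000000000000000) (nat_lit 3)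
theorem c21971 : QOK q21971 := cut [q21970] ⟨c21970, trivial⟩ (nd (nat_lit 231) (nat_lit 0) (cs (lf (nat_lit 40) (nat_lit 230)) (rf (nat_lit 0)))) q21971 (by decide +kernel)
def q21978 : Q := Q.p (nat_lit 0x400002000008000030000000000000000000000000000000000000000000000000000) (nat_lit 0x1000004000000000180000700001c00001000000000000000000000000000000) (nat_lit 6)
theorem c21978 : QOK q21978 := cut [q4296] ⟨c4296, trivial⟩ (nd (nat_lit 187) (nat_lit 0) (cs (lf (nat_lit 40) (nat_lit 186)) (nd (nat_lit 166) (nat_lit 0) (cs (lf (nat_lit 34) (nat_lit 165)) (nd (nat_lit 165) (nat_lit 0) (cs (lf (nat_lit 35) (nat_lit 143)) (nd (nat_lit 143) (nat_lit 0) (cs (lf (nat_lit 41) (nat_lit 142)) (rf (nat_lit 0)))))))))) q21978 (by decide +kernel)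
def q22004 : Q := Q.p (nat_lit 0x200000800002000008000000000000000000000000000000000000000000000000000000000) (nat_lit 0x40000100000400000000010000060000100000000000000000000000000000000000000000000000) (nat_lit 4)
theorem c22004 : QOK q22004 := cut [q21943] ⟨c21943, trivial⟩ (nd (nat_lit 210) (nat_lit 0) (cs (lf (nat_lit 34) (nat_lit 209)) (nd (nat_lit 296) (nat_lit 0) (cs (lf (nat_lit 41) (nat_lit 230)) (rf (nat_lit 0)))))) q22004 (by decide +kernel)
def q22016 : Q := Q.p (nat_lit 0x200000800002000008000000000000000000000000000000000000000000000000000000000) (nat_lit 0x40000100000400000000010000060000100000000000000000000000000000000000000000000000) (nat_lit 4)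
theorem c22016 : QOK q22016 := cut [q16427] ⟨c16427, trivial⟩ (nd (nat_lit 210) (nat_lit 0) (cs (lf (nat_lit 34) (nat_lit 209)) (nd (nat_lit 209) (nat_lit 0) (cs (lf (nat_lit 35) (nat_lit 187)) (rf (nat_lit 0)))))) q22016 (by decide +kernel)
def q22050 : Q := Q.p (nat_lit 0x80000200000800002000000000000000000000000000000000000000000000000000000000000000) (nat_lit 0x500003400001c0000000000000008000000000000000000000000000000000000000000000000000000000) (nat_lit 5)
theorem c22050 : QOK q22050 := cut [q22047] ⟨c22047, trivial⟩ (nd (nat_lit 320) (nat_lit 0) (cs (lf (nat_lit 29) (nat_lit 253)) (nd (nat_lit 318) (nat_lit 0) (cs (lf (nat_lit 41) (nat_lit 252)) (nd (nat_lit 296) (nat_lit 0) (cs (lf (nat_lit 36) (nat_lit 230)) (rf (nat_lit 0)))))))) q22050 (by decide +kernel)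
def q22052 : Q := Q.p (nat_lit 0x80000200000c00002000008000000000000000000000000000000000000000000000000000000000) (nat_lit 0x20000000000000000000001000010000060000180000000000000000000000000000000000000000000000) (nat_lit 4)
theorem c22052 : QOK q22052 := cut [q21933] ⟨c21933, trivial⟩ (nd (nat_lit 210) (nat_lit 0) (cs (lf (nat_lit 34) (nat_lit 209)) (nd (nat_lit 209) (nat_lit 0) (cs (lf (nat_lit 35) (nat_lit 187)) (rf (nat_lit 0)))))) q22052 (by decide +kernel)
def q22077 : Q := Q.p (nat_lit 0x100000e00000800000000000000000000000000000000000000000000000000000000000000) (nat_lit 0xc0003000000400000000000000000000000000000000000000000000000000000000000000) (nat_lit 3)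
theorem c22077 : QOK q22077 := cut [q22076] ⟨c22076, trivial⟩ (nd (nat_lit 276) (nat_lit 0) (cs (lf (nat_lit 23) (nat_lit 250)) (rf (nat_lit 0)))) q22077 (by decide +kernel)
def q22087 : Q := Q.p (nat_lit 0x78000000000000000000000000000000000000000000000000000) (nat_lit 0x40003b8000000000000000000000000000000000000000000000) (nat_lit 4)
theorem c22087 : QOK q22087 := cut [q173] ⟨c173, trivial⟩ (nd (nat_lit 188) (nat_lit 0) (cs (lf (nat_lit 17) (nat_lit 185)) (nd (nat_lit 206) (nat_lit 0) (cs (lf (nat_lit 16) (nat_lit 184)) (rf (nat_lit 0)))))) q22087 (by decide +kernel)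
def q22115 : Q := Q.p (nat_lit 0xe00000400000000000000000000000000000000000000000000000000000000000000) (nat_lit 0x1100000b00000000000000000000000000000000000000000000000000000000000000) (nat_lit 3)
theorem c22115 : QOK q22115 := cut [q22114] ⟨c22114, trivial⟩ (nd (nat_lit 249) (nat_lit 0) (cs (lf (nat_lit 21) (nat_lit 249)) (rf (nat_lit 0)))) q22115 (by decide +kernel)
def q22117 : Q := Q.p (nat_lit 0x80001e00000000000000000000000000000000000000000000000000000000000000000000) (nat_lit 0x1d00002000000000000000000000000000000000000000000000000000000000000000000000) (nat_lit 3)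
theorem c22117 : QOK q22117 := cut [q22116] ⟨c22116, trivial⟩ (nd (nat_lit 299) (nat_lit 0) (cs (lf (nat_lit 4) (nat_lit 273)) (rf (nat_lit 0)))) q22117 (by decide +kernel)
def q22121 : Q := Q.p (nat_lit 0x80000300000400000000000000000000000000000000000000000000000000000000000000) (nat_lit 0x8000020000000000000000800001000004000000000000000000000000000000000000000000000000000) (nat_lit 3)
theorem c22121 : QOK q22121 := cut [q12958] ⟨c12958, trivial⟩ (nd (nat_lit 317) (nat_lit 0) (cs (rf (nat_lit 0)) (lf (nat_lit 42) (nat_lit 250)))) q22121 (by decide +kernel)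
def q22124 : Q := Q.p (nat_lit 0x3c0000400000000000000000000000000000000000000000000000000000000000000) (nat_lit 0x200009c0000000000000000000000000000000000000000000000000000000000000) (nat_lit 3)
theorem c22124 : QOK q22124 := cut [q22122] ⟨c22122, trivial⟩ (nd (nat_lit 269) (nat_lit 0) (cs (rf (nat_lit 0)) (lf (nat_lit 17) (nat_lit 247)))) q22124 (by decide +kernel)
def q22143 : Q := Q.p (nat_lit 0x200000e00000000000000000000000000000000000000000000000000000000000000000000) (nat_lit 0x470000180000700000000000000000000000000000000000000000000000000000000000000) (nat_lit 5)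
theorem c22143 : QOK q22143 := cut [q12673] ⟨c12673, trivial⟩ (nd (nat_lit 272) (nat_lit 0) (cs (lf (nat_lit 5) (nat_lit 272)) (rf (nat_lit 0)))) q22143 (by decide +kernel)
def q22165 : Q := Q.p (nat_lit 0xc00002000008000010000000000000000000000000000000000000000000000000000) (nat_lit 0x40000300000000000000004000020000000000000000000000000000000000000000000000000000) (nat_lit 3)
theorem c22165 : QOK q22165 := cut [q22164] ⟨c22164, trivial⟩ (nd (nat_lit 297) (nat_lit 0) (cs (lf (nat_lit 46) (nat_lit 208)) (rf (nat_lit 0)))) q22165 (by decide +kernel)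
def q22188 : Q := Q.p (nat_lit 0x3c00000000000000000000000000000000000000000000000000000000000000000000) (nat_lit 0x3800004000038000000000000000000000000000000000000000000000000000000000000000) (nat_lit 4)
theorem c22188 : QOK q22188 := cut [q13000] ⟨c13000, trivial⟩ (nd (nat_lit 300) (nat_lit 0) (cs (lf (nat_lit 4) (nat_lit 274)) (nd (nat_lit 256) (nat_lit 0) (cs (lf (nat_lit 16) (nat_lit 252)) (rf (nat_lit 0)))))) q22188 (by decide +kernel)
def q22195 : Q := Q.p (nat_lit 0xf00002000000000000000000000000000000000000000000000000000000000000000) (nat_lit 0x70000080001000000000000000000000000000000000000000000000000000000000000000) (nat_lit 3)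
theorem c22195 : QOK q22195 := cut [q22194] ⟨c22194, trivial⟩ (nd (nat_lit 293) (nat_lit 0) (cs (lf (nat_lit 10) (nat_lit 271)) (rf (nat_lit 0)))) q22195 (by decide +kernel)
def q22204 : Q := Q.p (nat_lit 0xe00002400008000000000000000000000000000000000000000000000000000000000) (nat_lit 0x1000001a00010000000000000000000000000000000000000000000000000000000000) (nat_lit 3)
theorem c22204 : QOK q22204 := cut [q22203] ⟨c22203, trivial⟩ (nd (nat_lit 251) (nat_lit 0) (cs (lf (nat_lit 18) (nat_lit 250)) (rf (nat_lit 0)))) q22204 (by decide +kernel)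
def q22218 : Q := Q.p (nat_lit 0x300003c0000c000000000000000000000000000000000000000000000000000000000) (nat_lit 0x3800006000018000000000000000000000000000000000000000000000) (nat_lit 4)
theorem c22218 : QOK q22218 := cut [q22217] ⟨c22217, trivial⟩ (nd (nat_lit 228) (nat_lit 0) (cs (lf (nat_lit 23) (nat_lit 227)) (rf (nat_lit 0)))) q22218 (by decide +kernel)
def q22233 : Q := Q.p (nat_lit 0xe00003000000000010000000000000000000000000000000000000000000000000000) (nat_lit 0x80000200000c0003000000c00004000000000000000000000000000000000000000000000000000000000) (nat_lit 5)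
theorem c22233 : QOK q22233 := cut [q700] ⟨c700, trivial⟩ (nd (nat_lit 295) (nat_lit 0) (cs (lf (nat_lit 37) (nat_lit 207)) (nd (nat_lit 317) (nat_lit 0) (cs (lf (nat_lit 30) (nat_lit 251)) (nd (nat_lit 276) (nat_lit 0) (cs (rf (nat_lit 0)) (lf (nat_lit 11) (nat_lit 272)))))))) q22233 (by decide +kernel)
def q22240 : Q := Q.p (nat_lit 0xa00003c000000000000000000000000000000000000000000000000000000000) (nat_lit 0x20000000000020001c0000100000400000000000000000000000000000000000000000) (nat_lit 4)
theorem c22240 : QOK q22240 := cut [q22238] ⟨c22238, trivial⟩ (nd (nat_lit 211) (nat_lit 0) (cs (lf (nat_lit 17) (nat_lit 208)) (nd (nat_lit 210) (nat_lit 0) (cs (lf (nat_lit 12) (nat_lit 207)) (rf (nat_lit 0)))))) q22240 (by decide +kernel)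
def q22294 : Q := Q.p (nat_lit 0xc00003000004000008000000000000000000000000000000000000000000000000000) (nat_lit 0x1000004000010000000000000000a000000000000000000000000000000000000000000000000000000000) (nat_lit 3)
theorem c22294 : QOK q22294 := cut [q22293] ⟨c22293, trivial⟩ (nd (nat_lit 296) (nat_lit 0) (cs (lf (nat_lit 46) (nat_lit 207)) (rf (nat_lit 0)))) q22294 (by decide +kernel)
def q22302 : Q := Q.p (nat_lit 0x80000600001800002000000000000000000000000000000000000000000000000000000000) (nat_lit 0x100000c000030000000000000000000000000000000000000000000000) (nat_lit 3)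
theorem c22302 : QOK q22302 := cut [q22301] ⟨c22301, trivial⟩ (nd (nat_lit 206) (nat_lit 0) (cs (lf (nat_lit 46) (nat_lit 206)) (rf (nat_lit 0)))) q22302 (by decide +kernel)
def q22310 : Q := Q.p (nat_lit 0x1e00003000000000000000000000000000000000000000000000000000000000000000) (nat_lit 0x180000e00000000000000000000000000000000000000000000000000000000000000) (nat_lit 3)
theorem c22310 : QOK q22310 := cut [q15619] ⟨c15619, trivial⟩ (nd (nat_lit 272) (nat_lit 0) (cs (lf (nat_lit 12) (nat_lit 249)) (rf (nat_lit 0)))) q22310 (by decide +kernel)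
def q22324 : Q := Q.p (nat_lit 0xe00003000000000010000000000000000000000000000000000000000000000000000) (nat_lit 0x80000200000e0000180000e00005000004000000000000000000000000000000000000000000000000000) (nat_lit 7)
theorem c22324 : QOK q22324 := cut [q12958] ⟨c12958, trivial⟩ (nd (nat_lit 272) (nat_lit 0) (cs (lf (nat_lit 12) (nat_lit 249)) (nd (nat_lit 293) (nat_lit 0) (cs (lf (nat_lit 10) (nat_lit 271)) (nd (nat_lit 250) (nat_lit 0) (cs (lf (nat_lit 23) (nat_lit 249)) (nd (nat_lit 295) (nat_lit 0) (cs (lf (nat_lit 37) (nat_lit 207)) (nd (nat_lit 317) (nat_lit 0) (cs (lf (nat_lit 30) (nat_lit 251)) (rf (nat_lit 0)))))))))))) q22324 (by decide +kernel)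
def q22351 : Q := Q.p (nat_lit 0x100000c00003000004000000000000000000000000000000000000000000000000000000000) (nat_lit 0x18000060000080000000000000000000000000000000000000000000000000000000000000000000000000) (nat_lit 3)
theorem c22351 : QOK q22351 := cut [q22343] ⟨c22343, trivial⟩ (nd (nat_lit 317) (nat_lit 0) (cs (lf (nat_lit 40) (nat_lit 229)) (rf (nat_lit 0)))) q22351 (by decide +kernel)
def q22368 : Q := Q.p (nat_lit 0x3c000000000000000000000000000000000000000000000000000) (nat_lit 0x400003b8000000000000000000000000000000000000000000000) (nat_lit 4)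
theorem c22368 : QOK q22368 := cut [q22367] ⟨c22367, trivial⟩ (nd (nat_lit 184) (nat_lit 0) (cs (lf (nat_lit 23) (nat_lit 183)) (rf (nat_lit 0)))) q22368 (by decide +kernel)
def q22375 : Q := Q.p (nat_lit 0x1e00000000000000000000000000000000000000000000000000000000000000000000) (nat_lit 0xe00000100000e00000000000000000000000000000000000000000000000000000000000000) (nat_lit 4)
theorem c22375 : QOK q22375 := cut [q15619] ⟨c15619, trivial⟩ (nd (nat_lit 298) (nat_lit 0) (cs (lf (nat_lit 5) (nat_lit 273)) (nd (nat_lit 272) (nat_lit 0) (cs (lf (nat_lit 4) (nat_lit 272)) (rf (nat_lit 0)))))) q22375 (by decide +kernel)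
def q22379 : Q := Q.p (nat_lit 0x100001c00002000000000000000000000000000000000000000000000000000000000000000) (nat_lit 0x280006000001000000000000000000000000000000000000000000000000000000000000000) (nat_lit 3)
theorem c22379 : QOK q22379 := cut [q22378] ⟨c22378, trivial⟩ (nd (nat_lit 277) (nat_lit 0) (cs (lf (nat_lit 11) (nat_lit 273)) (rf (nat_lit 0)))) q22379 (by decide +kernel)
def q22413 : Q := Q.p (nat_lit 0xa00000c00000000000000000000000000000000000000000000000000000000000000000000) (nat_lit 0x1400001300000000000000000000000000000000000000000000000000000000000000000000) (nat_lit 3)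
theorem c22413 : QOK q22413 := cut [q11530] ⟨c11530, trivial⟩ (nd (nat_lit 298) (nat_lit 0) (cs (lf (nat_lit 18) (nat_lit 274)) (rf (nat_lit 0)))) q22413 (by decide +kernel)
def q22431 : Q := Q.p (nat_lit 0x40000080000200000800002000000000000000000000000000000000000000000000000000000000000000000000) (nat_lit 0x14000030000040000000000000000000000000000000000000000000000000000000000000000000000000000000000000) (nat_lit 3)
theorem c22431 : QOK q22431 := cut [q13704] ⟨c13704, trivial⟩ (nd (nat_lit 364) (nat_lit 0) (cs (lf (nat_lit 40) (nat_lit 276)) (rf (nat_lit 0)))) q22431 (by decide +kernel)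
def q22455 : Q := Q.p (nat_lit 0x10000040000100000400000000000000000000000000000000000000000000000) (nat_lit 0xa0000380000a000000000000000000000000000000000000) (nat_lit 4)
theorem c22455 : QOK q22455 := cut [q22451] ⟨c22451, trivial⟩ (nd (nat_lit 169) (nat_lit 0) (cs (nd (nat_lit 168) (nat_lit 0) (cs (rf (nat_lit 0)) (lf (nat_lit 35) (nat_lit 146)))) (lf (nat_lit 34) (nat_lit 168)))) q22455 (by decide +kernel)
def q22477 : Q := Q.p (nat_lit 0x200002c00002000008000000000000000000000000000000000000000000000000000000000) (nat_lit 0x300000c0000100005000001800000000000000000000000000000000000000000000000000000000000000) (nat_lit 5)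
theorem c22477 : QOK q22477 := cut [q13624] ⟨c13624, trivial⟩ (nd (nat_lit 318) (nat_lit 0) (cs (lf (nat_lit 40) (nat_lit 230)) (nd (nat_lit 319) (nat_lit 0) (cs (lf (nat_lit 41) (nat_lit 252)) (nd (nat_lit 252) (nat_lit 0) (cs (lf (nat_lit 42) (nat_lit 252)) (rf (nat_lit 0)))))))) q22477 (by decide +kernel)
def q22498 : Q := Q.p (nat_lit 0x20000480000200000800000000000000000000000000000000000000000000000000000000000000) (nat_lit 0x140000d0000300000000000000000000000000000000000000000000000000000000000000000000000000) (nat_lit 4)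
theorem c22498 : QOK q22498 := cut [q2028] ⟨c2028, trivial⟩ (nd (nat_lit 316) (nat_lit 0) (cs (lf (nat_lit 41) (nat_lit 250)) (nd (nat_lit 318) (nat_lit 0) (cs (rf (nat_lit 0)) (lf (nat_lit 29) (nat_lit 251)))))) q22498 (by decide +kernel)
def q22529 : Q := Q.p (nat_lit 0xf00001800000000000000000000000000000000000000000000000000000000000000000000) (nat_lit 0xe00003000000000000000000000000000000000000000000000000000000000000000000000000000) (nat_lit 3)
theorem c22529 : QOK q22529 := cut [q22528] ⟨c22528, trivial⟩ (nd (nat_lit 300) (nat_lit 0) (cs (lf (nat_lit 18) (nat_lit 275)) (rf (nat_lit 0)))) q22529 (by decide +kernel)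
def q22540 : Q := Q.p (nat_lit 0x1e000000000000000000000000000000000000000000000000000000000) (nat_lit 0xe0000100000e000000000000000000000000000000000000000000000000000) (nat_lit 4)
theorem c22540 : QOK q22540 := cut [q22538] ⟨c22538, trivial⟩ (nd (nat_lit 206) (nat_lit 0) (cs (lf (nat_lit 22) (nat_lit 206)) (nd (nat_lit 250) (nat_lit 0) (cs (lf (nat_lit 10) (nat_lit 228)) (rf (nat_lit 0)))))) q22540 (by decide +kernel)
def q22544 : Q := Q.p (nat_lit 0x200000f000000000000000000000000000000000000000000000000000000000) (nat_lit 0x1000000800007000000000000000000000000000000000000000000000000000) (nat_lit 3)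
theorem c22544 : QOK q22544 := cut [q22543] ⟨c22543, trivial⟩ (nd (nat_lit 227) (nat_lit 0) (cs (lf (nat_lit 4) (nat_lit 227)) (rf (nat_lit 0)))) q22544 (by decide +kernel)
def q22552 : Q := Q.p (nat_lit 0x7800010000000000000000000000000000000000000000000000000000) (nat_lit 0x40000b800000000000000000000000000000000000000000000000000) (nat_lit 3)
theorem c22552 : QOK q22552 := cut [q21064] ⟨c21064, trivial⟩ (nd (nat_lit 226) (nat_lit 0) (cs (lf (nat_lit 16) (nat_lit 204)) (rf (nat_lit 0)))) q22552 (by decide +kernel)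
def q22569 : Q := Q.p (nat_lit 0x600000c00000000000000000000000000000000000000000000000000000000000000000000) (nat_lit 0x1800001300000000000000000000000000000000000000000000000000000000000000000000) (nat_lit 3)
theorem c22569 : QOK q22569 := cut [q11530] ⟨c11530, trivial⟩ (nd (nat_lit 299) (nat_lit 0) (cs (lf (nat_lit 18) (nat_lit 274)) (rf (nat_lit 0)))) q22569 (by decide +kernel)
def q22574 : Q := Q.p (nat_lit 0x200000c000030000080000000000000000000000000000000000000000000000) (nat_lit 0x100000600001800000000000000000000000000000000000) (nat_lit 3)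
theorem c22574 : QOK q22574 := cut [q2204] ⟨c2204, trivial⟩ (nd (nat_lit 165) (nat_lit 0) (cs (lf (nat_lit 36) (nat_lit 142)) (rf (nat_lit 0)))) q22574 (by decide +kernel)
def q22592 : Q := Q.p (nat_lit 0x3c000000000000000000000000000000000000000000000000000000000) (nat_lit 0x1c000020001c0000000000000000000000000000000000000000000000000000) (nat_lit 4)
theorem c22592 : QOK q22592 := cut [q22590] ⟨c22590, trivial⟩ (nd (nat_lit 251) (nat_lit 0) (cs (lf (nat_lit 10) (nat_lit 229)) (nd (nat_lit 229) (nat_lit 0) (cs (lf (nat_lit 11) (nat_lit 228)) (rf (nat_lit 0)))))) q22592 (by decide +kernel)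
def q22662 : Q := Q.p (nat_lit 0x20000080000e00002000000000000000000000000000000000000000000000000000000000000000) (nat_lit 0x700001c000040000100000000001000000000000000000000000000000000000000000000000000000000000000) (nat_lit 5)
theorem c22662 : QOK q22662 := cut [q22660] ⟨c22660, trivial⟩ (nd (nat_lit 339) (nat_lit 0) (cs (lf (nat_lit 35) (nat_lit 251)) (nd (nat_lit 338) (nat_lit 0) (cs (lf (nat_lit 41) (nat_lit 272)) (rf (nat_lit 0)))))) q22662 (by decide +kernel)
def q22722 : Q := Q.p (nat_lit 0x8000020000180000600000000000000000000000000000000000000000000000000000000000000000000) (nat_lit 0x1000004000050000000000000000800002000008000000000000000000000000000000000000000000000000000) (nat_lit 4)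
theorem c22722 : QOK q22722 := cut [q22720] ⟨c22720, trivial⟩ (nd (nat_lit 338) (nat_lit 0) (cs (lf (nat_lit 41) (nat_lit 272)) (nd (nat_lit 251) (nat_lit 0) (cs (lf (nat_lit 40) (nat_lit 250)) (rf (nat_lit 0)))))) q22722 (by decide +kernel)
def q22726 : Q := Q.p (nat_lit 0x18000120000080000200000000000000000000000000000000000000000000000000000000000000000000) (nat_lit 0x1000024000098000000000000000800000000000000000000000000000000000000000000000000000000000000) (nat_lit 4)
theorem c22726 : QOK q22726 := cut [q22724] ⟨c22724, trivial⟩ (nd (nat_lit 338) (nat_lit 0) (cs (lf (nat_lit 41) (nat_lit 272)) (nd (nat_lit 341) (nat_lit 0) (cs (lf (nat_lit 16) (nat_lit 316)) (rf (nat_lit 0)))))) q22726 (by decide +kernel)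
def q22741 : Q := Q.p (nat_lit 0x78000000000000000000000000000000000000000000000000000000000000000000000000000000000000) (nat_lit 0x3b800004000000000000000000000000000000000000000000000000000000000000000000000000000000000000) (nat_lit 4)
theorem c22741 : QOK q22741 := cut [q22739] ⟨c22739, trivial⟩ (nd (nat_lit 364) (nat_lit 0) (cs (lf (nat_lit 5) (nat_lit 339)) (nd (nat_lit 338) (nat_lit 0) (cs (lf (nat_lit 4) (nat_lit 338)) (rf (nat_lit 0)))))) q22741 (by decide +kernel)
def q22750 : Q := Q.p (nat_lit 0x3c000000000000000000000000000000000000000000000000000000000000000000000000000000000000) (nat_lit 0x1c0000200001c000000000000000000000000000000000000000000000000000000000000000000000000000000) (nat_lit 4)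
theorem c22750 : QOK q22750 := cut [q22746] ⟨c22746, trivial⟩ (nd (nat_lit 359) (nat_lit 0) (cs (nd (nat_lit 337) (nat_lit 0) (cs (rf (nat_lit 0)) (lf (nat_lit 11) (nat_lit 336)))) (lf (nat_lit 10) (nat_lit 337)))) q22750 (by decide +kernel)
def q22758 : Q := Q.p (nat_lit 0x78000000000000000000000000000000000000000000000000000000000000000000000000000000000000) (nat_lit 0x7e000180000e00000000000000000000000000000000000000000000000000000000000000000000000000000000) (nat_lit 6)
theorem c22758 : QOK q22758 := cut [q22754] ⟨c22754, trivial⟩ (nd (nat_lit 365) (nat_lit 0) (cs (lf (nat_lit 4) (nat_lit 339)) (nd (nat_lit 343) (nat_lit 0) (cs (lf (nat_lit 5) (nat_lit 340)) (nd (nat_lit 322) (nat_lit 0) (cs (lf (nat_lit 16) (nat_lit 318)) (nd (nat_lit 362) (nat_lit 0) (cs (lf (nat_lit 11) (nat_lit 339)) (rf (nat_lit 0)))))))))) q22758 (by decide +kernel)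
def q22798 : Q := Q.p (nat_lit 0x1e00002000000000000000000000000000000000000000000000000000000000000000) (nat_lit 0x1c00006000039000000000000000000000000000000000000000000000000000000000000000) (nat_lit 5)
theorem c22798 : QOK q22798 := cut [q14653] ⟨c14653, trivial⟩ (nd (nat_lit 299) (nat_lit 0) (cs (lf (nat_lit 4) (nat_lit 273)) (nd (nat_lit 277) (nat_lit 0) (cs (lf (nat_lit 5) (nat_lit 274)) (rf (nat_lit 0)))))) q22798 (by decide +kernel)
def q22805 : Q := Q.p (nat_lit 0x300000400001000000000000000000000000000000000000000000000000000000000) (nat_lit 0x8000000000080000000000c000030000080000000000000000000000000000000000000000) (nat_lit 4)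
theorem c22805 : QOK q22805 := cut [q22803] ⟨c22803, trivial⟩ (nd (nat_lit 206) (nat_lit 0) (cs (lf (nat_lit 29) (nat_lit 206)) (nd (nat_lit 185) (nat_lit 0) (cs (lf (nat_lit 34) (nat_lit 184)) (rf (nat_lit 0)))))) q22805 (by decide +kernel)
def q22816 : Q := Q.p (nat_lit 0x40000100000400001000000000000000000000000000000000000000000000000000000000) (nat_lit 0x280000e000028000000000000000000000000000000000000000000000) (nat_lit 4)
theorem c22816 : QOK q22816 := cut [q14138] ⟨c14138, trivial⟩ (nd (nat_lit 207) (nat_lit 0) (cs (lf (nat_lit 34) (nat_lit 206)) (nd (nat_lit 206) (nat_lit 0) (cs (lf (nat_lit 35) (nat_lit 184)) (rf (nat_lit 0)))))) q22816 (by decide +kernel)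

end Crest.Agent.H3.Snaky.CR
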