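import Crest.Agent.H3.Snaky.Cert

set_option autoImplicit false
set_option maxRecDepth 100000

namespace Crest.Agent.H3.Snaky.CR

open T

def q23362 : Q := Q.p (nat_lit 0x2000008000020000080000200000000000000000000000000000000000000000000000000000000000000000000000000) (nat_lit 0x100000400001000000000000000000000000000000000000000000000000000000000000000000000) (nat_lit 2)
theorem c23362 : QOK q23362 := cut [] trivial (nd (nat_lit 298) (nat_lit 0) (cs (lf (nat_lit 35) (nat_lit 275)) (lf (nat_lit 34) (nat_lit 297)))) q23362 (by decide +kernel)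
def q23368 : Q := Q.p (nat_lit 0x14000020000080000200000000000000000000000000000000000000000000000000000000000000000000000000) (nat_lit 0x5000008000000000000000000000000000000000000000000000000000000000000000000000000000000000000000000) (nat_lit 2)
theorem c23368 : QOK q23368 := cut [] trivial (nd (nat_lit 363) (nat_lit 0) (cs (lf (nat_lit 41) (nat_lit 296)) (lf (nat_lit 29) (nat_lit 297)))) q23368 (by decide +kernel)
def q23382 : Q := Q.p (nat_lit 0x200000c0000200000800000000000000000000000000000000000000000000000000000000000000000000) (nat_lit 0x6000018000040000000000100000400000000000000000000000000000000000000000000000000000000000000000000) (nat_lit 4)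
theorem c23382 : QOK q23382 := cut [] trivial (nd (nat_lit 364) (nat_lit 0) (cs (lf (nat_lit 28) (nat_lit 275)) (nd (nat_lit 363) (nat_lit 0) (cs (lf (nat_lit 29) (nat_lit 297)) (nd (nat_lit 296) (nat_lit 0) (cs (lf (nat_lit 42) (nat_lit 296)) (lf (nat_lit 47) (nat_lit 274)))))))) q23382 (by decide +kernel)
def q23386 : Q := Q.p (nat_lit 0x80000e00000800000000000000000000000000000000000000000000000000000000000000000000) (nat_lit 0x40001000000400000000000000000000000000000000000000000000000000000000000000000000) (nat_lit 2)
theorem c23386 : QOK q23386 := cut [] trivial (nd (nat_lit 300) (nat_lit 0) (cs (lf (nat_lit 23) (nat_lit 274)) (lf (nat_lit 11) (nat_lit 296)))) q23386 (by decide +kernel)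
def q23390 : Q := Q.p (nat_lit 0x20000080001a00000800000000000000000000000000000000000000000000000000000000000000) (nat_lit 0x400000400001000000000000000000000000000000000000000000000000000000000) (nat_lit 2)
theorem c23390 : QOK q23390 := cut [] trivial (nd (nat_lit 250) (nat_lit 0) (cs (lf (nat_lit 47) (nat_lit 228)) (lf (nat_lit 20) (nat_lit 250)))) q23390 (by decide +kernel)
def q23396 : Q := Q.p (nat_lit 0x1e00000800000000000000000000000000000000000000000000000000000000000000000000) (nat_lit 0x200001d000000000000000000000000000000000000000000000000000000000000000000000) (nat_lit 3)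
theorem c23396 : QOK q23396 := cut [] trivial (nd (nat_lit 279) (nat_lit 0) (cs (lf (nat_lit 16) (nat_lit 275)) (nd (nat_lit 301) (nat_lit 0) (cs (lf (nat_lit 22) (nat_lit 275)) (lf (nat_lit 17) (nat_lit 276)))))) q23396 (by decide +kernel)
def q23409 : Q := Q.p (nat_lit 0x80000780000000000000000000000000000000000000000000000000000000000000000000000000) (nat_lit 0xe40001800007000000000000000000000000000000000000000000000000000000000000000000000) (nat_lit 5)
theorem c23409 : QOK q23409 := cut [] trivial (nd (nat_lit 277) (nat_lit 0) (cs (lf (nat_lit 16) (nat_lit 273)) (nd (nat_lit 299) (nat_lit 0) (cs (lf (nat_lit 17) (nat_lit 274)) (nd (nat_lit 322) (nat_lit 0) (cs (lf (nat_lit 4) (nat_lit 296)) (nd (nat_lit 300) (nat_lit 0) (cs (lf (nat_lit 5) (nat_lit 297)) (lf (nat_lit 11) (nat_lit 296)))))))))) q23409 (by decide +kernel)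
def q23412 : Q := Q.p (nat_lit 0x180000600000800000000010000000000000000000000000000000000000000000000000000) (nat_lit 0x6000008000000000000000000000000000000000000000000000000000) (nat_lit 2)
theorem c23412 : QOK q23412 := cut [] trivial (nd (nat_lit 229) (nat_lit 0) (cs (lf (nat_lit 34) (nat_lit 207)) (lf (nat_lit 24) (nat_lit 207)))) q23412 (by decide +kernel)
def q23421 : Q := Q.p (nat_lit 0x800001c0000800000000000000000000000000000000000000000000000000000000000000000000) (nat_lit 0x40000020000400000000000000000000000000000000000000000000000000000000000000000000) (nat_lit 2)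
theorem c23421 : QOK q23421 := cut [] trivial (nd (nat_lit 293) (nat_lit 0) (cs (lf (nat_lit 16) (nat_lit 271)) (lf (nat_lit 4) (nat_lit 293)))) q23421 (by decide +kernel)
def q23449 : Q := Q.p (nat_lit 0xf80000000000000000000000000000000000000000000000000000000000000000000000000) (nat_lit 0x700000000000000000000000000000000000000000000000000000000000000000000000000000000) (nat_lit 2)
theorem c23449 : QOK q23449 := cut [] trivial (nd (nat_lit 321) (nat_lit 0) (cs (lf (nat_lit 4) (nat_lit 295)) (lf (nat_lit 5) (nat_lit 296)))) q23449 (by decide +kernel)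
def q23452 : Q := Q.p (nat_lit 0xf80000000000000000000000000000000000000000000000000000000000000000000000000) (nat_lit 0x700000000000000000000000000000000000000000000000000000000000000000000) (nat_lit 2)
theorem c23452 : QOK q23452 := cut [] trivial (nd (nat_lit 273) (nat_lit 0) (cs (lf (nat_lit 23) (nat_lit 272)) (lf (nat_lit 22) (nat_lit 273)))) q23452 (by decide +kernel)
def q23481 : Q := Q.p (nat_lit 0x40000200000800002000000000000000000000000000000000000000000000000000000000000000) (nat_lit 0x4000010000080000100000400000000000000000000000000000000000000000000000000000000000000000000) (nat_lit 3)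
theorem c23481 : QOK q23481 := cut [] trivial (nd (nat_lit 340) (nat_lit 0) (cs (lf (nat_lit 39) (nat_lit 252)) (nd (nat_lit 296) (nat_lit 0) (cs (lf (nat_lit 30) (nat_lit 274)) (lf (nat_lit 33) (nat_lit 252)))))) q23481 (by decide +kernel)
def q23499 : Q := Q.p (nat_lit 0x800002000008000020000080000000000000000000000000000000000000000000000) (nat_lit 0x100000400001000000000000000000000000000000000000000000000000000000000000000) (nat_lit 2)
theorem c23499 : QOK q23499 := cut [] trivial (nd (nat_lit 274) (nat_lit 0) (cs (lf (nat_lit 41) (nat_lit 208)) (lf (nat_lit 40) (nat_lit 186)))) q23499 (by decide +kernel)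
def q23504 : Q := Q.p (nat_lit 0x80000200000800003c000000000000000000000000000000000000000000000000000) (nat_lit 0x40000180000000000000000000000000000000000000000000000) (nat_lit 2)
theorem c23504 : QOK q23504 := cut [] trivial (nd (nat_lit 188) (nat_lit 0) (cs (lf (nat_lit 16) (nat_lit 184)) (lf (nat_lit 34) (nat_lit 187)))) q23504 (by decide +kernel)
def q23510 : Q := Q.p (nat_lit 0x1000006000078000000000000000000000000000000000000000000000000000) (nat_lit 0x30000080000000000000000000000000000000000000000) (nat_lit 2)
theorem c23510 : QOK q23510 := cut [] trivial (nd (nat_lit 185) (nat_lit 0) (cs (lf (nat_lit 23) (nat_lit 184)) (lf (nat_lit 24) (nat_lit 163)))) q23510 (by decide +kernel)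
def q23522 : Q := Q.p (nat_lit 0x1e000000000000000000000000000000000000000000000000000) (nat_lit 0xe00000100000e000000000000000000000000000000000000000000000) (nat_lit 4)
theorem c23522 : QOK q23522 := cut [] trivial (nd (nat_lit 182) (nat_lit 0) (cs (lf (nat_lit 22) (nat_lit 182)) (nd (nat_lit 230) (nat_lit 0) (cs (lf (nat_lit 5) (nat_lit 205)) (nd (nat_lit 204) (nat_lit 0) (cs (lf (nat_lit 23) (nat_lit 181)) (lf (nat_lit 4) (nat_lit 204)))))))) q23522 (by decide +kernel)
def q23532 : Q := Q.p (nat_lit 0xc00001000004000010000000000000000000000000000000000000000000000) (nat_lit 0x80000200002800000000000000040000000000000000000000000000000000000000) (nat_lit 3)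
theorem c23532 : QOK q23532 := cut [] trivial (nd (nat_lit 249) (nat_lit 0) (cs (lf (nat_lit 41) (nat_lit 183)) (nd (nat_lit 162) (nat_lit 0) (cs (lf (nat_lit 28) (nat_lit 162)) (lf (nat_lit 40) (nat_lit 161)))))) q23532 (by decide +kernel)
def q23538 : Q := Q.p (nat_lit 0x200000c00002000008000000000000000000000000000000000000000000000000000) (nat_lit 0x40000100000000000000000000020000000000000000000000000000000000000000000000) (nat_lit 2)
theorem c23538 : QOK q23538 := cut [] trivial (nd (nat_lit 272) (nat_lit 0) (cs (lf (nat_lit 41) (nat_lit 206)) (lf (nat_lit 36) (nat_lit 184)))) q23538 (by decide +kernel)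
def q23541 : Q := Q.p (nat_lit 0x3e00000000000000000000000000000000000000000000000000000000000000) (nat_lit 0x1c000000000000000000000000000000000000000000000000000000000) (nat_lit 2)
theorem c23541 : QOK q23541 := cut [] trivial (nd (nat_lit 231) (nat_lit 0) (cs (lf (nat_lit 17) (nat_lit 228)) (lf (nat_lit 16) (nat_lit 227)))) q23541 (by decide +kernel)
def q23549 : Q := Q.p (nat_lit 0x800002c0000000000c000000000000000000000000000000000000000000000000000) (nat_lit 0x4000138000100001a000000000030000000000000000000000000000000000000000000000) (nat_lit 6)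
theorem c23549 : QOK q23549 := cut [] trivial (nd (nat_lit 252) (nat_lit 0) (cs (lf (nat_lit 5) (nat_lit 250)) (nd (nat_lit 272) (nat_lit 0) (cs (lf (nat_lit 11) (nat_lit 249)) (nd (nat_lit 231) (nat_lit 0) (cs (lf (nat_lit 17) (nat_lit 228)) (nd (nat_lit 229) (nat_lit 0) (cs (lf (nat_lit 36) (nat_lit 184)) (nd (nat_lit 273) (nat_lit 0) (cs (lf (nat_lit 41) (nat_lit 206)) (lf (nat_lit 47) (nat_lit 184)))))))))))) q23549 (by decide +kernel)
def q23562 : Q := Q.p (nat_lit 0x40000100001c000010000000000000000000000000000000000000000000000) (nat_lit 0x2c0000a0000000000000000000000000000000000000000) (nat_lit 3)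
theorem c23562 : QOK q23562 := cut [] trivial (nd (nat_lit 185) (nat_lit 0) (cs (lf (nat_lit 35) (nat_lit 162)) (nd (nat_lit 183) (nat_lit 0) (cs (lf (nat_lit 0) (nat_lit 182)) (lf (nat_lit 47) (nat_lit 161)))))) q23562 (by decide +kernel)
def q23567 : Q := Q.p (nat_lit 0x100000c000010000040000000000000000000000000000000000000000) (nat_lit 0x2000000000000000080000300000800000000000000000000000000000) (nat_lit 3)
theorem c23567 : QOK q23567 := cut [] trivial (nd (nat_lit 141) (nat_lit 0) (cs (lf (nat_lit 34) (nat_lit 140)) (nd (nat_lit 140) (nat_lit 0) (cs (lf (nat_lit 29) (nat_lit 140)) (lf (nat_lit 35) (nat_lit 118)))))) q23567 (by decide +kernel)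
def q23584 : Q := Q.p (nat_lit 0x10000040000100000c000000000000000000000000000000000000000000000000000) (nat_lit 0x60000080000200002000000000018000060000180000000000000000000000000000000000) (nat_lit 6)
theorem c23584 : QOK q23584 := cut [] trivial (nd (nat_lit 271) (nat_lit 0) (cs (lf (nat_lit 41) (nat_lit 205)) (nd (nat_lit 184) (nat_lit 0) (cs (lf (nat_lit 40) (nat_lit 183)) (nd (nat_lit 161) (nat_lit 0) (cs (lf (nat_lit 46) (nat_lit 161)) (nd (nat_lit 229) (nat_lit 0) (cs (lf (nat_lit 30) (nat_lit 206)) (nd (nat_lit 162) (nat_lit 0) (cs (lf (nat_lit 24) (nat_lit 140)) (lf (nat_lit 47) (nat_lit 139)))))))))))) q23584 (by decide +kernel)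
def q23586 : Q := Q.p (nat_lit 0xb00000400001000004000000000000000000000000000000000000000000000000000) (nat_lit 0x20000480000200000000000000010000000000000000000000000000000000000000000000) (nat_lit 3)
theorem c23586 : QOK q23586 := cut [] trivial (nd (nat_lit 271) (nat_lit 0) (cs (lf (nat_lit 41) (nat_lit 205)) (nd (nat_lit 249) (nat_lit 0) (cs (lf (nat_lit 36) (nat_lit 183)) (lf (nat_lit 19) (nat_lit 249)))))) q23586 (by decide +kernel)
def q23608 : Q := Q.p (nat_lit 0x100000c00002000008000000000000000000000000000000000000000000000000000) (nat_lit 0x10000040000200000000000000000000000000000000000000000000000000000000000000000000) (nat_lit 2)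
theorem c23608 : QOK q23608 := cut [] trivial (nd (nat_lit 294) (nat_lit 0) (cs (lf (nat_lit 30) (nat_lit 228)) (lf (nat_lit 39) (nat_lit 206)))) q23608 (by decide +kernel)
def q23629 : Q := Q.p (nat_lit 0xf00000800000000008000000000000000000000000000000000000000000000000000) (nat_lit 0x60000000000000002000000000000000000000000000000000000000000000000000000000) (nat_lit 2)
theorem c23629 : QOK q23629 := cut [] trivial (nd (nat_lit 294) (nat_lit 0) (cs (lf (nat_lit 11) (nat_lit 271)) (lf (nat_lit 37) (nat_lit 206)))) q23629 (by decide +kernel)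
def q23632 : Q := Q.p (nat_lit 0x700003000000000000000000000000000000000000000000000000000000000) (nat_lit 0x80000c000000000000000000000000000000000000000000000000000000000) (nat_lit 2)
theorem c23632 : QOK q23632 := cut [] trivial (nd (nat_lit 230) (nat_lit 0) (cs (lf (nat_lit 15) (nat_lit 226)) (lf (nat_lit 6) (nat_lit 227)))) q23632 (by decide +kernel)
def q23639 : Q := Q.p (nat_lit 0xb80002400000000000000000000000000000000000000000000000000000000000000) (nat_lit 0x400001200000000000000000000000000000000000000000000000000000000000000) (nat_lit 2)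
theorem c23639 : QOK q23639 := cut [] trivial (nd (nat_lit 274) (nat_lit 0) (cs (lf (nat_lit 23) (nat_lit 249)) (lf (nat_lit 16) (nat_lit 249)))) q23639 (by decide +kernel)
def q23654 : Q := Q.p (nat_lit 0x2000018000020000080000000000000000000000000000000000000000) (nat_lit 0x4000000000000000100000600001000000000000000000000000000000) (nat_lit 3)
theorem c23654 : QOK q23654 := cut [] trivial (nd (nat_lit 142) (nat_lit 0) (cs (lf (nat_lit 34) (nat_lit 141)) (nd (nat_lit 141) (nat_lit 0) (cs (lf (nat_lit 29) (nat_lit 141)) (lf (nat_lit 35) (nat_lit 119)))))) q23654 (by decide +kernel)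
def q23681 : Q := Q.p (nat_lit 0x20000080001e000000000000000000000000000000000000000000000000000) (nat_lit 0x8000000000000000000001c000040000000000000000000000000000000000000000) (nat_lit 3)
theorem c23681 : QOK q23681 := cut [] trivial (nd (nat_lit 184) (nat_lit 0) (cs (lf (nat_lit 30) (nat_lit 183)) (nd (nat_lit 183) (nat_lit 0) (cs (lf (nat_lit 23) (nat_lit 182)) (lf (nat_lit 35) (nat_lit 161)))))) q23681 (by decide +kernel)
def q23693 : Q := Q.p (nat_lit 0x800000f00000000000000000000000000000000000000000000000000000000000000) (nat_lit 0x600001000000000000000000000000000000000000000000000000000000000000000) (nat_lit 2)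
theorem c23693 : QOK q23693 := cut [] trivial (nd (nat_lit 274) (nat_lit 0) (cs (lf (nat_lit 4) (nat_lit 248)) (lf (nat_lit 3) (nat_lit 249)))) q23693 (by decide +kernel)
def q23708 : Q := Q.p (nat_lit 0x1c0002000005800000000000000000000000000000000000000000000000000000000) (nat_lit 0x600001800002000000000000000000000000000000000000000000000000000000000) (nat_lit 3)
theorem c23708 : QOK q23708 := cut [] trivial (nd (nat_lit 252) (nat_lit 0) (cs (lf (nat_lit 2) (nat_lit 227)) (nd (nat_lit 273) (nat_lit 0) (cs (lf (nat_lit 15) (nat_lit 249)) (lf (nat_lit 16) (nat_lit 248)))))) q23708 (by decide +kernel)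
def q23734 : Q := Q.p (nat_lit 0x200000400001000004000000000000000000000000000000000000000000000000000) (nat_lit 0xa0000180000a00000000000000010000000000000000000000000000000000000000000000) (nat_lit 4)
theorem c23734 : QOK q23734 := cut [] trivial (nd (nat_lit 272) (nat_lit 0) (cs (lf (nat_lit 29) (nat_lit 206)) (nd (nat_lit 271) (nat_lit 0) (cs (lf (nat_lit 41) (nat_lit 205)) (nd (nat_lit 184) (nat_lit 0) (cs (lf (nat_lit 40) (nat_lit 183)) (lf (nat_lit 28) (nat_lit 184)))))))) q23734 (by decide +kernel)
def q23736 : Q := Q.p (nat_lit 0xa00002c00000000000000000000000000000000000000000000000000000000000000) (nat_lit 0x1400001000000000000000000000000000000000000000000000000000000000000000) (nat_lit 2)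
theorem c23736 : QOK q23736 := cut [] trivial (nd (nat_lit 276) (nat_lit 0) (cs (lf (nat_lit 20) (nat_lit 250)) (lf (nat_lit 2) (nat_lit 250)))) q23736 (by decide +kernel)
def q23755 : Q := Q.p (nat_lit 0x1f000000000000000000000000000000000000000000000000000) (nat_lit 0x200001c00000c00037000040000100000000000000000000000000000000000) (nat_lit 7)
theorem c23755 : QOK q23755 := cut [] trivial (nd (nat_lit 227) (nat_lit 0) (cs (lf (nat_lit 11) (nat_lit 204)) (nd (nat_lit 181) (nat_lit 0) (cs (lf (nat_lit 22) (nat_lit 181)) (nd (nat_lit 203) (nat_lit 0) (cs (lf (nat_lit 23) (nat_lit 180)) (nd (nat_lit 184) (nat_lit 0) (cs (lf (nat_lit 17) (nat_lit 181)) (nd (nat_lit 162) (nat_lit 0) (cs (lf (nat_lit 36) (nat_lit 139)) (nd (nat_lit 228) (nat_lit 0) (cs (lf (nat_lit 41) (nat_lit 161)) (lf (nat_lit 0) (nat_lit 202)))))))))))))) q23755 (by decide +kernel)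
def q23761 : Q := Q.p (nat_lit 0x600000800002000008000000000000000000000000000000000000000000000) (nat_lit 0x1000000000010000060000100000000000000000000000000000000000) (nat_lit 3)
theorem c23761 : QOK q23761 := cut [] trivial (nd (nat_lit 162) (nat_lit 0) (cs (lf (nat_lit 34) (nat_lit 161)) (nd (nat_lit 161) (nat_lit 0) (cs (lf (nat_lit 35) (nat_lit 139)) (lf (nat_lit 28) (nat_lit 161)))))) q23761 (by decide +kernel)
def q23794 : Q := Q.p (nat_lit 0x180000200001800002000000000000000000000000000000000000000000000000000) (nat_lit 0x100002400001c0000000000000008000000000000000000000000000000000000000000000) (nat_lit 4)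
theorem c23794 : QOK q23794 := cut [] trivial (nd (nat_lit 270) (nat_lit 0) (cs (lf (nat_lit 41) (nat_lit 204)) (nd (nat_lit 248) (nat_lit 0) (cs (nd (nat_lit 247) (nat_lit 0) (cs (lf (nat_lit 12) (nat_lit 224)) (lf (nat_lit 18) (nat_lit 247)))) (lf (nat_lit 36) (nat_lit 182)))))) q23794 (by decide +kernel)
def q23798 : Q := Q.p (nat_lit 0x900000600001000004000000000000000000000000000000000000000000000000000) (nat_lit 0x80000600000000000000000000000000000000000000000000000000000000000000000000) (nat_lit 2)
theorem c23798 : QOK q23798 := cut [] trivial (nd (nat_lit 273) (nat_lit 0) (cs (lf (nat_lit 29) (nat_lit 206)) (lf (nat_lit 19) (nat_lit 249)))) q23798 (by decide +kernel)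
def q23818 : Q := Q.p (nat_lit 0x1f000000000000000000000000000000000000000000000000000) (nat_lit 0x700000c0003c000000000000000000000000000000000000000000000) (nat_lit 5)
theorem c23818 : QOK q23818 := cut [] trivial (nd (nat_lit 225) (nat_lit 0) (cs (lf (nat_lit 10) (nat_lit 203)) (nd (nat_lit 203) (nat_lit 0) (cs (lf (nat_lit 11) (nat_lit 202)) (nd (nat_lit 184) (nat_lit 0) (cs (lf (nat_lit 17) (nat_lit 181)) (nd (nat_lit 183) (nat_lit 0) (cs (lf (nat_lit 23) (nat_lit 182)) (lf (nat_lit 12) (nat_lit 180)))))))))) q23818 (by decide +kernel)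
def q23830 : Q := Q.p (nat_lit 0x300001c0000000000000000000000000000000000) (nat_lit 0x8000600000000000000000000000000000000000) (nat_lit 2)
theorem c23830 : QOK q23830 := cut [] trivial (nd (nat_lit 141) (nat_lit 0) (cs (lf (nat_lit 6) (nat_lit 138)) (lf (nat_lit 11) (nat_lit 137)))) q23830 (by decide +kernel)
def q23853 : Q := Q.p (nat_lit 0x380000c0000000000000000000000000000000000000000000000000000000000000000000000000) (nat_lit 0x6000100000000000000000000000000000000000000000000000000000000000000000000000000) (nat_lit 2)
theorem c23853 : QOK q23853 := cut [] trivial (nd (nat_lit 314) (nat_lit 0) (cs (lf (nat_lit 12) (nat_lit 291)) (lf (nat_lit 17) (nat_lit 292)))) q23853 (by decide +kernel)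
def q23863 : Q := Q.p (nat_lit 0x4000010000040000100000400000000000000000000000000000000000000000000000000000000000000) (nat_lit 0x2000008000020000000000000000000000000000000000000000000000000000000000000000000000000000000) (nat_lit 2)
theorem c23863 : QOK q23863 := cut [] trivial (nd (nat_lit 339) (nat_lit 0) (cs (lf (nat_lit 29) (nat_lit 272)) (lf (nat_lit 28) (nat_lit 250)))) q23863 (by decide +kernel)
def q23876 : Q := Q.p (nat_lit 0xc00000600000000000000000000000000000000000000000000000000000000000000) (nat_lit 0x1200001900000000000000000000000000000000000000000000000000000000000000) (nat_lit 3)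
theorem c23876 : QOK q23876 := cut [] trivial (nd (nat_lit 251) (nat_lit 0) (cs (lf (nat_lit 3) (nat_lit 249)) (nd (nat_lit 273) (nat_lit 0) (cs (lf (nat_lit 18) (nat_lit 250)) (lf (nat_lit 0) (nat_lit 248)))))) q23876 (by decide +kernel)
def q23881 : Q := Q.p (nat_lit 0x400001000006000008000000000000000000000000000000000000000000000) (nat_lit 0x800000000000000020000080000000000000000000000000000000000) (nat_lit 2)
theorem c23881 : QOK q23881 := cut [] trivial (nd (nat_lit 161) (nat_lit 0) (cs (lf (nat_lit 24) (nat_lit 139)) (lf (nat_lit 27) (nat_lit 161)))) q23881 (by decide +kernel)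
def q23906 : Q := Q.p (nat_lit 0x1000004000018000040000000000000000000000000000000000000000) (nat_lit 0x400000000000000000000020000080000000000000000000000000000000000) (nat_lit 2)
theorem c23906 : QOK q23906 := cut [] trivial (nd (nat_lit 161) (nat_lit 0) (cs (lf (nat_lit 42) (nat_lit 161)) (lf (nat_lit 47) (nat_lit 139)))) q23906 (by decide +kernel)
def q23924 : Q := Q.p (nat_lit 0x40000100000c000010000000000000000000000000000000000000000000000) (nat_lit 0x100000000000000000000020000080000000000000000000000000000000000000000) (nat_lit 2)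
theorem c23924 : QOK q23924 := cut [] trivial (nd (nat_lit 185) (nat_lit 0) (cs (lf (nat_lit 30) (nat_lit 184)) (lf (nat_lit 35) (nat_lit 162)))) q23924 (by decide +kernel)
def q23939 : Q := Q.p (nat_lit 0x80000000000c000010000040000000000000000000000000000000000000000) (nat_lit 0x200000000002000000000020000000000000000000000000000000000000000000000) (nat_lit 2)
theorem c23939 : QOK q23939 := cut [] trivial (nd (nat_lit 229) (nat_lit 0) (cs (lf (nat_lit 42) (nat_lit 184)) (lf (nat_lit 45) (nat_lit 162)))) q23939 (by decide +kernel)
def q23947 : Q := Q.p (nat_lit 0x80000000000c000010000040000000000000000000000000000000000000000) (nat_lit 0x200000000003000000000000000000000000000000000000000000000000000000000) (nat_lit 2)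
theorem c23947 : QOK q23947 := cut [] trivial (nd (nat_lit 229) (nat_lit 0) (cs (lf (nat_lit 42) (nat_lit 184)) (lf (nat_lit 27) (nat_lit 162)))) q23947 (by decide +kernel)
def q23958 : Q := Q.p (nat_lit 0x100000400001c000060000000000000000000000000000000000000000) (nat_lit 0x180000200000000000000000000000000000000000) (nat_lit 2)
theorem c23958 : QOK q23958 := cut [] trivial (nd (nat_lit 163) (nat_lit 0) (cs (lf (nat_lit 35) (nat_lit 140)) (lf (nat_lit 6) (nat_lit 160)))) q23958 (by decide +kernel)
def q23963 : Q := Q.p (nat_lit 0x1c000014000000000000000000000000000000000000000000000) (nat_lit 0x200000a000000000000000000000000000000000000000000000) (nat_lit 2)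
theorem c23963 : QOK q23963 := cut [] trivial (nd (nat_lit 183) (nat_lit 0) (cs (lf (nat_lit 21) (nat_lit 182)) (lf (nat_lit 0) (nat_lit 181)))) q23963 (by decide +kernel)
def q23975 : Q := Q.p (nat_lit 0x40000300000c0000000000000000000000000000000000) (nat_lit 0x1000000000000000000000200000800000000000000000000000) (nat_lit 2)
theorem c23975 : QOK q23975 := cut [] trivial (nd (nat_lit 117) (nat_lit 0) (cs (lf (nat_lit 30) (nat_lit 116)) (lf (nat_lit 36) (nat_lit 94)))) q23975 (by decide +kernel)
def q23983 : Q := Q.p (nat_lit 0x70000060000000000000000000000000000000000) (nat_lit 0x8000018000000000000000000000000000000000) (nat_lit 2)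
theorem c23983 : QOK q23983 := cut [] trivial (nd (nat_lit 136) (nat_lit 0) (cs (lf (nat_lit 0) (nat_lit 135)) (lf (nat_lit 21) (nat_lit 136)))) q23983 (by decide +kernel)
def q23991 : Q := Q.p (nat_lit 0x4000010000040000100000000000000000000000000000) (nat_lit 0x280000e00002800000000000000000) (nat_lit 4)
theorem c23991 : QOK q23991 := cut [] trivial (nd (nat_lit 93) (nat_lit 0) (cs (nd (nat_lit 95) (nat_lit 0) (cs (nd (nat_lit 94) (nat_lit 0) (cs (lf (nat_lit 47) (nat_lit 71)) (lf (nat_lit 35) (nat_lit 72)))) (lf (nat_lit 34) (nat_lit 94)))) (lf (nat_lit 46) (nat_lit 93)))) q23991 (by decide +kernel)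
def q24003 : Q := Q.p (nat_lit 0x30000040000100000400000000000000000000000) (nat_lit 0x80000000000800003000008000000000000) (nat_lit 3)
theorem c24003 : QOK q24003 := cut [] trivial (nd (nat_lit 73) (nat_lit 0) (cs (nd (nat_lit 72) (nat_lit 0) (cs (lf (nat_lit 28) (nat_lit 72)) (lf (nat_lit 35) (nat_lit 50)))) (lf (nat_lit 34) (nat_lit 72)))) q24003 (by decide +kernel)
def q24019 : Q := Q.p (nat_lit 0x6000070000000000000000000000000000000000000000) (nat_lit 0x1800008000000000000000000000000000000000000000) (nat_lit 2)
theorem c24019 : QOK q24019 := cut [] trivial (nd (nat_lit 180) (nat_lit 0) (cs (lf (nat_lit 12) (nat_lit 157)) (lf (nat_lit 9) (nat_lit 158)))) q24019 (by decide +kernel)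
def q24021 : Q := Q.p (nat_lit 0x1000004000030000080000000000000000000000000000000000) (nat_lit 0x40000200000800000000000000000000000) (nat_lit 2)
theorem c24021 : QOK q24021 := cut [] trivial (nd (nat_lit 117) (nat_lit 0) (cs (lf (nat_lit 36) (nat_lit 94)) (lf (nat_lit 33) (nat_lit 116)))) q24021 (by decide +kernel)
def q24043 : Q := Q.p (nat_lit 0x4000010000040000100000000000000000000000000000000000) (nat_lit 0x2000008000020000080000e00003800008000000000000000000) (nat_lit 6)
theorem c24043 : QOK q24043 := cut [] trivial (nd (nat_lit 117) (nat_lit 0) (cs (lf (nat_lit 46) (nat_lit 117)) (nd (nat_lit 118) (nat_lit 0) (cs (lf (nat_lit 47) (nat_lit 95)) (nd (nat_lit 97) (nat_lit 0) (cs (lf (nat_lit 34) (nat_lit 96)) (nd (nat_lit 183) (nat_lit 0) (cs (lf (nat_lit 41) (nat_lit 117)) (nd (nat_lit 96) (nat_lit 0) (cs (lf (nat_lit 35) (nat_lit 74)) (lf (nat_lit 40) (nat_lit 95)))))))))))) q24043 (by decide +kernel)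
def q24054 : Q := Q.p (nat_lit 0xc000010000040000100000000000000000000000000000000000) (nat_lit 0x40000100000200000e0001a0000280000600001800000000000000000000000) (nat_lit 8)
theorem c24054 : QOK q24054 := cut [] trivial (nd (nat_lit 117) (nat_lit 0) (cs (lf (nat_lit 46) (nat_lit 117)) (nd (nat_lit 118) (nat_lit 0) (cs (lf (nat_lit 47) (nat_lit 95)) (nd (nat_lit 183) (nat_lit 0) (cs (lf (nat_lit 41) (nat_lit 117)) (nd (nat_lit 182) (nat_lit 0) (cs (lf (nat_lit 0) (nat_lit 181)) (nd (nat_lit 161) (nat_lit 0) (cs (lf (nat_lit 36) (nat_lit 95)) (nd (nat_lit 163) (nat_lit 0) (cs (lf (nat_lit 6) (nat_lit 160)) (nd (nat_lit 228) (nat_lit 0) (cs (lf (nat_lit 35) (nat_lit 140)) (lf (nat_lit 42) (nat_lit 161)))))))))))))))) q24054 (by decide +kernel)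
def q24065 : Q := Q.p (nat_lit 0xe00000c0000000000000000000000000000000000) (nat_lit 0x10000030000000000000000000000000000000000) (nat_lit 2)
theorem c24065 : QOK q24065 := cut [] trivial (nd (nat_lit 137) (nat_lit 0) (cs (lf (nat_lit 0) (nat_lit 136)) (lf (nat_lit 21) (nat_lit 137)))) q24065 (by decide +kernel)
def q24078 : Q := Q.p (nat_lit 0x300001e0000000000000000000000000000000000000000) (nat_lit 0x600001c00000000000000000000000000000000000) (nat_lit 3)
theorem c24078 : QOK q24078 := cut [] trivial (nd (nat_lit 143) (nat_lit 0) (cs (lf (nat_lit 16) (nat_lit 139)) (nd (nat_lit 165) (nat_lit 0) (cs (lf (nat_lit 6) (nat_lit 162)) (lf (nat_lit 17) (nat_lit 140)))))) q24078 (by decide +kernel)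
def q24084 : Q := Q.p (nat_lit 0x40000180000e0000000000000000000000000000000000000000) (nat_lit 0x3000000c0000200000000000000000000000000000) (nat_lit 3)
theorem c24084 : QOK q24084 := cut [] trivial (nd (nat_lit 164) (nat_lit 0) (cs (lf (nat_lit 6) (nat_lit 161)) (nd (nat_lit 139) (nat_lit 0) (cs (lf (nat_lit 23) (nat_lit 138)) (lf (nat_lit 24) (nat_lit 117)))))) q24084 (by decide +kernel)
def q24087 : Q := Q.p (nat_lit 0x1c000030000080000000000000000000000000000000000000000) (nat_lit 0x4000000000000000000000200000800000000000000000000000000000) (nat_lit 2)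
theorem c24087 : QOK q24087 := cut [] trivial (nd (nat_lit 141) (nat_lit 0) (cs (lf (nat_lit 29) (nat_lit 141)) (lf (nat_lit 36) (nat_lit 118)))) q24087 (by decide +kernel)
def q24090 : Q := Q.p (nat_lit 0x8000018000040000100000000000000000000000000000000000) (nat_lit 0x2000020000000000000000400000000000000000000000000000) (nat_lit 2)
theorem c24090 : QOK q24090 := cut [] trivial (nd (nat_lit 118) (nat_lit 0) (cs (lf (nat_lit 28) (nat_lit 118)) (lf (nat_lit 41) (nat_lit 117)))) q24090 (by decide +kernel)
def q24098 : Q := Q.p (nat_lit 0x80000200000c0000100000000000000000000000000000) (nat_lit 0x10000000000000000400001000000000000000000) (nat_lit 2)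
theorem c24098 : QOK q24098 := cut [] trivial (nd (nat_lit 94) (nat_lit 0) (cs (lf (nat_lit 24) (nat_lit 72)) (lf (nat_lit 27) (nat_lit 94)))) q24098 (by decide +kernel)
def q24110 : Q := Q.p (nat_lit 0xe0000600000000000000000000000000000000000) (nat_lit 0x100001800000000000000000000000000000000000) (nat_lit 2)
theorem c24110 : QOK q24110 := cut [] trivial (nd (nat_lit 143) (nat_lit 0) (cs (lf (nat_lit 15) (nat_lit 139)) (lf (nat_lit 6) (nat_lit 140)))) q24110 (by decide +kernel)
def q24120 : Q := Q.p (nat_lit 0x40000100000400001000004000000000000000000) (nat_lit 0x800002000008000000000000) (nat_lit 2)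
theorem c24120 : QOK q24120 := cut [] trivial (nd (nat_lit 73) (nat_lit 0) (cs (lf (nat_lit 47) (nat_lit 51)) (lf (nat_lit 46) (nat_lit 73)))) q24120 (by decide +kernel)
def q24156 : Q := Q.p (nat_lit 0x2000007000010000000000000000000000000000000000000000000000) (nat_lit 0x1000000800020000000000000000000000000000000000000000000000) (nat_lit 2)
theorem c24156 : QOK q24156 := cut [] trivial (nd (nat_lit 203) (nat_lit 0) (cs (lf (nat_lit 4) (nat_lit 203)) (lf (nat_lit 17) (nat_lit 181)))) q24156 (by decide +kernel)
def q24183 : Q := Q.p (nat_lit 0x800002800002000008000020000000000000000000000000000000000000000000000) (nat_lit 0x1500001400000000000000000000000000000000000000000000000000000000000000) (nat_lit 3)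
theorem c24183 : QOK q24183 := cut [] trivial (nd (nat_lit 250) (nat_lit 0) (cs (lf (nat_lit 41) (nat_lit 184)) (nd (nat_lit 252) (nat_lit 0) (cs (lf (nat_lit 29) (nat_lit 185)) (lf (nat_lit 5) (nat_lit 250)))))) q24183 (by decide +kernel)
def q24220 : Q := Q.p (nat_lit 0x380000300000000000000000000000000000) (nat_lit 0x400000c0000000000000000000000000000) (nat_lit 2)
theorem c24220 : QOK q24220 := cut [] trivial (nd (nat_lit 115) (nat_lit 0) (cs (lf (nat_lit 0) (nat_lit 114)) (lf (nat_lit 21) (nat_lit 115)))) q24220 (by decide +kernel)
def q24229 : Q := Q.p (nat_lit 0x3c0000000000000000000000000000000000) (nat_lit 0x1c000020001c00000000000000000000000000000) (nat_lit 4)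
theorem c24229 : QOK q24229 := cut [] trivial (nd (nat_lit 159) (nat_lit 0) (cs (lf (nat_lit 10) (nat_lit 137)) (nd (nat_lit 137) (nat_lit 0) (cs (lf (nat_lit 11) (nat_lit 136)) (nd (nat_lit 119) (nat_lit 0) (cs (lf (nat_lit 17) (nat_lit 116)) (lf (nat_lit 16) (nat_lit 115)))))))) q24229 (by decide +kernel)
def q24269 : Q := Q.p (nat_lit 0x1c000030000080000000000000000000000000000000000000000) (nat_lit 0x20000080000200000000000c000140000600001800000000000000000000000000000) (nat_lit 6)
theorem c24269 : QOK q24269 := cut [] trivial (nd (nat_lit 182) (nat_lit 0) (cs (lf (nat_lit 1) (nat_lit 182)) (nd (nat_lit 141) (nat_lit 0) (cs (lf (nat_lit 36) (nat_lit 118)) (nd (nat_lit 142) (nat_lit 0) (cs (lf (nat_lit 35) (nat_lit 119)) (nd (nat_lit 229) (nat_lit 0) (cs (lf (nat_lit 34) (nat_lit 141)) (nd (nat_lit 251) (nat_lit 0) (cs (lf (nat_lit 42) (nat_lit 184)) (lf (nat_lit 47) (nat_lit 162)))))))))))) q24269 (by decide +kernel)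
def q24327 : Q := Q.p (nat_lit 0x80000340000200000c000020000000000000000000000000000000000000000000000) (nat_lit 0x1200000800000000000000010000040000000000000000000000000000000000000000) (nat_lit 3)
theorem c24327 : QOK q24327 := cut [] trivial (nd (nat_lit 251) (nat_lit 0) (cs (lf (nat_lit 5) (nat_lit 250)) (nd (nat_lit 184) (nat_lit 0) (cs (lf (nat_lit 42) (nat_lit 184)) (lf (nat_lit 47) (nat_lit 162)))))) q24327 (by decide +kernel)
def q24372 : Q := Q.p (nat_lit 0x1000007800000000000000000000000000000000000000000000000000) (nat_lit 0xb80000400000000000000000000000000000000000000000000000000) (nat_lit 3)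
theorem c24372 : QOK q24372 := cut [] trivial (nd (nat_lit 224) (nat_lit 0) (cs (lf (nat_lit 10) (nat_lit 202)) (nd (nat_lit 202) (nat_lit 0) (cs (lf (nat_lit 11) (nat_lit 201)) (lf (nat_lit 4) (nat_lit 202)))))) q24372 (by decide +kernel)
def q24397 : Q := Q.p (nat_lit 0x800006000008000020000000000000000000000000000000000000000) (nat_lit 0x100001c0000700001000000000010000000000000000000000000000000000000000000000) (nat_lit 5)
theorem c24397 : QOK q24397 := cut [] trivial (nd (nat_lit 250) (nat_lit 0) (cs (lf (nat_lit 28) (nat_lit 161)) (nd (nat_lit 249) (nat_lit 0) (cs (lf (nat_lit 29) (nat_lit 183)) (nd (nat_lit 270) (nat_lit 0) (cs (lf (nat_lit 40) (nat_lit 182)) (nd (nat_lit 271) (nat_lit 0) (cs (lf (nat_lit 41) (nat_lit 204)) (lf (nat_lit 35) (nat_lit 183)))))))))) q24397 (by decide +kernel)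
def q24416 : Q := Q.p (nat_lit 0x800000800006000018000000000000000000000000000000000000000000000000000) (nat_lit 0x1c0001700000400000000000000020000000000000000000000000000000000000000000000) (nat_lit 5)
theorem c24416 : QOK q24416 := cut [] trivial (nd (nat_lit 273) (nat_lit 0) (cs (lf (nat_lit 30) (nat_lit 207)) (nd (nat_lit 274) (nat_lit 0) (cs (lf (nat_lit 29) (nat_lit 207)) (nd (nat_lit 272) (nat_lit 0) (cs (lf (nat_lit 41) (nat_lit 206)) (nd (nat_lit 250) (nat_lit 0) (cs (lf (nat_lit 36) (nat_lit 184)) (lf (nat_lit 18) (nat_lit 250)))))))))) q24416 (by decide +kernel)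
def q24432 : Q := Q.p (nat_lit 0x7c00000000000000000000000000000000000000000000000000) (nat_lit 0x380000000000000000000000000000000000000000000000000000000) (nat_lit 2)
theorem c24432 : QOK q24432 := cut [] trivial (nd (nat_lit 224) (nat_lit 0) (cs (lf (nat_lit 11) (nat_lit 201)) (lf (nat_lit 10) (nat_lit 202)))) q24432 (by decide +kernel)
def q24449 : Q := Q.p (nat_lit 0x800007800000000000000000000000000000000000000000000000000) (nat_lit 0x3000000400000000000000000000000000000000000000000000000000) (nat_lit 2)
theorem c24449 : QOK q24449 := cut [] trivial (nd (nat_lit 228) (nat_lit 0) (cs (lf (nat_lit 0) (nat_lit 202)) (lf (nat_lit 5) (nat_lit 203)))) q24449 (by decide +kernel)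
def q24529 : Q := Q.p (nat_lit 0x400001000000000038000000000000000000000000000000000000000000000000000) (nat_lit 0x40000000000a0000000000000000000000000000000000000000000000) (nat_lit 2)
theorem c24529 : QOK q24529 := cut [] trivial (nd (nat_lit 230) (nat_lit 0) (cs (lf (nat_lit 35) (nat_lit 186)) (lf (nat_lit 47) (nat_lit 185)))) q24529 (by decide +kernel)
def q24566 : Q := Q.p (nat_lit 0x3c00002000000000000000000000000000000000000000000000000000000000000000) (nat_lit 0x3800004000001000000000000000000000000000000000000000000000000000000000000000) (nat_lit 3)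
theorem c24566 : QOK q24566 := cut [] trivial (nd (nat_lit 300) (nat_lit 0) (cs (lf (nat_lit 4) (nat_lit 274)) (nd (nat_lit 278) (nat_lit 0) (cs (lf (nat_lit 23) (nat_lit 252)) (lf (nat_lit 5) (nat_lit 275)))))) q24566 (by decide +kernel)
def q24607 : Q := Q.p (nat_lit 0xc00002000002000028000000000000000000000000000000000000000000000000000) (nat_lit 0x10000040000100000200001800008000000000000000000000000000000000000000000000000000000000) (nat_lit 4)
theorem c24607 : QOK q24607 := cut [] trivial (nd (nat_lit 296) (nat_lit 0) (cs (lf (nat_lit 37) (nat_lit 208)) (nd (nat_lit 251) (nat_lit 0) (cs (lf (nat_lit 27) (nat_lit 207)) (nd (nat_lit 318) (nat_lit 0) (cs (lf (nat_lit 30) (nat_lit 252)) (lf (nat_lit 45) (nat_lit 229)))))))) q24607 (by decide +kernel)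
def q24673 : Q := Q.p (nat_lit 0x800001c000008000000000000000000000000000000000000000000000) (nat_lit 0x4000002000004000000000000000000000000000000000000000000000) (nat_lit 2)
theorem c24673 : QOK q24673 := cut [] trivial (nd (nat_lit 205) (nat_lit 0) (cs (lf (nat_lit 23) (nat_lit 182)) (lf (nat_lit 4) (nat_lit 205)))) q24673 (by decide +kernel)
def q24703 : Q := Q.p (nat_lit 0xc00003000008000000000000000000000000000000000000000000000000000000000) (nat_lit 0x100000000000000000000020000080000000000000000000000000000000000000000000000) (nat_lit 2)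
theorem c24703 : QOK q24703 := cut [] trivial (nd (nat_lit 209) (nat_lit 0) (cs (lf (nat_lit 36) (nat_lit 186)) (lf (nat_lit 41) (nat_lit 208)))) q24703 (by decide +kernel)
def q24718 : Q := Q.p (nat_lit 0x600000000020000078000000000000000000000000000000000000000000000000000) (nat_lit 0x100000000000800046000084000030000000000000000000000000000000000000000000000) (nat_lit 5)
theorem c24718 : QOK q24718 := cut [] trivial (nd (nat_lit 211) (nat_lit 0) (cs (lf (nat_lit 5) (nat_lit 208)) (nd (nat_lit 229) (nat_lit 0) (cs (lf (nat_lit 10) (nat_lit 207)) (nd (nat_lit 251) (nat_lit 0) (cs (lf (nat_lit 29) (nat_lit 207)) (nd (nat_lit 184) (nat_lit 0) (cs (lf (nat_lit 22) (nat_lit 184)) (lf (nat_lit 46) (nat_lit 184)))))))))) q24718 (by decide +kernel)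
def q24740 : Q := Q.p (nat_lit 0x800002000008000038000000000000000000000000000000000000000000000000000) (nat_lit 0x44000180000400000000000000000000000000000000000000000) (nat_lit 3)
theorem c24740 : QOK q24740 := cut [] trivial (nd (nat_lit 188) (nat_lit 0) (cs (lf (nat_lit 34) (nat_lit 187)) (nd (nat_lit 187) (nat_lit 0) (cs (lf (nat_lit 35) (nat_lit 165)) (lf (nat_lit 12) (nat_lit 184)))))) q24740 (by decide +kernel)
def q24766 : Q := Q.p (nat_lit 0x1e00001000000000010000000000000000000000000000000000000000000000000000) (nat_lit 0xc0000000000000004000000000000000000000000000000000000000000000000000000000) (nat_lit 2)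
theorem c24766 : QOK q24766 := cut [] trivial (nd (nat_lit 295) (nat_lit 0) (cs (lf (nat_lit 11) (nat_lit 272)) (lf (nat_lit 37) (nat_lit 207)))) q24766 (by decide +kernel)
def q24771 : Q := Q.p (nat_lit 0x400001000004000018000000000000000000000000000000000000000000000000000) (nat_lit 0x20000180000200000000002000000000000000000000000000000000000000000000000000000000) (nat_lit 3)
theorem c24771 : QOK q24771 := cut [] trivial (nd (nat_lit 295) (nat_lit 0) (cs (lf (nat_lit 40) (nat_lit 207)) (nd (nat_lit 296) (nat_lit 0) (cs (lf (nat_lit 41) (nat_lit 229)) (lf (nat_lit 46) (nat_lit 207)))))) q24771 (by decide +kernel)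
def q24867 : Q := Q.p (nat_lit 0x40000000000c00003000000000000000000000000000000000000000000000000000000000000000) (nat_lit 0x10000000000100000000000000008000000000000000000000000000000000000000000000000000000000) (nat_lit 2)
theorem c24867 : QOK q24867 := cut [] trivial (nd (nat_lit 296) (nat_lit 0) (cs (lf (nat_lit 35) (nat_lit 230)) (lf (nat_lit 30) (nat_lit 252)))) q24867 (by decide +kernel)
def q24868 : Q := Q.p (nat_lit 0x40000080000600001800000000000000000000000000000000000000000000000000000000000000) (nat_lit 0x18000020000000000000000000000000000000000000000000000000000000000000000000000000000000) (nat_lit 2)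
theorem c24868 : QOK q24868 := cut [] trivial (nd (nat_lit 317) (nat_lit 0) (cs (lf (nat_lit 29) (nat_lit 251)) (lf (nat_lit 30) (nat_lit 251)))) q24868 (by decide +kernel)
def q24874 : Q := Q.p (nat_lit 0x1e00002000008000000000000000000000000000000000000000000000000000000000) (nat_lit 0xc00000000000000000000020000000000000000000000000000000000000000000000000000) (nat_lit 2)
theorem c24874 : QOK q24874 := cut [] trivial (nd (nat_lit 298) (nat_lit 0) (cs (lf (nat_lit 5) (nat_lit 273)) (lf (nat_lit 24) (nat_lit 209)))) q24874 (by decide +kernel)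
def q24943 : Q := Q.p (nat_lit 0x6000018000020000000000000000000000000000000000000000) (nat_lit 0x8000000000200000dc0000f0000300000000000000000000000000000) (nat_lit 7)
theorem c24943 : QOK q24943 := cut [] trivial (nd (nat_lit 139) (nat_lit 0) (cs (lf (nat_lit 24) (nat_lit 117)) (nd (nat_lit 138) (nat_lit 0) (cs (lf (nat_lit 47) (nat_lit 116)) (nd (nat_lit 160) (nat_lit 0) (cs (lf (nat_lit 42) (nat_lit 138)) (nd (nat_lit 159) (nat_lit 0) (cs (lf (nat_lit 0) (nat_lit 158)) (nd (nat_lit 162) (nat_lit 0) (cs (lf (nat_lit 5) (nat_lit 159)) (nd (nat_lit 137) (nat_lit 0) (cs (lf (nat_lit 0) (nat_lit 136)) (lf (nat_lit 18) (nat_lit 137)))))))))))))) q24943 (by decide +kernel)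
def q24978 : Q := Q.p (nat_lit 0x1c00003000008000000000000000000000000000000000000000000000000000) (nat_lit 0x400000000000000000000020000080000000000000000000000000000000000000000) (nat_lit 2)
theorem c24978 : QOK q24978 := cut [] trivial (nd (nat_lit 185) (nat_lit 0) (cs (lf (nat_lit 29) (nat_lit 185)) (lf (nat_lit 36) (nat_lit 162)))) q24978 (by decide +kernel)
def q25040 : Q := Q.p (nat_lit 0x18000038000000000000000000000000000000000000000000000000000) (nat_lit 0x64000000000000000000000000000000000000000000000000000000000) (nat_lit 2)
theorem c25040 : QOK q25040 := cut [] trivial (nd (nat_lit 233) (nat_lit 0) (cs (lf (nat_lit 18) (nat_lit 208)) (lf (nat_lit 21) (nat_lit 207)))) q25040 (by decide +kernel)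
def q25064 : Q := Q.p (nat_lit 0x11000038000000000000000000000000000000000000000000000000000) (nat_lit 0x8800004000000000000000000000000000000000000000000000000000) (nat_lit 2)
theorem c25064 : QOK q25064 := cut [] trivial (nd (nat_lit 206) (nat_lit 0) (cs (lf (nat_lit 11) (nat_lit 205)) (lf (nat_lit 4) (nat_lit 206)))) q25064 (by decide +kernel)
def q25072 : Q := Q.p (nat_lit 0x800002000000000038000100000000000000000000000000000000000000000000000) (nat_lit 0x8000040000200000000000000000000000000000000000000000000000) (nat_lit 2)
theorem c25072 : QOK q25072 := cut [] trivial (nd (nat_lit 210) (nat_lit 0) (cs (lf (nat_lit 17) (nat_lit 185)) (lf (nat_lit 32) (nat_lit 187)))) q25072 (by decide +kernel)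
def q25104 : Q := Q.p (nat_lit 0x78000000000000000000000000000000000000000000000000000000000000000000000000000000000000) (nat_lit 0x70000080000700000000000000000000000000000000000000000000000000000000000000000000000000000000) (nat_lit 4)
theorem c25104 : QOK q25104 := cut [] trivial (nd (nat_lit 365) (nat_lit 0) (cs (lf (nat_lit 4) (nat_lit 339)) (nd (nat_lit 321) (nat_lit 0) (cs (nd (nat_lit 343) (nat_lit 0) (cs (lf (nat_lit 5) (nat_lit 340)) (lf (nat_lit 17) (nat_lit 318)))) (lf (nat_lit 16) (nat_lit 317)))))) q25104 (by decide +kernel)
def q25115 : Q := Q.p (nat_lit 0x20000080000e00000800000000000000000000000000000000000000000000000000000000000000) (nat_lit 0x1000000400001000000000000000000000000000000000000000000000000000000000) (nat_lit 2)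
theorem c25115 : QOK q25115 := cut [] trivial (nd (nat_lit 250) (nat_lit 0) (cs (lf (nat_lit 18) (nat_lit 250)) (lf (nat_lit 47) (nat_lit 228)))) q25115 (by decide +kernel)
def q25116 : Q := Q.p (nat_lit 0x10000080000200000800000000010000000000000000000000000000000000000000000000000000) (nat_lit 0x40000000000000006000000000000000000000000000000000000000000000000000000000) (nat_lit 2)
theorem c25116 : QOK q25116 := cut [] trivial (nd (nat_lit 229) (nat_lit 0) (cs (lf (nat_lit 34) (nat_lit 207)) (lf (nat_lit 40) (nat_lit 228)))) q25116 (by decide +kernel)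
def q25134 : Q := Q.p (nat_lit 0x80000300000c0000200000000000000000000000000000000000000000000000000000000000000000000) (nat_lit 0xc00003000004000000000000000000000000000000000000000000000000000000000000000000000000000000000000) (nat_lit 3)
theorem c25134 : QOK q25134 := cut [] trivial (nd (nat_lit 361) (nat_lit 0) (cs (nd (nat_lit 360) (nat_lit 0) (cs (lf (nat_lit 41) (nat_lit 294)) (lf (nat_lit 31) (nat_lit 272)))) (lf (nat_lit 42) (nat_lit 294)))) q25134 (by decide +kernel)
def q25138 : Q := Q.p (nat_lit 0x380000c0000600000000000000000000000000000000000000000000000000000000000000000000) (nat_lit 0x6000038000000000000000000000000000000000000000000000000000000000000000000000000) (nat_lit 3)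
theorem c25138 : QOK q25138 := cut [] trivial (nd (nat_lit 292) (nat_lit 0) (cs (lf (nat_lit 13) (nat_lit 270)) (nd (nat_lit 314) (nat_lit 0) (cs (lf (nat_lit 12) (nat_lit 291)) (lf (nat_lit 23) (nat_lit 291)))))) q25138 (by decide +kernel)
def q25139 : Q := Q.p (nat_lit 0x700000c0000000000000000000000000000000000000000000000000000000000000000000000000) (nat_lit 0x180000020000000000000000000000000000000000000000000000000000000000000000000000000) (nat_lit 2)
theorem c25139 : QOK q25139 := cut [] trivial (nd (nat_lit 319) (nat_lit 0) (cs (lf (nat_lit 23) (nat_lit 293)) (lf (nat_lit 18) (nat_lit 294)))) q25139 (by decide +kernel)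
def q25147 : Q := Q.p (nat_lit 0x10000060000080000200000000000000000000000000000000000000000000000000000000000000000000) (nat_lit 0x1000004000008000000000000000000000000000000000000000000000000000000000000000000000000000000000000) (nat_lit 2)
theorem c25147 : QOK q25147 := cut [] trivial (nd (nat_lit 362) (nat_lit 0) (cs (lf (nat_lit 27) (nat_lit 273)) (lf (nat_lit 42) (nat_lit 295)))) q25147 (by decide +kernel)
def q25159 : Q := Q.p (nat_lit 0x1c000030000000000000000000000000000000000000000000000000000000000000000000000000000000) (nat_lit 0x2000000c000000000000000000000000000000000000000000000000000000000000000000000000000000) (nat_lit 2)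
theorem c25159 : QOK q25159 := cut [] trivial (nd (nat_lit 315) (nat_lit 0) (cs (lf (nat_lit 18) (nat_lit 315)) (lf (nat_lit 0) (nat_lit 314)))) q25159 (by decide +kernel)
def q25187 : Q := Q.p (nat_lit 0x80000200000800001000010000000000000000000000000000000000000000000000000000) (nat_lit 0x6000004000000000000000000000000000000000000000000000000000) (nat_lit 2)
theorem c25187 : QOK q25187 := cut [] trivial (nd (nat_lit 229) (nat_lit 0) (cs (lf (nat_lit 34) (nat_lit 207)) (lf (nat_lit 47) (nat_lit 206)))) q25187 (by decide +kernel)
def q25202 : Q := Q.p (nat_lit 0x8000020000080000200000000000000000000000000000000000000000000000000000000000000000000) (nat_lit 0x1400007000014000000000000000000000000000000000000000000000000000000000000000000000000000000000000) (nat_lit 4)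
theorem c25202 : QOK q25202 := cut [] trivial (nd (nat_lit 362) (nat_lit 0) (cs (lf (nat_lit 28) (nat_lit 273)) (nd (nat_lit 360) (nat_lit 0) (cs (lf (nat_lit 40) (nat_lit 272)) (nd (nat_lit 361) (nat_lit 0) (cs (lf (nat_lit 29) (nat_lit 295)) (lf (nat_lit 41) (nat_lit 294)))))))) q25202 (by decide +kernel)
def q25252 : Q := Q.p (nat_lit 0x7c000000000000000000000000000000000000000000000000000000000000000000000000000000) (nat_lit 0x38000000000000000000000000000000000000000000000000000000000000000000000000) (nat_lit 2)
theorem c25252 : QOK q25252 := cut [] trivial (nd (nat_lit 292) (nat_lit 0) (cs (lf (nat_lit 23) (nat_lit 291)) (lf (nat_lit 22) (nat_lit 292)))) q25252 (by decide +kernel)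
def q25276 : Q := Q.p (nat_lit 0x7c000000000000000000000000000000000000000000000000000000000000000000000000000000) (nat_lit 0x3800000000000000000000000000000000000000000000000000000000000000000000000000000000000) (nat_lit 2)
theorem c25276 : QOK q25276 := cut [] trivial (nd (nat_lit 336) (nat_lit 0) (cs (lf (nat_lit 11) (nat_lit 313)) (lf (nat_lit 10) (nat_lit 314)))) q25276 (by decide +kernel)
def q25324 : Q := Q.p (nat_lit 0x10000000000200000c00002000000000000000000000000000000000000000000000000000000000000000) (nat_lit 0xc0000100000000000000000000000000000000000000000000000000000000000000000000000000) (nat_lit 2)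
theorem c25324 : QOK q25324 := cut [] trivial (nd (nat_lit 318) (nat_lit 0) (cs (lf (nat_lit 39) (nat_lit 252)) (lf (nat_lit 32) (nat_lit 252)))) q25324 (by decide +kernel)
def q25331 : Q := Q.p (nat_lit 0x3c000000000200000400000000000000000000000000000000000000000000000000000000000000000000) (nat_lit 0x18000000000180000100000000000000000000000000000000000000000000000000000000000000000000000000) (nat_lit 3)
theorem c25331 : QOK q25331 := cut [] trivial (nd (nat_lit 363) (nat_lit 0) (cs (lf (nat_lit 5) (nat_lit 338)) (nd (nat_lit 319) (nat_lit 0) (cs (lf (nat_lit 46) (nat_lit 274)) (lf (nat_lit 17) (nat_lit 316)))))) q25331 (by decide +kernel)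
def q25335 : Q := Q.p (nat_lit 0x3c000000000080000200000000000000000000000000000000000000000000000000000000000000000000) (nat_lit 0x40000038000000000000000800000000000000000000000000000000000000000000000000000000000000) (nat_lit 3)
theorem c25335 : QOK q25335 := cut [] trivial (nd (nat_lit 316) (nat_lit 0) (cs (lf (nat_lit 23) (nat_lit 315)) (nd (nat_lit 317) (nat_lit 0) (cs (lf (nat_lit 36) (nat_lit 250)) (lf (nat_lit 18) (nat_lit 316)))))) q25335 (by decide +kernel)
def q25367 : Q := Q.p (nat_lit 0x1f0000000000000000000000000000000000000000000000000000000000000000000000000000000000000) (nat_lit 0xe0000000000000000000000000000000000000000000000000000000000000000000000000000000000000000000) (nat_lit 2)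
theorem c25367 : QOK q25367 := cut [] trivial (nd (nat_lit 366) (nat_lit 0) (cs (lf (nat_lit 4) (nat_lit 340)) (lf (nat_lit 5) (nat_lit 341)))) q25367 (by decide +kernel)
def q25408 : Q := Q.p (nat_lit 0x20000100000400001000002000000000000000000000000000000000000000000000000000000000) (nat_lit 0x80000000000000004000008000000000000000000000000000000000000000000000000000) (nat_lit 2)
theorem c25408 : QOK q25408 := cut [] trivial (nd (nat_lit 230) (nat_lit 0) (cs (lf (nat_lit 47) (nat_lit 207)) (lf (nat_lit 40) (nat_lit 229)))) q25408 (by decide +kernel)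
def q25431 : Q := Q.p (nat_lit 0x60000380000000000000000000000000000000000000000000000000000000000000000000000000) (nat_lit 0x18000400000000000000000000000000000000000000000000000000000000000000000000000000) (nat_lit 2)
theorem c25431 : QOK q25431 := cut [] trivial (nd (nat_lit 316) (nat_lit 0) (cs (lf (nat_lit 6) (nat_lit 294)) (lf (nat_lit 12) (nat_lit 293)))) q25431 (by decide +kernel)
def q25440 : Q := Q.p (nat_lit 0x3c0000100000400001000000000000000000000000000000000000000000000000000000000000000) (nat_lit 0x8000020001c00000000000000000000000000000000000000000000000000000000000000000000000000) (nat_lit 3)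
theorem c25440 : QOK q25440 := cut [] trivial (nd (nat_lit 299) (nat_lit 0) (cs (lf (nat_lit 17) (nat_lit 296)) (nd (nat_lit 317) (nat_lit 0) (cs (lf (nat_lit 16) (nat_lit 295)) (lf (nat_lit 41) (nat_lit 251)))))) q25440 (by decide +kernel)
def q25476 : Q := Q.p (nat_lit 0x78000000000000000000000000000000000000000000000000000000000000000000000000000000000000) (nat_lit 0x3800004000038000000000000000000000000000000000000000000000000000000000000000000000000000000) (nat_lit 4)
theorem c25476 : QOK q25476 := cut [] trivial (nd (nat_lit 316) (nat_lit 0) (cs (lf (nat_lit 22) (nat_lit 316)) (nd (nat_lit 360) (nat_lit 0) (cs (lf (nat_lit 10) (nat_lit 338)) (nd (nat_lit 338) (nat_lit 0) (cs (lf (nat_lit 23) (nat_lit 315)) (lf (nat_lit 11) (nat_lit 337)))))))) q25476 (by decide +kernel)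
def q25479 : Q := Q.p (nat_lit 0x78000000000000000000000000000000000000000000000000000000000000000000000000000000000000) (nat_lit 0x38000004000038000000000000000000000000000000000000000000000000000000000000000000000000000000) (nat_lit 4)
theorem c25479 : QOK q25479 := cut [] trivial (nd (nat_lit 316) (nat_lit 0) (cs (lf (nat_lit 22) (nat_lit 316)) (nd (nat_lit 364) (nat_lit 0) (cs (lf (nat_lit 5) (nat_lit 339)) (nd (nat_lit 338) (nat_lit 0) (cs (lf (nat_lit 23) (nat_lit 315)) (lf (nat_lit 4) (nat_lit 338)))))))) q25479 (by decide +kernel)
def q25486 : Q := Q.p (nat_lit 0xf0000000000000000000000000000000000000000000000000000000000000000000000000000000000000) (nat_lit 0x77000008000000000000000000000000000000000000000000000000000000000000000000000000000000000000) (nat_lit 4)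
theorem c25486 : QOK q25486 := cut [] trivial (nd (nat_lit 365) (nat_lit 0) (cs (lf (nat_lit 5) (nat_lit 340)) (nd (nat_lit 339) (nat_lit 0) (cs (lf (nat_lit 4) (nat_lit 339)) (nd (nat_lit 361) (nat_lit 0) (cs (lf (nat_lit 11) (nat_lit 338)) (lf (nat_lit 10) (nat_lit 339)))))))) q25486 (by decide +kernel)
def q25509 : Q := Q.p (nat_lit 0x1e000000000000000000000000000000000000000000000000000000000000000000000000000000000000) (nat_lit 0xe0000100000e000000000000000000000000000000000000000000000000000000000000000000000000000000) (nat_lit 4)
theorem c25509 : QOK q25509 := cut [] trivial (nd (nat_lit 314) (nat_lit 0) (cs (nd (nat_lit 358) (nat_lit 0) (cs (lf (nat_lit 10) (nat_lit 336)) (nd (nat_lit 336) (nat_lit 0) (cs (lf (nat_lit 11) (nat_lit 335)) (lf (nat_lit 23) (nat_lit 313)))))) (lf (nat_lit 22) (nat_lit 314)))) q25509 (by decide +kernel)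
def q25512 : Q := Q.p (nat_lit 0x1f000000000000000000000000000000000000000000000000000000000000000000000000000000000000) (nat_lit 0xe000000000000000000000000000000000000000000000000000000000000000000000000000000000000000000) (nat_lit 2)
theorem c25512 : QOK q25512 := cut [] trivial (nd (nat_lit 362) (nat_lit 0) (cs (lf (nat_lit 4) (nat_lit 336)) (lf (nat_lit 5) (nat_lit 337)))) q25512 (by decide +kernel)
def q25518 : Q := Q.p (nat_lit 0x1e000000000000000000000000000000000000000000000000000000000000000000000000000000000000) (nat_lit 0x1dc00020000000000000000000000000000000000000000000000000000000000000000000000000000000000000) (nat_lit 4)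
theorem c25518 : QOK q25518 := cut [] trivial (nd (nat_lit 363) (nat_lit 0) (cs (lf (nat_lit 4) (nat_lit 337)) (nd (nat_lit 359) (nat_lit 0) (cs (lf (nat_lit 11) (nat_lit 336)) (nd (nat_lit 341) (nat_lit 0) (cs (lf (nat_lit 5) (nat_lit 338)) (lf (nat_lit 10) (nat_lit 337)))))))) q25518 (by decide +kernel)
def q25521 : Q := Q.p (nat_lit 0x1c0000c0000000000000000000000000000000000000000000000000000000000000000000000000000000) (nat_lit 0x20000300000000000000000000000000000000000000000000000000000000000000000000000000000000) (nat_lit 2)
theorem c25521 : QOK q25521 := cut [] trivial (nd (nat_lit 320) (nat_lit 0) (cs (lf (nat_lit 15) (nat_lit 316)) (lf (nat_lit 6) (nat_lit 317)))) q25521 (by decide +kernel)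
def q25540 : Q := Q.p (nat_lit 0x40000100000000003c000000000000000000000000000000000000000000000000000) (nat_lit 0x4000000000180000000000000000000000000000000000000000000000) (nat_lit 2)
theorem c25540 : QOK q25540 := cut [] trivial (nd (nat_lit 187) (nat_lit 0) (cs (lf (nat_lit 17) (nat_lit 184)) (lf (nat_lit 32) (nat_lit 186)))) q25540 (by decide +kernel)
def q25590 : Q := Q.p (nat_lit 0x40000300000c00000000000000000000000000000000000000000000000000000000000000) (nat_lit 0x4000010000000000000000000002000000000000000000000000000000000000000000000000000000000) (nat_lit 2)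
theorem c25590 : QOK q25590 := cut [] trivial (nd (nat_lit 316) (nat_lit 0) (cs (lf (nat_lit 30) (nat_lit 250)) (lf (nat_lit 35) (nat_lit 228)))) q25590 (by decide +kernel)
def q25629 : Q := Q.p (nat_lit 0x40000100000000001e000000000000000000000000000000000000000000000000000) (nat_lit 0x4e00001800037000000000000000000000000000000000000000000000) (nat_lit 6)
theorem c25629 : QOK q25629 := cut [] trivial (nd (nat_lit 226) (nat_lit 0) (cs (lf (nat_lit 10) (nat_lit 204)) (nd (nat_lit 204) (nat_lit 0) (cs (lf (nat_lit 11) (nat_lit 203)) (nd (nat_lit 181) (nat_lit 0) (cs (lf (nat_lit 22) (nat_lit 181)) (nd (nat_lit 203) (nat_lit 0) (cs (lf (nat_lit 23) (nat_lit 180)) (nd (nat_lit 185) (nat_lit 0) (cs (lf (nat_lit 44) (nat_lit 185)) (lf (nat_lit 16) (nat_lit 181)))))))))))) q25629 (by decide +kernel)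
def q25634 : Q := Q.p (nat_lit 0x100000200000800006000000000000000000000000000000000000000000000000000) (nat_lit 0x40000080000000000000000000010000000000000000000000000000000000000000000000) (nat_lit 2)
theorem c25634 : QOK q25634 := cut [] trivial (nd (nat_lit 271) (nat_lit 0) (cs (lf (nat_lit 29) (nat_lit 205)) (lf (nat_lit 35) (nat_lit 183)))) q25634 (by decide +kernel)
def q25656 : Q := Q.p (nat_lit 0x400001800002000008000000000000000000000000000000000000000000000000000) (nat_lit 0x40000100000000000000004000000000000000000000000000000000000000000000000000000000) (nat_lit 2)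
theorem c25656 : QOK q25656 := cut [] trivial (nd (nat_lit 296) (nat_lit 0) (cs (lf (nat_lit 42) (nat_lit 229)) (lf (nat_lit 45) (nat_lit 207)))) q25656 (by decide +kernel)
def q25661 : Q := Q.p (nat_lit 0x1e0000000000400001000000000000000000000000000000000000000000000000000000000000000) (nat_lit 0xc000000000100000000000000000000000000000000000000000000000000000000000000000000000000) (nat_lit 2)
theorem c25661 : QOK q25661 := cut [] trivial (nd (nat_lit 339) (nat_lit 0) (cs (lf (nat_lit 11) (nat_lit 316)) (lf (nat_lit 38) (nat_lit 251)))) q25661 (by decide +kernel)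
def q25687 : Q := Q.p (nat_lit 0x1c0000000001800003000000000000000000000000000000000000000000000000000000000000000) (nat_lit 0xee000030000400000000000c00000000000000000000000000000000000000000000000000000000000000) (nat_lit 6)
theorem c25687 : QOK q25687 := cut [] trivial (nd (nat_lit 250) (nat_lit 0) (cs (lf (nat_lit 1) (nat_lit 250)) (nd (nat_lit 342) (nat_lit 0) (cs (lf (nat_lit 44) (nat_lit 253)) (nd (nat_lit 317) (nat_lit 0) (cs (lf (nat_lit 5) (nat_lit 317)) (nd (nat_lit 338) (nat_lit 0) (cs (lf (nat_lit 10) (nat_lit 316)) (nd (nat_lit 316) (nat_lit 0) (cs (lf (nat_lit 11) (nat_lit 315)) (lf (nat_lit 4) (nat_lit 316)))))))))))) q25687 (by decide +kernel)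
def q25721 : Q := Q.p (nat_lit 0x80000000000400001000004000000000000000000000000000000000000000000000) (nat_lit 0x28000060000380000000000000000000000000000000000000000000000000000000000000) (nat_lit 4)
theorem c25721 : QOK q25721 := cut [] trivial (nd (nat_lit 248) (nat_lit 0) (cs (lf (nat_lit 28) (nat_lit 182)) (nd (nat_lit 270) (nat_lit 0) (cs (lf (nat_lit 29) (nat_lit 204)) (nd (nat_lit 269) (nat_lit 0) (cs (lf (nat_lit 40) (nat_lit 181)) (lf (nat_lit 41) (nat_lit 203)))))))) q25721 (by decide +kernel)
def q25767 : Q := Q.p (nat_lit 0x40000100003c00002000000000000000000000000000000000000000000000000000000000) (nat_lit 0x1800008000000000000000000000000000000000000000000000000000) (nat_lit 2)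
theorem c25767 : QOK q25767 := cut [] trivial (nd (nat_lit 228) (nat_lit 0) (cs (lf (nat_lit 23) (nat_lit 227)) (lf (nat_lit 35) (nat_lit 206)))) q25767 (by decide +kernel)
def q25774 : Q := Q.p (nat_lit 0x40000100000400001000004000000000000000000000000000000000000000000000000000) (nat_lit 0x2000008000020000000000000000000000000000000000000000000000) (nat_lit 2)
theorem c25774 : QOK q25774 := cut [] trivial (nd (nat_lit 207) (nat_lit 0) (cs (lf (nat_lit 35) (nat_lit 184)) (lf (nat_lit 34) (nat_lit 206)))) q25774 (by decide +kernel)
def q25805 : Q := Q.p (nat_lit 0x10000040000100001c000010000000000000000000000000000000000000000000000) (nat_lit 0x22000008000000000000000000000000000000000000000000000) (nat_lit 2)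
theorem c25805 : QOK q25805 := cut [] trivial (nd (nat_lit 183) (nat_lit 0) (cs (lf (nat_lit 18) (nat_lit 183)) (lf (nat_lit 46) (nat_lit 183)))) q25805 (by decide +kernel)
def q25810 : Q := Q.p (nat_lit 0x100003c00000000008000020000000000000000000000000000000000000000000000) (nat_lit 0x1800004000000000000000000000000000000000000000000000000000) (nat_lit 2)
theorem c25810 : QOK q25810 := cut [] trivial (nd (nat_lit 228) (nat_lit 0) (cs (lf (nat_lit 33) (nat_lit 184)) (lf (nat_lit 23) (nat_lit 227)))) q25810 (by decide +kernel)
def q25816 : Q := Q.p (nat_lit 0x100000400001000004000010000000000000000000000000000000000000000000000) (nat_lit 0x8000020000080000000000000000000000000000000000000000) (nat_lit 2)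
theorem c25816 : QOK q25816 := cut [] trivial (nd (nat_lit 185) (nat_lit 0) (cs (lf (nat_lit 35) (nat_lit 162)) (lf (nat_lit 34) (nat_lit 184)))) q25816 (by decide +kernel)
def q25847 : Q := Q.p (nat_lit 0x200000d00003000000000000000000000000000000000000000000000000000000000000000) (nat_lit 0x400000280000000000000000000000000000000000000000000000000000000000000000000) (nat_lit 2)
theorem c25847 : QOK q25847 := cut [] trivial (nd (nat_lit 273) (nat_lit 0) (cs (lf (nat_lit 12) (nat_lit 249)) (lf (nat_lit 5) (nat_lit 272)))) q25847 (by decide +kernel)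
def q25889 : Q := Q.p (nat_lit 0x1c0000600000600001000000000000000000000000000000000000000000000000000000000000000) (nat_lit 0x80000300000c0000000000000000000000000000000000000000000000000000000000000000000000000) (nat_lit 3)
theorem c25889 : QOK q25889 := cut [] trivial (nd (nat_lit 317) (nat_lit 0) (cs (lf (nat_lit 12) (nat_lit 294)) (nd (nat_lit 295) (nat_lit 0) (cs (lf (nat_lit 30) (nat_lit 251)) (lf (nat_lit 23) (nat_lit 294)))))) q25889 (by decide +kernel)
def q25894 : Q := Q.p (nat_lit 0x100000600000800002000000000000000000000000000000000000000000000000000000000000000) (nat_lit 0x10000040000000000000001000000000000000000000000000000000000000000000000000000000000000000000) (nat_lit 2)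
theorem c25894 : QOK q25894 := cut [] trivial (nd (nat_lit 342) (nat_lit 0) (cs (lf (nat_lit 45) (nat_lit 253)) (lf (nat_lit 42) (nat_lit 275)))) q25894 (by decide +kernel)
def q25922 : Q := Q.p (nat_lit 0x200001e00002000000000010000000000000000000000000000000000000000000000000000) (nat_lit 0x48000330000dc0000000001000004000000000000000000000000000000000000000000000000000000000) (nat_lit 7)
theorem c25922 : QOK q25922 := cut [] trivial (nd (nat_lit 298) (nat_lit 0) (cs (lf (nat_lit 5) (nat_lit 273)) (nd (nat_lit 320) (nat_lit 0) (cs (lf (nat_lit 42) (nat_lit 253)) (nd (nat_lit 295) (nat_lit 0) (cs (lf (nat_lit 11) (nat_lit 272)) (nd (nat_lit 296) (nat_lit 0) (cs (lf (nat_lit 5) (nat_lit 295)) (nd (nat_lit 317) (nat_lit 0) (cs (lf (nat_lit 11) (nat_lit 294)) (nd (nat_lit 252) (nat_lit 0) (cs (lf (nat_lit 30) (nat_lit 251)) (lf (nat_lit 25) (nat_lit 208)))))))))))))) q25922 (by decide +kernel)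
def q25932 : Q := Q.p (nat_lit 0xc0000280000e00001000000000000000000000000000000000000000000000000000000000000000) (nat_lit 0x8000030001c00001000000000000000000000000000000000000000000000000000000000000000000000) (nat_lit 4)
theorem c25932 : QOK q25932 := cut [] trivial (nd (nat_lit 317) (nat_lit 0) (cs (lf (nat_lit 30) (nat_lit 251)) (nd (nat_lit 298) (nat_lit 0) (cs (lf (nat_lit 12) (nat_lit 294)) (nd (nat_lit 299) (nat_lit 0) (cs (lf (nat_lit 6) (nat_lit 296)) (lf (nat_lit 3) (nat_lit 273)))))))) q25932 (by decide +kernel)
def q25935 : Q := Q.p (nat_lit 0xe0000200000600000000000000000000000000000000000000000000000000000000000000000000) (nat_lit 0x10001d00000000000000000000000000000000000000000000000000000000000000000000000000) (nat_lit 3)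
theorem c25935 : QOK q25935 := cut [] trivial (nd (nat_lit 298) (nat_lit 0) (cs (lf (nat_lit 12) (nat_lit 294)) (nd (nat_lit 299) (nat_lit 0) (cs (lf (nat_lit 6) (nat_lit 296)) (lf (nat_lit 21) (nat_lit 273)))))) q25935 (by decide +kernel)
def q25972 : Q := Q.p (nat_lit 0x380000c00000000000000000000000000000000000000000000000000000000000000000000) (nat_lit 0x40003000000000000000000000000000000000000000000000000000000000000000000000) (nat_lit 2)
theorem c25972 : QOK q25972 := cut [] trivial (nd (nat_lit 276) (nat_lit 0) (cs (lf (nat_lit 12) (nat_lit 272)) (lf (nat_lit 6) (nat_lit 273)))) q25972 (by decide +kernel)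
def q25982 : Q := Q.p (nat_lit 0x300000c00002000000000010000000000000000000000000000000000000000000000000000) (nat_lit 0x380000f8000400000000001000004000000000000000000000000000000000000000000000000000000000) (nat_lit 6)
theorem c25982 : QOK q25982 := cut [] trivial (nd (nat_lit 318) (nat_lit 0) (cs (lf (nat_lit 30) (nat_lit 252)) (nd (nat_lit 252) (nat_lit 0) (cs (lf (nat_lit 25) (nat_lit 208)) (nd (nat_lit 317) (nat_lit 0) (cs (lf (nat_lit 41) (nat_lit 251)) (nd (nat_lit 316) (nat_lit 0) (cs (lf (nat_lit 12) (nat_lit 293)) (nd (nat_lit 319) (nat_lit 0) (cs (lf (nat_lit 29) (nat_lit 252)) (lf (nat_lit 17) (nat_lit 294)))))))))))) q25982 (by decide +kernel)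
def q25999 : Q := Q.p (nat_lit 0x3e000000000000000000000000000000000000000000000000000000000000000000000000000000000000) (nat_lit 0x1c00000000000000000000000000000000000000000000000000000000000000000000000000000000000000000) (nat_lit 2)
theorem c25999 : QOK q25999 := cut [] trivial (nd (nat_lit 359) (nat_lit 0) (cs (lf (nat_lit 11) (nat_lit 336)) (lf (nat_lit 10) (nat_lit 337)))) q25999 (by decide +kernel)
def q26056 : Q := Q.p (nat_lit 0x800002000008000034000000000000000000000000000000000000000000000000000) (nat_lit 0x48000180000400000000000000000000000000000000000000000) (nat_lit 3)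
theorem c26056 : QOK q26056 := cut [] trivial (nd (nat_lit 188) (nat_lit 0) (cs (lf (nat_lit 34) (nat_lit 187)) (nd (nat_lit 187) (nat_lit 0) (cs (lf (nat_lit 35) (nat_lit 165)) (lf (nat_lit 13) (nat_lit 184)))))) q26056 (by decide +kernel)
def q26063 : Q := Q.p (nat_lit 0x800001c00008000000000000000000000000000000000000000000000000000000000) (nat_lit 0x400000200004000000000000000000000000000000000000000000000000000000000) (nat_lit 2)
theorem c26063 : QOK q26063 := cut [] trivial (nd (nat_lit 249) (nat_lit 0) (cs (lf (nat_lit 4) (nat_lit 249)) (lf (nat_lit 16) (nat_lit 227)))) q26063 (by decide +kernel)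
def q26069 : Q := Q.p (nat_lit 0x10000020000080000200001000000000000000000000000000000000000000000000000000000000000000000000) (nat_lit 0x4000008000000000000000400000000000000000000000000000000000000000000000000000000000000000000000000) (nat_lit 2)
theorem c26069 : QOK q26069 := cut [] trivial (nd (nat_lit 363) (nat_lit 0) (cs (lf (nat_lit 29) (nat_lit 297)) (lf (nat_lit 34) (nat_lit 275)))) q26069 (by decide +kernel)
def q26075 : Q := Q.p (nat_lit 0x600001800002000000000000000000000000000000000000000000000000000000000000000) (nat_lit 0x100000000000000000000008000020000000000000000000000000000000000000000000000000000) (nat_lit 2)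
theorem c26075 : QOK q26075 := cut [] trivial (nd (nat_lit 231) (nat_lit 0) (cs (lf (nat_lit 29) (nat_lit 231)) (lf (nat_lit 24) (nat_lit 209)))) q26075 (by decide +kernel)
def q26099 : Q := Q.p (nat_lit 0x20000180000600000000000000000000000000000000000000000000000000000000000000000000000000) (nat_lit 0x2000008000000000000000000001000000000000000000000000000000000000000000000000000000000000000000000) (nat_lit 2)
theorem c26099 : QOK q26099 := cut [] trivial (nd (nat_lit 363) (nat_lit 0) (cs (lf (nat_lit 30) (nat_lit 297)) (lf (nat_lit 35) (nat_lit 275)))) q26099 (by decide +kernel)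
def q26111 : Q := Q.p (nat_lit 0x80000060000100000400001000000000000000000000000000000000000000000000000000000000) (nat_lit 0x8000070000080000000000000000000000000000000000000000000000000000000000000000000000000) (nat_lit 3)
theorem c26111 : QOK q26111 := cut [] trivial (nd (nat_lit 317) (nat_lit 0) (cs (lf (nat_lit 28) (nat_lit 228)) (nd (nat_lit 316) (nat_lit 0) (cs (lf (nat_lit 29) (nat_lit 250)) (lf (nat_lit 19) (nat_lit 293)))))) q26111 (by decide +kernel)
def q26144 : Q := Q.p (nat_lit 0x8000020000040000100000400000000000000000000000000000000000000000000000000000000000000) (nat_lit 0x2000000000000000080000200000000000000000000000000000000000000000000000000000000000000000000) (nat_lit 2)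
theorem c26144 : QOK q26144 := cut [] trivial (nd (nat_lit 295) (nat_lit 0) (cs (lf (nat_lit 42) (nat_lit 272)) (lf (nat_lit 45) (nat_lit 250)))) q26144 (by decide +kernel)
def q26151 : Q := Q.p (nat_lit 0x8000000000040000100000400001000000000000000000000000000000000000000000000000000000000) (nat_lit 0x30000080000000000000000000000000000000000000000000000000000000000000000000000000) (nat_lit 2)
theorem c26151 : QOK q26151 := cut [] trivial (nd (nat_lit 317) (nat_lit 0) (cs (lf (nat_lit 28) (nat_lit 228)) (lf (nat_lit 27) (nat_lit 250)))) q26151 (by decide +kernel)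
def q26172 : Q := Q.p (nat_lit 0x800003c00000000010000000000000000000000000000000000000000000000000000) (nat_lit 0x20000000000020001c000000000000000000000000000000000000000000000000000000000) (nat_lit 3)
theorem c26172 : QOK q26172 := cut [] trivial (nd (nat_lit 231) (nat_lit 0) (cs (lf (nat_lit 17) (nat_lit 228)) (nd (nat_lit 230) (nat_lit 0) (cs (lf (nat_lit 42) (nat_lit 208)) (lf (nat_lit 12) (nat_lit 227)))))) q26172 (by decide +kernel)
def q26176 : Q := Q.p (nat_lit 0xa00000600001000004000000000000000000000000000000000000000000000000000) (nat_lit 0x80000500000000000000000000000000000000000000000000000000000000000000000000) (nat_lit 2)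
theorem c26176 : QOK q26176 := cut [] trivial (nd (nat_lit 272) (nat_lit 0) (cs (lf (nat_lit 29) (nat_lit 206)) (lf (nat_lit 19) (nat_lit 249)))) q26176 (by decide +kernel)
def q26187 : Q := Q.p (nat_lit 0x900000400001000004000000000000000000000000000000000000000000000000000) (nat_lit 0x80000e00006800008000000000000000300000c0000200000000000000000000000000000000000) (nat_lit 7)
theorem c26187 : QOK q26187 := cut [] trivial (nd (nat_lit 273) (nat_lit 0) (cs (lf (nat_lit 29) (nat_lit 206)) (nd (nat_lit 184) (nat_lit 0) (cs (lf (nat_lit 28) (nat_lit 184)) (nd (nat_lit 163) (nat_lit 0) (cs (lf (nat_lit 34) (nat_lit 162)) (nd (nat_lit 141) (nat_lit 0) (cs (lf (nat_lit 33) (nat_lit 140)) (nd (nat_lit 293) (nat_lit 0) (cs (lf (nat_lit 40) (nat_lit 205)) (nd (nat_lit 294) (nat_lit 0) (cs (lf (nat_lit 41) (nat_lit 227)) (lf (nat_lit 7) (nat_lit 271)))))))))))))) q26187 (by decide +kernel)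
def q26190 : Q := Q.p (nat_lit 0x400000e00000400000000000000000000000000000000000000000000000000000000000000) (nat_lit 0x800001000000800000000000000000000000000000000000000000000000000000000000000) (nat_lit 2)
theorem c26190 : QOK q26190 := cut [] trivial (nd (nat_lit 276) (nat_lit 0) (cs (lf (nat_lit 5) (nat_lit 273)) (lf (nat_lit 22) (nat_lit 250)))) q26190 (by decide +kernel)
def q26195 : Q := Q.p (nat_lit 0x200001000004000010000080000000000000000000000000000000000000000) (nat_lit 0x800000000000000040000200000000000000000000000000000000000) (nat_lit 2)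
theorem c26195 : QOK q26195 := cut [] trivial (nd (nat_lit 162) (nat_lit 0) (cs (lf (nat_lit 35) (nat_lit 140)) (lf (nat_lit 40) (nat_lit 161)))) q26195 (by decide +kernel)
def q26199 : Q := Q.p (nat_lit 0x700003000000000000000000000000000000000000000000000000000000000) (nat_lit 0xc800000000000000000000000000000000000000000000000000000000) (nat_lit 2)
theorem c26199 : QOK q26199 := cut [] trivial (nd (nat_lit 230) (nat_lit 0) (cs (lf (nat_lit 6) (nat_lit 227)) (lf (nat_lit 9) (nat_lit 226)))) q26199 (by decide +kernel)
def q26203 : Q := Q.p (nat_lit 0x80000300001400004000000000000000000000000000000000000000000000000000) (nat_lit 0x8000020000000000000000800000000000000000000000000000000000000000000000000000000) (nat_lit 2)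
theorem c26203 : QOK q26203 := cut [] trivial (nd (nat_lit 293) (nat_lit 0) (cs (lf (nat_lit 42) (nat_lit 226)) (lf (nat_lit 33) (nat_lit 205)))) q26203 (by decide +kernel)
def q26206 : Q := Q.p (nat_lit 0xc0000700000000000000000000000000000000000000000000000000000000000000) (nat_lit 0x30000800000000000000000000000000000000000000000000000000000000000000) (nat_lit 2)
theorem c26206 : QOK q26206 := cut [] trivial (nd (nat_lit 269) (nat_lit 0) (cs (lf (nat_lit 12) (nat_lit 246)) (lf (nat_lit 6) (nat_lit 247)))) q26206 (by decide +kernel)
def q26208 : Q := Q.p (nat_lit 0x100000c0000300000400000000000000000000000000000000000000000000000000000000) (nat_lit 0x1800006000008000000000000000000000000000000000000000000000000000000000000000000000000) (nat_lit 3)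
theorem c26208 : QOK q26208 := cut [] trivial (nd (nat_lit 313) (nat_lit 0) (cs (lf (nat_lit 40) (nat_lit 225)) (nd (nat_lit 314) (nat_lit 0) (cs (lf (nat_lit 30) (nat_lit 248)) (lf (nat_lit 41) (nat_lit 247)))))) q26208 (by decide +kernel)
def q26217 : Q := Q.p (nat_lit 0x80000700001400000000000000000000000000000000000000000000000000000000) (nat_lit 0x8000020000040000000000000001000004000000000000000000000000000000000000000000000) (nat_lit 3)
theorem c26217 : QOK q26217 := cut [] trivial (nd (nat_lit 204) (nat_lit 0) (cs (lf (nat_lit 24) (nat_lit 182)) (nd (nat_lit 293) (nat_lit 0) (cs (lf (nat_lit 27) (nat_lit 204)) (lf (nat_lit 30) (nat_lit 227)))))) q26217 (by decide +kernel)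
def q26229 : Q := Q.p (nat_lit 0x100000400001800000000000000000000000000000000000000000000000000) (nat_lit 0x40000000000200000000002000008000020000000000000000000000000000000000) (nat_lit 3)
theorem c26229 : QOK q26229 := cut [] trivial (nd (nat_lit 181) (nat_lit 0) (cs (lf (nat_lit 42) (nat_lit 181)) (nd (nat_lit 159) (nat_lit 0) (cs (lf (nat_lit 27) (nat_lit 159)) (lf (nat_lit 24) (nat_lit 137)))))) q26229 (by decide +kernel)
def q26233 : Q := Q.p (nat_lit 0xf00003000004000000000000000000000000000000000000000000000000000) (nat_lit 0x80000600000000000000000000000000000000000000000000000000000000000000000000) (nat_lit 2)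
theorem c26233 : QOK q26233 := cut [] trivial (nd (nat_lit 273) (nat_lit 0) (cs (lf (nat_lit 42) (nat_lit 206)) (lf (nat_lit 5) (nat_lit 248)))) q26233 (by decide +kernel)
def q26239 : Q := Q.p (nat_lit 0x380001100000000000000000000000000000000000000000000000000000000) (nat_lit 0x40000880000000000000000000000000000000000000000000000000000000) (nat_lit 2)
theorem c26239 : QOK q26239 := cut [] trivial (nd (nat_lit 246) (nat_lit 0) (cs (lf (nat_lit 16) (nat_lit 224)) (lf (nat_lit 23) (nat_lit 223)))) q26239 (by decide +kernel)
def q26243 : Q := Q.p (nat_lit 0x780001000000000000000000000000000000000000000000000000000000000) (nat_lit 0x38000040000800000000000000000000000000000000000000000000000000000000) (nat_lit 3)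
theorem c26243 : QOK q26243 := cut [] trivial (nd (nat_lit 268) (nat_lit 0) (cs (lf (nat_lit 10) (nat_lit 246)) (nd (nat_lit 246) (nat_lit 0) (cs (lf (nat_lit 11) (nat_lit 245)) (lf (nat_lit 16) (nat_lit 224)))))) q26243 (by decide +kernel)
def q26270 : Q := Q.p (nat_lit 0x20000040000100000400000800000000000000000000000000000000000000000000000000000000) (nat_lit 0x8000010000000000000000200000000000000000000000000000000000000000000000000000000000000) (nat_lit 2)
theorem c26270 : QOK q26270 := cut [] trivial (nd (nat_lit 316) (nat_lit 0) (cs (lf (nat_lit 29) (nat_lit 250)) (lf (nat_lit 46) (nat_lit 227)))) q26270 (by decide +kernel)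
def q26281 : Q := Q.p (nat_lit 0xb00002400000000010000000000000000000000000000000000000000000000000000) (nat_lit 0x66000040000120000c000000000000000000000000000000000000000000000000000000000) (nat_lit 5)
theorem c26281 : QOK q26281 := cut [] trivial (nd (nat_lit 274) (nat_lit 0) (cs (lf (nat_lit 23) (nat_lit 249)) (nd (nat_lit 293) (nat_lit 0) (cs (lf (nat_lit 10) (nat_lit 271)) (nd (nat_lit 297) (nat_lit 0) (cs (lf (nat_lit 5) (nat_lit 272)) (nd (nat_lit 230) (nat_lit 0) (cs (lf (nat_lit 45) (nat_lit 208)) (lf (nat_lit 26) (nat_lit 208)))))))))) q26281 (by decide +kernel)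
def q26330 : Q := Q.p (nat_lit 0xb00000c00000000000000000000000000000000000000000000000000000000000000) (nat_lit 0x1400000200000000000000000000000000000000000000000000000000000000000000) (nat_lit 2)
theorem c26330 : QOK q26330 := cut [] trivial (nd (nat_lit 274) (nat_lit 0) (cs (lf (nat_lit 23) (nat_lit 249)) (lf (nat_lit 18) (nat_lit 250)))) q26330 (by decide +kernel)
def q26337 : Q := Q.p (nat_lit 0x60000900000c00000000000000000000000000000000000000000000000000000000000000) (nat_lit 0x4000010000000000600000000002000000000000000000000000000000000000000000000000000000000) (nat_lit 3)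
theorem c26337 : QOK q26337 := cut [] trivial (nd (nat_lit 316) (nat_lit 0) (cs (lf (nat_lit 35) (nat_lit 228)) (nd (nat_lit 273) (nat_lit 0) (cs (lf (nat_lit 30) (nat_lit 250)) (lf (nat_lit 7) (nat_lit 271)))))) q26337 (by decide +kernel)
def q26366 : Q := Q.p (nat_lit 0x200000800002000008000034000000000000000000000000000000000000000000000000000) (nat_lit 0x10000048000000000000000000000000000000000000000000000000000) (nat_lit 2)
theorem c26366 : QOK q26366 := cut [] trivial (nd (nat_lit 232) (nat_lit 0) (cs (lf (nat_lit 1) (nat_lit 206)) (lf (nat_lit 35) (nat_lit 209)))) q26366 (by decide +kernel)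
def q26399 : Q := Q.p (nat_lit 0x200000800006000010000000000000000000000000000000000000000000000000000000000000000) (nat_lit 0x8000040000100000000000000000000000000000000000000000000000000000) (nat_lit 2)
theorem c26399 : QOK q26399 := cut [] trivial (nd (nat_lit 234) (nat_lit 0) (cs (lf (nat_lit 36) (nat_lit 211)) (lf (nat_lit 33) (nat_lit 233)))) q26399 (by decide +kernel)
def q26405 : Q := Q.p (nat_lit 0x400001800006000000000000000000000000000000000000000000000000000000000000000000000) (nat_lit 0x100000000000000000000008000020000000000000000000000000000000000000000000000000000000000) (nat_lit 2)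
theorem c26405 : QOK q26405 := cut [] trivial (nd (nat_lit 255) (nat_lit 0) (cs (lf (nat_lit 42) (nat_lit 255)) (lf (nat_lit 24) (nat_lit 233)))) q26405 (by decide +kernel)
def q26447 : Q := Q.p (nat_lit 0x1800006000010000000000000000000000000000000000000000000000) (nat_lit 0x200000000000000000000040000100000000000000000000000000000000000) (nat_lit 2)
theorem c26447 : QOK q26447 := cut [] trivial (nd (nat_lit 162) (nat_lit 0) (cs (lf (nat_lit 41) (nat_lit 161)) (lf (nat_lit 36) (nat_lit 139)))) q26447 (by decide +kernel)
def q26458 : Q := Q.p (nat_lit 0x60000180000200000000000000000000000000000000000000000000000000000000) (nat_lit 0x10000000000000000000000800002000000000000000000000000000000000000000000000) (nat_lit 2)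
theorem c26458 : QOK q26458 := cut [] trivial (nd (nat_lit 203) (nat_lit 0) (cs (lf (nat_lit 24) (nat_lit 181)) (lf (nat_lit 29) (nat_lit 203)))) q26458 (by decide +kernel)
def q26472 : Q := Q.p (nat_lit 0x80000200000180001e000000000000000000000000000000000000000000000000000) (nat_lit 0x20000040000100000e000000000020000000000000000000000000000000000000000000000) (nat_lit 4)
theorem c26472 : QOK q26472 := cut [] trivial (nd (nat_lit 230) (nat_lit 0) (cs (lf (nat_lit 5) (nat_lit 205)) (nd (nat_lit 252) (nat_lit 0) (cs (lf (nat_lit 2) (nat_lit 227)) (nd (nat_lit 274) (nat_lit 0) (cs (lf (nat_lit 47) (nat_lit 185)) (lf (nat_lit 29) (nat_lit 208)))))))) q26472 (by decide +kernel)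
def q26482 : Q := Q.p (nat_lit 0x2000001800006000010000040000000000000000000000000000000000000000) (nat_lit 0x180000e000000000000000000000000000000000000000000000000000000000) (nat_lit 3)
theorem c26482 : QOK q26482 := cut [] trivial (nd (nat_lit 229) (nat_lit 0) (cs (lf (nat_lit 29) (nat_lit 162)) (nd (nat_lit 230) (nat_lit 0) (cs (lf (nat_lit 18) (nat_lit 205)) (lf (nat_lit 4) (nat_lit 227)))))) q26482 (by decide +kernel)
def q26517 : Q := Q.p (nat_lit 0x200001800002000008000000000000000000000000000000000000000000000) (nat_lit 0x400001c0006400000000000000000000000000000000000000000000000000000000) (nat_lit 4)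
theorem c26517 : QOK q26517 := cut [] trivial (nd (nat_lit 248) (nat_lit 0) (cs (lf (nat_lit 41) (nat_lit 182)) (nd (nat_lit 229) (nat_lit 0) (cs (nd (nat_lit 247) (nat_lit 0) (cs (lf (nat_lit 12) (nat_lit 224)) (lf (nat_lit 9) (nat_lit 225)))) (lf (nat_lit 6) (nat_lit 226)))))) q26517 (by decide +kernel)
def q26519 : Q := Q.p (nat_lit 0x200001800006000008000000000000000000000000000000000000000000000) (nat_lit 0x40000100000400000000000000020000080000000000000000000000000000000000) (nat_lit 3)
theorem c26519 : QOK q26519 := cut [] trivial (nd (nat_lit 248) (nat_lit 0) (cs (lf (nat_lit 41) (nat_lit 182)) (nd (nat_lit 161) (nat_lit 0) (cs (lf (nat_lit 24) (nat_lit 139)) (lf (nat_lit 40) (nat_lit 160)))))) q26519 (by decide +kernel)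
def q26522 : Q := Q.p (nat_lit 0x200001800006000008000000000000000000000000000000000000000000000) (nat_lit 0x40000300000c0000000000000000000000000000000000) (nat_lit 3)
theorem c26522 : QOK q26522 := cut [] trivial (nd (nat_lit 160) (nat_lit 0) (cs (lf (nat_lit 46) (nat_lit 160)) (nd (nat_lit 161) (nat_lit 0) (cs (lf (nat_lit 24) (nat_lit 139)) (lf (nat_lit 47) (nat_lit 138)))))) q26522 (by decide +kernel)
def q26577 : Q := Q.p (nat_lit 0x400001800006000000000000000000000000000000000000000000000000000) (nat_lit 0x600001800002000000000000000300000c0000300000000000000000000000000000000000) (nat_lit 6)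
theorem c26577 : QOK q26577 := cut [] trivial (nd (nat_lit 272) (nat_lit 0) (cs (lf (nat_lit 42) (nat_lit 205)) (nd (nat_lit 271) (nat_lit 0) (cs (lf (nat_lit 41) (nat_lit 205)) (nd (nat_lit 184) (nat_lit 0) (cs (lf (nat_lit 31) (nat_lit 183)) (nd (nat_lit 163) (nat_lit 0) (cs (lf (nat_lit 34) (nat_lit 162)) (nd (nat_lit 162) (nat_lit 0) (cs (lf (nat_lit 35) (nat_lit 140)) (lf (nat_lit 36) (nat_lit 139)))))))))))) q26577 (by decide +kernel)
def q26597 : Q := Q.p (nat_lit 0x400001800006000000000000000000000000000000000000000000000000000) (nat_lit 0x100000000000000000000008000020000000000000000000000000000000000000000) (nat_lit 2)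
theorem c26597 : QOK q26597 := cut [] trivial (nd (nat_lit 183) (nat_lit 0) (cs (lf (nat_lit 42) (nat_lit 183)) (lf (nat_lit 24) (nat_lit 161)))) q26597 (by decide +kernel)
def q26606 : Q := Q.p (nat_lit 0x600001a00002000008000000000000000000000000000000000000000000000) (nat_lit 0x400001c0000100000000000000000000000000000000000000000000000000000000) (nat_lit 3)
theorem c26606 : QOK q26606 := cut [] trivial (nd (nat_lit 248) (nat_lit 0) (cs (lf (nat_lit 41) (nat_lit 182)) (nd (nat_lit 247) (nat_lit 0) (cs (lf (nat_lit 23) (nat_lit 224)) (lf (nat_lit 12) (nat_lit 224)))))) q26606 (by decide +kernel)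
def q26622 : Q := Q.p (nat_lit 0x800002000004000016000000000000000000000000000000000000000000000000000) (nat_lit 0x200000000000000008000008000000000000000000000000000000000000000000000000000) (nat_lit 2)
theorem c26622 : QOK q26622 := cut [] trivial (nd (nat_lit 231) (nat_lit 0) (cs (lf (nat_lit 42) (nat_lit 208)) (lf (nat_lit 2) (nat_lit 205)))) q26622 (by decide +kernel)
def q26652 : Q := Q.p (nat_lit 0x7c00000000000000000000000000000000000000000000000000) (nat_lit 0x38000000000000000000000000000000000000000000000) (nat_lit 2)
theorem c26652 : QOK q26652 := cut [] trivial (nd (nat_lit 184) (nat_lit 0) (cs (lf (nat_lit 17) (nat_lit 181)) (lf (nat_lit 16) (nat_lit 180)))) q26652 (by decide +kernel)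
def q26658 : Q := Q.p (nat_lit 0x20000080000600001000000000000000000000000000000000000000000000000000) (nat_lit 0x100000000000000004000010000000000000000000000000000000000000000) (nat_lit 2)
theorem c26658 : QOK q26658 := cut [] trivial (nd (nat_lit 182) (nat_lit 0) (cs (lf (nat_lit 36) (nat_lit 159)) (lf (nat_lit 39) (nat_lit 181)))) q26658 (by decide +kernel)
def q26702 : Q := Q.p (nat_lit 0x400007800000000000000000000000000000000000000000000000000) (nat_lit 0x40000100000000000000007000008000020000000000000000000000000000000000) (nat_lit 4)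
theorem c26702 : QOK q26702 := cut [] trivial (nd (nat_lit 181) (nat_lit 0) (cs (lf (nat_lit 23) (nat_lit 180)) (nd (nat_lit 159) (nat_lit 0) (cs (lf (nat_lit 24) (nat_lit 137)) (nd (nat_lit 248) (nat_lit 0) (cs (lf (nat_lit 42) (nat_lit 181)) (lf (nat_lit 45) (nat_lit 159)))))))) q26702 (by decide +kernel)
def q26704 : Q := Q.p (nat_lit 0x80000600001800000000000000000000000000000000000000000000000000) (nat_lit 0x20000000000000000000004000010000000000000000000000000000000000000000) (nat_lit 2)
theorem c26704 : QOK q26704 := cut [] trivial (nd (nat_lit 182) (nat_lit 0) (cs (lf (nat_lit 30) (nat_lit 181)) (lf (nat_lit 36) (nat_lit 159)))) q26704 (by decide +kernel)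
def q26738 : Q := Q.p (nat_lit 0x80000200001800004000000000000000000000000000000000000000000000) (nat_lit 0x400000000000000010000040000000000000000000000000000000000) (nat_lit 2)
theorem c26738 : QOK q26738 := cut [] trivial (nd (nat_lit 160) (nat_lit 0) (cs (lf (nat_lit 36) (nat_lit 137)) (lf (nat_lit 39) (nat_lit 159)))) q26738 (by decide +kernel)
def q26780 : Q := Q.p (nat_lit 0x1000006000010000040000000000000000000000000000000000000000) (nat_lit 0x200000800000000000000000000100000000000000000000000000000000000) (nat_lit 2)
theorem c26780 : QOK q26780 := cut [] trivial (nd (nat_lit 227) (nat_lit 0) (cs (lf (nat_lit 41) (nat_lit 161)) (lf (nat_lit 36) (nat_lit 139)))) q26780 (by decide +kernel)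
def q26795 : Q := Q.p (nat_lit 0x40000100000d000030000000000000000000000000000000000000000) (nat_lit 0x80000e000020000000000000000000000000000000000) (nat_lit 3)
theorem c26795 : QOK q26795 := cut [] trivial (nd (nat_lit 159) (nat_lit 0) (cs (lf (nat_lit 47) (nat_lit 137)) (nd (nat_lit 158) (nat_lit 0) (cs (lf (nat_lit 11) (nat_lit 157)) (lf (nat_lit 0) (nat_lit 157)))))) q26795 (by decide +kernel)
def q26833 : Q := Q.p (nat_lit 0x800006000010000040000000000000000000000000000000000000000) (nat_lit 0x80000200000000000000008000000000000000000000000000000000000000000000) (nat_lit 2)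
theorem c26833 : QOK q26833 := cut [] trivial (nd (nat_lit 249) (nat_lit 0) (cs (lf (nat_lit 30) (nat_lit 183)) (lf (nat_lit 33) (nat_lit 161)))) q26833 (by decide +kernel)
def q26857 : Q := Q.p (nat_lit 0x4000007000000000000000000000000000000000000000000000000000) (nat_lit 0x3800008800000000000000000000000000000000000000000000000000) (nat_lit 3)
theorem c26857 : QOK q26857 := cut [] trivial (nd (nat_lit 229) (nat_lit 0) (cs (lf (nat_lit 3) (nat_lit 204)) (nd (nat_lit 228) (nat_lit 0) (cs (lf (nat_lit 0) (nat_lit 203)) (lf (nat_lit 21) (nat_lit 204)))))) q26857 (by decide +kernel)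
def q26861 : Q := Q.p (nat_lit 0x7000006000000000000000000000000000000000000000000000) (nat_lit 0x800001800000000000000000000000000000000000000000000) (nat_lit 2)
theorem c26861 : QOK q26861 := cut [] trivial (nd (nat_lit 180) (nat_lit 0) (cs (lf (nat_lit 21) (nat_lit 180)) (lf (nat_lit 0) (nat_lit 179)))) q26861 (by decide +kernel)
def q26869 : Q := Q.p (nat_lit 0x80000200000c000020000000000000000000000000000000000000000) (nat_lit 0x200000000000000000000010000040000000000000000000000000000000000) (nat_lit 2)
theorem c26869 : QOK q26869 := cut [] trivial (nd (nat_lit 160) (nat_lit 0) (cs (lf (nat_lit 47) (nat_lit 138)) (lf (nat_lit 42) (nat_lit 160)))) q26869 (by decide +kernel)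
def q26872 : Q := Q.p (nat_lit 0x380000c000000000000000000000000000000000000000000000) (nat_lit 0x400030000000000000000000000000000000000000000000000) (nat_lit 2)
theorem c26872 : QOK q26872 := cut [] trivial (nd (nat_lit 184) (nat_lit 0) (cs (lf (nat_lit 12) (nat_lit 180)) (lf (nat_lit 6) (nat_lit 181)))) q26872 (by decide +kernel)
def q26883 : Q := Q.p (nat_lit 0x200007800004000010000000000000000000000000000000000000000) (nat_lit 0x80000000000000003000000000000000000000000000000000000000000000) (nat_lit 2)
theorem c26883 : QOK q26883 := cut [] trivial (nd (nat_lit 181) (nat_lit 0) (cs (lf (nat_lit 23) (nat_lit 180)) (lf (nat_lit 30) (nat_lit 159)))) q26883 (by decide +kernel)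
def q26928 : Q := Q.p (nat_lit 0x7800000000000000000000000000000000000000000000000000) (nat_lit 0x1f80000600001c00000000000000000000000000000000000000000000) (nat_lit 6)
theorem c26928 : QOK q26928 := cut [] trivial (nd (nat_lit 224) (nat_lit 0) (cs (lf (nat_lit 10) (nat_lit 202)) (nd (nat_lit 202) (nat_lit 0) (cs (lf (nat_lit 11) (nat_lit 201)) (nd (nat_lit 179) (nat_lit 0) (cs (nd (nat_lit 201) (nat_lit 0) (cs (nd (nat_lit 227) (nat_lit 0) (cs (lf (nat_lit 4) (nat_lit 201)) (lf (nat_lit 5) (nat_lit 202)))) (lf (nat_lit 23) (nat_lit 178)))) (lf (nat_lit 22) (nat_lit 179)))))))) q26928 (by decide +kernel)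
def q26933 : Q := Q.p (nat_lit 0x17c00000000000000000000000000000000000000000000000000) (nat_lit 0x1c00008200000000000000000000000000000000000000000000000000) (nat_lit 3)
theorem c26933 : QOK q26933 := cut [] trivial (nd (nat_lit 227) (nat_lit 0) (cs (lf (nat_lit 5) (nat_lit 202)) (nd (nat_lit 226) (nat_lit 0) (cs (lf (nat_lit 7) (nat_lit 204)) (lf (nat_lit 0) (nat_lit 201)))))) q26933 (by decide +kernel)
def q26948 : Q := Q.p (nat_lit 0x200000800002000008000020000000000000000000000000000000000000000) (nat_lit 0x40000100000400000000000000000000000000000000000000000000000000000000) (nat_lit 2)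
theorem c26948 : QOK q26948 := cut [] trivial (nd (nat_lit 248) (nat_lit 0) (cs (lf (nat_lit 41) (nat_lit 182)) (lf (nat_lit 40) (nat_lit 160)))) q26948 (by decide +kernel)
def q26953 : Q := Q.p (nat_lit 0x80000200000800006000000000000000000000000000000000000000000000000000) (nat_lit 0x4000030000040000000001000000000000000000000000000000000000000000000000000000000) (nat_lit 3)
theorem c26953 : QOK q26953 := cut [] trivial (nd (nat_lit 292) (nat_lit 0) (cs (lf (nat_lit 40) (nat_lit 204)) (nd (nat_lit 293) (nat_lit 0) (cs (lf (nat_lit 34) (nat_lit 205)) (lf (nat_lit 41) (nat_lit 226)))))) q26953 (by decide +kernel)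
def q26954 : Q := Q.p (nat_lit 0x80000200000800002000008000000000000000000000000000000000000000000000) (nat_lit 0x1000004000010000000000000000000000000000000000000000) (nat_lit 2)
theorem c26954 : QOK q26954 := cut [] trivial (nd (nat_lit 182) (nat_lit 0) (cs (lf (nat_lit 46) (nat_lit 182)) (lf (nat_lit 47) (nat_lit 160)))) q26954 (by decide +kernel)
def q26970 : Q := Q.p (nat_lit 0xc00003000004000000000000000000000000000000000000000000000) (nat_lit 0x200000000000000000000010000040000000000000000000000000000000000) (nat_lit 2)
theorem c26970 : QOK q26970 := cut [] trivial (nd (nat_lit 160) (nat_lit 0) (cs (lf (nat_lit 29) (nat_lit 160)) (lf (nat_lit 24) (nat_lit 138)))) q26970 (by decide +kernel)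
def q26974 : Q := Q.p (nat_lit 0x600007000000000000000000000000000000000000000000000000000) (nat_lit 0x180000800000000000000000000000000000000000000000000000000) (nat_lit 2)
theorem c26974 : QOK q26974 := cut [] trivial (nd (nat_lit 224) (nat_lit 0) (cs (lf (nat_lit 12) (nat_lit 201)) (lf (nat_lit 9) (nat_lit 202)))) q26974 (by decide +kernel)
def q26981 : Q := Q.p (nat_lit 0x600007000000000000000000000000000000000000000000000000000) (nat_lit 0x980000000000000000000000000000000000000000000000000000000) (nat_lit 2)
theorem c26981 : QOK q26981 := cut [] trivial (nd (nat_lit 224) (nat_lit 0) (cs (lf (nat_lit 12) (nat_lit 201)) (lf (nat_lit 15) (nat_lit 202)))) q26981 (by decide +kernel)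
def q26986 : Q := Q.p (nat_lit 0x1f00000000000000000000000000000000000000000000000000) (nat_lit 0xe00000000000000000000000000000000000000000000) (nat_lit 2)
theorem c26986 : QOK q26986 := cut [] trivial (nd (nat_lit 178) (nat_lit 0) (cs (lf (nat_lit 22) (nat_lit 178)) (lf (nat_lit 23) (nat_lit 177)))) q26986 (by decide +kernel)
def q27007 : Q := Q.p (nat_lit 0x80000600000c000030000000000000000000000000000000000000000) (nat_lit 0x4000010000000000100001c0000700000000000000000000000000000000000) (nat_lit 5)
theorem c27007 : QOK q27007 := cut [] trivial (nd (nat_lit 228) (nat_lit 0) (cs (lf (nat_lit 29) (nat_lit 161)) (nd (nat_lit 162) (nat_lit 0) (cs (lf (nat_lit 35) (nat_lit 139)) (nd (nat_lit 163) (nat_lit 0) (cs (lf (nat_lit 6) (nat_lit 160)) (nd (nat_lit 141) (nat_lit 0) (cs (lf (nat_lit 17) (nat_lit 138)) (lf (nat_lit 32) (nat_lit 140)))))))))) q27007 (by decide +kernel)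
def q27025 : Q := Q.p (nat_lit 0x3000004000010000000000000000000000000000000000000000) (nat_lit 0x8000000000080000000000c0000300000800000000000000000000000) (nat_lit 4)
theorem c27025 : QOK q27025 := cut [] trivial (nd (nat_lit 138) (nat_lit 0) (cs (lf (nat_lit 29) (nat_lit 138)) (nd (nat_lit 117) (nat_lit 0) (cs (lf (nat_lit 34) (nat_lit 116)) (nd (nat_lit 116) (nat_lit 0) (cs (lf (nat_lit 35) (nat_lit 94)) (lf (nat_lit 28) (nat_lit 116)))))))) q27025 (by decide +kernel)
def q27027 : Q := Q.p (nat_lit 0x1000004000010000040000100000000000000000000000000000) (nat_lit 0x20000080000200000000000000000000000) (nat_lit 2)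
theorem c27027 : QOK q27027 := cut [] trivial (nd (nat_lit 115) (nat_lit 0) (cs (lf (nat_lit 46) (nat_lit 115)) (lf (nat_lit 47) (nat_lit 93)))) q27027 (by decide +kernel)
def q27031 : Q := Q.p (nat_lit 0xc00007000004000010000000000000000000000000000000000000000) (nat_lit 0x80000300000000000000000000000000000000000000000000000000000000) (nat_lit 2)
theorem c27031 : QOK q27031 := cut [] trivial (nd (nat_lit 225) (nat_lit 0) (cs (lf (nat_lit 12) (nat_lit 202)) (lf (nat_lit 41) (nat_lit 159)))) q27031 (by decide +kernel)
def q27055 : Q := Q.p (nat_lit 0x1000004000030000080000000000000000000000000000000000) (nat_lit 0x8000000000000000200000800000000000000000000000) (nat_lit 2)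
theorem c27055 : QOK q27055 := cut [] trivial (nd (nat_lit 117) (nat_lit 0) (cs (lf (nat_lit 36) (nat_lit 94)) (lf (nat_lit 39) (nat_lit 116)))) q27055 (by decide +kernel)
def q27078 : Q := Q.p (nat_lit 0x3e00000000000000000000000000000000000000000000000000) (nat_lit 0x1c00000000000000000000000000000000000000000000) (nat_lit 2)
theorem c27078 : QOK q27078 := cut [] trivial (nd (nat_lit 179) (nat_lit 0) (cs (lf (nat_lit 23) (nat_lit 178)) (lf (nat_lit 22) (nat_lit 179)))) q27078 (by decide +kernel)
def q27140 : Q := Q.p (nat_lit 0xf800000000000000000000000000000000000000000000000000) (nat_lit 0x700000000000000000000000000000000000000000000000000000000) (nat_lit 2)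
theorem c27140 : QOK q27140 := cut [] trivial (nd (nat_lit 225) (nat_lit 0) (cs (lf (nat_lit 11) (nat_lit 202)) (lf (nat_lit 10) (nat_lit 203)))) q27140 (by decide +kernel)
def q27150 : Q := Q.p (nat_lit 0x800006000018000020000000000000000000000000000000000000000) (nat_lit 0x40000180000600000000000000000000000000000) (nat_lit 3)
theorem c27150 : QOK q27150 := cut [] trivial (nd (nat_lit 139) (nat_lit 0) (cs (lf (nat_lit 24) (nat_lit 117)) (nd (nat_lit 140) (nat_lit 0) (cs (lf (nat_lit 35) (nat_lit 117)) (lf (nat_lit 37) (nat_lit 139)))))) q27150 (by decide +kernel)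
def q27160 : Q := Q.p (nat_lit 0x800006000018000020000000000000000000000000000000000000000) (nat_lit 0x100000c0000300000000000000000000000000000) (nat_lit 3)
theorem c27160 : QOK q27160 := cut [] trivial (nd (nat_lit 138) (nat_lit 0) (cs (lf (nat_lit 46) (nat_lit 138)) (nd (nat_lit 139) (nat_lit 0) (cs (lf (nat_lit 24) (nat_lit 117)) (lf (nat_lit 47) (nat_lit 116)))))) q27160 (by decide +kernel)
def q27167 : Q := Q.p (nat_lit 0x7800006000000000000000000000000000000000000000000000) (nat_lit 0x80000300000000000000010000040000000000000000000000000000000000) (nat_lit 3)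
theorem c27167 : QOK q27167 := cut [] trivial (nd (nat_lit 225) (nat_lit 0) (cs (lf (nat_lit 11) (nat_lit 202)) (nd (nat_lit 160) (nat_lit 0) (cs (lf (nat_lit 36) (nat_lit 137)) (lf (nat_lit 30) (nat_lit 159)))))) q27167 (by decide +kernel)
def q27180 : Q := Q.p (nat_lit 0x1c000010000000000000000000000000000000000000000) (nat_lit 0x2000002e000000000000000000000000000000000000000) (nat_lit 3)
theorem c27180 : QOK q27180 := cut [] trivial (nd (nat_lit 159) (nat_lit 0) (cs (lf (nat_lit 18) (nat_lit 159)) (nd (nat_lit 158) (nat_lit 0) (cs (lf (nat_lit 0) (nat_lit 157)) (lf (nat_lit 3) (nat_lit 158)))))) q27180 (by decide +kernel)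
def q27264 : Q := Q.p (nat_lit 0x80000600001e000000000000000000000000000000000000000000000) (nat_lit 0x700001e0000700001c0002000002c000000000000000000000000000000000000000) (nat_lit 9)
theorem c27264 : QOK q27264 := cut [] trivial (nd (nat_lit 158) (nat_lit 0) (cs (lf (nat_lit 22) (nat_lit 158)) (nd (nat_lit 203) (nat_lit 0) (cs (lf (nat_lit 11) (nat_lit 180)) (nd (nat_lit 204) (nat_lit 0) (cs (lf (nat_lit 17) (nat_lit 181)) (nd (nat_lit 225) (nat_lit 0) (cs (lf (nat_lit 11) (nat_lit 202)) (nd (nat_lit 247) (nat_lit 0) (cs (lf (nat_lit 30) (nat_lit 181)) (nd (nat_lit 248) (nat_lit 0) (cs (lf (nat_lit 29) (nat_lit 181)) (nd (nat_lit 226) (nat_lit 0) (cs (lf (nat_lit 35) (nat_lit 160)) (nd (nat_lit 246) (nat_lit 0) (cs (lf (nat_lit 41) (nat_lit 180)) (lf (nat_lit 12) (nat_lit 223)))))))))))))))))) q27264 (by decide +kernel)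
def q27268 : Q := Q.p (nat_lit 0x200000800002000008000020000000000000000000000000000000000) (nat_lit 0x4000010000040000000000000000000000000000) (nat_lit 2)
theorem c27268 : QOK q27268 := cut [] trivial (nd (nat_lit 136) (nat_lit 0) (cs (lf (nat_lit 46) (nat_lit 136)) (lf (nat_lit 47) (nat_lit 114)))) q27268 (by decide +kernel)
def q27277 : Q := Q.p (nat_lit 0x20000080000200000800002000000000000000000000000000000000000000000000) (nat_lit 0x4000010000040000000000000000000000000000000000000000000000000000000000000) (nat_lit 2)
theorem c27277 : QOK q27277 := cut [] trivial (nd (nat_lit 268) (nat_lit 0) (cs (lf (nat_lit 41) (nat_lit 202)) (lf (nat_lit 40) (nat_lit 180)))) q27277 (by decide +kernel)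
def q27289 : Q := Q.p (nat_lit 0x40000200000800002000004000000000000000000000000000000000000000) (nat_lit 0x100000000000000008000010000000000000000000000000000000000) (nat_lit 2)
theorem c27289 : QOK q27289 := cut [] trivial (nd (nat_lit 159) (nat_lit 0) (cs (lf (nat_lit 47) (nat_lit 136)) (lf (nat_lit 40) (nat_lit 158)))) q27289 (by decide +kernel)
def q27296 : Q := Q.p (nat_lit 0x200000c0000300000000000000000000000000000000000000000000000000000000) (nat_lit 0x2000008000000000000000000000400000000000000000000000000000000000000000000000000) (nat_lit 2)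
theorem c27296 : QOK q27296 := cut [] trivial (nd (nat_lit 291) (nat_lit 0) (cs (lf (nat_lit 42) (nat_lit 224)) (lf (nat_lit 47) (nat_lit 202)))) q27296 (by decide +kernel)
def q27361 : Q := Q.p (nat_lit 0x70000300000000000000000000000000000000000) (nat_lit 0x80000c00000000000000000000000000000000000) (nat_lit 2)
theorem c27361 : QOK q27361 := cut [] trivial (nd (nat_lit 142) (nat_lit 0) (cs (lf (nat_lit 6) (nat_lit 139)) (lf (nat_lit 15) (nat_lit 138)))) q27361 (by decide +kernel)
def q27363 : Q := Q.p (nat_lit 0x400003c0000000000000000000000000000000000) (nat_lit 0x180000020000000000000000000000000000000000) (nat_lit 2)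
theorem c27363 : QOK q27363 := cut [] trivial (nd (nat_lit 163) (nat_lit 0) (cs (lf (nat_lit 5) (nat_lit 138)) (lf (nat_lit 0) (nat_lit 137)))) q27363 (by decide +kernel)
def q27377 : Q := Q.p (nat_lit 0x4000010000050000300000000000000000000000000000000000) (nat_lit 0xa0000380002e0003a00004c0003380000000000000000000000000000) (nat_lit 11)
theorem c27377 : QOK q27377 := cut [] trivial (nd (nat_lit 205) (nat_lit 0) (cs (lf (nat_lit 41) (nat_lit 139)) (nd (nat_lit 139) (nat_lit 0) (cs (lf (nat_lit 47) (nat_lit 117)) (nd (nat_lit 142) (nat_lit 0) (cs (lf (nat_lit 10) (nat_lit 138)) (nd (nat_lit 120) (nat_lit 0) (cs (lf (nat_lit 17) (nat_lit 117)) (nd (nat_lit 164) (nat_lit 0) (cs (lf (nat_lit 5) (nat_lit 139)) (nd (nat_lit 138) (nat_lit 0) (cs (lf (nat_lit 4) (nat_lit 138)) (nd (nat_lit 116) (nat_lit 0) (cs (lf (nat_lit 23) (nat_lit 115)) (nd (nat_lit 182) (nat_lit 0) (cs (lf (nat_lit 28) (nat_lit 116)) (nd (nat_lit 203) (nat_lit 0) (cs (nd (nat_lit 204) (nat_lit 0) (cs (lf (nat_lit 17) (nat_lit 181)) (lf (nat_lit 41) (nat_lit 137)))) (lf (nat_lit 40) (nat_lit 115))))))))))))))))))))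 q27377 (by decide +kernel)
def q27380 : Q := Q.p (nat_lit 0x4000010000050000300000000000000000000000000000000000) (nat_lit 0x280000c0000200000000000000000000000000000) (nat_lit 3)
theorem c27380 : QOK q27380 := cut [] trivial (nd (nat_lit 159) (nat_lit 0) (cs (lf (nat_lit 14) (nat_lit 137)) (nd (nat_lit 139) (nat_lit 0) (cs (lf (nat_lit 47) (nat_lit 117)) (lf (nat_lit 9) (nat_lit 137)))))) q27380 (by decide +kernel)
def q27412 : Q := Q.p (nat_lit 0x1000004000010000040000000000000000000000000000000000000000) (nat_lit 0x800002000008000000000020000180000200000000000000000000000000000) (nat_lit 4)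
theorem c27412 : QOK q27412 := cut [] trivial (nd (nat_lit 139) (nat_lit 0) (cs (lf (nat_lit 46) (nat_lit 139)) (nd (nat_lit 229) (nat_lit 0) (cs (lf (nat_lit 29) (nat_lit 162)) (nd (nat_lit 140) (nat_lit 0) (cs (lf (nat_lit 47) (nat_lit 117)) (lf (nat_lit 28) (nat_lit 140)))))))) q27412 (by decide +kernel)
def q27512 : Q := Q.p (nat_lit 0x1c00014000000000000000000000000000000000000000000000000000) (nat_lit 0x20000a000000000000000000000000000000000000000000000000000) (nat_lit 2)
theorem c27512 : QOK q27512 := cut [] trivial (nd (nat_lit 207) (nat_lit 0) (cs (lf (nat_lit 12) (nat_lit 203)) (lf (nat_lit 9) (nat_lit 204)))) q27512 (by decide +kernel)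
def q27525 : Q := Q.p (nat_lit 0x400001800004000010000000000000000000000000000000000000000) (nat_lit 0x80000200000000000000000000040000000000000000000000000000000000) (nat_lit 2)
theorem c27525 : QOK q27525 := cut [] trivial (nd (nat_lit 225) (nat_lit 0) (cs (lf (nat_lit 41) (nat_lit 159)) (lf (nat_lit 36) (nat_lit 137)))) q27525 (by decide +kernel)
def q27562 : Q := Q.p (nat_lit 0x1000007000010000000000000000000000000000000000000000000000) (nat_lit 0x2000000800020000000000000000000000000000000000000000000000) (nat_lit 2)
theorem c27562 : QOK q27562 := cut [] trivial (nd (nat_lit 203) (nat_lit 0) (cs (lf (nat_lit 17) (nat_lit 181)) (lf (nat_lit 5) (nat_lit 203)))) q27562 (by decide +kernel)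
def q27566 : Q := Q.p (nat_lit 0x400001000004000010000040000000000000000000000000000000000) (nat_lit 0x8000020000080000000000000000000000000000) (nat_lit 2)
theorem c27566 : QOK q27566 := cut [] trivial (nd (nat_lit 137) (nat_lit 0) (cs (lf (nat_lit 47) (nat_lit 115)) (lf (nat_lit 46) (nat_lit 137)))) q27566 (by decide +kernel)
def q27571 : Q := Q.p (nat_lit 0x400001000004000010000040000000000000000000000000000000000) (nat_lit 0x80000200000800000000000000000000000000000000000000000000000000) (nat_lit 2)
theorem c27571 : QOK q27571 := cut [] trivial (nd (nat_lit 225) (nat_lit 0) (cs (lf (nat_lit 41) (nat_lit 159)) (lf (nat_lit 40) (nat_lit 137)))) q27571 (by decide +kernel)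
def q27575 : Q := Q.p (nat_lit 0x10000040000100000400001000000000000000000000000000000000000000000000000000) (nat_lit 0x2000008000020000000000000000000000000000000000000000000000000000000000000000000) (nat_lit 2)
theorem c27575 : QOK q27575 := cut [] trivial (nd (nat_lit 291) (nat_lit 0) (cs (lf (nat_lit 41) (nat_lit 225)) (lf (nat_lit 40) (nat_lit 203)))) q27575 (by decide +kernel)
def q27605 : Q := Q.p (nat_lit 0xc000030000040000000000000000000000000000000000) (nat_lit 0x2000000000000000000000100000400000000000000000000000) (nat_lit 2)
theorem c27605 : QOK q27605 := cut [] trivial (nd (nat_lit 116) (nat_lit 0) (cs (lf (nat_lit 24) (nat_lit 94)) (lf (nat_lit 29) (nat_lit 116)))) q27605 (by decide +kernel)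
def q27611 : Q := Q.p (nat_lit 0x6000078000000000000000000000000000000000000000) (nat_lit 0x1000000000000000030000080000200000000000000000000000) (nat_lit 3)
theorem c27611 : QOK q27611 := cut [] trivial (nd (nat_lit 137) (nat_lit 0) (cs (lf (nat_lit 23) (nat_lit 136)) (nd (nat_lit 115) (nat_lit 0) (cs (lf (nat_lit 29) (nat_lit 115)) (lf (nat_lit 24) (nat_lit 93)))))) q27611 (by decide +kernel)
def q27624 : Q := Q.p (nat_lit 0x180001c0000000000000000000000000000000000000000) (nat_lit 0x26000000000000000000000000000000000000000000000) (nat_lit 2)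
theorem c27624 : QOK q27624 := cut [] trivial (nd (nat_lit 182) (nat_lit 0) (cs (lf (nat_lit 12) (nat_lit 159)) (lf (nat_lit 15) (nat_lit 160)))) q27624 (by decide +kernel)
def q27674 : Q := Q.p (nat_lit 0x100003c000000000000000000000000000000000000000000000000000) (nat_lit 0x3a000040000000000000000000000000000000000000000000000000000) (nat_lit 3)
theorem c27674 : QOK q27674 := cut [] trivial (nd (nat_lit 232) (nat_lit 0) (cs (lf (nat_lit 4) (nat_lit 206)) (nd (nat_lit 210) (nat_lit 0) (cs (lf (nat_lit 10) (nat_lit 206)) (lf (nat_lit 5) (nat_lit 207)))))) q27674 (by decide +kernel)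
def q27687 : Q := Q.p (nat_lit 0x700001800000000000000000000000000000000000000000000000000000000) (nat_lit 0xc0002000000000000000000000000000000000000000000000000000000000) (nat_lit 2)
theorem c27687 : QOK q27687 := cut [] trivial (nd (nat_lit 247) (nat_lit 0) (cs (lf (nat_lit 12) (nat_lit 224)) (lf (nat_lit 17) (nat_lit 225)))) q27687 (by decide +kernel)
def q27694 : Q := Q.p (nat_lit 0x1800007000000000000000000000000000000000000000000000000000) (nat_lit 0x2000000c00000000000000000000000000000000000000000000000000) (nat_lit 2)
theorem c27694 : QOK q27694 := cut [] trivial (nd (nat_lit 203) (nat_lit 0) (cs (lf (nat_lit 0) (nat_lit 202)) (lf (nat_lit 5) (nat_lit 203)))) q27694 (by decide +kernel)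
def q27760 : Q := Q.p (nat_lit 0xa00000d00000000000000000000000000000000000000000000000000000000000000) (nat_lit 0x1400000200000000000000000000000000000000000000000000000000000000000000) (nat_lit 2)
theorem c27760 : QOK q27760 := cut [] trivial (nd (nat_lit 274) (nat_lit 0) (cs (lf (nat_lit 18) (nat_lit 250)) (lf (nat_lit 1) (nat_lit 248)))) q27760 (by decide +kernel)
def q27770 : Q := Q.p (nat_lit 0x800002c00008000000000000000000000000000000000000000000000000000000000) (nat_lit 0x1000001000010000000000000000000000000000000000000000000000000000000000) (nat_lit 2)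
theorem c27770 : QOK q27770 := cut [] trivial (nd (nat_lit 252) (nat_lit 0) (cs (lf (nat_lit 17) (nat_lit 228)) (lf (nat_lit 5) (nat_lit 250)))) q27770 (by decide +kernel)
def q27847 : Q := Q.p (nat_lit 0x400001000004000010000000000000000000000000000000000000000000000) (nat_lit 0x280000e0000280000000000000000000000000000000000) (nat_lit 4)
theorem c27847 : QOK q27847 := cut [] trivial (nd (nat_lit 161) (nat_lit 0) (cs (lf (nat_lit 46) (nat_lit 161)) (nd (nat_lit 163) (nat_lit 0) (cs (lf (nat_lit 34) (nat_lit 162)) (nd (nat_lit 162) (nat_lit 0) (cs (lf (nat_lit 35) (nat_lit 140)) (lf (nat_lit 47) (nat_lit 139)))))))) q27847 (by decide +kernel)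
def q27910 : Q := Q.p (nat_lit 0x400005000004000010000000000000000000000000000000000000000000000) (nat_lit 0x280000b00002000000000000000040000000000000000000000000000000000000000) (nat_lit 4)
theorem c27910 : QOK q27910 := cut [] trivial (nd (nat_lit 249) (nat_lit 0) (cs (lf (nat_lit 41) (nat_lit 183)) (nd (nat_lit 251) (nat_lit 0) (cs (lf (nat_lit 29) (nat_lit 184)) (nd (nat_lit 229) (nat_lit 0) (cs (lf (nat_lit 12) (nat_lit 226)) (lf (nat_lit 24) (nat_lit 162)))))))) q27910 (by decide +kernel)
def q27950 : Q := Q.p (nat_lit 0x80000300000c00000000000000000000000000000000000000000000000000000000000000000000000000000000) (nat_lit 0x20000000000000000000001000004000000000000000000000000000000000000000000000000000000000000000000000) (nat_lit 2)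
theorem c27950 : QOK q27950 := cut [] trivial (nd (nat_lit 300) (nat_lit 0) (cs (lf (nat_lit 42) (nat_lit 300)) (lf (nat_lit 24) (nat_lit 278)))) q27950 (by decide +kernel)
def q27956 : Q := Q.p (nat_lit 0x3e0000000000000000000000000000000000000000000000000000000000000000000000000000000000000) (nat_lit 0x1c000000000000000000000000000000000000000000000000000000000000000000000000000000000000000000) (nat_lit 2)
theorem c27956 : QOK q27956 := cut [] trivial (nd (nat_lit 363) (nat_lit 0) (cs (lf (nat_lit 10) (nat_lit 341)) (lf (nat_lit 11) (nat_lit 340)))) q27956 (by decide +kernel)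
def q27962 : Q := Q.p (nat_lit 0x10000380000100000000000000000000000000000000000000000000000000000000000000000000000000000000) (nat_lit 0x20000400000200000000000000000000000000000000000000000000000000000000000000000000000000000000) (nat_lit 2)
theorem c27962 : QOK q27962 := cut [] trivial (nd (nat_lit 346) (nat_lit 0) (cs (lf (nat_lit 22) (nat_lit 320)) (lf (nat_lit 10) (nat_lit 342)))) q27962 (by decide +kernel)
def q27970 : Q := Q.p (nat_lit 0x100000c0000400000e00000000000000000000000000000000000000000000000000000000000000000000000000) (nat_lit 0x200000100002000000000000000000000000000000000000000000000000000000000000000000000) (nat_lit 2)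
theorem c27970 : QOK q27970 := cut [] trivial (nd (nat_lit 321) (nat_lit 0) (cs (lf (nat_lit 36) (nat_lit 276)) (lf (nat_lit 0) (nat_lit 296)))) q27970 (by decide +kernel)
def q27974 : Q := Q.p (nat_lit 0x20000080000300000400000000000000000000000000000000000000000000000000000000000000000000000000000000) (nat_lit 0x40000000000000001000004000000000000000000000000000000000000000000000000000000000000000000000) (nat_lit 2)
theorem c27974 : QOK q27974 := cut [] trivial (nd (nat_lit 300) (nat_lit 0) (cs (lf (nat_lit 24) (nat_lit 278)) (lf (nat_lit 27) (nat_lit 300)))) q27974 (by decide +kernel)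
def q27990 : Q := Q.p (nat_lit 0x1c0000c00000000000000000000000000000000000000000000000000000000000000000000000000000000) (nat_lit 0x3200000000000000000000000000000000000000000000000000000000000000000000000000000000) (nat_lit 2)
theorem c27990 : QOK q27990 := cut [] trivial (nd (nat_lit 324) (nat_lit 0) (cs (lf (nat_lit 9) (nat_lit 320)) (lf (nat_lit 6) (nat_lit 321)))) q27990 (by decide +kernel)
def q27993 : Q := Q.p (nat_lit 0x40000f0000000000200000800000000000000000000000000000000000000000000000000000000000000000000) (nat_lit 0x60000100000000000000000000000000000000000000000000000000000000000000000000000000) (nat_lit 2)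
theorem c27993 : QOK q27993 := cut [] trivial (nd (nat_lit 318) (nat_lit 0) (cs (lf (nat_lit 23) (nat_lit 317)) (lf (nat_lit 33) (nat_lit 274)))) q27993 (by decide +kernel)
def q27997 : Q := Q.p (nat_lit 0x400001600004000000000000000000000000000000000000000000000000000000000000000000000) (nat_lit 0x800000800008000000000000000000000000000000000000000000000000000000000000000000000) (nat_lit 2)
theorem c27997 : QOK q27997 := cut [] trivial (nd (nat_lit 299) (nat_lit 0) (cs (lf (nat_lit 17) (nat_lit 275)) (lf (nat_lit 5) (nat_lit 297)))) q27997 (by decide +kernel)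
def q28000 : Q := Q.p (nat_lit 0x180000400001000004000000000000000000000000000000000000000000000000000000000000000000000) (nat_lit 0x200000000008000030000080000000000000000000000000000000000000000000000000000000000) (nat_lit 3)
theorem c28000 : QOK q28000 := cut [] trivial (nd (nat_lit 257) (nat_lit 0) (cs (lf (nat_lit 34) (nat_lit 256)) (nd (nat_lit 256) (nat_lit 0) (cs (lf (nat_lit 35) (nat_lit 234)) (lf (nat_lit 40) (nat_lit 255)))))) q28000 (by decide +kernel)
def q28005 : Q := Q.p (nat_lit 0x400001e00000800000000000000000000000000000000000000000000000000000000000000000000) (nat_lit 0x270002180003000000000000000000000000000000000000000000000000000000000000000000000) (nat_lit 5)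
theorem c28005 : QOK q28005 := cut [] trivial (nd (nat_lit 296) (nat_lit 0) (cs (lf (nat_lit 4) (nat_lit 296)) (nd (nat_lit 317) (nat_lit 0) (cs (lf (nat_lit 10) (nat_lit 295)) (nd (nat_lit 295) (nat_lit 0) (cs (lf (nat_lit 11) (nat_lit 294)) (nd (nat_lit 276) (nat_lit 0) (cs (lf (nat_lit 18) (nat_lit 275)) (lf (nat_lit 17) (nat_lit 273)))))))))) q28005 (by decide +kernel)
def q28009 : Q := Q.p (nat_lit 0x700000600000000000000000000000000000000000000000000000000000000000000000000000000) (nat_lit 0x980000000000000000000000000000000000000000000000000000000000000000000000000) (nat_lit 2)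
theorem c28009 : QOK q28009 := cut [] trivial (nd (nat_lit 296) (nat_lit 0) (cs (lf (nat_lit 0) (nat_lit 295)) (lf (nat_lit 3) (nat_lit 296)))) q28009 (by decide +kernel)
def q28015 : Q := Q.p (nat_lit 0x20000180000400001000000000000000000000000000000000000000000000000000000000000000000000000000) (nat_lit 0x2000008000000000000000200000000000000000000000000000000000000000000000000000000000000000000000000000000) (nat_lit 2)
theorem c28015 : QOK q28015 := cut [] trivial (nd (nat_lit 387) (nat_lit 0) (cs (lf (nat_lit 33) (nat_lit 299)) (lf (nat_lit 30) (nat_lit 321)))) q28015 (by decide +kernel)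
def q28026 : Q := Q.p (nat_lit 0x40000180000600000000000000000000000000000000000000000000000000000000000000000000000000000000) (nat_lit 0x10000000000000000000000800002000000000000000000000000000000000000000000000000000000000000000000000) (nat_lit 2)
theorem c28026 : QOK q28026 := cut [] trivial (nd (nat_lit 299) (nat_lit 0) (cs (lf (nat_lit 42) (nat_lit 299)) (lf (nat_lit 24) (nat_lit 277)))) q28026 (by decide +kernel)
def q28033 : Q := Q.p (nat_lit 0x8000020000180000400000000000000000000000000000000000000000000000000000000000000000000000000000000) (nat_lit 0x40000000000000001000004000000000000000000000000000000000000000000000000000000000000000000000) (nat_lit 2)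
theorem c28033 : QOK q28033 := cut [] trivial (nd (nat_lit 300) (nat_lit 0) (cs (lf (nat_lit 36) (nat_lit 277)) (lf (nat_lit 39) (nat_lit 299)))) q28033 (by decide +kernel)
def q28036 : Q := Q.p (nat_lit 0x1c0000c00000000000000000000000000000000000000000000000000000000000000000000000000000000) (nat_lit 0x200003000000000000000000000000000000000000000000000000000000000000000000000000000000000) (nat_lit 2)
theorem c28036 : QOK q28036 := cut [] trivial (nd (nat_lit 324) (nat_lit 0) (cs (lf (nat_lit 6) (nat_lit 321)) (lf (nat_lit 15) (nat_lit 320)))) q28036 (by decide +kernel)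
def q28044 : Q := Q.p (nat_lit 0x1c0000800000000000000000000000000000000000000000000000000000000000000000000000000000000) (nat_lit 0x200003600000000000000000000000000000000000000000000000000000000000000000000000000000000) (nat_lit 3)
theorem c28044 : QOK q28044 := cut [] trivial (nd (nat_lit 324) (nat_lit 0) (cs (lf (nat_lit 15) (nat_lit 320)) (nd (nat_lit 322) (nat_lit 0) (cs (lf (nat_lit 9) (nat_lit 320)) (lf (nat_lit 6) (nat_lit 321)))))) q28044 (by decide +kernel)
def q28054 : Q := Q.p (nat_lit 0x3c0000000000000000000000000000000000000000000000000000000000000000000000000000000000000) (nat_lit 0x3b8000400000000000000000000000000000000000000000000000000000000000000000000000000000000000000) (nat_lit 4)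
theorem c28054 : QOK q28054 := cut [] trivial (nd (nat_lit 368) (nat_lit 0) (cs (nd (nat_lit 364) (nat_lit 0) (cs (lf (nat_lit 11) (nat_lit 341)) (nd (nat_lit 346) (nat_lit 0) (cs (lf (nat_lit 10) (nat_lit 342)) (lf (nat_lit 5) (nat_lit 343)))))) (lf (nat_lit 4) (nat_lit 342)))) q28054 (by decide +kernel)
def q28056 : Q := Q.p (nat_lit 0x3e0000000000000000000000000000000000000000000000000000000000000000000000000000000000000) (nat_lit 0x1c00000000000000000000000000000000000000000000000000000000000000000000000000000000) (nat_lit 2)
theorem c28056 : QOK q28056 := cut [] trivial (nd (nat_lit 323) (nat_lit 0) (cs (lf (nat_lit 17) (nat_lit 320)) (lf (nat_lit 16) (nat_lit 319)))) q28056 (by decide +kernel)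
def q28065 : Q := Q.p (nat_lit 0x800001c0000000000000000000000000000000000000000000000000000000000000000000000000000000000000) (nat_lit 0x160000220000000000000000000000000000000000000000000000000000000000000000000000000000000000000) (nat_lit 3)
theorem c28065 : QOK q28065 := cut [] trivial (nd (nat_lit 368) (nat_lit 0) (cs (nd (nat_lit 366) (nat_lit 0) (cs (lf (nat_lit 21) (nat_lit 342)) (lf (nat_lit 0) (nat_lit 341)))) (lf (nat_lit 3) (nat_lit 342)))) q28065 (by decide +kernel)
def q28070 : Q := Q.p (nat_lit 0x80000300000800002000000000000000000000000000000000000000000000000000000000000000000000000000) (nat_lit 0x10000040000000000000000000008000000000000000000000000000000000000000000000000000000000000000000000) (nat_lit 2)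
theorem c28070 : QOK q28070 := cut [] trivial (nd (nat_lit 366) (nat_lit 0) (cs (lf (nat_lit 36) (nat_lit 278)) (lf (nat_lit 41) (nat_lit 300)))) q28070 (by decide +kernel)
def q28082 : Q := Q.p (nat_lit 0x90000240000800002200000800000000000000000000000000000000000000000000000000000000000000000000) (nat_lit 0x500001c00005000000000000000000000000000000000000000000000000000000000000000000000) (nat_lit 4)
theorem c28082 : QOK q28082 := cut [] trivial (nd (nat_lit 298) (nat_lit 0) (cs (lf (nat_lit 44) (nat_lit 275)) (nd (nat_lit 300) (nat_lit 0) (cs (nd (nat_lit 299) (nat_lit 0) (cs (lf (nat_lit 22) (nat_lit 275)) (lf (nat_lit 4) (nat_lit 297)))) (lf (nat_lit 47) (nat_lit 278)))))) q28082 (by decide +kernel)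
def q28104 : Q := Q.p (nat_lit 0xc0000000000e00002000000000000000000000000000000000000000000000000000000000000000000000) (nat_lit 0x50000100000600000100000000008000000000000000000000000000000000000000000000000000000000000000) (nat_lit 4)
theorem c28104 : QOK q28104 := cut [] trivial (nd (nat_lit 321) (nat_lit 0) (cs (lf (nat_lit 41) (nat_lit 276)) (nd (nat_lit 344) (nat_lit 0) (cs (lf (nat_lit 29) (nat_lit 277)) (nd (nat_lit 322) (nat_lit 0) (cs (lf (nat_lit 24) (nat_lit 255)) (lf (nat_lit 0) (nat_lit 296)))))))) q28104 (by decide +kernel)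
def q28109 : Q := Q.p (nat_lit 0xe00006000000000000000000000000000000000000000000000000000000000000000000000) (nat_lit 0x1000018000000000000000000000000000000000000000000000000000000000000000000000) (nat_lit 2)
theorem c28109 : QOK q28109 := cut [] trivial (nd (nat_lit 279) (nat_lit 0) (cs (lf (nat_lit 6) (nat_lit 276)) (lf (nat_lit 15) (nat_lit 275)))) q28109 (by decide +kernel)
def q28116 : Q := Q.p (nat_lit 0x1e00000800000000000000000000000000000000000000000000000000000000000000000000) (nat_lit 0xe700021c0001000000000000000000000000000000000000000000000000000000000000000000000) (nat_lit 6)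
theorem c28116 : QOK q28116 := cut [] trivial (nd (nat_lit 322) (nat_lit 0) (cs (lf (nat_lit 5) (nat_lit 297)) (nd (nat_lit 296) (nat_lit 0) (cs (lf (nat_lit 4) (nat_lit 296)) (nd (nat_lit 317) (nat_lit 0) (cs (lf (nat_lit 10) (nat_lit 295)) (nd (nat_lit 295) (nat_lit 0) (cs (lf (nat_lit 11) (nat_lit 294)) (nd (nat_lit 276) (nat_lit 0) (cs (lf (nat_lit 18) (nat_lit 275)) (lf (nat_lit 12) (nat_lit 272)))))))))))) q28116 (by decide +kernel)
def q28128 : Q := Q.p (nat_lit 0x600006800002000000000000000000000000000000000000000000000000000000000000000) (nat_lit 0x9000001000000000000000000000000000000000000000000000000000000000000000) (nat_lit 2)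
theorem c28128 : QOK q28128 := cut [] trivial (nd (nat_lit 276) (nat_lit 0) (cs (lf (nat_lit 23) (nat_lit 252)) (lf (nat_lit 6) (nat_lit 275)))) q28128 (by decide +kernel)
def q28132 : Q := Q.p (nat_lit 0x4000000000000000f00000800000000000000000000000000000000000000000000000000000000000000000000) (nat_lit 0x10000060000000000000000000000000000000000000000000000000000000000000000000000000000000) (nat_lit 2)
theorem c28132 : QOK q28132 := cut [] trivial (nd (nat_lit 318) (nat_lit 0) (cs (lf (nat_lit 11) (nat_lit 295)) (lf (nat_lit 31) (nat_lit 274)))) q28132 (by decide +kernel)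
def q28135 : Q := Q.p (nat_lit 0x1c0000c0000000000000000000000000000000000000000000000000000000000000000000000000000000000000) (nat_lit 0x320000000000000000000000000000000000000000000000000000000000000000000000000000000000000) (nat_lit 2)
theorem c28135 : QOK q28135 := cut [] trivial (nd (nat_lit 344) (nat_lit 0) (cs (lf (nat_lit 9) (nat_lit 340)) (lf (nat_lit 6) (nat_lit 341)))) q28135 (by decide +kernel)
def q28143 : Q := Q.p (nat_lit 0x3e00000000000000000000000000000000000000000000000000000000000000000000000000) (nat_lit 0x1c000000000000000000000000000000000000000000000000000000000000000000000) (nat_lit 2)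
theorem c28143 : QOK q28143 := cut [] trivial (nd (nat_lit 279) (nat_lit 0) (cs (lf (nat_lit 17) (nat_lit 276)) (lf (nat_lit 16) (nat_lit 275)))) q28143 (by decide +kernel)
def q28145 : Q := Q.p (nat_lit 0x700001800000000000000000000000000000000000000000000000000000000000000000000) (nat_lit 0xc0002000000000000000000000000000000000000000000000000000000000000000000000) (nat_lit 2)
theorem c28145 : QOK q28145 := cut [] trivial (nd (nat_lit 295) (nat_lit 0) (cs (lf (nat_lit 17) (nat_lit 273)) (lf (nat_lit 12) (nat_lit 272)))) q28145 (by decide +kernel)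
def q28147 : Q := Q.p (nat_lit 0xf80000000000000000000000000000000000000000000000000000000000000000000000000) (nat_lit 0x7000000000000000000000000000000000000000000000000000000000000000000000) (nat_lit 2)
theorem c28147 : QOK q28147 := cut [] trivial (nd (nat_lit 277) (nat_lit 0) (cs (lf (nat_lit 16) (nat_lit 273)) (lf (nat_lit 17) (nat_lit 274)))) q28147 (by decide +kernel)
def q28149 : Q := Q.p (nat_lit 0x2800004000010000040000000000000000000000000000000000000000000000000000000000000000000000000) (nat_lit 0xa00001000000000000000000000000000000000000000000000000000000000000000000000000000000000000000000) (nat_lit 2)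
theorem c28149 : QOK q28149 := cut [] trivial (nd (nat_lit 360) (nat_lit 0) (cs (lf (nat_lit 41) (nat_lit 293)) (lf (nat_lit 29) (nat_lit 294)))) q28149 (by decide +kernel)
def q28165 : Q := Q.p (nat_lit 0x1000003800010000000000000000000000000000000000000000000000000000000000000000000000) (nat_lit 0x2000004000020000000000000000000000000000000000000000000000000000000000000000000000) (nat_lit 2)
theorem c28165 : QOK q28165 := cut [] trivial (nd (nat_lit 302) (nat_lit 0) (cs (lf (nat_lit 17) (nat_lit 277)) (lf (nat_lit 5) (nat_lit 299)))) q28165 (by decide +kernel)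
def q28168 : Q := Q.p (nat_lit 0x7c00000000000000000000000000000000000000000000000000000000000000000000000000) (nat_lit 0x38000000000000000000000000000000000000000000000000000000000000000000000) (nat_lit 2)
theorem c28168 : QOK q28168 := cut [] trivial (nd (nat_lit 280) (nat_lit 0) (cs (lf (nat_lit 17) (nat_lit 277)) (lf (nat_lit 16) (nat_lit 276)))) q28168 (by decide +kernel)
def q28170 : Q := Q.p (nat_lit 0x400001000006000008000000000000000000000000000000000000000000000000000000000000000000000) (nat_lit 0x10000020000080000000000000000000000000000000000000000000000000000000000) (nat_lit 2)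
theorem c28170 : QOK q28170 := cut [] trivial (nd (nat_lit 257) (nat_lit 0) (cs (lf (nat_lit 45) (nat_lit 257)) (lf (nat_lit 24) (nat_lit 235)))) q28170 (by decide +kernel)
def q28227 : Q := Q.p (nat_lit 0x400001000004000010000040000000000000000000000000000000000000000000000000000000000000000) (nat_lit 0x8000020000080000000000000000000000000000000000000000000000000000000000) (nat_lit 2)
theorem c28227 : QOK q28227 := cut [] trivial (nd (nat_lit 257) (nat_lit 0) (cs (lf (nat_lit 46) (nat_lit 257)) (lf (nat_lit 47) (nat_lit 235)))) q28227 (by decide +kernel)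
def q28244 : Q := Q.p (nat_lit 0x400003000006000000000000000000000000000000000000000000000000000000000000000000000000000) (nat_lit 0x40000100000000000000008000028000000000000000000000000000000000000000000000000000000000000000000000) (nat_lit 3)
theorem c28244 : QOK q28244 := cut [] trivial (nd (nat_lit 368) (nat_lit 0) (cs (lf (nat_lit 47) (nat_lit 279)) (nd (nat_lit 303) (nat_lit 0) (cs (lf (nat_lit 30) (nat_lit 302)) (lf (nat_lit 35) (nat_lit 280)))))) q28244 (by decide +kernel)
def q28269 : Q := Q.p (nat_lit 0x100000380001000000000000000000000000000000000000000000000000000000000000000000000000000000000) (nat_lit 0x200000400002000000000000000000000000000000000000000000000000000000000000000000000000000000000) (nat_lit 2)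
theorem c28269 : QOK q28269 := cut [] trivial (nd (nat_lit 346) (nat_lit 0) (cs (lf (nat_lit 17) (nat_lit 321)) (lf (nat_lit 5) (nat_lit 343)))) q28269 (by decide +kernel)
def q28289 : Q := Q.p (nat_lit 0xe00006800002000000000000000000000000000000000000000000000000000000000000000) (nat_lit 0x100000c00003000001000039000060000100000000000000000000000000000000000000000000000000000) (nat_lit 7)
theorem c28289 : QOK q28289 := cut [] trivial (nd (nat_lit 276) (nat_lit 0) (cs (lf (nat_lit 23) (nat_lit 252)) (nd (nat_lit 256) (nat_lit 0) (cs (lf (nat_lit 17) (nat_lit 253)) (nd (nat_lit 212) (nat_lit 0) (cs (nd (nat_lit 300) (nat_lit 0) (cs (lf (nat_lit 18) (nat_lit 275)) (nd (nat_lit 322) (nat_lit 0) (cs (lf (nat_lit 5) (nat_lit 297)) (nd (nat_lit 255) (nat_lit 0) (cs (lf (nat_lit 42) (nat_lit 255)) (lf (nat_lit 47) (nat_lit 233)))))))) (lf (nat_lit 37) (nat_lit 211)))))))) q28289 (by decide +kernel)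
def q28294 : Q := Q.p (nat_lit 0x600000e00000000000000000000000000000000000000000000000000000000000000000000000000) (nat_lit 0x1800001000000000000000000000000000000000000000000000000000000000000000000000000000) (nat_lit 2)
theorem c28294 : QOK q28294 := cut [] trivial (nd (nat_lit 323) (nat_lit 0) (cs (lf (nat_lit 3) (nat_lit 297)) (lf (nat_lit 18) (nat_lit 298)))) q28294 (by decide +kernel)
def q28300 : Q := Q.p (nat_lit 0x3e00000000000000000000000000000000000000000000000000000000000000000000000000) (nat_lit 0x1c00000000000000000000000000000000000000000000000000000000000000000000000000000000) (nat_lit 2)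
theorem c28300 : QOK q28300 := cut [] trivial (nd (nat_lit 323) (nat_lit 0) (cs (lf (nat_lit 5) (nat_lit 298)) (lf (nat_lit 4) (nat_lit 297)))) q28300 (by decide +kernel)
def q28311 : Q := Q.p (nat_lit 0xc00001c0000000000000000000000000000000000000000000000000000000000000000000000000000000000000) (nat_lit 0x300000200000000000000000000000000000000000000000000000000000000000000000000000000000000000000) (nat_lit 2)
theorem c28311 : QOK q28311 := cut [] trivial (nd (nat_lit 368) (nat_lit 0) (cs (lf (nat_lit 3) (nat_lit 342)) (lf (nat_lit 18) (nat_lit 343)))) q28311 (by decide +kernel)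
def q28337 : Q := Q.p (nat_lit 0x180001c0000000000000000000000000000000000000000000000000000000000000000000000000000000000000) (nat_lit 0x6000020000000000000000000000000000000000000000000000000000000000000000000000000000000000000) (nat_lit 2)
theorem c28337 : QOK q28337 := cut [] trivial (nd (nat_lit 362) (nat_lit 0) (cs (lf (nat_lit 9) (nat_lit 340)) (lf (nat_lit 12) (nat_lit 339)))) q28337 (by decide +kernel)
def q28343 : Q := Q.p (nat_lit 0x40000100000400000e00000000000000000000000000000000000000000000000000000000000000000000000000) (nat_lit 0x300000e000000000000000000000000000000000000000000000000000000000000000000000) (nat_lit 3)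
theorem c28343 : QOK q28343 := cut [] trivial (nd (nat_lit 300) (nat_lit 0) (cs (lf (nat_lit 47) (nat_lit 277)) (nd (nat_lit 279) (nat_lit 0) (cs (lf (nat_lit 16) (nat_lit 275)) (lf (nat_lit 34) (nat_lit 278)))))) q28343 (by decide +kernel)
def q28355 : Q := Q.p (nat_lit 0xc0000300000800000000000000000000000000000000000000000000000000000000000000000000000000000000) (nat_lit 0x10000000000000000000002000008000000000000000000000000000000000000000000000000000000000000000000000) (nat_lit 2)
theorem c28355 : QOK q28355 := cut [] trivial (nd (nat_lit 301) (nat_lit 0) (cs (lf (nat_lit 36) (nat_lit 278)) (lf (nat_lit 41) (nat_lit 300)))) q28355 (by decide +kernel)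
def q28377 : Q := Q.p (nat_lit 0x200006800002000000000000000000000000000000000000000000000000000000000000000) (nat_lit 0x100001000001000000000000000000000000000000000000000000000000000000000000000) (nat_lit 2)
theorem c28377 : QOK q28377 := cut [] trivial (nd (nat_lit 276) (nat_lit 0) (cs (lf (nat_lit 23) (nat_lit 252)) (lf (nat_lit 11) (nat_lit 274)))) q28377 (by decide +kernel)
def q28385 : Q := Q.p (nat_lit 0x200005800002000000000000000000000000000000000000000000000000000000000000000) (nat_lit 0x100002000001000000000000000000000000000000000000000000000000000000000000000) (nat_lit 2)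
theorem c28385 : QOK q28385 := cut [] trivial (nd (nat_lit 277) (nat_lit 0) (cs (lf (nat_lit 23) (nat_lit 252)) (lf (nat_lit 11) (nat_lit 274)))) q28385 (by decide +kernel)
def q28400 : Q := Q.p (nat_lit 0x3c0000000000000000000000000000000000000000000000000000000000000000000000000000000000000) (nat_lit 0x380000c00007700000000000000000000000000000000000000000000000000000000000000000000000000000000) (nat_lit 6)
theorem c28400 : QOK q28400 := cut [] trivial (nd (nat_lit 368) (nat_lit 0) (cs (lf (nat_lit 4) (nat_lit 342)) (nd (nat_lit 346) (nat_lit 0) (cs (lf (nat_lit 5) (nat_lit 343)) (nd (nat_lit 321) (nat_lit 0) (cs (lf (nat_lit 23) (nat_lit 320)) (nd (nat_lit 347) (nat_lit 0) (cs (nd (nat_lit 325) (nat_lit 0) (cs (lf (nat_lit 17) (nat_lit 322)) (lf (nat_lit 16) (nat_lit 321)))) (lf (nat_lit 22) (nat_lit 321)))))))))) q28400 (by decide +kernel)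
def q28401 : Q := Q.p (nat_lit 0x1c0000600000000000000000000000000000000000000000000000000000000000000000000000000000000) (nat_lit 0x30000800000000000000000000000000000000000000000000000000000000000000000000000000000000) (nat_lit 2)
theorem c28401 : QOK q28401 := cut [] trivial (nd (nat_lit 341) (nat_lit 0) (cs (lf (nat_lit 17) (nat_lit 319)) (lf (nat_lit 12) (nat_lit 318)))) q28401 (by decide +kernel)
def q28409 : Q := Q.p (nat_lit 0x10000040000180000200000000000000000000000000000000000000000000000000000000000000000000000000000000) (nat_lit 0x20000000000000000800002000000000000000000000000000000000000000000000000000000000000000000000) (nat_lit 2)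
theorem c28409 : QOK q28409 := cut [] trivial (nd (nat_lit 299) (nat_lit 0) (cs (lf (nat_lit 24) (nat_lit 277)) (lf (nat_lit 27) (nat_lit 299)))) q28409 (by decide +kernel)
def q28417 : Q := Q.p (nat_lit 0x40000100000400001a00000000000000000000000000000000000000000000000000000000000000000000000000) (nat_lit 0x240000c000020000000000000000000000000000000000000000000000000000000000000000) (nat_lit 3)
theorem c28417 : QOK q28417 := cut [] trivial (nd (nat_lit 279) (nat_lit 0) (cs (lf (nat_lit 34) (nat_lit 278)) (nd (nat_lit 278) (nat_lit 0) (cs (lf (nat_lit 35) (nat_lit 256)) (lf (nat_lit 13) (nat_lit 275)))))) q28417 (by decide +kernel)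
def q28459 : Q := Q.p (nat_lit 0x1c000004000000000000000000000000000000000000000000000000000000000000000000000000000000000000000000) (nat_lit 0xe0000300000a000000000000000000000000000000000000000000000000000000000000000000000000000000000000000000) (nat_lit 4)
theorem c28459 : QOK q28459 := cut [] trivial (nd (nat_lit 385) (nat_lit 0) (cs (nd (nat_lit 406) (nat_lit 0) (cs (nd (nat_lit 384) (nat_lit 0) (cs (lf (nat_lit 23) (nat_lit 361)) (lf (nat_lit 11) (nat_lit 383)))) (lf (nat_lit 10) (nat_lit 384)))) (lf (nat_lit 22) (nat_lit 362)))) q28459 (by decide +kernel)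

end Crest.Agent.H3.Snaky.CR
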