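import Crest.Agent.H3.Snaky.Cert

set_option autoImplicit false
set_option maxRecDepth 100000

namespace Crest.Agent.H3.Snaky.CR

open T

def q28461 : Q := Q.p (nat_lit 0x1c000044000080000200000000000000000000000000000000000000000000000000000000000000000000000000000000) (nat_lit 0x1000003000028000000000000000000000000000000000000000000000000000000000000000000000000000000000000000000) (nat_lit 3)
theorem c28461 : QOK q28461 := cut [] trivial (nd (nat_lit 385) (nat_lit 0) (cs (lf (nat_lit 22) (nat_lit 362)) (nd (nat_lit 365) (nat_lit 0) (cs (lf (nat_lit 41) (nat_lit 320)) (lf (nat_lit 12) (nat_lit 362)))))) q28461 (by decide +kernel)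
def q28465 : Q := Q.p (nat_lit 0x440000e0000000000000000000000000000000000000000000000000000000000000000000000000000000000000) (nat_lit 0x22000010000000000000000000000000000000000000000000000000000000000000000000000000000000000000) (nat_lit 2)
theorem c28465 : QOK q28465 := cut [] trivial (nd (nat_lit 340) (nat_lit 0) (cs (lf (nat_lit 4) (nat_lit 340)) (lf (nat_lit 11) (nat_lit 339)))) q28465 (by decide +kernel)
def q28469 : Q := Q.p (nat_lit 0x4000010000000000780000000000000000000000000000000000000000000000000000000000000000000000000) (nat_lit 0x8000030000000000300000000000000000000000000000000000000000000000000000000000000000000) (nat_lit 3)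
theorem c28469 : QOK q28469 := cut [] trivial (nd (nat_lit 317) (nat_lit 0) (cs (lf (nat_lit 11) (nat_lit 294)) (nd (nat_lit 273) (nat_lit 0) (cs (lf (nat_lit 23) (nat_lit 272)) (lf (nat_lit 27) (nat_lit 273)))))) q28469 (by decide +kernel)
def q28477 : Q := Q.p (nat_lit 0x10000040000180000200000000000000000000000000000000000000000000000000000000000000000000000000000000) (nat_lit 0x20000000000400000800000000000000000000000000000000000000000000000000000000000000000000000000) (nat_lit 2)
theorem c28477 : QOK q28477 := cut [] trivial (nd (nat_lit 299) (nat_lit 0) (cs (lf (nat_lit 27) (nat_lit 299)) (lf (nat_lit 45) (nat_lit 299)))) q28477 (by decide +kernel)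
def q28478 : Q := Q.p (nat_lit 0x10000040000180000200000000000000000000000000000000000000000000000000000000000000000000000000000000) (nat_lit 0x400000800002000000000000000000000000000000000000000000000000000000000000000000000) (nat_lit 2)
theorem c28478 : QOK q28478 := cut [] trivial (nd (nat_lit 299) (nat_lit 0) (cs (lf (nat_lit 24) (nat_lit 277)) (lf (nat_lit 45) (nat_lit 299)))) q28478 (by decide +kernel)
def q28484 : Q := Q.p (nat_lit 0x40000100000400001000000000000000000000000000000000000000000000000000000000000000000000000000) (nat_lit 0x280000e000028000000000000000000000000000000000000000000000000000000000000000) (nat_lit 4)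
theorem c28484 : QOK q28484 := cut [] trivial (nd (nat_lit 279) (nat_lit 0) (cs (lf (nat_lit 34) (nat_lit 278)) (nd (nat_lit 278) (nat_lit 0) (cs (lf (nat_lit 35) (nat_lit 256)) (nd (nat_lit 277) (nat_lit 0) (cs (lf (nat_lit 47) (nat_lit 255)) (lf (nat_lit 46) (nat_lit 277)))))))) q28484 (by decide +kernel)
def q28489 : Q := Q.p (nat_lit 0x100000400001000004000010000000000000000000000000000000000000000000000000000000000000000) (nat_lit 0x2000008000020000000000000000000000000000000000000000000000000000000000) (nat_lit 2)
theorem c28489 : QOK q28489 := cut [] trivial (nd (nat_lit 255) (nat_lit 0) (cs (lf (nat_lit 47) (nat_lit 233)) (lf (nat_lit 46) (nat_lit 255)))) q28489 (by decide +kernel)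
def q28504 : Q := Q.p (nat_lit 0x60000180000400000000000000000000000000000000000000000000000000000000000000000000000000000000) (nat_lit 0x8000000000000000000001000004000000000000000000000000000000000000000000000000000000000000000000000) (nat_lit 2)
theorem c28504 : QOK q28504 := cut [] trivial (nd (nat_lit 300) (nat_lit 0) (cs (lf (nat_lit 41) (nat_lit 299)) (lf (nat_lit 36) (nat_lit 277)))) q28504 (by decide +kernel)
def q28517 : Q := Q.p (nat_lit 0x3c000000000080000200000000000000000000000000000000000000000000000000000000000000000000000000000000) (nat_lit 0x1800000000020000000000000000000000000000000000000000000000000000000000000000000000000000000000000000000) (nat_lit 2)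
theorem c28517 : QOK q28517 := cut [] trivial (nd (nat_lit 408) (nat_lit 0) (cs (lf (nat_lit 11) (nat_lit 385)) (lf (nat_lit 38) (nat_lit 320)))) q28517 (by decide +kernel)
def q28533 : Q := Q.p (nat_lit 0x1e0000400000000000000000000000000000000000000000000000000000000000000000000000000000000) (nat_lit 0xe000010000200000000000000000000000000000000000000000000000000000000000000000000000000000000) (nat_lit 3)
theorem c28533 : QOK q28533 := cut [] trivial (nd (nat_lit 362) (nat_lit 0) (cs (lf (nat_lit 10) (nat_lit 340)) (nd (nat_lit 340) (nat_lit 0) (cs (lf (nat_lit 16) (nat_lit 318)) (lf (nat_lit 11) (nat_lit 339)))))) q28533 (by decide +kernel)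
def q28537 : Q := Q.p (nat_lit 0x10000040000180000400000000000000000000000000000000000000000000000000000000000000000000000000000000) (nat_lit 0x200000c000020000000000000000200000000000000000000000000000000000000000000000000000000000000000000000000000000) (nat_lit 3)
theorem c28537 : QOK q28537 := cut [] trivial (nd (nat_lit 411) (nat_lit 0) (cs (lf (nat_lit 28) (nat_lit 322)) (nd (nat_lit 410) (nat_lit 0) (cs (lf (nat_lit 29) (nat_lit 344)) (lf (nat_lit 47) (nat_lit 321)))))) q28537 (by decide +kernel)
def q28542 : Q := Q.p (nat_lit 0xc00001c0000000000000000000000000000000000000000000000000000000000000000000000000000000000000) (nat_lit 0x320000000000000000000000000000000000000000000000000000000000000000000000000000000000000000000) (nat_lit 2)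
theorem c28542 : QOK q28542 := cut [] trivial (nd (nat_lit 368) (nat_lit 0) (cs (lf (nat_lit 21) (nat_lit 342)) (lf (nat_lit 18) (nat_lit 343)))) q28542 (by decide +kernel)
def q28544 : Q := Q.p (nat_lit 0x600001a00000000000000000000000000000000000000000000000000000000000000000000000000) (nat_lit 0x800000500000000000000000000000000000000000000000000000000000000000000000000000000) (nat_lit 2)
theorem c28544 : QOK q28544 := cut [] trivial (nd (nat_lit 298) (nat_lit 0) (cs (lf (nat_lit 5) (nat_lit 297)) (lf (nat_lit 0) (nat_lit 296)))) q28544 (by decide +kernel)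
def q28549 : Q := Q.p (nat_lit 0x10000040000180000400000000000000000000000000000000000000000000000000000000000000000000000000000000) (nat_lit 0x800006000008000000000000000200000000000000000000000000000000000000000000000000000000000000000000000000000000) (nat_lit 3)
theorem c28549 : QOK q28549 := cut [] trivial (nd (nat_lit 409) (nat_lit 0) (cs (lf (nat_lit 40) (nat_lit 321)) (nd (nat_lit 410) (nat_lit 0) (cs (lf (nat_lit 41) (nat_lit 343)) (lf (nat_lit 47) (nat_lit 321)))))) q28549 (by decide +kernel)
def q28569 : Q := Q.p (nat_lit 0x200000d0000400000000000000000000000000000000000000000000000000000000000000000000000000000000) (nat_lit 0x40000020000200000000000000000000000000000000000000000000000000000000000000000000000000000000) (nat_lit 2)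
theorem c28569 : QOK q28569 := cut [] trivial (nd (nat_lit 341) (nat_lit 0) (cs (lf (nat_lit 5) (nat_lit 340)) (lf (nat_lit 16) (nat_lit 318)))) q28569 (by decide +kernel)
def q28570 : Q := Q.p (nat_lit 0x10000000000f00000800000000000000000000000000000000000000000000000000000000000000000000) (nat_lit 0x4000000000060000000000000000000000000000000000000000000000000000000000000000000000000000000) (nat_lit 2)
theorem c28570 : QOK q28570 := cut [] trivial (nd (nat_lit 318) (nat_lit 0) (cs (lf (nat_lit 11) (nat_lit 295)) (lf (nat_lit 30) (nat_lit 274)))) q28570 (by decide +kernel)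
def q28615 : Q := Q.p (nat_lit 0x1000004000010000040000000000000000000000000000000000000000000000000000000000000000000000000000000) (nat_lit 0x200000c00002000000000008000020000080000000000000000000000000000000000000000000000000000000000000000000000000) (nat_lit 4)
theorem c28615 : QOK q28615 := cut [] trivial (nd (nat_lit 407) (nat_lit 0) (cs (nd (nat_lit 317) (nat_lit 0) (cs (nd (nat_lit 406) (nat_lit 0) (cs (lf (nat_lit 46) (nat_lit 317)) (lf (nat_lit 29) (nat_lit 340)))) (lf (nat_lit 47) (nat_lit 295)))) (lf (nat_lit 28) (nat_lit 318)))) q28615 (by decide +kernel)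
def q28621 : Q := Q.p (nat_lit 0x1000004000010000040000000000000000000000000000000000000000000000000000000000000000000000000000000) (nat_lit 0x80000600000800000000008000020000080000000000000000000000000000000000000000000000000000000000000000000000000) (nat_lit 4)
theorem c28621 : QOK q28621 := cut [] trivial (nd (nat_lit 405) (nat_lit 0) (cs (nd (nat_lit 317) (nat_lit 0) (cs (lf (nat_lit 47) (nat_lit 295)) (nd (nat_lit 406) (nat_lit 0) (cs (lf (nat_lit 46) (nat_lit 317)) (lf (nat_lit 41) (nat_lit 339)))))) (lf (nat_lit 40) (nat_lit 317)))) q28621 (by decide +kernel)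
def q28638 : Q := Q.p (nat_lit 0x40000c00001200000800002000000000000000000000000000000000000000000000000000000000000000) (nat_lit 0x300000c00001000000000000000000000000000000000000000000000000000000000000000000000) (nat_lit 3)
theorem c28638 : QOK q28638 := cut [] trivial (nd (nat_lit 298) (nat_lit 0) (cs (nd (nat_lit 320) (nat_lit 0) (cs (lf (nat_lit 45) (nat_lit 253)) (lf (nat_lit 20) (nat_lit 297)))) (lf (nat_lit 2) (nat_lit 297)))) q28638 (by decide +kernel)
def q28646 : Q := Q.p (nat_lit 0x800001c0000000000000000000000000000000000000000000000000000000000000000000000000000000000000) (nat_lit 0x360000200000000000000000000000000000000000000000000000000000000000000000000000000000000000000) (nat_lit 3)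
theorem c28646 : QOK q28646 := cut [] trivial (nd (nat_lit 368) (nat_lit 0) (cs (lf (nat_lit 3) (nat_lit 342)) (nd (nat_lit 366) (nat_lit 0) (cs (lf (nat_lit 21) (nat_lit 342)) (lf (nat_lit 18) (nat_lit 343)))))) q28646 (by decide +kernel)
def q28654 : Q := Q.p (nat_lit 0x80000300000000001000000000000000000000000000000000000000000000000000000000000000000000000000) (nat_lit 0x8000020000040000000000400000000004000000000000000000000000000000000000000000000000000000000000000000000) (nat_lit 3)
theorem c28654 : QOK q28654 := cut [] trivial (nd (nat_lit 322) (nat_lit 0) (cs (lf (nat_lit 24) (nat_lit 278)) (nd (nat_lit 389) (nat_lit 0) (cs (lf (nat_lit 27) (nat_lit 300)) (lf (nat_lit 42) (nat_lit 322)))))) q28654 (by decide +kernel)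
def q28661 : Q := Q.p (nat_lit 0x780000000000000000000000000000000000000000000000000000000000000000000000000000000000000) (nat_lit 0x700000800000700000000000000000000000000000000000000000000000000000000000000000000000000000000) (nat_lit 4)
theorem c28661 : QOK q28661 := cut [] trivial (nd (nat_lit 369) (nat_lit 0) (cs (nd (nat_lit 321) (nat_lit 0) (cs (lf (nat_lit 23) (nat_lit 320)) (nd (nat_lit 347) (nat_lit 0) (cs (lf (nat_lit 22) (nat_lit 321)) (lf (nat_lit 5) (nat_lit 344)))))) (lf (nat_lit 4) (nat_lit 343)))) q28661 (by decide +kernel)
def q28664 : Q := Q.p (nat_lit 0x780000400000000000000000000000000000000000000000000000000000000000000000000000000000000) (nat_lit 0x800000300000000000000000000000000000000000000000000000000000000000000000000000000000000) (nat_lit 2)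
theorem c28664 : QOK q28664 := cut [] trivial (nd (nat_lit 321) (nat_lit 0) (cs (lf (nat_lit 18) (nat_lit 321)) (lf (nat_lit 23) (nat_lit 320)))) q28664 (by decide +kernel)
def q28671 : Q := Q.p (nat_lit 0xf00000400000000000000000000000000000000000000000000000000000000000000000000000000000000) (nat_lit 0x100000e800000000000000000000000000000000000000000000000000000000000000000000000000000000) (nat_lit 3)
theorem c28671 : QOK q28671 := cut [] trivial (nd (nat_lit 326) (nat_lit 0) (cs (nd (nat_lit 348) (nat_lit 0) (cs (lf (nat_lit 17) (nat_lit 323)) (lf (nat_lit 22) (nat_lit 322)))) (lf (nat_lit 16) (nat_lit 322)))) q28671 (by decide +kernel)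
def q28680 : Q := Q.p (nat_lit 0x380000400000000004000000000000000000000000000000000000000000000000000000000000000000000) (nat_lit 0x20000000000800001000008000030000080000000000000000000000000000000000000000000000000000000000) (nat_lit 4)
theorem c28680 : QOK q28680 := cut [] trivial (nd (nat_lit 300) (nat_lit 0) (cs (lf (nat_lit 41) (nat_lit 277)) (nd (nat_lit 257) (nat_lit 0) (cs (lf (nat_lit 34) (nat_lit 256)) (nd (nat_lit 256) (nat_lit 0) (cs (lf (nat_lit 28) (nat_lit 256)) (lf (nat_lit 35) (nat_lit 234)))))))) q28680 (by decide +kernel)
def q28688 : Q := Q.p (nat_lit 0x40000100000400001200000800000000000000000000000000000000000000000000000000000000000000000000) (nat_lit 0x800002c0000b000000000000000000000000000000000000000000000000000000000000000000000) (nat_lit 4)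
theorem c28688 : QOK q28688 := cut [] trivial (nd (nat_lit 299) (nat_lit 0) (cs (lf (nat_lit 47) (nat_lit 277)) (nd (nat_lit 301) (nat_lit 0) (cs (nd (nat_lit 298) (nat_lit 0) (cs (lf (nat_lit 5) (nat_lit 297)) (lf (nat_lit 22) (nat_lit 275)))) (lf (nat_lit 35) (nat_lit 278)))))) q28688 (by decide +kernel)
def q28700 : Q := Q.p (nat_lit 0x440000e00000000000000000000000000000000000000000000000000000000000000000000000000000000000000) (nat_lit 0x880001000000000000000000000000000000000000000000000000000000000000000000000000000000000000000) (nat_lit 2)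
theorem c28700 : QOK q28700 := cut [] trivial (nd (nat_lit 348) (nat_lit 0) (cs (lf (nat_lit 5) (nat_lit 345)) (lf (nat_lit 10) (nat_lit 344)))) q28700 (by decide +kernel)
def q28716 : Q := Q.p (nat_lit 0x200001e00000000000000000000000000000000000000000000000000000000000000000000000000) (nat_lit 0xc00000100000000000000000000000000000000000000000000000000000000000000000000000000) (nat_lit 2)
theorem c28716 : QOK q28716 := cut [] trivial (nd (nat_lit 322) (nat_lit 0) (cs (lf (nat_lit 5) (nat_lit 297)) (lf (nat_lit 0) (nat_lit 296)))) q28716 (by decide +kernel)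
def q28719 : Q := Q.p (nat_lit 0x10000080000200000c00000000000000000000000000000000000000000000000000000000000000000000000000) (nat_lit 0x4000020000000000000000000001000000000000000000000000000000000000000000000000000000000000000000000) (nat_lit 2)
theorem c28719 : QOK q28719 := cut [] trivial (nd (nat_lit 365) (nat_lit 0) (cs (lf (nat_lit 47) (nat_lit 276)) (lf (nat_lit 41) (nat_lit 298)))) q28719 (by decide +kernel)
def q28762 : Q := Q.p (nat_lit 0x22000070000000000000000000000000000000000000000000000000000000000000000000000000000000000000) (nat_lit 0x11000008000000000000000000000000000000000000000000000000000000000000000000000000000000000000) (nat_lit 2)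
theorem c28762 : QOK q28762 := cut [] trivial (nd (nat_lit 339) (nat_lit 0) (cs (lf (nat_lit 11) (nat_lit 338)) (lf (nat_lit 4) (nat_lit 339)))) q28762 (by decide +kernel)
def q28771 : Q := Q.p (nat_lit 0xc0000200000e00000000000000000000000000000000000000000000000000000000000000000000000000) (nat_lit 0x10000000000000000100006000010000000000000000000000000000000000000000000000000000000000000000) (nat_lit 3)
theorem c28771 : QOK q28771 := cut [] trivial (nd (nat_lit 277) (nat_lit 0) (cs (lf (nat_lit 41) (nat_lit 276)) (nd (nat_lit 278) (nat_lit 0) (cs (lf (nat_lit 35) (nat_lit 255)) (lf (nat_lit 12) (nat_lit 274)))))) q28771 (by decide +kernel)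
def q28781 : Q := Q.p (nat_lit 0x1e00001800002000000000000000000000000000000000000000000000000000000000000000) (nat_lit 0x10000e000001000000000000000000000000000000000000000000000000000000000000000) (nat_lit 3)
theorem c28781 : QOK q28781 := cut [] trivial (nd (nat_lit 278) (nat_lit 0) (cs (lf (nat_lit 17) (nat_lit 275)) (nd (nat_lit 277) (nat_lit 0) (cs (lf (nat_lit 23) (nat_lit 252)) (lf (nat_lit 12) (nat_lit 274)))))) q28781 (by decide +kernel)
def q28786 : Q := Q.p (nat_lit 0x300000700000000000000000000000000000000000000000000000000000000000000000000000000) (nat_lit 0xc00000800000000000000000000000000000000000000000000000000000000000000000000000000) (nat_lit 2)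
theorem c28786 : QOK q28786 := cut [] trivial (nd (nat_lit 322) (nat_lit 0) (cs (lf (nat_lit 18) (nat_lit 297)) (lf (nat_lit 3) (nat_lit 296)))) q28786 (by decide +kernel)
def q28790 : Q := Q.p (nat_lit 0xc0000600000600000000000000000000000000000000000000000000000000000000000000000000000000) (nat_lit 0x1900000000000000000000000000000000000000000000000000000000000000000000000000000000) (nat_lit 2)
theorem c28790 : QOK q28790 := cut [] trivial (nd (nat_lit 323) (nat_lit 0) (cs (lf (nat_lit 6) (nat_lit 320)) (lf (nat_lit 21) (nat_lit 297)))) q28790 (by decide +kernel)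
def q28793 : Q := Q.p (nat_lit 0xe00000600000000000000000000000000000000000000000000000000000000000000000000000000) (nat_lit 0x1900000000000000000000000000000000000000000000000000000000000000000000000000) (nat_lit 2)
theorem c28793 : QOK q28793 := cut [] trivial (nd (nat_lit 299) (nat_lit 0) (cs (lf (nat_lit 0) (nat_lit 296)) (lf (nat_lit 3) (nat_lit 297)))) q28793 (by decide +kernel)
def q28817 : Q := Q.p (nat_lit 0x50000040000d0000200000000000000000000000000000000000000000000000000000000000000000000000000000000) (nat_lit 0x100000080003a000008000000000000000000000000000000000000000000000000000000000000000000000000000000000000) (nat_lit 4)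
theorem c28817 : QOK q28817 := cut [] trivial (nd (nat_lit 364) (nat_lit 0) (cs (lf (nat_lit 30) (nat_lit 320)) (nd (nat_lit 363) (nat_lit 0) (cs (lf (nat_lit 12) (nat_lit 339)) (nd (nat_lit 365) (nat_lit 0) (cs (lf (nat_lit 23) (nat_lit 339)) (lf (nat_lit 11) (nat_lit 361)))))))) q28817 (by decide +kernel)
def q28832 : Q := Q.p (nat_lit 0x7800004000000000000000000000000000000000000000000000000000000000000000000000000000000000000000000) (nat_lit 0x8000003000000000000000000000000000000000000000000000000000000000000000000000000000000000000000000) (nat_lit 2)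
theorem c28832 : QOK q28832 := cut [] trivial (nd (nat_lit 361) (nat_lit 0) (cs (lf (nat_lit 18) (nat_lit 361)) (lf (nat_lit 23) (nat_lit 360)))) q28832 (by decide +kernel)
def q28900 : Q := Q.p (nat_lit 0x20000070000020000000000000000000000000000000000000000000000000000000000000000000000000000000) (nat_lit 0x10000008000010000000000000000000000000000000000000000000000000000000000000000000000000000000) (nat_lit 2)
theorem c28900 : QOK q28900 := cut [] trivial (nd (nat_lit 339) (nat_lit 0) (cs (lf (nat_lit 23) (nat_lit 316)) (lf (nat_lit 4) (nat_lit 339)))) q28900 (by decide +kernel)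
def q28908 : Q := Q.p (nat_lit 0x100000c0000200000800000000000000000000000000000000000000000000000000000000000000000000000000) (nat_lit 0x1000004000020000000000000000000000000000000000000000000000000000000000000000000000000000000000000000000) (nat_lit 2)
theorem c28908 : QOK q28908 := cut [] trivial (nd (nat_lit 386) (nat_lit 0) (cs (lf (nat_lit 30) (nat_lit 320)) (lf (nat_lit 39) (nat_lit 298)))) q28908 (by decide +kernel)
def q28932 : Q := Q.p (nat_lit 0x1e0000400001000000000000000000000000000000000000000000000000000000000000000000000000000) (nat_lit 0x80000e0000000000000000000004000000000000000000000000000000000000000000000000000000000000000000000) (nat_lit 3)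
theorem c28932 : QOK q28932 := cut [] trivial (nd (nat_lit 366) (nat_lit 0) (cs (lf (nat_lit 5) (nat_lit 341)) (nd (nat_lit 365) (nat_lit 0) (cs (lf (nat_lit 41) (nat_lit 299)) (lf (nat_lit 36) (nat_lit 277)))))) q28932 (by decide +kernel)
def q28940 : Q := Q.p (nat_lit 0x200000800002000008000020000000000000000000000000000000000000000000000000000000000000000) (nat_lit 0x4000010000040000000000000000000000000000000000000000000000000000000000) (nat_lit 2)
theorem c28940 : QOK q28940 := cut [] trivial (nd (nat_lit 256) (nat_lit 0) (cs (lf (nat_lit 47) (nat_lit 234)) (lf (nat_lit 46) (nat_lit 256)))) q28940 (by decide +kernel)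
def q28947 : Q := Q.p (nat_lit 0x1000004000010000040000100000000000000000000000000000000000000000000000000000000000000000000000000000000) (nat_lit 0x200000800002000000000000000000000000000000000000000000000000000000000000000000000000000000000000000000000000) (nat_lit 2)
theorem c28947 : QOK q28947 := cut [] trivial (nd (nat_lit 407) (nat_lit 0) (cs (lf (nat_lit 40) (nat_lit 319)) (lf (nat_lit 41) (nat_lit 341)))) q28947 (by decide +kernel)
def q28954 : Q := Q.p (nat_lit 0xc000030000040000100000000000000000000000000000000000000000000000000000000000000000000000000000000) (nat_lit 0x800003800040000000000000000000000000000000000000000000000000000000000000000000000000000000000000000000) (nat_lit 3)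
theorem c28954 : QOK q28954 := cut [] trivial (nd (nat_lit 385) (nat_lit 0) (cs (nd (nat_lit 384) (nat_lit 0) (cs (lf (nat_lit 17) (nat_lit 362)) (lf (nat_lit 12) (nat_lit 361)))) (lf (nat_lit 41) (nat_lit 319)))) q28954 (by decide +kernel)
def q28987 : Q := Q.p (nat_lit 0x3c0000000000000000000000000000000000000000000000000000000000000000000000000000000000000) (nat_lit 0x770000c00003800000000000000000000000000000000000000000000000000000000000000000000000000000000) (nat_lit 6)
theorem c28987 : QOK q28987 := cut [] trivial (nd (nat_lit 324) (nat_lit 0) (cs (lf (nat_lit 16) (nat_lit 320)) (nd (nat_lit 346) (nat_lit 0) (cs (lf (nat_lit 17) (nat_lit 321)) (nd (nat_lit 369) (nat_lit 0) (cs (lf (nat_lit 4) (nat_lit 343)) (nd (nat_lit 365) (nat_lit 0) (cs (nd (nat_lit 347) (nat_lit 0) (cs (lf (nat_lit 5) (nat_lit 344)) (lf (nat_lit 10) (nat_lit 343)))) (lf (nat_lit 11) (nat_lit 342)))))))))) q28987 (by decide +kernel)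
def q28993 : Q := Q.p (nat_lit 0xf8000000000000000000000000000000000000000000000000000000000000000000000000000000000000) (nat_lit 0x70000000000000000000000000000000000000000000000000000000000000000000000000000000) (nat_lit 2)
theorem c28993 : QOK q28993 := cut [] trivial (nd (nat_lit 317) (nat_lit 0) (cs (lf (nat_lit 23) (nat_lit 316)) (lf (nat_lit 22) (nat_lit 317)))) q28993 (by decide +kernel)
def q29013 : Q := Q.p (nat_lit 0x8000020000080000200000000000000000000000000000000000000000000000000000000000000000000000000000000000000) (nat_lit 0x1400007000014000000000000000000000000000000000000000000000000000000000000000000000000000000000000000000000000000000) (nat_lit 4)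
theorem c29013 : QOK q29013 := cut [] trivial (nd (nat_lit 434) (nat_lit 0) (cs (nd (nat_lit 432) (nat_lit 0) (cs (nd (nat_lit 433) (nat_lit 0) (cs (lf (nat_lit 41) (nat_lit 366)) (lf (nat_lit 29) (nat_lit 367)))) (lf (nat_lit 40) (nat_lit 344)))) (lf (nat_lit 28) (nat_lit 345)))) q29013 (by decide +kernel)
def q29026 : Q := Q.p (nat_lit 0x1000004000010000040000000000200000800000000000000000000000000000000000000000000000000000000000000000000) (nat_lit 0x200000800002000000000000000100000400000000000000000000000000000000000000000000000000000000000000000000000000) (nat_lit 3)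
theorem c29026 : QOK q29026 := cut [] trivial (nd (nat_lit 407) (nat_lit 0) (cs (lf (nat_lit 41) (nat_lit 341)) (nd (nat_lit 320) (nat_lit 0) (cs (lf (nat_lit 45) (nat_lit 275)) (lf (nat_lit 40) (nat_lit 319)))))) q29026 (by decide +kernel)
def q29029 : Q := Q.p (nat_lit 0x20000000000300000c0000000000200000800000000000000000000000000000000000000000000000000000000000000000000) (nat_lit 0x8000000000000000100000400000000000000000000000000000000000000000000000000000000000000000000000000) (nat_lit 2)
theorem c29029 : QOK q29029 := cut [] trivial (nd (nat_lit 320) (nat_lit 0) (cs (lf (nat_lit 45) (nat_lit 275)) (lf (nat_lit 43) (nat_lit 320)))) q29029 (by decide +kernel)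
def q29036 : Q := Q.p (nat_lit 0x3e000000000000000000000000000000000000000000000000000000000000000000000000000000000000000000000000000000) (nat_lit 0x1c0000000000000000000000000000000000000000000000000000000000000000000000000000000000000000000000000) (nat_lit 2)
theorem c29036 : QOK q29036 := cut [] trivial (nd (nat_lit 391) (nat_lit 0) (cs (lf (nat_lit 17) (nat_lit 388)) (lf (nat_lit 16) (nat_lit 387)))) q29036 (by decide +kernel)
def q29090 : Q := Q.p (nat_lit 0x7c0000000000000000000000000000000000000000000000000000000000000000000000000000000000000) (nat_lit 0x3800000000000000000000000000000000000000000000000000000000000000000000000000000000) (nat_lit 2)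
theorem c29090 : QOK q29090 := cut [] trivial (nd (nat_lit 324) (nat_lit 0) (cs (lf (nat_lit 17) (nat_lit 321)) (lf (nat_lit 16) (nat_lit 320)))) q29090 (by decide +kernel)
def q29100 : Q := Q.p (nat_lit 0x380000600000000000000000000000000000000000000000000000000000000000000000000000000000000) (nat_lit 0xc00000100000000000000000000000000000000000000000000000000000000000000000000000000000000) (nat_lit 2)
theorem c29100 : QOK q29100 := cut [] trivial (nd (nat_lit 346) (nat_lit 0) (cs (lf (nat_lit 18) (nat_lit 321)) (lf (nat_lit 23) (nat_lit 320)))) q29100 (by decide +kernel)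
def q29129 : Q := Q.p (nat_lit 0x3c0000000000000000000000000000000000000000000000000000000000000000000000000000000000000) (nat_lit 0xc0000300001c0000000001c0000700001c000050000000000000000000000000000000000000000000000000000000000000000) (nat_lit 8)
theorem c29129 : QOK q29129 := cut [] trivial (nd (nat_lit 323) (nat_lit 0) (cs (lf (nat_lit 17) (nat_lit 320)) (nd (nat_lit 388) (nat_lit 0) (cs (nd (nat_lit 367) (nat_lit 0) (cs (lf (nat_lit 5) (nat_lit 342)) (nd (nat_lit 389) (nat_lit 0) (cs (nd (nat_lit 322) (nat_lit 0) (cs (lf (nat_lit 42) (nat_lit 322)) (lf (nat_lit 47) (nat_lit 300)))) (lf (nat_lit 41) (nat_lit 322)))))) (cs (nd (nat_lit 366) (nat_lit 0) (cs (nd (nat_lit 301) (nat_lit 0) (cs (lf (nat_lit 36) (nat_lit 278)) (lf (nat_lit 33) (nat_lit 300)))) (lf (nat_lit 30) (nat_lit 322)))) (nd (nat_lit 367) (nat_lit 0) (cs (lf (nat_lit 5) (nat_lit 342)) (nd (nat_lit 301) (nat_lit 0) (cs (nd (nat_lit 280) (nat_lit 0) (cs (lf (nat_lit 34) (nat_lit 279)) (nd (nat_lit 279) (nat_lit 0) (cs (lf (nat_lit 35) (nat_lit 257)) (nd (nat_lit 278) (nat_lit 0) (cs (lf (nat_lit 47) (nat_lit 256))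 (lf (nat_lit 46) (nat_lit 278)))))))) (lf (nat_lit 40) (nat_lit 300))))))))))) q29129 (by decide +kernel)
def q29132 : Q := Q.p (nat_lit 0xe0000300000000000000000000000000000000000000000000000000000000000000000000000000000000) (nat_lit 0x10000c00000000000000000000000000000000000000000000000000000000000000000000000000000000) (nat_lit 2)
theorem c29132 : QOK q29132 := cut [] trivial (nd (nat_lit 322) (nat_lit 0) (cs (lf (nat_lit 6) (nat_lit 319)) (lf (nat_lit 12) (nat_lit 318)))) q29132 (by decide +kernel)
def q29134 : Q := Q.p (nat_lit 0xf0000000000200000800000000000000000000000000000000000000000000000000000000000000000000) (nat_lit 0x6000000000060000100000000000000000000000000000000000000000000000000000000000000000000000000) (nat_lit 3)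
theorem c29134 : QOK q29134 := cut [] trivial (nd (nat_lit 318) (nat_lit 0) (cs (lf (nat_lit 23) (nat_lit 317)) (nd (nat_lit 362) (nat_lit 0) (cs (lf (nat_lit 11) (nat_lit 339)) (lf (nat_lit 33) (nat_lit 274)))))) q29134 (by decide +kernel)
def q29137 : Q := Q.p (nat_lit 0x200000c0000700000000000000000000000000000000000000000000000000000000000000000000000000000000) (nat_lit 0x2000008000000000000000000001000000000000000000000000000000000000000000000000000000000000000000000000000) (nat_lit 2)
theorem c29137 : QOK q29137 := cut [] trivial (nd (nat_lit 387) (nat_lit 0) (cs (lf (nat_lit 35) (nat_lit 299)) (lf (nat_lit 42) (nat_lit 320)))) q29137 (by decide +kernel)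
def q29142 : Q := Q.p (nat_lit 0x20000080000600000000004000000000000000000000000000000000000000000000000000000000000000000000) (nat_lit 0x100000000001000000000010000000000000000000000000000000000000000000000000000000000000000) (nat_lit 2)
theorem c29142 : QOK q29142 := cut [] trivial (nd (nat_lit 300) (nat_lit 0) (cs (lf (nat_lit 36) (nat_lit 255)) (lf (nat_lit 39) (nat_lit 277)))) q29142 (by decide +kernel)
def q29157 : Q := Q.p (nat_lit 0xc0000200000c00000800002000000000000000000000000000000000000000000000000000000000000000) (nat_lit 0x20000000000100000000001000000000000000000000000000000000000000000000000000000000000000000000) (nat_lit 2)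
theorem c29157 : QOK q29157 := cut [] trivial (nd (nat_lit 276) (nat_lit 0) (cs (lf (nat_lit 43) (nat_lit 253)) (lf (nat_lit 42) (nat_lit 276)))) q29157 (by decide +kernel)
def q29160 : Q := Q.p (nat_lit 0x40000600000800002000000000000000000000000000000000000000000000000000000000000000000000) (nat_lit 0x100000100000000000000008000000000000000000000000000000000000000000000000000000000000000) (nat_lit 2)
theorem c29160 : QOK q29160 := cut [] trivial (nd (nat_lit 255) (nat_lit 0) (cs (lf (nat_lit 29) (nat_lit 255)) (lf (nat_lit 40) (nat_lit 254)))) q29160 (by decide +kernel)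
def q29171 : Q := Q.p (nat_lit 0x40000100000c000000000000000000000000000000000000000000000000000000000000000000000) (nat_lit 0x100000000002000000000020000080000200000000000000000000000000000000000000000000000000000) (nat_lit 3)
theorem c29171 : QOK q29171 := cut [] trivial (nd (nat_lit 257) (nat_lit 0) (cs (nd (nat_lit 235) (nat_lit 0) (cs (lf (nat_lit 36) (nat_lit 212)) (lf (nat_lit 39) (nat_lit 234)))) (lf (nat_lit 30) (nat_lit 256)))) q29171 (by decide +kernel)
def q29178 : Q := Q.p (nat_lit 0x80000600000e00000800000000000000000000000000000000000000000000000000000000000000000000) (nat_lit 0x2000000000000000300000d000010000000000000000000000000000000000000000000000000000000000000000) (nat_lit 4)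
theorem c29178 : QOK q29178 := cut [] trivial (nd (nat_lit 276) (nat_lit 0) (cs (lf (nat_lit 42) (nat_lit 276)) (nd (nat_lit 300) (nat_lit 0) (cs (lf (nat_lit 18) (nat_lit 275)) (nd (nat_lit 278) (nat_lit 0) (cs (lf (nat_lit 17) (nat_lit 275)) (lf (nat_lit 36) (nat_lit 255)))))))) q29178 (by decide +kernel)
def q29201 : Q := Q.p (nat_lit 0x10000040000d0000040000000000000000000000000000000000000000000000000000000000000000000000000000000) (nat_lit 0x20000020000080000000000000000000000000000000000000000000000000000000000000000000000000) (nat_lit 2)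
theorem c29201 : QOK q29201 := cut [] trivial (nd (nat_lit 317) (nat_lit 0) (cs (lf (nat_lit 47) (nat_lit 295)) (lf (nat_lit 20) (nat_lit 317)))) q29201 (by decide +kernel)
def q29215 : Q := Q.p (nat_lit 0x1c0000c0000000000000000000000000000000000000000000000000000000000000000000000000000000000000) (nat_lit 0x20000300000000000000000000000000000000000000000000000000000000000000000000000000000000000000) (nat_lit 2)
theorem c29215 : QOK q29215 := cut [] trivial (nd (nat_lit 344) (nat_lit 0) (cs (lf (nat_lit 6) (nat_lit 341)) (lf (nat_lit 15) (nat_lit 340)))) q29215 (by decide +kernel)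
def q29221 : Q := Q.p (nat_lit 0x100000c0000300000000000000000000000000000000000000000000000000000000000000000000000000000000) (nat_lit 0x4000000000000000000000800002000000000000000000000000000000000000000000000000000000000000000000000) (nat_lit 2)
theorem c29221 : QOK q29221 := cut [] trivial (nd (nat_lit 299) (nat_lit 0) (cs (lf (nat_lit 36) (nat_lit 276)) (lf (nat_lit 30) (nat_lit 298)))) q29221 (by decide +kernel)
def q29244 : Q := Q.p (nat_lit 0xc0000200000a00000000000000000000000000000000000000000000000000000000000000000000000000) (nat_lit 0x10000130001c00001400006000018000060000000000000000000000000000000000000000000000000000000000) (nat_lit 8)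
theorem c29244 : QOK q29244 := cut [] trivial (nd (nat_lit 277) (nat_lit 0) (cs (lf (nat_lit 41) (nat_lit 276)) (nd (nat_lit 256) (nat_lit 0) (cs (lf (nat_lit 34) (nat_lit 255)) (nd (nat_lit 255) (nat_lit 0) (cs (lf (nat_lit 35) (nat_lit 233)) (nd (nat_lit 322) (nat_lit 0) (cs (lf (nat_lit 29) (nat_lit 255)) (nd (nat_lit 340) (nat_lit 0) (cs (lf (nat_lit 13) (nat_lit 318)) (nd (nat_lit 323) (nat_lit 0) (cs (lf (nat_lit 6) (nat_lit 320)) (nd (nat_lit 300) (nat_lit 0) (cs (lf (nat_lit 24) (nat_lit 233)) (lf (nat_lit 1) (nat_lit 297)))))))))))))))) q29244 (by decide +kernel)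
def q29247 : Q := Q.p (nat_lit 0x20000080000600001000000000000000000000000000000000000000000000000000000000000000000000000000) (nat_lit 0x100000000000000004000010000000000000000000000000000000000000000000000000000000000000000) (nat_lit 2)
theorem c29247 : QOK q29247 := cut [] trivial (nd (nat_lit 278) (nat_lit 0) (cs (lf (nat_lit 36) (nat_lit 255)) (lf (nat_lit 39) (nat_lit 277)))) q29247 (by decide +kernel)
def q29257 : Q := Q.p (nat_lit 0x6000010000040000000000000000000000000000000000000000000000000000000000000000000000000000000000000) (nat_lit 0x80000200000800000000008000000000100000000000000000000000000000000000000000000000000000000000000000000000000000000) (nat_lit 3)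
theorem c29257 : QOK q29257 := cut [] trivial (nd (nat_lit 407) (nat_lit 0) (cs (nd (nat_lit 429) (nat_lit 0) (cs (lf (nat_lit 30) (nat_lit 363)) (lf (nat_lit 33) (nat_lit 341)))) (lf (nat_lit 36) (nat_lit 319)))) q29257 (by decide +kernel)
def q29274 : Q := Q.p (nat_lit 0x80000200000c0000400000000000000000000000000000000000000000000000000000000000000000000000000000000) (nat_lit 0x2000000000000000100000100000000000000000000000000000000000000000000000000000000000000000000000000000000) (nat_lit 2)
theorem c29274 : QOK q29274 := cut [] trivial (nd (nat_lit 409) (nat_lit 0) (cs (lf (nat_lit 47) (nat_lit 320)) (lf (nat_lit 34) (nat_lit 321)))) q29274 (by decide +kernel)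
def q29278 : Q := Q.p (nat_lit 0x1c000030000000000000000000000000000000000000000000000000000000000000000000000000000000000000000000) (nat_lit 0x2000000c000000000000000000000000000000000000000000000000000000000000000000000000000000000000000000) (nat_lit 2)
theorem c29278 : QOK q29278 := cut [] trivial (nd (nat_lit 363) (nat_lit 0) (cs (lf (nat_lit 18) (nat_lit 363)) (lf (nat_lit 0) (nat_lit 362)))) q29278 (by decide +kernel)
def q29285 : Q := Q.p (nat_lit 0x20000080000600000000000000000000000000000000000000000000000000000000000000000000000000000000) (nat_lit 0x8000000000000000000001800004000010000000000000000000000000000000000000000000000000000000000000000) (nat_lit 3)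
theorem c29285 : QOK q29285 := cut [] trivial (nd (nat_lit 300) (nat_lit 0) (cs (lf (nat_lit 30) (nat_lit 299)) (nd (nat_lit 278) (nat_lit 0) (cs (lf (nat_lit 36) (nat_lit 255)) (lf (nat_lit 33) (nat_lit 277)))))) q29285 (by decide +kernel)
def q29289 : Q := Q.p (nat_lit 0x80000600000000004000000000000000000000000000000000000000000000000000000000000000000000) (nat_lit 0x8000020000100000000001000000000010000000000000000000000000000000000000000000000000000000000000000) (nat_lit 3)
theorem c29289 : QOK q29289 := cut [] trivial (nd (nat_lit 300) (nat_lit 0) (cs (lf (nat_lit 36) (nat_lit 255)) (nd (nat_lit 365) (nat_lit 0) (cs (lf (nat_lit 30) (nat_lit 299)) (lf (nat_lit 39) (nat_lit 277)))))) q29289 (by decide +kernel)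
def q29292 : Q := Q.p (nat_lit 0x100000c0000200000800000000000000000000000000000000000000000000000000000000000000000000000000) (nat_lit 0x1000004000000000000000100000000000000000000000000000000000000000000000000000000000000000000000000000000) (nat_lit 2)
theorem c29292 : QOK q29292 := cut [] trivial (nd (nat_lit 386) (nat_lit 0) (cs (lf (nat_lit 30) (nat_lit 320)) (lf (nat_lit 33) (nat_lit 298)))) q29292 (by decide +kernel)
def q29337 : Q := Q.p (nat_lit 0xf800000000000000000000000000000000000000000000000000000000000000000000000000000000000000000000000) (nat_lit 0x7000000000000000000000000000000000000000000000000000000000000000000000000000000000000000000000000000000) (nat_lit 2)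
theorem c29337 : QOK q29337 := cut [] trivial (nd (nat_lit 409) (nat_lit 0) (cs (lf (nat_lit 4) (nat_lit 383)) (lf (nat_lit 5) (nat_lit 384)))) q29337 (by decide +kernel)
def q29344 : Q := Q.p (nat_lit 0x80000200000c0000200000000000000000000000000000000000000000000000000000000000000000000000000000000) (nat_lit 0x2000000000000000000000100000400000000000000000000000000000000000000000000000000000000000000000000000000) (nat_lit 2)
theorem c29344 : QOK q29344 := cut [] trivial (nd (nat_lit 320) (nat_lit 0) (cs (lf (nat_lit 47) (nat_lit 298)) (lf (nat_lit 42) (nat_lit 320)))) q29344 (by decide +kernel)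
def q29348 : Q := Q.p (nat_lit 0xc000034000040000100000000000000000000000000000000000000000000000000000000000000000000000000000000) (nat_lit 0x800003800002000000000000000000000000000000000000000000000000000000000000000000000000000000000000000000) (nat_lit 3)
theorem c29348 : QOK q29348 := cut [] trivial (nd (nat_lit 385) (nat_lit 0) (cs (lf (nat_lit 41) (nat_lit 319)) (nd (nat_lit 384) (nat_lit 0) (cs (lf (nat_lit 23) (nat_lit 361)) (lf (nat_lit 12) (nat_lit 361)))))) q29348 (by decide +kernel)
def q29362 : Q := Q.p (nat_lit 0x40000140000c0000600000200000800000000000000000000000000000000000000000000000000000000000000000000) (nat_lit 0x280001a000028000100000100001400000000000000000000000000000000000000000000000000000000000000000000000000) (nat_lit 6)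
theorem c29362 : QOK q29362 := cut [] trivial (nd (nat_lit 320) (nat_lit 0) (cs (lf (nat_lit 45) (nat_lit 275)) (nd (nat_lit 385) (nat_lit 0) (cs (lf (nat_lit 41) (nat_lit 319)) (nd (nat_lit 387) (nat_lit 0) (cs (lf (nat_lit 29) (nat_lit 320)) (nd (nat_lit 363) (nat_lit 0) (cs (lf (nat_lit 18) (nat_lit 362)) (nd (nat_lit 365) (nat_lit 0) (cs (lf (nat_lit 35) (nat_lit 299)) (lf (nat_lit 17) (nat_lit 340)))))))))))) q29362 (by decide +kernel)
def q29366 : Q := Q.p (nat_lit 0x40000140000c0000000000200000800000000000000000000000000000000000000000000000000000000000000000000) (nat_lit 0x280000b00000a000000000100000400000000000000000000000000000000000000000000000000000000000000000000000000) (nat_lit 5)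
theorem c29366 : QOK q29366 := cut [] trivial (nd (nat_lit 320) (nat_lit 0) (cs (lf (nat_lit 45) (nat_lit 275)) (nd (nat_lit 361) (nat_lit 0) (cs (lf (nat_lit 14) (nat_lit 339)) (nd (nat_lit 387) (nat_lit 0) (cs (lf (nat_lit 29) (nat_lit 320)) (nd (nat_lit 385) (nat_lit 0) (cs (lf (nat_lit 41) (nat_lit 319)) (lf (nat_lit 21) (nat_lit 361)))))))))) q29366 (by decide +kernel)
def q29413 : Q := Q.p (nat_lit 0x7c00000000000000000000000000000000000000000000000000000000000000000000000000000000000000000000000) (nat_lit 0x3800000000000000000000000000000000000000000000000000000000000000000000000000000000000000000) (nat_lit 2)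
theorem c29413 : QOK q29413 := cut [] trivial (nd (nat_lit 360) (nat_lit 0) (cs (lf (nat_lit 22) (nat_lit 360)) (lf (nat_lit 23) (nat_lit 359)))) q29413 (by decide +kernel)
def q29452 : Q := Q.p (nat_lit 0xf800000000000000000000000000000000000000000000000000000000000000000000000000000000000000000000000) (nat_lit 0x700000000000000000000000000000000000000000000000000000000000000000000000000000000000000000000000000000) (nat_lit 2)
theorem c29452 : QOK q29452 := cut [] trivial (nd (nat_lit 405) (nat_lit 0) (cs (lf (nat_lit 11) (nat_lit 382)) (lf (nat_lit 10) (nat_lit 383)))) q29452 (by decide +kernel)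
def q29476 : Q := Q.p (nat_lit 0x200000c0000200000a00000800000000000000000000000000000000000000000000000000000000000000000000) (nat_lit 0x4000010000000000100000400001000000000000000000000000000000000000000000000000000000000000000000000) (nat_lit 3)
theorem c29476 : QOK q29476 := cut [] trivial (nd (nat_lit 364) (nat_lit 0) (cs (lf (nat_lit 41) (nat_lit 298)) (nd (nat_lit 298) (nat_lit 0) (cs (lf (nat_lit 47) (nat_lit 276)) (lf (nat_lit 44) (nat_lit 275)))))) q29476 (by decide +kernel)
def q29490 : Q := Q.p (nat_lit 0xf00001800000000000000000000000000000000000000000000000000000000000000000000) (nat_lit 0x700000c0000000000000000000000000000000000000000000000000000000000000000000000000) (nat_lit 3)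
theorem c29490 : QOK q29490 := cut [] trivial (nd (nat_lit 317) (nat_lit 0) (cs (lf (nat_lit 10) (nat_lit 295)) (nd (nat_lit 295) (nat_lit 0) (cs (lf (nat_lit 11) (nat_lit 294)) (lf (nat_lit 12) (nat_lit 272)))))) q29490 (by decide +kernel)
def q29497 : Q := Q.p (nat_lit 0x40000100000c0000200000000000000000000000000000000000000000000000000000000000000000000000000000000) (nat_lit 0x20000000000000000800002000000000000000000000000000000000000000000000000000000000000000000000) (nat_lit 2)
theorem c29497 : QOK q29497 := cut [] trivial (nd (nat_lit 299) (nat_lit 0) (cs (lf (nat_lit 36) (nat_lit 276)) (lf (nat_lit 39) (nat_lit 298)))) q29497 (by decide +kernel)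
def q29501 : Q := Q.p (nat_lit 0x40000100000c0000000000200000800000000000000000000000000000000000000000000000000000000000000000000) (nat_lit 0x1000000000000000000000300000c00000000000000000000000000000000000000000000000000000000000000000000000000) (nat_lit 3)
theorem c29501 : QOK q29501 := cut [] trivial (nd (nat_lit 321) (nat_lit 0) (cs (lf (nat_lit 30) (nat_lit 320)) (nd (nat_lit 320) (nat_lit 0) (cs (lf (nat_lit 45) (nat_lit 275)) (lf (nat_lit 35) (nat_lit 298)))))) q29501 (by decide +kernel)
def q29502 : Q := Q.p (nat_lit 0x8000034000080000000000000000000000000000000000000000000000000000000000000000000000000000000000000) (nat_lit 0x10000008000100000000000000000000000000000000000000000000000000000000000000000000000000000000000000) (nat_lit 2)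
theorem c29502 : QOK q29502 := cut [] trivial (nd (nat_lit 363) (nat_lit 0) (cs (lf (nat_lit 5) (nat_lit 362)) (lf (nat_lit 17) (nat_lit 340)))) q29502 (by decide +kernel)
def q29523 : Q := Q.p (nat_lit 0x40000180000c0000000000200000800000000000000000000000000000000000000000000000000000000000000000000) (nat_lit 0x280001a000006000000000100000400000000000000000000000000000000000000000000000000000000000000000000000000) (nat_lit 5)
theorem c29523 : QOK q29523 := cut [] trivial (nd (nat_lit 320) (nat_lit 0) (cs (lf (nat_lit 45) (nat_lit 275)) (nd (nat_lit 362) (nat_lit 0) (cs (lf (nat_lit 12) (nat_lit 339)) (nd (nat_lit 385) (nat_lit 0) (cs (lf (nat_lit 41) (nat_lit 319)) (nd (nat_lit 387) (nat_lit 0) (cs (lf (nat_lit 29) (nat_lit 320)) (lf (nat_lit 18) (nat_lit 362)))))))))) q29523 (by decide +kernel)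
def q29548 : Q := Q.p (nat_lit 0x4000010000040000100000000000000000000000000000000000000000000000000000000000000000000000000000000) (nat_lit 0xa0000380000a000000000000000000000000000000000000000000000000000000000000000000000000000000000000000000000000) (nat_lit 4)
theorem c29548 : QOK q29548 := cut [] trivial (nd (nat_lit 409) (nat_lit 0) (cs (lf (nat_lit 28) (nat_lit 320)) (nd (nat_lit 407) (nat_lit 0) (cs (lf (nat_lit 40) (nat_lit 319)) (nd (nat_lit 408) (nat_lit 0) (cs (lf (nat_lit 41) (nat_lit 341)) (lf (nat_lit 29) (nat_lit 342)))))))) q29548 (by decide +kernel)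
def q29563 : Q := Q.p (nat_lit 0xf000000000000000000000000000000000000000000000000000000000000000000000000000000000000000000000000) (nat_lit 0x700000800007000000000000000000000000000000000000000000000000000000000000000000000000000000000000000000) (nat_lit 4)
theorem c29563 : QOK q29563 := cut [] trivial (nd (nat_lit 405) (nat_lit 0) (cs (lf (nat_lit 10) (nat_lit 383)) (nd (nat_lit 383) (nat_lit 0) (cs (lf (nat_lit 11) (nat_lit 382)) (nd (nat_lit 361) (nat_lit 0) (cs (lf (nat_lit 23) (nat_lit 360)) (lf (nat_lit 22) (nat_lit 361)))))))) q29563 (by decide +kernel)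
def q29599 : Q := Q.p (nat_lit 0x14000058000180000000000000000000000000000000000000000000000000000000000000000000000000000000000000) (nat_lit 0x200000c00002a000000000000000200000000000000000000000000000000000000000000000000000000000000000000000000000000) (nat_lit 4)
theorem c29599 : QOK q29599 := cut [] trivial (nd (nat_lit 387) (nat_lit 0) (cs (lf (nat_lit 18) (nat_lit 363)) (nd (nat_lit 410) (nat_lit 0) (cs (lf (nat_lit 47) (nat_lit 321)) (nd (nat_lit 411) (nat_lit 0) (cs (lf (nat_lit 29) (nat_lit 344)) (lf (nat_lit 0) (nat_lit 385)))))))) q29599 (by decide +kernel)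
def q29607 : Q := Q.p (nat_lit 0x10000040000180000000000000000000000000000000000000000000000000000000000000000000000000000000000000) (nat_lit 0xa0000380000e000000000000000000000200000000000000000000000000000000000000000000000000000000000000000000000000000000) (nat_lit 5)
theorem c29607 : QOK q29607 := cut [] trivial (nd (nat_lit 410) (nat_lit 0) (cs (lf (nat_lit 47) (nat_lit 321)) (nd (nat_lit 433) (nat_lit 0) (cs (nd (nat_lit 431) (nat_lit 0) (cs (lf (nat_lit 40) (nat_lit 343)) (nd (nat_lit 432) (nat_lit 0) (cs (lf (nat_lit 41) (nat_lit 365)) (lf (nat_lit 29) (nat_lit 366)))))) (lf (nat_lit 28) (nat_lit 344)))))) q29607 (by decide +kernel)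
def q29641 : Q := Q.p (nat_lit 0x180001c000000000000000000000000000000000000000000000000000000000000000000000000000000000000000000000000) (nat_lit 0x600002000000000000000000000000000000000000000000000000000000000000000000000000000000000000000000000000) (nat_lit 2)
theorem c29641 : QOK q29641 := cut [] trivial (nd (nat_lit 406) (nat_lit 0) (cs (lf (nat_lit 9) (nat_lit 384)) (lf (nat_lit 12) (nat_lit 383)))) q29641 (by decide +kernel)
def q29646 : Q := Q.p (nat_lit 0x1000004000018000080000000000000000000000000000000000000000000000000000000000000000000000000000000000000) (nat_lit 0x400000000000000020000020000000000000000000000000000000000000000000000000000000000000000000000000000000000000) (nat_lit 2)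
theorem c29646 : QOK q29646 := cut [] trivial (nd (nat_lit 430) (nat_lit 0) (cs (lf (nat_lit 47) (nat_lit 341)) (lf (nat_lit 34) (nat_lit 342)))) q29646 (by decide +kernel)
def q29664 : Q := Q.p (nat_lit 0x3c0000c0000000000000000000000000000000000000000000000000000000000000000000000000000000000000) (nat_lit 0x38001c0000020000000000000000000000000000000000000000000000000000000000000000000000000000000000000) (nat_lit 4)
theorem c29664 : QOK q29664 := cut [] trivial (nd (nat_lit 384) (nat_lit 0) (cs (lf (nat_lit 11) (nat_lit 361)) (nd (nat_lit 366) (nat_lit 0) (cs (nd (nat_lit 367) (nat_lit 0) (cs (lf (nat_lit 18) (nat_lit 342)) (lf (nat_lit 23) (nat_lit 341)))) (lf (nat_lit 10) (nat_lit 362)))))) q29664 (by decide +kernel)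
def q29670 : Q := Q.p (nat_lit 0x180000c0000000000000000000000000000000000000000000000000000000000000000000000000000000000000) (nat_lit 0x26000300000000000000000000000000000000000000000000000000000000000000000000000000000000000000) (nat_lit 3)
theorem c29670 : QOK q29670 := cut [] trivial (nd (nat_lit 344) (nat_lit 0) (cs (lf (nat_lit 6) (nat_lit 341)) (nd (nat_lit 362) (nat_lit 0) (cs (lf (nat_lit 12) (nat_lit 339)) (lf (nat_lit 15) (nat_lit 340)))))) q29670 (by decide +kernel)
def q29710 : Q := Q.p (nat_lit 0x10000040000100000c0000000000000000000000000000000000000000000000000000000000000000000000000000000000000) (nat_lit 0x80000600000800000000020000000000000000000000000000000000000000000000000000000000000000000000000000000000000000000) (nat_lit 3)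
theorem c29710 : QOK q29710 := cut [] trivial (nd (nat_lit 429) (nat_lit 0) (cs (lf (nat_lit 40) (nat_lit 341)) (nd (nat_lit 430) (nat_lit 0) (cs (lf (nat_lit 41) (nat_lit 363)) (lf (nat_lit 34) (nat_lit 342)))))) q29710 (by decide +kernel)
def q29713 : Q := Q.p (nat_lit 0x40000100000c0000100000000000000000000000000000000000000000000000000000000000000000000000000000000) (nat_lit 0x1000000000000000000000200000800000000000000000000000000000000000000000000000000000000000000000000000000) (nat_lit 2)
theorem c29713 : QOK q29713 := cut [] trivial (nd (nat_lit 321) (nat_lit 0) (cs (lf (nat_lit 30) (nat_lit 320)) (lf (nat_lit 35) (nat_lit 298)))) q29713 (by decide +kernel)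
def q29737 : Q := Q.p (nat_lit 0x1e000060000080000000000000000000000000000000000000000000000000000000000000000000000000000000000000) (nat_lit 0x100000c000000000000000000000000000000000000000000000000000000000000000000000000000000000000000000000000000000) (nat_lit 2)
theorem c29737 : QOK q29737 := cut [] trivial (nd (nat_lit 410) (nat_lit 0) (cs (lf (nat_lit 42) (nat_lit 343)) (lf (nat_lit 5) (nat_lit 385)))) q29737 (by decide +kernel)
def q29791 : Q := Q.p (nat_lit 0x80000200001800004000000000000000000000000000000000000000000000000000000000000000000000) (nat_lit 0x400000000000000010000040000000000000000000000000000000000000000000000000000000000) (nat_lit 2)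
theorem c29791 : QOK q29791 := cut [] trivial (nd (nat_lit 256) (nat_lit 0) (cs (lf (nat_lit 36) (nat_lit 233)) (lf (nat_lit 39) (nat_lit 255)))) q29791 (by decide +kernel)
def q29838 : Q := Q.p (nat_lit 0x140001c0000000000000000000000000000000000000000000000000000000000000000000000000000000000000) (nat_lit 0x2a000000000000000000000000000000000000000000000000000000000000000000000000000000000000000000) (nat_lit 2)
theorem c29838 : QOK q29838 := cut [] trivial (nd (nat_lit 363) (nat_lit 0) (cs (lf (nat_lit 12) (nat_lit 339)) (lf (nat_lit 15) (nat_lit 340)))) q29838 (by decide +kernel)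
def q29843 : Q := Q.p (nat_lit 0xc0000e0000000000000000000000000000000000000000000000000000000000000000000000000000000000000) (nat_lit 0x3000010000000000000000000000000000000000000000000000000000000000000000000000000000000000000) (nat_lit 2)
theorem c29843 : QOK q29843 := cut [] trivial (nd (nat_lit 361) (nat_lit 0) (cs (lf (nat_lit 12) (nat_lit 338)) (lf (nat_lit 9) (nat_lit 339)))) q29843 (by decide +kernel)
def q29879 : Q := Q.p (nat_lit 0x20000080000600000a00000000000000000000000000000000000000000000000000000000000000000000000000) (nat_lit 0x500001000000000000000000000000000000000000000000000000000000000000000000000) (nat_lit 2)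
theorem c29879 : QOK q29879 := cut [] trivial (nd (nat_lit 298) (nat_lit 0) (cs (lf (nat_lit 47) (nat_lit 276)) (lf (nat_lit 0) (nat_lit 296)))) q29879 (by decide +kernel)
def q29891 : Q := Q.p (nat_lit 0x10000040000100000400000000000000000000000000000000000000000000000000000000000000000000000000000000) (nat_lit 0x280000e000028000000000000000000000000000000000000000000000000000000000000000000000000000000000000000000000000) (nat_lit 4)
theorem c29891 : QOK q29891 := cut [] trivial (nd (nat_lit 411) (nat_lit 0) (cs (lf (nat_lit 28) (nat_lit 322)) (nd (nat_lit 409) (nat_lit 0) (cs (lf (nat_lit 40) (nat_lit 321)) (nd (nat_lit 410) (nat_lit 0) (cs (lf (nat_lit 41) (nat_lit 343)) (lf (nat_lit 29) (nat_lit 344)))))))) q29891 (by decide +kernel)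
def q29945 : Q := Q.p (nat_lit 0x10000040000180000400000000000000000000000000000000000000000000000000000000000000000000000000000000) (nat_lit 0xa00002800002000000000020000300000e000038000020000000000000000000000000000000000000000000000000000000000) (nat_lit 8)
theorem c29945 : QOK q29945 := cut [] trivial (nd (nat_lit 387) (nat_lit 0) (cs (lf (nat_lit 41) (nat_lit 321)) (nd (nat_lit 300) (nat_lit 0) (cs (lf (nat_lit 40) (nat_lit 299)) (nd (nat_lit 279) (nat_lit 0) (cs (lf (nat_lit 34) (nat_lit 278)) (nd (nat_lit 278) (nat_lit 0) (cs (lf (nat_lit 35) (nat_lit 256)) (nd (nat_lit 389) (nat_lit 0) (cs (lf (nat_lit 29) (nat_lit 322)) (nd (nat_lit 255) (nat_lit 0) (cs (lf (nat_lit 46) (nat_lit 255)) (nd (nat_lit 256) (nat_lit 0) (cs (lf (nat_lit 40) (nat_lit 255)) (lf (nat_lit 47) (nat_lit 233)))))))))))))))) q29945 (by decide +kernel)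
def q29951 : Q := Q.p (nat_lit 0x20000080000200000800002000000000000000000000000000000000000000000000000000000000000000000000) (nat_lit 0x10000040000100000000000000000000000000000000000000000000000000000000000000000000000000000000000000) (nat_lit 2)
theorem c29951 : QOK q29951 := cut [] trivial (nd (nat_lit 366) (nat_lit 0) (cs (lf (nat_lit 29) (nat_lit 299)) (lf (nat_lit 28) (nat_lit 277)))) q29951 (by decide +kernel)
def q29967 : Q := Q.p (nat_lit 0x1e00002000000000000000000000000000000000000000000000000000000000000000000000) (nat_lit 0x10000c000000000000000000000000000000000000000000000000000000000000000000000) (nat_lit 2)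
theorem c29967 : QOK q29967 := cut [] trivial (nd (nat_lit 278) (nat_lit 0) (cs (lf (nat_lit 17) (nat_lit 275)) (lf (nat_lit 12) (nat_lit 274)))) q29967 (by decide +kernel)
def q29977 : Q := Q.p (nat_lit 0x7c0000000000000000000000000000000000000000000000000000000000000000000000000000000000000) (nat_lit 0x380000000000000000000000000000000000000000000000000000000000000000000000000000000000000000000) (nat_lit 2)
theorem c29977 : QOK q29977 := cut [] trivial (nd (nat_lit 368) (nat_lit 0) (cs (lf (nat_lit 5) (nat_lit 343)) (lf (nat_lit 4) (nat_lit 342)))) q29977 (by decide +kernel)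
def q30019 : Q := Q.p (nat_lit 0x200000c0000100000000000800002000000000000000000000000000000000000000000000000000000000000000) (nat_lit 0x2000008000000000000000200000400001000000000000000000000000000000000000000000000000000000000000000000000) (nat_lit 3)
theorem c30019 : QOK q30019 := cut [] trivial (nd (nat_lit 298) (nat_lit 0) (cs (lf (nat_lit 45) (nat_lit 253)) (nd (nat_lit 387) (nat_lit 0) (cs (lf (nat_lit 42) (nat_lit 320)) (lf (nat_lit 45) (nat_lit 298)))))) q30019 (by decide +kernel)
def q30022 : Q := Q.p (nat_lit 0x600000c0000000000000000000000000000000000000000000000000000000000000000000000000000000000000) (nat_lit 0x180000130000000000000000000000000000000000000000000000000000000000000000000000000000000000000) (nat_lit 3)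
theorem c30022 : QOK q30022 := cut [] trivial (nd (nat_lit 341) (nat_lit 0) (cs (lf (nat_lit 0) (nat_lit 340)) (nd (nat_lit 367) (nat_lit 0) (cs (lf (nat_lit 18) (nat_lit 342)) (lf (nat_lit 3) (nat_lit 341)))))) q30022 (by decide +kernel)
def q30028 : Q := Q.p (nat_lit 0xc0000600000c0000100000000000000000000000000000000000000000000000000000000000000000000000000000000) (nat_lit 0x5000010000000000100001e00007000000000000000000000000000000000000000000000000000000000000000000000000000) (nat_lit 6)
theorem c30028 : QOK q30028 := cut [] trivial (nd (nat_lit 321) (nat_lit 0) (cs (lf (nat_lit 41) (nat_lit 320)) (nd (nat_lit 388) (nat_lit 0) (cs (lf (nat_lit 29) (nat_lit 321)) (nd (nat_lit 322) (nat_lit 0) (cs (lf (nat_lit 35) (nat_lit 299)) (nd (nat_lit 323) (nat_lit 0) (cs (lf (nat_lit 6) (nat_lit 320)) (nd (nat_lit 301) (nat_lit 0) (cs (lf (nat_lit 17) (nat_lit 298)) (lf (nat_lit 32) (nat_lit 300)))))))))))) q30028 (by decide +kernel)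
def q30044 : Q := Q.p (nat_lit 0xe00000c0000000000000000000000000000000000000000000000000000000000000000000000000000000000000) (nat_lit 0x10000030000000000000000000000000000000000000000000000000000000000000000000000000000000000000) (nat_lit 2)
theorem c30044 : QOK q30044 := cut [] trivial (nd (nat_lit 341) (nat_lit 0) (cs (lf (nat_lit 0) (nat_lit 340)) (lf (nat_lit 21) (nat_lit 341)))) q30044 (by decide +kernel)
def q30049 : Q := Q.p (nat_lit 0x80000200000c0000100000000000800002000000000000000000000000000000000000000000000000000000000000000) (nat_lit 0x200000400001000000000000000000000000000000000000000000000000000000000000000000000) (nat_lit 2)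
theorem c30049 : QOK q30049 := cut [] trivial (nd (nat_lit 298) (nat_lit 0) (cs (lf (nat_lit 45) (nat_lit 253)) (lf (nat_lit 45) (nat_lit 298)))) q30049 (by decide +kernel)
def q30055 : Q := Q.p (nat_lit 0xc0000c00000000000000000000000000000000000000000000000000000000000000000000000000000000) (nat_lit 0x130000300000000000000000000000000000000000000000000000000000000000000000000000000000000) (nat_lit 3)
theorem c30055 : QOK q30055 := cut [] trivial (nd (nat_lit 341) (nat_lit 0) (cs (lf (nat_lit 15) (nat_lit 319)) (nd (nat_lit 321) (nat_lit 0) (cs (lf (nat_lit 12) (nat_lit 318)) (lf (nat_lit 9) (nat_lit 319)))))) q30055 (by decide +kernel)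
def q30057 : Q := Q.p (nat_lit 0x40000e00000200000000000000000000000000000000000000000000000000000000000000000000000000) (nat_lit 0x20000100000400000000000000000000000000000000000000000000000000000000000000000000000000) (nat_lit 2)
theorem c30057 : QOK q30057 := cut [] trivial (nd (nat_lit 320) (nat_lit 0) (cs (lf (nat_lit 22) (nat_lit 297)) (lf (nat_lit 11) (nat_lit 319)))) q30057 (by decide +kernel)
def q30060 : Q := Q.p (nat_lit 0xc0000c00000000000000000000000000000000000000000000000000000000000000000000000000000000) (nat_lit 0x300003200000000000000000000000000000000000000000000000000000000000000000000000000000000) (nat_lit 3)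
theorem c30060 : QOK q30060 := cut [] trivial (nd (nat_lit 324) (nat_lit 0) (cs (lf (nat_lit 9) (nat_lit 320)) (nd (nat_lit 344) (nat_lit 0) (cs (lf (nat_lit 6) (nat_lit 321)) (lf (nat_lit 15) (nat_lit 320)))))) q30060 (by decide +kernel)
def q30062 : Q := Q.p (nat_lit 0xc0000700000000000000000000000000000000000000000000000000000000000000000000000000000000) (nat_lit 0x20001800000000000000000000000000000000000000000000000000000000000000000000000000000000) (nat_lit 2)
theorem c30062 : QOK q30062 := cut [] trivial (nd (nat_lit 323) (nat_lit 0) (cs (lf (nat_lit 6) (nat_lit 320)) (lf (nat_lit 11) (nat_lit 319)))) q30062 (by decide +kernel)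
def q30068 : Q := Q.p (nat_lit 0x20000080000200000c0000000000000000000000000000000000000000000000000000000000000000000000000000000000000) (nat_lit 0x8000000000000000c0000130000400000000000000000000000000000000000000000000000000000000000000000000000000000000) (nat_lit 4)
theorem c30068 : QOK q30068 := cut [] trivial (nd (nat_lit 344) (nat_lit 0) (cs (lf (nat_lit 35) (nat_lit 321)) (nd (nat_lit 366) (nat_lit 0) (cs (lf (nat_lit 30) (nat_lit 343)) (nd (nat_lit 341) (nat_lit 0) (cs (lf (nat_lit 0) (nat_lit 340)) (lf (nat_lit 5) (nat_lit 341)))))))) q30068 (by decide +kernel)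
def q30075 : Q := Q.p (nat_lit 0x2000008000020000080000000000000000000000000000000000000000000000000000000000000000000000000000000000000) (nat_lit 0x1400005000014000000000000000200000000000000000000000000000000000000000000000000000000000000000000000000000000) (nat_lit 4)
theorem c30075 : QOK q30075 := cut [] trivial (nd (nat_lit 410) (nat_lit 0) (cs (lf (nat_lit 29) (nat_lit 343)) (nd (nat_lit 321) (nat_lit 0) (cs (nd (nat_lit 408) (nat_lit 0) (cs (lf (nat_lit 40) (nat_lit 320)) (lf (nat_lit 41) (nat_lit 342)))) (lf (nat_lit 28) (nat_lit 321)))))) q30075 (by decide +kernel)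
def q30081 : Q := Q.p (nat_lit 0x10000060000180000000000000000000000000000000000000000000000000000000000000000000000000000000000000) (nat_lit 0x1000004000000000000000000000200000000000000000000000000000000000000000000000000000000000000000000000000000000) (nat_lit 2)
theorem c30081 : QOK q30081 := cut [] trivial (nd (nat_lit 410) (nat_lit 0) (cs (lf (nat_lit 42) (nat_lit 343)) (lf (nat_lit 47) (nat_lit 321)))) q30081 (by decide +kernel)
def q30118 : Q := Q.p (nat_lit 0xf8000000000000000000000000000000000000000000000000000000000000000000000000000000000000) (nat_lit 0x700000000000000000000000000000000000000000000000000000000000000000000000000000000) (nat_lit 2)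
theorem c30118 : QOK q30118 := cut [] trivial (nd (nat_lit 321) (nat_lit 0) (cs (lf (nat_lit 17) (nat_lit 318)) (lf (nat_lit 16) (nat_lit 317)))) q30118 (by decide +kernel)
def q30135 : Q := Q.p (nat_lit 0x200000800004000010000040000000000000000000000000000000000000000000000000000000000000000000000000000000) (nat_lit 0x80000000000000002000008000000000000000000000000000000000000000000000000000000000000000000000000000000000000) (nat_lit 2)
theorem c30135 : QOK q30135 := cut [] trivial (nd (nat_lit 361) (nat_lit 0) (cs (lf (nat_lit 30) (nat_lit 339)) (lf (nat_lit 33) (nat_lit 317)))) q30135 (by decide +kernel)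
def q30140 : Q := Q.p (nat_lit 0x340000d0000000000000000000000000000000000000000000000000000000000000000000000000000000000000) (nat_lit 0x2000028000000000000000000000000000000000000000000000000000000000000000000000000000000000000) (nat_lit 2)
theorem c30140 : QOK q30140 := cut [] trivial (nd (nat_lit 341) (nat_lit 0) (cs (lf (nat_lit 11) (nat_lit 339)) (lf (nat_lit 0) (nat_lit 339)))) q30140 (by decide +kernel)
def q30174 : Q := Q.p (nat_lit 0x1c000030000040000000000200000800000000000000000000000000000000000000000000000000000000000000000000) (nat_lit 0x1ce00063800180000000000100000400000000000000000000000000000000000000000000000000000000000000000000000000) (nat_lit 8)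
theorem c30174 : QOK q30174 := cut [] trivial (nd (nat_lit 298) (nat_lit 0) (cs (lf (nat_lit 44) (nat_lit 275)) (nd (nat_lit 389) (nat_lit 0) (cs (lf (nat_lit 18) (nat_lit 364)) (nd (nat_lit 367) (nat_lit 0) (cs (lf (nat_lit 17) (nat_lit 364)) (nd (nat_lit 411) (nat_lit 0) (cs (lf (nat_lit 5) (nat_lit 386)) (nd (nat_lit 385) (nat_lit 0) (cs (nd (nat_lit 406) (nat_lit 0) (cs (lf (nat_lit 10) (nat_lit 384)) (nd (nat_lit 384) (nat_lit 0) (cs (lf (nat_lit 11) (nat_lit 383)) (lf (nat_lit 12) (nat_lit 361)))))) (lf (nat_lit 4) (nat_lit 385)))))))))))) q30174 (by decide +kernel)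
def q30194 : Q := Q.p (nat_lit 0xc000020000080000000000000000000000000000000000000000000000000000000000000000000000000000000000000) (nat_lit 0x100000400001000000000010000000000200000000000000000000000000000000000000000000000000000000000000000000000000000000) (nat_lit 3)
theorem c30194 : QOK q30194 := cut [] trivial (nd (nat_lit 408) (nat_lit 0) (cs (nd (nat_lit 430) (nat_lit 0) (cs (lf (nat_lit 33) (nat_lit 342)) (lf (nat_lit 30) (nat_lit 364)))) (lf (nat_lit 36) (nat_lit 320)))) q30194 (by decide +kernel)
def q30204 : Q := Q.p (nat_lit 0x20000080000200000c0000000000000000000000000000000000000000000000000000000000000000000000000000000000000) (nat_lit 0x100000c00001000000000010000000000000000000000000000000000000000000000000000000000000000000000000000000000000000000) (nat_lit 3)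
theorem c30204 : QOK q30204 := cut [] trivial (nd (nat_lit 430) (nat_lit 0) (cs (nd (nat_lit 431) (nat_lit 0) (cs (lf (nat_lit 41) (nat_lit 364)) (lf (nat_lit 46) (nat_lit 342)))) (lf (nat_lit 40) (nat_lit 342)))) q30204 (by decide +kernel)
def q30208 : Q := Q.p (nat_lit 0x8000020000040000100000000000800002000000000000000000000000000000000000000000000000000000000000000) (nat_lit 0x10000000000000000400001000000000000000000000000000000000000000000000000000000000000000000000) (nat_lit 2)
theorem c30208 : QOK q30208 := cut [] trivial (nd (nat_lit 298) (nat_lit 0) (cs (lf (nat_lit 45) (nat_lit 253)) (lf (nat_lit 27) (nat_lit 298)))) q30208 (by decide +kernel)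
def q30212 : Q := Q.p (nat_lit 0x80000200000c0000100000000000000000000000000000000000000000000000000000000000000000000000000000000) (nat_lit 0x200000400001000000000000000000000000000000000000000000000000000000000000000000000) (nat_lit 2)
theorem c30212 : QOK q30212 := cut [] trivial (nd (nat_lit 298) (nat_lit 0) (cs (lf (nat_lit 45) (nat_lit 298)) (lf (nat_lit 24) (nat_lit 276)))) q30212 (by decide +kernel)
def q30220 : Q := Q.p (nat_lit 0x18000060000080000000000000000000000000000000000000000000000000000000000000000000000000000000000000) (nat_lit 0x1000004000000000000000000000200000000000000000000000000000000000000000000000000000000000000000000000000000000) (nat_lit 2)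
theorem c30220 : QOK q30220 := cut [] trivial (nd (nat_lit 410) (nat_lit 0) (cs (lf (nat_lit 42) (nat_lit 343)) (lf (nat_lit 24) (nat_lit 321)))) q30220 (by decide +kernel)
def q30224 : Q := Q.p (nat_lit 0xc0000600000c0000000000000000000000000000000000000000000000000000000000000000000000000000000000000) (nat_lit 0x13000180000000000000000000000000000000000000000000000000000000000000000000000000000000000000000000) (nat_lit 3)
theorem c30224 : QOK q30224 := cut [] trivial (nd (nat_lit 385) (nat_lit 0) (cs (lf (nat_lit 12) (nat_lit 362)) (nd (nat_lit 367) (nat_lit 0) (cs (lf (nat_lit 18) (nat_lit 342)) (lf (nat_lit 15) (nat_lit 363)))))) q30224 (by decide +kernel)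
def q30227 : Q := Q.p (nat_lit 0x3c000060000000000000000000000000000000000000000000000000000000000000000000000000000000000000000000) (nat_lit 0x380000c0000000000000000000000000000000000000000000000000000000000000000000000000000000000000000000000000) (nat_lit 3)
theorem c30227 : QOK q30227 := cut [] trivial (nd (nat_lit 412) (nat_lit 0) (cs (lf (nat_lit 4) (nat_lit 386)) (nd (nat_lit 390) (nat_lit 0) (cs (lf (nat_lit 18) (nat_lit 365)) (lf (nat_lit 5) (nat_lit 387)))))) q30227 (by decide +kernel)
def q30245 : Q := Q.p (nat_lit 0x18000030000000000000000000000000000000000000000000000000000000000000000000000000000000000000000000) (nat_lit 0x6400000c000000000000000000000000000000000000000000000000000000000000000000000000000000000000000000) (nat_lit 3)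
theorem c30245 : QOK q30245 := cut [] trivial (nd (nat_lit 363) (nat_lit 0) (cs (lf (nat_lit 0) (nat_lit 362)) (nd (nat_lit 389) (nat_lit 0) (cs (lf (nat_lit 18) (nat_lit 364)) (lf (nat_lit 21) (nat_lit 363)))))) q30245 (by decide +kernel)
def q30281 : Q := Q.p (nat_lit 0x1c000030000040000000000200000800000000000000000000000000000000000000000000000000000000000000000000) (nat_lit 0x20000180000620001c0000700000d00002400000000000000000000000000000000000000000000000000000000000000000000000000) (nat_lit 9)
theorem c30281 : QOK q30281 := cut [] trivial (nd (nat_lit 298) (nat_lit 0) (cs (lf (nat_lit 44) (nat_lit 275)) (nd (nat_lit 389) (nat_lit 0) (cs (lf (nat_lit 18) (nat_lit 364)) (nd (nat_lit 367) (nat_lit 0) (cs (lf (nat_lit 17) (nat_lit 364)) (nd (nat_lit 366) (nat_lit 0) (cs (lf (nat_lit 12) (nat_lit 363)) (nd (nat_lit 345) (nat_lit 0) (cs (nd (nat_lit 301) (nat_lit 0) (cs (nd (nat_lit 411) (nat_lit 0) (cs (lf (nat_lit 5) (nat_lit 386)) (nd (nat_lit 344) (nat_lit 0) (cs (lf (nat_lit 47) (nat_lit 322)) (lf (nat_lit 42) (nat_lit 344)))))) (lf (nat_lit 37) (nat_lit 300)))) (lf (nat_lit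 17) (nat_lit 342)))))))))))) q30281 (by decide +kernel)
def q30286 : Q := Q.p (nat_lit 0x18000030000000000000000000000000000000000000000000000000000000000000000000000000000000000000000000) (nat_lit 0x6000004c000000000000000000000000000000000000000000000000000000000000000000000000000000000000000000) (nat_lit 3)
theorem c30286 : QOK q30286 := cut [] trivial (nd (nat_lit 363) (nat_lit 0) (cs (lf (nat_lit 0) (nat_lit 362)) (nd (nat_lit 389) (nat_lit 0) (cs (lf (nat_lit 18) (nat_lit 364)) (lf (nat_lit 3) (nat_lit 363)))))) q30286 (by decide +kernel)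
def q30290 : Q := Q.p (nat_lit 0x1c0000300000c0000000000200000800000000000000000000000000000000000000000000000000000000000000000000) (nat_lit 0x400001800060000000000000000100000400000000000000000000000000000000000000000000000000000000000000000000000000) (nat_lit 4)
theorem c30290 : QOK q30290 := cut [] trivial (nd (nat_lit 298) (nat_lit 0) (cs (lf (nat_lit 44) (nat_lit 275)) (nd (nat_lit 408) (nat_lit 0) (cs (lf (nat_lit 30) (nat_lit 342)) (nd (nat_lit 389) (nat_lit 0) (cs (lf (nat_lit 11) (nat_lit 385)) (lf (nat_lit 18) (nat_lit 364)))))))) q30290 (by decide +kernel)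
def q30296 : Q := Q.p (nat_lit 0x40000100000700000c0000000000000000000000000000000000000000000000000000000000000000000000000000000000000) (nat_lit 0x180000700000800002000000000000000000000000000000000000000000000000000000000000000000000000000) (nat_lit 4)
theorem c30296 : QOK q30296 := cut [] trivial (nd (nat_lit 367) (nat_lit 0) (cs (lf (nat_lit 18) (nat_lit 342)) (nd (nat_lit 345) (nat_lit 0) (cs (lf (nat_lit 17) (nat_lit 342)) (nd (nat_lit 323) (nat_lit 0) (cs (lf (nat_lit 36) (nat_lit 300)) (lf (nat_lit 33) (nat_lit 322)))))))) q30296 (by decide +kernel)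
def q30320 : Q := Q.p (nat_lit 0x700001c0000000000000000000000000000000000000000000000000000000000000000000000000000000000000) (nat_lit 0x4000010000000000600001c00002000008000000000000000000000000000000000000000000000000000000000000000000000) (nat_lit 5)
theorem c30320 : QOK q30320 := cut [] trivial (nd (nat_lit 345) (nat_lit 0) (cs (lf (nat_lit 6) (nat_lit 342)) (nd (nat_lit 323) (nat_lit 0) (cs (lf (nat_lit 17) (nat_lit 320)) (nd (nat_lit 301) (nat_lit 0) (cs (lf (nat_lit 36) (nat_lit 278)) (nd (nat_lit 388) (nat_lit 0) (cs (lf (nat_lit 33) (nat_lit 300)) (lf (nat_lit 30) (nat_lit 322)))))))))) q30320 (by decide +kernel)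
def q30342 : Q := Q.p (nat_lit 0xf0000000000000000000000000000000000000000000000000000000000000000000000000000000000000000000) (nat_lit 0x77000008000000000000000000000000000000000000000000000000000000000000000000000000000000000000000000) (nat_lit 4)
theorem c30342 : QOK q30342 := cut [] trivial (nd (nat_lit 389) (nat_lit 0) (cs (nd (nat_lit 363) (nat_lit 0) (cs (nd (nat_lit 385) (nat_lit 0) (cs (lf (nat_lit 11) (nat_lit 362)) (lf (nat_lit 10) (nat_lit 363)))) (lf (nat_lit 4) (nat_lit 363)))) (lf (nat_lit 5) (nat_lit 364)))) q30342 (by decide +kernel)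
def q30347 : Q := Q.p (nat_lit 0x40000300000c0000000000000000000000000000000000000000000000000000000000000000000000000000000000000) (nat_lit 0x400001000000000000000000000200000000000000000000000000000000000000000000000000000000000000000000000000000000) (nat_lit 2)
theorem c30347 : QOK q30347 := cut [] trivial (nd (nat_lit 408) (nat_lit 0) (cs (lf (nat_lit 30) (nat_lit 342)) (lf (nat_lit 35) (nat_lit 320)))) q30347 (by decide +kernel)
def q30370 : Q := Q.p (nat_lit 0x78000060000000000200000800000000000000000000000000000000000000000000000000000000000000000000) (nat_lit 0x800003000000000000000100000400000000000000000000000000000000000000000000000000000000000000000000000000) (nat_lit 3)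
theorem c30370 : QOK q30370 := cut [] trivial (nd (nat_lit 385) (nat_lit 0) (cs (lf (nat_lit 11) (nat_lit 362)) (nd (nat_lit 320) (nat_lit 0) (cs (lf (nat_lit 45) (nat_lit 275)) (lf (nat_lit 30) (nat_lit 319)))))) q30370 (by decide +kernel)
def q30402 : Q := Q.p (nat_lit 0x200003c0000000000000000000000000000000000000000000000000000000000000000000000000000000000000) (nat_lit 0x18000400000000000000000000000000000000000000000000000000000000000000000000000000000000000000) (nat_lit 2)
theorem c30402 : QOK q30402 := cut [] trivial (nd (nat_lit 364) (nat_lit 0) (cs (lf (nat_lit 11) (nat_lit 341)) (lf (nat_lit 6) (nat_lit 342)))) q30402 (by decide +kernel)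
def q30450 : Q := Q.p (nat_lit 0x40000100000400001000004000000000000000000000000000000000000000000000000000000000000000000000) (nat_lit 0x2000008000020000000000000000000000000000000000000000000000000000000000000000) (nat_lit 2)
theorem c30450 : QOK q30450 := cut [] trivial (nd (nat_lit 279) (nat_lit 0) (cs (lf (nat_lit 34) (nat_lit 278)) (lf (nat_lit 35) (nat_lit 256)))) q30450 (by decide +kernel)
def q30459 : Q := Q.p (nat_lit 0x100000c00002000000000000000000000000000000000000000000000000000000000000000000000000000) (nat_lit 0x10000040000000000000001000008000020000000000000000000000000000000000000000000000000000000000000000) (nat_lit 3)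
theorem c30459 : QOK q30459 := cut [] trivial (nd (nat_lit 279) (nat_lit 0) (cs (lf (nat_lit 36) (nat_lit 256)) (nd (nat_lit 366) (nat_lit 0) (cs (lf (nat_lit 30) (nat_lit 300)) (lf (nat_lit 33) (nat_lit 278)))))) q30459 (by decide +kernel)
def q30463 : Q := Q.p (nat_lit 0xe0000300000000000000000000000000000000000000000000000000000000000000000000000000000000) (nat_lit 0x18000400000000000000000000000000000000000000000000000000000000000000000000000000000000) (nat_lit 2)
theorem c30463 : QOK q30463 := cut [] trivial (nd (nat_lit 340) (nat_lit 0) (cs (lf (nat_lit 17) (nat_lit 318)) (lf (nat_lit 12) (nat_lit 317)))) q30463 (by decide +kernel)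
def q30479 : Q := Q.p (nat_lit 0x1c0000300000000000000000000000000000000000000000000000000000000000000000000000000000000) (nat_lit 0x40000620001c00006000008000020000000000000000000000000000000000000000000000000000000000000000) (nat_lit 6)
theorem c30479 : QOK q30479 := cut [] trivial (nd (nat_lit 345) (nat_lit 0) (cs (lf (nat_lit 18) (nat_lit 320)) (nd (nat_lit 323) (nat_lit 0) (cs (lf (nat_lit 17) (nat_lit 320)) (nd (nat_lit 322) (nat_lit 0) (cs (lf (nat_lit 11) (nat_lit 319)) (nd (nat_lit 301) (nat_lit 0) (cs (lf (nat_lit 17) (nat_lit 298)) (nd (nat_lit 279) (nat_lit 0) (cs (lf (nat_lit 41) (nat_lit 278)) (lf (nat_lit 36) (nat_lit 256)))))))))))) q30479 (by decide +kernel)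
def q30494 : Q := Q.p (nat_lit 0x200000c0000200000800000000000000000000000000000000000000000000000000000000000000000000000000) (nat_lit 0x4000010000000000000000000002000000000000000000000000000000000000000000000000000000000000000000000) (nat_lit 2)
theorem c30494 : QOK q30494 := cut [] trivial (nd (nat_lit 364) (nat_lit 0) (cs (lf (nat_lit 41) (nat_lit 298)) (lf (nat_lit 36) (nat_lit 276)))) q30494 (by decide +kernel)
def q30508 : Q := Q.p (nat_lit 0x40000180000200000000000000000000000000000000000000000000000000000000000000000000000000000000) (nat_lit 0x4000010000000000000000400000800002000000000000000000000000000000000000000000000000000000000000000000000) (nat_lit 3)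
theorem c30508 : QOK q30508 := cut [] trivial (nd (nat_lit 299) (nat_lit 0) (cs (lf (nat_lit 24) (nat_lit 277)) (nd (nat_lit 388) (nat_lit 0) (cs (lf (nat_lit 42) (nat_lit 321)) (lf (nat_lit 45) (nat_lit 299)))))) q30508 (by decide +kernel)
def q30555 : Q := Q.p (nat_lit 0x780000c0000100000000000000000000000000000000000000000000000000000000000000000000000000000000) (nat_lit 0x800003000000000030000000000000000000000000000000000000000000000000000000000000000000000000000000000000) (nat_lit 3)
theorem c30555 : QOK q30555 := cut [] trivial (nd (nat_lit 341) (nat_lit 0) (cs (lf (nat_lit 0) (nat_lit 340)) (nd (nat_lit 385) (nat_lit 0) (cs (lf (nat_lit 30) (nat_lit 319)) (lf (nat_lit 11) (nat_lit 362)))))) q30555 (by decide +kernel)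
def q30565 : Q := Q.p (nat_lit 0x80000200000800002000008000000000000000000000000000000000000000000000000000000000000000000000) (nat_lit 0x4000010000040000000000000000000000000000000000000000000000000000000000000000) (nat_lit 2)
theorem c30565 : QOK q30565 := cut [] trivial (nd (nat_lit 280) (nat_lit 0) (cs (lf (nat_lit 34) (nat_lit 279)) (lf (nat_lit 35) (nat_lit 257)))) q30565 (by decide +kernel)
def q30585 : Q := Q.p (nat_lit 0xc0000300000000002800002000000000000000000000000000000000000000000000000000000000000000) (nat_lit 0x18000060000100000000000c00001000008000000000000000000000000000000000000000000000000000000000000000) (nat_lit 5)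
theorem c30585 : QOK q30585 := cut [] trivial (nd (nat_lit 299) (nat_lit 0) (cs (lf (nat_lit 36) (nat_lit 254)) (nd (nat_lit 366) (nat_lit 0) (cs (lf (nat_lit 28) (nat_lit 277)) (nd (nat_lit 298) (nat_lit 0) (cs (lf (nat_lit 45) (nat_lit 253)) (nd (nat_lit 365) (nat_lit 0) (cs (lf (nat_lit 29) (nat_lit 299)) (lf (nat_lit 42) (nat_lit 298)))))))))) q30585 (by decide +kernel)
def q30588 : Q := Q.p (nat_lit 0x1e0000300000000000000000000000000000000000000000000000000000000000000000000000000000000) (nat_lit 0x600001c00000000000000000000000000000000000000000000000000000000000000000000000000000000) (nat_lit 3)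
theorem c30588 : QOK q30588 := cut [] trivial (nd (nat_lit 323) (nat_lit 0) (cs (lf (nat_lit 7) (nat_lit 319)) (nd (nat_lit 345) (nat_lit 0) (cs (lf (nat_lit 17) (nat_lit 320)) (lf (nat_lit 18) (nat_lit 320)))))) q30588 (by decide +kernel)
def q30598 : Q := Q.p (nat_lit 0xc0000300000200000800002000000000000000000000000000000000000000000000000000000000000000) (nat_lit 0x8000020000000000400000d80007000008000000000000000000000000000000000000000000000000000000000000000) (nat_lit 6)
theorem c30598 : QOK q30598 := cut [] trivial (nd (nat_lit 298) (nat_lit 0) (cs (lf (nat_lit 45) (nat_lit 253)) (nd (nat_lit 365) (nat_lit 0) (cs (lf (nat_lit 42) (nat_lit 298)) (nd (nat_lit 296) (nat_lit 0) (cs (lf (nat_lit 0) (nat_lit 295)) (nd (nat_lit 299) (nat_lit 0) (cs (lf (nat_lit 5) (nat_lit 296)) (nd (nat_lit 277) (nat_lit 0) (cs (lf (nat_lit 17) (nat_lit 274)) (lf (nat_lit 36) (nat_lit 254)))))))))))) q30598 (by decide +kernel)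
def q30611 : Q := Q.p (nat_lit 0x1c0000300000200000800002000000000000000000000000000000000000000000000000000000000000000) (nat_lit 0x180000600001c00000400001000000000000000000000000000000000000000000000000000000000000000000000) (nat_lit 5)
theorem c30611 : QOK q30611 := cut [] trivial (nd (nat_lit 345) (nat_lit 0) (cs (lf (nat_lit 18) (nat_lit 320)) (nd (nat_lit 367) (nat_lit 0) (cs (lf (nat_lit 5) (nat_lit 342)) (nd (nat_lit 323) (nat_lit 0) (cs (lf (nat_lit 17) (nat_lit 320)) (nd (nat_lit 298) (nat_lit 0) (cs (lf (nat_lit 45) (nat_lit 253)) (lf (nat_lit 19) (nat_lit 297)))))))))) q30611 (by decide +kernel)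
def q30613 : Q := Q.p (nat_lit 0x1e0000300000000000000000000000000000000000000000000000000000000000000000000000000000000) (nat_lit 0xe000018000000000000000000000000000000000000000000000000000000000000000000000000000000000000) (nat_lit 3)
theorem c30613 : QOK q30613 := cut [] trivial (nd (nat_lit 362) (nat_lit 0) (cs (lf (nat_lit 10) (nat_lit 340)) (nd (nat_lit 340) (nat_lit 0) (cs (lf (nat_lit 11) (nat_lit 339)) (lf (nat_lit 12) (nat_lit 317)))))) q30613 (by decide +kernel)
def q30627 : Q := Q.p (nat_lit 0x200000c0000300000800000000000000000000000000000000000000000000000000000000000000000000000000) (nat_lit 0x2000008000000000000000400001000004000000000000000000000000000000000000000000000000000000000000000000000) (nat_lit 3)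
theorem c30627 : QOK q30627 := cut [] trivial (nd (nat_lit 387) (nat_lit 0) (cs (lf (nat_lit 42) (nat_lit 320)) (nd (nat_lit 300) (nat_lit 0) (cs (lf (nat_lit 34) (nat_lit 299)) (lf (nat_lit 35) (nat_lit 277)))))) q30627 (by decide +kernel)
def q30631 : Q := Q.p (nat_lit 0x300000c0000200000800000000000000000000000000000000000000000000000000000000000000000000000000) (nat_lit 0x100000c0000030000000001000004000000000000000000000000000000000000000000000000000000000000000000000) (nat_lit 4)
theorem c30631 : QOK q30631 := cut [] trivial (nd (nat_lit 278) (nat_lit 0) (cs (lf (nat_lit 34) (nat_lit 277)) (nd (nat_lit 366) (nat_lit 0) (cs (lf (nat_lit 29) (nat_lit 299)) (nd (nat_lit 341) (nat_lit 0) (cs (lf (nat_lit 0) (nat_lit 340)) (lf (nat_lit 18) (nat_lit 341)))))))) q30631 (by decide +kernel)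
def q30634 : Q := Q.p (nat_lit 0x200000c0000300000800000000000000000000000000000000000000000000000000000000000000000000000000) (nat_lit 0x300000c000010000000000000000000000000000000000000000000000000000000000000000000000000000000000000000000) (nat_lit 3)
theorem c30634 : QOK q30634 := cut [] trivial (nd (nat_lit 387) (nat_lit 0) (cs (lf (nat_lit 42) (nat_lit 320)) (nd (nat_lit 386) (nat_lit 0) (cs (lf (nat_lit 41) (nat_lit 320)) (lf (nat_lit 31) (nat_lit 298)))))) q30634 (by decide +kernel)
def q30677 : Q := Q.p (nat_lit 0x100000c0000300000000000000000000000000000000000000000000000000000000000000000000000000000000) (nat_lit 0x1000004000000000000000000000800000000000000000000000000000000000000000000000000000000000000000000000000) (nat_lit 2)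
theorem c30677 : QOK q30677 := cut [] trivial (nd (nat_lit 386) (nat_lit 0) (cs (lf (nat_lit 30) (nat_lit 320)) (lf (nat_lit 35) (nat_lit 298)))) q30677 (by decide +kernel)
def q30682 : Q := Q.p (nat_lit 0x200000c0000300000800000000000000000000000000000000000000000000000000000000000000000000000000) (nat_lit 0x1000006000018000000000000000000000000000000000000000000000000000000000000000) (nat_lit 3)
theorem c30682 : QOK q30682 := cut [] trivial (nd (nat_lit 278) (nat_lit 0) (cs (lf (nat_lit 34) (nat_lit 277)) (nd (nat_lit 277) (nat_lit 0) (cs (lf (nat_lit 36) (nat_lit 254)) (lf (nat_lit 35) (nat_lit 255)))))) q30682 (by decide +kernel)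
def q30702 : Q := Q.p (nat_lit 0x100000400001c0000400000000000000000000000000000000000000000000000000000000000000000000000000000000) (nat_lit 0x1a00002800000000000000000000000000000000000000000000000000000000000000000000000000) (nat_lit 3)
theorem c30702 : QOK q30702 := cut [] trivial (nd (nat_lit 321) (nat_lit 0) (cs (lf (nat_lit 47) (nat_lit 299)) (nd (nat_lit 323) (nat_lit 0) (cs (lf (nat_lit 6) (nat_lit 320)) (lf (nat_lit 35) (nat_lit 300)))))) q30702 (by decide +kernel)
def q30734 : Q := Q.p (nat_lit 0x380000c0000000000000000000000000000000000000000000000000000000000000000000000000000000000000) (nat_lit 0x4000300000000000000000000000000000000000000000000000000000000000000000000000000000000000000) (nat_lit 2)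
theorem c30734 : QOK q30734 := cut [] trivial (nd (nat_lit 344) (nat_lit 0) (cs (lf (nat_lit 6) (nat_lit 341)) (lf (nat_lit 12) (nat_lit 340)))) q30734 (by decide +kernel)
def q30792 : Q := Q.p (nat_lit 0xc0000300000800000000000000000000000000000000000000000000000000000000000000000000000000) (nat_lit 0x10000000000000000000002000008000000000000000000000000000000000000000000000000000000000000000) (nat_lit 2)
theorem c30792 : QOK q30792 := cut [] trivial (nd (nat_lit 277) (nat_lit 0) (cs (lf (nat_lit 41) (nat_lit 276)) (lf (nat_lit 36) (nat_lit 254)))) q30792 (by decide +kernel)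
def q30800 : Q := Q.p (nat_lit 0x800018000048000100000400001000000000000000000000000000000000000000000000000000000000000000000000000000) (nat_lit 0x9000024000010000000000000002000008000000000000000000000000000000000000000000000000000000000000000000000) (nat_lit 4)
theorem c30800 : QOK q30800 := cut [] trivial (nd (nat_lit 279) (nat_lit 0) (cs (lf (nat_lit 34) (nat_lit 278)) (nd (nat_lit 389) (nat_lit 0) (cs (lf (nat_lit 29) (nat_lit 322)) (nd (nat_lit 386) (nat_lit 0) (cs (lf (nat_lit 10) (nat_lit 385)) (lf (nat_lit 22) (nat_lit 363)))))))) q30800 (by decide +kernel)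
def q30841 : Q := Q.p (nat_lit 0xc0000000001e0000700000000000000000000000000000000000000000000000000000000000000000000000000000000) (nat_lit 0x7e0003200004c000000000000000800000000000000000000000000000000000000000000000000000000000000000000000000) (nat_lit 6)
theorem c30841 : QOK q30841 := cut [] trivial (nd (nat_lit 388) (nat_lit 0) (cs (nd (nat_lit 363) (nat_lit 0) (cs (lf (nat_lit 11) (nat_lit 340)) (nd (nat_lit 407) (nat_lit 0) (cs (lf (nat_lit 31) (nat_lit 319)) (nd (nat_lit 408) (nat_lit 0) (cs (lf (nat_lit 6) (nat_lit 385)) (nd (nat_lit 406) (nat_lit 0) (cs (lf (nat_lit 12) (nat_lit 383)) (lf (nat_lit 15) (nat_lit 384)))))))))) (nd (nat_lit 366) (nat_lit 0) (cs (lf (nat_lit 42) (nat_lit 321)) (lf (nat_lit 47) (nat_lit 299)))))) q30841 (by decide +kernel)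
def q30842 : Q := Q.p (nat_lit 0x40000000000c0000300000000000000000000000000000000000000000000000000000000000000000000000000000000) (nat_lit 0x1000000000010000000000000000800000000000000000000000000000000000000000000000000000000000000000000000000) (nat_lit 2)
theorem c30842 : QOK q30842 := cut [] trivial (nd (nat_lit 364) (nat_lit 0) (cs (lf (nat_lit 30) (nat_lit 320)) (lf (nat_lit 35) (nat_lit 298)))) q30842 (by decide +kernel)
def q30864 : Q := Q.p (nat_lit 0xf000010000000000000000000000000000000000000000000000000000000000000000000000000000000000000000000) (nat_lit 0x800060000000000000000000000000000000000000000000000000000000000000000000000000000000000000000000) (nat_lit 2)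
theorem c30864 : QOK q30864 := cut [] trivial (nd (nat_lit 365) (nat_lit 0) (cs (lf (nat_lit 17) (nat_lit 362)) (lf (nat_lit 12) (nat_lit 361)))) q30864 (by decide +kernel)
def q30953 : Q := Q.p (nat_lit 0x100001c0000200000200000800000000000000000000000000000000000000000000000000000000000000000000) (nat_lit 0x8000600000100000400000000000000000000000000000000000000000000000000000000000000000000000000) (nat_lit 3)
theorem c30953 : QOK q30953 := cut [] trivial (nd (nat_lit 345) (nat_lit 0) (cs (lf (nat_lit 11) (nat_lit 341)) (nd (nat_lit 320) (nat_lit 0) (cs (lf (nat_lit 45) (nat_lit 275)) (lf (nat_lit 18) (nat_lit 320)))))) q30953 (by decide +kernel)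
def q30991 : Q := Q.p (nat_lit 0xf0000200000000000000000000000000000000000000000000000000000000000000000000000000000000) (nat_lit 0x7000008000100000000000000000000000000000000000000000000000000000000000000000000000000000000) (nat_lit 3)
theorem c30991 : QOK q30991 := cut [] trivial (nd (nat_lit 361) (nat_lit 0) (cs (lf (nat_lit 10) (nat_lit 339)) (nd (nat_lit 339) (nat_lit 0) (cs (lf (nat_lit 11) (nat_lit 338)) (lf (nat_lit 16) (nat_lit 317)))))) q30991 (by decide +kernel)
def q31027 : Q := Q.p (nat_lit 0x400001c0000600000000000000000000000000000000000000000000000000000000000000000000000000000000) (nat_lit 0x80000030000000000000000000000000000000000000000000000000000000000000000000000000000000000000) (nat_lit 2)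
theorem c31027 : QOK q31027 := cut [] trivial (nd (nat_lit 341) (nat_lit 0) (cs (lf (nat_lit 12) (nat_lit 318)) (lf (nat_lit 5) (nat_lit 341)))) q31027 (by decide +kernel)
def q31098 : Q := Q.p (nat_lit 0xf800000000000000000000000000000000000000000000000000000000000000000000000000) (nat_lit 0x7000000000000000000000000000000000000000000000000000000000000000000000000000000000) (nat_lit 2)
theorem c31098 : QOK q31098 := cut [] trivial (nd (nat_lit 325) (nat_lit 0) (cs (lf (nat_lit 5) (nat_lit 300)) (lf (nat_lit 4) (nat_lit 299)))) q31098 (by decide +kernel)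
def q31179 : Q := Q.p (nat_lit 0x7000004000010000040000000000000000000000000000000000000000000000000000000000000000000000000000000) (nat_lit 0x200008800003000000000000000000000000000000000000000000000000000000000000000000000000000000000000000000) (nat_lit 3)
theorem c31179 : QOK q31179 := cut [] trivial (nd (nat_lit 361) (nat_lit 0) (cs (lf (nat_lit 18) (nat_lit 361)) (nd (nat_lit 383) (nat_lit 0) (cs (lf (nat_lit 41) (nat_lit 317)) (lf (nat_lit 23) (nat_lit 360)))))) q31179 (by decide +kernel)
def q31181 : Q := Q.p (nat_lit 0x7000006000000000000000000000000000000000000000000000000000000000000000000000000000000000000000000) (nat_lit 0x9800000000000000000000000000000000000000000000000000000000000000000000000000000000000000000) (nat_lit 2)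
theorem c31181 : QOK q31181 := cut [] trivial (nd (nat_lit 360) (nat_lit 0) (cs (lf (nat_lit 0) (nat_lit 359)) (lf (nat_lit 3) (nat_lit 360)))) q31181 (by decide +kernel)
def q31194 : Q := Q.p (nat_lit 0x7000004000010000040000000000000000000000000000000000000000000000000000000000000000000000000000000) (nat_lit 0x3200000c0003b800000000000000000000000000000000000000000000000000000000000000000000000000000000000000000) (nat_lit 6)
theorem c31194 : QOK q31194 := cut [] trivial (nd (nat_lit 383) (nat_lit 0) (cs (lf (nat_lit 41) (nat_lit 317)) (nd (nat_lit 360) (nat_lit 0) (cs (lf (nat_lit 22) (nat_lit 360)) (nd (nat_lit 408) (nat_lit 0) (cs (nd (nat_lit 364) (nat_lit 0) (cs (lf (nat_lit 17) (nat_lit 361)) (nd (nat_lit 382) (nat_lit 0) (cs (lf (nat_lit 23) (nat_lit 359)) (lf (nat_lit 16) (nat_lit 360)))))) (lf (nat_lit 5) (nat_lit 383)))))))) q31194 (by decide +kernel)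
def q31198 : Q := Q.p (nat_lit 0xa00001000004000010000000000000000000000000000000000000000000000000000000000000000000000000000000000000) (nat_lit 0x280000400000000000000000000000000000000000000000000000000000000000000000000000000000000000000000000000000000) (nat_lit 2)
theorem c31198 : QOK q31198 := cut [] trivial (nd (nat_lit 406) (nat_lit 0) (cs (lf (nat_lit 29) (nat_lit 340)) (lf (nat_lit 41) (nat_lit 339)))) q31198 (by decide +kernel)
def q31206 : Q := Q.p (nat_lit 0x70000060000000000000000000000000000000000000000000000000000000000000000000000000000000) (nat_lit 0x8000018000000000000000000000000000000000000000000000000000000000000000000000000000000) (nat_lit 2)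
theorem c31206 : QOK q31206 := cut [] trivial (nd (nat_lit 316) (nat_lit 0) (cs (lf (nat_lit 0) (nat_lit 315)) (lf (nat_lit 21) (nat_lit 316)))) q31206 (by decide +kernel)
def q31209 : Q := Q.p (nat_lit 0x3e0000000000000000000000000000000000000000000000000000000000000000000000000000000000000) (nat_lit 0x1c0000000000000000000000000000000000000000000000000000000000000000000000000000000000000000000) (nat_lit 2)
theorem c31209 : QOK q31209 := cut [] trivial (nd (nat_lit 367) (nat_lit 0) (cs (lf (nat_lit 5) (nat_lit 342)) (lf (nat_lit 4) (nat_lit 341)))) q31209 (by decide +kernel)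
def q31222 : Q := Q.p (nat_lit 0x10000070000000000000000000000000000000000000000000000000000000000000000000000000000000000000) (nat_lit 0x2b80000c000000000000000000000000000000000000000000000000000000000000000000000000000000000000) (nat_lit 4)
theorem c31222 : QOK q31222 := cut [] trivial (nd (nat_lit 339) (nat_lit 0) (cs (lf (nat_lit 5) (nat_lit 339)) (nd (nat_lit 360) (nat_lit 0) (cs (lf (nat_lit 10) (nat_lit 338)) (nd (nat_lit 338) (nat_lit 0) (cs (lf (nat_lit 11) (nat_lit 337)) (lf (nat_lit 4) (nat_lit 338)))))))) q31222 (by decide +kernel)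
def q31231 : Q := Q.p (nat_lit 0x300000c0000200000000000000000000000000000000000000000000000000000000000000000000000000000000) (nat_lit 0x4000000000000000000000800002000000000000000000000000000000000000000000000000000000000000000000000) (nat_lit 2)
theorem c31231 : QOK q31231 := cut [] trivial (nd (nat_lit 299) (nat_lit 0) (cs (lf (nat_lit 41) (nat_lit 298)) (lf (nat_lit 36) (nat_lit 276)))) q31231 (by decide +kernel)
def q31236 : Q := Q.p (nat_lit 0x70000000000200000800000000000000000000000000000000000000000000000000000000000000000000) (nat_lit 0x14000000000080000000000000000000000000000000000000000000000000000000000000000000000000000000) (nat_lit 2)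
theorem c31236 : QOK q31236 := cut [] trivial (nd (nat_lit 319) (nat_lit 0) (cs (lf (nat_lit 29) (nat_lit 275)) (lf (nat_lit 41) (nat_lit 274)))) q31236 (by decide +kernel)
def q31242 : Q := Q.p (nat_lit 0x1000000000018000020000000000000000000000000000000000000000000000000000000000000000000000000000000) (nat_lit 0x400000000004000000000040000080000200000000000000000000000000000000000000000000000000000000000000000000) (nat_lit 3)
theorem c31242 : QOK q31242 := cut [] trivial (nd (nat_lit 362) (nat_lit 0) (cs (nd (nat_lit 295) (nat_lit 0) (cs (lf (nat_lit 24) (nat_lit 273)) (lf (nat_lit 45) (nat_lit 295)))) (lf (nat_lit 42) (nat_lit 317)))) q31242 (by decide +kernel)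
def q31265 : Q := Q.p (nat_lit 0xf0000400000000000000000000000000000000000000000000000000000000000000000000000000000000) (nat_lit 0xe0000100000800000000000000000000000000000000000000000000000000000000000000000000000000000000) (nat_lit 3)
theorem c31265 : QOK q31265 := cut [] trivial (nd (nat_lit 366) (nat_lit 0) (cs (lf (nat_lit 4) (nat_lit 340)) (nd (nat_lit 344) (nat_lit 0) (cs (lf (nat_lit 17) (nat_lit 319)) (lf (nat_lit 5) (nat_lit 341)))))) q31265 (by decide +kernel)
def q31275 : Q := Q.p (nat_lit 0x180000e0000000000000000000000000000000000000000000000000000000000000000000000000000000000000) (nat_lit 0x4000300000000000000000000000000000000000000000000000000000000000000000000000000000000000000) (nat_lit 2)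
theorem c31275 : QOK q31275 := cut [] trivial (nd (nat_lit 344) (nat_lit 0) (cs (lf (nat_lit 11) (nat_lit 340)) (lf (nat_lit 6) (nat_lit 341)))) q31275 (by decide +kernel)
def q31292 : Q := Q.p (nat_lit 0x78000000000000000000000000000000000000000000000000000000000000000000000000000000000000) (nat_lit 0x1e000186000038000000000000000000000000000000000000000000000000000000000000000000000000000000) (nat_lit 6)
theorem c31292 : QOK q31292 := cut [] trivial (nd (nat_lit 316) (nat_lit 0) (cs (lf (nat_lit 22) (nat_lit 316)) (nd (nat_lit 338) (nat_lit 0) (cs (lf (nat_lit 23) (nat_lit 315)) (nd (nat_lit 363) (nat_lit 0) (cs (lf (nat_lit 5) (nat_lit 338)) (nd (nat_lit 362) (nat_lit 0) (cs (lf (nat_lit 0) (nat_lit 337)) (nd (nat_lit 343) (nat_lit 0) (cs (lf (nat_lit 11) (nat_lit 339)) (lf (nat_lit 6) (nat_lit 340)))))))))))) q31292 (by decide +kernel)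
def q31298 : Q := Q.p (nat_lit 0x4000018000060000000000000000000000000000000000000000000000000000000000000000000000000000000) (nat_lit 0x1000000000000000000000080000200000000000000000000000000000000000000000000000000000000000000000000) (nat_lit 2)
theorem c31298 : QOK q31298 := cut [] trivial (nd (nat_lit 295) (nat_lit 0) (cs (lf (nat_lit 42) (nat_lit 295)) (lf (nat_lit 24) (nat_lit 273)))) q31298 (by decide +kernel)
def q31318 : Q := Q.p (nat_lit 0x1e00000000000000000000000000000000000000000000000000000000000000000000000000000000) (nat_lit 0x1c0000200000dc00000000000000000000000000000000000000000000000000000000000000000000000000) (nat_lit 5)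
theorem c31318 : QOK q31318 := cut [] trivial (nd (nat_lit 302) (nat_lit 0) (cs (lf (nat_lit 17) (nat_lit 299)) (nd (nat_lit 299) (nat_lit 0) (cs (nd (nat_lit 347) (nat_lit 0) (cs (lf (nat_lit 4) (nat_lit 321)) (nd (nat_lit 325) (nat_lit 0) (cs (lf (nat_lit 5) (nat_lit 322)) (lf (nat_lit 22) (nat_lit 299)))))) (lf (nat_lit 23) (nat_lit 298)))))) q31318 (by decide +kernel)
def q31325 : Q := Q.p (nat_lit 0xc00001000004000010000000000000000000000000000000000000000000000000000000000000000) (nat_lit 0x20000000000200000c0000200000000000000000000000000000000000000000000000000000) (nat_lit 3)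
theorem c31325 : QOK q31325 := cut [] trivial (nd (nat_lit 235) (nat_lit 0) (cs (lf (nat_lit 34) (nat_lit 234)) (nd (nat_lit 234) (nat_lit 0) (cs (lf (nat_lit 35) (nat_lit 212)) (lf (nat_lit 28) (nat_lit 234)))))) q31325 (by decide +kernel)
def q31350 : Q := Q.p (nat_lit 0x100000c00001800000000000000000000000000000000000000000000000000000000000000000000000000) (nat_lit 0x1000004000000000000000200000a000000000000000000000000000000000000000000000000000000000000000000000) (nat_lit 3)
theorem c31350 : QOK q31350 := cut [] trivial (nd (nat_lit 366) (nat_lit 0) (cs (lf (nat_lit 47) (nat_lit 277)) (nd (nat_lit 301) (nat_lit 0) (cs (lf (nat_lit 30) (nat_lit 300)) (lf (nat_lit 35) (nat_lit 278)))))) q31350 (by decide +kernel)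
def q31358 : Q := Q.p (nat_lit 0x100000400003000004800000000000000000000000000000000000000000000000000000000000000000000) (nat_lit 0x3000008000000000000000000000000000000000000000000000000000000000000000) (nat_lit 2)
theorem c31358 : QOK q31358 := cut [] trivial (nd (nat_lit 277) (nat_lit 0) (cs (lf (nat_lit 47) (nat_lit 255)) (lf (nat_lit 1) (nat_lit 275)))) q31358 (by decide +kernel)
def q31365 : Q := Q.p (nat_lit 0xc0000b00000800002000000000000000000000000000000000000000000000000000000000000000000000000000) (nat_lit 0x40000700001000000000000000000000000000000000000000000000000000000000000000000000000000000000000000) (nat_lit 3)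
theorem c31365 : QOK q31365 := cut [] trivial (nd (nat_lit 368) (nat_lit 0) (cs (lf (nat_lit 29) (nat_lit 301)) (nd (nat_lit 369) (nat_lit 0) (cs (lf (nat_lit 17) (nat_lit 344)) (lf (nat_lit 18) (nat_lit 344)))))) q31365 (by decide +kernel)
def q31376 : Q := Q.p (nat_lit 0x100000c00003200000000000000000000000000000000000000000000000000000000000000000000000000) (nat_lit 0x10000040000000000000000c00002000000000000000000000000000000000000000000000000000000000000000000000) (nat_lit 3)
theorem c31376 : QOK q31376 := cut [] trivial (nd (nat_lit 366) (nat_lit 0) (cs (lf (nat_lit 30) (nat_lit 300)) (nd (nat_lit 299) (nat_lit 0) (cs (lf (nat_lit 47) (nat_lit 277)) (lf (nat_lit 1) (nat_lit 297)))))) q31376 (by decide +kernel)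
def q31379 : Q := Q.p (nat_lit 0x40000100000c00002000000000000000000000000000000000000000000000000000000000000000000000000000) (nat_lit 0x200000000000000008000020000000000000000000000000000000000000000000000000000000000000000) (nat_lit 2)
theorem c31379 : QOK q31379 := cut [] trivial (nd (nat_lit 279) (nat_lit 0) (cs (lf (nat_lit 36) (nat_lit 256)) (lf (nat_lit 39) (nat_lit 278)))) q31379 (by decide +kernel)
def q31401 : Q := Q.p (nat_lit 0x100000c00002000000000000000000000000000000000000000000000000000000000000000000000000000) (nat_lit 0x10000040000200000000001000008000000000000000000000000000000000000000000000000000000000000000000000) (nat_lit 3)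
theorem c31401 : QOK q31401 := cut [] trivial (nd (nat_lit 366) (nat_lit 0) (cs (lf (nat_lit 30) (nat_lit 300)) (nd (nat_lit 279) (nat_lit 0) (cs (lf (nat_lit 33) (nat_lit 278)) (lf (nat_lit 39) (nat_lit 278)))))) q31401 (by decide +kernel)
def q31405 : Q := Q.p (nat_lit 0x100000c00001000004000000000000000000000000000000000000000000000000000000000000000000000) (nat_lit 0x80000200000000000000000000010000000000000000000000000000000000000000000000000000000000000000) (nat_lit 2)
theorem c31405 : QOK q31405 := cut [] trivial (nd (nat_lit 345) (nat_lit 0) (cs (lf (nat_lit 29) (nat_lit 278)) (lf (nat_lit 24) (nat_lit 256)))) q31405 (by decide +kernel)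
def q31414 : Q := Q.p (nat_lit 0x400001000004000010000000000000000000000000000000000000000000000000000000000000000) (nat_lit 0x280000e0000280000000000000000000000000000000000000000000000000000) (nat_lit 4)
theorem c31414 : QOK q31414 := cut [] trivial (nd (nat_lit 233) (nat_lit 0) (cs (lf (nat_lit 46) (nat_lit 233)) (nd (nat_lit 235) (nat_lit 0) (cs (lf (nat_lit 34) (nat_lit 234)) (nd (nat_lit 234) (nat_lit 0) (cs (lf (nat_lit 47) (nat_lit 211)) (lf (nat_lit 35) (nat_lit 212)))))))) q31414 (by decide +kernel)
def q31438 : Q := Q.p (nat_lit 0x400003000004800000000000000000000000000000000000000000000000000000000000000000000) (nat_lit 0x4000010000000000000000b000028000000000000000000000000000000000000000000000000000000000000000) (nat_lit 4)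
theorem c31438 : QOK q31438 := cut [] trivial (nd (nat_lit 277) (nat_lit 0) (cs (lf (nat_lit 1) (nat_lit 275)) (nd (nat_lit 344) (nat_lit 0) (cs (lf (nat_lit 47) (nat_lit 255)) (nd (nat_lit 279) (nat_lit 0) (cs (lf (nat_lit 35) (nat_lit 256)) (lf (nat_lit 30) (nat_lit 278)))))))) q31438 (by decide +kernel)
def q31442 : Q := Q.p (nat_lit 0x300000c00002000008000000000000000000000000000000000000000000000000000000000000000000000) (nat_lit 0x100000c00000300000000000000000000000000000000000000000000000000000000000000000000000000000000) (nat_lit 3)
theorem c31442 : QOK q31442 := cut [] trivial (nd (nat_lit 346) (nat_lit 0) (cs (lf (nat_lit 29) (nat_lit 279)) (nd (nat_lit 321) (nat_lit 0) (cs (lf (nat_lit 0) (nat_lit 320)) (lf (nat_lit 18) (nat_lit 321)))))) q31442 (by decide +kernel)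
def q31451 : Q := Q.p (nat_lit 0x400001000006000008000000000000000000000000000000000000000000000000000000000000000) (nat_lit 0x800000000000000020000080000000000000000000000000000000000000000000000000000) (nat_lit 2)
theorem c31451 : QOK q31451 := cut [] trivial (nd (nat_lit 233) (nat_lit 0) (cs (lf (nat_lit 24) (nat_lit 211)) (lf (nat_lit 27) (nat_lit 233)))) q31451 (by decide +kernel)
def q31460 : Q := Q.p (nat_lit 0xc00003000004000010000000000000000000000000000000000000000000000000000000000000000) (nat_lit 0x500007000000800008000060000180000000000000000000000000000000000000000000000000000000000) (nat_lit 6)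
theorem c31460 : QOK q31460 := cut [] trivial (nd (nat_lit 257) (nat_lit 0) (cs (lf (nat_lit 35) (nat_lit 234)) (nd (nat_lit 279) (nat_lit 0) (cs (lf (nat_lit 30) (nat_lit 256)) (nd (nat_lit 236) (nat_lit 0) (cs (lf (nat_lit 34) (nat_lit 235)) (nd (nat_lit 324) (nat_lit 0) (cs (lf (nat_lit 29) (nat_lit 257)) (nd (nat_lit 325) (nat_lit 0) (cs (lf (nat_lit 18) (nat_lit 300)) (lf (nat_lit 23) (nat_lit 299)))))))))))) q31460 (by decide +kernel)
def q31521 : Q := Q.p (nat_lit 0x3c00000000000000000000000000000000000000000000000000000000000000000000000000000000) (nat_lit 0x100000400003f0001c00001e000020000080000000000000000000000000000000000000000000000000000000000000000) (nat_lit 9)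
theorem c31521 : QOK q31521 := cut [] trivial (nd (nat_lit 348) (nat_lit 0) (cs (nd (nat_lit 303) (nat_lit 0) (cs (lf (nat_lit 17) (nat_lit 300)) (nd (nat_lit 326) (nat_lit 0) (cs (nd (nat_lit 370) (nat_lit 0) (cs (nd (nat_lit 259) (nat_lit 0) (cs (nd (nat_lit 345) (nat_lit 0) (cs (nd (nat_lit 327) (nat_lit 0) (cs (nd (nat_lit 302) (nat_lit 0) (cs (lf (nat_lit 18) (nat_lit 302)) (lf (nat_lit 23) (nat_lit 301)))) (lf (nat_lit 10) (nat_lit 323)))) (lf (nat_lit 11) (nat_lit 322)))) (lf (nat_lit 25) (nat_lit 259)))) (lf (nat_lit 42) (nat_lit 303)))) (lf (nat_lit 5) (nat_lit 323)))))) (lf (nat_lit 4) (nat_lit 322)))) q31521 (by decide +kernel)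
def q31607 : Q := Q.p (nat_lit 0x3c0000400000000000000000000000000000000000000000000000000000000000000000000000000000000) (nat_lit 0x380000c00007200000000000000000000000000000000000000000000000000000000000000000000000000000000) (nat_lit 5)
theorem c31607 : QOK q31607 := cut [] trivial (nd (nat_lit 368) (nat_lit 0) (cs (lf (nat_lit 4) (nat_lit 342)) (nd (nat_lit 346) (nat_lit 0) (cs (lf (nat_lit 5) (nat_lit 343)) (nd (nat_lit 325) (nat_lit 0) (cs (lf (nat_lit 16) (nat_lit 321)) (nd (nat_lit 347) (nat_lit 0) (cs (lf (nat_lit 17) (nat_lit 322)) (lf (nat_lit 23) (nat_lit 321)))))))))) q31607 (by decide +kernel)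
def q31616 : Q := Q.p (nat_lit 0x3c0000400000000000000000000000000000000000000000000000000000000000000000000000000000000) (nat_lit 0x700000c00003a00000000000000000000000000000000000000000000000000000000000000000000000000000000) (nat_lit 5)
theorem c31616 : QOK q31616 := cut [] trivial (nd (nat_lit 324) (nat_lit 0) (cs (lf (nat_lit 16) (nat_lit 320)) (nd (nat_lit 346) (nat_lit 0) (cs (lf (nat_lit 17) (nat_lit 321)) (nd (nat_lit 369) (nat_lit 0) (cs (lf (nat_lit 4) (nat_lit 343)) (nd (nat_lit 347) (nat_lit 0) (cs (lf (nat_lit 5) (nat_lit 344)) (lf (nat_lit 23) (nat_lit 321)))))))))) q31616 (by decide +kernel)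
def q31630 : Q := Q.p (nat_lit 0x100000400001000004000010000000000000000000000000000000000000000000000000000000000000000) (nat_lit 0x8000020000080000000000000000000000000000000000000000000000000000000000) (nat_lit 2)
theorem c31630 : QOK q31630 := cut [] trivial (nd (nat_lit 257) (nat_lit 0) (cs (lf (nat_lit 35) (nat_lit 234)) (lf (nat_lit 34) (nat_lit 256)))) q31630 (by decide +kernel)
def q31639 : Q := Q.p (nat_lit 0x40000140000400001000000000000000000000000000000000000000000000000000000000000000000000000000) (nat_lit 0x200001a00002a000000000280000a000000000000000000000000000000000000000000000000000000000000000000000) (nat_lit 6)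
theorem c31639 : QOK q31639 := cut [] trivial (nd (nat_lit 367) (nat_lit 0) (cs (lf (nat_lit 29) (nat_lit 300)) (nd (nat_lit 277) (nat_lit 0) (cs (lf (nat_lit 46) (nat_lit 277)) (nd (nat_lit 279) (nat_lit 0) (cs (lf (nat_lit 34) (nat_lit 278)) (nd (nat_lit 343) (nat_lit 0) (cs (lf (nat_lit 0) (nat_lit 341)) (nd (nat_lit 368) (nat_lit 0) (cs (lf (nat_lit 21) (nat_lit 342)) (lf (nat_lit 3) (nat_lit 342)))))))))))) q31639 (by decide +kernel)
def q31650 : Q := Q.p (nat_lit 0x40000140000400001000000000000000000000000000000000000000000000000000000000000000000000000000) (nat_lit 0x280001a00000a0000000002000008000000000000000000000000000000000000000000000000000000000000000000000) (nat_lit 5)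
theorem c31650 : QOK q31650 := cut [] trivial (nd (nat_lit 365) (nat_lit 0) (cs (lf (nat_lit 41) (nat_lit 299)) (nd (nat_lit 279) (nat_lit 0) (cs (lf (nat_lit 34) (nat_lit 278)) (nd (nat_lit 367) (nat_lit 0) (cs (lf (nat_lit 29) (nat_lit 300)) (nd (nat_lit 343) (nat_lit 0) (cs (lf (nat_lit 18) (nat_lit 342)) (lf (nat_lit 0) (nat_lit 341)))))))))) q31650 (by decide +kernel)
def q31658 : Q := Q.p (nat_lit 0x40000100000400001000000000000000000000000000000000000000000000000000000000000000000000000000) (nat_lit 0x280000a0000280000000000000004000000000000000000000000000000000000000000000000000000000000000000000) (nat_lit 4)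
theorem c31658 : QOK q31658 := cut [] trivial (nd (nat_lit 367) (nat_lit 0) (cs (lf (nat_lit 29) (nat_lit 300)) (nd (nat_lit 278) (nat_lit 0) (cs (lf (nat_lit 28) (nat_lit 278)) (nd (nat_lit 365) (nat_lit 0) (cs (lf (nat_lit 41) (nat_lit 299)) (lf (nat_lit 40) (nat_lit 277)))))))) q31658 (by decide +kernel)
def q31660 : Q := Q.p (nat_lit 0x8000040000100000400000800000000000000000000000000000000000000000000000000000000000000000000000000) (nat_lit 0x2000010000000000000000200000000000000000000000000000000000000000000000000000000000000000000000000000000) (nat_lit 2)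
theorem c31660 : QOK q31660 := cut [] trivial (nd (nat_lit 388) (nat_lit 0) (cs (lf (nat_lit 46) (nat_lit 299)) (lf (nat_lit 41) (nat_lit 321)))) q31660 (by decide +kernel)
def q31700 : Q := Q.p (nat_lit 0x10000040000100000c00001200000000000000000000000000000000000000000000000000000000000000000000000000) (nat_lit 0x200000c00000000000000000000000000000000000000000000000000000000000000000000000000) (nat_lit 2)
theorem c31700 : QOK q31700 := cut [] trivial (nd (nat_lit 299) (nat_lit 0) (cs (lf (nat_lit 46) (nat_lit 299)) (lf (nat_lit 1) (nat_lit 297)))) q31700 (by decide +kernel)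
def q31867 : Q := Q.p (nat_lit 0x100000400001000004000000000000000000000000000000000000000000000000000000000000000000000) (nat_lit 0x200000c0000200000000002000008000020000000000000000000000000000000000000000000000000000000000000000) (nat_lit 4)
theorem c31867 : QOK q31867 := cut [] trivial (nd (nat_lit 279) (nat_lit 0) (cs (lf (nat_lit 35) (nat_lit 256)) (nd (nat_lit 367) (nat_lit 0) (cs (lf (nat_lit 28) (nat_lit 278)) (nd (nat_lit 366) (nat_lit 0) (cs (lf (nat_lit 34) (nat_lit 278)) (lf (nat_lit 29) (nat_lit 300)))))))) q31867 (by decide +kernel)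
def q31923 : Q := Q.p (nat_lit 0x100000600000800002000000000000000000000000000000000000000000000000000000000000000000000) (nat_lit 0x10000040000000000000001000000000000000000000000000000000000000000000000000000000000000000000000000) (nat_lit 2)
theorem c31923 : QOK q31923 := cut [] trivial (nd (nat_lit 366) (nat_lit 0) (cs (lf (nat_lit 45) (nat_lit 277)) (lf (nat_lit 42) (nat_lit 299)))) q31923 (by decide +kernel)
def q31931 : Q := Q.p (nat_lit 0x100000400001200006000000000000000000000000000000000000000000000000000000000000000000000) (nat_lit 0x40000000000000000c00008000020000000000000000000000000000000000000000000000000000000000000000) (nat_lit 3)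
theorem c31931 : QOK q31931 := cut [] trivial (nd (nat_lit 299) (nat_lit 0) (cs (lf (nat_lit 42) (nat_lit 277)) (nd (nat_lit 279) (nat_lit 0) (cs (lf (nat_lit 35) (nat_lit 256)) (lf (nat_lit 13) (nat_lit 275)))))) q31931 (by decide +kernel)
def q31970 : Q := Q.p (nat_lit 0x140000400001000004000000000000000000000000000000000000000000000000000000000000000000000) (nat_lit 0xa00002a0000800000000000000010000000000000000000000000000000000000000000000000000000000000000) (nat_lit 4)
theorem c31970 : QOK q31970 := cut [] trivial (nd (nat_lit 343) (nat_lit 0) (cs (lf (nat_lit 41) (nat_lit 277)) (nd (nat_lit 345) (nat_lit 0) (cs (lf (nat_lit 29) (nat_lit 278)) (nd (nat_lit 323) (nat_lit 0) (cs (lf (nat_lit 24) (nat_lit 256)) (lf (nat_lit 12) (nat_lit 319)))))))) q31970 (by decide +kernel)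
def q32039 : Q := Q.p (nat_lit 0x400001000004000010000040000000000000000000000000000000000000000000000) (nat_lit 0x8000020000080000000000000000000000000000000000000000) (nat_lit 2)
theorem c32039 : QOK q32039 := cut [] trivial (nd (nat_lit 185) (nat_lit 0) (cs (lf (nat_lit 47) (nat_lit 163)) (lf (nat_lit 46) (nat_lit 185)))) q32039 (by decide +kernel)
def q32055 : Q := Q.p (nat_lit 0x400001e0000000000000000000000000000000000000000) (nat_lit 0x2e000010000000000000000000000000000000000000000) (nat_lit 3)
theorem c32055 : QOK q32055 := cut [] trivial (nd (nat_lit 182) (nat_lit 0) (cs (lf (nat_lit 10) (nat_lit 160)) (nd (nat_lit 160) (nat_lit 0) (cs (lf (nat_lit 11) (nat_lit 159)) (lf (nat_lit 4) (nat_lit 160)))))) q32055 (by decide +kernel)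
def q32062 : Q := Q.p (nat_lit 0x400001e0000000000000000000000000000000000000000) (nat_lit 0x200000100000e0000000000000000000000000000000000) (nat_lit 3)
theorem c32062 : QOK q32062 := cut [] trivial (nd (nat_lit 138) (nat_lit 0) (cs (lf (nat_lit 22) (nat_lit 138)) (nd (nat_lit 160) (nat_lit 0) (cs (lf (nat_lit 23) (nat_lit 137)) (lf (nat_lit 4) (nat_lit 160)))))) q32062 (by decide +kernel)
def q32084 : Q := Q.p (nat_lit 0x40000f00000000000000000000000000000000000000000) (nat_lit 0x8000100000e000000000000000000000000000000000000) (nat_lit 3)
theorem c32084 : QOK q32084 := cut [] trivial (nd (nat_lit 168) (nat_lit 0) (cs (lf (nat_lit 10) (nat_lit 164)) (nd (nat_lit 146) (nat_lit 0) (cs (lf (nat_lit 17) (nat_lit 143)) (lf (nat_lit 16) (nat_lit 142)))))) q32084 (by decide +kernel)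
def q32089 : Q := Q.p (nat_lit 0x2000010000040000780000000000000000000000000000000000000000) (nat_lit 0x1800004000000000030000000000000000000000000000000000000000000000) (nat_lit 3)
theorem c32089 : QOK q32089 := cut [] trivial (nd (nat_lit 230) (nat_lit 0) (cs (lf (nat_lit 41) (nat_lit 163)) (nd (nat_lit 185) (nat_lit 0) (cs (lf (nat_lit 42) (nat_lit 163)) (lf (nat_lit 11) (nat_lit 162)))))) q32089 (by decide +kernel)
def q32103 : Q := Q.p (nat_lit 0x80001a000040000000000000000000000000000000000000000000000) (nat_lit 0x400004000080000000000000000000000000000000000000000000000) (nat_lit 2)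
theorem c32103 : QOK q32103 := cut [] trivial (nd (nat_lit 206) (nat_lit 0) (cs (lf (nat_lit 11) (nat_lit 204)) (lf (nat_lit 17) (nat_lit 183)))) q32103 (by decide +kernel)
def q32154 : Q := Q.p (nat_lit 0x40000700000000000000000000000000000000000000000) (nat_lit 0x1ca0007880007000000000000000000000000000000000000) (nat_lit 7)
theorem c32154 : QOK q32154 := cut [] trivial (nd (nat_lit 167) (nat_lit 0) (cs (lf (nat_lit 11) (nat_lit 163)) (nd (nat_lit 145) (nat_lit 0) (cs (lf (nat_lit 17) (nat_lit 142)) (nd (nat_lit 144) (nat_lit 0) (cs (lf (nat_lit 12) (nat_lit 141)) (nd (nat_lit 168) (nat_lit 0) (cs (lf (nat_lit 10) (nat_lit 164)) (nd (nat_lit 191) (nat_lit 0) (cs (nd (nat_lit 169) (nat_lit 0) (cs (lf (nat_lit 18) (nat_lit 144)) (lf (nat_lit 5) (nat_lit 166)))) (lf (nat_lit 4) (nat_lit 165)))))))))))) q32154 (by decide +kernel)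
def q32170 : Q := Q.p (nat_lit 0x100001c0000300000000000000000000000000000000000000000) (nat_lit 0x8000600000000000000000000000000000000000000000000000) (nat_lit 2)
theorem c32170 : QOK q32170 := cut [] trivial (nd (nat_lit 189) (nat_lit 0) (cs (lf (nat_lit 11) (nat_lit 185)) (lf (nat_lit 18) (nat_lit 164)))) q32170 (by decide +kernel)
def q32226 : Q := Q.p (nat_lit 0x100000400001000004000000000000000000000000) (nat_lit 0x80000200000800000000008000030000080000000000000) (nat_lit 4)
theorem c32226 : QOK q32226 := cut [] trivial (nd (nat_lit 77) (nat_lit 0) (cs (lf (nat_lit 34) (nat_lit 76)) (nd (nat_lit 76) (nat_lit 0) (cs (lf (nat_lit 35) (nat_lit 54)) (nd (nat_lit 165) (nat_lit 0) (cs (lf (nat_lit 28) (nat_lit 76)) (lf (nat_lit 29) (nat_lit 98)))))))) q32226 (by decide +kernel)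
def q32263 : Q := Q.p (nat_lit 0x200000400001000004000020000000000000000000) (nat_lit 0x800000000000000010000080000000000000) (nat_lit 2)
theorem c32263 : QOK q32263 := cut [] trivial (nd (nat_lit 76) (nat_lit 0) (cs (lf (nat_lit 35) (nat_lit 54)) (lf (nat_lit 28) (nat_lit 76)))) q32263 (by decide +kernel)
def q32271 : Q := Q.p (nat_lit 0x40000100000c00001000000000000000000000000000000) (nat_lit 0x80000200000000000800006000018000000000000000000) (nat_lit 4)
theorem c32271 : QOK q32271 := cut [] trivial (nd (nat_lit 97) (nat_lit 0) (cs (lf (nat_lit 46) (nat_lit 97)) (nd (nat_lit 98) (nat_lit 0) (cs (lf (nat_lit 47) (nat_lit 75)) (nd (nat_lit 165) (nat_lit 0) (cs (lf (nat_lit 24) (nat_lit 76)) (lf (nat_lit 29) (nat_lit 98)))))))) q32271 (by decide +kernel)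
def q32275 : Q := Q.p (nat_lit 0x80000400001000004000008000000000000000000) (nat_lit 0x200000000000000010000020000000000000) (nat_lit 2)
theorem c32275 : QOK q32275 := cut [] trivial (nd (nat_lit 76) (nat_lit 0) (cs (lf (nat_lit 47) (nat_lit 53)) (lf (nat_lit 40) (nat_lit 75)))) q32275 (by decide +kernel)
def q32296 : Q := Q.p (nat_lit 0x40000d0000040000100000000000000000000000000000000000) (nat_lit 0x800002000020000000000000000000000000000000000000000000000) (nat_lit 2)
theorem c32296 : QOK q32296 := cut [] trivial (nd (nat_lit 205) (nat_lit 0) (cs (lf (nat_lit 41) (nat_lit 139)) (lf (nat_lit 8) (nat_lit 183)))) q32296 (by decide +kernel)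
def q32300 : Q := Q.p (nat_lit 0x10000040000100000c0000000000000000000000000000000000000000) (nat_lit 0x200000c00002000000000020000000000000000000000000000000000000000000000) (nat_lit 3)
theorem c32300 : QOK q32300 := cut [] trivial (nd (nat_lit 251) (nat_lit 0) (cs (lf (nat_lit 28) (nat_lit 162)) (nd (nat_lit 250) (nat_lit 0) (cs (lf (nat_lit 34) (nat_lit 162)) (lf (nat_lit 29) (nat_lit 184)))))) q32300 (by decide +kernel)
def q32311 : Q := Q.p (nat_lit 0x40000700000400000000000000000000000000000000000) (nat_lit 0x20000800000200000000000000000000000000000000000) (nat_lit 2)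
theorem c32311 : QOK q32311 := cut [] trivial (nd (nat_lit 167) (nat_lit 0) (cs (lf (nat_lit 11) (nat_lit 163)) (lf (nat_lit 23) (nat_lit 141)))) q32311 (by decide +kernel)
def q32357 : Q := Q.p (nat_lit 0x10000040000180000400001000004000000000000000000000000) (nat_lit 0x200000800000000010000000000000000000) (nat_lit 2)
theorem c32357 : QOK q32357 := cut [] trivial (nd (nat_lit 141) (nat_lit 0) (cs (lf (nat_lit 47) (nat_lit 119)) (lf (nat_lit 36) (nat_lit 75)))) q32357 (by decide +kernel)
def q32365 : Q := Q.p (nat_lit 0x100000400003c0000400000000000000000000000000000000000) (nat_lit 0x18000c00003a00000800000000000000000000000000000) (nat_lit 5)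
theorem c32365 : QOK q32365 := cut [] trivial (nd (nat_lit 183) (nat_lit 0) (cs (lf (nat_lit 10) (nat_lit 161)) (nd (nat_lit 144) (nat_lit 0) (cs (lf (nat_lit 16) (nat_lit 140)) (nd (nat_lit 141) (nat_lit 0) (cs (lf (nat_lit 47) (nat_lit 119)) (nd (nat_lit 166) (nat_lit 0) (cs (lf (nat_lit 17) (nat_lit 141)) (lf (nat_lit 18) (nat_lit 141)))))))))) q32365 (by decide +kernel)
def q32459 : Q := Q.p (nat_lit 0xf8000000000000000000000000000000000000000) (nat_lit 0x700000000000000000000000000000000000) (nat_lit 2)
theorem c32459 : QOK q32459 := cut [] trivial (nd (nat_lit 141) (nat_lit 0) (cs (lf (nat_lit 17) (nat_lit 138)) (lf (nat_lit 16) (nat_lit 137)))) q32459 (by decide +kernel)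
def q32468 : Q := Q.p (nat_lit 0x400000e0000400000000000000000000000000000000000) (nat_lit 0x20000010000200000000000000000000000000000000000) (nat_lit 2)
theorem c32468 : QOK q32468 := cut [] trivial (nd (nat_lit 160) (nat_lit 0) (cs (lf (nat_lit 4) (nat_lit 160)) (lf (nat_lit 16) (nat_lit 138)))) q32468 (by decide +kernel)
def q32475 : Q := Q.p (nat_lit 0x2000018000060000040000000000000000000000000000000000000000) (nat_lit 0x200000800000000000000010000000000000000000000000000000000000000000000) (nat_lit 2)
theorem c32475 : QOK q32475 := cut [] trivial (nd (nat_lit 251) (nat_lit 0) (cs (lf (nat_lit 30) (nat_lit 185)) (lf (nat_lit 46) (nat_lit 162)))) q32475 (by decide +kernel)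
def q32480 : Q := Q.p (nat_lit 0x1e000000000040000100000000000000000000000000000000000) (nat_lit 0xc00000000010000000000000000000000000000000000000000000000) (nat_lit 2)
theorem c32480 : QOK q32480 := cut [] trivial (nd (nat_lit 227) (nat_lit 0) (cs (lf (nat_lit 11) (nat_lit 204)) (lf (nat_lit 38) (nat_lit 139)))) q32480 (by decide +kernel)
def q32494 : Q := Q.p (nat_lit 0x100000400001c0000400000000000000000000000000000000000) (nat_lit 0x20000800002000000000000000000000000000000) (nat_lit 2)
theorem c32494 : QOK q32494 := cut [] trivial (nd (nat_lit 143) (nat_lit 0) (cs (lf (nat_lit 35) (nat_lit 120)) (lf (nat_lit 12) (nat_lit 139)))) q32494 (by decide +kernel)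
def q32496 : Q := Q.p (nat_lit 0x80001c0000600000000000000000000000000000000000) (nat_lit 0x10000e00000100000000000000000000000000000000000) (nat_lit 3)
theorem c32496 : QOK q32496 := cut [] trivial (nd (nat_lit 165) (nat_lit 0) (cs (lf (nat_lit 10) (nat_lit 161)) (nd (nat_lit 166) (nat_lit 0) (cs (lf (nat_lit 23) (nat_lit 140)) (lf (nat_lit 18) (nat_lit 141)))))) q32496 (by decide +kernel)
def q32509 : Q := Q.p (nat_lit 0x100000400000c0000200000000000000000000000000000000000) (nat_lit 0x30000100000000000800002000000000000000000000000) (nat_lit 3)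
theorem c32509 : QOK q32509 := cut [] trivial (nd (nat_lit 119) (nat_lit 0) (cs (lf (nat_lit 27) (nat_lit 119)) (nd (nat_lit 97) (nat_lit 0) (cs (lf (nat_lit 41) (nat_lit 96)) (lf (nat_lit 28) (nat_lit 97)))))) q32509 (by decide +kernel)
def q32513 : Q := Q.p (nat_lit 0x10000040000000000f00000000000000000000000000000000000) (nat_lit 0x80000600000000006000000000000000000000000000000) (nat_lit 3)
theorem c32513 : QOK q32513 := cut [] trivial (nd (nat_lit 165) (nat_lit 0) (cs (lf (nat_lit 5) (nat_lit 140)) (nd (nat_lit 121) (nat_lit 0) (cs (lf (nat_lit 17) (nat_lit 118)) (lf (nat_lit 39) (nat_lit 120)))))) q32513 (by decide +kernel)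
def q32515 : Q := Q.p (nat_lit 0xc0000300000400000000000000000000000000000) (nat_lit 0x20000000000000000000001000004000000000000000000) (nat_lit 2)
theorem c32515 : QOK q32515 := cut [] trivial (nd (nat_lit 96) (nat_lit 0) (cs (lf (nat_lit 29) (nat_lit 96)) (lf (nat_lit 24) (nat_lit 74)))) q32515 (by decide +kernel)
def q32518 : Q := Q.p (nat_lit 0x4000010000040000100000400000000000000000000000000000) (nat_lit 0x800002000008000000000000000000000000000000000000000000000) (nat_lit 2)
theorem c32518 : QOK q32518 := cut [] trivial (nd (nat_lit 205) (nat_lit 0) (cs (lf (nat_lit 41) (nat_lit 139)) (lf (nat_lit 40) (nat_lit 117)))) q32518 (by decide +kernel)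
def q32520 : Q := Q.p (nat_lit 0x700000600000000000000000000000000000) (nat_lit 0x80000180000000000000000000000000000) (nat_lit 2)
theorem c32520 : QOK q32520 := cut [] trivial (nd (nat_lit 116) (nat_lit 0) (cs (lf (nat_lit 0) (nat_lit 115)) (lf (nat_lit 21) (nat_lit 116)))) q32520 (by decide +kernel)
def q32532 : Q := Q.p (nat_lit 0x10000040000180000600000000000000000000000000000000000) (nat_lit 0x200000800002000000000000000300000c000030000000000000000000) (nat_lit 5)
theorem c32532 : QOK q32532 := cut [] trivial (nd (nat_lit 207) (nat_lit 0) (cs (lf (nat_lit 41) (nat_lit 141)) (nd (nat_lit 120) (nat_lit 0) (cs (nd (nat_lit 99) (nat_lit 0) (cs (lf (nat_lit 34) (nat_lit 98)) (nd (nat_lit 98) (nat_lit 0) (cs (lf (nat_lit 35) (nat_lit 76)) (lf (nat_lit 36) (nat_lit 75)))))) (lf (nat_lit 31) (nat_lit 119)))))) q32532 (by decide +kernel)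
def q32543 : Q := Q.p (nat_lit 0xc0000200000800000000000000000000000000000) (nat_lit 0x10000000000100000000006000018000040000000000000) (nat_lit 4)
theorem c32543 : QOK q32543 := cut [] trivial (nd (nat_lit 97) (nat_lit 0) (cs (lf (nat_lit 41) (nat_lit 96)) (nd (nat_lit 76) (nat_lit 0) (cs (lf (nat_lit 34) (nat_lit 75)) (nd (nat_lit 75) (nat_lit 0) (cs (lf (nat_lit 35) (nat_lit 53)) (lf (nat_lit 40) (nat_lit 74)))))))) q32543 (by decide +kernel)
def q32563 : Q := Q.p (nat_lit 0x480001e0000000000000000000000000000000000000000) (nat_lit 0x730000e00003b00000400001000000000000000000000000) (nat_lit 8)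
theorem c32563 : QOK q32563 := cut [] trivial (nd (nat_lit 165) (nat_lit 0) (cs (lf (nat_lit 10) (nat_lit 161)) (nd (nat_lit 144) (nat_lit 0) (cs (lf (nat_lit 16) (nat_lit 140)) (nd (nat_lit 166) (nat_lit 0) (cs (lf (nat_lit 17) (nat_lit 141)) (nd (nat_lit 140) (nat_lit 0) (cs (lf (nat_lit 22) (nat_lit 140)) (nd (nat_lit 96) (nat_lit 0) (cs (lf (nat_lit 37) (nat_lit 95)) (nd (nat_lit 189) (nat_lit 0) (cs (lf (nat_lit 4) (nat_lit 163)) (nd (nat_lit 167) (nat_lit 0) (cs (lf (nat_lit 11) (nat_lit 163)) (lf (nat_lit 5) (nat_lit 164)))))))))))))))) q32563 (by decide +kernel)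
def q32569 : Q := Q.p (nat_lit 0xe0000600000000000000000000000000000000000) (nat_lit 0x1900000000000000000000000000000000000) (nat_lit 2)
theorem c32569 : QOK q32569 := cut [] trivial (nd (nat_lit 143) (nat_lit 0) (cs (lf (nat_lit 6) (nat_lit 140)) (lf (nat_lit 9) (nat_lit 139)))) q32569 (by decide +kernel)
def q32576 : Q := Q.p (nat_lit 0x10000040000080000200000000000000000000000000000000000) (nat_lit 0x20000100000400000800002000000000000000000000000) (nat_lit 3)
theorem c32576 : QOK q32576 := cut [] trivial (nd (nat_lit 119) (nat_lit 0) (cs (lf (nat_lit 27) (nat_lit 119)) (nd (nat_lit 164) (nat_lit 0) (cs (lf (nat_lit 24) (nat_lit 97)) (lf (nat_lit 45) (nat_lit 119)))))) q32576 (by decide +kernel)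
def q32588 : Q := Q.p (nat_lit 0x1e00000000000000000000000000000000000) (nat_lit 0x80000e0000010000c000010000040000000000000000000) (nat_lit 5)
theorem c32588 : QOK q32588 := cut [] trivial (nd (nat_lit 122) (nat_lit 0) (cs (lf (nat_lit 17) (nat_lit 119)) (nd (nat_lit 166) (nat_lit 0) (cs (lf (nat_lit 5) (nat_lit 141)) (nd (nat_lit 165) (nat_lit 0) (cs (lf (nat_lit 0) (nat_lit 140)) (nd (nat_lit 100) (nat_lit 0) (cs (lf (nat_lit 36) (nat_lit 77)) (lf (nat_lit 41) (nat_lit 99)))))))))) q32588 (by decide +kernel)
def q32605 : Q := Q.p (nat_lit 0x40000200000800002000000000000000000000000) (nat_lit 0x10000000000000001c000070000140000000) (nat_lit 5)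
theorem c32605 : QOK q32605 := cut [] trivial (nd (nat_lit 75) (nat_lit 0) (cs (lf (nat_lit 40) (nat_lit 74)) (nd (nat_lit 54) (nat_lit 0) (cs (nd (nat_lit 53) (nat_lit 0) (cs (nd (nat_lit 52) (nat_lit 0) (cs (lf (nat_lit 47) (nat_lit 30)) (lf (nat_lit 46) (nat_lit 52)))) (lf (nat_lit 35) (nat_lit 31)))) (lf (nat_lit 34) (nat_lit 53)))))) q32605 (by decide +kernel)
def q32620 : Q := Q.p (nat_lit 0x300000e000004000000000000000000000000000000000000000000000) (nat_lit 0x1800002000000000000000000000000000000000000000000000) (nat_lit 2)
theorem c32620 : QOK q32620 := cut [] trivial (nd (nat_lit 204) (nat_lit 0) (cs (lf (nat_lit 23) (nat_lit 181)) (lf (nat_lit 0) (nat_lit 203)))) q32620 (by decide +kernel)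
def q32627 : Q := Q.p (nat_lit 0x1c000050000040000100000000000000000000000000000000000) (nat_lit 0x800002000080000000000000000000000000000000000000000000000) (nat_lit 2)
theorem c32627 : QOK q32627 := cut [] trivial (nd (nat_lit 205) (nat_lit 0) (cs (lf (nat_lit 41) (nat_lit 139)) (lf (nat_lit 17) (nat_lit 183)))) q32627 (by decide +kernel)
def q32646 : Q := Q.p (nat_lit 0x100003c0000000000000000000000000000000000000000) (nat_lit 0x4000000000400000380000800002000000000000000000000000) (nat_lit 4)
theorem c32646 : QOK q32646 := cut [] trivial (nd (nat_lit 140) (nat_lit 0) (cs (lf (nat_lit 23) (nat_lit 139)) (nd (nat_lit 141) (nat_lit 0) (cs (lf (nat_lit 18) (nat_lit 140)) (nd (nat_lit 119) (nat_lit 0) (cs (lf (nat_lit 36) (nat_lit 96)) (lf (nat_lit 30) (nat_lit 118)))))))) q32646 (by decide +kernel)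
def q32656 : Q := Q.p (nat_lit 0x1000014000010000040000000000000000000000000000000000000000) (nat_lit 0xa00002c00008000000000000000100000000000000000000000000000000000) (nat_lit 4)
theorem c32656 : QOK q32656 := cut [] trivial (nd (nat_lit 227) (nat_lit 0) (cs (lf (nat_lit 41) (nat_lit 161)) (nd (nat_lit 229) (nat_lit 0) (cs (lf (nat_lit 29) (nat_lit 162)) (nd (nat_lit 207) (nat_lit 0) (cs (lf (nat_lit 24) (nat_lit 140)) (lf (nat_lit 12) (nat_lit 204)))))))) q32656 (by decide +kernel)
def q32661 : Q := Q.p (nat_lit 0x400001000004000030000000000000000000000000000000000000000000000) (nat_lit 0x80000300000800000000008000000000000000000000000000000000000000000000000000) (nat_lit 3)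
theorem c32661 : QOK q32661 := cut [] trivial (nd (nat_lit 273) (nat_lit 0) (cs (lf (nat_lit 28) (nat_lit 184)) (nd (nat_lit 272) (nat_lit 0) (cs (lf (nat_lit 29) (nat_lit 206)) (lf (nat_lit 34) (nat_lit 184)))))) q32661 (by decide +kernel)
def q32667 : Q := Q.p (nat_lit 0x7c000000000000000000000000000000000000000000000) (nat_lit 0x3800000000000000000000000000000000000000000000000000) (nat_lit 2)
theorem c32667 : QOK q32667 := cut [] trivial (nd (nat_lit 204) (nat_lit 0) (cs (lf (nat_lit 10) (nat_lit 182)) (lf (nat_lit 11) (nat_lit 181)))) q32667 (by decide +kernel)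
def q32672 : Q := Q.p (nat_lit 0x20000040000100000400000800000000000000000000000) (nat_lit 0x80000000000000001000002000000000000000000) (nat_lit 2)
theorem c32672 : QOK q32672 := cut [] trivial (nd (nat_lit 96) (nat_lit 0) (cs (lf (nat_lit 28) (nat_lit 96)) (lf (nat_lit 47) (nat_lit 73)))) q32672 (by decide +kernel)
def q32681 : Q := Q.p (nat_lit 0x100000c000010000040000000000000000000000000000000000000000) (nat_lit 0x80000380000e00000800000000020000000000000000000000000000000000000000000000) (nat_lit 5)
theorem c32681 : QOK q32681 := cut [] trivial (nd (nat_lit 249) (nat_lit 0) (cs (lf (nat_lit 40) (nat_lit 161)) (nd (nat_lit 250) (nat_lit 0) (cs (lf (nat_lit 41) (nat_lit 183)) (nd (nat_lit 272) (nat_lit 0) (cs (lf (nat_lit 35) (nat_lit 184)) (nd (nat_lit 273) (nat_lit 0) (cs (lf (nat_lit 29) (nat_lit 206)) (lf (nat_lit 28) (nat_lit 184)))))))))) q32681 (by decide +kernel)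
def q32702 : Q := Q.p (nat_lit 0x10000040000100000400000000000000000000000000000) (nat_lit 0x800006000008000000000200000800002000000000000000000000000) (nat_lit 4)
theorem c32702 : QOK q32702 := cut [] trivial (nd (nat_lit 205) (nat_lit 0) (cs (lf (nat_lit 40) (nat_lit 117)) (nd (nat_lit 119) (nat_lit 0) (cs (lf (nat_lit 35) (nat_lit 96)) (nd (nat_lit 206) (nat_lit 0) (cs (lf (nat_lit 41) (nat_lit 139)) (lf (nat_lit 34) (nat_lit 118)))))))) q32702 (by decide +kernel)
def q32721 : Q := Q.p (nat_lit 0x50000340000000000000000000000000000000000000000) (nat_lit 0x28000080000000000000000000000000000000000000000) (nat_lit 2)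
theorem c32721 : QOK q32721 := cut [] trivial (nd (nat_lit 183) (nat_lit 0) (cs (lf (nat_lit 14) (nat_lit 161)) (lf (nat_lit 8) (nat_lit 161)))) q32721 (by decide +kernel)
def q32723 : Q := Q.p (nat_lit 0x100000400003c0000000000000000000000000000000000000000) (nat_lit 0x180000000001800002000000000000000000000000000000) (nat_lit 3)
theorem c32723 : QOK q32723 := cut [] trivial (nd (nat_lit 143) (nat_lit 0) (cs (lf (nat_lit 17) (nat_lit 140)) (nd (nat_lit 187) (nat_lit 0) (cs (lf (nat_lit 36) (nat_lit 120)) (lf (nat_lit 5) (nat_lit 162)))))) q32723 (by decide +kernel)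
def q32742 : Q := Q.p (nat_lit 0x16000050000000000000000000000000000000000000000000000) (nat_lit 0x80000a0000000000000000000000000000000000000000000000) (nat_lit 2)
theorem c32742 : QOK q32742 := cut [] trivial (nd (nat_lit 187) (nat_lit 0) (cs (lf (nat_lit 8) (nat_lit 183)) (lf (nat_lit 14) (nat_lit 183)))) q32742 (by decide +kernel)
def q32767 : Q := Q.p (nat_lit 0x100001c0000000000000000000000000000000000000000) (nat_lit 0x28000600003800000000000000000000000000000000000) (nat_lit 4)
theorem c32767 : QOK q32767 := cut [] trivial (nd (nat_lit 165) (nat_lit 0) (cs (lf (nat_lit 11) (nat_lit 161)) (nd (nat_lit 144) (nat_lit 0) (cs (lf (nat_lit 16) (nat_lit 140)) (nd (nat_lit 166) (nat_lit 0) (cs (lf (nat_lit 17) (nat_lit 141)) (lf (nat_lit 10) (nat_lit 162)))))))) q32767 (by decide +kernel)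
def q32779 : Q := Q.p (nat_lit 0x100000500000c0000200000000000000000000000000000000000) (nat_lit 0x20000000000000000800002000000000000000000000000) (nat_lit 2)
theorem c32779 : QOK q32779 := cut [] trivial (nd (nat_lit 119) (nat_lit 0) (cs (lf (nat_lit 36) (nat_lit 96)) (lf (nat_lit 27) (nat_lit 119)))) q32779 (by decide +kernel)
def q32783 : Q := Q.p (nat_lit 0x10000040000180000200000000000000000000000000000) (nat_lit 0x400000800002000000000000000000) (nat_lit 2)
theorem c32783 : QOK q32783 := cut [] trivial (nd (nat_lit 95) (nat_lit 0) (cs (lf (nat_lit 45) (nat_lit 95)) (lf (nat_lit 24) (nat_lit 73)))) q32783 (by decide +kernel)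
def q32802 : Q := Q.p (nat_lit 0x18000040000140001e00000000000000000000000000000000000) (nat_lit 0x8000060000b8001a0000618001c600000000000000000000000000000) (nat_lit 10)
theorem c32802 : QOK q32802 := cut [] trivial (nd (nat_lit 123) (nat_lit 0) (cs (lf (nat_lit 16) (nat_lit 119)) (nd (nat_lit 145) (nat_lit 0) (cs (lf (nat_lit 17) (nat_lit 120)) (nd (nat_lit 167) (nat_lit 0) (cs (lf (nat_lit 5) (nat_lit 142)) (nd (nat_lit 165) (nat_lit 0) (cs (lf (nat_lit 6) (nat_lit 142)) (nd (nat_lit 140) (nat_lit 0) (cs (lf (nat_lit 0) (nat_lit 139)) (nd (nat_lit 118) (nat_lit 0) (cs (lf (nat_lit 23) (nat_lit 117)) (nd (nat_lit 184) (nat_lit 0) (cs (lf (nat_lit 28) (nat_lit 118)) (nd (nat_lit 205) (nat_lit 0) (cs (lf (nat_lit 40) (nat_lit 117)) (nd (nat_lit 206) (nat_lit 0) (cs (lf (nat_lit 41) (nat_lit 139)) (lf (nat_lit 17) (nat_lit 183)))))))))))))))))))) q32802 (by decide +kernel)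
def q32825 : Q := Q.p (nat_lit 0xf800000000000000000000000000000) (nat_lit 0x7000000000000000000000000000000000000) (nat_lit 2)
theorem c32825 : QOK q32825 := cut [] trivial (nd (nat_lit 145) (nat_lit 0) (cs (lf (nat_lit 5) (nat_lit 120)) (lf (nat_lit 4) (nat_lit 119)))) q32825 (by decide +kernel)
def q32837 : Q := Q.p (nat_lit 0x3800008000000000000000000000000) (nat_lit 0x400074000000000000000000000000) (nat_lit 3)
theorem c32837 : QOK q32837 := cut [] trivial (nd (nat_lit 100) (nat_lit 0) (cs (lf (nat_lit 12) (nat_lit 96)) (nd (nat_lit 101) (nat_lit 0) (cs (lf (nat_lit 9) (nat_lit 97)) (lf (nat_lit 6) (nat_lit 98)))))) q32837 (by decide +kernel)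
def q32842 : Q := Q.p (nat_lit 0x3800003000000000000000000000000) (nat_lit 0x400000c00000000000000000000000) (nat_lit 2)
theorem c32842 : QOK q32842 := cut [] trivial (nd (nat_lit 95) (nat_lit 0) (cs (lf (nat_lit 0) (nat_lit 94)) (lf (nat_lit 21) (nat_lit 95)))) q32842 (by decide +kernel)
def q32848 : Q := Q.p (nat_lit 0x3e00000000000000000000000000000) (nat_lit 0x1c000000000000000000000000) (nat_lit 2)
theorem c32848 : QOK q32848 := cut [] trivial (nd (nat_lit 99) (nat_lit 0) (cs (lf (nat_lit 17) (nat_lit 96)) (lf (nat_lit 16) (nat_lit 95)))) q32848 (by decide +kernel)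
def q32855 : Q := Q.p (nat_lit 0x3c00000000000000000000000000000) (nat_lit 0x20001dc00000000000000000000000) (nat_lit 4)
theorem c32855 : QOK q32855 := cut [] trivial (nd (nat_lit 95) (nat_lit 0) (cs (lf (nat_lit 22) (nat_lit 95)) (nd (nat_lit 99) (nat_lit 0) (cs (lf (nat_lit 17) (nat_lit 96)) (nd (nat_lit 117) (nat_lit 0) (cs (lf (nat_lit 23) (nat_lit 94)) (lf (nat_lit 16) (nat_lit 95)))))))) q32855 (by decide +kernel)
def q32856 : Q := Q.p (nat_lit 0x3e00000000000000000000000000000) (nat_lit 0x1c00000000000000000000000) (nat_lit 2)
theorem c32856 : QOK q32856 := cut [] trivial (nd (nat_lit 95) (nat_lit 0) (cs (lf (nat_lit 23) (nat_lit 94)) (lf (nat_lit 22) (nat_lit 95)))) q32856 (by decide +kernel)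
def q32871 : Q := Q.p (nat_lit 0x40000100000000003800000000000000000000000000000) (nat_lit 0x40000000000a000000000000000000000000) (nat_lit 2)
theorem c32871 : QOK q32871 := cut [] trivial (nd (nat_lit 142) (nat_lit 0) (cs (lf (nat_lit 35) (nat_lit 98)) (lf (nat_lit 47) (nat_lit 97)))) q32871 (by decide +kernel)
def q32917 : Q := Q.p (nat_lit 0x1f00000000000000000000000000000) (nat_lit 0xe00000000000000000000000) (nat_lit 2)
theorem c32917 : QOK q32917 := cut [] trivial (nd (nat_lit 94) (nat_lit 0) (cs (lf (nat_lit 22) (nat_lit 94)) (lf (nat_lit 23) (nat_lit 93)))) q32917 (by decide +kernel)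
def q32925 : Q := Q.p (nat_lit 0xf80000000000000000000000000000) (nat_lit 0x700000000000000000000000) (nat_lit 2)
theorem c32925 : QOK q32925 := cut [] trivial (nd (nat_lit 93) (nat_lit 0) (cs (lf (nat_lit 23) (nat_lit 92)) (lf (nat_lit 22) (nat_lit 93)))) q32925 (by decide +kernel)
def q32939 : Q := Q.p (nat_lit 0x1f00000000000000000000000000000) (nat_lit 0xe0000000000000000000000000000000000) (nat_lit 2)
theorem c32939 : QOK q32939 := cut [] trivial (nd (nat_lit 138) (nat_lit 0) (cs (lf (nat_lit 11) (nat_lit 115)) (lf (nat_lit 10) (nat_lit 116)))) q32939 (by decide +kernel)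
def q32972 : Q := Q.p (nat_lit 0x40000100000c00002000000000000000000000000) (nat_lit 0x1000008000020000000000000) (nat_lit 2)
theorem c32972 : QOK q32972 := cut [] trivial (nd (nat_lit 75) (nat_lit 0) (cs (lf (nat_lit 33) (nat_lit 74)) (lf (nat_lit 36) (nat_lit 52)))) q32972 (by decide +kernel)
def q32986 : Q := Q.p (nat_lit 0x10000040000300000000002000000000000000000000000000000) (nat_lit 0x80000000000800000000008000000000000000000000000) (nat_lit 2)
theorem c32986 : QOK q32986 := cut [] trivial (nd (nat_lit 143) (nat_lit 0) (cs (lf (nat_lit 39) (nat_lit 120)) (lf (nat_lit 36) (nat_lit 98)))) q32986 (by decide +kernel)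
def q32990 : Q := Q.p (nat_lit 0x140000d0000040000100000000000000000000000000000000000) (nat_lit 0x80000a000000000000000000000000000000000000000000000000000) (nat_lit 2)
theorem c32990 : QOK q32990 := cut [] trivial (nd (nat_lit 205) (nat_lit 0) (cs (lf (nat_lit 41) (nat_lit 139)) (lf (nat_lit 14) (nat_lit 183)))) q32990 (by decide +kernel)
def q32996 : Q := Q.p (nat_lit 0x40000f00000000000000000000000000000000000000000) (nat_lit 0xe80001000000000000000000000000000000000000000000) (nat_lit 3)
theorem c32996 : QOK q32996 := cut [] trivial (nd (nat_lit 190) (nat_lit 0) (cs (lf (nat_lit 4) (nat_lit 164)) (nd (nat_lit 168) (nat_lit 0) (cs (lf (nat_lit 5) (nat_lit 165)) (lf (nat_lit 10) (nat_lit 164)))))) q32996 (by decide +kernel)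
def q33009 : Q := Q.p (nat_lit 0x780000000000000000000000000000000000000000) (nat_lit 0x700000800007000000000000000000000000000000000000) (nat_lit 4)
theorem c33009 : QOK q33009 := cut [] trivial (nd (nat_lit 189) (nat_lit 0) (cs (lf (nat_lit 4) (nat_lit 163)) (nd (nat_lit 145) (nat_lit 0) (cs (lf (nat_lit 16) (nat_lit 141)) (nd (nat_lit 167) (nat_lit 0) (cs (lf (nat_lit 17) (nat_lit 142)) (lf (nat_lit 5) (nat_lit 164)))))))) q33009 (by decide +kernel)
def q33023 : Q := Q.p (nat_lit 0x10000040000100000000002000000000000000000000000000000) (nat_lit 0x80000200000c00000000008000000000000000000000000) (nat_lit 3)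
theorem c33023 : QOK q33023 := cut [] trivial (nd (nat_lit 143) (nat_lit 0) (cs (lf (nat_lit 33) (nat_lit 120)) (nd (nat_lit 165) (nat_lit 0) (cs (lf (nat_lit 39) (nat_lit 120)) (lf (nat_lit 36) (nat_lit 98)))))) q33023 (by decide +kernel)
def q33044 : Q := Q.p (nat_lit 0x140001c00000000000000000000000000000000000) (nat_lit 0x280002000000000000000000000000000000000000) (nat_lit 2)
theorem c33044 : QOK q33044 := cut [] trivial (nd (nat_lit 163) (nat_lit 0) (cs (lf (nat_lit 15) (nat_lit 140)) (lf (nat_lit 6) (nat_lit 141)))) q33044 (by decide +kernel)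
def q33077 : Q := Q.p (nat_lit 0xc0000000000c0000200000000000000000000000000000000000) (nat_lit 0x1000000000030000000000000000000000000000000000000000000000) (nat_lit 2)
theorem c33077 : QOK q33077 := cut [] trivial (nd (nat_lit 228) (nat_lit 0) (cs (lf (nat_lit 38) (nat_lit 140)) (lf (nat_lit 32) (nat_lit 140)))) q33077 (by decide +kernel)
def q33083 : Q := Q.p (nat_lit 0x10000040000b00000400000000000000000000000000000) (nat_lit 0x400000200000800000000000000000000000) (nat_lit 2)
theorem c33083 : QOK q33083 := cut [] trivial (nd (nat_lit 117) (nat_lit 0) (cs (lf (nat_lit 19) (nat_lit 117)) (lf (nat_lit 47) (nat_lit 95)))) q33083 (by decide +kernel)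
def q33118 : Q := Q.p (nat_lit 0xf00000800000000000000000000000000000000000) (nat_lit 0x100000e400000000000000000000000000000000000) (nat_lit 3)
theorem c33118 : QOK q33118 := cut [] trivial (nd (nat_lit 146) (nat_lit 0) (cs (lf (nat_lit 16) (nat_lit 142)) (nd (nat_lit 168) (nat_lit 0) (cs (lf (nat_lit 17) (nat_lit 143)) (lf (nat_lit 23) (nat_lit 142)))))) q33118 (by decide +kernel)
def q33123 : Q := Q.p (nat_lit 0x180000400001c0000100000000000000000000000000000000000) (nat_lit 0x2000000000020000000000400000000000000000000000000000000000) (nat_lit 2)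
theorem c33123 : QOK q33123 := cut [] trivial (nd (nat_lit 229) (nat_lit 0) (cs (lf (nat_lit 36) (nat_lit 141)) (lf (nat_lit 44) (nat_lit 140)))) q33123 (by decide +kernel)
def q33139 : Q := Q.p (nat_lit 0x300000f00000800000000000000000000000000000000000) (nat_lit 0x10000040000000000000006000008000000000000000000000000000000) (nat_lit 3)
theorem c33139 : QOK q33139 := cut [] trivial (nd (nat_lit 210) (nat_lit 0) (cs (lf (nat_lit 42) (nat_lit 143)) (nd (nat_lit 145) (nat_lit 0) (cs (lf (nat_lit 36) (nat_lit 122)) (lf (nat_lit 17) (nat_lit 142)))))) q33139 (by decide +kernel)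
def q33149 : Q := Q.p (nat_lit 0x100000400003000008000000000000000000000000000000) (nat_lit 0x800000000000000020000080000000000000000000) (nat_lit 2)
theorem c33149 : QOK q33149 := cut [] trivial (nd (nat_lit 101) (nat_lit 0) (cs (lf (nat_lit 36) (nat_lit 78)) (lf (nat_lit 39) (nat_lit 100)))) q33149 (by decide +kernel)
def q33156 : Q := Q.p (nat_lit 0x40000100000c00002000000000000000000000000000000000000) (nat_lit 0x1000008000020000000000000000000000000) (nat_lit 2)
theorem c33156 : QOK q33156 := cut [] trivial (nd (nat_lit 123) (nat_lit 0) (cs (lf (nat_lit 36) (nat_lit 100)) (lf (nat_lit 33) (nat_lit 122)))) q33156 (by decide +kernel)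
def q33184 : Q := Q.p (nat_lit 0xf00000000000000000000000000000000000000000) (nat_lit 0x2000008000070000300000fc00004000010000000000000000000000000) (nat_lit 8)
theorem c33184 : QOK q33184 := cut [] trivial (nd (nat_lit 189) (nat_lit 0) (cs (lf (nat_lit 5) (nat_lit 164)) (nd (nat_lit 146) (nat_lit 0) (cs (lf (nat_lit 16) (nat_lit 142)) (nd (nat_lit 168) (nat_lit 0) (cs (lf (nat_lit 17) (nat_lit 143)) (nd (nat_lit 143) (nat_lit 0) (cs (lf (nat_lit 23) (nat_lit 142)) (nd (nat_lit 144) (nat_lit 0) (cs (lf (nat_lit 18) (nat_lit 143)) (nd (nat_lit 122) (nat_lit 0) (cs (lf (nat_lit 24) (nat_lit 100)) (nd (nat_lit 211) (nat_lit 0) (cs (lf (nat_lit 42) (nat_lit 144)) (lf (nat_lit 27) (nat_lit 122)))))))))))))))) q33184 (by decide +kernel)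
def q33190 : Q := Q.p (nat_lit 0x40000300000400001000000000000000000000000000000) (nat_lit 0x80000000000000000800006000008000000000000000000) (nat_lit 3)
theorem c33190 : QOK q33190 := cut [] trivial (nd (nat_lit 97) (nat_lit 0) (cs (lf (nat_lit 46) (nat_lit 97)) (nd (nat_lit 98) (nat_lit 0) (cs (lf (nat_lit 47) (nat_lit 75)) (lf (nat_lit 29) (nat_lit 98)))))) q33190 (by decide +kernel)
def q33216 : Q := Q.p (nat_lit 0x100000600000000007000000000000000000000000000000) (nat_lit 0x80000e0000000000f000008800008000000000000000000000000) (nat_lit 6)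
theorem c33216 : QOK q33216 := cut [] trivial (nd (nat_lit 144) (nat_lit 0) (cs (lf (nat_lit 47) (nat_lit 99)) (nd (nat_lit 189) (nat_lit 0) (cs (lf (nat_lit 29) (nat_lit 122)) (nd (nat_lit 190) (nat_lit 0) (cs (lf (nat_lit 18) (nat_lit 165)) (nd (nat_lit 145) (nat_lit 0) (cs (lf (nat_lit 0) (nat_lit 119)) (nd (nat_lit 146) (nat_lit 0) (cs (lf (nat_lit 18) (nat_lit 121)) (lf (nat_lit 3) (nat_lit 120)))))))))))) q33216 (by decide +kernel)
def q33235 : Q := Q.p (nat_lit 0x100000400000000007000000000000000000000000000000) (nat_lit 0x40000000000000007000008000028000000000000000000000000) (nat_lit 4)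
theorem c33235 : QOK q33235 := cut [] trivial (nd (nat_lit 144) (nat_lit 0) (cs (lf (nat_lit 47) (nat_lit 99)) (nd (nat_lit 123) (nat_lit 0) (cs (lf (nat_lit 35) (nat_lit 100)) (nd (nat_lit 145) (nat_lit 0) (cs (lf (nat_lit 30) (nat_lit 122)) (lf (nat_lit 5) (nat_lit 120)))))))) q33235 (by decide +kernel)
def q33281 : Q := Q.p (nat_lit 0x10000040000300000000002000000000000000000000000000000) (nat_lit 0x80000000000c00000000000000000000000000000000000) (nat_lit 2)
theorem c33281 : QOK q33281 := cut [] trivial (nd (nat_lit 143) (nat_lit 0) (cs (lf (nat_lit 33) (nat_lit 120)) (lf (nat_lit 39) (nat_lit 120)))) q33281 (by decide +kernel)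
def q33282 : Q := Q.p (nat_lit 0x10000040000300000000002000000000000000000000000000000) (nat_lit 0xc00000000008000000000000000000000000) (nat_lit 2)
theorem c33282 : QOK q33282 := cut [] trivial (nd (nat_lit 143) (nat_lit 0) (cs (lf (nat_lit 33) (nat_lit 120)) (lf (nat_lit 36) (nat_lit 98)))) q33282 (by decide +kernel)
def q33284 : Q := Q.p (nat_lit 0x50000700000000000000000000000000000000000000000) (nat_lit 0xa8000000000000000000000000000000000000000000000) (nat_lit 2)
theorem c33284 : QOK q33284 := cut [] trivial (nd (nat_lit 185) (nat_lit 0) (cs (lf (nat_lit 15) (nat_lit 162)) (lf (nat_lit 12) (nat_lit 161)))) q33284 (by decide +kernel)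
def q33313 : Q := Q.p (nat_lit 0x10000340000100000000000000000000000000000000000) (nat_lit 0x8000080000080000000000000000000000000000000000) (nat_lit 2)
theorem c33313 : QOK q33313 := cut [] trivial (nd (nat_lit 163) (nat_lit 0) (cs (lf (nat_lit 11) (nat_lit 161)) (lf (nat_lit 23) (nat_lit 139)))) q33313 (by decide +kernel)
def q33335 : Q := Q.p (nat_lit 0x3c0000400001000000000000000000000000000000) (nat_lit 0x180000000000000000000004000000000000000000000000) (nat_lit 2)
theorem c33335 : QOK q33335 := cut [] trivial (nd (nat_lit 187) (nat_lit 0) (cs (lf (nat_lit 5) (nat_lit 162)) (lf (nat_lit 24) (nat_lit 98)))) q33335 (by decide +kernel)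
def q33351 : Q := Q.p (nat_lit 0x100000500000c0000000000800000000000000000000000000000) (nat_lit 0x20000000000200000000002000000000000000000000000) (nat_lit 2)
theorem c33351 : QOK q33351 := cut [] trivial (nd (nat_lit 141) (nat_lit 0) (cs (lf (nat_lit 36) (nat_lit 96)) (lf (nat_lit 27) (nat_lit 119)))) q33351 (by decide +kernel)

end Crest.Agent.H3.Snaky.CR
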