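import Crest.Agent.H3.Snaky.Cert
import Crest.Agent.H3.Snaky.CR.CR0
import Crest.Agent.H3.Snaky.CR.CR1
import Crest.Agent.H3.Snaky.CR.CR2
import Crest.Agent.H3.Snaky.CR.CR3
import Crest.Agent.H3.Snaky.CR.CR4
import Crest.Agent.H3.Snaky.CR.CR5
import Crest.Agent.H3.Snaky.CR.CR6
import Crest.Agent.H3.Snaky.CR.CR7

set_option autoImplicit false
set_option maxRecDepth 100000

namespace Crest.Agent.H3.Snaky.CR

open T

def q22910 : Q := Q.p (nat_lit 0x80000200000c00003000000000000000000000000000000000000000000000000000000000000000) (nat_lit 0x40000100000400000000000000018000060000180000000000000000000000000000000000000000000000) (nat_lit 5)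
theorem c22910 : QOK q22910 := cut [q22908] ⟨c22908, trivial⟩ (nd (nat_lit 320) (nat_lit 0) (cs (lf (nat_lit 29) (nat_lit 253)) (nd (nat_lit 231) (nat_lit 0) (cs (lf (nat_lit 28) (nat_lit 231)) (rf (nat_lit 0)))))) q22910 (by decide +kernel)
def q22937 : Q := Q.p (nat_lit 0x40000100000c00000000000000000000000000000000000000000000000000000000000000) (nat_lit 0x10000000000000000000003000008000020000000000000000000000000000000000000000000000) (nat_lit 3)
theorem c22937 : QOK q22937 := cut [q22936] ⟨c22936, trivial⟩ (nd (nat_lit 229) (nat_lit 0) (cs (lf (nat_lit 30) (nat_lit 228)) (rf (nat_lit 0)))) q22937 (by decide +kernel)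
def q22947 : Q := Q.p (nat_lit 0x60000100000400001000000000000000000000000000000000000000000000000000000000) (nat_lit 0x80000000000800006000008000000000000000000000000000000000000000000000) (nat_lit 3)
theorem c22947 : QOK q22947 := cut [q14138] ⟨c14138, trivial⟩ (nd (nat_lit 206) (nat_lit 0) (cs (lf (nat_lit 40) (nat_lit 205)) (rf (nat_lit 0)))) q22947 (by decide +kernel)
def q22951 : Q := Q.p (nat_lit 0x10000040000100000400000000000000000000000000000000000000000000000000000000000000) (nat_lit 0x2000008000020000000000800003000008000000000000000000000000000000000000000000000000000) (nat_lit 4)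
theorem c22951 : QOK q22951 := cut [q15947] ⟨c15947, trivial⟩ (nd (nat_lit 315) (nat_lit 0) (cs (lf (nat_lit 41) (nat_lit 249)) (nd (nat_lit 228) (nat_lit 0) (cs (lf (nat_lit 40) (nat_lit 227)) (rf (nat_lit 0)))))) q22951 (by decide +kernel)
def q22953 : Q := Q.p (nat_lit 0x10000040000100000400000000000000000000000000000000000000000000000000000000000000) (nat_lit 0xa0000380000a000000000000000000000000000000000000000000000000000) (nat_lit 4)
theorem c22953 : QOK q22953 := cut [q14247] ⟨c14247, trivial⟩ (nd (nat_lit 229) (nat_lit 0) (cs (lf (nat_lit 34) (nat_lit 228)) (nd (nat_lit 228) (nat_lit 0) (cs (lf (nat_lit 35) (nat_lit 206)) (rf (nat_lit 0)))))) q22953 (by decide +kernel)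
def q22967 : Q := Q.p (nat_lit 0x8000010000060000100000000000000000000000000000000000000000000000000000000000000000000) (nat_lit 0x200003800006000000000000000080000000000000000000000000000000000000000000000000000000000000000000) (nat_lit 4)
theorem c22967 : QOK q22967 := cut [q22964] ⟨c22964, trivial⟩ (nd (nat_lit 338) (nat_lit 0) (cs (lf (nat_lit 29) (nat_lit 272)) (nd (nat_lit 360) (nat_lit 0) (cs (rf (nat_lit 0)) (lf (nat_lit 47) (nat_lit 271)))))) q22967 (by decide +kernel)
def q22977 : Q := Q.p (nat_lit 0x40000100000400000800030000000000000000000000000000000000000000000000000000) (nat_lit 0x800002000008000000000100000e000000000000000000000000000000000000000000000000000) (nat_lit 4)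
theorem c22977 : QOK q22977 := cut [q4155] ⟨c4155, trivial⟩ (nd (nat_lit 228) (nat_lit 0) (cs (lf (nat_lit 47) (nat_lit 205)) (nd (nat_lit 206) (nat_lit 0) (cs (lf (nat_lit 8) (nat_lit 205)) (rf (nat_lit 0)))))) q22977 (by decide +kernel)
def q23009 : Q := Q.p (nat_lit 0x3c0000c00000000000000000000000000000000000000000000000000000000000000000000) (nat_lit 0x38001c00000200000000000000000000000000000000000000000000000000000000000000000000) (nat_lit 4)
theorem c23009 : QOK q23009 := cut [q23007] ⟨c23007, trivial⟩ (nd (nat_lit 316) (nat_lit 0) (cs (lf (nat_lit 11) (nat_lit 293)) (nd (nat_lit 298) (nat_lit 0) (cs (lf (nat_lit 10) (nat_lit 294)) (rf (nat_lit 0)))))) q23009 (by decide +kernel)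
def q23050 : Q := Q.p (nat_lit 0x1e0000300000000000000000000000000000000000000000000000000000000000000000000000000) (nat_lit 0xe000018000000000000000000000000000000000000000000000000000000000000000000000000000000) (nat_lit 3)
theorem c23050 : QOK q23050 := cut [q23049] ⟨c23049, trivial⟩ (nd (nat_lit 316) (nat_lit 0) (cs (lf (nat_lit 12) (nat_lit 293)) (rf (nat_lit 0)))) q23050 (by decide +kernel)
def q23069 : Q := Q.p (nat_lit 0x10000040000900002400000000000000000000000000000000000000000000000000000000000000) (nat_lit 0x1080001800002000000000000000000000000000000000000000000000000000000000) (nat_lit 3)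
theorem c23069 : QOK q23069 := cut [q23068] ⟨c23068, trivial⟩ (nd (nat_lit 251) (nat_lit 0) (cs (lf (nat_lit 35) (nat_lit 228)) (rf (nat_lit 0)))) q23069 (by decide +kernel)
def q23098 : Q := Q.p (nat_lit 0x18000060000100000400000000000000000000000000000000000000000000000000000000000000) (nat_lit 0x40000300000c000020000000000080000000000000000000000000000000000000000000000000000000000000000000) (nat_lit 4)
theorem c23098 : QOK q23098 := cut [q23097] ⟨c23097, trivial⟩ (nd (nat_lit 339) (nat_lit 0) (cs (lf (nat_lit 28) (nat_lit 250)) (rf (nat_lit 0)))) q23098 (by decide +kernel)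
def q23133 : Q := Q.p (nat_lit 0x40000100000600000000000000000000000000000000000000000000000000000000000000) (nat_lit 0x10000000000080000000000800002000008000000000000000000000000000000000000000000000) (nat_lit 3)
theorem c23133 : QOK q23133 := cut [q14158] ⟨c14158, trivial⟩ (nd (nat_lit 227) (nat_lit 0) (cs (lf (nat_lit 42) (nat_lit 227)) (rf (nat_lit 0)))) q23133 (by decide +kernel)
def q23212 : Q := Q.p (nat_lit 0xc00000c00000000000000000000000000000000000000000000000000000000000000) (nat_lit 0x1300000300000000000000000000000000000000000000000000000000000000000000) (nat_lit 3)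
theorem c23212 : QOK q23212 := cut [q12946] ⟨c12946, trivial⟩ (nd (nat_lit 273) (nat_lit 0) (cs (lf (nat_lit 18) (nat_lit 250)) (rf (nat_lit 0)))) q23212 (by decide +kernel)
def q23214 : Q := Q.p (nat_lit 0xc00000c00000000000000000000000000000000000000000000000000000000000000) (nat_lit 0x300001300000000000000000000000000000000000000000000000000000000000000) (nat_lit 3)
theorem c23214 : QOK q23214 := cut [q15338] ⟨c15338, trivial⟩ (nd (nat_lit 249) (nat_lit 0) (cs (lf (nat_lit 3) (nat_lit 249)) (rf (nat_lit 0)))) q23214 (by decide +kernel)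
def q23227 : Q := Q.p (nat_lit 0x600000c00002000000000000000000000000000000000000000000000000000000000000000) (nat_lit 0x140000100000000000000008000020000000000000000000000000000000000000000000000000000) (nat_lit 3)
theorem c23227 : QOK q23227 := cut [q22164] ⟨c22164, trivial⟩ (nd (nat_lit 231) (nat_lit 0) (cs (lf (nat_lit 29) (nat_lit 231)) (rf (nat_lit 0)))) q23227 (by decide +kernel)
def q23282 : Q := Q.p (nat_lit 0x40000f00000000000000000000000000000000000000000000000000000000000000000000) (nat_lit 0xe80001000000000000000000000000000000000000000000000000000000000000000000000) (nat_lit 3)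
theorem c23282 : QOK q23282 := cut [q2057] ⟨c2057, trivial⟩ (nd (nat_lit 276) (nat_lit 0) (cs (lf (nat_lit 10) (nat_lit 272)) (rf (nat_lit 0)))) q23282 (by decide +kernel)
def q23297 : Q := Q.p (nat_lit 0xf00000000000000000000000000000000000000000000000000000000000000000000) (nat_lit 0x3b80000c0000700000000000000000000000000000000000000000000000000000000000000) (nat_lit 6)
theorem c23297 : QOK q23297 := cut [q23293] ⟨c23293, trivial⟩ (nd (nat_lit 249) (nat_lit 0) (cs (lf (nat_lit 22) (nat_lit 249)) (nd (nat_lit 271) (nat_lit 0) (cs (lf (nat_lit 23) (nat_lit 248)) (nd (nat_lit 292) (nat_lit 0) (cs (lf (nat_lit 10) (nat_lit 270)) (nd (nat_lit 270) (nat_lit 0) (cs (lf (nat_lit 11) (nat_lit 269)) (rf (nat_lit 0)))))))))) q23297 (by decide +kernel)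
def q23301 : Q := Q.p (nat_lit 0xf00000000000000000000000000000000000000000000000000000000000000000000) (nat_lit 0x3f00000c0000380000000000000000000000000000000000000000000000000000000000000) (nat_lit 6)
theorem c23301 : QOK q23301 := cut [q23293] ⟨c23293, trivial⟩ (nd (nat_lit 293) (nat_lit 0) (cs (lf (nat_lit 10) (nat_lit 271)) (nd (nat_lit 271) (nat_lit 0) (cs (lf (nat_lit 11) (nat_lit 270)) (nd (nat_lit 248) (nat_lit 0) (cs (lf (nat_lit 22) (nat_lit 248)) (nd (nat_lit 270) (nat_lit 0) (cs (lf (nat_lit 23) (nat_lit 247)) (rf (nat_lit 0)))))))))) q23301 (by decide +kernel)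
def q23320 : Q := Q.p (nat_lit 0x80000200000c00002000000000000000000000000000000000000000000000000000000000000000) (nat_lit 0x400001c000070000040000100000000000000000000000000000000000000000000000000000000000000000000000000) (nat_lit 5)
theorem c23320 : QOK q23320 := cut [q16998] ⟨c16998, trivial⟩ (nd (nat_lit 340) (nat_lit 0) (cs (lf (nat_lit 40) (nat_lit 252)) (nd (nat_lit 341) (nat_lit 0) (cs (lf (nat_lit 41) (nat_lit 274)) (nd (nat_lit 363) (nat_lit 0) (cs (lf (nat_lit 46) (nat_lit 274)) (rf (nat_lit 0)))))))) q23320 (by decide +kernel)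
def q23322 : Q := Q.p (nat_lit 0x300000e00002000000000000000000000000000000000000000000000000000000000000000) (nat_lit 0x100000c00000000000000008000020000000000000000000000000000000000000000000000000000) (nat_lit 3)
theorem c23322 : QOK q23322 := cut [q23321] ⟨c23321, trivial⟩ (nd (nat_lit 298) (nat_lit 0) (cs (lf (nat_lit 18) (nat_lit 273)) (rf (nat_lit 0)))) q23322 (by decide +kernel)
def q23370 : Q := Q.p (nat_lit 0x20000080000200000800000000000000000000000000000000000000000000000000000000000000000000) (nat_lit 0x500001c000050000000000000000000000000000000000000000000000000000000000000000000000000000000000000) (nat_lit 4)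
theorem c23370 : QOK q23370 := cut [q23368] ⟨c23368, trivial⟩ (nd (nat_lit 364) (nat_lit 0) (cs (lf (nat_lit 28) (nat_lit 275)) (nd (nat_lit 362) (nat_lit 0) (cs (lf (nat_lit 40) (nat_lit 274)) (rf (nat_lit 0)))))) q23370 (by decide +kernel)
def q23388 : Q := Q.p (nat_lit 0x80000780000800000000000000000000000000000000000000000000000000000000000000000000) (nat_lit 0x40001800007400000000000000000000000000000000000000000000000000000000000000000000) (nat_lit 4)
theorem c23388 : QOK q23388 := cut [q23386] ⟨c23386, trivial⟩ (nd (nat_lit 277) (nat_lit 0) (cs (lf (nat_lit 16) (nat_lit 273)) (nd (nat_lit 299) (nat_lit 0) (cs (lf (nat_lit 17) (nat_lit 274)) (rf (nat_lit 0)))))) q23388 (by decide +kernel)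
def q23394 : Q := Q.p (nat_lit 0x780000800000000000000010000000000000000000000000000000000000000000000000000) (nat_lit 0x70000000003700000c00007000000000000000000000000000000000000000000000000000000000) (nat_lit 6)
theorem c23394 : QOK q23394 := cut [q23390] ⟨c23390, trivial⟩ (nd (nat_lit 273) (nat_lit 0) (cs (lf (nat_lit 23) (nat_lit 272)) (nd (nat_lit 317) (nat_lit 0) (cs (lf (nat_lit 11) (nat_lit 294)) (nd (nat_lit 276) (nat_lit 0) (cs (lf (nat_lit 17) (nat_lit 273)) (nd (nat_lit 251) (nat_lit 0) (cs (nd (nat_lit 229) (nat_lit 0) (cs (lf (nat_lit 34) (nat_lit 207)) (lf (nat_lit 29) (nat_lit 229)))) (rf (nat_lit 0)))))))))) q23394 (by decide +kernel)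
def q23397 : Q := Q.p (nat_lit 0xe00000800000000000000000000000000000000000000000000000000000000000000000000) (nat_lit 0x300001d400000000000000000000000000000000000000000000000000000000000000000000) (nat_lit 4)
theorem c23397 : QOK q23397 := cut [q23396] ⟨c23396, trivial⟩ (nd (nat_lit 300) (nat_lit 0) (cs (lf (nat_lit 23) (nat_lit 274)) (rf (nat_lit 0)))) q23397 (by decide +kernel)
def q23403 : Q := Q.p (nat_lit 0x80000700000200000000000000000000000000000000000000000000000000000000000000000000) (nat_lit 0x4000180000e400000000000000000000000000000000000000000000000000000000000000000000) (nat_lit 4)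
theorem c23403 : QOK q23403 := cut [q11623] ⟨c11623, trivial⟩ (nd (nat_lit 299) (nat_lit 0) (cs (lf (nat_lit 22) (nat_lit 273)) (nd (nat_lit 300) (nat_lit 0) (cs (rf (nat_lit 0)) (lf (nat_lit 11) (nat_lit 296)))))) q23403 (by decide +kernel)
def q23411 : Q := Q.p (nat_lit 0x80000780000000000000000000000000000000000000000000000000000000000000000000000000) (nat_lit 0xe70001800007300000000000000000000000000000000000000000000000000000000000000000000) (nat_lit 7)
theorem c23411 : QOK q23411 := cut [q23409] ⟨c23409, trivial⟩ (nd (nat_lit 272) (nat_lit 0) (cs (lf (nat_lit 22) (nat_lit 272)) (nd (nat_lit 316) (nat_lit 0) (cs (lf (nat_lit 10) (nat_lit 294)) (rf (nat_lit 0)))))) q23411 (by decide +kernel)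
def q23413 : Q := Q.p (nat_lit 0x180001e00000000000000010000000000000000000000000000000000000000000000000000) (nat_lit 0xc00006000008000000000000000000000000000000000000000000000000000) (nat_lit 3)
theorem c23413 : QOK q23413 := cut [q23412] ⟨c23412, trivial⟩ (nd (nat_lit 251) (nat_lit 0) (cs (lf (nat_lit 23) (nat_lit 250)) (rf (nat_lit 0)))) q23413 (by decide +kernel)
def q23428 : Q := Q.p (nat_lit 0x80000300000800002000000000000000000000000000000000000000000000000000000000000000) (nat_lit 0x40000300001c000060000140000400007400000000000000000000000000000000000000000000000000000000000000000000) (nat_lit 8)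
theorem c23428 : QOK q23428 := cut [q16993] ⟨c16993, trivial⟩ (nd (nat_lit 342) (nat_lit 0) (cs (lf (nat_lit 28) (nat_lit 253)) (nd (nat_lit 341) (nat_lit 0) (cs (lf (nat_lit 29) (nat_lit 275)) (nd (nat_lit 363) (nat_lit 0) (cs (lf (nat_lit 47) (nat_lit 274)) (nd (nat_lit 276) (nat_lit 0) (cs (lf (nat_lit 34) (nat_lit 275)) (nd (nat_lit 277) (nat_lit 0) (cs (lf (nat_lit 6) (nat_lit 274)) (rf (nat_lit 0)))))))))))) q23428 (by decide +kernel)
def q23448 : Q := Q.p (nat_lit 0xf00000800000000000000010000000000000000000000000000000000000000000000000000) (nat_lit 0x7000000000077000180000700001e0000700001000000000000000000000000000000000000000000) (nat_lit 10)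
theorem c23448 : QOK q23448 := cut [q2560, q13089] ⟨c2560, c13089, trivial⟩ (nd (nat_lit 277) (nat_lit 0) (cs (lf (nat_lit 17) (nat_lit 274)) (nd (nat_lit 321) (nat_lit 0) (cs (lf (nat_lit 5) (nat_lit 296)) (nd (nat_lit 274) (nat_lit 0) (cs (rf (nat_lit 0)) (nd (nat_lit 255) (nat_lit 0) (cs (rf (nat_lit 1)) (nd (nat_lit 233) (nat_lit 0) (cs (lf (nat_lit 41) (nat_lit 232)) (nd (nat_lit 210) (nat_lit 0) (cs (lf (nat_lit 46) (nat_lit 210)) (nd (nat_lit 211) (nat_lit 0) (cs (lf (nat_lit 47) (nat_lit 188)) (nd (nat_lit 190) (nat_lit 0) (cs (lf (nat_lit 34) (nat_lit 189)) (nd (nat_lit 189) (nat_lit 0) (cs (lf (nat_lit 35) (nat_lit 167)) (lf (nat_lit 13) (nat_lit 186)))))))))))))))))))) q23448 (by decide +kernel)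
def q23451 : Q := Q.p (nat_lit 0xf00000000000000000000000000000000000000000000000000000000000000000000000000) (nat_lit 0x700000080007000000000000000000000000000000000000000000000000000000000000000000000) (nat_lit 4)
theorem c23451 : QOK q23451 := cut [q23449] ⟨c23449, trivial⟩ (nd (nat_lit 277) (nat_lit 0) (cs (lf (nat_lit 17) (nat_lit 274)) (nd (nat_lit 295) (nat_lit 0) (cs (lf (nat_lit 16) (nat_lit 273)) (rf (nat_lit 0)))))) q23451 (by decide +kernel)
def q23454 : Q := Q.p (nat_lit 0xf00000000000000000000000000000000000000000000000000000000000000000000000000) (nat_lit 0x700000080000700000000000000000000000000000000000000000000000000000000000000000000) (nat_lit 4)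
theorem c23454 : QOK q23454 := cut [q23452] ⟨c23452, trivial⟩ (nd (nat_lit 321) (nat_lit 0) (cs (lf (nat_lit 5) (nat_lit 296)) (nd (nat_lit 295) (nat_lit 0) (cs (lf (nat_lit 4) (nat_lit 295)) (rf (nat_lit 0)))))) q23454 (by decide +kernel)
def q23456 : Q := Q.p (nat_lit 0xf00003800000000000000000000000000000000000000000000000000000000000000000000) (nat_lit 0x100000000000600018000020000080000000000000000000000000000000000000000000000000000) (nat_lit 4)
theorem c23456 : QOK q23456 := cut [q14641] ⟨c14641, trivial⟩ (nd (nat_lit 274) (nat_lit 0) (cs (lf (nat_lit 23) (nat_lit 273)) (nd (nat_lit 255) (nat_lit 0) (cs (lf (nat_lit 17) (nat_lit 252)) (rf (nat_lit 0)))))) q23456 (by decide +kernel)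
def q23470 : Q := Q.p (nat_lit 0x80000600000800002000000000000000000000000000000000000000000000000000000000000000) (nat_lit 0x100000600001c000030000140000100001700000000000000000000000000000000000000000000000000000000000000000000) (nat_lit 8)
theorem c23470 : QOK q23470 := cut [q11837] ⟨c11837, trivial⟩ (nd (nat_lit 340) (nat_lit 0) (cs (lf (nat_lit 40) (nat_lit 252)) (nd (nat_lit 341) (nat_lit 0) (cs (lf (nat_lit 41) (nat_lit 274)) (nd (nat_lit 363) (nat_lit 0) (cs (lf (nat_lit 35) (nat_lit 275)) (nd (nat_lit 274) (nat_lit 0) (cs (lf (nat_lit 46) (nat_lit 274)) (nd (nat_lit 272) (nat_lit 0) (cs (lf (nat_lit 1) (nat_lit 272)) (rf (nat_lit 0)))))))))))) q23470 (by decide +kernel)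
def q23492 : Q := Q.p (nat_lit 0x800002000002000078000000000000000000000000000000000000000000000000000) (nat_lit 0x500003400001c000fc000380000e80000000000000000000000000000000000000000000000) (nat_lit 11)
theorem c23492 : QOK q23492 := cut [q16142] ⟨c16142, trivial⟩ (nd (nat_lit 232) (nat_lit 0) (cs (lf (nat_lit 5) (nat_lit 207)) (nd (nat_lit 211) (nat_lit 0) (cs (lf (nat_lit 10) (nat_lit 207)) (nd (nat_lit 190) (nat_lit 0) (cs (lf (nat_lit 16) (nat_lit 186)) (nd (nat_lit 212) (nat_lit 0) (cs (lf (nat_lit 17) (nat_lit 187)) (nd (nat_lit 234) (nat_lit 0) (cs (lf (nat_lit 5) (nat_lit 209)) (nd (nat_lit 231) (nat_lit 0) (cs (lf (nat_lit 6) (nat_lit 209)) (rf (nat_lit 0)))))))))))))) q23492 (by decide +kernel)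
def q23501 : Q := Q.p (nat_lit 0x80000200000000003c000000000000000000000000000000000000000000000000000) (nat_lit 0x100000400001000018000000000180000000000000000000000000000000000000000000000) (nat_lit 4)
theorem c23501 : QOK q23501 := cut [q23499] ⟨c23499, trivial⟩ (nd (nat_lit 187) (nat_lit 0) (cs (lf (nat_lit 17) (nat_lit 184)) (nd (nat_lit 231) (nat_lit 0) (cs (lf (nat_lit 5) (nat_lit 206)) (rf (nat_lit 0)))))) q23501 (by decide +kernel)
def q23509 : Q := Q.p (nat_lit 0x80000200000000003c000000000000000000000000000000000000000000000000000) (nat_lit 0xdc0004300018e000000000000000000000000000000000000000000000) (nat_lit 7)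
theorem c23509 : QOK q23509 := cut [q23504] ⟨c23504, trivial⟩ (nd (nat_lit 227) (nat_lit 0) (cs (lf (nat_lit 10) (nat_lit 205)) (nd (nat_lit 205) (nat_lit 0) (cs (lf (nat_lit 11) (nat_lit 204)) (nd (nat_lit 182) (nat_lit 0) (cs (lf (nat_lit 22) (nat_lit 182)) (nd (nat_lit 181) (nat_lit 0) (cs (lf (nat_lit 21) (nat_lit 181)) (nd (nat_lit 231) (nat_lit 0) (cs (lf (nat_lit 4) (nat_lit 205)) (rf (nat_lit 0)))))))))))) q23509 (by decide +kernel)
def q23533 : Q := Q.p (nat_lit 0xc00001000004000000000000000000000000000000000000000000000000000) (nat_lit 0x280000200002800000000010000040000000000000000000000000000000000000000) (nat_lit 4)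
theorem c23533 : QOK q23533 := cut [q23532] ⟨c23532, trivial⟩ (nd (nat_lit 184) (nat_lit 0) (cs (lf (nat_lit 29) (nat_lit 184)) (rf (nat_lit 0)))) q23533 (by decide +kernel)
def q23543 : Q := Q.p (nat_lit 0x3c00000000000000000000000000000000000000000000000000000000000000) (nat_lit 0x1c000020001c000000000000000000000000000000000000000000000000000000000) (nat_lit 4)
theorem c23543 : QOK q23543 := cut [q23541] ⟨c23541, trivial⟩ (nd (nat_lit 271) (nat_lit 0) (cs (lf (nat_lit 10) (nat_lit 249)) (nd (nat_lit 249) (nat_lit 0) (cs (lf (nat_lit 11) (nat_lit 248)) (rf (nat_lit 0)))))) q23543 (by decide +kernel)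
def q23550 : Q := Q.p (nat_lit 0x800003c00000000000000000000000000000000000000000000000000000000000000) (nat_lit 0x40000020001c000000000000000000000000000000000000000000000000000000000) (nat_lit 3)
theorem c23550 : QOK q23550 := cut [q23541] ⟨c23541, trivial⟩ (nd (nat_lit 249) (nat_lit 0) (cs (lf (nat_lit 4) (nat_lit 249)) (rf (nat_lit 0)))) q23550 (by decide +kernel)
def q23552 : Q := Q.p (nat_lit 0x80000200000c000000000000000000000000000000000000000000000000000) (nat_lit 0x200000000000000000000030000040000100000000000000000000000000000000000) (nat_lit 3)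
theorem c23552 : QOK q23552 := cut [q2019] ⟨c2019, trivial⟩ (nd (nat_lit 184) (nat_lit 0) (cs (lf (nat_lit 42) (nat_lit 184)) (rf (nat_lit 0)))) q23552 (by decide +kernel)
def q23558 : Q := Q.p (nat_lit 0x2c00002000008000000000000000000000000000000000000000000000000000) (nat_lit 0x50000120001c000000000020000080000000000000000000000000000000000000000) (nat_lit 5)
theorem c23558 : QOK q23558 := cut [q11157] ⟨c11157, trivial⟩ (nd (nat_lit 185) (nat_lit 0) (cs (lf (nat_lit 41) (nat_lit 184)) (nd (nat_lit 252) (nat_lit 0) (cs (lf (nat_lit 29) (nat_lit 185)) (nd (nat_lit 231) (nat_lit 0) (cs (lf (nat_lit 17) (nat_lit 228)) (rf (nat_lit 0)))))))) q23558 (by decide +kernel)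
def q23587 : Q := Q.p (nat_lit 0x900000400001000004000000000000000000000000000000000000000000000000000) (nat_lit 0xa0000680000200000000000000010000000000000000000000000000000000000000000000) (nat_lit 4)
theorem c23587 : QOK q23587 := cut [q23586] ⟨c23586, trivial⟩ (nd (nat_lit 273) (nat_lit 0) (cs (lf (nat_lit 29) (nat_lit 206)) (rf (nat_lit 0)))) q23587 (by decide +kernel)
def q23603 : Q := Q.p (nat_lit 0x800002400001000004000010000000000000000000000000000000000000000000000) (nat_lit 0x1200001800000800000000000000000000000000000000000000000000000000000000) (nat_lit 3)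
theorem c23603 : QOK q23603 := cut [q15320] ⟨c15320, trivial⟩ (nd (nat_lit 251) (nat_lit 0) (cs (lf (nat_lit 29) (nat_lit 184)) (rf (nat_lit 0)))) q23603 (by decide +kernel)
def q23609 : Q := Q.p (nat_lit 0x100000c00000000008000000000000000000000000000000000000000000000000000) (nat_lit 0x10000040000200000000002000000000020000000000000000000000000000000000000000000000) (nat_lit 3)
theorem c23609 : QOK q23609 := cut [q23608] ⟨c23608, trivial⟩ (nd (nat_lit 229) (nat_lit 0) (cs (lf (nat_lit 36) (nat_lit 184)) (rf (nat_lit 0)))) q23609 (by decide +kernel)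
def q23634 : Q := Q.p (nat_lit 0xb00000400003000000000000000000000000000000000000000000000000000000000) (nat_lit 0x400000b8000c000000000000000000000000000000000000000000000000000000000) (nat_lit 4)
theorem c23634 : QOK q23634 := cut [q23632] ⟨c23632, trivial⟩ (nd (nat_lit 249) (nat_lit 0) (cs (lf (nat_lit 19) (nat_lit 249)) (nd (nat_lit 248) (nat_lit 0) (cs (lf (nat_lit 0) (nat_lit 247)) (rf (nat_lit 0)))))) q23634 (by decide +kernel)
def q23640 : Q := Q.p (nat_lit 0x980002400001000004000000000000000000000000000000000000000000000000000) (nat_lit 0x80000600001200000000000000000000000000000000000000000000000000000000000000) (nat_lit 3)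
theorem c23640 : QOK q23640 := cut [q23639] ⟨c23639, trivial⟩ (nd (nat_lit 273) (nat_lit 0) (cs (lf (nat_lit 29) (nat_lit 206)) (rf (nat_lit 0)))) q23640 (by decide +kernel)
def q23658 : Q := Q.p (nat_lit 0x40000000000c000020000000000000000000000000000000000000000000000) (nat_lit 0x100000000001000000000010000080000200000000000000000000000000000000000) (nat_lit 3)
theorem c23658 : QOK q23658 := cut [q3391] ⟨c3391, trivial⟩ (nd (nat_lit 228) (nat_lit 0) (cs (lf (nat_lit 30) (nat_lit 184)) (rf (nat_lit 0)))) q23658 (by decide +kernel)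
def q23696 : Q := Q.p (nat_lit 0x800000200004800002000008000000000000000000000000000000000000000000000) (nat_lit 0x740001d00002000000000000000000000000000000000000000000000000000000000) (nat_lit 5)
theorem c23696 : QOK q23696 := cut [q23693] ⟨c23693, trivial⟩ (nd (nat_lit 250) (nat_lit 0) (cs (lf (nat_lit 29) (nat_lit 183)) (nd (nat_lit 248) (nat_lit 0) (cs (lf (nat_lit 41) (nat_lit 182)) (nd (nat_lit 251) (nat_lit 0) (cs (lf (nat_lit 16) (nat_lit 226)) (rf (nat_lit 0)))))))) q23696 (by decide +kernel)
def q23724 : Q := Q.p (nat_lit 0x800002600001000004000010000000000000000000000000000000000000000000000) (nat_lit 0x1600001800000000000000000000000000000000000000000000000000000000000000) (nat_lit 3)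
theorem c23724 : QOK q23724 := cut [q15394] ⟨c15394, trivial⟩ (nd (nat_lit 251) (nat_lit 0) (cs (lf (nat_lit 29) (nat_lit 184)) (rf (nat_lit 0)))) q23724 (by decide +kernel)
def q23737 : Q := Q.p (nat_lit 0xa00002400001000004000000000000000000000000000000000000000000000000000) (nat_lit 0x1400001800000000000000010000000000000000000000000000000000000000000000) (nat_lit 3)
theorem c23737 : QOK q23737 := cut [q23736] ⟨c23736, trivial⟩ (nd (nat_lit 251) (nat_lit 0) (cs (lf (nat_lit 24) (nat_lit 184)) (rf (nat_lit 0)))) q23737 (by decide +kernel)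
def q23741 : Q := Q.p (nat_lit 0xa00000400001000004000000000000000000000000000000000000000000000000000) (nat_lit 0xa0000580000200000000000000010000000000000000000000000000000000000000000000) (nat_lit 4)
theorem c23741 : QOK q23741 := cut [q23586] ⟨c23586, trivial⟩ (nd (nat_lit 272) (nat_lit 0) (cs (lf (nat_lit 29) (nat_lit 206)) (rf (nat_lit 0)))) q23741 (by decide +kernel)
def q23759 : Q := Q.p (nat_lit 0x200000800006000000000000000000000000000000000000000000000000000) (nat_lit 0x80000000001000000000010000040000100000000000000000000000000000000000) (nat_lit 3)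
theorem c23759 : QOK q23759 := cut [q3504] ⟨c3504, trivial⟩ (nd (nat_lit 184) (nat_lit 0) (cs (lf (nat_lit 30) (nat_lit 183)) (rf (nat_lit 0)))) q23759 (by decide +kernel)
def q23781 : Q := Q.p (nat_lit 0x80000200000800002000000000000000000000000000000000000000000000000000) (nat_lit 0x50000140000500000000000000008000000000000000000000000000000000000000000000) (nat_lit 4)
theorem c23781 : QOK q23781 := cut [q3639] ⟨c3639, trivial⟩ (nd (nat_lit 272) (nat_lit 0) (cs (lf (nat_lit 29) (nat_lit 205)) (nd (nat_lit 183) (nat_lit 0) (cs (rf (nat_lit 0)) (lf (nat_lit 28) (nat_lit 183)))))) q23781 (by decide +kernel)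
def q23799 : Q := Q.p (nat_lit 0x90000020000100000c000000000000000000000000000000000000000000000000000) (nat_lit 0x80000600000400000000000000020000000000000000000000000000000000000000000000) (nat_lit 3)
theorem c23799 : QOK q23799 := cut [q23798] ⟨c23798, trivial⟩ (nd (nat_lit 250) (nat_lit 0) (cs (lf (nat_lit 35) (nat_lit 184)) (rf (nat_lit 0)))) q23799 (by decide +kernel)
def q23805 : Q := Q.p (nat_lit 0x200000800006000000000000000000000000000000000000000000000000000) (nat_lit 0x80000000000000000000018000040000100000000000000000000000000000000000) (nat_lit 3)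
theorem c23805 : QOK q23805 := cut [q11374] ⟨c11374, trivial⟩ (nd (nat_lit 184) (nat_lit 0) (cs (lf (nat_lit 30) (nat_lit 183)) (rf (nat_lit 0)))) q23805 (by decide +kernel)
def q23810 : Q := Q.p (nat_lit 0x7800010000000000000000000000000000000000000000000000) (nat_lit 0x40000b800000000000000000000000000000000000000000000) (nat_lit 3)
theorem c23810 : QOK q23810 := cut [q3964] ⟨c3964, trivial⟩ (nd (nat_lit 202) (nat_lit 0) (cs (rf (nat_lit 0)) (lf (nat_lit 16) (nat_lit 180)))) q23810 (by decide +kernel)
def q23833 : Q := Q.p (nat_lit 0x2000008000020000080000000000000000000000000000000000) (nat_lit 0x800000000000000018000740000500000000000000000000000000000) (nat_lit 5)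
theorem c23833 : QOK q23833 := cut [q23830] ⟨c23830, trivial⟩ (nd (nat_lit 138) (nat_lit 0) (cs (lf (nat_lit 47) (nat_lit 116)) (nd (nat_lit 160) (nat_lit 0) (cs (lf (nat_lit 42) (nat_lit 138)) (nd (nat_lit 140) (nat_lit 0) (cs (lf (nat_lit 35) (nat_lit 117)) (rf (nat_lit 0)))))))) q23833 (by decide +kernel)
def q23854 : Q := Q.p (nat_lit 0x300000c0000100000400000000000000000000000000000000000000000000000000000000000000) (nat_lit 0x200000e000100000000000000000000000000000000000000000000000000000000000000000000000000) (nat_lit 3)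
theorem c23854 : QOK q23854 := cut [q23853] ⟨c23853, trivial⟩ (nd (nat_lit 315) (nat_lit 0) (cs (lf (nat_lit 41) (nat_lit 249)) (rf (nat_lit 0)))) q23854 (by decide +kernel)
def q23897 : Q := Q.p (nat_lit 0x200000480001e000008000020000000000000000000000000000000000000000) (nat_lit 0xb00007c0001700003000000000020000000000000000000000000000000000000000000000) (nat_lit 8)
theorem c23897 : QOK q23897 := cut [q3639] ⟨c3639, trivial⟩ (nd (nat_lit 228) (nat_lit 0) (cs (lf (nat_lit 29) (nat_lit 161)) (nd (nat_lit 252) (nat_lit 0) (cs (lf (nat_lit 2) (nat_lit 227)) (nd (nat_lit 274) (nat_lit 0) (cs (lf (nat_lit 47) (nat_lit 185)) (nd (nat_lit 273) (nat_lit 0) (cs (lf (nat_lit 41) (nat_lit 207)) (nd (nat_lit 271) (nat_lit 0) (cs (lf (nat_lit 13) (nat_lit 249)) (nd (nat_lit 249) (nat_lit 0) (cs (rf (nat_lit 0)) (lf (nat_lit 30) (nat_lit 205)))))))))))))) q23897 (by decide +kernel)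
def q23902 : Q := Q.p (nat_lit 0x1e000008000020000000000000000000000000000000000000000) (nat_lit 0x400001c00000000000000000000080000000000000000000000000000000000) (nat_lit 3)
theorem c23902 : QOK q23902 := cut [q3227] ⟨c3227, trivial⟩ (nd (nat_lit 227) (nat_lit 0) (cs (lf (nat_lit 11) (nat_lit 204)) (rf (nat_lit 0)))) q23902 (by decide +kernel)
def q23907 : Q := Q.p (nat_lit 0x20000080000180000e0000000000000000000000000000000000000000) (nat_lit 0x20000300000c00000000000000000000000000000000000) (nat_lit 3)
theorem c23907 : QOK q23907 := cut [q12063] ⟨c12063, trivial⟩ (nd (nat_lit 164) (nat_lit 0) (cs (lf (nat_lit 6) (nat_lit 161)) (rf (nat_lit 0)))) q23907 (by decide +kernel)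
def q23929 : Q := Q.p (nat_lit 0x800002400001000004000010000000000000000000000000000000000000000000000) (nat_lit 0x1680001a00000000000000000000000000000000000000000000000000000000000000) (nat_lit 4)
theorem c23929 : QOK q23929 := cut [q6721] ⟨c6721, trivial⟩ (nd (nat_lit 251) (nat_lit 0) (cs (lf (nat_lit 29) (nat_lit 184)) (nd (nat_lit 252) (nat_lit 0) (cs (lf (nat_lit 5) (nat_lit 250)) (rf (nat_lit 0)))))) q23929 (by decide +kernel)
def q23932 : Q := Q.p (nat_lit 0x800002c00001000004000010000000000000000000000000000000000000000000000) (nat_lit 0x1180001200000000000000000000000000000000000000000000000000000000000000) (nat_lit 3)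
theorem c23932 : QOK q23932 := cut [q12588] ⟨c12588, trivial⟩ (nd (nat_lit 252) (nat_lit 0) (cs (lf (nat_lit 5) (nat_lit 250)) (rf (nat_lit 0)))) q23932 (by decide +kernel)
def q23943 : Q := Q.p (nat_lit 0x4000010000060000000000000000000000000000000000000000) (nat_lit 0x1000000000008000000000080000200000800000000000000000000000) (nat_lit 3)
theorem c23943 : QOK q23943 := cut [q18485] ⟨c18485, trivial⟩ (nd (nat_lit 139) (nat_lit 0) (cs (lf (nat_lit 42) (nat_lit 139)) (rf (nat_lit 0)))) q23943 (by decide +kernel)
def q23976 : Q := Q.p (nat_lit 0x40000f0000040000000000000000000000000000000000) (nat_lit 0x1000000000100000080000200000800000000000000000000000) (nat_lit 3)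
theorem c23976 : QOK q23976 := cut [q23975] ⟨c23975, trivial⟩ (nd (nat_lit 139) (nat_lit 0) (cs (lf (nat_lit 18) (nat_lit 138)) (rf (nat_lit 0)))) q23976 (by decide +kernel)
def q23984 : Q := Q.p (nat_lit 0x70000040000000000000000000000000000000000) (nat_lit 0x88000038000000000000000000000000000000000) (nat_lit 3)
theorem c23984 : QOK q23984 := cut [q23983] ⟨c23983, trivial⟩ (nd (nat_lit 137) (nat_lit 0) (cs (lf (nat_lit 18) (nat_lit 137)) (rf (nat_lit 0)))) q23984 (by decide +kernel)
def q24027 : Q := Q.p (nat_lit 0x4000070000000000000000000000000000000000000000) (nat_lit 0x3800088000000000000000000000000000000000000000) (nat_lit 3)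
theorem c24027 : QOK q24027 := cut [q24019] ⟨c24019, trivial⟩ (nd (nat_lit 181) (nat_lit 0) (cs (rf (nat_lit 0)) (lf (nat_lit 6) (nat_lit 159)))) q24027 (by decide +kernel)
def q24037 : Q := Q.p (nat_lit 0x4000010000040000100000000000000000000000000000000000) (nat_lit 0x2000008000020000200000e00003800002000000000000000000) (nat_lit 6)
theorem c24037 : QOK q24037 := cut [q17879] ⟨c17879, trivial⟩ (nd (nat_lit 119) (nat_lit 0) (cs (lf (nat_lit 34) (nat_lit 118)) (nd (nat_lit 118) (nat_lit 0) (cs (lf (nat_lit 35) (nat_lit 96)) (nd (nat_lit 95) (nat_lit 0) (cs (lf (nat_lit 46) (nat_lit 95)) (nd (nat_lit 183) (nat_lit 0) (cs (lf (nat_lit 41) (nat_lit 117)) (rf (nat_lit 0)))))))))) q24037 (by decide +kernel)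
def q24055 : Q := Q.p (nat_lit 0x40000100000c0000300000000000000000000000000000000000) (nat_lit 0x1000000e0000200000000000000000000000000000) (nat_lit 3)
theorem c24055 : QOK q24055 := cut [q17825] ⟨c17825, trivial⟩ (nd (nat_lit 139) (nat_lit 0) (cs (lf (nat_lit 47) (nat_lit 117)) (rf (nat_lit 0)))) q24055 (by decide +kernel)
def q24063 : Q := Q.p (nat_lit 0x40000100000c0000000000000000000000000000000000000000) (nat_lit 0x1000000000020000000000200000800002000000000000000000000000) (nat_lit 3)
theorem c24063 : QOK q24063 := cut [q3869] ⟨c3869, trivial⟩ (nd (nat_lit 141) (nat_lit 0) (cs (lf (nat_lit 30) (nat_lit 140)) (rf (nat_lit 0)))) q24063 (by decide +kernel)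
def q24086 : Q := Q.p (nat_lit 0x1c0000300000c0000000000000000000000000000000000000000) (nat_lit 0xe000738001ce0000200000800000000000000000000000) (nat_lit 8)
theorem c24086 : QOK q24086 := cut [q5111, q18485, q24078, q24084] ⟨c5111, c18485, c24078, c24084, trivial⟩ (nd (nat_lit 161) (nat_lit 0) (cs (rf (nat_lit 0)) (cs (nd (nat_lit 160) (nat_lit 0) (cs (lf (nat_lit 0) (nat_lit 159)) (nd (nat_lit 138) (nat_lit 0) (cs (lf (nat_lit 23) (nat_lit 137)) (nd (nat_lit 139) (nat_lit 0) (cs (lf (nat_lit 18) (nat_lit 138)) (rf (nat_lit 1)))))))) (cs (nd (nat_lit 160) (nat_lit 0) (cs (lf (nat_lit 0) (nat_lit 159)) (nd (nat_lit 181) (nat_lit 0) (cs (lf (nat_lit 10) (nat_lit 159)) (nd (nat_lit 138) (nat_lit 0) (cs (lf (nat_lit 23) (nat_lit 137)) (nd (nat_lit 164) (nat_lit 0) (cs (lf (nat_lit 22) (nat_lit 138)) (rf (nat_lit 2)))))))))) (nd (nat_lit 183) (nat_lit 0) (cs (lf (nat_lit 0) (nat_lit 182)) (rf (nat_lit 3)))))))) q24086 (by decide +kernel)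
def q24091 : Q := Q.p (nat_lit 0xc000018000040000080000000000000000000000000000000000) (nat_lit 0x2000020000000000100000600000000000000000000000000000) (nat_lit 3)
theorem c24091 : QOK q24091 := cut [q24090] ⟨c24090, trivial⟩ (nd (nat_lit 140) (nat_lit 0) (cs (lf (nat_lit 47) (nat_lit 117)) (rf (nat_lit 0)))) q24091 (by decide +kernel)
def q24100 : Q := Q.p (nat_lit 0x80000200000c0000000000000000000000000000000000) (nat_lit 0x2000000000010000000000100000400001000000000000000000) (nat_lit 3)
theorem c24100 : QOK q24100 := cut [q24098] ⟨c24098, trivial⟩ (nd (nat_lit 116) (nat_lit 0) (cs (rf (nat_lit 0)) (lf (nat_lit 42) (nat_lit 116)))) q24100 (by decide +kernel)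
def q24112 : Q := Q.p (nat_lit 0x80000200000c0000200000000000000000000000000000000000) (nat_lit 0x130001c00001000000000000000000000000000000) (nat_lit 4)
theorem c24112 : QOK q24112 := cut [q24110] ⟨c24110, trivial⟩ (nd (nat_lit 142) (nat_lit 0) (cs (lf (nat_lit 35) (nat_lit 119)) (nd (nat_lit 161) (nat_lit 0) (cs (lf (nat_lit 12) (nat_lit 138)) (rf (nat_lit 0)))))) q24112 (by decide +kernel)
def q24124 : Q := Q.p (nat_lit 0x40000100000400001000000000000000000000000) (nat_lit 0x280000e000028000000000000) (nat_lit 4)
theorem c24124 : QOK q24124 := cut [q24120] ⟨c24120, trivial⟩ (nd (nat_lit 75) (nat_lit 0) (cs (nd (nat_lit 74) (nat_lit 0) (cs (rf (nat_lit 0)) (lf (nat_lit 35) (nat_lit 52)))) (lf (nat_lit 34) (nat_lit 74)))) q24124 (by decide +kernel)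
def q24184 : Q := Q.p (nat_lit 0x80000200000200000c000030000000000000000000000000000000000000000000000) (nat_lit 0x1700001c00000000000000000000000000000000000000000000000000000000000000) (nat_lit 4)
theorem c24184 : QOK q24184 := cut [q24183] ⟨c24183, trivial⟩ (nd (nat_lit 251) (nat_lit 0) (cs (lf (nat_lit 42) (nat_lit 184)) (rf (nat_lit 0)))) q24184 (by decide +kernel)
def q24196 : Q := Q.p (nat_lit 0x400001c000034000000000000000000000000000000000000000000000) (nat_lit 0x8000003800002000000000000000000000000000000000000000000000) (nat_lit 3)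
theorem c24196 : QOK q24196 := cut [q7112] ⟨c7112, trivial⟩ (nd (nat_lit 205) (nat_lit 0) (cs (lf (nat_lit 5) (nat_lit 205)) (rf (nat_lit 0)))) q24196 (by decide +kernel)
def q24223 : Q := Q.p (nat_lit 0x1c000030000000000380000000000000000000000000000000000) (nat_lit 0xc0000200004400003c0000000000000000000000000000) (nat_lit 5)
theorem c24223 : QOK q24223 := cut [q24220] ⟨c24220, trivial⟩ (nd (nat_lit 183) (nat_lit 0) (cs (lf (nat_lit 0) (nat_lit 182)) (nd (nat_lit 117) (nat_lit 0) (cs (lf (nat_lit 26) (nat_lit 117)) (nd (nat_lit 116) (nat_lit 0) (cs (lf (nat_lit 18) (nat_lit 116)) (rf (nat_lit 0)))))))) q24223 (by decide +kernel)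
def q24332 : Q := Q.p (nat_lit 0x400001000006000000000000000000000000000000000000000000000000000) (nat_lit 0x100000000000000000000018000020000080000000000000000000000000000000000) (nat_lit 3)
theorem c24332 : QOK q24332 := cut [q3424] ⟨c3424, trivial⟩ (nd (nat_lit 183) (nat_lit 0) (cs (lf (nat_lit 42) (nat_lit 183)) (rf (nat_lit 0)))) q24332 (by decide +kernel)
def q24370 : Q := Q.p (nat_lit 0x80000200000000001e000000000000000000000000000000000000000000000000000) (nat_lit 0x1700001c0000f8000010000300001c0000700000000000000000000000000000000000) (nat_lit 9)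
theorem c24370 : QOK q24370 := cut [q735, q24327, q5088] ⟨c735, c24327, c5088, trivial⟩ (nd (nat_lit 230) (nat_lit 0) (cs (lf (nat_lit 5) (nat_lit 205)) (nd (nat_lit 229) (nat_lit 0) (cs (lf (nat_lit 0) (nat_lit 204)) (nd (nat_lit 185) (nat_lit 0) (cs (rf (nat_lit 0)) (cs (nd (nat_lit 252) (nat_lit 0) (cs (lf (nat_lit 42) (nat_lit 185)) (nd (nat_lit 228) (nat_lit 0) (cs (lf (nat_lit 0) (nat_lit 227)) (nd (nat_lit 250) (nat_lit 0) (cs (lf (nat_lit 30) (nat_lit 184)) (rf (nat_lit 1)))))))) (nd (nat_lit 163) (nat_lit 0) (cs (lf (nat_lit 24) (nat_lit 141)) (nd (nat_lit 250) (nat_lit 0) (cs (lf (nat_lit 40) (nat_lit 162)) (nd (nat_lit 142) (nat_lit 0) (cs (lf (nat_lit 34) (nat_lit 141)) (nd (nat_lit 251) (nat_lit 0) (cs (lf (nat_lit 41) (nat_lit 184)) (rf (nat_lit 2))))))))))))))))) q24370 (by decide +kernel)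
def q24373 : Q := Q.p (nat_lit 0x1000007000000000000000000000000000000000000000000000000000) (nat_lit 0x2b80000c00000000000000000000000000000000000000000000000000) (nat_lit 4)
theorem c24373 : QOK q24373 := cut [q24372] ⟨c24372, trivial⟩ (nd (nat_lit 203) (nat_lit 0) (cs (lf (nat_lit 5) (nat_lit 203)) (rf (nat_lit 0)))) q24373 (by decide +kernel)
def q24388 : Q := Q.p (nat_lit 0x800002000018000060000000000000000000000000000000000000000) (nat_lit 0x2000001c000040000000000000000000000000000000000) (nat_lit 3)
theorem c24388 : QOK q24388 := cut [q5208] ⟨c5208, trivial⟩ (nd (nat_lit 160) (nat_lit 0) (cs (lf (nat_lit 47) (nat_lit 138)) (rf (nat_lit 0)))) q24388 (by decide +kernel)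
def q24434 : Q := Q.p (nat_lit 0x7800000000000000000000000000000000000000000000000000) (nat_lit 0x3b80000400000000000000000000000000000000000000000000000000) (nat_lit 4)
theorem c24434 : QOK q24434 := cut [q24432] ⟨c24432, trivial⟩ (nd (nat_lit 228) (nat_lit 0) (cs (lf (nat_lit 5) (nat_lit 203)) (nd (nat_lit 202) (nat_lit 0) (cs (lf (nat_lit 4) (nat_lit 202)) (rf (nat_lit 0)))))) q24434 (by decide +kernel)
def q24540 : Q := Q.p (nat_lit 0x800003000002000008000020000000000000000000000000000000000000000000000) (nat_lit 0x1500000c00000000000000000000000000000000000000000000000000000000000000) (nat_lit 3)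
theorem c24540 : QOK q24540 := cut [q2098] ⟨c2098, trivial⟩ (nd (nat_lit 251) (nat_lit 0) (cs (lf (nat_lit 29) (nat_lit 185)) (rf (nat_lit 0)))) q24540 (by decide +kernel)
def q24557 : Q := Q.p (nat_lit 0x8000078000000000000000000000000000000000000000000000000000) (nat_lit 0x74000180000e00000000000000000000000000000000000000000000000) (nat_lit 5)
theorem c24557 : QOK q24557 := cut [q21992] ⟨c21992, trivial⟩ (nd (nat_lit 233) (nat_lit 0) (cs (lf (nat_lit 4) (nat_lit 207)) (nd (nat_lit 211) (nat_lit 0) (cs (lf (nat_lit 5) (nat_lit 208)) (rf (nat_lit 0)))))) q24557 (by decide +kernel)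
def q24608 : Q := Q.p (nat_lit 0x800002000002000038000000000000000000000000000000000000000000000000000) (nat_lit 0x10000040003d80007700009c000790001c0000eb0001000004000000000000000000000000000000000000) (nat_lit 15)
theorem c24608 : QOK q24608 := cut [q24566, q16728, q12684, q24607] ⟨c24566, c16728, c12684, c24607, trivial⟩ (nd (nat_lit 274) (nat_lit 0) (cs (nd (nat_lit 210) (nat_lit 0) (cs (lf (nat_lit 11) (nat_lit 206)) (nd (nat_lit 184) (nat_lit 0) (cs (lf (nat_lit 22) (nat_lit 184)) (nd (nat_lit 296) (nat_lit 0) (cs (lf (nat_lit 37) (nat_lit 208)) (nd (nat_lit 318) (nat_lit 0) (cs (lf (nat_lit 30) (nat_lit 252)) (nd (nat_lit 233) (nat_lit 0) (cs (lf (nat_lit 4) (nat_lit 207)) (nd (nat_lit 211) (nat_lit 0) (cs (lf (nat_lit 5) (nat_lit 208)) (nd (nat_lit 190) (nat_lit 0) (cs (lf (nat_lit 16) (nat_lit 186)) (nd (nat_lit 212) (nat_lit 0) (cs (lf (nat_lit 17) (nat_lit 187)) (nd (nat_lit 146) (nat_lit 0) (cs (lf (nat_lit 37) (nat_lit 145)) (nd (nat_lit 277) (nat_lit 0) (cs (lf (nat_lit 31) (nat_lit 189)) (nd (nat_lit 276) (nat_lit 0) (cs (lf (nat_lit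 11) (nat_lit 273)) (rf (nat_lit 0)))))))))))))))))))))))) (cs (nd (nat_lit 210) (nat_lit 0) (cs (lf (nat_lit 11) (nat_lit 206)) (nd (nat_lit 185) (nat_lit 0) (cs (lf (nat_lit 23) (nat_lit 184)) (nd (nat_lit 252) (nat_lit 0) (cs (lf (nat_lit 27) (nat_lit 185)) (nd (nat_lit 231) (nat_lit 0) (cs (lf (nat_lit 36) (nat_lit 186)) (nd (nat_lit 276) (nat_lit 0) (cs (lf (nat_lit 29) (nat_lit 209)) (nd (nat_lit 233) (nat_lit 0) (cs (lf (nat_lit 4) (nat_lit 207)) (nd (nat_lit 211) (nat_lit 0) (cs (lf (nat_lit 5) (nat_lit 208)) (nd (nat_lit 190) (nat_lit 0) (cs (lf (nat_lit 16) (nat_lit 186)) (nd (nat_lit 277) (nat_lit 0) (cs (lf (nat_lit 18) (nat_lit 252)) (rf (nat_lit 1)))))))))))))))))))) (cs (nd (nat_lit 210) (nat_lit 0) (cs (lf (nat_lit 11) (nat_lit 206)) (nd (nat_lit 184) (nat_lit 0) (cs (lf (nat_lit 22) (nat_lit 184)) (nd (nat_lit 233) (nat_lit 0) (cs (lf (nat_lit 4) (nat_lit 207)) (nd (nat_lit 296) (nat_lit 0) (cs (lf (nat_lit 37) (nat_lit 208)) (nd (nat_lit 318) (nat_lit 0) (cs (lf (nat_lit 30) (nat_lit 252)) (nd (nat_lit 273) (nat_lit 0) (cs (lf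 (nat_lit 26) (nat_lit 207)) (nd (nat_lit 211) (nat_lit 0) (cs (lf (nat_lit 5) (nat_lit 208)) (nd (nat_lit 190) (nat_lit 0) (cs (lf (nat_lit 16) (nat_lit 186)) (nd (nat_lit 212) (nat_lit 0) (cs (lf (nat_lit 17) (nat_lit 187)) (nd (nat_lit 146) (nat_lit 0) (cs (lf (nat_lit 37) (nat_lit 145)) (nd (nat_lit 277) (nat_lit 0) (cs (lf (nat_lit 31) (nat_lit 189)) (nd (nat_lit 276) (nat_lit 0) (cs (rf (nat_lit 2)) (lf (nat_lit 11) (nat_lit 273)))))))))))))))))))))))))) (cs (nd (nat_lit 210) (nat_lit 0) (cs (lf (nat_lit 11) (nat_lit 206)) (nd (nat_lit 185) (nat_lit 0) (cs (lf (nat_lit 23) (nat_lit 184)) (nd (nat_lit 232) (nat_lit 0) (cs (lf (nat_lit 5) (nat_lit 207)) (nd (nat_lit 251) (nat_lit 0) (cs (lf (nat_lit 28) (nat_lit 185)) (nd (nat_lit 250) (nat_lit 0) (cs (lf (nat_lit 41) (nat_lit 184)) (nd (nat_lit 273) (nat_lit 0) (cs (lf (nat_lit 29) (nat_lit 207)) (lf (nat_lit 18) (nat_lit 250)))))))))))))) (rf (nat_lit 3))))))) q24608 (by decide +kernel)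
def q24611 : Q := Q.p (nat_lit 0x2000038000020000000000000000000000000000000000000000000000) (nat_lit 0x80000000004000001c0000c0000100000400000000000000000000000000000) (nat_lit 5)
theorem c24611 : QOK q24611 := cut [q2145] ⟨c2145, trivial⟩ (nd (nat_lit 184) (nat_lit 0) (cs (lf (nat_lit 18) (nat_lit 184)) (nd (nat_lit 182) (nat_lit 0) (cs (lf (nat_lit 1) (nat_lit 182)) (nd (nat_lit 162) (nat_lit 0) (cs (lf (nat_lit 42) (nat_lit 162)) (rf (nat_lit 0)))))))) q24611 (by decide +kernel)
def q24613 : Q := Q.p (nat_lit 0x2000008000020000080000000000000000000000000000000000000000) (nat_lit 0x140000700001400000000000000000000000000000) (nat_lit 4)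
theorem c24613 : QOK q24613 := cut [q7236] ⟨c7236, trivial⟩ (nd (nat_lit 142) (nat_lit 0) (cs (lf (nat_lit 34) (nat_lit 141)) (nd (nat_lit 141) (nat_lit 0) (cs (lf (nat_lit 35) (nat_lit 119)) (rf (nat_lit 0)))))) q24613 (by decide +kernel)
def q24650 : Q := Q.p (nat_lit 0x80000200000800003c000000000000000000000000000000000000000000000000000) (nat_lit 0x40000138000000000000000000000000000000000000000000000) (nat_lit 3)
theorem c24650 : QOK q24650 := cut [q173] ⟨c173, trivial⟩ (nd (nat_lit 210) (nat_lit 0) (cs (rf (nat_lit 0)) (lf (nat_lit 35) (nat_lit 187)))) q24650 (by decide +kernel)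
def q24659 : Q := Q.p (nat_lit 0x3c000000000000000000000000000000000000000000000000000) (nat_lit 0x1dc00002000000000000000000000000000000000000000000000000000) (nat_lit 4)
theorem c24659 : QOK q24659 := cut [q10540] ⟨c10540, trivial⟩ (nd (nat_lit 227) (nat_lit 0) (cs (lf (nat_lit 10) (nat_lit 205)) (nd (nat_lit 205) (nat_lit 0) (cs (lf (nat_lit 11) (nat_lit 204)) (rf (nat_lit 0)))))) q24659 (by decide +kernel)
def q24661 : Q := Q.p (nat_lit 0x80000200000800001c000000000000000000000000000000000000000000000000000) (nat_lit 0x10000060000180000000000000000000000000000000000000000000000) (nat_lit 3)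
theorem c24661 : QOK q24661 := cut [q23504] ⟨c23504, trivial⟩ (nd (nat_lit 209) (nat_lit 0) (cs (lf (nat_lit 5) (nat_lit 206)) (rf (nat_lit 0)))) q24661 (by decide +kernel)
def q24666 : Q := Q.p (nat_lit 0x80001c000000000000000000000000000000000000000000000000000) (nat_lit 0x1600022000000000000000000000000000000000000000000000000000) (nat_lit 3)
theorem c24666 : QOK q24666 := cut [q4163] ⟨c4163, trivial⟩ (nd (nat_lit 228) (nat_lit 0) (cs (lf (nat_lit 6) (nat_lit 205)) (rf (nat_lit 0)))) q24666 (by decide +kernel)
def q24675 : Q := Q.p (nat_lit 0x3c000000000000000000000000000000000000000000000000000) (nat_lit 0x1c00000200001c000000000000000000000000000000000000000000000) (nat_lit 4)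
theorem c24675 : QOK q24675 := cut [q24673] ⟨c24673, trivial⟩ (nd (nat_lit 183) (nat_lit 0) (cs (lf (nat_lit 22) (nat_lit 183)) (nd (nat_lit 231) (nat_lit 0) (cs (lf (nat_lit 5) (nat_lit 206)) (rf (nat_lit 0)))))) q24675 (by decide +kernel)
def q24704 : Q := Q.p (nat_lit 0xc00003c00000000000000000000000000000000000000000000000000000000000000) (nat_lit 0x100000000000000018000020000080000000000000000000000000000000000000000000000) (nat_lit 3)
theorem c24704 : QOK q24704 := cut [q24703] ⟨c24703, trivial⟩ (nd (nat_lit 231) (nat_lit 0) (cs (lf (nat_lit 17) (nat_lit 228)) (rf (nat_lit 0)))) q24704 (by decide +kernel)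
def q24710 : Q := Q.p (nat_lit 0x2e00000000000000000000000000000000000000000000000000000000000000000000) (nat_lit 0x1dc0001000000000000000000000000000000000000000000000000000000000000000000000) (nat_lit 3)
theorem c24710 : QOK q24710 := cut [q2185, q12684] ⟨c2185, c12684, trivial⟩ (nd (nat_lit 276) (nat_lit 0) (cs (rf (nat_lit 0)) (rf (nat_lit 1)))) q24710 (by decide +kernel)
def q24741 : Q := Q.p (nat_lit 0xc00002000000000038000000000000000000000000000000000000000000000000000) (nat_lit 0x100000000000000008000044000180000400000000000000000000000000000000000000000) (nat_lit 4)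
theorem c24741 : QOK q24741 := cut [q24740] ⟨c24740, trivial⟩ (nd (nat_lit 231) (nat_lit 0) (cs (lf (nat_lit 41) (nat_lit 208)) (rf (nat_lit 0)))) q24741 (by decide +kernel)
def q24772 : Q := Q.p (nat_lit 0x400001000004000018000000000000000000000000000000000000000000000000000) (nat_lit 0x20000180000200000000002000020000080000000000000000000000000000000000000000000000) (nat_lit 4)
theorem c24772 : QOK q24772 := cut [q24771] ⟨c24771, trivial⟩ (nd (nat_lit 187) (nat_lit 0) (cs (lf (nat_lit 34) (nat_lit 186)) (rf (nat_lit 0)))) q24772 (by decide +kernel)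
def q24795 : Q := Q.p (nat_lit 0x3c00002000008000000000000000000000000000000000000000000000000000) (nat_lit 0x10000040000380000000000000000000000000000000000000000000000000000000000000000000) (nat_lit 3)
theorem c24795 : QOK q24795 := cut [q23608] ⟨c23608, trivial⟩ (nd (nat_lit 272) (nat_lit 0) (cs (lf (nat_lit 11) (nat_lit 249)) (rf (nat_lit 0)))) q24795 (by decide +kernel)
def q24869 : Q := Q.p (nat_lit 0x40000000001e00001800000000000000000000000000000000000000000000000000000000000000) (nat_lit 0x180000200000c0000000000000000000000000000000000000000000000000000000000000000000000000) (nat_lit 3)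
theorem c24869 : QOK q24869 := cut [q24868] ⟨c24868, trivial⟩ (nd (nat_lit 295) (nat_lit 0) (cs (lf (nat_lit 11) (nat_lit 272)) (rf (nat_lit 0)))) q24869 (by decide +kernel)
def q24876 : Q := Q.p (nat_lit 0x40000000001e00003000000000000000000000000000000000000000000000000000000000000000) (nat_lit 0xd00000000000000008000020000000000000000000000000000000000000000000000000000) (nat_lit 3)
theorem c24876 : QOK q24876 := cut [q24874] ⟨c24874, trivial⟩ (nd (nat_lit 231) (nat_lit 0) (cs (rf (nat_lit 0)) (lf (nat_lit 31) (nat_lit 230)))) q24876 (by decide +kernel)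
def q24921 : Q := Q.p (nat_lit 0xf000030000000000000000000000000000000000000000000000) (nat_lit 0x800006000000000000000040000100000000000000000000000000000000000) (nat_lit 3)
theorem c24921 : QOK q24921 := cut [q4253] ⟨c4253, trivial⟩ (nd (nat_lit 229) (nat_lit 0) (cs (lf (nat_lit 5) (nat_lit 204)) (rf (nat_lit 0)))) q24921 (by decide +kernel)
def q24929 : Q := Q.p (nat_lit 0x1c000010000000000000000000000000000000000000000000000) (nat_lit 0x600003a8000000000000000000000000000000000000000000000) (nat_lit 4)
theorem c24929 : QOK q24929 := cut [q22367] ⟨c22367, trivial⟩ (nd (nat_lit 209) (nat_lit 0) (cs (lf (nat_lit 23) (nat_lit 183)) (rf (nat_lit 0)))) q24929 (by decide +kernel)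
def q24937 : Q := Q.p (nat_lit 0x6000018000020000000000000000000000000000000000000000) (nat_lit 0x8000000000000000180007c0000700000000000000000000000000000) (nat_lit 6)
theorem c24937 : QOK q24937 := cut [q23830] ⟨c23830, trivial⟩ (nd (nat_lit 139) (nat_lit 0) (cs (lf (nat_lit 24) (nat_lit 117)) (nd (nat_lit 140) (nat_lit 0) (cs (lf (nat_lit 35) (nat_lit 117)) (nd (nat_lit 138) (nat_lit 0) (cs (lf (nat_lit 47) (nat_lit 116)) (nd (nat_lit 160) (nat_lit 0) (cs (lf (nat_lit 42) (nat_lit 138)) (rf (nat_lit 0)))))))))) q24937 (by decide +kernel)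
def q25022 : Q := Q.p (nat_lit 0x3c000000000000000000000000000000000000000000000000000) (nat_lit 0x3800040000038000000000000000000000000000000000000000000000) (nat_lit 4)
theorem c25022 : QOK q25022 := cut [q3827] ⟨c3827, trivial⟩ (nd (nat_lit 184) (nat_lit 0) (cs (lf (nat_lit 23) (nat_lit 183)) (nd (nat_lit 228) (nat_lit 0) (cs (lf (nat_lit 11) (nat_lit 205)) (rf (nat_lit 0)))))) q25022 (by decide +kernel)
def q25073 : Q := Q.p (nat_lit 0x80000200000000003c000000000000000000000000000000000000000000000000000) (nat_lit 0x8000040000380000000000000000000000000000000000000000000000) (nat_lit 3)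
theorem c25073 : QOK q25073 := cut [q25072] ⟨c25072, trivial⟩ (nd (nat_lit 188) (nat_lit 0) (cs (lf (nat_lit 16) (nat_lit 184)) (rf (nat_lit 0)))) q25073 (by decide +kernel)
def q25105 : Q := Q.p (nat_lit 0x78000000000000000000000000000000000000000000000000000000000000000000000000000000000000) (nat_lit 0x73000080000700000000000000000000000000000000000000000000000000000000000000000000000000000000) (nat_lit 5)
theorem c25105 : QOK q25105 := cut [q25104] ⟨c25104, trivial⟩ (nd (nat_lit 360) (nat_lit 0) (cs (lf (nat_lit 10) (nat_lit 338)) (rf (nat_lit 0)))) q25105 (by decide +kernel)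
def q25117 : Q := Q.p (nat_lit 0x20000080000200000800000000010000000000000000000000000000000000000000000000000000) (nat_lit 0x4000010000040000000000000006000000000000000000000000000000000000000000000000000000000) (nat_lit 3)
theorem c25117 : QOK q25117 := cut [q25116] ⟨c25116, trivial⟩ (nd (nat_lit 316) (nat_lit 0) (cs (lf (nat_lit 41) (nat_lit 250)) (rf (nat_lit 0)))) q25117 (by decide +kernel)
def q25135 : Q := Q.p (nat_lit 0x80000300000c0000200000000000000000000000000000000000000000000000000000000000000000000) (nat_lit 0x1800006000010000000000000000000000000000000000000000000000000000000000000000000000000000000000000) (nat_lit 3)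
theorem c25135 : QOK q25135 := cut [q12705] ⟨c12705, trivial⟩ (nd (nat_lit 361) (nat_lit 0) (cs (rf (nat_lit 0)) (lf (nat_lit 42) (nat_lit 294)))) q25135 (by decide +kernel)
def q25141 : Q := Q.p (nat_lit 0x3c0000c0000000000000000000000000000000000000000000000000000000000000000000000000) (nat_lit 0x38001c0000020000000000000000000000000000000000000000000000000000000000000000000000000) (nat_lit 4)
theorem c25141 : QOK q25141 := cut [q25139] ⟨c25139, trivial⟩ (nd (nat_lit 336) (nat_lit 0) (cs (lf (nat_lit 11) (nat_lit 313)) (nd (nat_lit 318) (nat_lit 0) (cs (lf (nat_lit 10) (nat_lit 314)) (rf (nat_lit 0)))))) q25141 (by decide +kernel)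
def q25188 : Q := Q.p (nat_lit 0x20000080000200000800000000010000000000000000000000000000000000000000000000000000) (nat_lit 0x400007000004000000000000000000000000000000000000000000000000000) (nat_lit 3)
theorem c25188 : QOK q25188 := cut [q25187] ⟨c25187, trivial⟩ (nd (nat_lit 228) (nat_lit 0) (cs (lf (nat_lit 46) (nat_lit 228)) (rf (nat_lit 0)))) q25188 (by decide +kernel)
def q25198 : Q := Q.p (nat_lit 0x4000020000080000e00000000000000000000000000000000000000000000000000000000000000000000) (nat_lit 0x10000000001000000c00001000000000000000000000000000000000000000000000000000000000) (nat_lit 3)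
theorem c25198 : QOK q25198 := cut [q25115] ⟨c25115, trivial⟩ (nd (nat_lit 251) (nat_lit 0) (cs (lf (nat_lit 40) (nat_lit 250)) (rf (nat_lit 0)))) q25198 (by decide +kernel)
def q25207 : Q := Q.p (nat_lit 0x30000180000000000000000000000000000000000000000000000000000000000000000000000000) (nat_lit 0x4c000600000000000000000000000000000000000000000000000000000000000000000000000000) (nat_lit 3)
theorem c25207 : QOK q25207 := cut [q12728] ⟨c12728, trivial⟩ (nd (nat_lit 315) (nat_lit 0) (cs (lf (nat_lit 12) (nat_lit 292)) (rf (nat_lit 0)))) q25207 (by decide +kernel)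
def q25254 : Q := Q.p (nat_lit 0x78000000000000000000000000000000000000000000000000000000000000000000000000000000) (nat_lit 0x3800004000038000000000000000000000000000000000000000000000000000000000000000000000000) (nat_lit 4)
theorem c25254 : QOK q25254 := cut [q25252] ⟨c25252, trivial⟩ (nd (nat_lit 336) (nat_lit 0) (cs (lf (nat_lit 10) (nat_lit 314)) (nd (nat_lit 314) (nat_lit 0) (cs (lf (nat_lit 11) (nat_lit 313)) (rf (nat_lit 0)))))) q25254 (by decide +kernel)
def q25336 : Q := Q.p (nat_lit 0x1c000000000280000600000000000000000000000000000000000000000000000000000000000000000000) (nat_lit 0x180000600001b8000100000000000800000000000000000000000000000000000000000000000000000000000000) (nat_lit 4)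
theorem c25336 : QOK q25336 := cut [q25331, q25335] ⟨c25331, c25335, trivial⟩ (nd (nat_lit 341) (nat_lit 0) (cs (rf (nat_lit 0)) (rf (nat_lit 1)))) q25336 (by decide +kernel)
def q25349 : Q := Q.p (nat_lit 0x38000000000200000800002000000000000000000000000000000000000000000000000000000000000000) (nat_lit 0x700000c0000780000000000000000000000000000000000000000000000000000000000000000000000000000000) (nat_lit 5)
theorem c25349 : QOK q25349 := cut [q25104] ⟨c25104, trivial⟩ (nd (nat_lit 342) (nat_lit 0) (cs (rf (nat_lit 0)) (cs (nd (nat_lit 320) (nat_lit 0) (cs (lf (nat_lit 27) (nat_lit 253)) (lf (nat_lit 17) (nat_lit 317)))) (nd (nat_lit 364) (nat_lit 0) (cs (lf (nat_lit 5) (nat_lit 339)) (lf (nat_lit 26) (nat_lit 275))))))) q25349 (by decide +kernel)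
def q25352 : Q := Q.p (nat_lit 0x38000020000000000000000000000000000000000000000000000000000000000000000000000000000000) (nat_lit 0x700000c0000710000000000000000000000000000000000000000000000000000000000000000000000000000000) (nat_lit 5)
theorem c25352 : QOK q25352 := cut [q13298] ⟨c13298, trivial⟩ (nd (nat_lit 342) (nat_lit 0) (cs (lf (nat_lit 23) (nat_lit 316)) (nd (nat_lit 321) (nat_lit 0) (cs (lf (nat_lit 16) (nat_lit 317)) (nd (nat_lit 343) (nat_lit 0) (cs (rf (nat_lit 0)) (lf (nat_lit 17) (nat_lit 318)))))))) q25352 (by decide +kernel)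
def q25370 : Q := Q.p (nat_lit 0x8000078000000000000000000000000000000000000000000000000000000000000000000000000000000000000) (nat_lit 0xe4000180000700000000000000000000000000000000000000000000000000000000000000000000000000000000) (nat_lit 5)
theorem c25370 : QOK q25370 := cut [q25367] ⟨c25367, trivial⟩ (nd (nat_lit 321) (nat_lit 0) (cs (lf (nat_lit 16) (nat_lit 317)) (nd (nat_lit 343) (nat_lit 0) (cs (lf (nat_lit 17) (nat_lit 318)) (nd (nat_lit 344) (nat_lit 0) (cs (lf (nat_lit 11) (nat_lit 340)) (rf (nat_lit 0)))))))) q25370 (by decide +kernel)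
def q25387 : Q := Q.p (nat_lit 0x18000020000080000200000000000000000000000000000000000000000000000000000000000000000000) (nat_lit 0x100002400001c000000000000000800000000000000000000000000000000000000000000000000000000000000) (nat_lit 4)
theorem c25387 : QOK q25387 := cut [q25159] ⟨c25159, trivial⟩ (nd (nat_lit 338) (nat_lit 0) (cs (lf (nat_lit 41) (nat_lit 272)) (nd (nat_lit 316) (nat_lit 0) (cs (lf (nat_lit 36) (nat_lit 250)) (rf (nat_lit 0)))))) q25387 (by decide +kernel)
def q25390 : Q := Q.p (nat_lit 0x10000040000080000200000000000000000000000000000000000000000000000000000000000000000000) (nat_lit 0x1000004000008000020000000000000000800000000000000000000000000000000000000000000000000000000000000) (nat_lit 3)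
theorem c25390 : QOK q25390 := cut [q25147] ⟨c25147, trivial⟩ (nd (nat_lit 317) (nat_lit 0) (cs (lf (nat_lit 24) (nat_lit 251)) (rf (nat_lit 0)))) q25390 (by decide +kernel)
def q25398 : Q := Q.p (nat_lit 0x80000e00000000000000000000000000000000000000000000000000000000000000000000) (nat_lit 0x70001100000000000000000000000000000000000000000000000000000000000000000000) (nat_lit 3)
theorem c25398 : QOK q25398 := cut [q14489] ⟨c14489, trivial⟩ (nd (nat_lit 294) (nat_lit 0) (cs (lf (nat_lit 6) (nat_lit 272)) (rf (nat_lit 0)))) q25398 (by decide +kernel)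
def q25407 : Q := Q.p (nat_lit 0x40000000000c00003000000000010000000000000000000000000000000000000000000000000000) (nat_lit 0x30000080000200000000000000004000000000000000000000000000000000000000000000000000000000) (nat_lit 3)
theorem c25407 : QOK q25407 := cut [q13474] ⟨c13474, trivial⟩ (nd (nat_lit 297) (nat_lit 0) (cs (lf (nat_lit 25) (nat_lit 208)) (rf (nat_lit 0)))) q25407 (by decide +kernel)
def q25409 : Q := Q.p (nat_lit 0x60000100000400001000000000000000000000000000000000000000000000000000000000000000) (nat_lit 0x80000000000800006000008000000000000000000000000000000000000000000000000000) (nat_lit 3)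
theorem c25409 : QOK q25409 := cut [q25408] ⟨c25408, trivial⟩ (nd (nat_lit 229) (nat_lit 0) (cs (lf (nat_lit 46) (nat_lit 229)) (rf (nat_lit 0)))) q25409 (by decide +kernel)
def q25425 : Q := Q.p (nat_lit 0xc0000100000c00001000000000000000000000000000000000000000000000000000000000000000) (nat_lit 0x80001200000e0000000000000004000000000000000000000000000000000000000000000000000000000) (nat_lit 4)
theorem c25425 : QOK q25425 := cut [q23056] ⟨c23056, trivial⟩ (nd (nat_lit 317) (nat_lit 0) (cs (lf (nat_lit 41) (nat_lit 251)) (nd (nat_lit 295) (nat_lit 0) (cs (rf (nat_lit 0)) (lf (nat_lit 36) (nat_lit 229)))))) q25425 (by decide +kernel)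
def q25443 : Q := Q.p (nat_lit 0xc0000300000c00003000000000000000000000000000000000000000000000000000000000000000) (nat_lit 0x1c8000720001c00000000000000000000000000000000000000000000000000000000000000000000000000) (nat_lit 6)
theorem c25443 : QOK q25443 := cut [q25440] ⟨c25440, trivial⟩ (nd (nat_lit 320) (nat_lit 0) (cs (lf (nat_lit 29) (nat_lit 253)) (nd (nat_lit 321) (nat_lit 0) (cs (lf (nat_lit 18) (nat_lit 296)) (nd (nat_lit 343) (nat_lit 0) (cs (lf (nat_lit 5) (nat_lit 318)) (rf (nat_lit 0)))))))) q25443 (by decide +kernel)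
def q25463 : Q := Q.p (nat_lit 0x40000000000c00003000000000000000000000000000000000000000000000000000000000000000) (nat_lit 0x30000080000300000000000000000000000000000000000000000000000000000000000000000000000000) (nat_lit 3)
theorem c25463 : QOK q25463 := cut [q13163, q13229, q13603, q15131] ⟨c13163, c13229, c13603, c15131, trivial⟩ (nd (nat_lit 319) (nat_lit 0) (cs (rf (nat_lit 0)) (cs (rf (nat_lit 1)) (cs (rf (nat_lit 2)) (rf (nat_lit 3)))))) q25463 (by decide +kernel)
def q25467 : Q := Q.p (nat_lit 0x1e00000000000000010000000000000000000000000000000000000000000000000000) (nat_lit 0xc0000000001c00006000000000000000000000000000000000000000000000000000000000) (nat_lit 4)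
theorem c25467 : QOK q25467 := cut [q13404] ⟨c13404, trivial⟩ (nd (nat_lit 251) (nat_lit 0) (cs (lf (nat_lit 23) (nat_lit 250)) (nd (nat_lit 295) (nat_lit 0) (cs (lf (nat_lit 11) (nat_lit 272)) (rf (nat_lit 0)))))) q25467 (by decide +kernel)
def q25514 : Q := Q.p (nat_lit 0x1e000000000000000000000000000000000000000000000000000000000000000000000000000000000000) (nat_lit 0xe00000100000e000000000000000000000000000000000000000000000000000000000000000000000000000000) (nat_lit 4)
theorem c25514 : QOK q25514 := cut [q25512] ⟨c25512, trivial⟩ (nd (nat_lit 314) (nat_lit 0) (cs (lf (nat_lit 22) (nat_lit 314)) (nd (nat_lit 336) (nat_lit 0) (cs (lf (nat_lit 23) (nat_lit 313)) (rf (nat_lit 0)))))) q25514 (by decide +kernel)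
def q25522 : Q := Q.p (nat_lit 0x1c000040000000000000000000000000000000000000000000000000000000000000000000000000000000) (nat_lit 0x22000380000000000000000000000000000000000000000000000000000000000000000000000000000000) (nat_lit 3)
theorem c25522 : QOK q25522 := cut [q25521] ⟨c25521, trivial⟩ (nd (nat_lit 319) (nat_lit 0) (cs (lf (nat_lit 12) (nat_lit 315)) (rf (nat_lit 0)))) q25522 (by decide +kernel)
def q25532 : Q := Q.p (nat_lit 0x10000000000080000200000800000000000000000000000000000000000000000000000000000000000000) (nat_lit 0x500000c000070000000000000000000000000000000000000000000000000000000000000000000000000000000) (nat_lit 4)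
theorem c25532 : QOK q25532 := cut [q9863] ⟨c9863, trivial⟩ (nd (nat_lit 317) (nat_lit 0) (cs (lf (nat_lit 28) (nat_lit 251)) (nd (nat_lit 339) (nat_lit 0) (cs (rf (nat_lit 0)) (lf (nat_lit 29) (nat_lit 273)))))) q25532 (by decide +kernel)
def q25541 : Q := Q.p (nat_lit 0x40000100000300001c000000000000000000000000000000000000000000000000000) (nat_lit 0x4000060000180000000000000000000000000000000000000000000000) (nat_lit 3)
theorem c25541 : QOK q25541 := cut [q25540] ⟨c25540, trivial⟩ (nd (nat_lit 209) (nat_lit 0) (cs (lf (nat_lit 6) (nat_lit 206)) (rf (nat_lit 0)))) q25541 (by decide +kernel)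
def q25565 : Q := Q.p (nat_lit 0x1e00003000000000000000000000000000000000000000000000000000000000000000) (nat_lit 0xe00000180000000000000000000000000000000000000000000000000000000000000000000) (nat_lit 3)
theorem c25565 : QOK q25565 := cut [q2057] ⟨c2057, trivial⟩ (nd (nat_lit 272) (nat_lit 0) (cs (lf (nat_lit 12) (nat_lit 249)) (rf (nat_lit 0)))) q25565 (by decide +kernel)
def q25568 : Q := Q.p (nat_lit 0x200000c00001000000000000000000000000000000000000000000000000000000000) (nat_lit 0x20000080000000000000002000004000010000000000000000000000000000000000000000000000) (nat_lit 3)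
theorem c25568 : QOK q25568 := cut [q14477] ⟨c14477, trivial⟩ (nd (nat_lit 295) (nat_lit 0) (cs (lf (nat_lit 42) (nat_lit 228)) (rf (nat_lit 0)))) q25568 (by decide +kernel)
def q25594 : Q := Q.p (nat_lit 0xe00003000000000000000000000000000000000000000000000000000000000000000) (nat_lit 0x4000010000060001180000e00002000000000000000000000000000000000000000000000000000000000) (nat_lit 6)
theorem c25594 : QOK q25594 := cut [q25590] ⟨c25590, trivial⟩ (nd (nat_lit 272) (nat_lit 0) (cs (lf (nat_lit 12) (nat_lit 249)) (nd (nat_lit 250) (nat_lit 0) (cs (lf (nat_lit 23) (nat_lit 249)) (nd (nat_lit 294) (nat_lit 0) (cs (lf (nat_lit 11) (nat_lit 271)) (nd (nat_lit 251) (nat_lit 0) (cs (lf (nat_lit 5) (nat_lit 250)) (rf (nat_lit 0)))))))))) q25594 (by decide +kernel)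
def q25622 : Q := Q.p (nat_lit 0x40000100000000001e000000000000000000000000000000000000000000000000000) (nat_lit 0x5c00020000180000000000000000000000000000000000000000000000) (nat_lit 4)
theorem c25622 : QOK q25622 := cut [q25540] ⟨c25540, trivial⟩ (nd (nat_lit 227) (nat_lit 0) (cs (lf (nat_lit 11) (nat_lit 204)) (nd (nat_lit 209) (nat_lit 0) (cs (lf (nat_lit 10) (nat_lit 205)) (rf (nat_lit 0)))))) q25622 (by decide +kernel)
def q25641 : Q := Q.p (nat_lit 0x40000100000000001e000000000000000000000000000000000000000000000000000) (nat_lit 0x40000200000bc000000000000000000000000000000000000000000000) (nat_lit 4)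
theorem c25641 : QOK q25641 := cut [q113] ⟨c113, trivial⟩ (nd (nat_lit 230) (nat_lit 0) (cs (lf (nat_lit 47) (nat_lit 185)) (nd (nat_lit 209) (nat_lit 0) (cs (rf (nat_lit 0)) (lf (nat_lit 35) (nat_lit 186)))))) q25641 (by decide +kernel)
def q25666 : Q := Q.p (nat_lit 0xf0000000000000000000000000000000000000000000000000000000000000000000000000000000) (nat_lit 0x7000008000070000000000000000000000000000000000000000000000000000000000000000000000000) (nat_lit 4)
theorem c25666 : QOK q25666 := cut [q14566] ⟨c14566, trivial⟩ (nd (nat_lit 337) (nat_lit 0) (cs (lf (nat_lit 10) (nat_lit 315)) (nd (nat_lit 315) (nat_lit 0) (cs (lf (nat_lit 11) (nat_lit 314)) (rf (nat_lit 0)))))) q25666 (by decide +kernel)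
def q25672 : Q := Q.p (nat_lit 0x1c0000000001c00003000000000000000000000000000000000000000000000000000000000000000) (nat_lit 0x40000020000c00000200000c00000000000000000000000000000000000000000000000000000000000000) (nat_lit 4)
theorem c25672 : QOK q25672 := cut [q17053] ⟨c17053, trivial⟩ (nd (nat_lit 250) (nat_lit 0) (cs (lf (nat_lit 1) (nat_lit 250)) (rf (nat_lit 0)))) q25672 (by decide +kernel)
def q25682 : Q := Q.p (nat_lit 0x100000000001c00003000000000000000000000000000000000000000000000000000000000000000) (nat_lit 0x40000000000c00000380000e00000000000000000000000000000000000000000000000000000000000000) (nat_lit 5)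
theorem c25682 : QOK q25682 := cut [q2179] ⟨c2179, trivial⟩ (nd (nat_lit 250) (nat_lit 0) (cs (lf (nat_lit 1) (nat_lit 250)) (nd (nat_lit 298) (nat_lit 0) (cs (lf (nat_lit 42) (nat_lit 253)) (nd (nat_lit 273) (nat_lit 0) (cs (lf (nat_lit 5) (nat_lit 273)) (rf (nat_lit 0)))))))) q25682 (by decide +kernel)
def q25744 : Q := Q.p (nat_lit 0xf00000000000000008000000000000000000000000000000000000000000000000000) (nat_lit 0x60000000000e00003000000000000000000000000000000000000000000000000000000000) (nat_lit 4)
theorem c25744 : QOK q25744 := cut [q22261] ⟨c22261, trivial⟩ (nd (nat_lit 250) (nat_lit 0) (cs (lf (nat_lit 23) (nat_lit 249)) (nd (nat_lit 294) (nat_lit 0) (cs (lf (nat_lit 11) (nat_lit 271)) (rf (nat_lit 0)))))) q25744 (by decide +kernel)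
def q25755 : Q := Q.p (nat_lit 0x2000010000040000100000400000000000000000000000000000000000000000000000000000000000000) (nat_lit 0x280000c000020000000000000000000000000000000000000000000000000000000000000000000000000000000) (nat_lit 3)
theorem c25755 : QOK q25755 := cut [q23863] ⟨c23863, trivial⟩ (nd (nat_lit 338) (nat_lit 0) (cs (lf (nat_lit 41) (nat_lit 271)) (rf (nat_lit 0)))) q25755 (by decide +kernel)
def q25760 : Q := Q.p (nat_lit 0x40000100000400001000010000000000000000000000000000000000000000000000000000) (nat_lit 0x200002e000038000020000000000000000000000000000000000000000) (nat_lit 5)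
theorem c25760 : QOK q25760 := cut [q14148] ⟨c14148, trivial⟩ (nd (nat_lit 207) (nat_lit 0) (cs (lf (nat_lit 34) (nat_lit 206)) (nd (nat_lit 206) (nat_lit 0) (cs (lf (nat_lit 35) (nat_lit 184)) (rf (nat_lit 0)))))) q25760 (by decide +kernel)
def q25763 : Q := Q.p (nat_lit 0x40000100000600000000000000000000000000000000000000000000000000000000000000) (nat_lit 0x10000000000000000000001800002000008000000000000000000000000000000000000000000000) (nat_lit 3)
theorem c25763 : QOK q25763 := cut [q23102] ⟨c23102, trivial⟩ (nd (nat_lit 227) (nat_lit 0) (cs (lf (nat_lit 42) (nat_lit 227)) (rf (nat_lit 0)))) q25763 (by decide +kernel)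
def q25768 : Q := Q.p (nat_lit 0x40000100003c00000000000000000000000000000000000000000000000000000000000000) (nat_lit 0x10000000000000000000003800008000000000000000000000000000000000000000000000000000) (nat_lit 3)
theorem c25768 : QOK q25768 := cut [q25767] ⟨c25767, trivial⟩ (nd (nat_lit 229) (nat_lit 0) (cs (lf (nat_lit 30) (nat_lit 228)) (rf (nat_lit 0)))) q25768 (by decide +kernel)
def q25771 : Q := Q.p (nat_lit 0x30000040000100000400000000000000000000000000000000000000000000000000000000000000) (nat_lit 0x80000000000200001800002000000000000000000000000000000000000000000000000000) (nat_lit 3)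
theorem c25771 : QOK q25771 := cut [q14112] ⟨c14112, trivial⟩ (nd (nat_lit 227) (nat_lit 0) (cs (rf (nat_lit 0)) (lf (nat_lit 46) (nat_lit 227)))) q25771 (by decide +kernel)
def q25776 : Q := Q.p (nat_lit 0x40000100000400001000000000000000000000000000000000000000000000000000000000) (nat_lit 0x800002000008000000000200000c000020000000000000000000000000000000000000000000000) (nat_lit 4)
theorem c25776 : QOK q25776 := cut [q25774] ⟨c25774, trivial⟩ (nd (nat_lit 293) (nat_lit 0) (cs (lf (nat_lit 41) (nat_lit 227)) (nd (nat_lit 206) (nat_lit 0) (cs (lf (nat_lit 40) (nat_lit 205)) (rf (nat_lit 0)))))) q25776 (by decide +kernel)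
def q25850 : Q := Q.p (nat_lit 0x80000300000c00003000000000000000000000000000000000000000000000000000000000000000) (nat_lit 0x58000760001c00000000000000000000000000000000000000000000000000000000000000000000000000) (nat_lit 6)
theorem c25850 : QOK q25850 := cut [q25440] ⟨c25440, trivial⟩ (nd (nat_lit 320) (nat_lit 0) (cs (lf (nat_lit 29) (nat_lit 253)) (nd (nat_lit 321) (nat_lit 0) (cs (lf (nat_lit 18) (nat_lit 296)) (nd (nat_lit 318) (nat_lit 0) (cs (lf (nat_lit 30) (nat_lit 252)) (rf (nat_lit 0)))))))) q25850 (by decide +kernel)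
def q25895 : Q := Q.p (nat_lit 0x600000c00002000000000010000000000000000000000000000000000000000000000000000) (nat_lit 0x100000780001f00000c0001300001000004000000000000000000000000000000000000000000000000000000000) (nat_lit 8)
theorem c25895 : QOK q25895 := cut [q25889, q25894] ⟨c25889, c25894, trivial⟩ (nd (nat_lit 320) (nat_lit 0) (cs (nd (nat_lit 273) (nat_lit 0) (cs (lf (nat_lit 0) (nat_lit 272)) (nd (nat_lit 252) (nat_lit 0) (cs (lf (nat_lit 25) (nat_lit 208)) (nd (nat_lit 319) (nat_lit 0) (cs (lf (nat_lit 42) (nat_lit 252)) (nd (nat_lit 318) (nat_lit 0) (cs (lf (nat_lit 41) (nat_lit 252)) (rf (nat_lit 0)))))))))) (rf (nat_lit 1)))) q25895 (by decide +kernel)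
def q25938 : Q := Q.p (nat_lit 0x280001c00000000000000000000000000000000000000000000000000000000000000000000) (nat_lit 0x750000e000038000000000000000000000000000000000000000000000000000000000000000) (nat_lit 6)
theorem c25938 : QOK q25938 := cut [q15576] ⟨c15576, trivial⟩ (nd (nat_lit 277) (nat_lit 0) (cs (lf (nat_lit 10) (nat_lit 273)) (rf (nat_lit 0)))) q25938 (by decide +kernel)
def q25960 : Q := Q.p (nat_lit 0x200007800000000000000000000000000000000000000000000000000000000000000000000) (nat_lit 0x7400008000000000000000000000000000000000000000000000000000000000000000000000) (nat_lit 3)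
theorem c25960 : QOK q25960 := cut [q12823] ⟨c12823, trivial⟩ (nd (nat_lit 279) (nat_lit 0) (cs (rf (nat_lit 0)) (lf (nat_lit 10) (nat_lit 275)))) q25960 (by decide +kernel)
def q25977 : Q := Q.p (nat_lit 0x300000c00002000000000010000000000000000000000000000000000000000000000000000) (nat_lit 0x180000780004c0003000001000004000000000000000000000000000000000000000000000000000000000) (nat_lit 7)
theorem c25977 : QOK q25977 := cut [q25972] ⟨c25972, trivial⟩ (nd (nat_lit 318) (nat_lit 0) (cs (lf (nat_lit 30) (nat_lit 252)) (nd (nat_lit 252) (nat_lit 0) (cs (lf (nat_lit 25) (nat_lit 208)) (nd (nat_lit 317) (nat_lit 0) (cs (lf (nat_lit 41) (nat_lit 251)) (nd (nat_lit 316) (nat_lit 0) (cs (lf (nat_lit 12) (nat_lit 293)) (nd (nat_lit 295) (nat_lit 0) (cs (lf (nat_lit 6) (nat_lit 294)) (rf (nat_lit 0)))))))))))) q25977 (by decide +kernel)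
def q25986 : Q := Q.p (nat_lit 0x680000e00003000000000000000000000000000000000000000000000000000000000000000) (nat_lit 0x380000f0000000000000000000000000000000000000000000000000000000000000000000000000000000) (nat_lit 4)
theorem c25986 : QOK q25986 := cut [q14842] ⟨c14842, trivial⟩ (nd (nat_lit 319) (nat_lit 0) (cs (lf (nat_lit 42) (nat_lit 252)) (nd (nat_lit 318) (nat_lit 0) (cs (lf (nat_lit 41) (nat_lit 252)) (rf (nat_lit 0)))))) q25986 (by decide +kernel)
def q26000 : Q := Q.p (nat_lit 0x800003c000000000000000000000000000000000000000000000000000000000000000000000000000000000000) (nat_lit 0x5c00002000000000000000000000000000000000000000000000000000000000000000000000000000000000000) (nat_lit 3)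
theorem c26000 : QOK q26000 := cut [q25999] ⟨c25999, trivial⟩ (nd (nat_lit 337) (nat_lit 0) (cs (lf (nat_lit 4) (nat_lit 337)) (rf (nat_lit 0)))) q26000 (by decide +kernel)
def q26009 : Q := Q.p (nat_lit 0x10000000000780000600000000000000000000000000000000000000000000000000000000000000000000) (nat_lit 0x6000008000030000000000000000000000000000000000000000000000000000000000000000000000000000000) (nat_lit 3)
theorem c26009 : QOK q26009 := cut [q22789] ⟨c22789, trivial⟩ (nd (nat_lit 317) (nat_lit 0) (cs (lf (nat_lit 11) (nat_lit 294)) (rf (nat_lit 0)))) q26009 (by decide +kernel)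
def q26031 : Q := Q.p (nat_lit 0x40000f00000400000000000000000000000000000000000000000000000000000000000000) (nat_lit 0x4000010000000001000000800002000000000000000000000000000000000000000000000000000000000) (nat_lit 3)
theorem c26031 : QOK q26031 := cut [q25590] ⟨c25590, trivial⟩ (nd (nat_lit 251) (nat_lit 0) (cs (lf (nat_lit 18) (nat_lit 250)) (rf (nat_lit 0)))) q26031 (by decide +kernel)
def q26051 : Q := Q.p (nat_lit 0x800002000008000014000000000000000000000000000000000000000000000000000) (nat_lit 0x20000000000000003600000a000000000000000000000000000000000000000000000000000) (nat_lit 4)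
theorem c26051 : QOK q26051 := cut [q3368] ⟨c3368, trivial⟩ (nd (nat_lit 230) (nat_lit 0) (cs (lf (nat_lit 42) (nat_lit 208)) (nd (nat_lit 207) (nat_lit 0) (cs (lf (nat_lit 0) (nat_lit 205)) (rf (nat_lit 0)))))) q26051 (by decide +kernel)
def q26052 : Q := Q.p (nat_lit 0x400000800002000008000020000000000000000000000000000000000000000000000000000) (nat_lit 0x100000200000000000000010000040000100000000000000000000000000000000000000000000000) (nat_lit 3)
theorem c26052 : QOK q26052 := cut [q11580] ⟨c11580, trivial⟩ (nd (nat_lit 297) (nat_lit 0) (cs (lf (nat_lit 29) (nat_lit 231)) (rf (nat_lit 0)))) q26052 (by decide +kernel)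
def q26060 : Q := Q.p (nat_lit 0x800002000008000014000000000000000000000000000000000000000000000000000) (nat_lit 0x100000600001000000000004000068000180000400000000000000000000000000000000000000000) (nat_lit 6)
theorem c26060 : QOK q26060 := cut [q26056] ⟨c26056, trivial⟩ (nd (nat_lit 297) (nat_lit 0) (cs (lf (nat_lit 46) (nat_lit 208)) (nd (nat_lit 298) (nat_lit 0) (cs (lf (nat_lit 29) (nat_lit 231)) (nd (nat_lit 209) (nat_lit 0) (cs (lf (nat_lit 28) (nat_lit 209)) (rf (nat_lit 0)))))))) q26060 (by decide +kernel)
def q26064 : Q := Q.p (nat_lit 0x800003c00000000000000000000000000000000000000000000000000000000000000) (nat_lit 0x40000020001c000000000000000000000000000000000000000000000000000000000) (nat_lit 3)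
theorem c26064 : QOK q26064 := cut [q26063] ⟨c26063, trivial⟩ (nd (nat_lit 231) (nat_lit 0) (cs (lf (nat_lit 17) (nat_lit 228)) (rf (nat_lit 0)))) q26064 (by decide +kernel)
def q26074 : Q := Q.p (nat_lit 0x80000200000800002400000000000000000000000000000000000000000000000000000000000000) (nat_lit 0x400001c000070000040000400001400001800000000000000000000000000000000000000000000000000000000000000) (nat_lit 7)
theorem c26074 : QOK q26074 := cut [q26069] ⟨c26069, trivial⟩ (nd (nat_lit 340) (nat_lit 0) (cs (lf (nat_lit 40) (nat_lit 252)) (nd (nat_lit 341) (nat_lit 0) (cs (lf (nat_lit 41) (nat_lit 274)) (nd (nat_lit 252) (nat_lit 0) (cs (lf (nat_lit 46) (nat_lit 252)) (nd (nat_lit 364) (nat_lit 0) (cs (lf (nat_lit 28) (nat_lit 275)) (nd (nat_lit 276) (nat_lit 0) (cs (lf (nat_lit 1) (nat_lit 250)) (rf (nat_lit 0)))))))))))) q26074 (by decide +kernel)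
def q26081 : Q := Q.p (nat_lit 0x80000200000800002400000000000000000000000000000000000000000000000000000000000000) (nat_lit 0xc000030000140000400007400001800008000020000000000000000000000000000000000000000000000000000) (nat_lit 8)
theorem c26081 : QOK q26081 := cut [q26075] ⟨c26075, trivial⟩ (nd (nat_lit 340) (nat_lit 0) (cs (lf (nat_lit 40) (nat_lit 252)) (nd (nat_lit 341) (nat_lit 0) (cs (lf (nat_lit 41) (nat_lit 274)) (nd (nat_lit 252) (nat_lit 0) (cs (lf (nat_lit 46) (nat_lit 252)) (nd (nat_lit 276) (nat_lit 0) (cs (lf (nat_lit 1) (nat_lit 250)) (nd (nat_lit 277) (nat_lit 0) (cs (lf (nat_lit 18) (nat_lit 252)) (nd (nat_lit 298) (nat_lit 0) (cs (lf (nat_lit 30) (nat_lit 275)) (rf (nat_lit 0)))))))))))))) q26081 (by decide +kernel)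
def q26173 : Q := Q.p (nat_lit 0x800003400000000010000000000000000000000000000000000000000000000000000) (nat_lit 0x200001000000a0001c000000000000000000000000000000000000000000000000000000000) (nat_lit 4)
theorem c26173 : QOK q26173 := cut [q26172] ⟨c26172, trivial⟩ (nd (nat_lit 251) (nat_lit 0) (cs (lf (nat_lit 5) (nat_lit 250)) (rf (nat_lit 0)))) q26173 (by decide +kernel)
def q26177 : Q := Q.p (nat_lit 0x800000600001000004000010000000000000000000000000000000000000000000000) (nat_lit 0x80000700000800000000000000000000000000000000000000000000000000000000000000) (nat_lit 3)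
theorem c26177 : QOK q26177 := cut [q26176] ⟨c26176, trivial⟩ (nd (nat_lit 273) (nat_lit 0) (cs (lf (nat_lit 28) (nat_lit 184)) (rf (nat_lit 0)))) q26177 (by decide +kernel)
def q26193 : Q := Q.p (nat_lit 0x900000400001000004000000000000000000000000000000000000000000000000000) (nat_lit 0xe80001600000a00000000000000000000000000000000000000000000000000000000000000) (nat_lit 5)
theorem c26193 : QOK q26193 := cut [q26190] ⟨c26190, trivial⟩ (nd (nat_lit 273) (nat_lit 0) (cs (lf (nat_lit 29) (nat_lit 206)) (nd (nat_lit 274) (nat_lit 0) (cs (lf (nat_lit 23) (nat_lit 249)) (nd (nat_lit 298) (nat_lit 0) (cs (lf (nat_lit 4) (nat_lit 272)) (rf (nat_lit 0)))))))) q26193 (by decide +kernel)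
def q26196 : Q := Q.p (nat_lit 0x600001000004000010000000000000000000000000000000000000000000000) (nat_lit 0x8000000000200000c0000200000000000000000000000000000000000) (nat_lit 3)
theorem c26196 : QOK q26196 := cut [q26195] ⟨c26195, trivial⟩ (nd (nat_lit 163) (nat_lit 0) (cs (lf (nat_lit 34) (nat_lit 162)) (rf (nat_lit 0)))) q26196 (by decide +kernel)
def q26200 : Q := Q.p (nat_lit 0x700001000000000000000000000000000000000000000000000000000000000) (nat_lit 0x8000e800000000000000000000000000000000000000000000000000000000) (nat_lit 3)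
theorem c26200 : QOK q26200 := cut [q26199] ⟨c26199, trivial⟩ (nd (nat_lit 229) (nat_lit 0) (cs (lf (nat_lit 12) (nat_lit 225)) (rf (nat_lit 0)))) q26200 (by decide +kernel)
def q26211 : Q := Q.p (nat_lit 0xc0000300000400001000000000000000000000000000000000000000000000000000) (nat_lit 0x1800006000018000000000000000800002000008000000000000000000000000000000000000000000000) (nat_lit 5)
theorem c26211 : QOK q26211 := cut [q26208] ⟨c26208, trivial⟩ (nd (nat_lit 205) (nat_lit 0) (cs (lf (nat_lit 35) (nat_lit 182)) (nd (nat_lit 292) (nat_lit 0) (cs (rf (nat_lit 0)) (lf (nat_lit 37) (nat_lit 204)))))) q26211 (by decide +kernel)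
def q26234 : Q := Q.p (nat_lit 0xf00001000004000000000000000000000000000000000000000000000000000) (nat_lit 0x80000600000000006000000000000000000000000000000000000000000000000000000000) (nat_lit 3)
theorem c26234 : QOK q26234 := cut [q26233] ⟨c26233, trivial⟩ (nd (nat_lit 229) (nat_lit 0) (cs (lf (nat_lit 17) (nat_lit 226)) (rf (nat_lit 0)))) q26234 (by decide +kernel)
def q26237 : Q := Q.p (nat_lit 0x700001000000000000000000000000000000000000000000000000000000000) (nat_lit 0x88000e000000000000000000000000000000000000000000000000000000000) (nat_lit 3)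
theorem c26237 : QOK q26237 := cut [q23632] ⟨c23632, trivial⟩ (nd (nat_lit 229) (nat_lit 0) (cs (lf (nat_lit 12) (nat_lit 225)) (rf (nat_lit 0)))) q26237 (by decide +kernel)
def q26241 : Q := Q.p (nat_lit 0x780001000000000000000000000000000000000000000000000000000000000) (nat_lit 0x40000b80000000000000000000000000000000000000000000000000000000) (nat_lit 3)
theorem c26241 : QOK q26241 := cut [q26239] ⟨c26239, trivial⟩ (nd (nat_lit 224) (nat_lit 0) (cs (rf (nat_lit 0)) (lf (nat_lit 22) (nat_lit 224)))) q26241 (by decide +kernel)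
def q26272 : Q := Q.p (nat_lit 0x40000100000400001000000000000000000000000000000000000000000000000000000000) (nat_lit 0x8000030000080000000000200000800002000000000000000000000000000000000000000000000000000) (nat_lit 4)
theorem c26272 : QOK q26272 := cut [q26270] ⟨c26270, trivial⟩ (nd (nat_lit 317) (nat_lit 0) (cs (lf (nat_lit 28) (nat_lit 228)) (nd (nat_lit 227) (nat_lit 0) (cs (lf (nat_lit 47) (nat_lit 205)) (rf (nat_lit 0)))))) q26272 (by decide +kernel)
def q26315 : Q := Q.p (nat_lit 0x800002000018000000000000000000000000000000000000000000000000000000000) (nat_lit 0x200000000000000000000060000100000400000000000000000000000000000000000000000) (nat_lit 3)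
theorem c26315 : QOK q26315 := cut [q12206] ⟨c12206, trivial⟩ (nd (nat_lit 210) (nat_lit 0) (cs (lf (nat_lit 30) (nat_lit 209)) (rf (nat_lit 0)))) q26315 (by decide +kernel)
def q26368 : Q := Q.p (nat_lit 0x800002000008000034000000000000000000000000000000000000000000000000000) (nat_lit 0x100000600001000000000010000048000000000000000000000000000000000000000000000000000) (nat_lit 4)
theorem c26368 : QOK q26368 := cut [q26366] ⟨c26366, trivial⟩ (nd (nat_lit 298) (nat_lit 0) (cs (lf (nat_lit 28) (nat_lit 209)) (nd (nat_lit 297) (nat_lit 0) (cs (lf (nat_lit 29) (nat_lit 231)) (rf (nat_lit 0)))))) q26368 (by decide +kernel)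
def q26412 : Q := Q.p (nat_lit 0x600000a00000000000000000000000000000000000000000000000000000000000000000000) (nat_lit 0x1800001500000000000000000000000000000000000000000000000000000000000000000000) (nat_lit 3)
theorem c26412 : QOK q26412 := cut [q2555] ⟨c2555, trivial⟩ (nd (nat_lit 274) (nat_lit 0) (cs (lf (nat_lit 0) (nat_lit 272)) (rf (nat_lit 0)))) q26412 (by decide +kernel)
def q26449 : Q := Q.p (nat_lit 0x2400001800006000000000000000000000000000000000000000000000000000) (nat_lit 0x200001a00000000000000010000040000100000000000000000000000000000000000) (nat_lit 4)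
theorem c26449 : QOK q26449 := cut [q26447] ⟨c26447, trivial⟩ (nd (nat_lit 251) (nat_lit 0) (cs (lf (nat_lit 19) (nat_lit 227)) (nd (nat_lit 184) (nat_lit 0) (cs (lf (nat_lit 29) (nat_lit 184)) (rf (nat_lit 0)))))) q26449 (by decide +kernel)
def q26461 : Q := Q.p (nat_lit 0x780000000000000000000000000000000000000000000000000000000000000) (nat_lit 0x10000070000800000300000800002000000000000000000000000000000000000000000000) (nat_lit 5)
theorem c26461 : QOK q26461 := cut [q26458] ⟨c26458, trivial⟩ (nd (nat_lit 225) (nat_lit 0) (cs (lf (nat_lit 23) (nat_lit 224)) (nd (nat_lit 269) (nat_lit 0) (cs (lf (nat_lit 11) (nat_lit 246)) (nd (nat_lit 270) (nat_lit 0) (cs (lf (nat_lit 6) (nat_lit 247)) (rf (nat_lit 0)))))))) q26461 (by decide +kernel)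
def q26480 : Q := Q.p (nat_lit 0x800016000008000000000000000000000000000000000000000000000) (nat_lit 0x80000200000000008000017000050000000000000000000000000000000000000000) (nat_lit 5)
theorem c26480 : QOK q26480 := cut [q3427] ⟨c3427, trivial⟩ (nd (nat_lit 182) (nat_lit 0) (cs (lf (nat_lit 19) (nat_lit 182)) (nd (nat_lit 180) (nat_lit 0) (cs (nd (nat_lit 249) (nat_lit 0) (cs (rf (nat_lit 0)) (lf (nat_lit 47) (nat_lit 160)))) (lf (nat_lit 1) (nat_lit 180)))))) q26480 (by decide +kernel)
def q26494 : Q := Q.p (nat_lit 0x2000001800006000008000000000000000000000000000000000000000000000) (nat_lit 0x1a0000e0000000000100000f00003c0000000000000000000000000000000000) (nat_lit 8)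
theorem c26494 : QOK q26494 := cut [q26482] ⟨c26482, trivial⟩ (nd (nat_lit 161) (nat_lit 0) (cs (lf (nat_lit 24) (nat_lit 139)) (nd (nat_lit 138) (nat_lit 0) (cs (lf (nat_lit 46) (nat_lit 138)) (nd (nat_lit 162) (nat_lit 0) (cs (lf (nat_lit 35) (nat_lit 139)) (nd (nat_lit 184) (nat_lit 0) (cs (lf (nat_lit 41) (nat_lit 161)) (nd (nat_lit 141) (nat_lit 0) (cs (lf (nat_lit 34) (nat_lit 140)) (rf (nat_lit 0)))))))))))) q26494 (by decide +kernel)
def q26524 : Q := Q.p (nat_lit 0x80000200001800006000000000000000000000000000000000000000000000000000) (nat_lit 0x1000004000010000000000000000c0000300000c0000000000000000000000000000000000) (nat_lit 5)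
theorem c26524 : QOK q26524 := cut [q26522] ⟨c26522, trivial⟩ (nd (nat_lit 270) (nat_lit 0) (cs (lf (nat_lit 41) (nat_lit 204)) (nd (nat_lit 183) (nat_lit 0) (cs (lf (nat_lit 40) (nat_lit 182)) (rf (nat_lit 0)))))) q26524 (by decide +kernel)
def q26559 : Q := Q.p (nat_lit 0x900000c00001000004000000000000000000000000000000000000000000000000000) (nat_lit 0x80001600000200000000000000000000000000000000000000000000000000000000000000) (nat_lit 3)
theorem c26559 : QOK q26559 := cut [q26330] ⟨c26330, trivial⟩ (nd (nat_lit 273) (nat_lit 0) (cs (lf (nat_lit 29) (nat_lit 206)) (rf (nat_lit 0)))) q26559 (by decide +kernel)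
def q26626 : Q := Q.p (nat_lit 0x400001000006000000000000000000000000000000000000000000000000000) (nat_lit 0x100000000000800000000008000020000080000000000000000000000000000000000) (nat_lit 3)
theorem c26626 : QOK q26626 := cut [q23881] ⟨c23881, trivial⟩ (nd (nat_lit 183) (nat_lit 0) (cs (lf (nat_lit 42) (nat_lit 183)) (rf (nat_lit 0)))) q26626 (by decide +kernel)
def q26647 : Q := Q.p (nat_lit 0x200001800007000000000000000000000000000000000000000000000000000) (nat_lit 0x600001c000040000000001f0000780000c0000000000000000000000000000000000) (nat_lit 8)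
theorem c26647 : QOK q26647 := cut [q26519, q26522] ⟨c26519, c26522, trivial⟩ (nd (nat_lit 183) (nat_lit 0) (cs (rf (nat_lit 0)) (cs (rf (nat_lit 1)) (nd (nat_lit 162) (nat_lit 0) (cs (lf (nat_lit 37) (nat_lit 161)) (nd (nat_lit 182) (nat_lit 0) (cs (lf (nat_lit 47) (nat_lit 160)) (nd (nat_lit 248) (nat_lit 0) (cs (lf (nat_lit 41) (nat_lit 182)) (nd (nat_lit 247) (nat_lit 0) (cs (lf (nat_lit 12) (nat_lit 224)) (nd (nat_lit 181) (nat_lit 0) (cs (lf (nat_lit 0) (nat_lit 180)) (nd (nat_lit 226) (nat_lit 0) (cs (lf (nat_lit 47) (nat_lit 159)) (lf (nat_lit 41) (nat_lit 181))))))))))))))))) q26647 (by decide +kernel)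
def q26654 : Q := Q.p (nat_lit 0x7800000000000000000000000000000000000000000000000000) (nat_lit 0x380000400038000000000000000000000000000000000000000000000) (nat_lit 4)
theorem c26654 : QOK q26654 := cut [q26652] ⟨c26652, trivial⟩ (nd (nat_lit 224) (nat_lit 0) (cs (lf (nat_lit 10) (nat_lit 202)) (nd (nat_lit 202) (nat_lit 0) (cs (lf (nat_lit 11) (nat_lit 201)) (rf (nat_lit 0)))))) q26654 (by decide +kernel)
def q26662 : Q := Q.p (nat_lit 0x1c00007000000000000000000000000000000000000000000000000000) (nat_lit 0x80000200001c0000300000000004000010000000000000000000000000000000000000000) (nat_lit 5)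
theorem c26662 : QOK q26662 := cut [q26658] ⟨c26658, trivial⟩ (nd (nat_lit 225) (nat_lit 0) (cs (lf (nat_lit 12) (nat_lit 202)) (nd (nat_lit 247) (nat_lit 0) (cs (lf (nat_lit 11) (nat_lit 224)) (nd (nat_lit 269) (nat_lit 0) (cs (rf (nat_lit 0)) (lf (nat_lit 30) (nat_lit 203)))))))) q26662 (by decide +kernel)
def q26734 : Q := Q.p (nat_lit 0x1000007800000000000000000000000000000000000000000000000000) (nat_lit 0x800000400003800000000000000000000000000000000000000000000) (nat_lit 3)
theorem c26734 : QOK q26734 := cut [q3964] ⟨c3964, trivial⟩ (nd (nat_lit 202) (nat_lit 0) (cs (rf (nat_lit 0)) (lf (nat_lit 4) (nat_lit 202)))) q26734 (by decide +kernel)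
def q26739 : Q := Q.p (nat_lit 0x80000200001800000000000000000000000000000000000000000000000000) (nat_lit 0x20000000000400000000004000010000040000000000000000000000000000000000) (nat_lit 3)
theorem c26739 : QOK q26739 := cut [q26738] ⟨c26738, trivial⟩ (nd (nat_lit 182) (nat_lit 0) (cs (lf (nat_lit 30) (nat_lit 181)) (rf (nat_lit 0)))) q26739 (by decide +kernel)
def q26834 : Q := Q.p (nat_lit 0x800006000010000000000000000000000000000000000000000000000) (nat_lit 0x80000200000000000000008000040000100000000000000000000000000000000000) (nat_lit 3)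
theorem c26834 : QOK q26834 := cut [q26833] ⟨c26833, trivial⟩ (nd (nat_lit 162) (nat_lit 0) (cs (lf (nat_lit 36) (nat_lit 139)) (rf (nat_lit 0)))) q26834 (by decide +kernel)
def q26854 : Q := Q.p (nat_lit 0x4000017000000000000000000000000000000000000000000000000000) (nat_lit 0x200000800000e000000000000000000000000000000000000000000000) (nat_lit 3)
theorem c26854 : QOK q26854 := cut [q126] ⟨c126, trivial⟩ (nd (nat_lit 207) (nat_lit 0) (cs (rf (nat_lit 0)) (lf (nat_lit 4) (nat_lit 204)))) q26854 (by decide +kernel)
def q26863 : Q := Q.p (nat_lit 0x7000004000000000000000000000000000000000000000000000) (nat_lit 0x8800003800000000000000000000000000000000000000000000) (nat_lit 3)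
theorem c26863 : QOK q26863 := cut [q26861] ⟨c26861, trivial⟩ (nd (nat_lit 181) (nat_lit 0) (cs (rf (nat_lit 0)) (lf (nat_lit 18) (nat_lit 181)))) q26863 (by decide +kernel)
def q26886 : Q := Q.p (nat_lit 0x7800004000000000000000000000000000000000000000000000) (nat_lit 0x80000300000000033000010000040000000000000000000000000000000000) (nat_lit 5)
theorem c26886 : QOK q26886 := cut [q26883] ⟨c26883, trivial⟩ (nd (nat_lit 225) (nat_lit 0) (cs (lf (nat_lit 11) (nat_lit 202)) (nd (nat_lit 184) (nat_lit 0) (cs (lf (nat_lit 17) (nat_lit 181)) (nd (nat_lit 160) (nat_lit 0) (cs (lf (nat_lit 36) (nat_lit 137)) (rf (nat_lit 0)))))))) q26886 (by decide +kernel)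
def q26947 : Q := Q.p (nat_lit 0x200000800002000008000000000000000000000000000000000000000000000) (nat_lit 0x14000070000140000000000000000000000000000000000) (nat_lit 4)
theorem c26947 : QOK q26947 := cut [q5269] ⟨c5269, trivial⟩ (nd (nat_lit 162) (nat_lit 0) (cs (lf (nat_lit 34) (nat_lit 161)) (nd (nat_lit 161) (nat_lit 0) (cs (lf (nat_lit 35) (nat_lit 139)) (rf (nat_lit 0)))))) q26947 (by decide +kernel)
def q26956 : Q := Q.p (nat_lit 0x80000200001800006000000000000000000000000000000000000000000000000000) (nat_lit 0x4000010000040000000000100000c000010000000000000000000000000000000000000000) (nat_lit 4)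
theorem c26956 : QOK q26956 := cut [q26954] ⟨c26954, trivial⟩ (nd (nat_lit 272) (nat_lit 0) (cs (lf (nat_lit 29) (nat_lit 205)) (nd (nat_lit 183) (nat_lit 0) (cs (lf (nat_lit 43) (nat_lit 183)) (rf (nat_lit 0)))))) q26956 (by decide +kernel)
def q26988 : Q := Q.p (nat_lit 0x1e00004000000000000000000000000000000000000000000000) (nat_lit 0x100002e00000000000000000000000000000000000000000000) (nat_lit 3)
theorem c26988 : QOK q26988 := cut [q26986] ⟨c26986, trivial⟩ (nd (nat_lit 200) (nat_lit 0) (cs (rf (nat_lit 0)) (lf (nat_lit 16) (nat_lit 178)))) q26988 (by decide +kernel)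
def q26997 : Q := Q.p (nat_lit 0x7800004000000000000000000000000000000000000000000000) (nat_lit 0x200001c00000600003800010000040000000000000000000000000000000000) (nat_lit 6)
theorem c26997 : QOK q26997 := cut [q26970] ⟨c26970, trivial⟩ (nd (nat_lit 180) (nat_lit 0) (cs (lf (nat_lit 22) (nat_lit 180)) (nd (nat_lit 202) (nat_lit 0) (cs (lf (nat_lit 23) (nat_lit 179)) (nd (nat_lit 227) (nat_lit 0) (cs (lf (nat_lit 5) (nat_lit 202)) (nd (nat_lit 226) (nat_lit 0) (cs (lf (nat_lit 0) (nat_lit 201)) (rf (nat_lit 0)))))))))) q26997 (by decide +kernel)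
def q27029 : Q := Q.p (nat_lit 0x1000004000010000040000000000000000000000000000000000) (nat_lit 0xa0000380000a00000000000000000000000) (nat_lit 4)
theorem c27029 : QOK q27029 := cut [q27027] ⟨c27027, trivial⟩ (nd (nat_lit 117) (nat_lit 0) (cs (lf (nat_lit 34) (nat_lit 116)) (nd (nat_lit 116) (nat_lit 0) (cs (lf (nat_lit 35) (nat_lit 94)) (rf (nat_lit 0)))))) q27029 (by decide +kernel)
def q27052 : Q := Q.p (nat_lit 0x3000004000010000040000000000000000000000000000000000) (nat_lit 0x8000000000020000180000200000000000000000000000) (nat_lit 3)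
theorem c27052 : QOK q27052 := cut [q27027] ⟨c27027, trivial⟩ (nd (nat_lit 116) (nat_lit 0) (cs (lf (nat_lit 28) (nat_lit 116)) (rf (nat_lit 0)))) q27052 (by decide +kernel)
def q27079 : Q := Q.p (nat_lit 0x800003c00000000000000000000000000000000000000000000000000) (nat_lit 0x400000200001c00000000000000000000000000000000000000000000) (nat_lit 3)
theorem c27079 : QOK q27079 := cut [q27078] ⟨c27078, trivial⟩ (nd (nat_lit 201) (nat_lit 0) (cs (lf (nat_lit 4) (nat_lit 201)) (rf (nat_lit 0)))) q27079 (by decide +kernel)
def q27084 : Q := Q.p (nat_lit 0x7800004000000000000000000000000000000000000000000000) (nat_lit 0x20000080000700000000000000010000040000000000000000000000000000000000) (nat_lit 4)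
theorem c27084 : QOK q27084 := cut [q26738] ⟨c26738, trivial⟩ (nd (nat_lit 225) (nat_lit 0) (cs (lf (nat_lit 11) (nat_lit 202)) (nd (nat_lit 247) (nat_lit 0) (cs (lf (nat_lit 30) (nat_lit 181)) (rf (nat_lit 0)))))) q27084 (by decide +kernel)
def q27138 : Q := Q.p (nat_lit 0x200000c000010000000000000000000000000000000000000000000000) (nat_lit 0x200000800000000000000020000040000100000000000000000000000000000000000) (nat_lit 3)
theorem c27138 : QOK q27138 := cut [q2019] ⟨c2019, trivial⟩ (nd (nat_lit 251) (nat_lit 0) (cs (lf (nat_lit 42) (nat_lit 184)) (rf (nat_lit 0)))) q27138 (by decide +kernel)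
def q27154 : Q := Q.p (nat_lit 0x800006000018000000000000000000000000000000000000000000000) (nat_lit 0x1c0000700000400000000004000030000040000000000000000000000000000000000) (nat_lit 6)
theorem c27154 : QOK q27154 := cut [q26948] ⟨c26948, trivial⟩ (nd (nat_lit 249) (nat_lit 0) (cs (lf (nat_lit 30) (nat_lit 183)) (nd (nat_lit 250) (nat_lit 0) (cs (lf (nat_lit 29) (nat_lit 183)) (nd (nat_lit 160) (nat_lit 0) (cs (lf (nat_lit 46) (nat_lit 160)) (nd (nat_lit 161) (nat_lit 0) (cs (lf (nat_lit 47) (nat_lit 138)) (rf (nat_lit 0)))))))))) q27154 (by decide +kernel)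
def q27164 : Q := Q.p (nat_lit 0x800006000018000000000000000000000000000000000000000000000) (nat_lit 0x1c00007000004000000000000000300000c0000300000000000000000000000000000) (nat_lit 7)
theorem c27164 : QOK q27164 := cut [q27160] ⟨c27160, trivial⟩ (nd (nat_lit 249) (nat_lit 0) (cs (lf (nat_lit 30) (nat_lit 183)) (nd (nat_lit 250) (nat_lit 0) (cs (lf (nat_lit 29) (nat_lit 183)) (nd (nat_lit 248) (nat_lit 0) (cs (lf (nat_lit 41) (nat_lit 182)) (nd (nat_lit 161) (nat_lit 0) (cs (lf (nat_lit 40) (nat_lit 160)) (rf (nat_lit 0)))))))))) q27164 (by decide +kernel)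
def q27169 : Q := Q.p (nat_lit 0x600001e000000000000000000000000000000000000000000000) (nat_lit 0x80000300001c00020000010000040000000000000000000000000000000000) (nat_lit 5)
theorem c27169 : QOK q27169 := cut [q27167] ⟨c27167, trivial⟩ (nd (nat_lit 203) (nat_lit 0) (cs (lf (nat_lit 11) (nat_lit 180)) (nd (nat_lit 204) (nat_lit 0) (cs (lf (nat_lit 17) (nat_lit 181)) (rf (nat_lit 0)))))) q27169 (by decide +kernel)
def q27183 : Q := Q.p (nat_lit 0x200001c000000000000000000000000000000000000000000000) (nat_lit 0x20000080000100002000003e000040000100000000000000000000000000000) (nat_lit 4)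
theorem c27183 : QOK q27183 := cut [q27180] ⟨c27180, trivial⟩ (nd (nat_lit 160) (nat_lit 0) (cs (rf (nat_lit 0)) (nd (nat_lit 138) (nat_lit 0) (cs (lf (nat_lit 24) (nat_lit 116)) (nd (nat_lit 227) (nat_lit 0) (cs (lf (nat_lit 27) (nat_lit 138)) (lf (nat_lit 42) (nat_lit 160)))))))) q27183 (by decide +kernel)
def q27205 : Q := Q.p (nat_lit 0x780001e000000000000000000000000000000000000000000000) (nat_lit 0x8000030000000000000001c000040000000000000000000000000000000000) (nat_lit 4)
theorem c27205 : QOK q27205 := cut [q27167] ⟨c27167, trivial⟩ (nd (nat_lit 158) (nat_lit 0) (cs (lf (nat_lit 22) (nat_lit 158)) (rf (nat_lit 0)))) q27205 (by decide +kernel)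
def q27269 : Q := Q.p (nat_lit 0x300000800002000008000000000000000000000000000000000000000) (nat_lit 0x400000000004000030000040000000000000000000000000000) (nat_lit 3)
theorem c27269 : QOK q27269 := cut [q27268] ⟨c27268, trivial⟩ (nd (nat_lit 137) (nat_lit 0) (cs (lf (nat_lit 40) (nat_lit 136)) (rf (nat_lit 0)))) q27269 (by decide +kernel)
def q27280 : Q := Q.p (nat_lit 0x80000200000800002000000000000000000000000000000000000000000000) (nat_lit 0x4000030000040000000000400001000004000000000000000000000000000000000000000) (nat_lit 4)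
theorem c27280 : QOK q27280 := cut [q27277] ⟨c27277, trivial⟩ (nd (nat_lit 180) (nat_lit 0) (cs (lf (nat_lit 47) (nat_lit 158)) (nd (nat_lit 269) (nat_lit 0) (cs (rf (nat_lit 0)) (lf (nat_lit 46) (nat_lit 180)))))) q27280 (by decide +kernel)
def q27290 : Q := Q.p (nat_lit 0xc0000200000800002000000000000000000000000000000000000000000000) (nat_lit 0x10000000000100000c000010000000000000000000000000000000000) (nat_lit 3)
theorem c27290 : QOK q27290 := cut [q27289] ⟨c27289, trivial⟩ (nd (nat_lit 158) (nat_lit 0) (cs (lf (nat_lit 46) (nat_lit 158)) (rf (nat_lit 0)))) q27290 (by decide +kernel)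
def q27320 : Q := Q.p (nat_lit 0x180000f0000000000000000000000000000000000000000) (nat_lit 0x300000e00000000000000000000000000000000000) (nat_lit 3)
theorem c27320 : QOK q27320 := cut [q12361] ⟨c12361, trivial⟩ (nd (nat_lit 164) (nat_lit 0) (cs (lf (nat_lit 6) (nat_lit 161)) (rf (nat_lit 0)))) q27320 (by decide +kernel)
def q27342 : Q := Q.p (nat_lit 0x14000018000000000000000000000000000000000000000000000) (nat_lit 0x28000026000000000000000000000000000000000000000000000) (nat_lit 3)
theorem c27342 : QOK q27342 := cut [q2411] ⟨c2411, trivial⟩ (nd (nat_lit 207) (nat_lit 0) (cs (lf (nat_lit 18) (nat_lit 183)) (rf (nat_lit 0)))) q27342 (by decide +kernel)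
def q27358 : Q := Q.p (nat_lit 0x1000004000010000040000000000000000000000000000000000000000) (nat_lit 0x40000000000000002e0007b8001ee0000000000000000000000000000000000) (nat_lit 10)
theorem c27358 : QOK q27358 := cut [q24078] ⟨c24078, trivial⟩ (nd (nat_lit 163) (nat_lit 0) (cs (lf (nat_lit 35) (nat_lit 140)) (nd (nat_lit 185) (nat_lit 0) (cs (lf (nat_lit 30) (nat_lit 162)) (nd (nat_lit 161) (nat_lit 0) (cs (lf (nat_lit 47) (nat_lit 139)) (nd (nat_lit 160) (nat_lit 0) (cs (lf (nat_lit 0) (nat_lit 159)) (nd (nat_lit 137) (nat_lit 0) (cs (lf (nat_lit 22) (nat_lit 137)) (nd (nat_lit 182) (nat_lit 0) (cs (lf (nat_lit 11) (nat_lit 159)) (nd (nat_lit 164) (nat_lit 0) (cs (lf (nat_lit 10) (nat_lit 160)) (rf (nat_lit 0)))))))))))))))) q27358 (by decide +kernel)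
def q27362 : Q := Q.p (nat_lit 0x50000300000000000000000000000000000000000) (nat_lit 0xa8000c00000000000000000000000000000000000) (nat_lit 3)
theorem c27362 : QOK q27362 := cut [q27361] ⟨c27361, trivial⟩ (nd (nat_lit 161) (nat_lit 0) (cs (lf (nat_lit 12) (nat_lit 137)) (rf (nat_lit 0)))) q27362 (by decide +kernel)
def q27364 : Q := Q.p (nat_lit 0x50000380000000000000000000000000000000000) (nat_lit 0x188000060000000000000000000000000000000000) (nat_lit 3)
theorem c27364 : QOK q27364 := cut [q27363] ⟨c27363, trivial⟩ (nd (nat_lit 138) (nat_lit 0) (cs (lf (nat_lit 11) (nat_lit 137)) (rf (nat_lit 0)))) q27364 (by decide +kernel)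
def q27403 : Q := Q.p (nat_lit 0x2000001000014000010000040000000000000000000000000000000000000000) (nat_lit 0x1800006800022000000000020000180000200000000000000000000000000000) (nat_lit 6)
theorem c27403 : QOK q27403 := cut [q18626] ⟨c18626, trivial⟩ (nd (nat_lit 229) (nat_lit 0) (cs (lf (nat_lit 29) (nat_lit 162)) (nd (nat_lit 139) (nat_lit 0) (cs (lf (nat_lit 46) (nat_lit 139)) (nd (nat_lit 140) (nat_lit 0) (cs (lf (nat_lit 47) (nat_lit 117)) (nd (nat_lit 227) (nat_lit 0) (cs (lf (nat_lit 40) (nat_lit 139)) (rf (nat_lit 0)))))))))) q27403 (by decide +kernel)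
def q27415 : Q := Q.p (nat_lit 0x400001000004000010000000000000000000000000000000000000000000000) (nat_lit 0x80000a000020000080000200000e0000380000200000000000000000000000000000) (nat_lit 7)
theorem c27415 : QOK q27415 := cut [q27412] ⟨c27412, trivial⟩ (nd (nat_lit 163) (nat_lit 0) (cs (lf (nat_lit 34) (nat_lit 162)) (nd (nat_lit 162) (nat_lit 0) (cs (lf (nat_lit 35) (nat_lit 140)) (nd (nat_lit 249) (nat_lit 0) (cs (lf (nat_lit 41) (nat_lit 183)) (rf (nat_lit 0)))))))) q27415 (by decide +kernel)
def q27422 : Q := Q.p (nat_lit 0x800002000001000004000010000040000000000000000000000000000000000000000) (nat_lit 0x1200001c00002800000000000000080000200000000000000000000000000000000000) (nat_lit 5)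
theorem c27422 : QOK q27422 := cut [q15320] ⟨c15320, trivial⟩ (nd (nat_lit 251) (nat_lit 0) (cs (lf (nat_lit 28) (nat_lit 162)) (nd (nat_lit 141) (nat_lit 0) (cs (lf (nat_lit 34) (nat_lit 140)) (nd (nat_lit 250) (nat_lit 0) (cs (lf (nat_lit 29) (nat_lit 184)) (rf (nat_lit 0)))))))) q27422 (by decide +kernel)
def q27431 : Q := Q.p (nat_lit 0x1e000010000000000000000000000000000000000000000000000) (nat_lit 0x700000180002e000000000000000000000000000000000000000000000) (nat_lit 5)
theorem c27431 : QOK q27431 := cut [q24156] ⟨c24156, trivial⟩ (nd (nat_lit 182) (nat_lit 0) (cs (lf (nat_lit 22) (nat_lit 182)) (nd (nat_lit 204) (nat_lit 0) (cs (lf (nat_lit 23) (nat_lit 181)) (nd (nat_lit 229) (nat_lit 0) (cs (lf (nat_lit 5) (nat_lit 204)) (rf (nat_lit 0)))))))) q27431 (by decide +kernel)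
def q27472 : Q := Q.p (nat_lit 0x18000040000100000400000000000000000000000000000) (nat_lit 0x20000000000800003000008000000000000000000) (nat_lit 3)
theorem c27472 : QOK q27472 := cut [q16287] ⟨c16287, trivial⟩ (nd (nat_lit 96) (nat_lit 0) (cs (rf (nat_lit 0)) (lf (nat_lit 40) (nat_lit 95)))) q27472 (by decide +kernel)
def q27568 : Q := Q.p (nat_lit 0x400001000004000010000000000000000000000000000000000000000) (nat_lit 0x280000e0000280000000000000000000000000000) (nat_lit 4)
theorem c27568 : QOK q27568 := cut [q27566] ⟨c27566, trivial⟩ (nd (nat_lit 139) (nat_lit 0) (cs (lf (nat_lit 34) (nat_lit 138)) (nd (nat_lit 138) (nat_lit 0) (cs (lf (nat_lit 35) (nat_lit 116)) (rf (nat_lit 0)))))) q27568 (by decide +kernel)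
def q27583 : Q := Q.p (nat_lit 0x600001000004000010000000000000000000000000000000000000000) (nat_lit 0x800000000008000060000080000000000000000000000000000) (nat_lit 3)
theorem c27583 : QOK q27583 := cut [q27566] ⟨c27566, trivial⟩ (nd (nat_lit 138) (nat_lit 0) (cs (lf (nat_lit 40) (nat_lit 137)) (rf (nat_lit 0)))) q27583 (by decide +kernel)
def q27606 : Q := Q.p (nat_lit 0xc0000f0000000000000000000000000000000000000000) (nat_lit 0x2000000000000000060000100000400000000000000000000000) (nat_lit 3)
theorem c27606 : QOK q27606 := cut [q27605] ⟨c27605, trivial⟩ (nd (nat_lit 138) (nat_lit 0) (cs (lf (nat_lit 23) (nat_lit 137)) (rf (nat_lit 0)))) q27606 (by decide +kernel)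
def q27639 : Q := Q.p (nat_lit 0x180000400001000008000000000000000000000000000000000000000000000000000) (nat_lit 0x80000e0000380000c0000000000200002000000000000000000000000000000000000000000000000000000000) (nat_lit 6)
theorem c27639 : QOK q27639 := cut [q14126] ⟨c14126, trivial⟩ (nd (nat_lit 294) (nat_lit 0) (cs (lf (nat_lit 34) (nat_lit 206)) (nd (nat_lit 317) (nat_lit 0) (cs (lf (nat_lit 28) (nat_lit 228)) (nd (nat_lit 316) (nat_lit 0) (cs (lf (nat_lit 29) (nat_lit 250)) (nd (nat_lit 338) (nat_lit 0) (cs (rf (nat_lit 0)) (lf (nat_lit 47) (nat_lit 249)))))))))) q27639 (by decide +kernel)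
def q27681 : Q := Q.p (nat_lit 0x100001e000000000000000000000000000000000000000000000000000) (nat_lit 0x2e00001800007000000000000000000000000000000000000000000000) (nat_lit 5)
theorem c27681 : QOK q27681 := cut [q898] ⟨c898, trivial⟩ (nd (nat_lit 226) (nat_lit 0) (cs (lf (nat_lit 10) (nat_lit 204)) (nd (nat_lit 204) (nat_lit 0) (cs (lf (nat_lit 11) (nat_lit 203)) (nd (nat_lit 203) (nat_lit 0) (cs (rf (nat_lit 0)) (lf (nat_lit 5) (nat_lit 203)))))))) q27681 (by decide +kernel)
def q27688 : Q := Q.p (nat_lit 0x600001800002000008000000000000000000000000000000000000000000000) (nat_lit 0x400001c0002000000000000000000000000000000000000000000000000000000000) (nat_lit 3)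
theorem c27688 : QOK q27688 := cut [q27687] ⟨c27687, trivial⟩ (nd (nat_lit 248) (nat_lit 0) (cs (lf (nat_lit 41) (nat_lit 182)) (rf (nat_lit 0)))) q27688 (by decide +kernel)
def q27743 : Q := Q.p (nat_lit 0x80000200001800006000000000000000000000000000000000000000000000000000) (nat_lit 0x2000001c00004000000000000000000000000000000000000000000000) (nat_lit 3)
theorem c27743 : QOK q27743 := cut [q27694] ⟨c27694, trivial⟩ (nd (nat_lit 204) (nat_lit 0) (cs (lf (nat_lit 47) (nat_lit 182)) (rf (nat_lit 0)))) q27743 (by decide +kernel)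
def q27848 : Q := Q.p (nat_lit 0xc00001000004000000000000000000000000000000000000000000000000000) (nat_lit 0x2000000000000000000000380000e0000280000000000000000000000000000000000) (nat_lit 5)
theorem c27848 : QOK q27848 := cut [q27847] ⟨c27847, trivial⟩ (nd (nat_lit 184) (nat_lit 0) (cs (lf (nat_lit 29) (nat_lit 184)) (rf (nat_lit 0)))) q27848 (by decide +kernel)
def q27920 : Q := Q.p (nat_lit 0x4000038000100000000000000000000000000000000000000000000000) (nat_lit 0x720000c0000200000000000000000000000000000000000000000000000) (nat_lit 4)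
theorem c27920 : QOK q27920 := cut [q137] ⟨c137, trivial⟩ (nd (nat_lit 210) (nat_lit 0) (cs (lf (nat_lit 17) (nat_lit 185)) (nd (nat_lit 211) (nat_lit 0) (cs (rf (nat_lit 0)) (lf (nat_lit 11) (nat_lit 207)))))) q27920 (by decide +kernel)
def q27952 : Q := Q.p (nat_lit 0x3c0000c00000000000000000000000000000000000000000000000000000000000000000000000000000000) (nat_lit 0x20000180000000000000001000004000000000000000000000000000000000000000000000000000000000000000000000) (nat_lit 3)
theorem c27952 : QOK q27952 := cut [q27950] ⟨c27950, trivial⟩ (nd (nat_lit 367) (nat_lit 0) (cs (rf (nat_lit 0)) (lf (nat_lit 5) (nat_lit 342)))) q27952 (by decide +kernel)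
def q27959 : Q := Q.p (nat_lit 0x3c0000000000000000000000000000000000000000000000000000000000000000000000000000000000000) (nat_lit 0x1dc000020000000000000000000000000000000000000000000000000000000000000000000000000000000000000) (nat_lit 4)
theorem c27959 : QOK q27959 := cut [q27956] ⟨c27956, trivial⟩ (nd (nat_lit 367) (nat_lit 0) (cs (lf (nat_lit 5) (nat_lit 342)) (nd (nat_lit 341) (nat_lit 0) (cs (rf (nat_lit 0)) (lf (nat_lit 4) (nat_lit 341)))))) q27959 (by decide +kernel)
def q27966 : Q := Q.p (nat_lit 0x3c0000000000200000800000000000000000000000000000000000000000000000000000000000000000000) (nat_lit 0x38000400000300000400000000000000000000000000000000000000000000000000000000000000000000000000) (nat_lit 4)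
theorem c27966 : QOK q27966 := cut [q27962] ⟨c27962, trivial⟩ (nd (nat_lit 364) (nat_lit 0) (cs (nd (nat_lit 320) (nat_lit 0) (cs (rf (nat_lit 0)) (lf (nat_lit 45) (nat_lit 275)))) (lf (nat_lit 11) (nat_lit 341)))) q27966 (by decide +kernel)
def q27991 : Q := Q.p (nat_lit 0x1c0000400000000000000000000000000000000000000000000000000000000000000000000000000000000) (nat_lit 0x20003a00000000000000000000000000000000000000000000000000000000000000000000000000000000) (nat_lit 3)
theorem c27991 : QOK q27991 := cut [q27990] ⟨c27990, trivial⟩ (nd (nat_lit 323) (nat_lit 0) (cs (lf (nat_lit 12) (nat_lit 319)) (rf (nat_lit 0)))) q27991 (by decide +kernel)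
def q27995 : Q := Q.p (nat_lit 0x1e0000000000200000800000000000000000000000000000000000000000000000000000000000000000000) (nat_lit 0xe000010000060000100000000000000000000000000000000000000000000000000000000000000000000000000) (nat_lit 4)
theorem c27995 : QOK q27995 := cut [q27993] ⟨c27993, trivial⟩ (nd (nat_lit 362) (nat_lit 0) (cs (lf (nat_lit 10) (nat_lit 340)) (nd (nat_lit 340) (nat_lit 0) (cs (lf (nat_lit 11) (nat_lit 339)) (rf (nat_lit 0)))))) q27995 (by decide +kernel)
def q28001 : Q := Q.p (nat_lit 0x180000400001000000000000000000000000000000000000000000000000000000000000000000000000000) (nat_lit 0x2000000000020000000000c000030000080000000000000000000000000000000000000000000000000000000000) (nat_lit 4)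
theorem c28001 : QOK q28001 := cut [q28000] ⟨c28000, trivial⟩ (nd (nat_lit 278) (nat_lit 0) (cs (lf (nat_lit 41) (nat_lit 277)) (rf (nat_lit 0)))) q28001 (by decide +kernel)
def q28010 : Q := Q.p (nat_lit 0x500000600000000000000000000000000000000000000000000000000000000000000000000000000) (nat_lit 0xa00000980000000000000000000000000000000000000000000000000000000000000000000000000) (nat_lit 3)
theorem c28010 : QOK q28010 := cut [q28009] ⟨c28009, trivial⟩ (nd (nat_lit 321) (nat_lit 0) (cs (lf (nat_lit 18) (nat_lit 297)) (rf (nat_lit 0)))) q28010 (by decide +kernel)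
def q28016 : Q := Q.p (nat_lit 0x20000180000400000000000000000000000000000000000000000000000000000000000000000000000000000000) (nat_lit 0x2000008000000000000000200001000004000000000000000000000000000000000000000000000000000000000000000000000) (nat_lit 3)
theorem c28016 : QOK q28016 := cut [q28015] ⟨c28015, trivial⟩ (nd (nat_lit 300) (nat_lit 0) (cs (lf (nat_lit 36) (nat_lit 277)) (rf (nat_lit 0)))) q28016 (by decide +kernel)
def q28023 : Q := Q.p (nat_lit 0x8000020000080000200000000000000000000000000000000000000000000000000000000000000000000000000000000) (nat_lit 0x5000014000050000000000000000800000000000000000000000000000000000000000000000000000000000000000000000000) (nat_lit 4)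
theorem c28023 : QOK q28023 := cut [q13828] ⟨c13828, trivial⟩ (nd (nat_lit 388) (nat_lit 0) (cs (lf (nat_lit 29) (nat_lit 321)) (nd (nat_lit 299) (nat_lit 0) (cs (lf (nat_lit 28) (nat_lit 299)) (rf (nat_lit 0)))))) q28023 (by decide +kernel)
def q28037 : Q := Q.p (nat_lit 0x1c0000800000000000000000000000000000000000000000000000000000000000000000000000000000000) (nat_lit 0x220003400000000000000000000000000000000000000000000000000000000000000000000000000000000) (nat_lit 3)
theorem c28037 : QOK q28037 := cut [q28036] ⟨c28036, trivial⟩ (nd (nat_lit 322) (nat_lit 0) (cs (lf (nat_lit 12) (nat_lit 319)) (rf (nat_lit 0)))) q28037 (by decide +kernel)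
def q28058 : Q := Q.p (nat_lit 0x3c0000000000000000000000000000000000000000000000000000000000000000000000000000000000000) (nat_lit 0x1c000020001c00000000000000000000000000000000000000000000000000000000000000000000000000000000) (nat_lit 4)
theorem c28058 : QOK q28058 := cut [q28056] ⟨c28056, trivial⟩ (nd (nat_lit 363) (nat_lit 0) (cs (lf (nat_lit 10) (nat_lit 341)) (nd (nat_lit 341) (nat_lit 0) (cs (lf (nat_lit 11) (nat_lit 340)) (rf (nat_lit 0)))))) q28058 (by decide +kernel)
def q28093 : Q := Q.p (nat_lit 0x3c0000000000200000800000000000000000000000000000000000000000000000000000000000000000000) (nat_lit 0x100001d8000000001d00007c0001d000060000100000000000000000000000000000000000000000000000000000000000) (nat_lit 10)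
theorem c28093 : QOK q28093 := cut [q28070, q28082] ⟨c28070, c28082, trivial⟩ (nd (nat_lit 364) (nat_lit 0) (cs (lf (nat_lit 11) (nat_lit 341)) (nd (nat_lit 323) (nat_lit 0) (cs (lf (nat_lit 17) (nat_lit 320)) (nd (nat_lit 301) (nat_lit 0) (cs (nd (nat_lit 367) (nat_lit 0) (cs (lf (nat_lit 5) (nat_lit 342)) (rf (nat_lit 0)))) (cs (nd (nat_lit 279) (nat_lit 0) (cs (nd (nat_lit 258) (nat_lit 0) (cs (nd (nat_lit 257) (nat_lit 0) (cs (lf (nat_lit 40) (nat_lit 256)) (lf (nat_lit 35) (nat_lit 235)))) (lf (nat_lit 34) (nat_lit 257)))) (lf (nat_lit 41) (nat_lit 278)))) (cs (nd (nat_lit 367) (nat_lit 0) (cs (lf (nat_lit 5) (nat_lit 342)) (nd (nat_lit 280) (nat_lit 0) (cs (nd (nat_lit 258) (nat_lit 0) (cs (rf (nat_lit 1)) (lf (nat_lit 33) (nat_lit 257)))) (lf (nat_lit 34) (nat_lit 279)))))) (nd (nat_lit 367) (nat_lit 0) (cs (lf (nat_lit 5) (nat_lit 342)) (nd (nat_lit 366) (nat_lit 0) (cs (lf (nat_lit 41) (nat_lit 300)) (nd (nat_lit 280) (nat_lit 0) (cs (rf (nat_lit 1)) (lf (nat_lit 34) (nat_lit 279)))))))))))))))) q28093 (by decide +kernel)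
def q28107 : Q := Q.p (nat_lit 0xc0000000000800002000000000000000000000000000000000000000000000000000000000000000000000) (nat_lit 0x50000100000600000000004000018000040000000000000000000000000000000000000000000000000000000000) (nat_lit 5)
theorem c28107 : QOK q28107 := cut [q14279] ⟨c14279, trivial⟩ (nd (nat_lit 321) (nat_lit 0) (cs (lf (nat_lit 41) (nat_lit 276)) (nd (nat_lit 256) (nat_lit 0) (cs (lf (nat_lit 34) (nat_lit 255)) (nd (nat_lit 255) (nat_lit 0) (cs (lf (nat_lit 35) (nat_lit 233)) (rf (nat_lit 0)))))))) q28107 (by decide +kernel)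
def q28110 : Q := Q.p (nat_lit 0xe00002000000000000000000000000000000000000000000000000000000000000000000000) (nat_lit 0x110001c000000000000000000000000000000000000000000000000000000000000000000000) (nat_lit 3)
theorem c28110 : QOK q28110 := cut [q28109] ⟨c28109, trivial⟩ (nd (nat_lit 278) (nat_lit 0) (cs (lf (nat_lit 12) (nat_lit 274)) (rf (nat_lit 0)))) q28110 (by decide +kernel)
def q28117 : Q := Q.p (nat_lit 0x780000800000000000000000000000000000000000000000000000000000000000000000000) (nat_lit 0x40001380000000000000000000000000000000000000000000000000000000000000000000) (nat_lit 3)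
theorem c28117 : QOK q28117 := cut [q11781] ⟨c11781, trivial⟩ (nd (nat_lit 294) (nat_lit 0) (cs (rf (nat_lit 0)) (lf (nat_lit 17) (nat_lit 272)))) q28117 (by decide +kernel)
def q28124 : Q := Q.p (nat_lit 0x80000000000e00000800000000000000000000000000000000000000000000000000000000000000000000) (nat_lit 0xe700031c001d000010000000000000000000000000000000000000000000000000000000000000000) (nat_lit 7)
theorem c28124 : QOK q28124 := cut [q23396, q28116] ⟨c23396, c28116, trivial⟩ (nd (nat_lit 300) (nat_lit 0) (cs (rf (nat_lit 0)) (cs (rf (nat_lit 1)) (nd (nat_lit 278) (nat_lit 0) (cs (lf (nat_lit 17) (nat_lit 275)) (nd (nat_lit 322) (nat_lit 0) (cs (lf (nat_lit 5) (nat_lit 297)) (nd (nat_lit 321) (nat_lit 0) (cs (lf (nat_lit 36) (nat_lit 255)) (lf (nat_lit 0) (nat_lit 296))))))))))) q28124 (by decide +kernel)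
def q28125 : Q := Q.p (nat_lit 0xc0000c00000000000000000000000000000000000000000000000000000000000000000000000000000000) (nat_lit 0x320003000000000000000000000000000000000000000000000000000000000000000000000000000000000) (nat_lit 3)
theorem c28125 : QOK q28125 := cut [q28036] ⟨c28036, trivial⟩ (nd (nat_lit 344) (nat_lit 0) (cs (lf (nat_lit 12) (nat_lit 319)) (rf (nat_lit 0)))) q28125 (by decide +kernel)
def q28129 : Q := Q.p (nat_lit 0xe00002800002000000000000000000000000000000000000000000000000000000000000000) (nat_lit 0x10000d000001000000000000000000000000000000000000000000000000000000000000000) (nat_lit 3)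
theorem c28129 : QOK q28129 := cut [q28128] ⟨c28128, trivial⟩ (nd (nat_lit 278) (nat_lit 0) (cs (lf (nat_lit 12) (nat_lit 274)) (rf (nat_lit 0)))) q28129 (by decide +kernel)
def q28137 : Q := Q.p (nat_lit 0x140000c0000000000000000000000000000000000000000000000000000000000000000000000000000000000000) (nat_lit 0xa000320000000000000000000000000000000000000000000000000000000000000000000000000000000000000) (nat_lit 3)
theorem c28137 : QOK q28137 := cut [q28135] ⟨c28135, trivial⟩ (nd (nat_lit 363) (nat_lit 0) (cs (rf (nat_lit 0)) (lf (nat_lit 12) (nat_lit 339)))) q28137 (by decide +kernel)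
def q28150 : Q := Q.p (nat_lit 0x2000004000010000040000100000000000000000000000000000000000000000000000000000000000000000000) (nat_lit 0xa00001800002000000000000000000000000000000000000000000000000000000000000000000000000000000000000) (nat_lit 3)
theorem c28150 : QOK q28150 := cut [q28149] ⟨c28149, trivial⟩ (nd (nat_lit 359) (nat_lit 0) (cs (lf (nat_lit 40) (nat_lit 271)) (rf (nat_lit 0)))) q28150 (by decide +kernel)
def q28256 : Q := Q.p (nat_lit 0xc0001000006f00000000000000000000000000000000000000000000000000000000000000000000000000) (nat_lit 0x400003d8000f0000e20000800003e0000e0000280000000000000000000000000000000000000000000000000000000000) (nat_lit 9)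
theorem c28256 : QOK q28256 := cut [q28170, q28227, q28244] ⟨c28170, c28227, c28244, trivial⟩ (nd (nat_lit 346) (nat_lit 0) (cs (nd (nat_lit 279) (nat_lit 0) (cs (rf (nat_lit 0)) (lf (nat_lit 42) (nat_lit 279)))) (cs (nd (nat_lit 280) (nat_lit 0) (cs (nd (nat_lit 277) (nat_lit 0) (cs (lf (nat_lit 17) (nat_lit 274)) (nd (nat_lit 321) (nat_lit 0) (cs (lf (nat_lit 41) (nat_lit 276)) (nd (nat_lit 347) (nat_lit 0) (cs (nd (nat_lit 258) (nat_lit 0) (cs (nd (nat_lit 259) (nat_lit 0) (cs (lf (nat_lit 34) (nat_lit 258)) (lf (nat_lit 35) (nat_lit 236)))) (lf (nat_lit 28) (nat_lit 258)))) (lf (nat_lit 29) (nat_lit 280)))))))) (cs (nd (nat_lit 347) (nat_lit 0) (cs (lf (nat_lit 29) (nat_lit 280)) (nd (nat_lit 258) (nat_lit 0) (cs (lf (nat_lit 28) (nat_lit 258)) (rf (nat_lit 1)))))) (cs (nd (nat_lit 345) (nat_lit 0) (cs (lf (nat_lit 41) (nat_lit 279)) (nd (nat_lit 257) (nat_lit 0) (cs (lf (nat_lit 46) (nat_lit 257)) (nd (nat_lit 344) (nat_lit 0) (cs (lf (nat_lit 17) (nat_lit 321)) (nd (nat_lit 364) (nat_lit 0) (cs (lf (nat_lit 11) (nat_lit 341)) (nd (nat_lit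 277) (nat_lit 0) (cs (lf (nat_lit 17) (nat_lit 274)) (lf (nat_lit 38) (nat_lit 276)))))))))))) (nd (nat_lit 347) (nat_lit 0) (cs (lf (nat_lit 29) (nat_lit 280)) (nd (nat_lit 277) (nat_lit 0) (cs (lf (nat_lit 17) (nat_lit 274)) (nd (nat_lit 321) (nat_lit 0) (cs (lf (nat_lit 41) (nat_lit 276)) (nd (nat_lit 259) (nat_lit 0) (cs (lf (nat_lit 34) (nat_lit 258)) (nd (nat_lit 258) (nat_lit 0) (cs (lf (nat_lit 35) (nat_lit 236)) (rf (nat_lit 1)))))))))))))))) (cs (nd (nat_lit 277) (nat_lit 0) (cs (lf (nat_lit 17) (nat_lit 274)) (nd (nat_lit 321) (nat_lit 0) (cs (lf (nat_lit 41) (nat_lit 276)) (nd (nat_lit 344) (nat_lit 0) (cs (lf (nat_lit 29) (nat_lit 277)) (nd (nat_lit 325) (nat_lit 0) (cs (lf (nat_lit 14) (nat_lit 321)) (nd (nat_lit 326) (nat_lit 0) (cs (lf (nat_lit 18) (nat_lit 301)) (rf (nat_lit 2)))))))))))) (nd (nat_lit 277) (nat_lit 0) (cs (lf (nat_lit 17) (nat_lit 274)) (nd (nat_lit 321) (nat_lit 0) (cs (lf (nat_lit 41) (nat_lit 276)) (nd (nat_lit 344) (nat_lit 0) (cs (lf (nat_lit 29) (nat_lit 277)) (nd (nat_lit 345) (nat_lit 0) (cs (lf (nat_lit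 17) (nat_lit 321)) (nd (nat_lit 367) (nat_lit 0) (cs (lf (nat_lit 5) (nat_lit 342)) (lf (nat_lit 36) (nat_lit 279)))))))))))))))) q28256 (by decide +kernel)
def q28270 : Q := Q.p (nat_lit 0x3c0001000000000000000000000000000000000000000000000000000000000000000000000000000000000) (nat_lit 0x380000400002000000000000000000000000000000000000000000000000000000000000000000000000000000000) (nat_lit 3)
theorem c28270 : QOK q28270 := cut [q28269] ⟨c28269, trivial⟩ (nd (nat_lit 368) (nat_lit 0) (cs (lf (nat_lit 4) (nat_lit 342)) (rf (nat_lit 0)))) q28270 (by decide +kernel)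
def q28278 : Q := Q.p (nat_lit 0x780000000000000000000000000000000000000000000000000000000000000000000000000) (nat_lit 0x38000040000380000000000000000000000000000000000000000000000000000000000000000000) (nat_lit 4)
theorem c28278 : QOK q28278 := cut [q11781] ⟨c11781, trivial⟩ (nd (nat_lit 316) (nat_lit 0) (cs (lf (nat_lit 10) (nat_lit 294)) (nd (nat_lit 294) (nat_lit 0) (cs (rf (nat_lit 0)) (lf (nat_lit 11) (nat_lit 293)))))) q28278 (by decide +kernel)
def q28298 : Q := Q.p (nat_lit 0xc0000000000e00000800002000000000000000000000000000000000000000000000000000000000000000) (nat_lit 0x50000100001e0000300001f000039000060000100000000000000000000000000000000000000000000000000000) (nat_lit 9)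
theorem c28298 : QOK q28298 := cut [q28109, q28128, q28289, q28294] ⟨c28109, c28128, c28289, c28294, trivial⟩ (nd (nat_lit 277) (nat_lit 0) (cs (nd (nat_lit 278) (nat_lit 0) (cs (rf (nat_lit 0)) (cs (rf (nat_lit 1)) (rf (nat_lit 2))))) (cs (nd (nat_lit 321) (nat_lit 0) (cs (lf (nat_lit 41) (nat_lit 276)) (nd (nat_lit 278) (nat_lit 0) (cs (lf (nat_lit 35) (nat_lit 255)) (rf (nat_lit 1)))))) (nd (nat_lit 321) (nat_lit 0) (cs (lf (nat_lit 41) (nat_lit 276)) (nd (nat_lit 344) (nat_lit 0) (cs (lf (nat_lit 29) (nat_lit 277)) (nd (nat_lit 322) (nat_lit 0) (cs (lf (nat_lit 24) (nat_lit 255)) (rf (nat_lit 3))))))))))) q28298 (by decide +kernel)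
def q28299 : Q := Q.p (nat_lit 0xe00004000000000000000000000000000000000000000000000000000000000000000000000) (nat_lit 0x110001a000000000000000000000000000000000000000000000000000000000000000000000) (nat_lit 3)
theorem c28299 : QOK q28299 := cut [q28109] ⟨c28109, trivial⟩ (nd (nat_lit 277) (nat_lit 0) (cs (lf (nat_lit 12) (nat_lit 274)) (rf (nat_lit 0)))) q28299 (by decide +kernel)
def q28301 : Q := Q.p (nat_lit 0x1e00000800000000000000000000000000000000000000000000000000000000000000000000) (nat_lit 0x1c00002000001000000000000000000000000000000000000000000000000000000000000000000000) (nat_lit 3)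
theorem c28301 : QOK q28301 := cut [q28300] ⟨c28300, trivial⟩ (nd (nat_lit 301) (nat_lit 0) (cs (lf (nat_lit 22) (nat_lit 275)) (rf (nat_lit 0)))) q28301 (by decide +kernel)
def q28303 : Q := Q.p (nat_lit 0xe00004800002000000000000000000000000000000000000000000000000000000000000000) (nat_lit 0x10000b000001000000000000000000000000000000000000000000000000000000000000000) (nat_lit 3)
theorem c28303 : QOK q28303 := cut [q28128] ⟨c28128, trivial⟩ (nd (nat_lit 277) (nat_lit 0) (cs (lf (nat_lit 12) (nat_lit 274)) (rf (nat_lit 0)))) q28303 (by decide +kernel)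
def q28312 : Q := Q.p (nat_lit 0x400001c0000000000000000000000000000000000000000000000000000000000000000000000000000000000000) (nat_lit 0x380000220000000000000000000000000000000000000000000000000000000000000000000000000000000000000) (nat_lit 3)
theorem c28312 : QOK q28312 := cut [q28311] ⟨c28311, trivial⟩ (nd (nat_lit 367) (nat_lit 0) (cs (lf (nat_lit 0) (nat_lit 341)) (rf (nat_lit 0)))) q28312 (by decide +kernel)
def q28316 : Q := Q.p (nat_lit 0x1e0000000000000000000000000000000000000000000000000000000000000000000000000000000000000) (nat_lit 0x1c0000200001c00000000000000000000000000000000000000000000000000000000000000000000000000000000) (nat_lit 4)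
theorem c28316 : QOK q28316 := cut [q28056] ⟨c28056, trivial⟩ (nd (nat_lit 367) (nat_lit 0) (cs (lf (nat_lit 4) (nat_lit 341)) (nd (nat_lit 345) (nat_lit 0) (cs (lf (nat_lit 5) (nat_lit 342)) (rf (nat_lit 0)))))) q28316 (by decide +kernel)
def q28324 : Q := Q.p (nat_lit 0x1c0000400000000000000000000000000000000000000000000000000000000000000000000000000000000) (nat_lit 0x220003800000000000000000000000000000000000000000000000000000000000000000000000000000000) (nat_lit 3)
theorem c28324 : QOK q28324 := cut [q28036] ⟨c28036, trivial⟩ (nd (nat_lit 323) (nat_lit 0) (cs (lf (nat_lit 12) (nat_lit 319)) (rf (nat_lit 0)))) q28324 (by decide +kernel)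
def q28334 : Q := Q.p (nat_lit 0x3c0000000000000000000000000000000000000000000000000000000000000000000000000000000000000) (nat_lit 0x380000400003800000000000000000000000000000000000000000000000000000000000000000000000000000000) (nat_lit 4)
theorem c28334 : QOK q28334 := cut [q28269] ⟨c28269, trivial⟩ (nd (nat_lit 368) (nat_lit 0) (cs (lf (nat_lit 4) (nat_lit 342)) (nd (nat_lit 324) (nat_lit 0) (cs (lf (nat_lit 16) (nat_lit 320)) (rf (nat_lit 0)))))) q28334 (by decide +kernel)
def q28338 : Q := Q.p (nat_lit 0x100001c0000000000000000000000000000000000000000000000000000000000000000000000000000000000000) (nat_lit 0xe000220000000000000000000000000000000000000000000000000000000000000000000000000000000000000) (nat_lit 3)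
theorem c28338 : QOK q28338 := cut [q28337] ⟨c28337, trivial⟩ (nd (nat_lit 363) (nat_lit 0) (cs (lf (nat_lit 6) (nat_lit 341)) (rf (nat_lit 0)))) q28338 (by decide +kernel)
def q28353 : Q := Q.p (nat_lit 0x1e0000000000000000000000000000000000000000000000000000000000000000000000000000000000000) (nat_lit 0x100000c0000010000e00000800002000000000000000000000000000000000000000000000000000000000000000000000) (nat_lit 5)
theorem c28353 : QOK q28353 := cut [q28026] ⟨c28026, trivial⟩ (nd (nat_lit 322) (nat_lit 0) (cs (lf (nat_lit 17) (nat_lit 319)) (nd (nat_lit 321) (nat_lit 0) (cs (lf (nat_lit 12) (nat_lit 318)) (nd (nat_lit 366) (nat_lit 0) (cs (lf (nat_lit 5) (nat_lit 341)) (rf (nat_lit 0)))))))) q28353 (by decide +kernel)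
def q28357 : Q := Q.p (nat_lit 0x3c0000800000000000000000000000000000000000000000000000000000000000000000000000000000000) (nat_lit 0x100001c0000020000000002000008000000000000000000000000000000000000000000000000000000000000000000000) (nat_lit 4)
theorem c28357 : QOK q28357 := cut [q28355] ⟨c28355, trivial⟩ (nd (nat_lit 367) (nat_lit 0) (cs (lf (nat_lit 5) (nat_lit 342)) (nd (nat_lit 366) (nat_lit 0) (cs (lf (nat_lit 0) (nat_lit 341)) (rf (nat_lit 0)))))) q28357 (by decide +kernel)
def q28378 : Q := Q.p (nat_lit 0xa00006000000000000000000000000000000000000000000000000000000000000000000000) (nat_lit 0x1500018000000000000000000000000000000000000000000000000000000000000000000000) (nat_lit 3)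
theorem c28378 : QOK q28378 := cut [q28109] ⟨c28109, trivial⟩ (nd (nat_lit 298) (nat_lit 0) (cs (lf (nat_lit 12) (nat_lit 274)) (rf (nat_lit 0)))) q28378 (by decide +kernel)
def q28386 : Q := Q.p (nat_lit 0x40000100000200004800002000000000000000000000000000000000000000000000000000000000000000) (nat_lit 0x500003000001000000000000000000000000000000000000000000000000000000000000000) (nat_lit 3)
theorem c28386 : QOK q28386 := cut [q28385] ⟨c28385, trivial⟩ (nd (nat_lit 276) (nat_lit 0) (cs (lf (nat_lit 44) (nat_lit 253)) (rf (nat_lit 0)))) q28386 (by decide +kernel)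
def q28411 : Q := Q.p (nat_lit 0x10000040000180000000000000000000000000000000000000000000000000000000000000000000000000000000000000) (nat_lit 0x4000000000020000000000200000800002000000000000000000000000000000000000000000000000000000000000000000000) (nat_lit 3)
theorem c28411 : QOK q28411 := cut [q28409] ⟨c28409, trivial⟩ (nd (nat_lit 321) (nat_lit 0) (cs (rf (nat_lit 0)) (lf (nat_lit 42) (nat_lit 321)))) q28411 (by decide +kernel)
def q28419 : Q := Q.p (nat_lit 0x10000040000100000400000200000000000000000000000000000000000000000000000000000000000000000000000000) (nat_lit 0x200003c0000e000020000000000000000000000000000000000000000000000000000000000000000) (nat_lit 5)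
theorem c28419 : QOK q28419 := cut [q28417] ⟨c28417, trivial⟩ (nd (nat_lit 299) (nat_lit 0) (cs (lf (nat_lit 46) (nat_lit 299)) (nd (nat_lit 300) (nat_lit 0) (cs (lf (nat_lit 47) (nat_lit 277)) (rf (nat_lit 0)))))) q28419 (by decide +kernel)
def q28485 : Q := Q.p (nat_lit 0x8000040000100000400000000000000000000000000000000000000000000000000000000000000000000000000000000) (nat_lit 0x2000000000000000380000e000028000000000000000000000000000000000000000000000000000000000000000) (nat_lit 5)
theorem c28485 : QOK q28485 := cut [q28484] ⟨c28484, trivial⟩ (nd (nat_lit 300) (nat_lit 0) (cs (lf (nat_lit 40) (nat_lit 299)) (rf (nat_lit 0)))) q28485 (by decide +kernel)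
def q28490 : Q := Q.p (nat_lit 0x180000400001000004000000000000000000000000000000000000000000000000000000000000000000000) (nat_lit 0x200000000002000018000020000000000000000000000000000000000000000000000000000000000) (nat_lit 3)
theorem c28490 : QOK q28490 := cut [q28489] ⟨c28489, trivial⟩ (nd (nat_lit 256) (nat_lit 0) (cs (lf (nat_lit 40) (nat_lit 255)) (rf (nat_lit 0)))) q28490 (by decide +kernel)
def q28514 : Q := Q.p (nat_lit 0x10000040000180000000000000000000000000000000000000000000000000000000000000000000000000000000000000) (nat_lit 0x20000380000e000028000020000000000400001000004000000000000000000000000000000000000000000000000000000000000000000000) (nat_lit 6)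
theorem c28514 : QOK q28514 := cut [q28504] ⟨c28504, trivial⟩ (nd (nat_lit 410) (nat_lit 0) (cs (nd (nat_lit 411) (nat_lit 0) (cs (nd (nat_lit 322) (nat_lit 0) (cs (nd (nat_lit 409) (nat_lit 0) (cs (lf (nat_lit 41) (nat_lit 343)) (lf (nat_lit 40) (nat_lit 321)))) (lf (nat_lit 28) (nat_lit 322)))) (lf (nat_lit 29) (nat_lit 344)))) (cs (nd (nat_lit 411) (nat_lit 0) (cs (lf (nat_lit 29) (nat_lit 344)) (nd (nat_lit 322) (nat_lit 0) (cs (lf (nat_lit 28) (nat_lit 322)) (nd (nat_lit 365) (nat_lit 0) (cs (rf (nat_lit 0)) (lf (nat_lit 42) (nat_lit 343)))))))) (nd (nat_lit 432) (nat_lit 0) (cs (nd (nat_lit 431) (nat_lit 0) (cs (lf (nat_lit 41) (nat_lit 365)) (lf (nat_lit 40) (nat_lit 343)))) (lf (nat_lit 46) (nat_lit 343))))))) q28514 (by decide +kernel)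
def q28515 : Q := Q.p (nat_lit 0x10000040000180000000000000000000000000000000000000000000000000000000000000000000000000000000000000) (nat_lit 0x4000000000000000000000600000800002000000000000000000000000000000000000000000000000000000000000000000000) (nat_lit 3)
theorem c28515 : QOK q28515 := cut [q28478] ⟨c28478, trivial⟩ (nd (nat_lit 321) (nat_lit 0) (cs (lf (nat_lit 42) (nat_lit 321)) (rf (nat_lit 0)))) q28515 (by decide +kernel)
def q28530 : Q := Q.p (nat_lit 0x400001c0000000000000000000000000000000000000000000000000000000000000000000000000000000000000) (nat_lit 0xae000030000000000000000000000000000000000000000000000000000000000000000000000000000000000000) (nat_lit 4)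
theorem c28530 : QOK q28530 := cut [q28465] ⟨c28465, trivial⟩ (nd (nat_lit 341) (nat_lit 0) (cs (lf (nat_lit 5) (nat_lit 341)) (nd (nat_lit 362) (nat_lit 0) (cs (lf (nat_lit 10) (nat_lit 340)) (rf (nat_lit 0)))))) q28530 (by decide +kernel)
def q28539 : Q := Q.p (nat_lit 0x40000180000400001000000000000000000000000000000000000000000000000000000000000000000000000000) (nat_lit 0x200000e000038000020000000000200000000000000000000000000000000000000000000000000000000000000000000000000000000) (nat_lit 5)
theorem c28539 : QOK q28539 := cut [q28537] ⟨c28537, trivial⟩ (nd (nat_lit 387) (nat_lit 0) (cs (lf (nat_lit 40) (nat_lit 299)) (nd (nat_lit 388) (nat_lit 0) (cs (lf (nat_lit 41) (nat_lit 321)) (rf (nat_lit 0)))))) q28539 (by decide +kernel)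
def q28546 : Q := Q.p (nat_lit 0x40000100000400001200000000000000000000000000000000000000000000000000000000000000000000000000) (nat_lit 0x10000000000000000a00000d00002000000000000000000000000000000000000000000000000000000000000000000000) (nat_lit 4)
theorem c28546 : QOK q28546 := cut [q28544] ⟨c28544, trivial⟩ (nd (nat_lit 299) (nat_lit 0) (cs (lf (nat_lit 47) (nat_lit 277)) (nd (nat_lit 321) (nat_lit 0) (cs (lf (nat_lit 42) (nat_lit 299)) (rf (nat_lit 0)))))) q28546 (by decide +kernel)
def q28559 : Q := Q.p (nat_lit 0x100000400001200004800002000000000000000000000000000000000000000000000000000000000000000) (nat_lit 0x100003000009000000000000000000000000000000000000000000000000000000000000000) (nat_lit 3)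
theorem c28559 : QOK q28559 := cut [q28377] ⟨c28377, trivial⟩ (nd (nat_lit 277) (nat_lit 0) (cs (rf (nat_lit 0)) (lf (nat_lit 47) (nat_lit 255)))) q28559 (by decide +kernel)
def q28571 : Q := Q.p (nat_lit 0x10000000000e00003800000000000000000000000000000000000000000000000000000000000000000000) (nat_lit 0x4000000000060000180000000000000000000000000000000000000000000000000000000000000000000000000) (nat_lit 3)
theorem c28571 : QOK q28571 := cut [q28570] ⟨c28570, trivial⟩ (nd (nat_lit 296) (nat_lit 0) (cs (lf (nat_lit 12) (nat_lit 273)) (rf (nat_lit 0)))) q28571 (by decide +kernel)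
def q28578 : Q := Q.p (nat_lit 0x200001d0000000000000000000000000000000000000000000000000000000000000000000000000000000000000) (nat_lit 0x4e000020000000000000000000000000000000000000000000000000000000000000000000000000000000000000) (nat_lit 3)
theorem c28578 : QOK q28578 := cut [q15027] ⟨c15027, trivial⟩ (nd (nat_lit 341) (nat_lit 0) (cs (lf (nat_lit 5) (nat_lit 340)) (rf (nat_lit 0)))) q28578 (by decide +kernel)
def q28594 : Q := Q.p (nat_lit 0x80000200000a00002800002000000000000000000000000000000000000000000000000000000000000000) (nat_lit 0x100005000011000000000000000000000000000000000000000000000000000000000000000) (nat_lit 3)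
theorem c28594 : QOK q28594 := cut [q28377] ⟨c28377, trivial⟩ (nd (nat_lit 278) (nat_lit 0) (cs (lf (nat_lit 35) (nat_lit 255)) (rf (nat_lit 0)))) q28594 (by decide +kernel)
def q28616 : Q := Q.p (nat_lit 0x1000004000010000000000200000800000000000000000000000000000000000000000000000000000000000000000000) (nat_lit 0x200000c00002000000000008000060000180000000000000000000000000000000000000000000000000000000000000000000000000) (nat_lit 5)
theorem c28616 : QOK q28616 := cut [q28615] ⟨c28615, trivial⟩ (nd (nat_lit 318) (nat_lit 0) (cs (lf (nat_lit 33) (nat_lit 274)) (rf (nat_lit 0)))) q28616 (by decide +kernel)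
def q28622 : Q := Q.p (nat_lit 0x1000004000010000000000200000800000000000000000000000000000000000000000000000000000000000000000000) (nat_lit 0x80000600000800000000008000060000180000000000000000000000000000000000000000000000000000000000000000000000000) (nat_lit 5)
theorem c28622 : QOK q28622 := cut [q28621] ⟨c28621, trivial⟩ (nd (nat_lit 318) (nat_lit 0) (cs (lf (nat_lit 33) (nat_lit 274)) (rf (nat_lit 0)))) q28622 (by decide +kernel)
def q28651 : Q := Q.p (nat_lit 0x800003c0000000001200000800002000000000000000000000000000000000000000000000000000000000000000) (nat_lit 0x20000000000000001f00000c00001000000000000000000000000000000000000000000000000000000000000000000000) (nat_lit 5)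
theorem c28651 : QOK q28651 := cut [q28638] ⟨c28638, trivial⟩ (nd (nat_lit 323) (nat_lit 0) (cs (lf (nat_lit 17) (nat_lit 320)) (nd (nat_lit 322) (nat_lit 0) (cs (lf (nat_lit 42) (nat_lit 300)) (rf (nat_lit 0)))))) q28651 (by decide +kernel)
def q28663 : Q := Q.p (nat_lit 0x3c0000000000000000000000000000000000000000000000000000000000000000000000000000000000000) (nat_lit 0x700000c00003f00000000000000000000000000000000000000000000000000000000000000000000000000000000) (nat_lit 6)
theorem c28663 : QOK q28663 := cut [q28661] ⟨c28661, trivial⟩ (nd (nat_lit 324) (nat_lit 0) (cs (lf (nat_lit 16) (nat_lit 320)) (nd (nat_lit 346) (nat_lit 0) (cs (lf (nat_lit 17) (nat_lit 321)) (rf (nat_lit 0)))))) q28663 (by decide +kernel)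
def q28696 : Q := Q.p (nat_lit 0x3c0000400000000000000000000000000000000000000000000000000000000000000000000000000000000) (nat_lit 0x80000200001c0000000000000001000004000000000000000000000000000000000000000000000000000000000000000000000) (nat_lit 4)
theorem c28696 : QOK q28696 := cut [q27974] ⟨c27974, trivial⟩ (nd (nat_lit 367) (nat_lit 0) (cs (lf (nat_lit 5) (nat_lit 342)) (nd (nat_lit 389) (nat_lit 0) (cs (rf (nat_lit 0)) (lf (nat_lit 42) (nat_lit 322)))))) q28696 (by decide +kernel)
def q28708 : Q := Q.p (nat_lit 0x3c0000000000000000000000000000000000000000000000000000000000000000000000000000000000000) (nat_lit 0xee0001c00003f00000000000000000000000000000000000000000000000000000000000000000000000000000000) (nat_lit 8)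
theorem c28708 : QOK q28708 := cut [q28700] ⟨c28700, trivial⟩ (nd (nat_lit 324) (nat_lit 0) (cs (lf (nat_lit 16) (nat_lit 320)) (nd (nat_lit 346) (nat_lit 0) (cs (lf (nat_lit 17) (nat_lit 321)) (nd (nat_lit 321) (nat_lit 0) (cs (lf (nat_lit 23) (nat_lit 320)) (nd (nat_lit 347) (nat_lit 0) (cs (lf (nat_lit 22) (nat_lit 321)) (nd (nat_lit 366) (nat_lit 0) (cs (nd (nat_lit 370) (nat_lit 0) (cs (rf (nat_lit 0)) (lf (nat_lit 4) (nat_lit 344)))) (lf (nat_lit 11) (nat_lit 343)))))))))))) q28708 (by decide +kernel)
def q28712 : Q := Q.p (nat_lit 0x1e0000000000000000000000000000000000000000000000000000000000000000000000000000000000000) (nat_lit 0xee000010000000000000000000000000000000000000000000000000000000000000000000000000000000000000) (nat_lit 4)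
theorem c28712 : QOK q28712 := cut [q25367] ⟨c25367, trivial⟩ (nd (nat_lit 362) (nat_lit 0) (cs (lf (nat_lit 10) (nat_lit 340)) (nd (nat_lit 340) (nat_lit 0) (cs (lf (nat_lit 11) (nat_lit 339)) (rf (nat_lit 0)))))) q28712 (by decide +kernel)
def q28725 : Q := Q.p (nat_lit 0x200000e00000000000000000000000000000000000000000000000000000000000000000000000000) (nat_lit 0x1c00001100000000000000000000000000000000000000000000000000000000000000000000000000) (nat_lit 3)
theorem c28725 : QOK q28725 := cut [q28294] ⟨c28294, trivial⟩ (nd (nat_lit 322) (nat_lit 0) (cs (lf (nat_lit 0) (nat_lit 296)) (rf (nat_lit 0)))) q28725 (by decide +kernel)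
def q28763 : Q := Q.p (nat_lit 0x200000f0000000000000000000000000000000000000000000000000000000000000000000000000000000000000) (nat_lit 0x17000008000000000000000000000000000000000000000000000000000000000000000000000000000000000000) (nat_lit 3)
theorem c28763 : QOK q28763 := cut [q28762] ⟨c28762, trivial⟩ (nd (nat_lit 361) (nat_lit 0) (cs (lf (nat_lit 10) (nat_lit 339)) (rf (nat_lit 0)))) q28763 (by decide +kernel)
def q28773 : Q := Q.p (nat_lit 0xc0000200000e00000000000000000000000000000000000000000000000000000000000000000000000000) (nat_lit 0x1000000000000000100001e000010000000000000000000000000000000000000000000000000000000000000000) (nat_lit 4)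
theorem c28773 : QOK q28773 := cut [q28109] ⟨c28109, trivial⟩ (nd (nat_lit 277) (nat_lit 0) (cs (lf (nat_lit 41) (nat_lit 276)) (nd (nat_lit 278) (nat_lit 0) (cs (lf (nat_lit 35) (nat_lit 255)) (rf (nat_lit 0)))))) q28773 (by decide +kernel)
def q28779 : Q := Q.p (nat_lit 0x80000000000e00001800000000000000000000000000000000000000000000000000000000000000000000) (nat_lit 0x20000000000600000180006000000000000000000000000000000000000000000000000000000000000000000000) (nat_lit 4)
theorem c28779 : QOK q28779 := cut [q16976] ⟨c16976, trivial⟩ (nd (nat_lit 321) (nat_lit 0) (cs (lf (nat_lit 42) (nat_lit 276)) (nd (nat_lit 296) (nat_lit 0) (cs (lf (nat_lit 5) (nat_lit 296)) (rf (nat_lit 0)))))) q28779 (by decide +kernel)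
def q28782 : Q := Q.p (nat_lit 0xe00001800002000000000000000000000000000000000000000000000000000000000000000) (nat_lit 0x310000e000001000000000000000000000000000000000000000000000000000000000000000) (nat_lit 4)
theorem c28782 : QOK q28782 := cut [q28781] ⟨c28781, trivial⟩ (nd (nat_lit 300) (nat_lit 0) (cs (lf (nat_lit 18) (nat_lit 275)) (rf (nat_lit 0)))) q28782 (by decide +kernel)
def q28787 : Q := Q.p (nat_lit 0x300000600000000000000000000000000000000000000000000000000000000000000000000000000) (nat_lit 0xc00000980000000000000000000000000000000000000000000000000000000000000000000000000) (nat_lit 3)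
theorem c28787 : QOK q28787 := cut [q28786] ⟨c28786, trivial⟩ (nd (nat_lit 296) (nat_lit 0) (cs (lf (nat_lit 0) (nat_lit 295)) (rf (nat_lit 0)))) q28787 (by decide +kernel)
def q28903 : Q := Q.p (nat_lit 0xf0000000000000000000000000000000000000000000000000000000000000000000000000000000000000) (nat_lit 0x70000008000070000000000000000000000000000000000000000000000000000000000000000000000000000000) (nat_lit 4)
theorem c28903 : QOK q28903 := cut [q28900] ⟨c28900, trivial⟩ (nd (nat_lit 317) (nat_lit 0) (cs (nd (nat_lit 365) (nat_lit 0) (cs (lf (nat_lit 5) (nat_lit 340)) (rf (nat_lit 0)))) (lf (nat_lit 22) (nat_lit 317)))) q28903 (by decide +kernel)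
def q28909 : Q := Q.p (nat_lit 0x100000c0000200000000000000000000000000000000000000000000000000000000000000000000000000000000) (nat_lit 0x1000004000020000000000000000800002000000000000000000000000000000000000000000000000000000000000000000000) (nat_lit 3)
theorem c28909 : QOK q28909 := cut [q28908] ⟨c28908, trivial⟩ (nd (nat_lit 299) (nat_lit 0) (cs (lf (nat_lit 36) (nat_lit 276)) (rf (nat_lit 0)))) q28909 (by decide +kernel)
def q28914 : Q := Q.p (nat_lit 0x1e0000400000000000000000000000000000000000000000000000000000000000000000000000000000000) (nat_lit 0x80000e0000010000000001000004000000000000000000000000000000000000000000000000000000000000000000000) (nat_lit 4)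
theorem c28914 : QOK q28914 := cut [q28504] ⟨c28504, trivial⟩ (nd (nat_lit 366) (nat_lit 0) (cs (lf (nat_lit 5) (nat_lit 341)) (nd (nat_lit 365) (nat_lit 0) (cs (lf (nat_lit 0) (nat_lit 340)) (rf (nat_lit 0)))))) q28914 (by decide +kernel)
def q28930 : Q := Q.p (nat_lit 0x1e0000400001000000000000000000000000000000000000000000000000000000000000000000000000000) (nat_lit 0xc000000000000000280000e000028000000000000000000000000000000000000000000000000000000000000000) (nat_lit 5)
theorem c28930 : QOK q28930 := cut [q28484] ⟨c28484, trivial⟩ (nd (nat_lit 366) (nat_lit 0) (cs (lf (nat_lit 5) (nat_lit 341)) (rf (nat_lit 0)))) q28930 (by decide +kernel)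
def q28960 : Q := Q.p (nat_lit 0x300000c0000100000000000000000000000000000000000000000000000000000000000000000000000000000000) (nat_lit 0xe0000380000f800040000000000000000000000000000000000000000000000000000000000000000000000000000000000000000000) (nat_lit 5)
theorem c28960 : QOK q28960 := cut [q28947, q28954] ⟨c28947, c28954, trivial⟩ (nd (nat_lit 386) (nat_lit 0) (cs (nd (nat_lit 408) (nat_lit 0) (cs (rf (nat_lit 0)) (lf (nat_lit 30) (nat_lit 342)))) (cs (nd (nat_lit 387) (nat_lit 0) (cs (lf (nat_lit 42) (nat_lit 320)) (rf (nat_lit 1)))) (nd (nat_lit 408) (nat_lit 0) (cs (lf (nat_lit 30) (nat_lit 342)) (nd (nat_lit 409) (nat_lit 0) (cs (lf (nat_lit 28) (nat_lit 320)) (lf (nat_lit 29) (nat_lit 342))))))))) q28960 (by decide +kernel)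
def q28995 : Q := Q.p (nat_lit 0xf0000000000000000000000000000000000000000000000000000000000000000000000000000000000000) (nat_lit 0x7000008000070000000000000000000000000000000000000000000000000000000000000000000000000000000) (nat_lit 4)
theorem c28995 : QOK q28995 := cut [q28993] ⟨c28993, trivial⟩ (nd (nat_lit 361) (nat_lit 0) (cs (lf (nat_lit 10) (nat_lit 339)) (nd (nat_lit 339) (nat_lit 0) (cs (lf (nat_lit 11) (nat_lit 338)) (rf (nat_lit 0)))))) q28995 (by decide +kernel)
def q29000 : Q := Q.p (nat_lit 0x600001e0000000000000000000000000000000000000000000000000000000000000000000000000000000000000) (nat_lit 0x8000000000000000c00001000004000000000000000000000000000000000000000000000000000000000000000000000) (nat_lit 3)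
theorem c29000 : QOK q29000 := cut [q28504] ⟨c28504, trivial⟩ (nd (nat_lit 322) (nat_lit 0) (cs (lf (nat_lit 17) (nat_lit 319)) (rf (nat_lit 0)))) q29000 (by decide +kernel)
def q29091 : Q := Q.p (nat_lit 0x100003c0000000000000000000000000000000000000000000000000000000000000000000000000000000000000) (nat_lit 0x20000400003800000000000000000000000000000000000000000000000000000000000000000000000000000000) (nat_lit 3)
theorem c29091 : QOK q29091 := cut [q29090] ⟨c29090, trivial⟩ (nd (nat_lit 346) (nat_lit 0) (cs (lf (nat_lit 10) (nat_lit 342)) (rf (nat_lit 0)))) q29091 (by decide +kernel)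
def q29136 : Q := Q.p (nat_lit 0xe0000300000200000800000000000000000000000000000000000000000000000000000000000000000000) (nat_lit 0x6000018000060000100000000000000000000000000000000000000000000000000000000000000000000000000) (nat_lit 4)
theorem c29136 : QOK q29136 := cut [q29134] ⟨c29134, trivial⟩ (nd (nat_lit 340) (nat_lit 0) (cs (rf (nat_lit 0)) (lf (nat_lit 12) (nat_lit 317)))) q29136 (by decide +kernel)
def q29140 : Q := Q.p (nat_lit 0xc0000300000200004800002000000000000000000000000000000000000000000000000000000000000000) (nat_lit 0x10000000000000000900003000009000000000000000000000000000000000000000000000000000000000000000) (nat_lit 3)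
theorem c29140 : QOK q29140 := cut [q28377] ⟨c28377, trivial⟩ (nd (nat_lit 277) (nat_lit 0) (cs (rf (nat_lit 0)) (nd (nat_lit 299) (nat_lit 0) (cs (lf (nat_lit 41) (nat_lit 276)) (lf (nat_lit 36) (nat_lit 254)))))) q29140 (by decide +kernel)

end Crest.Agent.H3.Snaky.CR
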