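import Crest.Agent.H3.Snaky.Cert

set_option autoImplicit false
set_option maxRecDepth 100000

namespace Crest.Agent.H3.Snaky.CR

open T

def q33359 : Q := Q.p (nat_lit 0x100000500003c0000000000800000000000000000000000000000) (nat_lit 0x4000020000000000380000000000000000000000000000000000) (nat_lit 3)
theorem c33359 : QOK q33359 := cut [] trivial (nd (nat_lit 140) (nat_lit 0) (cs (lf (nat_lit 23) (nat_lit 139)) (nd (nat_lit 141) (nat_lit 0) (cs (lf (nat_lit 27) (nat_lit 119)) (lf (nat_lit 30) (nat_lit 118)))))) q33359 (by decide +kernel)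
def q33372 : Q := Q.p (nat_lit 0x100001c0000300000000000000000000000000000000000) (nat_lit 0x8000600000000000000000000000000000000000000000) (nat_lit 2)
theorem c33372 : QOK q33372 := cut [] trivial (nd (nat_lit 165) (nat_lit 0) (cs (lf (nat_lit 11) (nat_lit 161)) (lf (nat_lit 18) (nat_lit 140)))) q33372 (by decide +kernel)
def q33385 : Q := Q.p (nat_lit 0x1c0000300000000000000000000000000000000000) (nat_lit 0x600000080000000000000000000000000000000000) (nat_lit 2)
theorem c33385 : QOK q33385 := cut [] trivial (nd (nat_lit 165) (nat_lit 0) (cs (lf (nat_lit 23) (nat_lit 139)) (lf (nat_lit 18) (nat_lit 140)))) q33385 (by decide +kernel)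
def q33403 : Q := Q.p (nat_lit 0x100000c0000300000400000000000000000000000000000) (nat_lit 0x200001800006000000000000000000) (nat_lit 3)
theorem c33403 : QOK q33403 := cut [] trivial (nd (nat_lit 95) (nat_lit 0) (cs (lf (nat_lit 46) (nat_lit 95)) (nd (nat_lit 96) (nat_lit 0) (cs (lf (nat_lit 47) (nat_lit 73)) (lf (nat_lit 24) (nat_lit 74)))))) q33403 (by decide +kernel)
def q33423 : Q := Q.p (nat_lit 0x100000c0000300000400000000000000000000000000000) (nat_lit 0x1800006000008000000000000000000000000000000000000000000000) (nat_lit 3)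
theorem c33423 : QOK q33423 := cut [] trivial (nd (nat_lit 205) (nat_lit 0) (cs (lf (nat_lit 40) (nat_lit 117)) (nd (nat_lit 206) (nat_lit 0) (cs (lf (nat_lit 41) (nat_lit 139)) (lf (nat_lit 30) (nat_lit 140)))))) q33423 (by decide +kernel)
def q33465 : Q := Q.p (nat_lit 0x18000040000100000700000000000000000000000000000000000) (nat_lit 0x20000000000880003000000000000000000000000000000) (nat_lit 3)
theorem c33465 : QOK q33465 := cut [] trivial (nd (nat_lit 120) (nat_lit 0) (cs (lf (nat_lit 40) (nat_lit 119)) (nd (nat_lit 121) (nat_lit 0) (cs (lf (nat_lit 34) (nat_lit 120)) (lf (nat_lit 12) (nat_lit 117)))))) q33465 (by decide +kernel)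
def q33466 : Q := Q.p (nat_lit 0x4000000000040000780000000000000000000000000000000000) (nat_lit 0x10000000000000000300000000000000000000000000000) (nat_lit 2)
theorem c33466 : QOK q33466 := cut [] trivial (nd (nat_lit 117) (nat_lit 0) (cs (lf (nat_lit 23) (nat_lit 116)) (lf (nat_lit 43) (nat_lit 117)))) q33466 (by decide +kernel)
def q33468 : Q := Q.p (nat_lit 0x300000c00001000000000000000000000000000000) (nat_lit 0x80000000000000000000004000010000000000000000000) (nat_lit 2)
theorem c33468 : QOK q33468 := cut [] trivial (nd (nat_lit 98) (nat_lit 0) (cs (lf (nat_lit 24) (nat_lit 76)) (lf (nat_lit 29) (nat_lit 98)))) q33468 (by decide +kernel)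
def q33508 : Q := Q.p (nat_lit 0x10000040000040000700000000000000000000000000000000000) (nat_lit 0x120001800000e00002000008000000000000000000) (nat_lit 5)
theorem c33508 : QOK q33508 := cut [] trivial (nd (nat_lit 119) (nat_lit 0) (cs (lf (nat_lit 44) (nat_lit 119)) (nd (nat_lit 75) (nat_lit 0) (cs (lf (nat_lit 37) (nat_lit 74)) (nd (nat_lit 143) (nat_lit 0) (cs (lf (nat_lit 11) (nat_lit 139)) (nd (nat_lit 118) (nat_lit 0) (cs (lf (nat_lit 18) (nat_lit 118)) (lf (nat_lit 23) (nat_lit 117)))))))))) q33508 (by decide +kernel)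
def q33512 : Q := Q.p (nat_lit 0x10000040000000000f00002000000000000000000000000000000) (nat_lit 0x80000600000000000000000000000000000000000000000) (nat_lit 2)
theorem c33512 : QOK q33512 := cut [] trivial (nd (nat_lit 165) (nat_lit 0) (cs (lf (nat_lit 5) (nat_lit 140)) (lf (nat_lit 39) (nat_lit 120)))) q33512 (by decide +kernel)
def q33517 : Q := Q.p (nat_lit 0x10000040000000000700000000000000000000000000000000000) (nat_lit 0x300000880003800000000000000000000000000000) (nat_lit 4)
theorem c33517 : QOK q33517 := cut [] trivial (nd (nat_lit 164) (nat_lit 0) (cs (lf (nat_lit 47) (nat_lit 119)) (nd (nat_lit 121) (nat_lit 0) (cs (lf (nat_lit 34) (nat_lit 120)) (nd (nat_lit 139) (nat_lit 0) (cs (lf (nat_lit 5) (nat_lit 139)) (lf (nat_lit 16) (nat_lit 117)))))))) q33517 (by decide +kernel)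
def q33524 : Q := Q.p (nat_lit 0x40000100000c000020000000000000000000) (nat_lit 0x10000080000200000000) (nat_lit 2)
theorem c33524 : QOK q33524 := cut [] trivial (nd (nat_lit 55) (nat_lit 0) (cs (lf (nat_lit 36) (nat_lit 32)) (lf (nat_lit 33) (nat_lit 54)))) q33524 (by decide +kernel)
def q33538 : Q := Q.p (nat_lit 0xe000020000000000000000000) (nat_lit 0x110001c0000000000000000000) (nat_lit 3)
theorem c33538 : QOK q33538 := cut [] trivial (nd (nat_lit 78) (nat_lit 0) (cs (nd (nat_lit 79) (nat_lit 0) (cs (lf (nat_lit 15) (nat_lit 75)) (lf (nat_lit 6) (nat_lit 76)))) (lf (nat_lit 12) (nat_lit 74)))) q33538 (by decide +kernel)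
def q33547 : Q := Q.p (nat_lit 0x400001000006000010000000000000000000) (nat_lit 0x98000e0000080000000000000) (nat_lit 4)
theorem c33547 : QOK q33547 := cut [] trivial (nd (nat_lit 77) (nat_lit 0) (cs (lf (nat_lit 35) (nat_lit 54)) (nd (nat_lit 78) (nat_lit 0) (cs (lf (nat_lit 6) (nat_lit 75)) (nd (nat_lit 96) (nat_lit 0) (cs (lf (nat_lit 15) (nat_lit 74)) (lf (nat_lit 12) (nat_lit 73)))))))) q33547 (by decide +kernel)
def q33553 : Q := Q.p (nat_lit 0x40000100000000007800000000000000000000000) (nat_lit 0x80000300000000003000000000000000000) (nat_lit 3)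
theorem c33553 : QOK q33553 := cut [] trivial (nd (nat_lit 73) (nat_lit 0) (cs (nd (nat_lit 117) (nat_lit 0) (cs (lf (nat_lit 27) (nat_lit 73)) (lf (nat_lit 11) (nat_lit 94)))) (lf (nat_lit 23) (nat_lit 72)))) q33553 (by decide +kernel)
def q33572 : Q := Q.p (nat_lit 0x40000500001000003000000000000000000000000) (nat_lit 0xc00004000018000020000080000000) (nat_lit 4)
theorem c33572 : QOK q33572 := cut [] trivial (nd (nat_lit 75) (nat_lit 0) (cs (lf (nat_lit 32) (nat_lit 74)) (nd (nat_lit 53) (nat_lit 0) (cs (nd (nat_lit 98) (nat_lit 0) (cs (lf (nat_lit 24) (nat_lit 31)) (lf (nat_lit 45) (nat_lit 53)))) (lf (nat_lit 27) (nat_lit 53)))))) q33572 (by decide +kernel)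
def q33579 : Q := Q.p (nat_lit 0x3c00000000000000000000000) (nat_lit 0x1c000020001c000000000000000000) (nat_lit 4)
theorem c33579 : QOK q33579 := cut [] trivial (nd (nat_lit 115) (nat_lit 0) (cs (nd (nat_lit 93) (nat_lit 0) (cs (nd (nat_lit 75) (nat_lit 0) (cs (lf (nat_lit 17) (nat_lit 72)) (lf (nat_lit 16) (nat_lit 71)))) (lf (nat_lit 11) (nat_lit 92)))) (lf (nat_lit 10) (nat_lit 93)))) q33579 (by decide +kernel)
def q33587 : Q := Q.p (nat_lit 0x1000006000010000020000000000000) (nat_lit 0x8000000000000000c0000380000800) (nat_lit 4)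
theorem c33587 : QOK q33587 := cut [] trivial (nd (nat_lit 54) (nat_lit 0) (cs (lf (nat_lit 47) (nat_lit 31)) (nd (nat_lit 32) (nat_lit 0) (cs (nd (nat_lit 33) (nat_lit 0) (cs (lf (nat_lit 34) (nat_lit 32)) (lf (nat_lit 35) (nat_lit 10)))) (lf (nat_lit 41) (nat_lit 31)))))) q33587 (by decide +kernel)
def q33596 : Q := Q.p (nat_lit 0x3e00000000000000000000000) (nat_lit 0x1c00000000000000000) (nat_lit 2)
theorem c33596 : QOK q33596 := cut [] trivial (nd (nat_lit 71) (nat_lit 0) (cs (lf (nat_lit 22) (nat_lit 71)) (lf (nat_lit 23) (nat_lit 70)))) q33596 (by decide +kernel)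
def q33616 : Q := Q.p (nat_lit 0x40000100000000003c00000000000000000000000) (nat_lit 0x8000020000420001f8000760000c0000300) (nat_lit 10)
theorem c33616 : QOK q33616 := cut [] trivial (nd (nat_lit 75) (nat_lit 0) (cs (lf (nat_lit 17) (nat_lit 72)) (nd (nat_lit 74) (nat_lit 0) (cs (nd (nat_lit 72) (nat_lit 0) (cs (nd (nat_lit 73) (nat_lit 0) (cs (nd (nat_lit 49) (nat_lit 0) (cs (nd (nat_lit 117) (nat_lit 0) (cs (lf (nat_lit 27) (nat_lit 73)) (nd (nat_lit 30) (nat_lit 0) (cs (nd (nat_lit 53) (nat_lit 0) (cs (nd (nat_lit 31) (nat_lit 0) (cs (lf (nat_lit 47) (nat_lit 8)) (lf (nat_lit 36) (nat_lit 8)))) (lf (nat_lit 17) (nat_lit 50)))) (lf (nat_lit 37) (nat_lit 29)))))) (lf (nat_lit 22) (nat_lit 49)))) (lf (nat_lit 18) (nat_lit 72)))) (lf (nat_lit 23) (nat_lit 71)))) (lf (nat_lit 12) (nat_lit 71)))))) q33616 (by decide +kernel)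
def q33632 : Q := Q.p (nat_lit 0x1f00000000000000000000000) (nat_lit 0xe00000000000000000) (nat_lit 2)
theorem c33632 : QOK q33632 := cut [] trivial (nd (nat_lit 70) (nat_lit 0) (cs (lf (nat_lit 23) (nat_lit 69)) (lf (nat_lit 22) (nat_lit 70)))) q33632 (by decide +kernel)
def q33653 : Q := Q.p (nat_lit 0x40000100000400001000000000000000000000000) (nat_lit 0x8000020000080000000000800006000008000000000000) (nat_lit 4)
theorem c33653 : QOK q33653 := cut [] trivial (nd (nat_lit 73) (nat_lit 0) (cs (lf (nat_lit 46) (nat_lit 73)) (nd (nat_lit 161) (nat_lit 0) (cs (nd (nat_lit 74) (nat_lit 0) (cs (lf (nat_lit 47) (nat_lit 51)) (lf (nat_lit 40) (nat_lit 73)))) (lf (nat_lit 41) (nat_lit 95)))))) q33653 (by decide +kernel)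
def q33659 : Q := Q.p (nat_lit 0x100001e00000000000000000000000000000) (nat_lit 0xc0002000000000000000000000000000000) (nat_lit 2)
theorem c33659 : QOK q33659 := cut [] trivial (nd (nat_lit 139) (nat_lit 0) (cs (lf (nat_lit 11) (nat_lit 116)) (lf (nat_lit 6) (nat_lit 117)))) q33659 (by decide +kernel)
def q33664 : Q := Q.p (nat_lit 0x40000100000600000800000000000000000000000) (nat_lit 0x1000002000008000000000000) (nat_lit 2)
theorem c33664 : QOK q33664 := cut [] trivial (nd (nat_lit 73) (nat_lit 0) (cs (lf (nat_lit 45) (nat_lit 73)) (lf (nat_lit 24) (nat_lit 51)))) q33664 (by decide +kernel)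
def q33669 : Q := Q.p (nat_lit 0x180001c00000000000000000000000000000) (nat_lit 0x60000200000000000000000000000000000) (nat_lit 2)
theorem c33669 : QOK q33669 := cut [] trivial (nd (nat_lit 138) (nat_lit 0) (cs (lf (nat_lit 12) (nat_lit 115)) (lf (nat_lit 9) (nat_lit 116)))) q33669 (by decide +kernel)
def q33673 : Q := Q.p (nat_lit 0x40000100003c00000000000000000000000000000) (nat_lit 0x4000003800008000000000000000000) (nat_lit 3)
theorem c33673 : QOK q33673 := cut [] trivial (nd (nat_lit 96) (nat_lit 0) (cs (lf (nat_lit 23) (nat_lit 95)) (nd (nat_lit 97) (nat_lit 0) (cs (lf (nat_lit 35) (nat_lit 74)) (lf (nat_lit 18) (nat_lit 96)))))) q33673 (by decide +kernel)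
def q33679 : Q := Q.p (nat_lit 0x60000100000400001000000000000000000000000) (nat_lit 0x8000000000200000c000020000000000000) (nat_lit 3)
theorem c33679 : QOK q33679 := cut [] trivial (nd (nat_lit 74) (nat_lit 0) (cs (lf (nat_lit 40) (nat_lit 73)) (nd (nat_lit 75) (nat_lit 0) (cs (lf (nat_lit 35) (nat_lit 52)) (lf (nat_lit 34) (nat_lit 74)))))) q33679 (by decide +kernel)
def q33682 : Q := Q.p (nat_lit 0x1c00001800000000000000000000000) (nat_lit 0x200000600000000000000000000000) (nat_lit 2)
theorem c33682 : QOK q33682 := cut [] trivial (nd (nat_lit 94) (nat_lit 0) (cs (lf (nat_lit 0) (nat_lit 93)) (lf (nat_lit 21) (nat_lit 94)))) q33682 (by decide +kernel)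
def q33710 : Q := Q.p (nat_lit 0x600003800000000000000000000000) (nat_lit 0x10000c000000000000000000000000) (nat_lit 2)
theorem c33710 : QOK q33710 := cut [] trivial (nd (nat_lit 98) (nat_lit 0) (cs (lf (nat_lit 11) (nat_lit 94)) (lf (nat_lit 6) (nat_lit 95)))) q33710 (by decide +kernel)
def q33732 : Q := Q.p (nat_lit 0x40000500001c00001000000000000000000000000) (nat_lit 0x220003e00001c000020000000000000) (nat_lit 6)
theorem c33732 : QOK q33732 := cut [] trivial (nd (nat_lit 75) (nat_lit 0) (cs (lf (nat_lit 34) (nat_lit 74)) (nd (nat_lit 53) (nat_lit 0) (cs (lf (nat_lit 33) (nat_lit 52)) (nd (nat_lit 98) (nat_lit 0) (cs (lf (nat_lit 45) (nat_lit 53)) (nd (nat_lit 99) (nat_lit 0) (cs (lf (nat_lit 12) (nat_lit 95)) (nd (nat_lit 100) (nat_lit 0) (cs (lf (nat_lit 15) (nat_lit 96)) (lf (nat_lit 6) (nat_lit 97)))))))))))) q33732 (by decide +kernel)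
def q33744 : Q := Q.p (nat_lit 0x40000300000f000000000000000000000000) (nat_lit 0x60000080000000000000) (nat_lit 2)
theorem c33744 : QOK q33744 := cut [] trivial (nd (nat_lit 77) (nat_lit 0) (cs (lf (nat_lit 17) (nat_lit 74)) (lf (nat_lit 36) (nat_lit 54)))) q33744 (by decide +kernel)
def q33761 : Q := Q.p (nat_lit 0x40000100000000007800000000000000000000000) (nat_lit 0x400000000003000000000000000000) (nat_lit 2)
theorem c33761 : QOK q33761 := cut [] trivial (nd (nat_lit 73) (nat_lit 0) (cs (lf (nat_lit 23) (nat_lit 72)) (lf (nat_lit 44) (nat_lit 73)))) q33761 (by decide +kernel)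
def q33776 : Q := Q.p (nat_lit 0x60000700000000000000000000000000000000000) (nat_lit 0x18000080000000000000000000000000000000000) (nat_lit 2)
theorem c33776 : QOK q33776 := cut [] trivial (nd (nat_lit 160) (nat_lit 0) (cs (lf (nat_lit 12) (nat_lit 137)) (lf (nat_lit 9) (nat_lit 138)))) q33776 (by decide +kernel)
def q33789 : Q := Q.p (nat_lit 0x40000100000c00001000000000000000000000000) (nat_lit 0x3200000e00002000000000000000000) (nat_lit 4)
theorem c33789 : QOK q33789 := cut [] trivial (nd (nat_lit 95) (nat_lit 0) (cs (lf (nat_lit 47) (nat_lit 73)) (nd (nat_lit 94) (nat_lit 0) (cs (lf (nat_lit 0) (nat_lit 93)) (nd (nat_lit 120) (nat_lit 0) (cs (lf (nat_lit 18) (nat_lit 95)) (lf (nat_lit 21) (nat_lit 94)))))))) q33789 (by decide +kernel)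
def q33791 : Q := Q.p (nat_lit 0x10000040000100000400000800000000000000000000000000000) (nat_lit 0x2000008000020000000000000001000002000000000000000000000000) (nat_lit 3)
theorem c33791 : QOK q33791 := cut [] trivial (nd (nat_lit 207) (nat_lit 0) (cs (lf (nat_lit 41) (nat_lit 141)) (nd (nat_lit 120) (nat_lit 0) (cs (lf (nat_lit 40) (nat_lit 119)) (lf (nat_lit 47) (nat_lit 97)))))) q33791 (by decide +kernel)
def q33796 : Q := Q.p (nat_lit 0x7c0000000000000000000000000000000000) (nat_lit 0x38000000000000000000000000000000000000000) (nat_lit 2)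
theorem c33796 : QOK q33796 := cut [] trivial (nd (nat_lit 160) (nat_lit 0) (cs (lf (nat_lit 11) (nat_lit 137)) (lf (nat_lit 10) (nat_lit 138)))) q33796 (by decide +kernel)
def q33821 : Q := Q.p (nat_lit 0x10000040000100000600008000000000000000000) (nat_lit 0x800007000008000000000000) (nat_lit 3)
theorem c33821 : QOK q33821 := cut [] trivial (nd (nat_lit 73) (nat_lit 0) (cs (lf (nat_lit 34) (nat_lit 72)) (nd (nat_lit 72) (nat_lit 0) (cs (lf (nat_lit 35) (nat_lit 50)) (lf (nat_lit 7) (nat_lit 71)))))) q33821 (by decide +kernel)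
def q33853 : Q := Q.p (nat_lit 0x4000010000040000100000000000000000000000000000) (nat_lit 0x200001800002000000000020000080000200000000000000000000000) (nat_lit 4)
theorem c33853 : QOK q33853 := cut [] trivial (nd (nat_lit 203) (nat_lit 0) (cs (lf (nat_lit 40) (nat_lit 115)) (nd (nat_lit 115) (nat_lit 0) (cs (lf (nat_lit 47) (nat_lit 93)) (nd (nat_lit 204) (nat_lit 0) (cs (lf (nat_lit 41) (nat_lit 137)) (lf (nat_lit 46) (nat_lit 115)))))))) q33853 (by decide +kernel)
def q33866 : Q := Q.p (nat_lit 0x10000040000100000400001000000000000000000) (nat_lit 0x200000800002000000000000) (nat_lit 2)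
theorem c33866 : QOK q33866 := cut [] trivial (nd (nat_lit 71) (nat_lit 0) (cs (lf (nat_lit 47) (nat_lit 49)) (lf (nat_lit 46) (nat_lit 71)))) q33866 (by decide +kernel)
def q33877 : Q := Q.p (nat_lit 0x50000040000100000400000000000000000000000) (nat_lit 0xa000028000030000000000000001000000000000000000) (nat_lit 4)
theorem c33877 : QOK q33877 := cut [] trivial (nd (nat_lit 161) (nat_lit 0) (cs (lf (nat_lit 29) (nat_lit 94)) (nd (nat_lit 159) (nat_lit 0) (cs (lf (nat_lit 41) (nat_lit 93)) (nd (nat_lit 137) (nat_lit 0) (cs (lf (nat_lit 23) (nat_lit 136)) (lf (nat_lit 36) (nat_lit 71)))))))) q33877 (by decide +kernel)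
def q33887 : Q := Q.p (nat_lit 0x50000040000100000400000000000000000000000) (nat_lit 0xf80002c0000380000c0000a00002800000000000000000) (nat_lit 9)
theorem c33887 : QOK q33887 := cut [] trivial (nd (nat_lit 159) (nat_lit 0) (cs (lf (nat_lit 41) (nat_lit 93)) (nd (nat_lit 161) (nat_lit 0) (cs (lf (nat_lit 29) (nat_lit 94)) (nd (nat_lit 136) (nat_lit 0) (cs (lf (nat_lit 22) (nat_lit 136)) (nd (nat_lit 158) (nat_lit 0) (cs (lf (nat_lit 23) (nat_lit 135)) (nd (nat_lit 73) (nat_lit 0) (cs (lf (nat_lit 34) (nat_lit 72)) (nd (nat_lit 180) (nat_lit 0) (cs (lf (nat_lit 11) (nat_lit 157)) (nd (nat_lit 93) (nat_lit 0) (cs (lf (nat_lit 47) (nat_lit 71)) (nd (nat_lit 115) (nat_lit 0) (cs (lf (nat_lit 42) (nat_lit 93)) (lf (nat_lit 33) (nat_lit 92)))))))))))))))))) q33887 (by decide +kernel)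
def q33915 : Q := Q.p (nat_lit 0x60000100000400000000000000000000000) (nat_lit 0x800000000008000000000300000c000020000000) (nat_lit 4)
theorem c33915 : QOK q33915 := cut [] trivial (nd (nat_lit 72) (nat_lit 0) (cs (nd (nat_lit 51) (nat_lit 0) (cs (nd (nat_lit 50) (nat_lit 0) (cs (lf (nat_lit 40) (nat_lit 49)) (lf (nat_lit 35) (nat_lit 28)))) (lf (nat_lit 34) (nat_lit 50)))) (lf (nat_lit 41) (nat_lit 71)))) q33915 (by decide +kernel)
def q33920 : Q := Q.p (nat_lit 0x40000100000600000800000000000000000) (nat_lit 0x80000000000000002000008000000) (nat_lit 2)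
theorem c33920 : QOK q33920 := cut [] trivial (nd (nat_lit 49) (nat_lit 0) (cs (lf (nat_lit 24) (nat_lit 27)) (lf (nat_lit 27) (nat_lit 49)))) q33920 (by decide +kernel)
def q33939 : Q := Q.p (nat_lit 0x10000060000100000400000000000000000000000) (nat_lit 0x20000380000e000020000000000080000000000000000000000000000) (nat_lit 5)
theorem c33939 : QOK q33939 := cut [] trivial (nd (nat_lit 183) (nat_lit 0) (cs (lf (nat_lit 28) (nat_lit 94)) (nd (nat_lit 182) (nat_lit 0) (cs (lf (nat_lit 29) (nat_lit 116)) (nd (nat_lit 204) (nat_lit 0) (cs (lf (nat_lit 47) (nat_lit 115)) (nd (nat_lit 203) (nat_lit 0) (cs (lf (nat_lit 41) (nat_lit 137)) (lf (nat_lit 40) (nat_lit 115)))))))))) q33939 (by decide +kernel)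
def q33973 : Q := Q.p (nat_lit 0x40000100000400001000004000000000000) (nat_lit 0x800002000008000000) (nat_lit 2)
theorem c33973 : QOK q33973 := cut [] trivial (nd (nat_lit 49) (nat_lit 0) (cs (lf (nat_lit 47) (nat_lit 27)) (lf (nat_lit 46) (nat_lit 49)))) q33973 (by decide +kernel)
def q33984 : Q := Q.p (nat_lit 0x10000040000000000500000c00000000000000000000000000000) (nat_lit 0x2000008000020000100000280003000008000000000000000000000000) (nat_lit 5)
theorem c33984 : QOK q33984 := cut [] trivial (nd (nat_lit 164) (nat_lit 0) (cs (lf (nat_lit 46) (nat_lit 119)) (nd (nat_lit 207) (nat_lit 0) (cs (lf (nat_lit 41) (nat_lit 141)) (nd (nat_lit 120) (nat_lit 0) (cs (lf (nat_lit 40) (nat_lit 119)) (nd (nat_lit 121) (nat_lit 0) (cs (lf (nat_lit 35) (nat_lit 98)) (lf (nat_lit 11) (nat_lit 117)))))))))) q33984 (by decide +kernel)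
def q34003 : Q := Q.p (nat_lit 0x180001c00000000000000000000000000000) (nat_lit 0x260000000000000000000000000000000000) (nat_lit 2)
theorem c34003 : QOK q34003 := cut [] trivial (nd (nat_lit 138) (nat_lit 0) (cs (lf (nat_lit 12) (nat_lit 115)) (lf (nat_lit 15) (nat_lit 116)))) q34003 (by decide +kernel)
def q34010 : Q := Q.p (nat_lit 0x40000100000400001c00000000000000000000000000000) (nat_lit 0x220000c000020000000000000000000) (nat_lit 3)
theorem c34010 : QOK q34010 := cut [] trivial (nd (nat_lit 99) (nat_lit 0) (cs (lf (nat_lit 34) (nat_lit 98)) (nd (nat_lit 98) (nat_lit 0) (cs (lf (nat_lit 35) (nat_lit 76)) (lf (nat_lit 12) (nat_lit 95)))))) q34010 (by decide +kernel)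
def q34015 : Q := Q.p (nat_lit 0x40000100000d00003000000000000000000000000) (nat_lit 0x80000e00002000000000000000000) (nat_lit 3)
theorem c34015 : QOK q34015 := cut [] trivial (nd (nat_lit 95) (nat_lit 0) (cs (lf (nat_lit 47) (nat_lit 73)) (nd (nat_lit 94) (nat_lit 0) (cs (lf (nat_lit 0) (nat_lit 93)) (lf (nat_lit 11) (nat_lit 93)))))) q34015 (by decide +kernel)
def q34021 : Q := Q.p (nat_lit 0x10000040000000000400000c00001000004000000000000000000) (nat_lit 0x100000200000000000000000000010000000000000) (nat_lit 2)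
theorem c34021 : QOK q34021 := cut [] trivial (nd (nat_lit 141) (nat_lit 0) (cs (lf (nat_lit 44) (nat_lit 119)) (lf (nat_lit 24) (nat_lit 52)))) q34021 (by decide +kernel)
def q34068 : Q := Q.p (nat_lit 0x20000100000400001000008000000000000000000) (nat_lit 0x80000000000000004000020000000000000) (nat_lit 2)
theorem c34068 : QOK q34068 := cut [] trivial (nd (nat_lit 74) (nat_lit 0) (cs (lf (nat_lit 35) (nat_lit 52)) (lf (nat_lit 40) (nat_lit 73)))) q34068 (by decide +kernel)
def q34075 : Q := Q.p (nat_lit 0x78000000000000000000000000000000000000000) (nat_lit 0x3800004000038000000000000000000000000000000000) (nat_lit 4)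
theorem c34075 : QOK q34075 := cut [] trivial (nd (nat_lit 136) (nat_lit 0) (cs (lf (nat_lit 22) (nat_lit 136)) (nd (nat_lit 180) (nat_lit 0) (cs (lf (nat_lit 10) (nat_lit 158)) (nd (nat_lit 158) (nat_lit 0) (cs (lf (nat_lit 23) (nat_lit 135)) (lf (nat_lit 11) (nat_lit 157)))))))) q34075 (by decide +kernel)
def q34083 : Q := Q.p (nat_lit 0xc000030000180000600000000000000000000000000000) (nat_lit 0x400001c0000700000000000000000000000) (nat_lit 4)
theorem c34083 : QOK q34083 := cut [] trivial (nd (nat_lit 116) (nat_lit 0) (cs (lf (nat_lit 47) (nat_lit 94)) (nd (nat_lit 115) (nat_lit 0) (cs (lf (nat_lit 0) (nat_lit 114)) (nd (nat_lit 93) (nat_lit 0) (cs (lf (nat_lit 23) (nat_lit 92)) (lf (nat_lit 44) (nat_lit 93)))))))) q34083 (by decide +kernel)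
def q34096 : Q := Q.p (nat_lit 0x18000020000080000200000000000000000000000) (nat_lit 0x40000000000400001800004000000000000) (nat_lit 3)
theorem c34096 : QOK q34096 := cut [] trivial (nd (nat_lit 72) (nat_lit 0) (cs (nd (nat_lit 71) (nat_lit 0) (cs (lf (nat_lit 28) (nat_lit 71)) (lf (nat_lit 35) (nat_lit 49)))) (lf (nat_lit 34) (nat_lit 71)))) q34096 (by decide +kernel)
def q34111 : Q := Q.p (nat_lit 0x8000020000080000200000800000000000000000) (nat_lit 0x100000400001000000000000) (nat_lit 2)
theorem c34111 : QOK q34111 := cut [] trivial (nd (nat_lit 70) (nat_lit 0) (cs (lf (nat_lit 47) (nat_lit 48)) (lf (nat_lit 46) (nat_lit 70)))) q34111 (by decide +kernel)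
def q34120 : Q := Q.p (nat_lit 0x38000110000000000000000000000000000000000) (nat_lit 0x4000088000000000000000000000000000000000) (nat_lit 2)
theorem c34120 : QOK q34120 := cut [] trivial (nd (nat_lit 158) (nat_lit 0) (cs (lf (nat_lit 23) (nat_lit 135)) (lf (nat_lit 16) (nat_lit 136)))) q34120 (by decide +kernel)
def q34128 : Q := Q.p (nat_lit 0x60000180000400000800000000000000000000000) (nat_lit 0x1000006000000000000000000) (nat_lit 2)
theorem c34128 : QOK q34128 := cut [] trivial (nd (nat_lit 96) (nat_lit 0) (cs (lf (nat_lit 47) (nat_lit 73)) (lf (nat_lit 36) (nat_lit 73)))) q34128 (by decide +kernel)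
def q34163 : Q := Q.p (nat_lit 0x60000180000600000800000000000000000000000) (nat_lit 0x700001c0000300001c0000700001000000000000000000) (nat_lit 8)
theorem c34163 : QOK q34163 := cut [] trivial (nd (nat_lit 94) (nat_lit 0) (cs (lf (nat_lit 47) (nat_lit 72)) (nd (nat_lit 92) (nat_lit 0) (cs (nd (nat_lit 160) (nat_lit 0) (cs (lf (nat_lit 41) (nat_lit 94)) (nd (nat_lit 159) (nat_lit 0) (cs (lf (nat_lit 12) (nat_lit 136)) (nd (nat_lit 137) (nat_lit 0) (cs (lf (nat_lit 23) (nat_lit 136)) (nd (nat_lit 181) (nat_lit 0) (cs (lf (nat_lit 11) (nat_lit 158)) (nd (nat_lit 115) (nat_lit 0) (cs (lf (nat_lit 34) (nat_lit 93)) (lf (nat_lit 46) (nat_lit 92)))))))))))) (lf (nat_lit 1) (nat_lit 92)))))) q34163 (by decide +kernel)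
def q34189 : Q := Q.p (nat_lit 0xc00003800000000000000000000000) (nat_lit 0x1000000600000000000000000000000) (nat_lit 2)
theorem c34189 : QOK q34189 := cut [] trivial (nd (nat_lit 94) (nat_lit 0) (cs (lf (nat_lit 0) (nat_lit 93)) (lf (nat_lit 5) (nat_lit 94)))) q34189 (by decide +kernel)
def q34210 : Q := Q.p (nat_lit 0x600000c00000000000000000000000) (nat_lit 0x1900000300000000000000000000000) (nat_lit 3)
theorem c34210 : QOK q34210 := cut [] trivial (nd (nat_lit 93) (nat_lit 0) (cs (lf (nat_lit 0) (nat_lit 92)) (nd (nat_lit 119) (nat_lit 0) (cs (lf (nat_lit 18) (nat_lit 94)) (lf (nat_lit 21) (nat_lit 93)))))) q34210 (by decide +kernel)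
def q34239 : Q := Q.p (nat_lit 0x20000080000600001800000000000000000000000) (nat_lit 0x800000700001000000000000000000) (nat_lit 3)
theorem c34239 : QOK q34239 := cut [] trivial (nd (nat_lit 94) (nat_lit 0) (cs (lf (nat_lit 47) (nat_lit 72)) (nd (nat_lit 93) (nat_lit 0) (cs (lf (nat_lit 0) (nat_lit 92)) (lf (nat_lit 5) (nat_lit 93)))))) q34239 (by decide +kernel)
def q34244 : Q := Q.p (nat_lit 0x2000018000060000000000000000000000000000000000) (nat_lit 0x200000800000000000000000000100000000000000000000000000000) (nat_lit 2)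
theorem c34244 : QOK q34244 := cut [] trivial (nd (nat_lit 203) (nat_lit 0) (cs (lf (nat_lit 35) (nat_lit 115)) (lf (nat_lit 30) (nat_lit 137)))) q34244 (by decide +kernel)
def q34262 : Q := Q.p (nat_lit 0x500003000000000000000000000000) (nat_lit 0xa8000c000000000000000000000000) (nat_lit 3)
theorem c34262 : QOK q34262 := cut [] trivial (nd (nat_lit 117) (nat_lit 0) (cs (lf (nat_lit 12) (nat_lit 93)) (nd (nat_lit 98) (nat_lit 0) (cs (lf (nat_lit 6) (nat_lit 95)) (lf (nat_lit 15) (nat_lit 94)))))) q34262 (by decide +kernel)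
def q34279 : Q := Q.p (nat_lit 0x40000100000500003000000000000000000000000) (nat_lit 0x280000c00002000000000000000000) (nat_lit 3)
theorem c34279 : QOK q34279 := cut [] trivial (nd (nat_lit 115) (nat_lit 0) (cs (nd (nat_lit 95) (nat_lit 0) (cs (lf (nat_lit 47) (nat_lit 73)) (lf (nat_lit 9) (nat_lit 93)))) (lf (nat_lit 14) (nat_lit 93)))) q34279 (by decide +kernel)
def q34298 : Q := Q.p (nat_lit 0x40000100000c00002000000000000000000000000) (nat_lit 0x200000000000000008000020000000000000) (nat_lit 2)
theorem c34298 : QOK q34298 := cut [] trivial (nd (nat_lit 75) (nat_lit 0) (cs (lf (nat_lit 36) (nat_lit 52)) (lf (nat_lit 39) (nat_lit 74)))) q34298 (by decide +kernel)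
def q34306 : Q := Q.p (nat_lit 0x60000180000400000000000000000000000000000) (nat_lit 0x2000008000000000000000000001000000000000000000000000) (nat_lit 2)
theorem c34306 : QOK q34306 := cut [] trivial (nd (nat_lit 183) (nat_lit 0) (cs (lf (nat_lit 36) (nat_lit 95)) (lf (nat_lit 30) (nat_lit 117)))) q34306 (by decide +kernel)
def q34325 : Q := Q.p (nat_lit 0x1f000000000000000000000000) (nat_lit 0xe000000000000000000000000000000) (nat_lit 2)
theorem c34325 : QOK q34325 := cut [] trivial (nd (nat_lit 122) (nat_lit 0) (cs (lf (nat_lit 5) (nat_lit 97)) (lf (nat_lit 4) (nat_lit 96)))) q34325 (by decide +kernel)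
def q34343 : Q := Q.p (nat_lit 0x40000000000400000400007000000000000000000000000) (nat_lit 0x100000000007200008000060000080000000000000) (nat_lit 5)
theorem c34343 : QOK q34343 := cut [] trivial (nd (nat_lit 99) (nat_lit 0) (cs (lf (nat_lit 11) (nat_lit 95)) (nd (nat_lit 121) (nat_lit 0) (cs (lf (nat_lit 5) (nat_lit 96)) (nd (nat_lit 77) (nat_lit 0) (cs (lf (nat_lit 17) (nat_lit 74)) (nd (nat_lit 120) (nat_lit 0) (cs (lf (nat_lit 36) (nat_lit 54)) (lf (nat_lit 31) (nat_lit 98)))))))))) q34343 (by decide +kernel)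
def q34352 : Q := Q.p (nat_lit 0x100000400001000004000010000000000000) (nat_lit 0x2000008000020000000) (nat_lit 2)
theorem c34352 : QOK q34352 := cut [] trivial (nd (nat_lit 51) (nat_lit 0) (cs (lf (nat_lit 47) (nat_lit 29)) (lf (nat_lit 46) (nat_lit 51)))) q34352 (by decide +kernel)
def q34394 : Q := Q.p (nat_lit 0xc00001000004000000000000000000) (nat_lit 0x2000000000020000000000300000c0000200) (nat_lit 4)
theorem c34394 : QOK q34394 := cut [] trivial (nd (nat_lit 52) (nat_lit 0) (cs (lf (nat_lit 29) (nat_lit 52)) (nd (nat_lit 31) (nat_lit 0) (cs (nd (nat_lit 30) (nat_lit 0) (cs (lf (nat_lit 28) (nat_lit 30)) (lf (nat_lit 35) (nat_lit 8)))) (lf (nat_lit 34) (nat_lit 30)))))) q34394 (by decide +kernel)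
def q34408 : Q := Q.p (nat_lit 0xf00000000000000000000000000000000000) (nat_lit 0x700000080000700000000000000000000000000000) (nat_lit 4)
theorem c34408 : QOK q34408 := cut [] trivial (nd (nat_lit 117) (nat_lit 0) (cs (lf (nat_lit 22) (nat_lit 117)) (nd (nat_lit 139) (nat_lit 0) (cs (lf (nat_lit 23) (nat_lit 116)) (nd (nat_lit 165) (nat_lit 0) (cs (lf (nat_lit 5) (nat_lit 140)) (lf (nat_lit 4) (nat_lit 139)))))))) q34408 (by decide +kernel)
def q34410 : Q := Q.p (nat_lit 0x300000700000000000000000000000000000000000) (nat_lit 0xc00000800000000000000000000000000000000000) (nat_lit 2)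
theorem c34410 : QOK q34410 := cut [] trivial (nd (nat_lit 166) (nat_lit 0) (cs (lf (nat_lit 18) (nat_lit 141)) (lf (nat_lit 3) (nat_lit 140)))) q34410 (by decide +kernel)
def q34417 : Q := Q.p (nat_lit 0xf00000000000000000000000000000000000) (nat_lit 0xe00001000000e00000000000000000000000000000) (nat_lit 4)
theorem c34417 : QOK q34417 := cut [] trivial (nd (nat_lit 118) (nat_lit 0) (cs (lf (nat_lit 23) (nat_lit 117)) (nd (nat_lit 166) (nat_lit 0) (cs (lf (nat_lit 4) (nat_lit 140)) (nd (nat_lit 144) (nat_lit 0) (cs (lf (nat_lit 5) (nat_lit 141)) (lf (nat_lit 22) (nat_lit 118)))))))) q34417 (by decide +kernel)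
def q34421 : Q := Q.p (nat_lit 0x10000040000040000d00000000000000000000000000000000000) (nat_lit 0x120000200006000000000000000000000000000000) (nat_lit 3)
theorem c34421 : QOK q34421 := cut [] trivial (nd (nat_lit 121) (nat_lit 0) (cs (lf (nat_lit 32) (nat_lit 120)) (nd (nat_lit 141) (nat_lit 0) (cs (lf (nat_lit 11) (nat_lit 139)) (lf (nat_lit 17) (nat_lit 118)))))) q34421 (by decide +kernel)
def q34429 : Q := Q.p (nat_lit 0x1200000c000020000080000000000000000000000000000000000) (nat_lit 0x100000c000000000000000000000000000000000000000000000000000) (nat_lit 2)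
theorem c34429 : QOK q34429 := cut [] trivial (nd (nat_lit 206) (nat_lit 0) (cs (lf (nat_lit 29) (nat_lit 139)) (lf (nat_lit 19) (nat_lit 182)))) q34429 (by decide +kernel)
def q34441 : Q := Q.p (nat_lit 0x780000000000000000000000000000000000) (nat_lit 0x40003b80000000000000000000000000000) (nat_lit 4)
theorem c34441 : QOK q34441 := cut [] trivial (nd (nat_lit 116) (nat_lit 0) (cs (lf (nat_lit 22) (nat_lit 116)) (nd (nat_lit 120) (nat_lit 0) (cs (lf (nat_lit 17) (nat_lit 117)) (nd (nat_lit 138) (nat_lit 0) (cs (lf (nat_lit 23) (nat_lit 115)) (lf (nat_lit 16) (nat_lit 116)))))))) q34441 (by decide +kernel)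
def q34468 : Q := Q.p (nat_lit 0x16000040000040000100000000000000000000000000000000000) (nat_lit 0xc0000800008c000020000000000000000000000000000000000000000) (nat_lit 4)
theorem c34468 : QOK q34468 := cut [] trivial (nd (nat_lit 207) (nat_lit 0) (cs (lf (nat_lit 17) (nat_lit 183)) (nd (nat_lit 183) (nat_lit 0) (cs (lf (nat_lit 23) (nat_lit 182)) (nd (nat_lit 227) (nat_lit 0) (cs (lf (nat_lit 11) (nat_lit 204)) (lf (nat_lit 33) (nat_lit 139)))))))) q34468 (by decide +kernel)
def q34481 : Q := Q.p (nat_lit 0x80000600001800000000000000000000000000000000000000000000000000) (nat_lit 0x8000020000000000000000000004000000000000000000000000000000000000000000000) (nat_lit 2)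
theorem c34481 : QOK q34481 := cut [] trivial (nd (nat_lit 269) (nat_lit 0) (cs (lf (nat_lit 30) (nat_lit 203)) (lf (nat_lit 35) (nat_lit 181)))) q34481 (by decide +kernel)
def q34492 : Q := Q.p (nat_lit 0x20000080000200001800000000000000000000000000000000000000000000000000) (nat_lit 0x4000018000040000000000400000000000000000000000000000000000000000000000000000000) (nat_lit 3)
theorem c34492 : QOK q34492 := cut [] trivial (nd (nat_lit 292) (nat_lit 0) (cs (nd (nat_lit 291) (nat_lit 0) (cs (lf (nat_lit 29) (nat_lit 225)) (lf (nat_lit 34) (nat_lit 203)))) (lf (nat_lit 28) (nat_lit 203)))) q34492 (by decide +kernel)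
def q34501 : Q := Q.p (nat_lit 0x200000800002000078000000000000000000000000000000000000000) (nat_lit 0x4000030000000000000000000000000000000000) (nat_lit 2)
theorem c34501 : QOK q34501 := cut [] trivial (nd (nat_lit 136) (nat_lit 0) (cs (lf (nat_lit 22) (nat_lit 136)) (lf (nat_lit 46) (nat_lit 136)))) q34501 (by decide +kernel)
def q34562 : Q := Q.p (nat_lit 0x1f00000000000000000000000000000000000) (nat_lit 0xe00000000000000000000000000000000000000000) (nat_lit 2)
theorem c34562 : QOK q34562 := cut [] trivial (nd (nat_lit 166) (nat_lit 0) (cs (lf (nat_lit 4) (nat_lit 140)) (lf (nat_lit 5) (nat_lit 141)))) q34562 (by decide +kernel)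
def q34581 : Q := Q.p (nat_lit 0x16000040000040000100000000000000000000000000000000000) (nat_lit 0x2800008000090000000000000000000000000000000000000000000000) (nat_lit 3)
theorem c34581 : QOK q34581 := cut [] trivial (nd (nat_lit 207) (nat_lit 0) (cs (lf (nat_lit 17) (nat_lit 183)) (nd (nat_lit 184) (nat_lit 0) (cs (lf (nat_lit 29) (nat_lit 140)) (lf (nat_lit 41) (nat_lit 139)))))) q34581 (by decide +kernel)
def q34628 : Q := Q.p (nat_lit 0x1000004000010000040000100000000000000000000000000000000000) (nat_lit 0x800002000008000000000000000000000000000000000000000000000000000) (nat_lit 2)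
theorem c34628 : QOK q34628 := cut [] trivial (nd (nat_lit 229) (nat_lit 0) (cs (lf (nat_lit 29) (nat_lit 162)) (lf (nat_lit 28) (nat_lit 140)))) q34628 (by decide +kernel)
def q34633 : Q := Q.p (nat_lit 0x2000010000040000100000000000000000000000000000000000) (nat_lit 0x200000800000000008000020000000000400000000000000000000000000000) (nat_lit 3)
theorem c34633 : QOK q34633 := cut [] trivial (nd (nat_lit 183) (nat_lit 0) (cs (lf (nat_lit 36) (nat_lit 117)) (nd (nat_lit 227) (nat_lit 0) (cs (lf (nat_lit 30) (nat_lit 161)) (lf (nat_lit 33) (nat_lit 139)))))) q34633 (by decide +kernel)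
def q34635 : Q := Q.p (nat_lit 0x2000050000040000100000400000000000000000000000000000) (nat_lit 0xc0000a0000020000000000000000000000000000000000000000) (nat_lit 3)
theorem c34635 : QOK q34635 := cut [] trivial (nd (nat_lit 185) (nat_lit 0) (cs (lf (nat_lit 29) (nat_lit 118)) (nd (nat_lit 187) (nat_lit 0) (cs (lf (nat_lit 23) (nat_lit 161)) (lf (nat_lit 10) (nat_lit 183)))))) q34635 (by decide +kernel)
def q34651 : Q := Q.p (nat_lit 0x70000200000000000000000000000000000000000000000) (nat_lit 0x88000d00000000000000000000000000000000000000000) (nat_lit 3)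
theorem c34651 : QOK q34651 := cut [] trivial (nd (nat_lit 166) (nat_lit 0) (cs (lf (nat_lit 15) (nat_lit 162)) (nd (nat_lit 164) (nat_lit 0) (cs (lf (nat_lit 6) (nat_lit 163)) (lf (nat_lit 12) (nat_lit 161)))))) q34651 (by decide +kernel)
def q34689 : Q := Q.p (nat_lit 0x10000050000040000100000400000000000000000000000000000) (nat_lit 0xa0000a800070000080000720000f80007a000000000000000000) (nat_lit 11)
theorem c34689 : QOK q34689 := cut [] trivial (nd (nat_lit 185) (nat_lit 0) (cs (lf (nat_lit 29) (nat_lit 118)) (nd (nat_lit 183) (nat_lit 0) (cs (lf (nat_lit 41) (nat_lit 117)) (nd (nat_lit 165) (nat_lit 0) (cs (lf (nat_lit 16) (nat_lit 161)) (nd (nat_lit 95) (nat_lit 0) (cs (lf (nat_lit 46) (nat_lit 95)) (nd (nat_lit 121) (nat_lit 0) (cs (nd (nat_lit 187) (nat_lit 0) (cs (lf (nat_lit 37) (nat_lit 120)) (lf (nat_lit 17) (nat_lit 162)))) (nd (nat_lit 96) (nat_lit 0) (cs (lf (nat_lit 47) (nat_lit 73)) (nd (nat_lit 97) (nat_lit 0) (cs (lf (nat_lit 35) (nat_lit 74)) (nd (nat_lit 98) (nat_lit 0) (cs (nd (nat_lit 99)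 (nat_lit 0) (cs (lf (nat_lit 5) (nat_lit 96)) (nd (nat_lit 77) (nat_lit 0) (cs (lf (nat_lit 17) (nat_lit 74)) (lf (nat_lit 16) (nat_lit 73)))))) (lf (nat_lit 4) (nat_lit 95)))))))))))))))))) q34689 (by decide +kernel)
def q34691 : Q := Q.p (nat_lit 0x10000040000100000500000c00000000000000000000000000000) (nat_lit 0x880003000008000000000000000000000000) (nat_lit 3)
theorem c34691 : QOK q34691 := cut [] trivial (nd (nat_lit 121) (nat_lit 0) (cs (lf (nat_lit 34) (nat_lit 120)) (nd (nat_lit 120) (nat_lit 0) (cs (lf (nat_lit 35) (nat_lit 98)) (lf (nat_lit 11) (nat_lit 117)))))) q34691 (by decide +kernel)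
def q34730 : Q := Q.p (nat_lit 0x10000040000100000400000000000000000000000000000) (nat_lit 0x800006000008000000000080000200000800000000000000000000000) (nat_lit 4)
theorem c34730 : QOK q34730 := cut [] trivial (nd (nat_lit 205) (nat_lit 0) (cs (lf (nat_lit 40) (nat_lit 117)) (nd (nat_lit 117) (nat_lit 0) (cs (lf (nat_lit 47) (nat_lit 95)) (nd (nat_lit 206) (nat_lit 0) (cs (lf (nat_lit 41) (nat_lit 139)) (lf (nat_lit 46) (nat_lit 117)))))))) q34730 (by decide +kernel)
def q34732 : Q := Q.p (nat_lit 0x4000010000040000100000400000000000000000000000000000) (nat_lit 0x2000008000020000000000000000000000000000000000000000000000) (nat_lit 2)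
theorem c34732 : QOK q34732 := cut [] trivial (nd (nat_lit 207) (nat_lit 0) (cs (lf (nat_lit 29) (nat_lit 140)) (lf (nat_lit 28) (nat_lit 118)))) q34732 (by decide +kernel)
def q34745 : Q := Q.p (nat_lit 0x58000060000100000400000000000000000000000000000) (nat_lit 0x8000020000010000000000000000000000000000000000000000) (nat_lit 2)
theorem c34745 : QOK q34745 := cut [] trivial (nd (nat_lit 185) (nat_lit 0) (cs (lf (nat_lit 23) (nat_lit 160)) (lf (nat_lit 29) (nat_lit 118)))) q34745 (by decide +kernel)
def q34761 : Q := Q.p (nat_lit 0x1c000050000040000100000400000000000000000000000000000) (nat_lit 0x2000088000000000000000000000000000000000000000000000) (nat_lit 2)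
theorem c34761 : QOK q34761 := cut [] trivial (nd (nat_lit 205) (nat_lit 0) (cs (lf (nat_lit 17) (nat_lit 183)) (lf (nat_lit 40) (nat_lit 117)))) q34761 (by decide +kernel)
def q34778 : Q := Q.p (nat_lit 0x10000040000040000300000c00000000000000000000000000000) (nat_lit 0x120001c00000000000000000000000000000000000) (nat_lit 3)
theorem c34778 : QOK q34778 := cut [] trivial (nd (nat_lit 142) (nat_lit 0) (cs (lf (nat_lit 44) (nat_lit 119)) (nd (nat_lit 143) (nat_lit 0) (cs (lf (nat_lit 11) (nat_lit 139)) (lf (nat_lit 18) (nat_lit 118)))))) q34778 (by decide +kernel)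
def q34789 : Q := Q.p (nat_lit 0x50000060000100000400000000000000000000000000000) (nat_lit 0x80000a0000000000000000000000000000000000000000000000) (nat_lit 2)
theorem c34789 : QOK q34789 := cut [] trivial (nd (nat_lit 185) (nat_lit 0) (cs (lf (nat_lit 18) (nat_lit 161)) (lf (nat_lit 29) (nat_lit 118)))) q34789 (by decide +kernel)
def q34803 : Q := Q.p (nat_lit 0x50000040000100000400000000000000000000000000000) (nat_lit 0x80000a8000030000000000000001000000000000000000000000) (nat_lit 4)
theorem c34803 : QOK q34803 := cut [] trivial (nd (nat_lit 185) (nat_lit 0) (cs (lf (nat_lit 29) (nat_lit 118)) (nd (nat_lit 161) (nat_lit 0) (cs (lf (nat_lit 18) (nat_lit 161)) (nd (nat_lit 183) (nat_lit 0) (cs (lf (nat_lit 23) (nat_lit 160)) (lf (nat_lit 36) (nat_lit 95)))))))) q34803 (by decide +kernel)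
def q34805 : Q := Q.p (nat_lit 0x70000300000000000000000000000000000000000) (nat_lit 0xc80000000000000000000000000000000000) (nat_lit 2)
theorem c34805 : QOK q34805 := cut [] trivial (nd (nat_lit 142) (nat_lit 0) (cs (lf (nat_lit 6) (nat_lit 139)) (lf (nat_lit 9) (nat_lit 138)))) q34805 (by decide +kernel)
def q34833 : Q := Q.p (nat_lit 0x50000040000100000400000000000000000000000000000) (nat_lit 0x10000040000a8000038000680000a00001800006000000000000000000) (nat_lit 9)
theorem c34833 : QOK q34833 := cut [] trivial (nd (nat_lit 95) (nat_lit 0) (cs (lf (nat_lit 46) (nat_lit 95)) (nd (nat_lit 96) (nat_lit 0) (cs (lf (nat_lit 47) (nat_lit 73)) (nd (nat_lit 161) (nat_lit 0) (cs (lf (nat_lit 41) (nat_lit 95)) (nd (nat_lit 185) (nat_lit 0) (cs (lf (nat_lit 18) (nat_lit 161)) (nd (nat_lit 160) (nat_lit 0) (cs (lf (nat_lit 0) (nat_lit 159)) (nd (nat_lit 139) (nat_lit 0) (cs (lf (nat_lit 36) (nat_lit 73)) (nd (nat_lit 141) (nat_lit 0) (cs (lf (nat_lit 6) (nat_lit 138)) (nd (nat_lit 206) (nat_lit 0) (cs (lf (nat_lit 35)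 (nat_lit 118)) (lf (nat_lit 42) (nat_lit 139)))))))))))))))))) q34833 (by decide +kernel)
def q34841 : Q := Q.p (nat_lit 0x40000100000400002000000000000000000000000) (nat_lit 0x200000800001000008000020000000000000) (nat_lit 3)
theorem c34841 : QOK q34841 := cut [] trivial (nd (nat_lit 75) (nat_lit 0) (cs (lf (nat_lit 33) (nat_lit 74)) (nd (nat_lit 119) (nat_lit 0) (cs (lf (nat_lit 36) (nat_lit 52)) (lf (nat_lit 39) (nat_lit 74)))))) q34841 (by decide +kernel)
def q34875 : Q := Q.p (nat_lit 0x40000100000400001000000000000000000000000) (nat_lit 0x2000008000020000200000e000038000020000000) (nat_lit 6)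
theorem c34875 : QOK q34875 := cut [] trivial (nd (nat_lit 75) (nat_lit 0) (cs (lf (nat_lit 34) (nat_lit 74)) (nd (nat_lit 74) (nat_lit 0) (cs (lf (nat_lit 35) (nat_lit 52)) (nd (nat_lit 51) (nat_lit 0) (cs (lf (nat_lit 46) (nat_lit 51)) (nd (nat_lit 139) (nat_lit 0) (cs (nd (nat_lit 52) (nat_lit 0) (cs (lf (nat_lit 47) (nat_lit 29)) (lf (nat_lit 40) (nat_lit 51)))) (lf (nat_lit 41) (nat_lit 73)))))))))) q34875 (by decide +kernel)
def q34881 : Q := Q.p (nat_lit 0x40000100000400001000000000000000000000000) (nat_lit 0x400001000002000008000020000280000c000030000000000000) (nat_lit 6)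
theorem c34881 : QOK q34881 := cut [] trivial (nd (nat_lit 75) (nat_lit 0) (cs (lf (nat_lit 34) (nat_lit 74)) (nd (nat_lit 74) (nat_lit 0) (cs (lf (nat_lit 35) (nat_lit 52)) (nd (nat_lit 139) (nat_lit 0) (cs (lf (nat_lit 41) (nat_lit 73)) (nd (nat_lit 117) (nat_lit 0) (cs (nd (nat_lit 184) (nat_lit 0) (cs (lf (nat_lit 47) (nat_lit 95)) (lf (nat_lit 42) (nat_lit 117)))) (lf (nat_lit 36) (nat_lit 51)))))))))) q34881 (by decide +kernel)
def q34886 : Q := Q.p (nat_lit 0x10000040000000000000001e00000000000000000000000000000) (nat_lit 0x100000e00000000002000000000000000000000000) (nat_lit 3)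
theorem c34886 : QOK q34886 := cut [] trivial (nd (nat_lit 142) (nat_lit 0) (cs (lf (nat_lit 5) (nat_lit 117)) (nd (nat_lit 164) (nat_lit 0) (cs (lf (nat_lit 47) (nat_lit 97)) (lf (nat_lit 46) (nat_lit 119)))))) q34886 (by decide +kernel)
def q34893 : Q := Q.p (nat_lit 0x40000000000000003c00000000000000000000000000000) (nat_lit 0x300001c00000000018000000000000000000000000) (nat_lit 4)
theorem c34893 : QOK q34893 := cut [] trivial (nd (nat_lit 99) (nat_lit 0) (cs (lf (nat_lit 17) (nat_lit 96)) (nd (nat_lit 143) (nat_lit 0) (cs (lf (nat_lit 5) (nat_lit 118)) (nd (nat_lit 164) (nat_lit 0) (cs (lf (nat_lit 32) (nat_lit 98)) (lf (nat_lit 39) (nat_lit 98)))))))) q34893 (by decide +kernel)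
def q34906 : Q := Q.p (nat_lit 0x7c00000000000000000000000000000) (nat_lit 0x3800000000000000000000000000000000000) (nat_lit 2)
theorem c34906 : QOK q34906 := cut [] trivial (nd (nat_lit 144) (nat_lit 0) (cs (lf (nat_lit 5) (nat_lit 119)) (lf (nat_lit 4) (nat_lit 118)))) q34906 (by decide +kernel)
def q34926 : Q := Q.p (nat_lit 0x40000100000400001000000000000000000000000) (nat_lit 0x2000008000020000080000e000038000080000000) (nat_lit 6)
theorem c34926 : QOK q34926 := cut [] trivial (nd (nat_lit 73) (nat_lit 0) (cs (lf (nat_lit 46) (nat_lit 73)) (nd (nat_lit 74) (nat_lit 0) (cs (lf (nat_lit 47) (nat_lit 51)) (nd (nat_lit 53) (nat_lit 0) (cs (lf (nat_lit 34) (nat_lit 52)) (nd (nat_lit 139) (nat_lit 0) (cs (lf (nat_lit 41) (nat_lit 73)) (nd (nat_lit 52) (nat_lit 0) (cs (lf (nat_lit 35) (nat_lit 30)) (lf (nat_lit 40) (nat_lit 51)))))))))))) q34926 (by decide +kernel)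
def q34933 : Q := Q.p (nat_lit 0x40000100000400007000000000000000000000000) (nat_lit 0x200008800072000000000000000000) (nat_lit 4)
theorem c34933 : QOK q34933 := cut [] trivial (nd (nat_lit 99) (nat_lit 0) (cs (lf (nat_lit 11) (nat_lit 95)) (nd (nat_lit 77) (nat_lit 0) (cs (lf (nat_lit 17) (nat_lit 74)) (nd (nat_lit 95) (nat_lit 0) (cs (lf (nat_lit 47) (nat_lit 73)) (lf (nat_lit 16) (nat_lit 73)))))))) q34933 (by decide +kernel)
def q34943 : Q := Q.p (nat_lit 0x100000380001000000000000000000000000) (nat_lit 0x80000040000800000000000000000000000) (nat_lit 2)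
theorem c34943 : QOK q34943 := cut [] trivial (nd (nat_lit 114) (nat_lit 0) (cs (lf (nat_lit 4) (nat_lit 114)) (lf (nat_lit 16) (nat_lit 92)))) q34943 (by decide +kernel)
def q34948 : Q := Q.p (nat_lit 0x100000f00001000000000000000000000000) (nat_lit 0xe80003000000800000000000000000000000) (nat_lit 4)
theorem c34948 : QOK q34948 := cut [] trivial (nd (nat_lit 142) (nat_lit 0) (cs (lf (nat_lit 4) (nat_lit 116)) (nd (nat_lit 120) (nat_lit 0) (cs (lf (nat_lit 5) (nat_lit 117)) (nd (nat_lit 121) (nat_lit 0) (cs (lf (nat_lit 23) (nat_lit 95)) (lf (nat_lit 11) (nat_lit 117)))))))) q34948 (by decide +kernel)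
def q34950 : Q := Q.p (nat_lit 0x3c0000300000000000000000000000000000) (nat_lit 0x1000004000018000000000000000800000000000000000000000) (nat_lit 3)
theorem c34950 : QOK q34950 := cut [] trivial (nd (nat_lit 160) (nat_lit 0) (cs (lf (nat_lit 11) (nat_lit 137)) (nd (nat_lit 182) (nat_lit 0) (cs (lf (nat_lit 30) (nat_lit 116)) (lf (nat_lit 35) (nat_lit 94)))))) q34950 (by decide +kernel)
def q34961 : Q := Q.p (nat_lit 0xf00001000000000000000000000000) (nat_lit 0xe0000300001c800000000000000000000000) (nat_lit 5)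
theorem c34961 : QOK q34961 := cut [] trivial (nd (nat_lit 142) (nat_lit 0) (cs (lf (nat_lit 4) (nat_lit 116)) (nd (nat_lit 120) (nat_lit 0) (cs (lf (nat_lit 5) (nat_lit 117)) (nd (nat_lit 99) (nat_lit 0) (cs (lf (nat_lit 16) (nat_lit 95)) (nd (nat_lit 121) (nat_lit 0) (cs (lf (nat_lit 23) (nat_lit 95)) (lf (nat_lit 17) (nat_lit 96)))))))))) q34961 (by decide +kernel)
def q34971 : Q := Q.p (nat_lit 0x40000000000100000f00000000000000000000000000000) (nat_lit 0x100000e8000300000c000000000000000000000000) (nat_lit 5)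
theorem c34971 : QOK q34971 := cut [] trivial (nd (nat_lit 142) (nat_lit 0) (cs (lf (nat_lit 4) (nat_lit 116)) (nd (nat_lit 120) (nat_lit 0) (cs (lf (nat_lit 5) (nat_lit 117)) (nd (nat_lit 121) (nat_lit 0) (cs (lf (nat_lit 11) (nat_lit 117)) (nd (nat_lit 99) (nat_lit 0) (cs (lf (nat_lit 16) (nat_lit 95)) (lf (nat_lit 31) (nat_lit 98)))))))))) q34971 (by decide +kernel)
def q34979 : Q := Q.p (nat_lit 0x100000700001000000000000000000000000) (nat_lit 0x2380000c0000800000000000000000000000) (nat_lit 4)
theorem c34979 : QOK q34979 := cut [] trivial (nd (nat_lit 115) (nat_lit 0) (cs (lf (nat_lit 5) (nat_lit 115)) (nd (nat_lit 136) (nat_lit 0) (cs (nd (nat_lit 114) (nat_lit 0) (cs (lf (nat_lit 16) (nat_lit 92)) (lf (nat_lit 11) (nat_lit 113)))) (lf (nat_lit 10) (nat_lit 114)))))) q34979 (by decide +kernel)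
def q34984 : Q := Q.p (nat_lit 0x100000780000000000000000000000000000) (nat_lit 0xb8000040000000000000000000000000000) (nat_lit 3)
theorem c34984 : QOK q34984 := cut [] trivial (nd (nat_lit 136) (nat_lit 0) (cs (lf (nat_lit 10) (nat_lit 114)) (nd (nat_lit 114) (nat_lit 0) (cs (lf (nat_lit 4) (nat_lit 114)) (lf (nat_lit 11) (nat_lit 113)))))) q34984 (by decide +kernel)
def q35006 : Q := Q.p (nat_lit 0x40000100000400001000000000000000000000000) (nat_lit 0x20000280000a000028000060000380000c0000200) (nat_lit 8)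
theorem c35006 : QOK q35006 := cut [] trivial (nd (nat_lit 73) (nat_lit 0) (cs (lf (nat_lit 46) (nat_lit 73)) (nd (nat_lit 74) (nat_lit 0) (cs (lf (nat_lit 47) (nat_lit 51)) (nd (nat_lit 139) (nat_lit 0) (cs (lf (nat_lit 41) (nat_lit 73)) (nd (nat_lit 52) (nat_lit 0) (cs (lf (nat_lit 40) (nat_lit 51)) (nd (nat_lit 31) (nat_lit 0) (cs (lf (nat_lit 34) (nat_lit 30)) (nd (nat_lit 30) (nat_lit 0) (cs (lf (nat_lit 35) (nat_lit 8)) (nd (nat_lit 119) (nat_lit 0) (cs (lf (nat_lit 29) (nat_lit 52)) (lf (nat_lit 28) (nat_lit 30)))))))))))))))) q35006 (by decide +kernel)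
def q35013 : Q := Q.p (nat_lit 0x40000100000600000800000000000000000000000) (nat_lit 0x80000000000000002000008000000000000) (nat_lit 2)
theorem c35013 : QOK q35013 := cut [] trivial (nd (nat_lit 73) (nat_lit 0) (cs (lf (nat_lit 27) (nat_lit 73)) (lf (nat_lit 24) (nat_lit 51)))) q35013 (by decide +kernel)
def q35016 : Q := Q.p (nat_lit 0xe00000800000000000000000000000) (nat_lit 0x1100000700000000000000000000000) (nat_lit 3)
theorem c35016 : QOK q35016 := cut [] trivial (nd (nat_lit 94) (nat_lit 0) (cs (lf (nat_lit 18) (nat_lit 94)) (nd (nat_lit 93) (nat_lit 0) (cs (lf (nat_lit 0) (nat_lit 92)) (lf (nat_lit 21) (nat_lit 93)))))) q35016 (by decide +kernel)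
def q35020 : Q := Q.p (nat_lit 0xf00000000000000000000000000000) (nat_lit 0x70000080000700000000000000000000000) (nat_lit 4)
theorem c35020 : QOK q35020 := cut [] trivial (nd (nat_lit 93) (nat_lit 0) (cs (lf (nat_lit 22) (nat_lit 93)) (nd (nat_lit 137) (nat_lit 0) (cs (lf (nat_lit 10) (nat_lit 115)) (nd (nat_lit 115) (nat_lit 0) (cs (lf (nat_lit 23) (nat_lit 92)) (lf (nat_lit 11) (nat_lit 114)))))))) q35020 (by decide +kernel)
def q35023 : Q := Q.p (nat_lit 0x78000040000000000000000000000000000000000000000) (nat_lit 0x80000030000000000000000000000000000000000000000) (nat_lit 2)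
theorem c35023 : QOK q35023 := cut [] trivial (nd (nat_lit 161) (nat_lit 0) (cs (lf (nat_lit 18) (nat_lit 161)) (lf (nat_lit 23) (nat_lit 160)))) q35023 (by decide +kernel)
def q35056 : Q := Q.p (nat_lit 0x100001e0000000000000000000000000000000000000000000000) (nat_lit 0x1c8000200000000000000000000000000000000000000000000000) (nat_lit 3)
theorem c35056 : QOK q35056 := cut [] trivial (nd (nat_lit 211) (nat_lit 0) (cs (lf (nat_lit 4) (nat_lit 185)) (nd (nat_lit 189) (nat_lit 0) (cs (lf (nat_lit 11) (nat_lit 185)) (lf (nat_lit 5) (nat_lit 186)))))) q35056 (by decide +kernel)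
def q35072 : Q := Q.p (nat_lit 0x80000200000c0000100000000000000000000000000000) (nat_lit 0x200000400001000000000000000000) (nat_lit 2)
theorem c35072 : QOK q35072 := cut [] trivial (nd (nat_lit 94) (nat_lit 0) (cs (lf (nat_lit 24) (nat_lit 72)) (lf (nat_lit 45) (nat_lit 94)))) q35072 (by decide +kernel)
def q35087 : Q := Q.p (nat_lit 0x10000040000000000800002000008000000000000000000000000) (nat_lit 0x80000300000000000000000000000000000000000000000) (nat_lit 2)
theorem c35087 : QOK q35087 := cut [] trivial (nd (nat_lit 165) (nat_lit 0) (cs (lf (nat_lit 39) (nat_lit 120)) (lf (nat_lit 40) (nat_lit 98)))) q35087 (by decide +kernel)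
def q35095 : Q := Q.p (nat_lit 0x40000000000400001e00000000000000000000000000000) (nat_lit 0x10000000000200001c000000000000000000000000) (nat_lit 3)
theorem c35095 : QOK q35095 := cut [] trivial (nd (nat_lit 99) (nat_lit 0) (cs (lf (nat_lit 16) (nat_lit 95)) (nd (nat_lit 121) (nat_lit 0) (cs (lf (nat_lit 17) (nat_lit 96)) (lf (nat_lit 31) (nat_lit 98)))))) q35095 (by decide +kernel)
def q35113 : Q := Q.p (nat_lit 0x780000000000000000000000000000) (nat_lit 0x38000040000380000000000000000000000) (nat_lit 4)
theorem c35113 : QOK q35113 := cut [] trivial (nd (nat_lit 92) (nat_lit 0) (cs (lf (nat_lit 22) (nat_lit 92)) (nd (nat_lit 136) (nat_lit 0) (cs (lf (nat_lit 10) (nat_lit 114)) (nd (nat_lit 114) (nat_lit 0) (cs (lf (nat_lit 11) (nat_lit 113)) (lf (nat_lit 23) (nat_lit 91)))))))) q35113 (by decide +kernel)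
def q35117 : Q := Q.p (nat_lit 0x100000700000000000000000000000000000) (nat_lit 0x2800000c0000380000000000000000000000) (nat_lit 4)
theorem c35117 : QOK q35117 := cut [] trivial (nd (nat_lit 115) (nat_lit 0) (cs (lf (nat_lit 5) (nat_lit 115)) (nd (nat_lit 114) (nat_lit 0) (cs (lf (nat_lit 4) (nat_lit 114)) (nd (nat_lit 92) (nat_lit 0) (cs (lf (nat_lit 22) (nat_lit 92)) (lf (nat_lit 23) (nat_lit 91)))))))) q35117 (by decide +kernel)
def q35124 : Q := Q.p (nat_lit 0x8000060000100000400000000000000000000000000000) (nat_lit 0x800002000010000000000000000000000000000000000000000000000) (nat_lit 2)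
theorem c35124 : QOK q35124 := cut [] trivial (nd (nat_lit 205) (nat_lit 0) (cs (lf (nat_lit 30) (nat_lit 139)) (lf (nat_lit 39) (nat_lit 117)))) q35124 (by decide +kernel)
def q35127 : Q := Q.p (nat_lit 0x8000060000100000400000000000000000000000000000) (nat_lit 0x800002000000000000000080000000000000000000000000000000000) (nat_lit 2)
theorem c35127 : QOK q35127 := cut [] trivial (nd (nat_lit 205) (nat_lit 0) (cs (lf (nat_lit 30) (nat_lit 139)) (lf (nat_lit 33) (nat_lit 117)))) q35127 (by decide +kernel)
def q35130 : Q := Q.p (nat_lit 0x60000100000400000000000000000000000000000) (nat_lit 0x2000018000000000080000000001000000000000000000000000) (nat_lit 3)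
theorem c35130 : QOK q35130 := cut [] trivial (nd (nat_lit 183) (nat_lit 0) (cs (lf (nat_lit 36) (nat_lit 95)) (nd (nat_lit 205) (nat_lit 0) (cs (lf (nat_lit 39) (nat_lit 117)) (lf (nat_lit 33) (nat_lit 117)))))) q35130 (by decide +kernel)
def q35139 : Q := Q.p (nat_lit 0x10000040000100000200000800000000000000000000000) (nat_lit 0x4000000000000000080000000000000002000000000000000000) (nat_lit 2)
theorem c35139 : QOK q35139 := cut [] trivial (nd (nat_lit 139) (nat_lit 0) (cs (lf (nat_lit 42) (nat_lit 117)) (lf (nat_lit 24) (nat_lit 73)))) q35139 (by decide +kernel)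
def q35146 : Q := Q.p (nat_lit 0x10000040000180000200000000000000000000000000000) (nat_lit 0x20000000000000000800002000000000000000000) (nat_lit 2)
theorem c35146 : QOK q35146 := cut [] trivial (nd (nat_lit 95) (nat_lit 0) (cs (lf (nat_lit 24) (nat_lit 73)) (lf (nat_lit 27) (nat_lit 95)))) q35146 (by decide +kernel)
def q35168 : Q := Q.p (nat_lit 0x10000038000060000000000000000000000000000000000000000) (nat_lit 0x9c00007000000000000000000000000000000000000000000000) (nat_lit 4)
theorem c35168 : QOK q35168 := cut [] trivial (nd (nat_lit 182) (nat_lit 0) (cs (lf (nat_lit 4) (nat_lit 182)) (nd (nat_lit 203) (nat_lit 0) (cs (lf (nat_lit 10) (nat_lit 181)) (nd (nat_lit 181) (nat_lit 0) (cs (lf (nat_lit 11) (nat_lit 180)) (lf (nat_lit 12) (nat_lit 158)))))))) q35168 (by decide +kernel)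
def q35179 : Q := Q.p (nat_lit 0x16000048000000000000000000000000000000000000000000000) (nat_lit 0x8000084000000000000000000000000000000000000000000000) (nat_lit 2)
theorem c35179 : QOK q35179 := cut [] trivial (nd (nat_lit 207) (nat_lit 0) (cs (lf (nat_lit 23) (nat_lit 182)) (lf (nat_lit 17) (nat_lit 183)))) q35179 (by decide +kernel)
def q35187 : Q := Q.p (nat_lit 0x1e000010000040000100000000000000000000000000000000000) (nat_lit 0xc000000000000000400000000000000000000000000000) (nat_lit 2)
theorem c35187 : QOK q35187 := cut [] trivial (nd (nat_lit 183) (nat_lit 0) (cs (lf (nat_lit 23) (nat_lit 182)) (lf (nat_lit 36) (nat_lit 117)))) q35187 (by decide +kernel)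
def q35206 : Q := Q.p (nat_lit 0x10000050000040000700000000000000000000000000000000000) (nat_lit 0x4000000000100000000000800000000000000000000000000000) (nat_lit 2)
theorem c35206 : QOK q35206 := cut [] trivial (nd (nat_lit 119) (nat_lit 0) (cs (lf (nat_lit 44) (nat_lit 119)) (lf (nat_lit 30) (nat_lit 118)))) q35206 (by decide +kernel)
def q35209 : Q := Q.p (nat_lit 0x10000060000300000000000000000000000000000000000) (nat_lit 0x1000004000000000000000080000a00000000000000000000000000000) (nat_lit 3)
theorem c35209 : QOK q35209 := cut [] trivial (nd (nat_lit 206) (nat_lit 0) (cs (lf (nat_lit 35) (nat_lit 118)) (nd (nat_lit 139) (nat_lit 0) (cs (lf (nat_lit 47) (nat_lit 117)) (lf (nat_lit 42) (nat_lit 139)))))) q35209 (by decide +kernel)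
def q35216 : Q := Q.p (nat_lit 0x2000008000030000000000100000000000000000000000000000) (nat_lit 0x4000000000040000000000400000000000000000000000) (nat_lit 2)
theorem c35216 : QOK q35216 := cut [] trivial (nd (nat_lit 138) (nat_lit 0) (cs (lf (nat_lit 24) (nat_lit 94)) (lf (nat_lit 27) (nat_lit 116)))) q35216 (by decide +kernel)
def q35221 : Q := Q.p (nat_lit 0x700000400000000000000000000000) (nat_lit 0x800000b80000000000000000000000) (nat_lit 3)
theorem c35221 : QOK q35221 := cut [] trivial (nd (nat_lit 93) (nat_lit 0) (cs (nd (nat_lit 92) (nat_lit 0) (cs (lf (nat_lit 0) (nat_lit 91)) (lf (nat_lit 3) (nat_lit 92)))) (lf (nat_lit 18) (nat_lit 93)))) q35221 (by decide +kernel)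
def q35231 : Q := Q.p (nat_lit 0x100000700000400000000000000000000000) (nat_lit 0x2380000e00009c0000000000000000000000) (nat_lit 6)
theorem c35231 : QOK q35231 := cut [] trivial (nd (nat_lit 115) (nat_lit 0) (cs (lf (nat_lit 5) (nat_lit 115)) (nd (nat_lit 136) (nat_lit 0) (cs (lf (nat_lit 10) (nat_lit 114)) (nd (nat_lit 114) (nat_lit 0) (cs (lf (nat_lit 11) (nat_lit 113)) (nd (nat_lit 113) (nat_lit 0) (cs (nd (nat_lit 91) (nat_lit 0) (cs (lf (nat_lit 22) (nat_lit 91)) (lf (nat_lit 23) (nat_lit 90)))) (lf (nat_lit 17) (nat_lit 91)))))))))) q35231 (by decide +kernel)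
def q35260 : Q := Q.p (nat_lit 0x8000078000000000000000000000000000000000000000) (nat_lit 0x5c00006000038000000000000000000000000000000000) (nat_lit 5)
theorem c35260 : QOK q35260 := cut [] trivial (nd (nat_lit 136) (nat_lit 0) (cs (lf (nat_lit 22) (nat_lit 136)) (nd (nat_lit 158) (nat_lit 0) (cs (lf (nat_lit 23) (nat_lit 135)) (nd (nat_lit 157) (nat_lit 0) (cs (nd (nat_lit 179) (nat_lit 0) (cs (lf (nat_lit 10) (nat_lit 157)) (lf (nat_lit 11) (nat_lit 156)))) (lf (nat_lit 4) (nat_lit 157)))))))) q35260 (by decide +kernel)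
def q35272 : Q := Q.p (nat_lit 0x4000018000020000080000000000000000000000000000) (nat_lit 0x400001000002000000000000000000000000000000000000000000000) (nat_lit 2)
theorem c35272 : QOK q35272 := cut [] trivial (nd (nat_lit 204) (nat_lit 0) (cs (lf (nat_lit 42) (nat_lit 137)) (lf (nat_lit 27) (nat_lit 115)))) q35272 (by decide +kernel)
def q35276 : Q := Q.p (nat_lit 0x8000020000080000200000800000000000000000) (nat_lit 0x400001000004000000000000) (nat_lit 2)
theorem c35276 : QOK q35276 := cut [] trivial (nd (nat_lit 72) (nat_lit 0) (cs (lf (nat_lit 35) (nat_lit 49)) (lf (nat_lit 34) (nat_lit 71)))) q35276 (by decide +kernel)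
def q35289 : Q := Q.p (nat_lit 0x3e000000000000000000000000000000000000000) (nat_lit 0x1c000000000000000000000000000000000) (nat_lit 2)
theorem c35289 : QOK q35289 := cut [] trivial (nd (nat_lit 135) (nat_lit 0) (cs (lf (nat_lit 22) (nat_lit 135)) (lf (nat_lit 23) (nat_lit 134)))) q35289 (by decide +kernel)
def q35296 : Q := Q.p (nat_lit 0x280000a000018000000000000000000000000000000000000000) (nat_lit 0x200000000004000000000040000100000400000000000000000000000) (nat_lit 3)
theorem c35296 : QOK q35296 := cut [] trivial (nd (nat_lit 138) (nat_lit 0) (cs (lf (nat_lit 30) (nat_lit 137)) (nd (nat_lit 116) (nat_lit 0) (cs (lf (nat_lit 27) (nat_lit 116)) (lf (nat_lit 36) (nat_lit 93)))))) q35296 (by decide +kernel)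
def q35341 : Q := Q.p (nat_lit 0x200000800002000008000020000000000000000000000000000000000) (nat_lit 0x40000100000400000000000000000000000000000000000000000000000000) (nat_lit 2)
theorem c35341 : QOK q35341 := cut [] trivial (nd (nat_lit 224) (nat_lit 0) (cs (lf (nat_lit 40) (nat_lit 136)) (lf (nat_lit 41) (nat_lit 158)))) q35341 (by decide +kernel)
def q35358 : Q := Q.p (nat_lit 0xc000070000040000100000000000000000000000000000) (nat_lit 0x800003000000000000000000000000000000000000000000000) (nat_lit 2)
theorem c35358 : QOK q35358 := cut [] trivial (nd (nat_lit 181) (nat_lit 0) (cs (lf (nat_lit 12) (nat_lit 158)) (lf (nat_lit 41) (nat_lit 115)))) q35358 (by decide +kernel)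
def q35382 : Q := Q.p (nat_lit 0x10000040000060000300000800000000000000000000000000000) (nat_lit 0x100000c00000000000000000000000000000000000) (nat_lit 2)
theorem c35382 : QOK q35382 := cut [] trivial (nd (nat_lit 142) (nat_lit 0) (cs (lf (nat_lit 6) (nat_lit 139)) (lf (nat_lit 44) (nat_lit 119)))) q35382 (by decide +kernel)
def q35417 : Q := Q.p (nat_lit 0x16000050000040000100000000000000000000000000000000000) (nat_lit 0x2000008000080000000000000000000000000000000000000000000000) (nat_lit 2)
theorem c35417 : QOK q35417 := cut [] trivial (nd (nat_lit 207) (nat_lit 0) (cs (lf (nat_lit 29) (nat_lit 140)) (lf (nat_lit 17) (nat_lit 183)))) q35417 (by decide +kernel)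
def q35426 : Q := Q.p (nat_lit 0x12000048000020000080000000000000000000000000000000000) (nat_lit 0x140000d000024000000000000000000000000000000000000000000000) (nat_lit 4)
theorem c35426 : QOK q35426 := cut [] trivial (nd (nat_lit 206) (nat_lit 0) (cs (lf (nat_lit 29) (nat_lit 139)) (nd (nat_lit 204) (nat_lit 0) (cs (lf (nat_lit 41) (nat_lit 138)) (nd (nat_lit 207) (nat_lit 0) (cs (lf (nat_lit 23) (nat_lit 182)) (lf (nat_lit 16) (nat_lit 182)))))))) q35426 (by decide +kernel)
def q35428 : Q := Q.p (nat_lit 0x1000018000060000080000000000000000000000000000000000) (nat_lit 0x4000000000000000200000800000000000000000000000) (nat_lit 2)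
theorem c35428 : QOK q35428 := cut [] trivial (nd (nat_lit 117) (nat_lit 0) (cs (lf (nat_lit 24) (nat_lit 95)) (lf (nat_lit 40) (nat_lit 116)))) q35428 (by decide +kernel)
def q35444 : Q := Q.p (nat_lit 0x300000e00000000000000000000000000000) (nat_lit 0x400000180000000000000000000000000000) (nat_lit 2)
theorem c35444 : QOK q35444 := cut [] trivial (nd (nat_lit 116) (nat_lit 0) (cs (lf (nat_lit 0) (nat_lit 115)) (lf (nat_lit 5) (nat_lit 116)))) q35444 (by decide +kernel)
def q35449 : Q := Q.p (nat_lit 0x10000040000100000200000000000000000000000000000) (nat_lit 0x20000080000400000800002000000000000000000) (nat_lit 3)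
theorem c35449 : QOK q35449 := cut [] trivial (nd (nat_lit 95) (nat_lit 0) (cs (lf (nat_lit 45) (nat_lit 95)) (nd (nat_lit 139) (nat_lit 0) (cs (lf (nat_lit 24) (nat_lit 73)) (lf (nat_lit 27) (nat_lit 95)))))) q35449 (by decide +kernel)
def q35570 : Q := Q.p (nat_lit 0x180000e0000080000200000000000000000000000000000000000) (nat_lit 0x1000006000000000000000000000000000000000000000000000000000) (nat_lit 2)
theorem c35570 : QOK q35570 := cut [] trivial (nd (nat_lit 206) (nat_lit 0) (cs (lf (nat_lit 12) (nat_lit 183)) (lf (nat_lit 41) (nat_lit 140)))) q35570 (by decide +kernel)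
def q35628 : Q := Q.p (nat_lit 0x400001c0000600000000000000000000000000000000000) (nat_lit 0x80000030000000000000000000000000000000000000000) (nat_lit 2)
theorem c35628 : QOK q35628 := cut [] trivial (nd (nat_lit 161) (nat_lit 0) (cs (lf (nat_lit 12) (nat_lit 138)) (lf (nat_lit 5) (nat_lit 161)))) q35628 (by decide +kernel)
def q35642 : Q := Q.p (nat_lit 0x40000f00000000000000000000000000000000000) (nat_lit 0xe80001000000000000000000000000000000000000) (nat_lit 3)
theorem c35642 : QOK q35642 := cut [] trivial (nd (nat_lit 166) (nat_lit 0) (cs (lf (nat_lit 4) (nat_lit 140)) (nd (nat_lit 144) (nat_lit 0) (cs (lf (nat_lit 5) (nat_lit 141)) (lf (nat_lit 10) (nat_lit 140)))))) q35642 (by decide +kernel)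
def q35663 : Q := Q.p (nat_lit 0x10000040000040000c00000000000000000000000000000000000) (nat_lit 0x1a0000300002800000000000000000000000000000) (nat_lit 4)
theorem c35663 : QOK q35663 := cut [] trivial (nd (nat_lit 164) (nat_lit 0) (cs (lf (nat_lit 35) (nat_lit 120)) (nd (nat_lit 141) (nat_lit 0) (cs (lf (nat_lit 47) (nat_lit 119)) (nd (nat_lit 161) (nat_lit 0) (cs (lf (nat_lit 9) (nat_lit 139)) (lf (nat_lit 14) (nat_lit 139)))))))) q35663 (by decide +kernel)
def q35692 : Q := Q.p (nat_lit 0x40000580000600000000000000000000000000000) (nat_lit 0x4000010000000000840001800002000000000000000000000000) (nat_lit 4)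
theorem c35692 : QOK q35692 := cut [] trivial (nd (nat_lit 184) (nat_lit 0) (cs (lf (nat_lit 42) (nat_lit 117)) (nd (nat_lit 119) (nat_lit 0) (cs (lf (nat_lit 35) (nat_lit 96)) (nd (nat_lit 120) (nat_lit 0) (cs (lf (nat_lit 5) (nat_lit 117)) (lf (nat_lit 11) (nat_lit 116)))))))) q35692 (by decide +kernel)
def q35698 : Q := Q.p (nat_lit 0x180000600001000000000000000000000000) (nat_lit 0x20000000000000000000004000010000000000000) (nat_lit 2)
theorem c35698 : QOK q35698 := cut [] trivial (nd (nat_lit 74) (nat_lit 0) (cs (lf (nat_lit 41) (nat_lit 73)) (lf (nat_lit 36) (nat_lit 51)))) q35698 (by decide +kernel)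
def q35703 : Q := Q.p (nat_lit 0x40000180000780000000000000000000000000000) (nat_lit 0x80000070000800000000000000000000000000000) (nat_lit 3)
theorem c35703 : QOK q35703 := cut [] trivial (nd (nat_lit 137) (nat_lit 0) (cs (lf (nat_lit 11) (nat_lit 114)) (nd (nat_lit 138) (nat_lit 0) (cs (lf (nat_lit 6) (nat_lit 115)) (lf (nat_lit 5) (nat_lit 137)))))) q35703 (by decide +kernel)
def q35719 : Q := Q.p (nat_lit 0x680001a0000000000000000000000000000000000) (nat_lit 0x14000010000000000000000000000000000000000) (nat_lit 2)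
theorem c35719 : QOK q35719 := cut [] trivial (nd (nat_lit 160) (nat_lit 0) (cs (lf (nat_lit 23) (nat_lit 136)) (lf (nat_lit 12) (nat_lit 136)))) q35719 (by decide +kernel)
def q35739 : Q := Q.p (nat_lit 0x2000008000020000080000000000000000000000000000) (nat_lit 0x500001c00005000000000000000000000000000000000000000000000) (nat_lit 4)
theorem c35739 : QOK q35739 := cut [] trivial (nd (nat_lit 204) (nat_lit 0) (cs (lf (nat_lit 28) (nat_lit 115)) (nd (nat_lit 202) (nat_lit 0) (cs (nd (nat_lit 203) (nat_lit 0) (cs (lf (nat_lit 29) (nat_lit 137)) (lf (nat_lit 41) (nat_lit 136)))) (lf (nat_lit 40) (nat_lit 114)))))) q35739 (by decide +kernel)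
def q35748 : Q := Q.p (nat_lit 0x400001a0000600000000000000000000000000000) (nat_lit 0x80000050000000000000000000000000000000000) (nat_lit 2)
theorem c35748 : QOK q35748 := cut [] trivial (nd (nat_lit 138) (nat_lit 0) (cs (lf (nat_lit 5) (nat_lit 137)) (lf (nat_lit 12) (nat_lit 114)))) q35748 (by decide +kernel)
def q35757 : Q := Q.p (nat_lit 0x400001a0000400000000000000000000000000000) (nat_lit 0x80000040000800000000000000000000000000000) (nat_lit 2)
theorem c35757 : QOK q35757 := cut [] trivial (nd (nat_lit 138) (nat_lit 0) (cs (lf (nat_lit 17) (nat_lit 115)) (lf (nat_lit 5) (nat_lit 137)))) q35757 (by decide +kernel)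
def q35769 : Q := Q.p (nat_lit 0x40000100000600001000000000000000000000000) (nat_lit 0x800002000008000000000080000c0000380000e0000080) (nat_lit 7)
theorem c35769 : QOK q35769 := cut [] trivial (nd (nat_lit 161) (nat_lit 0) (cs (lf (nat_lit 41) (nat_lit 95)) (nd (nat_lit 74) (nat_lit 0) (cs (lf (nat_lit 40) (nat_lit 73)) (nd (nat_lit 53) (nat_lit 0) (cs (lf (nat_lit 34) (nat_lit 52)) (nd (nat_lit 52) (nat_lit 0) (cs (lf (nat_lit 35) (nat_lit 30)) (nd (nat_lit 30) (nat_lit 0) (cs (lf (nat_lit 40) (nat_lit 29)) (nd (nat_lit 29) (nat_lit 0) (cs (lf (nat_lit 47) (nat_lit 7)) (lf (nat_lit 46) (nat_lit 29)))))))))))))) q35769 (by decide +kernel)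
def q35784 : Q := Q.p (nat_lit 0x78000020000000000200000000000000000000000) (nat_lit 0x7000004000000000080000000000000000000000000000) (nat_lit 3)
theorem c35784 : QOK q35784 := cut [] trivial (nd (nat_lit 115) (nat_lit 0) (cs (lf (nat_lit 29) (nat_lit 93)) (nd (nat_lit 180) (nat_lit 0) (cs (lf (nat_lit 10) (nat_lit 158)) (lf (nat_lit 40) (nat_lit 92)))))) q35784 (by decide +kernel)
def q35788 : Q := Q.p (nat_lit 0x78000020000000000200000000000000000000000) (nat_lit 0x7000080000000000080000000000000000000000000000) (nat_lit 3)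
theorem c35788 : QOK q35788 := cut [] trivial (nd (nat_lit 181) (nat_lit 0) (cs (lf (nat_lit 11) (nat_lit 158)) (nd (nat_lit 182) (nat_lit 0) (cs (lf (nat_lit 6) (nat_lit 159)) (lf (nat_lit 25) (nat_lit 93)))))) q35788 (by decide +kernel)
def q35808 : Q := Q.p (nat_lit 0x800002000008000020000080000000000000000000000000000) (nat_lit 0x400001000004000000000000000000000000000000000000000000000) (nat_lit 2)
theorem c35808 : QOK q35808 := cut [] trivial (nd (nat_lit 204) (nat_lit 0) (cs (lf (nat_lit 29) (nat_lit 137)) (lf (nat_lit 28) (nat_lit 115)))) q35808 (by decide +kernel)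
def q35857 : Q := Q.p (nat_lit 0x40000100000400000800000000000000000000000) (nat_lit 0x80000200001000002000008000000000000) (nat_lit 3)
theorem c35857 : QOK q35857 := cut [] trivial (nd (nat_lit 73) (nat_lit 0) (cs (lf (nat_lit 45) (nat_lit 73)) (nd (nat_lit 117) (nat_lit 0) (cs (lf (nat_lit 27) (nat_lit 73)) (lf (nat_lit 24) (nat_lit 51)))))) q35857 (by decide +kernel)
def q35865 : Q := Q.p (nat_lit 0x60000180000200000000000000000000000000000) (nat_lit 0x10000000000000000000000800002000000000000000000) (nat_lit 2)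
theorem c35865 : QOK q35865 := cut [] trivial (nd (nat_lit 95) (nat_lit 0) (cs (lf (nat_lit 24) (nat_lit 73)) (lf (nat_lit 29) (nat_lit 95)))) q35865 (by decide +kernel)
def q35883 : Q := Q.p (nat_lit 0x40000780000000000000000000000000000000000) (nat_lit 0x4000010000080000040003800002000008000000000000000000) (nat_lit 5)
theorem c35883 : QOK q35883 := cut [] trivial (nd (nat_lit 120) (nat_lit 0) (cs (lf (nat_lit 17) (nat_lit 117)) (nd (nat_lit 119) (nat_lit 0) (cs (lf (nat_lit 12) (nat_lit 116)) (nd (nat_lit 97) (nat_lit 0) (cs (lf (nat_lit 36) (nat_lit 74)) (nd (nat_lit 184) (nat_lit 0) (cs (lf (nat_lit 30) (nat_lit 118)) (lf (nat_lit 39) (nat_lit 96)))))))))) q35883 (by decide +kernel)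
def q35885 : Q := Q.p (nat_lit 0x400003c0000000000000000000000000000000000) (nat_lit 0x9c000020000000000000000000000000000000000) (nat_lit 3)
theorem c35885 : QOK q35885 := cut [] trivial (nd (nat_lit 137) (nat_lit 0) (cs (lf (nat_lit 5) (nat_lit 137)) (nd (nat_lit 159) (nat_lit 0) (cs (lf (nat_lit 11) (nat_lit 136)) (lf (nat_lit 10) (nat_lit 137)))))) q35885 (by decide +kernel)
def q35893 : Q := Q.p (nat_lit 0x700000a00000000000000000000000000000) (nat_lit 0x80000500000000000000000000000000000) (nat_lit 2)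
theorem c35893 : QOK q35893 := cut [] trivial (nd (nat_lit 116) (nat_lit 0) (cs (lf (nat_lit 21) (nat_lit 116)) (lf (nat_lit 2) (nat_lit 116)))) q35893 (by decide +kernel)
def q35905 : Q := Q.p (nat_lit 0x10000040000300000800000000000000000000000000000) (nat_lit 0x400002000008000000000000000000) (nat_lit 2)
theorem c35905 : QOK q35905 := cut [] trivial (nd (nat_lit 97) (nat_lit 0) (cs (lf (nat_lit 36) (nat_lit 74)) (lf (nat_lit 33) (nat_lit 96)))) q35905 (by decide +kernel)
def q35940 : Q := Q.p (nat_lit 0x2000000000060000180000000000000000000000000000000000) (nat_lit 0x800000000008000000000000000400000000000000000000000000000) (nat_lit 2)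
theorem c35940 : QOK q35940 := cut [] trivial (nd (nat_lit 183) (nat_lit 0) (cs (lf (nat_lit 30) (nat_lit 139)) (lf (nat_lit 35) (nat_lit 117)))) q35940 (by decide +kernel)
def q36010 : Q := Q.p (nat_lit 0x12000040000140000400000000000000000000000000000000000) (nat_lit 0x200000c0003800002a0000000000000000000000000000000000000000) (nat_lit 5)
theorem c36010 : QOK q36010 := cut [] trivial (nd (nat_lit 207) (nat_lit 0) (cs (lf (nat_lit 41) (nat_lit 141)) (nd (nat_lit 187) (nat_lit 0) (cs (lf (nat_lit 13) (nat_lit 183)) (nd (nat_lit 188) (nat_lit 0) (cs (lf (nat_lit 6) (nat_lit 185)) (nd (nat_lit 163) (nat_lit 0) (cs (lf (nat_lit 0) (nat_lit 161)) (lf (nat_lit 3) (nat_lit 162)))))))))) q36010 (by decide +kernel)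
def q36013 : Q := Q.p (nat_lit 0x2000008000060000100000000000000000000000000000000000) (nat_lit 0x10000000000000000400001000000000000000000000000) (nat_lit 2)
theorem c36013 : QOK q36013 := cut [] trivial (nd (nat_lit 118) (nat_lit 0) (cs (lf (nat_lit 36) (nat_lit 95)) (lf (nat_lit 39) (nat_lit 117)))) q36013 (by decide +kernel)
def q36023 : Q := Q.p (nat_lit 0x12000040000140000500000000000000000000000000000000000) (nat_lit 0x200002c0000c00001c000020000000000400000000000000000000000000000) (nat_lit 5)
theorem c36023 : QOK q36023 := cut [] trivial (nd (nat_lit 227) (nat_lit 0) (cs (nd (nat_lit 207) (nat_lit 0) (cs (lf (nat_lit 41) (nat_lit 141)) (nd (nat_lit 206) (nat_lit 0) (cs (lf (nat_lit 11) (nat_lit 204)) (lf (nat_lit 38) (nat_lit 139)))))) (cs (nd (nat_lit 183) (nat_lit 0) (cs (lf (nat_lit 33) (nat_lit 139)) (nd (nat_lit 184) (nat_lit 0) (cs (lf (nat_lit 36) (nat_lit 117)) (lf (nat_lit 30) (nat_lit 161)))))) (nd (nat_lit 183) (nat_lit 0) (cs (lf (nat_lit 33) (nat_lit 139)) (nd (nat_lit 207) (nat_lit 0)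 (cs (lf (nat_lit 41) (nat_lit 141)) (nd (nat_lit 206) (nat_lit 0) (cs (lf (nat_lit 23) (nat_lit 182)) (lf (nat_lit 11) (nat_lit 204))))))))))) q36023 (by decide +kernel)
def q36031 : Q := Q.p (nat_lit 0x48000160000000000000000000000000000000000000000) (nat_lit 0x84000080000000000000000000000000000000000000000) (nat_lit 2)
theorem c36031 : QOK q36031 := cut [] trivial (nd (nat_lit 163) (nat_lit 0) (cs (lf (nat_lit 5) (nat_lit 161)) (lf (nat_lit 11) (nat_lit 160)))) q36031 (by decide +kernel)
def q36081 : Q := Q.p (nat_lit 0x180000e00000000000000000000000000000) (nat_lit 0x40003000000000000000000000000000000) (nat_lit 2)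
theorem c36081 : QOK q36081 := cut [] trivial (nd (nat_lit 120) (nat_lit 0) (cs (lf (nat_lit 11) (nat_lit 116)) (lf (nat_lit 6) (nat_lit 117)))) q36081 (by decide +kernel)
def q36193 : Q := Q.p (nat_lit 0x400001e0000000000000000000000000000000000) (nat_lit 0x2e000010000000000000000000000000000000000) (nat_lit 3)
theorem c36193 : QOK q36193 := cut [] trivial (nd (nat_lit 136) (nat_lit 0) (cs (lf (nat_lit 4) (nat_lit 136)) (nd (nat_lit 158) (nat_lit 0) (cs (lf (nat_lit 10) (nat_lit 136)) (lf (nat_lit 11) (nat_lit 135)))))) q36193 (by decide +kernel)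
def q36203 : Q := Q.p (nat_lit 0x180000400000600001c0000100000000000000000000000000000) (nat_lit 0x1800006000098000000000000000000000000000000000000000000000) (nat_lit 4)
theorem c36203 : QOK q36203 := cut [] trivial (nd (nat_lit 205) (nat_lit 0) (cs (nd (nat_lit 206) (nat_lit 0) (cs (lf (nat_lit 17) (nat_lit 183)) (nd (nat_lit 184) (nat_lit 0) (cs (lf (nat_lit 41) (nat_lit 139)) (lf (nat_lit 42) (nat_lit 139)))))) (lf (nat_lit 43) (nat_lit 116)))) q36203 (by decide +kernel)
def q36258 : Q := Q.p (nat_lit 0x400000e0000180000000000000000000000000000000000) (nat_lit 0x80000300000000000000000000000000000000000000000) (nat_lit 2)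
theorem c36258 : QOK q36258 := cut [] trivial (nd (nat_lit 164) (nat_lit 0) (cs (lf (nat_lit 5) (nat_lit 161)) (lf (nat_lit 18) (nat_lit 139)))) q36258 (by decide +kernel)
def q36268 : Q := Q.p (nat_lit 0x700001c0000200000000000000000000000000000) (nat_lit 0x10000040000000000300001c0000200000800000000000000000) (nat_lit 5)
theorem c36268 : QOK q36268 := cut [] trivial (nd (nat_lit 182) (nat_lit 0) (cs (lf (nat_lit 30) (nat_lit 116)) (nd (nat_lit 137) (nat_lit 0) (cs (lf (nat_lit 0) (nat_lit 136)) (nd (nat_lit 115) (nat_lit 0) (cs (lf (nat_lit 23) (nat_lit 114)) (nd (nat_lit 93) (nat_lit 0) (cs (lf (nat_lit 24) (nat_lit 71)) (lf (nat_lit 45) (nat_lit 93)))))))))) q36268 (by decide +kernel)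
def q36279 : Q := Q.p (nat_lit 0x180001e0000200000000000000000000000000000) (nat_lit 0x5c0000780001c00000000000000000) (nat_lit 6)
theorem c36279 : QOK q36279 := cut [] trivial (nd (nat_lit 115) (nat_lit 0) (cs (lf (nat_lit 23) (nat_lit 114)) (nd (nat_lit 93) (nat_lit 0) (cs (lf (nat_lit 24) (nat_lit 71)) (nd (nat_lit 94) (nat_lit 0) (cs (lf (nat_lit 35) (nat_lit 71)) (nd (nat_lit 92) (nat_lit 0) (cs (lf (nat_lit 47) (nat_lit 70)) (nd (nat_lit 116) (nat_lit 0) (cs (lf (nat_lit 0) (nat_lit 91)) (lf (nat_lit 18) (nat_lit 92)))))))))))) q36279 (by decide +kernel)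
def q36296 : Q := Q.p (nat_lit 0x18000060000080000000000000000000000000000) (nat_lit 0x4000000000000000000000200000800000000000000000) (nat_lit 2)
theorem c36296 : QOK q36296 := cut [] trivial (nd (nat_lit 93) (nat_lit 0) (cs (lf (nat_lit 29) (nat_lit 93)) (lf (nat_lit 24) (nat_lit 71)))) q36296 (by decide +kernel)
def q36323 : Q := Q.p (nat_lit 0x40000180000200000000000000000000000000000) (nat_lit 0x10000020000000000400000800002000000000000000000) (nat_lit 3)
theorem c36323 : QOK q36323 := cut [] trivial (nd (nat_lit 95) (nat_lit 0) (cs (lf (nat_lit 24) (nat_lit 73)) (nd (nat_lit 184) (nat_lit 0) (cs (lf (nat_lit 45) (nat_lit 95)) (lf (nat_lit 27) (nat_lit 95)))))) q36323 (by decide +kernel)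
def q36337 : Q := Q.p (nat_lit 0x40000180000200000800000000000000000000000) (nat_lit 0x4000010000000000000000400000000000000000000000000000) (nat_lit 2)
theorem c36337 : QOK q36337 := cut [] trivial (nd (nat_lit 184) (nat_lit 0) (cs (lf (nat_lit 45) (nat_lit 95)) (lf (nat_lit 42) (nat_lit 117)))) q36337 (by decide +kernel)
def q36418 : Q := Q.p (nat_lit 0x4000018000060000000000000000000) (nat_lit 0x1000000000000000000000080000200000000) (nat_lit 2)
theorem c36418 : QOK q36418 := cut [] trivial (nd (nat_lit 55) (nat_lit 0) (cs (lf (nat_lit 24) (nat_lit 33)) (lf (nat_lit 42) (nat_lit 55)))) q36418 (by decide +kernel)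
def q36515 : Q := Q.p (nat_lit 0x40000160000080000000000000000000000000000000000) (nat_lit 0x80000080000040000000000000000000000000000000000) (nat_lit 2)
theorem c36515 : QOK q36515 := cut [] trivial (nd (nat_lit 163) (nat_lit 0) (cs (lf (nat_lit 23) (nat_lit 138)) (lf (nat_lit 5) (nat_lit 161)))) q36515 (by decide +kernel)
def q36518 : Q := Q.p (nat_lit 0x40000100000580001000000000000000000000000000000) (nat_lit 0x2c0000a000000000000000000000000) (nat_lit 3)
theorem c36518 : QOK q36518 := cut [] trivial (nd (nat_lit 119) (nat_lit 0) (cs (lf (nat_lit 47) (nat_lit 97)) (nd (nat_lit 121) (nat_lit 0) (cs (lf (nat_lit 35) (nat_lit 98)) (lf (nat_lit 9) (nat_lit 117)))))) q36518 (by decide +kernel)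
def q36523 : Q := Q.p (nat_lit 0x20000080001a00000800000000000000000000000) (nat_lit 0x400000400001000000000000000000) (nat_lit 2)
theorem c36523 : QOK q36523 := cut [] trivial (nd (nat_lit 94) (nat_lit 0) (cs (lf (nat_lit 47) (nat_lit 72)) (lf (nat_lit 20) (nat_lit 94)))) q36523 (by decide +kernel)
def q36535 : Q := Q.p (nat_lit 0x60000080000200000800000000000000000000000) (nat_lit 0x100000000001000006000010000000000000) (nat_lit 3)
theorem c36535 : QOK q36535 := cut [] trivial (nd (nat_lit 74) (nat_lit 0) (cs (lf (nat_lit 34) (nat_lit 73)) (nd (nat_lit 73) (nat_lit 0) (cs (lf (nat_lit 28) (nat_lit 73)) (lf (nat_lit 35) (nat_lit 51)))))) q36535 (by decide +kernel)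
def q36549 : Q := Q.p (nat_lit 0x20000080000200000800000000000000000000000) (nat_lit 0x4000010000040000000001000006000010000000000000) (nat_lit 4)
theorem c36549 : QOK q36549 := cut [] trivial (nd (nat_lit 160) (nat_lit 0) (cs (lf (nat_lit 41) (nat_lit 94)) (nd (nat_lit 73) (nat_lit 0) (cs (nd (nat_lit 74) (nat_lit 0) (cs (lf (nat_lit 34) (nat_lit 73)) (lf (nat_lit 35) (nat_lit 51)))) (lf (nat_lit 40) (nat_lit 72)))))) q36549 (by decide +kernel)
def q36577 : Q := Q.p (nat_lit 0x30000080000200000e0000000000000000000000000000000000) (nat_lit 0x600001c0001000004c0000000000000000000000000000) (nat_lit 5)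
theorem c36577 : QOK q36577 := cut [] trivial (nd (nat_lit 140) (nat_lit 0) (cs (lf (nat_lit 35) (nat_lit 117)) (nd (nat_lit 159) (nat_lit 0) (cs (lf (nat_lit 11) (nat_lit 136)) (nd (nat_lit 115) (nat_lit 0) (cs (lf (nat_lit 23) (nat_lit 114)) (nd (nat_lit 182) (nat_lit 0) (cs (lf (nat_lit 44) (nat_lit 115)) (lf (nat_lit 27) (nat_lit 115)))))))))) q36577 (by decide +kernel)
def q36584 : Q := Q.p (nat_lit 0x2000008000020000080000000000000000000000000000000000) (nat_lit 0x140000700001400000000000000000000000) (nat_lit 4)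
theorem c36584 : QOK q36584 := cut [] trivial (nd (nat_lit 116) (nat_lit 0) (cs (lf (nat_lit 46) (nat_lit 116)) (nd (nat_lit 118) (nat_lit 0) (cs (lf (nat_lit 34) (nat_lit 117)) (nd (nat_lit 117) (nat_lit 0) (cs (lf (nat_lit 35) (nat_lit 95)) (lf (nat_lit 47) (nat_lit 94)))))))) q36584 (by decide +kernel)
def q36586 : Q := Q.p (nat_lit 0x18000060000080000100000000000000000000000000000) (nat_lit 0x200000c00000000000000000000000) (nat_lit 2)
theorem c36586 : QOK q36586 := cut [] trivial (nd (nat_lit 117) (nat_lit 0) (cs (lf (nat_lit 24) (nat_lit 95)) (lf (nat_lit 47) (nat_lit 94)))) q36586 (by decide +kernel)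
def q36616 : Q := Q.p (nat_lit 0x1e000008000020000080000000000000000000000000000000000) (nat_lit 0xc00001000000000000000000000000000000000000000000000000000) (nat_lit 2)
theorem c36616 : QOK q36616 := cut [] trivial (nd (nat_lit 226) (nat_lit 0) (cs (lf (nat_lit 10) (nat_lit 204)) (lf (nat_lit 40) (nat_lit 138)))) q36616 (by decide +kernel)
def q36623 : Q := Q.p (nat_lit 0x20000080000200000800002000000000000000000) (nat_lit 0x400001000004000000000000) (nat_lit 2)
theorem c36623 : QOK q36623 := cut [] trivial (nd (nat_lit 72) (nat_lit 0) (cs (lf (nat_lit 46) (nat_lit 72)) (lf (nat_lit 47) (nat_lit 50)))) q36623 (by decide +kernel)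
def q36633 : Q := Q.p (nat_lit 0x60000080000200000800000000000000000000000) (nat_lit 0x100000000000400003000004000000000000) (nat_lit 3)
theorem c36633 : QOK q36633 := cut [] trivial (nd (nat_lit 72) (nat_lit 0) (cs (lf (nat_lit 46) (nat_lit 72)) (nd (nat_lit 73) (nat_lit 0) (cs (lf (nat_lit 28) (nat_lit 73)) (lf (nat_lit 47) (nat_lit 50)))))) q36633 (by decide +kernel)
def q36669 : Q := Q.p (nat_lit 0x400002000018000060000000000000000000000000000000000000000) (nat_lit 0x300000800000000000000000000000000000000000000000000000000000000) (nat_lit 2)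
theorem c36669 : QOK q36669 := cut [] trivial (nd (nat_lit 227) (nat_lit 0) (cs (lf (nat_lit 30) (nat_lit 161)) (lf (nat_lit 41) (nat_lit 160)))) q36669 (by decide +kernel)
def q36677 : Q := Q.p (nat_lit 0x8000060000080000200000000000000000000000000000) (nat_lit 0x4000010000000000000000000000800000000000000000000000) (nat_lit 2)
theorem c36677 : QOK q36677 := cut [] trivial (nd (nat_lit 184) (nat_lit 0) (cs (lf (nat_lit 24) (nat_lit 95)) (lf (nat_lit 29) (nat_lit 117)))) q36677 (by decide +kernel)
def q36679 : Q := Q.p (nat_lit 0x80001c0000080000000000000000000000000000000000) (nat_lit 0x10000200000100000000000000000000000000000000000) (nat_lit 2)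
theorem c36679 : QOK q36679 := cut [] trivial (nd (nat_lit 165) (nat_lit 0) (cs (lf (nat_lit 22) (nat_lit 139)) (lf (nat_lit 10) (nat_lit 161)))) q36679 (by decide +kernel)
def q36689 : Q := Q.p (nat_lit 0x8000060000080000200000000000000000000000000000) (nat_lit 0x6000010000000000160001d00003400000000000000000000000) (nat_lit 7)
theorem c36689 : QOK q36689 := cut [] trivial (nd (nat_lit 184) (nat_lit 0) (cs (lf (nat_lit 29) (nat_lit 117)) (nd (nat_lit 94) (nat_lit 0) (cs (lf (nat_lit 46) (nat_lit 94)) (nd (nat_lit 118) (nat_lit 0) (cs (lf (nat_lit 35) (nat_lit 95)) (nd (nat_lit 140) (nat_lit 0) (cs (lf (nat_lit 41) (nat_lit 117)) (nd (nat_lit 119) (nat_lit 0) (cs (lf (nat_lit 35) (nat_lit 96)) (nd (nat_lit 138) (nat_lit 0) (cs (lf (nat_lit 12) (nat_lit 115)) (lf (nat_lit 6) (nat_lit 116)))))))))))))) q36689 (by decide +kernel)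
def q36694 : Q := Q.p (nat_lit 0xc00000c000060000000000000000000000000000000000000000) (nat_lit 0x13000000000000000000000000000000000000000000000) (nat_lit 2)
theorem c36694 : QOK q36694 := cut [] trivial (nd (nat_lit 181) (nat_lit 0) (cs (lf (nat_lit 12) (nat_lit 158)) (lf (nat_lit 3) (nat_lit 181)))) q36694 (by decide +kernel)
def q36704 : Q := Q.p (nat_lit 0x40000160000400000000000000000000000000000000000) (nat_lit 0x80000080000800000000000000000000000000000000000) (nat_lit 2)
theorem c36704 : QOK q36704 := cut [] trivial (nd (nat_lit 163) (nat_lit 0) (cs (lf (nat_lit 5) (nat_lit 161)) (lf (nat_lit 17) (nat_lit 139)))) q36704 (by decide +kernel)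
def q36712 : Q := Q.p (nat_lit 0x40000140000080000200000800000000000000000000000) (nat_lit 0x9c0000b0000000000000000000000000000000000000000) (nat_lit 4)
theorem c36712 : QOK q36712 := cut [] trivial (nd (nat_lit 161) (nat_lit 0) (cs (lf (nat_lit 29) (nat_lit 95)) (nd (nat_lit 163) (nat_lit 0) (cs (lf (nat_lit 5) (nat_lit 161)) (nd (nat_lit 182) (nat_lit 0) (cs (lf (nat_lit 10) (nat_lit 160)) (lf (nat_lit 40) (nat_lit 94)))))))) q36712 (by decide +kernel)
def q36717 : Q := Q.p (nat_lit 0x2000008000160000080000000000000000000000000000000000) (nat_lit 0x80000040000100000000000000000000000000000) (nat_lit 2)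
theorem c36717 : QOK q36717 := cut [] trivial (nd (nat_lit 138) (nat_lit 0) (cs (lf (nat_lit 19) (nat_lit 138)) (lf (nat_lit 47) (nat_lit 116)))) q36717 (by decide +kernel)
def q36722 : Q := Q.p (nat_lit 0x200000800002000008000020000000000000000000000000000000000000000) (nat_lit 0x100000400001000000000000000000000000000000000000000000000000000000000) (nat_lit 2)
theorem c36722 : QOK q36722 := cut [] trivial (nd (nat_lit 250) (nat_lit 0) (cs (lf (nat_lit 28) (nat_lit 161)) (lf (nat_lit 29) (nat_lit 183)))) q36722 (by decide +kernel)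
def q36732 : Q := Q.p (nat_lit 0x2000008000020000080000000000000000000000000000000000) (nat_lit 0x100000c00001000000000010000040000100000000000000000000000000000) (nat_lit 4)
theorem c36732 : QOK q36732 := cut [] trivial (nd (nat_lit 226) (nat_lit 0) (cs (lf (nat_lit 40) (nat_lit 138)) (nd (nat_lit 138) (nat_lit 0) (cs (lf (nat_lit 47) (nat_lit 116)) (nd (nat_lit 227) (nat_lit 0) (cs (lf (nat_lit 46) (nat_lit 138)) (lf (nat_lit 41) (nat_lit 160)))))))) q36732 (by decide +kernel)
def q36749 : Q := Q.p (nat_lit 0x40000160000080000200000000000000000000000000000) (nat_lit 0x8e000090000000000000000800000000000000000000000) (nat_lit 4)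
theorem c36749 : QOK q36749 := cut [] trivial (nd (nat_lit 163) (nat_lit 0) (cs (lf (nat_lit 5) (nat_lit 161)) (nd (nat_lit 182) (nat_lit 0) (cs (lf (nat_lit 10) (nat_lit 160)) (nd (nat_lit 160) (nat_lit 0) (cs (lf (nat_lit 11) (nat_lit 159)) (lf (nat_lit 36) (nat_lit 94)))))))) q36749 (by decide +kernel)
def q36912 : Q := Q.p (nat_lit 0x70000600000000000000000000000000000000000) (nat_lit 0x8000180000000000000000000000000000000000) (nat_lit 2)
theorem c36912 : QOK q36912 := cut [] trivial (nd (nat_lit 140) (nat_lit 0) (cs (lf (nat_lit 12) (nat_lit 137)) (lf (nat_lit 9) (nat_lit 138)))) q36912 (by decide +kernel)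
def q36940 : Q := Q.p (nat_lit 0x80000300000c0000000000000000000000000000000000) (nat_lit 0x2000000000000000000000100000400000000000000000000000) (nat_lit 2)
theorem c36940 : QOK q36940 := cut [] trivial (nd (nat_lit 116) (nat_lit 0) (cs (lf (nat_lit 42) (nat_lit 116)) (lf (nat_lit 24) (nat_lit 94)))) q36940 (by decide +kernel)
def q36964 : Q := Q.p (nat_lit 0x40000000000400000e00002000000000000000000000000) (nat_lit 0x100000800001000000000000000000000000000000) (nat_lit 2)
theorem c36964 : QOK q36964 := cut [] trivial (nd (nat_lit 120) (nat_lit 0) (cs (lf (nat_lit 5) (nat_lit 117)) (lf (nat_lit 43) (nat_lit 97)))) q36964 (by decide +kernel)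
def q37017 : Q := Q.p (nat_lit 0x140000c00000000000000000000000000000000000) (nat_lit 0xa0003200000000000000000000000000000000000) (nat_lit 3)
theorem c37017 : QOK q37017 := cut [] trivial (nd (nat_lit 163) (nat_lit 0) (cs (lf (nat_lit 12) (nat_lit 139)) (nd (nat_lit 144) (nat_lit 0) (cs (lf (nat_lit 6) (nat_lit 141)) (lf (nat_lit 9) (nat_lit 140)))))) q37017 (by decide +kernel)
def q37091 : Q := Q.p (nat_lit 0x18000060000080000000000000000000000000000000000) (nat_lit 0x4000000000000000000000200000800000000000000000000000) (nat_lit 2)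
theorem c37091 : QOK q37091 := cut [] trivial (nd (nat_lit 117) (nat_lit 0) (cs (lf (nat_lit 24) (nat_lit 95)) (lf (nat_lit 29) (nat_lit 117)))) q37091 (by decide +kernel)
def q37103 : Q := Q.p (nat_lit 0x200000c0000300000000000000000000000000000) (nat_lit 0x8000000000000000000000400001000000000000000000) (nat_lit 2)
theorem c37103 : QOK q37103 := cut [] trivial (nd (nat_lit 94) (nat_lit 0) (cs (lf (nat_lit 24) (nat_lit 72)) (lf (nat_lit 42) (nat_lit 94)))) q37103 (by decide +kernel)
def q37119 : Q := Q.p (nat_lit 0x1e000000000000000100000000000000000000000000000) (nat_lit 0xc0000000001c000060000000000000000000000000000000000) (nat_lit 4)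
theorem c37119 : QOK q37119 := cut [] trivial (nd (nat_lit 203) (nat_lit 0) (cs (lf (nat_lit 11) (nat_lit 180)) (nd (nat_lit 159) (nat_lit 0) (cs (lf (nat_lit 23) (nat_lit 158)) (nd (nat_lit 138) (nat_lit 0) (cs (lf (nat_lit 33) (nat_lit 115)) (lf (nat_lit 38) (nat_lit 115)))))))) q37119 (by decide +kernel)
def q37157 : Q := Q.p (nat_lit 0x10000040000160000400000000000000000000000000000000000) (nat_lit 0x210000b80000800000000000000000000000000000) (nat_lit 4)
theorem c37157 : QOK q37157 := cut [] trivial (nd (nat_lit 141) (nat_lit 0) (cs (lf (nat_lit 47) (nat_lit 119)) (nd (nat_lit 140) (nat_lit 0) (cs (lf (nat_lit 6) (nat_lit 139)) (nd (nat_lit 139) (nat_lit 0) (cs (lf (nat_lit 5) (nat_lit 139)) (lf (nat_lit 11) (nat_lit 138)))))))) q37157 (by decide +kernel)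
def q37212 : Q := Q.p (nat_lit 0x8000060000080000200000000000000000000000000000) (nat_lit 0x3000007000000000070000d00001400000000000000000000000) (nat_lit 7)
theorem c37212 : QOK q37212 := cut [] trivial (nd (nat_lit 182) (nat_lit 0) (cs (lf (nat_lit 41) (nat_lit 116)) (nd (nat_lit 116) (nat_lit 0) (cs (lf (nat_lit 47) (nat_lit 94)) (nd (nat_lit 180) (nat_lit 0) (cs (lf (nat_lit 13) (nat_lit 158)) (nd (nat_lit 118) (nat_lit 0) (cs (lf (nat_lit 35) (nat_lit 95)) (nd (nat_lit 138) (nat_lit 0) (cs (lf (nat_lit 42) (nat_lit 116)) (nd (nat_lit 137) (nat_lit 0) (cs (lf (nat_lit 0) (nat_lit 136)) (lf (nat_lit 6) (nat_lit 115)))))))))))))) q37212 (by decide +kernel)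
def q37219 : Q := Q.p (nat_lit 0x1c00012000000000000000000000000000000000000000000000000000) (nat_lit 0x200000c000000000000000000000000000000000000000000000000000) (nat_lit 2)
theorem c37219 : QOK q37219 := cut [] trivial (nd (nat_lit 207) (nat_lit 0) (cs (lf (nat_lit 15) (nat_lit 204)) (lf (nat_lit 8) (nat_lit 204)))) q37219 (by decide +kernel)
def q37237 : Q := Q.p (nat_lit 0x2000008000030000040000000000000000000000000000000000) (nat_lit 0x4000000000000000100000400000000000000000000000) (nat_lit 2)
theorem c37237 : QOK q37237 := cut [] trivial (nd (nat_lit 116) (nat_lit 0) (cs (lf (nat_lit 24) (nat_lit 94)) (lf (nat_lit 27) (nat_lit 116)))) q37237 (by decide +kernel)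
def q37266 : Q := Q.p (nat_lit 0x10000080000200000c00000000000000000000000000000000000000000000000000000000) (nat_lit 0x4000020000000000000000000001000000000000000000000000000000000000000000000000000) (nat_lit 2)
theorem c37266 : QOK q37266 := cut [] trivial (nd (nat_lit 293) (nat_lit 0) (cs (lf (nat_lit 47) (nat_lit 204)) (lf (nat_lit 41) (nat_lit 226)))) q37266 (by decide +kernel)
def q37281 : Q := Q.p (nat_lit 0x800002000008000020000000000000000000000000000000000000000) (nat_lit 0x100000600001000000000004000010000040000000000000000000000000000000000) (nat_lit 4)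
theorem c37281 : QOK q37281 := cut [] trivial (nd (nat_lit 160) (nat_lit 0) (cs (lf (nat_lit 47) (nat_lit 138)) (nd (nat_lit 250) (nat_lit 0) (cs (lf (nat_lit 28) (nat_lit 161)) (nd (nat_lit 249) (nat_lit 0) (cs (lf (nat_lit 29) (nat_lit 183)) (lf (nat_lit 46) (nat_lit 160)))))))) q37281 (by decide +kernel)
def q37282 : Q := Q.p (nat_lit 0x1c00003000000000000000000000000000000000000000000000000000) (nat_lit 0x2000000c00000000000000000000000000000000000000000000000000) (nat_lit 2)
theorem c37282 : QOK q37282 := cut [] trivial (nd (nat_lit 203) (nat_lit 0) (cs (lf (nat_lit 0) (nat_lit 202)) (lf (nat_lit 18) (nat_lit 203)))) q37282 (by decide +kernel)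
def q37288 : Q := Q.p (nat_lit 0x2000008000030000040000000000000000000000000000000000) (nat_lit 0x80000100000400000000000000000000000) (nat_lit 2)
theorem c37288 : QOK q37288 := cut [] trivial (nd (nat_lit 116) (nat_lit 0) (cs (lf (nat_lit 24) (nat_lit 94)) (lf (nat_lit 45) (nat_lit 116)))) q37288 (by decide +kernel)
def q37325 : Q := Q.p (nat_lit 0x800001c000040000000000000000000000000000000000) (nat_lit 0x4000002000080000000000000000000000000000000000) (nat_lit 2)
theorem c37325 : QOK q37325 := cut [] trivial (nd (nat_lit 157) (nat_lit 0) (cs (lf (nat_lit 4) (nat_lit 157)) (lf (nat_lit 17) (nat_lit 135)))) q37325 (by decide +kernel)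
def q37344 : Q := Q.p (nat_lit 0x1a000068000000000000000000000000000000000000000) (nat_lit 0x1000014000000000000000000000000000000000000000) (nat_lit 2)
theorem c37344 : QOK q37344 := cut [] trivial (nd (nat_lit 160) (nat_lit 0) (cs (lf (nat_lit 0) (nat_lit 158)) (lf (nat_lit 11) (nat_lit 158)))) q37344 (by decide +kernel)
def q37347 : Q := Q.p (nat_lit 0x680000a0000000000000000000000000000000000) (nat_lit 0x10000050000000000000000000000000000000000) (nat_lit 2)
theorem c37347 : QOK q37347 := cut [] trivial (nd (nat_lit 136) (nat_lit 0) (cs (lf (nat_lit 20) (nat_lit 136)) (lf (nat_lit 2) (nat_lit 136)))) q37347 (by decide +kernel)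
def q37357 : Q := Q.p (nat_lit 0x20000680000a0000000000000000000000000000000000) (nat_lit 0x8000000000000000500000c0000100000400000000000000000) (nat_lit 4)
theorem c37357 : QOK q37357 := cut [] trivial (nd (nat_lit 136) (nat_lit 0) (cs (lf (nat_lit 2) (nat_lit 136)) (nd (nat_lit 114) (nat_lit 0) (cs (nd (nat_lit 92) (nat_lit 0) (cs (lf (nat_lit 24) (nat_lit 70)) (lf (nat_lit 45) (nat_lit 92)))) (lf (nat_lit 42) (nat_lit 114)))))) q37357 (by decide +kernel)
def q37362 : Q := Q.p (nat_lit 0x2000008000020000080000000000000000000000000000) (nat_lit 0x400001000004000000000100000600001000000000000000000) (nat_lit 4)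
theorem c37362 : QOK q37362 := cut [] trivial (nd (nat_lit 94) (nat_lit 0) (cs (lf (nat_lit 34) (nat_lit 93)) (nd (nat_lit 180) (nat_lit 0) (cs (lf (nat_lit 41) (nat_lit 114)) (nd (nat_lit 93) (nat_lit 0) (cs (lf (nat_lit 35) (nat_lit 71)) (lf (nat_lit 40) (nat_lit 92)))))))) q37362 (by decide +kernel)
def q37366 : Q := Q.p (nat_lit 0x2000008000020000080000000000000000000000000000) (nat_lit 0x100000c00001000000000040000100000400000000000000000000000) (nat_lit 4)
theorem c37366 : QOK q37366 := cut [] trivial (nd (nat_lit 116) (nat_lit 0) (cs (lf (nat_lit 35) (nat_lit 93)) (nd (nat_lit 202) (nat_lit 0) (cs (lf (nat_lit 40) (nat_lit 114)) (nd (nat_lit 203) (nat_lit 0) (cs (lf (nat_lit 34) (nat_lit 115)) (lf (nat_lit 41) (nat_lit 136)))))))) q37366 (by decide +kernel)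
def q37372 : Q := Q.p (nat_lit 0x20000680000a00000c0000000000000000000000000000) (nat_lit 0x50000120000400000000000000000000000) (nat_lit 3)
theorem c37372 : QOK q37372 := cut [] trivial (nd (nat_lit 116) (nat_lit 0) (cs (lf (nat_lit 35) (nat_lit 93)) (nd (nat_lit 138) (nat_lit 0) (cs (lf (nat_lit 0) (nat_lit 136)) (lf (nat_lit 0) (nat_lit 113)))))) q37372 (by decide +kernel)
def q37379 : Q := Q.p (nat_lit 0x2000008000060000000000000000000000000000000000) (nat_lit 0x800000000000000000000180000400001000000000000000000) (nat_lit 3)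
theorem c37379 : QOK q37379 := cut [] trivial (nd (nat_lit 116) (nat_lit 0) (cs (nd (nat_lit 94) (nat_lit 0) (cs (lf (nat_lit 36) (nat_lit 71)) (lf (nat_lit 33) (nat_lit 93)))) (lf (nat_lit 30) (nat_lit 115)))) q37379 (by decide +kernel)
def q37384 : Q := Q.p (nat_lit 0x2000008000030000000000000000000000000000000000) (nat_lit 0x800000000004000000000040000100000400000000000000000) (nat_lit 3)
theorem c37384 : QOK q37384 := cut [] trivial (nd (nat_lit 114) (nat_lit 0) (cs (lf (nat_lit 42) (nat_lit 114)) (nd (nat_lit 92) (nat_lit 0) (cs (lf (nat_lit 24) (nat_lit 70)) (lf (nat_lit 27) (nat_lit 92)))))) q37384 (by decide +kernel)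
def q37389 : Q := Q.p (nat_lit 0x2000008000020000080000000000000000000000000000) (nat_lit 0x100000c00001000000000010000040000100000000000000000000000) (nat_lit 4)
theorem c37389 : QOK q37389 := cut [] trivial (nd (nat_lit 202) (nat_lit 0) (cs (lf (nat_lit 40) (nat_lit 114)) (nd (nat_lit 114) (nat_lit 0) (cs (lf (nat_lit 47) (nat_lit 92)) (nd (nat_lit 203) (nat_lit 0) (cs (lf (nat_lit 46) (nat_lit 114)) (lf (nat_lit 41) (nat_lit 136)))))))) q37389 (by decide +kernel)
def q37414 : Q := Q.p (nat_lit 0x1a000028000000000000000000000000000000000000000) (nat_lit 0x4000014000000000000000000000000000000000000000) (nat_lit 2)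
theorem c37414 : QOK q37414 := cut [] trivial (nd (nat_lit 158) (nat_lit 0) (cs (lf (nat_lit 2) (nat_lit 158)) (lf (nat_lit 20) (nat_lit 158)))) q37414 (by decide +kernel)
def q37423 : Q := Q.p (nat_lit 0x1000004000018000020000000000000000000000000000000000) (nat_lit 0x40000080000200000000000000000000000) (nat_lit 2)
theorem c37423 : QOK q37423 := cut [] trivial (nd (nat_lit 115) (nat_lit 0) (cs (lf (nat_lit 24) (nat_lit 93)) (lf (nat_lit 45) (nat_lit 115)))) q37423 (by decide +kernel)
def q37428 : Q := Q.p (nat_lit 0x1800006000010000000000000000000000000000000000000000) (nat_lit 0x200000000000000000000040000100000000000000000000000000000) (nat_lit 2)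
theorem c37428 : QOK q37428 := cut [] trivial (nd (nat_lit 138) (nat_lit 0) (cs (lf (nat_lit 41) (nat_lit 137)) (lf (nat_lit 36) (nat_lit 115)))) q37428 (by decide +kernel)
def q37433 : Q := Q.p (nat_lit 0x200000800006000010000000000000000000000000000000000000000) (nat_lit 0x1000000000000000040000100000000000000000000000000000) (nat_lit 2)
theorem c37433 : QOK q37433 := cut [] trivial (nd (nat_lit 138) (nat_lit 0) (cs (lf (nat_lit 36) (nat_lit 115)) (lf (nat_lit 39) (nat_lit 137)))) q37433 (by decide +kernel)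
def q37437 : Q := Q.p (nat_lit 0x800006000018000000000000000000000000000000000000000) (nat_lit 0x200000000000000000000040000100000000000000000000000000000) (nat_lit 2)
theorem c37437 : QOK q37437 := cut [] trivial (nd (nat_lit 138) (nat_lit 0) (cs (lf (nat_lit 30) (nat_lit 137)) (lf (nat_lit 36) (nat_lit 115)))) q37437 (by decide +kernel)
def q37485 : Q := Q.p (nat_lit 0x18000078000040000000000000000000000000000000000000000) (nat_lit 0x800002000000000000000300000400000000000000000000000000000000000) (nat_lit 3)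
theorem c37485 : QOK q37485 := cut [] trivial (nd (nat_lit 229) (nat_lit 0) (cs (lf (nat_lit 42) (nat_lit 162)) (nd (nat_lit 164) (nat_lit 0) (cs (lf (nat_lit 36) (nat_lit 141)) (lf (nat_lit 17) (nat_lit 161)))))) q37485 (by decide +kernel)
def q37492 : Q := Q.p (nat_lit 0xc0000700000000000000000000000000000) (nat_lit 0x20001800000000000000000000000000000) (nat_lit 2)
theorem c37492 : QOK q37492 := cut [] trivial (nd (nat_lit 119) (nat_lit 0) (cs (lf (nat_lit 11) (nat_lit 115)) (lf (nat_lit 6) (nat_lit 116)))) q37492 (by decide +kernel)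
def q37500 : Q := Q.p (nat_lit 0x1800000000018000060000000000000000000000000000000000000000) (nat_lit 0x600000000004000000000000000000000000000000000000000000000000000) (nat_lit 2)
theorem c37500 : QOK q37500 := cut [] trivial (nd (nat_lit 206) (nat_lit 0) (cs (lf (nat_lit 42) (nat_lit 161)) (lf (nat_lit 41) (nat_lit 161)))) q37500 (by decide +kernel)
def q37515 : Q := Q.p (nat_lit 0x400000e00000400000000000000000000000000000000000000000000000000) (nat_lit 0x200000100000200000000000000000000000000000000000000000000000000) (nat_lit 2)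
theorem c37515 : QOK q37515 := cut [] trivial (nd (nat_lit 224) (nat_lit 0) (cs (lf (nat_lit 23) (nat_lit 201)) (lf (nat_lit 4) (nat_lit 224)))) q37515 (by decide +kernel)
def q37533 : Q := Q.p (nat_lit 0x1f00000000000000000000000000000000000000000000000000000000) (nat_lit 0xe00000000000000000000000000000000000000000000000000) (nat_lit 2)
theorem c37533 : QOK q37533 := cut [] trivial (nd (nat_lit 202) (nat_lit 0) (cs (lf (nat_lit 22) (nat_lit 202)) (lf (nat_lit 23) (nat_lit 201)))) q37533 (by decide +kernel)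
def q37550 : Q := Q.p (nat_lit 0x18000070000040000000000000000000000000000000000) (nat_lit 0x300000c0000700000c000030000000000000000000000000000000000) (nat_lit 6)
theorem c37550 : QOK q37550 := cut [] trivial (nd (nat_lit 159) (nat_lit 0) (cs (lf (nat_lit 0) (nat_lit 158)) (nd (nat_lit 137) (nat_lit 0) (cs (lf (nat_lit 23) (nat_lit 136)) (nd (nat_lit 181) (nat_lit 0) (cs (lf (nat_lit 11) (nat_lit 158)) (nd (nat_lit 203) (nat_lit 0) (cs (lf (nat_lit 30) (nat_lit 137)) (nd (nat_lit 202) (nat_lit 0) (cs (lf (nat_lit 41) (nat_lit 136)) (lf (nat_lit 8) (nat_lit 180)))))))))))) q37550 (by decide +kernel)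
def q37584 : Q := Q.p (nat_lit 0x400000000018000070000000000000000000000000000000000000000) (nat_lit 0x180000700000c000030000000000000000000000000000000000) (nat_lit 5)
theorem c37584 : QOK q37584 := cut [] trivial (nd (nat_lit 159) (nat_lit 0) (cs (lf (nat_lit 0) (nat_lit 158)) (nd (nat_lit 181) (nat_lit 0) (cs (lf (nat_lit 11) (nat_lit 158)) (nd (nat_lit 137) (nat_lit 0) (cs (lf (nat_lit 23) (nat_lit 136)) (nd (nat_lit 204) (nat_lit 0) (cs (lf (nat_lit 44) (nat_lit 137)) (lf (nat_lit 27) (nat_lit 137)))))))))) q37584 (by decide +kernel)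
def q37596 : Q := Q.p (nat_lit 0x4000010000040000100000000000000000000000000000) (nat_lit 0x1000000000000000030000e80000a00000000000000000000000) (nat_lit 5)
theorem c37596 : QOK q37596 := cut [] trivial (nd (nat_lit 117) (nat_lit 0) (cs (lf (nat_lit 35) (nat_lit 94)) (nd (nat_lit 115) (nat_lit 0) (cs (lf (nat_lit 47) (nat_lit 93)) (nd (nat_lit 137) (nat_lit 0) (cs (lf (nat_lit 42) (nat_lit 115)) (nd (nat_lit 118) (nat_lit 0) (cs (lf (nat_lit 11) (nat_lit 114)) (lf (nat_lit 6) (nat_lit 115)))))))))) q37596 (by decide +kernel)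
def q37642 : Q := Q.p (nat_lit 0x10000040000700000c0000000000000000000000000000000000) (nat_lit 0x30000080000000000000000000000000000) (nat_lit 2)
theorem c37642 : QOK q37642 := cut [] trivial (nd (nat_lit 137) (nat_lit 0) (cs (lf (nat_lit 0) (nat_lit 136)) (lf (nat_lit 47) (nat_lit 115)))) q37642 (by decide +kernel)
def q37653 : Q := Q.p (nat_lit 0x2000018000060000000000000000000000000000000000000000) (nat_lit 0x700003c00001c00000000000000080000000000000000000000000000000000) (nat_lit 6)
theorem c37653 : QOK q37653 := cut [] trivial (nd (nat_lit 227) (nat_lit 0) (cs (lf (nat_lit 30) (nat_lit 161)) (nd (nat_lit 226) (nat_lit 0) (cs (lf (nat_lit 41) (nat_lit 160)) (nd (nat_lit 204) (nat_lit 0) (cs (lf (nat_lit 36) (nat_lit 138)) (nd (nat_lit 203) (nat_lit 0) (cs (lf (nat_lit 12) (nat_lit 180)) (nd (nat_lit 228) (nat_lit 0) (cs (lf (nat_lit 29) (nat_lit 161)) (lf (nat_lit 18) (nat_lit 203)))))))))))) q37653 (by decide +kernel)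
def q37663 : Q := Q.p (nat_lit 0x70000060000000000000000000000000000000000) (nat_lit 0x98000000000000000000000000000000000) (nat_lit 2)
theorem c37663 : QOK q37663 := cut [] trivial (nd (nat_lit 136) (nat_lit 0) (cs (lf (nat_lit 0) (nat_lit 135)) (lf (nat_lit 3) (nat_lit 136)))) q37663 (by decide +kernel)
def q37680 : Q := Q.p (nat_lit 0x100000c000030000000000000000000000000000000000000000) (nat_lit 0x400000000000000000000080000200000000000000000000000000000) (nat_lit 2)
theorem c37680 : QOK q37680 := cut [] trivial (nd (nat_lit 139) (nat_lit 0) (cs (lf (nat_lit 36) (nat_lit 116)) (lf (nat_lit 30) (nat_lit 138)))) q37680 (by decide +kernel)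
def q37724 : Q := Q.p (nat_lit 0x12000018000060000000000000000000000000000000000000000) (nat_lit 0x300000c0000d000000000000000080000200000000000000000000000000000) (nat_lit 5)
theorem c37724 : QOK q37724 := cut [] trivial (nd (nat_lit 227) (nat_lit 0) (cs (lf (nat_lit 30) (nat_lit 161)) (nd (nat_lit 226) (nat_lit 0) (cs (lf (nat_lit 41) (nat_lit 160)) (nd (nat_lit 139) (nat_lit 0) (cs (lf (nat_lit 40) (nat_lit 138)) (nd (nat_lit 206) (nat_lit 0) (cs (lf (nat_lit 24) (nat_lit 117)) (lf (nat_lit 7) (nat_lit 204)))))))))) q37724 (by decide +kernel)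
def q37769 : Q := Q.p (nat_lit 0x800002000068000020000000000000000000000000000000000) (nat_lit 0x10000010000040000000000000000000000000000) (nat_lit 2)
theorem c37769 : QOK q37769 := cut [] trivial (nd (nat_lit 136) (nat_lit 0) (cs (lf (nat_lit 47) (nat_lit 114)) (lf (nat_lit 20) (nat_lit 136)))) q37769 (by decide +kernel)
def q37828 : Q := Q.p (nat_lit 0x100000400001e0000000000000000000000000000000000000000) (nat_lit 0x10000e00000800000000000000000000000000000) (nat_lit 3)
theorem c37828 : QOK q37828 := cut [] trivial (nd (nat_lit 142) (nat_lit 0) (cs (lf (nat_lit 17) (nat_lit 139)) (nd (nat_lit 141) (nat_lit 0) (cs (lf (nat_lit 47) (nat_lit 119)) (lf (nat_lit 12) (nat_lit 138)))))) q37828 (by decide +kernel)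
def q37900 : Q := Q.p (nat_lit 0xc0000e0000000000000000000000000000000000000000) (nat_lit 0x13000000000000000000000000000000000000000000000) (nat_lit 2)
theorem c37900 : QOK q37900 := cut [] trivial (nd (nat_lit 181) (nat_lit 0) (cs (lf (nat_lit 12) (nat_lit 158)) (lf (nat_lit 15) (nat_lit 159)))) q37900 (by decide +kernel)
def q37924 : Q := Q.p (nat_lit 0x80000200000c000020000000000000000000000000000000000000000) (nat_lit 0x180000600001400001000000000000000080000200000000000000000000000000000) (nat_lit 5)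
theorem c37924 : QOK q37924 := cut [] trivial (nd (nat_lit 250) (nat_lit 0) (cs (lf (nat_lit 28) (nat_lit 161)) (nd (nat_lit 249) (nat_lit 0) (cs (lf (nat_lit 29) (nat_lit 183)) (nd (nat_lit 204) (nat_lit 0) (cs (lf (nat_lit 42) (nat_lit 182)) (nd (nat_lit 139) (nat_lit 0) (cs (lf (nat_lit 36) (nat_lit 116)) (lf (nat_lit 41) (nat_lit 138)))))))))) q37924 (by decide +kernel)
def q37941 : Q := Q.p (nat_lit 0xc0001300004c000160000400000000000000000000000000000000000) (nat_lit 0x3000008e00003800000000000000000000000000000000000000000000) (nat_lit 5)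
theorem c37941 : QOK q37941 := cut [] trivial (nd (nat_lit 180) (nat_lit 0) (cs (lf (nat_lit 13) (nat_lit 158)) (nd (nat_lit 229) (nat_lit 0) (cs (lf (nat_lit 40) (nat_lit 141)) (nd (nat_lit 203) (nat_lit 0) (cs (nd (nat_lit 202) (nat_lit 0) (cs (lf (nat_lit 23) (nat_lit 179)) (lf (nat_lit 0) (nat_lit 201)))) (lf (nat_lit 19) (nat_lit 203)))))))) q37941 (by decide +kernel)
def q37955 : Q := Q.p (nat_lit 0x80000200000c000020000000000000000000000000000000000000000) (nat_lit 0x400001c0000700000400001000000000000000000000000000000000000000000000000000) (nat_lit 5)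
theorem c37955 : QOK q37955 := cut [] trivial (nd (nat_lit 248) (nat_lit 0) (cs (lf (nat_lit 40) (nat_lit 160)) (nd (nat_lit 249) (nat_lit 0) (cs (lf (nat_lit 41) (nat_lit 182)) (nd (nat_lit 271) (nat_lit 0) (cs (lf (nat_lit 46) (nat_lit 182)) (nd (nat_lit 272) (nat_lit 0) (cs (lf (nat_lit 29) (nat_lit 205)) (lf (nat_lit 28) (nat_lit 183)))))))))) q37955 (by decide +kernel)
def q37976 : Q := Q.p (nat_lit 0x40000100000400001000004000000000000000000000000000000000000000) (nat_lit 0x800002000008000000000000000000000000000000000) (nat_lit 2)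
theorem c37976 : QOK q37976 := cut [] trivial (nd (nat_lit 157) (nat_lit 0) (cs (lf (nat_lit 47) (nat_lit 135)) (lf (nat_lit 46) (nat_lit 157)))) q37976 (by decide +kernel)
def q37997 : Q := Q.p (nat_lit 0x8000078000000000000000000000000000000000000000) (nat_lit 0x13800004000000000000000000000000000000000000000) (nat_lit 3)
theorem c37997 : QOK q37997 := cut [] trivial (nd (nat_lit 158) (nat_lit 0) (cs (lf (nat_lit 5) (nat_lit 158)) (nd (nat_lit 180) (nat_lit 0) (cs (lf (nat_lit 11) (nat_lit 157)) (lf (nat_lit 10) (nat_lit 158)))))) q37997 (by decide +kernel)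
def q38003 : Q := Q.p (nat_lit 0x8000038000000000000000000000000000000000000000) (nat_lit 0x15c00006000000000000000000000000000000000000000) (nat_lit 4)
theorem c38003 : QOK q38003 := cut [] trivial (nd (nat_lit 158) (nat_lit 0) (cs (lf (nat_lit 5) (nat_lit 158)) (nd (nat_lit 179) (nat_lit 0) (cs (lf (nat_lit 10) (nat_lit 157)) (nd (nat_lit 157) (nat_lit 0) (cs (lf (nat_lit 11) (nat_lit 156)) (lf (nat_lit 4) (nat_lit 157)))))))) q38003 (by decide +kernel)
def q38007 : Q := Q.p (nat_lit 0x100000c00002c0000600000000000000000000000000000) (nat_lit 0x1800002000000000000000000000000) (nat_lit 2)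
theorem c38007 : QOK q38007 := cut [] trivial (nd (nat_lit 119) (nat_lit 0) (cs (lf (nat_lit 36) (nat_lit 96)) (lf (nat_lit 6) (nat_lit 116)))) q38007 (by decide +kernel)
def q38022 : Q := Q.p (nat_lit 0x480000e0000000000000000000000000000000000000000) (nat_lit 0x84000100000000000000000000000000000000000000000) (nat_lit 2)
theorem c38022 : QOK q38022 := cut [] trivial (nd (nat_lit 164) (nat_lit 0) (cs (lf (nat_lit 5) (nat_lit 161)) (lf (nat_lit 11) (nat_lit 160)))) q38022 (by decide +kernel)
def q38025 : Q := Q.p (nat_lit 0xc000060000000000000000000000000000000000000000) (nat_lit 0x13000090000000000000000000000000000000000000000) (nat_lit 3)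
theorem c38025 : QOK q38025 := cut [] trivial (nd (nat_lit 181) (nat_lit 0) (cs (lf (nat_lit 12) (nat_lit 158)) (nd (nat_lit 163) (nat_lit 0) (cs (lf (nat_lit 9) (nat_lit 159)) (lf (nat_lit 15) (nat_lit 159)))))) q38025 (by decide +kernel)
def q38031 : Q := Q.p (nat_lit 0x600000c000020000000000000000000000000000000000000000) (nat_lit 0x1400001000000000000000080000200000000000000000000000000000) (nat_lit 3)
theorem c38031 : QOK q38031 := cut [] trivial (nd (nat_lit 139) (nat_lit 0) (cs (lf (nat_lit 29) (nat_lit 139)) (nd (nat_lit 204) (nat_lit 0) (cs (lf (nat_lit 36) (nat_lit 116)) (lf (nat_lit 41) (nat_lit 138)))))) q38031 (by decide +kernel)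
def q38036 : Q := Q.p (nat_lit 0xc000038000000000000000000000000000000000000000) (nat_lit 0x10000006000000000000000000000000000000000000000) (nat_lit 2)
theorem c38036 : QOK q38036 := cut [] trivial (nd (nat_lit 158) (nat_lit 0) (cs (lf (nat_lit 0) (nat_lit 157)) (lf (nat_lit 5) (nat_lit 158)))) q38036 (by decide +kernel)
def q38062 : Q := Q.p (nat_lit 0x380000c000000000000000000000000000000000000000000000) (nat_lit 0x600010000000000000000000000000000000000000000000000) (nat_lit 2)
theorem c38062 : QOK q38062 := cut [] trivial (nd (nat_lit 202) (nat_lit 0) (cs (lf (nat_lit 12) (nat_lit 179)) (lf (nat_lit 17) (nat_lit 180)))) q38062 (by decide +kernel)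
def q38070 : Q := Q.p (nat_lit 0xc000030000040000000000000000000000000000000000) (nat_lit 0x800002000000000000000000000100000000000000000000000000000) (nat_lit 2)
theorem c38070 : QOK q38070 := cut [] trivial (nd (nat_lit 205) (nat_lit 0) (cs (lf (nat_lit 24) (nat_lit 116)) (lf (nat_lit 42) (nat_lit 138)))) q38070 (by decide +kernel)
def q38103 : Q := Q.p (nat_lit 0xe000008000000000000000000000000000000000000000) (nat_lit 0x10000017000000000000000000000000000000000000000) (nat_lit 3)
theorem c38103 : QOK q38103 := cut [] trivial (nd (nat_lit 158) (nat_lit 0) (cs (lf (nat_lit 18) (nat_lit 158)) (nd (nat_lit 157) (nat_lit 0) (cs (lf (nat_lit 0) (nat_lit 156)) (lf (nat_lit 3) (nat_lit 157)))))) q38103 (by decide +kernel)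
def q38122 : Q := Q.p (nat_lit 0x180000200000800002000000000000000000000000000000000000000000000) (nat_lit 0x10000040000500000000000000008000000000000000000000000000000000000000) (nat_lit 3)
theorem c38122 : QOK q38122 := cut [] trivial (nd (nat_lit 246) (nat_lit 0) (cs (lf (nat_lit 41) (nat_lit 180)) (nd (nat_lit 159) (nat_lit 0) (cs (lf (nat_lit 28) (nat_lit 159)) (lf (nat_lit 40) (nat_lit 158)))))) q38122 (by decide +kernel)
def q38137 : Q := Q.p (nat_lit 0xe000060000000000000000000000000000000000000000) (nat_lit 0x190000000000000000000000000000000000000000) (nat_lit 2)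
theorem c38137 : QOK q38137 := cut [] trivial (nd (nat_lit 163) (nat_lit 0) (cs (lf (nat_lit 6) (nat_lit 160)) (lf (nat_lit 9) (nat_lit 159)))) q38137 (by decide +kernel)
def q38151 : Q := Q.p (nat_lit 0xc000020000080000000000000000000000000000000000) (nat_lit 0x1000000000010000000000600001800004000000000000000000) (nat_lit 4)
theorem c38151 : QOK q38151 := cut [] trivial (nd (nat_lit 117) (nat_lit 0) (cs (lf (nat_lit 41) (nat_lit 116)) (nd (nat_lit 96) (nat_lit 0) (cs (lf (nat_lit 34) (nat_lit 95)) (nd (nat_lit 95) (nat_lit 0) (cs (lf (nat_lit 35) (nat_lit 73)) (lf (nat_lit 40) (nat_lit 94)))))))) q38151 (by decide +kernel)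
def q38154 : Q := Q.p (nat_lit 0x400001000004000008000020000000000000000000000000000000000000000) (nat_lit 0x100000000000800002000000000000000000000000000000000000000000000000000) (nat_lit 2)
theorem c38154 : QOK q38154 := cut [] trivial (nd (nat_lit 205) (nat_lit 0) (cs (lf (nat_lit 42) (nat_lit 183)) (lf (nat_lit 27) (nat_lit 161)))) q38154 (by decide +kernel)
def q38177 : Q := Q.p (nat_lit 0x3e000000000000000000000000000000000000000) (nat_lit 0x1c000000000000000000000000000000000000000000000) (nat_lit 2)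
theorem c38177 : QOK q38177 := cut [] trivial (nd (nat_lit 183) (nat_lit 0) (cs (lf (nat_lit 4) (nat_lit 157)) (lf (nat_lit 5) (nat_lit 158)))) q38177 (by decide +kernel)
def q38218 : Q := Q.p (nat_lit 0x40000e0000400000000000000000000000000000000000) (nat_lit 0x8000100000800000000000000000000000000000000000) (nat_lit 2)
theorem c38218 : QOK q38218 := cut [] trivial (nd (nat_lit 164) (nat_lit 0) (cs (lf (nat_lit 10) (nat_lit 160)) (lf (nat_lit 17) (nat_lit 139)))) q38218 (by decide +kernel)
def q38237 : Q := Q.p (nat_lit 0x1c000060000000000000000000000000000000000000000) (nat_lit 0x3000080000000000000000000000000000000000000000) (nat_lit 2)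
theorem c38237 : QOK q38237 := cut [] trivial (nd (nat_lit 181) (nat_lit 0) (cs (lf (nat_lit 17) (nat_lit 159)) (lf (nat_lit 12) (nat_lit 158)))) q38237 (by decide +kernel)
def q38241 : Q := Q.p (nat_lit 0x2000008000060000180000000000000000000000000000000000) (nat_lit 0x80000070000100000000000000000000000000000) (nat_lit 3)
theorem c38241 : QOK q38241 := cut [] trivial (nd (nat_lit 138) (nat_lit 0) (cs (lf (nat_lit 47) (nat_lit 116)) (nd (nat_lit 137) (nat_lit 0) (cs (lf (nat_lit 0) (nat_lit 136)) (lf (nat_lit 5) (nat_lit 137)))))) q38241 (by decide +kernel)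
def q38259 : Q := Q.p (nat_lit 0x18000070000000000000000000000000000000000000000) (nat_lit 0x200000000000c000300000400001000000000000000000000000) (nat_lit 4)
theorem c38259 : QOK q38259 := cut [] trivial (nd (nat_lit 159) (nat_lit 0) (cs (lf (nat_lit 0) (nat_lit 158)) (nd (nat_lit 140) (nat_lit 0) (cs (lf (nat_lit 17) (nat_lit 137)) (nd (nat_lit 118) (nat_lit 0) (cs (lf (nat_lit 41) (nat_lit 117)) (lf (nat_lit 36) (nat_lit 95)))))))) q38259 (by decide +kernel)
def q38275 : Q := Q.p (nat_lit 0x2000018000060000000000000000000000000000000000) (nat_lit 0x800000000000000000000100000400000000000000000000000) (nat_lit 2)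
theorem c38275 : QOK q38275 := cut [] trivial (nd (nat_lit 116) (nat_lit 0) (cs (lf (nat_lit 36) (nat_lit 93)) (lf (nat_lit 30) (nat_lit 115)))) q38275 (by decide +kernel)
def q38292 : Q := Q.p (nat_lit 0x78000000000000000000000000000000000000000) (nat_lit 0x400001000007000080000030000080000000000000000000000000000) (nat_lit 5)
theorem c38292 : QOK q38292 := cut [] trivial (nd (nat_lit 137) (nat_lit 0) (cs (lf (nat_lit 23) (nat_lit 136)) (nd (nat_lit 181) (nat_lit 0) (cs (lf (nat_lit 11) (nat_lit 158)) (nd (nat_lit 182) (nat_lit 0) (cs (lf (nat_lit 6) (nat_lit 159)) (nd (nat_lit 204) (nat_lit 0) (cs (lf (nat_lit 42) (nat_lit 137)) (lf (nat_lit 24) (nat_lit 115)))))))))) q38292 (by decide +kernel)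
def q38309 : Q := Q.p (nat_lit 0x2000018000078000000000000000000000000000000000000000) (nat_lit 0x1c0000780001c000070000800000b0000000000000000000000000000000000) (nat_lit 9)
theorem c38309 : QOK q38309 := cut [] trivial (nd (nat_lit 136) (nat_lit 0) (cs (lf (nat_lit 22) (nat_lit 136)) (nd (nat_lit 181) (nat_lit 0) (cs (lf (nat_lit 11) (nat_lit 158)) (nd (nat_lit 182) (nat_lit 0) (cs (lf (nat_lit 17) (nat_lit 159)) (nd (nat_lit 203) (nat_lit 0) (cs (lf (nat_lit 11) (nat_lit 180)) (nd (nat_lit 225) (nat_lit 0) (cs (lf (nat_lit 30) (nat_lit 159)) (nd (nat_lit 226) (nat_lit 0) (cs (lf (nat_lit 29) (nat_lit 159)) (nd (nat_lit 204) (nat_lit 0) (cs (lf (nat_lit 35) (nat_lit 138)) (nd (nat_lit 224) (nat_lit 0) (cs (lf (nat_lit 41) (nat_lit 158)) (lf (nat_lit 12) (nat_lit 201)))))))))))))))))) q38309 (by decide +kernel)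
def q38317 : Q := Q.p (nat_lit 0x80000200000800002000008000000000000000000000000000000000000000) (nat_lit 0x10000040000100000000000000000000000000000000000000000000000000000000) (nat_lit 2)
theorem c38317 : QOK q38317 := cut [] trivial (nd (nat_lit 246) (nat_lit 0) (cs (lf (nat_lit 41) (nat_lit 180)) (lf (nat_lit 40) (nat_lit 158)))) q38317 (by decide +kernel)
def q38326 : Q := Q.p (nat_lit 0x100000800002000008000010000000000000000000000000000000000) (nat_lit 0x400000000000000020000040000000000000000000000000000) (nat_lit 2)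
theorem c38326 : QOK q38326 := cut [] trivial (nd (nat_lit 137) (nat_lit 0) (cs (lf (nat_lit 40) (nat_lit 136)) (lf (nat_lit 47) (nat_lit 114)))) q38326 (by decide +kernel)
def q38333 : Q := Q.p (nat_lit 0x80000300000c00000000000000000000000000000000000000000000000000) (nat_lit 0x8000020000000000000000000001000000000000000000000000000000000000000000000) (nat_lit 2)
theorem c38333 : QOK q38333 := cut [] trivial (nd (nat_lit 269) (nat_lit 0) (cs (lf (nat_lit 42) (nat_lit 202)) (lf (nat_lit 47) (nat_lit 180)))) q38333 (by decide +kernel)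
def q38367 : Q := Q.p (nat_lit 0x600000c0000000000000000000000000000000000) (nat_lit 0x90000130000000000000000000000000000000000) (nat_lit 3)
theorem c38367 : QOK q38367 := cut [] trivial (nd (nat_lit 137) (nat_lit 0) (cs (lf (nat_lit 0) (nat_lit 136)) (nd (nat_lit 163) (nat_lit 0) (cs (lf (nat_lit 21) (nat_lit 137)) (lf (nat_lit 3) (nat_lit 137)))))) q38367 (by decide +kernel)
def q38368 : Q := Q.p (nat_lit 0x2000018000060000000000000000000000000000000000000000) (nat_lit 0x200000800000000000000000000100000000000000000000000000000000000) (nat_lit 2)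
theorem c38368 : QOK q38368 := cut [] trivial (nd (nat_lit 227) (nat_lit 0) (cs (lf (nat_lit 35) (nat_lit 139)) (lf (nat_lit 30) (nat_lit 161)))) q38368 (by decide +kernel)
def q38433 : Q := Q.p (nat_lit 0x10000070000040000000000000000000000000000000000000000) (nat_lit 0xf00018e0000a0000000000000000000000000000000000000000) (nat_lit 6)
theorem c38433 : QOK q38433 := cut [] trivial (nd (nat_lit 187) (nat_lit 0) (cs (lf (nat_lit 23) (nat_lit 161)) (nd (nat_lit 205) (nat_lit 0) (cs (lf (nat_lit 10) (nat_lit 183)) (nd (nat_lit 183) (nat_lit 0) (cs (lf (nat_lit 11) (nat_lit 182)) (nd (nat_lit 182) (nat_lit 0) (cs (lf (nat_lit 4) (nat_lit 182)) (nd (nat_lit 163) (nat_lit 0) (cs (lf (nat_lit 18) (nat_lit 162)) (lf (nat_lit 12) (nat_lit 159)))))))))))) q38433 (by decide +kernel)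
def q38443 : Q := Q.p (nat_lit 0x1000004000030000040000000000000000000000000000000000000000) (nat_lit 0x400000000000000000000080000200000000000000000000000000000000000) (nat_lit 2)
theorem c38443 : QOK q38443 := cut [] trivial (nd (nat_lit 163) (nat_lit 0) (cs (lf (nat_lit 35) (nat_lit 140)) (lf (nat_lit 30) (nat_lit 162)))) q38443 (by decide +kernel)
def q38447 : Q := Q.p (nat_lit 0x60000180000400000000000000000000000000000) (nat_lit 0x8000000000000000000001000004000000000000000000) (nat_lit 2)
theorem c38447 : QOK q38447 := cut [] trivial (nd (nat_lit 96) (nat_lit 0) (cs (lf (nat_lit 41) (nat_lit 95)) (lf (nat_lit 36) (nat_lit 73)))) q38447 (by decide +kernel)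
def q38450 : Q := Q.p (nat_lit 0xc000012000070000000000000000000000000000000000000000) (nat_lit 0xc000080000000000000000000000000000000000000000) (nat_lit 2)
theorem c38450 : QOK q38450 := cut [] trivial (nd (nat_lit 182) (nat_lit 0) (cs (lf (nat_lit 6) (nat_lit 159)) (lf (nat_lit 2) (nat_lit 181)))) q38450 (by decide +kernel)
def q38483 : Q := Q.p (nat_lit 0x200000800002000008000020000000000000000000000000000000000) (nat_lit 0x100000400001000000000000000000000000000000000000000000000000000) (nat_lit 2)
theorem c38483 : QOK q38483 := cut [] trivial (nd (nat_lit 226) (nat_lit 0) (cs (lf (nat_lit 28) (nat_lit 137)) (lf (nat_lit 29) (nat_lit 159)))) q38483 (by decide +kernel)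
def q38487 : Q := Q.p (nat_lit 0x2000008000020000080000200000000000000000000000) (nat_lit 0x100000400001000000000000000000) (nat_lit 2)
theorem c38487 : QOK q38487 := cut [] trivial (nd (nat_lit 94) (nat_lit 0) (cs (lf (nat_lit 35) (nat_lit 71)) (lf (nat_lit 34) (nat_lit 93)))) q38487 (by decide +kernel)
def q38530 : Q := Q.p (nat_lit 0x10000060000080000000000000000000000000000000000) (nat_lit 0x1000004000008000000000100000200000000000000000000000000000) (nat_lit 3)
theorem c38530 : QOK q38530 := cut [] trivial (nd (nat_lit 206) (nat_lit 0) (cs (lf (nat_lit 42) (nat_lit 139)) (nd (nat_lit 117) (nat_lit 0) (cs (lf (nat_lit 45) (nat_lit 117)) (lf (nat_lit 27) (nat_lit 117)))))) q38530 (by decide +kernel)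
def q38541 : Q := Q.p (nat_lit 0xc0000600000000000000000000000000000) (nat_lit 0x30001900000000000000000000000000000) (nat_lit 3)
theorem c38541 : QOK q38541 := cut [] trivial (nd (nat_lit 119) (nat_lit 0) (cs (lf (nat_lit 6) (nat_lit 116)) (nd (nat_lit 137) (nat_lit 0) (cs (lf (nat_lit 12) (nat_lit 114)) (lf (nat_lit 9) (nat_lit 115)))))) q38541 (by decide +kernel)

end Crest.Agent.H3.Snaky.CR
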