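import Crest.Agent.H3.Snaky.Cert
import Crest.Agent.H3.Snaky.CR.CR0
import Crest.Agent.H3.Snaky.CR.CR1
import Crest.Agent.H3.Snaky.CR.CR2
import Crest.Agent.H3.Snaky.CR.CR3
import Crest.Agent.H3.Snaky.CR.CR4
import Crest.Agent.H3.Snaky.CR.CR5
import Crest.Agent.H3.Snaky.CR.CR6
import Crest.Agent.H3.Snaky.CR.CR7
import Crest.Agent.H3.Snaky.CR.CR8

set_option autoImplicit false
set_option maxRecDepth 100000

namespace Crest.Agent.H3.Snaky.CR

open T

def q29158 : Q := Q.p (nat_lit 0xc0000600000a00000800002000000000000000000000000000000000000000000000000000000000000000) (nat_lit 0x20000000000100000500001000000000000000000000000000000000000000000000000000000000000000000000) (nat_lit 3)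
theorem c29158 : QOK q29158 := cut [q29157] ⟨c29157, trivial⟩ (nd (nat_lit 298) (nat_lit 0) (cs (lf (nat_lit 0) (nat_lit 296)) (rf (nat_lit 0)))) q29158 (by decide +kernel)
def q29175 : Q := Q.p (nat_lit 0xc0000600000a00000000000000000000000000000000000000000000000000000000000000000000000000) (nat_lit 0x2000013000010000340003e000038000080000200000000000000000000000000000000000000000000000000000) (nat_lit 7)
theorem c29175 : QOK q29175 := cut [q29160, q29171] ⟨c29160, c29171, trivial⟩ (nd (nat_lit 278) (nat_lit 0) (cs (nd (nat_lit 340) (nat_lit 0) (cs (lf (nat_lit 13) (nat_lit 318)) (nd (nat_lit 277) (nat_lit 0) (cs (lf (nat_lit 35) (nat_lit 255)) (rf (nat_lit 0)))))) (cs (nd (nat_lit 300) (nat_lit 0) (cs (lf (nat_lit 30) (nat_lit 277)) (lf (nat_lit 36) (nat_lit 255)))) (nd (nat_lit 300) (nat_lit 0) (cs (lf (nat_lit 30) (nat_lit 277)) (nd (nat_lit 279) (nat_lit 0) (cs (lf (nat_lit 13) (nat_lit 275)) (nd (nat_lit 280) (nat_lit 0) (cs (lf (nat_lit 6) (nat_lit 277)) (rf (nat_lit 1))))))))))) q29175 (by decide +kernel)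
def q29179 : Q := Q.p (nat_lit 0x80000600000a00000800000000000000000000000000000000000000000000000000000000000000000000) (nat_lit 0x2000000000000000350000d000010000000000000000000000000000000000000000000000000000000000000000) (nat_lit 5)
theorem c29179 : QOK q29179 := cut [q29178] ⟨c29178, trivial⟩ (nd (nat_lit 298) (nat_lit 0) (cs (lf (nat_lit 0) (nat_lit 296)) (rf (nat_lit 0)))) q29179 (by decide +kernel)
def q29182 : Q := Q.p (nat_lit 0xc0000600000000000000000000000000000000000000000000000000000000000000000000000000000000) (nat_lit 0x130001800000000000000000000000000000000000000000000000000000000000000000000000000000000) (nat_lit 3)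
theorem c29182 : QOK q29182 := cut [q15033] ⟨c15033, trivial⟩ (nd (nat_lit 341) (nat_lit 0) (cs (lf (nat_lit 12) (nat_lit 318)) (rf (nat_lit 0)))) q29182 (by decide +kernel)
def q29183 : Q := Q.p (nat_lit 0xe00000200000000000000000000000000000000000000000000000000000000000000000000000000) (nat_lit 0x100001d00000000000000000000000000000000000000000000000000000000000000000000000000) (nat_lit 3)
theorem c29183 : QOK q29183 := cut [q28793] ⟨c28793, trivial⟩ (nd (nat_lit 298) (nat_lit 0) (cs (lf (nat_lit 21) (nat_lit 297)) (rf (nat_lit 0)))) q29183 (by decide +kernel)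
def q29198 : Q := Q.p (nat_lit 0x40000d0000000000200000800000000000000000000000000000000000000000000000000000000000000000000) (nat_lit 0x2000020000060000100000000000000000000000000000000000000000000000000000000000000000000000000) (nat_lit 3)
theorem c29198 : QOK q29198 := cut [q27993] ⟨c27993, trivial⟩ (nd (nat_lit 341) (nat_lit 0) (cs (lf (nat_lit 11) (nat_lit 339)) (rf (nat_lit 0)))) q29198 (by decide +kernel)
def q29208 : Q := Q.p (nat_lit 0x3c0000c0000000000200000800000000000000000000000000000000000000000000000000000000000000000000) (nat_lit 0x800002000019800000000038000060000180000000000000000000000000000000000000000000000000000000000000000000000000) (nat_lit 7)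
theorem c29208 : QOK q29208 := cut [q29201] ⟨c29201, trivial⟩ (nd (nat_lit 384) (nat_lit 0) (cs (lf (nat_lit 11) (nat_lit 361)) (nd (nat_lit 387) (nat_lit 0) (cs (nd (nat_lit 340) (nat_lit 0) (cs (lf (nat_lit 23) (nat_lit 339)) (nd (nat_lit 409) (nat_lit 0) (cs (nd (nat_lit 318) (nat_lit 0) (cs (lf (nat_lit 33) (nat_lit 274)) (rf (nat_lit 0)))) (lf (nat_lit 42) (nat_lit 342)))))) (lf (nat_lit 5) (nat_lit 362)))))) q29208 (by decide +kernel)
def q29216 : Q := Q.p (nat_lit 0x140000c0000000000000000000000000000000000000000000000000000000000000000000000000000000000000) (nat_lit 0x2a000300000000000000000000000000000000000000000000000000000000000000000000000000000000000000) (nat_lit 3)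
theorem c29216 : QOK q29216 := cut [q29215] ⟨c29215, trivial⟩ (nd (nat_lit 363) (nat_lit 0) (cs (lf (nat_lit 12) (nat_lit 339)) (rf (nat_lit 0)))) q29216 (by decide +kernel)
def q29222 : Q := Q.p (nat_lit 0x100000c0000200000200000800000000000000000000000000000000000000000000000000000000000000000000) (nat_lit 0x4000000000000000100000c00002000000000000000000000000000000000000000000000000000000000000000000000) (nat_lit 3)
theorem c29222 : QOK q29222 := cut [q29221] ⟨c29221, trivial⟩ (nd (nat_lit 320) (nat_lit 0) (cs (lf (nat_lit 45) (nat_lit 275)) (rf (nat_lit 0)))) q29222 (by decide +kernel)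
def q29231 : Q := Q.p (nat_lit 0x180000c0000000000000000000000000000000000000000000000000000000000000000000000000000000000000) (nat_lit 0x6000320000000000000000000000000000000000000000000000000000000000000000000000000000000000000) (nat_lit 3)
theorem c29231 : QOK q29231 := cut [q28135] ⟨c28135, trivial⟩ (nd (nat_lit 362) (nat_lit 0) (cs (rf (nat_lit 0)) (lf (nat_lit 12) (nat_lit 339)))) q29231 (by decide +kernel)
def q29245 : Q := Q.p (nat_lit 0xc0000200000800000000000000000000000000000000000000000000000000000000000000000000000000) (nat_lit 0x1000004000030000000000000000000002000000000000000000000000000000000000000000000000000000000000000000000) (nat_lit 3)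
theorem c29245 : QOK q29245 := cut [q28908] ⟨c28908, trivial⟩ (nd (nat_lit 364) (nat_lit 0) (cs (lf (nat_lit 36) (nat_lit 276)) (rf (nat_lit 0)))) q29245 (by decide +kernel)
def q29248 : Q := Q.p (nat_lit 0x20000080000600000000000000000000000000000000000000000000000000000000000000000000000000000000) (nat_lit 0x8000000000100000000001000004000010000000000000000000000000000000000000000000000000000000000000000) (nat_lit 3)
theorem c29248 : QOK q29248 := cut [q29247] ⟨c29247, trivial⟩ (nd (nat_lit 300) (nat_lit 0) (cs (lf (nat_lit 30) (nat_lit 299)) (rf (nat_lit 0)))) q29248 (by decide +kernel)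
def q29250 : Q := Q.p (nat_lit 0x100000c0000200000200004800002000000000000000000000000000000000000000000000000000000000000000) (nat_lit 0x900003000001000000000000000000000000000000000000000000000000000000000000000) (nat_lit 3)
theorem c29250 : QOK q29250 := cut [q28377] ⟨c28377, trivial⟩ (nd (nat_lit 277) (nat_lit 0) (cs (rf (nat_lit 0)) (lf (nat_lit 37) (nat_lit 276)))) q29250 (by decide +kernel)
def q29279 : Q := Q.p (nat_lit 0xc000030000080000200000000000000000000000000000000000000000000000000000000000000000000000000000000) (nat_lit 0x400003000000c000000000000000000000000000000000000000000000000000000000000000000000000000000000000000000) (nat_lit 3)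
theorem c29279 : QOK q29279 := cut [q29278] ⟨c29278, trivial⟩ (nd (nat_lit 388) (nat_lit 0) (cs (lf (nat_lit 29) (nat_lit 321)) (rf (nat_lit 0)))) q29279 (by decide +kernel)
def q29357 : Q := Q.p (nat_lit 0x40000140000c0000600000200000800000000000000000000000000000000000000000000000000000000000000000000) (nat_lit 0x1e80007b8001a2000000000100001400000000000000000000000000000000000000000000000000000000000000000000000000) (nat_lit 10)
theorem c29357 : QOK q29357 := cut [q29348] ⟨c29348, trivial⟩ (nd (nat_lit 320) (nat_lit 0) (cs (lf (nat_lit 45) (nat_lit 275)) (nd (nat_lit 387) (nat_lit 0) (cs (lf (nat_lit 29) (nat_lit 320)) (nd (nat_lit 365) (nat_lit 0) (cs (lf (nat_lit 35) (nat_lit 299)) (nd (nat_lit 388) (nat_lit 0) (cs (lf (nat_lit 29) (nat_lit 321)) (nd (nat_lit 389) (nat_lit 0) (cs (nd (nat_lit 411) (nat_lit 0) (cs (lf (nat_lit 5) (nat_lit 386)) (nd (nat_lit 367) (nat_lit 0) (cs (rf (nat_lit 0)) (lf (nat_lit 17) (nat_lit 364)))))) (lf (nat_lit 18) (nat_lit 364)))))))))))) q29357 (by decide +kernel)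
def q29393 : Q := Q.p (nat_lit 0xc0000600000200000000000000000000000000000000000000000000000000000000000000000000000000) (nat_lit 0x680001a0000700001900007400004000010000000000000000000000000000000000000000000000000000000000000000) (nat_lit 8)
theorem c29393 : QOK q29393 := cut [q29247] ⟨c29247, trivial⟩ (nd (nat_lit 323) (nat_lit 0) (cs (lf (nat_lit 6) (nat_lit 320)) (nd (nat_lit 300) (nat_lit 0) (cs (nd (nat_lit 365) (nat_lit 0) (cs (lf (nat_lit 30) (nat_lit 299)) (rf (nat_lit 0)))) (cs (nd (nat_lit 320) (nat_lit 0) (cs (lf (nat_lit 22) (nat_lit 297)) (nd (nat_lit 301) (nat_lit 0) (cs (lf (nat_lit 17) (nat_lit 298)) (nd (nat_lit 345) (nat_lit 0) (cs (lf (nat_lit 5) (nat_lit 320)) (nd (nat_lit 367) (nat_lit 0) (cs (lf (nat_lit 42) (nat_lit 300)) (nd (nat_lit 368) (nat_lit 0) (cs (lf (nat_lit 2) (nat_lit 342)) (lf (nat_lit 29) (nat_lit 301)))))))))))) (nd (nat_lit 278) (nat_lit 0) (cs (lf (nat_lit 36) (nat_lit 255)) (nd (nat_lit 365) (nat_lit 0) (cs (lf (nat_lit 30) (nat_lit 299)) (nd (nat_lit 320) (nat_lit 0) (cs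 (lf (nat_lit 22) (nat_lit 297)) (nd (nat_lit 301) (nat_lit 0) (cs (lf (nat_lit 17) (nat_lit 298)) (nd (nat_lit 345) (nat_lit 0) (cs (lf (nat_lit 5) (nat_lit 320)) (lf (nat_lit 42) (nat_lit 278))))))))))))))))) q29393 (by decide +kernel)
def q29468 : Q := Q.p (nat_lit 0xc0000600000800000000000000000000000000000000000000000000000000000000000000000000000000) (nat_lit 0x10000100000100000000002000008000000000000000000000000000000000000000000000000000000000000000) (nat_lit 3)
theorem c29468 : QOK q29468 := cut [q29160] ⟨c29160, trivial⟩ (nd (nat_lit 277) (nat_lit 0) (cs (lf (nat_lit 41) (nat_lit 276)) (rf (nat_lit 0)))) q29468 (by decide +kernel)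
def q29491 : Q := Q.p (nat_lit 0x200000e00001800000000000000000000000000000000000000000000000000000000000000000000) (nat_lit 0x4700001c0000000000000000000000000000000000000000000000000000000000000000000000000) (nat_lit 4)
theorem c29491 : QOK q29491 := cut [q29490] ⟨c29490, trivial⟩ (nd (nat_lit 296) (nat_lit 0) (cs (lf (nat_lit 5) (nat_lit 296)) (rf (nat_lit 0)))) q29491 (by decide +kernel)
def q29498 : Q := Q.p (nat_lit 0x40000100000c0000000000000000000000000000000000000000000000000000000000000000000000000000000000000) (nat_lit 0x1000000000020000000000200000800002000000000000000000000000000000000000000000000000000000000000000000000) (nat_lit 3)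
theorem c29498 : QOK q29498 := cut [q29497] ⟨c29497, trivial⟩ (nd (nat_lit 321) (nat_lit 0) (cs (lf (nat_lit 30) (nat_lit 320)) (rf (nat_lit 0)))) q29498 (by decide +kernel)
def q29549 : Q := Q.p (nat_lit 0x4000010000040000000000200000800000000000000000000000000000000000000000000000000000000000000000000) (nat_lit 0xa0000380000a000000000000000100000400000000000000000000000000000000000000000000000000000000000000000000000000) (nat_lit 5)
theorem c29549 : QOK q29549 := cut [q29548] ⟨c29548, trivial⟩ (nd (nat_lit 320) (nat_lit 0) (cs (lf (nat_lit 45) (nat_lit 275)) (rf (nat_lit 0)))) q29549 (by decide +kernel)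
def q29556 : Q := Q.p (nat_lit 0xc00000c0000000000000000000000000000000000000000000000000000000000000000000000000000000000000) (nat_lit 0x300000320000000000000000000000000000000000000000000000000000000000000000000000000000000000000) (nat_lit 3)
theorem c29556 : QOK q29556 := cut [q28311] ⟨c28311, trivial⟩ (nd (nat_lit 344) (nat_lit 0) (cs (lf (nat_lit 0) (nat_lit 341)) (rf (nat_lit 0)))) q29556 (by decide +kernel)
def q29579 : Q := Q.p (nat_lit 0xc00003c0000000000000000000000000000000000000000000000000000000000000000000000000000000000000) (nat_lit 0x10000000000000001800002000008000000000000000000000000000000000000000000000000000000000000000000000) (nat_lit 3)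
theorem c29579 : QOK q29579 := cut [q28355] ⟨c28355, trivial⟩ (nd (nat_lit 323) (nat_lit 0) (cs (lf (nat_lit 17) (nat_lit 320)) (rf (nat_lit 0)))) q29579 (by decide +kernel)
def q29582 : Q := Q.p (nat_lit 0xf0000000000200000800000000000000000000000000000000000000000000000000000000000000000000) (nat_lit 0x6000000000060000100000000000000000000000000000000000000000000000000000000000000000000000000) (nat_lit 3)
theorem c29582 : QOK q29582 := cut [q27993] ⟨c27993, trivial⟩ (nd (nat_lit 362) (nat_lit 0) (cs (lf (nat_lit 11) (nat_lit 339)) (rf (nat_lit 0)))) q29582 (by decide +kernel)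
def q29644 : Q := Q.p (nat_lit 0x1000004000010000040000000000000000000000000000000000000000000000000000000000000000000000000000000000000) (nat_lit 0xbc000ee0003bc00000000000000000000000000000000000000000000000000000000000000000000000000000000000000000000000) (nat_lit 8)
theorem c29644 : QOK q29644 := cut [q29641] ⟨c29641, trivial⟩ (nd (nat_lit 407) (nat_lit 0) (cs (lf (nat_lit 41) (nat_lit 341)) (nd (nat_lit 388) (nat_lit 0) (cs (nd (nat_lit 409) (nat_lit 0) (cs (lf (nat_lit 29) (nat_lit 342)) (nd (nat_lit 406) (nat_lit 0) (cs (nd (nat_lit 427) (nat_lit 0) (cs (nd (nat_lit 405) (nat_lit 0) (cs (nd (nat_lit 383) (nat_lit 0) (cs (lf (nat_lit 23) (nat_lit 382)) (lf (nat_lit 22) (nat_lit 383)))) (lf (nat_lit 11) (nat_lit 404)))) (lf (nat_lit 10) (nat_lit 405)))) (lf (nat_lit 16) (nat_lit 384)))))) (cs (nd (nat_lit 409) (nat_lit 0) (cs (lf (nat_lit 29) (nat_lit 342)) (nd (nat_lit 410) (nat_lit 0) (cs (nd (nat_lit 385) (nat_lit 0) (cs (lf (nat_lit 18) (nat_lit 385)) (lf (nat_lit 23) (nat_lit 384)))) (lf (nat_lit 17) (nat_lit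 385)))))) (nd (nat_lit 387) (nat_lit 0) (cs (lf (nat_lit 6) (nat_lit 385)) (rf (nat_lit 0))))))))) q29644 (by decide +kernel)
def q29785 : Q := Q.p (nat_lit 0x100000c0000000000200000800002000000000000000000000000000000000000000000000000000000000000000) (nat_lit 0xa00003f0000f8000ef000138000360000d80001000000000000000000000000000000000000000000000000000000000000000000000) (nat_lit 14)
theorem c29785 : QOK q29785 := cut [q11848, q29548, q29713, q29563, q29201] ⟨c11848, c29548, c29713, c29563, c29201, trivial⟩ (nd (nat_lit 320) (nat_lit 0) (cs (rf (nat_lit 0)) (nd (nat_lit 386) (nat_lit 0) (cs (rf (nat_lit 1)) (cs (rf (nat_lit 2)) (nd (nat_lit 385) (nat_lit 0) (cs (lf (nat_lit 41) (nat_lit 319)) (nd (nat_lit 384) (nat_lit 0) (cs (nd (nat_lit 299) (nat_lit 0) (cs (lf (nat_lit 34) (nat_lit 298)) (nd (nat_lit 365) (nat_lit 0) (cs (lf (nat_lit 12) (nat_lit 361)) (nd (nat_lit 366) (nat_lit 0) (cs (lf (nat_lit 6) (nat_lit 363)) (lf (nat_lit 9) (nat_lit 362)))))))) (cs (nd (nat_lit 387) (nat_lit 0) (cs (lf (nat_lit 29) (nat_lit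 320)) (rf (nat_lit 3)))) (nd (nat_lit 387) (nat_lit 0) (cs (lf (nat_lit 29) (nat_lit 320)) (nd (nat_lit 405) (nat_lit 0) (cs (lf (nat_lit 10) (nat_lit 383)) (nd (nat_lit 365) (nat_lit 0) (cs (lf (nat_lit 17) (nat_lit 362)) (nd (nat_lit 299) (nat_lit 0) (cs (lf (nat_lit 37) (nat_lit 298)) (nd (nat_lit 362) (nat_lit 0) (cs (lf (nat_lit 23) (nat_lit 361)) (nd (nat_lit 363) (nat_lit 0) (cs (lf (nat_lit 17) (nat_lit 340)) (nd (nat_lit 340) (nat_lit 0) (cs (lf (nat_lit 23) (nat_lit 339)) (nd (nat_lit 318) (nat_lit 0) (cs (rf (nat_lit 4)) (lf (nat_lit 24) (nat_lit 296)))))))))))))))))))))))))))) q29785 (by decide +kernel)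
def q29801 : Q := Q.p (nat_lit 0x80000000001e00000000000000000000000000000000000000000000000000000000000000000000000000) (nat_lit 0x2000000000060000000000c000010000040000000000000000000000000000000000000000000000000000000000) (nat_lit 4)
theorem c29801 : QOK q29801 := cut [q29791] ⟨c29791, trivial⟩ (nd (nat_lit 278) (nat_lit 0) (cs (lf (nat_lit 17) (nat_lit 275)) (nd (nat_lit 321) (nat_lit 0) (cs (lf (nat_lit 30) (nat_lit 277)) (rf (nat_lit 0)))))) q29801 (by decide +kernel)
def q29844 : Q := Q.p (nat_lit 0xc0000c0000000000000000000000000000000000000000000000000000000000000000000000000000000000000) (nat_lit 0x3000130000000000000000000000000000000000000000000000000000000000000000000000000000000000000) (nat_lit 3)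
theorem c29844 : QOK q29844 := cut [q29843] ⟨c29843, trivial⟩ (nd (nat_lit 341) (nat_lit 0) (cs (lf (nat_lit 6) (nat_lit 340)) (rf (nat_lit 0)))) q29844 (by decide +kernel)
def q29854 : Q := Q.p (nat_lit 0x1f00000800000000000000000000000000000000000000000000000000000000000000000000) (nat_lit 0x20c0003000000000000000000000000000000000000000000000000000000000000000000000) (nat_lit 3)
theorem c29854 : QOK q29854 := cut [q28145] ⟨c28145, trivial⟩ (nd (nat_lit 276) (nat_lit 0) (cs (lf (nat_lit 18) (nat_lit 275)) (rf (nat_lit 0)))) q29854 (by decide +kernel)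
def q29893 : Q := Q.p (nat_lit 0x40000100000400001000000000000000000000000000000000000000000000000000000000000000000000000000) (nat_lit 0x280000e000038000000000000000200000800002000000000000000000000000000000000000000000000000000000000000000000000) (nat_lit 6)
theorem c29893 : QOK q29893 := cut [q29891] ⟨c29891, trivial⟩ (nd (nat_lit 299) (nat_lit 0) (cs (lf (nat_lit 47) (nat_lit 277)) (nd (nat_lit 388) (nat_lit 0) (cs (lf (nat_lit 46) (nat_lit 299)) (rf (nat_lit 0)))))) q29893 (by decide +kernel)
def q29926 : Q := Q.p (nat_lit 0x100000400001800000000000000000000000000000000000000000000000000000000000000000000000000) (nat_lit 0x40000000000200000000002000008000020000000000000000000000000000000000000000000000000000000000) (nat_lit 3)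
theorem c29926 : QOK q29926 := cut [q14019] ⟨c14019, trivial⟩ (nd (nat_lit 277) (nat_lit 0) (cs (lf (nat_lit 42) (nat_lit 277)) (rf (nat_lit 0)))) q29926 (by decide +kernel)
def q29952 : Q := Q.p (nat_lit 0x80000200000c00002000000000000000000000000000000000000000000000000000000000000000000000) (nat_lit 0x10000060000100000000000000001000000000000000000000000000000000000000000000000000000000000000000000) (nat_lit 3)
theorem c29952 : QOK q29952 := cut [q29951] ⟨c29951, trivial⟩ (nd (nat_lit 365) (nat_lit 0) (cs (lf (nat_lit 47) (nat_lit 276)) (rf (nat_lit 0)))) q29952 (by decide +kernel)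
def q29978 : Q := Q.p (nat_lit 0x100003c0000000000000000000000000000000000000000000000000000000000000000000000000000000000000) (nat_lit 0x3a0000400000000000000000000000000000000000000000000000000000000000000000000000000000000000000) (nat_lit 3)
theorem c29978 : QOK q29978 := cut [q29977] ⟨c29977, trivial⟩ (nd (nat_lit 346) (nat_lit 0) (cs (lf (nat_lit 10) (nat_lit 342)) (rf (nat_lit 0)))) q29978 (by decide +kernel)
def q30001 : Q := Q.p (nat_lit 0x100000400001000004000000000000000000000000000000000000000000000000000000000000000000000) (nat_lit 0xa0000380000a0000000000000000000000000000000000000000000000000000000000) (nat_lit 4)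
theorem c30001 : QOK q30001 := cut [q28489] ⟨c28489, trivial⟩ (nd (nat_lit 257) (nat_lit 0) (cs (lf (nat_lit 34) (nat_lit 256)) (nd (nat_lit 256) (nat_lit 0) (cs (lf (nat_lit 35) (nat_lit 234)) (rf (nat_lit 0)))))) q30001 (by decide +kernel)
def q30006 : Q := Q.p (nat_lit 0x400001c0000000000000000000000000000000000000000000000000000000000000000000000000000000000000) (nat_lit 0x3a0000020000000000000000000000000000000000000000000000000000000000000000000000000000000000000) (nat_lit 3)
theorem c30006 : QOK q30006 := cut [q28542] ⟨c28542, trivial⟩ (nd (nat_lit 367) (nat_lit 0) (cs (lf (nat_lit 0) (nat_lit 341)) (rf (nat_lit 0)))) q30006 (by decide +kernel)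
def q30045 : Q := Q.p (nat_lit 0x600000c0000000000000000000000000000000000000000000000000000000000000000000000000000000000000) (nat_lit 0x190000030000000000000000000000000000000000000000000000000000000000000000000000000000000000000) (nat_lit 3)
theorem c30045 : QOK q30045 := cut [q30044] ⟨c30044, trivial⟩ (nd (nat_lit 367) (nat_lit 0) (cs (lf (nat_lit 18) (nat_lit 342)) (rf (nat_lit 0)))) q30045 (by decide +kernel)
def q30050 : Q := Q.p (nat_lit 0x80000200000c0000000000000000800002000000000000000000000000000000000000000000000000000000000000000) (nat_lit 0x2000000000000000000000300000400001000000000000000000000000000000000000000000000000000000000000000000000) (nat_lit 3)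
theorem c30050 : QOK q30050 := cut [q30049] ⟨c30049, trivial⟩ (nd (nat_lit 320) (nat_lit 0) (cs (lf (nat_lit 42) (nat_lit 320)) (rf (nat_lit 0)))) q30050 (by decide +kernel)
def q30071 : Q := Q.p (nat_lit 0x80000200000c0000000000000000000000000000000000000000000000000000000000000000000000000000000000000) (nat_lit 0x1c000070000000000c0000130000500000000000000000000000000000000000000000000000000000000000000000000000000000000) (nat_lit 7)
theorem c30071 : QOK q30071 := cut [q30068] ⟨c30068, trivial⟩ (nd (nat_lit 409) (nat_lit 0) (cs (lf (nat_lit 47) (nat_lit 320)) (nd (nat_lit 410) (nat_lit 0) (cs (lf (nat_lit 29) (nat_lit 343)) (nd (nat_lit 408) (nat_lit 0) (cs (lf (nat_lit 41) (nat_lit 342)) (rf (nat_lit 0)))))))) q30071 (by decide +kernel)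
def q30082 : Q := Q.p (nat_lit 0x78000180000000000000000000000000000000000000000000000000000000000000000000000000000000000000) (nat_lit 0x1000004000030000000000000000200000000000000000000000000000000000000000000000000000000000000000000000000000000) (nat_lit 3)
theorem c30082 : QOK q30082 := cut [q30081] ⟨c30081, trivial⟩ (nd (nat_lit 388) (nat_lit 0) (cs (lf (nat_lit 5) (nat_lit 363)) (rf (nat_lit 0)))) q30082 (by decide +kernel)
def q30120 : Q := Q.p (nat_lit 0xf0000000000000000000000000000000000000000000000000000000000000000000000000000000000000) (nat_lit 0x7000008000700000000000000000000000000000000000000000000000000000000000000000000000000000000) (nat_lit 4)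
theorem c30120 : QOK q30120 := cut [q30118] ⟨c30118, trivial⟩ (nd (nat_lit 361) (nat_lit 0) (cs (lf (nat_lit 10) (nat_lit 339)) (nd (nat_lit 339) (nat_lit 0) (cs (lf (nat_lit 11) (nat_lit 338)) (rf (nat_lit 0)))))) q30120 (by decide +kernel)
def q30125 : Q := Q.p (nat_lit 0x200000e0000000000000000000000000000000000000000000000000000000000000000000000000000000000000) (nat_lit 0x50000018000070000000000000000000000000000000000000000000000000000000000000000000000000000000) (nat_lit 4)
theorem c30125 : QOK q30125 := cut [q28993] ⟨c28993, trivial⟩ (nd (nat_lit 340) (nat_lit 0) (cs (lf (nat_lit 5) (nat_lit 340)) (nd (nat_lit 339) (nat_lit 0) (cs (lf (nat_lit 4) (nat_lit 339)) (rf (nat_lit 0)))))) q30125 (by decide +kernel)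
def q30131 : Q := Q.p (nat_lit 0x340000d0000000000200000800000000000000000000000000000000000000000000000000000000000000000000) (nat_lit 0x28000060000100000000000000000000000000000000000000000000000000000000000000000000000000) (nat_lit 3)
theorem c30131 : QOK q30131 := cut [q27993] ⟨c27993, trivial⟩ (nd (nat_lit 341) (nat_lit 0) (cs (rf (nat_lit 0)) (lf (nat_lit 0) (nat_lit 339)))) q30131 (by decide +kernel)
def q30164 : Q := Q.p (nat_lit 0xc0000300000c0000000000200000800000000000000000000000000000000000000000000000000000000000000000000) (nat_lit 0x80001380000e000100000100000400000000000000000000000000000000000000000000000000000000000000000000000000) (nat_lit 6)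
theorem c30164 : QOK q30164 := cut [q29502] ⟨c29502, trivial⟩ (nd (nat_lit 320) (nat_lit 0) (cs (lf (nat_lit 45) (nat_lit 275)) (nd (nat_lit 385) (nat_lit 0) (cs (lf (nat_lit 41) (nat_lit 319)) (nd (nat_lit 384) (nat_lit 0) (cs (lf (nat_lit 12) (nat_lit 361)) (nd (nat_lit 362) (nat_lit 0) (cs (lf (nat_lit 23) (nat_lit 361)) (rf (nat_lit 0)))))))))) q30164 (by decide +kernel)
def q30165 : Q := Q.p (nat_lit 0x40000300000c0000000000200000800000000000000000000000000000000000000000000000000000000000000000000) (nat_lit 0x600001800002000000000000000100000400000000000000000000000000000000000000000000000000000000000000000000000000) (nat_lit 4)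
theorem c30165 : QOK q30165 := cut [q29026] ⟨c29026, trivial⟩ (nd (nat_lit 408) (nat_lit 0) (cs (lf (nat_lit 30) (nat_lit 342)) (rf (nat_lit 0)))) q30165 (by decide +kernel)
def q30184 : Q := Q.p (nat_lit 0x80000200000c0000300000000000000000000000000000000000000000000000000000000000000000000000000000000) (nat_lit 0x20001c00001000000000000000000000000000000000000000000000000000000000000000000000000000) (nat_lit 3)
theorem c30184 : QOK q30184 := cut [q30062] ⟨c30062, trivial⟩ (nd (nat_lit 322) (nat_lit 0) (cs (lf (nat_lit 35) (nat_lit 299)) (rf (nat_lit 0)))) q30184 (by decide +kernel)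
def q30206 : Q := Q.p (nat_lit 0x80000200000c0000000000000000000000000000000000000000000000000000000000000000000000000000000000000) (nat_lit 0x100001c00007000014000010000100000600001000000000000000000000000000000000000000000000000000000000000000000000000000) (nat_lit 6)
theorem c30206 : QOK q30206 := cut [q30075, q30204] ⟨c30075, c30204, trivial⟩ (nd (nat_lit 409) (nat_lit 0) (cs (rf (nat_lit 0)) (cs (nd (nat_lit 322) (nat_lit 0) (cs (lf (nat_lit 34) (nat_lit 321)) (nd (nat_lit 364) (nat_lit 0) (cs (lf (nat_lit 42) (nat_lit 342)) (nd (nat_lit 410) (nat_lit 0) (cs (lf (nat_lit 29) (nat_lit 343)) (nd (nat_lit 321) (nat_lit 0) (cs (lf (nat_lit 35) (nat_lit 299)) (lf (nat_lit 28) (nat_lit 321)))))))))) (rf (nat_lit 1))))) q30206 (by decide +kernel)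
def q30209 : Q := Q.p (nat_lit 0x80000200000c0000000000000000800002000000000000000000000000000000000000000000000000000000000000000) (nat_lit 0x2000000000010000000000100000400001000000000000000000000000000000000000000000000000000000000000000000000) (nat_lit 3)
theorem c30209 : QOK q30209 := cut [q30208] ⟨c30208, trivial⟩ (nd (nat_lit 320) (nat_lit 0) (cs (lf (nat_lit 42) (nat_lit 320)) (rf (nat_lit 0)))) q30209 (by decide +kernel)
def q30217 : Q := Q.p (nat_lit 0x1c0000600000d0000000000200000800000000000000000000000000000000000000000000000000000000000000000000) (nat_lit 0xc0000300001c000000000340000500001000000000000000000000000000000000000000000000000000000000000000000000) (nat_lit 7)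
theorem c30217 : QOK q30217 := cut [q30212] ⟨c30212, trivial⟩ (nd (nat_lit 385) (nat_lit 0) (cs (lf (nat_lit 12) (nat_lit 362)) (nd (nat_lit 362) (nat_lit 0) (cs (lf (nat_lit 22) (nat_lit 362)) (nd (nat_lit 296) (nat_lit 0) (cs (lf (nat_lit 32) (nat_lit 274)) (nd (nat_lit 407) (nat_lit 0) (cs (lf (nat_lit 11) (nat_lit 384)) (nd (nat_lit 320) (nat_lit 0) (cs (lf (nat_lit 38) (nat_lit 319)) (rf (nat_lit 0)))))))))))) q30217 (by decide +kernel)
def q30221 : Q := Q.p (nat_lit 0x1c000060000080000000000000000000000000000000000000000000000000000000000000000000000000000000000000) (nat_lit 0x100000c000003000000000000000000000000000000000000000000000000000000000000000000000000000000000000000000000000) (nat_lit 3)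
theorem c30221 : QOK q30221 := cut [q29737] ⟨c29737, trivial⟩ (nd (nat_lit 385) (nat_lit 0) (cs (lf (nat_lit 12) (nat_lit 362)) (rf (nat_lit 0)))) q30221 (by decide +kernel)
def q30232 : Q := Q.p (nat_lit 0x1e000060000050000000000200000800000000000000000000000000000000000000000000000000000000000000000000) (nat_lit 0x39c000e000001c000000000140000100000000000000000000000000000000000000000000000000000000000000000000000000) (nat_lit 8)
theorem c30232 : QOK q30232 := cut [q30227] ⟨c30227, trivial⟩ (nd (nat_lit 362) (nat_lit 0) (cs (lf (nat_lit 22) (nat_lit 362)) (nd (nat_lit 296) (nat_lit 0) (cs (lf (nat_lit 32) (nat_lit 274)) (nd (nat_lit 407) (nat_lit 0) (cs (lf (nat_lit 11) (nat_lit 384)) (nd (nat_lit 320) (nat_lit 0) (cs (lf (nat_lit 38) (nat_lit 319)) (nd (nat_lit 389) (nat_lit 0) (cs (lf (nat_lit 10) (nat_lit 385)) (rf (nat_lit 0)))))))))))) q30232 (by decide +kernel)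
def q30249 : Q := Q.p (nat_lit 0x80000200000c0000000000000000000000000000000000000000000000000000000000000000000000000000000000000) (nat_lit 0x100001c0000700007400001c000000000200000000000000000000000000000000000000000000000000000000000000000000000000000000) (nat_lit 7)
theorem c30249 : QOK q30249 := cut [q30075, q30204, q30245] ⟨c30075, c30204, c30245, trivial⟩ (nd (nat_lit 409) (nat_lit 0) (cs (rf (nat_lit 0)) (cs (rf (nat_lit 1)) (nd (nat_lit 410) (nat_lit 0) (cs (lf (nat_lit 29) (nat_lit 343)) (nd (nat_lit 388) (nat_lit 0) (cs (lf (nat_lit 24) (nat_lit 321)) (nd (nat_lit 364) (nat_lit 0) (cs (lf (nat_lit 42) (nat_lit 342)) (rf (nat_lit 2))))))))))) q30249 (by decide +kernel)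
def q30302 : Q := Q.p (nat_lit 0x80001a000060000080000000000000000000000000000000000000000000000000000000000000000000000000000000000000) (nat_lit 0x100000c400004000000000000000000000000000000000000000000000000000000000000000000000000000000000000000000000000) (nat_lit 3)
theorem c30302 : QOK q30302 := cut [q29737] ⟨c29737, trivial⟩ (nd (nat_lit 386) (nat_lit 0) (cs (lf (nat_lit 11) (nat_lit 384)) (rf (nat_lit 0)))) q30302 (by decide +kernel)
def q30433 : Q := Q.p (nat_lit 0x200000c0000200000800000000000000000000000000000000000000000000000000000000000000000000000000) (nat_lit 0x100001c0000130000000000000000000000000000000000000000000000000000000000000000000000000000000000000) (nat_lit 4)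
theorem c30433 : QOK q30433 := cut [q30022] ⟨c30022, trivial⟩ (nd (nat_lit 366) (nat_lit 0) (cs (lf (nat_lit 29) (nat_lit 299)) (rf (nat_lit 0)))) q30433 (by decide +kernel)
def q30455 : Q := Q.p (nat_lit 0x1e0000600000000000000000000000000000000000000000000000000000000000000000000000000000000) (nat_lit 0x60000180000e000000000000000300000c000030000000000000000000000000000000000000000000000000000000000000000) (nat_lit 7)
theorem c30455 : QOK q30455 := cut [q30450] ⟨c30450, trivial⟩ (nd (nat_lit 366) (nat_lit 0) (cs (lf (nat_lit 5) (nat_lit 341)) (nd (nat_lit 388) (nat_lit 0) (cs (lf (nat_lit 42) (nat_lit 321)) (nd (nat_lit 387) (nat_lit 0) (cs (lf (nat_lit 41) (nat_lit 321)) (nd (nat_lit 300) (nat_lit 0) (cs (lf (nat_lit 40) (nat_lit 299)) (nd (nat_lit 278) (nat_lit 0) (cs (lf (nat_lit 36) (nat_lit 255)) (rf (nat_lit 0)))))))))))) q30455 (by decide +kernel)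
def q30461 : Q := Q.p (nat_lit 0x1c0000700000000000000000000000000000000000000000000000000000000000000000000000000000000) (nat_lit 0x10000040000000001800007000008000020000000000000000000000000000000000000000000000000000000000000000) (nat_lit 5)
theorem c30461 : QOK q30461 := cut [q30459] ⟨c30459, trivial⟩ (nd (nat_lit 323) (nat_lit 0) (cs (lf (nat_lit 6) (nat_lit 320)) (nd (nat_lit 301) (nat_lit 0) (cs (lf (nat_lit 17) (nat_lit 298)) (rf (nat_lit 0)))))) q30461 (by decide +kernel)
def q30466 : Q := Q.p (nat_lit 0x1c0000300000000000000000000000000000000000000000000000000000000000000000000000000000000) (nat_lit 0x1c0000638000400000000000000000000000000000000000000000000000000000000000000000000000000000000) (nat_lit 5)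
theorem c30466 : QOK q30466 := cut [q30463] ⟨c30463, trivial⟩ (nd (nat_lit 345) (nat_lit 0) (cs (lf (nat_lit 18) (nat_lit 320)) (nd (nat_lit 367) (nat_lit 0) (cs (lf (nat_lit 5) (nat_lit 342)) (nd (nat_lit 341) (nat_lit 0) (cs (lf (nat_lit 4) (nat_lit 341)) (rf (nat_lit 0)))))))) q30466 (by decide +kernel)
def q30574 : Q := Q.p (nat_lit 0x40000100000200002800002000000000000000000000000000000000000000000000000000000000000000) (nat_lit 0x500005000001000000000000000000000000000000000000000000000000000000000000000) (nat_lit 3)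
theorem c30574 : QOK q30574 := cut [q16766] ⟨c16766, trivial⟩ (nd (nat_lit 276) (nat_lit 0) (cs (lf (nat_lit 44) (nat_lit 253)) (rf (nat_lit 0)))) q30574 (by decide +kernel)
def q30589 : Q := Q.p (nat_lit 0x40000180000200000000000000000000000000000000000000000000000000000000000000000000000000000000) (nat_lit 0x4000010000020000000000000000800002000000000000000000000000000000000000000000000000000000000000000000000) (nat_lit 3)
theorem c30589 : QOK q30589 := cut [q28409] ⟨c28409, trivial⟩ (nd (nat_lit 388) (nat_lit 0) (cs (rf (nat_lit 0)) (lf (nat_lit 42) (nat_lit 321)))) q30589 (by decide +kernel)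
def q30615 : Q := Q.p (nat_lit 0x3c0000300000000000000000000000000000000000000000000000000000000000000000000000000000000) (nat_lit 0xe000038001c00000000000000000000000000000000000000000000000000000000000000000000000000000000) (nat_lit 5)
theorem c30615 : QOK q30615 := cut [q30613] ⟨c30613, trivial⟩ (nd (nat_lit 323) (nat_lit 0) (cs (lf (nat_lit 17) (nat_lit 320)) (nd (nat_lit 341) (nat_lit 0) (cs (lf (nat_lit 16) (nat_lit 319)) (rf (nat_lit 0)))))) q30615 (by decide +kernel)
def q30648 : Q := Q.p (nat_lit 0x200000c0000200000800000000000000000000000000000000000000000000000000000000000000000000000000) (nat_lit 0x20000090000740001d8000700001c00001000004000000000000000000000000000000000000000000000000000000000000000000000) (nat_lit 10)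
theorem c30648 : QOK q30648 := cut [q28908] ⟨c28908, trivial⟩ (nd (nat_lit 364) (nat_lit 0) (cs (rf (nat_lit 0)) (nd (nat_lit 278) (nat_lit 0) (cs (lf (nat_lit 34) (nat_lit 277)) (nd (nat_lit 366) (nat_lit 0) (cs (lf (nat_lit 29) (nat_lit 299)) (nd (nat_lit 367) (nat_lit 0) (cs (lf (nat_lit 18) (nat_lit 342)) (nd (nat_lit 345) (nat_lit 0) (cs (lf (nat_lit 17) (nat_lit 342)) (nd (nat_lit 344) (nat_lit 0) (cs (lf (nat_lit 12) (nat_lit 341)) (nd (nat_lit 323) (nat_lit 0) (cs (lf (nat_lit 17) (nat_lit 320)) (nd (nat_lit 389) (nat_lit 0) (cs (lf (nat_lit 5) (nat_lit 364)) (nd (nat_lit 411) (nat_lit 0) (cs (lf (nat_lit 47) (nat_lit 322)) (lf (nat_lit 42) (nat_lit 344)))))))))))))))))))) q30648 (by decide +kernel)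
def q30651 : Q := Q.p (nat_lit 0x1e0000300000000000000000000000000000000000000000000000000000000000000000000000000000000) (nat_lit 0x1c000600000000000000000000000000000000000000000000000000000000000000000000000000000000000000) (nat_lit 3)
theorem c30651 : QOK q30651 := cut [q27956] ⟨c27956, trivial⟩ (nd (nat_lit 345) (nat_lit 0) (cs (rf (nat_lit 0)) (lf (nat_lit 18) (nat_lit 320)))) q30651 (by decide +kernel)
def q30689 : Q := Q.p (nat_lit 0xe0000300000000000000000000000000000000000000000000000000000000000000000000000000000000) (nat_lit 0x300000c000076000018000060001800006000018000000000000000000000000000000000000000000000000000000000000000) (nat_lit 10)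
theorem c30689 : QOK q30689 := cut [q30682] ⟨c30682, trivial⟩ (nd (nat_lit 340) (nat_lit 0) (cs (lf (nat_lit 12) (nat_lit 317)) (nd (nat_lit 317) (nat_lit 0) (cs (lf (nat_lit 22) (nat_lit 317)) (nd (nat_lit 361) (nat_lit 0) (cs (lf (nat_lit 10) (nat_lit 339)) (nd (nat_lit 365) (nat_lit 0) (cs (lf (nat_lit 5) (nat_lit 340)) (nd (nat_lit 387) (nat_lit 0) (cs (lf (nat_lit 42) (nat_lit 320)) (nd (nat_lit 386) (nat_lit 0) (cs (lf (nat_lit 41) (nat_lit 320)) (nd (nat_lit 299) (nat_lit 0) (cs (lf (nat_lit 31) (nat_lit 298)) (rf (nat_lit 0)))))))))))))))) q30689 (by decide +kernel)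
def q30781 : Q := Q.p (nat_lit 0x300000c0000300000000000000000000000000000000000000000000000000000000000000000000000000000000) (nat_lit 0x180000780004c000300000000000000000000000000000000000000000000000000000000000000000000000000000000000000) (nat_lit 6)
theorem c30781 : QOK q30781 := cut [q30734] ⟨c30734, trivial⟩ (nd (nat_lit 386) (nat_lit 0) (cs (lf (nat_lit 30) (nat_lit 320)) (nd (nat_lit 385) (nat_lit 0) (cs (lf (nat_lit 41) (nat_lit 319)) (nd (nat_lit 384) (nat_lit 0) (cs (lf (nat_lit 12) (nat_lit 361)) (nd (nat_lit 363) (nat_lit 0) (cs (lf (nat_lit 6) (nat_lit 362)) (rf (nat_lit 0)))))))))) q30781 (by decide +kernel)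
def q30788 : Q := Q.p (nat_lit 0x8000030000080000200000000000000000000000000000000000000000000000000000000000000000000000000000000) (nat_lit 0x400007000004c000000000000000000000000000000000000000000000000000000000000000000000000000000000000000000) (nat_lit 4)
theorem c30788 : QOK q30788 := cut [q30286] ⟨c30286, trivial⟩ (nd (nat_lit 388) (nat_lit 0) (cs (lf (nat_lit 29) (nat_lit 321)) (rf (nat_lit 0)))) q30788 (by decide +kernel)
def q30989 : Q := Q.p (nat_lit 0x200000c0000200000000000000000000000000000000000000000000000000000000000000000000000000000000) (nat_lit 0x700001e0001c0000000000100000c00000000000000000000000000000000000000000000000000000000000000000000000000) (nat_lit 6)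
theorem c30989 : QOK q30989 := cut [q29344] ⟨c29344, trivial⟩ (nd (nat_lit 387) (nat_lit 0) (cs (rf (nat_lit 0)) (nd (nat_lit 386) (nat_lit 0) (cs (lf (nat_lit 41) (nat_lit 320)) (nd (nat_lit 388) (nat_lit 0) (cs (lf (nat_lit 29) (nat_lit 321)) (nd (nat_lit 366) (nat_lit 0) (cs (lf (nat_lit 24) (nat_lit 299)) (nd (nat_lit 367) (nat_lit 0) (cs (lf (nat_lit 18) (nat_lit 342)) (lf (nat_lit 12) (nat_lit 363)))))))))))) q30989 (by decide +kernel)
def q31038 : Q := Q.p (nat_lit 0xc0000200000800002000000000000000000000000000000000000000000000000000000000000000000000) (nat_lit 0x100000000004000018000040000000000000000000000000000000000000000000000000000000000) (nat_lit 3)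
theorem c31038 : QOK q31038 := cut [q13516] ⟨c13516, trivial⟩ (nd (nat_lit 255) (nat_lit 0) (cs (rf (nat_lit 0)) (lf (nat_lit 40) (nat_lit 254)))) q31038 (by decide +kernel)
def q31103 : Q := Q.p (nat_lit 0x20000080000200001a00000000000000000000000000000000000000000000000000000000000000000000000000) (nat_lit 0x8000000000000000c00000500000000000000000000000000000000000000000000000000000000000000000000000000) (nat_lit 3)
theorem c31103 : QOK q31103 := cut [q28544] ⟨c28544, trivial⟩ (nd (nat_lit 322) (nat_lit 0) (cs (lf (nat_lit 30) (nat_lit 299)) (rf (nat_lit 0)))) q31103 (by decide +kernel)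
def q31134 : Q := Q.p (nat_lit 0x1e0000200000000000000000000000000000000000000000000000000000000000000000000000000000000) (nat_lit 0x1c000e00000d00000000000000000000000000000000000000000000000000000000000000000000000000000000) (nat_lit 5)
theorem c31134 : QOK q31134 := cut [q29100] ⟨c29100, trivial⟩ (nd (nat_lit 322) (nat_lit 0) (cs (lf (nat_lit 17) (nat_lit 319)) (nd (nat_lit 363) (nat_lit 0) (cs (lf (nat_lit 11) (nat_lit 340)) (nd (nat_lit 345) (nat_lit 0) (cs (lf (nat_lit 10) (nat_lit 341)) (rf (nat_lit 0)))))))) q31134 (by decide +kernel)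
def q31182 : Q := Q.p (nat_lit 0x7000004000000000000000000000000000000000000000000000000000000000000000000000000000000000000000000) (nat_lit 0x800000b800000000000000000000000000000000000000000000000000000000000000000000000000000000000000000) (nat_lit 3)
theorem c31182 : QOK q31182 := cut [q31181] ⟨c31181, trivial⟩ (nd (nat_lit 361) (nat_lit 0) (cs (lf (nat_lit 18) (nat_lit 361)) (rf (nat_lit 0)))) q31182 (by decide +kernel)
def q31187 : Q := Q.p (nat_lit 0x7000004000010000040000000000000000000000000000000000000000000000000000000000000000000000000000000) (nat_lit 0x7200018c00038000000000000000000000000000000000000000000000000000000000000000000000000000000000000000000) (nat_lit 6)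
theorem c31187 : QOK q31187 := cut [q29337] ⟨c29337, trivial⟩ (nd (nat_lit 383) (nat_lit 0) (cs (lf (nat_lit 41) (nat_lit 317)) (nd (nat_lit 364) (nat_lit 0) (cs (lf (nat_lit 17) (nat_lit 361)) (nd (nat_lit 363) (nat_lit 0) (cs (lf (nat_lit 12) (nat_lit 360)) (nd (nat_lit 387) (nat_lit 0) (cs (lf (nat_lit 18) (nat_lit 362)) (rf (nat_lit 0)))))))))) q31187 (by decide +kernel)
def q31207 : Q := Q.p (nat_lit 0x70000040000000000000000000000000000000000000000000000000000000000000000000000000000000) (nat_lit 0x88000038000000000000000000000000000000000000000000000000000000000000000000000000000000) (nat_lit 3)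
theorem c31207 : QOK q31207 := cut [q31206] ⟨c31206, trivial⟩ (nd (nat_lit 317) (nat_lit 0) (cs (lf (nat_lit 18) (nat_lit 317)) (rf (nat_lit 0)))) q31207 (by decide +kernel)
def q31218 : Q := Q.p (nat_lit 0x78000000000000000000000000000000000000000000000000000000000000000000000000000000000000) (nat_lit 0x38000004000038000000000000000000000000000000000000000000000000000000000000000000000000000000) (nat_lit 4)
theorem c31218 : QOK q31218 := cut [q13291] ⟨c13291, trivial⟩ (nd (nat_lit 316) (nat_lit 0) (cs (lf (nat_lit 22) (nat_lit 316)) (nd (nat_lit 338) (nat_lit 0) (cs (lf (nat_lit 23) (nat_lit 315)) (rf (nat_lit 0)))))) q31218 (by decide +kernel)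
def q31223 : Q := Q.p (nat_lit 0x70000000000200000800000000000000000000000000000000000000000000000000000000000000000000) (nat_lit 0x3b80000c000080000000000000000000000000000000000000000000000000000000000000000000000000000000) (nat_lit 5)
theorem c31223 : QOK q31223 := cut [q31222] ⟨c31222, trivial⟩ (nd (nat_lit 364) (nat_lit 0) (cs (lf (nat_lit 26) (nat_lit 275)) (rf (nat_lit 0)))) q31223 (by decide +kernel)
def q31225 : Q := Q.p (nat_lit 0x40000f0000000000000000000000000000000000000000000000000000000000000000000000000000000000000) (nat_lit 0xe8000100000000000000000000000000000000000000000000000000000000000000000000000000000000000000) (nat_lit 3)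
theorem c31225 : QOK q31225 := cut [q25367] ⟨c25367, trivial⟩ (nd (nat_lit 344) (nat_lit 0) (cs (lf (nat_lit 10) (nat_lit 340)) (rf (nat_lit 0)))) q31225 (by decide +kernel)
def q31229 : Q := Q.p (nat_lit 0x40000f0000000000000000000000000000000000000000000000000000000000000000000000000000000000000) (nat_lit 0x8000100000e00000000000000000000000000000000000000000000000000000000000000000000000000000000) (nat_lit 3)
theorem c31229 : QOK q31229 := cut [q22754] ⟨c22754, trivial⟩ (nd (nat_lit 322) (nat_lit 0) (cs (lf (nat_lit 16) (nat_lit 318)) (rf (nat_lit 0)))) q31229 (by decide +kernel)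
def q31232 : Q := Q.p (nat_lit 0x300000f0000000000000000000000000000000000000000000000000000000000000000000000000000000000000) (nat_lit 0x4000000000000000600000800002000000000000000000000000000000000000000000000000000000000000000000000) (nat_lit 3)
theorem c31232 : QOK q31232 := cut [q31231] ⟨c31231, trivial⟩ (nd (nat_lit 321) (nat_lit 0) (cs (lf (nat_lit 17) (nat_lit 318)) (rf (nat_lit 0)))) q31232 (by decide +kernel)
def q31266 : Q := Q.p (nat_lit 0xf0000000000000000000000000000000000000000000000000000000000000000000000000000000000000) (nat_lit 0xe0000100000e00000000000000000000000000000000000000000000000000000000000000000000000000000000) (nat_lit 4)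
theorem c31266 : QOK q31266 := cut [q31265] ⟨c31265, trivial⟩ (nd (nat_lit 322) (nat_lit 0) (cs (lf (nat_lit 16) (nat_lit 318)) (rf (nat_lit 0)))) q31266 (by decide +kernel)
def q31285 : Q := Q.p (nat_lit 0x3c000000000000000000000000000000000000000000000000000000000000000000000000000000000000) (nat_lit 0x1dc00002000000000000000000000000000000000000000000000000000000000000000000000000000000000000) (nat_lit 4)
theorem c31285 : QOK q31285 := cut [q15584] ⟨c15584, trivial⟩ (nd (nat_lit 359) (nat_lit 0) (cs (lf (nat_lit 10) (nat_lit 337)) (nd (nat_lit 337) (nat_lit 0) (cs (rf (nat_lit 0)) (lf (nat_lit 11) (nat_lit 336)))))) q31285 (by decide +kernel)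
def q31326 : Q := Q.p (nat_lit 0xc00001000004000000000000000000000000000000000000000000000000000000000000000000000) (nat_lit 0x2000000000020000000000300000c0000200000000000000000000000000000000000000000000000000000) (nat_lit 4)
theorem c31326 : QOK q31326 := cut [q31325] ⟨c31325, trivial⟩ (nd (nat_lit 256) (nat_lit 0) (cs (lf (nat_lit 29) (nat_lit 256)) (rf (nat_lit 0)))) q31326 (by decide +kernel)
def q31331 : Q := Q.p (nat_lit 0x100000400001800000000000000000000000000000000000000000000000000000000000000000000000000) (nat_lit 0x40000000000000000000006000008000020000000000000000000000000000000000000000000000000000000000) (nat_lit 3)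
theorem c31331 : QOK q31331 := cut [q14078] ⟨c14078, trivial⟩ (nd (nat_lit 277) (nat_lit 0) (cs (lf (nat_lit 42) (nat_lit 277)) (rf (nat_lit 0)))) q31331 (by decide +kernel)
def q31340 : Q := Q.p (nat_lit 0x140000c00000000000000000000000000000000000000000000000000000000000000000000000000000000) (nat_lit 0x2a0003000000000000000000000000000000000000000000000000000000000000000000000000000000000) (nat_lit 3)
theorem c31340 : QOK q31340 := cut [q28036] ⟨c28036, trivial⟩ (nd (nat_lit 343) (nat_lit 0) (cs (lf (nat_lit 12) (nat_lit 319)) (rf (nat_lit 0)))) q31340 (by decide +kernel)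
def q31341 : Q := Q.p (nat_lit 0xc00001000004000010000000000000000000000000000000000000000000000000000000000000000) (nat_lit 0x2000000000008000060000080000000000000000000000000000000000000000000000000000) (nat_lit 3)
theorem c31341 : QOK q31341 := cut [q12873] ⟨c12873, trivial⟩ (nd (nat_lit 234) (nat_lit 0) (cs (rf (nat_lit 0)) (lf (nat_lit 28) (nat_lit 234)))) q31341 (by decide +kernel)
def q31353 : Q := Q.p (nat_lit 0x140000c00001200000000000000000000000000000000000000000000000000000000000000000000000000) (nat_lit 0x100000400000a0003000002c0000a000000000000000000000000000000000000000000000000000000000000000000000) (nat_lit 6)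
theorem c31353 : QOK q31353 := cut [q31350] ⟨c31350, trivial⟩ (nd (nat_lit 299) (nat_lit 0) (cs (lf (nat_lit 1) (nat_lit 297)) (nd (nat_lit 324) (nat_lit 0) (cs (lf (nat_lit 18) (nat_lit 299)) (nd (nat_lit 341) (nat_lit 0) (cs (lf (nat_lit 14) (nat_lit 319)) (rf (nat_lit 0)))))))) q31353 (by decide +kernel)
def q31380 : Q := Q.p (nat_lit 0x100000c00002000000000000000000000000000000000000000000000000000000000000000000000000000) (nat_lit 0x10000040000200000000000000008000020000000000000000000000000000000000000000000000000000000000000000) (nat_lit 3)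
theorem c31380 : QOK q31380 := cut [q31379] ⟨c31379, trivial⟩ (nd (nat_lit 366) (nat_lit 0) (cs (lf (nat_lit 30) (nat_lit 300)) (rf (nat_lit 0)))) q31380 (by decide +kernel)
def q31399 : Q := Q.p (nat_lit 0x100000c00002000000800000000000000000000000000000000000000000000000000000000000000000000) (nat_lit 0x780001e0000700000d00001f000078000000000000000000000000000000000000000000000000000000000000000) (nat_lit 10)
theorem c31399 : QOK q31399 := cut [q31358] ⟨c31358, trivial⟩ (nd (nat_lit 279) (nat_lit 0) (cs (lf (nat_lit 36) (nat_lit 256)) (nd (nat_lit 345) (nat_lit 0) (cs (nd (nat_lit 346) (nat_lit 0) (cs (lf (nat_lit 29) (nat_lit 279)) (nd (nat_lit 280) (nat_lit 0) (cs (lf (nat_lit 35) (nat_lit 257)) (nd (nat_lit 302) (nat_lit 0) (cs (lf (nat_lit 30) (nat_lit 279)) (nd (nat_lit 347) (nat_lit 0) (cs (lf (nat_lit 18) (nat_lit 322)) (nd (nat_lit 369) (nat_lit 0) (cs (lf (nat_lit 5) (nat_lit 344)) (lf (nat_lit 26) (nat_lit 280)))))))))))) (cs (nd (nat_lit 280) (nat_lit 0) (cs (lf (nat_lit 35) (nat_lit 257)) (nd (nat_lit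 256) (nat_lit 0) (cs (lf (nat_lit 46) (nat_lit 256)) (nd (nat_lit 346) (nat_lit 0) (cs (lf (nat_lit 29) (nat_lit 279)) (nd (nat_lit 347) (nat_lit 0) (cs (lf (nat_lit 18) (nat_lit 322)) (nd (nat_lit 325) (nat_lit 0) (cs (lf (nat_lit 17) (nat_lit 322)) (nd (nat_lit 369) (nat_lit 0) (cs (lf (nat_lit 5) (nat_lit 344)) (nd (nat_lit 302) (nat_lit 0) (cs (lf (nat_lit 45) (nat_lit 280)) (lf (nat_lit 26) (nat_lit 280)))))))))))))))) (nd (nat_lit 278) (nat_lit 0) (cs (lf (nat_lit 47) (nat_lit 256)) (nd (nat_lit 300) (nat_lit 0) (cs (lf (nat_lit 29) (nat_lit 278)) (rf (nat_lit 0))))))))))) q31399 (by decide +kernel)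
def q31403 : Q := Q.p (nat_lit 0x100000c00001200000000000000000000000000000000000000000000000000000000000000000000000000) (nat_lit 0x10000040000000000000002c0000a000000000000000000000000000000000000000000000000000000000000000000000) (nat_lit 4)
theorem c31403 : QOK q31403 := cut [q31350] ⟨c31350, trivial⟩ (nd (nat_lit 299) (nat_lit 0) (cs (lf (nat_lit 1) (nat_lit 297)) (rf (nat_lit 0)))) q31403 (by decide +kernel)
def q31407 : Q := Q.p (nat_lit 0x140000c00001000000000000000000000000000000000000000000000000000000000000000000000000000) (nat_lit 0xa00002a0000000000000004000010000000000000000000000000000000000000000000000000000000000000000) (nat_lit 4)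
theorem c31407 : QOK q31407 := cut [q31405] ⟨c31405, trivial⟩ (nd (nat_lit 343) (nat_lit 0) (cs (lf (nat_lit 12) (nat_lit 319)) (nd (nat_lit 278) (nat_lit 0) (cs (lf (nat_lit 41) (nat_lit 277)) (rf (nat_lit 0)))))) q31407 (by decide +kernel)
def q31415 : Q := Q.p (nat_lit 0xc00001000004000000000000000000000000000000000000000000000000000000000000000000000) (nat_lit 0x2000000000000000000000380000e0000280000000000000000000000000000000000000000000000000000) (nat_lit 5)
theorem c31415 : QOK q31415 := cut [q31414] ⟨c31414, trivial⟩ (nd (nat_lit 256) (nat_lit 0) (cs (lf (nat_lit 29) (nat_lit 256)) (rf (nat_lit 0)))) q31415 (by decide +kernel)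
def q31446 : Q := Q.p (nat_lit 0x100000c00001000004000000000000000000000000000000000000000000000000000000000000000000000) (nat_lit 0x1c0000e00000300002000018000060000000000000000000000000000000000000000000000000000000000000000) (nat_lit 7)
theorem c31446 : QOK q31446 := cut [q31442] ⟨c31442, trivial⟩ (nd (nat_lit 345) (nat_lit 0) (cs (lf (nat_lit 29) (nat_lit 278)) (nd (nat_lit 279) (nat_lit 0) (cs (lf (nat_lit 35) (nat_lit 256)) (nd (nat_lit 301) (nat_lit 0) (cs (lf (nat_lit 30) (nat_lit 278)) (nd (nat_lit 258) (nat_lit 0) (cs (lf (nat_lit 34) (nat_lit 257)) (rf (nat_lit 0)))))))))) q31446 (by decide +kernel)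
def q31452 : Q := Q.p (nat_lit 0x400001000006000000000000000000000000000000000000000000000000000000000000000000000) (nat_lit 0x100000000000800000000008000020000080000000000000000000000000000000000000000000000000000) (nat_lit 3)
theorem c31452 : QOK q31452 := cut [q31451] ⟨c31451, trivial⟩ (nd (nat_lit 255) (nat_lit 0) (cs (lf (nat_lit 42) (nat_lit 255)) (rf (nat_lit 0)))) q31452 (by decide +kernel)
def q31621 : Q := Q.p (nat_lit 0x3c0000400000000000000000000000000000000000000000000000000000000000000000000000000000000) (nat_lit 0xee0001c00003a00000000000000000000000000000000000000000000000000000000000000000000000000000000) (nat_lit 7)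
theorem c31621 : QOK q31621 := cut [q28700] ⟨c28700, trivial⟩ (nd (nat_lit 324) (nat_lit 0) (cs (lf (nat_lit 16) (nat_lit 320)) (nd (nat_lit 346) (nat_lit 0) (cs (lf (nat_lit 17) (nat_lit 321)) (nd (nat_lit 347) (nat_lit 0) (cs (lf (nat_lit 23) (nat_lit 321)) (nd (nat_lit 370) (nat_lit 0) (cs (lf (nat_lit 4) (nat_lit 344)) (nd (nat_lit 366) (nat_lit 0) (cs (rf (nat_lit 0)) (lf (nat_lit 11) (nat_lit 343)))))))))))) q31621 (by decide +kernel)
def q31632 : Q := Q.p (nat_lit 0x100000400001000004000000000000000000000000000000000000000000000000000000000000000000000) (nat_lit 0x20000080000200000000008000030000080000000000000000000000000000000000000000000000000000000000) (nat_lit 4)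
theorem c31632 : QOK q31632 := cut [q31630] ⟨c31630, trivial⟩ (nd (nat_lit 343) (nat_lit 0) (cs (lf (nat_lit 41) (nat_lit 277)) (nd (nat_lit 256) (nat_lit 0) (cs (lf (nat_lit 40) (nat_lit 255)) (rf (nat_lit 0)))))) q31632 (by decide +kernel)
def q31655 : Q := Q.p (nat_lit 0x40000100000400001000000000000000000000000000000000000000000000000000000000000000000000000000) (nat_lit 0x2000008000020000000000200000c000020000000000000000000000000000000000000000000000000000000000000000) (nat_lit 4)
theorem c31655 : QOK q31655 := cut [q30450] ⟨c30450, trivial⟩ (nd (nat_lit 367) (nat_lit 0) (cs (lf (nat_lit 29) (nat_lit 300)) (nd (nat_lit 278) (nat_lit 0) (cs (lf (nat_lit 28) (nat_lit 278)) (rf (nat_lit 0)))))) q31655 (by decide +kernel)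
def q31661 : Q := Q.p (nat_lit 0x40000100000400001800000000000000000000000000000000000000000000000000000000000000000000000000) (nat_lit 0x2000018000020000000000200000000000000000000000000000000000000000000000000000000000000000000000000000000) (nat_lit 3)
theorem c31661 : QOK q31661 := cut [q31660] ⟨c31660, trivial⟩ (nd (nat_lit 387) (nat_lit 0) (cs (lf (nat_lit 40) (nat_lit 299)) (rf (nat_lit 0)))) q31661 (by decide +kernel)
def q31703 : Q := Q.p (nat_lit 0x40000100000400001200000000000000000000000000000000000000000000000000000000000000000000000000) (nat_lit 0x2000018000020000000000a00002c00000000000000000000000000000000000000000000000000000000000000000000000000) (nat_lit 5)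
theorem c31703 : QOK q31703 := cut [q31700] ⟨c31700, trivial⟩ (nd (nat_lit 387) (nat_lit 0) (cs (lf (nat_lit 40) (nat_lit 299)) (nd (nat_lit 388) (nat_lit 0) (cs (lf (nat_lit 41) (nat_lit 321)) (nd (nat_lit 323) (nat_lit 0) (cs (lf (nat_lit 35) (nat_lit 300)) (rf (nat_lit 0)))))))) q31703 (by decide +kernel)
def q31869 : Q := Q.p (nat_lit 0x140000400001200004800002000000000000000000000000000000000000000000000000000000000000000) (nat_lit 0x200000c00002100001c0002000008000020000000000000000000000000000000000000000000000000000000000000000) (nat_lit 6)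
theorem c31869 : QOK q31869 := cut [q31867] ⟨c31867, trivial⟩ (nd (nat_lit 319) (nat_lit 0) (cs (lf (nat_lit 28) (nat_lit 253)) (nd (nat_lit 318) (nat_lit 0) (cs (lf (nat_lit 41) (nat_lit 252)) (rf (nat_lit 0)))))) q31869 (by decide +kernel)
def q31890 : Q := Q.p (nat_lit 0x140000080000200001800003000000000000000000000000000000000000000000000000000000000000000) (nat_lit 0x40000300000c0000b0000070000500000000000c00000000000000000000000000000000000000000000000000000000000000) (nat_lit 8)
theorem c31890 : QOK q31890 := cut [q16750] ⟨c16750, trivial⟩ (nd (nat_lit 250) (nat_lit 0) (cs (lf (nat_lit 1) (nat_lit 250)) (nd (nat_lit 318) (nat_lit 0) (cs (lf (nat_lit 41) (nat_lit 252)) (nd (nat_lit 341) (nat_lit 0) (cs (lf (nat_lit 19) (nat_lit 318)) (nd (nat_lit 316) (nat_lit 0) (cs (lf (nat_lit 1) (nat_lit 316)) (nd (nat_lit 363) (nat_lit 0) (cs (rf (nat_lit 0)) (lf (nat_lit 34) (nat_lit 275)))))))))))) q31890 (by decide +kernel)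
def q32009 : Q := Q.p (nat_lit 0x140000400000200000800002000000000000000000000000000000000000000000000000000000000000000) (nat_lit 0xe40000b00009c0000000000000001000004000000000000000000000000000000000000000000000000000000000) (nat_lit 7)
theorem c32009 : QOK q32009 := cut [q25367] ⟨c25367, trivial⟩ (nd (nat_lit 319) (nat_lit 0) (cs (lf (nat_lit 28) (nat_lit 253)) (nd (nat_lit 230) (nat_lit 0) (cs (lf (nat_lit 46) (nat_lit 230)) (nd (nat_lit 340) (nat_lit 0) (cs (lf (nat_lit 40) (nat_lit 252)) (nd (nat_lit 341) (nat_lit 0) (cs (lf (nat_lit 41) (nat_lit 274)) (nd (nat_lit 343) (nat_lit 0) (cs (lf (nat_lit 17) (nat_lit 319)) (rf (nat_lit 0)))))))))))) q32009 (by decide +kernel)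
def q32033 : Q := Q.p (nat_lit 0x600000800002000008000000000000000000000000000000000000000000000000000000000) (nat_lit 0x1000000000010000060000100000000000000000000000000000000000000000000000) (nat_lit 3)
theorem c32033 : QOK q32033 := cut [q11580] ⟨c11580, trivial⟩ (nd (nat_lit 209) (nat_lit 0) (cs (lf (nat_lit 28) (nat_lit 209)) (rf (nat_lit 0)))) q32033 (by decide +kernel)
def q32042 : Q := Q.p (nat_lit 0x1000004000010000040000000000000000000000000000000000000000000000) (nat_lit 0x800006000008000000000080000a0000280000000000000000000000000000000000000000) (nat_lit 5)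
theorem c32042 : QOK q32042 := cut [q32039] ⟨c32039, trivial⟩ (nd (nat_lit 273) (nat_lit 0) (cs (lf (nat_lit 40) (nat_lit 185)) (nd (nat_lit 165) (nat_lit 0) (cs (lf (nat_lit 34) (nat_lit 164)) (nd (nat_lit 274) (nat_lit 0) (cs (lf (nat_lit 41) (nat_lit 207)) (rf (nat_lit 0)))))))) q32042 (by decide +kernel)
def q32056 : Q := Q.p (nat_lit 0x400001c0000000000000000000000000000000000000000) (nat_lit 0xae000030000000000000000000000000000000000000000) (nat_lit 4)
theorem c32056 : QOK q32056 := cut [q32055] ⟨c32055, trivial⟩ (nd (nat_lit 161) (nat_lit 0) (cs (lf (nat_lit 5) (nat_lit 161)) (rf (nat_lit 0)))) q32056 (by decide +kernel)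
def q32057 : Q := Q.p (nat_lit 0x100000400003c0000000000000000000000000000000000000000) (nat_lit 0x180000000001800002000000000000000000000000000000) (nat_lit 3)
theorem c32057 : QOK q32057 := cut [q4465] ⟨c4465, trivial⟩ (nd (nat_lit 187) (nat_lit 0) (cs (lf (nat_lit 5) (nat_lit 162)) (rf (nat_lit 0)))) q32057 (by decide +kernel)
def q32080 : Q := Q.p (nat_lit 0xf00003000000000000000000000000000000000000) (nat_lit 0x80000600000000000000004000010000000000000000000000000) (nat_lit 3)
theorem c32080 : QOK q32080 := cut [q21336] ⟨c21336, trivial⟩ (nd (nat_lit 189) (nat_lit 0) (cs (lf (nat_lit 5) (nat_lit 164)) (rf (nat_lit 0)))) q32080 (by decide +kernel)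
def q32206 : Q := Q.p (nat_lit 0x4000010000040000100000000000000000000000000000000000000000) (nat_lit 0x800002000008000000000080000600000800000000000000000000000000000) (nat_lit 4)
theorem c32206 : QOK q32206 := cut [q18157] ⟨c18157, trivial⟩ (nd (nat_lit 141) (nat_lit 0) (cs (lf (nat_lit 46) (nat_lit 141)) (nd (nat_lit 142) (nat_lit 0) (cs (lf (nat_lit 47) (nat_lit 119)) (rf (nat_lit 0)))))) q32206 (by decide +kernel)
def q32260 : Q := Q.p (nat_lit 0x1000004000010000040000000000000000000000000000000000000000000000) (nat_lit 0x200000800002000000000080000300000800000000000000000000000000000000000) (nat_lit 4)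
theorem c32260 : QOK q32260 := cut [q5533] ⟨c5533, trivial⟩ (nd (nat_lit 165) (nat_lit 0) (cs (lf (nat_lit 34) (nat_lit 164)) (nd (nat_lit 164) (nat_lit 0) (cs (lf (nat_lit 35) (nat_lit 142)) (rf (nat_lit 0)))))) q32260 (by decide +kernel)
def q32272 : Q := Q.p (nat_lit 0x10000040000100000400001000000000000000000000000000000) (nat_lit 0x80000200000800002800006000018000000000000000000) (nat_lit 5)
theorem c32272 : QOK q32272 := cut [q32271] ⟨c32271, trivial⟩ (nd (nat_lit 143) (nat_lit 0) (cs (lf (nat_lit 35) (nat_lit 120)) (rf (nat_lit 0)))) q32272 (by decide +kernel)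
def q32286 : Q := Q.p (nat_lit 0x180000400001000004000000000000000000000000) (nat_lit 0x200000000002000018000020000000000000) (nat_lit 3)
theorem c32286 : QOK q32286 := cut [q4907] ⟨c4907, trivial⟩ (nd (nat_lit 76) (nat_lit 0) (cs (rf (nat_lit 0)) (lf (nat_lit 40) (nat_lit 75)))) q32286 (by decide +kernel)
def q32324 : Q := Q.p (nat_lit 0x80001e0000000000000000000000000000000000000000) (nat_lit 0x100002000001c0000000000000000000000000000000000) (nat_lit 3)
theorem c32324 : QOK q32324 := cut [q2760] ⟨c2760, trivial⟩ (nd (nat_lit 165) (nat_lit 0) (cs (lf (nat_lit 10) (nat_lit 161)) (rf (nat_lit 0)))) q32324 (by decide +kernel)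
def q32343 : Q := Q.p (nat_lit 0x3c0001000000000000000000000000000000000000) (nat_lit 0x380000400002000000000000000000000000000000000000) (nat_lit 3)
theorem c32343 : QOK q32343 := cut [q6347] ⟨c6347, trivial⟩ (nd (nat_lit 188) (nat_lit 0) (cs (lf (nat_lit 4) (nat_lit 162)) (rf (nat_lit 0)))) q32343 (by decide +kernel)
def q32356 : Q := Q.p (nat_lit 0x40000180000400001000000000000000000000000000000) (nat_lit 0x20000000000000000800006000008000000000000000000) (nat_lit 3)
theorem c32356 : QOK q32356 := cut [q11200] ⟨c11200, trivial⟩ (nd (nat_lit 98) (nat_lit 0) (cs (lf (nat_lit 41) (nat_lit 97)) (rf (nat_lit 0)))) q32356 (by decide +kernel)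
def q32360 : Q := Q.p (nat_lit 0x100000c0000300000400000000000000000000000000000000000) (nat_lit 0x200001800006000000000000000000000000) (nat_lit 3)
theorem c32360 : QOK q32360 := cut [q556] ⟨c556, trivial⟩ (nd (nat_lit 120) (nat_lit 0) (cs (rf (nat_lit 0)) (lf (nat_lit 24) (nat_lit 98)))) q32360 (by decide +kernel)
def q32368 : Q := Q.p (nat_lit 0x1c0000400000000000000000000000000000000000) (nat_lit 0x220003800000000000000000000000000000000000) (nat_lit 3)
theorem c32368 : QOK q32368 := cut [q4532] ⟨c4532, trivial⟩ (nd (nat_lit 143) (nat_lit 0) (cs (lf (nat_lit 12) (nat_lit 139)) (rf (nat_lit 0)))) q32368 (by decide +kernel)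
def q32422 : Q := Q.p (nat_lit 0x80000380000800000000004000010000000000000000000000000000000000000000000000000000) (nat_lit 0x300000c00007c000460000780000e00002800000000000000000000000000000000000000000000000000000000) (nat_lit 10)
theorem c32422 : QOK q32422 := cut [q23421] ⟨c23421, trivial⟩ (nd (nat_lit 294) (nat_lit 0) (cs (rf (nat_lit 0)) (cs (nd (nat_lit 272) (nat_lit 0) (cs (lf (nat_lit 23) (nat_lit 271)) (nd (nat_lit 273) (nat_lit 0) (cs (lf (nat_lit 18) (nat_lit 272)) (nd (nat_lit 229) (nat_lit 0) (cs (lf (nat_lit 32) (nat_lit 207)) (nd (nat_lit 316) (nat_lit 0) (cs (lf (nat_lit 11) (nat_lit 293)) (nd (nat_lit 338) (nat_lit 0) (cs (lf (nat_lit 30) (nat_lit 272)) (nd (nat_lit 339) (nat_lit 0) (cs (lf (nat_lit 29) (nat_lit 272)) (nd (nat_lit 250) (nat_lit 0) (cs (lf (nat_lit 28) (nat_lit 250)) (nd (nat_lit 249) (nat_lit 0) (cs (lf (nat_lit 47) (nat_lit 227)) (lf (nat_lit 19) (nat_lit 249)))))))))))))))))) (nd (nat_lit 315) (nat_lit 0) (cs (lf (nat_lit 10) (nat_lit 293)) (nd (nat_lit 293) (nat_lit 0) (cs (lf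 (nat_lit 11) (nat_lit 292)) (lf (nat_lit 4) (nat_lit 293))))))))) q32422 (by decide +kernel)
def q32432 : Q := Q.p (nat_lit 0x700000a00000000000000000000000000000000000000000000000000000000000000000000) (nat_lit 0xc0003100000000000000000000000000000000000000000000000000000000000000000000) (nat_lit 3)
theorem c32432 : QOK q32432 := cut [q11657] ⟨c11657, trivial⟩ (nd (nat_lit 295) (nat_lit 0) (cs (lf (nat_lit 23) (nat_lit 272)) (rf (nat_lit 0)))) q32432 (by decide +kernel)
def q32461 : Q := Q.p (nat_lit 0xf0000000000000000000000000000000000000000) (nat_lit 0x7000008000700000000000000000000000000000000000) (nat_lit 4)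
theorem c32461 : QOK q32461 := cut [q32459] ⟨c32459, trivial⟩ (nd (nat_lit 181) (nat_lit 0) (cs (lf (nat_lit 10) (nat_lit 159)) (nd (nat_lit 159) (nat_lit 0) (cs (lf (nat_lit 11) (nat_lit 158)) (rf (nat_lit 0)))))) q32461 (by decide +kernel)
def q32467 : Q := Q.p (nat_lit 0x400000e0000000000000000000000000000000000000000) (nat_lit 0xae000110000000000000000000000000000000000000000) (nat_lit 4)
theorem c32467 : QOK q32467 := cut [q32055] ⟨c32055, trivial⟩ (nd (nat_lit 164) (nat_lit 0) (cs (lf (nat_lit 5) (nat_lit 161)) (rf (nat_lit 0)))) q32467 (by decide +kernel)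
def q32469 : Q := Q.p (nat_lit 0x400001e0000000000000000000000000000000000000000) (nat_lit 0x20000010000e00000000000000000000000000000000000) (nat_lit 3)
theorem c32469 : QOK q32469 := cut [q32468] ⟨c32468, trivial⟩ (nd (nat_lit 142) (nat_lit 0) (cs (lf (nat_lit 17) (nat_lit 139)) (rf (nat_lit 0)))) q32469 (by decide +kernel)
def q32472 : Q := Q.p (nat_lit 0x600000c0000000000000000000000000000000000000000) (nat_lit 0x190000030000000000000000000000000000000000000000) (nat_lit 3)
theorem c32472 : QOK q32472 := cut [q3937] ⟨c3937, trivial⟩ (nd (nat_lit 187) (nat_lit 0) (cs (lf (nat_lit 18) (nat_lit 162)) (rf (nat_lit 0)))) q32472 (by decide +kernel)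
def q32473 : Q := Q.p (nat_lit 0x180000600000c0000000000000000000000000000000000000000) (nat_lit 0x2000000000000000000000300000c00000000000000000000000000000) (nat_lit 3)
theorem c32473 : QOK q32473 := cut [q1662] ⟨c1662, trivial⟩ (nd (nat_lit 140) (nat_lit 0) (cs (rf (nat_lit 0)) (lf (nat_lit 42) (nat_lit 140)))) q32473 (by decide +kernel)
def q32474 : Q := Q.p (nat_lit 0x180000600000c0000000000000000000000000000000000000000) (nat_lit 0x300000c00003000000000000000000000100000000000000000000000000000000000) (nat_lit 4)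
theorem c32474 : QOK q32474 := cut [q2690] ⟨c2690, trivial⟩ (nd (nat_lit 229) (nat_lit 0) (cs (lf (nat_lit 47) (nat_lit 140)) (rf (nat_lit 0)))) q32474 (by decide +kernel)
def q32477 : Q := Q.p (nat_lit 0x180000600000c0000200000000000000000000000000000000000) (nat_lit 0x200000c00003000004000010000000000000000000000000000000000000000000000) (nat_lit 4)
theorem c32477 : QOK q32477 := cut [q32475] ⟨c32475, trivial⟩ (nd (nat_lit 228) (nat_lit 0) (cs (lf (nat_lit 40) (nat_lit 140)) (nd (nat_lit 229) (nat_lit 0) (cs (lf (nat_lit 41) (nat_lit 162)) (rf (nat_lit 0)))))) q32477 (by decide +kernel)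
def q32483 : Q := Q.p (nat_lit 0x180000600000c0000200000000000000000000000000000000000) (nat_lit 0x1c00007000010000000000100000400000000000000000000000000000) (nat_lit 5)
theorem c32483 : QOK q32483 := cut [q32480] ⟨c32480, trivial⟩ (nd (nat_lit 206) (nat_lit 0) (cs (lf (nat_lit 41) (nat_lit 140)) (nd (nat_lit 205) (nat_lit 0) (cs (lf (nat_lit 12) (nat_lit 182)) (nd (nat_lit 140) (nat_lit 0) (cs (lf (nat_lit 47) (nat_lit 118)) (rf (nat_lit 0)))))))) q32483 (by decide +kernel)
def q32492 : Q := Q.p (nat_lit 0x100000400003c0000000000000000000000000000000000000000) (nat_lit 0x400000780000800002000000000000000000000000) (nat_lit 4)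
theorem c32492 : QOK q32492 := cut [q20055] ⟨c20055, trivial⟩ (nd (nat_lit 140) (nat_lit 0) (cs (lf (nat_lit 23) (nat_lit 139)) (nd (nat_lit 141) (nat_lit 0) (cs (lf (nat_lit 18) (nat_lit 140)) (rf (nat_lit 0)))))) q32492 (by decide +kernel)
def q32499 : Q := Q.p (nat_lit 0x1c0000600000000000000000000000000000000000) (nat_lit 0x1c000e300001c0000000000000000000000000000000000) (nat_lit 6)
theorem c32499 : QOK q32499 := cut [q32496] ⟨c32496, trivial⟩ (nd (nat_lit 161) (nat_lit 0) (cs (lf (nat_lit 12) (nat_lit 138)) (nd (nat_lit 138) (nat_lit 0) (cs (lf (nat_lit 22) (nat_lit 138)) (nd (nat_lit 183) (nat_lit 0) (cs (lf (nat_lit 11) (nat_lit 160)) (rf (nat_lit 0)))))))) q32499 (by decide +kernel)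
def q32510 : Q := Q.p (nat_lit 0x10000040000000000e00000000000000000000000000000000000) (nat_lit 0x10000010001f000000000000000000000000000000) (nat_lit 4)
theorem c32510 : QOK q32510 := cut [q20424] ⟨c20424, trivial⟩ (nd (nat_lit 121) (nat_lit 0) (cs (lf (nat_lit 32) (nat_lit 120)) (rf (nat_lit 0)))) q32510 (by decide +kernel)
def q32523 : Q := Q.p (nat_lit 0xc0000700000000000000000000000000000000000) (nat_lit 0x1800006000038000000000080000780001800004000000000000000000) (nat_lit 5)
theorem c32523 : QOK q32523 := cut [q32515, q32518, q32520] ⟨c32515, c32518, c32520, trivial⟩ (nd (nat_lit 118) (nat_lit 0) (cs (rf (nat_lit 0)) (nd (nat_lit 184) (nat_lit 0) (cs (nd (nat_lit 206) (nat_lit 0) (cs (lf (nat_lit 30) (nat_lit 140)) (rf (nat_lit 1)))) (nd (nat_lit 117) (nat_lit 0) (cs (lf (nat_lit 47) (nat_lit 95)) (rf (nat_lit 2)))))))) q32523 (by decide +kernel)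
def q32526 : Q := Q.p (nat_lit 0x1e000000000000000000000000000000000000000000000000000) (nat_lit 0xe0000100000e000000000000000000000000000000000000000000000) (nat_lit 4)
theorem c32526 : QOK q32526 := cut [q153] ⟨c153, trivial⟩ (nd (nat_lit 182) (nat_lit 0) (cs (lf (nat_lit 22) (nat_lit 182)) (nd (nat_lit 204) (nat_lit 0) (cs (lf (nat_lit 23) (nat_lit 181)) (rf (nat_lit 0)))))) q32526 (by decide +kernel)
def q32535 : Q := Q.p (nat_lit 0x200000f00000000000000000000000000000000000) (nat_lit 0x100000080000700000000000000000000000000000) (nat_lit 3)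
theorem c32535 : QOK q32535 := cut [q5711] ⟨c5711, trivial⟩ (nd (nat_lit 139) (nat_lit 0) (cs (rf (nat_lit 0)) (lf (nat_lit 4) (nat_lit 139)))) q32535 (by decide +kernel)
def q32544 : Q := Q.p (nat_lit 0x100000400000c0000200000000000000000000000000000000000) (nat_lit 0x30000000000100000800006000018000040000000000000) (nat_lit 5)
theorem c32544 : QOK q32544 := cut [q32543] ⟨c32543, trivial⟩ (nd (nat_lit 119) (nat_lit 0) (cs (lf (nat_lit 27) (nat_lit 119)) (rf (nat_lit 0)))) q32544 (by decide +kernel)
def q32545 : Q := Q.p (nat_lit 0x1e0000180000000000000000000000000000000000) (nat_lit 0x200000c000000000000000400001000000000000000000000000) (nat_lit 3)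
theorem c32545 : QOK q32545 := cut [q8698] ⟨c8698, trivial⟩ (nd (nat_lit 183) (nat_lit 0) (cs (lf (nat_lit 11) (nat_lit 160)) (rf (nat_lit 0)))) q32545 (by decide +kernel)
def q32564 : Q := Q.p (nat_lit 0x400001e0000000000000000000000000000000000000000) (nat_lit 0x73c000e00003b00000400001000000000000000000000000) (nat_lit 9)
theorem c32564 : QOK q32564 := cut [q32563] ⟨c32563, trivial⟩ (nd (nat_lit 183) (nat_lit 0) (cs (lf (nat_lit 11) (nat_lit 160)) (rf (nat_lit 0)))) q32564 (by decide +kernel)
def q32570 : Q := Q.p (nat_lit 0xc0000600000000000000000000000000000000000) (nat_lit 0x30001900000000000000000000000000000000000) (nat_lit 3)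
theorem c32570 : QOK q32570 := cut [q32569] ⟨c32569, trivial⟩ (nd (nat_lit 161) (nat_lit 0) (cs (lf (nat_lit 12) (nat_lit 138)) (rf (nat_lit 0)))) q32570 (by decide +kernel)
def q32572 : Q := Q.p (nat_lit 0x100000400000c0000600000000000000000000000000000000000) (nat_lit 0x10000100000100000800006000018000040000000000000) (nat_lit 5)
theorem c32572 : QOK q32572 := cut [q32543] ⟨c32543, trivial⟩ (nd (nat_lit 119) (nat_lit 0) (cs (lf (nat_lit 44) (nat_lit 119)) (rf (nat_lit 0)))) q32572 (by decide +kernel)
def q32582 : Q := Q.p (nat_lit 0x8000040000100000600000000000000000000000000000000000) (nat_lit 0x2000008000000000300000e000038000020000000000000) (nat_lit 6)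
theorem c32582 : QOK q32582 := cut [q4907] ⟨c4907, trivial⟩ (nd (nat_lit 120) (nat_lit 0) (cs (lf (nat_lit 40) (nat_lit 119)) (nd (nat_lit 99) (nat_lit 0) (cs (lf (nat_lit 34) (nat_lit 98)) (nd (nat_lit 98) (nat_lit 0) (cs (lf (nat_lit 35) (nat_lit 76)) (nd (nat_lit 76) (nat_lit 0) (cs (rf (nat_lit 0)) (lf (nat_lit 41) (nat_lit 75)))))))))) q32582 (by decide +kernel)
def q32589 : Q := Q.p (nat_lit 0x40000e00000000000000000000000000000000000) (nat_lit 0x80000e8000110000c000010000040000000000000000000) (nat_lit 6)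
theorem c32589 : QOK q32589 := cut [q32588] ⟨c32588, trivial⟩ (nd (nat_lit 144) (nat_lit 0) (cs (lf (nat_lit 10) (nat_lit 140)) (rf (nat_lit 0)))) q32589 (by decide +kernel)
def q32595 : Q := Q.p (nat_lit 0x300000600000000000000000000000000000000000) (nat_lit 0xc00000980000000000000000000000000000000000) (nat_lit 3)
theorem c32595 : QOK q32595 := cut [q16406] ⟨c16406, trivial⟩ (nd (nat_lit 166) (nat_lit 0) (cs (lf (nat_lit 18) (nat_lit 141)) (rf (nat_lit 0)))) q32595 (by decide +kernel)
def q32607 : Q := Q.p (nat_lit 0x40000140000200000800000000000000000000000000000) (nat_lit 0x8000010000000000200001c000070000140000000) (nat_lit 6)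
theorem c32607 : QOK q32607 := cut [q32605] ⟨c32605, trivial⟩ (nd (nat_lit 97) (nat_lit 0) (cs (rf (nat_lit 0)) (lf (nat_lit 27) (nat_lit 97)))) q32607 (by decide +kernel)
def q32610 : Q := Q.p (nat_lit 0x10000040000100000400000000000000000000000000000000000) (nat_lit 0x2000008000020000000000800003000008000000000000000000000000) (nat_lit 4)
theorem c32610 : QOK q32610 := cut [q520] ⟨c520, trivial⟩ (nd (nat_lit 121) (nat_lit 0) (cs (lf (nat_lit 34) (nat_lit 120)) (nd (nat_lit 207) (nat_lit 0) (cs (rf (nat_lit 0)) (lf (nat_lit 41) (nat_lit 141)))))) q32610 (by decide +kernel)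
def q32613 : Q := Q.p (nat_lit 0x70000100000000000000000000000000000000000000000) (nat_lit 0x88000e00000000000000000000000000000000000000000) (nat_lit 3)
theorem c32613 : QOK q32613 := cut [q454] ⟨c454, trivial⟩ (nd (nat_lit 165) (nat_lit 0) (cs (rf (nat_lit 0)) (lf (nat_lit 12) (nat_lit 161)))) q32613 (by decide +kernel)
def q32618 : Q := Q.p (nat_lit 0x18000070000040000000000000000000000000000000000000000) (nat_lit 0x200000c0000700008c000000000000000000000000000000000000000000000) (nat_lit 5)
theorem c32618 : QOK q32618 := cut [q32103] ⟨c32103, trivial⟩ (nd (nat_lit 183) (nat_lit 0) (cs (lf (nat_lit 0) (nat_lit 182)) (nd (nat_lit 205) (nat_lit 0) (cs (lf (nat_lit 11) (nat_lit 182)) (nd (nat_lit 227) (nat_lit 0) (cs (lf (nat_lit 30) (nat_lit 161)) (rf (nat_lit 0)))))))) q32618 (by decide +kernel)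
def q32619 : Q := Q.p (nat_lit 0x70000100000000000000000000000000000000000000000) (nat_lit 0x8000e80000000000000000000000000000000000000000) (nat_lit 3)
theorem c32619 : QOK q32619 := cut [q8811] ⟨c8811, trivial⟩ (nd (nat_lit 165) (nat_lit 0) (cs (lf (nat_lit 12) (nat_lit 161)) (rf (nat_lit 0)))) q32619 (by decide +kernel)
def q32622 : Q := Q.p (nat_lit 0x300001c000040000000000000000000000000000000000000000000000) (nat_lit 0x380008e000000000000000000000000000000000000000000000) (nat_lit 4)
theorem c32622 : QOK q32622 := cut [q32620] ⟨c32620, trivial⟩ (nd (nat_lit 205) (nat_lit 0) (cs (lf (nat_lit 17) (nat_lit 183)) (nd (nat_lit 182) (nat_lit 0) (cs (lf (nat_lit 22) (nat_lit 182)) (rf (nat_lit 0)))))) q32622 (by decide +kernel)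
def q32628 : Q := Q.p (nat_lit 0x14000050000040000100000000000000000000000000000000000) (nat_lit 0x280000a000080000000000000000000000000000000000000000000000) (nat_lit 3)
theorem c32628 : QOK q32628 := cut [q32627] ⟨c32627, trivial⟩ (nd (nat_lit 207) (nat_lit 0) (cs (lf (nat_lit 29) (nat_lit 140)) (rf (nat_lit 0)))) q32628 (by decide +kernel)
def q32630 : Q := Q.p (nat_lit 0xc000010000040000000000000000000000000000000000000000) (nat_lit 0x200000800003000000000000000000000100000000000000000000000000000000000) (nat_lit 3)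
theorem c32630 : QOK q32630 := cut [q823] ⟨c823, trivial⟩ (nd (nat_lit 229) (nat_lit 0) (cs (rf (nat_lit 0)) (lf (nat_lit 24) (nat_lit 140)))) q32630 (by decide +kernel)
def q32634 : Q := Q.p (nat_lit 0x1e000010000040000000000000000000000000000000000000000) (nat_lit 0x80000200001c00000000000000000000000000000000000000000000000000000000) (nat_lit 3)
theorem c32634 : QOK q32634 := cut [q3222] ⟨c3222, trivial⟩ (nd (nat_lit 227) (nat_lit 0) (cs (lf (nat_lit 11) (nat_lit 204)) (rf (nat_lit 0)))) q32634 (by decide +kernel)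
def q32638 : Q := Q.p (nat_lit 0x6000010000040000000000000000000000000000000000000000) (nat_lit 0x80000200001800000000000000000000100000000000000000000000000000000000) (nat_lit 3)
theorem c32638 : QOK q32638 := cut [q3222] ⟨c3222, trivial⟩ (nd (nat_lit 227) (nat_lit 0) (cs (rf (nat_lit 0)) (lf (nat_lit 36) (nat_lit 139)))) q32638 (by decide +kernel)
def q32650 : Q := Q.p (nat_lit 0x500001c0000000000000000000000000000000000000000) (nat_lit 0x4000008000600001b8000280000a000000000000000000000000) (nat_lit 7)
theorem c32650 : QOK q32650 := cut [q32646] ⟨c32646, trivial⟩ (nd (nat_lit 165) (nat_lit 0) (cs (lf (nat_lit 11) (nat_lit 161)) (nd (nat_lit 143) (nat_lit 0) (cs (lf (nat_lit 17) (nat_lit 140)) (nd (nat_lit 99) (nat_lit 0) (cs (lf (nat_lit 37) (nat_lit 98)) (rf (nat_lit 0)))))))) q32650 (by decide +kernel)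
def q32668 : Q := Q.p (nat_lit 0x10000078000000000000000000000000000000000000000000000) (nat_lit 0xb800004000000000000000000000000000000000000000000000) (nat_lit 3)
theorem c32668 : QOK q32668 := cut [q32667] ⟨c32667, trivial⟩ (nd (nat_lit 182) (nat_lit 0) (cs (lf (nat_lit 4) (nat_lit 182)) (rf (nat_lit 0)))) q32668 (by decide +kernel)
def q32674 : Q := Q.p (nat_lit 0x10000040000100000400000000000000000000000000000) (nat_lit 0x8000020000080000000000200001800002000000000000000000) (nat_lit 4)
theorem c32674 : QOK q32674 := cut [q32672] ⟨c32672, trivial⟩ (nd (nat_lit 95) (nat_lit 0) (cs (lf (nat_lit 46) (nat_lit 95)) (nd (nat_lit 185) (nat_lit 0) (cs (lf (nat_lit 29) (nat_lit 118)) (rf (nat_lit 0)))))) q32674 (by decide +kernel)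
def q32685 : Q := Q.p (nat_lit 0x6000050000000000000000000000000000000000000000000000) (nat_lit 0x18000a8000000000000000000000000000000000000000000000) (nat_lit 3)
theorem c32685 : QOK q32685 := cut [q18919] ⟨c18919, trivial⟩ (nd (nat_lit 185) (nat_lit 0) (cs (lf (nat_lit 6) (nat_lit 183)) (rf (nat_lit 0)))) q32685 (by decide +kernel)
def q32724 : Q := Q.p (nat_lit 0x10000050000340000000000000000000000000000000000000000) (nat_lit 0x188000080001800002000000000000000000000000000000) (nat_lit 4)
theorem c32724 : QOK q32724 := cut [q32723] ⟨c32723, trivial⟩ (nd (nat_lit 163) (nat_lit 0) (cs (lf (nat_lit 11) (nat_lit 161)) (rf (nat_lit 0)))) q32724 (by decide +kernel)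
def q32743 : Q := Q.p (nat_lit 0x14000050000040000100000000000000000000000000000000000) (nat_lit 0x80000a0000a0000000000000000000000000000000000000000000000) (nat_lit 3)
theorem c32743 : QOK q32743 := cut [q32742] ⟨c32742, trivial⟩ (nd (nat_lit 205) (nat_lit 0) (cs (lf (nat_lit 41) (nat_lit 139)) (rf (nat_lit 0)))) q32743 (by decide +kernel)
def q32759 : Q := Q.p (nat_lit 0x10000050000040000100000400000000000000000000000000000) (nat_lit 0x280000e0000a0000000000000000000000000000000000000000000000) (nat_lit 4)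
theorem c32759 : QOK q32759 := cut [q32627] ⟨c32627, trivial⟩ (nd (nat_lit 207) (nat_lit 0) (cs (lf (nat_lit 28) (nat_lit 118)) (nd (nat_lit 206) (nat_lit 0) (cs (lf (nat_lit 29) (nat_lit 140)) (rf (nat_lit 0)))))) q32759 (by decide +kernel)
def q32769 : Q := Q.p (nat_lit 0x4000010000040000100000000000000000000000000000000000) (nat_lit 0x800002000008000000000200000c00002000000000000000000000000) (nat_lit 4)
theorem c32769 : QOK q32769 := cut [q32518] ⟨c32518, trivial⟩ (nd (nat_lit 119) (nat_lit 0) (cs (lf (nat_lit 34) (nat_lit 118)) (nd (nat_lit 118) (nat_lit 0) (cs (lf (nat_lit 35) (nat_lit 96)) (rf (nat_lit 0)))))) q32769 (by decide +kernel)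
def q32770 : Q := Q.p (nat_lit 0x6000010000040000100000000000000000000000000000000000) (nat_lit 0x8000000000080000600000800000000000000000000000) (nat_lit 3)
theorem c32770 : QOK q32770 := cut [q18039] ⟨c18039, trivial⟩ (nd (nat_lit 117) (nat_lit 0) (cs (lf (nat_lit 46) (nat_lit 117)) (rf (nat_lit 0)))) q32770 (by decide +kernel)
def q32784 : Q := Q.p (nat_lit 0x10000040000180000000000000000000000000000000000) (nat_lit 0x4000000000000000000000600000800002000000000000000000) (nat_lit 3)
theorem c32784 : QOK q32784 := cut [q32783] ⟨c32783, trivial⟩ (nd (nat_lit 117) (nat_lit 0) (cs (lf (nat_lit 42) (nat_lit 117)) (rf (nat_lit 0)))) q32784 (by decide +kernel)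
def q32792 : Q := Q.p (nat_lit 0x100001e00000000000000000000000000000000000) (nat_lit 0x60000618001c000000000000000000000000000000) (nat_lit 5)
theorem c32792 : QOK q32792 := cut [q622] ⟨c622, trivial⟩ (nd (nat_lit 123) (nat_lit 0) (cs (lf (nat_lit 16) (nat_lit 119)) (nd (nat_lit 145) (nat_lit 0) (cs (lf (nat_lit 17) (nat_lit 120)) (nd (nat_lit 165) (nat_lit 0) (cs (rf (nat_lit 0)) (lf (nat_lit 6) (nat_lit 142)))))))) q32792 (by decide +kernel)
def q32809 : Q := Q.p (nat_lit 0x18000040000000001e00008000000000000000000000000000000) (nat_lit 0x460003a0000c00002000010000020000080000000000000000000) (nat_lit 7)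
theorem c32809 : QOK q32809 := cut [q7338] ⟨c7338, trivial⟩ (nd (nat_lit 166) (nat_lit 0) (cs (lf (nat_lit 5) (nat_lit 141)) (nd (nat_lit 145) (nat_lit 0) (cs (lf (nat_lit 17) (nat_lit 120)) (nd (nat_lit 79) (nat_lit 0) (cs (lf (nat_lit 37) (nat_lit 78)) (nd (nat_lit 188) (nat_lit 0) (cs (lf (nat_lit 30) (nat_lit 122)) (nd (nat_lit 187) (nat_lit 0) (cs (lf (nat_lit 6) (nat_lit 185)) (rf (nat_lit 0)))))))))))) q32809 (by decide +kernel)
def q32838 : Q := Q.p (nat_lit 0x40000100000000003800000000000000000000000000000) (nat_lit 0x40000040007c000000000000000000000000) (nat_lit 4)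
theorem c32838 : QOK q32838 := cut [q32837] ⟨c32837, trivial⟩ (nd (nat_lit 99) (nat_lit 0) (cs (lf (nat_lit 32) (nat_lit 98)) (rf (nat_lit 0)))) q32838 (by decide +kernel)
def q32844 : Q := Q.p (nat_lit 0x3800002000000000000000000000000) (nat_lit 0x4400001c00000000000000000000000) (nat_lit 3)
theorem c32844 : QOK q32844 := cut [q32842] ⟨c32842, trivial⟩ (nd (nat_lit 96) (nat_lit 0) (cs (rf (nat_lit 0)) (lf (nat_lit 18) (nat_lit 96)))) q32844 (by decide +kernel)
def q32852 : Q := Q.p (nat_lit 0x3c00000000000000000000000000000) (nat_lit 0x1c000020001c000000000000000000000000) (nat_lit 4)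
theorem c32852 : QOK q32852 := cut [q32848] ⟨c32848, trivial⟩ (nd (nat_lit 139) (nat_lit 0) (cs (nd (nat_lit 117) (nat_lit 0) (cs (rf (nat_lit 0)) (lf (nat_lit 11) (nat_lit 116)))) (lf (nat_lit 10) (nat_lit 117)))) q32852 (by decide +kernel)
def q32857 : Q := Q.p (nat_lit 0x80003c00000000000000000000000000000) (nat_lit 0x40000200001c00000000000000000000000) (nat_lit 3)
theorem c32857 : QOK q32857 := cut [q32856] ⟨c32856, trivial⟩ (nd (nat_lit 117) (nat_lit 0) (cs (lf (nat_lit 11) (nat_lit 116)) (rf (nat_lit 0)))) q32857 (by decide +kernel)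
def q32919 : Q := Q.p (nat_lit 0x1e00000000000000000000000000000) (nat_lit 0xe0000100000e00000000000000000000000) (nat_lit 4)
theorem c32919 : QOK q32919 := cut [q32917] ⟨c32917, trivial⟩ (nd (nat_lit 138) (nat_lit 0) (cs (lf (nat_lit 10) (nat_lit 116)) (nd (nat_lit 116) (nat_lit 0) (cs (lf (nat_lit 11) (nat_lit 115)) (rf (nat_lit 0)))))) q32919 (by decide +kernel)
def q32929 : Q := Q.p (nat_lit 0x1e00002000000000000000000000000) (nat_lit 0xe0000180001700000000000000000000000) (nat_lit 5)
theorem c32929 : QOK q32929 := cut [q32925] ⟨c32925, trivial⟩ (nd (nat_lit 138) (nat_lit 0) (cs (lf (nat_lit 10) (nat_lit 116)) (nd (nat_lit 116) (nat_lit 0) (cs (lf (nat_lit 11) (nat_lit 115)) (nd (nat_lit 115) (nat_lit 0) (cs (rf (nat_lit 0)) (lf (nat_lit 16) (nat_lit 93)))))))) q32929 (by decide +kernel)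
def q32976 : Q := Q.p (nat_lit 0x3c00002000000000000000000000000) (nat_lit 0x700000c00003c000000000000000000000000) (nat_lit 5)
theorem c32976 : QOK q32976 := cut [q32825] ⟨c32825, trivial⟩ (nd (nat_lit 100) (nat_lit 0) (cs (lf (nat_lit 16) (nat_lit 96)) (nd (nat_lit 122) (nat_lit 0) (cs (lf (nat_lit 17) (nat_lit 97)) (nd (nat_lit 123) (nat_lit 0) (cs (lf (nat_lit 22) (nat_lit 97)) (rf (nat_lit 0)))))))) q32976 (by decide +kernel)
def q32998 : Q := Q.p (nat_lit 0x40000780000000000000000000000000000000000000000) (nat_lit 0xe80001800007000000000000000000000000000000000000) (nat_lit 5)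
theorem c32998 : QOK q32998 := cut [q32996] ⟨c32996, trivial⟩ (nd (nat_lit 145) (nat_lit 0) (cs (lf (nat_lit 16) (nat_lit 141)) (nd (nat_lit 167) (nat_lit 0) (cs (lf (nat_lit 17) (nat_lit 142)) (rf (nat_lit 0)))))) q32998 (by decide +kernel)
def q33013 : Q := Q.p (nat_lit 0x3c0000000000000000000000000000000000000000) (nat_lit 0x700000c00007380000000000000000000000000000000000) (nat_lit 6)
theorem c33013 : QOK q33013 := cut [q33009] ⟨c33009, trivial⟩ (nd (nat_lit 140) (nat_lit 0) (cs (lf (nat_lit 23) (nat_lit 139)) (nd (nat_lit 166) (nat_lit 0) (cs (lf (nat_lit 22) (nat_lit 140)) (rf (nat_lit 0)))))) q33013 (by decide +kernel)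
def q33016 : Q := Q.p (nat_lit 0x3c0000000000000000000000000000000000000000) (nat_lit 0x4000018000400000380000800002000000000000000000000000) (nat_lit 5)
theorem c33016 : QOK q33016 := cut [q32646] ⟨c32646, trivial⟩ (nd (nat_lit 184) (nat_lit 0) (cs (lf (nat_lit 11) (nat_lit 161)) (rf (nat_lit 0)))) q33016 (by decide +kernel)
def q33040 : Q := Q.p (nat_lit 0x3c00000000000000000000000000000000000) (nat_lit 0x1c0000020001c000000000000000000000000000000) (nat_lit 4)
theorem c33040 : QOK q33040 := cut [q21806] ⟨c21806, trivial⟩ (nd (nat_lit 167) (nat_lit 0) (cs (lf (nat_lit 5) (nat_lit 142)) (nd (nat_lit 141) (nat_lit 0) (cs (lf (nat_lit 4) (nat_lit 141)) (rf (nat_lit 0)))))) q33040 (by decide +kernel)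
def q33054 : Q := Q.p (nat_lit 0x300000400001000000000000000000000000000000) (nat_lit 0x8000000000080000000000c000030000080000000000000) (nat_lit 4)
theorem c33054 : QOK q33054 := cut [q32263] ⟨c32263, trivial⟩ (nd (nat_lit 98) (nat_lit 0) (cs (lf (nat_lit 29) (nat_lit 98)) (nd (nat_lit 77) (nat_lit 0) (cs (lf (nat_lit 34) (nat_lit 76)) (rf (nat_lit 0)))))) q33054 (by decide +kernel)
def q33055 : Q := Q.p (nat_lit 0x40000300000400001000000000000000000000000000000) (nat_lit 0x8000000000000000200000c000020000000000000000000) (nat_lit 3)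
theorem c33055 : QOK q33055 := cut [q20059] ⟨c20059, trivial⟩ (nd (nat_lit 98) (nat_lit 0) (cs (rf (nat_lit 0)) (lf (nat_lit 29) (nat_lit 98)))) q33055 (by decide +kernel)
def q33079 : Q := Q.p (nat_lit 0x40000000001c0000200000000000000000000000000000000000) (nat_lit 0x1000000000018000600000180000000000000000000000000000000000) (nat_lit 4)
theorem c33079 : QOK q33079 := cut [q10329] ⟨c10329, trivial⟩ (nd (nat_lit 184) (nat_lit 0) (cs (lf (nat_lit 30) (nat_lit 140)) (nd (nat_lit 165) (nat_lit 0) (cs (lf (nat_lit 11) (nat_lit 161)) (rf (nat_lit 0)))))) q33079 (by decide +kernel)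
def q33100 : Q := Q.p (nat_lit 0x18000060000140000100000000000000000000000000000000000) (nat_lit 0x1c000200000000000400000000000000000000000000000) (nat_lit 3)
theorem c33100 : QOK q33100 := cut [q4876] ⟨c4876, trivial⟩ (nd (nat_lit 184) (nat_lit 0) (cs (lf (nat_lit 24) (nat_lit 118)) (rf (nat_lit 0)))) q33100 (by decide +kernel)
def q33113 : Q := Q.p (nat_lit 0x2000018000060000040000000000000000000000000000000000000000) (nat_lit 0x400001000004000000000080000300000800000000000000000000000000000) (nat_lit 4)
theorem c33113 : QOK q33113 := cut [q20683] ⟨c20683, trivial⟩ (nd (nat_lit 163) (nat_lit 0) (cs (lf (nat_lit 47) (nat_lit 140)) (nd (nat_lit 141) (nat_lit 0) (cs (lf (nat_lit 24) (nat_lit 119)) (rf (nat_lit 0)))))) q33113 (by decide +kernel)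
def q33126 : Q := Q.p (nat_lit 0x100000400003c0000000000000000000000000000000000000000) (nat_lit 0x1c00002000008000000000000000000000000) (nat_lit 3)
theorem c33126 : QOK q33126 := cut [q21363] ⟨c21363, trivial⟩ (nd (nat_lit 143) (nat_lit 0) (cs (lf (nat_lit 17) (nat_lit 140)) (rf (nat_lit 0)))) q33126 (by decide +kernel)
def q33133 : Q := Q.p (nat_lit 0x10000380000000000000000000000000000000000000000) (nat_lit 0x720000c00007000000000000000000000000000000000000) (nat_lit 5)
theorem c33133 : QOK q33133 := cut [q33009] ⟨c33009, trivial⟩ (nd (nat_lit 166) (nat_lit 0) (cs (lf (nat_lit 10) (nat_lit 162)) (rf (nat_lit 0)))) q33133 (by decide +kernel)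
def q33168 : Q := Q.p (nat_lit 0xf00000000000000000000000000000000000000000) (nat_lit 0x40000700000080006000008000020000000000000000000000000) (nat_lit 5)
theorem c33168 : QOK q33168 := cut [q3026] ⟨c3026, trivial⟩ (nd (nat_lit 145) (nat_lit 0) (cs (lf (nat_lit 17) (nat_lit 142)) (nd (nat_lit 189) (nat_lit 0) (cs (lf (nat_lit 5) (nat_lit 164)) (nd (nat_lit 188) (nat_lit 0) (cs (rf (nat_lit 0)) (lf (nat_lit 0) (nat_lit 163)))))))) q33168 (by decide +kernel)
def q33209 : Q := Q.p (nat_lit 0xf000000000000000000000000000000) (nat_lit 0x800077000000000000000000000000) (nat_lit 4)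
theorem c33209 : QOK q33209 := cut [q19252] ⟨c19252, trivial⟩ (nd (nat_lit 101) (nat_lit 0) (cs (lf (nat_lit 17) (nat_lit 98)) (nd (nat_lit 119) (nat_lit 0) (cs (rf (nat_lit 0)) (lf (nat_lit 16) (nat_lit 97)))))) q33209 (by decide +kernel)
def q33261 : Q := Q.p (nat_lit 0x40000700000000000000000000000000000000000000000) (nat_lit 0xe2000180000e000000000000000000000000000000000000) (nat_lit 5)
theorem c33261 : QOK q33261 := cut [q20090] ⟨c20090, trivial⟩ (nd (nat_lit 167) (nat_lit 0) (cs (lf (nat_lit 11) (nat_lit 163)) (nd (nat_lit 190) (nat_lit 0) (cs (lf (nat_lit 4) (nat_lit 164)) (nd (nat_lit 146) (nat_lit 0) (cs (lf (nat_lit 16) (nat_lit 142)) (rf (nat_lit 0)))))))) q33261 (by decide +kernel)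
def q33273 : Q := Q.p (nat_lit 0x100000c00002000000000000000000000000000000000000) (nat_lit 0x10000040000000000000001000008000020000000000000000000000000) (nat_lit 3)
theorem c33273 : QOK q33273 := cut [q33156] ⟨c33156, trivial⟩ (nd (nat_lit 210) (nat_lit 0) (cs (lf (nat_lit 30) (nat_lit 144)) (rf (nat_lit 0)))) q33273 (by decide +kernel)
def q33279 : Q := Q.p (nat_lit 0x40000300000000003000000000000000000000000000000) (nat_lit 0x8000000000040000080000e000008000000000000000000) (nat_lit 4)
theorem c33279 : QOK q33279 := cut [q33190] ⟨c33190, trivial⟩ (nd (nat_lit 142) (nat_lit 0) (cs (lf (nat_lit 35) (nat_lit 98)) (rf (nat_lit 0)))) q33279 (by decide +kernel)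
def q33305 : Q := Q.p (nat_lit 0x40000300000400001000000000000000000000000000000) (nat_lit 0x80000000000000000800006000008000000000000000000) (nat_lit 3)
theorem c33305 : QOK q33305 := cut [q11200] ⟨c11200, trivial⟩ (nd (nat_lit 98) (nat_lit 0) (cs (rf (nat_lit 0)) (lf (nat_lit 29) (nat_lit 98)))) q33305 (by decide +kernel)
def q33310 : Q := Q.p (nat_lit 0x3c0000000000000000000000000000000000000000) (nat_lit 0x3b8000400000000000000000000000000000000000000000) (nat_lit 4)
theorem c33310 : QOK q33310 := cut [q17756] ⟨c17756, trivial⟩ (nd (nat_lit 188) (nat_lit 0) (cs (lf (nat_lit 4) (nat_lit 162)) (nd (nat_lit 184) (nat_lit 0) (cs (lf (nat_lit 11) (nat_lit 161)) (rf (nat_lit 0)))))) q33310 (by decide +kernel)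
def q33350 : Q := Q.p (nat_lit 0x10000340000000000000000000000000000000000000000) (nat_lit 0x4000188000480000380000800002000000000000000000000000) (nat_lit 6)
theorem c33350 : QOK q33350 := cut [q32646] ⟨c32646, trivial⟩ (nd (nat_lit 163) (nat_lit 0) (cs (lf (nat_lit 11) (nat_lit 161)) (nd (nat_lit 187) (nat_lit 0) (cs (lf (nat_lit 5) (nat_lit 162)) (rf (nat_lit 0)))))) q33350 (by decide +kernel)
def q33412 : Q := Q.p (nat_lit 0xd00000c0000300000000000000000000000000000000000) (nat_lit 0x1800006000020000000000000000000000000000000000000000000000) (nat_lit 3)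
theorem c33412 : QOK q33412 := cut [q32296] ⟨c32296, trivial⟩ (nd (nat_lit 206) (nat_lit 0) (cs (lf (nat_lit 30) (nat_lit 140)) (rf (nat_lit 0)))) q33412 (by decide +kernel)
def q33487 : Q := Q.p (nat_lit 0x50000060000000000000000000000000000000000000000) (nat_lit 0xa8000018000000000000000000000000000000000000000) (nat_lit 3)
theorem c33487 : QOK q33487 := cut [q19013] ⟨c19013, trivial⟩ (nd (nat_lit 185) (nat_lit 0) (cs (lf (nat_lit 18) (nat_lit 161)) (rf (nat_lit 0)))) q33487 (by decide +kernel)
def q33511 : Q := Q.p (nat_lit 0x10000040000040000700000000000000000000000000000000000) (nat_lit 0x120000800006000000000000000000000000000000) (nat_lit 3)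
theorem c33511 : QOK q33511 := cut [q16290] ⟨c16290, trivial⟩ (nd (nat_lit 143) (nat_lit 0) (cs (lf (nat_lit 11) (nat_lit 139)) (rf (nat_lit 0)))) q33511 (by decide +kernel)
def q33513 : Q := Q.p (nat_lit 0x10000040000000000f00000000000000000000000000000000000) (nat_lit 0x80000600000000006000000000000000000000000000000) (nat_lit 3)
theorem c33513 : QOK q33513 := cut [q33512] ⟨c33512, trivial⟩ (nd (nat_lit 121) (nat_lit 0) (cs (lf (nat_lit 17) (nat_lit 118)) (rf (nat_lit 0)))) q33513 (by decide +kernel)
def q33567 : Q := Q.p (nat_lit 0x10000040000000000400001000006000000000000000000000000) (nat_lit 0x2000008000020000100000000000000000000008000000000000000000) (nat_lit 3)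
theorem c33567 : QOK q33567 := cut [q20129] ⟨c20129, trivial⟩ (nd (nat_lit 164) (nat_lit 0) (cs (lf (nat_lit 47) (nat_lit 75)) (rf (nat_lit 0)))) q33567 (by decide +kernel)
def q33581 : Q := Q.p (nat_lit 0x1000003800000000000000000000000) (nat_lit 0x9c000060001c000000000000000000) (nat_lit 5)
theorem c33581 : QOK q33581 := cut [q33579] ⟨c33579, trivial⟩ (nd (nat_lit 94) (nat_lit 0) (cs (rf (nat_lit 0)) (lf (nat_lit 4) (nat_lit 94)))) q33581 (by decide +kernel)
def q33598 : Q := Q.p (nat_lit 0x3c00000000000000000000000) (nat_lit 0x1c0000200001c00000000000000000) (nat_lit 4)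
theorem c33598 : QOK q33598 := cut [q33596] ⟨c33596, trivial⟩ (nd (nat_lit 115) (nat_lit 0) (cs (lf (nat_lit 10) (nat_lit 93)) (nd (nat_lit 93) (nat_lit 0) (cs (lf (nat_lit 11) (nat_lit 92)) (rf (nat_lit 0)))))) q33598 (by decide +kernel)
def q33624 : Q := Q.p (nat_lit 0x40000100001000003800000000000000000000000) (nat_lit 0x80000a0000460001f8000760000c0000300) (nat_lit 11)
theorem c33624 : QOK q33624 := cut [q33616] ⟨c33616, trivial⟩ (nd (nat_lit 94) (nat_lit 0) (cs (lf (nat_lit 4) (nat_lit 94)) (rf (nat_lit 0)))) q33624 (by decide +kernel)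
def q33654 : Q := Q.p (nat_lit 0x40000100000000003000000000000000000000000) (nat_lit 0x800002000008000040000080000e000008000000000000) (nat_lit 5)
theorem c33654 : QOK q33654 := cut [q33653] ⟨c33653, trivial⟩ (nd (nat_lit 118) (nat_lit 0) (cs (lf (nat_lit 35) (nat_lit 74)) (rf (nat_lit 0)))) q33654 (by decide +kernel)
def q33656 : Q := Q.p (nat_lit 0x10000040000000000400001000002000000000000000000000000) (nat_lit 0x2000008000020000100000000000800000000000000000000000000000) (nat_lit 3)
theorem c33656 : QOK q33656 := cut [q20129] ⟨c20129, trivial⟩ (nd (nat_lit 164) (nat_lit 0) (cs (lf (nat_lit 46) (nat_lit 97)) (rf (nat_lit 0)))) q33656 (by decide +kernel)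
def q33665 : Q := Q.p (nat_lit 0x40000100001e00000000000000000000000000000) (nat_lit 0x1c00002000008000000000000) (nat_lit 3)
theorem c33665 : QOK q33665 := cut [q33664] ⟨c33664, trivial⟩ (nd (nat_lit 95) (nat_lit 0) (cs (lf (nat_lit 23) (nat_lit 94)) (rf (nat_lit 0)))) q33665 (by decide +kernel)
def q33670 : Q := Q.p (nat_lit 0x100001c00000000000000000000000000000) (nat_lit 0xe0002200000000000000000000000000000) (nat_lit 3)
theorem c33670 : QOK q33670 := cut [q33669] ⟨c33669, trivial⟩ (nd (nat_lit 139) (nat_lit 0) (cs (lf (nat_lit 6) (nat_lit 117)) (rf (nat_lit 0)))) q33670 (by decide +kernel)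
def q33676 : Q := Q.p (nat_lit 0x10000040000000000400001800000000000000000000000000000) (nat_lit 0x2000008000020000100000000000000002000000000000000000000000) (nat_lit 3)
theorem c33676 : QOK q33676 := cut [q20129] ⟨c20129, trivial⟩ (nd (nat_lit 164) (nat_lit 0) (cs (lf (nat_lit 47) (nat_lit 97)) (rf (nat_lit 0)))) q33676 (by decide +kernel)
def q33680 : Q := Q.p (nat_lit 0x40000100000400001000000000000000000000000) (nat_lit 0x800002000008000000000200000c000020000000000000) (nat_lit 4)
theorem c33680 : QOK q33680 := cut [q33679] ⟨c33679, trivial⟩ (nd (nat_lit 161) (nat_lit 0) (cs (lf (nat_lit 41) (nat_lit 95)) (rf (nat_lit 0)))) q33680 (by decide +kernel)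
def q33690 : Q := Q.p (nat_lit 0x10000040000000000400003c00000000000000000000000000000) (nat_lit 0x8000020000180000000001c0000300000c0000000000000) (nat_lit 6)
theorem c33690 : QOK q33690 := cut [q10565] ⟨c10565, trivial⟩ (nd (nat_lit 99) (nat_lit 0) (cs (lf (nat_lit 17) (nat_lit 96)) (nd (nat_lit 77) (nat_lit 0) (cs (nd (nat_lit 143) (nat_lit 0) (cs (lf (nat_lit 5) (nat_lit 118)) (nd (nat_lit 165) (nat_lit 0) (cs (lf (nat_lit 39) (nat_lit 120)) (rf (nat_lit 0)))))) (lf (nat_lit 36) (nat_lit 54)))))) q33690 (by decide +kernel)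
def q33694 : Q := Q.p (nat_lit 0x1e00000000000000000000000000000) (nat_lit 0x10000ee00000000000000000000000) (nat_lit 4)
theorem c33694 : QOK q33694 := cut [q32917] ⟨c32917, trivial⟩ (nd (nat_lit 98) (nat_lit 0) (cs (lf (nat_lit 17) (nat_lit 95)) (nd (nat_lit 116) (nat_lit 0) (cs (lf (nat_lit 16) (nat_lit 94)) (rf (nat_lit 0)))))) q33694 (by decide +kernel)
def q33711 : Q := Q.p (nat_lit 0x40000100000600001800000000000000000000000) (nat_lit 0x10000e000008000000000000000000) (nat_lit 3)
theorem c33711 : QOK q33711 := cut [q33710] ⟨c33710, trivial⟩ (nd (nat_lit 97) (nat_lit 0) (cs (lf (nat_lit 35) (nat_lit 74)) (rf (nat_lit 0)))) q33711 (by decide +kernel)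
def q33716 : Q := Q.p (nat_lit 0x40000100001e00000000000000000000000000000) (nat_lit 0x10000f000008000020000000000000) (nat_lit 4)
theorem c33716 : QOK q33716 := cut [q32972] ⟨c32972, trivial⟩ (nd (nat_lit 98) (nat_lit 0) (cs (lf (nat_lit 17) (nat_lit 95)) (nd (nat_lit 97) (nat_lit 0) (cs (rf (nat_lit 0)) (lf (nat_lit 12) (nat_lit 94)))))) q33716 (by decide +kernel)
def q33778 : Q := Q.p (nat_lit 0x10000040000060000500000800000000000000000000000000000) (nat_lit 0x118000280000000000000000000000000000000000) (nat_lit 3)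
theorem c33778 : QOK q33778 := cut [q33776] ⟨c33776, trivial⟩ (nd (nat_lit 141) (nat_lit 0) (cs (lf (nat_lit 44) (nat_lit 119)) (rf (nat_lit 0)))) q33778 (by decide +kernel)
def q33781 : Q := Q.p (nat_lit 0x40000700000400001000000000000000000000000) (nat_lit 0x8000038000080000000000000000000000000000000000) (nat_lit 3)
theorem c33781 : QOK q33781 := cut [q33776] ⟨c33776, trivial⟩ (nd (nat_lit 161) (nat_lit 0) (cs (lf (nat_lit 41) (nat_lit 95)) (rf (nat_lit 0)))) q33781 (by decide +kernel)
def q33792 : Q := Q.p (nat_lit 0x10000040000000000400000800000000000000000000000000000) (nat_lit 0x2000008000020000100000200001000002000000000000000000000000) (nat_lit 4)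
theorem c33792 : QOK q33792 := cut [q33791] ⟨c33791, trivial⟩ (nd (nat_lit 164) (nat_lit 0) (cs (lf (nat_lit 46) (nat_lit 119)) (rf (nat_lit 0)))) q33792 (by decide +kernel)
def q33844 : Q := Q.p (nat_lit 0x10000040000050000540000900000000000000000000000000000) (nat_lit 0x2f0000f800127000200000080002e0000f800008000000000000) (nat_lit 10)
theorem c33844 : QOK q33844 := cut [q33821] ⟨c33821, trivial⟩ (nd (nat_lit 182) (nat_lit 0) (cs (nd (nat_lit 141) (nat_lit 0) (cs (lf (nat_lit 44) (nat_lit 119)) (nd (nat_lit 75) (nat_lit 0) (cs (lf (nat_lit 37) (nat_lit 74)) (nd (nat_lit 181) (nat_lit 0) (cs (nd (nat_lit 183) (nat_lit 0) (cs (lf (nat_lit 29) (nat_lit 116)) (nd (nat_lit 161) (nat_lit 0) (cs (lf (nat_lit 24) (nat_lit 94)) (lf (nat_lit 12) (nat_lit 158)))))) (lf (nat_lit 41) (nat_lit 115)))))))) (cs (nd (nat_lit 141) (nat_lit 0) (cs (lf (nat_lit 44) (nat_lit 119)) (nd (nat_lit 75) (nat_lit 0) (cs (lf (nat_lit 37) (nat_lit 74)) (nd (nat_lit 181) (nat_lit 0) (cs (lf (nat_lit 41) (nat_lit 115)) (nd (nat_lit 93) (nat_lit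 0) (cs (lf (nat_lit 46) (nat_lit 93)) (nd (nat_lit 94) (nat_lit 0) (cs (lf (nat_lit 47) (nat_lit 71)) (rf (nat_lit 0)))))))))))) (cs (nd (nat_lit 93) (nat_lit 0) (cs (lf (nat_lit 46) (nat_lit 93)) (nd (nat_lit 183) (nat_lit 0) (cs (lf (nat_lit 29) (nat_lit 116)) (nd (nat_lit 94) (nat_lit 0) (cs (lf (nat_lit 47) (nat_lit 71)) (lf (nat_lit 28) (nat_lit 94)))))))) (nd (nat_lit 181) (nat_lit 0) (cs (lf (nat_lit 41) (nat_lit 115)) (nd (nat_lit 93) (nat_lit 0) (cs (lf (nat_lit 46) (nat_lit 93)) (nd (nat_lit 141) (nat_lit 0) (cs (lf (nat_lit 44) (nat_lit 119)) (nd (nat_lit 183) (nat_lit 0) (cs (lf (nat_lit 29) (nat_lit 116)) (nd (nat_lit 180) (nat_lit 0) (cs (nd (nat_lit 201) (nat_lit 0) (cs (nd (nat_lit 157) (nat_lit 0) (cs (nd (nat_lit 179) (nat_lit 0) (cs (lf (nat_lit 11) (nat_lit 178)) (lf (nat_lit 23) (nat_lit 156)))) (lf (nat_lit 22) (nat_lit 157)))) (lf (nat_lit 10) (nat_lit 179)))) (lf (nat_lit 16) (nat_lit 158)))))))))))))))) q33844 (by decide +kernel)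
def q33868 : Q := Q.p (nat_lit 0x10000040000100000400000000000000000000000) (nat_lit 0xa0000380000a000000000000) (nat_lit 4)
theorem c33868 : QOK q33868 := cut [q33866] ⟨c33866, trivial⟩ (nd (nat_lit 73) (nat_lit 0) (cs (lf (nat_lit 34) (nat_lit 72)) (nd (nat_lit 72) (nat_lit 0) (cs (lf (nat_lit 35) (nat_lit 50)) (rf (nat_lit 0)))))) q33868 (by decide +kernel)
def q33978 : Q := Q.p (nat_lit 0x40000140000c00000000000000000000000000000) (nat_lit 0xe0000380000e0000380000bc0003f0000e0000380000e000028000000) (nat_lit 12)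
theorem c33978 : QOK q33978 := cut [q33915, q33920, q33939, q23983, q33973] ⟨c33915, c33920, c33939, c23983, c33973, trivial⟩ (nd (nat_lit 137) (nat_lit 0) (cs (lf (nat_lit 14) (nat_lit 115)) (nd (nat_lit 116) (nat_lit 0) (cs (lf (nat_lit 8) (nat_lit 115)) (nd (nat_lit 94) (nat_lit 0) (cs (rf (nat_lit 0)) (cs (nd (nat_lit 71) (nat_lit 0) (cs (nd (nat_lit 49) (nat_lit 0) (cs (nd (nat_lit 93) (nat_lit 0) (cs (lf (nat_lit 24) (nat_lit 27)) (lf (nat_lit 42) (nat_lit 71)))) (lf (nat_lit 45) (nat_lit 49)))) (cs (nd (nat_lit 72) (nat_lit 0) (cs (lf (nat_lit 47) (nat_lit 49)) (nd (nat_lit 50) (nat_lit 0) (cs (lf (nat_lit 40) (nat_lit 49)) (nd (nat_lit 51) (nat_lit 0) (cs (lf (nat_lit 35) (nat_lit 28)) (lf (nat_lit 34) (nat_lit 50)))))))) (cs (nd (nat_lit 93) (nat_lit 0) (cs (rf (nat_lit 1)) (lf (nat_lit 42) (nat_lit 71)))) (nd (nat_lit 160) (nat_lit 0) (cs (lf (nat_lit 46) (nat_lit 71)) (nd (nat_lit 73) (nat_lit 0) (cs (lf (nat_lit 34) (nat_lit 72)) (nd (nat_lit 51) (nat_lit 0) (cs (lf (nat_lit 33) (nat_lit 50)) (rf (nat_lit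 2)))))))))))) (cs (nd (nat_lit 160) (nat_lit 0) (cs (rf (nat_lit 2)) (cs (nd (nat_lit 159) (nat_lit 0) (cs (lf (nat_lit 41) (nat_lit 93)) (nd (nat_lit 73) (nat_lit 0) (cs (lf (nat_lit 34) (nat_lit 72)) (nd (nat_lit 93) (nat_lit 0) (cs (lf (nat_lit 47) (nat_lit 71)) (nd (nat_lit 182) (nat_lit 0) (cs (nd (nat_lit 205) (nat_lit 0) (cs (lf (nat_lit 28) (nat_lit 116)) (nd (nat_lit 204) (nat_lit 0) (cs (lf (nat_lit 29) (nat_lit 138)) (lf (nat_lit 42) (nat_lit 137)))))) (lf (nat_lit 25) (nat_lit 93)))))))))) (cs (nd (nat_lit 71) (nat_lit 0) (cs (lf (nat_lit 46) (nat_lit 71)) (nd (nat_lit 73) (nat_lit 0) (cs (lf (nat_lit 34) (nat_lit 72)) (nd (nat_lit 161) (nat_lit 0) (cs (rf (nat_lit 3)) (lf (nat_lit 29) (nat_lit 94)))))))) (nd (nat_lit 159) (nat_lit 0) (cs (lf (nat_lit 41) (nat_lit 93)) (nd (nat_lit 136) (nat_lit 0) (cs (nd (nat_lit 135) (nat_lit 0) (cs (nd (nat_lit 95) (nat_lit 0) (cs (lf (nat_lit 35) (nat_lit 72)) (nd (nat_lit 113) (nat_lit 0) (cs (nd (nat_lit 93) (nat_lit 0) (cs (lf (nat_lit 47) (nat_lit 71)) (nd (nat_lit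 115) (nat_lit 0) (cs (lf (nat_lit 29) (nat_lit 93)) (lf (nat_lit 13) (nat_lit 91)))))) (lf (nat_lit 23) (nat_lit 112)))))) (lf (nat_lit 0) (nat_lit 134)))) (lf (nat_lit 19) (nat_lit 136)))))))))) (cs (nd (nat_lit 72) (nat_lit 0) (cs (lf (nat_lit 41) (nat_lit 71)) (nd (nat_lit 49) (nat_lit 0) (cs (nd (nat_lit 51) (nat_lit 0) (cs (lf (nat_lit 34) (nat_lit 50)) (nd (nat_lit 50) (nat_lit 0) (cs (lf (nat_lit 35) (nat_lit 28)) (lf (nat_lit 47) (nat_lit 27)))))) (lf (nat_lit 46) (nat_lit 49)))))) (nd (nat_lit 72) (nat_lit 0) (cs (lf (nat_lit 41) (nat_lit 71)) (nd (nat_lit 50) (nat_lit 0) (cs (lf (nat_lit 40) (nat_lit 49)) (rf (nat_lit 4))))))))))))))) q33978 (by decide +kernel)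
def q33985 : Q := Q.p (nat_lit 0x180000c00000000000000000000000000000) (nat_lit 0x60003200000000000000000000000000000) (nat_lit 3)
theorem c33985 : QOK q33985 := cut [q33669] ⟨c33669, trivial⟩ (nd (nat_lit 120) (nat_lit 0) (cs (lf (nat_lit 6) (nat_lit 117)) (rf (nat_lit 0)))) q33985 (by decide +kernel)
def q34004 : Q := Q.p (nat_lit 0x180000c00000000000000000000000000000) (nat_lit 0x260003000000000000000000000000000000) (nat_lit 3)
theorem c34004 : QOK q34004 := cut [q34003] ⟨c34003, trivial⟩ (nd (nat_lit 120) (nat_lit 0) (cs (lf (nat_lit 6) (nat_lit 117)) (rf (nat_lit 0)))) q34004 (by decide +kernel)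
def q34011 : Q := Q.p (nat_lit 0x8000040000100000400000c00000000000000000000000000000) (nat_lit 0x2000000000000000320000c000020000000000000000000) (nat_lit 4)
theorem c34011 : QOK q34011 := cut [q34010] ⟨c34010, trivial⟩ (nd (nat_lit 120) (nat_lit 0) (cs (lf (nat_lit 40) (nat_lit 119)) (rf (nat_lit 0)))) q34011 (by decide +kernel)
def q34023 : Q := Q.p (nat_lit 0x10000040000040000500000c00001000000000000000000000000) (nat_lit 0x10000020000000000200000c000030000000000000) (nat_lit 4)
theorem c34023 : QOK q34023 := cut [q34021] ⟨c34021, trivial⟩ (nd (nat_lit 75) (nat_lit 0) (cs (lf (nat_lit 34) (nat_lit 74)) (nd (nat_lit 74) (nat_lit 0) (cs (lf (nat_lit 35) (nat_lit 52)) (rf (nat_lit 0)))))) q34023 (by decide +kernel)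
def q34025 : Q := Q.p (nat_lit 0x10000040000040000500000c00001000000000000000000000000) (nat_lit 0x100000200000000000800006000018000000000000) (nat_lit 4)
theorem c34025 : QOK q34025 := cut [q34021] ⟨c34021, trivial⟩ (nd (nat_lit 73) (nat_lit 0) (cs (lf (nat_lit 46) (nat_lit 73)) (nd (nat_lit 74) (nat_lit 0) (cs (lf (nat_lit 47) (nat_lit 51)) (rf (nat_lit 0)))))) q34025 (by decide +kernel)
def q34066 : Q := Q.p (nat_lit 0x40000500000c00000000000000000000000000000) (nat_lit 0x800002000020000730003fe0007e0000fc000020000000) (nat_lit 13)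
theorem c34066 : QOK q34066 := cut [q33789, q33732, q33682] ⟨c33789, c33732, c33682, trivial⟩ (nd (nat_lit 96) (nat_lit 0) (cs (rf (nat_lit 0)) (cs (nd (nat_lit 75) (nat_lit 0) (cs (lf (nat_lit 34) (nat_lit 74)) (nd (nat_lit 74) (nat_lit 0) (cs (lf (nat_lit 35) (nat_lit 52)) (nd (nat_lit 161) (nat_lit 0) (cs (lf (nat_lit 41) (nat_lit 95)) (nd (nat_lit 51) (nat_lit 0) (cs (nd (nat_lit 52) (nat_lit 0) (cs (lf (nat_lit 29) (nat_lit 52)) (lf (nat_lit 47) (nat_lit 29)))) (lf (nat_lit 46) (nat_lit 51)))))))))) (nd (nat_lit 120) (nat_lit 0) (cs (rf (nat_lit 1)) (cs (nd (nat_lit 161) (nat_lit 0) (cs (lf (nat_lit 41) (nat_lit 95)) (nd (nat_lit 95) (nat_lit 0) (cs (lf (nat_lit 18) (nat_lit 95)) (rf (nat_lit 2)))))) (cs (nd (nat_lit 161) (nat_lit 0) (cs (lf (nat_lit 41) (nat_lit 95)) (nd (nat_lit 75) (nat_lit 0) (cs (lf (nat_lit 34) (nat_lit 74)) (nd (nat_lit 53) (nat_lit 0) (cs (lf (nat_lit 33) (nat_lit 52)) (nd (nat_lit 98) (nat_lit 0) (cs (lf (nat_lit 45) (nat_lit 53)) (nd (nat_lit 117) (nat_lit 0) (cs (lf (nat_lit 17) (nat_lit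 95)) (nd (nat_lit 94) (nat_lit 0) (cs (lf (nat_lit 22) (nat_lit 94)) (nd (nat_lit 116) (nat_lit 0) (cs (lf (nat_lit 23) (nat_lit 93)) (lf (nat_lit 4) (nat_lit 116)))))))))))))))) (nd (nat_lit 75) (nat_lit 0) (cs (lf (nat_lit 34) (nat_lit 74)) (nd (nat_lit 53) (nat_lit 0) (cs (lf (nat_lit 33) (nat_lit 52)) (nd (nat_lit 76) (nat_lit 0) (cs (lf (nat_lit 44) (nat_lit 53)) (nd (nat_lit 161) (nat_lit 0) (cs (lf (nat_lit 41) (nat_lit 95)) (nd (nat_lit 121) (nat_lit 0) (cs (lf (nat_lit 23) (nat_lit 95)) (nd (nat_lit 99) (nat_lit 0) (cs (lf (nat_lit 17) (nat_lit 96)) (nd (nat_lit 77) (nat_lit 0) (cs (lf (nat_lit 36) (nat_lit 54)) (nd (nat_lit 122) (nat_lit 0) (cs (lf (nat_lit 10) (nat_lit 118)) (nd (nat_lit 52) (nat_lit 0) (cs (nd (nat_lit 51) (nat_lit 0) (cs (lf (nat_lit 0) (nat_lit 50)) (lf (nat_lit 3) (nat_lit 51)))) (lf (nat_lit 18) (nat_lit 52))))))))))))))))))))))))))) q34066 (by decide +kernel)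
def q34070 : Q := Q.p (nat_lit 0x60000100000400000000000000000000000000000) (nat_lit 0x800000000008000000000300000c000020000000000000) (nat_lit 4)
theorem c34070 : QOK q34070 := cut [q34068] ⟨c34068, trivial⟩ (nd (nat_lit 96) (nat_lit 0) (cs (lf (nat_lit 41) (nat_lit 95)) (nd (nat_lit 75) (nat_lit 0) (cs (lf (nat_lit 34) (nat_lit 74)) (rf (nat_lit 0)))))) q34070 (by decide +kernel)
def q34076 : Q := Q.p (nat_lit 0x70000100000000000000000000000000000000000) (nat_lit 0x380000c000238000000000000000000000000000000000) (nat_lit 5)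
theorem c34076 : QOK q34076 := cut [q34075] ⟨c34075, trivial⟩ (nd (nat_lit 159) (nat_lit 0) (cs (lf (nat_lit 17) (nat_lit 137)) (rf (nat_lit 0)))) q34076 (by decide +kernel)
def q34086 : Q := Q.p (nat_lit 0x8000070000180000600000000000000000000000000000) (nat_lit 0x10000070000000000400001c0000700000000000000000000000) (nat_lit 6)
theorem c34086 : QOK q34086 := cut [q34083] ⟨c34083, trivial⟩ (nd (nat_lit 182) (nat_lit 0) (cs (nd (nat_lit 180) (nat_lit 0) (cs (lf (nat_lit 13) (nat_lit 158)) (rf (nat_lit 0)))) (lf (nat_lit 41) (nat_lit 116)))) q34086 (by decide +kernel)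
def q34089 : Q := Q.p (nat_lit 0x60000180000600000000000000000000000000000) (nat_lit 0x2000008000000000000000100000c00003000000000000000000) (nat_lit 4)
theorem c34089 : QOK q34089 := cut [q19001] ⟨c19001, trivial⟩ (nd (nat_lit 183) (nat_lit 0) (cs (lf (nat_lit 30) (nat_lit 117)) (nd (nat_lit 95) (nat_lit 0) (cs (rf (nat_lit 0)) (lf (nat_lit 24) (nat_lit 73)))))) q34089 (by decide +kernel)
def q34097 : Q := Q.p (nat_lit 0x18000020000080000000000000000000000000000) (nat_lit 0x4000000000040000000000600001800004000000000000) (nat_lit 4)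
theorem c34097 : QOK q34097 := cut [q34096] ⟨c34096, trivial⟩ (nd (nat_lit 93) (nat_lit 0) (cs (lf (nat_lit 29) (nat_lit 93)) (rf (nat_lit 0)))) q34097 (by decide +kernel)
def q34099 : Q := Q.p (nat_lit 0x2000008000020000080000000000000000000000000000) (nat_lit 0x140000700001400000000000000000) (nat_lit 4)
theorem c34099 : QOK q34099 := cut [q17989] ⟨c17989, trivial⟩ (nd (nat_lit 94) (nat_lit 0) (cs (lf (nat_lit 34) (nat_lit 93)) (nd (nat_lit 93) (nat_lit 0) (cs (lf (nat_lit 35) (nat_lit 71)) (rf (nat_lit 0)))))) q34099 (by decide +kernel)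
def q34112 : Q := Q.p (nat_lit 0x18000020000080000200000000000000000000000) (nat_lit 0x40000000000100000c00001000000000000) (nat_lit 3)
theorem c34112 : QOK q34112 := cut [q34111] ⟨c34111, trivial⟩ (nd (nat_lit 71) (nat_lit 0) (cs (lf (nat_lit 28) (nat_lit 71)) (rf (nat_lit 0)))) q34112 (by decide +kernel)
def q34125 : Q := Q.p (nat_lit 0x10000040000000000780000000000000000000000000000000000) (nat_lit 0x2000008000020000300000000003000000000000000000000000000000) (nat_lit 4)
theorem c34125 : QOK q34125 := cut [q20129] ⟨c20129, trivial⟩ (nd (nat_lit 120) (nat_lit 0) (cs (lf (nat_lit 17) (nat_lit 117)) (nd (nat_lit 164) (nat_lit 0) (cs (lf (nat_lit 5) (nat_lit 139)) (rf (nat_lit 0)))))) q34125 (by decide +kernel)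
def q34164 : Q := Q.p (nat_lit 0x60000180000400000800000000000000000000000) (nat_lit 0x700001c0000300003c0000700003000000000000000000) (nat_lit 9)
theorem c34164 : QOK q34164 := cut [q34163] ⟨c34163, trivial⟩ (nd (nat_lit 117) (nat_lit 0) (cs (lf (nat_lit 24) (nat_lit 73)) (rf (nat_lit 0)))) q34164 (by decide +kernel)
def q34191 : Q := Q.p (nat_lit 0x40000100000c00001000000000000000000000000) (nat_lit 0x1000002e0000a000000000000000000) (nat_lit 4)
theorem c34191 : QOK q34191 := cut [q34189] ⟨c34189, trivial⟩ (nd (nat_lit 97) (nat_lit 0) (cs (lf (nat_lit 35) (nat_lit 74)) (nd (nat_lit 95) (nat_lit 0) (cs (lf (nat_lit 47) (nat_lit 73)) (rf (nat_lit 0)))))) q34191 (by decide +kernel)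
def q34199 : Q := Q.p (nat_lit 0x10000040000000000400003000000000000000000000000000000) (nat_lit 0x2000008000020000100000000000000008000000000000000000000000) (nat_lit 3)
theorem c34199 : QOK q34199 := cut [q20129] ⟨c20129, trivial⟩ (nd (nat_lit 164) (nat_lit 0) (cs (lf (nat_lit 35) (nat_lit 98)) (rf (nat_lit 0)))) q34199 (by decide +kernel)
def q34211 : Q := Q.p (nat_lit 0x20000080000600000800000000000000000000000) (nat_lit 0x1900000700001000000000000000000) (nat_lit 4)
theorem c34211 : QOK q34211 := cut [q34210] ⟨c34210, trivial⟩ (nd (nat_lit 94) (nat_lit 0) (cs (lf (nat_lit 47) (nat_lit 72)) (rf (nat_lit 0)))) q34211 (by decide +kernel)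
def q34257 : Q := Q.p (nat_lit 0x60000100000400001000000000000000000000000) (nat_lit 0x80000000000800006000008000000000000) (nat_lit 3)
theorem c34257 : QOK q34257 := cut [q24120] ⟨c24120, trivial⟩ (nd (nat_lit 74) (nat_lit 0) (cs (rf (nat_lit 0)) (lf (nat_lit 40) (nat_lit 73)))) q34257 (by decide +kernel)
def q34265 : Q := Q.p (nat_lit 0x40000100000500003000000000000000000000000) (nat_lit 0x880000e00003c00000000000000000) (nat_lit 5)
theorem c34265 : QOK q34265 := cut [q33596] ⟨c33596, trivial⟩ (nd (nat_lit 95) (nat_lit 0) (cs (lf (nat_lit 47) (nat_lit 73)) (nd (nat_lit 94) (nat_lit 0) (cs (lf (nat_lit 11) (nat_lit 93)) (nd (nat_lit 93) (nat_lit 0) (cs (rf (nat_lit 0)) (lf (nat_lit 5) (nat_lit 93)))))))) q34265 (by decide +kernel)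
def q34327 : Q := Q.p (nat_lit 0x40000f000000000000000000000000) (nat_lit 0xe800010000000000000000000000000) (nat_lit 3)
theorem c34327 : QOK q34327 := cut [q34325] ⟨c34325, trivial⟩ (nd (nat_lit 100) (nat_lit 0) (cs (rf (nat_lit 0)) (lf (nat_lit 10) (nat_lit 96)))) q34327 (by decide +kernel)
def q34366 : Q := Q.p (nat_lit 0x40000100000c00000000000000000000000000000) (nat_lit 0x280003200003e0000e000038000060000080) (nat_lit 8)
theorem c34366 : QOK q34366 := cut [q33789, q34352] ⟨c33789, c34352, trivial⟩ (nd (nat_lit 96) (nat_lit 0) (cs (rf (nat_lit 0)) (cs (nd (nat_lit 75) (nat_lit 0) (cs (lf (nat_lit 34) (nat_lit 74)) (nd (nat_lit 74) (nat_lit 0) (cs (lf (nat_lit 35) (nat_lit 52)) (nd (nat_lit 52) (nat_lit 0) (cs (lf (nat_lit 29) (nat_lit 52)) (rf (nat_lit 1)))))))) (nd (nat_lit 75) (nat_lit 0) (cs (lf (nat_lit 34) (nat_lit 74)) (nd (nat_lit 74) (nat_lit 0) (cs (lf (nat_lit 35) (nat_lit 52)) (nd (nat_lit 52) (nat_lit 0) (cs (lf (nat_lit 29) (nat_lit 52)) (nd (nat_lit 117) (nat_lit 0) (cs (nd (nat_lit 29) (nat_lit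 0) (cs (nd (nat_lit 30) (nat_lit 0) (cs (lf (nat_lit 40) (nat_lit 29)) (lf (nat_lit 47) (nat_lit 7)))) (lf (nat_lit 46) (nat_lit 29)))) (lf (nat_lit 41) (nat_lit 51))))))))))))) q34366 (by decide +kernel)
def q34368 : Q := Q.p (nat_lit 0x40000780000400000000000000000000000000000) (nat_lit 0x2000008000030000000000000001000000000000000000000000) (nat_lit 3)
theorem c34368 : QOK q34368 := cut [q34306] ⟨c34306, trivial⟩ (nd (nat_lit 161) (nat_lit 0) (cs (lf (nat_lit 11) (nat_lit 138)) (rf (nat_lit 0)))) q34368 (by decide +kernel)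
def q34409 : Q := Q.p (nat_lit 0x40000700000000000000000000000000000000000) (nat_lit 0x720000880000700000000000000000000000000000) (nat_lit 5)
theorem c34409 : QOK q34409 := cut [q34408] ⟨c34408, trivial⟩ (nd (nat_lit 143) (nat_lit 0) (cs (lf (nat_lit 11) (nat_lit 139)) (rf (nat_lit 0)))) q34409 (by decide +kernel)
def q34414 : Q := Q.p (nat_lit 0x10000040000000000700000000000000000000000000000000000) (nat_lit 0x2000008000020000f00000880001800000000000000000000000000000) (nat_lit 6)
theorem c34414 : QOK q34414 := cut [q34410] ⟨c34410, trivial⟩ (nd (nat_lit 164) (nat_lit 0) (cs (lf (nat_lit 47) (nat_lit 119)) (nd (nat_lit 207) (nat_lit 0) (cs (lf (nat_lit 41) (nat_lit 141)) (nd (nat_lit 120) (nat_lit 0) (cs (lf (nat_lit 40) (nat_lit 119)) (nd (nat_lit 165) (nat_lit 0) (cs (lf (nat_lit 0) (nat_lit 139)) (rf (nat_lit 0)))))))))) q34414 (by decide +kernel)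
def q34418 : Q := Q.p (nat_lit 0x40000700000000000000000000000000000000000) (nat_lit 0xe20001800000e00000000000000000000000000000) (nat_lit 5)
theorem c34418 : QOK q34418 := cut [q34417] ⟨c34417, trivial⟩ (nd (nat_lit 143) (nat_lit 0) (cs (lf (nat_lit 11) (nat_lit 139)) (rf (nat_lit 0)))) q34418 (by decide +kernel)
def q34425 : Q := Q.p (nat_lit 0x10000040000040000d00000000000000000000000000000000000) (nat_lit 0x80000620000200006000000000000000000000000000000) (nat_lit 4)
theorem c34425 : QOK q34425 := cut [q32513] ⟨c32513, trivial⟩ (nd (nat_lit 141) (nat_lit 0) (cs (lf (nat_lit 11) (nat_lit 139)) (rf (nat_lit 0)))) q34425 (by decide +kernel)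
def q34430 : Q := Q.p (nat_lit 0x1000000c000060000180000000000000000000000000000000000) (nat_lit 0x180000e000000000000000000000000000000000000000000000000000) (nat_lit 3)
theorem c34430 : QOK q34430 := cut [q34429] ⟨c34429, trivial⟩ (nd (nat_lit 205) (nat_lit 0) (cs (lf (nat_lit 30) (nat_lit 139)) (rf (nat_lit 0)))) q34430 (by decide +kernel)
def q34444 : Q := Q.p (nat_lit 0xf00000000000000000000000000000000000) (nat_lit 0x80007700000000000000000000000000000) (nat_lit 4)
theorem c34444 : QOK q34444 := cut [q5768] ⟨c5768, trivial⟩ (nd (nat_lit 117) (nat_lit 0) (cs (lf (nat_lit 22) (nat_lit 117)) (nd (nat_lit 139) (nat_lit 0) (cs (lf (nat_lit 23) (nat_lit 116)) (rf (nat_lit 0)))))) q34444 (by decide +kernel)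
def q34454 : Q := Q.p (nat_lit 0x1e00000800000000000000000000000000000) (nat_lit 0x200001d000000000000000000000000000000) (nat_lit 3)
theorem c34454 : QOK q34454 := cut [q16666] ⟨c16666, trivial⟩ (nd (nat_lit 123) (nat_lit 0) (cs (lf (nat_lit 16) (nat_lit 119)) (rf (nat_lit 0)))) q34454 (by decide +kernel)
def q34469 : Q := Q.p (nat_lit 0x60000500000000000000000000000000000000000) (nat_lit 0x18000a80000000000000000000000000000000000) (nat_lit 3)
theorem c34469 : QOK q34469 := cut [q33776] ⟨c33776, trivial⟩ (nd (nat_lit 141) (nat_lit 0) (cs (lf (nat_lit 6) (nat_lit 139)) (rf (nat_lit 0)))) q34469 (by decide +kernel)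
def q34516 : Q := Q.p (nat_lit 0x2000008000020000080000000000000000000000000000000000) (nat_lit 0x400001000004000000000040000300000400000000000000000000000) (nat_lit 4)
theorem c34516 : QOK q34516 := cut [q8667] ⟨c8667, trivial⟩ (nd (nat_lit 116) (nat_lit 0) (cs (lf (nat_lit 46) (nat_lit 116)) (nd (nat_lit 117) (nat_lit 0) (cs (lf (nat_lit 47) (nat_lit 94)) (rf (nat_lit 0)))))) q34516 (by decide +kernel)
def q34524 : Q := Q.p (nat_lit 0x80000f000000000000000000000000000000000000000000000000000) (nat_lit 0x3000000c00007000000000000000000000000000000000000000000000) (nat_lit 4)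
theorem c34524 : QOK q34524 := cut [q24449] ⟨c24449, trivial⟩ (nd (nat_lit 181) (nat_lit 0) (cs (lf (nat_lit 22) (nat_lit 181)) (nd (nat_lit 203) (nat_lit 0) (cs (lf (nat_lit 23) (nat_lit 180)) (rf (nat_lit 0)))))) q34524 (by decide +kernel)
def q34546 : Q := Q.p (nat_lit 0x10000040000000000700002000000000000000000000000000000) (nat_lit 0x80000600000800004000000000000000000000000000000) (nat_lit 3)
theorem c34546 : QOK q34546 := cut [q33512] ⟨c33512, trivial⟩ (nd (nat_lit 143) (nat_lit 0) (cs (lf (nat_lit 17) (nat_lit 118)) (rf (nat_lit 0)))) q34546 (by decide +kernel)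
def q34574 : Q := Q.p (nat_lit 0x16000050000040000100000000000000000000000000000000000) (nat_lit 0x200000900002e000000000000000000000000000000000000000000000) (nat_lit 4)
theorem c34574 : QOK q34574 := cut [q20281] ⟨c20281, trivial⟩ (nd (nat_lit 207) (nat_lit 0) (cs (lf (nat_lit 29) (nat_lit 140)) (rf (nat_lit 0)))) q34574 (by decide +kernel)
def q34590 : Q := Q.p (nat_lit 0x4000010000040000100000000000000000000000000000000000) (nat_lit 0x800003000008000000000020000280000a00000000000000000000000000000) (nat_lit 5)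
theorem c34590 : QOK q34590 := cut [q1271] ⟨c1271, trivial⟩ (nd (nat_lit 229) (nat_lit 0) (cs (lf (nat_lit 28) (nat_lit 140)) (nd (nat_lit 119) (nat_lit 0) (cs (lf (nat_lit 34) (nat_lit 118)) (nd (nat_lit 228) (nat_lit 0) (cs (lf (nat_lit 29) (nat_lit 162)) (rf (nat_lit 0)))))))) q34590 (by decide +kernel)
def q34592 : Q := Q.p (nat_lit 0x4000010000040000100000000000000000000000000000000000) (nat_lit 0x200001800002000000000020000080000200000000000000000000000000000) (nat_lit 4)
theorem c34592 : QOK q34592 := cut [q1271] ⟨c1271, trivial⟩ (nd (nat_lit 227) (nat_lit 0) (cs (lf (nat_lit 40) (nat_lit 139)) (nd (nat_lit 228) (nat_lit 0) (cs (rf (nat_lit 0)) (lf (nat_lit 41) (nat_lit 161)))))) q34592 (by decide +kernel)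
def q34631 : Q := Q.p (nat_lit 0x12000050000040000100000000000000000000000000000000000) (nat_lit 0x80000c0000a0000000000000000000000000000000000000000000000) (nat_lit 3)
theorem c34631 : QOK q34631 := cut [q32742] ⟨c32742, trivial⟩ (nd (nat_lit 206) (nat_lit 0) (cs (lf (nat_lit 41) (nat_lit 139)) (rf (nat_lit 0)))) q34631 (by decide +kernel)
def q34696 : Q := Q.p (nat_lit 0x10000050000040000100000400000000000000000000000000000) (nat_lit 0xa000028000300000e8000380000a000000000000000000000000) (nat_lit 8)
theorem c34696 : QOK q34696 := cut [q34691] ⟨c34691, trivial⟩ (nd (nat_lit 119) (nat_lit 0) (cs (lf (nat_lit 35) (nat_lit 96)) (nd (nat_lit 185) (nat_lit 0) (cs (lf (nat_lit 29) (nat_lit 118)) (nd (nat_lit 183) (nat_lit 0) (cs (lf (nat_lit 41) (nat_lit 117)) (nd (nat_lit 164) (nat_lit 0) (cs (lf (nat_lit 17) (nat_lit 161)) (nd (nat_lit 142) (nat_lit 0) (cs (lf (nat_lit 46) (nat_lit 119)) (rf (nat_lit 0)))))))))))) q34696 (by decide +kernel)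
def q34721 : Q := Q.p (nat_lit 0x10000040000100000400000000000000000000000000000) (nat_lit 0x200000c000020000000000080000200000800000000000000000000000) (nat_lit 4)
theorem c34721 : QOK q34721 := cut [q862] ⟨c862, trivial⟩ (nd (nat_lit 207) (nat_lit 0) (cs (lf (nat_lit 28) (nat_lit 118)) (nd (nat_lit 206) (nat_lit 0) (cs (lf (nat_lit 29) (nat_lit 140)) (rf (nat_lit 0)))))) q34721 (by decide +kernel)
def q34734 : Q := Q.p (nat_lit 0x4000010000040000100000000000000000000000000000000000) (nat_lit 0x2000008000020000000000080000600000800000000000000000000000) (nat_lit 4)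
theorem c34734 : QOK q34734 := cut [q34732] ⟨c34732, trivial⟩ (nd (nat_lit 117) (nat_lit 0) (cs (lf (nat_lit 46) (nat_lit 117)) (nd (nat_lit 118) (nat_lit 0) (cs (lf (nat_lit 47) (nat_lit 95)) (rf (nat_lit 0)))))) q34734 (by decide +kernel)
def q34737 : Q := Q.p (nat_lit 0x4000010000040000100000000000000000000000000000000000) (nat_lit 0x2000008000020000000000200000c00002000000000000000000000000) (nat_lit 4)
theorem c34737 : QOK q34737 := cut [q34732] ⟨c34732, trivial⟩ (nd (nat_lit 119) (nat_lit 0) (cs (lf (nat_lit 34) (nat_lit 118)) (nd (nat_lit 118) (nat_lit 0) (cs (lf (nat_lit 35) (nat_lit 96)) (rf (nat_lit 0)))))) q34737 (by decide +kernel)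
def q34747 : Q := Q.p (nat_lit 0x50000040000100000400000000000000000000000000000) (nat_lit 0xa000028000030000000000000001000000000000000000000000) (nat_lit 4)
theorem c34747 : QOK q34747 := cut [q34745] ⟨c34745, trivial⟩ (nd (nat_lit 183) (nat_lit 0) (cs (lf (nat_lit 41) (nat_lit 117)) (nd (nat_lit 161) (nat_lit 0) (cs (lf (nat_lit 36) (nat_lit 95)) (rf (nat_lit 0)))))) q34747 (by decide +kernel)
def q34751 : Q := Q.p (nat_lit 0x10000040000100000400000000000000000000000000000) (nat_lit 0x800002000008000080000380000e000008000000000000) (nat_lit 6)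
theorem c34751 : QOK q34751 := cut [q33653] ⟨c33653, trivial⟩ (nd (nat_lit 97) (nat_lit 0) (cs (lf (nat_lit 34) (nat_lit 96)) (nd (nat_lit 96) (nat_lit 0) (cs (lf (nat_lit 35) (nat_lit 74)) (rf (nat_lit 0)))))) q34751 (by decide +kernel)
def q34755 : Q := Q.p (nat_lit 0x1000004000010000060000000000000000000000000000000000000000) (nat_lit 0x80000600000800000000008000000000000000000000000000000000000000000000) (nat_lit 3)
theorem c34755 : QOK q34755 := cut [q17165] ⟨c17165, trivial⟩ (nd (nat_lit 250) (nat_lit 0) (cs (lf (nat_lit 46) (nat_lit 161)) (rf (nat_lit 0)))) q34755 (by decide +kernel)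
def q34780 : Q := Q.p (nat_lit 0x10000050000040000100000400000000000000000000000000000) (nat_lit 0x4000000000120001e00000800002000000000000000000000000) (nat_lit 5)
theorem c34780 : QOK q34780 := cut [q34778] ⟨c34778, trivial⟩ (nd (nat_lit 119) (nat_lit 0) (cs (lf (nat_lit 35) (nat_lit 96)) (nd (nat_lit 141) (nat_lit 0) (cs (lf (nat_lit 30) (nat_lit 118)) (rf (nat_lit 0)))))) q34780 (by decide +kernel)
def q34791 : Q := Q.p (nat_lit 0x40000060000100000400001000000000000000000000000) (nat_lit 0x80000b0000000000000000200000800002000000000000000000) (nat_lit 4)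
theorem c34791 : QOK q34791 := cut [q34789] ⟨c34789, trivial⟩ (nd (nat_lit 95) (nat_lit 0) (cs (lf (nat_lit 47) (nat_lit 73)) (nd (nat_lit 184) (nat_lit 0) (cs (lf (nat_lit 46) (nat_lit 95)) (rf (nat_lit 0)))))) q34791 (by decide +kernel)
def q34797 : Q := Q.p (nat_lit 0x40000040000100000400001000000000000000000000000) (nat_lit 0x80000b8000020000000000800002000008000000000000000000) (nat_lit 5)
theorem c34797 : QOK q34797 := cut [q34789] ⟨c34789, trivial⟩ (nd (nat_lit 161) (nat_lit 0) (cs (lf (nat_lit 41) (nat_lit 95)) (nd (nat_lit 97) (nat_lit 0) (cs (lf (nat_lit 35) (nat_lit 74)) (nd (nat_lit 184) (nat_lit 0) (cs (lf (nat_lit 34) (nat_lit 96)) (rf (nat_lit 0)))))))) q34797 (by decide +kernel)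
def q34806 : Q := Q.p (nat_lit 0x70000100000000000000000000000000000000000) (nat_lit 0x8000e80000000000000000000000000000000000) (nat_lit 3)
theorem c34806 : QOK q34806 := cut [q34805] ⟨c34805, trivial⟩ (nd (nat_lit 141) (nat_lit 0) (cs (lf (nat_lit 12) (nat_lit 137)) (rf (nat_lit 0)))) q34806 (by decide +kernel)
def q34837 : Q := Q.p (nat_lit 0x40000100000400002000000000000000000000000) (nat_lit 0x1000000000000000030000d80000a000000000000000000) (nat_lit 5)
theorem c34837 : QOK q34837 := cut [q33710] ⟨c33710, trivial⟩ (nd (nat_lit 96) (nat_lit 0) (cs (lf (nat_lit 35) (nat_lit 74)) (nd (nat_lit 95) (nat_lit 0) (cs (lf (nat_lit 47) (nat_lit 73)) (nd (nat_lit 117) (nat_lit 0) (cs (lf (nat_lit 42) (nat_lit 95)) (rf (nat_lit 0)))))))) q34837 (by decide +kernel)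
def q34844 : Q := Q.p (nat_lit 0x40000100000c00000000000000000000000000000) (nat_lit 0x10000000000200000000002000008000020000000000000) (nat_lit 3)
theorem c34844 : QOK q34844 := cut [q34298] ⟨c34298, trivial⟩ (nd (nat_lit 97) (nat_lit 0) (cs (lf (nat_lit 30) (nat_lit 96)) (rf (nat_lit 0)))) q34844 (by decide +kernel)
def q34857 : Q := Q.p (nat_lit 0x40000100000c00000000000000000000000000000) (nat_lit 0x10000000000000000000003000008000020000000000000) (nat_lit 3)
theorem c34857 : QOK q34857 := cut [q32972] ⟨c32972, trivial⟩ (nd (nat_lit 97) (nat_lit 0) (cs (lf (nat_lit 30) (nat_lit 96)) (rf (nat_lit 0)))) q34857 (by decide +kernel)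
def q34894 : Q := Q.p (nat_lit 0x40000000000100001c00000000000000000000000000000) (nat_lit 0x300001c80002000018000000000000000000000000) (nat_lit 5)
theorem c34894 : QOK q34894 := cut [q34893] ⟨c34893, trivial⟩ (nd (nat_lit 121) (nat_lit 0) (cs (lf (nat_lit 11) (nat_lit 117)) (rf (nat_lit 0)))) q34894 (by decide +kernel)
def q34945 : Q := Q.p (nat_lit 0x100000700001000000000000000000000000) (nat_lit 0x2800000c0000800000000000000000000000) (nat_lit 3)
theorem c34945 : QOK q34945 := cut [q34943] ⟨c34943, trivial⟩ (nd (nat_lit 115) (nat_lit 0) (cs (rf (nat_lit 0)) (lf (nat_lit 5) (nat_lit 115)))) q34945 (by decide +kernel)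
def q34966 : Q := Q.p (nat_lit 0x100000f00000000000000000000000000000) (nat_lit 0x8000300001ce00000000000000000000000) (nat_lit 5)
theorem c34966 : QOK q34966 := cut [q32848] ⟨c32848, trivial⟩ (nd (nat_lit 94) (nat_lit 0) (cs (lf (nat_lit 23) (nat_lit 93)) (nd (nat_lit 120) (nat_lit 0) (cs (lf (nat_lit 22) (nat_lit 94)) (nd (nat_lit 121) (nat_lit 0) (cs (lf (nat_lit 11) (nat_lit 117)) (rf (nat_lit 0)))))))) q34966 (by decide +kernel)
def q34981 : Q := Q.p (nat_lit 0x780000000000000000000000000000) (nat_lit 0x70000800000700000000000000000000000) (nat_lit 4)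
theorem c34981 : QOK q34981 := cut [q32925] ⟨c32925, trivial⟩ (nd (nat_lit 137) (nat_lit 0) (cs (lf (nat_lit 11) (nat_lit 114)) (nd (nat_lit 119) (nat_lit 0) (cs (rf (nat_lit 0)) (lf (nat_lit 10) (nat_lit 115)))))) q34981 (by decide +kernel)
def q34985 : Q := Q.p (nat_lit 0x100000700000000000000000000000000000) (nat_lit 0x2b80000c0000000000000000000000000000) (nat_lit 4)
theorem c34985 : QOK q34985 := cut [q34984] ⟨c34984, trivial⟩ (nd (nat_lit 115) (nat_lit 0) (cs (lf (nat_lit 5) (nat_lit 115)) (rf (nat_lit 0)))) q34985 (by decide +kernel)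
def q35014 : Q := Q.p (nat_lit 0x40000100000600000000000000000000000000000) (nat_lit 0x10000000000080000000000800002000008000000000000) (nat_lit 3)
theorem c35014 : QOK q35014 := cut [q35013] ⟨c35013, trivial⟩ (nd (nat_lit 95) (nat_lit 0) (cs (lf (nat_lit 42) (nat_lit 95)) (rf (nat_lit 0)))) q35014 (by decide +kernel)
def q35017 : Q := Q.p (nat_lit 0x40000100000e00000000000000000000000000000) (nat_lit 0x10000000000000001100000f00000000000000000000000) (nat_lit 4)
theorem c35017 : QOK q35017 := cut [q35016] ⟨c35016, trivial⟩ (nd (nat_lit 95) (nat_lit 0) (cs (lf (nat_lit 42) (nat_lit 95)) (rf (nat_lit 0)))) q35017 (by decide +kernel)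
def q35041 : Q := Q.p (nat_lit 0x200000800002000008000000000000000000000000) (nat_lit 0x14000070000140000000000000) (nat_lit 4)
theorem c35041 : QOK q35041 := cut [q10565] ⟨c10565, trivial⟩ (nd (nat_lit 78) (nat_lit 0) (cs (nd (nat_lit 77) (nat_lit 0) (cs (rf (nat_lit 0)) (lf (nat_lit 35) (nat_lit 55)))) (lf (nat_lit 34) (nat_lit 77)))) q35041 (by decide +kernel)
def q35073 : Q := Q.p (nat_lit 0x200000c0000100000000000000000000000000000) (nat_lit 0x2000008000000000000000200000400001000000000000000000) (nat_lit 3)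
theorem c35073 : QOK q35073 := cut [q35072] ⟨c35072, trivial⟩ (nd (nat_lit 183) (nat_lit 0) (cs (lf (nat_lit 42) (nat_lit 116)) (rf (nat_lit 0)))) q35073 (by decide +kernel)
def q35090 : Q := Q.p (nat_lit 0x10000040000000000000001e00000000000000000000000000000) (nat_lit 0x8000030000180000200001c000000000000000000000000) (nat_lit 5)
theorem c35090 : QOK q35090 := cut [q35087] ⟨c35087, trivial⟩ (nd (nat_lit 99) (nat_lit 0) (cs (lf (nat_lit 16) (nat_lit 95)) (nd (nat_lit 121) (nat_lit 0) (cs (lf (nat_lit 17) (nat_lit 96)) (nd (nat_lit 143) (nat_lit 0) (cs (lf (nat_lit 5) (nat_lit 118)) (rf (nat_lit 0)))))))) q35090 (by decide +kernel)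
def q35097 : Q := Q.p (nat_lit 0x40000000000000000f00000000000000000000000000000) (nat_lit 0x100000e0000300001c000000000000000000000000) (nat_lit 5)
theorem c35097 : QOK q35097 := cut [q35095] ⟨c35095, trivial⟩ (nd (nat_lit 142) (nat_lit 0) (cs (lf (nat_lit 4) (nat_lit 116)) (nd (nat_lit 120) (nat_lit 0) (cs (lf (nat_lit 5) (nat_lit 117)) (rf (nat_lit 0)))))) q35097 (by decide +kernel)
def q35114 : Q := Q.p (nat_lit 0x100000700000000000000000000000000000) (nat_lit 0x2380000c0000380000000000000000000000) (nat_lit 5)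
theorem c35114 : QOK q35114 := cut [q35113] ⟨c35113, trivial⟩ (nd (nat_lit 115) (nat_lit 0) (cs (lf (nat_lit 5) (nat_lit 115)) (rf (nat_lit 0)))) q35114 (by decide +kernel)
def q35119 : Q := Q.p (nat_lit 0x40000100000600000000000000000000000000000) (nat_lit 0x10000000000000000000001800002000008000000000000) (nat_lit 3)
theorem c35119 : QOK q35119 := cut [q33664] ⟨c33664, trivial⟩ (nd (nat_lit 95) (nat_lit 0) (cs (lf (nat_lit 42) (nat_lit 95)) (rf (nat_lit 0)))) q35119 (by decide +kernel)
def q35133 : Q := Q.p (nat_lit 0x60000100000400000800000000000000000000000) (nat_lit 0x8000000000300000e000020000000000000) (nat_lit 4)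
theorem c35133 : QOK q35133 := cut [q33679] ⟨c33679, trivial⟩ (nd (nat_lit 96) (nat_lit 0) (cs (lf (nat_lit 47) (nat_lit 73)) (rf (nat_lit 0)))) q35133 (by decide +kernel)
def q35165 : Q := Q.p (nat_lit 0x8000060000100000000000000000000000000000000000) (nat_lit 0x800002000000000000000080000400001000000000000000000000000) (nat_lit 3)
theorem c35165 : QOK q35165 := cut [q35127] ⟨c35127, trivial⟩ (nd (nat_lit 118) (nat_lit 0) (cs (lf (nat_lit 36) (nat_lit 95)) (rf (nat_lit 0)))) q35165 (by decide +kernel)
def q35170 : Q := Q.p (nat_lit 0x10000058000060000000000000000000000000000000000000000) (nat_lit 0x9c000a7000300000000000000000000000000000000000000000) (nat_lit 6)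
theorem c35170 : QOK q35170 := cut [q35168] ⟨c35168, trivial⟩ (nd (nat_lit 185) (nat_lit 0) (cs (lf (nat_lit 18) (nat_lit 161)) (nd (nat_lit 164) (nat_lit 0) (cs (lf (nat_lit 17) (nat_lit 161)) (rf (nat_lit 0)))))) q35170 (by decide +kernel)
def q35178 : Q := Q.p (nat_lit 0x8000060000100000000000000000000000000000000000) (nat_lit 0x800002000010000000000000000400001000000000000000000000000) (nat_lit 3)
theorem c35178 : QOK q35178 := cut [q35124] ⟨c35124, trivial⟩ (nd (nat_lit 118) (nat_lit 0) (cs (lf (nat_lit 36) (nat_lit 95)) (rf (nat_lit 0)))) q35178 (by decide +kernel)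
def q35180 : Q := Q.p (nat_lit 0x12000048000020000080000000000000000000000000000000000) (nat_lit 0x100000c000084000000000000000000000000000000000000000000000) (nat_lit 3)
theorem c35180 : QOK q35180 := cut [q35179] ⟨c35179, trivial⟩ (nd (nat_lit 206) (nat_lit 0) (cs (lf (nat_lit 29) (nat_lit 139)) (rf (nat_lit 0)))) q35180 (by decide +kernel)
def q35181 : Q := Q.p (nat_lit 0x30000040000100000000000000000000000000000000000) (nat_lit 0x80000200000c000000000000000000000400000000000000000000000000000) (nat_lit 3)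
theorem c35181 : QOK q35181 := cut [q3538] ⟨c3538, trivial⟩ (nd (nat_lit 207) (nat_lit 0) (cs (lf (nat_lit 24) (nat_lit 118)) (rf (nat_lit 0)))) q35181 (by decide +kernel)
def q35191 : Q := Q.p (nat_lit 0x14000050000040000100000000000000000000000000000000000) (nat_lit 0x80000a00008c000000000000000400000000000000000000000000000) (nat_lit 4)
theorem c35191 : QOK q35191 := cut [q35187] ⟨c35187, trivial⟩ (nd (nat_lit 205) (nat_lit 0) (cs (lf (nat_lit 41) (nat_lit 139)) (nd (nat_lit 207) (nat_lit 0) (cs (lf (nat_lit 17) (nat_lit 183)) (rf (nat_lit 0)))))) q35191 (by decide +kernel)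
def q35207 : Q := Q.p (nat_lit 0x10000050000060000300000000000000000000000000000000000) (nat_lit 0x4000000000100000c00000800000000000000000000000000000) (nat_lit 3)
theorem c35207 : QOK q35207 := cut [q35206] ⟨c35206, trivial⟩ (nd (nat_lit 142) (nat_lit 0) (cs (lf (nat_lit 6) (nat_lit 139)) (rf (nat_lit 0)))) q35207 (by decide +kernel)
def q35212 : Q := Q.p (nat_lit 0x60000300000000000000000000000000000000000) (nat_lit 0x18000c80000000000000000000000000000000000) (nat_lit 3)
theorem c35212 : QOK q35212 := cut [q34805] ⟨c34805, trivial⟩ (nd (nat_lit 160) (nat_lit 0) (cs (lf (nat_lit 12) (nat_lit 137)) (rf (nat_lit 0)))) q35212 (by decide +kernel)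
def q35249 : Q := Q.p (nat_lit 0x12000048000100000400000000000000000000000000000000000) (nat_lit 0x200000c000084000000000000000000000000000000000000000000000) (nat_lit 3)
theorem c35249 : QOK q35249 := cut [q3674] ⟨c3674, trivial⟩ (nd (nat_lit 207) (nat_lit 0) (cs (lf (nat_lit 41) (nat_lit 141)) (rf (nat_lit 0)))) q35249 (by decide +kernel)
def q35278 : Q := Q.p (nat_lit 0x8000020000080000200000000000000000000000) (nat_lit 0x500001c00005000000000000) (nat_lit 4)
theorem c35278 : QOK q35278 := cut [q35276] ⟨c35276, trivial⟩ (nd (nat_lit 70) (nat_lit 0) (cs (lf (nat_lit 46) (nat_lit 70)) (nd (nat_lit 71) (nat_lit 0) (cs (lf (nat_lit 47) (nat_lit 48)) (rf (nat_lit 0)))))) q35278 (by decide +kernel)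
def q35292 : Q := Q.p (nat_lit 0x8000078000000000000000000000000000000000000000) (nat_lit 0x780000600001c000000000000000000000000000000000) (nat_lit 5)
theorem c35292 : QOK q35292 := cut [q35289] ⟨c35289, trivial⟩ (nd (nat_lit 180) (nat_lit 0) (cs (lf (nat_lit 10) (nat_lit 158)) (nd (nat_lit 158) (nat_lit 0) (cs (lf (nat_lit 11) (nat_lit 157)) (nd (nat_lit 157) (nat_lit 0) (cs (lf (nat_lit 4) (nat_lit 157)) (rf (nat_lit 0)))))))) q35292 (by decide +kernel)
def q35305 : Q := Q.p (nat_lit 0x1e00000000000000000000000000000000000000000000000000) (nat_lit 0xe0000100000e00000000000000000000000000000000000000000000) (nat_lit 4)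
theorem c35305 : QOK q35305 := cut [q26986] ⟨c26986, trivial⟩ (nd (nat_lit 222) (nat_lit 0) (cs (lf (nat_lit 10) (nat_lit 200)) (nd (nat_lit 200) (nat_lit 0) (cs (rf (nat_lit 0)) (lf (nat_lit 11) (nat_lit 199)))))) q35305 (by decide +kernel)
def q35397 : Q := Q.p (nat_lit 0x50000060000100000000000000000000000000000000000) (nat_lit 0x80000a8000000000000000600001800002000000000000000000) (nat_lit 5)
theorem c35397 : QOK q35397 := cut [q5868] ⟨c5868, trivial⟩ (nd (nat_lit 185) (nat_lit 0) (cs (lf (nat_lit 18) (nat_lit 161)) (nd (nat_lit 118) (nat_lit 0) (cs (lf (nat_lit 29) (nat_lit 118)) (nd (nat_lit 96) (nat_lit 0) (cs (rf (nat_lit 0)) (lf (nat_lit 41) (nat_lit 95)))))))) q35397 (by decide +kernel)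
def q35408 : Q := Q.p (nat_lit 0x60000100000400000000000000000000000000000) (nat_lit 0x800002000018000000000000000000001000000000000000000000000) (nat_lit 3)
theorem c35408 : QOK q35408 := cut [q35124] ⟨c35124, trivial⟩ (nd (nat_lit 183) (nat_lit 0) (cs (lf (nat_lit 36) (nat_lit 95)) (rf (nat_lit 0)))) q35408 (by decide +kernel)
def q35419 : Q := Q.p (nat_lit 0x10000050000040000100000400000000000000000000000000000) (nat_lit 0x280000e000088000000000000000000000000000000000000000000000) (nat_lit 4)
theorem c35419 : QOK q35419 := cut [q35417] ⟨c35417, trivial⟩ (nd (nat_lit 205) (nat_lit 0) (cs (lf (nat_lit 40) (nat_lit 117)) (nd (nat_lit 206) (nat_lit 0) (cs (lf (nat_lit 41) (nat_lit 139)) (rf (nat_lit 0)))))) q35419 (by decide +kernel)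
def q35439 : Q := Q.p (nat_lit 0x10000048000070000100000000000000000000000000000000000) (nat_lit 0x1c0000f000034000000000080000200000800000000000000000000000) (nat_lit 6)
theorem c35439 : QOK q35439 := cut [q35426, q35428] ⟨c35426, c35428, trivial⟩ (nd (nat_lit 139) (nat_lit 0) (cs (nd (nat_lit 205) (nat_lit 0) (cs (lf (nat_lit 30) (nat_lit 139)) (rf (nat_lit 0)))) (cs (nd (nat_lit 205) (nat_lit 0) (cs (lf (nat_lit 30) (nat_lit 139)) (nd (nat_lit 204) (nat_lit 0) (cs (lf (nat_lit 41) (nat_lit 138)) (nd (nat_lit 184) (nat_lit 0) (cs (rf (nat_lit 1)) (lf (nat_lit 7) (nat_lit 182)))))))) (cs (nd (nat_lit 184) (nat_lit 0) (cs (lf (nat_lit 19) (nat_lit 160)) (nd (nat_lit 117) (nat_lit 0) (cs (lf (nat_lit 24) (nat_lit 95)) (lf (nat_lit 42) (nat_lit 117)))))) (nd (nat_lit 205) (nat_lit 0) (cs (lf (nat_lit 30) (nat_lit 139)) (nd (nat_lit 206) (nat_lit 0) (cs (lf (nat_lit 29) (nat_lit 139)) (nd (nat_lit 182) (nat_lit 0) (cs (lf (nat_lit 19) (nat_lit 182)) (nd (nat_lit 117) (nat_lit 0) (cs (lf (nat_lit 43) (nat_lit 117)) (lf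 (nat_lit 36) (nat_lit 94)))))))))))))) q35439 (by decide +kernel)
def q35454 : Q := Q.p (nat_lit 0x10000040000100000400000000000000000000000000000) (nat_lit 0x800002000008000020000380000e000020000000000000) (nat_lit 6)
theorem c35454 : QOK q35454 := cut [q34068] ⟨c34068, trivial⟩ (nd (nat_lit 95) (nat_lit 0) (cs (lf (nat_lit 46) (nat_lit 95)) (nd (nat_lit 96) (nat_lit 0) (cs (lf (nat_lit 47) (nat_lit 73)) (nd (nat_lit 75) (nat_lit 0) (cs (lf (nat_lit 34) (nat_lit 74)) (nd (nat_lit 161) (nat_lit 0) (cs (lf (nat_lit 41) (nat_lit 95)) (rf (nat_lit 0)))))))))) q35454 (by decide +kernel)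
def q35459 : Q := Q.p (nat_lit 0x40000100000400001000000000000000000000000) (nat_lit 0x2000018000020000000000800002000008000000000000000000) (nat_lit 4)
theorem c35459 : QOK q35459 := cut [q16287] ⟨c16287, trivial⟩ (nd (nat_lit 183) (nat_lit 0) (cs (lf (nat_lit 40) (nat_lit 95)) (nd (nat_lit 184) (nat_lit 0) (cs (lf (nat_lit 41) (nat_lit 117)) (rf (nat_lit 0)))))) q35459 (by decide +kernel)
def q35463 : Q := Q.p (nat_lit 0x8000040000100000400001000000000000000000000000) (nat_lit 0x2000010000000000000000200000800002000000000000000000) (nat_lit 3)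
theorem c35463 : QOK q35463 := cut [q5868] ⟨c5868, trivial⟩ (nd (nat_lit 184) (nat_lit 0) (cs (rf (nat_lit 0)) (lf (nat_lit 41) (nat_lit 117)))) q35463 (by decide +kernel)
def q35571 : Q := Q.p (nat_lit 0x180000600000c0000200000000000000000000000000000000000) (nat_lit 0x1000006000180000000000000000000000000000000000000000000000) (nat_lit 3)
theorem c35571 : QOK q35571 := cut [q35570] ⟨c35570, trivial⟩ (nd (nat_lit 187) (nat_lit 0) (cs (lf (nat_lit 18) (nat_lit 162)) (rf (nat_lit 0)))) q35571 (by decide +kernel)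
def q35595 : Q := Q.p (nat_lit 0x40000100000400001000000000000000000000000000000) (nat_lit 0x8000020000080000080000e000038000080000000000000) (nat_lit 6)
theorem c35595 : QOK q35595 := cut [q32226] ⟨c32226, trivial⟩ (nd (nat_lit 97) (nat_lit 0) (cs (lf (nat_lit 46) (nat_lit 97)) (nd (nat_lit 98) (nat_lit 0) (cs (lf (nat_lit 47) (nat_lit 75)) (rf (nat_lit 0)))))) q35595 (by decide +kernel)
def q35605 : Q := Q.p (nat_lit 0x100000400003c0000400000000000000000000000000000000000) (nat_lit 0x180000000000200001800006000000000000000000000000) (nat_lit 4)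
theorem c35605 : QOK q35605 := cut [q33335] ⟨c33335, trivial⟩ (nd (nat_lit 119) (nat_lit 0) (cs (lf (nat_lit 46) (nat_lit 119)) (nd (nat_lit 120) (nat_lit 0) (cs (lf (nat_lit 47) (nat_lit 97)) (rf (nat_lit 0)))))) q35605 (by decide +kernel)
def q35621 : Q := Q.p (nat_lit 0x18000040000140000400001000004000000000000000000000000) (nat_lit 0x60003800002a0000200000000002000018000020000000000000) (nat_lit 7)
theorem c35621 : QOK q35621 := cut [q32275] ⟨c32275, trivial⟩ (nd (nat_lit 75) (nat_lit 0) (cs (lf (nat_lit 46) (nat_lit 75)) (nd (nat_lit 187) (nat_lit 0) (cs (lf (nat_lit 28) (nat_lit 98)) (nd (nat_lit 205) (nat_lit 0) (cs (lf (nat_lit 13) (nat_lit 183)) (nd (nat_lit 188) (nat_lit 0) (cs (lf (nat_lit 6) (nat_lit 185)) (nd (nat_lit 163) (nat_lit 0) (cs (lf (nat_lit 0) (nat_lit 161)) (rf (nat_lit 0)))))))))))) q35621 (by decide +kernel)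
def q35631 : Q := Q.p (nat_lit 0x40000140000600001000000000000000000000000000000) (nat_lit 0x800000b000000000200000c000030000000000000000000) (nat_lit 5)
theorem c35631 : QOK q35631 := cut [q35628] ⟨c35628, trivial⟩ (nd (nat_lit 99) (nat_lit 0) (cs (lf (nat_lit 34) (nat_lit 98)) (nd (nat_lit 98) (nat_lit 0) (cs (lf (nat_lit 35) (nat_lit 76)) (nd (nat_lit 163) (nat_lit 0) (cs (lf (nat_lit 36) (nat_lit 75)) (rf (nat_lit 0)))))))) q35631 (by decide +kernel)

end Crest.Agent.H3.Snaky.CR
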