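import Crest.Agent.H3.Snaky.Cert

set_option autoImplicit false
set_option maxRecDepth 100000

namespace Crest.Agent.H3.Snaky.CR

open T

def q38568 : Q := Q.p (nat_lit 0x180000e0000040000000000000000000000000000000000000000) (nat_lit 0x300000080000000000000000000000000000000000000000) (nat_lit 2)
theorem c38568 : QOK q38568 := cut [] trivial (nd (nat_lit 188) (nat_lit 0) (cs (lf (nat_lit 6) (nat_lit 185)) (lf (nat_lit 22) (nat_lit 162)))) q38568 (by decide +kernel)
def q38577 : Q := Q.p (nat_lit 0x6000038000040000100000000000000000000000000000000000) (nat_lit 0x100000c00003000008000000000080000200000800000000000000000000000000000) (nat_lit 5)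
theorem c38577 : QOK q38577 := cut [] trivial (nd (nat_lit 229) (nat_lit 0) (cs (lf (nat_lit 28) (nat_lit 140)) (nd (nat_lit 119) (nat_lit 0) (cs (lf (nat_lit 34) (nat_lit 118)) (nd (nat_lit 228) (nat_lit 0) (cs (lf (nat_lit 29) (nat_lit 162)) (nd (nat_lit 250) (nat_lit 0) (cs (lf (nat_lit 42) (nat_lit 183)) (lf (nat_lit 35) (nat_lit 162)))))))))) q38577 (by decide +kernel)
def q38594 : Q := Q.p (nat_lit 0x78000000000000000000000000000000000000000000000) (nat_lit 0x3800004000038000000000000000000000000000000000000000) (nat_lit 4)
theorem c38594 : QOK q38594 := cut [] trivial (nd (nat_lit 160) (nat_lit 0) (cs (lf (nat_lit 22) (nat_lit 160)) (nd (nat_lit 204) (nat_lit 0) (cs (lf (nat_lit 10) (nat_lit 182)) (nd (nat_lit 182) (nat_lit 0) (cs (lf (nat_lit 11) (nat_lit 181)) (lf (nat_lit 23) (nat_lit 159)))))))) q38594 (by decide +kernel)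
def q38620 : Q := Q.p (nat_lit 0x1c000050000140000000000000000000000000000000000000000) (nat_lit 0x2000000000000000000000500000000000000000000000000000000000) (nat_lit 2)
theorem c38620 : QOK q38620 := cut [] trivial (nd (nat_lit 229) (nat_lit 0) (cs (lf (nat_lit 36) (nat_lit 141)) (lf (nat_lit 24) (nat_lit 140)))) q38620 (by decide +kernel)
def q38687 : Q := Q.p (nat_lit 0x800002000008000020000080000000000000000000000000000) (nat_lit 0x40000100000400000000000000000000000) (nat_lit 2)
theorem c38687 : QOK q38687 := cut [] trivial (nd (nat_lit 116) (nat_lit 0) (cs (lf (nat_lit 35) (nat_lit 93)) (lf (nat_lit 34) (nat_lit 115)))) q38687 (by decide +kernel)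
def q38741 : Q := Q.p (nat_lit 0x8000038000040000000000000000000000000000000000) (nat_lit 0x10000006000180000000000000000000000000000000000) (nat_lit 3)
theorem c38741 : QOK q38741 := cut [] trivial (nd (nat_lit 158) (nat_lit 0) (cs (lf (nat_lit 5) (nat_lit 158)) (nd (nat_lit 139) (nat_lit 0) (cs (lf (nat_lit 17) (nat_lit 136)) (lf (nat_lit 12) (nat_lit 135)))))) q38741 (by decide +kernel)
def q38754 : Q := Q.p (nat_lit 0x2000068000020000000000000000000000000000000000) (nat_lit 0x8000000000100000d0000140000000000000000000000000000) (nat_lit 4)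
theorem c38754 : QOK q38754 := cut [] trivial (nd (nat_lit 136) (nat_lit 0) (cs (lf (nat_lit 20) (nat_lit 136)) (nd (nat_lit 138) (nat_lit 0) (cs (lf (nat_lit 3) (nat_lit 136)) (nd (nat_lit 203) (nat_lit 0) (cs (lf (nat_lit 35) (nat_lit 115)) (lf (nat_lit 47) (nat_lit 114)))))))) q38754 (by decide +kernel)
def q38757 : Q := Q.p (nat_lit 0xe000060000000000000000000000000000000000000000) (nat_lit 0x10000180000000000000000000000000000000000000000) (nat_lit 2)
theorem c38757 : QOK q38757 := cut [] trivial (nd (nat_lit 163) (nat_lit 0) (cs (lf (nat_lit 6) (nat_lit 160)) (lf (nat_lit 15) (nat_lit 159)))) q38757 (by decide +kernel)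
def q38779 : Q := Q.p (nat_lit 0x200000c000070000000000000000000000000000000000000000) (nat_lit 0x200000800000000000000000000100000000000000000000000000000000000) (nat_lit 2)
theorem c38779 : QOK q38779 := cut [] trivial (nd (nat_lit 227) (nat_lit 0) (cs (lf (nat_lit 35) (nat_lit 139)) (lf (nat_lit 42) (nat_lit 160)))) q38779 (by decide +kernel)
def q38787 : Q := Q.p (nat_lit 0x1100000c000070000000000000000000000000000000000000000) (nat_lit 0x380000f0000e000000000180000100000000000000000000000000000000000) (nat_lit 7)
theorem c38787 : QOK q38787 := cut [] trivial (nd (nat_lit 226) (nat_lit 0) (cs (lf (nat_lit 30) (nat_lit 160)) (nd (nat_lit 225) (nat_lit 0) (cs (lf (nat_lit 41) (nat_lit 159)) (nd (nat_lit 163) (nat_lit 0) (cs (lf (nat_lit 6) (nat_lit 160)) (nd (nat_lit 227) (nat_lit 0) (cs (lf (nat_lit 29) (nat_lit 160)) (nd (nat_lit 205) (nat_lit 0) (cs (lf (nat_lit 35) (nat_lit 139)) (nd (nat_lit 206) (nat_lit 0) (cs (lf (nat_lit 12) (nat_lit 202)) (lf (nat_lit 19) (nat_lit 182)))))))))))))) q38787 (by decide +kernel)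
def q38850 : Q := Q.p (nat_lit 0xe000010000040000000000000000000000000000000000000000) (nat_lit 0x2800000000000000000000100000000000000000000000000000000000) (nat_lit 2)
theorem c38850 : QOK q38850 := cut [] trivial (nd (nat_lit 140) (nat_lit 0) (cs (lf (nat_lit 29) (nat_lit 140)) (lf (nat_lit 41) (nat_lit 139)))) q38850 (by decide +kernel)
def q38864 : Q := Q.p (nat_lit 0x16000050000060000000000000000000000000000000000000000) (nat_lit 0x260000900008e000010000180000200000000000000000000000000000) (nat_lit 7)
theorem c38864 : QOK q38864 := cut [] trivial (nd (nat_lit 207) (nat_lit 0) (cs (lf (nat_lit 17) (nat_lit 183)) (nd (nat_lit 182) (nat_lit 0) (cs (lf (nat_lit 22) (nat_lit 182)) (nd (nat_lit 140) (nat_lit 0) (cs (lf (nat_lit 29) (nat_lit 140)) (nd (nat_lit 139) (nat_lit 0) (cs (lf (nat_lit 47) (nat_lit 117)) (nd (nat_lit 204) (nat_lit 0) (cs (lf (nat_lit 23) (nat_lit 181)) (nd (nat_lit 226) (nat_lit 0) (cs (lf (nat_lit 11) (nat_lit 203)) (lf (nat_lit 33) (nat_lit 138)))))))))))))) q38864 (by decide +kernel)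
def q38870 : Q := Q.p (nat_lit 0x50000070000000000000000000000000000000000000000) (nat_lit 0x28000008000000000000000000000000000000000000000) (nat_lit 2)
theorem c38870 : QOK q38870 := cut [] trivial (nd (nat_lit 185) (nat_lit 0) (cs (lf (nat_lit 0) (nat_lit 159)) (lf (nat_lit 21) (nat_lit 160)))) q38870 (by decide +kernel)
def q38874 : Q := Q.p (nat_lit 0x60000070000000000000000000000000000000000000000) (nat_lit 0x18000008000000000000000000000000000000000000000) (nat_lit 2)
theorem c38874 : QOK q38874 := cut [] trivial (nd (nat_lit 184) (nat_lit 0) (cs (lf (nat_lit 0) (nat_lit 159)) (lf (nat_lit 21) (nat_lit 160)))) q38874 (by decide +kernel)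
def q38878 : Q := Q.p (nat_lit 0xf0000000000000000000000000000000000000000) (nat_lit 0xe0001000000e0000000000000000000000000000000000) (nat_lit 4)
theorem c38878 : QOK q38878 := cut [] trivial (nd (nat_lit 138) (nat_lit 0) (cs (lf (nat_lit 23) (nat_lit 137)) (nd (nat_lit 182) (nat_lit 0) (cs (lf (nat_lit 11) (nat_lit 159)) (nd (nat_lit 164) (nat_lit 0) (cs (lf (nat_lit 22) (nat_lit 138)) (lf (nat_lit 10) (nat_lit 160)))))))) q38878 (by decide +kernel)
def q38885 : Q := Q.p (nat_lit 0x60000060000000000000000000000000000000000000000) (nat_lit 0x190000180000000000000000000000000000000000000000) (nat_lit 3)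
theorem c38885 : QOK q38885 := cut [] trivial (nd (nat_lit 187) (nat_lit 0) (cs (lf (nat_lit 21) (nat_lit 161)) (nd (nat_lit 163) (nat_lit 0) (cs (lf (nat_lit 18) (nat_lit 162)) (lf (nat_lit 3) (nat_lit 161)))))) q38885 (by decide +kernel)
def q38915 : Q := Q.p (nat_lit 0x140000600000c0000000000000000000000000000000000000000) (nat_lit 0x1000008000010000000000200000800000000000000000000000000000) (nat_lit 3)
theorem c38915 : QOK q38915 := cut [] trivial (nd (nat_lit 141) (nat_lit 0) (cs (lf (nat_lit 24) (nat_lit 119)) (nd (nat_lit 228) (nat_lit 0) (cs (lf (nat_lit 39) (nat_lit 140)) (lf (nat_lit 32) (nat_lit 140)))))) q38915 (by decide +kernel)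
def q38920 : Q := Q.p (nat_lit 0x1c000060000060000100000000000000000000000000000000000) (nat_lit 0x80000300000c000000000000000000000000000000000000000000000) (nat_lit 3)
theorem c38920 : QOK q38920 := cut [] trivial (nd (nat_lit 205) (nat_lit 0) (cs (lf (nat_lit 12) (nat_lit 182)) (nd (nat_lit 183) (nat_lit 0) (cs (lf (nat_lit 23) (nat_lit 182)) (lf (nat_lit 30) (nat_lit 139)))))) q38920 (by decide +kernel)
def q38950 : Q := Q.p (nat_lit 0xe0000080000000000000000000000000000000000) (nat_lit 0x100000170000000000000000000000000000000000) (nat_lit 3)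
theorem c38950 : QOK q38950 := cut [] trivial (nd (nat_lit 138) (nat_lit 0) (cs (lf (nat_lit 18) (nat_lit 138)) (nd (nat_lit 137) (nat_lit 0) (cs (lf (nat_lit 0) (nat_lit 136)) (lf (nat_lit 3) (nat_lit 137)))))) q38950 (by decide +kernel)
def q38953 : Q := Q.p (nat_lit 0x2000008000060000000000000000000000000000000000000000) (nat_lit 0x800000000000000000000180000400001000000000000000000000000) (nat_lit 3)
theorem c38953 : QOK q38953 := cut [] trivial (nd (nat_lit 140) (nat_lit 0) (cs (lf (nat_lit 30) (nat_lit 139)) (nd (nat_lit 118) (nat_lit 0) (cs (lf (nat_lit 36) (nat_lit 95)) (lf (nat_lit 33) (nat_lit 117)))))) q38953 (by decide +kernel)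
def q38971 : Q := Q.p (nat_lit 0x78000000000000000000000000000000000000000) (nat_lit 0x3800004000380000000000000000000000000000000000) (nat_lit 4)
theorem c38971 : QOK q38971 := cut [] trivial (nd (nat_lit 180) (nat_lit 0) (cs (lf (nat_lit 10) (nat_lit 158)) (nd (nat_lit 158) (nat_lit 0) (cs (lf (nat_lit 11) (nat_lit 157)) (nd (nat_lit 140) (nat_lit 0) (cs (lf (nat_lit 17) (nat_lit 137)) (lf (nat_lit 16) (nat_lit 136)))))))) q38971 (by decide +kernel)
def q39049 : Q := Q.p (nat_lit 0x4000030000040000100000000000000000000000000000) (nat_lit 0x80000e00003800008000000000080000000000000000000000000000000000) (nat_lit 5)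
theorem c39049 : QOK q39049 := cut [] trivial (nd (nat_lit 205) (nat_lit 0) (cs (lf (nat_lit 28) (nat_lit 116)) (nd (nat_lit 204) (nat_lit 0) (cs (lf (nat_lit 29) (nat_lit 138)) (nd (nat_lit 225) (nat_lit 0) (cs (lf (nat_lit 40) (nat_lit 137)) (nd (nat_lit 226) (nat_lit 0) (cs (lf (nat_lit 35) (nat_lit 138)) (lf (nat_lit 41) (nat_lit 159)))))))))) q39049 (by decide +kernel)
def q39076 : Q := Q.p (nat_lit 0xf0000200000000000000000000000000000000000000000) (nat_lit 0x1ce000700003900000000000000000000000000000000000000000) (nat_lit 7)
theorem c39076 : QOK q39076 := cut [] trivial (nd (nat_lit 206) (nat_lit 0) (cs (lf (nat_lit 11) (nat_lit 183)) (nd (nat_lit 188) (nat_lit 0) (cs (lf (nat_lit 10) (nat_lit 184)) (nd (nat_lit 211) (nat_lit 0) (cs (lf (nat_lit 4) (nat_lit 185)) (nd (nat_lit 189) (nat_lit 0) (cs (lf (nat_lit 5) (nat_lit 186)) (nd (nat_lit 168) (nat_lit 0) (cs (lf (nat_lit 16) (nat_lit 164)) (nd (nat_lit 190) (nat_lit 0) (cs (lf (nat_lit 17) (nat_lit 165)) (lf (nat_lit 23) (nat_lit 164)))))))))))))) q39076 (by decide +kernel)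
def q39084 : Q := Q.p (nat_lit 0x200000c0000300000000000000000000000000000000000) (nat_lit 0x8000000000000000000000400001000000000000000000000000) (nat_lit 2)
theorem c39084 : QOK q39084 := cut [] trivial (nd (nat_lit 118) (nat_lit 0) (cs (lf (nat_lit 24) (nat_lit 96)) (lf (nat_lit 42) (nat_lit 118)))) q39084 (by decide +kernel)
def q39094 : Q := Q.p (nat_lit 0x78000000000000000000000000000000000000000000000) (nat_lit 0x40003b8000000000000000000000000000000000000000) (nat_lit 4)
theorem c39094 : QOK q39094 := cut [] trivial (nd (nat_lit 160) (nat_lit 0) (cs (lf (nat_lit 22) (nat_lit 160)) (nd (nat_lit 164) (nat_lit 0) (cs (lf (nat_lit 17) (nat_lit 161)) (nd (nat_lit 182) (nat_lit 0) (cs (lf (nat_lit 23) (nat_lit 159)) (lf (nat_lit 16) (nat_lit 160)))))))) q39094 (by decide +kernel)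
def q39096 : Q := Q.p (nat_lit 0xf8000000000000000000000000000000000000000000000) (nat_lit 0x700000000000000000000000000000000000000000) (nat_lit 2)
theorem c39096 : QOK q39096 := cut [] trivial (nd (nat_lit 165) (nat_lit 0) (cs (lf (nat_lit 17) (nat_lit 162)) (lf (nat_lit 16) (nat_lit 161)))) q39096 (by decide +kernel)
def q39153 : Q := Q.p (nat_lit 0x2c0000a00000000000000000000000000000000000) (nat_lit 0x100001400000000000000000000000000000000000) (nat_lit 2)
theorem c39153 : QOK q39153 := cut [] trivial (nd (nat_lit 144) (nat_lit 0) (cs (lf (nat_lit 14) (nat_lit 140)) (lf (nat_lit 8) (nat_lit 140)))) q39153 (by decide +kernel)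
def q39159 : Q := Q.p (nat_lit 0x380000600000000000000000000000000000000000000000) (nat_lit 0xc00000100000000000000000000000000000000000000000) (nat_lit 2)
theorem c39159 : QOK q39159 := cut [] trivial (nd (nat_lit 190) (nat_lit 0) (cs (lf (nat_lit 23) (nat_lit 164)) (lf (nat_lit 18) (nat_lit 165)))) q39159 (by decide +kernel)
def q39168 : Q := Q.p (nat_lit 0x20000000000400001e0000000000000000000000000000000000000000000000) (nat_lit 0x18000000000010000e00000800000000000000000000000000000000000) (nat_lit 4)
theorem c39168 : QOK q39168 := cut [] trivial (nd (nat_lit 166) (nat_lit 0) (cs (lf (nat_lit 17) (nat_lit 163)) (nd (nat_lit 165) (nat_lit 0) (cs (lf (nat_lit 12) (nat_lit 162)) (nd (nat_lit 232) (nat_lit 0) (cs (lf (nat_lit 40) (nat_lit 165)) (lf (nat_lit 47) (nat_lit 143)))))))) q39168 (by decide +kernel)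
def q39174 : Q := Q.p (nat_lit 0x180000e00000c0000300000000000000000000000000000000000) (nat_lit 0x200001c00007000000000000000000000000000000) (nat_lit 4)
theorem c39174 : QOK q39174 := cut [] trivial (nd (nat_lit 142) (nat_lit 0) (cs (lf (nat_lit 35) (nat_lit 119)) (nd (nat_lit 143) (nat_lit 0) (cs (lf (nat_lit 6) (nat_lit 140)) (nd (nat_lit 121) (nat_lit 0) (cs (lf (nat_lit 38) (nat_lit 120)) (lf (nat_lit 17) (nat_lit 118)))))))) q39174 (by decide +kernel)
def q39191 : Q := Q.p (nat_lit 0x600000c0000380000000000000000000000000000000000) (nat_lit 0x30000c00003700005800016000000000000000000) (nat_lit 8)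
theorem c39191 : QOK q39191 := cut [] trivial (nd (nat_lit 161) (nat_lit 0) (cs (lf (nat_lit 0) (nat_lit 160)) (nd (nat_lit 96) (nat_lit 0) (cs (lf (nat_lit 25) (nat_lit 96)) (nd (nat_lit 142) (nat_lit 0) (cs (lf (nat_lit 6) (nat_lit 139)) (nd (nat_lit 120) (nat_lit 0) (cs (lf (nat_lit 17) (nat_lit 117)) (nd (nat_lit 76) (nat_lit 0) (cs (lf (nat_lit 37) (nat_lit 75)) (nd (nat_lit 117) (nat_lit 0) (cs (lf (nat_lit 23) (nat_lit 116)) (nd (nat_lit 95) (nat_lit 0) (cs (lf (nat_lit 35) (nat_lit 73)) (lf (nat_lit 24) (nat_lit 73)))))))))))))))) q39191 (by decide +kernel)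
def q39201 : Q := Q.p (nat_lit 0x600000c0000380000000000000000000000000000000000) (nat_lit 0x38000060000000000000000000000000000000000) (nat_lit 3)
theorem c39201 : QOK q39201 := cut [] trivial (nd (nat_lit 138) (nat_lit 0) (cs (lf (nat_lit 0) (nat_lit 137)) (nd (nat_lit 160) (nat_lit 0) (cs (lf (nat_lit 1) (nat_lit 160)) (lf (nat_lit 11) (nat_lit 137)))))) q39201 (by decide +kernel)
def q39216 : Q := Q.p (nat_lit 0x100000400001c0000600000000000000000000000000000000000) (nat_lit 0x1800002000000000000000000000000000000) (nat_lit 2)
theorem c39216 : QOK q39216 := cut [] trivial (nd (nat_lit 143) (nat_lit 0) (cs (lf (nat_lit 35) (nat_lit 120)) (lf (nat_lit 6) (nat_lit 140)))) q39216 (by decide +kernel)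
def q39278 : Q := Q.p (nat_lit 0x40000100000000001e00000000000000000000000000000) (nat_lit 0xc0000200000c000000000000000000000000) (nat_lit 3)
theorem c39278 : QOK q39278 := cut [] trivial (nd (nat_lit 142) (nat_lit 0) (cs (lf (nat_lit 5) (nat_lit 117)) (nd (nat_lit 99) (nat_lit 0) (cs (lf (nat_lit 34) (nat_lit 98)) (lf (nat_lit 16) (nat_lit 95)))))) q39278 (by decide +kernel)
def q39280 : Q := Q.p (nat_lit 0x70000040000100000400000000000000000000000000000) (nat_lit 0x800006000088000000000000000000000000000000000000000000000) (nat_lit 3)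
theorem c39280 : QOK q39280 := cut [] trivial (nd (nat_lit 205) (nat_lit 0) (cs (lf (nat_lit 40) (nat_lit 117)) (nd (nat_lit 206) (nat_lit 0) (cs (lf (nat_lit 41) (nat_lit 139)) (lf (nat_lit 6) (nat_lit 183)))))) q39280 (by decide +kernel)
def q39309 : Q := Q.p (nat_lit 0x10000040000100000000003c00000000000000000000000000000) (nat_lit 0x1c00000000000000000000000000000000000) (nat_lit 2)
theorem c39309 : QOK q39309 := cut [] trivial (nd (nat_lit 143) (nat_lit 0) (cs (lf (nat_lit 33) (nat_lit 120)) (lf (nat_lit 5) (nat_lit 118)))) q39309 (by decide +kernel)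
def q39333 : Q := Q.p (nat_lit 0x50000140000000001c00000000000000000000000000000) (nat_lit 0x500000000002000000000000000000000000) (nat_lit 2)
theorem c39333 : QOK q39333 := cut [] trivial (nd (nat_lit 97) (nat_lit 0) (cs (lf (nat_lit 44) (nat_lit 97)) (lf (nat_lit 32) (nat_lit 96)))) q39333 (by decide +kernel)
def q39340 : Q := Q.p (nat_lit 0x100000c0000200000800000000000000000000000000000) (nat_lit 0x1000004000000000000000100000000000000000000000000000000000) (nat_lit 2)
theorem c39340 : QOK q39340 := cut [] trivial (nd (nat_lit 206) (nat_lit 0) (cs (lf (nat_lit 30) (nat_lit 140)) (lf (nat_lit 33) (nat_lit 118)))) q39340 (by decide +kernel)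
def q39348 : Q := Q.p (nat_lit 0x10000040000300000500000000000000000000000000000000000) (nat_lit 0x280000800000000000000000000000000000) (nat_lit 2)
theorem c39348 : QOK q39348 := cut [] trivial (nd (nat_lit 141) (nat_lit 0) (cs (lf (nat_lit 47) (nat_lit 119)) (lf (nat_lit 0) (nat_lit 139)))) q39348 (by decide +kernel)
def q39407 : Q := Q.p (nat_lit 0x10000340000800000000000000000000000000000000000) (nat_lit 0x20000480001380000000000000000000000000000000000) (nat_lit 4)
theorem c39407 : QOK q39407 := cut [] trivial (nd (nat_lit 163) (nat_lit 0) (cs (lf (nat_lit 17) (nat_lit 140)) (nd (nat_lit 140) (nat_lit 0) (cs (lf (nat_lit 23) (nat_lit 139)) (nd (nat_lit 166) (nat_lit 0) (cs (lf (nat_lit 10) (nat_lit 162)) (lf (nat_lit 22) (nat_lit 140)))))))) q39407 (by decide +kernel)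
def q39441 : Q := Q.p (nat_lit 0x100000500001c0000000000000000000000000000000000000000) (nat_lit 0x728001e00006f80002000000000000000000000000000000) (nat_lit 9)
theorem c39441 : QOK q39441 := cut [] trivial (nd (nat_lit 165) (nat_lit 0) (cs (lf (nat_lit 11) (nat_lit 161)) (nd (nat_lit 139) (nat_lit 0) (cs (lf (nat_lit 22) (nat_lit 139)) (nd (nat_lit 166) (nat_lit 0) (cs (lf (nat_lit 10) (nat_lit 162)) (nd (nat_lit 189) (nat_lit 0) (cs (lf (nat_lit 4) (nat_lit 163)) (nd (nat_lit 167) (nat_lit 0) (cs (lf (nat_lit 5) (nat_lit 164)) (nd (nat_lit 145) (nat_lit 0) (cs (lf (nat_lit 17) (nat_lit 142)) (nd (nat_lit 142) (nat_lit 0) (cs (lf (nat_lit 23) (nat_lit 141)) (nd (nat_lit 143) (nat_lit 0) (cs (lf (nat_lit 35) (nat_lit 120)) (lf (nat_lit 18) (nat_lit 142)))))))))))))))))) q39441 (by decide +kernel)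
def q39452 : Q := Q.p (nat_lit 0x100000700000c0000000000000000000000000000000000000000) (nat_lit 0x1000006000180000000000200000800000000000000000000000000000) (nat_lit 4)
theorem c39452 : QOK q39452 := cut [] trivial (nd (nat_lit 141) (nat_lit 0) (cs (lf (nat_lit 24) (nat_lit 119)) (nd (nat_lit 206) (nat_lit 0) (cs (lf (nat_lit 30) (nat_lit 140)) (nd (nat_lit 187) (nat_lit 0) (cs (lf (nat_lit 11) (nat_lit 183)) (lf (nat_lit 18) (nat_lit 162)))))))) q39452 (by decide +kernel)
def q39475 : Q := Q.p (nat_lit 0x2c0000300000000000000000000000000000000000) (nat_lit 0x500000080000000000000000000000000000000000) (nat_lit 2)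
theorem c39475 : QOK q39475 := cut [] trivial (nd (nat_lit 164) (nat_lit 0) (cs (lf (nat_lit 23) (nat_lit 139)) (lf (nat_lit 18) (nat_lit 140)))) q39475 (by decide +kernel)
def q39677 : Q := Q.p (nat_lit 0x100000500001c0000200000000000000000000000000000000000) (nat_lit 0x400000800002000000000000000000000000) (nat_lit 2)
theorem c39677 : QOK q39677 := cut [] trivial (nd (nat_lit 119) (nat_lit 0) (cs (lf (nat_lit 36) (nat_lit 96)) (lf (nat_lit 45) (nat_lit 119)))) q39677 (by decide +kernel)
def q39704 : Q := Q.p (nat_lit 0x20000060000180000400000000000000000000000000000) (nat_lit 0x80000000000000001000004000000000000000000) (nat_lit 2)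
theorem c39704 : QOK q39704 := cut [] trivial (nd (nat_lit 96) (nat_lit 0) (cs (lf (nat_lit 28) (nat_lit 96)) (lf (nat_lit 36) (nat_lit 73)))) q39704 (by decide +kernel)
def q39713 : Q := Q.p (nat_lit 0x600001e0000000000800000000000000000000000000000) (nat_lit 0xc00001000006000000000000000000000000) (nat_lit 3)
theorem c39713 : QOK q39713 := cut [] trivial (nd (nat_lit 142) (nat_lit 0) (cs (lf (nat_lit 17) (nat_lit 139)) (nd (nat_lit 120) (nat_lit 0) (cs (lf (nat_lit 47) (nat_lit 97)) (lf (nat_lit 36) (nat_lit 97)))))) q39713 (by decide +kernel)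
def q39718 : Q := Q.p (nat_lit 0x78000060000080000000000000000000000000000000000) (nat_lit 0x4000380000040000000000000000000000000000000000) (nat_lit 3)
theorem c39718 : QOK q39718 := cut [] trivial (nd (nat_lit 164) (nat_lit 0) (cs (lf (nat_lit 17) (nat_lit 161)) (nd (nat_lit 163) (nat_lit 0) (cs (lf (nat_lit 23) (nat_lit 138)) (lf (nat_lit 12) (nat_lit 160)))))) q39718 (by decide +kernel)
def q39862 : Q := Q.p (nat_lit 0x10000060000080000200000000000000000000000000000) (nat_lit 0x1000004000008000000000000000000000000000000000000000000000) (nat_lit 2)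
theorem c39862 : QOK q39862 := cut [] trivial (nd (nat_lit 206) (nat_lit 0) (cs (lf (nat_lit 42) (nat_lit 139)) (lf (nat_lit 27) (nat_lit 117)))) q39862 (by decide +kernel)
def q39890 : Q := Q.p (nat_lit 0x8000060000080000200000000000000000000000000000) (nat_lit 0x400001c00007000004000000000100000000000000000000000000000000000) (nat_lit 5)
theorem c39890 : QOK q39890 := cut [] trivial (nd (nat_lit 204) (nat_lit 0) (cs (lf (nat_lit 40) (nat_lit 116)) (nd (nat_lit 205) (nat_lit 0) (cs (lf (nat_lit 41) (nat_lit 138)) (nd (nat_lit 228) (nat_lit 0) (cs (lf (nat_lit 28) (nat_lit 139)) (nd (nat_lit 227) (nat_lit 0) (cs (lf (nat_lit 29) (nat_lit 161)) (lf (nat_lit 35) (nat_lit 139)))))))))) q39890 (by decide +kernel)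
def q39951 : Q := Q.p (nat_lit 0x78000000000000000000000000000000000000000) (nat_lit 0x80000200001e000186000338000000000000000000000000000000000) (nat_lit 8)
theorem c39951 : QOK q39951 := cut [] trivial (nd (nat_lit 140) (nat_lit 0) (cs (lf (nat_lit 17) (nat_lit 137)) (nd (nat_lit 136) (nat_lit 0) (cs (lf (nat_lit 22) (nat_lit 136)) (nd (nat_lit 158) (nat_lit 0) (cs (lf (nat_lit 23) (nat_lit 135)) (nd (nat_lit 183) (nat_lit 0) (cs (lf (nat_lit 5) (nat_lit 158)) (nd (nat_lit 205) (nat_lit 0) (cs (lf (nat_lit 30) (nat_lit 139)) (nd (nat_lit 182) (nat_lit 0) (cs (lf (nat_lit 0) (nat_lit 157)) (nd (nat_lit 163) (nat_lit 0) (cs (lf (nat_lit 11) (nat_lit 159)) (lf (nat_lit 6) (nat_lit 160)))))))))))))))) q39951 (by decide +kernel)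
def q39980 : Q := Q.p (nat_lit 0x58000060000000000000000000000000000000000000000) (nat_lit 0xc0000300000c00002300001c0003b0000e00003800000000000000000000000) (nat_lit 12)
theorem c39980 : QOK q39980 := cut [] trivial (nd (nat_lit 160) (nat_lit 0) (cs (lf (nat_lit 19) (nat_lit 160)) (nd (nat_lit 159) (nat_lit 0) (cs (lf (nat_lit 0) (nat_lit 158)) (nd (nat_lit 140) (nat_lit 0) (cs (lf (nat_lit 17) (nat_lit 137)) (nd (nat_lit 118) (nat_lit 0) (cs (lf (nat_lit 36) (nat_lit 95)) (nd (nat_lit 180) (nat_lit 0) (cs (lf (nat_lit 10) (nat_lit 158)) (nd (nat_lit 97) (nat_lit 0) (cs (lf (nat_lit 34) (nat_lit 96)) (nd (nat_lit 136) (nat_lit 0) (cs (lf (nat_lit 22) (nat_lit 136)) (nd (nat_lit 117) (nat_lit 0) (cs (lf (nat_lit 47) (nat_lit 95)) (nd (nat_lit 206) (nat_lit 0) (cs (lf (nat_lit 25) (nat_lit 117)) (nd (nat_lit 229) (nat_lit 0) (cs (lf (nat_lit 28) (nat_lit 140)) (nd (nat_lit 228) (nat_lit 0) (cs (lf (nat_lit 29) (nat_lit 162)) (lf (nat_lit 42) (nat_lit 161)))))))))))))))))))))))) q39980 (by decide +kernel)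
def q40035 : Q := Q.p (nat_lit 0x48000070000000000000000000000000000000000000000) (nat_lit 0x30000080000000000000000000000000000000000000000) (nat_lit 2)
theorem c40035 : QOK q40035 := cut [] trivial (nd (nat_lit 185) (nat_lit 0) (cs (lf (nat_lit 3) (nat_lit 160)) (lf (nat_lit 20) (nat_lit 160)))) q40035 (by decide +kernel)
def q40124 : Q := Q.p (nat_lit 0x1000000c000020000080000200000000000000000000000000000) (nat_lit 0x100000e000010000000000000000400001000000000000000000000000) (nat_lit 4)
theorem c40124 : QOK q40124 := cut [] trivial (nd (nat_lit 96) (nat_lit 0) (cs (lf (nat_lit 34) (nat_lit 95)) (nd (nat_lit 206) (nat_lit 0) (cs (lf (nat_lit 28) (nat_lit 117)) (nd (nat_lit 205) (nat_lit 0) (cs (lf (nat_lit 29) (nat_lit 139)) (lf (nat_lit 19) (nat_lit 182)))))))) q40124 (by decide +kernel)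
def q40145 : Q := Q.p (nat_lit 0x20000300000c0000100000000000000000000000000000) (nat_lit 0x8000000000000000400001000000000000000000) (nat_lit 2)
theorem c40145 : QOK q40145 := cut [] trivial (nd (nat_lit 94) (nat_lit 0) (cs (lf (nat_lit 24) (nat_lit 72)) (lf (nat_lit 40) (nat_lit 93)))) q40145 (by decide +kernel)
def q40231 : Q := Q.p (nat_lit 0x2000000000040000100000400000800000000000000000000000000000000000) (nat_lit 0x18000000000000000200000000000000000000000000000000000000000) (nat_lit 2)
theorem c40231 : QOK q40231 := cut [] trivial (nd (nat_lit 232) (nat_lit 0) (cs (lf (nat_lit 46) (nat_lit 143)) (lf (nat_lit 40) (nat_lit 165)))) q40231 (by decide +kernel)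
def q40261 : Q := Q.p (nat_lit 0x300001e0000000000000000000000000000000000000000) (nat_lit 0x100000400000c000000000cc0000200000000000000000000000000000) (nat_lit 5)
theorem c40261 : QOK q40261 := cut [] trivial (nd (nat_lit 139) (nat_lit 0) (cs (lf (nat_lit 23) (nat_lit 138)) (nd (nat_lit 142) (nat_lit 0) (cs (lf (nat_lit 17) (nat_lit 139)) (nd (nat_lit 206) (nat_lit 0) (cs (lf (nat_lit 42) (nat_lit 139)) (nd (nat_lit 183) (nat_lit 0) (cs (lf (nat_lit 24) (nat_lit 117)) (lf (nat_lit 12) (nat_lit 160)))))))))) q40261 (by decide +kernel)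
def q40304 : Q := Q.p (nat_lit 0xc0000780000000000000000000000000000000000) (nat_lit 0x60000380000000000000000000000000000) (nat_lit 3)
theorem c40304 : QOK q40304 := cut [] trivial (nd (nat_lit 116) (nat_lit 0) (cs (lf (nat_lit 22) (nat_lit 116)) (nd (nat_lit 138) (nat_lit 0) (cs (lf (nat_lit 23) (nat_lit 115)) (lf (nat_lit 0) (nat_lit 137)))))) q40304 (by decide +kernel)
def q40408 : Q := Q.p (nat_lit 0x20000680000e0000200000000000000000000000000000000000) (nat_lit 0x600001800005000010000000000000000000000000000000000000000000000) (nat_lit 4)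
theorem c40408 : QOK q40408 := cut [] trivial (nd (nat_lit 184) (nat_lit 0) (cs (lf (nat_lit 11) (nat_lit 182)) (nd (nat_lit 227) (nat_lit 0) (cs (lf (nat_lit 30) (nat_lit 161)) (nd (nat_lit 228) (nat_lit 0) (cs (lf (nat_lit 29) (nat_lit 161)) (lf (nat_lit 31) (nat_lit 140)))))))) q40408 (by decide +kernel)
def q40508 : Q := Q.p (nat_lit 0x80001c0000000000000000000000000000000000000000) (nat_lit 0x36000020000000000000000000000000000000000000000) (nat_lit 3)
theorem c40508 : QOK q40508 := cut [] trivial (nd (nat_lit 182) (nat_lit 0) (cs (lf (nat_lit 9) (nat_lit 160)) (nd (nat_lit 184) (nat_lit 0) (cs (lf (nat_lit 12) (nat_lit 159)) (lf (nat_lit 15) (nat_lit 160)))))) q40508 (by decide +kernel)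
def q40526 : Q := Q.p (nat_lit 0x80000000003c00001000000000000000000000000000000000000000000000000000000000) (nat_lit 0x20000000000380000000000000004000000000000000000000000000000000000000000000000000) (nat_lit 3)
theorem c40526 : QOK q40526 := cut [] trivial (nd (nat_lit 273) (nat_lit 0) (cs (lf (nat_lit 42) (nat_lit 228)) (nd (nat_lit 272) (nat_lit 0) (cs (lf (nat_lit 11) (nat_lit 249)) (lf (nat_lit 24) (nat_lit 206)))))) q40526 (by decide +kernel)
def q40530 : Q := Q.p (nat_lit 0xe0000800002000008000000000000000000000000000000000000000000000000000000000) (nat_lit 0xc0000300000400000000000000000000000000000000000000000000000000000000000000000000) (nat_lit 3)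
theorem c40530 : QOK q40530 := cut [] trivial (nd (nat_lit 296) (nat_lit 0) (cs (lf (nat_lit 16) (nat_lit 271)) (nd (nat_lit 318) (nat_lit 0) (cs (lf (nat_lit 39) (nat_lit 230)) (lf (nat_lit 5) (nat_lit 293)))))) q40530 (by decide +kernel)
def q40626 : Q := Q.p (nat_lit 0x800002000018000060000000000000000000000000000000000000000000000) (nat_lit 0x700039c000e70000000000000000000000000000000000000000) (nat_lit 8)
theorem c40626 : QOK q40626 := cut [] trivial (nd (nat_lit 184) (nat_lit 0) (cs (lf (nat_lit 47) (nat_lit 162)) (nd (nat_lit 183) (nat_lit 0) (cs (lf (nat_lit 0) (nat_lit 182)) (nd (nat_lit 160) (nat_lit 0) (cs (lf (nat_lit 22) (nat_lit 160)) (nd (nat_lit 205) (nat_lit 0) (cs (lf (nat_lit 11) (nat_lit 182)) (nd (nat_lit 187) (nat_lit 0) (cs (lf (nat_lit 10) (nat_lit 183)) (nd (nat_lit 166) (nat_lit 0) (cs (lf (nat_lit 16) (nat_lit 162)) (nd (nat_lit 188) (nat_lit 0) (cs (lf (nat_lit 17) (nat_lit 163)) (lf (nat_lit 6) (nat_lit 185)))))))))))))))) q40626 (by decide +kernel)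
def q40673 : Q := Q.p (nat_lit 0x4000010000000000e000040000000000000000000000000000000000000000000000) (nat_lit 0x80000300001800027000000000000000000000000000000000000000000000) (nat_lit 5)
theorem c40673 : QOK q40673 := cut [] trivial (nd (nat_lit 204) (nat_lit 0) (cs (lf (nat_lit 16) (nat_lit 182)) (nd (nat_lit 181) (nat_lit 0) (cs (lf (nat_lit 22) (nat_lit 181)) (nd (nat_lit 203) (nat_lit 0) (cs (lf (nat_lit 23) (nat_lit 180)) (nd (nat_lit 225) (nat_lit 0) (cs (lf (nat_lit 11) (nat_lit 202)) (lf (nat_lit 27) (nat_lit 181)))))))))) q40673 (by decide +kernel)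
def q40706 : Q := Q.p (nat_lit 0x100000400001000004000000000000000000000000000000000000000000000000000) (nat_lit 0xa0000380000a0000000000000000000000000000000000000000) (nat_lit 4)
theorem c40706 : QOK q40706 := cut [] trivial (nd (nat_lit 183) (nat_lit 0) (cs (lf (nat_lit 46) (nat_lit 183)) (nd (nat_lit 185) (nat_lit 0) (cs (lf (nat_lit 34) (nat_lit 184)) (nd (nat_lit 184) (nat_lit 0) (cs (lf (nat_lit 47) (nat_lit 161)) (lf (nat_lit 35) (nat_lit 162)))))))) q40706 (by decide +kernel)
def q40711 : Q := Q.p (nat_lit 0x100000c00001000014000040000000000000000000000000000000000000000000000) (nat_lit 0x8000020000000000200000a000028000000000000000000000000000000000000000000000) (nat_lit 4)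
theorem c40711 : QOK q40711 := cut [] trivial (nd (nat_lit 183) (nat_lit 0) (cs (lf (nat_lit 46) (nat_lit 183)) (nd (nat_lit 273) (nat_lit 0) (cs (lf (nat_lit 29) (nat_lit 206)) (nd (nat_lit 207) (nat_lit 0) (cs (lf (nat_lit 35) (nat_lit 184)) (lf (nat_lit 32) (nat_lit 185)))))))) q40711 (by decide +kernel)
def q40734 : Q := Q.p (nat_lit 0x1f00000000000000000000000000000000000000000000000000000000000000) (nat_lit 0xe00000000000000000000000000000000000000000000000000000000000000000000) (nat_lit 2)
theorem c40734 : QOK q40734 := cut [] trivial (nd (nat_lit 274) (nat_lit 0) (cs (lf (nat_lit 4) (nat_lit 248)) (lf (nat_lit 5) (nat_lit 249)))) q40734 (by decide +kernel)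
def q40786 : Q := Q.p (nat_lit 0x1f0000000000000000000000000000000000000000000000000000000000000000000000000) (nat_lit 0xe000000000000000000000000000000000000000000000000000000000000000000000000000000) (nat_lit 2)
theorem c40786 : QOK q40786 := cut [] trivial (nd (nat_lit 314) (nat_lit 0) (cs (lf (nat_lit 11) (nat_lit 291)) (lf (nat_lit 10) (nat_lit 292)))) q40786 (by decide +kernel)
def q40801 : Q := Q.p (nat_lit 0x100000400001800002000000000000000000000000000000000000000000000000000000000) (nat_lit 0x200000000000000008000020000000000000000000000000000000000000000000000) (nat_lit 2)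
theorem c40801 : QOK q40801 := cut [] trivial (nd (nat_lit 207) (nat_lit 0) (cs (lf (nat_lit 24) (nat_lit 185)) (lf (nat_lit 27) (nat_lit 207)))) q40801 (by decide +kernel)
def q40862 : Q := Q.p (nat_lit 0x380000d00000000000000000000000000000000000000000000000000000000) (nat_lit 0x60000080000000000000000000000000000000000000000000000000000000) (nat_lit 2)
theorem c40862 : QOK q40862 := cut [] trivial (nd (nat_lit 246) (nat_lit 0) (cs (lf (nat_lit 23) (nat_lit 223)) (lf (nat_lit 12) (nat_lit 223)))) q40862 (by decide +kernel)
def q40865 : Q := Q.p (nat_lit 0x780000c00000000000000000000000000000000000000000000000000000000) (nat_lit 0x38000060000000000000000000000000000000000000000000000000000000000000) (nat_lit 3)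
theorem c40865 : QOK q40865 := cut [] trivial (nd (nat_lit 268) (nat_lit 0) (cs (lf (nat_lit 10) (nat_lit 246)) (nd (nat_lit 246) (nat_lit 0) (cs (lf (nat_lit 11) (nat_lit 245)) (lf (nat_lit 12) (nat_lit 223)))))) q40865 (by decide +kernel)
def q40868 : Q := Q.p (nat_lit 0x20000180000400001000000000000000000000000000000000000000000000000000) (nat_lit 0x2000008000040000000000000000000000000000000000000000000000000000000000000000000) (nat_lit 2)
theorem c40868 : QOK q40868 := cut [] trivial (nd (nat_lit 291) (nat_lit 0) (cs (lf (nat_lit 39) (nat_lit 203)) (lf (nat_lit 30) (nat_lit 225)))) q40868 (by decide +kernel)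
def q40873 : Q := Q.p (nat_lit 0x40000300000c00000000000000000000000000000000000000000000000000000000) (nat_lit 0x10000000000000000000002000008000000000000000000000000000000000000000000000) (nat_lit 2)
theorem c40873 : QOK q40873 := cut [] trivial (nd (nat_lit 205) (nat_lit 0) (cs (lf (nat_lit 36) (nat_lit 182)) (lf (nat_lit 30) (nat_lit 204)))) q40873 (by decide +kernel)
def q40876 : Q := Q.p (nat_lit 0x40000300000c00001000000000000000000000000000000000000000000000000000) (nat_lit 0x800006000018000000000000000000000000000000000000000) (nat_lit 3)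
theorem c40876 : QOK q40876 := cut [] trivial (nd (nat_lit 181) (nat_lit 0) (cs (lf (nat_lit 46) (nat_lit 181)) (nd (nat_lit 182) (nat_lit 0) (cs (lf (nat_lit 47) (nat_lit 159)) (lf (nat_lit 24) (nat_lit 160)))))) q40876 (by decide +kernel)
def q40883 : Q := Q.p (nat_lit 0x60000700000000000000000000000000000000000000000000000000000000000000) (nat_lit 0x18000080000000000000000000000000000000000000000000000000000000000000) (nat_lit 2)
theorem c40883 : QOK q40883 := cut [] trivial (nd (nat_lit 268) (nat_lit 0) (cs (lf (nat_lit 12) (nat_lit 245)) (lf (nat_lit 9) (nat_lit 246)))) q40883 (by decide +kernel)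
def q40888 : Q := Q.p (nat_lit 0x40000100000d00003000000000000000000000000000000000000000000000000000) (nat_lit 0x80000e00002000000000000000000000000000000000000000000000) (nat_lit 3)
theorem c40888 : QOK q40888 := cut [] trivial (nd (nat_lit 203) (nat_lit 0) (cs (lf (nat_lit 47) (nat_lit 181)) (nd (nat_lit 202) (nat_lit 0) (cs (lf (nat_lit 11) (nat_lit 201)) (lf (nat_lit 0) (nat_lit 201)))))) q40888 (by decide +kernel)
def q40891 : Q := Q.p (nat_lit 0x300000c00001000008000000000000000000000000000000000000000000000) (nat_lit 0x4000030000000000000000000000000000000000000000) (nat_lit 2)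
theorem c40891 : QOK q40891 := cut [] trivial (nd (nat_lit 182) (nat_lit 0) (cs (lf (nat_lit 35) (nat_lit 160)) (lf (nat_lit 24) (nat_lit 160)))) q40891 (by decide +kernel)
def q40900 : Q := Q.p (nat_lit 0x20000180000600000000000000000000000000000000000000000000000000000000) (nat_lit 0x6000018000040000000000000000c0000300000c000000000000000000000000000000000000000) (nat_lit 6)
theorem c40900 : QOK q40900 := cut [] trivial (nd (nat_lit 291) (nat_lit 0) (cs (lf (nat_lit 30) (nat_lit 225)) (nd (nat_lit 292) (nat_lit 0) (cs (lf (nat_lit 29) (nat_lit 225)) (nd (nat_lit 203) (nat_lit 0) (cs (lf (nat_lit 28) (nat_lit 203)) (nd (nat_lit 180) (nat_lit 0) (cs (lf (nat_lit 46) (nat_lit 180)) (nd (nat_lit 181) (nat_lit 0) (cs (lf (nat_lit 47) (nat_lit 158)) (lf (nat_lit 24) (nat_lit 159)))))))))))) q40900 (by decide +kernel)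
def q40907 : Q := Q.p (nat_lit 0x20000180000600000000000000000000000000000000000000000000000000000000) (nat_lit 0x8000000000000000000001000004000000000000000000000000000000000000000000000) (nat_lit 2)
theorem c40907 : QOK q40907 := cut [] trivial (nd (nat_lit 204) (nat_lit 0) (cs (lf (nat_lit 36) (nat_lit 181)) (lf (nat_lit 30) (nat_lit 203)))) q40907 (by decide +kernel)
def q40931 : Q := Q.p (nat_lit 0x700000c00002000000000000000000000000000000000000000000000000000) (nat_lit 0x100000000000000000000008000020000000000000000000000000000000000000000) (nat_lit 2)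
theorem c40931 : QOK q40931 := cut [] trivial (nd (nat_lit 183) (nat_lit 0) (cs (lf (nat_lit 29) (nat_lit 183)) (lf (nat_lit 36) (nat_lit 160)))) q40931 (by decide +kernel)
def q40933 : Q := Q.p (nat_lit 0x200000800003000048000000000000000000000000000000000000000000000) (nat_lit 0x30000040000000000000000000000000000000000000000) (nat_lit 2)
theorem c40933 : QOK q40933 := cut [] trivial (nd (nat_lit 184) (nat_lit 0) (cs (lf (nat_lit 35) (nat_lit 161)) (lf (nat_lit 7) (nat_lit 182)))) q40933 (by decide +kernel)
def q40946 : Q := Q.p (nat_lit 0x180000600000800000000000000000000000000000000000000000000000000000000) (nat_lit 0x40000000000000000000002000008000000000000000000000000000000000000000000000) (nat_lit 2)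
theorem c40946 : QOK q40946 := cut [] trivial (nd (nat_lit 205) (nat_lit 0) (cs (lf (nat_lit 29) (nat_lit 205)) (lf (nat_lit 24) (nat_lit 183)))) q40946 (by decide +kernel)
def q40950 : Q := Q.p (nat_lit 0xc0000200000800002000000000000000000000000000000000000000000000000000) (nat_lit 0x100000000004000018000040000000000000000000000000000000000000000) (nat_lit 3)
theorem c40950 : QOK q40950 := cut [] trivial (nd (nat_lit 184) (nat_lit 0) (cs (nd (nat_lit 183) (nat_lit 0) (cs (lf (nat_lit 35) (nat_lit 161)) (lf (nat_lit 40) (nat_lit 182)))) (lf (nat_lit 34) (nat_lit 183)))) q40950 (by decide +kernel)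
def q40955 : Q := Q.p (nat_lit 0x80000600000800002000000000000000000000000000000000000000000000000000) (nat_lit 0x40000100000000000000000000008000000000000000000000000000000000000000000000) (nat_lit 2)
theorem c40955 : QOK q40955 := cut [] trivial (nd (nat_lit 272) (nat_lit 0) (cs (lf (nat_lit 29) (nat_lit 205)) (lf (nat_lit 24) (nat_lit 183)))) q40955 (by decide +kernel)
def q40957 : Q := Q.p (nat_lit 0x10000080000200000800002000000000000000000000000000000000000000000000000000) (nat_lit 0x14000060000100000000000000000000000000000000000000000000000000000000000000000000) (nat_lit 3)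
theorem c40957 : QOK q40957 := cut [] trivial (nd (nat_lit 294) (nat_lit 0) (cs (lf (nat_lit 28) (nat_lit 205)) (nd (nat_lit 293) (nat_lit 0) (cs (lf (nat_lit 29) (nat_lit 227)) (lf (nat_lit 41) (nat_lit 226)))))) q40957 (by decide +kernel)
def q40967 : Q := Q.p (nat_lit 0x180000700000000000000000000000000000000000000000000000000000000000000) (nat_lit 0x2000000c0000000000000000000000000000000000000000000000000000000000000) (nat_lit 2)
theorem c40967 : QOK q40967 := cut [] trivial (nd (nat_lit 247) (nat_lit 0) (cs (lf (nat_lit 5) (nat_lit 247)) (lf (nat_lit 0) (nat_lit 246)))) q40967 (by decide +kernel)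
def q40979 : Q := Q.p (nat_lit 0x800016000040000000000000000000000000000000000000000000000) (nat_lit 0x400008000080000000000000000000000000000000000000000000000) (nat_lit 2)
theorem c40979 : QOK q40979 := cut [] trivial (nd (nat_lit 207) (nat_lit 0) (cs (lf (nat_lit 11) (nat_lit 204)) (lf (nat_lit 17) (nat_lit 183)))) q40979 (by decide +kernel)
def q40986 : Q := Q.p (nat_lit 0x200000800002000048000000000000000000000000000000000000000000000) (nat_lit 0x800000000000000050000b0000040000000000000000000000000000000000000000) (nat_lit 4)
theorem c40986 : QOK q40986 := cut [] trivial (nd (nat_lit 184) (nat_lit 0) (cs (lf (nat_lit 35) (nat_lit 161)) (nd (nat_lit 185) (nat_lit 0) (cs (lf (nat_lit 11) (nat_lit 182)) (nd (nat_lit 206) (nat_lit 0) (cs (lf (nat_lit 6) (nat_lit 183)) (lf (nat_lit 30) (nat_lit 183)))))))) q40986 (by decide +kernel)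
def q40995 : Q := Q.p (nat_lit 0x1600000800012000000000000000000000000000000000000000000000000000) (nat_lit 0x2000008000080000070000d000014000000000000000000000000000000000000000000000) (nat_lit 6)
theorem c40995 : QOK q40995 := cut [] trivial (nd (nat_lit 226) (nat_lit 0) (cs (lf (nat_lit 19) (nat_lit 226)) (nd (nat_lit 224) (nat_lit 0) (cs (lf (nat_lit 1) (nat_lit 224)) (nd (nat_lit 206) (nat_lit 0) (cs (lf (nat_lit 7) (nat_lit 204)) (nd (nat_lit 271) (nat_lit 0) (cs (lf (nat_lit 35) (nat_lit 183)) (nd (nat_lit 204) (nat_lit 0) (cs (lf (nat_lit 47) (nat_lit 182)) (lf (nat_lit 42) (nat_lit 204)))))))))))) q40995 (by decide +kernel)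
def q41027 : Q := Q.p (nat_lit 0x600000800002000008000000000000000000000000000000000000000000000) (nat_lit 0x40000100001400000000000000020000000000000000000000000000000000000000) (nat_lit 3)
theorem c41027 : QOK q41027 := cut [] trivial (nd (nat_lit 248) (nat_lit 0) (cs (lf (nat_lit 41) (nat_lit 182)) (nd (nat_lit 161) (nat_lit 0) (cs (lf (nat_lit 28) (nat_lit 161)) (lf (nat_lit 40) (nat_lit 160)))))) q41027 (by decide +kernel)
def q41030 : Q := Q.p (nat_lit 0x600000800002000008000000000000000000000000000000000000000000000) (nat_lit 0x1000000000004000030000040000000000000000000000000000000000) (nat_lit 3)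
theorem c41030 : QOK q41030 := cut [] trivial (nd (nat_lit 160) (nat_lit 0) (cs (lf (nat_lit 46) (nat_lit 160)) (nd (nat_lit 161) (nat_lit 0) (cs (lf (nat_lit 28) (nat_lit 161)) (lf (nat_lit 47) (nat_lit 138)))))) q41030 (by decide +kernel)
def q41035 : Q := Q.p (nat_lit 0x400001000006000050000000000000000000000000000000000000000000000) (nat_lit 0xa0000080000000000000000000000000000000000000000) (nat_lit 2)
theorem c41035 : QOK q41035 := cut [] trivial (nd (nat_lit 185) (nat_lit 0) (cs (lf (nat_lit 35) (nat_lit 162)) (lf (nat_lit 6) (nat_lit 183)))) q41035 (by decide +kernel)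
def q41047 : Q := Q.p (nat_lit 0x1a00006800000000000000000000000000000000000000000000000000) (nat_lit 0x100001400000000000000000000000000000000000000000000000000) (nat_lit 2)
theorem c41047 : QOK q41047 := cut [] trivial (nd (nat_lit 204) (nat_lit 0) (cs (lf (nat_lit 11) (nat_lit 202)) (lf (nat_lit 0) (nat_lit 202)))) q41047 (by decide +kernel)
def q41050 : Q := Q.p (nat_lit 0x80000200000800002000008000000000000000000000000000000000000000) (nat_lit 0x4000010000040000000000000000000000000000000000) (nat_lit 2)
theorem c41050 : QOK q41050 := cut [] trivial (nd (nat_lit 160) (nat_lit 0) (cs (lf (nat_lit 34) (nat_lit 159)) (lf (nat_lit 35) (nat_lit 137)))) q41050 (by decide +kernel)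
def q41056 : Q := Q.p (nat_lit 0x40000030000080000200000800000000000000000000000000000000000000000000000000) (nat_lit 0x4000038000040000000000000000000000000000000000000000000000000000000000000000000) (nat_lit 3)
theorem c41056 : QOK q41056 := cut [] trivial (nd (nat_lit 292) (nat_lit 0) (cs (lf (nat_lit 28) (nat_lit 203)) (nd (nat_lit 291) (nat_lit 0) (cs (lf (nat_lit 29) (nat_lit 225)) (lf (nat_lit 19) (nat_lit 268)))))) q41056 (by decide +kernel)
def q41063 : Q := Q.p (nat_lit 0x680001200000000000000000000000000000000000000000000000000000000) (nat_lit 0x100002100000000000000000000000000000000000000000000000000000000) (nat_lit 2)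
theorem c41063 : QOK q41063 := cut [] trivial (nd (nat_lit 248) (nat_lit 0) (cs (lf (nat_lit 23) (nat_lit 224)) (lf (nat_lit 17) (nat_lit 225)))) q41063 (by decide +kernel)
def q41064 : Q := Q.p (nat_lit 0x680001800000000000000000000000000000000000000000000000000000000) (nat_lit 0x140002000000000000000000000000000000000000000000000000000000000) (nat_lit 2)
theorem c41064 : QOK q41064 := cut [] trivial (nd (nat_lit 248) (nat_lit 0) (cs (lf (nat_lit 12) (nat_lit 224)) (lf (nat_lit 17) (nat_lit 225)))) q41064 (by decide +kernel)
def q41086 : Q := Q.p (nat_lit 0x8000060000180000000000000000000000000000000000000000000000000000000000000) (nat_lit 0x800002000000000000000000000400000000000000000000000000000000000000000000000000000000) (nat_lit 2)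
theorem c41086 : QOK q41086 := cut [] trivial (nd (nat_lit 313) (nat_lit 0) (cs (lf (nat_lit 30) (nat_lit 247)) (lf (nat_lit 35) (nat_lit 225)))) q41086 (by decide +kernel)
def q41109 : Q := Q.p (nat_lit 0x200000800012000048000000000000000000000000000000000000000000000) (nat_lit 0x9000034000050000000000000000000000000000000000000000) (nat_lit 4)
theorem c41109 : QOK q41109 := cut [] trivial (nd (nat_lit 184) (nat_lit 0) (cs (lf (nat_lit 35) (nat_lit 161)) (nd (nat_lit 185) (nat_lit 0) (cs (lf (nat_lit 11) (nat_lit 182)) (nd (nat_lit 182) (nat_lit 0) (cs (lf (nat_lit 47) (nat_lit 160)) (lf (nat_lit 4) (nat_lit 182)))))))) q41109 (by decide +kernel)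
def q41118 : Q := Q.p (nat_lit 0x100000800002000008000040000000000000000000000000000000000) (nat_lit 0x400000000000000020000100000000000000000000000000000) (nat_lit 2)
theorem c41118 : QOK q41118 := cut [] trivial (nd (nat_lit 137) (nat_lit 0) (cs (lf (nat_lit 40) (nat_lit 136)) (lf (nat_lit 35) (nat_lit 115)))) q41118 (by decide +kernel)
def q41134 : Q := Q.p (nat_lit 0x1000006800002000000000000000000000000000000000000000000000) (nat_lit 0x2000001000001000000000000000000000000000000000000000000000) (nat_lit 2)
theorem c41134 : QOK q41134 := cut [] trivial (nd (nat_lit 204) (nat_lit 0) (cs (lf (nat_lit 23) (nat_lit 180)) (lf (nat_lit 5) (nat_lit 203)))) q41134 (by decide +kernel)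
def q41158 : Q := Q.p (nat_lit 0x6000058000000000000000000000000000000000000000000000) (nat_lit 0x10000a0000000000000000000000000000000000000000000000) (nat_lit 2)
theorem c41158 : QOK q41158 := cut [] trivial (nd (nat_lit 185) (nat_lit 0) (cs (lf (nat_lit 6) (nat_lit 183)) (lf (nat_lit 11) (nat_lit 182)))) q41158 (by decide +kernel)
def q41211 : Q := Q.p (nat_lit 0x10000020000080000200000800000000000000000000000000000000000000000000000000000000) (nat_lit 0x500000c000010000000000000000000000000000000000000000000000000000000000000000000000000) (nat_lit 3)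
theorem c41211 : QOK q41211 := cut [] trivial (nd (nat_lit 314) (nat_lit 0) (cs (nd (nat_lit 315) (nat_lit 0) (cs (lf (nat_lit 29) (nat_lit 249)) (lf (nat_lit 41) (nat_lit 248)))) (lf (nat_lit 40) (nat_lit 226)))) q41211 (by decide +kernel)
def q41223 : Q := Q.p (nat_lit 0x100000400001800002000000000000000000000000000000000000000000000000000) (nat_lit 0x200000000000000008000020000000000000000000000000000000000000000) (nat_lit 2)
theorem c41223 : QOK q41223 := cut [] trivial (nd (nat_lit 183) (nat_lit 0) (cs (lf (nat_lit 24) (nat_lit 161)) (lf (nat_lit 27) (nat_lit 183)))) q41223 (by decide +kernel)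
def q41232 : Q := Q.p (nat_lit 0x20000100000400001000008000000000000000000000000000000000000000000000000000) (nat_lit 0x80000000000000004000020000000000000000000000000000000000000000000000) (nat_lit 2)
theorem c41232 : QOK q41232 := cut [] trivial (nd (nat_lit 206) (nat_lit 0) (cs (lf (nat_lit 35) (nat_lit 184)) (lf (nat_lit 40) (nat_lit 205)))) q41232 (by decide +kernel)
def q41246 : Q := Q.p (nat_lit 0xf80000000000000000000000000000000000000000000000000000000) (nat_lit 0x70000000000000000000000000000000000000000000000000000000000000) (nat_lit 2)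
theorem c41246 : QOK q41246 := cut [] trivial (nd (nat_lit 245) (nat_lit 0) (cs (lf (nat_lit 11) (nat_lit 222)) (lf (nat_lit 10) (nat_lit 223)))) q41246 (by decide +kernel)
def q41254 : Q := Q.p (nat_lit 0x180000600001000000000000000000000000000000000000000000000000000) (nat_lit 0x20000000000000000000004000010000000000000000000000000000000000000000) (nat_lit 2)
theorem c41254 : QOK q41254 := cut [] trivial (nd (nat_lit 182) (nat_lit 0) (cs (lf (nat_lit 41) (nat_lit 181)) (lf (nat_lit 36) (nat_lit 159)))) q41254 (by decide +kernel)
def q41265 : Q := Q.p (nat_lit 0x180000600000800000000000000000000000000000000000000000000000000) (nat_lit 0x40000000000000000000002000008000000000000000000000000000000000000000) (nat_lit 2)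
theorem c41265 : QOK q41265 := cut [] trivial (nd (nat_lit 181) (nat_lit 0) (cs (lf (nat_lit 29) (nat_lit 181)) (lf (nat_lit 24) (nat_lit 159)))) q41265 (by decide +kernel)
def q41268 : Q := Q.p (nat_lit 0x40000100000600000800000000000000000000000000000000000000000000000000) (nat_lit 0x1000002000008000000000000000000000000000000000000000) (nat_lit 2)
theorem c41268 : QOK q41268 := cut [] trivial (nd (nat_lit 181) (nat_lit 0) (cs (lf (nat_lit 24) (nat_lit 159)) (lf (nat_lit 45) (nat_lit 181)))) q41268 (by decide +kernel)
def q41298 : Q := Q.p (nat_lit 0x1c00011000000000000000000000000000000000000000000000000000) (nat_lit 0x2000008800000000000000000000000000000000000000000000000000) (nat_lit 2)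
theorem c41298 : QOK q41298 := cut [] trivial (nd (nat_lit 229) (nat_lit 0) (cs (lf (nat_lit 23) (nat_lit 203)) (lf (nat_lit 16) (nat_lit 204)))) q41298 (by decide +kernel)
def q41305 : Q := Q.p (nat_lit 0x1c00001800000000000000000000000000000000000000000000000000) (nat_lit 0x2600000000000000000000000000000000000000000000000000) (nat_lit 2)
theorem c41305 : QOK q41305 := cut [] trivial (nd (nat_lit 202) (nat_lit 0) (cs (lf (nat_lit 0) (nat_lit 201)) (lf (nat_lit 3) (nat_lit 202)))) q41305 (by decide +kernel)
def q41315 : Q := Q.p (nat_lit 0x80000200000c00001000000000000000000000000000000000000000000000000000) (nat_lit 0x100000000000000004000010000000000000000000000000000000000000000) (nat_lit 2)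
theorem c41315 : QOK q41315 := cut [] trivial (nd (nat_lit 182) (nat_lit 0) (cs (lf (nat_lit 24) (nat_lit 160)) (lf (nat_lit 27) (nat_lit 182)))) q41315 (by decide +kernel)
def q41331 : Q := Q.p (nat_lit 0x200000c00001000000000000000000000000000000000000000000000000000) (nat_lit 0x20000080000000000000002000004000010000000000000000000000000000000000000000) (nat_lit 3)
theorem c41331 : QOK q41331 := cut [] trivial (nd (nat_lit 182) (nat_lit 0) (cs (lf (nat_lit 24) (nat_lit 160)) (nd (nat_lit 271) (nat_lit 0) (cs (lf (nat_lit 42) (nat_lit 204)) (lf (nat_lit 45) (nat_lit 182)))))) q41331 (by decide +kernel)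
def q41335 : Q := Q.p (nat_lit 0x400001e00000000000000000000000000000000000000000000000000000000) (nat_lit 0x2e0000100000000000000000000000000000000000000000000000000000000) (nat_lit 3)
theorem c41335 : QOK q41335 := cut [] trivial (nd (nat_lit 246) (nat_lit 0) (cs (lf (nat_lit 10) (nat_lit 224)) (nd (nat_lit 224) (nat_lit 0) (cs (lf (nat_lit 11) (nat_lit 223)) (lf (nat_lit 4) (nat_lit 224)))))) q41335 (by decide +kernel)
def q41379 : Q := Q.p (nat_lit 0x40000100000c00002000000000000000000000000000000000000000000000000000000000) (nat_lit 0x200000000000000008000020000000000000000000000000000000000000000000000) (nat_lit 2)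
theorem c41379 : QOK q41379 := cut [] trivial (nd (nat_lit 207) (nat_lit 0) (cs (lf (nat_lit 36) (nat_lit 184)) (lf (nat_lit 39) (nat_lit 206)))) q41379 (by decide +kernel)
def q41392 : Q := Q.p (nat_lit 0x40000000000800003000008000000000000000000000000000000000000000000000000000000000) (nat_lit 0x300000400000000000000000000000000000000000000000000000000000000000000000000) (nat_lit 2)
theorem c41392 : QOK q41392 := cut [] trivial (nd (nat_lit 296) (nat_lit 0) (cs (lf (nat_lit 39) (nat_lit 230)) (lf (nat_lit 32) (nat_lit 230)))) q41392 (by decide +kernel)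
def q41430 : Q := Q.p (nat_lit 0x400001800002000010000040000000000000000000000000000000000000000000000) (nat_lit 0x200000000000000008000020000000000000000000000000000000000000000000000) (nat_lit 2)
theorem c41430 : QOK q41430 := cut [] trivial (nd (nat_lit 207) (nat_lit 0) (cs (lf (nat_lit 30) (nat_lit 185)) (lf (nat_lit 24) (nat_lit 185)))) q41430 (by decide +kernel)
def q41503 : Q := Q.p (nat_lit 0x3c00000000018000040000000000000000000000000000000000000000000000) (nat_lit 0x1000004000038000000001b000000000000000000000000000000000000000000000000000000000) (nat_lit 5)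
theorem c41503 : QOK q41503 := cut [] trivial (nd (nat_lit 272) (nat_lit 0) (cs (lf (nat_lit 11) (nat_lit 249)) (nd (nat_lit 231) (nat_lit 0) (cs (lf (nat_lit 17) (nat_lit 228)) (nd (nat_lit 229) (nat_lit 0) (cs (lf (nat_lit 30) (nat_lit 185)) (nd (nat_lit 294) (nat_lit 0) (cs (lf (nat_lit 30) (nat_lit 228)) (lf (nat_lit 33) (nat_lit 206)))))))))) q41503 (by decide +kernel)
def q41511 : Q := Q.p (nat_lit 0x3c0000000001c000040000000000000000000000000000000000000000000000) (nat_lit 0x1c000030001960000300009e000000000000000000000000000000000000000000000) (nat_lit 9)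
theorem c41511 : QOK q41511 := cut [] trivial (nd (nat_lit 271) (nat_lit 0) (cs (lf (nat_lit 10) (nat_lit 249)) (nd (nat_lit 249) (nat_lit 0) (cs (lf (nat_lit 11) (nat_lit 248)) (nd (nat_lit 184) (nat_lit 0) (cs (lf (nat_lit 38) (nat_lit 183)) (nd (nat_lit 231) (nat_lit 0) (cs (lf (nat_lit 17) (nat_lit 228)) (nd (nat_lit 205) (nat_lit 0) (cs (lf (nat_lit 17) (nat_lit 183)) (nd (nat_lit 182) (nat_lit 0) (cs (lf (nat_lit 22) (nat_lit 182)) (nd (nat_lit 204) (nat_lit 0) (cs (lf (nat_lit 23) (nat_lit 181)) (nd (nat_lit 226) (nat_lit 0) (cs (lf (nat_lit 11) (nat_lit 203)) (lf (nat_lit 27) (nat_lit 182)))))))))))))))))) q41511 (by decide +kernel)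
def q41526 : Q := Q.p (nat_lit 0x20000080000200000800002000000000000000000000000000000000000000000000000000000000) (nat_lit 0x4000010000040000000000000000000000000000000000000000000000000000000000000000000000000) (nat_lit 2)
theorem c41526 : QOK q41526 := cut [] trivial (nd (nat_lit 316) (nat_lit 0) (cs (lf (nat_lit 41) (nat_lit 250)) (lf (nat_lit 40) (nat_lit 228)))) q41526 (by decide +kernel)
def q41535 : Q := Q.p (nat_lit 0x40000080000200000800001000000000000000000000000000000000000000000000000000000000000000) (nat_lit 0x10000020000000000000000400000000000000000000000000000000000000000000000000000000000000000000) (nat_lit 2)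
theorem c41535 : QOK q41535 := cut [] trivial (nd (nat_lit 341) (nat_lit 0) (cs (lf (nat_lit 29) (nat_lit 275)) (lf (nat_lit 46) (nat_lit 252)))) q41535 (by decide +kernel)
def q41543 : Q := Q.p (nat_lit 0x80000200000900001c00000000010000040000000000000000000000000000000000000000000000) (nat_lit 0x20000010000460000600000000002000008000000000000000000000000000000000000000000000000000) (nat_lit 5)
theorem c41543 : QOK q41543 := cut [] trivial (nd (nat_lit 274) (nat_lit 0) (cs (lf (nat_lit 42) (nat_lit 252)) (nd (nat_lit 273) (nat_lit 0) (cs (lf (nat_lit 5) (nat_lit 272)) (nd (nat_lit 294) (nat_lit 0) (cs (lf (nat_lit 11) (nat_lit 271)) (nd (nat_lit 229) (nat_lit 0) (cs (lf (nat_lit 30) (nat_lit 228)) (lf (nat_lit 33) (nat_lit 185)))))))))) q41543 (by decide +kernel)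
def q41640 : Q := Q.p (nat_lit 0x7000050000000000000000000000000000000000000000000000) (nat_lit 0x8000a0000000000000000000000000000000000000000000000) (nat_lit 2)
theorem c41640 : QOK q41640 := cut [] trivial (nd (nat_lit 185) (nat_lit 0) (cs (lf (nat_lit 12) (nat_lit 181)) (lf (nat_lit 6) (nat_lit 183)))) q41640 (by decide +kernel)
def q41680 : Q := Q.p (nat_lit 0xc0000000001c000050000000000000000000000000000000000000000000000) (nat_lit 0x200000000003000000000000000000000000000000000000000000000000000000000) (nat_lit 2)
theorem c41680 : QOK q41680 := cut [] trivial (nd (nat_lit 273) (nat_lit 0) (cs (lf (nat_lit 32) (nat_lit 185)) (lf (nat_lit 26) (nat_lit 184)))) q41680 (by decide +kernel)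
def q41729 : Q := Q.p (nat_lit 0x1c0000400000000000000000000000000000000000000000000000000000000000000000000000000) (nat_lit 0x220003800000000000000000000000000000000000000000000000000000000000000000000000000) (nat_lit 3)
theorem c41729 : QOK q41729 := cut [] trivial (nd (nat_lit 299) (nat_lit 0) (cs (lf (nat_lit 12) (nat_lit 295)) (nd (nat_lit 300) (nat_lit 0) (cs (lf (nat_lit 15) (nat_lit 296)) (lf (nat_lit 6) (nat_lit 297)))))) q41729 (by decide +kernel)
def q41745 : Q := Q.p (nat_lit 0x10000000000100000c00000000010000040000000000000000000000000000000000000000000000) (nat_lit 0x40000200000000002000008000020000000000000000000000000000000000000000000000) (nat_lit 3)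
theorem c41745 : QOK q41745 := cut [] trivial (nd (nat_lit 229) (nat_lit 0) (cs (nd (nat_lit 207) (nat_lit 0) (cs (lf (nat_lit 30) (nat_lit 185)) (lf (nat_lit 36) (nat_lit 184)))) (lf (nat_lit 31) (nat_lit 228)))) q41745 (by decide +kernel)
def q41746 : Q := Q.p (nat_lit 0xf8000000000000000000000000000000000000000000000000000000000000000000000000000000) (nat_lit 0x7000000000000000000000000000000000000000000000000000000000000000000000000000000000000) (nat_lit 2)
theorem c41746 : QOK q41746 := cut [] trivial (nd (nat_lit 337) (nat_lit 0) (cs (lf (nat_lit 11) (nat_lit 314)) (lf (nat_lit 10) (nat_lit 315)))) q41746 (by decide +kernel)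
def q41764 : Q := Q.p (nat_lit 0x1e0000000000000000000000000000000000000000000000000000000000000000000000000000000) (nat_lit 0x1c000200001c00000000000000000000000000000000000000000000000000000000000000000000000000) (nat_lit 4)
theorem c41764 : QOK q41764 := cut [] trivial (nd (nat_lit 299) (nat_lit 0) (cs (lf (nat_lit 16) (nat_lit 295)) (nd (nat_lit 339) (nat_lit 0) (cs (lf (nat_lit 11) (nat_lit 316)) (nd (nat_lit 321) (nat_lit 0) (cs (lf (nat_lit 17) (nat_lit 296)) (lf (nat_lit 10) (nat_lit 317)))))))) q41764 (by decide +kernel)
def q41768 : Q := Q.p (nat_lit 0x7c000000000000000000000000000000000000000000000000000000000000000000000000000000) (nat_lit 0x38000000000000000000000000000000000000000000000000000000000000000000000000000000000000) (nat_lit 2)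
theorem c41768 : QOK q41768 := cut [] trivial (nd (nat_lit 340) (nat_lit 0) (cs (lf (nat_lit 5) (nat_lit 315)) (lf (nat_lit 4) (nat_lit 314)))) q41768 (by decide +kernel)
def q41824 : Q := Q.p (nat_lit 0xf0000000000000000000000000000000000000000000000000000000000000000000000000000000) (nat_lit 0x100000ee0000000000000000000000000000000000000000000000000000000000000000000000000) (nat_lit 4)
theorem c41824 : QOK q41824 := cut [] trivial (nd (nat_lit 294) (nat_lit 0) (cs (lf (nat_lit 23) (nat_lit 293)) (nd (nat_lit 298) (nat_lit 0) (cs (lf (nat_lit 16) (nat_lit 294)) (nd (nat_lit 320) (nat_lit 0) (cs (lf (nat_lit 22) (nat_lit 294)) (lf (nat_lit 17) (nat_lit 295)))))))) q41824 (by decide +kernel)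
def q41847 : Q := Q.p (nat_lit 0x8000000000000003c00000000000000000000000000000000000000000000000000000000000000) (nat_lit 0x200001c0000300000e00000000000000000000000000000000000000000000000000000000) (nat_lit 5)
theorem c41847 : QOK q41847 := cut [] trivial (nd (nat_lit 271) (nat_lit 0) (cs (lf (nat_lit 10) (nat_lit 249)) (nd (nat_lit 249) (nat_lit 0) (cs (lf (nat_lit 11) (nat_lit 248)) (nd (nat_lit 226) (nat_lit 0) (cs (lf (nat_lit 22) (nat_lit 226)) (nd (nat_lit 248) (nat_lit 0) (cs (lf (nat_lit 23) (nat_lit 225)) (lf (nat_lit 43) (nat_lit 226)))))))))) q41847 (by decide +kernel)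
def q41849 : Q := Q.p (nat_lit 0x2000070000000000800002000000000000000000000000000000000000000000000000000000000000000) (nat_lit 0x14000080000600000000000000000000000000000000000000000000000000000000000000000000000000) (nat_lit 3)
theorem c41849 : QOK q41849 := cut [] trivial (nd (nat_lit 319) (nat_lit 0) (cs (lf (nat_lit 10) (nat_lit 315)) (nd (nat_lit 297) (nat_lit 0) (cs (lf (nat_lit 41) (nat_lit 252)) (lf (nat_lit 17) (nat_lit 294)))))) q41849 (by decide +kernel)
def q41868 : Q := Q.p (nat_lit 0x180000e0000000000000000000000000000000000000000000000000000000000000000000000000000000) (nat_lit 0x6000100000000000000000000000000000000000000000000000000000000000000000000000000000000) (nat_lit 2)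
theorem c41868 : QOK q41868 := cut [] trivial (nd (nat_lit 338) (nat_lit 0) (cs (lf (nat_lit 6) (nat_lit 316)) (lf (nat_lit 12) (nat_lit 315)))) q41868 (by decide +kernel)
def q41894 : Q := Q.p (nat_lit 0x50000000000000003c00000000000000000000000000000000000000000000000000000000000000) (nat_lit 0x400002c0000700019c0000200000c00000000000000000000000000000000000000000000000000000000) (nat_lit 8)
theorem c41894 : QOK q41894 := cut [] trivial (nd (nat_lit 271) (nat_lit 0) (cs (lf (nat_lit 10) (nat_lit 249)) (nd (nat_lit 275) (nat_lit 0) (cs (lf (nat_lit 5) (nat_lit 250)) (nd (nat_lit 249) (nat_lit 0) (cs (lf (nat_lit 11) (nat_lit 248)) (nd (nat_lit 227) (nat_lit 0) (cs (lf (nat_lit 23) (nat_lit 226)) (nd (nat_lit 293) (nat_lit 0) (cs (lf (nat_lit 28) (nat_lit 227)) (nd (nat_lit 292) (nat_lit 0) (cs (lf (nat_lit 41) (nat_lit 226)) (nd (nat_lit 315) (nat_lit 0) (cs (lf (nat_lit 29) (nat_lit 249)) (lf (nat_lit 19) (nat_lit 292)))))))))))))))) q41894 (by decide +kernel)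
def q41899 : Q := Q.p (nat_lit 0x60000100000000003000000000000000000000000000000000000000000000000000000000000000) (nat_lit 0x8000000000000000400000000008000000000000000000000000000000000000000000000000000000000) (nat_lit 2)
theorem c41899 : QOK q41899 := cut [] trivial (nd (nat_lit 274) (nat_lit 0) (cs (lf (nat_lit 35) (nat_lit 230)) (lf (nat_lit 41) (nat_lit 251)))) q41899 (by decide +kernel)
def q41943 : Q := Q.p (nat_lit 0xe0000500000000000000000000000000000000000000000000000000000000000000000000000000) (nat_lit 0x1c0000300000880000000000000000000000000000000000000000000000000000000000000000000000000) (nat_lit 4)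
theorem c41943 : QOK q41943 := cut [] trivial (nd (nat_lit 320) (nat_lit 0) (cs (lf (nat_lit 17) (nat_lit 295)) (nd (nat_lit 343) (nat_lit 0) (cs (lf (nat_lit 4) (nat_lit 317)) (nd (nat_lit 321) (nat_lit 0) (cs (lf (nat_lit 23) (nat_lit 295)) (lf (nat_lit 5) (nat_lit 318)))))))) q41943 (by decide +kernel)
def q41954 : Q := Q.p (nat_lit 0x3c0000080000000000000000000000000000000000000000000000000000000000000000000) (nat_lit 0x1c000020000040000000000000000000000000000000000000000000000000000000000000000000) (nat_lit 3)
theorem c41954 : QOK q41954 := cut [] trivial (nd (nat_lit 315) (nat_lit 0) (cs (lf (nat_lit 10) (nat_lit 293)) (nd (nat_lit 293) (nat_lit 0) (cs (lf (nat_lit 23) (nat_lit 270)) (lf (nat_lit 11) (nat_lit 292)))))) q41954 (by decide +kernel)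
def q41978 : Q := Q.p (nat_lit 0x400003e0000000000000000000000000000000000000000000000000000000000000000000000000) (nat_lit 0x30000c10000000000000000000000000000000000000000000000000000000000000000000000000) (nat_lit 3)
theorem c41978 : QOK q41978 := cut [] trivial (nd (nat_lit 317) (nat_lit 0) (cs (lf (nat_lit 0) (nat_lit 292)) (nd (nat_lit 298) (nat_lit 0) (cs (lf (nat_lit 11) (nat_lit 294)) (lf (nat_lit 6) (nat_lit 295)))))) q41978 (by decide +kernel)
def q41983 : Q := Q.p (nat_lit 0x1f0000000000000000000000000000000000000000000000000000000000000000000000000) (nat_lit 0xe0000000000000000000000000000000000000000000000000000000000000000000) (nat_lit 2)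
theorem c41983 : QOK q41983 := cut [] trivial (nd (nat_lit 270) (nat_lit 0) (cs (lf (nat_lit 23) (nat_lit 269)) (lf (nat_lit 22) (nat_lit 270)))) q41983 (by decide +kernel)
def q42029 : Q := Q.p (nat_lit 0x40000700000000000000000000000000000000000000000000000000000000000000000000000000) (nat_lit 0xea0001800006000000000000000000000000000000000000000000000000000000000000000000000) (nat_lit 5)
theorem c42029 : QOK q42029 := cut [] trivial (nd (nat_lit 299) (nat_lit 0) (cs (lf (nat_lit 11) (nat_lit 295)) (nd (nat_lit 277) (nat_lit 0) (cs (lf (nat_lit 17) (nat_lit 274)) (nd (nat_lit 322) (nat_lit 0) (cs (lf (nat_lit 4) (nat_lit 296)) (nd (nat_lit 300) (nat_lit 0) (cs (lf (nat_lit 10) (nat_lit 296)) (lf (nat_lit 5) (nat_lit 297)))))))))) q42029 (by decide +kernel)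
def q42041 : Q := Q.p (nat_lit 0x780000000000000000000000000000000000000000000000000000000000000000000000000) (nat_lit 0x380000040000380000000000000000000000000000000000000000000000000000000000000000000) (nat_lit 4)
theorem c42041 : QOK q42041 := cut [] trivial (nd (nat_lit 272) (nat_lit 0) (cs (lf (nat_lit 22) (nat_lit 272)) (nd (nat_lit 320) (nat_lit 0) (cs (lf (nat_lit 5) (nat_lit 295)) (nd (nat_lit 294) (nat_lit 0) (cs (lf (nat_lit 23) (nat_lit 271)) (lf (nat_lit 4) (nat_lit 294)))))))) q42041 (by decide +kernel)
def q42048 : Q := Q.p (nat_lit 0x40000100000400001000000000000000000000000000000000000000000000000000000000000000000000) (nat_lit 0xa0000380000a0000000000000000000000000000000000000000000000000000000000000000000000000000000000000) (nat_lit 4)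
theorem c42048 : QOK q42048 := cut [] trivial (nd (nat_lit 365) (nat_lit 0) (cs (nd (nat_lit 363) (nat_lit 0) (cs (nd (nat_lit 364) (nat_lit 0) (cs (lf (nat_lit 41) (nat_lit 297)) (lf (nat_lit 29) (nat_lit 298)))) (lf (nat_lit 40) (nat_lit 275)))) (lf (nat_lit 28) (nat_lit 276)))) q42048 (by decide +kernel)
def q42054 : Q := Q.p (nat_lit 0x8000040000100000600000000000000000000000000000000000000000000000000000000000000000000000000) (nat_lit 0x200000e000030000000000080000000000000000000000000000000000000000000000000000000000000000000000000000000) (nat_lit 4)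
theorem c42054 : QOK q42054 := cut [] trivial (nd (nat_lit 364) (nat_lit 0) (cs (lf (nat_lit 41) (nat_lit 297)) (nd (nat_lit 387) (nat_lit 0) (cs (nd (nat_lit 386) (nat_lit 0) (cs (lf (nat_lit 29) (nat_lit 320)) (lf (nat_lit 46) (nat_lit 297)))) (lf (nat_lit 28) (nat_lit 298)))))) q42054 (by decide +kernel)
def q42063 : Q := Q.p (nat_lit 0x40000140000780000000000000000000000000000000000000000000000000000000000000000000000000) (nat_lit 0x200000800000b0000000003000000000000000000000000000000000000000000000000000000000000000000000) (nat_lit 4)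
theorem c42063 : QOK q42063 := cut [] trivial (nd (nat_lit 276) (nat_lit 0) (cs (lf (nat_lit 17) (nat_lit 273)) (nd (nat_lit 343) (nat_lit 0) (cs (nd (nat_lit 317) (nat_lit 0) (cs (lf (nat_lit 11) (nat_lit 294)) (lf (nat_lit 2) (nat_lit 317)))) (lf (nat_lit 29) (nat_lit 276)))))) q42063 (by decide +kernel)
def q42066 : Q := Q.p (nat_lit 0x7000048000000000000000000000000000000000000000000000000000000000000000000000000000000000000) (nat_lit 0x8000030000000000000000000000000000000000000000000000000000000000000000000000000000000000000) (nat_lit 2)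
theorem c42066 : QOK q42066 := cut [] trivial (nd (nat_lit 341) (nat_lit 0) (cs (lf (nat_lit 15) (nat_lit 338)) (lf (nat_lit 8) (nat_lit 338)))) q42066 (by decide +kernel)
def q42082 : Q := Q.p (nat_lit 0x40000700000000000000000000000000000000000000000000000000000000000000000000000000) (nat_lit 0x1ca0007880007000000000000000000000000000000000000000000000000000000000000000000000) (nat_lit 7)
theorem c42082 : QOK q42082 := cut [] trivial (nd (nat_lit 299) (nat_lit 0) (cs (lf (nat_lit 11) (nat_lit 295)) (nd (nat_lit 277) (nat_lit 0) (cs (lf (nat_lit 17) (nat_lit 274)) (nd (nat_lit 276) (nat_lit 0) (cs (lf (nat_lit 12) (nat_lit 273)) (nd (nat_lit 300) (nat_lit 0) (cs (lf (nat_lit 10) (nat_lit 296)) (nd (nat_lit 323) (nat_lit 0) (cs (lf (nat_lit 4) (nat_lit 297)) (nd (nat_lit 301) (nat_lit 0) (cs (lf (nat_lit 5) (nat_lit 298)) (lf (nat_lit 18) (nat_lit 276)))))))))))))) q42082 (by decide +kernel)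
def q42086 : Q := Q.p (nat_lit 0x240000f00000000000000000000000000000000000000000000000000000000000000000000000000) (nat_lit 0x18000708001c000000000000000000000000000000000000000000000000000000000000000000000) (nat_lit 5)
theorem c42086 : QOK q42086 := cut [] trivial (nd (nat_lit 300) (nat_lit 0) (cs (lf (nat_lit 10) (nat_lit 296)) (nd (nat_lit 320) (nat_lit 0) (cs (lf (nat_lit 0) (nat_lit 295)) (nd (nat_lit 279) (nat_lit 0) (cs (lf (nat_lit 16) (nat_lit 275)) (nd (nat_lit 301) (nat_lit 0) (cs (lf (nat_lit 17) (nat_lit 276)) (lf (nat_lit 6) (nat_lit 298)))))))))) q42086 (by decide +kernel)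
def q42098 : Q := Q.p (nat_lit 0x40000100000400001000000000000000000000000000000000000000000000000000000000000000) (nat_lit 0xa0000380000a0000000000000000000000000000000000000000000000000000000000000000000000000000000) (nat_lit 4)
theorem c42098 : QOK q42098 := cut [] trivial (nd (nat_lit 341) (nat_lit 0) (cs (lf (nat_lit 28) (nat_lit 252)) (nd (nat_lit 339) (nat_lit 0) (cs (lf (nat_lit 40) (nat_lit 251)) (nd (nat_lit 340) (nat_lit 0) (cs (lf (nat_lit 41) (nat_lit 273)) (lf (nat_lit 29) (nat_lit 274)))))))) q42098 (by decide +kernel)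
def q42100 : Q := Q.p (nat_lit 0x10000040000100000400001000000000000000000000000000000000000000000000000000000000000000) (nat_lit 0x2000008000020000000000000000000000000000000000000000000000000000000000000000000000000000000) (nat_lit 2)
theorem c42100 : QOK q42100 := cut [] trivial (nd (nat_lit 339) (nat_lit 0) (cs (lf (nat_lit 41) (nat_lit 273)) (lf (nat_lit 40) (nat_lit 251)))) q42100 (by decide +kernel)
def q42102 : Q := Q.p (nat_lit 0x10000040000100000400001000000000000000000000000000000000000000000000000000000000000000) (nat_lit 0x8000020000080000000000000000000000000000000000000000000000000000000000000000000000000000000) (nat_lit 2)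
theorem c42102 : QOK q42102 := cut [] trivial (nd (nat_lit 341) (nat_lit 0) (cs (lf (nat_lit 29) (nat_lit 274)) (lf (nat_lit 28) (nat_lit 252)))) q42102 (by decide +kernel)
def q42115 : Q := Q.p (nat_lit 0x100001c0000300000000000000000000000000000000000000000000000000000000000000000000000000) (nat_lit 0x8000600000000000000000000000000000000000000000000000000000000000000000000000000000000) (nat_lit 2)
theorem c42115 : QOK q42115 := cut [] trivial (nd (nat_lit 321) (nat_lit 0) (cs (lf (nat_lit 18) (nat_lit 296)) (lf (nat_lit 11) (nat_lit 317)))) q42115 (by decide +kernel)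
def q42151 : Q := Q.p (nat_lit 0x4000010000040000100000000000000000000000000000000000000000000000000000000000000000000000000) (nat_lit 0x280000a000028000000000000000400000000000000000000000000000000000000000000000000000000000000000000) (nat_lit 4)
theorem c42151 : QOK q42151 := cut [] trivial (nd (nat_lit 363) (nat_lit 0) (cs (lf (nat_lit 29) (nat_lit 296)) (nd (nat_lit 274) (nat_lit 0) (cs (nd (nat_lit 361) (nat_lit 0) (cs (lf (nat_lit 41) (nat_lit 295)) (lf (nat_lit 40) (nat_lit 273)))) (lf (nat_lit 28) (nat_lit 274)))))) q42151 (by decide +kernel)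
def q42155 : Q := Q.p (nat_lit 0x4000010000060000100000000000000000000000000000000000000000000000000000000000000000000000000) (nat_lit 0x1000000000000000000000080000200000000000000000000000000000000000000000000000000000000000000000000) (nat_lit 2)
theorem c42155 : QOK q42155 := cut [] trivial (nd (nat_lit 295) (nat_lit 0) (cs (lf (nat_lit 42) (nat_lit 295)) (lf (nat_lit 47) (nat_lit 273)))) q42155 (by decide +kernel)
def q42162 : Q := Q.p (nat_lit 0x40000100000400003000000000000000000000000000000000000000000000000000000000000000) (nat_lit 0x8000030000080000000000800000000000000000000000000000000000000000000000000000000000000000000) (nat_lit 3)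
theorem c42162 : QOK q42162 := cut [] trivial (nd (nat_lit 341) (nat_lit 0) (cs (lf (nat_lit 28) (nat_lit 252)) (nd (nat_lit 340) (nat_lit 0) (cs (lf (nat_lit 34) (nat_lit 252)) (lf (nat_lit 29) (nat_lit 274)))))) q42162 (by decide +kernel)
def q42165 : Q := Q.p (nat_lit 0x40000100000400003000000000000000000000000000000000000000000000000000000000000000) (nat_lit 0x2000018000020000000000800000000000000000000000000000000000000000000000000000000000000000000) (nat_lit 3)
theorem c42165 : QOK q42165 := cut [] trivial (nd (nat_lit 339) (nat_lit 0) (cs (lf (nat_lit 40) (nat_lit 251)) (nd (nat_lit 340) (nat_lit 0) (cs (lf (nat_lit 34) (nat_lit 252)) (lf (nat_lit 41) (nat_lit 273)))))) q42165 (by decide +kernel)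
def q42168 : Q := Q.p (nat_lit 0x1c0000180000400001000000000000000000000000000000000000000000000000000000000000000) (nat_lit 0x8000020000040000000000000000000000000000000000000000000000000000000000000000000000000) (nat_lit 2)
theorem c42168 : QOK q42168 := cut [] trivial (nd (nat_lit 317) (nat_lit 0) (cs (lf (nat_lit 23) (nat_lit 294)) (lf (nat_lit 41) (nat_lit 251)))) q42168 (by decide +kernel)
def q42170 : Q := Q.p (nat_lit 0x1c0000180000000000000000000000000000000000000000000000000000000000000000000000000) (nat_lit 0x260000000000000000000000000000000000000000000000000000000000000000000000000) (nat_lit 2)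
theorem c42170 : QOK q42170 := cut [] trivial (nd (nat_lit 294) (nat_lit 0) (cs (lf (nat_lit 3) (nat_lit 294)) (lf (nat_lit 0) (nat_lit 293)))) q42170 (by decide +kernel)
def q42175 : Q := Q.p (nat_lit 0x1e0000000000000002000000000000000000000000000000000000000000000000000000000000000) (nat_lit 0xc0000010000e00000800000000000000000000000000000000000000000000000000000000000000000000) (nat_lit 4)
theorem c42175 : QOK q42175 := cut [] trivial (nd (nat_lit 298) (nat_lit 0) (cs (lf (nat_lit 17) (nat_lit 295)) (nd (nat_lit 297) (nat_lit 0) (cs (lf (nat_lit 12) (nat_lit 294)) (nd (nat_lit 342) (nat_lit 0) (cs (lf (nat_lit 5) (nat_lit 317)) (lf (nat_lit 25) (nat_lit 253)))))))) q42175 (by decide +kernel)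
def q42184 : Q := Q.p (nat_lit 0x40000000000f00003000000000000000000000000000000000000000000000000000000000000000) (nat_lit 0x600001a00006e0001000000000000000000000000000000000000000000000000000000000000000000000) (nat_lit 6)
theorem c42184 : QOK q42184 := cut [] trivial (nd (nat_lit 297) (nat_lit 0) (cs (lf (nat_lit 5) (nat_lit 272)) (nd (nat_lit 319) (nat_lit 0) (cs (lf (nat_lit 42) (nat_lit 252)) (nd (nat_lit 320) (nat_lit 0) (cs (lf (nat_lit 29) (nat_lit 253)) (nd (nat_lit 294) (nat_lit 0) (cs (lf (nat_lit 11) (nat_lit 271)) (nd (nat_lit 295) (nat_lit 0) (cs (lf (nat_lit 21) (nat_lit 294)) (lf (nat_lit 6) (nat_lit 272)))))))))))) q42184 (by decide +kernel)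
def q42199 : Q := Q.p (nat_lit 0x3e0000000000000000000000000000000000000000000000000000000000000000000000000000000) (nat_lit 0x1c0000000000000000000000000000000000000000000000000000000000000000000000000) (nat_lit 2)
theorem c42199 : QOK q42199 := cut [] trivial (nd (nat_lit 295) (nat_lit 0) (cs (lf (nat_lit 23) (nat_lit 294)) (lf (nat_lit 22) (nat_lit 295)))) q42199 (by decide +kernel)
def q42203 : Q := Q.p (nat_lit 0x1f0000040000000000400000000000000000000000000000000000000000000000000000000000000) (nat_lit 0xc000000000000000100000000000000000000000000000000000000000000000000000000000000000000) (nat_lit 2)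
theorem c42203 : QOK q42203 := cut [] trivial (nd (nat_lit 339) (nat_lit 0) (cs (lf (nat_lit 11) (nat_lit 316)) (lf (nat_lit 25) (nat_lit 250)))) q42203 (by decide +kernel)
def q42220 : Q := Q.p (nat_lit 0x1c000030000000000000000000000000000000000000000000000000000000000000000000000000000000000000) (nat_lit 0x2000000c000000000000000000000000000000000000000000000000000000000000000000000000000000000000) (nat_lit 2)
theorem c42220 : QOK q42220 := cut [] trivial (nd (nat_lit 339) (nat_lit 0) (cs (lf (nat_lit 0) (nat_lit 338)) (lf (nat_lit 18) (nat_lit 339)))) q42220 (by decide +kernel)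
def q42231 : Q := Q.p (nat_lit 0x1c0000100000c0000000000000000000000000000000000000000000000000000000000000000000000000000000) (nat_lit 0x2200000e000000000000000000000000000000000000000000000000000000000000000000000000000000000000) (nat_lit 3)
theorem c42231 : QOK q42231 := cut [] trivial (nd (nat_lit 339) (nat_lit 0) (cs (lf (nat_lit 18) (nat_lit 339)) (nd (nat_lit 338) (nat_lit 0) (cs (lf (nat_lit 12) (nat_lit 315)) (lf (nat_lit 21) (nat_lit 338)))))) q42231 (by decide +kernel)
def q42245 : Q := Q.p (nat_lit 0x10000040000100003400000000000000000000000000000000000000000000000000000000000000) (nat_lit 0x80000800002000000000000000000000000000000000000000000000000000000000) (nat_lit 2)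
theorem c42245 : QOK q42245 := cut [] trivial (nd (nat_lit 251) (nat_lit 0) (cs (lf (nat_lit 11) (nat_lit 249)) (lf (nat_lit 35) (nat_lit 228)))) q42245 (by decide +kernel)
def q42282 : Q := Q.p (nat_lit 0x40000100000c0000300000000000000000000000000000000000000000000000000000000000000000000000000) (nat_lit 0x1000000e0000200000000000000000000000000000000000000000000000000000000000000000000) (nat_lit 3)
theorem c42282 : QOK q42282 := cut [] trivial (nd (nat_lit 295) (nat_lit 0) (cs (lf (nat_lit 47) (nat_lit 273)) (nd (nat_lit 294) (nat_lit 0) (cs (lf (nat_lit 5) (nat_lit 294)) (lf (nat_lit 0) (nat_lit 293)))))) q42282 (by decide +kernel)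
def q42296 : Q := Q.p (nat_lit 0xc0000300000c0000200000000000000000000000000000000000000000000000000000000000000000000000000) (nat_lit 0x1c0000720001c0000020000400001000000000000000000000000000000000000000000000000000000000000000000000) (nat_lit 7)
theorem c42296 : QOK q42296 := cut [] trivial (nd (nat_lit 364) (nat_lit 0) (cs (lf (nat_lit 29) (nat_lit 297)) (nd (nat_lit 365) (nat_lit 0) (cs (lf (nat_lit 18) (nat_lit 340)) (nd (nat_lit 276) (nat_lit 0) (cs (lf (nat_lit 34) (nat_lit 275)) (nd (nat_lit 387) (nat_lit 0) (cs (lf (nat_lit 5) (nat_lit 362)) (nd (nat_lit 343) (nat_lit 0) (cs (lf (nat_lit 17) (nat_lit 340)) (nd (nat_lit 342) (nat_lit 0) (cs (lf (nat_lit 23) (nat_lit 317)) (lf (nat_lit 12) (nat_lit 339)))))))))))))) q42296 (by decide +kernel)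
def q42297 : Q := Q.p (nat_lit 0x2000008000020000080000200000000000000000000000000000000000000000000000000000000000000000000000000) (nat_lit 0x1000004000010000000000000000000000000000000000000000000000000000000000000000000000000000000000000000000) (nat_lit 2)
theorem c42297 : QOK q42297 := cut [] trivial (nd (nat_lit 386) (nat_lit 0) (cs (lf (nat_lit 29) (nat_lit 319)) (lf (nat_lit 28) (nat_lit 297)))) q42297 (by decide +kernel)
def q42307 : Q := Q.p (nat_lit 0xc0000300000c0000200000000000000000000000000000000000000000000000000000000000000000000000000) (nat_lit 0x40000720001c0000700001800006000000000000000000000000000000000000000000000000000000000000000000000) (nat_lit 8)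
theorem c42307 : QOK q42307 := cut [] trivial (nd (nat_lit 364) (nat_lit 0) (cs (lf (nat_lit 29) (nat_lit 297)) (nd (nat_lit 365) (nat_lit 0) (cs (lf (nat_lit 18) (nat_lit 340)) (nd (nat_lit 343) (nat_lit 0) (cs (lf (nat_lit 17) (nat_lit 340)) (nd (nat_lit 342) (nat_lit 0) (cs (lf (nat_lit 12) (nat_lit 339)) (nd (nat_lit 321) (nat_lit 0) (cs (lf (nat_lit 17) (nat_lit 318)) (nd (nat_lit 299) (nat_lit 0) (cs (lf (nat_lit 36) (nat_lit 276)) (nd (nat_lit 300) (nat_lit 0) (cs (lf (nat_lit 35) (nat_lit 277)) (lf (nat_lit 14) (nat_lit 296)))))))))))))))) q42307 (by decide +kernel)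
def q42322 : Q := Q.p (nat_lit 0x180001c0000000000000000000000000000000000000000000000000000000000000000000000000000000) (nat_lit 0x6000020000000000000000000000000000000000000000000000000000000000000000000000000000000) (nat_lit 2)
theorem c42322 : QOK q42322 := cut [] trivial (nd (nat_lit 338) (nat_lit 0) (cs (lf (nat_lit 12) (nat_lit 315)) (lf (nat_lit 9) (nat_lit 316)))) q42322 (by decide +kernel)
def q42336 : Q := Q.p (nat_lit 0x60000100000400000000002000000000000000000000000000000000000000000000000000000000000000) (nat_lit 0x8000000000000000000001800000000000000000000000000000000000000000000000000000000000000000000) (nat_lit 2)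
theorem c42336 : QOK q42336 := cut [] trivial (nd (nat_lit 276) (nat_lit 0) (cs (lf (nat_lit 41) (nat_lit 275)) (lf (nat_lit 46) (nat_lit 253)))) q42336 (by decide +kernel)
def q42345 : Q := Q.p (nat_lit 0x180000c0000000000000000000000000000000000000000000000000000000000000000000000000000000) (nat_lit 0x26000300000000000000000000000000000000000000000000000000000000000000000000000000000000) (nat_lit 3)
theorem c42345 : QOK q42345 := cut [] trivial (nd (nat_lit 320) (nat_lit 0) (cs (lf (nat_lit 6) (nat_lit 317)) (nd (nat_lit 338) (nat_lit 0) (cs (lf (nat_lit 15) (nat_lit 316)) (lf (nat_lit 12) (nat_lit 315)))))) q42345 (by decide +kernel)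
def q42347 : Q := Q.p (nat_lit 0x3c0000c0000000000000000000000000000000000000000000000000000000000000000000000000000000) (nat_lit 0x800002000018000000000000000100000000000000000000000000000000000000000000000000000000000000000000000000) (nat_lit 3)
theorem c42347 : QOK q42347 := cut [] trivial (nd (nat_lit 363) (nat_lit 0) (cs (lf (nat_lit 5) (nat_lit 338)) (nd (nat_lit 385) (nat_lit 0) (cs (lf (nat_lit 47) (nat_lit 296)) (lf (nat_lit 42) (nat_lit 318)))))) q42347 (by decide +kernel)
def q42348 : Q := Q.p (nat_lit 0x80000f0000000000000000400000000000000000000000000000000000000000000000000000000000000) (nat_lit 0x60000100000000000000000000000000000000000000000000000000000000000000000000) (nat_lit 2)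
theorem c42348 : QOK q42348 := cut [] trivial (nd (nat_lit 294) (nat_lit 0) (cs (lf (nat_lit 23) (nat_lit 293)) (lf (nat_lit 25) (nat_lit 250)))) q42348 (by decide +kernel)
def q42357 : Q := Q.p (nat_lit 0x180001e0000000000000000400000000000000000000000000000000000000000000000000000000000000) (nat_lit 0x40000000000000000c0000300000000000000000000000000000000000000000000000000000000000000000000) (nat_lit 3)
theorem c42357 : QOK q42357 := cut [] trivial (nd (nat_lit 295) (nat_lit 0) (cs (lf (nat_lit 23) (nat_lit 294)) (nd (nat_lit 273) (nat_lit 0) (cs (lf (nat_lit 29) (nat_lit 273)) (lf (nat_lit 46) (nat_lit 250)))))) q42357 (by decide +kernel)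
def q42358 : Q := Q.p (nat_lit 0x1f0000000000000000000000000000000000000000000000000000000000000000000000000000000) (nat_lit 0xe00000000000000000000000000000000000000000000000000000000000000000000000000) (nat_lit 2)
theorem c42358 : QOK q42358 := cut [] trivial (nd (nat_lit 298) (nat_lit 0) (cs (lf (nat_lit 17) (nat_lit 295)) (lf (nat_lit 16) (nat_lit 294)))) q42358 (by decide +kernel)
def q42373 : Q := Q.p (nat_lit 0x10000040000000000000003c00000000000000000000000000000000000000000000000000000000000000) (nat_lit 0x80000300001800000000018000000000000000000000000000000000000000000000000000000000) (nat_lit 4)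
theorem c42373 : QOK q42373 := cut [] trivial (nd (nat_lit 231) (nat_lit 0) (cs (lf (nat_lit 17) (nat_lit 228)) (nd (nat_lit 275) (nat_lit 0) (cs (lf (nat_lit 5) (nat_lit 250)) (nd (nat_lit 297) (nat_lit 0) (cs (lf (nat_lit 40) (nat_lit 230)) (lf (nat_lit 39) (nat_lit 252)))))))) q42373 (by decide +kernel)
def q42380 : Q := Q.p (nat_lit 0x40000100000000001e00000000010000040000000000000000000000000000000000000000000000) (nat_lit 0x2000088000370000180002e00008000000000000000000000000000000000000000000000000000) (nat_lit 8)
theorem c42380 : QOK q42380 := cut [] trivial (nd (nat_lit 226) (nat_lit 0) (cs (lf (nat_lit 22) (nat_lit 226)) (nd (nat_lit 248) (nat_lit 0) (cs (lf (nat_lit 23) (nat_lit 225)) (nd (nat_lit 269) (nat_lit 0) (cs (lf (nat_lit 10) (nat_lit 247)) (nd (nat_lit 247) (nat_lit 0) (cs (lf (nat_lit 11) (nat_lit 246)) (nd (nat_lit 291) (nat_lit 0) (cs (lf (nat_lit 30) (nat_lit 225)) (nd (nat_lit 273) (nat_lit 0) (cs (lf (nat_lit 4) (nat_lit 247)) (nd (nat_lit 229) (nat_lit 0) (cs (lf (nat_lit 33) (nat_lit 185)) (lf (nat_lit 27) (nat_lit 229))))))))))))))))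 q42380 (by decide +kernel)
def q42389 : Q := Q.p (nat_lit 0x10000040000000000100003e00000000010000040000000000000000000000000000000000000000000000) (nat_lit 0x2000018000020000018001ae00008000000000000000000000000000000000000000000000000000) (nat_lit 7)
theorem c42389 : QOK q42389 := cut [] trivial (nd (nat_lit 226) (nat_lit 0) (cs (lf (nat_lit 22) (nat_lit 226)) (nd (nat_lit 248) (nat_lit 0) (cs (lf (nat_lit 23) (nat_lit 225)) (nd (nat_lit 231) (nat_lit 0) (cs (lf (nat_lit 17) (nat_lit 228)) (nd (nat_lit 273) (nat_lit 0) (cs (lf (nat_lit 0) (nat_lit 247)) (nd (nat_lit 229) (nat_lit 0) (cs (lf (nat_lit 33) (nat_lit 185)) (nd (nat_lit 295) (nat_lit 0) (cs (lf (nat_lit 28) (nat_lit 229)) (lf (nat_lit 27) (nat_lit 251)))))))))))))) q42389 (by decide +kernel)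
def q42394 : Q := Q.p (nat_lit 0x10000078000000000000000000000000000000000000000000000000000000000000000000000000000000) (nat_lit 0xb800004000000000000000000000000000000000000000000000000000000000000000000000000000000) (nat_lit 3)
theorem c42394 : QOK q42394 := cut [] trivial (nd (nat_lit 336) (nat_lit 0) (cs (lf (nat_lit 10) (nat_lit 314)) (nd (nat_lit 314) (nat_lit 0) (cs (lf (nat_lit 11) (nat_lit 313)) (lf (nat_lit 4) (nat_lit 314)))))) q42394 (by decide +kernel)
def q42411 : Q := Q.p (nat_lit 0x1000007c000000000000000800000000000000000000000000000000000000000000000000000000000000) (nat_lit 0x180000200000000000000000000000000000000000000000000000000000000000000000000) (nat_lit 2)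
theorem c42411 : QOK q42411 := cut [] trivial (nd (nat_lit 295) (nat_lit 0) (cs (lf (nat_lit 17) (nat_lit 292)) (lf (nat_lit 25) (nat_lit 251)))) q42411 (by decide +kernel)
def q42440 : Q := Q.p (nat_lit 0x100000f0000000000000000800000000000000000000000000000000000000000000000000000000000000) (nat_lit 0x1000000e0000200000000000000000000000000000000000000000000000000000000000000000000) (nat_lit 3)
theorem c42440 : QOK q42440 := cut [] trivial (nd (nat_lit 294) (nat_lit 0) (cs (lf (nat_lit 23) (nat_lit 293)) (nd (nat_lit 295) (nat_lit 0) (cs (lf (nat_lit 18) (nat_lit 294)) (lf (nat_lit 25) (nat_lit 251)))))) q42440 (by decide +kernel)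
def q42463 : Q := Q.p (nat_lit 0x1000004000010000040000000000000000000000000000000000000000000000000000000000000000000000000000000) (nat_lit 0x800002000008000000000020000180000200000000000000000000000000000000000000000000000000000000000000000000) (nat_lit 4)
theorem c42463 : QOK q42463 := cut [] trivial (nd (nat_lit 295) (nat_lit 0) (cs (lf (nat_lit 46) (nat_lit 295)) (nd (nat_lit 385) (nat_lit 0) (cs (lf (nat_lit 29) (nat_lit 318)) (nd (nat_lit 296) (nat_lit 0) (cs (lf (nat_lit 47) (nat_lit 273)) (lf (nat_lit 28) (nat_lit 296)))))))) q42463 (by decide +kernel)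
def q42466 : Q := Q.p (nat_lit 0x1000004000010000040000000000000000000000000000000000000000000000000000000000000000000000000000000) (nat_lit 0x200000800002000000000020000180000200000000000000000000000000000000000000000000000000000000000000000000) (nat_lit 4)
theorem c42466 : QOK q42466 := cut [] trivial (nd (nat_lit 295) (nat_lit 0) (cs (lf (nat_lit 46) (nat_lit 295)) (nd (nat_lit 383) (nat_lit 0) (cs (lf (nat_lit 41) (nat_lit 317)) (nd (nat_lit 296) (nat_lit 0) (cs (lf (nat_lit 47) (nat_lit 273)) (lf (nat_lit 40) (nat_lit 295)))))))) q42466 (by decide +kernel)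
def q42467 : Q := Q.p (nat_lit 0x1000004000010000040000100000000000000000000000000000000000000000000000000000000000000000000000000) (nat_lit 0x800002000008000000000000000000000000000000000000000000000000000000000000000000000000000000000000000000) (nat_lit 2)
theorem c42467 : QOK q42467 := cut [] trivial (nd (nat_lit 385) (nat_lit 0) (cs (lf (nat_lit 29) (nat_lit 318)) (lf (nat_lit 28) (nat_lit 296)))) q42467 (by decide +kernel)
def q42472 : Q := Q.p (nat_lit 0x200000c000010000040000000000000000000000000000000000000000000000000000000000000000000000000000000) (nat_lit 0x200000800000000000000020000000000000000000000000000000000000000000000000000000000000000000000000000000000000) (nat_lit 2)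
theorem c42472 : QOK q42472 := cut [] trivial (nd (nat_lit 407) (nat_lit 0) (cs (lf (nat_lit 42) (nat_lit 340)) (lf (nat_lit 45) (nat_lit 318)))) q42472 (by decide +kernel)
def q42480 : Q := Q.p (nat_lit 0xf000000000000000000000000000000000000000000000000000000000000000000000000000000000000000000) (nat_lit 0x700000800007000000000000000000000000000000000000000000000000000000000000000000000000000000000000) (nat_lit 4)
theorem c42480 : QOK q42480 := cut [] trivial (nd (nat_lit 381) (nat_lit 0) (cs (nd (nat_lit 359) (nat_lit 0) (cs (nd (nat_lit 337) (nat_lit 0) (cs (lf (nat_lit 23) (nat_lit 336)) (lf (nat_lit 22) (nat_lit 337)))) (lf (nat_lit 11) (nat_lit 358)))) (lf (nat_lit 10) (nat_lit 359)))) q42480 (by decide +kernel)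
def q42486 : Q := Q.p (nat_lit 0x1e000010000000000000000000000000000000000000000000000000000000000000000000000000000000000000) (nat_lit 0x2000000c000000000000000000000000000000000000000000000000000000000000000000000000000000000000) (nat_lit 2)
theorem c42486 : QOK q42486 := cut [] trivial (nd (nat_lit 339) (nat_lit 0) (cs (lf (nat_lit 18) (nat_lit 339)) (lf (nat_lit 23) (nat_lit 338)))) q42486 (by decide +kernel)
def q42491 : Q := Q.p (nat_lit 0x800006000010000040000000000000000000000000000000000000000000000000000000000000000000000000000000) (nat_lit 0x80000200000000000000008000000000000000000000000000000000000000000000000000000000000000000000000000000000000) (nat_lit 2)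
theorem c42491 : QOK q42491 := cut [] trivial (nd (nat_lit 405) (nat_lit 0) (cs (lf (nat_lit 30) (nat_lit 339)) (lf (nat_lit 33) (nat_lit 317)))) q42491 (by decide +kernel)
def q42495 : Q := Q.p (nat_lit 0x3e000000000000000000000000000000000000000000000000000000000000000000000000000000000000000000) (nat_lit 0x1c000000000000000000000000000000000000000000000000000000000000000000000000000000000000000000000000) (nat_lit 2)
theorem c42495 : QOK q42495 := cut [] trivial (nd (nat_lit 387) (nat_lit 0) (cs (lf (nat_lit 5) (nat_lit 362)) (lf (nat_lit 4) (nat_lit 361)))) q42495 (by decide +kernel)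
def q42508 : Q := Q.p (nat_lit 0xf000010000000000000000000000000000000000000000000000000000000000000000000000000000000000000) (nat_lit 0x1c6000300000e8000000000000000000000000000000000000000000000000000000000000000000000000000000000000) (nat_lit 6)
theorem c42508 : QOK q42508 := cut [] trivial (nd (nat_lit 342) (nat_lit 0) (cs (nd (nat_lit 381) (nat_lit 0) (cs (lf (nat_lit 10) (nat_lit 359)) (nd (nat_lit 364) (nat_lit 0) (cs (lf (nat_lit 17) (nat_lit 339)) (nd (nat_lit 387) (nat_lit 0) (cs (lf (nat_lit 4) (nat_lit 361)) (nd (nat_lit 365) (nat_lit 0) (cs (lf (nat_lit 23) (nat_lit 339)) (lf (nat_lit 5) (nat_lit 362)))))))))) (lf (nat_lit 16) (nat_lit 338)))) q42508 (by decide +kernel)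
def q42511 : Q := Q.p (nat_lit 0xf000010000000000000000000000000000000000000000000000000000000000000000000000000000000000000) (nat_lit 0x800060000000000000000000000000000000000000000000000000000000000000000000000000000000000000) (nat_lit 2)
theorem c42511 : QOK q42511 := cut [] trivial (nd (nat_lit 341) (nat_lit 0) (cs (lf (nat_lit 12) (nat_lit 337)) (lf (nat_lit 17) (nat_lit 338)))) q42511 (by decide +kernel)
def q42514 : Q := Q.p (nat_lit 0x1c000018000000000000000000000000000000000000000000000000000000000000000000000000000000000000) (nat_lit 0x2000006000000000000000000000000000000000000000000000000000000000000000000000000000000000000) (nat_lit 2)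
theorem c42514 : QOK q42514 := cut [] trivial (nd (nat_lit 338) (nat_lit 0) (cs (lf (nat_lit 0) (nat_lit 337)) (lf (nat_lit 21) (nat_lit 338)))) q42514 (by decide +kernel)
def q42516 : Q := Q.p (nat_lit 0x1e000018000040000000000000000000000000000000000000000000000000000000000000000000000000000000) (nat_lit 0x200000c00000000000000000000000000000000000000000000000000000000000000000000000000000000000000000000000) (nat_lit 2)
theorem c42516 : QOK q42516 := cut [] trivial (nd (nat_lit 383) (nat_lit 0) (cs (lf (nat_lit 30) (nat_lit 317)) (lf (nat_lit 11) (nat_lit 360)))) q42516 (by decide +kernel)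
def q42518 : Q := Q.p (nat_lit 0x1f000000000000000000000000000000000000000000000000000000000000000000000000000000000000000000) (nat_lit 0xe0000000000000000000000000000000000000000000000000000000000000000000000000000000000000) (nat_lit 2)
theorem c42518 : QOK q42518 := cut [] trivial (nd (nat_lit 342) (nat_lit 0) (cs (lf (nat_lit 17) (nat_lit 339)) (lf (nat_lit 16) (nat_lit 338)))) q42518 (by decide +kernel)
def q42525 : Q := Q.p (nat_lit 0x3c000000000000000000000000000000000000000000000000000000000000000000000000000000000000000000) (nat_lit 0x1c0000020001c0000000000000000000000000000000000000000000000000000000000000000000000000000000000000) (nat_lit 4)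
theorem c42525 : QOK q42525 := cut [] trivial (nd (nat_lit 387) (nat_lit 0) (cs (lf (nat_lit 5) (nat_lit 362)) (nd (nat_lit 361) (nat_lit 0) (cs (lf (nat_lit 4) (nat_lit 361)) (nd (nat_lit 343) (nat_lit 0) (cs (lf (nat_lit 17) (nat_lit 340)) (lf (nat_lit 16) (nat_lit 339)))))))) q42525 (by decide +kernel)
def q42533 : Q := Q.p (nat_lit 0x3c000010000040000000000000000000000000000000000000000000000000000000000000000000000000000000) (nat_lit 0x420001e0000020000000000000000000000000000000000000000000000000000000000000000000000000000000) (nat_lit 4)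
theorem c42533 : QOK q42533 := cut [] trivial (nd (nat_lit 343) (nat_lit 0) (cs (lf (nat_lit 17) (nat_lit 340)) (nd (nat_lit 342) (nat_lit 0) (cs (lf (nat_lit 12) (nat_lit 339)) (nd (nat_lit 341) (nat_lit 0) (cs (lf (nat_lit 5) (nat_lit 340)) (lf (nat_lit 23) (nat_lit 317)))))))) q42533 (by decide +kernel)
def q42539 : Q := Q.p (nat_lit 0x3c000010000040000000000000000000000000000000000000000000000000000000000000000000000000000000) (nat_lit 0x80001ee00043800020000000000000000000000000000000000000000000000000000000000000000000000000000000000000) (nat_lit 7)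
theorem c42539 : QOK q42539 := cut [] trivial (nd (nat_lit 341) (nat_lit 0) (cs (lf (nat_lit 18) (nat_lit 340)) (nd (nat_lit 385) (nat_lit 0) (cs (lf (nat_lit 42) (nat_lit 318)) (nd (nat_lit 387) (nat_lit 0) (cs (lf (nat_lit 5) (nat_lit 362)) (nd (nat_lit 361) (nat_lit 0) (cs (lf (nat_lit 4) (nat_lit 361)) (nd (nat_lit 382) (nat_lit 0) (cs (lf (nat_lit 10) (nat_lit 360)) (nd (nat_lit 360) (nat_lit 0) (cs (lf (nat_lit 11) (nat_lit 359)) (lf (nat_lit 12) (nat_lit 337)))))))))))))) q42539 (by decide +kernel)
def q42551 : Q := Q.p (nat_lit 0x1c000010000000000000000000000000000000000000000000000000000000000000000000000000000000000000) (nat_lit 0x2000002e000000000000000000000000000000000000000000000000000000000000000000000000000000000000) (nat_lit 3)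
theorem c42551 : QOK q42551 := cut [] trivial (nd (nat_lit 339) (nat_lit 0) (cs (lf (nat_lit 18) (nat_lit 339)) (nd (nat_lit 338) (nat_lit 0) (cs (lf (nat_lit 0) (nat_lit 337)) (lf (nat_lit 3) (nat_lit 338)))))) q42551 (by decide +kernel)
def q42554 : Q := Q.p (nat_lit 0x380000c000000000000000000000000000000000000000000000000000000000000000000000000000000000000000000) (nat_lit 0x400030000000000000000000000000000000000000000000000000000000000000000000000000000000000000000000) (nat_lit 2)
theorem c42554 : QOK q42554 := cut [] trivial (nd (nat_lit 364) (nat_lit 0) (cs (lf (nat_lit 6) (nat_lit 361)) (lf (nat_lit 12) (nat_lit 360)))) q42554 (by decide +kernel)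
def q42560 : Q := Q.p (nat_lit 0x3800006000000000000000000000000000000000000000000000000000000000000000000000000000000000000000000) (nat_lit 0x4000001800000000000000000000000000000000000000000000000000000000000000000000000000000000000000000) (nat_lit 2)
theorem c42560 : QOK q42560 := cut [] trivial (nd (nat_lit 360) (nat_lit 0) (cs (lf (nat_lit 0) (nat_lit 359)) (lf (nat_lit 18) (nat_lit 360)))) q42560 (by decide +kernel)
def q42579 : Q := Q.p (nat_lit 0x7c00000000000000000000000000000000000000000000000000000000000000000000000000000000000000000) (nat_lit 0x3800000000000000000000000000000000000000000000000000000000000000000000000000000000000) (nat_lit 2)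
theorem c42579 : QOK q42579 := cut [] trivial (nd (nat_lit 336) (nat_lit 0) (cs (lf (nat_lit 23) (nat_lit 335)) (lf (nat_lit 22) (nat_lit 336)))) q42579 (by decide +kernel)
def q42591 : Q := Q.p (nat_lit 0x4000010000060000080000000000000000000000000000000000000000000000000000000000000000000000000) (nat_lit 0x100000200000800000000000000000000000000000000000000000000000000000000000000) (nat_lit 2)
theorem c42591 : QOK q42591 := cut [] trivial (nd (nat_lit 273) (nat_lit 0) (cs (lf (nat_lit 24) (nat_lit 251)) (lf (nat_lit 45) (nat_lit 273)))) q42591 (by decide +kernel)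
def q42640 : Q := Q.p (nat_lit 0x200000c000010000040000000000000000000000000000000000000000000000000000000000000000000000000000000) (nat_lit 0x200000800001000000000000000000000000000000000000000000000000000000000000000000000000000000000000000000000000) (nat_lit 2)
theorem c42640 : QOK q42640 := cut [] trivial (nd (nat_lit 407) (nat_lit 0) (cs (lf (nat_lit 42) (nat_lit 340)) (lf (nat_lit 27) (nat_lit 318)))) q42640 (by decide +kernel)
def q42655 : Q := Q.p (nat_lit 0x30000000000100000c00000000000000000000000000000000000000000000000000000000000000) (nat_lit 0x8000000000040000000000000002000000000000000000000000000000000000000000000000000000000) (nat_lit 2)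
theorem c42655 : QOK q42655 := cut [] trivial (nd (nat_lit 294) (nat_lit 0) (cs (lf (nat_lit 35) (nat_lit 228)) (lf (nat_lit 29) (nat_lit 250)))) q42655 (by decide +kernel)
def q42662 : Q := Q.p (nat_lit 0x400001c000060000000000000000000000000000000000000000000000000000000000000000000000000000000) (nat_lit 0x8000003000000000000000000000000000000000000000000000000000000000000000000000000000000000000) (nat_lit 2)
theorem c42662 : QOK q42662 := cut [] trivial (nd (nat_lit 337) (nat_lit 0) (cs (lf (nat_lit 5) (nat_lit 337)) (lf (nat_lit 12) (nat_lit 314)))) q42662 (by decide +kernel)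
def q42676 : Q := Q.p (nat_lit 0x800006000010000040000000000000000000000000000000000000000000000000000000000000000000000000000000) (nat_lit 0x80000200001000000000000000000000000000000000000000000000000000000000000000000000000000000000000000000000000) (nat_lit 2)
theorem c42676 : QOK q42676 := cut [] trivial (nd (nat_lit 405) (nat_lit 0) (cs (lf (nat_lit 30) (nat_lit 339)) (lf (nat_lit 39) (nat_lit 317)))) q42676 (by decide +kernel)
def q42698 : Q := Q.p (nat_lit 0x50000070000000000000000000000000000000000000000000000000000000000000000000000000000000) (nat_lit 0xa8000000000000000000000000000000000000000000000000000000000000000000000000000000000000) (nat_lit 2)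
theorem c42698 : QOK q42698 := cut [] trivial (nd (nat_lit 341) (nat_lit 0) (cs (lf (nat_lit 18) (nat_lit 317)) (lf (nat_lit 21) (nat_lit 316)))) q42698 (by decide +kernel)
def q42729 : Q := Q.p (nat_lit 0x4000010000060000080000000000000000000000000000000000000000000000000000000000000000000000000) (nat_lit 0x8000000000100000200000000000000000000000000000000000000000000000000000000000000000000) (nat_lit 2)
theorem c42729 : QOK q42729 := cut [] trivial (nd (nat_lit 273) (nat_lit 0) (cs (lf (nat_lit 27) (nat_lit 273)) (lf (nat_lit 45) (nat_lit 273)))) q42729 (by decide +kernel)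
def q42730 : Q := Q.p (nat_lit 0x4000010000060000080000000000000000000000000000000000000000000000000000000000000000000000000) (nat_lit 0x8000000000000000200000800000000000000000000000000000000000000000000000000000000000000) (nat_lit 2)
theorem c42730 : QOK q42730 := cut [] trivial (nd (nat_lit 273) (nat_lit 0) (cs (lf (nat_lit 24) (nat_lit 251)) (lf (nat_lit 27) (nat_lit 273)))) q42730 (by decide +kernel)
def q42733 : Q := Q.p (nat_lit 0x6000050000000000000000000000000000000000000000000000000000000000000000000000000000000000000) (nat_lit 0x98000a0000000000000000000000000000000000000000000000000000000000000000000000000000000000000) (nat_lit 3)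
theorem c42733 : QOK q42733 := cut [] trivial (nd (nat_lit 341) (nat_lit 0) (cs (lf (nat_lit 6) (nat_lit 339)) (nd (nat_lit 360) (nat_lit 0) (cs (lf (nat_lit 15) (nat_lit 338)) (lf (nat_lit 12) (nat_lit 337)))))) q42733 (by decide +kernel)
def q42772 : Q := Q.p (nat_lit 0x3e00000000000000000000000000000000000000000000000000000000000000000000000000000000000000000000000) (nat_lit 0x1c00000000000000000000000000000000000000000000000000000000000000000000000000000000000000000) (nat_lit 2)
theorem c42772 : QOK q42772 := cut [] trivial (nd (nat_lit 359) (nat_lit 0) (cs (lf (nat_lit 23) (nat_lit 358)) (lf (nat_lit 22) (nat_lit 359)))) q42772 (by decide +kernel)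
def q42830 : Q := Q.p (nat_lit 0x1000004000010000040000000000000000000000000000000000000000000000000000000000000000000000000000000) (nat_lit 0x200000c00002000000000020000080000200000000000000000000000000000000000000000000000000000000000000000000000000) (nat_lit 4)
theorem c42830 : QOK q42830 := cut [] trivial (nd (nat_lit 407) (nat_lit 0) (cs (lf (nat_lit 28) (nat_lit 318)) (nd (nat_lit 319) (nat_lit 0) (cs (nd (nat_lit 406) (nat_lit 0) (cs (lf (nat_lit 29) (nat_lit 340)) (lf (nat_lit 34) (nat_lit 318)))) (lf (nat_lit 35) (nat_lit 296)))))) q42830 (by decide +kernel)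
def q42833 : Q := Q.p (nat_lit 0x1000004000010000040000000000000000000000000000000000000000000000000000000000000000000000000000000) (nat_lit 0x200000800002000000000080000300000800000000000000000000000000000000000000000000000000000000000000000000) (nat_lit 4)
theorem c42833 : QOK q42833 := cut [] trivial (nd (nat_lit 297) (nat_lit 0) (cs (lf (nat_lit 34) (nat_lit 296)) (nd (nat_lit 296) (nat_lit 0) (cs (lf (nat_lit 35) (nat_lit 274)) (nd (nat_lit 383) (nat_lit 0) (cs (lf (nat_lit 41) (nat_lit 317)) (lf (nat_lit 40) (nat_lit 295)))))))) q42833 (by decide +kernel)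
def q42837 : Q := Q.p (nat_lit 0x1000004000010000040000000000000000000000000000000000000000000000000000000000000000000000000000000) (nat_lit 0x80000600000800000000020000080000200000000000000000000000000000000000000000000000000000000000000000000000000) (nat_lit 4)
theorem c42837 : QOK q42837 := cut [] trivial (nd (nat_lit 405) (nat_lit 0) (cs (lf (nat_lit 40) (nat_lit 317)) (nd (nat_lit 319) (nat_lit 0) (cs (lf (nat_lit 35) (nat_lit 296)) (nd (nat_lit 406) (nat_lit 0) (cs (lf (nat_lit 41) (nat_lit 339)) (lf (nat_lit 34) (nat_lit 318)))))))) q42837 (by decide +kernel)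
def q42839 : Q := Q.p (nat_lit 0x40000100000c0000000000000002000000000000000000000000000000000000000000000000000000000000000) (nat_lit 0x1000000000000000000000200000800000000000000000000000000000000000000000000000000000000000000000000) (nat_lit 2)
theorem c42839 : QOK q42839 := cut [] trivial (nd (nat_lit 297) (nat_lit 0) (cs (lf (nat_lit 30) (nat_lit 296)) (lf (nat_lit 37) (nat_lit 252)))) q42839 (by decide +kernel)
def q42841 : Q := Q.p (nat_lit 0x7000030000000000000000000000000000000000000000000000000000000000000000000000000000000000000) (nat_lit 0xc8000000000000000000000000000000000000000000000000000000000000000000000000000000000000) (nat_lit 2)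
theorem c42841 : QOK q42841 := cut [] trivial (nd (nat_lit 342) (nat_lit 0) (cs (lf (nat_lit 6) (nat_lit 339)) (lf (nat_lit 9) (nat_lit 338)))) q42841 (by decide +kernel)
def q42845 : Q := Q.p (nat_lit 0x1e000000000000000000000000000000000000000000000000000000000000000000000000000000000000000000) (nat_lit 0x1c0000200001c0000000000000000000000000000000000000000000000000000000000000000000000000000000000000) (nat_lit 4)
theorem c42845 : QOK q42845 := cut [] trivial (nd (nat_lit 387) (nat_lit 0) (cs (lf (nat_lit 4) (nat_lit 361)) (nd (nat_lit 343) (nat_lit 0) (cs (lf (nat_lit 16) (nat_lit 339)) (nd (nat_lit 365) (nat_lit 0) (cs (lf (nat_lit 5) (nat_lit 362)) (lf (nat_lit 17) (nat_lit 340)))))))) q42845 (by decide +kernel)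
def q42881 : Q := Q.p (nat_lit 0x7800002000000000000000000000000000000000000000000000000000000000000000000000000000000000000) (nat_lit 0x100000700008000000000008000020000000000000000000000000000000000000000000000000000000000000000000000000) (nat_lit 4)
theorem c42881 : QOK q42881 := cut [] trivial (nd (nat_lit 381) (nat_lit 0) (cs (lf (nat_lit 11) (nat_lit 358)) (nd (nat_lit 382) (nat_lit 0) (cs (lf (nat_lit 6) (nat_lit 359)) (nd (nat_lit 315) (nat_lit 0) (cs (lf (nat_lit 29) (nat_lit 315)) (lf (nat_lit 24) (nat_lit 293)))))))) q42881 (by decide +kernel)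
def q42886 : Q := Q.p (nat_lit 0x7000006000000000000000000000000000000000000000000000000000000000000000000000000000000000000) (nat_lit 0x800001800000000000000000000000000000000000000000000000000000000000000000000000000000000000) (nat_lit 2)
theorem c42886 : QOK q42886 := cut [] trivial (nd (nat_lit 336) (nat_lit 0) (cs (lf (nat_lit 21) (nat_lit 336)) (lf (nat_lit 0) (nat_lit 335)))) q42886 (by decide +kernel)
def q42890 : Q := Q.p (nat_lit 0x7000030000000000000000000000000000000000000000000000000000000000000000000000000000000000000) (nat_lit 0x80000c0000000000000000000000000000000000000000000000000000000000000000000000000000000000000) (nat_lit 2)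
theorem c42890 : QOK q42890 := cut [] trivial (nd (nat_lit 342) (nat_lit 0) (cs (lf (nat_lit 6) (nat_lit 339)) (lf (nat_lit 15) (nat_lit 338)))) q42890 (by decide +kernel)
def q42893 : Q := Q.p (nat_lit 0x400003c0000000002000000000000000000000000000000000000000000000000000000000000000000000) (nat_lit 0x1800000000008000000000000000000000000000000000000000000000000000000000000000) (nat_lit 2)
theorem c42893 : QOK q42893 := cut [] trivial (nd (nat_lit 299) (nat_lit 0) (cs (lf (nat_lit 17) (nat_lit 296)) (lf (nat_lit 36) (nat_lit 254)))) q42893 (by decide +kernel)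
def q42928 : Q := Q.p (nat_lit 0x2000004000010000040000000000000000000000000000000000000000000000000000000000000000000000000000000) (nat_lit 0x800001000008000000000080000300000800000000000000000000000000000000000000000000000000000000000000000000) (nat_lit 4)
theorem c42928 : QOK q42928 := cut [] trivial (nd (nat_lit 384) (nat_lit 0) (cs (lf (nat_lit 29) (nat_lit 318)) (nd (nat_lit 297) (nat_lit 0) (cs (lf (nat_lit 34) (nat_lit 296)) (nd (nat_lit 296) (nat_lit 0) (cs (lf (nat_lit 35) (nat_lit 274)) (lf (nat_lit 28) (nat_lit 296)))))))) q42928 (by decide +kernel)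
def q42930 : Q := Q.p (nat_lit 0x300001c0000000000000000000000000000000000000000000000000000000000000000000000000000000) (nat_lit 0x8000600000000000000000000000000000000000000000000000000000000000000000000000000000000) (nat_lit 2)
theorem c42930 : QOK q42930 := cut [] trivial (nd (nat_lit 321) (nat_lit 0) (cs (lf (nat_lit 6) (nat_lit 318)) (lf (nat_lit 11) (nat_lit 317)))) q42930 (by decide +kernel)
def q42939 : Q := Q.p (nat_lit 0x700001c0000000000000000000000000000000000000000000000000000000000000000000000000000000) (nat_lit 0x4000010000000000600001c00002000008000000000000000000000000000000000000000000000000000000000000000) (nat_lit 5)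
theorem c42939 : QOK q42939 := cut [] trivial (nd (nat_lit 321) (nat_lit 0) (cs (lf (nat_lit 6) (nat_lit 318)) (nd (nat_lit 299) (nat_lit 0) (cs (lf (nat_lit 17) (nat_lit 296)) (nd (nat_lit 364) (nat_lit 0) (cs (lf (nat_lit 30) (nat_lit 298)) (nd (nat_lit 277) (nat_lit 0) (cs (lf (nat_lit 36) (nat_lit 254)) (lf (nat_lit 33) (nat_lit 276)))))))))) q42939 (by decide +kernel)
def q42973 : Q := Q.p (nat_lit 0x300000e000000000000000000000000000000000000000000000000000000000000000000000000000000000000000000) (nat_lit 0x4000001800000000000000000000000000000000000000000000000000000000000000000000000000000000000000000) (nat_lit 2)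
theorem c42973 : QOK q42973 := cut [] trivial (nd (nat_lit 360) (nat_lit 0) (cs (lf (nat_lit 0) (nat_lit 359)) (lf (nat_lit 5) (nat_lit 360)))) q42973 (by decide +kernel)
def q43036 : Q := Q.p (nat_lit 0x78000000000000000000000000000000000000000000000000000000000000000000000000000000) (nat_lit 0x3800004000380000000000000000000000000000000000000000000000000000000000000000000000000) (nat_lit 4)
theorem c43036 : QOK q43036 := cut [] trivial (nd (nat_lit 336) (nat_lit 0) (cs (lf (nat_lit 10) (nat_lit 314)) (nd (nat_lit 314) (nat_lit 0) (cs (lf (nat_lit 11) (nat_lit 313)) (nd (nat_lit 296) (nat_lit 0) (cs (lf (nat_lit 17) (nat_lit 293)) (lf (nat_lit 16) (nat_lit 292)))))))) q43036 (by decide +kernel)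
def q43047 : Q := Q.p (nat_lit 0x1e0000800000000000000000000000000000000000000000000000000000000000000000000000000) (nat_lit 0x1c0000200001000000000000000000000000000000000000000000000000000000000000000000000000000) (nat_lit 3)
theorem c43047 : QOK q43047 := cut [] trivial (nd (nat_lit 343) (nat_lit 0) (cs (lf (nat_lit 4) (nat_lit 317)) (nd (nat_lit 321) (nat_lit 0) (cs (lf (nat_lit 17) (nat_lit 296)) (lf (nat_lit 5) (nat_lit 318)))))) q43047 (by decide +kernel)
def q43053 : Q := Q.p (nat_lit 0x100000c0000000000000003c00000000000000000000000000000000000000000000000000000000000000) (nat_lit 0x200001800000000000000000000000000000000000000000000000000000000000000000000) (nat_lit 2)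
theorem c43053 : QOK q43053 := cut [] trivial (nd (nat_lit 275) (nat_lit 0) (cs (lf (nat_lit 5) (nat_lit 250)) (lf (nat_lit 38) (nat_lit 252)))) q43053 (by decide +kernel)
def q43070 : Q := Q.p (nat_lit 0x10000040000000000000001e00000000010000040000000000000000000000000000000000000000000000) (nat_lit 0x22000188000370000180002e00009000004000000000000000000000000000000000000000000000) (nat_lit 10)
theorem c43070 : QOK q43070 := cut [] trivial (nd (nat_lit 226) (nat_lit 0) (cs (lf (nat_lit 22) (nat_lit 226)) (nd (nat_lit 248) (nat_lit 0) (cs (lf (nat_lit 23) (nat_lit 225)) (nd (nat_lit 269) (nat_lit 0) (cs (lf (nat_lit 10) (nat_lit 247)) (nd (nat_lit 247) (nat_lit 0) (cs (lf (nat_lit 11) (nat_lit 246)) (nd (nat_lit 291) (nat_lit 0) (cs (lf (nat_lit 30) (nat_lit 225)) (nd (nat_lit 273) (nat_lit 0) (cs (lf (nat_lit 4) (nat_lit 247)) (nd (nat_lit 182) (nat_lit 0) (cs (nd (nat_lit 295) (nat_lit 0) (cs (lf (nat_lit 27) (nat_lit 251)) (nd (nat_lit 229) (nat_lit 0) (cs (lf (nat_lit 33) (nat_lit 185)) (lf (nat_lit 28) (nat_lit 229)))))) (lf (nat_lit 37) (nat_lit 181))))))))))))))))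 q43070 (by decide +kernel)
def q43139 : Q := Q.p (nat_lit 0x10000050000000000100000c00000000000000000000000000000000000000000000000000000000000000) (nat_lit 0x2a000028000040000000000200002800000000000000000000000000000000000000000000000000000000) (nat_lit 5)
theorem c43139 : QOK q43139 := cut [] trivial (nd (nat_lit 294) (nat_lit 0) (cs (lf (nat_lit 35) (nat_lit 228)) (nd (nat_lit 227) (nat_lit 0) (cs (lf (nat_lit 46) (nat_lit 227)) (nd (nat_lit 315) (nat_lit 0) (cs (lf (nat_lit 41) (nat_lit 249)) (nd (nat_lit 317) (nat_lit 0) (cs (lf (nat_lit 29) (nat_lit 250)) (lf (nat_lit 5) (nat_lit 315)))))))))) q43139 (by decide +kernel)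
def q43152 : Q := Q.p (nat_lit 0x10000060000000000000003c00000000000000000000000000000000000000000000000000000000000000) (nat_lit 0x10000040001c8000380000ec0001a00000000000000000000000000000000000000000000000000000000000000000000) (nat_lit 9)
theorem c43152 : QOK q43152 := cut [] trivial (nd (nat_lit 295) (nat_lit 0) (cs (lf (nat_lit 25) (nat_lit 251)) (nd (nat_lit 362) (nat_lit 0) (cs (lf (nat_lit 42) (nat_lit 295)) (nd (nat_lit 275) (nat_lit 0) (cs (lf (nat_lit 5) (nat_lit 250)) (nd (nat_lit 319) (nat_lit 0) (cs (lf (nat_lit 38) (nat_lit 252)) (nd (nat_lit 320) (nat_lit 0) (cs (lf (nat_lit 23) (nat_lit 294)) (nd (nat_lit 298) (nat_lit 0) (cs (lf (nat_lit 17) (nat_lit 295)) (nd (nat_lit 343) (nat_lit 0) (cs (lf (nat_lit 4) (nat_lit 317)) (nd (nat_lit 321) (nat_lit 0) (cs (lf (nat_lit 5) (nat_lit 318)) (lf (nat_lit 11) (nat_lit 317)))))))))))))))))) q43152 (by decide +kernel)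
def q43175 : Q := Q.p (nat_lit 0x40000100000000000000003c00008000000000000000000000000000000000000000000000000000000000) (nat_lit 0x80000600001800000000000000000000000000000000000000000000000000000000000000000000) (nat_lit 3)
theorem c43175 : QOK q43175 := cut [] trivial (nd (nat_lit 275) (nat_lit 0) (cs (lf (nat_lit 5) (nat_lit 250)) (nd (nat_lit 297) (nat_lit 0) (cs (lf (nat_lit 28) (nat_lit 231)) (lf (nat_lit 27) (nat_lit 253)))))) q43175 (by decide +kernel)
def q43178 : Q := Q.p (nat_lit 0x70000300000000000000000000000000000000000000000000000000000000000000000000000000000000) (nat_lit 0xc80000000000000000000000000000000000000000000000000000000000000000000000000000000) (nat_lit 2)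
theorem c43178 : QOK q43178 := cut [] trivial (nd (nat_lit 322) (nat_lit 0) (cs (lf (nat_lit 6) (nat_lit 319)) (lf (nat_lit 9) (nat_lit 318)))) q43178 (by decide +kernel)
def q43216 : Q := Q.p (nat_lit 0x100001c0000000000000002000000000000000000000000000000000000000000000000000000000000000) (nat_lit 0x1c80002200003c0000800000000000000000000000000000000000000000000000000000000000000000000) (nat_lit 6)
theorem c43216 : QOK q43216 := cut [] trivial (nd (nat_lit 275) (nat_lit 0) (cs (lf (nat_lit 38) (nat_lit 252)) (nd (nat_lit 321) (nat_lit 0) (cs (lf (nat_lit 11) (nat_lit 317)) (nd (nat_lit 295) (nat_lit 0) (cs (lf (nat_lit 22) (nat_lit 295)) (nd (nat_lit 343) (nat_lit 0) (cs (lf (nat_lit 5) (nat_lit 318)) (nd (nat_lit 317) (nat_lit 0) (cs (lf (nat_lit 23) (nat_lit 294)) (lf (nat_lit 4) (nat_lit 317)))))))))))) q43216 (by decide +kernel)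
def q43221 : Q := Q.p (nat_lit 0x100001e0000000000000002000000000000000000000000000000000000000000000000000000000000000) (nat_lit 0x10000e00000800000000000000000000000000000000000000000000000000000000000000000000) (nat_lit 3)
theorem c43221 : QOK q43221 := cut [] trivial (nd (nat_lit 298) (nat_lit 0) (cs (lf (nat_lit 17) (nat_lit 295)) (nd (nat_lit 297) (nat_lit 0) (cs (lf (nat_lit 12) (nat_lit 294)) (lf (nat_lit 37) (nat_lit 252)))))) q43221 (by decide +kernel)
def q43240 : Q := Q.p (nat_lit 0x100001c0000000000000000000000000000000000000000000000000000000000000000000000000000000) (nat_lit 0x728001e20001c00000000000000000000000000000000000000000000000000000000000000000000000000) (nat_lit 7)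
theorem c43240 : QOK q43240 := cut [] trivial (nd (nat_lit 321) (nat_lit 0) (cs (lf (nat_lit 11) (nat_lit 317)) (nd (nat_lit 299) (nat_lit 0) (cs (lf (nat_lit 17) (nat_lit 296)) (nd (nat_lit 298) (nat_lit 0) (cs (lf (nat_lit 12) (nat_lit 295)) (nd (nat_lit 322) (nat_lit 0) (cs (lf (nat_lit 10) (nat_lit 318)) (nd (nat_lit 323) (nat_lit 0) (cs (lf (nat_lit 18) (nat_lit 298)) (nd (nat_lit 345) (nat_lit 0) (cs (lf (nat_lit 5) (nat_lit 320)) (lf (nat_lit 4) (nat_lit 319)))))))))))))) q43240 (by decide +kernel)
def q43254 : Q := Q.p (nat_lit 0x30000070000000000000003c00000000000000000000000000000000000000000000000000000000000000) (nat_lit 0x140000780000e000080000280001a00000000000000000000000000000000000000000000000000000000000000000000) (nat_lit 8)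
theorem c43254 : QOK q43254 := cut [] trivial (nd (nat_lit 295) (nat_lit 0) (cs (lf (nat_lit 25) (nat_lit 251)) (nd (nat_lit 362) (nat_lit 0) (cs (lf (nat_lit 42) (nat_lit 295)) (nd (nat_lit 275) (nat_lit 0) (cs (lf (nat_lit 5) (nat_lit 250)) (nd (nat_lit 319) (nat_lit 0) (cs (nd (nat_lit 338) (nat_lit 0) (cs (lf (nat_lit 11) (nat_lit 315)) (nd (nat_lit 360) (nat_lit 0) (cs (lf (nat_lit 30) (nat_lit 294)) (nd (nat_lit 359) (nat_lit 0) (cs (lf (nat_lit 14) (nat_lit 337)) (lf (nat_lit 8) (nat_lit 337)))))))) (lf (nat_lit 37) (nat_lit 274)))))))))) q43254 (by decide +kernel)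
def q43285 : Q := Q.p (nat_lit 0x10000060000000000000003c00000000000000000000000000000000000000000000000000000000000000) (nat_lit 0x2c00039c0002200019c0000300018e00000000000000000000000000000000000000000000000000000000) (nat_lit 12)
theorem c43285 : QOK q43285 := cut [] trivial (nd (nat_lit 275) (nat_lit 0) (cs (lf (nat_lit 5) (nat_lit 250)) (nd (nat_lit 271) (nat_lit 0) (cs (lf (nat_lit 10) (nat_lit 249)) (nd (nat_lit 319) (nat_lit 0) (cs (lf (nat_lit 38) (nat_lit 252)) (nd (nat_lit 231) (nat_lit 0) (cs (lf (nat_lit 17) (nat_lit 228)) (nd (nat_lit 249) (nat_lit 0) (cs (lf (nat_lit 11) (nat_lit 248)) (nd (nat_lit 226) (nat_lit 0) (cs (lf (nat_lit 22) (nat_lit 226)) (nd (nat_lit 248) (nat_lit 0) (cs (lf (nat_lit 23) (nat_lit 225)) (nd (nat_lit 315) (nat_lit 0) (cs (lf (nat_lit 43) (nat_lit 226)) (nd (nat_lit 316) (nat_lit 0) (cs (lf (nat_lit 5) (nat_lit 315)) (nd (nat_lit 339) (nat_lit 0) (cs (lf (nat_lit 0) (nat_lit 314)) (nd (nat_lit 320) (nat_lit 0) (cs (lf (nat_lit 11) (nat_lit 316)) (lf (nat_lit 6) (nat_lit 317)))))))))))))))))))))))) q43285 (by decide +kernel)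
def q43295 : Q := Q.p (nat_lit 0x1000004000010000040000000000000000000000000000000000000000000000000000000000000000000000000000000) (nat_lit 0x80000300000c000000000080000280000a0000080000000000000000000000000000000000000000000000000000000000000000000000000) (nat_lit 6)
theorem c43295 : QOK q43295 := cut [] trivial (nd (nat_lit 317) (nat_lit 0) (cs (lf (nat_lit 47) (nat_lit 295)) (nd (nat_lit 406) (nat_lit 0) (cs (lf (nat_lit 46) (nat_lit 317)) (nd (nat_lit 341) (nat_lit 0) (cs (nd (nat_lit 429) (nat_lit 0) (cs (nd (nat_lit 428) (nat_lit 0) (cs (lf (nat_lit 29) (nat_lit 362)) (lf (nat_lit 34) (nat_lit 340)))) (lf (nat_lit 28) (nat_lit 340)))) (lf (nat_lit 35) (nat_lit 318)))))))) q43295 (by decide +kernel)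
def q43297 : Q := Q.p (nat_lit 0x600000e0000000000000000000000000000000000000000000000000000000000000000000000000) (nat_lit 0x190000000000000000000000000000000000000000000000000000000000000000000000000000000) (nat_lit 2)
theorem c43297 : QOK q43297 := cut [] trivial (nd (nat_lit 319) (nat_lit 0) (cs (lf (nat_lit 21) (nat_lit 293)) (lf (nat_lit 18) (nat_lit 294)))) q43297 (by decide +kernel)
def q43307 : Q := Q.p (nat_lit 0xe00006000000000000000000000000000000000000000000000000000000000000000000000000000000000000000000) (nat_lit 0x19000000000000000000000000000000000000000000000000000000000000000000000000000000000000000000) (nat_lit 2)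
theorem c43307 : QOK q43307 := cut [] trivial (nd (nat_lit 363) (nat_lit 0) (cs (lf (nat_lit 6) (nat_lit 360)) (lf (nat_lit 9) (nat_lit 359)))) q43307 (by decide +kernel)
def q43315 : Q := Q.p (nat_lit 0x800006000008000020000000000000000000000000000000000000000000000000000000000000000000000000000000) (nat_lit 0x100000700019000000000000000000000000000000000000000000000000000000000000000000000000000000000000000000) (nat_lit 4)
theorem c43315 : QOK q43315 := cut [] trivial (nd (nat_lit 382) (nat_lit 0) (cs (lf (nat_lit 41) (nat_lit 316)) (nd (nat_lit 363) (nat_lit 0) (cs (lf (nat_lit 6) (nat_lit 360)) (nd (nat_lit 381) (nat_lit 0) (cs (lf (nat_lit 9) (nat_lit 359)) (lf (nat_lit 12) (nat_lit 358)))))))) q43315 (by decide +kernel)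
def q43321 : Q := Q.p (nat_lit 0x1800006000008000020000000000000000000000000000000000000000000000000000000000000000000000000000000) (nat_lit 0x100000600018000000000000000000000000000000000000000000000000000000000000000000000000000000000000000000) (nat_lit 3)
theorem c43321 : QOK q43321 := cut [] trivial (nd (nat_lit 382) (nat_lit 0) (cs (lf (nat_lit 41) (nat_lit 316)) (nd (nat_lit 363) (nat_lit 0) (cs (lf (nat_lit 12) (nat_lit 359)) (lf (nat_lit 6) (nat_lit 360)))))) q43321 (by decide +kernel)
def q43323 : Q := Q.p (nat_lit 0x18000070000000000000000000000000000000000000000000000000000000000000000000000000000000) (nat_lit 0x2000000c000000000000000000000000000000000000000000000000000000000000000000000000000000) (nat_lit 2)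
theorem c43323 : QOK q43323 := cut [] trivial (nd (nat_lit 315) (nat_lit 0) (cs (lf (nat_lit 5) (nat_lit 315)) (lf (nat_lit 0) (nat_lit 314)))) q43323 (by decide +kernel)
def q43331 : Q := Q.p (nat_lit 0x400001000004000030000000000000000000000000000000000000000000000000000000000000000000000000000000000000) (nat_lit 0x20000180000200000000008000000000000000000000000000000000000000000000000000000000000000000000000000000000000000000) (nat_lit 3)
theorem c43331 : QOK q43331 := cut [] trivial (nd (nat_lit 427) (nat_lit 0) (cs (lf (nat_lit 40) (nat_lit 339)) (nd (nat_lit 428) (nat_lit 0) (cs (lf (nat_lit 41) (nat_lit 361)) (lf (nat_lit 34) (nat_lit 340)))))) q43331 (by decide +kernel)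
def q43336 : Q := Q.p (nat_lit 0xe000030000000000000000000000000000000000000000000000000000000000000000000000000000000000000) (nat_lit 0x10000c0000000000000000000000000000000000000000000000000000000000000000000000000000000000000) (nat_lit 2)
theorem c43336 : QOK q43336 := cut [] trivial (nd (nat_lit 342) (nat_lit 0) (cs (lf (nat_lit 6) (nat_lit 339)) (lf (nat_lit 12) (nat_lit 338)))) q43336 (by decide +kernel)
def q43343 : Q := Q.p (nat_lit 0x6000070000000000000000000000000000000000000000000000000000000000000000000000000000000000000) (nat_lit 0x1800008000000000000000000000000000000000000000000000000000000000000000000000000000000000000) (nat_lit 2)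
theorem c43343 : QOK q43343 := cut [] trivial (nd (nat_lit 360) (nat_lit 0) (cs (lf (nat_lit 12) (nat_lit 337)) (lf (nat_lit 9) (nat_lit 338)))) q43343 (by decide +kernel)
def q43355 : Q := Q.p (nat_lit 0x400001000004000028000000000000000000000000000000000000000000000000000000000000000000000000000000000000) (nat_lit 0x10000000000000000a000000000000000000000000000000000000000000000000000000000000000000000000000000000000000000) (nat_lit 2)
theorem c43355 : QOK q43355 := cut [] trivial (nd (nat_lit 428) (nat_lit 0) (cs (lf (nat_lit 46) (nat_lit 339)) (lf (nat_lit 34) (nat_lit 340)))) q43355 (by decide +kernel)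
def q43383 : Q := Q.p (nat_lit 0x800006000078000080000000000000000000000000000000000000000000000000000000000000000000000000000000) (nat_lit 0x100000c400038000000000000000000000000000000000000000000000000000000000000000000000000000000000000000000) (nat_lit 4)
theorem c43383 : QOK q43383 := cut [] trivial (nd (nat_lit 364) (nat_lit 0) (cs (lf (nat_lit 5) (nat_lit 339)) (nd (nat_lit 386) (nat_lit 0) (cs (lf (nat_lit 42) (nat_lit 319)) (nd (nat_lit 363) (nat_lit 0) (cs (lf (nat_lit 11) (nat_lit 360)) (lf (nat_lit 5) (nat_lit 361)))))))) q43383 (by decide +kernel)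
def q43399 : Q := Q.p (nat_lit 0x80000200000c000010000000000000000000000000000000000000000000000000000000000000000000000000000000) (nat_lit 0x20000040000100000000000000000000000000000000000000000000000000000000000000000000) (nat_lit 2)
theorem c43399 : QOK q43399 := cut [] trivial (nd (nat_lit 294) (nat_lit 0) (cs (lf (nat_lit 24) (nat_lit 272)) (lf (nat_lit 45) (nat_lit 294)))) q43399 (by decide +kernel)
def q43426 : Q := Q.p (nat_lit 0x6000018000040000100000000000000000000000000000000000000000000000000000000000000000000000000) (nat_lit 0x2000018000006000000000000000000000000000000000000000000000000000000000000000000000000000000000000) (nat_lit 3)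
theorem c43426 : QOK q43426 := cut [] trivial (nd (nat_lit 363) (nat_lit 0) (cs (lf (nat_lit 29) (nat_lit 296)) (nd (nat_lit 338) (nat_lit 0) (cs (lf (nat_lit 0) (nat_lit 337)) (lf (nat_lit 18) (nat_lit 338)))))) q43426 (by decide +kernel)
def q43464 : Q := Q.p (nat_lit 0x100000e0000080000000000000000000000000000000000000000000000000000000000000000000000000) (nat_lit 0xc000300000040000000000000000000000000000000000000000000000000000000000000000000000000) (nat_lit 3)
theorem c43464 : QOK q43464 := cut [] trivial (nd (nat_lit 320) (nat_lit 0) (cs (lf (nat_lit 23) (nat_lit 294)) (nd (nat_lit 339) (nat_lit 0) (cs (lf (nat_lit 11) (nat_lit 316)) (lf (nat_lit 6) (nat_lit 317)))))) q43464 (by decide +kernel)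
def q43497 : Q := Q.p (nat_lit 0x20000080000300000c0000000000000002000000000000000000000000000000000000000000000000000000000000000) (nat_lit 0x1000004000010000000000000000200000800000000000000000000000000000000000000000000000000000000000000000000) (nat_lit 3)
theorem c43497 : QOK q43497 := cut [] trivial (nd (nat_lit 386) (nat_lit 0) (cs (lf (nat_lit 29) (nat_lit 319)) (nd (nat_lit 297) (nat_lit 0) (cs (lf (nat_lit 28) (nat_lit 297)) (lf (nat_lit 37) (nat_lit 252)))))) q43497 (by decide +kernel)
def q43505 : Q := Q.p (nat_lit 0x100000f0000000000000002000000000000000000000000000000000000000000000000000000000000000) (nat_lit 0x600000800000000000000000000000000000000000000000000000000000000000000000000) (nat_lit 2)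
theorem c43505 : QOK q43505 := cut [] trivial (nd (nat_lit 297) (nat_lit 0) (cs (lf (nat_lit 17) (nat_lit 294)) (lf (nat_lit 37) (nat_lit 252)))) q43505 (by decide +kernel)
def q43539 : Q := Q.p (nat_lit 0x40000000000700001c0000000000000000000000000000000000000000000000000000000000000000000000000000000) (nat_lit 0x10000000000600001800000000000000000000000000000000000000000000000000000000000000000000000000) (nat_lit 3)
theorem c43539 : QOK q43539 := cut [] trivial (nd (nat_lit 321) (nat_lit 0) (cs (lf (nat_lit 6) (nat_lit 318)) (nd (nat_lit 299) (nat_lit 0) (cs (lf (nat_lit 17) (nat_lit 296)) (lf (nat_lit 31) (nat_lit 298)))))) q43539 (by decide +kernel)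
def q43556 : Q := Q.p (nat_lit 0x7800000000000000010000000000000000000000000000000000000000000000000000000000000000000000000000000) (nat_lit 0x300000400003800004000000000000000000000000000000000000000000000000000000000000000000000000000000000000) (nat_lit 4)
theorem c43556 : QOK q43556 := cut [] trivial (nd (nat_lit 360) (nat_lit 0) (cs (lf (nat_lit 22) (nat_lit 360)) (nd (nat_lit 382) (nat_lit 0) (cs (lf (nat_lit 23) (nat_lit 359)) (nd (nat_lit 405) (nat_lit 0) (cs (lf (nat_lit 11) (nat_lit 382)) (lf (nat_lit 25) (nat_lit 316)))))))) q43556 (by decide +kernel)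
def q43568 : Q := Q.p (nat_lit 0x7800000000000000000000000000000000000000000000000000000000000000000000000000000000000000000000000) (nat_lit 0x3b80000400000000000000000000000000000000000000000000000000000000000000000000000000000000000000000000000) (nat_lit 4)
theorem c43568 : QOK q43568 := cut [] trivial (nd (nat_lit 408) (nat_lit 0) (cs (lf (nat_lit 5) (nat_lit 383)) (nd (nat_lit 382) (nat_lit 0) (cs (lf (nat_lit 4) (nat_lit 382)) (nd (nat_lit 404) (nat_lit 0) (cs (lf (nat_lit 10) (nat_lit 382)) (lf (nat_lit 11) (nat_lit 381)))))))) q43568 (by decide +kernel)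
def q43601 : Q := Q.p (nat_lit 0x700001e0000000000000003400000000000000000000000000000000000000000000000000000000000000) (nat_lit 0xc0000300000c0000000000000004c0001b80000800000000000000000000000000000000000000000000000000000000000000) (nat_lit 8)
theorem c43601 : QOK q43601 := cut [] trivial (nd (nat_lit 295) (nat_lit 0) (cs (lf (nat_lit 23) (nat_lit 294)) (nd (nat_lit 251) (nat_lit 0) (cs (lf (nat_lit 25) (nat_lit 251)) (nd (nat_lit 271) (nat_lit 0) (cs (lf (nat_lit 10) (nat_lit 249)) (nd (nat_lit 384) (nat_lit 0) (cs (lf (nat_lit 43) (nat_lit 295)) (nd (nat_lit 276) (nat_lit 0) (cs (lf (nat_lit 4) (nat_lit 250)) (nd (nat_lit 363) (nat_lit 0) (cs (lf (nat_lit 37) (nat_lit 275)) (nd (nat_lit 385) (nat_lit 0) (cs (lf (nat_lit 41) (nat_lit 318)) (lf (nat_lit 30) (nat_lit 319)))))))))))))))) q43601 (by decide +kernel)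
def q43612 : Q := Q.p (nat_lit 0x10000000000300000c0000000000000000000000000000000000000000000000000000000000000000000000000000000) (nat_lit 0x400000000004000000000000000200000000000000000000000000000000000000000000000000000000000000000000000000) (nat_lit 2)
theorem c43612 : QOK q43612 := cut [] trivial (nd (nat_lit 362) (nat_lit 0) (cs (lf (nat_lit 35) (nat_lit 296)) (lf (nat_lit 30) (nat_lit 318)))) q43612 (by decide +kernel)
def q43613 : Q := Q.p (nat_lit 0x30000000000300000c0000000000000000000000000000000000000000000000000000000000000000000000000000000) (nat_lit 0xc00000000008000000000000000000000000000000000000000000000000000000000000000000000000000000000000000000) (nat_lit 2)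
theorem c43613 : QOK q43613 := cut [] trivial (nd (nat_lit 363) (nat_lit 0) (cs (lf (nat_lit 41) (nat_lit 318)) (lf (nat_lit 42) (nat_lit 318)))) q43613 (by decide +kernel)
def q43615 : Q := Q.p (nat_lit 0x6000000000060000080000000000000000000000000000000000000000000000000000000000000000000000000000000) (nat_lit 0x1800000000010000000000100000200000000000000000000000000000000000000000000000000000000000000000000000000) (nat_lit 3)
theorem c43615 : QOK q43615 := cut [] trivial (nd (nat_lit 364) (nat_lit 0) (cs (lf (nat_lit 42) (nat_lit 319)) (nd (nat_lit 320) (nat_lit 0) (cs (lf (nat_lit 41) (nat_lit 319)) (lf (nat_lit 47) (nat_lit 297)))))) q43615 (by decide +kernel)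
def q43634 : Q := Q.p (nat_lit 0x2000008000020000080000000000000000000000000000000000000000000000000000000000000000000000000000000) (nat_lit 0x1000004000010000000000100000600001000000000000000000000000000000000000000000000000000000000000000000000) (nat_lit 4)
theorem c43634 : QOK q43634 := cut [] trivial (nd (nat_lit 298) (nat_lit 0) (cs (lf (nat_lit 34) (nat_lit 297)) (nd (nat_lit 386) (nat_lit 0) (cs (lf (nat_lit 29) (nat_lit 319)) (nd (nat_lit 297) (nat_lit 0) (cs (lf (nat_lit 35) (nat_lit 275)) (lf (nat_lit 28) (nat_lit 297)))))))) q43634 (by decide +kernel)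
def q43640 : Q := Q.p (nat_lit 0x10000000000700000c0000000000000000000000000000000000000000000000000000000000000000000000000000000) (nat_lit 0x4000000000030000280000000000000000000000000000000000000000000000000000000000000000000000000) (nat_lit 3)
theorem c43640 : QOK q43640 := cut [] trivial (nd (nat_lit 317) (nat_lit 0) (cs (lf (nat_lit 0) (nat_lit 316)) (nd (nat_lit 362) (nat_lit 0) (cs (lf (nat_lit 47) (nat_lit 295)) (lf (nat_lit 35) (nat_lit 296)))))) q43640 (by decide +kernel)
def q43641 : Q := Q.p (nat_lit 0x10000040000700000c0000000000000000000000000000000000000000000000000000000000000000000000000000000) (nat_lit 0x30000080000000000000000000000000000000000000000000000000000000000000000000000000) (nat_lit 2)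
theorem c43641 : QOK q43641 := cut [] trivial (nd (nat_lit 317) (nat_lit 0) (cs (lf (nat_lit 0) (nat_lit 316)) (lf (nat_lit 47) (nat_lit 295)))) q43641 (by decide +kernel)
def q43645 : Q := Q.p (nat_lit 0x7000010000000000000000000000000000000000000000000000000000000000000000000000000000000000000000000) (nat_lit 0x88000e0000000000000000000000000000000000000000000000000000000000000000000000000000000000000000000) (nat_lit 3)
theorem c43645 : QOK q43645 := cut [] trivial (nd (nat_lit 365) (nat_lit 0) (cs (lf (nat_lit 12) (nat_lit 361)) (nd (nat_lit 366) (nat_lit 0) (cs (lf (nat_lit 6) (nat_lit 363)) (lf (nat_lit 15) (nat_lit 362)))))) q43645 (by decide +kernel)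
def q43659 : Q := Q.p (nat_lit 0xf0000000000000000000000000000000000000000000000000000000000000000000000000000000000000) (nat_lit 0xee000100000000000000000000000000000000000000000000000000000000000000000000000000000000000000) (nat_lit 4)
theorem c43659 : QOK q43659 := cut [] trivial (nd (nat_lit 366) (nat_lit 0) (cs (lf (nat_lit 4) (nat_lit 340)) (nd (nat_lit 362) (nat_lit 0) (cs (lf (nat_lit 11) (nat_lit 339)) (nd (nat_lit 344) (nat_lit 0) (cs (lf (nat_lit 10) (nat_lit 340)) (lf (nat_lit 5) (nat_lit 341)))))))) q43659 (by decide +kernel)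
def q43696 : Q := Q.p (nat_lit 0xf0000040000000000000003400000000000000000000000000000000000000000000000000000000000000) (nat_lit 0x60000100000780000e00001800000800000000000000000000000000000000000000000000000000000000000000) (nat_lit 7)
theorem c43696 : QOK q43696 := cut [] trivial (nd (nat_lit 321) (nat_lit 0) (cs (lf (nat_lit 17) (nat_lit 318)) (nd (nat_lit 319) (nat_lit 0) (cs (lf (nat_lit 18) (nat_lit 318)) (nd (nat_lit 365) (nat_lit 0) (cs (lf (nat_lit 5) (nat_lit 340)) (nd (nat_lit 275) (nat_lit 0) (cs (lf (nat_lit 38) (nat_lit 252)) (nd (nat_lit 276) (nat_lit 0) (cs (lf (nat_lit 1) (nat_lit 250)) (nd (nat_lit 298) (nat_lit 0) (cs (lf (nat_lit 43) (nat_lit 253)) (lf (nat_lit 45) (nat_lit 276)))))))))))))) q43696 (by decide +kernel)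
def q43702 : Q := Q.p (nat_lit 0x2000018000060000000000000000400000000000000000000000000000000000000000000000000000000000000) (nat_lit 0x6000018000040000000000000000c0000300000000000000000000000000000000000000000000000000000000000000000000) (nat_lit 5)
theorem c43702 : QOK q43702 := cut [] trivial (nd (nat_lit 383) (nat_lit 0) (cs (lf (nat_lit 30) (nat_lit 317)) (nd (nat_lit 384) (nat_lit 0) (cs (lf (nat_lit 29) (nat_lit 317)) (nd (nat_lit 295) (nat_lit 0) (cs (lf (nat_lit 28) (nat_lit 295)) (nd (nat_lit 272) (nat_lit 0) (cs (lf (nat_lit 45) (nat_lit 250)) (lf (nat_lit 46) (nat_lit 272)))))))))) q43702 (by decide +kernel)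
def q43749 : Q := Q.p (nat_lit 0x78000040000000000000002000000000000000000000000000000000000000000000000000000000000000) (nat_lit 0x1800006000038000000000380000600001800000000000000000000000000000000000000000000000000000000000000000000) (nat_lit 6)
theorem c43749 : QOK q43749 := cut [] trivial (nd (nat_lit 320) (nat_lit 0) (cs (lf (nat_lit 17) (nat_lit 317)) (nd (nat_lit 385) (nat_lit 0) (cs (nd (nat_lit 364) (nat_lit 0) (cs (lf (nat_lit 5) (nat_lit 339)) (nd (nat_lit 386) (nat_lit 0) (cs (lf (nat_lit 41) (nat_lit 319)) (nd (nat_lit 319) (nat_lit 0) (cs (lf (nat_lit 42) (nat_lit 319)) (lf (nat_lit 47) (nat_lit 297)))))))) (cs (nd (nat_lit 364) (nat_lit 0) (cs (lf (nat_lit 5) (nat_lit 339)) (nd (nat_lit 298) (nat_lit 0) (cs (nd (nat_lit 275) (nat_lit 0) (cs (lf (nat_lit 45) (nat_lit 253)) (lf (nat_lit 46) (nat_lit 275)))) (lf (nat_lit 40) (nat_lit 297)))))) (nd (nat_lit 363) (nat_lit 0) (cs (lf (nat_lit 42) (nat_lit 318)) (nd (nat_lit 298) (nat_lit 0) (cs (lf (nat_lit 36) (nat_lit 275)) (lf (nat_lit 33) (nat_lit 297))))))))))) q43749 (by decide +kernel)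
def q43754 : Q := Q.p (nat_lit 0x380000c0000000000000000000000000000000000000000000000000000000000000000000000000000000) (nat_lit 0x6000100000000000000000000000000000000000000000000000000000000000000000000000000000000) (nat_lit 2)
theorem c43754 : QOK q43754 := cut [] trivial (nd (nat_lit 338) (nat_lit 0) (cs (lf (nat_lit 12) (nat_lit 315)) (lf (nat_lit 17) (nat_lit 316)))) q43754 (by decide +kernel)
def q43787 : Q := Q.p (nat_lit 0x1000024000010000040000000000000000000000000000000000000000000000000000000000000000000000000000000) (nat_lit 0xa00006800018000000000000000000000000000000000000000000000000000000000000000000000000000000000000000000) (nat_lit 4)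
theorem c43787 : QOK q43787 := cut [] trivial (nd (nat_lit 385) (nat_lit 0) (cs (lf (nat_lit 29) (nat_lit 318)) (nd (nat_lit 383) (nat_lit 0) (cs (lf (nat_lit 41) (nat_lit 317)) (nd (nat_lit 364) (nat_lit 0) (cs (lf (nat_lit 15) (nat_lit 361)) (lf (nat_lit 8) (nat_lit 361)))))))) q43787 (by decide +kernel)
def q43850 : Q := Q.p (nat_lit 0x400001e0000000000000002000000000000000000000000000000000000000000000000000000000000000) (nat_lit 0xe00001800000000000000000000000000000000000000000000000000000000000000000000) (nat_lit 3)
theorem c43850 : QOK q43850 := cut [] trivial (nd (nat_lit 298) (nat_lit 0) (cs (lf (nat_lit 17) (nat_lit 295)) (nd (nat_lit 275) (nat_lit 0) (cs (lf (nat_lit 45) (nat_lit 253)) (lf (nat_lit 26) (nat_lit 253)))))) q43850 (by decide +kernel)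
def q43857 : Q := Q.p (nat_lit 0x1c000060000000000000000000000000000000000000000000000000000000000000000000000000000000) (nat_lit 0x3000080000000000000000000000000000000000000000000000000000000000000000000000000000000) (nat_lit 2)
theorem c43857 : QOK q43857 := cut [] trivial (nd (nat_lit 337) (nat_lit 0) (cs (lf (nat_lit 12) (nat_lit 314)) (lf (nat_lit 17) (nat_lit 315)))) q43857 (by decide +kernel)
def q43871 : Q := Q.p (nat_lit 0x78000000000000000000000000000000000000000000000000000000000000000000000000000000000000) (nat_lit 0x40003b8000000000000000000000000000000000000000000000000000000000000000000000000000000) (nat_lit 4)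
theorem c43871 : QOK q43871 := cut [] trivial (nd (nat_lit 316) (nat_lit 0) (cs (lf (nat_lit 22) (nat_lit 316)) (nd (nat_lit 320) (nat_lit 0) (cs (lf (nat_lit 17) (nat_lit 317)) (nd (nat_lit 338) (nat_lit 0) (cs (lf (nat_lit 23) (nat_lit 315)) (lf (nat_lit 16) (nat_lit 316)))))))) q43871 (by decide +kernel)
def q43911 : Q := Q.p (nat_lit 0x40000100000400003400000000000000000000000000000000000000000000000000000000000000) (nat_lit 0x100000000000000003c0000b00002000000000000000000000000000000000000000000000000000000000) (nat_lit 5)
theorem c43911 : QOK q43911 := cut [] trivial (nd (nat_lit 251) (nat_lit 0) (cs (lf (nat_lit 47) (nat_lit 229)) (nd (nat_lit 271) (nat_lit 0) (cs (lf (nat_lit 10) (nat_lit 249)) (nd (nat_lit 249) (nat_lit 0) (cs (lf (nat_lit 11) (nat_lit 248)) (nd (nat_lit 273) (nat_lit 0) (cs (lf (nat_lit 42) (nat_lit 251)) (lf (nat_lit 0) (nat_lit 248)))))))))) q43911 (by decide +kernel)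
def q43916 : Q := Q.p (nat_lit 0x400001c0000000000000000000000000000000000000000000000000000000000000000000000000) (nat_lit 0xae000030000000000000000000000000000000000000000000000000000000000000000000000000) (nat_lit 4)
theorem c43916 : QOK q43916 := cut [] trivial (nd (nat_lit 293) (nat_lit 0) (cs (lf (nat_lit 5) (nat_lit 293)) (nd (nat_lit 314) (nat_lit 0) (cs (lf (nat_lit 10) (nat_lit 292)) (nd (nat_lit 292) (nat_lit 0) (cs (lf (nat_lit 11) (nat_lit 291)) (lf (nat_lit 4) (nat_lit 292)))))))) q43916 (by decide +kernel)
def q43920 : Q := Q.p (nat_lit 0x100001c0000100000400000000000000000000000000000000000000000000000000000000000000) (nat_lit 0x2000008000200000000000000000000000000000000000000000000000000000000000000000000000000) (nat_lit 2)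
theorem c43920 : QOK q43920 := cut [] trivial (nd (nat_lit 315) (nat_lit 0) (cs (lf (nat_lit 41) (nat_lit 249)) (lf (nat_lit 6) (nat_lit 293)))) q43920 (by decide +kernel)
def q43923 : Q := Q.p (nat_lit 0x100001c0000100000400000000000000000000000000000000000000000000000000000000000000) (nat_lit 0x200002e000000000000000000000000000000000000000000000000000000000000000000000000000000) (nat_lit 3)
theorem c43923 : QOK q43923 := cut [] trivial (nd (nat_lit 315) (nat_lit 0) (cs (lf (nat_lit 41) (nat_lit 249)) (nd (nat_lit 314) (nat_lit 0) (cs (lf (nat_lit 12) (nat_lit 291)) (lf (nat_lit 15) (nat_lit 292)))))) q43923 (by decide +kernel)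
def q43924 : Q := Q.p (nat_lit 0x400001c0000100000c00000000000000000000000000000000000000000000000000000000000000) (nat_lit 0x10000000000200000000002000000000000000000000000000000000000000000000000000000000) (nat_lit 2)
theorem c43924 : QOK q43924 := cut [] trivial (nd (nat_lit 229) (nat_lit 0) (cs (lf (nat_lit 30) (nat_lit 228)) (lf (nat_lit 26) (nat_lit 229)))) q43924 (by decide +kernel)
def q43926 : Q := Q.p (nat_lit 0x1c0000100003400000000000000000000000000000000000000000000000000000000000000) (nat_lit 0x200000080000800000000000000000000000000000000000000000000000000000000000000) (nat_lit 2)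
theorem c43926 : QOK q43926 := cut [] trivial (nd (nat_lit 271) (nat_lit 0) (cs (lf (nat_lit 8) (nat_lit 249)) (lf (nat_lit 18) (nat_lit 271)))) q43926 (by decide +kernel)
def q43928 : Q := Q.p (nat_lit 0x1c0000080003400000000000000000000000000000000000000000000000000000000000000) (nat_lit 0x200000100000800000000000000000000000000000000000000000000000000000000000000) (nat_lit 2)
theorem c43928 : QOK q43928 := cut [] trivial (nd (nat_lit 272) (nat_lit 0) (cs (lf (nat_lit 8) (nat_lit 249)) (lf (nat_lit 18) (nat_lit 271)))) q43928 (by decide +kernel)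
def q43930 : Q := Q.p (nat_lit 0xc00001c0000000000000000000000000000000000000000000000000000000000000000000000000) (nat_lit 0x300000200000000000000000000000000000000000000000000000000000000000000000000000000) (nat_lit 2)
theorem c43930 : QOK q43930 := cut [] trivial (nd (nat_lit 320) (nat_lit 0) (cs (lf (nat_lit 18) (nat_lit 295)) (lf (nat_lit 3) (nat_lit 294)))) q43930 (by decide +kernel)
def q43951 : Q := Q.p (nat_lit 0x4000018000060000100000000000000000000000000000000000000000000000000000000000000000000) (nat_lit 0xc00003000008000000000000000000000000000000000000000000000000000000000000000000000000000000000000) (nat_lit 3)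
theorem c43951 : QOK q43951 := cut [] trivial (nd (nat_lit 361) (nat_lit 0) (cs (lf (nat_lit 28) (nat_lit 272)) (nd (nat_lit 360) (nat_lit 0) (cs (lf (nat_lit 42) (nat_lit 293)) (lf (nat_lit 29) (nat_lit 294)))))) q43951 (by decide +kernel)
def q43961 : Q := Q.p (nat_lit 0x80001e0000080000000000000000000000000000000000000000000000000000000000000000000) (nat_lit 0x4000010000200000000000200000800000000000000000000000000000000000000000000000000000000) (nat_lit 3)
theorem c43961 : QOK q43961 := cut [] trivial (nd (nat_lit 316) (nat_lit 0) (cs (lf (nat_lit 6) (nat_lit 293)) (nd (nat_lit 249) (nat_lit 0) (cs (lf (nat_lit 29) (nat_lit 249)) (lf (nat_lit 24) (nat_lit 227)))))) q43961 (by decide +kernel)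
def q43972 : Q := Q.p (nat_lit 0x10000040000180000000000000000000000000000000000000000000000000000000000000000000000000) (nat_lit 0x4000000000020000000000200000800002000000000000000000000000000000000000000000000000000000000) (nat_lit 3)
theorem c43972 : QOK q43972 := cut [] trivial (nd (nat_lit 273) (nat_lit 0) (cs (lf (nat_lit 42) (nat_lit 273)) (nd (nat_lit 251) (nat_lit 0) (cs (lf (nat_lit 24) (nat_lit 229)) (lf (nat_lit 27) (nat_lit 251)))))) q43972 (by decide +kernel)
def q43990 : Q := Q.p (nat_lit 0x1f0000000000000000000000000000000000000000000000000000000000000000000000000000000) (nat_lit 0xe0000000000000000000000000000000000000000000000000000000000000000000000000000000000000) (nat_lit 2)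
theorem c43990 : QOK q43990 := cut [] trivial (nd (nat_lit 342) (nat_lit 0) (cs (lf (nat_lit 4) (nat_lit 316)) (lf (nat_lit 5) (nat_lit 317)))) q43990 (by decide +kernel)
def q43996 : Q := Q.p (nat_lit 0x6000038000000000000000000000000000000000000000000000000000000000000000000000000000000000000) (nat_lit 0x10000c0000000000000000000000000000000000000000000000000000000000000000000000000000000000000) (nat_lit 2)
theorem c43996 : QOK q43996 := cut [] trivial (nd (nat_lit 342) (nat_lit 0) (cs (lf (nat_lit 11) (nat_lit 338)) (lf (nat_lit 6) (nat_lit 339)))) q43996 (by decide +kernel)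
def q44022 : Q := Q.p (nat_lit 0x4000010000040000180000000000000000000000000000000000000000000000000000000000000000000000000) (nat_lit 0xa0000380000e000010000000000200003a0000200000000000000000000000000000000000000000000000000000000000000000000000000) (nat_lit 8)
theorem c44022 : QOK q44022 := cut [] trivial (nd (nat_lit 384) (nat_lit 0) (cs (lf (nat_lit 46) (nat_lit 295)) (nd (nat_lit 319) (nat_lit 0) (cs (lf (nat_lit 35) (nat_lit 296)) (nd (nat_lit 320) (nat_lit 0) (cs (lf (nat_lit 18) (nat_lit 295)) (nd (nat_lit 406) (nat_lit 0) (cs (lf (nat_lit 34) (nat_lit 318)) (nd (nat_lit 429) (nat_lit 0) (cs (lf (nat_lit 28) (nat_lit 340)) (nd (nat_lit 427) (nat_lit 0) (cs (lf (nat_lit 40) (nat_lit 339)) (nd (nat_lit 428) (nat_lit 0) (cs (lf (nat_lit 41) (nat_lit 361)) (lf (nat_lit 29) (nat_lit 362)))))))))))))))) q44022 (by decide +kernel)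
def q44025 : Q := Q.p (nat_lit 0x4000010000040000180000000000000000000000000000000000000000000000000000000000000000000000000) (nat_lit 0x800003000008000000000020000000000000000000000000000000000000000000000000000000000000000000000000000000) (nat_lit 3)
theorem c44025 : QOK q44025 := cut [] trivial (nd (nat_lit 385) (nat_lit 0) (cs (lf (nat_lit 28) (nat_lit 296)) (nd (nat_lit 384) (nat_lit 0) (cs (lf (nat_lit 29) (nat_lit 318)) (lf (nat_lit 46) (nat_lit 295)))))) q44025 (by decide +kernel)
def q44042 : Q := Q.p (nat_lit 0x20000080001e00000000000000000000000000000000000000000000000000000000000000) (nat_lit 0x8000000000000000100000e00000000000000000000000000000000000000000000000000000000) (nat_lit 3)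
theorem c44042 : QOK q44042 := cut [] trivial (nd (nat_lit 226) (nat_lit 0) (cs (lf (nat_lit 22) (nat_lit 226)) (nd (nat_lit 248) (nat_lit 0) (cs (lf (nat_lit 42) (nat_lit 226)) (lf (nat_lit 23) (nat_lit 225)))))) q44042 (by decide +kernel)
def q44056 : Q := Q.p (nat_lit 0x40000180000200000800000000000000000000000000000000000000000000000000000000000000) (nat_lit 0x4000010000020000000000000000000000000000000000000000000000000000000000000000000000000000000) (nat_lit 2)
theorem c44056 : QOK q44056 := cut [] trivial (nd (nat_lit 340) (nat_lit 0) (cs (lf (nat_lit 27) (nat_lit 251)) (lf (nat_lit 42) (nat_lit 273)))) q44056 (by decide +kernel)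
def q44066 : Q := Q.p (nat_lit 0x58000120000000000000000000000000000000000000000000000000000000000000000000000000) (nat_lit 0x20000210000000000000000000000000000000000000000000000000000000000000000000000000) (nat_lit 2)
theorem c44066 : QOK q44066 := cut [] trivial (nd (nat_lit 317) (nat_lit 0) (cs (lf (nat_lit 23) (nat_lit 292)) (lf (nat_lit 17) (nat_lit 293)))) q44066 (by decide +kernel)
def q44068 : Q := Q.p (nat_lit 0x8000020000080001600000800000000000000000000000000000000000000000000000000000000) (nat_lit 0x900000400000000000000000000000000000000000000000000000000000000) (nat_lit 2)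
theorem c44068 : QOK q44068 := cut [] trivial (nd (nat_lit 226) (nat_lit 0) (cs (lf (nat_lit 19) (nat_lit 226)) (lf (nat_lit 46) (nat_lit 226)))) q44068 (by decide +kernel)

end Crest.Agent.H3.Snaky.CR
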