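import Crest.Agent.H3.Snaky.Cert
import Crest.Agent.H3.Snaky.CR.CR0
import Crest.Agent.H3.Snaky.CR.CR1
import Crest.Agent.H3.Snaky.CR.CR2
import Crest.Agent.H3.Snaky.CR.CR3
import Crest.Agent.H3.Snaky.CR.CR4
import Crest.Agent.H3.Snaky.CR.CR5
import Crest.Agent.H3.Snaky.CR.CR6
import Crest.Agent.H3.Snaky.CR.CR7
import Crest.Agent.H3.Snaky.CR.CR8
import Crest.Agent.H3.Snaky.CR.CR9

set_option autoImplicit false
set_option maxRecDepth 100000

namespace Crest.Agent.H3.Snaky.CR

open T

def q35645 : Q := Q.p (nat_lit 0x40000e00000000000000000000000000000000000) (nat_lit 0xea0001180000700000000000000000000000000000) (nat_lit 6)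
theorem c35645 : QOK q35645 := cut [q35642] ⟨c35642, trivial⟩ (nd (nat_lit 140) (nat_lit 0) (cs (lf (nat_lit 11) (nat_lit 139)) (nd (nat_lit 117) (nat_lit 0) (cs (lf (nat_lit 22) (nat_lit 117)) (nd (nat_lit 116) (nat_lit 0) (cs (lf (nat_lit 21) (nat_lit 116)) (rf (nat_lit 0)))))))) q35645 (by decide +kernel)
def q35647 : Q := Q.p (nat_lit 0x40000e00000000000000000000000000000000000) (nat_lit 0xa000110000e000000000000000000000000000000) (nat_lit 4)
theorem c35647 : QOK q35647 := cut [q19539] ⟨c19539, trivial⟩ (nd (nat_lit 144) (nat_lit 0) (cs (lf (nat_lit 10) (nat_lit 140)) (nd (nat_lit 122) (nat_lit 0) (cs (lf (nat_lit 17) (nat_lit 119)) (rf (nat_lit 0)))))) q35647 (by decide +kernel)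
def q35670 : Q := Q.p (nat_lit 0x10000040000040000c00000000000000000000000000000000000) (nat_lit 0x2000008000080000380003200003e00006000010000000000000000000) (nat_lit 9)
theorem c35670 : QOK q35670 := cut [q33468] ⟨c33468, trivial⟩ (nd (nat_lit 164) (nat_lit 0) (cs (lf (nat_lit 35) (nat_lit 120)) (nd (nat_lit 207) (nat_lit 0) (cs (lf (nat_lit 41) (nat_lit 141)) (nd (nat_lit 119) (nat_lit 0) (cs (lf (nat_lit 46) (nat_lit 119)) (nd (nat_lit 120) (nat_lit 0) (cs (lf (nat_lit 47) (nat_lit 97)) (nd (nat_lit 117) (nat_lit 0) (cs (lf (nat_lit 1) (nat_lit 117)) (nd (nat_lit 144) (nat_lit 0) (cs (lf (nat_lit 18) (nat_lit 119)) (nd (nat_lit 165) (nat_lit 0) (cs (lf (nat_lit 13) (nat_lit 140)) (rf (nat_lit 0)))))))))))))))) q35670 (by decide +kernel)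
def q35700 : Q := Q.p (nat_lit 0x40000100000600001000000000000000000000000) (nat_lit 0x4000010000020000080000000000800004000010000000000000) (nat_lit 4)
theorem c35700 : QOK q35700 := cut [q35698] ⟨c35698, trivial⟩ (nd (nat_lit 184) (nat_lit 0) (cs (lf (nat_lit 47) (nat_lit 95)) (nd (nat_lit 139) (nat_lit 0) (cs (lf (nat_lit 42) (nat_lit 117)) (rf (nat_lit 0)))))) q35700 (by decide +kernel)
def q35727 : Q := Q.p (nat_lit 0x2000008000020000080000000000000000000000000000) (nat_lit 0x400001000004000000000040000300000400000000000000000) (nat_lit 4)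
theorem c35727 : QOK q35727 := cut [q17989] ⟨c17989, trivial⟩ (nd (nat_lit 180) (nat_lit 0) (cs (nd (nat_lit 93) (nat_lit 0) (cs (rf (nat_lit 0)) (lf (nat_lit 40) (nat_lit 92)))) (lf (nat_lit 41) (nat_lit 114)))) q35727 (by decide +kernel)
def q35733 : Q := Q.p (nat_lit 0x8000020000080000200000000000000000000000) (nat_lit 0x500001c00005000000000000) (nat_lit 4)
theorem c35733 : QOK q35733 := cut [q34111] ⟨c34111, trivial⟩ (nd (nat_lit 72) (nat_lit 0) (cs (lf (nat_lit 34) (nat_lit 71)) (nd (nat_lit 71) (nat_lit 0) (cs (lf (nat_lit 35) (nat_lit 49)) (rf (nat_lit 0)))))) q35733 (by decide +kernel)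
def q35863 : Q := Q.p (nat_lit 0x10000040000040000700000000000000000000000000000000000) (nat_lit 0x80000e8000180000e000000000000000000000000000000) (nat_lit 4)
theorem c35863 : QOK q35863 := cut [q32513, q35642, q8235] ⟨c32513, c35642, c8235, trivial⟩ (nd (nat_lit 143) (nat_lit 0) (cs (rf (nat_lit 0)) (cs (rf (nat_lit 1)) (nd (nat_lit 144) (nat_lit 0) (cs (lf (nat_lit 10) (nat_lit 140)) (rf (nat_lit 2))))))) q35863 (by decide +kernel)
def q35866 : Q := Q.p (nat_lit 0x40000780000200000000000000000000000000000) (nat_lit 0x10000030000000000000000800002000000000000000000) (nat_lit 3)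
theorem c35866 : QOK q35866 := cut [q35865] ⟨c35865, trivial⟩ (nd (nat_lit 161) (nat_lit 0) (cs (lf (nat_lit 11) (nat_lit 138)) (rf (nat_lit 0)))) q35866 (by decide +kernel)
def q35869 : Q := Q.p (nat_lit 0x40000700000000000000000000000000000000000) (nat_lit 0xea0001800000000000000000000000000000000000) (nat_lit 4)
theorem c35869 : QOK q35869 := cut [q35642] ⟨c35642, trivial⟩ (nd (nat_lit 143) (nat_lit 0) (cs (lf (nat_lit 11) (nat_lit 139)) (rf (nat_lit 0)))) q35869 (by decide +kernel)
def q35877 : Q := Q.p (nat_lit 0x10000040000300000000000000000000000000000000000) (nat_lit 0x4000000000080000000000800002000008000000000000000000) (nat_lit 3)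
theorem c35877 : QOK q35877 := cut [q9071] ⟨c9071, trivial⟩ (nd (nat_lit 119) (nat_lit 0) (cs (lf (nat_lit 30) (nat_lit 118)) (rf (nat_lit 0)))) q35877 (by decide +kernel)
def q35888 : Q := Q.p (nat_lit 0x40000180000200000000000000000000000000000) (nat_lit 0x4000010000000000000000400000800002000000000000000000) (nat_lit 3)
theorem c35888 : QOK q35888 := cut [q32783] ⟨c32783, trivial⟩ (nd (nat_lit 184) (nat_lit 0) (cs (lf (nat_lit 42) (nat_lit 117)) (rf (nat_lit 0)))) q35888 (by decide +kernel)
def q35894 : Q := Q.p (nat_lit 0x40000380000800000000000000000000000000000) (nat_lit 0x9c000060001000000000000000000000000000000) (nat_lit 4)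
theorem c35894 : QOK q35894 := cut [q35885] ⟨c35885, trivial⟩ (nd (nat_lit 138) (nat_lit 0) (cs (lf (nat_lit 17) (nat_lit 116)) (rf (nat_lit 0)))) q35894 (by decide +kernel)
def q35906 : Q := Q.p (nat_lit 0x40000300000800000000000000000000000000000) (nat_lit 0x4000010000000000000000400002000008000000000000000000) (nat_lit 3)
theorem c35906 : QOK q35906 := cut [q35905] ⟨c35905, trivial⟩ (nd (nat_lit 184) (nat_lit 0) (cs (lf (nat_lit 30) (nat_lit 118)) (rf (nat_lit 0)))) q35906 (by decide +kernel)
def q35941 : Q := Q.p (nat_lit 0x2000000000040000780000000000000000000000000000000000) (nat_lit 0x800000000008000030000000000400000000000000000000000000000) (nat_lit 3)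
theorem c35941 : QOK q35941 := cut [q35940] ⟨c35940, trivial⟩ (nd (nat_lit 161) (nat_lit 0) (cs (lf (nat_lit 11) (nat_lit 138)) (rf (nat_lit 0)))) q35941 (by decide +kernel)
def q35962 : Q := Q.p (nat_lit 0x400003c0000000000000000000000000000000000) (nat_lit 0x800000200001c0000000000000000000000000000) (nat_lit 3)
theorem c35962 : QOK q35962 := cut [q6489] ⟨c6489, trivial⟩ (nd (nat_lit 137) (nat_lit 0) (cs (rf (nat_lit 0)) (lf (nat_lit 5) (nat_lit 137)))) q35962 (by decide +kernel)
def q35974 : Q := Q.p (nat_lit 0x1e0000200000000000000000000000000000) (nat_lit 0x100004e0000000000000000000000000000) (nat_lit 3)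
theorem c35974 : QOK q35974 := cut [q17720] ⟨c17720, trivial⟩ (nd (nat_lit 136) (nat_lit 0) (cs (rf (nat_lit 0)) (lf (nat_lit 17) (nat_lit 114)))) q35974 (by decide +kernel)
def q36006 : Q := Q.p (nat_lit 0x10000040000140000500000000000000000000000000000000000) (nat_lit 0x10000000000200001c00003000008000020000000000000) (nat_lit 5)
theorem c36006 : QOK q36006 := cut [q32972] ⟨c32972, trivial⟩ (nd (nat_lit 119) (nat_lit 0) (cs (lf (nat_lit 46) (nat_lit 119)) (nd (nat_lit 97) (nat_lit 0) (cs (lf (nat_lit 45) (nat_lit 97)) (nd (nat_lit 118) (nat_lit 0) (cs (lf (nat_lit 30) (nat_lit 96)) (rf (nat_lit 0)))))))) q36006 (by decide +kernel)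
def q36014 : Q := Q.p (nat_lit 0x2000000000060000100000000000000000000000000000000000) (nat_lit 0x800000000018000000000000000400001000000000000000000000000) (nat_lit 3)
theorem c36014 : QOK q36014 := cut [q36013] ⟨c36013, trivial⟩ (nd (nat_lit 183) (nat_lit 0) (cs (lf (nat_lit 30) (nat_lit 139)) (rf (nat_lit 0)))) q36014 (by decide +kernel)
def q36025 : Q := Q.p (nat_lit 0x12000040000140000500000000000000000000000000000000000) (nat_lit 0x2c0000c000090000000000000000000000000000000000000000000000) (nat_lit 4)
theorem c36025 : QOK q36025 := cut [q32480] ⟨c32480, trivial⟩ (nd (nat_lit 207) (nat_lit 0) (cs (lf (nat_lit 41) (nat_lit 141)) (nd (nat_lit 206) (nat_lit 0) (cs (lf (nat_lit 17) (nat_lit 183)) (rf (nat_lit 0)))))) q36025 (by decide +kernel)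
def q36027 : Q := Q.p (nat_lit 0x40000140000500000400002000000000000000000000000) (nat_lit 0x1800001000008000020000000000000) (nat_lit 3)
theorem c36027 : QOK q36027 := cut [q32972] ⟨c32972, trivial⟩ (nd (nat_lit 119) (nat_lit 0) (cs (lf (nat_lit 45) (nat_lit 97)) (rf (nat_lit 0)))) q36027 (by decide +kernel)
def q36032 : Q := Q.p (nat_lit 0x2000048000140000100000000000000000000000000000000000) (nat_lit 0x8000000000840000a0000000000000000000000000000000000000000) (nat_lit 3)
theorem c36032 : QOK q36032 := cut [q36031] ⟨c36031, trivial⟩ (nd (nat_lit 161) (nat_lit 0) (cs (lf (nat_lit 30) (nat_lit 139)) (rf (nat_lit 0)))) q36032 (by decide +kernel)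
def q36084 : Q := Q.p (nat_lit 0x10000040000100000400000000000000000000000000000) (nat_lit 0x40000000000000000c0003a00002800000000000000000000000) (nat_lit 5)
theorem c36084 : QOK q36084 := cut [q36081] ⟨c36081, trivial⟩ (nd (nat_lit 119) (nat_lit 0) (cs (lf (nat_lit 35) (nat_lit 96)) (nd (nat_lit 117) (nat_lit 0) (cs (lf (nat_lit 47) (nat_lit 95)) (nd (nat_lit 139) (nat_lit 0) (cs (lf (nat_lit 42) (nat_lit 117)) (rf (nat_lit 0)))))))) q36084 (by decide +kernel)
def q36094 : Q := Q.p (nat_lit 0x1e000040000000000000000000000000000000000000000) (nat_lit 0xe00001000020000000000000000000000000000000000000000) (nat_lit 3)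
theorem c36094 : QOK q36094 := cut [q17239] ⟨c17239, trivial⟩ (nd (nat_lit 180) (nat_lit 0) (cs (rf (nat_lit 0)) (lf (nat_lit 16) (nat_lit 158)))) q36094 (by decide +kernel)
def q36115 : Q := Q.p (nat_lit 0x10000040000180000600000000000000000000000000000) (nat_lit 0x40003800002000000000000000000000000) (nat_lit 3)
theorem c36115 : QOK q36115 := cut [q36081] ⟨c36081, trivial⟩ (nd (nat_lit 119) (nat_lit 0) (cs (lf (nat_lit 35) (nat_lit 96)) (rf (nat_lit 0)))) q36115 (by decide +kernel)
def q36151 : Q := Q.p (nat_lit 0x14000050000040000100000000000000000000000000000000000) (nat_lit 0x280000a000080000000000000000000000000000000000000000000000) (nat_lit 3)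
theorem c36151 : QOK q36151 := cut [q35417] ⟨c35417, trivial⟩ (nd (nat_lit 205) (nat_lit 0) (cs (lf (nat_lit 41) (nat_lit 139)) (rf (nat_lit 0)))) q36151 (by decide +kernel)
def q36167 : Q := Q.p (nat_lit 0x40000780000000000000000000000000000000000) (nat_lit 0x180000060000380000000000000000000000000000) (nat_lit 4)
theorem c36167 : QOK q36167 := cut [q27363] ⟨c27363, trivial⟩ (nd (nat_lit 116) (nat_lit 0) (cs (lf (nat_lit 22) (nat_lit 116)) (nd (nat_lit 138) (nat_lit 0) (cs (lf (nat_lit 23) (nat_lit 115)) (rf (nat_lit 0)))))) q36167 (by decide +kernel)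
def q36172 : Q := Q.p (nat_lit 0x100000780000000000000000000000000000000000) (nat_lit 0xb8000040000000000000000000000000000000000) (nat_lit 3)
theorem c36172 : QOK q36172 := cut [q33796] ⟨c33796, trivial⟩ (nd (nat_lit 138) (nat_lit 0) (cs (lf (nat_lit 4) (nat_lit 138)) (rf (nat_lit 0)))) q36172 (by decide +kernel)
def q36195 : Q := Q.p (nat_lit 0x400003c0000000000000000000000000000000000) (nat_lit 0x2e0000300001c0000000000000000000000000000) (nat_lit 5)
theorem c36195 : QOK q36195 := cut [q36193] ⟨c36193, trivial⟩ (nd (nat_lit 115) (nat_lit 0) (cs (lf (nat_lit 22) (nat_lit 115)) (nd (nat_lit 137) (nat_lit 0) (cs (lf (nat_lit 23) (nat_lit 114)) (rf (nat_lit 0)))))) q36195 (by decide +kernel)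
def q36249 : Q := Q.p (nat_lit 0x18000040000040000580000000000000000000000000000000000) (nat_lit 0x20000000000000003a0000060000000000000000000000000000000000) (nat_lit 4)
theorem c36249 : QOK q36249 := cut [q12330] ⟨c12330, trivial⟩ (nd (nat_lit 164) (nat_lit 0) (cs (lf (nat_lit 41) (nat_lit 141)) (nd (nat_lit 163) (nat_lit 0) (cs (lf (nat_lit 18) (nat_lit 139)) (rf (nat_lit 0)))))) q36249 (by decide +kernel)
def q36297 : Q := Q.p (nat_lit 0x180001e0000000000000000000000000000000000) (nat_lit 0x40000000000000000c0000200000800000000000000000) (nat_lit 3)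
theorem c36297 : QOK q36297 := cut [q36296] ⟨c36296, trivial⟩ (nd (nat_lit 115) (nat_lit 0) (cs (lf (nat_lit 23) (nat_lit 114)) (rf (nat_lit 0)))) q36297 (by decide +kernel)
def q36321 : Q := Q.p (nat_lit 0x40000180000200000000000000000000000000000) (nat_lit 0x4000010000020000000000000000800002000000000000000000) (nat_lit 3)
theorem c36321 : QOK q36321 := cut [q35146] ⟨c35146, trivial⟩ (nd (nat_lit 184) (nat_lit 0) (cs (lf (nat_lit 42) (nat_lit 117)) (rf (nat_lit 0)))) q36321 (by decide +kernel)
def q36422 : Q := Q.p (nat_lit 0x80000e000000000000000000000000) (nat_lit 0x100000c4000110000e0000080000200000000) (nat_lit 6)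
theorem c36422 : QOK q36422 := cut [q36418] ⟨c36418, trivial⟩ (nd (nat_lit 100) (nat_lit 0) (cs (lf (nat_lit 11) (nat_lit 96)) (nd (nat_lit 78) (nat_lit 0) (cs (lf (nat_lit 17) (nat_lit 75)) (nd (nat_lit 77) (nat_lit 0) (cs (lf (nat_lit 12) (nat_lit 74)) (nd (nat_lit 122) (nat_lit 0) (cs (lf (nat_lit 5) (nat_lit 97)) (rf (nat_lit 0)))))))))) q36422 (by decide +kernel)
def q36506 : Q := Q.p (nat_lit 0x2000008000060000000000000000000000000000000000000000) (nat_lit 0x800000000010000000000100000400001000000000000000000000000) (nat_lit 3)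
theorem c36506 : QOK q36506 := cut [q36013] ⟨c36013, trivial⟩ (nd (nat_lit 140) (nat_lit 0) (cs (lf (nat_lit 30) (nat_lit 139)) (rf (nat_lit 0)))) q36506 (by decide +kernel)
def q36537 : Q := Q.p (nat_lit 0x60000080000200000000000000000000000000000) (nat_lit 0x14000010000100000000001800006000010000000000000) (nat_lit 5)
theorem c36537 : QOK q36537 := cut [q36535] ⟨c36535, trivial⟩ (nd (nat_lit 95) (nat_lit 0) (cs (lf (nat_lit 29) (nat_lit 95)) (nd (nat_lit 160) (nat_lit 0) (cs (lf (nat_lit 41) (nat_lit 94)) (rf (nat_lit 0)))))) q36537 (by decide +kernel)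
def q36550 : Q := Q.p (nat_lit 0x60000080000200000000000000000000000000000) (nat_lit 0x14000010000040000000001800006000010000000000000) (nat_lit 5)
theorem c36550 : QOK q36550 := cut [q36549] ⟨c36549, trivial⟩ (nd (nat_lit 95) (nat_lit 0) (cs (lf (nat_lit 29) (nat_lit 95)) (rf (nat_lit 0)))) q36550 (by decide +kernel)
def q36587 : Q := Q.p (nat_lit 0x800002000008000060000000000000000000000000000000000000000) (nat_lit 0x200000000000000014000010000040000000000000000000000000000000000) (nat_lit 3)
theorem c36587 : QOK q36587 := cut [q5269] ⟨c5269, trivial⟩ (nd (nat_lit 249) (nat_lit 0) (cs (lf (nat_lit 34) (nat_lit 161)) (rf (nat_lit 0)))) q36587 (by decide +kernel)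
def q36606 : Q := Q.p (nat_lit 0x2000008000060000080000000000000000000000000000000000) (nat_lit 0x40000100000600001c0001700005c0000000000000000000000000000) (nat_lit 8)
theorem c36606 : QOK q36606 := cut [q36577] ⟨c36577, trivial⟩ (nd (nat_lit 138) (nat_lit 0) (cs (lf (nat_lit 47) (nat_lit 116)) (nd (nat_lit 137) (nat_lit 0) (cs (lf (nat_lit 0) (nat_lit 136)) (nd (nat_lit 204) (nat_lit 0) (cs (lf (nat_lit 41) (nat_lit 138)) (rf (nat_lit 0)))))))) q36606 (by decide +kernel)
def q36609 : Q := Q.p (nat_lit 0x800002000008000020000000000000000000000000000000000000000) (nat_lit 0x500001400005000000000000000080000000000000000000000000000000000) (nat_lit 4)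
theorem c36609 : QOK q36609 := cut [q5258] ⟨c5258, trivial⟩ (nd (nat_lit 228) (nat_lit 0) (cs (lf (nat_lit 29) (nat_lit 161)) (nd (nat_lit 139) (nat_lit 0) (cs (rf (nat_lit 0)) (lf (nat_lit 28) (nat_lit 139)))))) q36609 (by decide +kernel)
def q36613 : Q := Q.p (nat_lit 0x10000060000080000000000000000000000000000000000) (nat_lit 0x1000004000008000000000000000200000800000000000000000000000) (nat_lit 3)
theorem c36613 : QOK q36613 := cut [q18485] ⟨c18485, trivial⟩ (nd (nat_lit 206) (nat_lit 0) (cs (lf (nat_lit 42) (nat_lit 139)) (rf (nat_lit 0)))) q36613 (by decide +kernel)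
def q36614 : Q := Q.p (nat_lit 0x60000080000200000000000000000000000000000) (nat_lit 0x10000000000100000000001800006000010000000000000) (nat_lit 4)
theorem c36614 : QOK q36614 := cut [q36535] ⟨c36535, trivial⟩ (nd (nat_lit 95) (nat_lit 0) (cs (lf (nat_lit 29) (nat_lit 95)) (rf (nat_lit 0)))) q36614 (by decide +kernel)
def q36621 : Q := Q.p (nat_lit 0x10000040000160000480000200000000000000000000000000000) (nat_lit 0x3c0000f000098000000000100000000000000000000000000000000000) (nat_lit 6)
theorem c36621 : QOK q36621 := cut [q36616] ⟨c36616, trivial⟩ (nd (nat_lit 206) (nat_lit 0) (cs (nd (nat_lit 184) (nat_lit 0) (cs (lf (nat_lit 45) (nat_lit 117)) (lf (nat_lit 27) (nat_lit 117)))) (cs (nd (nat_lit 207) (nat_lit 0) (cs (lf (nat_lit 41) (nat_lit 141)) (nd (nat_lit 205) (nat_lit 0) (cs (lf (nat_lit 17) (nat_lit 183)) (nd (nat_lit 183) (nat_lit 0) (cs (lf (nat_lit 29) (nat_lit 139)) (rf (nat_lit 0)))))))) (nd (nat_lit 184) (nat_lit 0) (cs (lf (nat_lit 42) (nat_lit 139)) (lf (nat_lit 45) (nat_lit 117))))))) q36621 (by decide +kernel)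
def q36625 : Q := Q.p (nat_lit 0x20000080000200000800000000000000000000000) (nat_lit 0x1400007000014000000000000) (nat_lit 4)
theorem c36625 : QOK q36625 := cut [q36623] ⟨c36623, trivial⟩ (nd (nat_lit 74) (nat_lit 0) (cs (lf (nat_lit 34) (nat_lit 73)) (nd (nat_lit 73) (nat_lit 0) (cs (lf (nat_lit 35) (nat_lit 51)) (rf (nat_lit 0)))))) q36625 (by decide +kernel)
def q36630 : Q := Q.p (nat_lit 0x20000080000200000800000000000000000000000) (nat_lit 0x8000000000000000c00001700005000000000000000000) (nat_lit 5)
theorem c36630 : QOK q36630 := cut [q34239] ⟨c34239, trivial⟩ (nd (nat_lit 96) (nat_lit 0) (cs (lf (nat_lit 35) (nat_lit 73)) (nd (nat_lit 118) (nat_lit 0) (cs (rf (nat_lit 0)) (lf (nat_lit 30) (nat_lit 95)))))) q36630 (by decide +kernel)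
def q36670 : Q := Q.p (nat_lit 0x2000018000060000080000000000000000000000000000000000) (nat_lit 0x300000c00001000000000000000000000000000000000000000000000000000) (nat_lit 3)
theorem c36670 : QOK q36670 := cut [q36669] ⟨c36669, trivial⟩ (nd (nat_lit 226) (nat_lit 0) (cs (lf (nat_lit 40) (nat_lit 138)) (rf (nat_lit 0)))) q36670 (by decide +kernel)
def q36718 : Q := Q.p (nat_lit 0x6000008000140000080000000000000000000000000000000000) (nat_lit 0x10000000000000000a0000040000100000000000000000000000000000) (nat_lit 3)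
theorem c36718 : QOK q36718 := cut [q36717] ⟨c36717, trivial⟩ (nd (nat_lit 161) (nat_lit 0) (cs (lf (nat_lit 29) (nat_lit 139)) (rf (nat_lit 0)))) q36718 (by decide +kernel)
def q36725 : Q := Q.p (nat_lit 0x2000008000060000080000000000000000000000000000000000) (nat_lit 0x100000700001c00001000010000000000000000000000000000000000000000000000) (nat_lit 5)
theorem c36725 : QOK q36725 := cut [q36722] ⟨c36722, trivial⟩ (nd (nat_lit 226) (nat_lit 0) (cs (lf (nat_lit 40) (nat_lit 138)) (nd (nat_lit 227) (nat_lit 0) (cs (lf (nat_lit 41) (nat_lit 160)) (nd (nat_lit 249) (nat_lit 0) (cs (lf (nat_lit 34) (nat_lit 161)) (rf (nat_lit 0)))))))) q36725 (by decide +kernel)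
def q36735 : Q := Q.p (nat_lit 0x800002000008000040000000000000000000000000000000000000000) (nat_lit 0x500001c0000700000000000000010000000000000000000000000000000000000000000000) (nat_lit 5)
theorem c36735 : QOK q36735 := cut [q12039] ⟨c12039, trivial⟩ (nd (nat_lit 249) (nat_lit 0) (cs (lf (nat_lit 34) (nat_lit 161)) (nd (nat_lit 272) (nat_lit 0) (cs (lf (nat_lit 28) (nat_lit 183)) (nd (nat_lit 270) (nat_lit 0) (cs (lf (nat_lit 40) (nat_lit 182)) (rf (nat_lit 0)))))))) q36735 (by decide +kernel)
def q36754 : Q := Q.p (nat_lit 0x20000080000200000800000000000000000000000) (nat_lit 0x100000c000010000000000100001400005000000000000000000) (nat_lit 5)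
theorem c36754 : QOK q36754 := cut [q19001] ⟨c19001, trivial⟩ (nd (nat_lit 182) (nat_lit 0) (cs (lf (nat_lit 40) (nat_lit 94)) (nd (nat_lit 74) (nat_lit 0) (cs (lf (nat_lit 34) (nat_lit 73)) (nd (nat_lit 183) (nat_lit 0) (cs (rf (nat_lit 0)) (lf (nat_lit 41) (nat_lit 116)))))))) q36754 (by decide +kernel)
def q36758 : Q := Q.p (nat_lit 0x1c000008000020000080000000000000000000000000000000000) (nat_lit 0x1c00003000000000000000000000000000000000000000000000000000) (nat_lit 3)
theorem c36758 : QOK q36758 := cut [q36616] ⟨c36616, trivial⟩ (nd (nat_lit 205) (nat_lit 0) (cs (lf (nat_lit 29) (nat_lit 139)) (rf (nat_lit 0)))) q36758 (by decide +kernel)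
def q36813 : Q := Q.p (nat_lit 0x3c00000000000000000000000000000000000) (nat_lit 0x3800004000039800000000000000000000000000000) (nat_lit 5)
theorem c36813 : QOK q36813 := cut [q18312] ⟨c18312, trivial⟩ (nd (nat_lit 124) (nat_lit 0) (cs (lf (nat_lit 16) (nat_lit 120)) (nd (nat_lit 119) (nat_lit 0) (cs (lf (nat_lit 22) (nat_lit 119)) (rf (nat_lit 0)))))) q36813 (by decide +kernel)
def q36819 : Q := Q.p (nat_lit 0x40001c00000000000000000000000000000000000) (nat_lit 0x80000e8000030000c000010000040000000000000000000) (nat_lit 6)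
theorem c36819 : QOK q36819 := cut [q32588] ⟨c32588, trivial⟩ (nd (nat_lit 141) (nat_lit 0) (cs (lf (nat_lit 10) (nat_lit 140)) (rf (nat_lit 0)))) q36819 (by decide +kernel)
def q36903 : Q := Q.p (nat_lit 0x1e00000000000000000000000000000000000) (nat_lit 0x1c0000200001c000000000000000000000000000000) (nat_lit 4)
theorem c36903 : QOK q36903 := cut [q5746] ⟨c5746, trivial⟩ (nd (nat_lit 167) (nat_lit 0) (cs (lf (nat_lit 4) (nat_lit 141)) (nd (nat_lit 123) (nat_lit 0) (cs (rf (nat_lit 0)) (lf (nat_lit 16) (nat_lit 119)))))) q36903 (by decide +kernel)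
def q36913 : Q := Q.p (nat_lit 0x60000600000000000000000000000000000000000) (nat_lit 0x98000180000000000000000000000000000000000) (nat_lit 3)
theorem c36913 : QOK q36913 := cut [q36912] ⟨c36912, trivial⟩ (nd (nat_lit 160) (nat_lit 0) (cs (lf (nat_lit 15) (nat_lit 138)) (rf (nat_lit 0)))) q36913 (by decide +kernel)
def q36946 : Q := Q.p (nat_lit 0x78000000000000000000000000000000000000000) (nat_lit 0x200001b8000060001c0000100000400000000000000000000000) (nat_lit 7)
theorem c36946 : QOK q36946 := cut [q36940] ⟨c36940, trivial⟩ (nd (nat_lit 180) (nat_lit 0) (cs (lf (nat_lit 10) (nat_lit 158)) (nd (nat_lit 158) (nat_lit 0) (cs (lf (nat_lit 11) (nat_lit 157)) (nd (nat_lit 139) (nat_lit 0) (cs (lf (nat_lit 17) (nat_lit 136)) (nd (nat_lit 138) (nat_lit 0) (cs (lf (nat_lit 12) (nat_lit 135)) (nd (nat_lit 183) (nat_lit 0) (cs (rf (nat_lit 0)) (lf (nat_lit 5) (nat_lit 158)))))))))))) q36946 (by decide +kernel)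
def q36973 : Q := Q.p (nat_lit 0x40000060000580000600000000000000000000000000000) (nat_lit 0x300000f0001000008700019c0006700000000000000000000000) (nat_lit 11)
theorem c36973 : QOK q36973 := cut [q36964] ⟨c36964, trivial⟩ (nd (nat_lit 183) (nat_lit 0) (cs (lf (nat_lit 30) (nat_lit 117)) (nd (nat_lit 182) (nat_lit 0) (cs (lf (nat_lit 41) (nat_lit 116)) (nd (nat_lit 180) (nat_lit 0) (cs (lf (nat_lit 13) (nat_lit 158)) (nd (nat_lit 116) (nat_lit 0) (cs (lf (nat_lit 47) (nat_lit 94)) (nd (nat_lit 115) (nat_lit 0) (cs (lf (nat_lit 0) (nat_lit 114)) (nd (nat_lit 92) (nat_lit 0) (cs (lf (nat_lit 22) (nat_lit 92)) (nd (nat_lit 137) (nat_lit 0) (cs (lf (nat_lit 11) (nat_lit 114)) (nd (nat_lit 119) (nat_lit 0) (cs (lf (nat_lit 10) (nat_lit 115)) (nd (nat_lit 97) (nat_lit 0) (cs (lf (nat_lit 17) (nat_lit 94)) (rf (nat_lit 0)))))))))))))))))))) q36973 (by decide +kernel)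
def q37006 : Q := Q.p (nat_lit 0x40000c00000000000000000000000000000000000) (nat_lit 0x3b0003300000000000000000000000000000000000) (nat_lit 4)
theorem c37006 : QOK q37006 := cut [q4532] ⟨c4532, trivial⟩ (nd (nat_lit 163) (nat_lit 0) (cs (nd (nat_lit 144) (nat_lit 0) (cs (lf (nat_lit 9) (nat_lit 140)) (nd (nat_lit 164) (nat_lit 0) (cs (lf (nat_lit 15) (nat_lit 140)) (lf (nat_lit 6) (nat_lit 141)))))) (cs (nd (nat_lit 141) (nat_lit 0) (cs (lf (nat_lit 6) (nat_lit 140)) (nd (nat_lit 161) (nat_lit 0) (cs (lf (nat_lit 12) (nat_lit 138)) (lf (nat_lit 9) (nat_lit 139)))))) (cs (nd (nat_lit 161) (nat_lit 0) (cs (lf (nat_lit 15) (nat_lit 139)) (nd (nat_lit 141) (nat_lit 0) (cs (lf (nat_lit 12) (nat_lit 138)) (lf (nat_lit 9) (nat_lit 139)))))) (nd (nat_lit 164) (nat_lit 0) (cs (lf (nat_lit 12) (nat_lit 139)) (rf (nat_lit 0)))))))) q37006 (by decide +kernel)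
def q37074 : Q := Q.p (nat_lit 0x10000040000140000400000000000000000000000000000000000) (nat_lit 0xa0003a00002000000000000000000000000000000) (nat_lit 4)
theorem c37074 : QOK q37074 := cut [q37017] ⟨c37017, trivial⟩ (nd (nat_lit 143) (nat_lit 0) (cs (lf (nat_lit 35) (nat_lit 120)) (rf (nat_lit 0)))) q37074 (by decide +kernel)
def q37092 : Q := Q.p (nat_lit 0x80001e0000080000000000000000000000000000000000) (nat_lit 0x4000010000200000000000200000800000000000000000000000) (nat_lit 3)
theorem c37092 : QOK q37092 := cut [q37091] ⟨c37091, trivial⟩ (nd (nat_lit 184) (nat_lit 0) (cs (lf (nat_lit 6) (nat_lit 161)) (rf (nat_lit 0)))) q37092 (by decide +kernel)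
def q37100 : Q := Q.p (nat_lit 0x60000780000000000000000000000000000000000) (nat_lit 0x10000000000000000300000800002000000000000000000) (nat_lit 3)
theorem c37100 : QOK q37100 := cut [q35865] ⟨c35865, trivial⟩ (nd (nat_lit 117) (nat_lit 0) (cs (lf (nat_lit 23) (nat_lit 116)) (rf (nat_lit 0)))) q37100 (by decide +kernel)
def q37146 : Q := Q.p (nat_lit 0x20000080000200000800000000000000000000000) (nat_lit 0x4000010000040000000000400003000004000000000000) (nat_lit 4)
theorem c37146 : QOK q37146 := cut [q36623] ⟨c36623, trivial⟩ (nd (nat_lit 160) (nat_lit 0) (cs (lf (nat_lit 41) (nat_lit 94)) (nd (nat_lit 73) (nat_lit 0) (cs (lf (nat_lit 40) (nat_lit 72)) (rf (nat_lit 0)))))) q37146 (by decide +kernel)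
def q37167 : Q := Q.p (nat_lit 0x400001c0000000000000000000000000000000000000000) (nat_lit 0x380000220000000000000000000000000000000000000000) (nat_lit 3)
theorem c37167 : QOK q37167 := cut [q10454] ⟨c10454, trivial⟩ (nd (nat_lit 187) (nat_lit 0) (cs (lf (nat_lit 0) (nat_lit 161)) (rf (nat_lit 0)))) q37167 (by decide +kernel)
def q37215 : Q := Q.p (nat_lit 0x10000058000020000000000000000000000000000000000000000) (nat_lit 0xb800024000010000000000000000000000000000000000000000) (nat_lit 4)
theorem c37215 : QOK q37215 := cut [q4752] ⟨c4752, trivial⟩ (nd (nat_lit 185) (nat_lit 0) (cs (lf (nat_lit 23) (nat_lit 160)) (rf (nat_lit 0)))) q37215 (by decide +kernel)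
def q37220 : Q := Q.p (nat_lit 0x1800012000008000020000000000000000000000000000000000000000) (nat_lit 0x10000240000c000000000000000000000000000000000000000000000000000) (nat_lit 3)
theorem c37220 : QOK q37220 := cut [q37219] ⟨c37219, trivial⟩ (nd (nat_lit 226) (nat_lit 0) (cs (lf (nat_lit 41) (nat_lit 160)) (rf (nat_lit 0)))) q37220 (by decide +kernel)
def q37276 : Q := Q.p (nat_lit 0x800002000008000020000000000000000000000000000000000000000) (nat_lit 0x40000300000400000000004000010000040000000000000000000000000000000000) (nat_lit 4)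
theorem c37276 : QOK q37276 := cut [q12121] ⟨c12121, trivial⟩ (nd (nat_lit 248) (nat_lit 0) (cs (lf (nat_lit 40) (nat_lit 160)) (nd (nat_lit 160) (nat_lit 0) (cs (lf (nat_lit 47) (nat_lit 138)) (rf (nat_lit 0)))))) q37276 (by decide +kernel)
def q37283 : Q := Q.p (nat_lit 0xc00003000008000020000000000000000000000000000000000000000) (nat_lit 0x400003000000c00000000000000000000000000000000000000000000000000) (nat_lit 3)
theorem c37283 : QOK q37283 := cut [q37282] ⟨c37282, trivial⟩ (nd (nat_lit 228) (nat_lit 0) (cs (lf (nat_lit 29) (nat_lit 161)) (rf (nat_lit 0)))) q37283 (by decide +kernel)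
def q37287 : Q := Q.p (nat_lit 0x2000008000030000000000000000000000000000000000000000) (nat_lit 0x800000000004000000000040000100000400000000000000000000000) (nat_lit 3)
theorem c37287 : QOK q37287 := cut [q37237] ⟨c37237, trivial⟩ (nd (nat_lit 138) (nat_lit 0) (cs (lf (nat_lit 42) (nat_lit 138)) (rf (nat_lit 0)))) q37287 (by decide +kernel)
def q37299 : Q := Q.p (nat_lit 0x8000020000080000200000000000000000000000000000) (nat_lit 0x500001c00005000000000000000000) (nat_lit 4)
theorem c37299 : QOK q37299 := cut [q19001] ⟨c19001, trivial⟩ (nd (nat_lit 96) (nat_lit 0) (cs (lf (nat_lit 34) (nat_lit 95)) (nd (nat_lit 95) (nat_lit 0) (cs (lf (nat_lit 35) (nat_lit 73)) (rf (nat_lit 0)))))) q37299 (by decide +kernel)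
def q37399 : Q := Q.p (nat_lit 0x800002000008000020000000000000000000000000000000000) (nat_lit 0x140000700001400000000000000000000000000000000000000000000000000) (nat_lit 4)
theorem c37399 : QOK q37399 := cut [q35341] ⟨c35341, trivial⟩ (nd (nat_lit 226) (nat_lit 0) (cs (lf (nat_lit 28) (nat_lit 137)) (nd (nat_lit 225) (nat_lit 0) (cs (lf (nat_lit 29) (nat_lit 159)) (rf (nat_lit 0)))))) q37399 (by decide +kernel)
def q37419 : Q := Q.p (nat_lit 0x1a000060000000000000000000000000000000000000000) (nat_lit 0x500001c000000000000000000000000000000000000000) (nat_lit 3)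
theorem c37419 : QOK q37419 := cut [q37344, q37414] ⟨c37344, c37414, trivial⟩ (nd (nat_lit 159) (nat_lit 0) (cs (rf (nat_lit 0)) (cs (rf (nat_lit 1)) (cs (nd (nat_lit 180) (nat_lit 0) (cs (lf (nat_lit 8) (nat_lit 158)) (lf (nat_lit 14) (nat_lit 158)))) (nd (nat_lit 182) (nat_lit 0) (cs (lf (nat_lit 23) (nat_lit 158)) (lf (nat_lit 12) (nat_lit 158)))))))) q37419 (by decide +kernel)
def q37436 : Q := Q.p (nat_lit 0x1c000070000000000000000000000000000000000000000) (nat_lit 0x80000200001c00003000000000040000100000000000000000000000000000) (nat_lit 5)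
theorem c37436 : QOK q37436 := cut [q37433] ⟨c37433, trivial⟩ (nd (nat_lit 181) (nat_lit 0) (cs (lf (nat_lit 12) (nat_lit 158)) (nd (nat_lit 203) (nat_lit 0) (cs (lf (nat_lit 11) (nat_lit 180)) (nd (nat_lit 225) (nat_lit 0) (cs (lf (nat_lit 30) (nat_lit 159)) (rf (nat_lit 0)))))))) q37436 (by decide +kernel)
def q37438 : Q := Q.p (nat_lit 0x1e000018000000000000000000000000000000000000000) (nat_lit 0x200000c00000000000000040000100000000000000000000000000000) (nat_lit 3)
theorem c37438 : QOK q37438 := cut [q37437] ⟨c37437, trivial⟩ (nd (nat_lit 203) (nat_lit 0) (cs (lf (nat_lit 11) (nat_lit 180)) (rf (nat_lit 0)))) q37438 (by decide +kernel)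
def q37470 : Q := Q.p (nat_lit 0x2000018000060000080000000000000000000000000000000000) (nat_lit 0x40000300000c00000000000000000000000) (nat_lit 3)
theorem c37470 : QOK q37470 := cut [q36586] ⟨c36586, trivial⟩ (nd (nat_lit 116) (nat_lit 0) (cs (lf (nat_lit 46) (nat_lit 116)) (rf (nat_lit 0)))) q37470 (by decide +kernel)
def q37481 : Q := Q.p (nat_lit 0x10000078000100000000000000000000000000000000000000000) (nat_lit 0x2000008000004000000000400001000000000000000000000000000000) (nat_lit 3)
theorem c37481 : QOK q37481 := cut [q1916] ⟨c1916, trivial⟩ (nd (nat_lit 207) (nat_lit 0) (cs (lf (nat_lit 0) (nat_lit 182)) (rf (nat_lit 0)))) q37481 (by decide +kernel)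
def q37486 : Q := Q.p (nat_lit 0x10000078000040000000000000000000000000000000000000000) (nat_lit 0x800002000008000004000300000400000000000000000000000000000000000) (nat_lit 4)
theorem c37486 : QOK q37486 := cut [q37485] ⟨c37485, trivial⟩ (nd (nat_lit 207) (nat_lit 0) (cs (lf (nat_lit 0) (nat_lit 182)) (rf (nat_lit 0)))) q37486 (by decide +kernel)
def q37495 : Q := Q.p (nat_lit 0x8000020000080000200000000000000000000000000000) (nat_lit 0x2000000000000000060001d00001400000000000000000000000) (nat_lit 5)
theorem c37495 : QOK q37495 := cut [q37492] ⟨c37492, trivial⟩ (nd (nat_lit 118) (nat_lit 0) (cs (lf (nat_lit 35) (nat_lit 95)) (nd (nat_lit 116) (nat_lit 0) (cs (lf (nat_lit 47) (nat_lit 94)) (nd (nat_lit 138) (nat_lit 0) (cs (lf (nat_lit 42) (nat_lit 116)) (rf (nat_lit 0)))))))) q37495 (by decide +kernel)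
def q37535 : Q := Q.p (nat_lit 0x1e00000000000000000000000000000000000000000000000000000000) (nat_lit 0xe0000100000e00000000000000000000000000000000000000000000000000) (nat_lit 4)
theorem c37535 : QOK q37535 := cut [q37533] ⟨c37533, trivial⟩ (nd (nat_lit 246) (nat_lit 0) (cs (lf (nat_lit 10) (nat_lit 224)) (nd (nat_lit 224) (nat_lit 0) (cs (lf (nat_lit 11) (nat_lit 223)) (rf (nat_lit 0)))))) q37535 (by decide +kernel)
def q37559 : Q := Q.p (nat_lit 0x1c000070000000000000000000000000000000000000000) (nat_lit 0x40000100000000000c000070000080000200000000000000000000000) (nat_lit 5)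
theorem c37559 : QOK q37559 := cut [q37423] ⟨c37423, trivial⟩ (nd (nat_lit 159) (nat_lit 0) (cs (lf (nat_lit 0) (nat_lit 158)) (nd (nat_lit 137) (nat_lit 0) (cs (lf (nat_lit 23) (nat_lit 136)) (nd (nat_lit 204) (nat_lit 0) (cs (lf (nat_lit 42) (nat_lit 137)) (rf (nat_lit 0)))))))) q37559 (by decide +kernel)
def q37597 : Q := Q.p (nat_lit 0xc000030000040000000000000000000000000000000000) (nat_lit 0x1000000000000000030000f80000e00000000000000000000000) (nat_lit 6)
theorem c37597 : QOK q37597 := cut [q37596] ⟨c37596, trivial⟩ (nd (nat_lit 116) (nat_lit 0) (cs (lf (nat_lit 24) (nat_lit 94)) (rf (nat_lit 0)))) q37597 (by decide +kernel)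
def q37600 : Q := Q.p (nat_lit 0x1c000070000000000000000000000000000000000000000) (nat_lit 0x1c0000300000c000030000080000200000000000000000000000) (nat_lit 6)
theorem c37600 : QOK q37600 := cut [q27611] ⟨c27611, trivial⟩ (nd (nat_lit 181) (nat_lit 0) (cs (lf (nat_lit 12) (nat_lit 158)) (nd (nat_lit 202) (nat_lit 0) (cs (lf (nat_lit 10) (nat_lit 180)) (nd (nat_lit 159) (nat_lit 0) (cs (lf (nat_lit 23) (nat_lit 158)) (rf (nat_lit 0)))))))) q37600 (by decide +kernel)
def q37655 : Q := Q.p (nat_lit 0x8000030000040000000000000000000000000000000000) (nat_lit 0x800002000000000000000080000100000400000000000000000000000) (nat_lit 3)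
theorem c37655 : QOK q37655 := cut [q37288] ⟨c37288, trivial⟩ (nd (nat_lit 205) (nat_lit 0) (cs (lf (nat_lit 42) (nat_lit 138)) (rf (nat_lit 0)))) q37655 (by decide +kernel)
def q37783 : Q := Q.p (nat_lit 0x3000018000060000000000000000000000000000000000000000) (nat_lit 0x400004000000000000000080000200000800000000000000000000000) (nat_lit 3)
theorem c37783 : QOK q37783 := cut [q37091] ⟨c37091, trivial⟩ (nd (nat_lit 139) (nat_lit 0) (cs (lf (nat_lit 41) (nat_lit 138)) (rf (nat_lit 0)))) q37783 (by decide +kernel)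
def q37793 : Q := Q.p (nat_lit 0x2000018000060000040000000000000000000000000000000000) (nat_lit 0x4000000000000000080000300000800000000000000000000000) (nat_lit 3)
theorem c37793 : QOK q37793 := cut [q37091] ⟨c37091, trivial⟩ (nd (nat_lit 139) (nat_lit 0) (cs (lf (nat_lit 47) (nat_lit 116)) (rf (nat_lit 0)))) q37793 (by decide +kernel)
def q37802 : Q := Q.p (nat_lit 0x18000050000160000000000000000000000000000000000000000) (nat_lit 0xac000200000000000000000000000000000000000000000) (nat_lit 3)
theorem c37802 : QOK q37802 := cut [q4876] ⟨c4876, trivial⟩ (nd (nat_lit 185) (nat_lit 0) (cs (lf (nat_lit 18) (nat_lit 161)) (rf (nat_lit 0)))) q37802 (by decide +kernel)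
def q37819 : Q := Q.p (nat_lit 0x1e0000000000000000000000000000000000000000) (nat_lit 0x1c000200001c00000000000000000000000000000000000) (nat_lit 4)
theorem c37819 : QOK q37819 := cut [q6395] ⟨c6395, trivial⟩ (nd (nat_lit 143) (nat_lit 0) (cs (lf (nat_lit 16) (nat_lit 139)) (nd (nat_lit 165) (nat_lit 0) (cs (lf (nat_lit 17) (nat_lit 140)) (rf (nat_lit 0)))))) q37819 (by decide +kernel)
def q37901 : Q := Q.p (nat_lit 0xc000060000000000000000000000000000000000000000) (nat_lit 0x13000180000000000000000000000000000000000000000) (nat_lit 3)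
theorem c37901 : QOK q37901 := cut [q37900] ⟨c37900, trivial⟩ (nd (nat_lit 163) (nat_lit 0) (cs (lf (nat_lit 6) (nat_lit 160)) (rf (nat_lit 0)))) q37901 (by decide +kernel)
def q37909 : Q := Q.p (nat_lit 0x1000000c000020000080000100000000000000000000000000000) (nat_lit 0x100000e000000000000000040000000000000000000000000000000000) (nat_lit 3)
theorem c37909 : QOK q37909 := cut [q34429] ⟨c34429, trivial⟩ (nd (nat_lit 205) (nat_lit 0) (cs (lf (nat_lit 46) (nat_lit 116)) (rf (nat_lit 0)))) q37909 (by decide +kernel)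
def q37928 : Q := Q.p (nat_lit 0x80000200000c000060000000000000000000000000000000000000000) (nat_lit 0x140000700001400000000003000000000000000000000000000000000000000000000) (nat_lit 5)
theorem c37928 : QOK q37928 := cut [q36722] ⟨c36722, trivial⟩ (nd (nat_lit 248) (nat_lit 0) (cs (lf (nat_lit 40) (nat_lit 160)) (nd (nat_lit 180) (nat_lit 0) (cs (lf (nat_lit 13) (nat_lit 158)) (nd (nat_lit 249) (nat_lit 0) (cs (lf (nat_lit 41) (nat_lit 182)) (rf (nat_lit 0)))))))) q37928 (by decide +kernel)
def q37980 : Q := Q.p (nat_lit 0x40000100000400001000000000000000000000000000000000000000000000) (nat_lit 0x8000020000080000000000800006000008000000000000000000000000000000000) (nat_lit 4)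
theorem c37980 : QOK q37980 := cut [q37976] ⟨c37976, trivial⟩ (nd (nat_lit 245) (nat_lit 0) (cs (nd (nat_lit 158) (nat_lit 0) (cs (rf (nat_lit 0)) (lf (nat_lit 40) (nat_lit 157)))) (lf (nat_lit 41) (nat_lit 179)))) q37980 (by decide +kernel)
def q37999 : Q := Q.p (nat_lit 0x80000f0000000000000000000000000000000000000000) (nat_lit 0x1380000c000070000000000000000000000000000000000) (nat_lit 5)
theorem c37999 : QOK q37999 := cut [q37997] ⟨c37997, trivial⟩ (nd (nat_lit 137) (nat_lit 0) (cs (lf (nat_lit 22) (nat_lit 137)) (nd (nat_lit 159) (nat_lit 0) (cs (lf (nat_lit 23) (nat_lit 136)) (rf (nat_lit 0)))))) q37999 (by decide +kernel)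
def q38005 : Q := Q.p (nat_lit 0x80000f0000000000000000000000000000000000000000) (nat_lit 0x15c0000e000070000000000000000000000000000000000) (nat_lit 6)
theorem c38005 : QOK q38005 := cut [q38003] ⟨c38003, trivial⟩ (nd (nat_lit 137) (nat_lit 0) (cs (lf (nat_lit 22) (nat_lit 137)) (nd (nat_lit 159) (nat_lit 0) (cs (lf (nat_lit 23) (nat_lit 136)) (rf (nat_lit 0)))))) q38005 (by decide +kernel)
def q38019 : Q := Q.p (nat_lit 0x80000f0000000000000000000000000000000000000000) (nat_lit 0x17c0000e000000000000000000000000000000000000000) (nat_lit 5)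
theorem c38019 : QOK q38019 := cut [q6386, q37997, q38003] ⟨c6386, c37997, c38003, trivial⟩ (nd (nat_lit 159) (nat_lit 0) (cs (rf (nat_lit 0)) (cs (rf (nat_lit 1)) (cs (rf (nat_lit 2)) (nd (nat_lit 158) (nat_lit 0) (cs (lf (nat_lit 5) (nat_lit 158)) (nd (nat_lit 182) (nat_lit 0) (cs (lf (nat_lit 11) (nat_lit 159)) (lf (nat_lit 0) (nat_lit 157)))))))))) q38019 (by decide +kernel)
def q38021 : Q := Q.p (nat_lit 0x100000400000e0000000000000000000000000000000000000000) (nat_lit 0x80000110000e00000800000000000000000000000000000) (nat_lit 4)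
theorem c38021 : QOK q38021 := cut [q37828] ⟨c37828, trivial⟩ (nd (nat_lit 164) (nat_lit 0) (cs (lf (nat_lit 5) (nat_lit 161)) (rf (nat_lit 0)))) q38021 (by decide +kernel)
def q38032 : Q := Q.p (nat_lit 0x1200000c000020000000000000000000000000000000000000000) (nat_lit 0x140000d000000000000000080000200000000000000000000000000000) (nat_lit 4)
theorem c38032 : QOK q38032 := cut [q38031] ⟨c38031, trivial⟩ (nd (nat_lit 206) (nat_lit 0) (cs (lf (nat_lit 19) (nat_lit 182)) (rf (nat_lit 0)))) q38032 (by decide +kernel)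
def q38038 : Q := Q.p (nat_lit 0xc0000f0000000000000000000000000000000000000000) (nat_lit 0x1000000e000070000000000000000000000000000000000) (nat_lit 4)
theorem c38038 : QOK q38038 := cut [q38036] ⟨c38036, trivial⟩ (nd (nat_lit 137) (nat_lit 0) (cs (lf (nat_lit 22) (nat_lit 137)) (nd (nat_lit 159) (nat_lit 0) (cs (lf (nat_lit 23) (nat_lit 136)) (rf (nat_lit 0)))))) q38038 (by decide +kernel)
def q38048 : Q := Q.p (nat_lit 0x40000100000c000030000000000000000000000000000000000000000) (nat_lit 0x1000000e000020000000000000000000000000000000000) (nat_lit 3)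
theorem c38048 : QOK q38048 := cut [q38036] ⟨c38036, trivial⟩ (nd (nat_lit 159) (nat_lit 0) (cs (lf (nat_lit 47) (nat_lit 137)) (rf (nat_lit 0)))) q38048 (by decide +kernel)
def q38063 : Q := Q.p (nat_lit 0x300000c000010000040000000000000000000000000000000000) (nat_lit 0x200000e00010000000000000000000000000000000000000000000000) (nat_lit 3)
theorem c38063 : QOK q38063 := cut [q38062] ⟨c38062, trivial⟩ (nd (nat_lit 203) (nat_lit 0) (cs (lf (nat_lit 41) (nat_lit 137)) (rf (nat_lit 0)))) q38063 (by decide +kernel)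
def q38136 : Q := Q.p (nat_lit 0xc000060000000000000000000000000000000000000000) (nat_lit 0x70000fc0003f0000fe0001300001f0000700001c0000700000000000000000000000) (nat_lit 12)
theorem c38136 : QOK q38136 := cut [q37769, q37437, q34501, q38103, q37433, q35341, q38122] ⟨c37769, c37437, c34501, c38103, c37433, c35341, c38122, trivial⟩ (nd (nat_lit 181) (nat_lit 0) (cs (lf (nat_lit 12) (nat_lit 158)) (nd (nat_lit 203) (nat_lit 0) (cs (nd (nat_lit 159) (nat_lit 0) (cs (nd (nat_lit 184) (nat_lit 0) (cs (lf (nat_lit 11) (nat_lit 180)) (lf (nat_lit 23) (nat_lit 158)))) (cs (nd (nat_lit 202) (nat_lit 0) (cs (nd (nat_lit 137) (nat_lit 0) (cs (lf (nat_lit 41) (nat_lit 136)) (rf (nat_lit 0)))) (lf (nat_lit 6) (nat_lit 180)))) (nd (nat_lit 160) (nat_lit 0) (cs (rf (nat_lit 1)) (cs (nd (nat_lit 225) (nat_lit 0) (cs (lf (nat_lit 30) (nat_lit 159)) (rf (nat_lit 2)))) (nd (nat_lit 116) (nat_lit 0) (cs (lf (nat_lit 37) (nat_lit 115)) (nd (nat_lit 157) (nat_lit 0) (cs (lf (nat_lit 1) (nat_lit 157)) (nd (nat_lit 137) (nat_lit 0) (cs (lf (nat_lit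 23) (nat_lit 136)) (nd (nat_lit 115) (nat_lit 0) (cs (lf (nat_lit 35) (nat_lit 93)) (lf (nat_lit 24) (nat_lit 93)))))))))))))))) (cs (nd (nat_lit 159) (nat_lit 0) (cs (nd (nat_lit 158) (nat_lit 0) (cs (nd (nat_lit 156) (nat_lit 0) (cs (nd (nat_lit 136) (nat_lit 0) (cs (nd (nat_lit 114) (nat_lit 0) (cs (lf (nat_lit 24) (nat_lit 92)) (lf (nat_lit 45) (nat_lit 114)))) (lf (nat_lit 42) (nat_lit 136)))) (lf (nat_lit 1) (nat_lit 156)))) (lf (nat_lit 18) (nat_lit 158)))) (cs (nd (nat_lit 226) (nat_lit 0) (cs (nd (nat_lit 204) (nat_lit 0) (cs (lf (nat_lit 24) (nat_lit 137)) (lf (nat_lit 42) (nat_lit 159)))) (cs (nd (nat_lit 225) (nat_lit 0) (cs (lf (nat_lit 29) (nat_lit 159)) (nd (nat_lit 160) (nat_lit 0) (cs (lf (nat_lit 30) (nat_lit 159)) (lf (nat_lit 35) (nat_lit 137)))))) (nd (nat_lit 137) (nat_lit 0) (cs (lf (nat_lit 28) (nat_lit 137)) (rf (nat_lit 0))))))) (rf (nat_lit 3))))) (cs (nd (nat_lit 225) (nat_lit 0) (cs (nd (nat_lit 160) (nat_lit 0) (cs (lf (nat_lit 30) (nat_lit 159)) (rf (nat_lit 4)))) (cs (nd (nat_lit 160) (nat_lit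 0) (cs (lf (nat_lit 30) (nat_lit 159)) (nd (nat_lit 138) (nat_lit 0) (cs (lf (nat_lit 33) (nat_lit 137)) (lf (nat_lit 36) (nat_lit 115)))))) (cs (nd (nat_lit 159) (nat_lit 0) (cs (nd (nat_lit 226) (nat_lit 0) (cs (lf (nat_lit 29) (nat_lit 159)) (nd (nat_lit 137) (nat_lit 0) (cs (lf (nat_lit 28) (nat_lit 137)) (rf (nat_lit 5)))))) (nd (nat_lit 160) (nat_lit 0) (cs (lf (nat_lit 35) (nat_lit 137)) (nd (nat_lit 158) (nat_lit 0) (cs (lf (nat_lit 47) (nat_lit 136)) (lf (nat_lit 0) (nat_lit 157)))))))) (nd (nat_lit 248) (nat_lit 0) (cs (nd (nat_lit 226) (nat_lit 0) (cs (lf (nat_lit 24) (nat_lit 159)) (lf (nat_lit 32) (nat_lit 160)))) (cs (nd (nat_lit 247) (nat_lit 0) (cs (lf (nat_lit 29) (nat_lit 181)) (nd (nat_lit 204) (nat_lit 0) (cs (lf (nat_lit 30) (nat_lit 181)) (nd (nat_lit 201) (nat_lit 0) (cs (nd (nat_lit 246) (nat_lit 0) (cs (lf (nat_lit 41) (nat_lit 180)) (nd (nat_lit 159) (nat_lit 0) (cs (lf (nat_lit 40) (nat_lit 158)) (nd (nat_lit 136) (nat_lit 0) (cs (lf (nat_lit 46) (nat_lit 136)) (nd (nat_lit 137) (nat_lit 0) (cs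 (lf (nat_lit 24) (nat_lit 115)) (lf (nat_lit 47) (nat_lit 114)))))))))) (lf (nat_lit 13) (nat_lit 179)))))))) (cs (nd (nat_lit 247) (nat_lit 0) (cs (lf (nat_lit 29) (nat_lit 181)) (rf (nat_lit 6)))) (nd (nat_lit 247) (nat_lit 0) (cs (lf (nat_lit 29) (nat_lit 181)) (nd (nat_lit 204) (nat_lit 0) (cs (lf (nat_lit 30) (nat_lit 181)) (lf (nat_lit 31) (nat_lit 160)))))))))))))) (nd (nat_lit 184) (nat_lit 0) (cs (lf (nat_lit 11) (nat_lit 180)) (nd (nat_lit 206) (nat_lit 0) (cs (lf (nat_lit 5) (nat_lit 181)) (nd (nat_lit 228) (nat_lit 0) (cs (lf (nat_lit 42) (nat_lit 161)) (nd (nat_lit 227) (nat_lit 0) (cs (lf (nat_lit 41) (nat_lit 161)) (nd (nat_lit 229) (nat_lit 0) (cs (lf (nat_lit 29) (nat_lit 162)) (nd (nat_lit 204) (nat_lit 0) (cs (lf (nat_lit 2) (nat_lit 203)) (lf (nat_lit 21) (nat_lit 203)))))))))))))))))))) q38136 (by decide +kernel)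
def q38138 : Q := Q.p (nat_lit 0xc000060000000000000000000000000000000000000000) (nat_lit 0x3000190000000000000000000000000000000000000000) (nat_lit 3)
theorem c38138 : QOK q38138 := cut [q38137] ⟨c38137, trivial⟩ (nd (nat_lit 181) (nat_lit 0) (cs (lf (nat_lit 12) (nat_lit 158)) (rf (nat_lit 0)))) q38138 (by decide +kernel)
def q38181 : Q := Q.p (nat_lit 0x78000000000000000000000000000000000000000) (nat_lit 0x1dc00006000038000000000000000000000000000000000) (nat_lit 6)
theorem c38181 : QOK q38181 := cut [q38177] ⟨c38177, trivial⟩ (nd (nat_lit 136) (nat_lit 0) (cs (lf (nat_lit 22) (nat_lit 136)) (nd (nat_lit 158) (nat_lit 0) (cs (lf (nat_lit 23) (nat_lit 135)) (nd (nat_lit 179) (nat_lit 0) (cs (lf (nat_lit 10) (nat_lit 157)) (nd (nat_lit 157) (nat_lit 0) (cs (lf (nat_lit 11) (nat_lit 156)) (rf (nat_lit 0)))))))))) q38181 (by decide +kernel)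
def q38185 : Q := Q.p (nat_lit 0x78000000000000000000000000000000000000000) (nat_lit 0x1f80000600001c000000000000000000000000000000000) (nat_lit 6)
theorem c38185 : QOK q38185 := cut [q38177] ⟨c38177, trivial⟩ (nd (nat_lit 180) (nat_lit 0) (cs (lf (nat_lit 10) (nat_lit 158)) (nd (nat_lit 158) (nat_lit 0) (cs (lf (nat_lit 11) (nat_lit 157)) (nd (nat_lit 135) (nat_lit 0) (cs (lf (nat_lit 22) (nat_lit 135)) (nd (nat_lit 157) (nat_lit 0) (cs (lf (nat_lit 23) (nat_lit 134)) (rf (nat_lit 0)))))))))) q38185 (by decide +kernel)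
def q38195 : Q := Q.p (nat_lit 0x1000000c000030000040000000000000000000000000000000000) (nat_lit 0x180000f000000000000000080000200000800000000000000000000000) (nat_lit 5)
theorem c38195 : QOK q38195 := cut [q23975] ⟨c23975, trivial⟩ (nd (nat_lit 205) (nat_lit 0) (cs (lf (nat_lit 42) (nat_lit 138)) (nd (nat_lit 206) (nat_lit 0) (cs (lf (nat_lit 19) (nat_lit 182)) (nd (nat_lit 139) (nat_lit 0) (cs (lf (nat_lit 29) (nat_lit 139)) (rf (nat_lit 0)))))))) q38195 (by decide +kernel)
def q38212 : Q := Q.p (nat_lit 0x400000e0000000000000000000000000000000000000000) (nat_lit 0x1b0000010000000000000000000000000000000000000000) (nat_lit 3)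
theorem c38212 : QOK q38212 := cut [q3484] ⟨c3484, trivial⟩ (nd (nat_lit 185) (nat_lit 0) (cs (lf (nat_lit 0) (nat_lit 160)) (rf (nat_lit 0)))) q38212 (by decide +kernel)
def q38214 : Q := Q.p (nat_lit 0xf0000000000000000000000000000000000000000) (nat_lit 0x100000ee0000000000000000000000000000000000) (nat_lit 4)
theorem c38214 : QOK q38214 := cut [q12361] ⟨c12361, trivial⟩ (nd (nat_lit 138) (nat_lit 0) (cs (lf (nat_lit 23) (nat_lit 137)) (nd (nat_lit 164) (nat_lit 0) (cs (lf (nat_lit 22) (nat_lit 138)) (rf (nat_lit 0)))))) q38214 (by decide +kernel)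
def q38220 : Q := Q.p (nat_lit 0xf0000000000000000000000000000000000000000) (nat_lit 0xe000100000e00000000000000000000000000000000000) (nat_lit 4)
theorem c38220 : QOK q38220 := cut [q38218] ⟨c38218, trivial⟩ (nd (nat_lit 142) (nat_lit 0) (cs (lf (nat_lit 16) (nat_lit 138)) (nd (nat_lit 182) (nat_lit 0) (cs (lf (nat_lit 11) (nat_lit 159)) (rf (nat_lit 0)))))) q38220 (by decide +kernel)
def q38233 : Q := Q.p (nat_lit 0x78000040000000000000000000000000000000000000000) (nat_lit 0x200000800007000000000000000100000400000000000000000000000000000) (nat_lit 4)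
theorem c38233 : QOK q38233 := cut [q18923] ⟨c18923, trivial⟩ (nd (nat_lit 205) (nat_lit 0) (cs (lf (nat_lit 11) (nat_lit 182)) (nd (nat_lit 227) (nat_lit 0) (cs (lf (nat_lit 30) (nat_lit 161)) (rf (nat_lit 0)))))) q38233 (by decide +kernel)
def q38243 : Q := Q.p (nat_lit 0x2000018000060000180000000000000000000000000000000000) (nat_lit 0x400001c00000000080000070000100000000000000000000000000000) (nat_lit 5)
theorem c38243 : QOK q38243 := cut [q38241] ⟨c38241, trivial⟩ (nd (nat_lit 204) (nat_lit 0) (cs (lf (nat_lit 41) (nat_lit 138)) (nd (nat_lit 202) (nat_lit 0) (cs (lf (nat_lit 13) (nat_lit 180)) (rf (nat_lit 0)))))) q38243 (by decide +kernel)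
def q38272 : Q := Q.p (nat_lit 0x70000040000000000000000000000000000000000) (nat_lit 0x800000b8000000000000000000000000000000000) (nat_lit 3)
theorem c38272 : QOK q38272 := cut [q37663] ⟨c37663, trivial⟩ (nd (nat_lit 137) (nat_lit 0) (cs (lf (nat_lit 18) (nat_lit 137)) (rf (nat_lit 0)))) q38272 (by decide +kernel)
def q38277 : Q := Q.p (nat_lit 0x2000078000000000000000000000000000000000000000) (nat_lit 0x800000000080000070000100000400000000000000000000000) (nat_lit 4)
theorem c38277 : QOK q38277 := cut [q38275] ⟨c38275, trivial⟩ (nd (nat_lit 137) (nat_lit 0) (cs (lf (nat_lit 23) (nat_lit 136)) (nd (nat_lit 138) (nat_lit 0) (cs (lf (nat_lit 18) (nat_lit 137)) (rf (nat_lit 0)))))) q38277 (by decide +kernel)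
def q38312 : Q := Q.p (nat_lit 0xc00002000008000020000000000000000000000000000000000) (nat_lit 0x10000000000100000c0000100000000000000000000000) (nat_lit 3)
theorem c38312 : QOK q38312 := cut [q17981] ⟨c17981, trivial⟩ (nd (nat_lit 115) (nat_lit 0) (cs (rf (nat_lit 0)) (lf (nat_lit 40) (nat_lit 114)))) q38312 (by decide +kernel)
def q38318 : Q := Q.p (nat_lit 0x20000080000200000c000000000000000000000000000000000000000) (nat_lit 0x100000c0000100000000001000000000000000000000000000000000000000000000) (nat_lit 3)
theorem c38318 : QOK q38318 := cut [q38317] ⟨c38317, trivial⟩ (nd (nat_lit 247) (nat_lit 0) (cs (lf (nat_lit 46) (nat_lit 158)) (rf (nat_lit 0)))) q38318 (by decide +kernel)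
def q38327 : Q := Q.p (nat_lit 0x300000800002000008000000000000000000000000000000000000000) (nat_lit 0x400000000004000030000040000000000000000000000000000) (nat_lit 3)
theorem c38327 : QOK q38327 := cut [q38326] ⟨c38326, trivial⟩ (nd (nat_lit 136) (nat_lit 0) (cs (lf (nat_lit 46) (nat_lit 136)) (rf (nat_lit 0)))) q38327 (by decide +kernel)
def q38362 : Q := Q.p (nat_lit 0x8000030000040000000000000000000000000000000000) (nat_lit 0x800002000004000000000000000100000400000000000000000000000) (nat_lit 3)
theorem c38362 : QOK q38362 := cut [q37237] ⟨c37237, trivial⟩ (nd (nat_lit 205) (nat_lit 0) (cs (lf (nat_lit 42) (nat_lit 138)) (rf (nat_lit 0)))) q38362 (by decide +kernel)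
def q38372 : Q := Q.p (nat_lit 0x18000060000080000200000000000000000000000000000) (nat_lit 0x1000007000080000000000000000000000000000000000000000) (nat_lit 3)
theorem c38372 : QOK q38372 := cut [q38237] ⟨c38237, trivial⟩ (nd (nat_lit 182) (nat_lit 0) (cs (lf (nat_lit 41) (nat_lit 116)) (rf (nat_lit 0)))) q38372 (by decide +kernel)
def q38377 : Q := Q.p (nat_lit 0x50000060000000000000000000000000000000000000000) (nat_lit 0xa0000098000000000000000000000000000000000000000) (nat_lit 3)
theorem c38377 : QOK q38377 := cut [q3733] ⟨c3733, trivial⟩ (nd (nat_lit 185) (nat_lit 0) (cs (lf (nat_lit 18) (nat_lit 161)) (rf (nat_lit 0)))) q38377 (by decide +kernel)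
def q38415 : Q := Q.p (nat_lit 0x3c000040000000000000000000000000000000000000000) (nat_lit 0x200009c000000000000000000000000000000000000000) (nat_lit 3)
theorem c38415 : QOK q38415 := cut [q17223] ⟨c17223, trivial⟩ (nd (nat_lit 181) (nat_lit 0) (cs (rf (nat_lit 0)) (lf (nat_lit 17) (nat_lit 159)))) q38415 (by decide +kernel)
def q38418 : Q := Q.p (nat_lit 0x100000e0000040000000000000000000000000000000000000000) (nat_lit 0x1c8000300000080000000000000000000000000000000000000000) (nat_lit 4)
theorem c38418 : QOK q38418 := cut [q35056] ⟨c35056, trivial⟩ (nd (nat_lit 188) (nat_lit 0) (cs (lf (nat_lit 22) (nat_lit 162)) (rf (nat_lit 0)))) q38418 (by decide +kernel)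
def q38448 : Q := Q.p (nat_lit 0x10000060000180000800000000000000000000000000000) (nat_lit 0x8000000000000000400003000004000000000000000000) (nat_lit 3)
theorem c38448 : QOK q38448 := cut [q38447] ⟨c38447, trivial⟩ (nd (nat_lit 118) (nat_lit 0) (cs (lf (nat_lit 35) (nat_lit 96)) (rf (nat_lit 0)))) q38448 (by decide +kernel)
def q38451 : Q := Q.p (nat_lit 0xc000010000078000000000000000000000000000000000000000) (nat_lit 0xf000080000000000000000000000000000000000000000) (nat_lit 3)
theorem c38451 : QOK q38451 := cut [q38450] ⟨c38450, trivial⟩ (nd (nat_lit 181) (nat_lit 0) (cs (lf (nat_lit 11) (nat_lit 158)) (rf (nat_lit 0)))) q38451 (by decide +kernel)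
def q38457 : Q := Q.p (nat_lit 0x600001a0000000000000000000000000000000000) (nat_lit 0x8000080000040000c00001000004000000000000000000) (nat_lit 4)
theorem c38457 : QOK q38457 := cut [q38447] ⟨c38447, trivial⟩ (nd (nat_lit 138) (nat_lit 0) (cs (lf (nat_lit 5) (nat_lit 137)) (nd (nat_lit 118) (nat_lit 0) (cs (lf (nat_lit 17) (nat_lit 115)) (rf (nat_lit 0)))))) q38457 (by decide +kernel)
def q38480 : Q := Q.p (nat_lit 0x800002000008000020000000000000000000000000000000000) (nat_lit 0x40000300000400000000004000010000040000000000000000000000000000) (nat_lit 4)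
theorem c38480 : QOK q38480 := cut [q27268] ⟨c27268, trivial⟩ (nd (nat_lit 224) (nat_lit 0) (cs (lf (nat_lit 40) (nat_lit 136)) (nd (nat_lit 225) (nat_lit 0) (cs (lf (nat_lit 41) (nat_lit 158)) (rf (nat_lit 0)))))) q38480 (by decide +kernel)
def q38485 : Q := Q.p (nat_lit 0x800002000008000020000000000000000000000000000000000) (nat_lit 0x100000600001000000000004000010000040000000000000000000000000000) (nat_lit 4)
theorem c38485 : QOK q38485 := cut [q38483] ⟨c38483, trivial⟩ (nd (nat_lit 136) (nat_lit 0) (cs (lf (nat_lit 47) (nat_lit 114)) (nd (nat_lit 225) (nat_lit 0) (cs (lf (nat_lit 46) (nat_lit 136)) (rf (nat_lit 0)))))) q38485 (by decide +kernel)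
def q38551 : Q := Q.p (nat_lit 0x10000060000080000000000000000000000000000000000) (nat_lit 0x1000004000000000000000100000200000800000000000000000000000) (nat_lit 3)
theorem c38551 : QOK q38551 := cut [q5853] ⟨c5853, trivial⟩ (nd (nat_lit 206) (nat_lit 0) (cs (lf (nat_lit 42) (nat_lit 139)) (rf (nat_lit 0)))) q38551 (by decide +kernel)
def q38618 : Q := Q.p (nat_lit 0x400000e0000000000000000000000000000000000000000) (nat_lit 0x80000300001dc0000000000000000000000000000000000) (nat_lit 5)
theorem c38618 : QOK q38618 := cut [q2760] ⟨c2760, trivial⟩ (nd (nat_lit 164) (nat_lit 0) (cs (lf (nat_lit 5) (nat_lit 161)) (nd (nat_lit 143) (nat_lit 0) (cs (lf (nat_lit 16) (nat_lit 139)) (nd (nat_lit 165) (nat_lit 0) (cs (lf (nat_lit 17) (nat_lit 140)) (rf (nat_lit 0)))))))) q38618 (by decide +kernel)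
def q38629 : Q := Q.p (nat_lit 0x16000050000140000000000000000000000000000000000000000) (nat_lit 0x2000008000080000000000500000000000000000000000000000000000) (nat_lit 3)
theorem c38629 : QOK q38629 := cut [q38620] ⟨c38620, trivial⟩ (nd (nat_lit 207) (nat_lit 0) (cs (lf (nat_lit 17) (nat_lit 183)) (rf (nat_lit 0)))) q38629 (by decide +kernel)
def q38746 : Q := Q.p (nat_lit 0x8000038000040000000000000000000000000000000000) (nat_lit 0x10000006000180000100000400000000000000000000000) (nat_lit 4)
theorem c38746 : QOK q38746 := cut [q38741] ⟨c38741, trivial⟩ (nd (nat_lit 94) (nat_lit 0) (cs (lf (nat_lit 25) (nat_lit 94)) (rf (nat_lit 0)))) q38746 (by decide +kernel)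
def q38758 : Q := Q.p (nat_lit 0x1e000060000000000000000000000000000000000000000) (nat_lit 0x100000c000000000000000080000200000000000000000000000000000) (nat_lit 3)
theorem c38758 : QOK q38758 := cut [q5968] ⟨c5968, trivial⟩ (nd (nat_lit 206) (nat_lit 0) (cs (rf (nat_lit 0)) (lf (nat_lit 5) (nat_lit 181)))) q38758 (by decide +kernel)
def q38819 : Q := Q.p (nat_lit 0x20000080000e0000080000000000000000000000000000000000) (nat_lit 0x10000070000100000000000000000000000000000) (nat_lit 3)
theorem c38819 : QOK q38819 := cut [q24065] ⟨c24065, trivial⟩ (nd (nat_lit 138) (nat_lit 0) (cs (lf (nat_lit 47) (nat_lit 116)) (rf (nat_lit 0)))) q38819 (by decide +kernel)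
def q38865 : Q := Q.p (nat_lit 0x16000050000040000000000000000000000000000000000000000) (nat_lit 0x2800008000080000000000100000000000000000000000000000000000) (nat_lit 3)
theorem c38865 : QOK q38865 := cut [q38850] ⟨c38850, trivial⟩ (nd (nat_lit 207) (nat_lit 0) (cs (lf (nat_lit 17) (nat_lit 183)) (rf (nat_lit 0)))) q38865 (by decide +kernel)
def q38875 : Q := Q.p (nat_lit 0x40000070000000000000000000000000000000000000000) (nat_lit 0x38000088000000000000000000000000000000000000000) (nat_lit 3)
theorem c38875 : QOK q38875 := cut [q38874] ⟨c38874, trivial⟩ (nd (nat_lit 185) (nat_lit 0) (cs (lf (nat_lit 3) (nat_lit 160)) (rf (nat_lit 0)))) q38875 (by decide +kernel)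
def q38881 : Q := Q.p (nat_lit 0x400000e0000000000000000000000000000000000000000) (nat_lit 0x2e0001100000e0000000000000000000000000000000000) (nat_lit 5)
theorem c38881 : QOK q38881 := cut [q38878] ⟨c38878, trivial⟩ (nd (nat_lit 160) (nat_lit 0) (cs (lf (nat_lit 4) (nat_lit 160)) (rf (nat_lit 0)))) q38881 (by decide +kernel)
def q38883 : Q := Q.p (nat_lit 0x60000060000000000000000000000000000000000000000) (nat_lit 0x180000190000000000000000000000000000000000000000) (nat_lit 3)
theorem c38883 : QOK q38883 := cut [q6330] ⟨c6330, trivial⟩ (nd (nat_lit 163) (nat_lit 0) (cs (lf (nat_lit 0) (nat_lit 160)) (rf (nat_lit 0)))) q38883 (by decide +kernel)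
def q38886 : Q := Q.p (nat_lit 0x60000060000000000000000000000000000000000000000) (nat_lit 0x18000098000000000000000000000000000000000000000) (nat_lit 3)
theorem c38886 : QOK q38886 := cut [q38874] ⟨c38874, trivial⟩ (nd (nat_lit 160) (nat_lit 0) (cs (lf (nat_lit 3) (nat_lit 160)) (rf (nat_lit 0)))) q38886 (by decide +kernel)
def q38887 : Q := Q.p (nat_lit 0x60000060000000000000000000000000000000000000000) (nat_lit 0x98000018000000000000000000000000000000000000000) (nat_lit 3)
theorem c38887 : QOK q38887 := cut [q19013] ⟨c19013, trivial⟩ (nd (nat_lit 184) (nat_lit 0) (cs (lf (nat_lit 18) (nat_lit 161)) (rf (nat_lit 0)))) q38887 (by decide +kernel)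
def q38890 : Q := Q.p (nat_lit 0x180000400001000004000000000000000000000000) (nat_lit 0x200000000002000018000020000000000000) (nat_lit 3)
theorem c38890 : QOK q38890 := cut [q32275] ⟨c32275, trivial⟩ (nd (nat_lit 75) (nat_lit 0) (cs (lf (nat_lit 46) (nat_lit 75)) (rf (nat_lit 0)))) q38890 (by decide +kernel)
def q38937 : Q := Q.p (nat_lit 0x400001c0000080000000000000000000000000000000000) (nat_lit 0x30000e00003900000000000000000000000000000000000) (nat_lit 5)
theorem c38937 : QOK q38937 := cut [q2890] ⟨c2890, trivial⟩ (nd (nat_lit 165) (nat_lit 0) (cs (lf (nat_lit 22) (nat_lit 139)) (nd (nat_lit 144) (nat_lit 0) (cs (lf (nat_lit 16) (nat_lit 140)) (nd (nat_lit 166) (nat_lit 0) (cs (lf (nat_lit 17) (nat_lit 141)) (rf (nat_lit 0)))))))) q38937 (by decide +kernel)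
def q38954 : Q := Q.p (nat_lit 0x12000048000020000000000000000000000000000000000000000) (nat_lit 0x140000d0000240000000001c0000700001400000000000000000000000) (nat_lit 5)
theorem c38954 : QOK q38954 := cut [q35426, q36584] ⟨c35426, c36584, trivial⟩ (nd (nat_lit 139) (nat_lit 0) (cs (rf (nat_lit 0)) (rf (nat_lit 1)))) q38954 (by decide +kernel)
def q38966 : Q := Q.p (nat_lit 0x1e0000000000000000000000000000000000000000) (nat_lit 0x1c0002000001c0000000000000000000000000000000000) (nat_lit 4)
theorem c38966 : QOK q38966 := cut [q36679] ⟨c36679, trivial⟩ (nd (nat_lit 183) (nat_lit 0) (cs (lf (nat_lit 11) (nat_lit 160)) (nd (nat_lit 139) (nat_lit 0) (cs (lf (nat_lit 23) (nat_lit 138)) (rf (nat_lit 0)))))) q38966 (by decide +kernel)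
def q38973 : Q := Q.p (nat_lit 0x78000010000000000000000000000000000000000) (nat_lit 0x4000388000000000000000000000000000000000) (nat_lit 3)
theorem c38973 : QOK q38973 := cut [q34120] ⟨c34120, trivial⟩ (nd (nat_lit 140) (nat_lit 0) (cs (lf (nat_lit 17) (nat_lit 137)) (rf (nat_lit 0)))) q38973 (by decide +kernel)
def q39006 : Q := Q.p (nat_lit 0x400000c0000000000000000000000000000000000000000) (nat_lit 0x3b0000330000000000000000000000000000000000000000) (nat_lit 4)
theorem c39006 : QOK q39006 := cut [q3937, q10454] ⟨c3937, c10454, trivial⟩ (nd (nat_lit 187) (nat_lit 0) (cs (nd (nat_lit 161) (nat_lit 0) (cs (lf (nat_lit 3) (nat_lit 161)) (nd (nat_lit 185) (nat_lit 0) (cs (lf (nat_lit 0) (nat_lit 160)) (lf (nat_lit 21) (nat_lit 161)))))) (cs (nd (nat_lit 185) (nat_lit 0) (cs (lf (nat_lit 18) (nat_lit 162)) (rf (nat_lit 0)))) (cs (nd (nat_lit 164) (nat_lit 0) (cs (lf (nat_lit 0) (nat_lit 161)) (rf (nat_lit 1)))) (nd (nat_lit 188) (nat_lit 0) (cs (lf (nat_lit 21) (nat_lit 162)) (nd (nat_lit 164) (nat_lit 0) (cs (lf (nat_lit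 3) (nat_lit 162)) (lf (nat_lit 18) (nat_lit 163)))))))))) q39006 (by decide +kernel)
def q39007 : Q := Q.p (nat_lit 0x100000400001c0000000000000000000000000000000000000000) (nat_lit 0x80000030000e00000800000000000000000000000000000) (nat_lit 4)
theorem c39007 : QOK q39007 := cut [q37828] ⟨c37828, trivial⟩ (nd (nat_lit 161) (nat_lit 0) (cs (lf (nat_lit 5) (nat_lit 161)) (rf (nat_lit 0)))) q39007 (by decide +kernel)
def q39056 : Q := Q.p (nat_lit 0x30000040000100000400000000000000000000000) (nat_lit 0x80000000000200001800002000000000000) (nat_lit 3)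
theorem c39056 : QOK q39056 := cut [q33866] ⟨c33866, trivial⟩ (nd (nat_lit 72) (nat_lit 0) (cs (lf (nat_lit 28) (nat_lit 72)) (rf (nat_lit 0)))) q39056 (by decide +kernel)
def q39059 : Q := Q.p (nat_lit 0x30000040000100000000000000000000000000000) (nat_lit 0x8000000000080000000000c00003000008000000000000) (nat_lit 4)
theorem c39059 : QOK q39059 := cut [q24003] ⟨c24003, trivial⟩ (nd (nat_lit 94) (nat_lit 0) (cs (rf (nat_lit 0)) (lf (nat_lit 29) (nat_lit 94)))) q39059 (by decide +kernel)
def q39064 : Q := Q.p (nat_lit 0xf0000000000000000000000000000000000000000) (nat_lit 0x8000770000000000000000000000000000000000) (nat_lit 4)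
theorem c39064 : QOK q39064 := cut [q6302] ⟨c6302, trivial⟩ (nd (nat_lit 141) (nat_lit 0) (cs (lf (nat_lit 17) (nat_lit 138)) (nd (nat_lit 159) (nat_lit 0) (cs (rf (nat_lit 0)) (lf (nat_lit 16) (nat_lit 137)))))) q39064 (by decide +kernel)
def q39068 : Q := Q.p (nat_lit 0x100000f0000000000000000000000000000000000000000000000) (nat_lit 0x7000008000700000800002000000000000000000000000000000) (nat_lit 5)
theorem c39068 : QOK q39068 := cut [q19151] ⟨c19151, trivial⟩ (nd (nat_lit 165) (nat_lit 0) (cs (lf (nat_lit 17) (nat_lit 162)) (rf (nat_lit 0)))) q39068 (by decide +kernel)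
def q39080 : Q := Q.p (nat_lit 0x18000070000040000000000000000000000000000000000000000) (nat_lit 0x80000200000000000c000300000400000000000000000000000000000000000) (nat_lit 4)
theorem c39080 : QOK q39080 := cut [q37485] ⟨c37485, trivial⟩ (nd (nat_lit 183) (nat_lit 0) (cs (lf (nat_lit 0) (nat_lit 182)) (rf (nat_lit 0)))) q39080 (by decide +kernel)
def q39088 : Q := Q.p (nat_lit 0x100000f00000c0000000000000000000000000000000000000000) (nat_lit 0x1000006000000000000000200000800000000000000000000000000000) (nat_lit 3)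
theorem c39088 : QOK q39088 := cut [q21442] ⟨c21442, trivial⟩ (nd (nat_lit 141) (nat_lit 0) (cs (lf (nat_lit 24) (nat_lit 119)) (rf (nat_lit 0)))) q39088 (by decide +kernel)
def q39098 : Q := Q.p (nat_lit 0xf0000000000000000000000000000000000000000000000) (nat_lit 0x7000008000700000000000000000000000000000000000000000) (nat_lit 4)
theorem c39098 : QOK q39098 := cut [q39096] ⟨c39096, trivial⟩ (nd (nat_lit 205) (nat_lit 0) (cs (lf (nat_lit 10) (nat_lit 183)) (nd (nat_lit 183) (nat_lit 0) (cs (lf (nat_lit 11) (nat_lit 182)) (rf (nat_lit 0)))))) q39098 (by decide +kernel)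
def q39106 : Q := Q.p (nat_lit 0xe0000040000000000000000000000000000000000000000) (nat_lit 0x1100000b0000000000000000000000000000000000000000) (nat_lit 3)
theorem c39106 : QOK q39106 := cut [q3937] ⟨c3937, trivial⟩ (nd (nat_lit 163) (nat_lit 0) (cs (lf (nat_lit 18) (nat_lit 162)) (rf (nat_lit 0)))) q39106 (by decide +kernel)
def q39119 : Q := Q.p (nat_lit 0x180000600000c0000000000000000000000000000000000000000) (nat_lit 0x1c00007000010000000000300000c00000000000000000000000000000) (nat_lit 6)
theorem c39119 : QOK q39119 := cut [q32480] ⟨c32480, trivial⟩ (nd (nat_lit 141) (nat_lit 0) (cs (lf (nat_lit 24) (nat_lit 119)) (nd (nat_lit 140) (nat_lit 0) (cs (lf (nat_lit 47) (nat_lit 118)) (nd (nat_lit 206) (nat_lit 0) (cs (lf (nat_lit 41) (nat_lit 140)) (nd (nat_lit 205) (nat_lit 0) (cs (lf (nat_lit 12) (nat_lit 182)) (rf (nat_lit 0)))))))))) q39119 (by decide +kernel)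
def q39124 : Q := Q.p (nat_lit 0x180000600000c0000000000000000000000000000000000000000) (nat_lit 0x1000007000000000130001e00001800000000000000000000000000000) (nat_lit 7)
theorem c39124 : QOK q39124 := cut [q24110] ⟨c24110, trivial⟩ (nd (nat_lit 161) (nat_lit 0) (cs (lf (nat_lit 0) (nat_lit 160)) (nd (nat_lit 141) (nat_lit 0) (cs (lf (nat_lit 24) (nat_lit 119)) (nd (nat_lit 206) (nat_lit 0) (cs (lf (nat_lit 41) (nat_lit 140)) (nd (nat_lit 204) (nat_lit 0) (cs (lf (nat_lit 13) (nat_lit 182)) (nd (nat_lit 142) (nat_lit 0) (cs (lf (nat_lit 35) (nat_lit 119)) (rf (nat_lit 0)))))))))))) q39124 (by decide +kernel)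
def q39169 : Q := Q.p (nat_lit 0x20000000000000001e0000000000000000000000000000000000000000000000) (nat_lit 0x180000c0000010000e00000800000000000000000000000000000000000) (nat_lit 5)
theorem c39169 : QOK q39169 := cut [q39168] ⟨c39168, trivial⟩ (nd (nat_lit 210) (nat_lit 0) (cs (lf (nat_lit 5) (nat_lit 185)) (rf (nat_lit 0)))) q39169 (by decide +kernel)
def q39198 : Q := Q.p (nat_lit 0x200000c0000380000000000000000000000000000000000) (nat_lit 0x8000020000460000780007c00007000000000000000000) (nat_lit 9)
theorem c39198 : QOK q39198 := cut [q37103] ⟨c37103, trivial⟩ (nd (nat_lit 96) (nat_lit 0) (cs (lf (nat_lit 25) (nat_lit 96)) (nd (nat_lit 138) (nat_lit 0) (cs (lf (nat_lit 0) (nat_lit 137)) (nd (nat_lit 116) (nat_lit 0) (cs (lf (nat_lit 23) (nat_lit 115)) (nd (nat_lit 117) (nat_lit 0) (cs (lf (nat_lit 18) (nat_lit 116)) (nd (nat_lit 95) (nat_lit 0) (cs (lf (nat_lit 24) (nat_lit 73)) (nd (nat_lit 97) (nat_lit 0) (cs (lf (nat_lit 6) (nat_lit 94)) (nd (nat_lit 161) (nat_lit 0) (cs (lf (nat_lit 35) (nat_lit 73)) (rf (nat_lit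 0)))))))))))))))) q39198 (by decide +kernel)
def q39217 : Q := Q.p (nat_lit 0x100000400001c0000400000000000000000000000000000000000) (nat_lit 0x1a00002800000000000000000000000000000) (nat_lit 3)
theorem c39217 : QOK q39217 := cut [q39216] ⟨c39216, trivial⟩ (nd (nat_lit 141) (nat_lit 0) (cs (lf (nat_lit 47) (nat_lit 119)) (rf (nat_lit 0)))) q39217 (by decide +kernel)
def q39236 : Q := Q.p (nat_lit 0x3c0000300000000000000000000000000000000000) (nat_lit 0x300000c0001b8000000000000000600001800006000000000000000000) (nat_lit 8)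
theorem c39236 : QOK q39236 := cut [q33403] ⟨c33403, trivial⟩ (nd (nat_lit 184) (nat_lit 0) (cs (lf (nat_lit 11) (nat_lit 161)) (nd (nat_lit 187) (nat_lit 0) (cs (lf (nat_lit 5) (nat_lit 162)) (nd (nat_lit 206) (nat_lit 0) (cs (lf (nat_lit 30) (nat_lit 140)) (nd (nat_lit 207) (nat_lit 0) (cs (lf (nat_lit 29) (nat_lit 140)) (nd (nat_lit 118) (nat_lit 0) (cs (lf (nat_lit 28) (nat_lit 118)) (rf (nat_lit 0)))))))))))) q39236 (by decide +kernel)
def q39297 : Q := Q.p (nat_lit 0x10000040000100000600000000000000000000000000000) (nat_lit 0x800006000008000000000080000000000000000000000000000000000) (nat_lit 3)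
theorem c39297 : QOK q39297 := cut [q32518] ⟨c32518, trivial⟩ (nd (nat_lit 206) (nat_lit 0) (cs (lf (nat_lit 46) (nat_lit 117)) (rf (nat_lit 0)))) q39297 (by decide +kernel)
def q39306 : Q := Q.p (nat_lit 0x10000040000100000000001800000000000000000000000000000) (nat_lit 0xc0000200000a000000000000000000000000) (nat_lit 3)
theorem c39306 : QOK q39306 := cut [q615] ⟨c615, trivial⟩ (nd (nat_lit 142) (nat_lit 0) (cs (lf (nat_lit 47) (nat_lit 97)) (rf (nat_lit 0)))) q39306 (by decide +kernel)
def q39320 : Q := Q.p (nat_lit 0x40000100000000001c00000000000000000000000000000) (nat_lit 0x40000220000e000020000000000000000000) (nat_lit 4)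
theorem c39320 : QOK q39320 := cut [q34010] ⟨c34010, trivial⟩ (nd (nat_lit 142) (nat_lit 0) (cs (lf (nat_lit 47) (nat_lit 97)) (rf (nat_lit 0)))) q39320 (by decide +kernel)
def q39323 : Q := Q.p (nat_lit 0x3c00000000000000000000000000000) (nat_lit 0x3800004000038000000000000000000000000) (nat_lit 4)
theorem c39323 : QOK q39323 := cut [q34906] ⟨c34906, trivial⟩ (nd (nat_lit 100) (nat_lit 0) (cs (lf (nat_lit 16) (nat_lit 96)) (nd (nat_lit 122) (nat_lit 0) (cs (lf (nat_lit 17) (nat_lit 97)) (rf (nat_lit 0)))))) q39323 (by decide +kernel)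
def q39341 : Q := Q.p (nat_lit 0x10000050000040000200000800000000000000000000000000000) (nat_lit 0x1000004000020000080000100000000000000000000000000000000000) (nat_lit 3)
theorem c39341 : QOK q39341 := cut [q39340] ⟨c39340, trivial⟩ (nd (nat_lit 163) (nat_lit 0) (cs (lf (nat_lit 27) (nat_lit 119)) (rf (nat_lit 0)))) q39341 (by decide +kernel)
def q39343 : Q := Q.p (nat_lit 0x10000040000200000800000000000000000000000000000) (nat_lit 0x4000000000000000100000400002000008000000000000000000) (nat_lit 3)
theorem c39343 : QOK q39343 := cut [q35905] ⟨c35905, trivial⟩ (nd (nat_lit 140) (nat_lit 0) (cs (lf (nat_lit 30) (nat_lit 118)) (rf (nat_lit 0)))) q39343 (by decide +kernel)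
def q39473 : Q := Q.p (nat_lit 0x40000100000c0000300000000000000000000000000000000000) (nat_lit 0x20000000000080000600001800004000000000000000000) (nat_lit 4)
theorem c39473 : QOK q39473 := cut [q32515] ⟨c32515, trivial⟩ (nd (nat_lit 117) (nat_lit 0) (cs (lf (nat_lit 46) (nat_lit 117)) (nd (nat_lit 118) (nat_lit 0) (cs (lf (nat_lit 47) (nat_lit 95)) (rf (nat_lit 0)))))) q39473 (by decide +kernel)
def q39497 : Q := Q.p (nat_lit 0x100000c0000200000000000000000000000000000000000) (nat_lit 0x1000004000000000000000100000800002000000000000000000000000) (nat_lit 3)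
theorem c39497 : QOK q39497 := cut [q12395] ⟨c12395, trivial⟩ (nd (nat_lit 206) (nat_lit 0) (cs (lf (nat_lit 30) (nat_lit 140)) (rf (nat_lit 0)))) q39497 (by decide +kernel)
def q39506 : Q := Q.p (nat_lit 0x78000000000000000000000000000000000000000000000) (nat_lit 0x3800004000380000000000000000000000000000000000000000) (nat_lit 4)
theorem c39506 : QOK q39506 := cut [q20644] ⟨c20644, trivial⟩ (nd (nat_lit 204) (nat_lit 0) (cs (lf (nat_lit 10) (nat_lit 182)) (nd (nat_lit 182) (nat_lit 0) (cs (lf (nat_lit 11) (nat_lit 181)) (rf (nat_lit 0)))))) q39506 (by decide +kernel)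
def q39739 : Q := Q.p (nat_lit 0xe0000040000000000000000000000000000000000000000) (nat_lit 0x1000001b0000000000000000000000000000000000000000) (nat_lit 3)
theorem c39739 : QOK q39739 := cut [q3738] ⟨c3738, trivial⟩ (nd (nat_lit 163) (nat_lit 0) (cs (lf (nat_lit 18) (nat_lit 162)) (rf (nat_lit 0)))) q39739 (by decide +kernel)
def q39743 : Q := Q.p (nat_lit 0x180000600000e0000300000000000000000000000000000000000) (nat_lit 0x180000700000c000000000000000000000000000000000000000000000) (nat_lit 4)
theorem c39743 : QOK q39743 := cut [q38920] ⟨c38920, trivial⟩ (nd (nat_lit 206) (nat_lit 0) (cs (lf (nat_lit 41) (nat_lit 140)) (rf (nat_lit 0)))) q39743 (by decide +kernel)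
def q39773 : Q := Q.p (nat_lit 0x18000070000040000000000000000000000000000000000000000) (nat_lit 0x20000080000700000c000300000500001400000000000000000000000000000) (nat_lit 7)
theorem c39773 : QOK q39773 := cut [q7284] ⟨c7284, trivial⟩ (nd (nat_lit 140) (nat_lit 0) (cs (lf (nat_lit 24) (nat_lit 118)) (nd (nat_lit 183) (nat_lit 0) (cs (lf (nat_lit 0) (nat_lit 182)) (nd (nat_lit 164) (nat_lit 0) (cs (lf (nat_lit 17) (nat_lit 161)) (nd (nat_lit 120) (nat_lit 0) (cs (lf (nat_lit 37) (nat_lit 119)) (nd (nat_lit 205) (nat_lit 0) (cs (lf (nat_lit 11) (nat_lit 182)) (rf (nat_lit 0)))))))))))) q39773 (by decide +kernel)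
def q39826 : Q := Q.p (nat_lit 0x60000080000200000000000000000000000000000) (nat_lit 0x10000000000100000000000c00003000004000000000000) (nat_lit 4)
theorem c39826 : QOK q39826 := cut [q36623] ⟨c36623, trivial⟩ (nd (nat_lit 95) (nat_lit 0) (cs (lf (nat_lit 29) (nat_lit 95)) (nd (nat_lit 73) (nat_lit 0) (cs (lf (nat_lit 28) (nat_lit 73)) (rf (nat_lit 0)))))) q39826 (by decide +kernel)
def q39990 : Q := Q.p (nat_lit 0x58000060000000000000000000000000000000000000000) (nat_lit 0x500002700001c0003f0000fc0003f00000000000000000000000) (nat_lit 14)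
theorem c39990 : QOK q39990 := cut [q34083] ⟨c34083, trivial⟩ (nd (nat_lit 160) (nat_lit 0) (cs (lf (nat_lit 19) (nat_lit 160)) (nd (nat_lit 159) (nat_lit 0) (cs (lf (nat_lit 0) (nat_lit 158)) (nd (nat_lit 140) (nat_lit 0) (cs (lf (nat_lit 17) (nat_lit 137)) (nd (nat_lit 118) (nat_lit 0) (cs (lf (nat_lit 36) (nat_lit 95)) (nd (nat_lit 180) (nat_lit 0) (cs (lf (nat_lit 10) (nat_lit 158)) (nd (nat_lit 97) (nat_lit 0) (cs (lf (nat_lit 34) (nat_lit 96)) (nd (nat_lit 136) (nat_lit 0) (cs (lf (nat_lit 22) (nat_lit 136)) (nd (nat_lit 117) (nat_lit 0) (cs (lf (nat_lit 47) (nat_lit 95)) (nd (nat_lit 139) (nat_lit 0) (cs (lf (nat_lit 29) (nat_lit 117)) (nd (nat_lit 182) (nat_lit 0) (cs (rf (nat_lit 0)) (lf (nat_lit 41) (nat_lit 116)))))))))))))))))))))) q39990 (by decide +kernel)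
def q39994 : Q := Q.p (nat_lit 0x58000060000000000000000000000000000000000000000) (nat_lit 0x200002000001c000300000400001000000000000000000000000) (nat_lit 5)
theorem c39994 : QOK q39994 := cut [q38259] ⟨c38259, trivial⟩ (nd (nat_lit 160) (nat_lit 0) (cs (lf (nat_lit 19) (nat_lit 160)) (rf (nat_lit 0)))) q39994 (by decide +kernel)
def q40051 : Q := Q.p (nat_lit 0x40000f0000040000000000000000000000000000000000) (nat_lit 0x2000008000100000000000100000400000000000000000000000) (nat_lit 3)
theorem c40051 : QOK q40051 := cut [q27605] ⟨c27605, trivial⟩ (nd (nat_lit 183) (nat_lit 0) (cs (lf (nat_lit 6) (nat_lit 160)) (rf (nat_lit 0)))) q40051 (by decide +kernel)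
def q40092 : Q := Q.p (nat_lit 0x4000030000080000000000000000000000000000000000) (nat_lit 0x400001000008000000000000000200000800000000000000000000000) (nat_lit 3)
theorem c40092 : QOK q40092 := cut [q27055] ⟨c27055, trivial⟩ (nd (nat_lit 204) (nat_lit 0) (cs (lf (nat_lit 30) (nat_lit 138)) (rf (nat_lit 0)))) q40092 (by decide +kernel)
def q40117 : Q := Q.p (nat_lit 0x4000030000080000000000000000000000000000000000) (nat_lit 0x400001000000000000000040000200000800000000000000000000000) (nat_lit 3)
theorem c40117 : QOK q40117 := cut [q24021] ⟨c24021, trivial⟩ (nd (nat_lit 204) (nat_lit 0) (cs (lf (nat_lit 30) (nat_lit 138)) (rf (nat_lit 0)))) q40117 (by decide +kernel)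
def q40240 : Q := Q.p (nat_lit 0x18000060000080000200000000000000000000000000000000000) (nat_lit 0xc00003000004000000000100000400000000000000000000000000000000000) (nat_lit 4)
theorem c40240 : QOK q40240 := cut [q90] ⟨c90, trivial⟩ (nd (nat_lit 228) (nat_lit 0) (cs (lf (nat_lit 40) (nat_lit 140)) (nd (nat_lit 229) (nat_lit 0) (cs (rf (nat_lit 0)) (lf (nat_lit 41) (nat_lit 162)))))) q40240 (by decide +kernel)
def q40307 : Q := Q.p (nat_lit 0xc0000700000000000000000000000000000000000) (nat_lit 0x18e0007380000000000000000000000000000) (nat_lit 6)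
theorem c40307 : QOK q40307 := cut [q40304] ⟨c40304, trivial⟩ (nd (nat_lit 143) (nat_lit 0) (cs (lf (nat_lit 6) (nat_lit 140)) (nd (nat_lit 121) (nat_lit 0) (cs (lf (nat_lit 17) (nat_lit 118)) (nd (nat_lit 139) (nat_lit 0) (cs (lf (nat_lit 16) (nat_lit 117)) (rf (nat_lit 0)))))))) q40307 (by decide +kernel)
def q40330 : Q := Q.p (nat_lit 0xc0000f00000000000000000000000000000000000) (nat_lit 0x20000000000000000600001000004000000000000000000) (nat_lit 3)
theorem c40330 : QOK q40330 := cut [q32515] ⟨c32515, trivial⟩ (nd (nat_lit 118) (nat_lit 0) (cs (lf (nat_lit 23) (nat_lit 117)) (rf (nat_lit 0)))) q40330 (by decide +kernel)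
def q40391 : Q := Q.p (nat_lit 0x400001c0000000000000000000000000000000000000000) (nat_lit 0x3a0000020000000000000000000000000000000000000000) (nat_lit 3)
theorem c40391 : QOK q40391 := cut [q4949] ⟨c4949, trivial⟩ (nd (nat_lit 187) (nat_lit 0) (cs (lf (nat_lit 0) (nat_lit 161)) (rf (nat_lit 0)))) q40391 (by decide +kernel)
def q40443 : Q := Q.p (nat_lit 0x2c0000a00000000000000000000000000000000000) (nat_lit 0x500001180000000000000000000000000000000000) (nat_lit 3)
theorem c40443 : QOK q40443 := cut [q10329] ⟨c10329, trivial⟩ (nd (nat_lit 164) (nat_lit 0) (cs (lf (nat_lit 17) (nat_lit 140)) (rf (nat_lit 0)))) q40443 (by decide +kernel)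
def q40461 : Q := Q.p (nat_lit 0xc0000380000000000000000000000000000000000) (nat_lit 0x4000010000018000460000780000800002000000000000000000) (nat_lit 7)
theorem c40461 : QOK q40461 := cut [q36337] ⟨c36337, trivial⟩ (nd (nat_lit 138) (nat_lit 0) (cs (lf (nat_lit 0) (nat_lit 137)) (nd (nat_lit 159) (nat_lit 0) (cs (lf (nat_lit 10) (nat_lit 137)) (nd (nat_lit 116) (nat_lit 0) (cs (lf (nat_lit 23) (nat_lit 115)) (nd (nat_lit 117) (nat_lit 0) (cs (lf (nat_lit 18) (nat_lit 116)) (nd (nat_lit 95) (nat_lit 0) (cs (lf (nat_lit 24) (nat_lit 73)) (rf (nat_lit 0)))))))))))) q40461 (by decide +kernel)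
def q40465 : Q := Q.p (nat_lit 0x100000e0000080000600000000000000000000000000000000000) (nat_lit 0x100000e000000000000000000001000000000000000000000000000000) (nat_lit 3)
theorem c40465 : QOK q40465 := cut [q35570] ⟨c35570, trivial⟩ (nd (nat_lit 207) (nat_lit 0) (cs (lf (nat_lit 35) (nat_lit 119)) (rf (nat_lit 0)))) q40465 (by decide +kernel)
def q40524 : Q := Q.p (nat_lit 0x3c00000000000000000000000000000000000000000000000000000000000000) (nat_lit 0x1c00000200001c00000000000000000000000000000000000000000000000000000000) (nat_lit 4)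
theorem c40524 : QOK q40524 := cut [q2067] ⟨c2067, trivial⟩ (nd (nat_lit 227) (nat_lit 0) (cs (lf (nat_lit 22) (nat_lit 227)) (nd (nat_lit 275) (nat_lit 0) (cs (lf (nat_lit 5) (nat_lit 250)) (rf (nat_lit 0)))))) q40524 (by decide +kernel)
def q40527 : Q := Q.p (nat_lit 0x80000000003c00001000000000000000000000000000000000000000000000000000000000) (nat_lit 0x20000000001b80000000000000004000000000000000000000000000000000000000000000000000) (nat_lit 4)
theorem c40527 : QOK q40527 := cut [q40526] ⟨c40526, trivial⟩ (nd (nat_lit 275) (nat_lit 0) (cs (lf (nat_lit 5) (nat_lit 250)) (rf (nat_lit 0)))) q40527 (by decide +kernel)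
def q40534 : Q := Q.p (nat_lit 0x80000900003c00001000000000000000000000000000000000000000000000000000000000) (nat_lit 0xf800036000040000000001a000000000000000000000000000000000000000000000000000000000) (nat_lit 7)
theorem c40534 : QOK q40534 := cut [q40530] ⟨c40530, trivial⟩ (nd (nat_lit 231) (nat_lit 0) (cs (lf (nat_lit 17) (nat_lit 228)) (nd (nat_lit 294) (nat_lit 0) (cs (lf (nat_lit 29) (nat_lit 228)) (nd (nat_lit 293) (nat_lit 0) (cs (lf (nat_lit 41) (nat_lit 227)) (nd (nat_lit 229) (nat_lit 0) (cs (lf (nat_lit 30) (nat_lit 228)) (rf (nat_lit 0)))))))))) q40534 (by decide +kernel)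
def q40537 : Q := Q.p (nat_lit 0x80000000000c00001000000000000000000000000000000000000000000000000000000000) (nat_lit 0x20000000000200000000002000004000010000000000000000000000000000000000000000000000) (nat_lit 3)
theorem c40537 : QOK q40537 := cut [q14477] ⟨c14477, trivial⟩ (nd (nat_lit 273) (nat_lit 0) (cs (lf (nat_lit 42) (nat_lit 228)) (rf (nat_lit 0)))) q40537 (by decide +kernel)
def q40546 : Q := Q.p (nat_lit 0x3c00000000000000000000000000000000000000000000000000000000000000) (nat_lit 0x1dc0000200000000000000000000000000000000000000000000000000000000000000) (nat_lit 4)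
theorem c40546 : QOK q40546 := cut [q6730] ⟨c6730, trivial⟩ (nd (nat_lit 271) (nat_lit 0) (cs (lf (nat_lit 10) (nat_lit 249)) (nd (nat_lit 249) (nat_lit 0) (cs (lf (nat_lit 11) (nat_lit 248)) (rf (nat_lit 0)))))) q40546 (by decide +kernel)
def q40551 : Q := Q.p (nat_lit 0x3c00000000010000040000000000000000000000000000000000000000000000) (nat_lit 0x20000020001c000000000000000000000000000000000000000000000000000000000) (nat_lit 3)
theorem c40551 : QOK q40551 := cut [q3187] ⟨c3187, trivial⟩ (nd (nat_lit 230) (nat_lit 0) (cs (lf (nat_lit 41) (nat_lit 185)) (rf (nat_lit 0)))) q40551 (by decide +kernel)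
def q40558 : Q := Q.p (nat_lit 0x80000000003c00001000000000000000000000000000000000000000000000000000000000) (nat_lit 0x1000004000038000000000200000e000018000060000000000000000000000000000000000000000) (nat_lit 7)
theorem c40558 : QOK q40558 := cut [q11016] ⟨c11016, trivial⟩ (nd (nat_lit 272) (nat_lit 0) (cs (lf (nat_lit 11) (nat_lit 249)) (nd (nat_lit 206) (nat_lit 0) (cs (lf (nat_lit 28) (nat_lit 206)) (nd (nat_lit 183) (nat_lit 0) (cs (lf (nat_lit 46) (nat_lit 183)) (nd (nat_lit 184) (nat_lit 0) (cs (lf (nat_lit 47) (nat_lit 161)) (nd (nat_lit 229) (nat_lit 0) (cs (lf (nat_lit 24) (nat_lit 162)) (rf (nat_lit 0)))))))))))) q40558 (by decide +kernel)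
def q40572 : Q := Q.p (nat_lit 0x8000040000100000400001000000000000000000000000000000000000000000000000000000000) (nat_lit 0xa000030000080000000000000000000000000000000000000000000000000000000000000000000000000) (nat_lit 3)
theorem c40572 : QOK q40572 := cut [q17422] ⟨c17422, trivial⟩ (nd (nat_lit 316) (nat_lit 0) (cs (lf (nat_lit 41) (nat_lit 249)) (rf (nat_lit 0)))) q40572 (by decide +kernel)
def q40599 : Q := Q.p (nat_lit 0x100000c0000000000c000000000000000000000000000000000000000000000000000) (nat_lit 0x80000200000000001000000000030000000000000000000000000000000000000000000000) (nat_lit 3)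
theorem c40599 : QOK q40599 := cut [q4159] ⟨c4159, trivial⟩ (nd (nat_lit 228) (nat_lit 0) (cs (lf (nat_lit 35) (nat_lit 184)) (rf (nat_lit 0)))) q40599 (by decide +kernel)
def q40628 : Q := Q.p (nat_lit 0x3800002000018000060000000000000000000000000000000000000000000000) (nat_lit 0x10000040001800000700039c000e70000000000000000000000000000000000000000) (nat_lit 10)
theorem c40628 : QOK q40628 := cut [q40626] ⟨c40626, trivial⟩ (nd (nat_lit 250) (nat_lit 0) (cs (lf (nat_lit 41) (nat_lit 184)) (nd (nat_lit 231) (nat_lit 0) (cs (lf (nat_lit 17) (nat_lit 228)) (rf (nat_lit 0)))))) q40628 (by decide +kernel)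
def q40634 : Q := Q.p (nat_lit 0x300000c00001000018000040000000000000000000000000000000000000000000000) (nat_lit 0x6000098000000000000000000000000000000000000000000000) (nat_lit 3)
theorem c40634 : QOK q40634 := cut [q20187] ⟨c20187, trivial⟩ (nd (nat_lit 206) (nat_lit 0) (cs (lf (nat_lit 24) (nat_lit 184)) (rf (nat_lit 0)))) q40634 (by decide +kernel)
def q40641 : Q := Q.p (nat_lit 0x600000c0000000000000000000000000000000000000000000000000000000000000000000000000) (nat_lit 0x180000130000000000000000000000000000000000000000000000000000000000000000000000000) (nat_lit 3)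
theorem c40641 : QOK q40641 := cut [q16805] ⟨c16805, trivial⟩ (nd (nat_lit 319) (nat_lit 0) (cs (lf (nat_lit 18) (nat_lit 294)) (rf (nat_lit 0)))) q40641 (by decide +kernel)
def q40683 : Q := Q.p (nat_lit 0x80000200001a000060000000000000000000000000000000000000000000000) (nat_lit 0x100001c000040000000000000000000000000000000000000000) (nat_lit 3)
theorem c40683 : QOK q40683 := cut [q20675] ⟨c20675, trivial⟩ (nd (nat_lit 184) (nat_lit 0) (cs (lf (nat_lit 47) (nat_lit 162)) (rf (nat_lit 0)))) q40683 (by decide +kernel)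
def q40708 : Q := Q.p (nat_lit 0x3c00001000004000000000000000000000000000000000000000000000000000) (nat_lit 0x198000000000000000a0000380000a0000000000000000000000000000000000000000) (nat_lit 6)
theorem c40708 : QOK q40708 := cut [q40706] ⟨c40706, trivial⟩ (nd (nat_lit 272) (nat_lit 0) (cs (lf (nat_lit 11) (nat_lit 249)) (nd (nat_lit 275) (nat_lit 0) (cs (lf (nat_lit 5) (nat_lit 250)) (rf (nat_lit 0)))))) q40708 (by decide +kernel)
def q40713 : Q := Q.p (nat_lit 0x3c00001000014000040000000000000000000000000000000000000000000000) (nat_lit 0x80001b8000000000200000a000028000000000000000000000000000000000000000000000) (nat_lit 6)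
theorem c40713 : QOK q40713 := cut [q40711] ⟨c40711, trivial⟩ (nd (nat_lit 272) (nat_lit 0) (cs (lf (nat_lit 11) (nat_lit 249)) (nd (nat_lit 275) (nat_lit 0) (cs (lf (nat_lit 5) (nat_lit 250)) (rf (nat_lit 0)))))) q40713 (by decide +kernel)
def q40729 : Q := Q.p (nat_lit 0x3c00001000004000000000000000000000000000000000000000000000000000) (nat_lit 0x80000380000000000000000000010000000000000000000000000000000000000000000000) (nat_lit 3)
theorem c40729 : QOK q40729 := cut [q4159] ⟨c4159, trivial⟩ (nd (nat_lit 272) (nat_lit 0) (cs (lf (nat_lit 11) (nat_lit 249)) (rf (nat_lit 0)))) q40729 (by decide +kernel)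
def q40736 : Q := Q.p (nat_lit 0x1e00000000000000000000000000000000000000000000000000000000000000) (nat_lit 0xee0000100000000000000000000000000000000000000000000000000000000000000) (nat_lit 4)
theorem c40736 : QOK q40736 := cut [q40734] ⟨c40734, trivial⟩ (nd (nat_lit 270) (nat_lit 0) (cs (lf (nat_lit 10) (nat_lit 248)) (nd (nat_lit 248) (nat_lit 0) (cs (lf (nat_lit 11) (nat_lit 247)) (rf (nat_lit 0)))))) q40736 (by decide +kernel)
def q40743 : Q := Q.p (nat_lit 0x3c00001000004000000000000000000000000000000000000000000000000000) (nat_lit 0x18000000001800000a0000380000a0000000000000000000000000000000000000000) (nat_lit 6)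
theorem c40743 : QOK q40743 := cut [q40706] ⟨c40706, trivial⟩ (nd (nat_lit 272) (nat_lit 0) (cs (lf (nat_lit 11) (nat_lit 249)) (nd (nat_lit 231) (nat_lit 0) (cs (lf (nat_lit 17) (nat_lit 228)) (rf (nat_lit 0)))))) q40743 (by decide +kernel)
def q40771 : Q := Q.p (nat_lit 0x1e00000000000000000000000000000000000000000000000000000000000000) (nat_lit 0xe00000100000e00000000000000000000000000000000000000000000000000000000) (nat_lit 4)
theorem c40771 : QOK q40771 := cut [q40734] ⟨c40734, trivial⟩ (nd (nat_lit 226) (nat_lit 0) (cs (lf (nat_lit 22) (nat_lit 226)) (nd (nat_lit 248) (nat_lit 0) (cs (lf (nat_lit 23) (nat_lit 225)) (rf (nat_lit 0)))))) q40771 (by decide +kernel)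
def q40802 : Q := Q.p (nat_lit 0x100000400001800000000000000000000000000000000000000000000000000000000000000) (nat_lit 0x40000000000200000000002000008000020000000000000000000000000000000000000000000000) (nat_lit 3)
theorem c40802 : QOK q40802 := cut [q40801] ⟨c40801, trivial⟩ (nd (nat_lit 229) (nat_lit 0) (cs (lf (nat_lit 42) (nat_lit 229)) (rf (nat_lit 0)))) q40802 (by decide +kernel)
def q40863 : Q := Q.p (nat_lit 0x780000c00000000000000000000000000000000000000000000000000000000) (nat_lit 0x60000380000000000000000000000000000000000000000000000000000000) (nat_lit 3)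
theorem c40863 : QOK q40863 := cut [q40862] ⟨c40862, trivial⟩ (nd (nat_lit 224) (nat_lit 0) (cs (lf (nat_lit 1) (nat_lit 224)) (rf (nat_lit 0)))) q40863 (by decide +kernel)
def q40878 : Q := Q.p (nat_lit 0x10000040000300000c00000000000000000000000000000000000000000000000000000000) (nat_lit 0x2000008000020000000000000001800006000018000000000000000000000000000000000000000) (nat_lit 5)
theorem c40878 : QOK q40878 := cut [q40876] ⟨c40876, trivial⟩ (nd (nat_lit 291) (nat_lit 0) (cs (lf (nat_lit 41) (nat_lit 225)) (nd (nat_lit 204) (nat_lit 0) (cs (lf (nat_lit 40) (nat_lit 203)) (rf (nat_lit 0)))))) q40878 (by decide +kernel)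
def q40892 : Q := Q.p (nat_lit 0x40000300000c00001000000000000000000000000000000000000000000000000000) (nat_lit 0x200000c000030000000000000000000000000000000000000000) (nat_lit 3)
theorem c40892 : QOK q40892 := cut [q40891] ⟨c40891, trivial⟩ (nd (nat_lit 183) (nat_lit 0) (cs (lf (nat_lit 37) (nat_lit 182)) (rf (nat_lit 0)))) q40892 (by decide +kernel)
def q40908 : Q := Q.p (nat_lit 0x780000600000000000000000000000000000000000000000000000000000000) (nat_lit 0x8000030000000000000001000004000000000000000000000000000000000000000000000) (nat_lit 3)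
theorem c40908 : QOK q40908 := cut [q40907] ⟨c40907, trivial⟩ (nd (nat_lit 269) (nat_lit 0) (cs (lf (nat_lit 11) (nat_lit 246)) (rf (nat_lit 0)))) q40908 (by decide +kernel)
def q40951 : Q := Q.p (nat_lit 0xc0000200000800000000000000000000000000000000000000000000000000000000) (nat_lit 0x10000000000100000000006000018000040000000000000000000000000000000000000000) (nat_lit 4)
theorem c40951 : QOK q40951 := cut [q40950] ⟨c40950, trivial⟩ (nd (nat_lit 205) (nat_lit 0) (cs (lf (nat_lit 41) (nat_lit 204)) (rf (nat_lit 0)))) q40951 (by decide +kernel)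
def q40959 : Q := Q.p (nat_lit 0x80000200000800002000000000000000000000000000000000000000000000000000) (nat_lit 0x14000070000140000000000000004000010000000000000000000000000000000000000000000000) (nat_lit 5)
theorem c40959 : QOK q40959 := cut [q40957] ⟨c40957, trivial⟩ (nd (nat_lit 292) (nat_lit 0) (cs (lf (nat_lit 40) (nat_lit 204)) (nd (nat_lit 184) (nat_lit 0) (cs (lf (nat_lit 34) (nat_lit 183)) (rf (nat_lit 0)))))) q40959 (by decide +kernel)
def q40962 : Q := Q.p (nat_lit 0x80000200000800002000000000000000000000000000000000000000000000000000) (nat_lit 0x500001c000050000000000000000000000000000000000000000) (nat_lit 4)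
theorem c40962 : QOK q40962 := cut [q26954] ⟨c26954, trivial⟩ (nd (nat_lit 184) (nat_lit 0) (cs (lf (nat_lit 34) (nat_lit 183)) (nd (nat_lit 183) (nat_lit 0) (cs (lf (nat_lit 35) (nat_lit 161)) (rf (nat_lit 0)))))) q40962 (by decide +kernel)
def q40969 : Q := Q.p (nat_lit 0x8000020000180000600000000000000000000000000000000000000000000000000000000000000) (nat_lit 0x2000001c0000400000000000000000000000000000000000000000000000000000000) (nat_lit 3)
theorem c40969 : QOK q40969 := cut [q40967] ⟨c40967, trivial⟩ (nd (nat_lit 248) (nat_lit 0) (cs (rf (nat_lit 0)) (lf (nat_lit 47) (nat_lit 226)))) q40969 (by decide +kernel)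
def q40980 : Q := Q.p (nat_lit 0x80000200000800012000040000000000000000000000000000000000000000000000) (nat_lit 0x40000c000090000000000000000000000000000000000000000000000) (nat_lit 3)
theorem c40980 : QOK q40980 := cut [q40979] ⟨c40979, trivial⟩ (nd (nat_lit 206) (nat_lit 0) (cs (lf (nat_lit 35) (nat_lit 183)) (rf (nat_lit 0)))) q40980 (by decide +kernel)
def q40983 : Q := Q.p (nat_lit 0x200000800002000008000000000000000000000000000000000000000000000) (nat_lit 0x40000100000400000000004000030000040000000000000000000000000000000000) (nat_lit 4)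
theorem c40983 : QOK q40983 := cut [q5269] ⟨c5269, trivial⟩ (nd (nat_lit 248) (nat_lit 0) (cs (lf (nat_lit 41) (nat_lit 182)) (nd (nat_lit 161) (nat_lit 0) (cs (lf (nat_lit 40) (nat_lit 160)) (rf (nat_lit 0)))))) q40983 (by decide +kernel)
def q41025 : Q := Q.p (nat_lit 0x400000800002000008000000000000000000000000000000000000000000000) (nat_lit 0x100001400001000000000060000180000400000000000000000000000000000) (nat_lit 5)
theorem c41025 : QOK q41025 := cut [q5267] ⟨c5267, trivial⟩ (nd (nat_lit 161) (nat_lit 0) (cs (lf (nat_lit 28) (nat_lit 161)) (rf (nat_lit 0)))) q41025 (by decide +kernel)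
def q41028 : Q := Q.p (nat_lit 0x400000800002000008000000000000000000000000000000000000000000000) (nat_lit 0x140000300001400000000000000020000000000000000000000000000000000000000) (nat_lit 4)
theorem c41028 : QOK q41028 := cut [q41027] ⟨c41027, trivial⟩ (nd (nat_lit 249) (nat_lit 0) (cs (lf (nat_lit 29) (nat_lit 183)) (rf (nat_lit 0)))) q41028 (by decide +kernel)
def q41031 : Q := Q.p (nat_lit 0x400000800002000008000000000000000000000000000000000000000000000) (nat_lit 0x100000200001000000000004000030000040000000000000000000000000000000000) (nat_lit 4)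
theorem c41031 : QOK q41031 := cut [q41030] ⟨c41030, trivial⟩ (nd (nat_lit 249) (nat_lit 0) (cs (lf (nat_lit 29) (nat_lit 183)) (rf (nat_lit 0)))) q41031 (by decide +kernel)
def q41036 : Q := Q.p (nat_lit 0x600001800006000040000000000000000000000000000000000000000000000) (nat_lit 0xb00000c0000000000000000000000000000000000000000) (nat_lit 3)
theorem c41036 : QOK q41036 := cut [q41035] ⟨c41035, trivial⟩ (nd (nat_lit 184) (nat_lit 0) (cs (lf (nat_lit 36) (nat_lit 161)) (rf (nat_lit 0)))) q41036 (by decide +kernel)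
def q41049 : Q := Q.p (nat_lit 0x80000200000800002000000000000000000000000000000000000000000000) (nat_lit 0x500001c000050000000000000000000000000000000000) (nat_lit 4)
theorem c41049 : QOK q41049 := cut [q17289] ⟨c17289, trivial⟩ (nd (nat_lit 160) (nat_lit 0) (cs (lf (nat_lit 34) (nat_lit 159)) (nd (nat_lit 159) (nat_lit 0) (cs (rf (nat_lit 0)) (lf (nat_lit 35) (nat_lit 137)))))) q41049 (by decide +kernel)
def q41051 : Q := Q.p (nat_lit 0xc0000200000800002000000000000000000000000000000000000000000000) (nat_lit 0x100000000004000018000040000000000000000000000000000000000) (nat_lit 3)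
theorem c41051 : QOK q41051 := cut [q41050] ⟨c41050, trivial⟩ (nd (nat_lit 159) (nat_lit 0) (cs (lf (nat_lit 40) (nat_lit 158)) (rf (nat_lit 0)))) q41051 (by decide +kernel)
def q41093 : Q := Q.p (nat_lit 0x80000600000800002000000000000000000000000000000000000000000000000000) (nat_lit 0x80000200005c0003700001c0000400001000004000000000000000000000000000000000000000000000) (nat_lit 9)
theorem c41093 : QOK q41093 := cut [q41086] ⟨c41086, trivial⟩ (nd (nat_lit 272) (nat_lit 0) (cs (lf (nat_lit 29) (nat_lit 205)) (nd (nat_lit 182) (nat_lit 0) (cs (lf (nat_lit 46) (nat_lit 182)) (nd (nat_lit 270) (nat_lit 0) (cs (lf (nat_lit 41) (nat_lit 204)) (nd (nat_lit 269) (nat_lit 0) (cs (lf (nat_lit 12) (nat_lit 246)) (nd (nat_lit 247) (nat_lit 0) (cs (lf (nat_lit 23) (nat_lit 246)) (nd (nat_lit 291) (nat_lit 0) (cs (lf (nat_lit 11) (nat_lit 268)) (nd (nat_lit 248) (nat_lit 0) (cs (lf (nat_lit 18) (nat_lit 247)) (rf (nat_lit 0)))))))))))))))) q41093 (by decide +kernel)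
def q41105 : Q := Q.p (nat_lit 0x400000800016000040000000000000000000000000000000000000000000000) (nat_lit 0x100000000003400009000020000080000200000000000000000000000000000000000) (nat_lit 5)
theorem c41105 : QOK q41105 := cut [q1495] ⟨c1495, trivial⟩ (nd (nat_lit 207) (nat_lit 0) (cs (lf (nat_lit 11) (nat_lit 204)) (nd (nat_lit 185) (nat_lit 0) (cs (lf (nat_lit 12) (nat_lit 182)) (nd (nat_lit 228) (nat_lit 0) (cs (lf (nat_lit 30) (nat_lit 184)) (rf (nat_lit 0)))))))) q41105 (by decide +kernel)
def q41137 : Q := Q.p (nat_lit 0x200000800002000008000000000000000000000000000000000000000) (nat_lit 0x14000070000140000000000000000000000000000) (nat_lit 4)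
theorem c41137 : QOK q41137 := cut [q27268] ⟨c27268, trivial⟩ (nd (nat_lit 138) (nat_lit 0) (cs (lf (nat_lit 34) (nat_lit 137)) (nd (nat_lit 137) (nat_lit 0) (cs (lf (nat_lit 35) (nat_lit 115)) (rf (nat_lit 0)))))) q41137 (by decide +kernel)
def q41174 : Q := Q.p (nat_lit 0x600000800002000008000000000000000000000000000000000000000000000) (nat_lit 0x1000000000010000060000100000000000000000000000000000000000) (nat_lit 3)
theorem c41174 : QOK q41174 := cut [q12076] ⟨c12076, trivial⟩ (nd (nat_lit 161) (nat_lit 0) (cs (lf (nat_lit 28) (nat_lit 161)) (rf (nat_lit 0)))) q41174 (by decide +kernel)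
def q41179 : Q := Q.p (nat_lit 0x200000800012000048000000000000000000000000000000000000000000000) (nat_lit 0x8000000000000000c0000b0000040000000000000000000000000000000000000000) (nat_lit 4)
theorem c41179 : QOK q41179 := cut [q32742] ⟨c32742, trivial⟩ (nd (nat_lit 184) (nat_lit 0) (cs (lf (nat_lit 35) (nat_lit 161)) (nd (nat_lit 206) (nat_lit 0) (cs (lf (nat_lit 30) (nat_lit 183)) (rf (nat_lit 0)))))) q41179 (by decide +kernel)
def q41190 : Q := Q.p (nat_lit 0x600000800012000008000000000000000000000000000000000000000000000) (nat_lit 0x200000c00001c000300000d000007000010000000000000000000000000000000000000000) (nat_lit 8)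
theorem c41190 : QOK q41190 := cut [q27687] ⟨c27687, trivial⟩ (nd (nat_lit 248) (nat_lit 0) (cs (lf (nat_lit 41) (nat_lit 182)) (nd (nat_lit 182) (nat_lit 0) (cs (lf (nat_lit 47) (nat_lit 160)) (nd (nat_lit 206) (nat_lit 0) (cs (lf (nat_lit 19) (nat_lit 182)) (nd (nat_lit 180) (nat_lit 0) (cs (lf (nat_lit 1) (nat_lit 180)) (nd (nat_lit 271) (nat_lit 0) (cs (lf (nat_lit 46) (nat_lit 182)) (nd (nat_lit 228) (nat_lit 0) (cs (lf (nat_lit 30) (nat_lit 205)) (rf (nat_lit 0)))))))))))))) q41190 (by decide +kernel)
def q41224 : Q := Q.p (nat_lit 0x100000400001800000000000000000000000000000000000000000000000000000000) (nat_lit 0x40000000000200000000002000008000020000000000000000000000000000000000000000) (nat_lit 3)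
theorem c41224 : QOK q41224 := cut [q41223] ⟨c41223, trivial⟩ (nd (nat_lit 205) (nat_lit 0) (cs (lf (nat_lit 42) (nat_lit 205)) (rf (nat_lit 0)))) q41224 (by decide +kernel)
def q41226 : Q := Q.p (nat_lit 0x100000400001000004000000000000000000000000000000000000000000000000000) (nat_lit 0x20000080000200000000008000030000080000000000000000000000000000000000000000) (nat_lit 4)
theorem c41226 : QOK q41226 := cut [q25816] ⟨c25816, trivial⟩ (nd (nat_lit 271) (nat_lit 0) (cs (lf (nat_lit 41) (nat_lit 205)) (nd (nat_lit 184) (nat_lit 0) (cs (lf (nat_lit 40) (nat_lit 183)) (rf (nat_lit 0)))))) q41226 (by decide +kernel)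
def q41228 : Q := Q.p (nat_lit 0x100000400001000014000040000000000000000000000000000000000000000000000) (nat_lit 0xa0000a8000000000000000000000000000000000000000000000) (nat_lit 3)
theorem c41228 : QOK q41228 := cut [q20187] ⟨c20187, trivial⟩ (nd (nat_lit 207) (nat_lit 0) (cs (lf (nat_lit 35) (nat_lit 184)) (rf (nat_lit 0)))) q41228 (by decide +kernel)
def q41231 : Q := Q.p (nat_lit 0x40000100000400001800000000000000000000000000000000000000000000000000000000) (nat_lit 0x8000030000080000000000200000000000000000000000000000000000000000000000000000000000000) (nat_lit 3)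
theorem c41231 : QOK q41231 := cut [q26270] ⟨c26270, trivial⟩ (nd (nat_lit 317) (nat_lit 0) (cs (lf (nat_lit 28) (nat_lit 228)) (rf (nat_lit 0)))) q41231 (by decide +kernel)
def q41233 : Q := Q.p (nat_lit 0x60000100000400001000000000000000000000000000000000000000000000000000000000) (nat_lit 0x8000000000200000c000020000000000000000000000000000000000000000000000) (nat_lit 3)
theorem c41233 : QOK q41233 := cut [q41232] ⟨c41232, trivial⟩ (nd (nat_lit 207) (nat_lit 0) (cs (lf (nat_lit 34) (nat_lit 206)) (rf (nat_lit 0)))) q41233 (by decide +kernel)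
def q41236 : Q := Q.p (nat_lit 0x100000400001800000000000000000000000000000000000000000000000000000000) (nat_lit 0x40000000000000000000006000008000020000000000000000000000000000000000000000) (nat_lit 3)
theorem c41236 : QOK q41236 := cut [q12154] ⟨c12154, trivial⟩ (nd (nat_lit 205) (nat_lit 0) (cs (lf (nat_lit 42) (nat_lit 205)) (rf (nat_lit 0)))) q41236 (by decide +kernel)
def q41250 : Q := Q.p (nat_lit 0x1e00000000000000000000000000000000000000000000000000000000) (nat_lit 0x70000180007e00000000000000000000000000000000000000000000000000) (nat_lit 6)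
theorem c41250 : QOK q41250 := cut [q41246] ⟨c41246, trivial⟩ (nd (nat_lit 202) (nat_lit 0) (cs (lf (nat_lit 22) (nat_lit 202)) (nd (nat_lit 224) (nat_lit 0) (cs (lf (nat_lit 23) (nat_lit 201)) (nd (nat_lit 205) (nat_lit 0) (cs (lf (nat_lit 17) (nat_lit 202)) (nd (nat_lit 223) (nat_lit 0) (cs (lf (nat_lit 16) (nat_lit 201)) (rf (nat_lit 0)))))))))) q41250 (by decide +kernel)
def q41270 : Q := Q.p (nat_lit 0x100000600000800000000000000000000000000000000000000000000000000) (nat_lit 0x10000040000000000000001000002000008000000000000000000000000000000000000000) (nat_lit 3)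
theorem c41270 : QOK q41270 := cut [q41268] ⟨c41268, trivial⟩ (nd (nat_lit 270) (nat_lit 0) (cs (rf (nat_lit 0)) (lf (nat_lit 42) (nat_lit 203)))) q41270 (by decide +kernel)
def q41295 : Q := Q.p (nat_lit 0x1c00010000000000000000000000000000000000000000000000000000) (nat_lit 0x1c0002200009c00000000000000000000000000000000000000000000000000) (nat_lit 5)
theorem c41295 : QOK q41295 := cut [q23088] ⟨c23088, trivial⟩ (nd (nat_lit 229) (nat_lit 0) (cs (lf (nat_lit 16) (nat_lit 204)) (rf (nat_lit 0)))) q41295 (by decide +kernel)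
def q41306 : Q := Q.p (nat_lit 0x1c00001000000000000000000000000000000000000000000000000000) (nat_lit 0x2000002e00000000000000000000000000000000000000000000000000) (nat_lit 3)
theorem c41306 : QOK q41306 := cut [q41305] ⟨c41305, trivial⟩ (nd (nat_lit 203) (nat_lit 0) (cs (lf (nat_lit 18) (nat_lit 203)) (rf (nat_lit 0)))) q41306 (by decide +kernel)
def q41327 : Q := Q.p (nat_lit 0x600001800003000040000000000000000000000000000000000000000000000) (nat_lit 0x38000060000000000000000000000000000000000000000) (nat_lit 3)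
theorem c41327 : QOK q41327 := cut [q40933] ⟨c40933, trivial⟩ (nd (nat_lit 183) (nat_lit 0) (cs (lf (nat_lit 24) (nat_lit 161)) (rf (nat_lit 0)))) q41327 (by decide +kernel)
def q41337 : Q := Q.p (nat_lit 0x400001e00000000000000000000000000000000000000000000000000000000) (nat_lit 0x200000100000e00000000000000000000000000000000000000000000000000) (nat_lit 3)
theorem c41337 : QOK q41337 := cut [q37515] ⟨c37515, trivial⟩ (nd (nat_lit 202) (nat_lit 0) (cs (lf (nat_lit 22) (nat_lit 202)) (rf (nat_lit 0)))) q41337 (by decide +kernel)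
def q41355 : Q := Q.p (nat_lit 0x400001800004000010000000000000000000000000000000000000000000000) (nat_lit 0x2000000000000000200000c0000200000000000000000000000000000000000) (nat_lit 3)
theorem c41355 : QOK q41355 := cut [q3383] ⟨c3383, trivial⟩ (nd (nat_lit 162) (nat_lit 0) (cs (lf (nat_lit 41) (nat_lit 161)) (rf (nat_lit 0)))) q41355 (by decide +kernel)
def q41380 : Q := Q.p (nat_lit 0x40000100000c00000000000000000000000000000000000000000000000000000000000000) (nat_lit 0x10000000000200000000002000008000020000000000000000000000000000000000000000000000) (nat_lit 3)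
theorem c41380 : QOK q41380 := cut [q41379] ⟨c41379, trivial⟩ (nd (nat_lit 229) (nat_lit 0) (cs (lf (nat_lit 30) (nat_lit 228)) (rf (nat_lit 0)))) q41380 (by decide +kernel)
def q41426 : Q := Q.p (nat_lit 0x300000c00002000008000000000000000000000000000000000000000000000000000000000) (nat_lit 0x100001c00000200000000000000000000000000000000000000000000000000000000000000000000) (nat_lit 3)
theorem c41426 : QOK q41426 := cut [q23007] ⟨c23007, trivial⟩ (nd (nat_lit 298) (nat_lit 0) (cs (lf (nat_lit 29) (nat_lit 231)) (rf (nat_lit 0)))) q41426 (by decide +kernel)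
def q41455 : Q := Q.p (nat_lit 0x200000c00003000008000000000000000000000000000000000000000000000000000000000) (nat_lit 0x60000180000400000000000000000000000000000000000000000000000000000000000000000000000000) (nat_lit 3)
theorem c41455 : QOK q41455 := cut [q21970] ⟨c21970, trivial⟩ (nd (nat_lit 319) (nat_lit 0) (cs (lf (nat_lit 42) (nat_lit 252)) (rf (nat_lit 0)))) q41455 (by decide +kernel)
def q41459 : Q := Q.p (nat_lit 0x200000800002000008000000000000000000000000000000000000000000000000000000000) (nat_lit 0x500001c0000500000000000000000000000000000000000000000000000000000000000000000000000000) (nat_lit 4)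
theorem c41459 : QOK q41459 := cut [q15793] ⟨c15793, trivial⟩ (nd (nat_lit 320) (nat_lit 0) (cs (lf (nat_lit 28) (nat_lit 231)) (nd (nat_lit 319) (nat_lit 0) (cs (lf (nat_lit 29) (nat_lit 253)) (rf (nat_lit 0)))))) q41459 (by decide +kernel)
def q41472 : Q := Q.p (nat_lit 0x10000040000100000400000000000000000000000000000000000000000000000000000000000000) (nat_lit 0xa0000280000a0000000000000001000000000000000000000000000000000000000000000000000000000) (nat_lit 4)
theorem c41472 : QOK q41472 := cut [q8903] ⟨c8903, trivial⟩ (nd (nat_lit 317) (nat_lit 0) (cs (lf (nat_lit 29) (nat_lit 250)) (nd (nat_lit 228) (nat_lit 0) (cs (rf (nat_lit 0)) (lf (nat_lit 28) (nat_lit 228)))))) q41472 (by decide +kernel)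
def q41480 : Q := Q.p (nat_lit 0x10000040000100000c00001000000000000000000000000000000000000000000000000000000000) (nat_lit 0x4000000000080000200000000000000004000010000000000000000000000000000000000000000000000) (nat_lit 3)
theorem c41480 : QOK q41480 := cut [q14896] ⟨c14896, trivial⟩ (nd (nat_lit 273) (nat_lit 0) (cs (lf (nat_lit 30) (nat_lit 250)) (rf (nat_lit 0)))) q41480 (by decide +kernel)
def q41487 : Q := Q.p (nat_lit 0x18000040000100000400000000000000000000000000000000000000000000000000000000000000) (nat_lit 0x80000200000a0000000000000001000000000000000000000000000000000000000000000000000000000) (nat_lit 3)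
theorem c41487 : QOK q41487 := cut [q17422] ⟨c17422, trivial⟩ (nd (nat_lit 228) (nat_lit 0) (cs (lf (nat_lit 40) (nat_lit 227)) (rf (nat_lit 0)))) q41487 (by decide +kernel)
def q41499 : Q := Q.p (nat_lit 0x3c00000000018000040000000000000000000000000000000000000000000000) (nat_lit 0x18000000001b0000060001a0000000000000000000000000000000000000000000000) (nat_lit 6)
theorem c41499 : QOK q41499 := cut [q3745] ⟨c3745, trivial⟩ (nd (nat_lit 231) (nat_lit 0) (cs (lf (nat_lit 17) (nat_lit 228)) (nd (nat_lit 272) (nat_lit 0) (cs (lf (nat_lit 11) (nat_lit 249)) (nd (nat_lit 185) (nat_lit 0) (cs (lf (nat_lit 38) (nat_lit 184)) (nd (nat_lit 206) (nat_lit 0) (cs (rf (nat_lit 0)) (lf (nat_lit 32) (nat_lit 184)))))))))) q41499 (by decide +kernel)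
def q41515 : Q := Q.p (nat_lit 0x1c00001000018000040000000000000000000000000000000000000000000000) (nat_lit 0x600000000002000000000020000080000000000000000000000000000000000000000) (nat_lit 3)
theorem c41515 : QOK q41515 := cut [q24978] ⟨c24978, trivial⟩ (nd (nat_lit 229) (nat_lit 0) (cs (lf (nat_lit 30) (nat_lit 185)) (rf (nat_lit 0)))) q41515 (by decide +kernel)
def q41536 : Q := Q.p (nat_lit 0x80000200000800003000000000000000000000000000000000000000000000000000000000000000) (nat_lit 0x10000060000100000000000400000000000000000000000000000000000000000000000000000000000000000000) (nat_lit 3)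
theorem c41536 : QOK q41536 := cut [q41535] ⟨c41535, trivial⟩ (nd (nat_lit 342) (nat_lit 0) (cs (lf (nat_lit 28) (nat_lit 253)) (rf (nat_lit 0)))) q41536 (by decide +kernel)
def q41607 : Q := Q.p (nat_lit 0x7800000000000000000000000000000000000000000000000000) (nat_lit 0x380000400038000000000000000000000000000000000000000000000) (nat_lit 4)
theorem c41607 : QOK q41607 := cut [q24432] ⟨c24432, trivial⟩ (nd (nat_lit 184) (nat_lit 0) (cs (lf (nat_lit 17) (nat_lit 181)) (nd (nat_lit 202) (nat_lit 0) (cs (lf (nat_lit 16) (nat_lit 180)) (rf (nat_lit 0)))))) q41607 (by decide +kernel)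
def q41611 : Q := Q.p (nat_lit 0x200001800002000008000000000000000000000000000000000000000) (nat_lit 0x40000040000700001c0000400000000000000000000000) (nat_lit 5)
theorem c41611 : QOK q41611 := cut [q38687] ⟨c38687, trivial⟩ (nd (nat_lit 136) (nat_lit 0) (cs (lf (nat_lit 46) (nat_lit 136)) (nd (nat_lit 137) (nat_lit 0) (cs (lf (nat_lit 47) (nat_lit 114)) (nd (nat_lit 115) (nat_lit 0) (cs (lf (nat_lit 28) (nat_lit 115)) (rf (nat_lit 0)))))))) q41611 (by decide +kernel)
def q41626 : Q := Q.p (nat_lit 0x1800002000008000020000000000000000000000000000000000) (nat_lit 0x40000000000100000c0000100000000000000000000000) (nat_lit 3)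
theorem c41626 : QOK q41626 := cut [q17981] ⟨c17981, trivial⟩ (nd (nat_lit 115) (nat_lit 0) (cs (rf (nat_lit 0)) (lf (nat_lit 28) (nat_lit 115)))) q41626 (by decide +kernel)
def q41673 : Q := Q.p (nat_lit 0x200000f000000000000000000000000000000000000000000000000000) (nat_lit 0x1700000800000000000000000000000000000000000000000000000000) (nat_lit 3)
theorem c41673 : QOK q41673 := cut [q27140] ⟨c27140, trivial⟩ (nd (nat_lit 203) (nat_lit 0) (cs (lf (nat_lit 4) (nat_lit 203)) (rf (nat_lit 0)))) q41673 (by decide +kernel)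
def q41725 : Q := Q.p (nat_lit 0xc0000000000800002000008000000000000000000000000000000000000000000000000000000000) (nat_lit 0x50000100000600000000000000000000000000000000000000000000000000000000000000000000000000) (nat_lit 3)
theorem c41725 : QOK q41725 := cut [q21970] ⟨c21970, trivial⟩ (nd (nat_lit 297) (nat_lit 0) (cs (lf (nat_lit 41) (nat_lit 252)) (rf (nat_lit 0)))) q41725 (by decide +kernel)
def q41732 : Q := Q.p (nat_lit 0x400001e0000000000000000000000000000000000000000000000000000000000000000000000000000000) (nat_lit 0x2e000010000000000000000000000000000000000000000000000000000000000000000000000000000000) (nat_lit 3)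
theorem c41732 : QOK q41732 := cut [q23049] ⟨c23049, trivial⟩ (nd (nat_lit 316) (nat_lit 0) (cs (lf (nat_lit 4) (nat_lit 316)) (rf (nat_lit 0)))) q41732 (by decide +kernel)
def q41738 : Q := Q.p (nat_lit 0x1e0000000000000000000000000000000000000000000000000000000000000000000000000000000) (nat_lit 0xe00000100000e0000000000000000000000000000000000000000000000000000000000000000000000000) (nat_lit 4)
theorem c41738 : QOK q41738 := cut [q2586] ⟨c2586, trivial⟩ (nd (nat_lit 342) (nat_lit 0) (cs (lf (nat_lit 5) (nat_lit 317)) (nd (nat_lit 316) (nat_lit 0) (cs (rf (nat_lit 0)) (lf (nat_lit 4) (nat_lit 316)))))) q41738 (by decide +kernel)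
def q41749 : Q := Q.p (nat_lit 0xf0000000000000000000000000000000000000000000000000000000000000000000000000000000) (nat_lit 0x77000008000000000000000000000000000000000000000000000000000000000000000000000000000000) (nat_lit 4)
theorem c41749 : QOK q41749 := cut [q41746] ⟨c41746, trivial⟩ (nd (nat_lit 341) (nat_lit 0) (cs (lf (nat_lit 5) (nat_lit 316)) (nd (nat_lit 315) (nat_lit 0) (cs (rf (nat_lit 0)) (lf (nat_lit 4) (nat_lit 315)))))) q41749 (by decide +kernel)
def q41754 : Q := Q.p (nat_lit 0x800001e0000000000000000000000000000000000000000000000000000000000000000000000000000000) (nat_lit 0x100000200001c00000000000000000000000000000000000000000000000000000000000000000000000000) (nat_lit 3)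
theorem c41754 : QOK q41754 := cut [q12801] ⟨c12801, trivial⟩ (nd (nat_lit 321) (nat_lit 0) (cs (lf (nat_lit 5) (nat_lit 318)) (rf (nat_lit 0)))) q41754 (by decide +kernel)
def q41767 : Q := Q.p (nat_lit 0xf0000000000000003c00000000000000000000000000000000000000000000000000000000000000) (nat_lit 0xfc000300001c00000000000000018000000000000000000000000000000000000000000000000000000000) (nat_lit 7)
theorem c41767 : QOK q41767 := cut [q41764] ⟨c41764, trivial⟩ (nd (nat_lit 231) (nat_lit 0) (cs (lf (nat_lit 17) (nat_lit 228)) (nd (nat_lit 342) (nat_lit 0) (cs (lf (nat_lit 4) (nat_lit 316)) (nd (nat_lit 320) (nat_lit 0) (cs (lf (nat_lit 5) (nat_lit 317)) (rf (nat_lit 0)))))))) q41767 (by decide +kernel)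
def q41770 : Q := Q.p (nat_lit 0x78000000000000000000000000000000000000000000000000000000000000000000000000000000) (nat_lit 0x38000004000038000000000000000000000000000000000000000000000000000000000000000000000000) (nat_lit 4)
theorem c41770 : QOK q41770 := cut [q41768] ⟨c41768, trivial⟩ (nd (nat_lit 292) (nat_lit 0) (cs (lf (nat_lit 22) (nat_lit 292)) (nd (nat_lit 314) (nat_lit 0) (cs (lf (nat_lit 23) (nat_lit 291)) (rf (nat_lit 0)))))) q41770 (by decide +kernel)
def q41786 : Q := Q.p (nat_lit 0x80000000000c00003000008000000000000000000000000000000000000000000000000000000000) (nat_lit 0x60000100000600000000000000000000000000000000000000000000000000000000000000000000000000) (nat_lit 3)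
theorem c41786 : QOK q41786 := cut [q21970] ⟨c21970, trivial⟩ (nd (nat_lit 297) (nat_lit 0) (cs (lf (nat_lit 42) (nat_lit 252)) (rf (nat_lit 0)))) q41786 (by decide +kernel)
def q41842 : Q := Q.p (nat_lit 0x10000000000000003c00000000010000040000000000000000000000000000000000000000000000) (nat_lit 0x4000038000000001a000008000020000000000000000000000000000000000000000000000) (nat_lit 5)
theorem c41842 : QOK q41842 := cut [q41745] ⟨c41745, trivial⟩ (nd (nat_lit 272) (nat_lit 0) (cs (lf (nat_lit 11) (nat_lit 249)) (nd (nat_lit 231) (nat_lit 0) (cs (lf (nat_lit 17) (nat_lit 228)) (rf (nat_lit 0)))))) q41842 (by decide +kernel)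
def q41854 : Q := Q.p (nat_lit 0x78000000000000000000000000000000000000000000000000000000000000000000000000000000) (nat_lit 0x3b800004000000000000000000000000000000000000000000000000000000000000000000000000000000) (nat_lit 4)
theorem c41854 : QOK q41854 := cut [q41768] ⟨c41768, trivial⟩ (nd (nat_lit 336) (nat_lit 0) (cs (lf (nat_lit 10) (nat_lit 314)) (nd (nat_lit 314) (nat_lit 0) (cs (lf (nat_lit 11) (nat_lit 313)) (rf (nat_lit 0)))))) q41854 (by decide +kernel)
def q41869 : Q := Q.p (nat_lit 0x18000060000000000800002000000000000000000000000000000000000000000000000000000000000000) (nat_lit 0x6000180000200000000000000000000000000000000000000000000000000000000000000000000000000) (nat_lit 3)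
theorem c41869 : QOK q41869 := cut [q41868] ⟨c41868, trivial⟩ (nd (nat_lit 319) (nat_lit 0) (cs (lf (nat_lit 38) (nat_lit 252)) (rf (nat_lit 0)))) q41869 (by decide +kernel)
def q41908 : Q := Q.p (nat_lit 0xf0000300000000000000000000000000000000000000000000000000000000000000000000000000) (nat_lit 0xe000700000080000000000000000000000000000000000000000000000000000000000000000000000000) (nat_lit 4)
theorem c41908 : QOK q41908 := cut [q12842] ⟨c12842, trivial⟩ (nd (nat_lit 338) (nat_lit 0) (cs (lf (nat_lit 11) (nat_lit 315)) (nd (nat_lit 320) (nat_lit 0) (cs (lf (nat_lit 10) (nat_lit 316)) (rf (nat_lit 0)))))) q41908 (by decide +kernel)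
def q41913 : Q := Q.p (nat_lit 0xf0000100000000000000000000000000000000000000000000000000000000000000000000000000) (nat_lit 0xe000300001c80000000000000000000000000000000000000000000000000000000000000000000000000) (nat_lit 5)
theorem c41913 : QOK q41913 := cut [q15857] ⟨c15857, trivial⟩ (nd (nat_lit 338) (nat_lit 0) (cs (lf (nat_lit 11) (nat_lit 315)) (rf (nat_lit 0)))) q41913 (by decide +kernel)
def q41944 : Q := Q.p (nat_lit 0xf0000100000000000000000000000000000000000000000000000000000000000000000000000000) (nat_lit 0x1c0000300000e80000000000000000000000000000000000000000000000000000000000000000000000000) (nat_lit 5)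
theorem c41944 : QOK q41944 := cut [q41943] ⟨c41943, trivial⟩ (nd (nat_lit 298) (nat_lit 0) (cs (lf (nat_lit 16) (nat_lit 294)) (rf (nat_lit 0)))) q41944 (by decide +kernel)
def q41951 : Q := Q.p (nat_lit 0x40000300000000002000000000000000000000000000000000000000000000000000000000000000) (nat_lit 0x4000010000080000000000800000000008000000000000000000000000000000000000000000000000000000000) (nat_lit 3)
theorem c41951 : QOK q41951 := cut [q17024] ⟨c17024, trivial⟩ (nd (nat_lit 275) (nat_lit 0) (cs (lf (nat_lit 36) (nat_lit 230)) (rf (nat_lit 0)))) q41951 (by decide +kernel)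
def q41955 : Q := Q.p (nat_lit 0x3c0000000000000000000000000000000000000000000000000000000000000000000000000) (nat_lit 0x1c0000200001c0000000000000000000000000000000000000000000000000000000000000000000) (nat_lit 4)
theorem c41955 : QOK q41955 := cut [q41954] ⟨c41954, trivial⟩ (nd (nat_lit 271) (nat_lit 0) (cs (lf (nat_lit 22) (nat_lit 271)) (rf (nat_lit 0)))) q41955 (by decide +kernel)
def q41959 : Q := Q.p (nat_lit 0x40000780000000002000000000000000000000000000000000000000000000000000000000000000) (nat_lit 0x40000300000000003800000000008000000000000000000000000000000000000000000000000000000000) (nat_lit 4)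
theorem c41959 : QOK q41959 := cut [q15058] ⟨c15058, trivial⟩ (nd (nat_lit 276) (nat_lit 0) (cs (lf (nat_lit 17) (nat_lit 273)) (nd (nat_lit 275) (nat_lit 0) (cs (rf (nat_lit 0)) (lf (nat_lit 36) (nat_lit 230)))))) q41959 (by decide +kernel)
def q41965 : Q := Q.p (nat_lit 0x780000000000000000000000000000000000000000000000000000000000000000000000000) (nat_lit 0x700000800007000000000000000000000000000000000000000000000000000000000000000000000) (nat_lit 4)
theorem c41965 : QOK q41965 := cut [q28147] ⟨c28147, trivial⟩ (nd (nat_lit 321) (nat_lit 0) (cs (lf (nat_lit 4) (nat_lit 295)) (nd (nat_lit 299) (nat_lit 0) (cs (lf (nat_lit 5) (nat_lit 296)) (rf (nat_lit 0)))))) q41965 (by decide +kernel)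
def q41973 : Q := Q.p (nat_lit 0x400001e0000000000000000000000000000000000000000000000000000000000000000000000000) (nat_lit 0x2e000010000000000000000000000000000000000000000000000000000000000000000000000000) (nat_lit 3)
theorem c41973 : QOK q41973 := cut [q40786] ⟨c40786, trivial⟩ (nd (nat_lit 292) (nat_lit 0) (cs (rf (nat_lit 0)) (lf (nat_lit 4) (nat_lit 292)))) q41973 (by decide +kernel)
def q41984 : Q := Q.p (nat_lit 0x400001e0000000000000000000000000000000000000000000000000000000000000000000000000) (nat_lit 0x200000100000e0000000000000000000000000000000000000000000000000000000000000000000) (nat_lit 3)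
theorem c41984 : QOK q41984 := cut [q41983] ⟨c41983, trivial⟩ (nd (nat_lit 292) (nat_lit 0) (cs (lf (nat_lit 4) (nat_lit 292)) (rf (nat_lit 0)))) q41984 (by decide +kernel)
def q42005 : Q := Q.p (nat_lit 0x40000f00000000000000000000000000000000000000000000000000000000000000000000000000) (nat_lit 0xe80001000000000000000000000000000000000000000000000000000000000000000000000000000) (nat_lit 3)
theorem c42005 : QOK q42005 := cut [q22528] ⟨c22528, trivial⟩ (nd (nat_lit 300) (nat_lit 0) (cs (lf (nat_lit 10) (nat_lit 296)) (rf (nat_lit 0)))) q42005 (by decide +kernel)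
def q42008 : Q := Q.p (nat_lit 0x780000000000000000000000000000000000000000000000000000000000000000000000000) (nat_lit 0x3b8000040000000000000000000000000000000000000000000000000000000000000000000000000) (nat_lit 4)
theorem c42008 : QOK q42008 := cut [q22136] ⟨c22136, trivial⟩ (nd (nat_lit 320) (nat_lit 0) (cs (lf (nat_lit 5) (nat_lit 295)) (nd (nat_lit 294) (nat_lit 0) (cs (rf (nat_lit 0)) (lf (nat_lit 4) (nat_lit 294)))))) q42008 (by decide +kernel)
def q42010 : Q := Q.p (nat_lit 0x100000780000000000000000000000000000000000000000000000000000000000000000000000000) (nat_lit 0x80000040000380000000000000000000000000000000000000000000000000000000000000000000) (nat_lit 3)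
theorem c42010 : QOK q42010 := cut [q11781] ⟨c11781, trivial⟩ (nd (nat_lit 294) (nat_lit 0) (cs (rf (nat_lit 0)) (lf (nat_lit 4) (nat_lit 294)))) q42010 (by decide +kernel)
def q42013 : Q := Q.p (nat_lit 0x100000700000000000000000000000000000000000000000000000000000000000000000000000000) (nat_lit 0xe00000880000000000000000000000000000000000000000000000000000000000000000000000000) (nat_lit 3)
theorem c42013 : QOK q42013 := cut [q28786] ⟨c28786, trivial⟩ (nd (nat_lit 321) (nat_lit 0) (cs (lf (nat_lit 0) (nat_lit 295)) (rf (nat_lit 0)))) q42013 (by decide +kernel)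
def q42023 : Q := Q.p (nat_lit 0xf00000000000000000000000000000000000000000000000000000000000000000000000000) (nat_lit 0x300000c0000700000080007000018000060000180000000000000000000000000000000000000000000000000000) (nat_lit 9)
theorem c42023 : QOK q42023 := cut [q13630] ⟨c13630, trivial⟩ (nd (nat_lit 277) (nat_lit 0) (cs (lf (nat_lit 17) (nat_lit 274)) (nd (nat_lit 276) (nat_lit 0) (cs (lf (nat_lit 12) (nat_lit 273)) (nd (nat_lit 321) (nat_lit 0) (cs (lf (nat_lit 5) (nat_lit 296)) (nd (nat_lit 343) (nat_lit 0) (cs (lf (nat_lit 42) (nat_lit 276)) (nd (nat_lit 342) (nat_lit 0) (cs (lf (nat_lit 41) (nat_lit 276)) (nd (nat_lit 255) (nat_lit 0) (cs (lf (nat_lit 40) (nat_lit 254)) (nd (nat_lit 233) (nat_lit 0) (cs (rf (nat_lit 0)) (lf (nat_lit 36) (nat_lit 210)))))))))))))))) q42023 (by decide +kernel)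
def q42037 : Q := Q.p (nat_lit 0x40000f00000000000000000000000000000000000000000000000000000000000000000000000000) (nat_lit 0x8000100000e000000000000000000000000000000000000000000000000000000000000000000000) (nat_lit 3)
theorem c42037 : QOK q42037 := cut [q11623] ⟨c11623, trivial⟩ (nd (nat_lit 300) (nat_lit 0) (cs (lf (nat_lit 10) (nat_lit 296)) (rf (nat_lit 0)))) q42037 (by decide +kernel)
def q42049 : Q := Q.p (nat_lit 0x40000100000780000000000000000000000000000000000000000000000000000000000000000000000000) (nat_lit 0xa0000380000a0000000000000003000000000000000000000000000000000000000000000000000000000000000000000) (nat_lit 5)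
theorem c42049 : QOK q42049 := cut [q42048] ⟨c42048, trivial⟩ (nd (nat_lit 276) (nat_lit 0) (cs (lf (nat_lit 17) (nat_lit 273)) (rf (nat_lit 0)))) q42049 (by decide +kernel)
def q42057 : Q := Q.p (nat_lit 0x40000100000780000000000000000000000000000000000000000000000000000000000000000000000000) (nat_lit 0x200000e0000380000200000b0000000003000000000000000000000000000000000000000000000000000000000000000000000) (nat_lit 7)
theorem c42057 : QOK q42057 := cut [q42054] ⟨c42054, trivial⟩ (nd (nat_lit 276) (nat_lit 0) (cs (lf (nat_lit 17) (nat_lit 273)) (nd (nat_lit 363) (nat_lit 0) (cs (lf (nat_lit 40) (nat_lit 275)) (nd (nat_lit 316) (nat_lit 0) (cs (lf (nat_lit 10) (nat_lit 294)) (rf (nat_lit 0)))))))) q42057 (by decide +kernel)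
def q42068 : Q := Q.p (nat_lit 0x2000048000020000080000000000000000000000000000000000000000000000000000000000000000000000000) (nat_lit 0x140000d000030000000000000000000000000000000000000000000000000000000000000000000000000000000000000) (nat_lit 4)
theorem c42068 : QOK q42068 := cut [q42066] ⟨c42066, trivial⟩ (nd (nat_lit 362) (nat_lit 0) (cs (lf (nat_lit 29) (nat_lit 295)) (nd (nat_lit 360) (nat_lit 0) (cs (lf (nat_lit 41) (nat_lit 294)) (rf (nat_lit 0)))))) q42068 (by decide +kernel)
def q42088 : Q := Q.p (nat_lit 0x40000700000000000000000000000000000000000000000000000000000000000000000000000000) (nat_lit 0x7a000788001c000000000000000000000000000000000000000000000000000000000000000000000) (nat_lit 7)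
theorem c42088 : QOK q42088 := cut [q42086] ⟨c42086, trivial⟩ (nd (nat_lit 299) (nat_lit 0) (cs (lf (nat_lit 11) (nat_lit 295)) (nd (nat_lit 321) (nat_lit 0) (cs (lf (nat_lit 5) (nat_lit 296)) (rf (nat_lit 0)))))) q42088 (by decide +kernel)
def q42099 : Q := Q.p (nat_lit 0x40000100000000003000000000000000000000000000000000000000000000000000000000000000) (nat_lit 0xa0000380000a0000000000400000000008000000000000000000000000000000000000000000000000000000000) (nat_lit 5)
theorem c42099 : QOK q42099 := cut [q42098] ⟨c42098, trivial⟩ (nd (nat_lit 274) (nat_lit 0) (cs (lf (nat_lit 35) (nat_lit 230)) (rf (nat_lit 0)))) q42099 (by decide +kernel)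
def q42101 : Q := Q.p (nat_lit 0x10000040000100000000003000000000000000000000000000000000000000000000000000000000000000) (nat_lit 0x2000008000020000000000c00000000000000000000000000000000000000000000000000000000000000000000) (nat_lit 3)
theorem c42101 : QOK q42101 := cut [q42100] ⟨c42100, trivial⟩ (nd (nat_lit 274) (nat_lit 0) (cs (lf (nat_lit 34) (nat_lit 252)) (rf (nat_lit 0)))) q42101 (by decide +kernel)
def q42103 : Q := Q.p (nat_lit 0x10000040000100000000003000000000000000000000000000000000000000000000000000000000000000) (nat_lit 0x8000020000080000000000c00000000000000000000000000000000000000000000000000000000000000000000) (nat_lit 3)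
theorem c42103 : QOK q42103 := cut [q42102] ⟨c42102, trivial⟩ (nd (nat_lit 274) (nat_lit 0) (cs (lf (nat_lit 34) (nat_lit 252)) (rf (nat_lit 0)))) q42103 (by decide +kernel)
def q42119 : Q := Q.p (nat_lit 0x4000010000040000300000000000000000000000000000000000000000000000000000000000000000000000000) (nat_lit 0x1000000000000000038000480000200000000000000000000000000000000000000000000000000000000000000000000) (nat_lit 4)
theorem c42119 : QOK q42119 := cut [q25431] ⟨c25431, trivial⟩ (nd (nat_lit 295) (nat_lit 0) (cs (lf (nat_lit 47) (nat_lit 273)) (nd (nat_lit 317) (nat_lit 0) (cs (lf (nat_lit 42) (nat_lit 295)) (rf (nat_lit 0)))))) q42119 (by decide +kernel)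
def q42163 : Q := Q.p (nat_lit 0x40000100000000003000000000000000000000000000000000000000000000000000000000000000) (nat_lit 0x8000030000080000000000c00000000008000000000000000000000000000000000000000000000000000000000) (nat_lit 4)
theorem c42163 : QOK q42163 := cut [q42162] ⟨c42162, trivial⟩ (nd (nat_lit 274) (nat_lit 0) (cs (lf (nat_lit 35) (nat_lit 230)) (rf (nat_lit 0)))) q42163 (by decide +kernel)
def q42166 : Q := Q.p (nat_lit 0x40000100000000003000000000000000000000000000000000000000000000000000000000000000) (nat_lit 0x2000018000020000000000c00000000008000000000000000000000000000000000000000000000000000000000) (nat_lit 4)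
theorem c42166 : QOK q42166 := cut [q42165] ⟨c42165, trivial⟩ (nd (nat_lit 274) (nat_lit 0) (cs (lf (nat_lit 35) (nat_lit 230)) (rf (nat_lit 0)))) q42166 (by decide +kernel)
def q42171 : Q := Q.p (nat_lit 0x1c0000100000000000000000000000000000000000000000000000000000000000000000000000000) (nat_lit 0x2000002e0000000000000000000000000000000000000000000000000000000000000000000000000) (nat_lit 3)
theorem c42171 : QOK q42171 := cut [q42170] ⟨c42170, trivial⟩ (nd (nat_lit 295) (nat_lit 0) (cs (lf (nat_lit 18) (nat_lit 295)) (rf (nat_lit 0)))) q42171 (by decide +kernel)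
def q42176 : Q := Q.p (nat_lit 0x1c0000100000400003000000000000000000000000000000000000000000000000000000000000000) (nat_lit 0xc8000030000e00000800000000000000000000000000000000000000000000000000000000000000000000) (nat_lit 5)
theorem c42176 : QOK q42176 := cut [q42175] ⟨c42175, trivial⟩ (nd (nat_lit 317) (nat_lit 0) (cs (lf (nat_lit 41) (nat_lit 251)) (rf (nat_lit 0)))) q42176 (by decide +kernel)
def q42190 : Q := Q.p (nat_lit 0xd00003400000000000000000000000000000000000000000000000000000000000000) (nat_lit 0x1ce0007200018800000000000000000000000000000000000000000000000000000000000000) (nat_lit 7)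
theorem c42190 : QOK q42190 := cut [q1208] ⟨c1208, trivial⟩ (nd (nat_lit 276) (nat_lit 0) (cs (lf (nat_lit 1) (nat_lit 250)) (nd (nat_lit 277) (nat_lit 0) (cs (lf (nat_lit 18) (nat_lit 252)) (nd (nat_lit 255) (nat_lit 0) (cs (lf (nat_lit 17) (nat_lit 252)) (nd (nat_lit 299) (nat_lit 0) (cs (lf (nat_lit 5) (nat_lit 274)) (nd (nat_lit 273) (nat_lit 0) (cs (rf (nat_lit 0)) (lf (nat_lit 4) (nat_lit 273)))))))))))) q42190 (by decide +kernel)
def q42194 : Q := Q.p (nat_lit 0x500003400000000000000000000000000000000000000000000000000000000000000) (nat_lit 0x1880000a00000000000000000000000000000000000000000000000000000000000000) (nat_lit 3)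
theorem c42194 : QOK q42194 := cut [q17541] ⟨c17541, trivial⟩ (nd (nat_lit 251) (nat_lit 0) (cs (lf (nat_lit 11) (nat_lit 249)) (rf (nat_lit 0)))) q42194 (by decide +kernel)
def q42201 : Q := Q.p (nat_lit 0x3c0000000000000000000000000000000000000000000000000000000000000000000000000000000) (nat_lit 0x20001dc0000000000000000000000000000000000000000000000000000000000000000000000000) (nat_lit 4)
theorem c42201 : QOK q42201 := cut [q42199] ⟨c42199, trivial⟩ (nd (nat_lit 299) (nat_lit 0) (cs (lf (nat_lit 17) (nat_lit 296)) (nd (nat_lit 317) (nat_lit 0) (cs (lf (nat_lit 16) (nat_lit 295)) (rf (nat_lit 0)))))) q42201 (by decide +kernel)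
def q42205 : Q := Q.p (nat_lit 0x1e0000000000000000400000000000000000000000000000000000000000000000000000000000000) (nat_lit 0xc0000100000e0000100000000000000000000000000000000000000000000000000000000000000000000) (nat_lit 4)
theorem c42205 : QOK q42205 := cut [q42203] ⟨c42203, trivial⟩ (nd (nat_lit 294) (nat_lit 0) (cs (lf (nat_lit 22) (nat_lit 294)) (nd (nat_lit 316) (nat_lit 0) (cs (lf (nat_lit 23) (nat_lit 293)) (rf (nat_lit 0)))))) q42205 (by decide +kernel)
def q42215 : Q := Q.p (nat_lit 0x100001c0000000000000003400000000000000000000000000000000000000000000000000000000000000) (nat_lit 0x40000220003e00007800000800000000000000000000000000000000000000000000000000000000000000) (nat_lit 7)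
theorem c42215 : QOK q42215 := cut [q41729] ⟨c41729, trivial⟩ (nd (nat_lit 275) (nat_lit 0) (cs (lf (nat_lit 38) (nat_lit 252)) (nd (nat_lit 276) (nat_lit 0) (cs (lf (nat_lit 1) (nat_lit 250)) (nd (nat_lit 277) (nat_lit 0) (cs (lf (nat_lit 18) (nat_lit 252)) (nd (nat_lit 298) (nat_lit 0) (cs (lf (nat_lit 42) (nat_lit 253)) (rf (nat_lit 0)))))))))) q42215 (by decide +kernel)
def q42221 : Q := Q.p (nat_lit 0x1c000010000080000200000000000000000000000000000000000000000000000000000000000000000000000000) (nat_lit 0x400002000002c000000000000000000000000000000000000000000000000000000000000000000000000000000000000) (nat_lit 3)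
theorem c42221 : QOK q42221 := cut [q42220] ⟨c42220, trivial⟩ (nd (nat_lit 341) (nat_lit 0) (cs (lf (nat_lit 29) (nat_lit 297)) (rf (nat_lit 0)))) q42221 (by decide +kernel)
def q42246 : Q := Q.p (nat_lit 0x30000040000000003400000000000000000000000000000000000000000000000000000000000000) (nat_lit 0x8000000000000000180000800002000000000000000000000000000000000000000000000000000000000) (nat_lit 3)
theorem c42246 : QOK q42246 := cut [q42245] ⟨c42245, trivial⟩ (nd (nat_lit 272) (nat_lit 0) (cs (lf (nat_lit 29) (nat_lit 250)) (rf (nat_lit 0)))) q42246 (by decide +kernel)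
def q42285 : Q := Q.p (nat_lit 0xc0000100000c0000200000000000000000000000000000000000000000000000000000000000000000000000000) (nat_lit 0x20000000000000001000001e0000200000000000000000000000000000000000000000000000000000000000000000000) (nat_lit 4)
theorem c42285 : QOK q42285 := cut [q42282] ⟨c42282, trivial⟩ (nd (nat_lit 296) (nat_lit 0) (cs (lf (nat_lit 29) (nat_lit 296)) (rf (nat_lit 0)))) q42285 (by decide +kernel)
def q42299 : Q := Q.p (nat_lit 0xc0000100000c0000200000000000000000000000000000000000000000000000000000000000000000000000000) (nat_lit 0x180001e0000720001e0000120000400001000000000000000000000000000000000000000000000000000000000000000000000) (nat_lit 8)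
theorem c42299 : QOK q42299 := cut [q23362, q42296, q42297] ⟨c23362, c42296, c42297, trivial⟩ (nd (nat_lit 341) (nat_lit 0) (cs (nd (nat_lit 385) (nat_lit 0) (cs (rf (nat_lit 0)) (lf (nat_lit 42) (nat_lit 318)))) (cs (rf (nat_lit 1)) (nd (nat_lit 385) (nat_lit 0) (cs (lf (nat_lit 42) (nat_lit 318)) (rf (nat_lit 2))))))) q42299 (by decide +kernel)
def q42323 : Q := Q.p (nat_lit 0x180000c0000000000000000000000000000000000000000000000000000000000000000000000000000000) (nat_lit 0x6000320000000000000000000000000000000000000000000000000000000000000000000000000000000) (nat_lit 3)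
theorem c42323 : QOK q42323 := cut [q42322] ⟨c42322, trivial⟩ (nd (nat_lit 320) (nat_lit 0) (cs (lf (nat_lit 6) (nat_lit 317)) (rf (nat_lit 0)))) q42323 (by decide +kernel)
def q42350 : Q := Q.p (nat_lit 0x3c0000c0000000000000000400000000000000000000000000000000000000000000000000000000000000) (nat_lit 0x40000038000060000100000000000000000000000000000000000000000000000000000000000000000000) (nat_lit 4)
theorem c42350 : QOK q42350 := cut [q42348] ⟨c42348, trivial⟩ (nd (nat_lit 316) (nat_lit 0) (cs (lf (nat_lit 23) (nat_lit 315)) (nd (nat_lit 317) (nat_lit 0) (cs (lf (nat_lit 18) (nat_lit 316)) (rf (nat_lit 0)))))) q42350 (by decide +kernel)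

end Crest.Agent.H3.Snaky.CR
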