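import Crest.Agent.H3.Snaky.Cert
import Crest.Agent.H3.Snaky.CR.CR0
import Crest.Agent.H3.Snaky.CR.CR1
import Crest.Agent.H3.Snaky.CR.CR3
import Crest.Agent.H3.Snaky.CR.CR4
import Crest.Agent.H3.Snaky.CR.CR5
import Crest.Agent.H3.Snaky.CR.CR6
import Crest.Agent.H3.Snaky.CR.CR7
import Crest.Agent.H3.Snaky.CR.CR8
import Crest.Agent.H3.Snaky.CR.CR9
import Crest.Agent.H3.Snaky.CR.CR10
import Crest.Agent.H3.Snaky.CR.CR11

set_option autoImplicit false
set_option maxRecDepth 100000

namespace Crest.Agent.H3.Snaky.CR

open T

def q42360 : Q := Q.p (nat_lit 0x1e0000000000000000000000000000000000000000000000000000000000000000000000000000000) (nat_lit 0xe0000010000e00000000000000000000000000000000000000000000000000000000000000000000000000) (nat_lit 4)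
theorem c42360 : QOK q42360 := cut [q42358] ⟨c42358, trivial⟩ (nd (nat_lit 342) (nat_lit 0) (cs (lf (nat_lit 5) (nat_lit 317)) (nd (nat_lit 316) (nat_lit 0) (cs (lf (nat_lit 4) (nat_lit 316)) (rf (nat_lit 0)))))) q42360 (by decide +kernel)
def q42383 : Q := Q.p (nat_lit 0x40000000000000003e00000000010000040000000000000000000000000000000000000000000000) (nat_lit 0x2000388001b7000018001ae00008000000000000000000000000000000000000000000000000000) (nat_lit 11)
theorem c42383 : QOK q42383 := cut [q42380] ⟨c42380, trivial⟩ (nd (nat_lit 275) (nat_lit 0) (cs (lf (nat_lit 5) (nat_lit 250)) (nd (nat_lit 231) (nat_lit 0) (cs (lf (nat_lit 17) (nat_lit 228)) (nd (nat_lit 296) (nat_lit 0) (cs (lf (nat_lit 39) (nat_lit 230)) (rf (nat_lit 0)))))))) q42383 (by decide +kernel)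
def q42391 : Q := Q.p (nat_lit 0x10000040000000000000003e00000000010000040000000000000000000000000000000000000000000000) (nat_lit 0x20000180001b8000018001ae00008000000000000000000000000000000000000000000000000000) (nat_lit 9)
theorem c42391 : QOK q42391 := cut [q42389] ⟨c42389, trivial⟩ (nd (nat_lit 272) (nat_lit 0) (cs (lf (nat_lit 11) (nat_lit 249)) (nd (nat_lit 275) (nat_lit 0) (cs (lf (nat_lit 5) (nat_lit 250)) (rf (nat_lit 0)))))) q42391 (by decide +kernel)
def q42395 : Q := Q.p (nat_lit 0x10000070000000000000000000000000000000000000000000000000000000000000000000000000000000) (nat_lit 0x2b80000c000000000000000000000000000000000000000000000000000000000000000000000000000000) (nat_lit 4)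
theorem c42395 : QOK q42395 := cut [q42394] ⟨c42394, trivial⟩ (nd (nat_lit 315) (nat_lit 0) (cs (lf (nat_lit 5) (nat_lit 315)) (rf (nat_lit 0)))) q42395 (by decide +kernel)
def q42403 : Q := Q.p (nat_lit 0x100000f0000000000000003c00000000000000000000000000000000000000000000000000000000000000) (nat_lit 0x80000240001980006e0000000001e0000200000000018000000000000000000000000000000000000000000000000000000000) (nat_lit 10)
theorem c42403 : QOK q42403 := cut [q42347] ⟨c42347, trivial⟩ (nd (nat_lit 341) (nat_lit 0) (cs (lf (nat_lit 5) (nat_lit 316)) (nd (nat_lit 231) (nat_lit 0) (cs (lf (nat_lit 17) (nat_lit 228)) (nd (nat_lit 293) (nat_lit 0) (cs (lf (nat_lit 22) (nat_lit 293)) (nd (nat_lit 295) (nat_lit 0) (cs (lf (nat_lit 25) (nat_lit 251)) (nd (nat_lit 338) (nat_lit 0) (cs (lf (nat_lit 11) (nat_lit 315)) (nd (nat_lit 360) (nat_lit 0) (cs (lf (nat_lit 30) (nat_lit 294)) (nd (nat_lit 339) (nat_lit 0) (cs (lf (nat_lit 11) (nat_lit 337)) (rf (nat_lit 0)))))))))))))))) q42403 (by decide +kernel)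
def q42408 : Q := Q.p (nat_lit 0x10000078000000000000000800000000010000040000000000000000000000000000000000000000000000) (nat_lit 0x70000800000f0000200000000002000008000000000000000000000000000000000000000000000000000) (nat_lit 6)
theorem c42408 : QOK q42408 := cut [q41746] ⟨c41746, trivial⟩ (nd (nat_lit 293) (nat_lit 0) (cs (lf (nat_lit 23) (nat_lit 292)) (nd (nat_lit 273) (nat_lit 0) (cs (lf (nat_lit 26) (nat_lit 251)) (nd (nat_lit 207) (nat_lit 0) (cs (lf (nat_lit 32) (nat_lit 185)) (nd (nat_lit 319) (nat_lit 0) (cs (lf (nat_lit 22) (nat_lit 293)) (rf (nat_lit 0)))))))))) q42408 (by decide +kernel)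
def q42412 : Q := Q.p (nat_lit 0x10000078000000000000000800000000000000000000000000000000000000000000000000000000000000) (nat_lit 0x8000004000180000200000000000000000000000000000000000000000000000000000000000000000000) (nat_lit 3)
theorem c42412 : QOK q42412 := cut [q42411] ⟨c42411, trivial⟩ (nd (nat_lit 314) (nat_lit 0) (cs (lf (nat_lit 4) (nat_lit 314)) (rf (nat_lit 0)))) q42412 (by decide +kernel)
def q42415 : Q := Q.p (nat_lit 0x10000078000000000000000800000000000000000000000000000000000000000000000000000000000000) (nat_lit 0x3800004000180000200000000000000000000000000000000000000000000000000000000000000000000) (nat_lit 4)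
theorem c42415 : QOK q42415 := cut [q42411] ⟨c42411, trivial⟩ (nd (nat_lit 336) (nat_lit 0) (cs (lf (nat_lit 10) (nat_lit 314)) (nd (nat_lit 314) (nat_lit 0) (cs (lf (nat_lit 11) (nat_lit 313)) (rf (nat_lit 0)))))) q42415 (by decide +kernel)
def q42418 : Q := Q.p (nat_lit 0x10000078000000000000000000000000000000000000000000000000000000000000000000000000000000) (nat_lit 0x8000004000038000000000000000000000000000000000000000000000000000000000000000000000000) (nat_lit 3)
theorem c42418 : QOK q42418 := cut [q25252] ⟨c25252, trivial⟩ (nd (nat_lit 314) (nat_lit 0) (cs (lf (nat_lit 4) (nat_lit 314)) (rf (nat_lit 0)))) q42418 (by decide +kernel)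
def q42430 : Q := Q.p (nat_lit 0x10000050000000000000003c00000000000000000000000000000000000000000000000000000000000000) (nat_lit 0x2b80002c0000200001c0000300000e00001000004000000000000000000000000000000000000000000000) (nat_lit 10)
theorem c42430 : QOK q42430 := cut [q42394] ⟨c42394, trivial⟩ (nd (nat_lit 271) (nat_lit 0) (cs (lf (nat_lit 10) (nat_lit 249)) (nd (nat_lit 249) (nat_lit 0) (cs (lf (nat_lit 11) (nat_lit 248)) (nd (nat_lit 226) (nat_lit 0) (cs (lf (nat_lit 22) (nat_lit 226)) (nd (nat_lit 248) (nat_lit 0) (cs (lf (nat_lit 23) (nat_lit 225)) (nd (nat_lit 182) (nat_lit 0) (cs (nd (nat_lit 315) (nat_lit 0) (cs (lf (nat_lit 43) (nat_lit 226)) (nd (nat_lit 317) (nat_lit 0) (cs (lf (nat_lit 5) (nat_lit 315)) (rf (nat_lit 0)))))) (lf (nat_lit 25) (nat_lit 182)))))))))))) q42430 (by decide +kernel)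
def q42449 : Q := Q.p (nat_lit 0x10000000000000003c00000000010000040000000000000000000000000000000000000000000000) (nat_lit 0x40000380000000002000008000020000000000000000000000000000000000000000000000) (nat_lit 4)
theorem c42449 : QOK q42449 := cut [q41745] ⟨c41745, trivial⟩ (nd (nat_lit 272) (nat_lit 0) (cs (lf (nat_lit 11) (nat_lit 249)) (rf (nat_lit 0)))) q42449 (by decide +kernel)
def q42450 : Q := Q.p (nat_lit 0x300001e0000000000000000000000000000000000000000000000000000000000000000000000000000000) (nat_lit 0x600001c00000000000000000000000000000000000000000000000000000000000000000000000000) (nat_lit 3)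
theorem c42450 : QOK q42450 := cut [q12801] ⟨c12801, trivial⟩ (nd (nat_lit 321) (nat_lit 0) (cs (rf (nat_lit 0)) (lf (nat_lit 6) (nat_lit 318)))) q42450 (by decide +kernel)
def q42473 : Q := Q.p (nat_lit 0xc000010000040000000000000000000000000000000000000000000000000000000000000000000000000000000) (nat_lit 0x200000800002000000000020000000000100000000000000000000000000000000000000000000000000000000000000000000000000) (nat_lit 3)
theorem c42473 : QOK q42473 := cut [q42472] ⟨c42472, trivial⟩ (nd (nat_lit 385) (nat_lit 0) (cs (lf (nat_lit 24) (nat_lit 296)) (rf (nat_lit 0)))) q42473 (by decide +kernel)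
def q42482 : Q := Q.p (nat_lit 0x200000e000000000000000000000000000000000000000000000000000000000000000000000000000000000000000000) (nat_lit 0x4700001800007000000000000000000000000000000000000000000000000000000000000000000000000000000000000) (nat_lit 5)
theorem c42482 : QOK q42482 := cut [q42480] ⟨c42480, trivial⟩ (nd (nat_lit 360) (nat_lit 0) (cs (rf (nat_lit 0)) (lf (nat_lit 5) (nat_lit 360)))) q42482 (by decide +kernel)
def q42492 : Q := Q.p (nat_lit 0x6000010000040000000000000000000000000000000000000000000000000000000000000000000000000000000) (nat_lit 0x80000200000800000000008000000000100000000000000000000000000000000000000000000000000000000000000000000000000) (nat_lit 3)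
theorem c42492 : QOK q42492 := cut [q42491] ⟨c42491, trivial⟩ (nd (nat_lit 383) (nat_lit 0) (cs (lf (nat_lit 36) (nat_lit 295)) (rf (nat_lit 0)))) q42492 (by decide +kernel)
def q42499 : Q := Q.p (nat_lit 0x1e000010000000000000000000000000000000000000000000000000000000000000000000000000000000000000) (nat_lit 0x1c0000610000e0000000000000000000000000000000000000000000000000000000000000000000000000000000000000) (nat_lit 5)
theorem c42499 : QOK q42499 := cut [q42495] ⟨c42495, trivial⟩ (nd (nat_lit 342) (nat_lit 0) (cs (nd (nat_lit 341) (nat_lit 0) (cs (lf (nat_lit 12) (nat_lit 338)) (nd (nat_lit 365) (nat_lit 0) (cs (lf (nat_lit 18) (nat_lit 340)) (rf (nat_lit 0)))))) (lf (nat_lit 17) (nat_lit 339)))) q42499 (by decide +kernel)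
def q42515 : Q := Q.p (nat_lit 0x1c000010000000000000000000000000000000000000000000000000000000000000000000000000000000000000) (nat_lit 0x2200000e000000000000000000000000000000000000000000000000000000000000000000000000000000000000) (nat_lit 3)
theorem c42515 : QOK q42515 := cut [q42514] ⟨c42514, trivial⟩ (nd (nat_lit 339) (nat_lit 0) (cs (lf (nat_lit 18) (nat_lit 339)) (rf (nat_lit 0)))) q42515 (by decide +kernel)
def q42520 : Q := Q.p (nat_lit 0x1e000000000000000000000000000000000000000000000000000000000000000000000000000000000000000000) (nat_lit 0xe0000010000e0000000000000000000000000000000000000000000000000000000000000000000000000000000000000) (nat_lit 4)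
theorem c42520 : QOK q42520 := cut [q42518] ⟨c42518, trivial⟩ (nd (nat_lit 386) (nat_lit 0) (cs (lf (nat_lit 5) (nat_lit 361)) (nd (nat_lit 360) (nat_lit 0) (cs (lf (nat_lit 4) (nat_lit 360)) (rf (nat_lit 0)))))) q42520 (by decide +kernel)
def q42557 : Q := Q.p (nat_lit 0x1000004000010000040000000000000000000000000000000000000000000000000000000000000000000000000000000) (nat_lit 0xa00002c00038000000000000000100000000000000000000000000000000000000000000000000000000000000000000000000) (nat_lit 5)
theorem c42557 : QOK q42557 := cut [q42554] ⟨c42554, trivial⟩ (nd (nat_lit 385) (nat_lit 0) (cs (lf (nat_lit 29) (nat_lit 318)) (nd (nat_lit 363) (nat_lit 0) (cs (lf (nat_lit 24) (nat_lit 296)) (nd (nat_lit 383) (nat_lit 0) (cs (lf (nat_lit 41) (nat_lit 317)) (rf (nat_lit 0)))))))) q42557 (by decide +kernel)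
def q42561 : Q := Q.p (nat_lit 0x1800006000010000040000000000000000000000000000000000000000000000000000000000000000000000000000000) (nat_lit 0x800006000001800000000000000000000000000000000000000000000000000000000000000000000000000000000000000000) (nat_lit 3)
theorem c42561 : QOK q42561 := cut [q42560] ⟨c42560, trivial⟩ (nd (nat_lit 385) (nat_lit 0) (cs (lf (nat_lit 29) (nat_lit 318)) (rf (nat_lit 0)))) q42561 (by decide +kernel)
def q42566 : Q := Q.p (nat_lit 0x1000004000010000040000000000000000000000000000000000000000000000000000000000000000000000000000000) (nat_lit 0x280000e00002800000000000000000000000000000000000000000000000000000000000000000000000000000000000000000000000) (nat_lit 4)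
theorem c42566 : QOK q42566 := cut [q31198] ⟨c31198, trivial⟩ (nd (nat_lit 405) (nat_lit 0) (cs (lf (nat_lit 40) (nat_lit 317)) (nd (nat_lit 407) (nat_lit 0) (cs (lf (nat_lit 28) (nat_lit 318)) (rf (nat_lit 0)))))) q42566 (by decide +kernel)
def q42581 : Q := Q.p (nat_lit 0x7800010000000000000000000000000000000000000000000000000000000000000000000000000000000000000) (nat_lit 0x40000b800000000000000000000000000000000000000000000000000000000000000000000000000000000000) (nat_lit 3)
theorem c42581 : QOK q42581 := cut [q42579] ⟨c42579, trivial⟩ (nd (nat_lit 358) (nat_lit 0) (cs (rf (nat_lit 0)) (lf (nat_lit 16) (nat_lit 336)))) q42581 (by decide +kernel)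
def q42592 : Q := Q.p (nat_lit 0x4000010000060000000000000000000000000000000000000000000000000000000000000000000000000000000) (nat_lit 0x1000000000000000000000180000200000800000000000000000000000000000000000000000000000000000000000000) (nat_lit 3)
theorem c42592 : QOK q42592 := cut [q42591] ⟨c42591, trivial⟩ (nd (nat_lit 295) (nat_lit 0) (cs (lf (nat_lit 42) (nat_lit 295)) (rf (nat_lit 0)))) q42592 (by decide +kernel)
def q42612 : Q := Q.p (nat_lit 0x1e000010000040000000000000000000000000000000000000000000000000000000000000000000000000000000) (nat_lit 0x10000010000ec000030000080000200000000000000000000000000000000000000000000000000000000000000000000) (nat_lit 6)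
theorem c42612 : QOK q42612 := cut [q31298] ⟨c31298, trivial⟩ (nd (nat_lit 339) (nat_lit 0) (cs (lf (nat_lit 23) (nat_lit 338)) (nd (nat_lit 342) (nat_lit 0) (cs (lf (nat_lit 17) (nat_lit 339)) (nd (nat_lit 341) (nat_lit 0) (cs (lf (nat_lit 12) (nat_lit 338)) (nd (nat_lit 317) (nat_lit 0) (cs (lf (nat_lit 23) (nat_lit 316)) (rf (nat_lit 0)))))))))) q42612 (by decide +kernel)
def q42651 : Q := Q.p (nat_lit 0x200001c000010000000000000000000000000000000000000000000000000000000000000000000000000000000000000) (nat_lit 0x1d0000620001e0000000000000000000000000000000000000000000000000000000000000000000000000000000000000) (nat_lit 5)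
theorem c42651 : QOK q42651 := cut [q42525] ⟨c42525, trivial⟩ (nd (nat_lit 365) (nat_lit 0) (cs (rf (nat_lit 0)) (nd (nat_lit 366) (nat_lit 0) (cs (lf (nat_lit 11) (nat_lit 362)) (lf (nat_lit 22) (nat_lit 340)))))) q42651 (by decide +kernel)
def q42656 : Q := Q.p (nat_lit 0x30000000000000003c00000000000000000000000000000000000000000000000000000000000000) (nat_lit 0x8000000000040000180000000002000000000000000000000000000000000000000000000000000000000) (nat_lit 3)
theorem c42656 : QOK q42656 := cut [q42655] ⟨c42655, trivial⟩ (nd (nat_lit 272) (nat_lit 0) (cs (lf (nat_lit 11) (nat_lit 249)) (rf (nat_lit 0)))) q42656 (by decide +kernel)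
def q42677 : Q := Q.p (nat_lit 0x800004000010000040000000000000000000000000000000000000000000000000000000000000000000000000000000) (nat_lit 0x80000200001000002000000000000000100000000000000000000000000000000000000000000000000000000000000000000000000) (nat_lit 3)
theorem c42677 : QOK q42677 := cut [q42676] ⟨c42676, trivial⟩ (nd (nat_lit 361) (nat_lit 0) (cs (lf (nat_lit 36) (nat_lit 295)) (rf (nat_lit 0)))) q42677 (by decide +kernel)
def q42764 : Q := Q.p (nat_lit 0x4000010000060000000000000000000000000000000000000000000000000000000000000000000000000000000) (nat_lit 0x1000000000008000000000080000200000800000000000000000000000000000000000000000000000000000000000000) (nat_lit 3)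
theorem c42764 : QOK q42764 := cut [q42730] ⟨c42730, trivial⟩ (nd (nat_lit 295) (nat_lit 0) (cs (lf (nat_lit 42) (nat_lit 295)) (rf (nat_lit 0)))) q42764 (by decide +kernel)
def q42792 : Q := Q.p (nat_lit 0x800004000010000040000000000000000000000000000000000000000000000000000000000000000000000000000000) (nat_lit 0x80000200000000002000008000000000100000000000000000000000000000000000000000000000000000000000000000000000000) (nat_lit 3)
theorem c42792 : QOK q42792 := cut [q42491] ⟨c42491, trivial⟩ (nd (nat_lit 361) (nat_lit 0) (cs (lf (nat_lit 36) (nat_lit 295)) (rf (nat_lit 0)))) q42792 (by decide +kernel)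
def q42842 : Q := Q.p (nat_lit 0x7000010000000000000000000000000000000000000000000000000000000000000000000000000000000000000) (nat_lit 0x8000e8000000000000000000000000000000000000000000000000000000000000000000000000000000000000) (nat_lit 3)
theorem c42842 : QOK q42842 := cut [q42841] ⟨c42841, trivial⟩ (nd (nat_lit 341) (nat_lit 0) (cs (lf (nat_lit 12) (nat_lit 337)) (rf (nat_lit 0)))) q42842 (by decide +kernel)
def q42847 : Q := Q.p (nat_lit 0xf000000000000000000000000000000000000000000000000000000000000000000000000000000000000000000) (nat_lit 0x1c0000300001ce000000000000000000000000000000000000000000000000000000000000000000000000000000000000) (nat_lit 6)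
theorem c42847 : QOK q42847 := cut [q42845] ⟨c42845, trivial⟩ (nd (nat_lit 338) (nat_lit 0) (cs (lf (nat_lit 23) (nat_lit 337)) (nd (nat_lit 364) (nat_lit 0) (cs (lf (nat_lit 22) (nat_lit 338)) (rf (nat_lit 0)))))) q42847 (by decide +kernel)
def q42852 : Q := Q.p (nat_lit 0xf0000100000c0000000000000000000000000000000000000000000000000000000000000000000000000000000) (nat_lit 0x60001000002e000300000000000000000000000000000000000000000000000000000000000000000000000000000000) (nat_lit 5)
theorem c42852 : QOK q42852 := cut [q25521] ⟨c25521, trivial⟩ (nd (nat_lit 338) (nat_lit 0) (cs (lf (nat_lit 23) (nat_lit 337)) (nd (nat_lit 381) (nat_lit 0) (cs (lf (nat_lit 10) (nat_lit 359)) (nd (nat_lit 339) (nat_lit 0) (cs (rf (nat_lit 0)) (lf (nat_lit 18) (nat_lit 338)))))))) q42852 (by decide +kernel)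
def q42891 : Q := Q.p (nat_lit 0x7000010000000000000000000000000000000000000000000000000000000000000000000000000000000000000) (nat_lit 0x88000e0000000000000000000000000000000000000000000000000000000000000000000000000000000000000) (nat_lit 3)
theorem c42891 : QOK q42891 := cut [q42890] ⟨c42890, trivial⟩ (nd (nat_lit 341) (nat_lit 0) (cs (lf (nat_lit 12) (nat_lit 337)) (rf (nat_lit 0)))) q42891 (by decide +kernel)
def q42924 : Q := Q.p (nat_lit 0x1000004000010000040000000000000000000000000000000000000000000000000000000000000000000000000000000) (nat_lit 0x800002000008000000000080000300000800000000000000000000000000000000000000000000000000000000000000000000) (nat_lit 4)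
theorem c42924 : QOK q42924 := cut [q42467] ⟨c42467, trivial⟩ (nd (nat_lit 297) (nat_lit 0) (cs (lf (nat_lit 34) (nat_lit 296)) (nd (nat_lit 296) (nat_lit 0) (cs (lf (nat_lit 35) (nat_lit 274)) (rf (nat_lit 0)))))) q42924 (by decide +kernel)
def q42941 : Q := Q.p (nat_lit 0xc00003c0000000000000000000000000000000000000000000000000000000000000000000000000000000) (nat_lit 0x10000000000000001800002000008000000000000000000000000000000000000000000000000000000000000000) (nat_lit 3)
theorem c42941 : QOK q42941 := cut [q30792] ⟨c30792, trivial⟩ (nd (nat_lit 299) (nat_lit 0) (cs (lf (nat_lit 17) (nat_lit 296)) (rf (nat_lit 0)))) q42941 (by decide +kernel)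
def q42972 : Q := Q.p (nat_lit 0x2000004000010000040000000000000000000000000000000000000000000000000000000000000000000000000000000) (nat_lit 0x200000800000000008000020000000000100000000000000000000000000000000000000000000000000000000000000000000000000) (nat_lit 3)
theorem c42972 : QOK q42972 := cut [q42472] ⟨c42472, trivial⟩ (nd (nat_lit 363) (nat_lit 0) (cs (lf (nat_lit 24) (nat_lit 296)) (rf (nat_lit 0)))) q42972 (by decide +kernel)
def q43076 : Q := Q.p (nat_lit 0xe0000080000000000000000000000000000000000000000000000000000000000000000000000000) (nat_lit 0x110000070000000000000000000000000000000000000000000000000000000000000000000000000) (nat_lit 3)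
theorem c43076 : QOK q43076 := cut [q16830] ⟨c16830, trivial⟩ (nd (nat_lit 294) (nat_lit 0) (cs (lf (nat_lit 18) (nat_lit 294)) (rf (nat_lit 0)))) q43076 (by decide +kernel)
def q43179 : Q := Q.p (nat_lit 0x70000100000000000000000000000000000000000000000000000000000000000000000000000000000000) (nat_lit 0x8000e80000000000000000000000000000000000000000000000000000000000000000000000000000000) (nat_lit 3)
theorem c43179 : QOK q43179 := cut [q43178] ⟨c43178, trivial⟩ (nd (nat_lit 321) (nat_lit 0) (cs (lf (nat_lit 12) (nat_lit 317)) (rf (nat_lit 0)))) q43179 (by decide +kernel)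
def q43205 : Q := Q.p (nat_lit 0x10000060000000000000003c00000000010000040000000000000000000000000000000000000000000000) (nat_lit 0x2b80001c0000a00003c0000300002e00009000004000000000000000000000000000000000000000000000) (nat_lit 12)
theorem c43205 : QOK q43205 := cut [q42394] ⟨c42394, trivial⟩ (nd (nat_lit 271) (nat_lit 0) (cs (lf (nat_lit 10) (nat_lit 249)) (nd (nat_lit 249) (nat_lit 0) (cs (lf (nat_lit 11) (nat_lit 248)) (nd (nat_lit 226) (nat_lit 0) (cs (lf (nat_lit 22) (nat_lit 226)) (nd (nat_lit 248) (nat_lit 0) (cs (lf (nat_lit 23) (nat_lit 225)) (nd (nat_lit 273) (nat_lit 0) (cs (lf (nat_lit 26) (nat_lit 251)) (nd (nat_lit 207) (nat_lit 0) (cs (lf (nat_lit 32) (nat_lit 185)) (nd (nat_lit 182) (nat_lit 0) (cs (lf (nat_lit 25) (nat_lit 182)) (nd (nat_lit 315) (nat_lit 0) (cs (lf (nat_lit 43) (nat_lit 226)) (nd (nat_lit 316) (nat_lit 0) (cs (lf (nat_lit 5) (nat_lit 315)) (rf (nat_lit 0)))))))))))))))))))) q43205 (by decide +kernel)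
def q43208 : Q := Q.p (nat_lit 0x100001c0000000000000002400000000000000000000000000000000000000000000000000000000000000) (nat_lit 0x40000cc000030000ec0000b00000000000000000000000000000000000000000000000000000000000000000000) (nat_lit 5)
theorem c43208 : QOK q43208 := cut [q42175, q42357] ⟨c42175, c42357, trivial⟩ (nd (nat_lit 317) (nat_lit 0) (cs (rf (nat_lit 0)) (nd (nat_lit 339) (nat_lit 0) (cs (lf (nat_lit 11) (nat_lit 316)) (rf (nat_lit 1)))))) q43208 (by decide +kernel)
def q43258 : Q := Q.p (nat_lit 0x10000070000000000000003c00000000000000000000000000000000000000000000000000000000000000) (nat_lit 0x14000078000ee000080000280001a00000000018000000000000000000000000000000000000000000000000000000000) (nat_lit 10)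
theorem c43258 : QOK q43258 := cut [q43254] ⟨c43254, trivial⟩ (nd (nat_lit 341) (nat_lit 0) (cs (nd (nat_lit 231) (nat_lit 0) (cs (lf (nat_lit 17) (nat_lit 228)) (rf (nat_lit 0)))) (cs (nd (nat_lit 342) (nat_lit 0) (cs (lf (nat_lit 18) (nat_lit 317)) (lf (nat_lit 3) (nat_lit 316)))) (nd (nat_lit 342) (nat_lit 0) (cs (lf (nat_lit 18) (nat_lit 317)) (lf (nat_lit 21) (nat_lit 316))))))) q43258 (by decide +kernel)
def q43309 : Q := Q.p (nat_lit 0xc00006000000000000000000000000000000000000000000000000000000000000000000000000000000000000000000) (nat_lit 0x300019000000000000000000000000000000000000000000000000000000000000000000000000000000000000000000) (nat_lit 3)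
theorem c43309 : QOK q43309 := cut [q43307] ⟨c43307, trivial⟩ (nd (nat_lit 381) (nat_lit 0) (cs (rf (nat_lit 0)) (lf (nat_lit 12) (nat_lit 358)))) q43309 (by decide +kernel)
def q43322 : Q := Q.p (nat_lit 0x800006000008000020000000000000000000000000000000000000000000000000000000000000000000000000000000) (nat_lit 0x500001600018000000000000000000000000000000000000000000000000000000000000000000000000000000000000000000) (nat_lit 4)
theorem c43322 : QOK q43322 := cut [q43321] ⟨c43321, trivial⟩ (nd (nat_lit 384) (nat_lit 0) (cs (lf (nat_lit 29) (nat_lit 317)) (rf (nat_lit 0)))) q43322 (by decide +kernel)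
def q43334 : Q := Q.p (nat_lit 0x1000004000010000040000000000000000000000000000000000000000000000000000000000000000000000000000000) (nat_lit 0x200001800006000000000080000280000a0000080000000000000000000000000000000000000000000000000000000000000000000000000) (nat_lit 6)
theorem c43334 : QOK q43334 := cut [q43331] ⟨c43331, trivial⟩ (nd (nat_lit 317) (nat_lit 0) (cs (lf (nat_lit 47) (nat_lit 295)) (nd (nat_lit 406) (nat_lit 0) (cs (lf (nat_lit 46) (nat_lit 317)) (nd (nat_lit 341) (nat_lit 0) (cs (lf (nat_lit 35) (nat_lit 318)) (rf (nat_lit 0)))))))) q43334 (by decide +kernel)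
def q43344 : Q := Q.p (nat_lit 0x6000030000000000000000000000000000000000000000000000000000000000000000000000000000000000000) (nat_lit 0x18000c8000000000000000000000000000000000000000000000000000000000000000000000000000000000000) (nat_lit 3)
theorem c43344 : QOK q43344 := cut [q43343] ⟨c43343, trivial⟩ (nd (nat_lit 342) (nat_lit 0) (cs (lf (nat_lit 6) (nat_lit 339)) (rf (nat_lit 0)))) q43344 (by decide +kernel)
def q43460 : Q := Q.p (nat_lit 0x78000000000000000000000000000000000000000000000000000000000000000000000000000000000000) (nat_lit 0x3800004000380000000000000000000000000000000000000000000000000000000000000000000000000000000) (nat_lit 4)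
theorem c43460 : QOK q43460 := cut [q15593] ⟨c15593, trivial⟩ (nd (nat_lit 360) (nat_lit 0) (cs (lf (nat_lit 10) (nat_lit 338)) (nd (nat_lit 338) (nat_lit 0) (cs (lf (nat_lit 11) (nat_lit 337)) (rf (nat_lit 0)))))) q43460 (by decide +kernel)
def q43462 : Q := Q.p (nat_lit 0xf0000000000000000000000000000000000000000000000000000000000000000000000000000000000000) (nat_lit 0x70000008000700000000000000000000000000000000000000000000000000000000000000000000000000000000) (nat_lit 4)
theorem c43462 : QOK q43462 := cut [q30118] ⟨c30118, trivial⟩ (nd (nat_lit 365) (nat_lit 0) (cs (lf (nat_lit 5) (nat_lit 340)) (nd (nat_lit 339) (nat_lit 0) (cs (lf (nat_lit 4) (nat_lit 339)) (rf (nat_lit 0)))))) q43462 (by decide +kernel)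
def q43488 : Q := Q.p (nat_lit 0xc000030000080000200000000000000000000000000000000000000000000000000000000000000000000000000) (nat_lit 0x400003000000c000000000000000000000000000000000000000000000000000000000000000000000000000000000000) (nat_lit 3)
theorem c43488 : QOK q43488 := cut [q42220] ⟨c42220, trivial⟩ (nd (nat_lit 364) (nat_lit 0) (cs (lf (nat_lit 29) (nat_lit 297)) (rf (nat_lit 0)))) q43488 (by decide +kernel)
def q43498 : Q := Q.p (nat_lit 0x80000300000c0000000000000002000000000000000000000000000000000000000000000000000000000000000) (nat_lit 0x1800006000010000000000000000200000800000000000000000000000000000000000000000000000000000000000000000000) (nat_lit 4)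
theorem c43498 : QOK q43498 := cut [q43497] ⟨c43497, trivial⟩ (nd (nat_lit 385) (nat_lit 0) (cs (lf (nat_lit 42) (nat_lit 318)) (rf (nat_lit 0)))) q43498 (by decide +kernel)
def q43560 : Q := Q.p (nat_lit 0x7800000000000000000000000000000000000000000000000000000000000000000000000000000000000000000000000) (nat_lit 0x3800000400003800000000000000000000000000000000000000000000000000000000000000000000000000000000000000000) (nat_lit 4)
theorem c43560 : QOK q43560 := cut [q29413] ⟨c29413, trivial⟩ (nd (nat_lit 408) (nat_lit 0) (cs (lf (nat_lit 5) (nat_lit 383)) (nd (nat_lit 382) (nat_lit 0) (cs (rf (nat_lit 0)) (lf (nat_lit 4) (nat_lit 382)))))) q43560 (by decide +kernel)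
def q43563 : Q := Q.p (nat_lit 0x7800000000000000000000000000000000000000000000000000000000000000000000000000000000000000000000000) (nat_lit 0x7700008000003000000000000000000000000000000000000000000000000000000000000000000000000000000000000000000) (nat_lit 5)
theorem c43563 : QOK q43563 := cut [q29452] ⟨c29452, trivial⟩ (nd (nat_lit 409) (nat_lit 0) (cs (lf (nat_lit 4) (nat_lit 383)) (nd (nat_lit 360) (nat_lit 0) (cs (lf (nat_lit 22) (nat_lit 360)) (nd (nat_lit 387) (nat_lit 0) (cs (lf (nat_lit 5) (nat_lit 384)) (rf (nat_lit 0)))))))) q43563 (by decide +kernel)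
def q43604 : Q := Q.p (nat_lit 0x600001e0000000000000002000000000000000000000000000000000000000000000000000000000000000) (nat_lit 0x8000000000000000c00001800000000000000000000000000000000000000000000000000000000000000000000) (nat_lit 3)
theorem c43604 : QOK q43604 := cut [q42336] ⟨c42336, trivial⟩ (nd (nat_lit 298) (nat_lit 0) (cs (lf (nat_lit 17) (nat_lit 295)) (rf (nat_lit 0)))) q43604 (by decide +kernel)
def q43611 : Q := Q.p (nat_lit 0x700000c0000000000000003400000000000000000000000000000000000000000000000000000000000000) (nat_lit 0x700001e00007800008800000000000000000000000000000000000000000000000000000000000000) (nat_lit 7)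
theorem c43611 : QOK q43611 := cut [q42893] ⟨c42893, trivial⟩ (nd (nat_lit 275) (nat_lit 0) (cs (lf (nat_lit 38) (nat_lit 252)) (nd (nat_lit 276) (nat_lit 0) (cs (lf (nat_lit 1) (nat_lit 250)) (nd (nat_lit 277) (nat_lit 0) (cs (lf (nat_lit 18) (nat_lit 252)) (nd (nat_lit 320) (nat_lit 0) (cs (lf (nat_lit 44) (nat_lit 253)) (nd (nat_lit 321) (nat_lit 0) (cs (lf (nat_lit 6) (nat_lit 318)) (rf (nat_lit 0)))))))))))) q43611 (by decide +kernel)
def q43661 : Q := Q.p (nat_lit 0x70000040000000000000000000000000000000000000000000000000000000000000000000000000000000) (nat_lit 0xee000180000620000000000000000000000000000000000000000000000000000000000000000000000000000000) (nat_lit 6)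
theorem c43661 : QOK q43661 := cut [q43659] ⟨c43659, trivial⟩ (nd (nat_lit 343) (nat_lit 0) (cs (lf (nat_lit 23) (nat_lit 317)) (nd (nat_lit 321) (nat_lit 0) (cs (lf (nat_lit 17) (nat_lit 318)) (rf (nat_lit 0)))))) q43661 (by decide +kernel)
def q43674 : Q := Q.p (nat_lit 0x80000200000f0000000000000000000000000000000000000000000000000000000000000000000000000000000000000) (nat_lit 0x2000000000000000000000700000400000000000000000000000000000000000000000000000000000000000000000000000000) (nat_lit 3)
theorem c43674 : QOK q43674 := cut [q29344] ⟨c29344, trivial⟩ (nd (nat_lit 321) (nat_lit 0) (cs (lf (nat_lit 17) (nat_lit 318)) (rf (nat_lit 0)))) q43674 (by decide +kernel)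
def q43704 : Q := Q.p (nat_lit 0x78000060000000000000000400000000000000000000000000000000000000000000000000000000000000) (nat_lit 0x6000018000070000000003000000c0000300000000000000000000000000000000000000000000000000000000000000000000) (nat_lit 7)
theorem c43704 : QOK q43704 := cut [q43702] ⟨c43702, trivial⟩ (nd (nat_lit 361) (nat_lit 0) (cs (lf (nat_lit 11) (nat_lit 338)) (nd (nat_lit 320) (nat_lit 0) (cs (lf (nat_lit 17) (nat_lit 317)) (rf (nat_lit 0)))))) q43704 (by decide +kernel)
def q43733 : Q := Q.p (nat_lit 0xf0000040000000000000003400000000000000000000000000000000000000000000000000000000000000) (nat_lit 0x4000070000108000680000a000039c0000a00000c00000000000000000000000000000000000000000000000000000000) (nat_lit 11)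
theorem c43733 : QOK q43733 := cut [q31231] ⟨c31231, trivial⟩ (nd (nat_lit 321) (nat_lit 0) (cs (lf (nat_lit 17) (nat_lit 318)) (nd (nat_lit 319) (nat_lit 0) (cs (lf (nat_lit 18) (nat_lit 318)) (nd (nat_lit 275) (nat_lit 0) (cs (lf (nat_lit 38) (nat_lit 252)) (nd (nat_lit 251) (nat_lit 0) (cs (lf (nat_lit 5) (nat_lit 250)) (nd (nat_lit 271) (nat_lit 0) (cs (lf (nat_lit 10) (nat_lit 249)) (nd (nat_lit 249) (nat_lit 0) (cs (lf (nat_lit 11) (nat_lit 248)) (nd (nat_lit 226) (nat_lit 0) (cs (lf (nat_lit 22) (nat_lit 226)) (nd (nat_lit 365) (nat_lit 0) (cs (lf (nat_lit 5) (nat_lit 340)) (nd (nat_lit 364) (nat_lit 0) (cs (lf (nat_lit 0) (nat_lit 339)) (rf (nat_lit 0)))))))))))))))))))) q43733 (by decide +kernel)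
def q43776 : Q := Q.p (nat_lit 0x700000c0000000000000000000000000000000000000000000000000000000000000000000000000000000) (nat_lit 0x700018e000100000000000000000000000000000000000000000000000000000000000000000000000000000000) (nat_lit 5)
theorem c43776 : QOK q43776 := cut [q43754] ⟨c43754, trivial⟩ (nd (nat_lit 343) (nat_lit 0) (cs (lf (nat_lit 18) (nat_lit 318)) (nd (nat_lit 361) (nat_lit 0) (cs (lf (nat_lit 10) (nat_lit 339)) (nd (nat_lit 339) (nat_lit 0) (cs (lf (nat_lit 11) (nat_lit 338)) (rf (nat_lit 0)))))))) q43776 (by decide +kernel)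
def q43788 : Q := Q.p (nat_lit 0x240000300000c0000000000000000000000000000000000000000000000000000000000000000000000000000000) (nat_lit 0xe00007800018000000000000000000000000000000000000000000000000000000000000000000000000000000000000000000) (nat_lit 5)
theorem c43788 : QOK q43788 := cut [q43787] ⟨c43787, trivial⟩ (nd (nat_lit 384) (nat_lit 0) (cs (lf (nat_lit 30) (nat_lit 318)) (rf (nat_lit 0)))) q43788 (by decide +kernel)
def q43826 : Q := Q.p (nat_lit 0x78000060000000000000000400000000000000000000000000000000000000000000000000000000000000) (nat_lit 0x6000018000370000000000000000c0000300000000000000000000000000000000000000000000000000000000000000000000) (nat_lit 7)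
theorem c43826 : QOK q43826 := cut [q43702] ⟨c43702, trivial⟩ (nd (nat_lit 361) (nat_lit 0) (cs (lf (nat_lit 11) (nat_lit 338)) (nd (nat_lit 364) (nat_lit 0) (cs (lf (nat_lit 5) (nat_lit 339)) (rf (nat_lit 0)))))) q43826 (by decide +kernel)
def q43918 : Q := Q.p (nat_lit 0x1e0000000000000000000000000000000000000000000000000000000000000000000000000) (nat_lit 0xe0000100000e0000000000000000000000000000000000000000000000000000000000000000000) (nat_lit 4)
theorem c43918 : QOK q43918 := cut [q41983] ⟨c41983, trivial⟩ (nd (nat_lit 314) (nat_lit 0) (cs (lf (nat_lit 10) (nat_lit 292)) (nd (nat_lit 292) (nat_lit 0) (cs (lf (nat_lit 11) (nat_lit 291)) (rf (nat_lit 0)))))) q43918 (by decide +kernel)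
def q43925 : Q := Q.p (nat_lit 0x400001c0000100003400000000000000000000000000000000000000000000000000000000000000) (nat_lit 0x10000000000280000800002000000000000000000000000000000000000000000000000000000000) (nat_lit 3)
theorem c43925 : QOK q43925 := cut [q43924] ⟨c43924, trivial⟩ (nd (nat_lit 251) (nat_lit 0) (cs (lf (nat_lit 11) (nat_lit 249)) (rf (nat_lit 0)))) q43925 (by decide +kernel)
def q43931 : Q := Q.p (nat_lit 0xe0000400001c0000000000000000000000000000000000000000000000000000000000000000000000000) (nat_lit 0x10000380000200000000000000000000000000000000000000000000000000000000000000000000000000) (nat_lit 3)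
theorem c43931 : QOK q43931 := cut [q43930] ⟨c43930, trivial⟩ (nd (nat_lit 319) (nat_lit 0) (cs (lf (nat_lit 15) (nat_lit 315)) (rf (nat_lit 0)))) q43931 (by decide +kernel)
def q43962 : Q := Q.p (nat_lit 0x1e0000080000000000000000000000000000000000000000000000000000000000000000000) (nat_lit 0x400001c000200000000000200000800000000000000000000000000000000000000000000000000000000) (nat_lit 4)
theorem c43962 : QOK q43962 := cut [q43961] ⟨c43961, trivial⟩ (nd (nat_lit 315) (nat_lit 0) (cs (lf (nat_lit 11) (nat_lit 292)) (rf (nat_lit 0)))) q43962 (by decide +kernel)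
def q43969 : Q := Q.p (nat_lit 0x400001c0000000003400000000000000000000000000000000000000000000000000000000000000) (nat_lit 0x800002200001c0000800000000000000000000000000000000000000000000000000000000000000) (nat_lit 4)
theorem c43969 : QOK q43969 := cut [q43928] ⟨c43928, trivial⟩ (nd (nat_lit 293) (nat_lit 0) (cs (lf (nat_lit 5) (nat_lit 293)) (nd (nat_lit 271) (nat_lit 0) (cs (lf (nat_lit 23) (nat_lit 270)) (rf (nat_lit 0)))))) q43969 (by decide +kernel)
def q43984 : Q := Q.p (nat_lit 0x10000060000180000000000400000000000000000000000000000000000000000000000000000000000000) (nat_lit 0xc0000300000c000000000000000300000800000000000000000000000000000000000000000000000000000000000000) (nat_lit 5)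
theorem c43984 : QOK q43984 := cut [q12761] ⟨c12761, trivial⟩ (nd (nat_lit 273) (nat_lit 0) (cs (lf (nat_lit 24) (nat_lit 251)) (nd (nat_lit 339) (nat_lit 0) (cs (lf (nat_lit 46) (nat_lit 250)) (nd (nat_lit 361) (nat_lit 0) (cs (rf (nat_lit 0)) (lf (nat_lit 30) (nat_lit 295)))))))) q43984 (by decide +kernel)
def q43991 : Q := Q.p (nat_lit 0xf0000180000000000000000000000000000000000000000000000000000000000000000000000000) (nat_lit 0xe0000300000000000000000000000000000000000000000000000000000000000000000000000000000000) (nat_lit 3)
theorem c43991 : QOK q43991 := cut [q43990] ⟨c43990, trivial⟩ (nd (nat_lit 320) (nat_lit 0) (cs (lf (nat_lit 18) (nat_lit 295)) (rf (nat_lit 0)))) q43991 (by decide +kernel)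
def q44001 : Q := Q.p (nat_lit 0x3000006000010000040000180000000000000000000000000000000000000000000000000000000000000000000000000) (nat_lit 0x40000c0000010000ec000380000200000000000000000000000000000000000000000000000000000000000000000000000000) (nat_lit 7)
theorem c44001 : QOK q44001 := cut [q43996] ⟨c43996, trivial⟩ (nd (nat_lit 319) (nat_lit 0) (cs (lf (nat_lit 35) (nat_lit 296)) (nd (nat_lit 386) (nat_lit 0) (cs (lf (nat_lit 18) (nat_lit 361)) (nd (nat_lit 320) (nat_lit 0) (cs (lf (nat_lit 18) (nat_lit 295)) (nd (nat_lit 341) (nat_lit 0) (cs (lf (nat_lit 30) (nat_lit 318)) (nd (nat_lit 339) (nat_lit 0) (cs (lf (nat_lit 12) (nat_lit 316)) (rf (nat_lit 0)))))))))))) q44001 (by decide +kernel)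
def q44040 : Q := Q.p (nat_lit 0xc0000180000000000000000000000000000000000000000000000000000000000000000000000000) (nat_lit 0x300000260000000000000000000000000000000000000000000000000000000000000000000000000) (nat_lit 3)
theorem c44040 : QOK q44040 := cut [q42170] ⟨c42170, trivial⟩ (nd (nat_lit 320) (nat_lit 0) (cs (lf (nat_lit 18) (nat_lit 295)) (rf (nat_lit 0)))) q44040 (by decide +kernel)
def q44058 : Q := Q.p (nat_lit 0x40000180000000003c00000000000000000000000000000000000000000000000000000000000000) (nat_lit 0x400001000002000000000020000000001a000000000000000000000000000000000000000000000000000000000) (nat_lit 4)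
theorem c44058 : QOK q44058 := cut [q44056] ⟨c44056, trivial⟩ (nd (nat_lit 231) (nat_lit 0) (cs (lf (nat_lit 17) (nat_lit 228)) (nd (nat_lit 273) (nat_lit 0) (cs (lf (nat_lit 24) (nat_lit 229)) (rf (nat_lit 0)))))) q44058 (by decide +kernel)
def q44074 : Q := Q.p (nat_lit 0xc000020000080001600000000000000000000000000000000000000000000000000000000000000) (nat_lit 0x10000000000900000c00000000000000000000000000000000000000000000000000000000) (nat_lit 3)
theorem c44074 : QOK q44074 := cut [q44068] ⟨c44068, trivial⟩ (nd (nat_lit 227) (nat_lit 0) (cs (lf (nat_lit 40) (nat_lit 226)) (rf (nat_lit 0)))) q44074 (by decide +kernel)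
def q44100 : Q := Q.p (nat_lit 0xc000020000080000200000000000000000000000000000000000000000000000000000000000000) (nat_lit 0x10000000000100000c00001000000000000000000000000000000000000000000000000000) (nat_lit 3)
theorem c44100 : QOK q44100 := cut [q44099] ⟨c44099, trivial⟩ (nd (nat_lit 227) (nat_lit 0) (cs (lf (nat_lit 40) (nat_lit 226)) (rf (nat_lit 0)))) q44100 (by decide +kernel)
def q44107 : Q := Q.p (nat_lit 0x1c0000080000000000000000000000000000000000000000000000000000000000000000000) (nat_lit 0x200000360000000000000000000000000000000000000000000000000000000000000000000) (nat_lit 3)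
theorem c44107 : QOK q44107 := cut [q15930] ⟨c15930, trivial⟩ (nd (nat_lit 272) (nat_lit 0) (cs (lf (nat_lit 18) (nat_lit 271)) (rf (nat_lit 0)))) q44107 (by decide +kernel)
def q44125 : Q := Q.p (nat_lit 0x400001c0000000003c00000000000000000000000000000000000000000000000000000000000000) (nat_lit 0x10000000000380000000002000000000000000000000000000000000000000000000000000000000) (nat_lit 3)
theorem c44125 : QOK q44125 := cut [q43924] ⟨c43924, trivial⟩ (nd (nat_lit 272) (nat_lit 0) (cs (lf (nat_lit 11) (nat_lit 249)) (rf (nat_lit 0)))) q44125 (by decide +kernel)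
def q44133 : Q := Q.p (nat_lit 0x60000180000000000800000000000000000000000000000000000000000000000000000000000000) (nat_lit 0x3e0000f800076000010000000000200000000000000000000000000000000000000000000000000000000000000000000) (nat_lit 8)
theorem c44133 : QOK q44133 := cut [q42511] ⟨c42511, trivial⟩ (nd (nat_lit 340) (nat_lit 0) (cs (lf (nat_lit 25) (nat_lit 251)) (nd (nat_lit 362) (nat_lit 0) (cs (lf (nat_lit 42) (nat_lit 295)) (nd (nat_lit 363) (nat_lit 0) (cs (lf (nat_lit 29) (nat_lit 296)) (nd (nat_lit 361) (nat_lit 0) (cs (lf (nat_lit 41) (nat_lit 295)) (nd (nat_lit 360) (nat_lit 0) (cs (rf (nat_lit 0)) (nd (nat_lit 338) (nat_lit 0) (cs (lf (nat_lit 23) (nat_lit 337)) (nd (nat_lit 382) (nat_lit 0) (cs (lf (nat_lit 11) (nat_lit 359)) (lf (nat_lit 33) (nat_lit 294)))))))))))))))) q44133 (by decide +kernel)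
def q44140 : Q := Q.p (nat_lit 0xf0000000000000000000000000000000000000000000000000000000000000000000000000) (nat_lit 0x7000008000070000000000000000000000000000000000000000000000000000000000000000000) (nat_lit 4)
theorem c44140 : QOK q44140 := cut [q14241] ⟨c14241, trivial⟩ (nd (nat_lit 313) (nat_lit 0) (cs (lf (nat_lit 10) (nat_lit 291)) (nd (nat_lit 291) (nat_lit 0) (cs (lf (nat_lit 11) (nat_lit 290)) (rf (nat_lit 0)))))) q44140 (by decide +kernel)
def q44155 : Q := Q.p (nat_lit 0xd00001c0000000000000000000000000000000000000000000000000000000000000000000000000) (nat_lit 0x28001e00007000000000000000000000000000000000000000000000000000000000000000000000) (nat_lit 5)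
theorem c44155 : QOK q44155 := cut [q44153] ⟨c44153, trivial⟩ (nd (nat_lit 297) (nat_lit 0) (cs (lf (nat_lit 11) (nat_lit 293)) (nd (nat_lit 298) (nat_lit 0) (cs (lf (nat_lit 10) (nat_lit 294)) (rf (nat_lit 0)))))) q44155 (by decide +kernel)
def q44162 : Q := Q.p (nat_lit 0x1000004000010000040000000000000000000000000000000000000000000000000000000000000000000000000) (nat_lit 0x280000e00002800000000000000000000000000000000000000000000000000000000000000000000000000000000000000000) (nat_lit 4)
theorem c44162 : QOK q44162 := cut [q44158] ⟨c44158, trivial⟩ (nd (nat_lit 381) (nat_lit 0) (cs (nd (nat_lit 383) (nat_lit 0) (cs (rf (nat_lit 0)) (lf (nat_lit 28) (nat_lit 294)))) (lf (nat_lit 40) (nat_lit 293)))) q44162 (by decide +kernel)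
def q44191 : Q := Q.p (nat_lit 0x1e0000000000000000000000000000000000000000000000000000000000000000000000000000000) (nat_lit 0xe000010000e00000000000000000000000000000000000000000000000000000000000000000000000000) (nat_lit 4)
theorem c44191 : QOK q44191 := cut [q42358] ⟨c42358, trivial⟩ (nd (nat_lit 338) (nat_lit 0) (cs (lf (nat_lit 10) (nat_lit 316)) (nd (nat_lit 316) (nat_lit 0) (cs (lf (nat_lit 11) (nat_lit 315)) (rf (nat_lit 0)))))) q44191 (by decide +kernel)
def q44212 : Q := Q.p (nat_lit 0xc0000380000100000000000000000000000000000000000000000000000000000000000000000000) (nat_lit 0x1c00007200000000000000000000000000000000000000000000000000000000000000000000) (nat_lit 4)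
theorem c44212 : QOK q44212 := cut [q44153] ⟨c44153, trivial⟩ (nd (nat_lit 298) (nat_lit 0) (cs (lf (nat_lit 22) (nat_lit 272)) (rf (nat_lit 0)))) q44212 (by decide +kernel)
def q44391 : Q := Q.p (nat_lit 0x40000200000800002000008000000000000000000000000000000000000000000000000000000000) (nat_lit 0x50000180000400000000000000000000000000000000000000000000000000000000000000000000000000) (nat_lit 3)
theorem c44391 : QOK q44391 := cut [q2390] ⟨c2390, trivial⟩ (nd (nat_lit 320) (nat_lit 0) (cs (rf (nat_lit 0)) (lf (nat_lit 28) (nat_lit 231)))) q44391 (by decide +kernel)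
def q44396 : Q := Q.p (nat_lit 0x40000100000400003000000000000000000000000000000000000000000000000000000000000000) (nat_lit 0x80000380000a0000000000800000000000000000000000000000000000000000000000000000000000000000000) (nat_lit 4)
theorem c44396 : QOK q44396 := cut [q42162] ⟨c42162, trivial⟩ (nd (nat_lit 317) (nat_lit 0) (cs (lf (nat_lit 41) (nat_lit 251)) (rf (nat_lit 0)))) q44396 (by decide +kernel)
def q44429 : Q := Q.p (nat_lit 0x50000000000000003c00000000000000000000000000000000000000000000000000000000000000) (nat_lit 0x28000f80000c00000000018000000000000000000000000000000000000000000000000000000000) (nat_lit 6)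
theorem c44429 : QOK q44429 := cut [q15851] ⟨c15851, trivial⟩ (nd (nat_lit 231) (nat_lit 0) (cs (lf (nat_lit 17) (nat_lit 228)) (nd (nat_lit 296) (nat_lit 0) (cs (lf (nat_lit 32) (nat_lit 230)) (nd (nat_lit 297) (nat_lit 0) (cs (lf (nat_lit 38) (nat_lit 230)) (nd (nat_lit 317) (nat_lit 0) (cs (lf (nat_lit 12) (nat_lit 293)) (rf (nat_lit 0)))))))))) q44429 (by decide +kernel)
def q44433 : Q := Q.p (nat_lit 0x40000080000200000800002000000000000000000000000000000000000000000000000000000000) (nat_lit 0x14000030000040000000000000000000000000000000000000000000000000000000000000000000000000) (nat_lit 3)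
theorem c44433 : QOK q44433 := cut [q44432] ⟨c44432, trivial⟩ (nd (nat_lit 316) (nat_lit 0) (cs (lf (nat_lit 40) (nat_lit 228)) (rf (nat_lit 0)))) q44433 (by decide +kernel)
def q44449 : Q := Q.p (nat_lit 0x40000000000100001e00000000010000040000000000000000000000000000000000000000000000) (nat_lit 0x18000020000180000200000180002e00008000000000000000000000000000000000000000000000000000) (nat_lit 7)
theorem c44449 : QOK q44449 := cut [q44444] ⟨c44444, trivial⟩ (nd (nat_lit 226) (nat_lit 0) (cs (lf (nat_lit 22) (nat_lit 226)) (nd (nat_lit 248) (nat_lit 0) (cs (lf (nat_lit 23) (nat_lit 225)) (nd (nat_lit 273) (nat_lit 0) (cs (lf (nat_lit 0) (nat_lit 247)) (nd (nat_lit 229) (nat_lit 0) (cs (lf (nat_lit 33) (nat_lit 185)) (nd (nat_lit 295) (nat_lit 0) (cs (lf (nat_lit 28) (nat_lit 229)) (rf (nat_lit 0)))))))))))) q44449 (by decide +kernel)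
def q44464 : Q := Q.p (nat_lit 0x40000000000f00003000000000000000000000000000000000000000000000000000000000000000) (nat_lit 0x30000080000600000000000000000000000000000000000000000000000000000000000000000000000000) (nat_lit 3)
theorem c44464 : QOK q44464 := cut [q13474] ⟨c13474, trivial⟩ (nd (nat_lit 297) (nat_lit 0) (cs (lf (nat_lit 5) (nat_lit 272)) (rf (nat_lit 0)))) q44464 (by decide +kernel)
def q44490 : Q := Q.p (nat_lit 0x40000100000400001000000000000000000000000000000000000000000000000000000000) (nat_lit 0x20000080000200000000000800006000008000000000000000000000000000000000000000000000) (nat_lit 4)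
theorem c44490 : QOK q44490 := cut [q15938] ⟨c15938, trivial⟩ (nd (nat_lit 205) (nat_lit 0) (cs (lf (nat_lit 46) (nat_lit 205)) (nd (nat_lit 295) (nat_lit 0) (cs (lf (nat_lit 29) (nat_lit 228)) (rf (nat_lit 0)))))) q44490 (by decide +kernel)
def q44494 : Q := Q.p (nat_lit 0x40000100000400001000000000000000000000000000000000000000000000000000000000) (nat_lit 0x800002000008000000000200000c000020000000000000000000000000000000000000000000000) (nat_lit 4)
theorem c44494 : QOK q44494 := cut [q41232] ⟨c41232, trivial⟩ (nd (nat_lit 207) (nat_lit 0) (cs (lf (nat_lit 34) (nat_lit 206)) (nd (nat_lit 293) (nat_lit 0) (cs (lf (nat_lit 41) (nat_lit 227)) (rf (nat_lit 0)))))) q44494 (by decide +kernel)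
def q44503 : Q := Q.p (nat_lit 0x1c0000100003000000000000000000000000000000000000000000000000000000000000000) (nat_lit 0x2000006c0000000000000000000000000000000000000000000000000000000000000000000) (nat_lit 3)
theorem c44503 : QOK q44503 := cut [q44502] ⟨c44502, trivial⟩ (nd (nat_lit 271) (nat_lit 0) (cs (lf (nat_lit 18) (nat_lit 271)) (rf (nat_lit 0)))) q44503 (by decide +kernel)
def q44507 : Q := Q.p (nat_lit 0x1e0000000003000000000000000000000000000000000000000000000000000000000000000) (nat_lit 0xc0000000000c00000000008000000000000000000000000000000000000000000000000000000000) (nat_lit 3)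
theorem c44507 : QOK q44507 := cut [q44506] ⟨c44506, trivial⟩ (nd (nat_lit 274) (nat_lit 0) (cs (lf (nat_lit 17) (nat_lit 271)) (rf (nat_lit 0)))) q44507 (by decide +kernel)
def q44513 : Q := Q.p (nat_lit 0x20000040000100000400001000000000000000000000000000000000000000000000000000000000) (nat_lit 0x8000010000000000000000200000800002000000000000000000000000000000000000000000000000000) (nat_lit 3)
theorem c44513 : QOK q44513 := cut [q14247] ⟨c14247, trivial⟩ (nd (nat_lit 316) (nat_lit 0) (cs (lf (nat_lit 29) (nat_lit 250)) (rf (nat_lit 0)))) q44513 (by decide +kernel)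
def q44516 : Q := Q.p (nat_lit 0x20000040000100000400001000000000000000000000000000000000000000000000000000000000) (nat_lit 0xa000018000020000000000000000000000000000000000000000000000000000000000000000000000000) (nat_lit 3)
theorem c44516 : QOK q44516 := cut [q18265] ⟨c18265, trivial⟩ (nd (nat_lit 315) (nat_lit 0) (cs (lf (nat_lit 40) (nat_lit 227)) (rf (nat_lit 0)))) q44516 (by decide +kernel)
def q44538 : Q := Q.p (nat_lit 0x100000400000000016000040000000000000000000000000000000000000000000000) (nat_lit 0x100000800008c000000000000000000000000000000000000000000000) (nat_lit 3)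
theorem c44538 : QOK q44538 := cut [q35179] ⟨c35179, trivial⟩ (nd (nat_lit 183) (nat_lit 0) (cs (lf (nat_lit 44) (nat_lit 183)) (rf (nat_lit 0)))) q44538 (by decide +kernel)
def q44540 : Q := Q.p (nat_lit 0x100000400000000016000040000000000000000000000000000000000000000000000) (nat_lit 0x10000090000a0000000000000000000000000000000000000000000000) (nat_lit 3)
theorem c44540 : QOK q44540 := cut [q44539] ⟨c44539, trivial⟩ (nd (nat_lit 207) (nat_lit 0) (cs (lf (nat_lit 17) (nat_lit 183)) (rf (nat_lit 0)))) q44540 (by decide +kernel)
def q44544 : Q := Q.p (nat_lit 0x100000400000000016000040000000000000000000000000000000000000000000000) (nat_lit 0x200000c000090000ac000000000000000000000000000000000000000000000) (nat_lit 5)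
theorem c44544 : QOK q44544 := cut [q44542] ⟨c44542, trivial⟩ (nd (nat_lit 207) (nat_lit 0) (cs (lf (nat_lit 17) (nat_lit 183)) (nd (nat_lit 185) (nat_lit 0) (cs (lf (nat_lit 12) (nat_lit 182)) (rf (nat_lit 0)))))) q44544 (by decide +kernel)
def q44551 : Q := Q.p (nat_lit 0x100000400000000016000040000000000000000000000000000000000000000000000) (nat_lit 0x200000c0000800008c000000000000000000000000000000000000000000000) (nat_lit 4)
theorem c44551 : QOK q44551 := cut [q44542] ⟨c44542, trivial⟩ (nd (nat_lit 207) (nat_lit 0) (cs (lf (nat_lit 17) (nat_lit 183)) (rf (nat_lit 0)))) q44551 (by decide +kernel)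
def q44554 : Q := Q.p (nat_lit 0x7800000000000000000000000000000000000000000000000000) (nat_lit 0x380000400003800000000000000000000000000000000000000000000) (nat_lit 4)
theorem c44554 : QOK q44554 := cut [q44553] ⟨c44553, trivial⟩ (nd (nat_lit 180) (nat_lit 0) (cs (lf (nat_lit 22) (nat_lit 180)) (rf (nat_lit 0)))) q44554 (by decide +kernel)
def q44560 : Q := Q.p (nat_lit 0x1800002000008000000000000000000000000000000000000000) (nat_lit 0x400000000004000000000060000180000400000000000000000000000) (nat_lit 4)
theorem c44560 : QOK q44560 := cut [q44559] ⟨c44559, trivial⟩ (nd (nat_lit 137) (nat_lit 0) (cs (lf (nat_lit 29) (nat_lit 137)) (rf (nat_lit 0)))) q44560 (by decide +kernel)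
def q44567 : Q := Q.p (nat_lit 0x100000000003000008000000000000000000000000000000000000000000000) (nat_lit 0x40000000000400000000004000020000080000000000000000000000000000000000) (nat_lit 3)
theorem c44567 : QOK q44567 := cut [q44566] ⟨c44566, trivial⟩ (nd (nat_lit 226) (nat_lit 0) (cs (lf (nat_lit 30) (nat_lit 182)) (rf (nat_lit 0)))) q44567 (by decide +kernel)
def q44570 : Q := Q.p (nat_lit 0x780000100000000000000000000000000000000000000000000000000000000) (nat_lit 0x38000040000080000000000000000000000000000000000000000000000000000000) (nat_lit 3)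
theorem c44570 : QOK q44570 := cut [q44569] ⟨c44569, trivial⟩ (nd (nat_lit 268) (nat_lit 0) (cs (lf (nat_lit 10) (nat_lit 246)) (rf (nat_lit 0)))) q44570 (by decide +kernel)
def q44574 : Q := Q.p (nat_lit 0x100000400003000000000000000000000000000000000000000000000000000) (nat_lit 0x4000000000000000000000c000020000080000000000000000000000000000000000) (nat_lit 3)
theorem c44574 : QOK q44574 := cut [q44566] ⟨c44566, trivial⟩ (nd (nat_lit 183) (nat_lit 0) (cs (lf (nat_lit 30) (nat_lit 182)) (rf (nat_lit 0)))) q44574 (by decide +kernel)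
def q44581 : Q := Q.p (nat_lit 0x300000400001000000000000000000000000000000000000000000000000000) (nat_lit 0x80000200000c0000000000000000000004000000000000000000000000000000000000000000000) (nat_lit 3)
theorem c44581 : QOK q44581 := cut [q44580] ⟨c44580, trivial⟩ (nd (nat_lit 271) (nat_lit 0) (cs (lf (nat_lit 24) (nat_lit 182)) (rf (nat_lit 0)))) q44581 (by decide +kernel)
def q44584 : Q := Q.p (nat_lit 0x100000780000000000000000000000000000000000000000000000000000000000000) (nat_lit 0x80000040000380000000000000000000000000000000000000000000000000000000) (nat_lit 3)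
theorem c44584 : QOK q44584 := cut [q44583] ⟨c44583, trivial⟩ (nd (nat_lit 246) (nat_lit 0) (cs (lf (nat_lit 4) (nat_lit 246)) (rf (nat_lit 0)))) q44584 (by decide +kernel)
def q44592 : Q := Q.p (nat_lit 0x180000680000800002000000000000000000000000000000000000000000000000000) (nat_lit 0x10000070000040000000000000000000000000000000000000000000000000000000000000) (nat_lit 3)
theorem c44592 : QOK q44592 := cut [q44591] ⟨c44591, trivial⟩ (nd (nat_lit 270) (nat_lit 0) (cs (lf (nat_lit 41) (nat_lit 204)) (rf (nat_lit 0)))) q44592 (by decide +kernel)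
def q44607 : Q := Q.p (nat_lit 0x100000400001800000000000000000000000000000000000000000000000000) (nat_lit 0x40000000000000000000006000008000020000000000000000000000000000000000) (nat_lit 3)
theorem c44607 : QOK q44607 := cut [q44606] ⟨c44606, trivial⟩ (nd (nat_lit 181) (nat_lit 0) (cs (lf (nat_lit 42) (nat_lit 181)) (rf (nat_lit 0)))) q44607 (by decide +kernel)
def q44630 : Q := Q.p (nat_lit 0x140003100000400001000000000000000000000000000000000000000000000000000) (nat_lit 0x20000680000080000000000000000000000000000000000000000000000000000000000000) (nat_lit 3)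
theorem c44630 : QOK q44630 := cut [q44614] ⟨c44614, trivial⟩ (nd (nat_lit 271) (nat_lit 0) (cs (lf (nat_lit 29) (nat_lit 204)) (rf (nat_lit 0)))) q44630 (by decide +kernel)
def q44646 : Q := Q.p (nat_lit 0x3c00000000000000000000000000000000000000000000000000) (nat_lit 0x1c0000200001c00000000000000000000000000000000000000000000) (nat_lit 4)
theorem c44646 : QOK q44646 := cut [q27078] ⟨c27078, trivial⟩ (nd (nat_lit 223) (nat_lit 0) (cs (lf (nat_lit 10) (nat_lit 201)) (nd (nat_lit 201) (nat_lit 0) (cs (rf (nat_lit 0)) (lf (nat_lit 11) (nat_lit 200)))))) q44646 (by decide +kernel)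
def q44690 : Q := Q.p (nat_lit 0x180000200000800000000000000000000000000000000000000000000000000) (nat_lit 0x50000040000400000000006000018000040000000000000000000000000000000000) (nat_lit 5)
theorem c44690 : QOK q44690 := cut [q44688] ⟨c44688, trivial⟩ (nd (nat_lit 181) (nat_lit 0) (cs (lf (nat_lit 29) (nat_lit 181)) (nd (nat_lit 246) (nat_lit 0) (cs (lf (nat_lit 41) (nat_lit 180)) (rf (nat_lit 0)))))) q44690 (by decide +kernel)
def q44691 : Q := Q.p (nat_lit 0x180000200000800000000000000000000000000000000000000000000000000) (nat_lit 0x40000000000400000000006000018000040000000000000000000000000000000000) (nat_lit 4)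
theorem c44691 : QOK q44691 := cut [q44688] ⟨c44688, trivial⟩ (nd (nat_lit 181) (nat_lit 0) (cs (lf (nat_lit 29) (nat_lit 181)) (rf (nat_lit 0)))) q44691 (by decide +kernel)
def q44701 : Q := Q.p (nat_lit 0x20000080000200000800000000000000000000000000000000000000000000000000) (nat_lit 0x14000050000140000000000000002000000000000000000000000000000000000000000000) (nat_lit 4)
theorem c44701 : QOK q44701 := cut [q27277] ⟨c27277, trivial⟩ (nd (nat_lit 270) (nat_lit 0) (cs (lf (nat_lit 29) (nat_lit 203)) (nd (nat_lit 181) (nat_lit 0) (cs (rf (nat_lit 0)) (lf (nat_lit 28) (nat_lit 181)))))) q44701 (by decide +kernel)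
def q44707 : Q := Q.p (nat_lit 0x80000200001800000000000000000000000000000000000000000000000000) (nat_lit 0x20000000000000000000006000010000040000000000000000000000000000000000) (nat_lit 3)
theorem c44707 : QOK q44707 := cut [q44706] ⟨c44706, trivial⟩ (nd (nat_lit 182) (nat_lit 0) (cs (lf (nat_lit 30) (nat_lit 181)) (rf (nat_lit 0)))) q44707 (by decide +kernel)
def q44714 : Q := Q.p (nat_lit 0x100000500000200000800002000000000000000000000000000000000000000000000) (nat_lit 0x2d00002c0000000000000000000000000000000000000000000000000000000000000) (nat_lit 4)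
theorem c44714 : QOK q44714 := cut [q44712] ⟨c44712, trivial⟩ (nd (nat_lit 247) (nat_lit 0) (cs (lf (nat_lit 29) (nat_lit 181)) (nd (nat_lit 246) (nat_lit 0) (cs (lf (nat_lit 41) (nat_lit 180)) (rf (nat_lit 0)))))) q44714 (by decide +kernel)
def q44741 : Q := Q.p (nat_lit 0x100000700000000000000000000000000000000000000000000000000000000000000) (nat_lit 0x2b80000c0000000000000000000000000000000000000000000000000000000000000) (nat_lit 4)
theorem c44741 : QOK q44741 := cut [q44740] ⟨c44740, trivial⟩ (nd (nat_lit 247) (nat_lit 0) (cs (lf (nat_lit 5) (nat_lit 247)) (rf (nat_lit 0)))) q44741 (by decide +kernel)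
def q44752 : Q := Q.p (nat_lit 0x100000400000000007800000000000000000000000000000000000000000000000000) (nat_lit 0x200000dc000060000f800000000000000000000000000000000000000000000) (nat_lit 7)
theorem c44752 : QOK q44752 := cut [q44748] ⟨c44748, trivial⟩ (nd (nat_lit 180) (nat_lit 0) (cs (lf (nat_lit 22) (nat_lit 180)) (nd (nat_lit 202) (nat_lit 0) (cs (lf (nat_lit 23) (nat_lit 179)) (nd (nat_lit 223) (nat_lit 0) (cs (lf (nat_lit 10) (nat_lit 201)) (nd (nat_lit 201) (nat_lit 0) (cs (lf (nat_lit 11) (nat_lit 200)) (rf (nat_lit 0)))))))))) q44752 (by decide +kernel)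
def q44779 : Q := Q.p (nat_lit 0x100000480000200007800000000000000000000000000000000000000000000000000) (nat_lit 0x270000340000000000000003000000000000000000000000000000000000000000000) (nat_lit 5)
theorem c44779 : QOK q44779 := cut [q44778] ⟨c44778, trivial⟩ (nd (nat_lit 181) (nat_lit 0) (cs (lf (nat_lit 23) (nat_lit 180)) (rf (nat_lit 0)))) q44779 (by decide +kernel)
def q44784 : Q := Q.p (nat_lit 0x100000480000200007800000000000000000000000000000000000000000000000000) (nat_lit 0x2d0000340000000000000007000018000040000000000000000000000000000000000) (nat_lit 7)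
theorem c44784 : QOK q44784 := cut [q44712] ⟨c44712, trivial⟩ (nd (nat_lit 181) (nat_lit 0) (cs (lf (nat_lit 23) (nat_lit 180)) (nd (nat_lit 160) (nat_lit 0) (cs (lf (nat_lit 34) (nat_lit 159)) (nd (nat_lit 138) (nat_lit 0) (cs (lf (nat_lit 33) (nat_lit 137)) (nd (nat_lit 246) (nat_lit 0) (cs (lf (nat_lit 41) (nat_lit 180)) (nd (nat_lit 248) (nat_lit 0) (cs (lf (nat_lit 29) (nat_lit 181)) (rf (nat_lit 0)))))))))))) q44784 (by decide +kernel)
def q44797 : Q := Q.p (nat_lit 0x100000680000000000000000000000000000000000000000000000000000000000000) (nat_lit 0x2b8000140000000000000000000000000000000000000000000000000000000000000) (nat_lit 4)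
theorem c44797 : QOK q44797 := cut [q44740] ⟨c44740, trivial⟩ (nd (nat_lit 248) (nat_lit 0) (cs (lf (nat_lit 5) (nat_lit 247)) (rf (nat_lit 0)))) q44797 (by decide +kernel)
def q44910 : Q := Q.p (nat_lit 0x80000400001000006000040000000000000000000000000000000000000000000000) (nat_lit 0x2000000000000000b0000080000000000000000000000000000000000000000) (nat_lit 3)
theorem c44910 : QOK q44910 := cut [q41035] ⟨c41035, trivial⟩ (nd (nat_lit 184) (nat_lit 0) (cs (lf (nat_lit 40) (nat_lit 183)) (rf (nat_lit 0)))) q44910 (by decide +kernel)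
def q44930 : Q := Q.p (nat_lit 0x78000000000000000000000000000000000000000000000000000000000000000000000000) (nat_lit 0x3800004000038000000000000000000000000000000000000000000000000000000000000000000) (nat_lit 4)
theorem c44930 : QOK q44930 := cut [q44926] ⟨c44926, trivial⟩ (nd (nat_lit 312) (nat_lit 0) (cs (nd (nat_lit 290) (nat_lit 0) (cs (rf (nat_lit 0)) (lf (nat_lit 11) (nat_lit 289)))) (lf (nat_lit 10) (nat_lit 290)))) q44930 (by decide +kernel)
def q44934 : Q := Q.p (nat_lit 0xf0000000003000000000000000000000000000000000000000000000000000000000000000) (nat_lit 0xc0000100000e00000000008000000000000000000000000000000000000000000000000000000000) (nat_lit 4)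
theorem c44934 : QOK q44934 := cut [q44506] ⟨c44506, trivial⟩ (nd (nat_lit 274) (nat_lit 0) (cs (lf (nat_lit 16) (nat_lit 270)) (nd (nat_lit 296) (nat_lit 0) (cs (lf (nat_lit 17) (nat_lit 271)) (rf (nat_lit 0)))))) q44934 (by decide +kernel)
def q44946 : Q := Q.p (nat_lit 0x80000100000400001000000000040000000000000000000000000000000000000000000000) (nat_lit 0x20000000000000000c0000b80000e0000080000000000000000000000000000000000) (nat_lit 6)
theorem c44946 : QOK q44946 := cut [q44549] ⟨c44549, trivial⟩ (nd (nat_lit 206) (nat_lit 0) (cs (lf (nat_lit 28) (nat_lit 206)) (rf (nat_lit 0)))) q44946 (by decide +kernel)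
def q45011 : Q := Q.p (nat_lit 0x400001c0000000000000000000000000000000000000000000000000000000000000000000000000) (nat_lit 0x380000220000000000000000000000000000000000000000000000000000000000000000000000000) (nat_lit 3)
theorem c45011 : QOK q45011 := cut [q43930] ⟨c43930, trivial⟩ (nd (nat_lit 319) (nat_lit 0) (cs (lf (nat_lit 0) (nat_lit 293)) (rf (nat_lit 0)))) q45011 (by decide +kernel)
def q45017 : Q := Q.p (nat_lit 0x1c0000100000400001000000000000000000000000000000000000000000000000000000000) (nat_lit 0x200001800022000000000000000200000c000020000000000000000000000000000000000000000000000) (nat_lit 5)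
theorem c45017 : QOK q45017 := cut [q45015] ⟨c45015, trivial⟩ (nd (nat_lit 207) (nat_lit 0) (cs (lf (nat_lit 34) (nat_lit 206)) (nd (nat_lit 185) (nat_lit 0) (cs (lf (nat_lit 33) (nat_lit 184)) (rf (nat_lit 0)))))) q45017 (by decide +kernel)
def q45040 : Q := Q.p (nat_lit 0xc0000180000000000000000000000000000000000000000000000000000000000000000000000000) (nat_lit 0x300000260000000000000000000000000000000000000000000000000000000000000000000000000) (nat_lit 3)
theorem c45040 : QOK q45040 := cut [q43930] ⟨c43930, trivial⟩ (nd (nat_lit 294) (nat_lit 0) (cs (lf (nat_lit 0) (nat_lit 293)) (rf (nat_lit 0)))) q45040 (by decide +kernel)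
def q45054 : Q := Q.p (nat_lit 0x2000008000020000080000000000000000000000000000000000000000000000000000000000000000000000000) (nat_lit 0x500001c00005000000000000000000000000000000000000000000000000000000000000000000000000000000000000000000) (nat_lit 4)
theorem c45054 : QOK q45054 := cut [q14400] ⟨c14400, trivial⟩ (nd (nat_lit 384) (nat_lit 0) (cs (lf (nat_lit 28) (nat_lit 295)) (nd (nat_lit 382) (nat_lit 0) (cs (rf (nat_lit 0)) (lf (nat_lit 40) (nat_lit 294)))))) q45054 (by decide +kernel)
def q45067 : Q := Q.p (nat_lit 0xe000008000020000080000000000000000000000000000000000000000000000000000000000000000000000000) (nat_lit 0x6400001800077000000000000000000000000000000000000000000000000000000000000000000000000000000000000) (nat_lit 6)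
theorem c45067 : QOK q45067 := cut [q45066] ⟨c45066, trivial⟩ (nd (nat_lit 360) (nat_lit 0) (cs (lf (nat_lit 41) (nat_lit 294)) (rf (nat_lit 0)))) q45067 (by decide +kernel)
def q45072 : Q := Q.p (nat_lit 0xf000008000000000000000000000000000000000000000000000000000000000000000000000000000000000000) (nat_lit 0xe000030800070000000000000000000000000000000000000000000000000000000000000000000000000000000000000) (nat_lit 5)
theorem c45072 : QOK q45072 := cut [q45070] ⟨c45070, trivial⟩ (nd (nat_lit 341) (nat_lit 0) (cs (lf (nat_lit 17) (nat_lit 338)) (nd (nat_lit 340) (nat_lit 0) (cs (lf (nat_lit 12) (nat_lit 337)) (rf (nat_lit 0)))))) q45072 (by decide +kernel)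
def q45094 : Q := Q.p (nat_lit 0x100000400001000002000000000000000000000000000000000000000000000000000) (nat_lit 0x40000000000200000800000000008000020000000000000000000000000000000000000000) (nat_lit 3)
theorem c45094 : QOK q45094 := cut [q41223] ⟨c41223, trivial⟩ (nd (nat_lit 227) (nat_lit 0) (cs (lf (nat_lit 42) (nat_lit 205)) (rf (nat_lit 0)))) q45094 (by decide +kernel)
def q45109 : Q := Q.p (nat_lit 0x10000040000100000400000000000000000000000000000000000000000000000000000000000000) (nat_lit 0xa00002c000380000000000000001000000000000000000000000000000000000000000000000000000000) (nat_lit 5)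
theorem c45109 : QOK q45109 := cut [q45106] ⟨c45106, trivial⟩ (nd (nat_lit 317) (nat_lit 0) (cs (lf (nat_lit 29) (nat_lit 250)) (nd (nat_lit 295) (nat_lit 0) (cs (lf (nat_lit 24) (nat_lit 228)) (nd (nat_lit 315) (nat_lit 0) (cs (lf (nat_lit 41) (nat_lit 249)) (rf (nat_lit 0)))))))) q45109 (by decide +kernel)
def q45113 : Q := Q.p (nat_lit 0xc0000100000400000000000000000000000000000000000000000000000000000000000000) (nat_lit 0x2000000000020000000000300000c000020000000000000000000000000000000000000000000000) (nat_lit 4)
theorem c45113 : QOK q45113 := cut [q45111] ⟨c45111, trivial⟩ (nd (nat_lit 228) (nat_lit 0) (cs (lf (nat_lit 29) (nat_lit 228)) (nd (nat_lit 207) (nat_lit 0) (cs (lf (nat_lit 34) (nat_lit 206)) (rf (nat_lit 0)))))) q45113 (by decide +kernel)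
def q45122 : Q := Q.p (nat_lit 0x1c0000100000000000000000000000000000000000000000000000000000000000000000000) (nat_lit 0x2200000e0000000000000000000000000000000000000000000000000000000000000000000) (nat_lit 3)
theorem c45122 : QOK q45122 := cut [q44111] ⟨c44111, trivial⟩ (nd (nat_lit 271) (nat_lit 0) (cs (lf (nat_lit 18) (nat_lit 271)) (rf (nat_lit 0)))) q45122 (by decide +kernel)
def q45150 : Q := Q.p (nat_lit 0x8000040000100000400000000000000000000000000000000000000000000000000000000000000) (nat_lit 0x800002000010000020000000000000001000000000000000000000000000000000000000000000000000000000) (nat_lit 3)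
theorem c45150 : QOK q45150 := cut [q45149] ⟨c45149, trivial⟩ (nd (nat_lit 293) (nat_lit 0) (cs (lf (nat_lit 36) (nat_lit 227)) (rf (nat_lit 0)))) q45150 (by decide +kernel)
def q45169 : Q := Q.p (nat_lit 0x18000060000100000400000000000000000000000000000000000000000000000000000000000000) (nat_lit 0x8000060000018000000000000000000000000000000000000000000000000000000000000000000000000) (nat_lit 3)
theorem c45169 : QOK q45169 := cut [q45166] ⟨c45166, trivial⟩ (nd (nat_lit 317) (nat_lit 0) (cs (lf (nat_lit 29) (nat_lit 250)) (rf (nat_lit 0)))) q45169 (by decide +kernel)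
def q45175 : Q := Q.p (nat_lit 0x3c0000000000000000000000000000000000000000000000000000000000000000000000000) (nat_lit 0x1c0000020001c00000000000000000000000000000000000000000000000000000000000000000000) (nat_lit 4)
theorem c45175 : QOK q45175 := cut [q45173] ⟨c45173, trivial⟩ (nd (nat_lit 319) (nat_lit 0) (cs (lf (nat_lit 5) (nat_lit 294)) (nd (nat_lit 293) (nat_lit 0) (cs (lf (nat_lit 4) (nat_lit 293)) (rf (nat_lit 0)))))) q45175 (by decide +kernel)
def q45178 : Q := Q.p (nat_lit 0x3c0000100000000000000000000000000000000000000000000000000000000000000000000) (nat_lit 0x1c0000438000600000000000000000000000000000000000000000000000000000000000000000000) (nat_lit 5)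
theorem c45178 : QOK q45178 := cut [q18212] ⟨c18212, trivial⟩ (nd (nat_lit 319) (nat_lit 0) (cs (lf (nat_lit 5) (nat_lit 294)) (nd (nat_lit 293) (nat_lit 0) (cs (lf (nat_lit 4) (nat_lit 293)) (nd (nat_lit 273) (nat_lit 0) (cs (lf (nat_lit 18) (nat_lit 272)) (rf (nat_lit 0)))))))) q45178 (by decide +kernel)
def q45181 : Q := Q.p (nat_lit 0x3c0000100000400000000000000000000000000000000000000000000000000000000000000) (nat_lit 0x420001e00000200000000000000000000000000000000000000000000000000000000000000) (nat_lit 4)
theorem c45181 : QOK q45181 := cut [q45179] ⟨c45179, trivial⟩ (nd (nat_lit 275) (nat_lit 0) (cs (lf (nat_lit 17) (nat_lit 272)) (nd (nat_lit 274) (nat_lit 0) (cs (lf (nat_lit 12) (nat_lit 271)) (rf (nat_lit 0)))))) q45181 (by decide +kernel)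
def q45190 : Q := Q.p (nat_lit 0x1c0000100003000000000000000000000000000000000000000000000000000000000000000) (nat_lit 0x10000040000020000ee0000000008000000000000000000000000000000000000000000000000000000000) (nat_lit 5)
theorem c45190 : QOK q45190 := cut [q44111, q44502, q22293] ⟨c44111, c44502, c22293, trivial⟩ (nd (nat_lit 271) (nat_lit 0) (cs (rf (nat_lit 0)) (cs (rf (nat_lit 1)) (nd (nat_lit 274) (nat_lit 0) (cs (lf (nat_lit 14) (nat_lit 249)) (nd (nat_lit 275) (nat_lit 0) (cs (lf (nat_lit 12) (nat_lit 271)) (rf (nat_lit 2))))))))) q45190 (by decide +kernel)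
def q45194 : Q := Q.p (nat_lit 0xc0000180000400001000004000000000000000000000000000000000000000000000000000) (nat_lit 0x4000010000000000060000200000800000000010000000000000000000000000000000000000000000000) (nat_lit 4)
theorem c45194 : QOK q45194 := cut [q45192] ⟨c45192, trivial⟩ (nd (nat_lit 269) (nat_lit 0) (cs (lf (nat_lit 1) (nat_lit 269)) (nd (nat_lit 249) (nat_lit 0) (cs (lf (nat_lit 36) (nat_lit 183)) (rf (nat_lit 0)))))) q45194 (by decide +kernel)
def q45203 : Q := Q.p (nat_lit 0x60000100000400000000000000000000000000000000000000000000000000000000000000) (nat_lit 0x800002000018000000000000000000001000000000000000000000000000000000000000000000000000000000) (nat_lit 3)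
theorem c45203 : QOK q45203 := cut [q45149] ⟨c45149, trivial⟩ (nd (nat_lit 315) (nat_lit 0) (cs (lf (nat_lit 36) (nat_lit 227)) (rf (nat_lit 0)))) q45203 (by decide +kernel)
def q45213 : Q := Q.p (nat_lit 0x1000004000010000040000000000000000000000000000000000000000000000000000000000000000000) (nat_lit 0x280000e00002800000000000000000000000000000000000000000000000000000000000000000000000000000000000) (nat_lit 4)
theorem c45213 : QOK q45213 := cut [q45209] ⟨c45209, trivial⟩ (nd (nat_lit 357) (nat_lit 0) (cs (nd (nat_lit 358) (nat_lit 0) (cs (rf (nat_lit 0)) (lf (nat_lit 41) (nat_lit 291)))) (lf (nat_lit 40) (nat_lit 269)))) q45213 (by decide +kernel)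
def q45225 : Q := Q.p (nat_lit 0xf0000000003000000000000000000000000000000000000000000000000000000000000000) (nat_lit 0xc0000100000ce0000000008000000000000000000000000000000000000000000000000000000000) (nat_lit 5)
theorem c45225 : QOK q45225 := cut [q44948] ⟨c44948, trivial⟩ (nd (nat_lit 270) (nat_lit 0) (cs (lf (nat_lit 23) (nat_lit 269)) (nd (nat_lit 296) (nat_lit 0) (cs (lf (nat_lit 22) (nat_lit 270)) (rf (nat_lit 0)))))) q45225 (by decide +kernel)
def q45232 : Q := Q.p (nat_lit 0xe0000140000000000000000000000000000000000000000000000000000000000000000000) (nat_lit 0x1c0000700003a80000000000000000000000000000000000000000000000000000000000000000000) (nat_lit 6)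
theorem c45232 : QOK q45232 := cut [q45229] ⟨c45229, trivial⟩ (nd (nat_lit 296) (nat_lit 0) (cs (lf (nat_lit 22) (nat_lit 270)) (nd (nat_lit 319) (nat_lit 0) (cs (lf (nat_lit 4) (nat_lit 293)) (nd (nat_lit 297) (nat_lit 0) (cs (lf (nat_lit 5) (nat_lit 294)) (rf (nat_lit 0)))))))) q45232 (by decide +kernel)
def q45255 : Q := Q.p (nat_lit 0x70000020000000000000000000000000000000000000000000000000000000000000000000) (nat_lit 0x80000d8000000000000000000000000000000000000000000000000000000000000000000) (nat_lit 3)
theorem c45255 : QOK q45255 := cut [q45254] ⟨c45254, trivial⟩ (nd (nat_lit 268) (nat_lit 0) (cs (lf (nat_lit 21) (nat_lit 268)) (rf (nat_lit 0)))) q45255 (by decide +kernel)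
def q45261 : Q := Q.p (nat_lit 0x10000780000000000000000000000000000000000000000000000000000000000000) (nat_lit 0x8000040000380000000000000000000000000000000000000000000000000000000) (nat_lit 3)
theorem c45261 : QOK q45261 := cut [q44583] ⟨c44583, trivial⟩ (nd (nat_lit 246) (nat_lit 0) (cs (lf (nat_lit 11) (nat_lit 245)) (rf (nat_lit 0)))) q45261 (by decide +kernel)
def q45333 : Q := Q.p (nat_lit 0x100000400001000004000000000000000000000000000000000000000000000000000) (nat_lit 0x800002000008000020000380000e0000200000000000000000000000000000000000) (nat_lit 6)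
theorem c45333 : QOK q45333 := cut [q26195] ⟨c26195, trivial⟩ (nd (nat_lit 183) (nat_lit 0) (cs (lf (nat_lit 46) (nat_lit 183)) (nd (nat_lit 184) (nat_lit 0) (cs (lf (nat_lit 47) (nat_lit 161)) (nd (nat_lit 163) (nat_lit 0) (cs (lf (nat_lit 34) (nat_lit 162)) (nd (nat_lit 249) (nat_lit 0) (cs (lf (nat_lit 41) (nat_lit 183)) (rf (nat_lit 0)))))))))) q45333 (by decide +kernel)
def q45337 : Q := Q.p (nat_lit 0x100000400000000012000048000000000000000000000000000000000000000000000) (nat_lit 0x100000c000084000000000000000000000000000000000000000000000) (nat_lit 3)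
theorem c45337 : QOK q45337 := cut [q35179] ⟨c35179, trivial⟩ (nd (nat_lit 206) (nat_lit 0) (cs (lf (nat_lit 44) (nat_lit 183)) (rf (nat_lit 0)))) q45337 (by decide +kernel)
def q45340 : Q := Q.p (nat_lit 0x100000600000000006000040000000000000000000000000000000000000000000000) (nat_lit 0x800000000010000000000b8000080000000000000000000000000000000000000000) (nat_lit 4)
theorem c45340 : QOK q45340 := cut [q41035] ⟨c41035, trivial⟩ (nd (nat_lit 228) (nat_lit 0) (cs (lf (nat_lit 47) (nat_lit 183)) (nd (nat_lit 184) (nat_lit 0) (cs (lf (nat_lit 41) (nat_lit 183)) (rf (nat_lit 0)))))) q45340 (by decide +kernel)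
def q45344 : Q := Q.p (nat_lit 0xe000048000000000000000000000000000000000000000000000) (nat_lit 0x700001c00033800000000000000000000000000000000000000000000) (nat_lit 6)
theorem c45344 : QOK q45344 := cut [q3964] ⟨c3964, trivial⟩ (nd (nat_lit 204) (nat_lit 0) (cs (lf (nat_lit 16) (nat_lit 182)) (nd (nat_lit 225) (nat_lit 0) (cs (lf (nat_lit 10) (nat_lit 203)) (nd (nat_lit 203) (nat_lit 0) (cs (lf (nat_lit 11) (nat_lit 202)) (nd (nat_lit 202) (nat_lit 0) (cs (rf (nat_lit 0)) (lf (nat_lit 17) (nat_lit 180)))))))))) q45344 (by decide +kernel)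
def q45352 : Q := Q.p (nat_lit 0x100000600000000002000000000000000000000000000000000000000000000000000) (nat_lit 0x10000040000080000000000800000000008000000000000000000000000000000000000000000000) (nat_lit 3)
theorem c45352 : QOK q45352 := cut [q45350] ⟨c45350, trivial⟩ (nd (nat_lit 227) (nat_lit 0) (cs (lf (nat_lit 24) (nat_lit 183)) (rf (nat_lit 0)))) q45352 (by decide +kernel)
def q45357 : Q := Q.p (nat_lit 0xf0000000000000001000000000000000000000000000000000000000000000000000000000000000) (nat_lit 0x60000008000700000400000000000000000000000000000000000000000000000000000000000000000000) (nat_lit 4)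
theorem c45357 : QOK q45357 := cut [q45355] ⟨c45355, trivial⟩ (nd (nat_lit 297) (nat_lit 0) (cs (lf (nat_lit 17) (nat_lit 294)) (nd (nat_lit 296) (nat_lit 0) (cs (lf (nat_lit 12) (nat_lit 293)) (rf (nat_lit 0)))))) q45357 (by decide +kernel)
def q45360 : Q := Q.p (nat_lit 0xf0000000000000002000000000000000000000000000000000000000000000000000000000000000) (nat_lit 0x10000008000700000800000000008000000000000000000000000000000000000000000000000000000000) (nat_lit 4)
theorem c45360 : QOK q45360 := cut [q45358] ⟨c45358, trivial⟩ (nd (nat_lit 297) (nat_lit 0) (cs (lf (nat_lit 17) (nat_lit 294)) (nd (nat_lit 296) (nat_lit 0) (cs (lf (nat_lit 12) (nat_lit 293)) (rf (nat_lit 0)))))) q45360 (by decide +kernel)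
def q45364 : Q := Q.p (nat_lit 0x78000000000000003000000000000000000000000000000000000000000000000000000000000000) (nat_lit 0x30000000000300000c00000000008000000000000000000000000000000000000000000000000000000000) (nat_lit 4)
theorem c45364 : QOK q45364 := cut [q45154] ⟨c45154, trivial⟩ (nd (nat_lit 340) (nat_lit 0) (cs (lf (nat_lit 5) (nat_lit 315)) (nd (nat_lit 296) (nat_lit 0) (cs (lf (nat_lit 17) (nat_lit 293)) (rf (nat_lit 0)))))) q45364 (by decide +kernel)
def q45368 : Q := Q.p (nat_lit 0x200000c0000000000100003600000000000000000000000000000000000000000000000000000000000000) (nat_lit 0x100000e80000000000000000000000000000000000000000000000000000000000000000000) (nat_lit 3)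
theorem c45368 : QOK q45368 := cut [q45367] ⟨c45367, trivial⟩ (nd (nat_lit 274) (nat_lit 0) (cs (lf (nat_lit 26) (nat_lit 252)) (rf (nat_lit 0)))) q45368 (by decide +kernel)
def q45380 : Q := Q.p (nat_lit 0xf0000000000100003600000000000000000000000000000000000000000000000000000000000000) (nat_lit 0xd0000100000f00001e00000000008000000000000000000000000000000000000000000000000000000000) (nat_lit 7)
theorem c45380 : QOK q45380 := cut [q24867] ⟨c24867, trivial⟩ (nd (nat_lit 298) (nat_lit 0) (cs (lf (nat_lit 16) (nat_lit 294)) (nd (nat_lit 320) (nat_lit 0) (cs (lf (nat_lit 17) (nat_lit 295)) (nd (nat_lit 342) (nat_lit 0) (cs (lf (nat_lit 5) (nat_lit 317)) (nd (nat_lit 275) (nat_lit 0) (cs (lf (nat_lit 45) (nat_lit 253)) (nd (nat_lit 274) (nat_lit 0) (cs (lf (nat_lit 20) (nat_lit 249)) (rf (nat_lit 0)))))))))))) q45380 (by decide +kernel)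
def q45391 : Q := Q.p (nat_lit 0xf0000000000000002000000000000000000000000000000000000000000000000000000000000000) (nat_lit 0x70000100000600000800000000000000000000000000000000000000000000000000000000000000000000) (nat_lit 4)
theorem c45391 : QOK q45391 := cut [q12719] ⟨c12719, trivial⟩ (nd (nat_lit 297) (nat_lit 0) (cs (lf (nat_lit 17) (nat_lit 294)) (nd (nat_lit 275) (nat_lit 0) (cs (lf (nat_lit 41) (nat_lit 252)) (rf (nat_lit 0)))))) q45391 (by decide +kernel)
def q45399 : Q := Q.p (nat_lit 0xf0000000000100000400000000000000000000000000000000000000000000000000000000000000) (nat_lit 0x7000008000040000000000000000000000000000000000000000000000000000000000000000000000000) (nat_lit 3)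
theorem c45399 : QOK q45399 := cut [q45366] ⟨c45366, trivial⟩ (nd (nat_lit 337) (nat_lit 0) (cs (lf (nat_lit 10) (nat_lit 315)) (rf (nat_lit 0)))) q45399 (by decide +kernel)
def q45405 : Q := Q.p (nat_lit 0x80001e0000000000000000000000000000000000000000000000000000000000000000000000000000000) (nat_lit 0x1d0000200000000000000000000000000000000000000000000000000000000000000000000000000000000) (nat_lit 3)
theorem c45405 : QOK q45405 := cut [q13055] ⟨c13055, trivial⟩ (nd (nat_lit 321) (nat_lit 0) (cs (lf (nat_lit 10) (nat_lit 317)) (rf (nat_lit 0)))) q45405 (by decide +kernel)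
def q45419 : Q := Q.p (nat_lit 0xf0000000000000002000000000000000000000000000000000000000000000000000000000000000) (nat_lit 0xe0000100000600000800000000000000000000000000000000000000000000000000000000000000000000) (nat_lit 4)
theorem c45419 : QOK q45419 := cut [q45418] ⟨c45418, trivial⟩ (nd (nat_lit 297) (nat_lit 0) (cs (lf (nat_lit 17) (nat_lit 294)) (rf (nat_lit 0)))) q45419 (by decide +kernel)
def q45421 : Q := Q.p (nat_lit 0x8000060000000000100003600000000000000000000000000000000000000000000000000000000000000) (nat_lit 0x100000e80000000000000000000000000000000000000000000000000000000000000000000) (nat_lit 3)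
theorem c45421 : QOK q45421 := cut [q45367] ⟨c45367, trivial⟩ (nd (nat_lit 274) (nat_lit 0) (cs (lf (nat_lit 38) (nat_lit 251)) (rf (nat_lit 0)))) q45421 (by decide +kernel)
def q45428 : Q := Q.p (nat_lit 0x80000f0000000000000000000000000000000000000000000000000000000000000000000000000000000) (nat_lit 0xe4000100000000000000000000000000000000000000000000000000000000000000000000000000000000) (nat_lit 3)
theorem c45428 : QOK q45428 := cut [q43990] ⟨c43990, trivial⟩ (nd (nat_lit 320) (nat_lit 0) (cs (lf (nat_lit 11) (nat_lit 316)) (rf (nat_lit 0)))) q45428 (by decide +kernel)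
def q45442 : Q := Q.p (nat_lit 0xf0000000000100003600000000000000000000000000000000000000000000000000000000000000) (nat_lit 0xe8000100000d00001e00000000008000000000000000000000000000000000000000000000000000000000) (nat_lit 7)
theorem c45442 : QOK q45442 := cut [q45437] ⟨c45437, trivial⟩ (nd (nat_lit 342) (nat_lit 0) (cs (lf (nat_lit 4) (nat_lit 316)) (nd (nat_lit 320) (nat_lit 0) (cs (lf (nat_lit 5) (nat_lit 317)) (nd (nat_lit 298) (nat_lit 0) (cs (lf (nat_lit 17) (nat_lit 295)) (nd (nat_lit 275) (nat_lit 0) (cs (lf (nat_lit 45) (nat_lit 253)) (nd (nat_lit 274) (nat_lit 0) (cs (lf (nat_lit 20) (nat_lit 249)) (rf (nat_lit 0)))))))))))) q45442 (by decide +kernel)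
def q45457 : Q := Q.p (nat_lit 0xf0000000000000001000000000000000000000000000000000000000000000000000000000000000) (nat_lit 0x680001a00007e000100000700000400000000000000000000000000000000000000000000000000000000000000000000) (nat_lit 9)
theorem c45457 : QOK q45457 := cut [q45451] ⟨c45451, trivial⟩ (nd (nat_lit 297) (nat_lit 0) (cs (lf (nat_lit 17) (nat_lit 294)) (nd (nat_lit 341) (nat_lit 0) (cs (lf (nat_lit 5) (nat_lit 316)) (nd (nat_lit 296) (nat_lit 0) (cs (lf (nat_lit 25) (nat_lit 252)) (nd (nat_lit 338) (nat_lit 0) (cs (lf (nat_lit 11) (nat_lit 315)) (nd (nat_lit 339) (nat_lit 0) (cs (lf (nat_lit 6) (nat_lit 316)) (nd (nat_lit 361) (nat_lit 0) (cs (lf (nat_lit 30) (nat_lit 295)) (rf (nat_lit 0)))))))))))))) q45457 (by decide +kernel)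
def q45461 : Q := Q.p (nat_lit 0x78000000000000000000000000000000000000000000000000000000000000000000000000000000) (nat_lit 0x3b800004000000000000000000000000000000000000000000000000000000000000000000000000000000) (nat_lit 4)
theorem c45461 : QOK q45461 := cut [q25276] ⟨c25276, trivial⟩ (nd (nat_lit 340) (nat_lit 0) (cs (lf (nat_lit 5) (nat_lit 315)) (nd (nat_lit 314) (nat_lit 0) (cs (lf (nat_lit 4) (nat_lit 314)) (rf (nat_lit 0)))))) q45461 (by decide +kernel)
def q45462 : Q := Q.p (nat_lit 0x78000000000000003000000000000000000000000000000000000000000000000000000000000000) (nat_lit 0x8000000000300000400000000008000000000000000000000000000000000000000000000000000000000) (nat_lit 3)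
theorem c45462 : QOK q45462 := cut [q41899] ⟨c41899, trivial⟩ (nd (nat_lit 296) (nat_lit 0) (cs (lf (nat_lit 17) (nat_lit 293)) (rf (nat_lit 0)))) q45462 (by decide +kernel)
def q45485 : Q := Q.p (nat_lit 0xf0000000000000000000000000000000000000000000000000000000000000000000000000000000) (nat_lit 0x7000008000700000000000000000000000000000000000000000000000000000000000000000000000000) (nat_lit 4)
theorem c45485 : QOK q45485 := cut [q45483] ⟨c45483, trivial⟩ (nd (nat_lit 337) (nat_lit 0) (cs (lf (nat_lit 10) (nat_lit 315)) (nd (nat_lit 315) (nat_lit 0) (cs (lf (nat_lit 11) (nat_lit 314)) (rf (nat_lit 0)))))) q45485 (by decide +kernel)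
def q45489 : Q := Q.p (nat_lit 0x8000020000180000000000000000000000000000000000000000000000000000000000000) (nat_lit 0x2000000000040000000000400001000004000000000000000000000000000000000000000000000) (nat_lit 3)
theorem c45489 : QOK q45489 := cut [q45488] ⟨c45488, trivial⟩ (nd (nat_lit 226) (nat_lit 0) (cs (lf (nat_lit 30) (nat_lit 225)) (rf (nat_lit 0)))) q45489 (by decide +kernel)
def q45527 : Q := Q.p (nat_lit 0x1c000070000000000000002000000000000000000000000000000000000000000000000000000000000000) (nat_lit 0x180000600000800000000000000000000000000000000000000000000000000000000000000000000) (nat_lit 3)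
theorem c45527 : QOK q45527 := cut [q43505] ⟨c43505, trivial⟩ (nd (nat_lit 319) (nat_lit 0) (cs (lf (nat_lit 6) (nat_lit 316)) (rf (nat_lit 0)))) q45527 (by decide +kernel)
def q45536 : Q := Q.p (nat_lit 0x100000600000800000000000000000000000000000000000000000000000000000000) (nat_lit 0x10000040000000000000001000002000008000000000000000000000000000000000000000000000) (nat_lit 3)
theorem c45536 : QOK q45536 := cut [q23102] ⟨c23102, trivial⟩ (nd (nat_lit 294) (nat_lit 0) (cs (lf (nat_lit 42) (nat_lit 227)) (rf (nat_lit 0)))) q45536 (by decide +kernel)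
def q45544 : Q := Q.p (nat_lit 0x100000700000800000000000000000000000000000000000000000000000000000000) (nat_lit 0x2000000c0003000000000000000000000000000000000000000000000000000000000) (nat_lit 3)
theorem c45544 : QOK q45544 := cut [q45543] ⟨c45543, trivial⟩ (nd (nat_lit 247) (nat_lit 0) (cs (lf (nat_lit 5) (nat_lit 247)) (rf (nat_lit 0)))) q45544 (by decide +kernel)
def q45572 : Q := Q.p (nat_lit 0xf0000000000000001000000000000000000000000000000000000000000000000000000000000000) (nat_lit 0x600001800007e000100000700000400000000000000000000000000000000000000000000000000000000000000000000) (nat_lit 8)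
theorem c45572 : QOK q45572 := cut [q45451] ⟨c45451, trivial⟩ (nd (nat_lit 297) (nat_lit 0) (cs (lf (nat_lit 17) (nat_lit 294)) (nd (nat_lit 341) (nat_lit 0) (cs (lf (nat_lit 5) (nat_lit 316)) (nd (nat_lit 296) (nat_lit 0) (cs (lf (nat_lit 25) (nat_lit 252)) (nd (nat_lit 338) (nat_lit 0) (cs (lf (nat_lit 11) (nat_lit 315)) (nd (nat_lit 339) (nat_lit 0) (cs (lf (nat_lit 6) (nat_lit 316)) (rf (nat_lit 0)))))))))))) q45572 (by decide +kernel)
def q45578 : Q := Q.p (nat_lit 0x100000680000800000000000000000000000000000000000000000000000000000000) (nat_lit 0x200000140003000000000000000000000000000000000000000000000000000000000) (nat_lit 3)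
theorem c45578 : QOK q45578 := cut [q45543] ⟨c45543, trivial⟩ (nd (nat_lit 248) (nat_lit 0) (cs (lf (nat_lit 5) (nat_lit 247)) (rf (nat_lit 0)))) q45578 (by decide +kernel)
def q45594 : Q := Q.p (nat_lit 0x80000200000800002000004000000000000000000000000000000000000000) (nat_lit 0x4000018000050000000000000000000000000000000000) (nat_lit 3)
theorem c45594 : QOK q45594 := cut [q45593] ⟨c45593, trivial⟩ (nd (nat_lit 160) (nat_lit 0) (cs (lf (nat_lit 34) (nat_lit 159)) (rf (nat_lit 0)))) q45594 (by decide +kernel)
def q45598 : Q := Q.p (nat_lit 0x80000200000800002000000000000000000000000000000000000000000000) (nat_lit 0x4000030000040000000000400001000004000000000000000000000000000000000000000) (nat_lit 4)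
theorem c45598 : QOK q45598 := cut [q45596] ⟨c45596, trivial⟩ (nd (nat_lit 268) (nat_lit 0) (cs (lf (nat_lit 40) (nat_lit 180)) (nd (nat_lit 180) (nat_lit 0) (cs (lf (nat_lit 47) (nat_lit 158)) (rf (nat_lit 0)))))) q45598 (by decide +kernel)
def q45640 : Q := Q.p (nat_lit 0x100000400000800016000040000000000000000000000000000000000000000000000) (nat_lit 0x1400009000020000000000000000000000000000000000000000000000) (nat_lit 3)
theorem c45640 : QOK q45640 := cut [q44539] ⟨c44539, trivial⟩ (nd (nat_lit 207) (nat_lit 0) (cs (lf (nat_lit 11) (nat_lit 204)) (rf (nat_lit 0)))) q45640 (by decide +kernel)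
def q45666 : Q := Q.p (nat_lit 0x1e0003000000000000000000000000000000000000000000000000000000000000000) (nat_lit 0x1c000600000000000000000000000000000000000000000000000000000000000000000000) (nat_lit 3)
theorem c45666 : QOK q45666 := cut [q11918] ⟨c11918, trivial⟩ (nd (nat_lit 273) (nat_lit 0) (cs (lf (nat_lit 15) (nat_lit 249)) (rf (nat_lit 0)))) q45666 (by decide +kernel)
def q45688 : Q := Q.p (nat_lit 0x30000080000200000800000000000000000000000000000000000000000000000000) (nat_lit 0x40000000000400003000004000000000000000000000000000000000000000) (nat_lit 3)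
theorem c45688 : QOK q45688 := cut [q45687] ⟨c45687, trivial⟩ (nd (nat_lit 181) (nat_lit 0) (cs (lf (nat_lit 40) (nat_lit 180)) (rf (nat_lit 0)))) q45688 (by decide +kernel)
def q45697 : Q := Q.p (nat_lit 0x20000080000300000000000000000000000000000000000000000000000000000000) (nat_lit 0x8000000000040000000000400001000004000000000000000000000000000000000000000) (nat_lit 3)
theorem c45697 : QOK q45697 := cut [q45696] ⟨c45696, trivial⟩ (nd (nat_lit 202) (nat_lit 0) (cs (lf (nat_lit 42) (nat_lit 202)) (rf (nat_lit 0)))) q45697 (by decide +kernel)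
def q45731 : Q := Q.p (nat_lit 0x3c0000600000000000000000000000000000000000000000000000000000000000000) (nat_lit 0x300001c0000000000000000000000000000000000000000000000000000000000000) (nat_lit 3)
theorem c45731 : QOK q45731 := cut [q44591] ⟨c44591, trivial⟩ (nd (nat_lit 247) (nat_lit 0) (cs (lf (nat_lit 22) (nat_lit 247)) (rf (nat_lit 0)))) q45731 (by decide +kernel)
def q45757 : Q := Q.p (nat_lit 0x20000080000300000000000000000000000000000000000000000000000000000000) (nat_lit 0x8000000000000000000000c00001000004000000000000000000000000000000000000000) (nat_lit 3)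
theorem c45757 : QOK q45757 := cut [q45756] ⟨c45756, trivial⟩ (nd (nat_lit 202) (nat_lit 0) (cs (lf (nat_lit 42) (nat_lit 202)) (rf (nat_lit 0)))) q45757 (by decide +kernel)
def q45760 : Q := Q.p (nat_lit 0x20000080000200000800000000000000000000000000000000000000000000000000) (nat_lit 0x1400007000014000000000000000000000000000000000000000) (nat_lit 4)
theorem c45760 : QOK q45760 := cut [q45687] ⟨c45687, trivial⟩ (nd (nat_lit 182) (nat_lit 0) (cs (lf (nat_lit 34) (nat_lit 181)) (nd (nat_lit 181) (nat_lit 0) (cs (lf (nat_lit 35) (nat_lit 159)) (rf (nat_lit 0)))))) q45760 (by decide +kernel)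
def q45770 : Q := Q.p (nat_lit 0x30000080000200000000000000000000000000000000000000000000000000000000) (nat_lit 0x40000100000c000000000000000000000800000000000000000000000000000000000000000000000000) (nat_lit 3)
theorem c45770 : QOK q45770 := cut [q45768] ⟨c45768, trivial⟩ (nd (nat_lit 290) (nat_lit 0) (cs (rf (nat_lit 0)) (lf (nat_lit 36) (nat_lit 202)))) q45770 (by decide +kernel)
def q45782 : Q := Q.p (nat_lit 0x20000080000600000000000000000000000000000000000000000000000000000000) (nat_lit 0x8000000000000000000001800004000010000000000000000000000000000000000000000) (nat_lit 3)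
theorem c45782 : QOK q45782 := cut [q45781] ⟨c45781, trivial⟩ (nd (nat_lit 204) (nat_lit 0) (cs (lf (nat_lit 30) (nat_lit 203)) (rf (nat_lit 0)))) q45782 (by decide +kernel)
def q45792 : Q := Q.p (nat_lit 0x30000080000200000800000000000000000000000000000000000000000000000000) (nat_lit 0x40000000001000006000010000000000000000000000000000000000000000) (nat_lit 3)
theorem c45792 : QOK q45792 := cut [q45791] ⟨c45791, trivial⟩ (nd (nat_lit 181) (nat_lit 0) (cs (lf (nat_lit 40) (nat_lit 180)) (rf (nat_lit 0)))) q45792 (by decide +kernel)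
def q45849 : Q := Q.p (nat_lit 0xa0000200000c00003000000000000000000000000000000000000000000000000000000000000000) (nat_lit 0x18000040000100000000000000008000000000000000000000000000000000000000000000000000000000) (nat_lit 3)
theorem c45849 : QOK q45849 := cut [q45437] ⟨c45437, trivial⟩ (nd (nat_lit 318) (nat_lit 0) (cs (lf (nat_lit 41) (nat_lit 252)) (rf (nat_lit 0)))) q45849 (by decide +kernel)
def q45870 : Q := Q.p (nat_lit 0x8000060000000000700003400000000000000000000000000000000000000000000000000000000000000) (nat_lit 0x64000180000600000800000200000000000000000000000000000000000000000000000000000000000000) (nat_lit 5)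
theorem c45870 : QOK q45870 := cut [q45867] ⟨c45867, trivial⟩ (nd (nat_lit 275) (nat_lit 0) (cs (lf (nat_lit 23) (nat_lit 249)) (nd (nat_lit 297) (nat_lit 0) (cs (lf (nat_lit 5) (nat_lit 272)) (nd (nat_lit 319) (nat_lit 0) (cs (lf (nat_lit 42) (nat_lit 252)) (rf (nat_lit 0)))))))) q45870 (by decide +kernel)
def q45878 : Q := Q.p (nat_lit 0x2000008000020000000000100000400000000000000000000000000000000000000000000000000000000000000) (nat_lit 0x500001c00005000000000000000180000600000000000000000000000000000000000000000000000000000000000000000000) (nat_lit 6)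
theorem c45878 : QOK q45878 := cut [q45874] ⟨c45874, trivial⟩ (nd (nat_lit 295) (nat_lit 0) (cs (lf (nat_lit 45) (nat_lit 250)) (nd (nat_lit 384) (nat_lit 0) (cs (lf (nat_lit 28) (nat_lit 295)) (nd (nat_lit 274) (nat_lit 0) (cs (lf (nat_lit 34) (nat_lit 273)) (nd (nat_lit 383) (nat_lit 0) (cs (lf (nat_lit 29) (nat_lit 317)) (rf (nat_lit 0)))))))))) q45878 (by decide +kernel)
def q45916 : Q := Q.p (nat_lit 0x400000800002000008000000000000000000000000000000000000000000000000000000000000000000000000000000000000) (nat_lit 0x100001c0000300000000001000004000010000000000000000000000000000000000000000000000000000000000000000000000000000000) (nat_lit 5)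
theorem c45916 : QOK q45916 := cut [q45915] ⟨c45915, trivial⟩ (nd (nat_lit 405) (nat_lit 0) (cs (lf (nat_lit 29) (nat_lit 339)) (rf (nat_lit 0)))) q45916 (by decide +kernel)
def q45926 : Q := Q.p (nat_lit 0x800002000008000020000000000100000400000000000000000000000000000000000000000000000000000000000000) (nat_lit 0x100000400001000000000000000080000200000000000000000000000000000000000000000000000000000000000000000000) (nat_lit 3)
theorem c45926 : QOK q45926 := cut [q45925] ⟨c45925, trivial⟩ (nd (nat_lit 382) (nat_lit 0) (cs (lf (nat_lit 41) (nat_lit 316)) (rf (nat_lit 0)))) q45926 (by decide +kernel)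
def q45976 : Q := Q.p (nat_lit 0x3000008000020000000000000000000000000000000000000000000000000000000000000000000000000000000) (nat_lit 0x1000005000077c001ce000f7c00006000010000040000000000000000000000000000000000000000000000000000000000000000000) (nat_lit 11)
theorem c45976 : QOK q45976 := cut [q45931, q45934, q45937, q45945, q45949, q45963] ⟨c45931, c45934, c45937, c45945, c45949, c45963, trivial⟩ (nd (nat_lit 359) (nat_lit 0) (cs (rf (nat_lit 0)) (cs (nd (nat_lit 362) (nat_lit 0) (cs (nd (nat_lit 384) (nat_lit 0) (cs (lf (nat_lit 5) (nat_lit 359)) (rf (nat_lit 1)))) (nd (nat_lit 381) (nat_lit 0) (cs (lf (nat_lit 11) (nat_lit 358)) (nd (nat_lit 363) (nat_lit 0) (cs (lf (nat_lit 10) (nat_lit 359)) (rf (nat_lit 2)))))))) (cs (nd (nat_lit 358) (nat_lit 0) (cs (rf (nat_lit 3)) (cs (rf (nat_lit 4)) (cs (nd (nat_lit 379) (nat_lit 0) (cs (lf (nat_lit 10) (nat_lit 357)) (nd (nat_lit 336) (nat_lit 0) (cs (lf (nat_lit 23) (nat_lit 335)) (nd (nat_lit 362) (nat_lit 0) (cs (lf (nat_lit 22) (nat_lit 336)) (nd (nat_lit 385) (nat_lit 0) (cs (nd (nat_lit 363) (nat_lit 0) (cs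 (lf (nat_lit 5) (nat_lit 360)) (nd (nat_lit 381) (nat_lit 0) (cs (lf (nat_lit 10) (nat_lit 359)) (rf (nat_lit 2)))))) (lf (nat_lit 4) (nat_lit 359)))))))))) (nd (nat_lit 335) (nat_lit 0) (cs (lf (nat_lit 22) (nat_lit 335)) (nd (nat_lit 379) (nat_lit 0) (cs (lf (nat_lit 10) (nat_lit 357)) (nd (nat_lit 357) (nat_lit 0) (cs (lf (nat_lit 23) (nat_lit 334)) (lf (nat_lit 11) (nat_lit 356)))))))))))) (cs (rf (nat_lit 5)) (nd (nat_lit 358) (nat_lit 0) (cs (nd (nat_lit 338) (nat_lit 0) (cs (nd (nat_lit 382) (nat_lit 0) (cs (lf (nat_lit 30) (nat_lit 316)) (nd (nat_lit 379) (nat_lit 0) (cs (lf (nat_lit 10) (nat_lit 357)) (nd (nat_lit 336) (nat_lit 0) (cs (lf (nat_lit 23) (nat_lit 335)) (nd (nat_lit 337) (nat_lit 0) (cs (nd (nat_lit 314) (nat_lit 0) (cs (lf (nat_lit 23) (nat_lit 313)) (nd (nat_lit 292) (nat_lit 0) (cs (lf (nat_lit 29) (nat_lit 292)) (lf (nat_lit 24) (nat_lit 270)))))) (lf (nat_lit 18) (nat_lit 336)))))))))) (lf (nat_lit 12) (nat_lit 335)))) (lf (nat_lit 17) (nat_lit 336))))))))) q45976 (by decide +kernel)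
def q45991 : Q := Q.p (nat_lit 0xe00002000000000000000000000000000000000000000000000000000000000000000000000000000000000000000000) (nat_lit 0x10001d000000000000000000000000000000000000000000000000000000000000000000000000000000000000000000) (nat_lit 3)
theorem c45991 : QOK q45991 := cut [q43307] ⟨c43307, trivial⟩ (nd (nat_lit 362) (nat_lit 0) (cs (rf (nat_lit 0)) (lf (nat_lit 12) (nat_lit 358)))) q45991 (by decide +kernel)
def q45999 : Q := Q.p (nat_lit 0xe00002000008000020000000000000000000000000000000000000000000000000000000000000000000000000000000) (nat_lit 0x4e0001100000e00000000000000000000000000000000000000000000000000000000000000000000000000000000000000000) (nat_lit 5)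
theorem c45999 : QOK q45999 := cut [q45998] ⟨c45998, trivial⟩ (nd (nat_lit 384) (nat_lit 0) (cs (lf (nat_lit 29) (nat_lit 317)) (rf (nat_lit 0)))) q45999 (by decide +kernel)
def q46070 : Q := Q.p (nat_lit 0x800002000008000020000000000000000000000000000000000000000000000000000000000000000000000000000000) (nat_lit 0x80000680003ee000f78007df000f6000190000600000000000000000000000000000000000000000000000000000000000000000000000000) (nat_lit 11)
theorem c46070 : QOK q46070 := cut [q46013, q42772, q45998, q46038, q46044] ⟨c46013, c42772, c45998, c46038, c46044, trivial⟩ (nd (nat_lit 384) (nat_lit 0) (cs (lf (nat_lit 29) (nat_lit 317)) (nd (nat_lit 385) (nat_lit 0) (cs (nd (nat_lit 360) (nat_lit 0) (cs (lf (nat_lit 18) (nat_lit 360)) (rf (nat_lit 0)))) (cs (nd (nat_lit 382) (nat_lit 0) (cs (nd (nat_lit 363) (nat_lit 0) (cs (lf (nat_lit 17) (nat_lit 360)) (nd (nat_lit 362) (nat_lit 0) (cs (lf (nat_lit 12) (nat_lit 359)) (nd (nat_lit 407) (nat_lit 0) (cs (lf (nat_lit 5) (nat_lit 382)) (nd (nat_lit 429) (nat_lit 0) (cs (lf (nat_lit 47) (nat_lit 340)) (lf (nat_lit 42) (nat_lit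 362)))))))))) (cs (nd (nat_lit 381) (nat_lit 0) (cs (rf (nat_lit 1)) (cs (rf (nat_lit 2)) (cs (nd (nat_lit 402) (nat_lit 0) (cs (lf (nat_lit 10) (nat_lit 380)) (nd (nat_lit 380) (nat_lit 0) (cs (lf (nat_lit 11) (nat_lit 379)) (nd (nat_lit 379) (nat_lit 0) (cs (nd (nat_lit 357) (nat_lit 0) (cs (lf (nat_lit 23) (nat_lit 356)) (lf (nat_lit 22) (nat_lit 357)))) (lf (nat_lit 16) (nat_lit 357)))))))) (nd (nat_lit 402) (nat_lit 0) (cs (lf (nat_lit 10) (nat_lit 380)) (nd (nat_lit 380) (nat_lit 0) (cs (lf (nat_lit 11) (nat_lit 379)) (nd (nat_lit 360) (nat_lit 0) (cs (lf (nat_lit 23) (nat_lit 359)) (lf (nat_lit 12) (nat_lit 357)))))))))))) (nd (nat_lit 360) (nat_lit 0) (cs (rf (nat_lit 0)) (nd (nat_lit 338) (nat_lit 0) (cs (nd (nat_lit 405) (nat_lit 0) (cs (lf (nat_lit 47) (nat_lit 316)) (lf (nat_lit 42) (nat_lit 338)))) (nd (nat_lit 363) (nat_lit 0) (cs (lf (nat_lit 17) (nat_lit 360)) (nd (nat_lit 362) (nat_lit 0) (cs (lf (nat_lit 23) (nat_lit 337)) (rf (nat_lit 3))))))))))))) (cs (nd (nat_lit 364) (nat_lit 0) (cs (nd (nat_lit 363) (nat_lit 0) (cs (lf (nat_lit 12) (nat_lit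 360)) (rf (nat_lit 4)))) (cs (nd (nat_lit 386) (nat_lit 0) (cs (lf (nat_lit 17) (nat_lit 361)) (nd (nat_lit 362) (nat_lit 0) (cs (lf (nat_lit 18) (nat_lit 361)) (nd (nat_lit 408) (nat_lit 0) (cs (lf (nat_lit 5) (nat_lit 383)) (nd (nat_lit 407) (nat_lit 0) (cs (nd (nat_lit 342) (nat_lit 0) (cs (lf (nat_lit 41) (nat_lit 341)) (lf (nat_lit 36) (nat_lit 319)))) (lf (nat_lit 0) (nat_lit 382)))))))))) (cs (nd (nat_lit 363) (nat_lit 0) (cs (lf (nat_lit 12) (nat_lit 360)) (nd (nat_lit 362) (nat_lit 0) (cs (lf (nat_lit 6) (nat_lit 361)) (lf (nat_lit 23) (nat_lit 338)))))) (cs (nd (nat_lit 363) (nat_lit 0) (cs (lf (nat_lit 12) (nat_lit 360)) (nd (nat_lit 362) (nat_lit 0) (cs (lf (nat_lit 23) (nat_lit 338)) (nd (nat_lit 342) (nat_lit 0) (cs (lf (nat_lit 17) (nat_lit 339)) (nd (nat_lit 298) (nat_lit 0) (cs (lf (nat_lit 37) (nat_lit 297)) (nd (nat_lit 386) (nat_lit 0) (cs (lf (nat_lit 18) (nat_lit 361)) (nd (nat_lit 408) (nat_lit 0) (cs (lf (nat_lit 5) (nat_lit 383)) (nd (nat_lit 341) (nat_lit 0) (cs (lf (nat_lit 42) (nat_lit 341)) (lf (nat_lit 47) (nat_lit 319))))))))))))))))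 (nd (nat_lit 365) (nat_lit 0) (cs (lf (nat_lit 15) (nat_lit 361)) (nd (nat_lit 363) (nat_lit 0) (cs (lf (nat_lit 6) (nat_lit 362)) (lf (nat_lit 9) (nat_lit 361))))))))))) (nd (nat_lit 360) (nat_lit 0) (cs (lf (nat_lit 18) (nat_lit 360)) (nd (nat_lit 359) (nat_lit 0) (cs (lf (nat_lit 0) (nat_lit 358)) (lf (nat_lit 3) (nat_lit 359)))))))))))) q46070 (by decide +kernel)
def q46093 : Q := Q.p (nat_lit 0xe000008000000000000000000000000000000000000000000000000000000000000000000000000000000000000) (nat_lit 0x11000007000000000000000000000000000000000000000000000000000000000000000000000000000000000000) (nat_lit 3)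
theorem c46093 : QOK q46093 := cut [q46092] ⟨c46092, trivial⟩ (nd (nat_lit 338) (nat_lit 0) (cs (lf (nat_lit 18) (nat_lit 338)) (rf (nat_lit 0)))) q46093 (by decide +kernel)
def q46143 : Q := Q.p (nat_lit 0x7000002000000000000000000000000000000000000000000000000000000000000000000000000000000000000) (nat_lit 0xe0000180000e4000000000000000000000000000000000000000000000000000000000000000000000000000000000000) (nat_lit 5)
theorem c46143 : QOK q46143 := cut [q46138] ⟨c46138, trivial⟩ (nd (nat_lit 363) (nat_lit 0) (cs (lf (nat_lit 22) (nat_lit 337)) (rf (nat_lit 0)))) q46143 (by decide +kernel)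
def q46163 : Q := Q.p (nat_lit 0x6000008000020000000000000000000000000000000000000000000000000000000000000000000000000000000) (nat_lit 0x100000400001000000000010000000000080000000000000000000000000000000000000000000000000000000000000000000000000) (nat_lit 3)
theorem c46163 : QOK q46163 := cut [q45934] ⟨c45934, trivial⟩ (nd (nat_lit 384) (nat_lit 0) (cs (rf (nat_lit 0)) (lf (nat_lit 24) (nat_lit 295)))) q46163 (by decide +kernel)
def q46220 : Q := Q.p (nat_lit 0x800002000008000020000000000000000000000000000000000000000000000000000000000000000000000000000000) (nat_lit 0x400001000004000000000040000180000400000000000000000000000000000000000000000000000000000000000000000000) (nat_lit 4)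
theorem c46220 : QOK q46220 := cut [q46218] ⟨c46218, trivial⟩ (nd (nat_lit 296) (nat_lit 0) (cs (lf (nat_lit 34) (nat_lit 295)) (nd (nat_lit 384) (nat_lit 0) (cs (lf (nat_lit 29) (nat_lit 317)) (rf (nat_lit 0)))))) q46220 (by decide +kernel)
def q46232 : Q := Q.p (nat_lit 0x800002000008000060000000000000000000000000000000000000000000000000000000000000000000000000000000) (nat_lit 0x40000300000400000000010000000000000000000000000000000000000000000000000000000000000000000000000000000000000) (nat_lit 3)
theorem c46232 : QOK q46232 := cut [q22678] ⟨c22678, trivial⟩ (nd (nat_lit 405) (nat_lit 0) (cs (rf (nat_lit 0)) (lf (nat_lit 34) (nat_lit 317)))) q46232 (by decide +kernel)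
def q46238 : Q := Q.p (nat_lit 0xc000060000000000000000000000000000000000000000000000000000000000000000000000000000000) (nat_lit 0x3000190000000000000000000000000000000000000000000000000000000000000000000000000000000) (nat_lit 3)
theorem c46238 : QOK q46238 := cut [q46237] ⟨c46237, trivial⟩ (nd (nat_lit 319) (nat_lit 0) (cs (lf (nat_lit 6) (nat_lit 316)) (rf (nat_lit 0)))) q46238 (by decide +kernel)
def q46253 : Q := Q.p (nat_lit 0x180000e0000000000000002000000000000000000000000000000000000000000000000000000000000000) (nat_lit 0x2000001c000600000800000000000000000000000000000000000000000000000000000000000000000000) (nat_lit 4)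
theorem c46253 : QOK q46253 := cut [q43323] ⟨c43323, trivial⟩ (nd (nat_lit 297) (nat_lit 0) (cs (lf (nat_lit 37) (nat_lit 252)) (nd (nat_lit 316) (nat_lit 0) (cs (lf (nat_lit 17) (nat_lit 294)) (rf (nat_lit 0)))))) q46253 (by decide +kernel)
def q46259 : Q := Q.p (nat_lit 0x1e000060000000000000000000000000000000000000000000000000000000000000000000000000000000) (nat_lit 0x1c0000e000001c000000000000000000000000000000000000000000000000000000000000000000000000000000) (nat_lit 5)
theorem c46259 : QOK q46259 := cut [q46256] ⟨c46256, trivial⟩ (nd (nat_lit 363) (nat_lit 0) (cs (lf (nat_lit 4) (nat_lit 337)) (nd (nat_lit 314) (nat_lit 0) (cs (lf (nat_lit 22) (nat_lit 314)) (nd (nat_lit 341) (nat_lit 0) (cs (lf (nat_lit 5) (nat_lit 338)) (rf (nat_lit 0)))))))) q46259 (by decide +kernel)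
def q46273 : Q := Q.p (nat_lit 0x1e000060000000000000000000000000000000000000000000000000000000000000000000000000000000) (nat_lit 0x1c000e0000010000000000000000000000000000000000000000000000000000000000000000000000000000000) (nat_lit 4)
theorem c46273 : QOK q46273 := cut [q46256] ⟨c46256, trivial⟩ (nd (nat_lit 359) (nat_lit 0) (cs (lf (nat_lit 11) (nat_lit 336)) (nd (nat_lit 341) (nat_lit 0) (cs (lf (nat_lit 10) (nat_lit 337)) (rf (nat_lit 0)))))) q46273 (by decide +kernel)
def q46283 : Q := Q.p (nat_lit 0x60000300000000000000000000000000000000000000000000000000000000000000000000000000) (nat_lit 0x18000c80000000000000000000000000000000000000000000000000000000000000000000000000) (nat_lit 3)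
theorem c46283 : QOK q46283 := cut [q15851] ⟨c15851, trivial⟩ (nd (nat_lit 316) (nat_lit 0) (cs (lf (nat_lit 12) (nat_lit 293)) (rf (nat_lit 0)))) q46283 (by decide +kernel)
def q46294 : Q := Q.p (nat_lit 0x1000002000008000020000000000000000000000000000000000000000000000000000000000000000000000000000000) (nat_lit 0x100000c0000700000800001000014000050000100000000000000000000000000000000000000000000000000000000000000000000000000) (nat_lit 7)
theorem c46294 : QOK q46294 := cut [q46289] ⟨c46289, trivial⟩ (nd (nat_lit 383) (nat_lit 0) (cs (lf (nat_lit 29) (nat_lit 317)) (nd (nat_lit 318) (nat_lit 0) (cs (lf (nat_lit 35) (nat_lit 295)) (nd (nat_lit 405) (nat_lit 0) (cs (lf (nat_lit 34) (nat_lit 317)) (nd (nat_lit 426) (nat_lit 0) (cs (lf (nat_lit 40) (nat_lit 338)) (nd (nat_lit 427) (nat_lit 0) (cs (lf (nat_lit 41) (nat_lit 360)) (rf (nat_lit 0)))))))))))) q46294 (by decide +kernel)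
def q46300 : Q := Q.p (nat_lit 0x800002000008000040000000000000000000000000000000000000000000000000000000000000000000000000000000) (nat_lit 0x40000180000600000000001000014000010000000000000000000000000000000000000000000000000000000000000000000000000000000) (nat_lit 5)
theorem c46300 : QOK q46300 := cut [q46289] ⟨c46289, trivial⟩ (nd (nat_lit 405) (nat_lit 0) (cs (lf (nat_lit 34) (nat_lit 317)) (nd (nat_lit 428) (nat_lit 0) (cs (lf (nat_lit 28) (nat_lit 339)) (nd (nat_lit 427) (nat_lit 0) (cs (lf (nat_lit 29) (nat_lit 361)) (rf (nat_lit 0)))))))) q46300 (by decide +kernel)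
def q46313 : Q := Q.p (nat_lit 0x800002000008000020000000000000000000000000000000000000000000000000000000000000000000000000000000) (nat_lit 0x140000700001c00002000000000010000170001d0000100000000000000000000000000000000000000000000000000000000000000000000000000) (nat_lit 10)
theorem c46313 : QOK q46313 := cut [q46312] ⟨c46312, trivial⟩ (nd (nat_lit 318) (nat_lit 0) (cs (lf (nat_lit 35) (nat_lit 295)) (rf (nat_lit 0)))) q46313 (by decide +kernel)
def q46361 : Q := Q.p (nat_lit 0x380000e0000000000000000000000000000000000000000000000000000000000000000000000000000000) (nat_lit 0x380000c6000000000000000000000000000000000000000000000000000000000000000000000000000000000000) (nat_lit 4)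
theorem c46361 : QOK q46361 := cut [q13291] ⟨c13291, trivial⟩ (nd (nat_lit 342) (nat_lit 0) (cs (lf (nat_lit 18) (nat_lit 317)) (nd (nat_lit 338) (nat_lit 0) (cs (rf (nat_lit 0)) (lf (nat_lit 12) (nat_lit 315)))))) q46361 (by decide +kernel)
def q46374 : Q := Q.p (nat_lit 0x100003c0000c0000000000000000000000000000000000000000000000000000000000000000000000000000000) (nat_lit 0x1c0000780001e000000000000000000000000000000000000000000000000000000000000000000000000000000000000000000) (nat_lit 6)
theorem c46374 : QOK q46374 := cut [q46371] ⟨c46371, trivial⟩ (nd (nat_lit 363) (nat_lit 0) (cs (lf (nat_lit 5) (nat_lit 338)) (nd (nat_lit 385) (nat_lit 0) (cs (lf (nat_lit 42) (nat_lit 318)) (nd (nat_lit 384) (nat_lit 0) (cs (lf (nat_lit 41) (nat_lit 318)) (rf (nat_lit 0)))))))) q46374 (by decide +kernel)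
def q46390 : Q := Q.p (nat_lit 0xe0000000000000002000000000000000000000000000000000000000000000000000000000000000) (nat_lit 0x1f0000110000e00001800000000000000000000000000000000000000000000000000000000000000000000) (nat_lit 5)
theorem c46390 : QOK q46390 := cut [q14673, q43850] ⟨c14673, c43850, trivial⟩ (nd (nat_lit 342) (nat_lit 0) (cs (rf (nat_lit 0)) (cs (nd (nat_lit 316) (nat_lit 0) (cs (lf (nat_lit 4) (nat_lit 316)) (nd (nat_lit 297) (nat_lit 0) (cs (lf (nat_lit 17) (nat_lit 294)) (nd (nat_lit 275) (nat_lit 0) (cs (lf (nat_lit 41) (nat_lit 252)) (lf (nat_lit 28) (nat_lit 253)))))))) (nd (nat_lit 320) (nat_lit 0) (cs (lf (nat_lit 5) (nat_lit 317)) (rf (nat_lit 1))))))) q46390 (by decide +kernel)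
def q46408 : Q := Q.p (nat_lit 0x8000060000000000100003400000000000000000000000000000000000000000000000000000000000000) (nat_lit 0x54000180000700000e80000200000000000000000000000000000000000000000000000000000000000000) (nat_lit 7)
theorem c46408 : QOK q46408 := cut [q45867] ⟨c45867, trivial⟩ (nd (nat_lit 274) (nat_lit 0) (cs (lf (nat_lit 38) (nat_lit 251)) (nd (nat_lit 273) (nat_lit 0) (cs (lf (nat_lit 12) (nat_lit 249)) (nd (nat_lit 275) (nat_lit 0) (cs (lf (nat_lit 23) (nat_lit 249)) (nd (nat_lit 297) (nat_lit 0) (cs (lf (nat_lit 5) (nat_lit 272)) (nd (nat_lit 319) (nat_lit 0) (cs (lf (nat_lit 41) (nat_lit 252)) (rf (nat_lit 0)))))))))))) q46408 (by decide +kernel)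
def q46414 : Q := Q.p (nat_lit 0xa00000c000060000100000000000000000000000000000000000000000000000000000000000000000000000000) (nat_lit 0x100006600015000010000000000000000000000000000000000000000000000000000000000000000000000000000000000000) (nat_lit 5)
theorem c46414 : QOK q46414 := cut [q46411] ⟨c46411, trivial⟩ (nd (nat_lit 362) (nat_lit 0) (cs (lf (nat_lit 18) (nat_lit 338)) (nd (nat_lit 385) (nat_lit 0) (cs (lf (nat_lit 26) (nat_lit 296)) (nd (nat_lit 360) (nat_lit 0) (cs (lf (nat_lit 5) (nat_lit 360)) (rf (nat_lit 0)))))))) q46414 (by decide +kernel)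
def q46488 : Q := Q.p (nat_lit 0x2000008000020000000000100000400000000000000000000000000000000000000000000000000000000000000) (nat_lit 0x100000c00001000000000040000180000600000000000000000000000000000000000000000000000000000000000000000000) (nat_lit 5)
theorem c46488 : QOK q46488 := cut [q45874] ⟨c45874, trivial⟩ (nd (nat_lit 295) (nat_lit 0) (cs (lf (nat_lit 45) (nat_lit 250)) (nd (nat_lit 296) (nat_lit 0) (cs (lf (nat_lit 35) (nat_lit 273)) (nd (nat_lit 383) (nat_lit 0) (cs (lf (nat_lit 34) (nat_lit 295)) (rf (nat_lit 0)))))))) q46488 (by decide +kernel)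
def q46494 : Q := Q.p (nat_lit 0xe000008000020000000000000000000000000000000000000000000000000000000000000000000000000000000) (nat_lit 0x100007700001800077000000000000000000000000000000000000000000000000000000000000000000000000000000000000) (nat_lit 6)
theorem c46494 : QOK q46494 := cut [q45066, q46166, q46411] ⟨c45066, c46166, c46411, trivial⟩ (nd (nat_lit 360) (nat_lit 0) (cs (rf (nat_lit 0)) (cs (rf (nat_lit 1)) (nd (nat_lit 338) (nat_lit 0) (cs (lf (nat_lit 23) (nat_lit 337)) (rf (nat_lit 2))))))) q46494 (by decide +kernel)
def q46504 : Q := Q.p (nat_lit 0xe000048000020000000000000000000000000000000000000000000000000000000000000000000000000000000) (nat_lit 0x10000b0000010000000000000000000000000000000000000000000000000000000000000000000000000000000) (nat_lit 3)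
theorem c46504 : QOK q46504 := cut [q46084] ⟨c46084, trivial⟩ (nd (nat_lit 341) (nat_lit 0) (cs (lf (nat_lit 12) (nat_lit 338)) (rf (nat_lit 0)))) q46504 (by decide +kernel)
def q46533 : Q := Q.p (nat_lit 0x2000008000020000000000100000400000000000000000000000000000000000000000000000000000000000000) (nat_lit 0x80000600007c00005c00014000050000180000200000000000000000000000000000000000000000000000000000000000000000000) (nat_lit 10)
theorem c46533 : QOK q46533 := cut [q46224] ⟨c46224, trivial⟩ (nd (nat_lit 295) (nat_lit 0) (cs (lf (nat_lit 45) (nat_lit 250)) (nd (nat_lit 360) (nat_lit 0) (cs (lf (nat_lit 41) (nat_lit 294)) (nd (nat_lit 384) (nat_lit 0) (cs (lf (nat_lit 28) (nat_lit 295)) (nd (nat_lit 383) (nat_lit 0) (cs (lf (nat_lit 29) (nat_lit 317)) (nd (nat_lit 385) (nat_lit 0) (cs (lf (nat_lit 18) (nat_lit 360)) (nd (nat_lit 358) (nat_lit 0) (cs (nd (nat_lit 318) (nat_lit 0) (cs (lf (nat_lit 35) (nat_lit 295)) (nd (nat_lit 405) (nat_lit 0) (cs (rf (nat_lit 0)) (lf (nat_lit 34) (nat_lit 317)))))) (lf (nat_lit 1) (nat_lit 358)))))))))))))) q46533 (by decide +kernel)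
def q46560 : Q := Q.p (nat_lit 0x100000c0000200000000000000000000000000000000000000000000000000000000000000) (nat_lit 0x1000004000020000000000000000800002000000000000000000000000000000000000000000000000000) (nat_lit 3)
theorem c46560 : QOK q46560 := cut [q46559] ⟨c46559, trivial⟩ (nd (nat_lit 227) (nat_lit 0) (cs (lf (nat_lit 36) (nat_lit 204)) (rf (nat_lit 0)))) q46560 (by decide +kernel)
def q46562 : Q := Q.p (nat_lit 0x1e0000600000000000000000000000000000000000000000000000000000000000000) (nat_lit 0x100000c0000000000000000800002000000000000000000000000000000000000000000000000000) (nat_lit 3)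
theorem c46562 : QOK q46562 := cut [q46561] ⟨c46561, trivial⟩ (nd (nat_lit 294) (nat_lit 0) (cs (lf (nat_lit 5) (nat_lit 269)) (rf (nat_lit 0)))) q46562 (by decide +kernel)
def q46567 : Q := Q.p (nat_lit 0x8000020000080000200000000000000000000000000000000000000000000000000000000000000) (nat_lit 0x5000014000050000000000000000800000000000000000000000000000000000000000000000000000000) (nat_lit 4)
theorem c46567 : QOK q46567 := cut [q46565] ⟨c46565, trivial⟩ (nd (nat_lit 316) (nat_lit 0) (cs (lf (nat_lit 29) (nat_lit 249)) (nd (nat_lit 227) (nat_lit 0) (cs (lf (nat_lit 28) (nat_lit 227)) (rf (nat_lit 0)))))) q46567 (by decide +kernel)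
def q46570 : Q := Q.p (nat_lit 0x8000020000180000600000000000000000000000000000000000000000000000000000000000000) (nat_lit 0x1000004000050000000000000000800002000008000000000000000000000000000000000000000000000) (nat_lit 4)
theorem c46570 : QOK q46570 := cut [q40946] ⟨c40946, trivial⟩ (nd (nat_lit 314) (nat_lit 0) (cs (lf (nat_lit 41) (nat_lit 248)) (nd (nat_lit 227) (nat_lit 0) (cs (rf (nat_lit 0)) (lf (nat_lit 40) (nat_lit 226)))))) q46570 (by decide +kernel)
def q46573 : Q := Q.p (nat_lit 0x20000180000600000800000000000000000000000000000000000000000000000000000000) (nat_lit 0x40000300000c000000000000000000000000000000000000000000000) (nat_lit 3)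
theorem c46573 : QOK q46573 := cut [q46572] ⟨c46572, trivial⟩ (nd (nat_lit 205) (nat_lit 0) (cs (lf (nat_lit 24) (nat_lit 183)) (rf (nat_lit 0)))) q46573 (by decide +kernel)
def q46576 : Q := Q.p (nat_lit 0x20000180000600000800000000000000000000000000000000000000000000000000000000) (nat_lit 0x6000018000040000000000000000000000000000000000000000000000000000000000000000000000000) (nat_lit 3)
theorem c46576 : QOK q46576 := cut [q46575] ⟨c46575, trivial⟩ (nd (nat_lit 316) (nat_lit 0) (cs (lf (nat_lit 28) (nat_lit 227)) (rf (nat_lit 0)))) q46576 (by decide +kernel)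
def q46582 : Q := Q.p (nat_lit 0x180001e0000600000000000000000000000000000000000000000000000000000000000000) (nat_lit 0x1c0000300000c00000000000000000000000000000000000000000000000000) (nat_lit 4)
theorem c46582 : QOK q46582 := cut [q46580] ⟨c46580, trivial⟩ (nd (nat_lit 247) (nat_lit 0) (cs (lf (nat_lit 23) (nat_lit 246)) (nd (nat_lit 225) (nat_lit 0) (cs (lf (nat_lit 24) (nat_lit 203)) (rf (nat_lit 0)))))) q46582 (by decide +kernel)
def q46588 : Q := Q.p (nat_lit 0x20000180000600000800000000000000000000000000000000000000000000000000000000) (nat_lit 0x2000008000000000000000100000400001000000000000000000000000000000000000000000000000000) (nat_lit 3)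
theorem c46588 : QOK q46588 := cut [q44099] ⟨c44099, trivial⟩ (nd (nat_lit 315) (nat_lit 0) (cs (lf (nat_lit 30) (nat_lit 249)) (rf (nat_lit 0)))) q46588 (by decide +kernel)
def q46593 : Q := Q.p (nat_lit 0x100000c0000300000000000000000000000000000000000000000000000000000000000000) (nat_lit 0x300000c000020000000000000000600001800006000000000000000000000000000000000000000000000) (nat_lit 6)
theorem c46593 : QOK q46593 := cut [q46589] ⟨c46589, trivial⟩ (nd (nat_lit 314) (nat_lit 0) (cs (lf (nat_lit 30) (nat_lit 248)) (nd (nat_lit 315) (nat_lit 0) (cs (lf (nat_lit 29) (nat_lit 248)) (nd (nat_lit 226) (nat_lit 0) (cs (lf (nat_lit 43) (nat_lit 226)) (nd (nat_lit 204) (nat_lit 0) (cs (lf (nat_lit 24) (nat_lit 182)) (rf (nat_lit 0)))))))))) q46593 (by decide +kernel)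
def q46596 : Q := Q.p (nat_lit 0x140000180000000000000000000000000000000000000000000000000000000000000000000) (nat_lit 0x2a0000060000000000000000000000000000000000000000000000000000000000000000000) (nat_lit 3)
theorem c46596 : QOK q46596 := cut [q44111] ⟨c44111, trivial⟩ (nd (nat_lit 295) (nat_lit 0) (cs (lf (nat_lit 18) (nat_lit 271)) (rf (nat_lit 0)))) q46596 (by decide +kernel)
def q46598 : Q := Q.p (nat_lit 0x40000180000200000000000000000000000000000000000000000000000000000000) (nat_lit 0x4000010000000000000000400000800002000000000000000000000000000000000000000000000) (nat_lit 3)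
theorem c46598 : QOK q46598 := cut [q46597] ⟨c46597, trivial⟩ (nd (nat_lit 203) (nat_lit 0) (cs (lf (nat_lit 24) (nat_lit 181)) (rf (nat_lit 0)))) q46598 (by decide +kernel)
def q46619 : Q := Q.p (nat_lit 0x1e0000100000000000000000000000000000000000000000000000000000000000000) (nat_lit 0x80000200001c000000000000000400001000000000000000000000000000000000000000000000000000) (nat_lit 4)
theorem c46619 : QOK q46619 := cut [q46617] ⟨c46617, trivial⟩ (nd (nat_lit 291) (nat_lit 0) (cs (lf (nat_lit 11) (nat_lit 268)) (nd (nat_lit 313) (nat_lit 0) (cs (lf (nat_lit 30) (nat_lit 247)) (rf (nat_lit 0)))))) q46619 (by decide +kernel)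
def q46633 : Q := Q.p (nat_lit 0x100000400003000000000000000000000000000000000000000000000000000000000000000) (nat_lit 0x80000300000c0000000000800000000008000000000000000000000000000000000000000000000000000000000) (nat_lit 4)
theorem c46633 : QOK q46633 := cut [q42162] ⟨c42162, trivial⟩ (nd (nat_lit 318) (nat_lit 0) (cs (lf (nat_lit 35) (nat_lit 230)) (rf (nat_lit 0)))) q46633 (by decide +kernel)
def q46652 : Q := Q.p (nat_lit 0x70000040000000000000000000000000000000000000000000000000000000000000000000000000) (nat_lit 0x800000b8000000000000000000000000000000000000000000000000000000000000000000000000) (nat_lit 3)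
theorem c46652 : QOK q46652 := cut [q46651] ⟨c46651, trivial⟩ (nd (nat_lit 293) (nat_lit 0) (cs (lf (nat_lit 18) (nat_lit 293)) (rf (nat_lit 0)))) q46652 (by decide +kernel)
def q46682 : Q := Q.p (nat_lit 0x40000000000400003000000000000000000000000000000000000000000000000000000000000000) (nat_lit 0x8000030000080000100000800000000008000000000000000000000000000000000000000000000000000000000) (nat_lit 4)
theorem c46682 : QOK q46682 := cut [q42162] ⟨c42162, trivial⟩ (nd (nat_lit 296) (nat_lit 0) (cs (lf (nat_lit 35) (nat_lit 230)) (rf (nat_lit 0)))) q46682 (by decide +kernel)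
def q46702 : Q := Q.p (nat_lit 0x40000100000c0000000000000000000000000000000000000000000000000000000000000000000) (nat_lit 0x1000000000000000000000300000800002000000000000000000000000000000000000000000000000000) (nat_lit 3)
theorem c46702 : QOK q46702 := cut [q46701] ⟨c46701, trivial⟩ (nd (nat_lit 249) (nat_lit 0) (cs (lf (nat_lit 30) (nat_lit 248)) (rf (nat_lit 0)))) q46702 (by decide +kernel)
def q46712 : Q := Q.p (nat_lit 0x40000100003c0000400000000000000000000000000000000000000000000000000000000000000) (nat_lit 0xa0000f800038000180000000000200000000000000000000000000000000000000000000000000000000000000) (nat_lit 7)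
theorem c46712 : QOK q46712 := cut [q46705] ⟨c46705, trivial⟩ (nd (nat_lit 295) (nat_lit 0) (cs (lf (nat_lit 5) (nat_lit 270)) (nd (nat_lit 317) (nat_lit 0) (cs (lf (nat_lit 42) (nat_lit 250)) (nd (nat_lit 336) (nat_lit 0) (cs (nd (nat_lit 337) (nat_lit 0) (cs (lf (nat_lit 29) (nat_lit 270)) (nd (nat_lit 335) (nat_lit 0) (cs (rf (nat_lit 0)) (lf (nat_lit 41) (nat_lit 269)))))) (lf (nat_lit 35) (nat_lit 248)))))))) q46712 (by decide +kernel)
def q46736 : Q := Q.p (nat_lit 0x3c0000000000000000000000000000000000000000000000000000000000000000000) (nat_lit 0x1c0000200001c0000000000000000000000000000000000000000000000000000000000000) (nat_lit 4)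
theorem c46736 : QOK q46736 := cut [q22122] ⟨c22122, trivial⟩ (nd (nat_lit 291) (nat_lit 0) (cs (lf (nat_lit 10) (nat_lit 269)) (nd (nat_lit 269) (nat_lit 0) (cs (lf (nat_lit 11) (nat_lit 268)) (rf (nat_lit 0)))))) q46736 (by decide +kernel)
def q46738 : Q := Q.p (nat_lit 0x3c0000000000000000000000000000000000000000000000000000000000000000000) (nat_lit 0x1dc000020000000000000000000000000000000000000000000000000000000000000000000) (nat_lit 4)
theorem c46738 : QOK q46738 := cut [q11939] ⟨c11939, trivial⟩ (nd (nat_lit 291) (nat_lit 0) (cs (lf (nat_lit 10) (nat_lit 269)) (nd (nat_lit 269) (nat_lit 0) (cs (lf (nat_lit 11) (nat_lit 268)) (rf (nat_lit 0)))))) q46738 (by decide +kernel)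
def q46743 : Q := Q.p (nat_lit 0x40000100000400001000000000000000000000000000000000000000000000000000) (nat_lit 0x280000e000028000000000000000000000000000000000000000) (nat_lit 4)
theorem c46743 : QOK q46743 := cut [q11927] ⟨c11927, trivial⟩ (nd (nat_lit 183) (nat_lit 0) (cs (lf (nat_lit 34) (nat_lit 182)) (nd (nat_lit 182) (nat_lit 0) (cs (rf (nat_lit 0)) (lf (nat_lit 35) (nat_lit 160)))))) q46743 (by decide +kernel)
def q46747 : Q := Q.p (nat_lit 0x10000040000100000400000000000000000000000000000000000000000000000000000000) (nat_lit 0xa0000380000a000000000000000000000000000000000000000000000) (nat_lit 4)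
theorem c46747 : QOK q46747 := cut [q46745] ⟨c46745, trivial⟩ (nd (nat_lit 203) (nat_lit 0) (cs (lf (nat_lit 46) (nat_lit 203)) (nd (nat_lit 204) (nat_lit 0) (cs (lf (nat_lit 47) (nat_lit 181)) (rf (nat_lit 0)))))) q46747 (by decide +kernel)
def q46756 : Q := Q.p (nat_lit 0x100003c0000500000400000000000000000000000000000000000000000000000000000000) (nat_lit 0x20000b80003e0001a0000000000000000a00002800000000000000000000000000000000000000000000000000) (nat_lit 9)
theorem c46756 : QOK q46756 := cut [q46728] ⟨c46728, trivial⟩ (nd (nat_lit 295) (nat_lit 0) (cs (lf (nat_lit 5) (nat_lit 270)) (nd (nat_lit 317) (nat_lit 0) (cs (lf (nat_lit 42) (nat_lit 250)) (nd (nat_lit 203) (nat_lit 0) (cs (lf (nat_lit 46) (nat_lit 203)) (nd (nat_lit 205) (nat_lit 0) (cs (lf (nat_lit 34) (nat_lit 204)) (nd (nat_lit 315) (nat_lit 0) (cs (lf (nat_lit 28) (nat_lit 226)) (nd (nat_lit 314) (nat_lit 0) (cs (lf (nat_lit 29) (nat_lit 248)) (rf (nat_lit 0)))))))))))))) q46756 (by decide +kernel)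
def q46767 : Q := Q.p (nat_lit 0x1e0000400000000000000000000000000000000000000000000000000000000000000) (nat_lit 0x100002e0000000000000000000000000000000000000000000000000000000000000) (nat_lit 3)
theorem c46767 : QOK q46767 := cut [q46765] ⟨c46765, trivial⟩ (nd (nat_lit 268) (nat_lit 0) (cs (rf (nat_lit 0)) (lf (nat_lit 16) (nat_lit 246)))) q46767 (by decide +kernel)
def q46776 : Q := Q.p (nat_lit 0x3c0000400000000000000000000000000000000000000000000000000000000000000) (nat_lit 0xe0000300003c0000000000000000000000000000000000000000000000000000000000000) (nat_lit 5)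
theorem c46776 : QOK q46776 := cut [q46774] ⟨c46774, trivial⟩ (nd (nat_lit 247) (nat_lit 0) (cs (lf (nat_lit 22) (nat_lit 247)) (nd (nat_lit 269) (nat_lit 0) (cs (lf (nat_lit 23) (nat_lit 246)) (rf (nat_lit 0)))))) q46776 (by decide +kernel)
def q46782 : Q := Q.p (nat_lit 0x60000080000200000000000000000000000000000000000000000000000000000000) (nat_lit 0x10000000000100000000001800006000010000000000000000000000000000000000000000) (nat_lit 4)
theorem c46782 : QOK q46782 := cut [q46780] ⟨c46780, trivial⟩ (nd (nat_lit 203) (nat_lit 0) (cs (lf (nat_lit 29) (nat_lit 203)) (nd (nat_lit 182) (nat_lit 0) (cs (lf (nat_lit 34) (nat_lit 181)) (rf (nat_lit 0)))))) q46782 (by decide +kernel)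
def q46785 : Q := Q.p (nat_lit 0x8000020000080000200000000000000000000000000000000000000000000000000000000) (nat_lit 0x500001c00005000000000000000000000000000000000000000000000) (nat_lit 4)
theorem c46785 : QOK q46785 := cut [q46783] ⟨c46783, trivial⟩ (nd (nat_lit 204) (nat_lit 0) (cs (lf (nat_lit 34) (nat_lit 203)) (nd (nat_lit 203) (nat_lit 0) (cs (lf (nat_lit 35) (nat_lit 181)) (rf (nat_lit 0)))))) q46785 (by decide +kernel)
def q46797 : Q := Q.p (nat_lit 0x60000080000200000800000000000000000000000000000000000000000000000000) (nat_lit 0x100000000000400003000004000000000000000000000000000000000000000) (nat_lit 3)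
theorem c46797 : QOK q46797 := cut [q45687] ⟨c45687, trivial⟩ (nd (nat_lit 181) (nat_lit 0) (cs (lf (nat_lit 28) (nat_lit 181)) (rf (nat_lit 0)))) q46797 (by decide +kernel)
def q46820 : Q := Q.p (nat_lit 0x1c0000100000c0000200000000000000000000000000000000000000000000000000000000000000) (nat_lit 0xcc00002000020000000000100000000000000000000000000000000000000000000000000000000000000) (nat_lit 4)
theorem c46820 : QOK q46820 := cut [q46818] ⟨c46818, trivial⟩ (nd (nat_lit 338) (nat_lit 0) (cs (lf (nat_lit 26) (nat_lit 249)) (nd (nat_lit 313) (nat_lit 0) (cs (lf (nat_lit 5) (nat_lit 313)) (rf (nat_lit 0)))))) q46820 (by decide +kernel)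
def q46856 : Q := Q.p (nat_lit 0x20000040000100001c0000400000000000000000000000000000000000000000000000000000000000000) (nat_lit 0xc00001000008000020000000000000000000000000000000000000000000000000000000000000000000000000) (nat_lit 3)
theorem c46856 : QOK q46856 := cut [q46855] ⟨c46855, trivial⟩ (nd (nat_lit 336) (nat_lit 0) (cs (lf (nat_lit 29) (nat_lit 270)) (rf (nat_lit 0)))) q46856 (by decide +kernel)
def q46858 : Q := Q.p (nat_lit 0x40000100000c0000000000000000000000000000000000000000000000000000000000000000000) (nat_lit 0x1000000000020000000000200000800002000000000000000000000000000000000000000000000000000) (nat_lit 3)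
theorem c46858 : QOK q46858 := cut [q46838] ⟨c46838, trivial⟩ (nd (nat_lit 249) (nat_lit 0) (cs (lf (nat_lit 30) (nat_lit 248)) (rf (nat_lit 0)))) q46858 (by decide +kernel)
def q46865 : Q := Q.p (nat_lit 0x4000010000040000100000000000000000000000000000000000000000000000000000000000000) (nat_lit 0x800002000008000000000200000c00002000000000000000000000000000000000000000000000000000) (nat_lit 4)
theorem c46865 : QOK q46865 := cut [q46863] ⟨c46863, trivial⟩ (nd (nat_lit 227) (nat_lit 0) (cs (lf (nat_lit 34) (nat_lit 226)) (nd (nat_lit 226) (nat_lit 0) (cs (lf (nat_lit 35) (nat_lit 204)) (rf (nat_lit 0)))))) q46865 (by decide +kernel)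
def q46881 : Q := Q.p (nat_lit 0x4000010000040000100000000000000000000000000000000000000000000000000000000000000) (nat_lit 0x280000a000028000000000000000400000000000000000000000000000000000000000000000000000000) (nat_lit 4)
theorem c46881 : QOK q46881 := cut [q46863] ⟨c46863, trivial⟩ (nd (nat_lit 315) (nat_lit 0) (cs (lf (nat_lit 29) (nat_lit 248)) (nd (nat_lit 226) (nat_lit 0) (cs (lf (nat_lit 28) (nat_lit 226)) (rf (nat_lit 0)))))) q46881 (by decide +kernel)
def q46891 : Q := Q.p (nat_lit 0x10000040000100001c0000400000000000000000000000000000000000000000000000000000000000000) (nat_lit 0xc00002000008000020000000000000000000000000000000000000000000000000000000000000000000000000) (nat_lit 3)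
theorem c46891 : QOK q46891 := cut [q46855] ⟨c46855, trivial⟩ (nd (nat_lit 337) (nat_lit 0) (cs (lf (nat_lit 29) (nat_lit 270)) (rf (nat_lit 0)))) q46891 (by decide +kernel)
def q46907 : Q := Q.p (nat_lit 0x100003c0000500000400000000000000000000000000000000000000000000000000000000) (nat_lit 0x80001a0000000000270000b80002f00000000000000000000000000000000000000000000000000) (nat_lit 9)
theorem c46907 : QOK q46907 := cut [q46902] ⟨c46902, trivial⟩ (nd (nat_lit 227) (nat_lit 0) (cs (lf (nat_lit 35) (nat_lit 204)) (nd (nat_lit 293) (nat_lit 0) (cs (lf (nat_lit 29) (nat_lit 226)) (nd (nat_lit 295) (nat_lit 0) (cs (lf (nat_lit 5) (nat_lit 270)) (nd (nat_lit 225) (nat_lit 0) (cs (lf (nat_lit 47) (nat_lit 203)) (nd (nat_lit 224) (nat_lit 0) (cs (lf (nat_lit 4) (nat_lit 224)) (rf (nat_lit 0)))))))))))) q46907 (by decide +kernel)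
def q46919 : Q := Q.p (nat_lit 0x300000c0000100000400000000000000000000000000000000000000000000000000000000) (nat_lit 0x600001800006000000000000000200000800002000000000000000000000000000000000000000000000000000) (nat_lit 5)
theorem c46919 : QOK q46919 := cut [q46918] ⟨c46918, trivial⟩ (nd (nat_lit 227) (nat_lit 0) (cs (lf (nat_lit 35) (nat_lit 204)) (rf (nat_lit 0)))) q46919 (by decide +kernel)
def q46925 : Q := Q.p (nat_lit 0x40000100000400002000000000000000000000000000000000000000000000000000) (nat_lit 0x10000000000000000800001000008000020000000000000000000000000000000000000000) (nat_lit 3)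
theorem c46925 : QOK q46925 := cut [q46924] ⟨c46924, trivial⟩ (nd (nat_lit 227) (nat_lit 0) (cs (lf (nat_lit 30) (nat_lit 204)) (rf (nat_lit 0)))) q46925 (by decide +kernel)
def q46957 : Q := Q.p (nat_lit 0x200001c0000600000800000000000000000000000000000000000000000000000000000000) (nat_lit 0x600001c000000000100000700001800000000000000000000000000000000000000000000000000) (nat_lit 6)
theorem c46957 : QOK q46957 := cut [q46953] ⟨c46953, trivial⟩ (nd (nat_lit 292) (nat_lit 0) (cs (lf (nat_lit 41) (nat_lit 226)) (nd (nat_lit 291) (nat_lit 0) (cs (lf (nat_lit 12) (nat_lit 268)) (nd (nat_lit 226) (nat_lit 0) (cs (lf (nat_lit 47) (nat_lit 204)) (nd (nat_lit 248) (nat_lit 0) (cs (lf (nat_lit 41) (nat_lit 225)) (rf (nat_lit 0)))))))))) q46957 (by decide +kernel)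
def q46966 : Q := Q.p (nat_lit 0x8000020000180000600000000010000000000000000000000000000000000000000000000000000) (nat_lit 0x5000014000000000000000100000f0000f000018000000000000000000000000000000000000000000000) (nat_lit 8)
theorem c46966 : QOK q46966 := cut [q46965] ⟨c46965, trivial⟩ (nd (nat_lit 316) (nat_lit 0) (cs (lf (nat_lit 29) (nat_lit 249)) (rf (nat_lit 0)))) q46966 (by decide +kernel)
def q46969 : Q := Q.p (nat_lit 0x20000180000600000800000000000000000000000000000000000000000000000000000000) (nat_lit 0x40000300000c000000000000000000000000000000000000000000000) (nat_lit 3)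
theorem c46969 : QOK q46969 := cut [q46968] ⟨c46968, trivial⟩ (nd (nat_lit 204) (nat_lit 0) (cs (lf (nat_lit 46) (nat_lit 204)) (rf (nat_lit 0)))) q46969 (by decide +kernel)
def q46980 : Q := Q.p (nat_lit 0x8000020000180000600000000010000040000000000000000000000000000000000000000000000) (nat_lit 0x500001400001000000000000000080000f0000bc000000000000000000000000000000000000000000000) (nat_lit 8)
theorem c46980 : QOK q46980 := cut [q46976] ⟨c46976, trivial⟩ (nd (nat_lit 314) (nat_lit 0) (cs (lf (nat_lit 41) (nat_lit 248)) (nd (nat_lit 227) (nat_lit 0) (cs (lf (nat_lit 40) (nat_lit 226)) (nd (nat_lit 205) (nat_lit 0) (cs (lf (nat_lit 24) (nat_lit 183)) (nd (nat_lit 316) (nat_lit 0) (cs (lf (nat_lit 29) (nat_lit 249)) (rf (nat_lit 0)))))))))) q46980 (by decide +kernel)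
def q46984 : Q := Q.p (nat_lit 0x40000000001c0000700000000000000000000000000000000000000000000000000000000000000) (nat_lit 0x100000000000c0000300000000000000000000000000000000000000000000000000000000) (nat_lit 3)
theorem c46984 : QOK q46984 := cut [q46983] ⟨c46983, trivial⟩ (nd (nat_lit 247) (nat_lit 0) (cs (lf (nat_lit 0) (nat_lit 246)) (rf (nat_lit 0)))) q46984 (by decide +kernel)
def q47084 : Q := Q.p (nat_lit 0x4000020000080000200000800000000000000000000000000000000000000000000000000) (nat_lit 0x1000008000000000000000100000400001000000000000000000000000000000000000000000000) (nat_lit 3)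
theorem c47084 : QOK q47084 := cut [q46783] ⟨c46783, trivial⟩ (nd (nat_lit 291) (nat_lit 0) (cs (lf (nat_lit 41) (nat_lit 224)) (rf (nat_lit 0)))) q47084 (by decide +kernel)
def q47092 : Q := Q.p (nat_lit 0x20000180000200000800000000000000000000000000000000000000000000000000) (nat_lit 0x200000800000000000000040000140000300000c000000000000000000000000000000000000000) (nat_lit 5)
theorem c47092 : QOK q47092 := cut [q47089] ⟨c47089, trivial⟩ (nd (nat_lit 180) (nat_lit 0) (cs (lf (nat_lit 46) (nat_lit 180)) (nd (nat_lit 181) (nat_lit 0) (cs (lf (nat_lit 47) (nat_lit 158)) (nd (nat_lit 226) (nat_lit 0) (cs (lf (nat_lit 24) (nat_lit 159)) (rf (nat_lit 0)))))))) q47092 (by decide +kernel)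
def q47098 : Q := Q.p (nat_lit 0x4000008000020000080000200000000000000000000000000000000000000000000000000000000) (nat_lit 0x1400003000004000000000000000000000000000000000000000000000000000000000000000000000000) (nat_lit 3)
theorem c47098 : QOK q47098 := cut [q47097] ⟨c47097, trivial⟩ (nd (nat_lit 313) (nat_lit 0) (cs (lf (nat_lit 29) (nat_lit 247)) (rf (nat_lit 0)))) q47098 (by decide +kernel)
def q47127 : Q := Q.p (nat_lit 0x1c000040000100000400000000000000000000000000000000000000000000000000000000000000) (nat_lit 0x8000022000180000000000000000000000000000000000000000000000000000000000000000000000000) (nat_lit 3)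
theorem c47127 : QOK q47127 := cut [q47126] ⟨c47126, trivial⟩ (nd (nat_lit 317) (nat_lit 0) (cs (lf (nat_lit 29) (nat_lit 250)) (rf (nat_lit 0)))) q47127 (by decide +kernel)
def q47155 : Q := Q.p (nat_lit 0x1e000000000000000000000000000000000000000000000000000000000000000000000000000000) (nat_lit 0xe0000100000e000000000000000000000000000000000000000000000000000000000000000000000000) (nat_lit 4)
theorem c47155 : QOK q47155 := cut [q47145] ⟨c47145, trivial⟩ (nd (nat_lit 334) (nat_lit 0) (cs (lf (nat_lit 10) (nat_lit 312)) (nd (nat_lit 312) (nat_lit 0) (cs (lf (nat_lit 11) (nat_lit 311)) (rf (nat_lit 0)))))) q47155 (by decide +kernel)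
def q47182 : Q := Q.p (nat_lit 0x8000000000180000600000000000000000000000000000000000000000000000000000000000000) (nat_lit 0x6000010000060000000000000000000000000000000000000000000000000000000000000000000000000) (nat_lit 3)
theorem c47182 : QOK q47182 := cut [q47118, q47178] ⟨c47118, c47178, trivial⟩ (nd (nat_lit 316) (nat_lit 0) (cs (rf (nat_lit 0)) (cs (rf (nat_lit 1)) (cs (nd (nat_lit 337) (nat_lit 0) (cs (lf (nat_lit 32) (nat_lit 249)) (lf (nat_lit 38) (nat_lit 249)))) (nd (nat_lit 293) (nat_lit 0) (cs (lf (nat_lit 30) (nat_lit 249)) (lf (nat_lit 29) (nat_lit 249)))))))) q47182 (by decide +kernel)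
def q47187 : Q := Q.p (nat_lit 0x100000e0000180000600000000000000000000000000000000000000000000000000000000000000) (nat_lit 0x300000e000000000000000000000000000000000000000000000000000000000000000000000000000000) (nat_lit 3)
theorem c47187 : QOK q47187 := cut [q47186] ⟨c47186, trivial⟩ (nd (nat_lit 315) (nat_lit 0) (cs (lf (nat_lit 41) (nat_lit 249)) (rf (nat_lit 0)))) q47187 (by decide +kernel)
def q47213 : Q := Q.p (nat_lit 0x100000600001e0000400000000000000000000000000000000000000000000000000000000000000) (nat_lit 0x800002000001c000000000000000000000000000000000000000000000000000000000000000000000000) (nat_lit 3)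
theorem c47213 : QOK q47213 := cut [q47212] ⟨c47212, trivial⟩ (nd (nat_lit 291) (nat_lit 0) (cs (lf (nat_lit 11) (nat_lit 268)) (rf (nat_lit 0)))) q47213 (by decide +kernel)
def q47224 : Q := Q.p (nat_lit 0x180000600000c0000200000000000000000000000000000000000000000000000000000000000000) (nat_lit 0x1c00007000010000000000100000400000000000000000000000000000000000000000000000000000000) (nat_lit 5)
theorem c47224 : QOK q47224 := cut [q47221] ⟨c47221, trivial⟩ (nd (nat_lit 314) (nat_lit 0) (cs (lf (nat_lit 41) (nat_lit 248)) (nd (nat_lit 313) (nat_lit 0) (cs (lf (nat_lit 12) (nat_lit 290)) (nd (nat_lit 248) (nat_lit 0) (cs (lf (nat_lit 47) (nat_lit 226)) (rf (nat_lit 0)))))))) q47224 (by decide +kernel)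
def q47248 : Q := Q.p (nat_lit 0x1e0000180000000000000000000000000000000000000000000000000000000000000) (nat_lit 0x200000c000000000000000400001000000000000000000000000000000000000000000000000000) (nat_lit 3)
theorem c47248 : QOK q47248 := cut [q47107] ⟨c47107, trivial⟩ (nd (nat_lit 291) (nat_lit 0) (cs (lf (nat_lit 11) (nat_lit 268)) (rf (nat_lit 0)))) q47248 (by decide +kernel)
def q47263 : Q := Q.p (nat_lit 0x60000780000000000000000000000000000000000000000000000000000000000000) (nat_lit 0x10000000000000000300000800002000000000000000000000000000000000000000000000) (nat_lit 3)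
theorem c47263 : QOK q47263 := cut [q26458] ⟨c26458, trivial⟩ (nd (nat_lit 225) (nat_lit 0) (cs (lf (nat_lit 23) (nat_lit 224)) (rf (nat_lit 0)))) q47263 (by decide +kernel)
def q47280 : Q := Q.p (nat_lit 0x78000000000600000c00000000000000000000000000000000000000000000000000000000) (nat_lit 0x30000000000300001c0000300000000000000000000000000000000000000000000000000000000) (nat_lit 5)
theorem c47280 : QOK q47280 := cut [q47277] ⟨c47277, trivial⟩ (nd (nat_lit 224) (nat_lit 0) (cs (lf (nat_lit 1) (nat_lit 224)) (nd (nat_lit 313) (nat_lit 0) (cs (lf (nat_lit 11) (nat_lit 290)) (nd (nat_lit 269) (nat_lit 0) (cs (lf (nat_lit 23) (nat_lit 268)) (rf (nat_lit 0)))))))) q47280 (by decide +kernel)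
def q47291 : Q := Q.p (nat_lit 0x2000008000020000080000000000000000000000000000000000000000000000000000000000000) (nat_lit 0x500001c00005000000000000000000000000000000000000000000000000000000000000000000000000000000) (nat_lit 4)
theorem c47291 : QOK q47291 := cut [q47289] ⟨c47289, trivial⟩ (nd (nat_lit 334) (nat_lit 0) (cs (lf (nat_lit 40) (nat_lit 246)) (nd (nat_lit 335) (nat_lit 0) (cs (lf (nat_lit 41) (nat_lit 268)) (rf (nat_lit 0)))))) q47291 (by decide +kernel)
def q47300 : Q := Q.p (nat_lit 0x78000060000000000000000000000000000000000000000000000000000000000000000000) (nat_lit 0x200000800003000000000000000100000000000000000000000000000000000000000000000000000000000000) (nat_lit 3)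
theorem c47300 : QOK q47300 := cut [q47299] ⟨c47299, trivial⟩ (nd (nat_lit 313) (nat_lit 0) (cs (lf (nat_lit 11) (nat_lit 290)) (rf (nat_lit 0)))) q47300 (by decide +kernel)
def q47307 : Q := Q.p (nat_lit 0x40000780000400000000000000000000000000000000000000000000000000000000) (nat_lit 0x10000000000000000300000800002000000000000000000000000000000000000000000000) (nat_lit 3)
theorem c47307 : QOK q47307 := cut [q47306] ⟨c47306, trivial⟩ (nd (nat_lit 225) (nat_lit 0) (cs (lf (nat_lit 23) (nat_lit 224)) (rf (nat_lit 0)))) q47307 (by decide +kernel)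
def q47327 : Q := Q.p (nat_lit 0x3c000000000000003000000000000000000000000000000000000000000000000000000000000000) (nat_lit 0x8000040000380000400000000008000000000000000000000000000000000000000000000000000000000) (nat_lit 4)
theorem c47327 : QOK q47327 := cut [q41899] ⟨c41899, trivial⟩ (nd (nat_lit 296) (nat_lit 0) (cs (lf (nat_lit 16) (nat_lit 292)) (nd (nat_lit 318) (nat_lit 0) (cs (lf (nat_lit 17) (nat_lit 293)) (rf (nat_lit 0)))))) q47327 (by decide +kernel)
def q47343 : Q := Q.p (nat_lit 0x3c000000000000000000000000000000000000000000000000000000000000000000000000000000) (nat_lit 0x1dc00002000000000000000000000000000000000000000000000000000000000000000000000000000000) (nat_lit 4)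
theorem c47343 : QOK q47343 := cut [q47341] ⟨c47341, trivial⟩ (nd (nat_lit 339) (nat_lit 0) (cs (lf (nat_lit 5) (nat_lit 314)) (nd (nat_lit 313) (nat_lit 0) (cs (lf (nat_lit 4) (nat_lit 313)) (rf (nat_lit 0)))))) q47343 (by decide +kernel)
def q47354 : Q := Q.p (nat_lit 0x8000020000080000200000000000000000000000000000000000000000000000000000000000000) (nat_lit 0x1000004000010000000000100000c00001000000000000000000000000000000000000000000000000000) (nat_lit 4)
theorem c47354 : QOK q47354 := cut [q46565] ⟨c46565, trivial⟩ (nd (nat_lit 226) (nat_lit 0) (cs (lf (nat_lit 46) (nat_lit 226)) (nd (nat_lit 227) (nat_lit 0) (cs (lf (nat_lit 47) (nat_lit 204)) (rf (nat_lit 0)))))) q47354 (by decide +kernel)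
def q47381 : Q := Q.p (nat_lit 0x20000180000600000400000000000000000000000000000000000000000000000000000000) (nat_lit 0x40000000000000000800003000008000000000000000000000000000000000000000000000) (nat_lit 3)
theorem c47381 : QOK q47381 := cut [q40946] ⟨c40946, trivial⟩ (nd (nat_lit 227) (nat_lit 0) (cs (lf (nat_lit 47) (nat_lit 204)) (rf (nat_lit 0)))) q47381 (by decide +kernel)
def q47388 : Q := Q.p (nat_lit 0x180000600000300000000000000000000000000000000000000000000000000000000) (nat_lit 0x40000000000000000c00002000008000000000000000000000000000000000000000000000) (nat_lit 3)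
theorem c47388 : QOK q47388 := cut [q40946] ⟨c40946, trivial⟩ (nd (nat_lit 227) (nat_lit 0) (cs (rf (nat_lit 0)) (lf (nat_lit 2) (nat_lit 224)))) q47388 (by decide +kernel)
def q47396 : Q := Q.p (nat_lit 0x20000680000200000000000000000000000000000000000000000000000000000000) (nat_lit 0x8000000000100000d00001400000000000000000000000000000000000000000000000000) (nat_lit 4)
theorem c47396 : QOK q47396 := cut [q47395] ⟨c47395, trivial⟩ (nd (nat_lit 224) (nat_lit 0) (cs (lf (nat_lit 20) (nat_lit 224)) (rf (nat_lit 0)))) q47396 (by decide +kernel)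
def q47402 : Q := Q.p (nat_lit 0x20000080000200002800040000000000000000000000000000000000000000000000) (nat_lit 0x10000d000034000000000000000000000000000000000000000000000) (nat_lit 4)
theorem c47402 : QOK q47402 := cut [q47401] ⟨c47401, trivial⟩ (nd (nat_lit 204) (nat_lit 0) (cs (lf (nat_lit 35) (nat_lit 181)) (rf (nat_lit 0)))) q47402 (by decide +kernel)
def q47411 : Q := Q.p (nat_lit 0x20000080000200001000000000000000000000000000000000000000000000000000) (nat_lit 0x8000000000000000400000800004000010000000000000000000000000000000000000000) (nat_lit 3)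
theorem c47411 : QOK q47411 := cut [q45781] ⟨c45781, trivial⟩ (nd (nat_lit 226) (nat_lit 0) (cs (lf (nat_lit 30) (nat_lit 203)) (rf (nat_lit 0)))) q47411 (by decide +kernel)
def q47421 : Q := Q.p (nat_lit 0x180000600000000001800003000000000000000000000000000000000000000000000) (nat_lit 0x40000000000000000800006000008000000000000000000000000000000000000000000000) (nat_lit 3)
theorem c47421 : QOK q47421 := cut [q47420] ⟨c47420, trivial⟩ (nd (nat_lit 205) (nat_lit 0) (cs (lf (nat_lit 18) (nat_lit 180)) (rf (nat_lit 0)))) q47421 (by decide +kernel)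
def q47438 : Q := Q.p (nat_lit 0x1a0000600000000000000000000000000000000000000000000000000000000000000) (nat_lit 0x500001c0000000000000000000000000000000000000000000000000000000000000) (nat_lit 3)
theorem c47438 : QOK q47438 := cut [q45664, q47072, q47435, q47437] ⟨c45664, c47072, c47435, c47437, trivial⟩ (nd (nat_lit 247) (nat_lit 0) (cs (rf (nat_lit 0)) (cs (rf (nat_lit 1)) (cs (rf (nat_lit 2)) (rf (nat_lit 3)))))) q47438 (by decide +kernel)
def q47441 : Q := Q.p (nat_lit 0x78000020000000000500000000000000000000000000000000000000000000000000000000) (nat_lit 0x30000000000000001c0000000000000000000000000000000000000000000000000000000000000) (nat_lit 3)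
theorem c47441 : QOK q47441 := cut [q47277] ⟨c47277, trivial⟩ (nd (nat_lit 313) (nat_lit 0) (cs (lf (nat_lit 11) (nat_lit 290)) (rf (nat_lit 0)))) q47441 (by decide +kernel)
def q47469 : Q := Q.p (nat_lit 0x10000060000100000400000000000000000000000000000000000000000000000000000000000000) (nat_lit 0x80000e0000098000000000000000000000000000000000000000000000000000000000000000000000000) (nat_lit 4)
theorem c47469 : QOK q47469 := cut [q47467] ⟨c47467, trivial⟩ (nd (nat_lit 317) (nat_lit 0) (cs (lf (nat_lit 29) (nat_lit 250)) (nd (nat_lit 292) (nat_lit 0) (cs (lf (nat_lit 0) (nat_lit 291)) (rf (nat_lit 0)))))) q47469 (by decide +kernel)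
def q47472 : Q := Q.p (nat_lit 0x180000600000800010000040000000000000000000000000000000000000000000000) (nat_lit 0xf0000bc000000000000000000000000000000000000000000000) (nat_lit 5)
theorem c47472 : QOK q47472 := cut [q46976] ⟨c46976, trivial⟩ (nd (nat_lit 205) (nat_lit 0) (cs (lf (nat_lit 24) (nat_lit 183)) (rf (nat_lit 0)))) q47472 (by decide +kernel)
def q47484 : Q := Q.p (nat_lit 0xc000060000000000000000000000000000000000000000000000000000000000000000000000000) (nat_lit 0x3000190000000000000000000000000000000000000000000000000000000000000000000000000) (nat_lit 3)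
theorem c47484 : QOK q47484 := cut [q47483] ⟨c47483, trivial⟩ (nd (nat_lit 295) (nat_lit 0) (cs (lf (nat_lit 6) (nat_lit 292)) (rf (nat_lit 0)))) q47484 (by decide +kernel)
def q47556 : Q := Q.p (nat_lit 0xf0000100000400000000000000000000000000000000000000000000000000000000000000) (nat_lit 0x2000008000060000000000200000000000000000000000000000000000000000000000000000000000000000000) (nat_lit 3)
theorem c47556 : QOK q47556 := cut [q47555] ⟨c47555, trivial⟩ (nd (nat_lit 317) (nat_lit 0) (cs (lf (nat_lit 5) (nat_lit 292)) (rf (nat_lit 0)))) q47556 (by decide +kernel)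
def q47564 : Q := Q.p (nat_lit 0x60000180000200000800000000000000000000000000000000000000000000000000000000) (nat_lit 0x400001c000200000000000000000000000000000000000000000000000000000000000000000000) (nat_lit 3)
theorem c47564 : QOK q47564 := cut [q47563] ⟨c47563, trivial⟩ (nd (nat_lit 292) (nat_lit 0) (cs (lf (nat_lit 41) (nat_lit 226)) (rf (nat_lit 0)))) q47564 (by decide +kernel)
def q47606 : Q := Q.p (nat_lit 0x10000040000100000400000000000000000000000000000000000000000000000000000000) (nat_lit 0xa0000380000a000000000000000000000000000000000000000000000) (nat_lit 4)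
theorem c47606 : QOK q47606 := cut [q46589] ⟨c46589, trivial⟩ (nd (nat_lit 205) (nat_lit 0) (cs (lf (nat_lit 34) (nat_lit 204)) (nd (nat_lit 204) (nat_lit 0) (cs (lf (nat_lit 35) (nat_lit 182)) (rf (nat_lit 0)))))) q47606 (by decide +kernel)
def q47614 : Q := Q.p (nat_lit 0x40000100001c0000400000000000000000000000000000000000000000000000000000000000000) (nat_lit 0xe00003800008000020000000000200000000000000000000000000000000000000000000000000000000000000) (nat_lit 5)
theorem c47614 : QOK q47614 := cut [q47611] ⟨c47611, trivial⟩ (nd (nat_lit 336) (nat_lit 0) (cs (lf (nat_lit 35) (nat_lit 248)) (nd (nat_lit 335) (nat_lit 0) (cs (lf (nat_lit 41) (nat_lit 269)) (nd (nat_lit 293) (nat_lit 0) (cs (lf (nat_lit 30) (nat_lit 270)) (rf (nat_lit 0)))))))) q47614 (by decide +kernel)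
def q47621 : Q := Q.p (nat_lit 0x1e0000400000000000000000000000000000000000000000000000000000000000000) (nat_lit 0xe0000010000200000000000000000000000000000000000000000000000000000000000000) (nat_lit 3)
theorem c47621 : QOK q47621 := cut [q47620] ⟨c47620, trivial⟩ (nd (nat_lit 294) (nat_lit 0) (cs (lf (nat_lit 5) (nat_lit 269)) (rf (nat_lit 0)))) q47621 (by decide +kernel)
def q47649 : Q := Q.p (nat_lit 0x100000c0000100000400000000000000000000000000000000000000000000000000000000) (nat_lit 0x20000020000380000e000020000000000000000000000000000000000000000) (nat_lit 5)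
theorem c47649 : QOK q47649 := cut [q47646] ⟨c47646, trivial⟩ (nd (nat_lit 203) (nat_lit 0) (cs (lf (nat_lit 46) (nat_lit 203)) (nd (nat_lit 204) (nat_lit 0) (cs (lf (nat_lit 47) (nat_lit 181)) (nd (nat_lit 182) (nat_lit 0) (cs (lf (nat_lit 28) (nat_lit 182)) (rf (nat_lit 0)))))))) q47649 (by decide +kernel)
def q47695 : Q := Q.p (nat_lit 0x3c0000400000000000000000000000000000000000000000000000000000000000000) (nat_lit 0x770000380003c0000000000000000000000000000000000000000000000000000000000000) (nat_lit 7)
theorem c47695 : QOK q47695 := cut [q47693] ⟨c47693, trivial⟩ (nd (nat_lit 247) (nat_lit 0) (cs (lf (nat_lit 22) (nat_lit 247)) (nd (nat_lit 269) (nat_lit 0) (cs (lf (nat_lit 23) (nat_lit 246)) (rf (nat_lit 0)))))) q47695 (by decide +kernel)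
def q47717 : Q := Q.p (nat_lit 0x1000024000090000080000000000000000000000000000000000000000000000000000000000000000000) (nat_lit 0x400000000042000060000000000000000000000000000000000000000000000000000000000000000000000000) (nat_lit 3)
theorem c47717 : QOK q47717 := cut [q47716] ⟨c47716, trivial⟩ (nd (nat_lit 293) (nat_lit 0) (cs (lf (nat_lit 30) (nat_lit 270)) (rf (nat_lit 0)))) q47717 (by decide +kernel)
def q47772 : Q := Q.p (nat_lit 0x3c0000400000000000000000000000000000000000000000000000000000000000000) (nat_lit 0x80000200001c7000038000270000000000000000000000000000000000000000000000000000000000000) (nat_lit 8)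
theorem c47772 : QOK q47772 := cut [q47766] ⟨c47766, trivial⟩ (nd (nat_lit 295) (nat_lit 0) (cs (lf (nat_lit 5) (nat_lit 270)) (nd (nat_lit 269) (nat_lit 0) (cs (lf (nat_lit 4) (nat_lit 269)) (nd (nat_lit 268) (nat_lit 0) (cs (lf (nat_lit 16) (nat_lit 246)) (nd (nat_lit 317) (nat_lit 0) (cs (lf (nat_lit 42) (nat_lit 250)) (nd (nat_lit 289) (nat_lit 0) (cs (lf (nat_lit 10) (nat_lit 267)) (nd (nat_lit 267) (nat_lit 0) (cs (lf (nat_lit 11) (nat_lit 266)) (rf (nat_lit 0)))))))))))))) q47772 (by decide +kernel)
def q47776 : Q := Q.p (nat_lit 0xc000030000180000600000000000000000000000000000000000000000000000000000000000000) (nat_lit 0x1c000070000040000000000000000000000000000000000000000000000000000000000000000000000000) (nat_lit 4)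
theorem c47776 : QOK q47776 := cut [q47162] ⟨c47162, trivial⟩ (nd (nat_lit 316) (nat_lit 0) (cs (lf (nat_lit 29) (nat_lit 249)) (nd (nat_lit 317) (nat_lit 0) (cs (lf (nat_lit 18) (nat_lit 292)) (rf (nat_lit 0)))))) q47776 (by decide +kernel)
def q47790 : Q := Q.p (nat_lit 0x40000300003c0000400000000000000000000000000000000000000000000000000000000000000) (nat_lit 0x80000620001c0000000000000000000000000000000000000000000000000000000000000000000000000) (nat_lit 4)
theorem c47790 : QOK q47790 := cut [q47716] ⟨c47716, trivial⟩ (nd (nat_lit 295) (nat_lit 0) (cs (lf (nat_lit 5) (nat_lit 270)) (nd (nat_lit 317) (nat_lit 0) (cs (lf (nat_lit 42) (nat_lit 250)) (rf (nat_lit 0)))))) q47790 (by decide +kernel)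
def q47802 : Q := Q.p (nat_lit 0xc000030000040000100000000000000000000000000000000000000000000000000000000000000) (nat_lit 0x8000030000c0000000000000000000000000000000000000000000000000000000000000000000000000) (nat_lit 3)
theorem c47802 : QOK q47802 := cut [q47801] ⟨c47801, trivial⟩ (nd (nat_lit 313) (nat_lit 0) (cs (lf (nat_lit 41) (nat_lit 247)) (rf (nat_lit 0)))) q47802 (by decide +kernel)
def q47829 : Q := Q.p (nat_lit 0x200000e0000400000000000000000000000000000000000000000000000000000000000000) (nat_lit 0x17000018000200000000000000000000000000000000000000000000000000000000000000) (nat_lit 4)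
theorem c47829 : QOK q47829 := cut [q47828] ⟨c47828, trivial⟩ (nd (nat_lit 268) (nat_lit 0) (cs (lf (nat_lit 16) (nat_lit 246)) (rf (nat_lit 0)))) q47829 (by decide +kernel)

end Crest.Agent.H3.Snaky.CR
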