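import Crest.Agent.H3.Snaky.Cert
import Crest.Agent.H3.Snaky.CR.CR0
import Crest.Agent.H3.Snaky.CR.CR2
import Crest.Agent.H3.Snaky.CR.CR3
import Crest.Agent.H3.Snaky.CR.CR4
import Crest.Agent.H3.Snaky.CR.CR5
import Crest.Agent.H3.Snaky.CR.CR6
import Crest.Agent.H3.Snaky.CR.CR7
import Crest.Agent.H3.Snaky.CR.CR8
import Crest.Agent.H3.Snaky.CR.CR9
import Crest.Agent.H3.Snaky.CR.CR10
import Crest.Agent.H3.Snaky.CR.CR11
import Crest.Agent.H3.Snaky.CR.CR12

set_option autoImplicit false
set_option maxRecDepth 100000

namespace Crest.Agent.H3.Snaky.CR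

open T

def q47860 : Q := Q.p (nat_lit 0x60000100000100003000000000000000000000000000000000000000000000000000000000000000) (nat_lit 0x8000038000080000000000e80000000000000000000000000000000000000000000000000000000000000000000) (nat_lit 5)
theorem c47860 : QOK q47860 := cut [q42162] ⟨c42162, trivial⟩ (nd (nat_lit 274) (nat_lit 0) (cs (lf (nat_lit 41) (nat_lit 251)) (nd (nat_lit 271) (nat_lit 0) (cs (lf (nat_lit 14) (nat_lit 249)) (rf (nat_lit 0)))))) q47860 (by decide +kernel)
def q47862 : Q := Q.p (nat_lit 0x60000500000500003000000000000000000000000000000000000000000000000000000000000000) (nat_lit 0x1e0000380000880000280000000000000000000000000000000000000000000000000000000000000000000) (nat_lit 6)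
theorem c47862 : QOK q47862 := cut [q41943] ⟨c41943, trivial⟩ (nd (nat_lit 271) (nat_lit 0) (cs (lf (nat_lit 14) (nat_lit 249)) (nd (nat_lit 319) (nat_lit 0) (cs (lf (nat_lit 29) (nat_lit 252)) (rf (nat_lit 0)))))) q47862 (by decide +kernel)
def q47870 : Q := Q.p (nat_lit 0x60000500000000000000000000000000000000000000000000000000000000000000000000000000) (nat_lit 0x18000a80000000000000000000000000000000000000000000000000000000000000000000000000) (nat_lit 3)
theorem c47870 : QOK q47870 := cut [q14315] ⟨c14315, trivial⟩ (nd (nat_lit 297) (nat_lit 0) (cs (rf (nat_lit 0)) (lf (nat_lit 6) (nat_lit 295)))) q47870 (by decide +kernel)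
def q47894 : Q := Q.p (nat_lit 0x60000300000000000000000000000000000000000000000000000000000000000000000000000000) (nat_lit 0x98000c00000000000000000000000000000000000000000000000000000000000000000000000000) (nat_lit 3)
theorem c47894 : QOK q47894 := cut [q15853] ⟨c15853, trivial⟩ (nd (nat_lit 316) (nat_lit 0) (cs (lf (nat_lit 12) (nat_lit 293)) (rf (nat_lit 0)))) q47894 (by decide +kernel)
def q47934 : Q := Q.p (nat_lit 0x60000300000100002000000000000000000000000000000000000000000000000000000000000000) (nat_lit 0x40000300000c80003a00000000008000000000000000000000000000000000000000000000000000000000) (nat_lit 6)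
theorem c47934 : QOK q47934 := cut [q47931] ⟨c47931, trivial⟩ (nd (nat_lit 275) (nat_lit 0) (cs (lf (nat_lit 36) (nat_lit 230)) (nd (nat_lit 298) (nat_lit 0) (cs (lf (nat_lit 6) (nat_lit 295)) (nd (nat_lit 295) (nat_lit 0) (cs (lf (nat_lit 22) (nat_lit 272)) (rf (nat_lit 0)))))))) q47934 (by decide +kernel)
def q47950 : Q := Q.p (nat_lit 0x2000018000060000000000100000400000000000000000000000000000000000000000000000000000000000000) (nat_lit 0x1400005c00020000000000080000200000000000000000000000000000000000000000000000000000000000000000000) (nat_lit 5)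
theorem c47950 : QOK q47950 := cut [q47948] ⟨c47948, trivial⟩ (nd (nat_lit 295) (nat_lit 0) (cs (lf (nat_lit 45) (nat_lit 250)) (nd (nat_lit 362) (nat_lit 0) (cs (lf (nat_lit 42) (nat_lit 295)) (rf (nat_lit 0)))))) q47950 (by decide +kernel)
def q47955 : Q := Q.p (nat_lit 0x60000180001e0000000000000000000000000000000000000000000000000000000000000000000000000000000) (nat_lit 0x300000f00019000000000000000c00000000000000000000000000000000000000000000000000000000000000000000000000) (nat_lit 6)
theorem c47955 : QOK q47955 := cut [q43315] ⟨c43315, trivial⟩ (nd (nat_lit 298) (nat_lit 0) (cs (lf (nat_lit 17) (nat_lit 295)) (nd (nat_lit 383) (nat_lit 0) (cs (lf (nat_lit 30) (nat_lit 317)) (rf (nat_lit 0)))))) q47955 (by decide +kernel)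
def q47959 : Q := Q.p (nat_lit 0x6000018000060000000000000000000000000000000000000000000000000000000000000000000000000000000) (nat_lit 0xc0000f000009800000000000000000000000000000000000000000000000000000000000000000000000000000000000000000) (nat_lit 5)
theorem c47959 : QOK q47959 := cut [q31181] ⟨c31181, trivial⟩ (nd (nat_lit 384) (nat_lit 0) (cs (lf (nat_lit 42) (nat_lit 317)) (nd (nat_lit 385) (nat_lit 0) (cs (lf (nat_lit 29) (nat_lit 318)) (nd (nat_lit 386) (nat_lit 0) (cs (lf (nat_lit 18) (nat_lit 361)) (rf (nat_lit 0)))))))) q47959 (by decide +kernel)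
def q47968 : Q := Q.p (nat_lit 0x2000018000060000080000000000000000000000000000000000000000000000000000000000000000000000000) (nat_lit 0x300000c00001000000000000000000000000000000000000000000000000000000000000000000000000000000000000000000) (nat_lit 3)
theorem c47968 : QOK q47968 := cut [q45874] ⟨c45874, trivial⟩ (nd (nat_lit 383) (nat_lit 0) (cs (lf (nat_lit 30) (nat_lit 317)) (rf (nat_lit 0)))) q47968 (by decide +kernel)
def q47983 : Q := Q.p (nat_lit 0xa000060000000000180000400000000000000000000000000000000000000000000000000000000000000) (nat_lit 0x3100001c000020000000000000000000000000000000000000000000000000000000000000000000000000) (nat_lit 4)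
theorem c47983 : QOK q47983 := cut [q47981] ⟨c47981, trivial⟩ (nd (nat_lit 315) (nat_lit 0) (cs (lf (nat_lit 32) (nat_lit 249)) (nd (nat_lit 316) (nat_lit 0) (cs (lf (nat_lit 11) (nat_lit 314)) (rf (nat_lit 0)))))) q47983 (by decide +kernel)
def q48005 : Q := Q.p (nat_lit 0x1e0000000000000000000000000000000000000000000000000000000000000000000000000000000) (nat_lit 0xee000010000000000000000000000000000000000000000000000000000000000000000000000000000000) (nat_lit 4)
theorem c48005 : QOK q48005 := cut [q43990] ⟨c43990, trivial⟩ (nd (nat_lit 338) (nat_lit 0) (cs (lf (nat_lit 10) (nat_lit 316)) (nd (nat_lit 316) (nat_lit 0) (cs (lf (nat_lit 11) (nat_lit 315)) (rf (nat_lit 0)))))) q48005 (by decide +kernel)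
def q48007 : Q := Q.p (nat_lit 0x1e0000000000000002000000000000000000000000000000000000000000000000000000000000000) (nat_lit 0xc0000000000e00001800000000000000000000000000000000000000000000000000000000000000000000) (nat_lit 4)
theorem c48007 : QOK q48007 := cut [q13070] ⟨c13070, trivial⟩ (nd (nat_lit 342) (nat_lit 0) (cs (lf (nat_lit 5) (nat_lit 317)) (nd (nat_lit 275) (nat_lit 0) (cs (lf (nat_lit 26) (nat_lit 253)) (rf (nat_lit 0)))))) q48007 (by decide +kernel)
def q48014 : Q := Q.p (nat_lit 0x1e0000000000100000400000000000000000000000000000000000000000000000000000000000000) (nat_lit 0x1c000200001c80000200000000000000000000000000000000000000000000000000000000000000000000) (nat_lit 5)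
theorem c48014 : QOK q48014 := cut [q12801] ⟨c12801, trivial⟩ (nd (nat_lit 339) (nat_lit 0) (cs (lf (nat_lit 11) (nat_lit 316)) (nd (nat_lit 273) (nat_lit 0) (cs (lf (nat_lit 44) (nat_lit 250)) (nd (nat_lit 321) (nat_lit 0) (cs (rf (nat_lit 0)) (lf (nat_lit 10) (nat_lit 317)))))))) q48014 (by decide +kernel)
def q48035 : Q := Q.p (nat_lit 0x7800000000000000000000000000000000000000000000000000000000000000000000000000000000000000000) (nat_lit 0x380000400003800000000000000000000000000000000000000000000000000000000000000000000000000000000000) (nat_lit 4)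
theorem c48035 : QOK q48035 := cut [q42579] ⟨c42579, trivial⟩ (nd (nat_lit 380) (nat_lit 0) (cs (lf (nat_lit 10) (nat_lit 358)) (nd (nat_lit 358) (nat_lit 0) (cs (rf (nat_lit 0)) (lf (nat_lit 11) (nat_lit 357)))))) q48035 (by decide +kernel)
def q48088 : Q := Q.p (nat_lit 0x2000008000060000000000100000400000000000000000000000000000000000000000000000000000000000000) (nat_lit 0x80000740001dc00077000000000080000200000000000000000000000000000000000000000000000000000000000000000000) (nat_lit 9)
theorem c48088 : QOK q48088 := cut [q48075, q46472] ⟨c48075, c46472, trivial⟩ (nd (nat_lit 295) (nat_lit 0) (cs (lf (nat_lit 45) (nat_lit 250)) (nd (nat_lit 362) (nat_lit 0) (cs (lf (nat_lit 29) (nat_lit 295)) (nd (nat_lit 337) (nat_lit 0) (cs (nd (nat_lit 360) (nat_lit 0) (cs (lf (nat_lit 41) (nat_lit 294)) (rf (nat_lit 0)))) (cs (nd (nat_lit 360) (nat_lit 0) (cs (lf (nat_lit 41) (nat_lit 294)) (nd (nat_lit 359) (nat_lit 0) (cs (lf (nat_lit 23) (nat_lit 336)) (nd (nat_lit 340) (nat_lit 0) (cs (lf (nat_lit 17) (nat_lit 337)) (lf (nat_lit 12) (nat_lit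 336)))))))) (cs (nd (nat_lit 360) (nat_lit 0) (cs (lf (nat_lit 41) (nat_lit 294)) (nd (nat_lit 363) (nat_lit 0) (cs (lf (nat_lit 22) (nat_lit 337)) (nd (nat_lit 385) (nat_lit 0) (cs (lf (nat_lit 5) (nat_lit 360)) (nd (nat_lit 341) (nat_lit 0) (cs (lf (nat_lit 17) (nat_lit 338)) (nd (nat_lit 340) (nat_lit 0) (cs (lf (nat_lit 42) (nat_lit 318)) (lf (nat_lit 12) (nat_lit 337)))))))))))) (nd (nat_lit 338) (nat_lit 0) (cs (lf (nat_lit 0) (nat_lit 336)) (rf (nat_lit 1)))))))))))) q48088 (by decide +kernel)
def q48131 : Q := Q.p (nat_lit 0xa000068000000000000000000000000000000000000000000000000000000000000000000000000000000) (nat_lit 0x1dc00035000004000000000000000000000000000000000000000000000000000000000000000000000000000000) (nat_lit 6)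
theorem c48131 : QOK q48131 := cut [q25518] ⟨c25518, trivial⟩ (nd (nat_lit 338) (nat_lit 0) (cs (lf (nat_lit 12) (nat_lit 314)) (nd (nat_lit 340) (nat_lit 0) (cs (lf (nat_lit 23) (nat_lit 314)) (rf (nat_lit 0)))))) q48131 (by decide +kernel)
def q48137 : Q := Q.p (nat_lit 0x2000008000030000000000000000000000000000000000000000000000000000000000000000000000000) (nat_lit 0x800000000004000000000040000100000400000000000000000000000000000000000000000000000000000000) (nat_lit 3)
theorem c48137 : QOK q48137 := cut [q48136] ⟨c48136, trivial⟩ (nd (nat_lit 270) (nat_lit 0) (cs (lf (nat_lit 42) (nat_lit 270)) (rf (nat_lit 0)))) q48137 (by decide +kernel)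
def q48242 : Q := Q.p (nat_lit 0x80000200000c0000000000000000000000000000000000000000000000000000000000000000000000000000000) (nat_lit 0x1400007000014000000000000000300000000000000000000000000000000000000000000000000000000000000000000000000) (nat_lit 5)
theorem c48242 : QOK q48242 := cut [q42297] ⟨c42297, trivial⟩ (nd (nat_lit 385) (nat_lit 0) (cs (lf (nat_lit 47) (nat_lit 296)) (nd (nat_lit 384) (nat_lit 0) (cs (lf (nat_lit 41) (nat_lit 318)) (nd (nat_lit 297) (nat_lit 0) (cs (lf (nat_lit 40) (nat_lit 296)) (rf (nat_lit 0)))))))) q48242 (by decide +kernel)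
def q48255 : Q := Q.p (nat_lit 0x20000080000300000e0000000000100000400000000000000000000000000000000000000000000000000000000000000) (nat_lit 0x4000010000140000ce000000000080000200000000000000000000000000000000000000000000000000000000000000000000) (nat_lit 6)
theorem c48255 : QOK q48255 := cut [q48254] ⟨c48254, trivial⟩ (nd (nat_lit 342) (nat_lit 0) (cs (lf (nat_lit 18) (nat_lit 317)) (rf (nat_lit 0)))) q48255 (by decide +kernel)
def q48357 : Q := Q.p (nat_lit 0x60000100000100003400001000000000000000000000000000000000000000000000000000000000) (nat_lit 0x100000000000e0000e8000000000a80000a000000000000000000000000000000000000000000000000000) (nat_lit 7)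
theorem c48357 : QOK q48357 := cut [q48352] ⟨c48352, trivial⟩ (nd (nat_lit 294) (nat_lit 0) (cs (lf (nat_lit 28) (nat_lit 228)) (nd (nat_lit 207) (nat_lit 0) (cs (lf (nat_lit 34) (nat_lit 206)) (nd (nat_lit 205) (nat_lit 0) (cs (lf (nat_lit 46) (nat_lit 205)) (nd (nat_lit 274) (nat_lit 0) (cs (lf (nat_lit 35) (nat_lit 230)) (nd (nat_lit 275) (nat_lit 0) (cs (lf (nat_lit 30) (nat_lit 252)) (rf (nat_lit 0)))))))))))) q48357 (by decide +kernel)
def q48393 : Q := Q.p (nat_lit 0x78000000000000002000000000000000000000000000000000000000000000000000000000000000) (nat_lit 0x30000080000700000800000000000000000000000000000000000000000000000000000000000000000000) (nat_lit 4)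
theorem c48393 : QOK q48393 := cut [q48392] ⟨c48392, trivial⟩ (nd (nat_lit 340) (nat_lit 0) (cs (lf (nat_lit 5) (nat_lit 315)) (rf (nat_lit 0)))) q48393 (by decide +kernel)
def q48430 : Q := Q.p (nat_lit 0x38000000000100000400001000000000000000000000000000000000000000000000000000000000) (nat_lit 0x4400007c000000000000000000000000000000000000000000000000000000000000000000000000) (nat_lit 4)
theorem c48430 : QOK q48430 := cut [q12751] ⟨c12751, trivial⟩ (nd (nat_lit 293) (nat_lit 0) (cs (lf (nat_lit 39) (nat_lit 227)) (nd (nat_lit 292) (nat_lit 0) (cs (lf (nat_lit 18) (nat_lit 292)) (rf (nat_lit 0)))))) q48430 (by decide +kernel)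
def q48470 : Q := Q.p (nat_lit 0x800002000008000020000000000000000000000000000000000000000000000000000000000000000000000000) (nat_lit 0x140000700001400000000000000000000000000000000000000000000000000000000000000000000000000000000000000000) (nat_lit 4)
theorem c48470 : QOK q48470 := cut [q48467] ⟨c48467, trivial⟩ (nd (nat_lit 382) (nat_lit 0) (cs (nd (nat_lit 380) (nat_lit 0) (cs (lf (nat_lit 40) (nat_lit 292)) (rf (nat_lit 0)))) (lf (nat_lit 28) (nat_lit 293)))) q48470 (by decide +kernel)
def q48497 : Q := Q.p (nat_lit 0x400009000004000010000000000000000000000000000000000000000000000000000000000000000000000000) (nat_lit 0x280001a00006000000000000000000000000000000000000000000000000000000000000000000000000000000000000) (nat_lit 4)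
theorem c48497 : QOK q48497 := cut [q48495] ⟨c48495, trivial⟩ (nd (nat_lit 357) (nat_lit 0) (cs (lf (nat_lit 41) (nat_lit 291)) (nd (nat_lit 359) (nat_lit 0) (cs (lf (nat_lit 29) (nat_lit 292)) (rf (nat_lit 0)))))) q48497 (by decide +kernel)
def q48548 : Q := Q.p (nat_lit 0x1c0000100002000000000000000000000000000000000000000000000000000000000000000) (nat_lit 0x1c0000600001880000000008000000000000000000000000000000000000000000000000000000000) (nat_lit 5)
theorem c48548 : QOK q48548 := cut [q48547] ⟨c48547, trivial⟩ (nd (nat_lit 297) (nat_lit 0) (cs (lf (nat_lit 23) (nat_lit 271)) (rf (nat_lit 0)))) q48548 (by decide +kernel)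
def q48553 : Q := Q.p (nat_lit 0x60000100000400000000000000000000000000000000000000000000000000000000000000) (nat_lit 0x800002000008000000000080000000001000000000000000000000000000000000000000000000000000000000) (nat_lit 3)
theorem c48553 : QOK q48553 := cut [q45294] ⟨c45294, trivial⟩ (nd (nat_lit 315) (nat_lit 0) (cs (lf (nat_lit 36) (nat_lit 227)) (rf (nat_lit 0)))) q48553 (by decide +kernel)
def q48606 : Q := Q.p (nat_lit 0x180000400001000000000000000000000000000000000000000000000000000000000) (nat_lit 0x2000000000020000000000c000030000080000000000000000000000000000000000000000) (nat_lit 4)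
theorem c48606 : QOK q48606 := cut [q48605] ⟨c48605, trivial⟩ (nd (nat_lit 206) (nat_lit 0) (cs (lf (nat_lit 41) (nat_lit 205)) (rf (nat_lit 0)))) q48606 (by decide +kernel)
def q48681 : Q := Q.p (nat_lit 0x4000010000040000100003000000000000000000000000000000000000000000000000000000000000000) (nat_lit 0x10000000000000000a0000680000200000000000000000000000000000000000000000000000000000000000000) (nat_lit 4)
theorem c48681 : QOK q48681 := cut [q46639] ⟨c46639, trivial⟩ (nd (nat_lit 271) (nat_lit 0) (cs (lf (nat_lit 47) (nat_lit 249)) (nd (nat_lit 273) (nat_lit 0) (cs (lf (nat_lit 15) (nat_lit 249)) (rf (nat_lit 0)))))) q48681 (by decide +kernel)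
def q48688 : Q := Q.p (nat_lit 0x20000040000100000400000000000000000000000000000000000000000000000000000000000000) (nat_lit 0x2000008000010000080000200000000000000000000000000000000000000000000000000000000000000000000) (nat_lit 3)
theorem c48688 : QOK q48688 := cut [q26144] ⟨c26144, trivial⟩ (nd (nat_lit 339) (nat_lit 0) (cs (lf (nat_lit 27) (nat_lit 250)) (rf (nat_lit 0)))) q48688 (by decide +kernel)
def q48691 : Q := Q.p (nat_lit 0x1a0000480000000000000000000000000000000000000000000000000000000000000) (nat_lit 0x77000058000240000000000000000000000000000000000000000000000000000000000000) (nat_lit 6)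
theorem c48691 : QOK q48691 := cut [q47693] ⟨c47693, trivial⟩ (nd (nat_lit 270) (nat_lit 0) (cs (lf (nat_lit 23) (nat_lit 246)) (rf (nat_lit 0)))) q48691 (by decide +kernel)
def q48696 : Q := Q.p (nat_lit 0x20000180000400000000000000000000000000000000000000000000000000000000000000) (nat_lit 0x2000008000000000000000200001000004000000000000000000000000000000000000000000000000000) (nat_lit 3)
theorem c48696 : QOK q48696 := cut [q48695] ⟨c48695, trivial⟩ (nd (nat_lit 315) (nat_lit 0) (cs (lf (nat_lit 30) (nat_lit 249)) (rf (nat_lit 0)))) q48696 (by decide +kernel)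
def q48700 : Q := Q.p (nat_lit 0xc000020000080000000000000000000000000000000000000000000000000000000000000) (nat_lit 0x1000000000010000000000600001800004000000000000000000000000000000000000000000000) (nat_lit 4)
theorem c48700 : QOK q48700 := cut [q48699] ⟨c48699, trivial⟩ (nd (nat_lit 225) (nat_lit 0) (cs (lf (nat_lit 41) (nat_lit 224)) (rf (nat_lit 0)))) q48700 (by decide +kernel)
def q48704 : Q := Q.p (nat_lit 0x28000180003000000000000000000000000000000000000000000000000000000000000000) (nat_lit 0x54000600000000000000000000000000000000000000000000000000000000000000000000) (nat_lit 3)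
theorem c48704 : QOK q48704 := cut [q48703] ⟨c48703, trivial⟩ (nd (nat_lit 273) (nat_lit 0) (cs (lf (nat_lit 15) (nat_lit 249)) (rf (nat_lit 0)))) q48704 (by decide +kernel)
def q48706 : Q := Q.p (nat_lit 0x20000080000200000c0000000000000000000000000000000000000000000000000000000000000) (nat_lit 0x400001800004000000000010000000000000000000000000000000000000000000000000000000000000000000) (nat_lit 3)
theorem c48706 : QOK q48706 := cut [q47289] ⟨c47289, trivial⟩ (nd (nat_lit 335) (nat_lit 0) (cs (rf (nat_lit 0)) (lf (nat_lit 46) (nat_lit 246)))) q48706 (by decide +kernel)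
def q48712 : Q := Q.p (nat_lit 0x100000c0000200000000000000000000000000000000000000000000000000000000000000) (nat_lit 0x1000004000020000000000000000800002000000000000000000000000000000000000000000000000000) (nat_lit 3)
theorem c48712 : QOK q48712 := cut [q46838] ⟨c46838, trivial⟩ (nd (nat_lit 314) (nat_lit 0) (cs (lf (nat_lit 30) (nat_lit 248)) (rf (nat_lit 0)))) q48712 (by decide +kernel)
def q48717 : Q := Q.p (nat_lit 0x1a0000480000000000000000000000000000000000000000000000000000000000000) (nat_lit 0xe000050000240000000000000000000000000000000000000000000000000000000000000) (nat_lit 4)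
theorem c48717 : QOK q48717 := cut [q46774] ⟨c46774, trivial⟩ (nd (nat_lit 270) (nat_lit 0) (cs (lf (nat_lit 23) (nat_lit 246)) (rf (nat_lit 0)))) q48717 (by decide +kernel)
def q48727 : Q := Q.p (nat_lit 0x8000020000080000200000000000000000000000000000000000000000000000000000000) (nat_lit 0x1000006000010000000000040000100000400000000000000000000000000000000000000000000000000) (nat_lit 4)
theorem c48727 : QOK q48727 := cut [q48725] ⟨c48725, trivial⟩ (nd (nat_lit 314) (nat_lit 0) (cs (lf (nat_lit 28) (nat_lit 225)) (nd (nat_lit 313) (nat_lit 0) (cs (lf (nat_lit 29) (nat_lit 247)) (rf (nat_lit 0)))))) q48727 (by decide +kernel)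
def q48732 : Q := Q.p (nat_lit 0x8000020000480000300000000000000000000000000000000000000000000000000000000) (nat_lit 0x260001c00001000000000000000000000000000000000000000000000000000) (nat_lit 4)
theorem c48732 : QOK q48732 := cut [q48731] ⟨c48731, trivial⟩ (nd (nat_lit 226) (nat_lit 0) (cs (lf (nat_lit 35) (nat_lit 203)) (rf (nat_lit 0)))) q48732 (by decide +kernel)
def q48737 : Q := Q.p (nat_lit 0x1000008000020000080000200000000000000000000000000000000000000000000000000000000) (nat_lit 0x400002000000000000000040000100000400000000000000000000000000000000000000000000000000) (nat_lit 3)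
theorem c48737 : QOK q48737 := cut [q48725] ⟨c48725, trivial⟩ (nd (nat_lit 313) (nat_lit 0) (cs (lf (nat_lit 41) (nat_lit 246)) (rf (nat_lit 0)))) q48737 (by decide +kernel)
def q48763 : Q := Q.p (nat_lit 0x200000e00000000000000000000000000000000000000000000000000) (nat_lit 0x500000180000700000000000000000000000000000000000000000000) (nat_lit 4)
theorem c48763 : QOK q48763 := cut [q48761] ⟨c48761, trivial⟩ (nd (nat_lit 200) (nat_lit 0) (cs (lf (nat_lit 5) (nat_lit 200)) (nd (nat_lit 199) (nat_lit 0) (cs (lf (nat_lit 4) (nat_lit 199)) (rf (nat_lit 0)))))) q48763 (by decide +kernel)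
def q48771 : Q := Q.p (nat_lit 0x20000080000200000c0000000000000000000000000000000000000000000000000000000000000) (nat_lit 0x100000c00001000000000010000000000000000000000000000000000000000000000000000000000000000000) (nat_lit 3)
theorem c48771 : QOK q48771 := cut [q48770] ⟨c48770, trivial⟩ (nd (nat_lit 335) (nat_lit 0) (cs (lf (nat_lit 46) (nat_lit 246)) (rf (nat_lit 0)))) q48771 (by decide +kernel)
def q48780 : Q := Q.p (nat_lit 0x8000030000080000200000800000000000000000000000000000000000000000000000000) (nat_lit 0x800002000000000000000040000100000000002000000000000000000000000000000000000000000000) (nat_lit 3)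
theorem c48780 : QOK q48780 := cut [q48778] ⟨c48778, trivial⟩ (nd (nat_lit 246) (nat_lit 0) (cs (rf (nat_lit 0)) (lf (nat_lit 36) (nat_lit 180)))) q48780 (by decide +kernel)
def q48790 : Q := Q.p (nat_lit 0x8000020000080000200000000000000000000000000000000000000000000000000000000) (nat_lit 0x1000004000010000000000400001800004000000000000000000000000000000000000000000000) (nat_lit 4)
theorem c48790 : QOK q48790 := cut [q48788] ⟨c48788, trivial⟩ (nd (nat_lit 204) (nat_lit 0) (cs (lf (nat_lit 34) (nat_lit 203)) (nd (nat_lit 203) (nat_lit 0) (cs (lf (nat_lit 35) (nat_lit 181)) (rf (nat_lit 0)))))) q48790 (by decide +kernel)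
def q48798 : Q := Q.p (nat_lit 0x80000200000800002000000000000000000000000000000000000000000000) (nat_lit 0x1000004000010000000000100000c000010000000000000000000000000000000000) (nat_lit 4)
theorem c48798 : QOK q48798 := cut [q27289] ⟨c27289, trivial⟩ (nd (nat_lit 158) (nat_lit 0) (cs (lf (nat_lit 46) (nat_lit 158)) (nd (nat_lit 246) (nat_lit 0) (cs (lf (nat_lit 41) (nat_lit 180)) (rf (nat_lit 0)))))) q48798 (by decide +kernel)
def q48818 : Q := Q.p (nat_lit 0x20000080000600001800000000000000000000000000000000000000000000000000) (nat_lit 0x800000700001000000000000000000000000000000000000000000000) (nat_lit 3)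
theorem c48818 : QOK q48818 := cut [q48817] ⟨c48817, trivial⟩ (nd (nat_lit 202) (nat_lit 0) (cs (lf (nat_lit 47) (nat_lit 180)) (rf (nat_lit 0)))) q48818 (by decide +kernel)
def q48822 : Q := Q.p (nat_lit 0x200000c0000200000800002000000000000000000000000000000000000000000000) (nat_lit 0x2000008000000000000000100000400000000008000000000000000000000000000000000000000) (nat_lit 3)
theorem c48822 : QOK q48822 := cut [q27296] ⟨c27296, trivial⟩ (nd (nat_lit 224) (nat_lit 0) (cs (rf (nat_lit 0)) (lf (nat_lit 36) (nat_lit 158)))) q48822 (by decide +kernel)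
def q48828 : Q := Q.p (nat_lit 0xc000020000080000200000000000000000000000000000000000000000000000000000000) (nat_lit 0x10000000000100000c00001000000000000000000000000000000000000000000000) (nat_lit 3)
theorem c48828 : QOK q48828 := cut [q46783] ⟨c46783, trivial⟩ (nd (nat_lit 203) (nat_lit 0) (cs (lf (nat_lit 40) (nat_lit 202)) (rf (nat_lit 0)))) q48828 (by decide +kernel)
def q48835 : Q := Q.p (nat_lit 0x80000200000c0000000000000000000000000000000000000000000000000000000000000) (nat_lit 0x2000000000010000000000100000400001000000000000000000000000000000000000000000000) (nat_lit 3)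
theorem c48835 : QOK q48835 := cut [q48834] ⟨c48834, trivial⟩ (nd (nat_lit 224) (nat_lit 0) (cs (lf (nat_lit 42) (nat_lit 224)) (rf (nat_lit 0)))) q48835 (by decide +kernel)
def q48842 : Q := Q.p (nat_lit 0x28000180003000000000000000000000000000000000000000000000000000000000000000) (nat_lit 0x50000640000000000000000000000000000000000000000000000000000000000000000000) (nat_lit 3)
theorem c48842 : QOK q48842 := cut [q48841] ⟨c48841, trivial⟩ (nd (nat_lit 273) (nat_lit 0) (cs (lf (nat_lit 15) (nat_lit 249)) (rf (nat_lit 0)))) q48842 (by decide +kernel)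
def q48862 : Q := Q.p (nat_lit 0x80001a0000080000200000000000000000000000000000000000000000000000000000000) (nat_lit 0x5000034000000000000000000000000000000000000000000000000000000000000000000000000) (nat_lit 3)
theorem c48862 : QOK q48862 := cut [q48861] ⟨c48861, trivial⟩ (nd (nat_lit 290) (nat_lit 0) (cs (lf (nat_lit 41) (nat_lit 224)) (rf (nat_lit 0)))) q48862 (by decide +kernel)
def q48906 : Q := Q.p (nat_lit 0x2000008000020000080000000000000000000000000000000000000000000000000000000000000) (nat_lit 0x100000700001c00001000004000010000040000000000000000000000000000000000000000000000000000000000000) (nat_lit 6)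
theorem c48906 : QOK q48906 := cut [q48900] ⟨c48900, trivial⟩ (nd (nat_lit 334) (nat_lit 0) (cs (lf (nat_lit 40) (nat_lit 246)) (nd (nat_lit 335) (nat_lit 0) (cs (lf (nat_lit 41) (nat_lit 268)) (nd (nat_lit 358) (nat_lit 0) (cs (nd (nat_lit 268) (nat_lit 0) (cs (rf (nat_lit 0)) (lf (nat_lit 47) (nat_lit 246)))) (lf (nat_lit 28) (nat_lit 269)))))))) q48906 (by decide +kernel)
def q48935 : Q := Q.p (nat_lit 0x280001a0000400000000000000000000000000000000000000000000000000000000000000) (nat_lit 0x44000050000200000000000000000000000000000000000000000000000000000000000000) (nat_lit 3)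
theorem c48935 : QOK q48935 := cut [q48934] ⟨c48934, trivial⟩ (nd (nat_lit 270) (nat_lit 0) (cs (lf (nat_lit 11) (nat_lit 268)) (rf (nat_lit 0)))) q48935 (by decide +kernel)
def q48954 : Q := Q.p (nat_lit 0x20000180000400000000000000000000000000000000000000000000000000000000000000) (nat_lit 0x2000008000040000000000000001000004000000000000000000000000000000000000000000000000000) (nat_lit 3)
theorem c48954 : QOK q48954 := cut [q48953] ⟨c48953, trivial⟩ (nd (nat_lit 228) (nat_lit 0) (cs (lf (nat_lit 36) (nat_lit 205)) (rf (nat_lit 0)))) q48954 (by decide +kernel)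
def q48979 : Q := Q.p (nat_lit 0x8000180003000000000000000000000000000000000000000000000000000000000000000) (nat_lit 0x74000640000000000000000000000000000000000000000000000000000000000000000000) (nat_lit 4)
theorem c48979 : QOK q48979 := cut [q48884] ⟨c48884, trivial⟩ (nd (nat_lit 273) (nat_lit 0) (cs (lf (nat_lit 15) (nat_lit 249)) (nd (nat_lit 292) (nat_lit 0) (cs (lf (nat_lit 9) (nat_lit 269)) (rf (nat_lit 0)))))) q48979 (by decide +kernel)
def q49024 : Q := Q.p (nat_lit 0x1e0000400000000002000000000000000000000000000000000000000000000000000) (nat_lit 0x40000010000200000800000000008000000000000000000000000000000000000000000000) (nat_lit 3)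
theorem c49024 : QOK q49024 := cut [q47420] ⟨c47420, trivial⟩ (nd (nat_lit 249) (nat_lit 0) (cs (lf (nat_lit 12) (nat_lit 246)) (rf (nat_lit 0)))) q49024 (by decide +kernel)
def q49085 : Q := Q.p (nat_lit 0x480001c00000000000000000000000000000000000000000000000000000000) (nat_lit 0x240000300000e00000000000000000000000000000000000000000000000000) (nat_lit 4)
theorem c49085 : QOK q49085 := cut [q37533] ⟨c37533, trivial⟩ (nd (nat_lit 225) (nat_lit 0) (cs (lf (nat_lit 11) (nat_lit 224)) (nd (nat_lit 224) (nat_lit 0) (cs (lf (nat_lit 4) (nat_lit 224)) (rf (nat_lit 0)))))) q49085 (by decide +kernel)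
def q49101 : Q := Q.p (nat_lit 0x10000040000180000400000000000000000000000000000000000000000000000000000000000000) (nat_lit 0x20000380000e000020000020000000000000000000000000000000000000000000000000000000000000000000000000) (nat_lit 5)
theorem c49101 : QOK q49101 := cut [q48654] ⟨c48654, trivial⟩ (nd (nat_lit 339) (nat_lit 0) (cs (lf (nat_lit 28) (nat_lit 250)) (nd (nat_lit 338) (nat_lit 0) (cs (lf (nat_lit 29) (nat_lit 272)) (nd (nat_lit 359) (nat_lit 0) (cs (lf (nat_lit 40) (nat_lit 271)) (rf (nat_lit 0)))))))) q49101 (by decide +kernel)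
def q49115 : Q := Q.p (nat_lit 0x10000060000180000400000000000000000000000000000000000000000000000000000000000000) (nat_lit 0x300000c000020000000000000000000000000000000000000000000000000000000000000000000000000000000) (nat_lit 3)
theorem c49115 : QOK q49115 := cut [q23863] ⟨c23863, trivial⟩ (nd (nat_lit 338) (nat_lit 0) (cs (lf (nat_lit 42) (nat_lit 271)) (rf (nat_lit 0)))) q49115 (by decide +kernel)
def q49125 : Q := Q.p (nat_lit 0x800002000008000020000000000000000000000000000000000000000000000000000000000000000000) (nat_lit 0x40000300000400000000004000010000040000000000000000000000000000000000000000000000000000000000000) (nat_lit 4)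
theorem c49125 : QOK q49125 := cut [q49123] ⟨c49123, trivial⟩ (nd (nat_lit 268) (nat_lit 0) (cs (lf (nat_lit 47) (nat_lit 246)) (nd (nat_lit 357) (nat_lit 0) (cs (lf (nat_lit 46) (nat_lit 268)) (rf (nat_lit 0)))))) q49125 (by decide +kernel)
def q49159 : Q := Q.p (nat_lit 0x3000008000020000080000000000000000000000000000000000000000000000000000000000000) (nat_lit 0x4000000000040000300000400000000000000000000000000000000000000000000000000) (nat_lit 3)
theorem c49159 : QOK q49159 := cut [q48725] ⟨c48725, trivial⟩ (nd (nat_lit 225) (nat_lit 0) (cs (lf (nat_lit 40) (nat_lit 224)) (rf (nat_lit 0)))) q49159 (by decide +kernel)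
def q49171 : Q := Q.p (nat_lit 0x80000200000c0000000000000000000000000000000000000000000000000000000000000) (nat_lit 0x2000000000000000000000300000400001000000000000000000000000000000000000000000000) (nat_lit 3)
theorem c49171 : QOK q49171 := cut [q49170] ⟨c49170, trivial⟩ (nd (nat_lit 224) (nat_lit 0) (cs (lf (nat_lit 42) (nat_lit 224)) (rf (nat_lit 0)))) q49171 (by decide +kernel)
def q49180 : Q := Q.p (nat_lit 0x38000120000400001000000000000000000000000000000000000000000000000000000000) (nat_lit 0x3000004000001000020000280000a000000000000000000000000000000000000000000000000000) (nat_lit 5)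
theorem c49180 : QOK q49180 := cut [q14247] ⟨c14247, trivial⟩ (nd (nat_lit 294) (nat_lit 0) (cs (lf (nat_lit 23) (nat_lit 268)) (nd (nat_lit 207) (nat_lit 0) (cs (lf (nat_lit 34) (nat_lit 206)) (nd (nat_lit 316) (nat_lit 0) (cs (rf (nat_lit 0)) (lf (nat_lit 5) (nat_lit 291)))))))) q49180 (by decide +kernel)
def q49199 : Q := Q.p (nat_lit 0xc0000200000800002000000000000000000000000000000000000000000000) (nat_lit 0x100000000004000018000040000000000000000000000000000000000) (nat_lit 3)
theorem c49199 : QOK q49199 := cut [q48802] ⟨c48802, trivial⟩ (nd (nat_lit 160) (nat_lit 0) (cs (lf (nat_lit 34) (nat_lit 159)) (rf (nat_lit 0)))) q49199 (by decide +kernel)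
def q49202 : Q := Q.p (nat_lit 0x1000000c0000200000800002000000000000000000000000000000000000000000000) (nat_lit 0x100000e0000100000000000000000000000000000000000000000000000000000000000000) (nat_lit 3)
theorem c49202 : QOK q49202 := cut [q49201] ⟨c49201, trivial⟩ (nd (nat_lit 270) (nat_lit 0) (cs (lf (nat_lit 28) (nat_lit 181)) (rf (nat_lit 0)))) q49202 (by decide +kernel)
def q49204 : Q := Q.p (nat_lit 0xc0000200000800002000000000000000000000000000000000000000000000) (nat_lit 0x10000000000100000c000010000000000000000000000000000000000) (nat_lit 3)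
theorem c49204 : QOK q49204 := cut [q17289] ⟨c17289, trivial⟩ (nd (nat_lit 159) (nat_lit 0) (cs (rf (nat_lit 0)) (lf (nat_lit 40) (nat_lit 158)))) q49204 (by decide +kernel)
def q49211 : Q := Q.p (nat_lit 0xc0000200000800000000000000000000000000000000000000000000000000) (nat_lit 0x5000010000040000000000300000c000010000000000000000000000000000000000) (nat_lit 5)
theorem c49211 : QOK q49211 := cut [q49208] ⟨c49208, trivial⟩ (nd (nat_lit 181) (nat_lit 0) (cs (lf (nat_lit 41) (nat_lit 180)) (nd (nat_lit 158) (nat_lit 0) (cs (lf (nat_lit 46) (nat_lit 158)) (nd (nat_lit 248) (nat_lit 0) (cs (lf (nat_lit 29) (nat_lit 181)) (rf (nat_lit 0)))))))) q49211 (by decide +kernel)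
def q49217 : Q := Q.p (nat_lit 0x20000080000600000000000000000000000000000000000000000000000000000000) (nat_lit 0x8000000000100000000001000004000010000000000000000000000000000000000000000) (nat_lit 3)
theorem c49217 : QOK q49217 := cut [q26658] ⟨c26658, trivial⟩ (nd (nat_lit 204) (nat_lit 0) (cs (rf (nat_lit 0)) (lf (nat_lit 30) (nat_lit 203)))) q49217 (by decide +kernel)
def q49221 : Q := Q.p (nat_lit 0x1200004c0001000000000000000000000000000000000000000000000000000000000) (nat_lit 0x200000c000000000000000e0000380000a0000000000000000000000000000000000000000) (nat_lit 6)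
theorem c49221 : QOK q49221 := cut [q25816] ⟨c25816, trivial⟩ (nd (nat_lit 271) (nat_lit 0) (cs (lf (nat_lit 20) (nat_lit 246)) (nd (nat_lit 206) (nat_lit 0) (cs (lf (nat_lit 41) (nat_lit 205)) (nd (nat_lit 183) (nat_lit 0) (cs (lf (nat_lit 46) (nat_lit 183)) (nd (nat_lit 184) (nat_lit 0) (cs (lf (nat_lit 47) (nat_lit 161)) (rf (nat_lit 0)))))))))) q49221 (by decide +kernel)
def q49240 : Q := Q.p (nat_lit 0xe0000200000000000000000000000000000000000000000000000000000000) (nat_lit 0x10001d00000000000000000000000000000000000000000000000000000000) (nat_lit 3)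
theorem c49240 : QOK q49240 := cut [q49239] ⟨c49239, trivial⟩ (nd (nat_lit 226) (nat_lit 0) (cs (lf (nat_lit 12) (nat_lit 222)) (rf (nat_lit 0)))) q49240 (by decide +kernel)
def q49243 : Q := Q.p (nat_lit 0xe0000200000000000000000000000000000000000000000000000000000000) (nat_lit 0x110001c00000000000000000000000000000000000000000000000000000000) (nat_lit 3)
theorem c49243 : QOK q49243 := cut [q49242] ⟨c49242, trivial⟩ (nd (nat_lit 226) (nat_lit 0) (cs (lf (nat_lit 12) (nat_lit 222)) (rf (nat_lit 0)))) q49243 (by decide +kernel)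
def q49255 : Q := Q.p (nat_lit 0xf0000000000000000000000000000000000000000000000000000000000000) (nat_lit 0x7000008000070000000000000000000000000000000000000000000000000000000) (nat_lit 4)
theorem c49255 : QOK q49255 := cut [q49253] ⟨c49253, trivial⟩ (nd (nat_lit 221) (nat_lit 0) (cs (lf (nat_lit 22) (nat_lit 221)) (nd (nat_lit 265) (nat_lit 0) (cs (lf (nat_lit 10) (nat_lit 243)) (rf (nat_lit 0)))))) q49255 (by decide +kernel)
def q49262 : Q := Q.p (nat_lit 0xe0000200000000000000000000000000000000000000000000000000000000) (nat_lit 0xf0001180001f0000000000000000000000000000000000000000000000000000000) (nat_lit 5)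
theorem c49262 : QOK q49262 := cut [q49246, q49261] ⟨c49246, c49261, trivial⟩ (nd (nat_lit 244) (nat_lit 0) (cs (nd (nat_lit 221) (nat_lit 0) (cs (rf (nat_lit 0)) (lf (nat_lit 22) (nat_lit 221)))) (cs (nd (nat_lit 265) (nat_lit 0) (cs (nd (nat_lit 243) (nat_lit 0) (cs (lf (nat_lit 16) (nat_lit 221)) (lf (nat_lit 11) (nat_lit 242)))) (lf (nat_lit 10) (nat_lit 243)))) (rf (nat_lit 1))))) q49262 (by decide +kernel)
def q49285 : Q := Q.p (nat_lit 0x60000080000200000000000000000000000000000000000000000000000000) (nat_lit 0x10000000000100000000001800006000010000000000000000000000000000000000) (nat_lit 4)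
theorem c49285 : QOK q49285 := cut [q49284] ⟨c49284, trivial⟩ (nd (nat_lit 179) (nat_lit 0) (cs (lf (nat_lit 29) (nat_lit 179)) (rf (nat_lit 0)))) q49285 (by decide +kernel)
def q49309 : Q := Q.p (nat_lit 0x100000c0000200000000000000000000000000000000000000000000000000000000) (nat_lit 0x1000004000000000000000100000800002000000000000000000000000000000000000000000000) (nat_lit 3)
theorem c49309 : QOK q49309 := cut [q49308] ⟨c49308, trivial⟩ (nd (nat_lit 203) (nat_lit 0) (cs (lf (nat_lit 36) (nat_lit 180)) (rf (nat_lit 0)))) q49309 (by decide +kernel)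
def q49322 : Q := Q.p (nat_lit 0x300000c0000100000400000000000000000000000000000000000000000000000000) (nat_lit 0x200000e000100000000000000000000000000000000000000000000000000000000000000) (nat_lit 3)
theorem c49322 : QOK q49322 := cut [q49312] ⟨c49312, trivial⟩ (nd (nat_lit 267) (nat_lit 0) (cs (lf (nat_lit 41) (nat_lit 201)) (rf (nat_lit 0)))) q49322 (by decide +kernel)
def q49334 : Q := Q.p (nat_lit 0x40000100000c0000300000000000000000000000000000000000000000000000000000000) (nat_lit 0x20000000000080000600001800004000000000000000000000000000000000000000) (nat_lit 4)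
theorem c49334 : QOK q49334 := cut [q49330] ⟨c49330, trivial⟩ (nd (nat_lit 201) (nat_lit 0) (cs (nd (nat_lit 202) (nat_lit 0) (cs (rf (nat_lit 0)) (lf (nat_lit 47) (nat_lit 179)))) (lf (nat_lit 46) (nat_lit 201)))) q49334 (by decide +kernel)
def q49339 : Q := Q.p (nat_lit 0x4000010000040000100000000000000000000000000000000000000000000000000000000) (nat_lit 0x800002000008000000000080000600000800000000000000000000000000000000000000000000) (nat_lit 4)
theorem c49339 : QOK q49339 := cut [q49336] ⟨c49336, trivial⟩ (nd (nat_lit 289) (nat_lit 0) (cs (nd (nat_lit 201) (nat_lit 0) (cs (lf (nat_lit 46) (nat_lit 201)) (rf (nat_lit 0)))) (lf (nat_lit 41) (nat_lit 223)))) q49339 (by decide +kernel)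
def q49344 : Q := Q.p (nat_lit 0x40000100000c0000300000000000000000000000000000000000000000000000000000000) (nat_lit 0x280000a000028000000000000000400000000000000000000000000000000000000000000000000) (nat_lit 4)
theorem c49344 : QOK q49344 := cut [q49341] ⟨c49341, trivial⟩ (nd (nat_lit 291) (nat_lit 0) (cs (lf (nat_lit 29) (nat_lit 224)) (nd (nat_lit 202) (nat_lit 0) (cs (rf (nat_lit 0)) (lf (nat_lit 43) (nat_lit 202)))))) q49344 (by decide +kernel)
def q49348 : Q := Q.p (nat_lit 0x40000100000c0000300000000000000000000000000000000000000000000000000000000) (nat_lit 0x1000000e0000200000000000000000000000000000000000000000000000000) (nat_lit 3)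
theorem c49348 : QOK q49348 := cut [q49346] ⟨c49346, trivial⟩ (nd (nat_lit 223) (nat_lit 0) (cs (rf (nat_lit 0)) (lf (nat_lit 47) (nat_lit 201)))) q49348 (by decide +kernel)
def q49355 : Q := Q.p (nat_lit 0x100000c0000200000000000000000000000000000000000000000000000000000000) (nat_lit 0x1000004000020000000000000000800002000000000000000000000000000000000000000000000) (nat_lit 3)
theorem c49355 : QOK q49355 := cut [q49354] ⟨c49354, trivial⟩ (nd (nat_lit 290) (nat_lit 0) (cs (lf (nat_lit 30) (nat_lit 224)) (rf (nat_lit 0)))) q49355 (by decide +kernel)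
def q49379 : Q := Q.p (nat_lit 0xc0000600000c00000000000000000000000000000000000000000000000000) (nat_lit 0x1800001300000000000000000000000000000000000000000000000000) (nat_lit 3)
theorem c49379 : QOK q49379 := cut [q49378] ⟨c49378, trivial⟩ (nd (nat_lit 227) (nat_lit 0) (cs (lf (nat_lit 6) (nat_lit 224)) (rf (nat_lit 0)))) q49379 (by decide +kernel)
def q49402 : Q := Q.p (nat_lit 0x80000200000800002000000000000000000000000000000000000000000000) (nat_lit 0x20000000000000003000005c00014000000000000000000000000000000000000000) (nat_lit 5)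
theorem c49402 : QOK q49402 := cut [q49400] ⟨c49400, trivial⟩ (nd (nat_lit 182) (nat_lit 0) (cs (lf (nat_lit 35) (nat_lit 159)) (nd (nat_lit 204) (nat_lit 0) (cs (lf (nat_lit 30) (nat_lit 181)) (rf (nat_lit 0)))))) q49402 (by decide +kernel)
def q49407 : Q := Q.p (nat_lit 0x300000d0000100000400000000000000000000000000000000000000000000000000) (nat_lit 0x200000e000008000000000200000800000000000000000000000000000000000000000000) (nat_lit 4)
theorem c49407 : QOK q49407 := cut [q49406] ⟨c49406, trivial⟩ (nd (nat_lit 179) (nat_lit 0) (cs (lf (nat_lit 46) (nat_lit 179)) (rf (nat_lit 0)))) q49407 (by decide +kernel)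
def q49412 : Q := Q.p (nat_lit 0x20000080000300000c00000000000000000000000000000000000000000000000000) (nat_lit 0x80007000004000000000000000000000000000000000000000000000) (nat_lit 3)
theorem c49412 : QOK q49412 := cut [q49411] ⟨c49411, trivial⟩ (nd (nat_lit 204) (nat_lit 0) (cs (lf (nat_lit 35) (nat_lit 181)) (rf (nat_lit 0)))) q49412 (by decide +kernel)
def q49444 : Q := Q.p (nat_lit 0x180000400001000000000040000000000000000000000000000000000000000000000) (nat_lit 0x2000000000000000000000c0000b80000e0000080000000000000000000000000000000000) (nat_lit 6)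
theorem c49444 : QOK q49444 := cut [q44549] ⟨c44549, trivial⟩ (nd (nat_lit 206) (nat_lit 0) (cs (lf (nat_lit 41) (nat_lit 205)) (rf (nat_lit 0)))) q49444 (by decide +kernel)
def q49456 : Q := Q.p (nat_lit 0xf00000000000000000000000000000000000000000000000000) (nat_lit 0x70000080000700000000000000000000000000000000000000000000) (nat_lit 4)
theorem c49456 : QOK q49456 := cut [q48761] ⟨c48761, trivial⟩ (nd (nat_lit 221) (nat_lit 0) (cs (lf (nat_lit 10) (nat_lit 199)) (nd (nat_lit 199) (nat_lit 0) (cs (lf (nat_lit 11) (nat_lit 198)) (rf (nat_lit 0)))))) q49456 (by decide +kernel)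
def q49465 : Q := Q.p (nat_lit 0x28000180003400000000000000000000000000000000000000000000000000000000000000) (nat_lit 0x54000600000000001000004000000000000000000000000000000000000000000000000000) (nat_lit 4)
theorem c49465 : QOK q49465 := cut [q49464] ⟨c49464, trivial⟩ (nd (nat_lit 206) (nat_lit 0) (cs (lf (nat_lit 37) (nat_lit 205)) (rf (nat_lit 0)))) q49465 (by decide +kernel)
def q49470 : Q := Q.p (nat_lit 0x20000180000400000000000000000000000000000000000000000000000000000000000000) (nat_lit 0x2000008000040000000000000001000004000000000000000000000000000000000000000000000000000) (nat_lit 3)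
theorem c49470 : QOK q49470 := cut [q49469] ⟨c49469, trivial⟩ (nd (nat_lit 315) (nat_lit 0) (cs (lf (nat_lit 30) (nat_lit 249)) (rf (nat_lit 0)))) q49470 (by decide +kernel)
def q49491 : Q := Q.p (nat_lit 0x40000300000c0000100000000000000000000000000000000000000000000000000000000) (nat_lit 0x600001800002000000000000000000000000000000000000000000000000000000000000000000000000) (nat_lit 3)
theorem c49491 : QOK q49491 := cut [q49490] ⟨c49490, trivial⟩ (nd (nat_lit 312) (nat_lit 0) (cs (lf (nat_lit 30) (nat_lit 246)) (rf (nat_lit 0)))) q49491 (by decide +kernel)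
def q49499 : Q := Q.p (nat_lit 0x28000180003400000000000000000000000000000000000000000000000000000000000000) (nat_lit 0x2000008000054000600000000000000000000000000000000000000000000000000000000000000000000) (nat_lit 4)
theorem c49499 : QOK q49499 := cut [q49464] ⟨c49464, trivial⟩ (nd (nat_lit 315) (nat_lit 0) (cs (lf (nat_lit 30) (nat_lit 249)) (rf (nat_lit 0)))) q49499 (by decide +kernel)
def q49502 : Q := Q.p (nat_lit 0x80001200000c0000000000000000000000000000000000000000000000000000000000000) (nat_lit 0x8000020000000000c0000100000500000000000000000000000000000000000000000000000000000000) (nat_lit 4)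
theorem c49502 : QOK q49502 := cut [q49432] ⟨c49432, trivial⟩ (nd (nat_lit 270) (nat_lit 0) (cs (lf (nat_lit 19) (nat_lit 246)) (rf (nat_lit 0)))) q49502 (by decide +kernel)
def q49518 : Q := Q.p (nat_lit 0x2000008000020000080000000000000000000000000000000000000000000000000000000000000) (nat_lit 0x400001000004000000000100000600001000000000000000000000000000000000000000000000000000) (nat_lit 4)
theorem c49518 : QOK q49518 := cut [q49516] ⟨c49516, trivial⟩ (nd (nat_lit 312) (nat_lit 0) (cs (lf (nat_lit 41) (nat_lit 246)) (nd (nat_lit 225) (nat_lit 0) (cs (lf (nat_lit 40) (nat_lit 224)) (rf (nat_lit 0)))))) q49518 (by decide +kernel)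
def q49520 : Q := Q.p (nat_lit 0x2000008000020000080000000000000000000000000000000000000000000000000000000000000) (nat_lit 0x1000004000010000000000100000600001000000000000000000000000000000000000000000000000000) (nat_lit 4)
theorem c49520 : QOK q49520 := cut [q49516] ⟨c49516, trivial⟩ (nd (nat_lit 314) (nat_lit 0) (cs (lf (nat_lit 29) (nat_lit 247)) (nd (nat_lit 225) (nat_lit 0) (cs (lf (nat_lit 28) (nat_lit 225)) (rf (nat_lit 0)))))) q49520 (by decide +kernel)
def q49523 : Q := Q.p (nat_lit 0x80000600000c0000200000000000000000000000000000000000000000000000000000000) (nat_lit 0x1200005c0003700001c000100000000000000000000000000000000000000000000000000000000000000) (nat_lit 7)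
theorem c49523 : QOK q49523 := cut [q49315] ⟨c49315, trivial⟩ (nd (nat_lit 292) (nat_lit 0) (cs (rf (nat_lit 0)) (nd (nat_lit 290) (nat_lit 0) (cs (lf (nat_lit 41) (nat_lit 224)) (nd (nat_lit 289) (nat_lit 0) (cs (nd (nat_lit 311) (nat_lit 0) (cs (nd (nat_lit 267) (nat_lit 0) (cs (nd (nat_lit 268) (nat_lit 0) (cs (lf (nat_lit 30) (nat_lit 245)) (lf (nat_lit 18) (nat_lit 267)))) (lf (nat_lit 23) (nat_lit 266)))) (lf (nat_lit 11) (nat_lit 288)))) (lf (nat_lit 12) (nat_lit 266)))))))) q49523 (by decide +kernel)
def q49549 : Q := Q.p (nat_lit 0x80001200000c0000200000000000000000000000000000000000000000000000000000000) (nat_lit 0x40000100000c0000000000000000800000000000000000000000000000000000000000000000000) (nat_lit 3)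
theorem c49549 : QOK q49549 := cut [q49548] ⟨c49548, trivial⟩ (nd (nat_lit 270) (nat_lit 0) (cs (lf (nat_lit 19) (nat_lit 246)) (rf (nat_lit 0)))) q49549 (by decide +kernel)
def q49553 : Q := Q.p (nat_lit 0x8000120000480000200000000000000000000000000000000000000000000000000000000) (nat_lit 0x1d000074000280000000001000000000000000000000000000000000000000000000000000000000) (nat_lit 6)
theorem c49553 : QOK q49553 := cut [q49361] ⟨c49361, trivial⟩ (nd (nat_lit 290) (nat_lit 0) (cs (lf (nat_lit 41) (nat_lit 224)) (nd (nat_lit 292) (nat_lit 0) (cs (lf (nat_lit 29) (nat_lit 225)) (rf (nat_lit 0)))))) q49553 (by decide +kernel)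
def q49593 : Q := Q.p (nat_lit 0x2000008000020000080000000000000000000000000000000000000000000000000000000000000) (nat_lit 0x1400005000014000000000000000200000000000000000000000000000000000000000000000000000000) (nat_lit 4)
theorem c49593 : QOK q49593 := cut [q47097] ⟨c47097, trivial⟩ (nd (nat_lit 314) (nat_lit 0) (cs (lf (nat_lit 29) (nat_lit 247)) (nd (nat_lit 225) (nat_lit 0) (cs (rf (nat_lit 0)) (lf (nat_lit 28) (nat_lit 225)))))) q49593 (by decide +kernel)
def q49604 : Q := Q.p (nat_lit 0xf0000000000000000000000000000000000000000000000000000000000000) (nat_lit 0x8000770000000000000000000000000000000000000000000000000000000) (nat_lit 4)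
theorem c49604 : QOK q49604 := cut [q49246] ⟨c49246, trivial⟩ (nd (nat_lit 221) (nat_lit 0) (cs (lf (nat_lit 22) (nat_lit 221)) (nd (nat_lit 225) (nat_lit 0) (cs (rf (nat_lit 0)) (lf (nat_lit 17) (nat_lit 222)))))) q49604 (by decide +kernel)
def q49642 : Q := Q.p (nat_lit 0xc000020000080000000000000000000000000000000000000000000000000000000) (nat_lit 0x1000000000000000000000700001c00005000000000000000000000000000000000000000) (nat_lit 5)
theorem c49642 : QOK q49642 := cut [q49640] ⟨c49640, trivial⟩ (nd (nat_lit 201) (nat_lit 0) (cs (rf (nat_lit 0)) (lf (nat_lit 41) (nat_lit 200)))) q49642 (by decide +kernel)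
def q49647 : Q := Q.p (nat_lit 0xe0000080000000000000000000000000000000000000000000000000000000) (nat_lit 0x100000170000000000000000000000000000000000000000000000000000000) (nat_lit 3)
theorem c49647 : QOK q49647 := cut [q49646] ⟨c49646, trivial⟩ (nd (nat_lit 222) (nat_lit 0) (cs (lf (nat_lit 18) (nat_lit 222)) (rf (nat_lit 0)))) q49647 (by decide +kernel)
def q49652 : Q := Q.p (nat_lit 0x2000008000060000000000000000000000000000000000000000000000000000000000000) (nat_lit 0x800000000010000000000100000400001000000000000000000000000000000000000000000000) (nat_lit 3)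
theorem c49652 : QOK q49652 := cut [q49651] ⟨c49651, trivial⟩ (nd (nat_lit 224) (nat_lit 0) (cs (lf (nat_lit 30) (nat_lit 223)) (rf (nat_lit 0)))) q49652 (by decide +kernel)
def q49660 : Q := Q.p (nat_lit 0x20000080000e0000000000000000000000000000000000000000000000000000000000000) (nat_lit 0x14000050000140000000001e0000700000000000000000000000000000000000000000000000000) (nat_lit 5)
theorem c49660 : QOK q49660 := cut [q49655, q49659] ⟨c49655, c49659, trivial⟩ (nd (nat_lit 223) (nat_lit 0) (cs (rf (nat_lit 0)) (rf (nat_lit 1)))) q49660 (by decide +kernel)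
def q49663 : Q := Q.p (nat_lit 0x2000008000020000080000000000000000000000000000000000000000000000000000000) (nat_lit 0x400001000004000000000040000300000400000000000000000000000000000000000000000000) (nat_lit 4)
theorem c49663 : QOK q49663 := cut [q49661] ⟨c49661, trivial⟩ (nd (nat_lit 288) (nat_lit 0) (cs (lf (nat_lit 41) (nat_lit 222)) (nd (nat_lit 201) (nat_lit 0) (cs (lf (nat_lit 40) (nat_lit 200)) (rf (nat_lit 0)))))) q49663 (by decide +kernel)
def q49690 : Q := Q.p (nat_lit 0x1000002000008000060000000000000000000000000000000000000000000000000000000000000) (nat_lit 0x6000008000040000100000000000c0000300000c00000000000000000000000000000000000000000000) (nat_lit 6)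
theorem c49690 : QOK q49690 := cut [q49667] ⟨c49667, trivial⟩ (nd (nat_lit 311) (nat_lit 0) (cs (lf (nat_lit 29) (nat_lit 245)) (nd (nat_lit 223) (nat_lit 0) (cs (lf (nat_lit 28) (nat_lit 223)) (nd (nat_lit 200) (nat_lit 0) (cs (lf (nat_lit 46) (nat_lit 200)) (nd (nat_lit 268) (nat_lit 0) (cs (lf (nat_lit 30) (nat_lit 245)) (rf (nat_lit 0)))))))))) q49690 (by decide +kernel)
def q49703 : Q := Q.p (nat_lit 0x80000e0000080000000000000000000000000000000000000000000000000000000) (nat_lit 0x2000000000100000070000300000400001000000000000000000000000000000000000000) (nat_lit 5)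
theorem c49703 : QOK q49703 := cut [q49700] ⟨c49700, trivial⟩ (nd (nat_lit 222) (nat_lit 0) (cs (lf (nat_lit 18) (nat_lit 222)) (nd (nat_lit 220) (nat_lit 0) (cs (rf (nat_lit 0)) (lf (nat_lit 1) (nat_lit 220)))))) q49703 (by decide +kernel)
def q49720 : Q := Q.p (nat_lit 0xe0000040000000000000000000000000000000000000000000000000000000) (nat_lit 0x1000001b0000000000000000000000000000000000000000000000000000000) (nat_lit 3)
theorem c49720 : QOK q49720 := cut [q49646] ⟨c49646, trivial⟩ (nd (nat_lit 223) (nat_lit 0) (cs (lf (nat_lit 18) (nat_lit 222)) (rf (nat_lit 0)))) q49720 (by decide +kernel)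
def q49761 : Q := Q.p (nat_lit 0x80000e0000000000000000000000000000000000000000000000000000000000000) (nat_lit 0x7000110000000000000000000000000000000000000000000000000000000000000) (nat_lit 3)
theorem c49761 : QOK q49761 := cut [q49760] ⟨c49760, trivial⟩ (nd (nat_lit 266) (nat_lit 0) (cs (lf (nat_lit 6) (nat_lit 244)) (rf (nat_lit 0)))) q49761 (by decide +kernel)
def q49788 : Q := Q.p (nat_lit 0x100000460000300002000000000000000000000000000000000000000000000000000) (nat_lit 0x40000000000000001c00004000008000020000000000000000000000000000000000000000) (nat_lit 4)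
theorem c49788 : QOK q49788 := cut [q12154] ⟨c12154, trivial⟩ (nd (nat_lit 227) (nat_lit 0) (cs (nd (nat_lit 228) (nat_lit 0) (cs (lf (nat_lit 42) (nat_lit 205)) (rf (nat_lit 0)))) (lf (nat_lit 7) (nat_lit 223)))) q49788 (by decide +kernel)
def q49809 : Q := Q.p (nat_lit 0x1e0000600000000000000000000000000000000000000000000000000000000) (nat_lit 0x100000c0000000000000000800002000000000000000000000000000000000000000000000) (nat_lit 3)
theorem c49809 : QOK q49809 := cut [q47306] ⟨c47306, trivial⟩ (nd (nat_lit 270) (nat_lit 0) (cs (rf (nat_lit 0)) (lf (nat_lit 5) (nat_lit 245)))) q49809 (by decide +kernel)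
def q49848 : Q := Q.p (nat_lit 0xf0000000000000000000000000000000000000000000000000000000000000) (nat_lit 0x18000060000380000e0000000000e0000380000e0000380000a000000000000000000000000000000000) (nat_lit 10)
theorem c49848 : QOK q49848 := cut [q49827, q49843] ⟨c49827, c49843, trivial⟩ (nd (nat_lit 222) (nat_lit 0) (cs (lf (nat_lit 23) (nat_lit 221)) (nd (nat_lit 200) (nat_lit 0) (cs (nd (nat_lit 178) (nat_lit 0) (cs (nd (nat_lit 157) (nat_lit 0) (cs (nd (nat_lit 156) (nat_lit 0) (cs (lf (nat_lit 28) (nat_lit 156)) (lf (nat_lit 35) (nat_lit 134)))) (lf (nat_lit 34) (nat_lit 156)))) (lf (nat_lit 29) (nat_lit 178)))) (cs (nd (nat_lit 266) (nat_lit 0) (cs (lf (nat_lit 11) (nat_lit 243)) (rf (nat_lit 0)))) (cs (nd (nat_lit 266) (nat_lit 0) (cs (lf (nat_lit 11) (nat_lit 243)) (nd (nat_lit 267) (nat_lit 0) (cs (lf (nat_lit 29) (nat_lit 200)) (nd (nat_lit 177) (nat_lit 0) (cs (lf (nat_lit 46) (nat_lit 177)) (nd (nat_lit 201) (nat_lit 0) (cs (nd (nat_lit 288) (nat_lit 0) (cs (nd (nat_lit 309) (nat_lit 0) (cs (nd (nat_lit 310) (nat_lit 0) (cs (lf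 (nat_lit 41) (nat_lit 243)) (lf (nat_lit 30) (nat_lit 244)))) (lf (nat_lit 40) (nat_lit 221)))) (lf (nat_lit 37) (nat_lit 200)))) (lf (nat_lit 35) (nat_lit 178)))))))))) (nd (nat_lit 265) (nat_lit 0) (cs (lf (nat_lit 10) (nat_lit 243)) (nd (nat_lit 178) (nat_lit 0) (cs (lf (nat_lit 29) (nat_lit 178)) (nd (nat_lit 156) (nat_lit 0) (cs (lf (nat_lit 28) (nat_lit 156)) (rf (nat_lit 1)))))))))))))) q49848 (by decide +kernel)
def q49946 : Q := Q.p (nat_lit 0x2000008000020000080000000000000000000000000000000000000000000000000000000) (nat_lit 0x500001c00005000000000000000000000000000000000000000000000000000000000000000000000000) (nat_lit 4)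
theorem c49946 : QOK q49946 := cut [q49944] ⟨c49944, trivial⟩ (nd (nat_lit 310) (nat_lit 0) (cs (lf (nat_lit 40) (nat_lit 222)) (nd (nat_lit 311) (nat_lit 0) (cs (lf (nat_lit 41) (nat_lit 244)) (rf (nat_lit 0)))))) q49946 (by decide +kernel)
def q49986 : Q := Q.p (nat_lit 0x60000080000200001000000000000000000000000000000000000000000000) (nat_lit 0x100000000000c00007000004000000000000000000000000000000000) (nat_lit 4)
theorem c49986 : QOK q49986 := cut [q49985] ⟨c49985, trivial⟩ (nd (nat_lit 179) (nat_lit 0) (cs (lf (nat_lit 35) (nat_lit 157)) (rf (nat_lit 0)))) q49986 (by decide +kernel)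
def q49990 : Q := Q.p (nat_lit 0x20000080000200001000000000000000000000000000000000000000000000) (nat_lit 0x8000000000000000400000800004000010000000000000000000000000000000000) (nat_lit 3)
theorem c49990 : QOK q49990 := cut [q49989] ⟨c49989, trivial⟩ (nd (nat_lit 202) (nat_lit 0) (cs (lf (nat_lit 30) (nat_lit 179)) (rf (nat_lit 0)))) q49990 (by decide +kernel)
def q49995 : Q := Q.p (nat_lit 0x60000080000200000000000000000000000000000000000000000000000000) (nat_lit 0x10000000000000000000001c00007000014000000000000000000000000000000000) (nat_lit 5)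
theorem c49995 : QOK q49995 := cut [q49994] ⟨c49994, trivial⟩ (nd (nat_lit 179) (nat_lit 0) (cs (lf (nat_lit 29) (nat_lit 179)) (rf (nat_lit 0)))) q49995 (by decide +kernel)
def q49996 : Q := Q.p (nat_lit 0x60000080000200000000000000000000000000000000000000000000000000) (nat_lit 0x10000000000100000000000c00003000004000000000000000000000000000000000) (nat_lit 4)
theorem c49996 : QOK q49996 := cut [q49985] ⟨c49985, trivial⟩ (nd (nat_lit 179) (nat_lit 0) (cs (lf (nat_lit 29) (nat_lit 179)) (rf (nat_lit 0)))) q49996 (by decide +kernel)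
def q50003 : Q := Q.p (nat_lit 0x380000e0000080000200000000000000000000000000000000000000000000000000) (nat_lit 0x8000000000000000160001c00003000000000000000000000000000000000000000000000) (nat_lit 5)
theorem c50003 : QOK q50003 := cut [q50001] ⟨c50001, trivial⟩ (nd (nat_lit 202) (nat_lit 0) (cs (lf (nat_lit 35) (nat_lit 179)) (nd (nat_lit 224) (nat_lit 0) (cs (lf (nat_lit 29) (nat_lit 202)) (rf (nat_lit 0)))))) q50003 (by decide +kernel)
def q50024 : Q := Q.p (nat_lit 0x40000100000600001800000000000000000000000000000000000000000000) (nat_lit 0x10000e000008000000000000000000000000000000000000000) (nat_lit 3)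
theorem c50024 : QOK q50024 := cut [q50022] ⟨c50022, trivial⟩ (nd (nat_lit 181) (nat_lit 0) (cs (rf (nat_lit 0)) (lf (nat_lit 35) (nat_lit 158)))) q50024 (by decide +kernel)
def q50036 : Q := Q.p (nat_lit 0x200000c0000100000000000000000000000000000000000000000000000000000000) (nat_lit 0x2000008000010000000000000000400001000000000000000000000000000000000000000000000) (nat_lit 3)
theorem c50036 : QOK q50036 := cut [q49950] ⟨c49950, trivial⟩ (nd (nat_lit 202) (nat_lit 0) (cs (lf (nat_lit 24) (nat_lit 180)) (rf (nat_lit 0)))) q50036 (by decide +kernel)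
def q50060 : Q := Q.p (nat_lit 0x680000e0000000000000000000000000000000000000000000000000000000000000) (nat_lit 0x8000004000100000c00001000004000000000000000000000000000000000000000000000) (nat_lit 4)
theorem c50060 : QOK q50060 := cut [q50059] ⟨c50059, trivial⟩ (nd (nat_lit 248) (nat_lit 0) (cs (lf (nat_lit 11) (nat_lit 244)) (rf (nat_lit 0)))) q50060 (by decide +kernel)
def q50083 : Q := Q.p (nat_lit 0x1000004e0001000004000000000000000000000000000000000000000000000000000) (nat_lit 0x40000000000100000e00002000008000000000000000000000000000000000000000000000) (nat_lit 4)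
theorem c50083 : QOK q50083 := cut [q50077] ⟨c50077, trivial⟩ (nd (nat_lit 205) (nat_lit 0) (cs (lf (nat_lit 47) (nat_lit 183)) (nd (nat_lit 227) (nat_lit 0) (cs (lf (nat_lit 42) (nat_lit 205)) (rf (nat_lit 0)))))) q50083 (by decide +kernel)
def q50099 : Q := Q.p (nat_lit 0x180000400001000000000000000000000000000000000000000000000000000000000) (nat_lit 0x2000008000060000000000000000000004000000000000000000000000000000000000000000000000000) (nat_lit 3)
theorem c50099 : QOK q50099 := cut [q48953] ⟨c48953, trivial⟩ (nd (nat_lit 293) (nat_lit 0) (cs (lf (nat_lit 36) (nat_lit 205)) (rf (nat_lit 0)))) q50099 (by decide +kernel)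
def q50182 : Q := Q.p (nat_lit 0xe0000200000000000000000000000000000000000000000000000000000000) (nat_lit 0x67000018000470000000000000000000000000000000000000000000000000000000) (nat_lit 6)
theorem c50182 : QOK q50182 := cut [q50178] ⟨c50178, trivial⟩ (nd (nat_lit 244) (nat_lit 0) (cs (lf (nat_lit 17) (nat_lit 222)) (nd (nat_lit 269) (nat_lit 0) (cs (lf (nat_lit 5) (nat_lit 244)) (nd (nat_lit 265) (nat_lit 0) (cs (lf (nat_lit 10) (nat_lit 243)) (nd (nat_lit 243) (nat_lit 0) (cs (lf (nat_lit 11) (nat_lit 242)) (rf (nat_lit 0)))))))))) q50182 (by decide +kernel)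
def q50217 : Q := Q.p (nat_lit 0xe0000280000000000000000000000000000000000000000000000000000000) (nat_lit 0x2000008000000000d60003f80003c0000f000000000000000000000000000000000000000) (nat_lit 9)
theorem c50217 : QOK q50217 := cut [q50204, q50211, q50214] ⟨c50204, c50211, c50214, trivial⟩ (nd (nat_lit 224) (nat_lit 0) (cs (nd (nat_lit 226) (nat_lit 0) (cs (lf (nat_lit 6) (nat_lit 223)) (nd (nat_lit 204) (nat_lit 0) (cs (lf (nat_lit 17) (nat_lit 201)) (nd (nat_lit 201) (nat_lit 0) (cs (lf (nat_lit 23) (nat_lit 200)) (nd (nat_lit 179) (nat_lit 0) (cs (lf (nat_lit 24) (nat_lit 157)) (nd (nat_lit 178) (nat_lit 0) (cs (lf (nat_lit 47) (nat_lit 156)) (nd (nat_lit 180) (nat_lit 0) (cs (lf (nat_lit 35) (nat_lit 157)) (nd (nat_lit 202) (nat_lit 0) (cs (lf (nat_lit 41) (nat_lit 179)) (lf (nat_lit 19) (nat_lit 178)))))))))))))))) (cs (nd (nat_lit 222) (nat_lit 0) (cs (lf (nat_lit 0) (nat_lit 221)) (nd (nat_lit 203) (nat_lit 0) (cs (lf (nat_lit 17) (nat_lit 200)) (nd (nat_lit 159) (nat_lit 0) (cs (lf (nat_lit 37) (nat_lit 158)) (nd (nat_lit 200) (nat_lit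 0) (cs (lf (nat_lit 23) (nat_lit 199)) (nd (nat_lit 178) (nat_lit 0) (cs (lf (nat_lit 24) (nat_lit 156)) (rf (nat_lit 0)))))))))))) (cs (nd (nat_lit 222) (nat_lit 0) (cs (lf (nat_lit 0) (nat_lit 221)) (nd (nat_lit 226) (nat_lit 0) (cs (lf (nat_lit 6) (nat_lit 223)) (rf (nat_lit 1)))))) (nd (nat_lit 226) (nat_lit 0) (cs (lf (nat_lit 6) (nat_lit 223)) (nd (nat_lit 200) (nat_lit 0) (cs (lf (nat_lit 22) (nat_lit 200)) (rf (nat_lit 2)))))))))) q50217 (by decide +kernel)
def q50226 : Q := Q.p (nat_lit 0x20000680000200000000000000000000000000000000000000000000000000) (nat_lit 0x8000000000100000100000c00001000004000000000000000000000000000000000) (nat_lit 4)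
theorem c50226 : QOK q50226 := cut [q50224] ⟨c50224, trivial⟩ (nd (nat_lit 200) (nat_lit 0) (cs (lf (nat_lit 20) (nat_lit 200)) (nd (nat_lit 178) (nat_lit 0) (cs (lf (nat_lit 42) (nat_lit 178)) (rf (nat_lit 0)))))) q50226 (by decide +kernel)
def q50239 : Q := Q.p (nat_lit 0x700001000000000000000000000000000000000000000000000) (nat_lit 0x8000e800000000000000000000000000000000000000000000) (nat_lit 3)
theorem c50239 : QOK q50239 := cut [q50237] ⟨c50237, trivial⟩ (nd (nat_lit 181) (nat_lit 0) (cs (rf (nat_lit 0)) (lf (nat_lit 12) (nat_lit 177)))) q50239 (by decide +kernel)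
def q50279 : Q := Q.p (nat_lit 0x80000600000800002000008000000000000000000000000000000000000000) (nat_lit 0x8000020000000000000001000004000000000020000000000000000000000000000000000) (nat_lit 3)
theorem c50279 : QOK q50279 := cut [q34481] ⟨c34481, trivial⟩ (nd (nat_lit 204) (nat_lit 0) (cs (lf (nat_lit 24) (nat_lit 137)) (rf (nat_lit 0)))) q50279 (by decide +kernel)
def q50295 : Q := Q.p (nat_lit 0x20000080000200000c00000000000000000000000000000000000000000000000000) (nat_lit 0x8000000000000000c00001300004000000000000000000000000000000000000000000000) (nat_lit 4)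
theorem c50295 : QOK q50295 := cut [q48817] ⟨c48817, trivial⟩ (nd (nat_lit 204) (nat_lit 0) (cs (lf (nat_lit 35) (nat_lit 181)) (nd (nat_lit 226) (nat_lit 0) (cs (lf (nat_lit 30) (nat_lit 203)) (rf (nat_lit 0)))))) q50295 (by decide +kernel)
def q50379 : Q := Q.p (nat_lit 0x80000200000800002000000000000000000000000000000000000000000000) (nat_lit 0x778001dc00017800000000000000000000000000000000000000) (nat_lit 8)
theorem c50379 : QOK q50379 := cut [q50374] ⟨c50374, trivial⟩ (nd (nat_lit 180) (nat_lit 0) (cs (lf (nat_lit 47) (nat_lit 158)) (nd (nat_lit 205) (nat_lit 0) (cs (nd (nat_lit 204) (nat_lit 0) (cs (lf (nat_lit 18) (nat_lit 180)) (nd (nat_lit 179) (nat_lit 0) (cs (lf (nat_lit 0) (nat_lit 178)) (lf (nat_lit 21) (nat_lit 179)))))) (cs (nd (nat_lit 182) (nat_lit 0) (cs (lf (nat_lit 35) (nat_lit 159)) (nd (nat_lit 183) (nat_lit 0) (cs (nd (nat_lit 202) (nat_lit 0) (cs (lf (nat_lit 11) (nat_lit 179)) (lf (nat_lit 6) (nat_lit 180)))) (lf (nat_lit 5) (nat_lit 180)))))) (nd (nat_lit 182) (nat_lit 0) (cs (lf (nat_lit 35) (nat_lit 159)) (nd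 (nat_lit 179) (nat_lit 0) (cs (rf (nat_lit 0)) (lf (nat_lit 4) (nat_lit 179))))))))))) q50379 (by decide +kernel)
def q50417 : Q := Q.p (nat_lit 0x1e0000000000000000000000000000000000000000000000000000000000000) (nat_lit 0xe0000100000e0000000000000000000000000000000000000000000000000000000) (nat_lit 4)
theorem c50417 : QOK q50417 := cut [q49911] ⟨c49911, trivial⟩ (nd (nat_lit 266) (nat_lit 0) (cs (lf (nat_lit 10) (nat_lit 244)) (nd (nat_lit 244) (nat_lit 0) (cs (lf (nat_lit 11) (nat_lit 243)) (rf (nat_lit 0)))))) q50417 (by decide +kernel)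
def q50451 : Q := Q.p (nat_lit 0x1000000c0000200000c00000000000000000000000000000000000000000000000000) (nat_lit 0x100000e0000000000000000000001000000000000000000000000000000000000000000000) (nat_lit 3)
theorem c50451 : QOK q50451 := cut [q49197] ⟨c49197, trivial⟩ (nd (nat_lit 269) (nat_lit 0) (cs (lf (nat_lit 47) (nat_lit 180)) (rf (nat_lit 0)))) q50451 (by decide +kernel)
def q50456 : Q := Q.p (nat_lit 0x40000100000600001800000000000000000000000000000000000000000000000000) (nat_lit 0x10000e000008000000000000000000000000000000000000000000000) (nat_lit 3)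
theorem c50456 : QOK q50456 := cut [q47255] ⟨c47255, trivial⟩ (nd (nat_lit 205) (nat_lit 0) (cs (lf (nat_lit 35) (nat_lit 182)) (rf (nat_lit 0)))) q50456 (by decide +kernel)
def q50466 : Q := Q.p (nat_lit 0x40000100000c0000300000000000000000000000000000000000000000000000000000000) (nat_lit 0x800002000028000000000000000400001000004000000000000000000000000000000000000000) (nat_lit 4)
theorem c50466 : QOK q50466 := cut [q49330] ⟨c49330, trivial⟩ (nd (nat_lit 289) (nat_lit 0) (cs (lf (nat_lit 41) (nat_lit 223)) (nd (nat_lit 202) (nat_lit 0) (cs (rf (nat_lit 0)) (lf (nat_lit 40) (nat_lit 201)))))) q50466 (by decide +kernel)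
def q50474 : Q := Q.p (nat_lit 0x40000100000c0000300000000000000000000000000000000000000000000000000000000) (nat_lit 0x38001ce0007380000000000000000000000000000000000000000000000000) (nat_lit 8)
theorem c50474 : QOK q50474 := cut [q50473] ⟨c50473, trivial⟩ (nd (nat_lit 223) (nat_lit 0) (cs (lf (nat_lit 47) (nat_lit 201)) (rf (nat_lit 0)))) q50474 (by decide +kernel)
def q50504 : Q := Q.p (nat_lit 0x60000780000000000000000000000000000000000000000000000000000000) (nat_lit 0x10000000000000000300000800002000000000000000000000000000000000000000) (nat_lit 3)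
theorem c50504 : QOK q50504 := cut [q50503] ⟨c50503, trivial⟩ (nd (nat_lit 201) (nat_lit 0) (cs (lf (nat_lit 23) (nat_lit 200)) (rf (nat_lit 0)))) q50504 (by decide +kernel)
def q50509 : Q := Q.p (nat_lit 0x200000c0000600000000000000000000000000000000000000000000000000000000) (nat_lit 0x2000008000000000000000100001400000000000000000000000000000000000000000000000000) (nat_lit 3)
theorem c50509 : QOK q50509 := cut [q50184] ⟨c50184, trivial⟩ (nd (nat_lit 291) (nat_lit 0) (cs (lf (nat_lit 35) (nat_lit 203)) (rf (nat_lit 0)))) q50509 (by decide +kernel)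
def q50523 : Q := Q.p (nat_lit 0x1200004c0000200000800040000000000000000000000000000000000000000000000) (nat_lit 0x280000c000000000110000f4000bd0000e0000080000000000000000000000000000000000) (nat_lit 10)
theorem c50523 : QOK q50523 := cut [q45682, q44549] ⟨c45682, c44549, trivial⟩ (nd (nat_lit 224) (nat_lit 0) (cs (rf (nat_lit 0)) (nd (nat_lit 271) (nat_lit 0) (cs (lf (nat_lit 20) (nat_lit 246)) (nd (nat_lit 204) (nat_lit 0) (cs (lf (nat_lit 35) (nat_lit 181)) (nd (nat_lit 206) (nat_lit 0) (cs (lf (nat_lit 7) (nat_lit 202)) (nd (nat_lit 228) (nat_lit 0) (cs (lf (nat_lit 41) (nat_lit 205)) (rf (nat_lit 1)))))))))))) q50523 (by decide +kernel)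
def q50557 : Q := Q.p (nat_lit 0x4000010000040000100000000000000000000000000000000000000000000000000000000) (nat_lit 0x2000008000020000000000080000600000800000000000000000000000000000000000000000000) (nat_lit 4)
theorem c50557 : QOK q50557 := cut [q50554] ⟨c50554, trivial⟩ (nd (nat_lit 291) (nat_lit 0) (cs (lf (nat_lit 29) (nat_lit 224)) (nd (nat_lit 202) (nat_lit 0) (cs (rf (nat_lit 0)) (lf (nat_lit 28) (nat_lit 202)))))) q50557 (by decide +kernel)
def q50567 : Q := Q.p (nat_lit 0x4000010000040000100000000000000000000000000000000000000000000000000000000) (nat_lit 0x280000a000028000000000000000400000000000000000000000000000000000000000000000000) (nat_lit 4)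
theorem c50567 : QOK q50567 := cut [q49341] ⟨c49341, trivial⟩ (nd (nat_lit 291) (nat_lit 0) (cs (lf (nat_lit 29) (nat_lit 224)) (nd (nat_lit 202) (nat_lit 0) (cs (rf (nat_lit 0)) (lf (nat_lit 28) (nat_lit 202)))))) q50567 (by decide +kernel)
def q50579 : Q := Q.p (nat_lit 0x6000010000040000100000000000000000000000000000000000000000000000000000000) (nat_lit 0x8000000000080000600000800000000000000000000000000000000000000000000) (nat_lit 3)
theorem c50579 : QOK q50579 := cut [q50554] ⟨c50554, trivial⟩ (nd (nat_lit 202) (nat_lit 0) (cs (lf (nat_lit 40) (nat_lit 201)) (rf (nat_lit 0)))) q50579 (by decide +kernel)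
def q50632 : Q := Q.p (nat_lit 0x80000200000c0000300000000000000000000000000000000000000000000000000000000) (nat_lit 0x10000000000400001800006000008000000000000000000000000000000000000000) (nat_lit 4)
theorem c50632 : QOK q50632 := cut [q50630] ⟨c50630, trivial⟩ (nd (nat_lit 204) (nat_lit 0) (cs (lf (nat_lit 34) (nat_lit 203)) (nd (nat_lit 203) (nat_lit 0) (cs (lf (nat_lit 35) (nat_lit 181)) (rf (nat_lit 0)))))) q50632 (by decide +kernel)
def q50683 : Q := Q.p (nat_lit 0x200000c0000100000000000000000000000000000000000000000000000000000000) (nat_lit 0x2000008000000000000000200000400001000000000000000000000000000000000000000000000) (nat_lit 3)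
theorem c50683 : QOK q50683 := cut [q49170] ⟨c49170, trivial⟩ (nd (nat_lit 291) (nat_lit 0) (cs (lf (nat_lit 42) (nat_lit 224)) (rf (nat_lit 0)))) q50683 (by decide +kernel)
def q50685 : Q := Q.p (nat_lit 0x10000060000080000000000000000000000000000000000000000000000000000000000000) (nat_lit 0x1000004000000000000000100000200000800000000000000000000000000000000000000000000000000) (nat_lit 3)
theorem c50685 : QOK q50685 := cut [q49315] ⟨c49315, trivial⟩ (nd (nat_lit 225) (nat_lit 0) (cs (lf (nat_lit 24) (nat_lit 203)) (rf (nat_lit 0)))) q50685 (by decide +kernel)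
def q50699 : Q := Q.p (nat_lit 0x78000060000000000000000000000000000000000000000000000000000000000000) (nat_lit 0x800003000000000000000100000400000000000000000000000000000000000000000000000000) (nat_lit 3)
theorem c50699 : QOK q50699 := cut [q50698] ⟨c50698, trivial⟩ (nd (nat_lit 289) (nat_lit 0) (cs (lf (nat_lit 11) (nat_lit 266)) (rf (nat_lit 0)))) q50699 (by decide +kernel)
def q50775 : Q := Q.p (nat_lit 0xf0000300000000000000000000000000000000000000000000000000000000) (nat_lit 0x100001000000e0001980002000008000000000000000000000000000000000000000) (nat_lit 6)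
theorem c50775 : QOK q50775 := cut [q50630] ⟨c50630, trivial⟩ (nd (nat_lit 222) (nat_lit 0) (cs (lf (nat_lit 23) (nat_lit 221)) (nd (nat_lit 223) (nat_lit 0) (cs (lf (nat_lit 18) (nat_lit 222)) (nd (nat_lit 199) (nat_lit 0) (cs (lf (nat_lit 22) (nat_lit 199)) (nd (nat_lit 203) (nat_lit 0) (cs (lf (nat_lit 17) (nat_lit 200)) (rf (nat_lit 0)))))))))) q50775 (by decide +kernel)
def q50783 : Q := Q.p (nat_lit 0x200000e0000300000000000000000000000000000000000000000000000000000000) (nat_lit 0x60000180000080001180000e0000180000400001000000000000000000000000000000000000000) (nat_lit 8)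
theorem c50783 : QOK q50783 := cut [q50779] ⟨c50779, trivial⟩ (nd (nat_lit 244) (nat_lit 0) (cs (lf (nat_lit 12) (nat_lit 221)) (nd (nat_lit 291) (nat_lit 0) (cs (lf (nat_lit 42) (nat_lit 224)) (nd (nat_lit 222) (nat_lit 0) (cs (lf (nat_lit 23) (nat_lit 221)) (nd (nat_lit 292) (nat_lit 0) (cs (lf (nat_lit 29) (nat_lit 225)) (rf (nat_lit 0)))))))))) q50783 (by decide +kernel)
def q50816 : Q := Q.p (nat_lit 0x80000200000c0000200000000000000000000000000000000000000000000000000000000) (nat_lit 0x130001c00001000000000000000000000000000000000000000000000000000) (nat_lit 4)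
theorem c50816 : QOK q50816 := cut [q50310] ⟨c50310, trivial⟩ (nd (nat_lit 226) (nat_lit 0) (cs (lf (nat_lit 35) (nat_lit 203)) (rf (nat_lit 0)))) q50816 (by decide +kernel)
def q50853 : Q := Q.p (nat_lit 0x40000100000c0000000000000000000000000000000000000000000000000000000000000) (nat_lit 0x1000000000020000000000200000800002000000000000000000000000000000000000000000000) (nat_lit 3)
theorem c50853 : QOK q50853 := cut [q49354] ⟨c49354, trivial⟩ (nd (nat_lit 225) (nat_lit 0) (cs (lf (nat_lit 30) (nat_lit 224)) (rf (nat_lit 0)))) q50853 (by decide +kernel)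
def q50856 : Q := Q.p (nat_lit 0x40000100000c0000000000000000000000000000000000000000000000000000000000000) (nat_lit 0x1000000000000000000000300000800002000000000000000000000000000000000000000000000) (nat_lit 3)
theorem c50856 : QOK q50856 := cut [q50855] ⟨c50855, trivial⟩ (nd (nat_lit 225) (nat_lit 0) (cs (lf (nat_lit 30) (nat_lit 224)) (rf (nat_lit 0)))) q50856 (by decide +kernel)
def q50858 : Q := Q.p (nat_lit 0x40000300000c0000080000000000000000000000000000000000000000000000000000000) (nat_lit 0x8000000000000000100000600001000000000000000000000000000000000000000000000) (nat_lit 3)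
theorem c50858 : QOK q50858 := cut [q50857] ⟨c50857, trivial⟩ (nd (nat_lit 224) (nat_lit 0) (cs (lf (nat_lit 47) (nat_lit 201)) (rf (nat_lit 0)))) q50858 (by decide +kernel)
def q50866 : Q := Q.p (nat_lit 0x1000004000010000040000000000000000000000000000000000000000000000000000000000000) (nat_lit 0xa0000280000a000000000000000100000000000000000000000000000000000000000000000000000000) (nat_lit 4)
theorem c50866 : QOK q50866 := cut [q49490] ⟨c49490, trivial⟩ (nd (nat_lit 313) (nat_lit 0) (cs (nd (nat_lit 224) (nat_lit 0) (cs (rf (nat_lit 0)) (lf (nat_lit 28) (nat_lit 224)))) (lf (nat_lit 29) (nat_lit 246)))) q50866 (by decide +kernel)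
def q50869 : Q := Q.p (nat_lit 0x10000040001100000c0000000000000000000000000000000000000000000000000000000000000) (nat_lit 0x4000000000000000e0000030000080000000000000000000000000000000000000000000000000000000) (nat_lit 4)
theorem c50869 : QOK q50869 := cut [q50868] ⟨c50868, trivial⟩ (nd (nat_lit 269) (nat_lit 0) (cs (lf (nat_lit 30) (nat_lit 246)) (rf (nat_lit 0)))) q50869 (by decide +kernel)
def q50876 : Q := Q.p (nat_lit 0x3c0000c0000000000000000000000000000000000000000000000000000000000000) (nat_lit 0x2000018000000000000000100000400000000000000000000000000000000000000000000000000) (nat_lit 3)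
theorem c50876 : QOK q50876 := cut [q50589] ⟨c50589, trivial⟩ (nd (nat_lit 291) (nat_lit 0) (cs (lf (nat_lit 5) (nat_lit 266)) (rf (nat_lit 0)))) q50876 (by decide +kernel)
def q50881 : Q := Q.p (nat_lit 0x1300000c0000000000000000000000000000000000000000000000000000000000000) (nat_lit 0x100000400003b8000ce000000000200000800000000000000000000000000000000000000000000000000) (nat_lit 6)
theorem c50881 : QOK q50881 := cut [q50692, q50874] ⟨c50692, c50874, trivial⟩ (nd (nat_lit 270) (nat_lit 0) (cs (lf (nat_lit 19) (nat_lit 246)) (nd (nat_lit 267) (nat_lit 0) (cs (nd (nat_lit 292) (nat_lit 0) (cs (lf (nat_lit 5) (nat_lit 267)) (rf (nat_lit 0)))) (rf (nat_lit 1)))))) q50881 (by decide +kernel)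
def q50939 : Q := Q.p (nat_lit 0x1380000c0000000000000000000000000000000000000000000000000000000000000) (nat_lit 0x8000030000c0000030000100000400000000000000000000000000000000000000000000000000) (nat_lit 5)
theorem c50939 : QOK q50939 := cut [q50698] ⟨c50698, trivial⟩ (nd (nat_lit 270) (nat_lit 0) (cs (lf (nat_lit 19) (nat_lit 246)) (nd (nat_lit 289) (nat_lit 0) (cs (lf (nat_lit 11) (nat_lit 266)) (nd (nat_lit 245) (nat_lit 0) (cs (lf (nat_lit 23) (nat_lit 244)) (rf (nat_lit 0)))))))) q50939 (by decide +kernel)
def q50945 : Q := Q.p (nat_lit 0x4000010000040000100000000000000000000000000000000000000000000000000000000) (nat_lit 0x800002000008000000000200000c00002000000000000000000000000000000000000000000000) (nat_lit 4)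
theorem c50945 : QOK q50945 := cut [q49341] ⟨c49341, trivial⟩ (nd (nat_lit 203) (nat_lit 0) (cs (nd (nat_lit 202) (nat_lit 0) (cs (rf (nat_lit 0)) (lf (nat_lit 35) (nat_lit 180)))) (lf (nat_lit 34) (nat_lit 202)))) q50945 (by decide +kernel)
def q50957 : Q := Q.p (nat_lit 0x1000004000010000040000000000000000000000000000000000000000000000000000000000000) (nat_lit 0x800002000008000000000020000180000200000000000000000000000000000000000000000000000000) (nat_lit 4)
theorem c50957 : QOK q50957 := cut [q50955] ⟨c50955, trivial⟩ (nd (nat_lit 313) (nat_lit 0) (cs (lf (nat_lit 29) (nat_lit 246)) (nd (nat_lit 224) (nat_lit 0) (cs (lf (nat_lit 28) (nat_lit 224)) (rf (nat_lit 0)))))) q50957 (by decide +kernel)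
def q50985 : Q := Q.p (nat_lit 0x300000c0000200000800000000000000000000000000000000000000000000000000) (nat_lit 0x1800006000018000000000000000400001000004000000000000000000000000000000000000000000000) (nat_lit 5)
theorem c50985 : QOK q50985 := cut [q50539] ⟨c50539, trivial⟩ (nd (nat_lit 204) (nat_lit 0) (cs (lf (nat_lit 35) (nat_lit 181)) (nd (nat_lit 291) (nat_lit 0) (cs (lf (nat_lit 34) (nat_lit 203)) (rf (nat_lit 0)))))) q50985 (by decide +kernel)
def q51003 : Q := Q.p (nat_lit 0xc000030000080000200000000000000000000000000000000000000000000000000000000) (nat_lit 0x400003000000c000000000400001000000000000000000000000000000000000000000000000000) (nat_lit 4)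
theorem c51003 : QOK q51003 := cut [q50585] ⟨c50585, trivial⟩ (nd (nat_lit 204) (nat_lit 0) (cs (lf (nat_lit 34) (nat_lit 203)) (rf (nat_lit 0)))) q51003 (by decide +kernel)
def q51076 : Q := Q.p (nat_lit 0x1800014000000000000000000000000000000000000000000000000000000000000000000000000) (nat_lit 0x60002a000000000000000000000000000000000000000000000000000000000000000000000000) (nat_lit 3)
theorem c51076 : QOK q51076 := cut [q51075] ⟨c51075, trivial⟩ (nd (nat_lit 291) (nat_lit 0) (cs (lf (nat_lit 6) (nat_lit 289)) (rf (nat_lit 0)))) q51076 (by decide +kernel)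
def q51083 : Q := Q.p (nat_lit 0x3c00000000000000000000000000000000000000000000000000000000000000000000000000000) (nat_lit 0x1c0000200001c00000000000000000000000000000000000000000000000000000000000000000000000) (nat_lit 4)
theorem c51083 : QOK q51083 := cut [q51079] ⟨c51079, trivial⟩ (nd (nat_lit 331) (nat_lit 0) (cs (nd (nat_lit 309) (nat_lit 0) (cs (rf (nat_lit 0)) (lf (nat_lit 11) (nat_lit 308)))) (lf (nat_lit 10) (nat_lit 309)))) q51083 (by decide +kernel)
def q51115 : Q := Q.p (nat_lit 0x4000010000040000100000000000000000000000000000000000000000000000000000000) (nat_lit 0x2000008000020000000000200000c00002000000000000000000000000000000000000000000000) (nat_lit 4)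
theorem c51115 : QOK q51115 := cut [q51113] ⟨c51113, trivial⟩ (nd (nat_lit 291) (nat_lit 0) (cs (lf (nat_lit 29) (nat_lit 224)) (nd (nat_lit 202) (nat_lit 0) (cs (lf (nat_lit 28) (nat_lit 202)) (rf (nat_lit 0)))))) q51115 (by decide +kernel)
def q51144 : Q := Q.p (nat_lit 0x10000040000180000000000000000000000000000000000000000000000000000000) (nat_lit 0x4000000000020000000000200000800002000000000000000000000000000000000000000) (nat_lit 3)
theorem c51144 : QOK q51144 := cut [q51143] ⟨c51143, trivial⟩ (nd (nat_lit 201) (nat_lit 0) (cs (lf (nat_lit 42) (nat_lit 201)) (rf (nat_lit 0)))) q51144 (by decide +kernel)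
def q51158 : Q := Q.p (nat_lit 0x10000040000100000400000000000000000000000000000000000000000000000000) (nat_lit 0x2000008000020000000000800003000008000000000000000000000000000000000000000) (nat_lit 4)
theorem c51158 : QOK q51158 := cut [q51156] ⟨c51156, trivial⟩ (nd (nat_lit 267) (nat_lit 0) (cs (lf (nat_lit 41) (nat_lit 201)) (nd (nat_lit 180) (nat_lit 0) (cs (lf (nat_lit 40) (nat_lit 179)) (rf (nat_lit 0)))))) q51158 (by decide +kernel)
def q51188 : Q := Q.p (nat_lit 0x80000200000e0000200000000000000000000000000000000000000000000000000000000) (nat_lit 0x1d00001000000000000000000000000000000000000000000000000000) (nat_lit 3)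
theorem c51188 : QOK q51188 := cut [q49239] ⟨c49239, trivial⟩ (nd (nat_lit 226) (nat_lit 0) (cs (lf (nat_lit 35) (nat_lit 203)) (rf (nat_lit 0)))) q51188 (by decide +kernel)
def q51217 : Q := Q.p (nat_lit 0x20000180000e0000000000000000000000000000000000000000000000000000000000000) (nat_lit 0x600001800004000000000000000280000000000000000000000000000000000000000000000000000000) (nat_lit 4)
theorem c51217 : QOK q51217 := cut [q50090] ⟨c50090, trivial⟩ (nd (nat_lit 311) (nat_lit 0) (cs (lf (nat_lit 30) (nat_lit 245)) (nd (nat_lit 312) (nat_lit 0) (cs (lf (nat_lit 29) (nat_lit 245)) (rf (nat_lit 0)))))) q51217 (by decide +kernel)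
def q51268 : Q := Q.p (nat_lit 0xe0000000000000000000000000000000000000000000000000000000000000) (nat_lit 0xff000118001f00000000000000000000000000000000000000000000000000000000) (nat_lit 6)
theorem c51268 : QOK q51268 := cut [q49920, q51267] ⟨c49920, c51267, trivial⟩ (nd (nat_lit 226) (nat_lit 0) (cs (nd (nat_lit 248) (nat_lit 0) (cs (lf (nat_lit 17) (nat_lit 223)) (nd (nat_lit 266) (nat_lit 0) (cs (lf (nat_lit 10) (nat_lit 244)) (nd (nat_lit 244) (nat_lit 0) (cs (lf (nat_lit 11) (nat_lit 243)) (nd (nat_lit 270) (nat_lit 0) (cs (lf (nat_lit 5) (nat_lit 245)) (lf (nat_lit 4) (nat_lit 244)))))))))) (cs (nd (nat_lit 244) (nat_lit 0) (cs (lf (nat_lit 16) (nat_lit 222)) (rf (nat_lit 0)))) (rf (nat_lit 1))))) q51268 (by decide +kernel)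
def q51283 : Q := Q.p (nat_lit 0x2000010000040000100000400000000000000000000000000000000000000000000000000000000) (nat_lit 0x280000c000020000000000000000000000000000000000000000000000000000000000000000000000000) (nat_lit 3)
theorem c51283 : QOK q51283 := cut [q51282] ⟨c51282, trivial⟩ (nd (nat_lit 314) (nat_lit 0) (cs (lf (nat_lit 41) (nat_lit 247)) (rf (nat_lit 0)))) q51283 (by decide +kernel)
def q51294 : Q := Q.p (nat_lit 0x1e0000000000000000000000000000000000000000000000000000000000000) (nat_lit 0xe000010000e00000000000000000000000000000000000000000000000000000000) (nat_lit 4)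
theorem c51294 : QOK q51294 := cut [q51292] ⟨c51292, trivial⟩ (nd (nat_lit 266) (nat_lit 0) (cs (lf (nat_lit 10) (nat_lit 244)) (nd (nat_lit 244) (nat_lit 0) (cs (lf (nat_lit 11) (nat_lit 243)) (rf (nat_lit 0)))))) q51294 (by decide +kernel)
def q51300 : Q := Q.p (nat_lit 0x1400030c0000000000000000000000000000000000000000000000000000000000000) (nat_lit 0x6a0000100000000000000000000000000000000000000000000000000000000000000) (nat_lit 3)
theorem c51300 : QOK q51300 := cut [q51299] ⟨c51299, trivial⟩ (nd (nat_lit 271) (nat_lit 0) (cs (lf (nat_lit 21) (nat_lit 246)) (rf (nat_lit 0)))) q51300 (by decide +kernel)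
def q51301 : Q := Q.p (nat_lit 0x100000400001e0000000000000000000000000000000000000000000000000000000000000) (nat_lit 0x4000000000000000000000e00000800000000000000000000000000000000000000000000000000) (nat_lit 3)
theorem c51301 : QOK q51301 := cut [q986] ⟨c986, trivial⟩ (nd (nat_lit 226) (nat_lit 0) (cs (rf (nat_lit 0)) (lf (nat_lit 17) (nat_lit 223)))) q51301 (by decide +kernel)
def q51303 : Q := Q.p (nat_lit 0x10000040000180000000000000000000000000000000000000000000000000000000000000) (nat_lit 0x4000000000020000000000200000800002000000000000000000000000000000000000000000000) (nat_lit 3)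
theorem c51303 : QOK q51303 := cut [q51302] ⟨c51302, trivial⟩ (nd (nat_lit 225) (nat_lit 0) (cs (lf (nat_lit 42) (nat_lit 225)) (rf (nat_lit 0)))) q51303 (by decide +kernel)
def q51305 : Q := Q.p (nat_lit 0x18000040000100000400000000000000000000000000000000000000000000000000000000) (nat_lit 0x20000000000200001800002000000000000000000000000000000000000000000000) (nat_lit 3)
theorem c51305 : QOK q51305 := cut [q46589] ⟨c46589, trivial⟩ (nd (nat_lit 204) (nat_lit 0) (cs (lf (nat_lit 40) (nat_lit 203)) (rf (nat_lit 0)))) q51305 (by decide +kernel)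
def q51322 : Q := Q.p (nat_lit 0x2000008000060000000000000000000000000000000000000000000000000000000000000) (nat_lit 0x500001c00005000000000000000180000000000000000000000000000000000000000000000000000000) (nat_lit 5)
theorem c51322 : QOK q51322 := cut [q49944] ⟨c49944, trivial⟩ (nd (nat_lit 311) (nat_lit 0) (cs (lf (nat_lit 35) (nat_lit 223)) (nd (nat_lit 310) (nat_lit 0) (cs (lf (nat_lit 41) (nat_lit 244)) (nd (nat_lit 223) (nat_lit 0) (cs (lf (nat_lit 40) (nat_lit 222)) (rf (nat_lit 0)))))))) q51322 (by decide +kernel)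
def q51324 : Q := Q.p (nat_lit 0x2000008000020000080000000000000000000000000000000000000000000000000000000) (nat_lit 0x1000004000010000000000040000300000400000000000000000000000000000000000000000000) (nat_lit 4)
theorem c51324 : QOK q51324 := cut [q49661] ⟨c49661, trivial⟩ (nd (nat_lit 290) (nat_lit 0) (cs (lf (nat_lit 29) (nat_lit 223)) (nd (nat_lit 201) (nat_lit 0) (cs (lf (nat_lit 28) (nat_lit 201)) (rf (nat_lit 0)))))) q51324 (by decide +kernel)
def q51335 : Q := Q.p (nat_lit 0x2000008000060000000000000000000000000000000000000000000000000000000000000) (nat_lit 0x300000c000010000100000000001c0000300000c00000000000000000000000000000000000000000000) (nat_lit 7)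
theorem c51335 : QOK q51335 := cut [q51332] ⟨c51332, trivial⟩ (nd (nat_lit 311) (nat_lit 0) (cs (lf (nat_lit 35) (nat_lit 223)) (nd (nat_lit 310) (nat_lit 0) (cs (lf (nat_lit 41) (nat_lit 244)) (nd (nat_lit 223) (nat_lit 0) (cs (lf (nat_lit 40) (nat_lit 222)) (rf (nat_lit 0)))))))) q51335 (by decide +kernel)
def q51346 : Q := Q.p (nat_lit 0x2000008000060000000000000000000000000000000000000000000000000000000000000) (nat_lit 0x6000018000040000100000000001c0000300000c00000000000000000000000000000000000000000000) (nat_lit 7)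
theorem c51346 : QOK q51346 := cut [q51332] ⟨c51332, trivial⟩ (nd (nat_lit 311) (nat_lit 0) (cs (lf (nat_lit 35) (nat_lit 223)) (nd (nat_lit 312) (nat_lit 0) (cs (lf (nat_lit 29) (nat_lit 245)) (nd (nat_lit 223) (nat_lit 0) (cs (lf (nat_lit 28) (nat_lit 223)) (rf (nat_lit 0)))))))) q51346 (by decide +kernel)
def q51399 : Q := Q.p (nat_lit 0x80000600000e0000000000000000000000000000000000000000000000000000000000000) (nat_lit 0x100001f00001400000000000000000000000000000000000000000000000000) (nat_lit 4)
theorem c51399 : QOK q51399 := cut [q51267] ⟨c51267, trivial⟩ (nd (nat_lit 226) (nat_lit 0) (cs (rf (nat_lit 0)) (cs (nd (nat_lit 225) (nat_lit 0) (cs (lf (nat_lit 35) (nat_lit 203)) (nd (nat_lit 224) (nat_lit 0) (cs (lf (nat_lit 47) (nat_lit 202)) (lf (nat_lit 6) (nat_lit 223)))))) (cs (nd (nat_lit 248) (nat_lit 0) (cs (lf (nat_lit 36) (nat_lit 203)) (lf (nat_lit 17) (nat_lit 223)))) (nd (nat_lit 204) (nat_lit 0) (cs (lf (nat_lit 38) (nat_lit 203)) (lf (nat_lit 33) (nat_lit 203)))))))) q51399 (by decide +kernel)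
def q51453 : Q := Q.p (nat_lit 0x10000060000080000000000000000000000000000000000000000000000000000000) (nat_lit 0x1000004000008000000000000000200000800000000000000000000000000000000000000000000) (nat_lit 3)
theorem c51453 : QOK q51453 := cut [q50613] ⟨c50613, trivial⟩ (nd (nat_lit 201) (nat_lit 0) (cs (lf (nat_lit 24) (nat_lit 179)) (rf (nat_lit 0)))) q51453 (by decide +kernel)
def q51479 : Q := Q.p (nat_lit 0x100000580000000000000000000000000000000000000000000000000000000000000) (nat_lit 0x238000240003800000000000000000000000000000000000000000000000000000000) (nat_lit 5)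
theorem c51479 : QOK q51479 := cut [q51478] ⟨c51478, trivial⟩ (nd (nat_lit 249) (nat_lit 0) (cs (lf (nat_lit 5) (nat_lit 247)) (rf (nat_lit 0)))) q51479 (by decide +kernel)
def q51492 : Q := Q.p (nat_lit 0x120000580000200000800040000000000000000000000000000000000000000000000) (nat_lit 0x1000004000000000150000f40003d000000000000000000000000000000000000000000000) (nat_lit 6)
theorem c51492 : QOK q51492 := cut [q47401, q51487] ⟨c47401, c51487, trivial⟩ (nd (nat_lit 204) (nat_lit 0) (cs (lf (nat_lit 35) (nat_lit 181)) (nd (nat_lit 205) (nat_lit 0) (cs (rf (nat_lit 0)) (cs (rf (nat_lit 1)) (nd (nat_lit 270) (nat_lit 0) (cs (lf (nat_lit 29) (nat_lit 203)) (nd (nat_lit 183) (nat_lit 0) (cs (lf (nat_lit 32) (nat_lit 182)) (nd (nat_lit 206) (nat_lit 0) (cs (lf (nat_lit 11) (nat_lit 202)) (lf (nat_lit 44) (nat_lit 183))))))))))))) q51492 (by decide +kernel)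
def q51494 : Q := Q.p (nat_lit 0x180000200000800000000000000000000000000000000000000000000000000) (nat_lit 0x50000040000500000000002000008000000000000000000000000000000000000000) (nat_lit 4)
theorem c51494 : QOK q51494 := cut [q38122] ⟨c38122, trivial⟩ (nd (nat_lit 181) (nat_lit 0) (cs (lf (nat_lit 29) (nat_lit 181)) (rf (nat_lit 0)))) q51494 (by decide +kernel)
def q51497 : Q := Q.p (nat_lit 0x100000780000000000000000000000000000000000000000000000000000000000000) (nat_lit 0x40000000000040003800002000008000000000000000000000000000000000000000000000) (nat_lit 4)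
theorem c51497 : QOK q51497 := cut [q51495] ⟨c51495, trivial⟩ (nd (nat_lit 228) (nat_lit 0) (cs (lf (nat_lit 17) (nat_lit 225)) (nd (nat_lit 227) (nat_lit 0) (cs (lf (nat_lit 12) (nat_lit 224)) (rf (nat_lit 0)))))) q51497 (by decide +kernel)
def q51502 : Q := Q.p (nat_lit 0x60000180000200000800000000000000000000000000000000000000000000000000) (nat_lit 0xc0000300000c000000000000000400001000004000000000000000000000000000000000000000000000) (nat_lit 5)
theorem c51502 : QOK q51502 := cut [q51499] ⟨c51499, trivial⟩ (nd (nat_lit 204) (nat_lit 0) (cs (lf (nat_lit 35) (nat_lit 181)) (nd (nat_lit 291) (nat_lit 0) (cs (lf (nat_lit 37) (nat_lit 203)) (nd (nat_lit 312) (nat_lit 0) (cs (lf (nat_lit 40) (nat_lit 224)) (rf (nat_lit 0)))))))) q51502 (by decide +kernel)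
def q51529 : Q := Q.p (nat_lit 0x180000200000800002000000000000000000000000000000000000000000000) (nat_lit 0x40000000000100000c000010000000000000000000000000000000000) (nat_lit 3)
theorem c51529 : QOK q51529 := cut [q49208] ⟨c49208, trivial⟩ (nd (nat_lit 158) (nat_lit 0) (cs (lf (nat_lit 46) (nat_lit 158)) (rf (nat_lit 0)))) q51529 (by decide +kernel)
def q51540 : Q := Q.p (nat_lit 0x780000200000800000000000000000000000000000000000000000000000000) (nat_lit 0x30000000003000001400007000014000000000000000000000000000000000000000) (nat_lit 6)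
theorem c51540 : QOK q51540 := cut [q51538] ⟨c51538, trivial⟩ (nd (nat_lit 269) (nat_lit 0) (cs (lf (nat_lit 11) (nat_lit 246)) (nd (nat_lit 228) (nat_lit 0) (cs (lf (nat_lit 17) (nat_lit 225)) (rf (nat_lit 0)))))) q51540 (by decide +kernel)
def q51653 : Q := Q.p (nat_lit 0x20000780000000000000000000000000000000000000000000000000000000) (nat_lit 0x8000000000800000700001000004000000000000000000000000000000000000000) (nat_lit 4)
theorem c51653 : QOK q51653 := cut [q51650] ⟨c51650, trivial⟩ (nd (nat_lit 201) (nat_lit 0) (cs (lf (nat_lit 23) (nat_lit 200)) (nd (nat_lit 202) (nat_lit 0) (cs (rf (nat_lit 0)) (lf (nat_lit 18) (nat_lit 201)))))) q51653 (by decide +kernel)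
def q51683 : Q := Q.p (nat_lit 0x180000600000000000000000000000000000000000000000000000000000000) (nat_lit 0x780001e00007c0000700009c0007780005800000000000000000000000000000000000000000000) (nat_lit 11)
theorem c51683 : QOK q51683 := cut [q40907, q51403] ⟨c40907, c51403, trivial⟩ (nd (nat_lit 269) (nat_lit 0) (cs (rf (nat_lit 0)) (cs (nd (nat_lit 291) (nat_lit 0) (cs (lf (nat_lit 30) (nat_lit 225)) (nd (nat_lit 292) (nat_lit 0) (cs (lf (nat_lit 29) (nat_lit 225)) (nd (nat_lit 290) (nat_lit 0) (cs (lf (nat_lit 41) (nat_lit 224)) (nd (nat_lit 224) (nat_lit 0) (cs (lf (nat_lit 47) (nat_lit 202)) (nd (nat_lit 223) (nat_lit 0) (cs (lf (nat_lit 0) (nat_lit 222)) (nd (nat_lit 200) (nat_lit 0) (cs (lf (nat_lit 22) (nat_lit 200)) (nd (nat_lit 245) (nat_lit 0) (cs (lf (nat_lit 11) (nat_lit 222)) (nd (nat_lit 227) (nat_lit 0) (cs (lf (nat_lit 10) (nat_lit 223)) (nd (nat_lit 205) (nat_lit 0) (cs (lf (nat_lit 17) (nat_lit 202)) (lf (nat_lit 31) (nat_lit 204)))))))))))))))))))) (nd (nat_lit 224) (nat_lit 0) (cs (nd (nat_lit 204) (nat_lit 0) (cs (lf (nat_lit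 36) (nat_lit 181)) (nd (nat_lit 223) (nat_lit 0) (cs (lf (nat_lit 17) (nat_lit 201)) (lf (nat_lit 0) (nat_lit 222)))))) (cs (nd (nat_lit 246) (nat_lit 0) (cs (rf (nat_lit 1)) (cs (nd (nat_lit 245) (nat_lit 0) (cs (lf (nat_lit 12) (nat_lit 222)) (nd (nat_lit 182) (nat_lit 0) (cs (lf (nat_lit 37) (nat_lit 181)) (nd (nat_lit 267) (nat_lit 0) (cs (lf (nat_lit 11) (nat_lit 244)) (nd (nat_lit 202) (nat_lit 0) (cs (lf (nat_lit 36) (nat_lit 179)) (nd (nat_lit 289) (nat_lit 0) (cs (lf (nat_lit 30) (nat_lit 223)) (lf (nat_lit 39) (nat_lit 201)))))))))))) (nd (nat_lit 182) (nat_lit 0) (cs (lf (nat_lit 37) (nat_lit 181)) (nd (nat_lit 202) (nat_lit 0) (cs (lf (nat_lit 24) (nat_lit 180)) (nd (nat_lit 201) (nat_lit 0) (cs (lf (nat_lit 18) (nat_lit 201)) (nd (nat_lit 199) (nat_lit 0) (cs (lf (nat_lit 1) (nat_lit 199)) (nd (nat_lit 268) (nat_lit 0) (cs (lf (nat_lit 47) (nat_lit 179)) (nd (nat_lit 267) (nat_lit 0) (cs (lf (nat_lit 41) (nat_lit 201)) (lf (nat_lit 12) (nat_lit 244))))))))))))))))) (nd (nat_lit 223) (nat_lit 0) (cs (lf (nat_lit 0) (nat_lit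 222)) (nd (nat_lit 200) (nat_lit 0) (cs (lf (nat_lit 22) (nat_lit 200)) (nd (nat_lit 245) (nat_lit 0) (cs (lf (nat_lit 11) (nat_lit 222)) (nd (nat_lit 246) (nat_lit 0) (cs (lf (nat_lit 6) (nat_lit 223)) (nd (nat_lit 202) (nat_lit 0) (cs (lf (nat_lit 24) (nat_lit 180)) (nd (nat_lit 267) (nat_lit 0) (cs (lf (nat_lit 11) (nat_lit 244)) (lf (nat_lit 30) (nat_lit 201)))))))))))))))))))) q51683 (by decide +kernel)
def q51695 : Q := Q.p (nat_lit 0x20000080000200000e00000000000000000000000000000000000000000000000000) (nat_lit 0xe0001100004e00000000000000000000000000000000000000000000) (nat_lit 5)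
theorem c51695 : QOK q51695 := cut [q48757] ⟨c48757, trivial⟩ (nd (nat_lit 204) (nat_lit 0) (cs (lf (nat_lit 35) (nat_lit 181)) (rf (nat_lit 0)))) q51695 (by decide +kernel)
def q51713 : Q := Q.p (nat_lit 0x100000600000000002000000000000000000000000000000000000000000000000000) (nat_lit 0x10000040000000000000001800000000008000000000000000000000000000000000000000000000) (nat_lit 3)
theorem c51713 : QOK q51713 := cut [q45348] ⟨c45348, trivial⟩ (nd (nat_lit 227) (nat_lit 0) (cs (lf (nat_lit 24) (nat_lit 183)) (rf (nat_lit 0)))) q51713 (by decide +kernel)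
def q51725 : Q := Q.p (nat_lit 0x780000000000000000000000000000000000000000000000000000000) (nat_lit 0x38000040003800000000000000000000000000000000000000000000000000) (nat_lit 4)
theorem c51725 : QOK q51725 := cut [q50211] ⟨c50211, trivial⟩ (nd (nat_lit 244) (nat_lit 0) (cs (lf (nat_lit 10) (nat_lit 222)) (nd (nat_lit 222) (nat_lit 0) (cs (rf (nat_lit 0)) (lf (nat_lit 11) (nat_lit 221)))))) q51725 (by decide +kernel)
def q51753 : Q := Q.p (nat_lit 0x80000780000000000000000000000000000000000000000000000000000000) (nat_lit 0x4000018000070000000003700005c0001700001c000050000000000000000000000000000) (nat_lit 10)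
theorem c51753 : QOK q51753 := cut [q49994] ⟨c49994, trivial⟩ (nd (nat_lit 201) (nat_lit 0) (cs (lf (nat_lit 23) (nat_lit 200)) (nd (nat_lit 179) (nat_lit 0) (cs (nd (nat_lit 157) (nat_lit 0) (cs (nd (nat_lit 136) (nat_lit 0) (cs (nd (nat_lit 135) (nat_lit 0) (cs (lf (nat_lit 28) (nat_lit 135)) (lf (nat_lit 35) (nat_lit 113)))) (lf (nat_lit 34) (nat_lit 135)))) (lf (nat_lit 29) (nat_lit 157)))) (cs (nd (nat_lit 245) (nat_lit 0) (cs (lf (nat_lit 11) (nat_lit 222)) (nd (nat_lit 204) (nat_lit 0) (cs (lf (nat_lit 17) (nat_lit 201)) (nd (nat_lit 160) (nat_lit 0) (cs (lf (nat_lit 37) (nat_lit 159)) (rf (nat_lit 0)))))))) (cs (nd (nat_lit 245) (nat_lit 0) (cs (lf (nat_lit 11) (nat_lit 222)) (nd (nat_lit 204) (nat_lit 0) (cs (lf (nat_lit 17) (nat_lit 201)) (nd (nat_lit 160) (nat_lit 0) (cs (lf (nat_lit 37) (nat_lit 159)) (nd (nat_lit 156) (nat_lit 0) (cs (lf (nat_lit 46) (nat_lit 156)) (nd (nat_lit 180) (nat_lit 0) (cs (lf (nat_lit 35) (nat_lit 157)) (nd (nat_lit 268) (nat_lit 0) (cs (nd (nat_lit 267) (nat_lit 0) (cs (lf (nat_lit 34) (nat_lit 179))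 (lf (nat_lit 29) (nat_lit 201)))) (lf (nat_lit 28) (nat_lit 179)))))))))))))) (nd (nat_lit 244) (nat_lit 0) (cs (lf (nat_lit 10) (nat_lit 222)) (nd (nat_lit 204) (nat_lit 0) (cs (lf (nat_lit 17) (nat_lit 201)) (nd (nat_lit 160) (nat_lit 0) (cs (lf (nat_lit 37) (nat_lit 159)) (nd (nat_lit 157) (nat_lit 0) (cs (lf (nat_lit 29) (nat_lit 157)) (nd (nat_lit 135) (nat_lit 0) (cs (lf (nat_lit 28) (nat_lit 135)) (nd (nat_lit 134) (nat_lit 0) (cs (lf (nat_lit 47) (nat_lit 112)) (lf (nat_lit 46) (nat_lit 134)))))))))))))))))))) q51753 (by decide +kernel)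
def q51762 : Q := Q.p (nat_lit 0x180001e00000000000000000000000000000000000000000000000000000000) (nat_lit 0x40000000000000000c00002000008000000000000000000000000000000000000000) (nat_lit 3)
theorem c51762 : QOK q51762 := cut [q41265] ⟨c41265, trivial⟩ (nd (nat_lit 203) (nat_lit 0) (cs (lf (nat_lit 23) (nat_lit 202)) (rf (nat_lit 0)))) q51762 (by decide +kernel)
def q51768 : Q := Q.p (nat_lit 0x180000780000000000000000000000000000000000000000000000000000000) (nat_lit 0x40003800000700000000000000000000000000000000000000000000000000) (nat_lit 4)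
theorem c51768 : QOK q51768 := cut [q51574] ⟨c51574, trivial⟩ (nd (nat_lit 201) (nat_lit 0) (cs (lf (nat_lit 23) (nat_lit 200)) (nd (nat_lit 227) (nat_lit 0) (cs (lf (nat_lit 22) (nat_lit 201)) (rf (nat_lit 0)))))) q51768 (by decide +kernel)
def q51784 : Q := Q.p (nat_lit 0x1c0000780000000000000000000000000000000000000000000000000000000) (nat_lit 0x200000c000030000000000400001000000000000000000000000000000000000000000000) (nat_lit 4)
theorem c51784 : QOK q51784 := cut [q51783] ⟨c51783, trivial⟩ (nd (nat_lit 245) (nat_lit 0) (cs (lf (nat_lit 12) (nat_lit 222)) (rf (nat_lit 0)))) q51784 (by decide +kernel)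
def q51833 : Q := Q.p (nat_lit 0x80000380000000000000000000000000000000000000000000000000000000) (nat_lit 0x11c000060001c00000000000000000000000000000000000000000000000000) (nat_lit 5)
theorem c51833 : QOK q51833 := cut [q51832] ⟨c51832, trivial⟩ (nd (nat_lit 222) (nat_lit 0) (cs (lf (nat_lit 5) (nat_lit 222)) (rf (nat_lit 0)))) q51833 (by decide +kernel)
def q51837 : Q := Q.p (nat_lit 0x80000380000000000000000000000000000000000000000000000000000000) (nat_lit 0x1400000600001c0000000000000000000000000000000000000000000000000) (nat_lit 4)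
theorem c51837 : QOK q51837 := cut [q51835] ⟨c51835, trivial⟩ (nd (nat_lit 222) (nat_lit 0) (cs (lf (nat_lit 5) (nat_lit 222)) (nd (nat_lit 221) (nat_lit 0) (cs (lf (nat_lit 4) (nat_lit 221)) (rf (nat_lit 0)))))) q51837 (by decide +kernel)
def q51850 : Q := Q.p (nat_lit 0x100000480000200000800002000000000000000000000000000000000000000000000) (nat_lit 0x240000300000100000000000000000000000000000000000000000000000000000000) (nat_lit 3)
theorem c51850 : QOK q51850 := cut [q51475] ⟨c51475, trivial⟩ (nd (nat_lit 248) (nat_lit 0) (cs (lf (nat_lit 29) (nat_lit 181)) (rf (nat_lit 0)))) q51850 (by decide +kernel)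
def q52009 : Q := Q.p (nat_lit 0x180000600001800000000000000000000000000000000000000000000000000000000) (nat_lit 0xc000030000040000000000000002000008000000000000000000000000000000000000000000000) (nat_lit 4)
theorem c52009 : QOK q52009 := cut [q52007] ⟨c52007, trivial⟩ (nd (nat_lit 293) (nat_lit 0) (cs (lf (nat_lit 30) (nat_lit 227)) (nd (nat_lit 292) (nat_lit 0) (cs (lf (nat_lit 41) (nat_lit 226)) (rf (nat_lit 0)))))) q52009 (by decide +kernel)
def q52038 : Q := Q.p (nat_lit 0x180003480000000000000000000000000000000000000000000000000000000000000) (nat_lit 0x640000300000000000000000000000000000000000000000000000000000000000000) (nat_lit 3)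
theorem c52038 : QOK q52038 := cut [q52037] ⟨c52037, trivial⟩ (nd (nat_lit 273) (nat_lit 0) (cs (lf (nat_lit 15) (nat_lit 249)) (rf (nat_lit 0)))) q52038 (by decide +kernel)
def q52041 : Q := Q.p (nat_lit 0x180000600001000004000000000000000000000000000000000000000000000000000) (nat_lit 0x4000010000040000000000000002800008000020000000000000000000000000000000000000000000000) (nat_lit 4)
theorem c52041 : QOK q52041 := cut [q45192] ⟨c45192, trivial⟩ (nd (nat_lit 207) (nat_lit 0) (cs (lf (nat_lit 35) (nat_lit 184)) (nd (nat_lit 294) (nat_lit 0) (cs (lf (nat_lit 34) (nat_lit 206)) (rf (nat_lit 0)))))) q52041 (by decide +kernel)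
def q52044 : Q := Q.p (nat_lit 0x20000080000680001800000000000000000000000000000000000000000000000000000000) (nat_lit 0x40000700001000000000000000000000000000000000000000000000000000) (nat_lit 3)
theorem c52044 : QOK q52044 := cut [q17230] ⟨c17230, trivial⟩ (nd (nat_lit 226) (nat_lit 0) (cs (lf (nat_lit 47) (nat_lit 204)) (rf (nat_lit 0)))) q52044 (by decide +kernel)
def q52053 : Q := Q.p (nat_lit 0x180000780000000000000000000000000000000000000000000000000000000000000) (nat_lit 0x20000000000000003000004000010000000000000000000000000000000000000000000000) (nat_lit 3)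
theorem c52053 : QOK q52053 := cut [q52052] ⟨c52052, trivial⟩ (nd (nat_lit 228) (nat_lit 0) (cs (lf (nat_lit 17) (nat_lit 225)) (rf (nat_lit 0)))) q52053 (by decide +kernel)
def q52058 : Q := Q.p (nat_lit 0x180000180000000000000000000000000000000000000000000000000000000000000) (nat_lit 0x60000260000000000000000000000000000000000000000000000000000000000000) (nat_lit 3)
theorem c52058 : QOK q52058 := cut [q52056] ⟨c52056, trivial⟩ (nd (nat_lit 246) (nat_lit 0) (cs (rf (nat_lit 0)) (lf (nat_lit 3) (nat_lit 246)))) q52058 (by decide +kernel)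
def q52062 : Q := Q.p (nat_lit 0x20000080000180000400000000000000000000000000000000000000000000000000000000) (nat_lit 0x6000000000020000100000c000030000080000000000000000000000000000000000) (nat_lit 5)
theorem c52062 : QOK q52062 := cut [q52061] ⟨c52061, trivial⟩ (nd (nat_lit 204) (nat_lit 0) (cs (lf (nat_lit 27) (nat_lit 204)) (rf (nat_lit 0)))) q52062 (by decide +kernel)
def q52082 : Q := Q.p (nat_lit 0x140000180000000000000000000000000000000000000000000000000000000000000) (nat_lit 0x2a0000060000000000000000000000000000000000000000000000000000000000000) (nat_lit 3)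
theorem c52082 : QOK q52082 := cut [q52081] ⟨c52081, trivial⟩ (nd (nat_lit 271) (nat_lit 0) (cs (lf (nat_lit 18) (nat_lit 247)) (rf (nat_lit 0)))) q52082 (by decide +kernel)
def q52083 : Q := Q.p (nat_lit 0x10000040000180000000000000000000000000000000000000000000000000000000000000) (nat_lit 0x4000000000000000000000600000800002000000000000000000000000000000000000000000000) (nat_lit 3)
theorem c52083 : QOK q52083 := cut [q17210] ⟨c17210, trivial⟩ (nd (nat_lit 225) (nat_lit 0) (cs (lf (nat_lit 42) (nat_lit 225)) (rf (nat_lit 0)))) q52083 (by decide +kernel)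
def q52090 : Q := Q.p (nat_lit 0x18000140000180000000000000000000000000000000000000000000000000000000000000) (nat_lit 0x26000280000000000000000000000000000000000000000000000000000000000000000000) (nat_lit 3)
theorem c52090 : QOK q52090 := cut [q47001] ⟨c47001, trivial⟩ (nd (nat_lit 271) (nat_lit 0) (cs (lf (nat_lit 18) (nat_lit 247)) (rf (nat_lit 0)))) q52090 (by decide +kernel)
def q52108 : Q := Q.p (nat_lit 0x40000180000400001000000000000000000000000000000000000000000000000000) (nat_lit 0x20000000000000000800006000008000000000000000000000000000000000000000) (nat_lit 3)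
theorem c52108 : QOK q52108 := cut [q11927] ⟨c11927, trivial⟩ (nd (nat_lit 182) (nat_lit 0) (cs (rf (nat_lit 0)) (lf (nat_lit 41) (nat_lit 181)))) q52108 (by decide +kernel)
def q52164 : Q := Q.p (nat_lit 0x1e0000180000000000000000000000000000000000000000000000000000000000000) (nat_lit 0x40000100007e00001c000000000000000000000000000000000000000000000000000000000000000000) (nat_lit 6)
theorem c52164 : QOK q52164 := cut [q52160] ⟨c52160, trivial⟩ (nd (nat_lit 290) (nat_lit 0) (cs (lf (nat_lit 10) (nat_lit 268)) (nd (nat_lit 268) (nat_lit 0) (cs (lf (nat_lit 11) (nat_lit 267)) (nd (nat_lit 312) (nat_lit 0) (cs (lf (nat_lit 30) (nat_lit 246)) (nd (nat_lit 293) (nat_lit 0) (cs (lf (nat_lit 5) (nat_lit 268)) (rf (nat_lit 0)))))))))) q52164 (by decide +kernel)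
def q52193 : Q := Q.p (nat_lit 0x1000005c0000000000000000000000000000000000000000000000000000000000000) (nat_lit 0x80000200000380000000000000000000000000000000000000000000000000000000) (nat_lit 3)
theorem c52193 : QOK q52193 := cut [q44583] ⟨c44583, trivial⟩ (nd (nat_lit 249) (nat_lit 0) (cs (lf (nat_lit 4) (nat_lit 246)) (rf (nat_lit 0)))) q52193 (by decide +kernel)
def q52194 : Q := Q.p (nat_lit 0x1000005c0000000000000000000000000000000000000000000000000000000000000) (nat_lit 0xb8000200000000000000000000000000000000000000000000000000000000000000) (nat_lit 3)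
theorem c52194 : QOK q52194 := cut [q17277] ⟨c17277, trivial⟩ (nd (nat_lit 249) (nat_lit 0) (cs (rf (nat_lit 0)) (lf (nat_lit 4) (nat_lit 246)))) q52194 (by decide +kernel)
def q52214 : Q := Q.p (nat_lit 0x200001c0000500000000000000000000000000000000000000000000000000000000000000) (nat_lit 0x2000008000040000000000000001000004000000000000000000000000000000000000000000000000000) (nat_lit 3)
theorem c52214 : QOK q52214 := cut [q49469] ⟨c49469, trivial⟩ (nd (nat_lit 315) (nat_lit 0) (cs (lf (nat_lit 42) (nat_lit 248)) (rf (nat_lit 0)))) q52214 (by decide +kernel)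
def q52229 : Q := Q.p (nat_lit 0x10000040000180000400001000000000000000000000000000000000000000000000000000) (nat_lit 0x800002000000000000000020000200000e000038000020000000000000000000000000000000000) (nat_lit 6)
theorem c52229 : QOK q52229 := cut [q51278] ⟨c51278, trivial⟩ (nd (nat_lit 183) (nat_lit 0) (cs (lf (nat_lit 34) (nat_lit 182)) (nd (nat_lit 182) (nat_lit 0) (cs (lf (nat_lit 35) (nat_lit 160)) (nd (nat_lit 293) (nat_lit 0) (cs (lf (nat_lit 29) (nat_lit 226)) (rf (nat_lit 0)))))))) q52229 (by decide +kernel)
def q52268 : Q := Q.p (nat_lit 0x20000180003600000800000000000000000000000000000000000000000000000000000000) (nat_lit 0x14000058000600000000001000004000000000000000000000000000000000000000000000000000) (nat_lit 5)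
theorem c52268 : QOK q52268 := cut [q52265] ⟨c52265, trivial⟩ (nd (nat_lit 273) (nat_lit 0) (cs (lf (nat_lit 15) (nat_lit 249)) (nd (nat_lit 206) (nat_lit 0) (cs (lf (nat_lit 34) (nat_lit 205)) (nd (nat_lit 294) (nat_lit 0) (cs (lf (nat_lit 42) (nat_lit 227)) (rf (nat_lit 0)))))))) q52268 (by decide +kernel)
def q52276 : Q := Q.p (nat_lit 0x180000680000000000000000000000000000000000000000000000000000000000000) (nat_lit 0x70000140000000000000000000000000000000000000000000000000000000000000) (nat_lit 3)
theorem c52276 : QOK q52276 := cut [q45664, q47072, q47435, q47437] ⟨c45664, c47072, c47435, c47437, trivial⟩ (nd (nat_lit 269) (nat_lit 0) (cs (rf (nat_lit 0)) (cs (rf (nat_lit 1)) (cs (rf (nat_lit 2)) (rf (nat_lit 3)))))) q52276 (by decide +kernel)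
def q52280 : Q := Q.p (nat_lit 0x60000180003200000800000000000000000000000000000000000000000000000000000000) (nat_lit 0x4000018000600000000000000000000000000000000000000000000000000000000000000000000) (nat_lit 3)
theorem c52280 : QOK q52280 := cut [q52265] ⟨c52265, trivial⟩ (nd (nat_lit 273) (nat_lit 0) (cs (lf (nat_lit 15) (nat_lit 249)) (rf (nat_lit 0)))) q52280 (by decide +kernel)
def q52291 : Q := Q.p (nat_lit 0x10000040000100000600000000000000000000000000000000000000000000000000000000000000) (nat_lit 0x200000c000020000000000080000000000000000000000000000000000000000000000000000000000000000000) (nat_lit 3)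
theorem c52291 : QOK q52291 := cut [q23863] ⟨c23863, trivial⟩ (nd (nat_lit 338) (nat_lit 0) (cs (lf (nat_lit 46) (nat_lit 249)) (rf (nat_lit 0)))) q52291 (by decide +kernel)
def q52293 : Q := Q.p (nat_lit 0x8000040000100000400000000000000000000000000000000000000000000000000000000000000) (nat_lit 0x800002000000000020000080000000001000000000000000000000000000000000000000000000000000000000) (nat_lit 3)
theorem c52293 : QOK q52293 := cut [q45294] ⟨c45294, trivial⟩ (nd (nat_lit 293) (nat_lit 0) (cs (lf (nat_lit 36) (nat_lit 227)) (rf (nat_lit 0)))) q52293 (by decide +kernel)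
def q52309 : Q := Q.p (nat_lit 0x20000180003600000800000000000000000000000000000000000000000000000000000000) (nat_lit 0x400001c000600000000001000006000018000000000000000000000000000000000000000000000) (nat_lit 6)
theorem c52309 : QOK q52309 := cut [q52305] ⟨c52305, trivial⟩ (nd (nat_lit 273) (nat_lit 0) (cs (lf (nat_lit 15) (nat_lit 249)) (nd (nat_lit 292) (nat_lit 0) (cs (lf (nat_lit 41) (nat_lit 226)) (nd (nat_lit 290) (nat_lit 0) (cs (lf (nat_lit 13) (nat_lit 268)) (nd (nat_lit 205) (nat_lit 0) (cs (lf (nat_lit 24) (nat_lit 183)) (rf (nat_lit 0)))))))))) q52309 (by decide +kernel)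
def q52342 : Q := Q.p (nat_lit 0x1c0000180000400000000000000000000000000000000000000000000000000000000) (nat_lit 0xe00003c000000000000000200000800000000000000000000000000000000000000000000000000) (nat_lit 4)
theorem c52342 : QOK q52342 := cut [q986, q52086] ⟨c986, c52086, trivial⟩ (nd (nat_lit 292) (nat_lit 0) (cs (rf (nat_lit 0)) (rf (nat_lit 1)))) q52342 (by decide +kernel)
def q52362 : Q := Q.p (nat_lit 0xc0000180000400000000000000000000000000000000000000000000000000000000) (nat_lit 0x2000000000000000020000300000e000038000020000000000000000000000000000000000) (nat_lit 6)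
theorem c52362 : QOK q52362 := cut [q975] ⟨c975, trivial⟩ (nd (nat_lit 204) (nat_lit 0) (cs (lf (nat_lit 29) (nat_lit 204)) (nd (nat_lit 183) (nat_lit 0) (cs (lf (nat_lit 34) (nat_lit 182)) (nd (nat_lit 182) (nat_lit 0) (cs (lf (nat_lit 35) (nat_lit 160)) (nd (nat_lit 160) (nat_lit 0) (cs (rf (nat_lit 0)) (lf (nat_lit 40) (nat_lit 159)))))))))) q52362 (by decide +kernel)
def q52380 : Q := Q.p (nat_lit 0x180001800000000000000000000000000000000000000000000000000000000) (nat_lit 0x60002600000000000000000000000000000000000000000000000000000000) (nat_lit 3)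
theorem c52380 : QOK q52380 := cut [q52066] ⟨c52066, trivial⟩ (nd (nat_lit 226) (nat_lit 0) (cs (lf (nat_lit 6) (nat_lit 225)) (rf (nat_lit 0)))) q52380 (by decide +kernel)
def q52445 : Q := Q.p (nat_lit 0x40000100000400001000000000000000000000000000000000000000000000000000000000) (nat_lit 0x20000080000200000000000800006000008000000000000000000000000000000000000000000000) (nat_lit 4)
theorem c52445 : QOK q52445 := cut [q6623] ⟨c6623, trivial⟩ (nd (nat_lit 205) (nat_lit 0) (cs (lf (nat_lit 46) (nat_lit 205)) (nd (nat_lit 206) (nat_lit 0) (cs (lf (nat_lit 47) (nat_lit 183)) (rf (nat_lit 0)))))) q52445 (by decide +kernel)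
def q52457 : Q := Q.p (nat_lit 0x80000100000c00001000000000000000000000000000000000000000000000000000000000) (nat_lit 0x30000040000000000000002000008000000000000000000000000000000000000000000000000000) (nat_lit 3)
theorem c52457 : QOK q52457 := cut [q13606] ⟨c13606, trivial⟩ (nd (nat_lit 294) (nat_lit 0) (cs (lf (nat_lit 29) (nat_lit 228)) (rf (nat_lit 0)))) q52457 (by decide +kernel)
def q52519 : Q := Q.p (nat_lit 0x600000c00000000000000000000000000000000000000000000000000000000000000000000) (nat_lit 0x1900000300000000000000000000000000000000000000000000000000000000000000000000) (nat_lit 3)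
theorem c52519 : QOK q52519 := cut [q12922] ⟨c12922, trivial⟩ (nd (nat_lit 273) (nat_lit 0) (cs (lf (nat_lit 0) (nat_lit 272)) (rf (nat_lit 0)))) q52519 (by decide +kernel)
def q52527 : Q := Q.p (nat_lit 0x800002000008000020000000000000000000000000000000000000000000000000000) (nat_lit 0x100000600001000000000010000040000100000000000000000000000000000000000000000000000) (nat_lit 4)
theorem c52527 : QOK q52527 := cut [q52525] ⟨c52525, trivial⟩ (nd (nat_lit 210) (nat_lit 0) (cs (lf (nat_lit 35) (nat_lit 187)) (nd (nat_lit 298) (nat_lit 0) (cs (lf (nat_lit 28) (nat_lit 209)) (rf (nat_lit 0)))))) q52527 (by decide +kernel)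
def q52574 : Q := Q.p (nat_lit 0xf00000000000000000000000000000000000000000000000000000000000000000000000000) (nat_lit 0x770000080000000000000000000000000000000000000000000000000000000000000000000000000) (nat_lit 4)
theorem c52574 : QOK q52574 := cut [q52572] ⟨c52572, trivial⟩ (nd (nat_lit 321) (nat_lit 0) (cs (lf (nat_lit 5) (nat_lit 296)) (nd (nat_lit 295) (nat_lit 0) (cs (lf (nat_lit 4) (nat_lit 295)) (rf (nat_lit 0)))))) q52574 (by decide +kernel)
def q52595 : Q := Q.p (nat_lit 0x80000600000800002000000000000000000000000000000000000000000000000000000000000000) (nat_lit 0x80000600003c0000f70003800007400018000000000000000000000000000000000000000000000000000000000000000) (nat_lit 8)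
theorem c52595 : QOK q52595 := cut [q14384, q16756, q14747, q52587] ⟨c14384, c16756, c14747, c52587, trivial⟩ (nd (nat_lit 320) (nat_lit 0) (cs (lf (nat_lit 29) (nat_lit 253)) (nd (nat_lit 321) (nat_lit 0) (cs (nd (nat_lit 322) (nat_lit 0) (cs (lf (nat_lit 18) (nat_lit 297)) (nd (nat_lit 300) (nat_lit 0) (cs (lf (nat_lit 17) (nat_lit 297)) (nd (nat_lit 299) (nat_lit 0) (cs (lf (nat_lit 23) (nat_lit 274)) (lf (nat_lit 12) (nat_lit 296)))))))) (cs (nd (nat_lit 322) (nat_lit 0) (cs (lf (nat_lit 18) (nat_lit 297)) (nd (nat_lit 300) (nat_lit 0) (cs (lf (nat_lit 17) (nat_lit 297)) (rf (nat_lit 0)))))) (cs (nd (nat_lit 322) (nat_lit 0) (cs (lf (nat_lit 18) (nat_lit 297)) (nd (nat_lit 344) (nat_lit 0) (cs (lf (nat_lit 5) (nat_lit 319)) (nd (nat_lit 318) (nat_lit 0) (cs (lf (nat_lit 4) (nat_lit 318)) (rf (nat_lit 1)))))))) (cs (nd (nat_lit 299) (nat_lit 0) (cs (nd (nat_lit 318) (nat_lit 0) (cs (lf (nat_lit 12) (nat_lit 295)) (nd (nat_lit 343) (nat_lit 0) (cs (lf (nat_lit 5) (nat_lit 318)) (rf (nat_lit 2)))))) (rf (nat_lit 3)))) (nd (nat_lit 322)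 (nat_lit 0) (cs (lf (nat_lit 18) (nat_lit 297)) (nd (nat_lit 344) (nat_lit 0) (cs (lf (nat_lit 5) (nat_lit 319)) (nd (nat_lit 300) (nat_lit 0) (cs (lf (nat_lit 17) (nat_lit 297)) (nd (nat_lit 299) (nat_lit 0) (cs (lf (nat_lit 23) (nat_lit 274)) (nd (nat_lit 277) (nat_lit 0) (cs (lf (nat_lit 42) (nat_lit 277)) (lf (nat_lit 24) (nat_lit 255))))))))))))))))))) q52595 (by decide +kernel)
def q52624 : Q := Q.p (nat_lit 0x80000e00000800002000000000000000000000000000000000000000000000000000000000000000) (nat_lit 0x40000f0000310000e000000000000000000000000000000000000000000000000000000000000000000000) (nat_lit 6)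
theorem c52624 : QOK q52624 := cut [q11623] ⟨c11623, trivial⟩ (nd (nat_lit 320) (nat_lit 0) (cs (lf (nat_lit 29) (nat_lit 253)) (nd (nat_lit 300) (nat_lit 0) (cs (lf (nat_lit 6) (nat_lit 297)) (nd (nat_lit 322) (nat_lit 0) (cs (lf (nat_lit 5) (nat_lit 297)) (nd (nat_lit 296) (nat_lit 0) (cs (rf (nat_lit 0)) (lf (nat_lit 19) (nat_lit 296)))))))))) q52624 (by decide +kernel)
def q52637 : Q := Q.p (nat_lit 0x200000800002000008000010000000000000000000000000000000000000000000000000000) (nat_lit 0x40000100000400000000000000020000040000000000000000000000000000000000000000000000) (nat_lit 3)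
theorem c52637 : QOK q52637 := cut [q52636] ⟨c52636, trivial⟩ (nd (nat_lit 296) (nat_lit 0) (cs (lf (nat_lit 41) (nat_lit 230)) (rf (nat_lit 0)))) q52637 (by decide +kernel)
def q52647 : Q := Q.p (nat_lit 0x100001c0000000000c00002000000000000000000000000000000000000000000000000000000000000000) (nat_lit 0x48000220001c00001200000000000000000000000000000000000000000000000000000000000000000000) (nat_lit 5)
theorem c52647 : QOK q52647 := cut [q52646] ⟨c52646, trivial⟩ (nd (nat_lit 321) (nat_lit 0) (cs (lf (nat_lit 11) (nat_lit 317)) (rf (nat_lit 0)))) q52647 (by decide +kernel)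
def q52663 : Q := Q.p (nat_lit 0x100001c0000000000000000000000000000000000000000000000000000000000000000000000000000000) (nat_lit 0x1e80006380000e0000000000000000000000000000000000000000000000000000000000000000000000000) (nat_lit 7)
theorem c52663 : QOK q52663 := cut [q52659] ⟨c52659, trivial⟩ (nd (nat_lit 321) (nat_lit 0) (cs (lf (nat_lit 11) (nat_lit 317)) (nd (nat_lit 343) (nat_lit 0) (cs (lf (nat_lit 5) (nat_lit 318)) (rf (nat_lit 0)))))) q52663 (by decide +kernel)
def q52664 : Q := Q.p (nat_lit 0xf00000c00000000000000000000000000000000000000000000000000000000000000) (nat_lit 0x4000010000060000000000000002000000000000000000000000000000000000000000000000000000000) (nat_lit 3)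
theorem c52664 : QOK q52664 := cut [q25590] ⟨c25590, trivial⟩ (nd (nat_lit 294) (nat_lit 0) (cs (lf (nat_lit 11) (nat_lit 271)) (rf (nat_lit 0)))) q52664 (by decide +kernel)
def q52669 : Q := Q.p (nat_lit 0x80001e00000000000000000000000000000000000000000000000000000000000000000000) (nat_lit 0x1d00002000000000000000000000000000000000000000000000000000000000000000000000) (nat_lit 3)
theorem c52669 : QOK q52669 := cut [q12684] ⟨c12684, trivial⟩ (nd (nat_lit 277) (nat_lit 0) (cs (lf (nat_lit 10) (nat_lit 273)) (rf (nat_lit 0)))) q52669 (by decide +kernel)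
def q52698 : Q := Q.p (nat_lit 0x1c000008000080000e00000000000000000000000000000000000000000000000000000000000000000000) (nat_lit 0x40000100000e00003000004000170000080000000000000000000000000000000000000000000000000000000000000000000) (nat_lit 7)
theorem c52698 : QOK q52698 := cut [q12717] ⟨c12717, trivial⟩ (nd (nat_lit 337) (nat_lit 0) (cs (lf (nat_lit 23) (nat_lit 314)) (nd (nat_lit 358) (nat_lit 0) (cs (lf (nat_lit 10) (nat_lit 336)) (nd (nat_lit 336) (nat_lit 0) (cs (lf (nat_lit 11) (nat_lit 335)) (nd (nat_lit 380) (nat_lit 0) (cs (nd (nat_lit 293) (nat_lit 0) (cs (rf (nat_lit 0)) (lf (nat_lit 36) (nat_lit 270)))) (lf (nat_lit 30) (nat_lit 314)))))))))) q52698 (by decide +kernel)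
def q52704 : Q := Q.p (nat_lit 0x1c000000000080000a00000000000000000000000000000000000000000000000000000000000000000000) (nat_lit 0x1b8000600001a0000200000000000000000000000000000000000000000000000000000000000000000000000000) (nat_lit 6)
theorem c52704 : QOK q52704 := cut [q52703] ⟨c52703, trivial⟩ (nd (nat_lit 360) (nat_lit 0) (cs (lf (nat_lit 38) (nat_lit 272)) (rf (nat_lit 0)))) q52704 (by decide +kernel)
def q52720 : Q := Q.p (nat_lit 0x3c000000000000000000000000000000000000000000000000000000000000000000000000000000000000) (nat_lit 0x1c0000200001c000000000000000000000000000000000000000000000000000000000000000000000000000000) (nat_lit 4)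
theorem c52720 : QOK q52720 := cut [q52719] ⟨c52719, trivial⟩ (nd (nat_lit 315) (nat_lit 0) (cs (lf (nat_lit 22) (nat_lit 315)) (rf (nat_lit 0)))) q52720 (by decide +kernel)
def q52732 : Q := Q.p (nat_lit 0x2000070000180000000000000000000000000000000000000000000000000000000000000000000000000000000) (nat_lit 0xe4000380000000000000000000000000000000000000000000000000000000000000000000000000000000000000) (nat_lit 4)
theorem c52732 : QOK q52732 := cut [q52731] ⟨c52731, trivial⟩ (nd (nat_lit 343) (nat_lit 0) (cs (lf (nat_lit 10) (nat_lit 339)) (rf (nat_lit 0)))) q52732 (by decide +kernel)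
def q52760 : Q := Q.p (nat_lit 0x3c000000000000000800000000000000000000000000000000000000000000000000000000000000000000) (nat_lit 0xdc00002000180000200000000000000000000000000000000000000000000000000000000000000000000000000) (nat_lit 5)
theorem c52760 : QOK q52760 := cut [q52754] ⟨c52754, trivial⟩ (nd (nat_lit 319) (nat_lit 0) (cs (lf (nat_lit 17) (nat_lit 316)) (nd (nat_lit 359) (nat_lit 0) (cs (lf (nat_lit 10) (nat_lit 337)) (nd (nat_lit 337) (nat_lit 0) (cs (lf (nat_lit 11) (nat_lit 336)) (rf (nat_lit 0)))))))) q52760 (by decide +kernel)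
def q52783 : Q := Q.p (nat_lit 0x3c00010000000000000000000000000000000000000000000000000000000000000000) (nat_lit 0x3800004000020000000000000000000000000000000000000000000000000000000000000000) (nat_lit 3)
theorem c52783 : QOK q52783 := cut [q15788] ⟨c15788, trivial⟩ (nd (nat_lit 278) (nat_lit 0) (cs (lf (nat_lit 17) (nat_lit 253)) (rf (nat_lit 0)))) q52783 (by decide +kernel)
def q52875 : Q := Q.p (nat_lit 0x40000f0000000000000000000000000000000000000000000000000000000000000000000000000000000000000) (nat_lit 0x8000100000e00000000000000000000000000000000000000000000000000000000000000000000000000000000) (nat_lit 3)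
theorem c52875 : QOK q52875 := cut [q15006] ⟨c15006, trivial⟩ (nd (nat_lit 344) (nat_lit 0) (cs (rf (nat_lit 0)) (lf (nat_lit 10) (nat_lit 340)))) q52875 (by decide +kernel)
def q53007 : Q := Q.p (nat_lit 0xf0000000000000000000000000000000000000000000000000000000000000000000000000000000000000) (nat_lit 0xee000100000000000000000000000000000000000000000000000000000000000000000000000000000000000000) (nat_lit 4)
theorem c53007 : QOK q53007 := cut [q15027] ⟨c15027, trivial⟩ (nd (nat_lit 366) (nat_lit 0) (cs (lf (nat_lit 4) (nat_lit 340)) (nd (nat_lit 344) (nat_lit 0) (cs (lf (nat_lit 5) (nat_lit 341)) (rf (nat_lit 0)))))) q53007 (by decide +kernel)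
def q53034 : Q := Q.p (nat_lit 0x40000300000400001000000000000000000000000000000000000000000000000000000000) (nat_lit 0x4000010000000000000000800002800006000018000000000000000000000000000000000000000000000) (nat_lit 5)
theorem c53034 : QOK q53034 := cut [q25590] ⟨c25590, trivial⟩ (nd (nat_lit 205) (nat_lit 0) (cs (lf (nat_lit 46) (nat_lit 205)) (nd (nat_lit 206) (nat_lit 0) (cs (lf (nat_lit 47) (nat_lit 183)) (nd (nat_lit 251) (nat_lit 0) (cs (lf (nat_lit 24) (nat_lit 184)) (rf (nat_lit 0)))))))) q53034 (by decide +kernel)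
def q53050 : Q := Q.p (nat_lit 0xe00000400000000000000000000000000000000000000000000000000000000000000) (nat_lit 0x1100000b00000000000000000000000000000000000000000000000000000000000000) (nat_lit 3)
theorem c53050 : QOK q53050 := cut [q12946] ⟨c12946, trivial⟩ (nd (nat_lit 251) (nat_lit 0) (cs (lf (nat_lit 18) (nat_lit 250)) (rf (nat_lit 0)))) q53050 (by decide +kernel)
def q53059 : Q := Q.p (nat_lit 0x80000300000400000000000000000000000000000000000000000000000000000000000000) (nat_lit 0x8000020000040000000000000001000004000000000000000000000000000000000000000000000000000) (nat_lit 3)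
theorem c53059 : QOK q53059 := cut [q45847] ⟨c45847, trivial⟩ (nd (nat_lit 317) (nat_lit 0) (cs (lf (nat_lit 42) (nat_lit 250)) (rf (nat_lit 0)))) q53059 (by decide +kernel)
def q53152 : Q := Q.p (nat_lit 0x40000100000000000800002000000000000000000000000000000000000000000000000000000000000000) (nat_lit 0x10000000000080000600001000000000000000000000000000000000000000000000000000000000000000000000) (nat_lit 3)
theorem c53152 : QOK q53152 := cut [q11848] ⟨c11848, trivial⟩ (nd (nat_lit 297) (nat_lit 0) (cs (lf (nat_lit 27) (nat_lit 253)) (rf (nat_lit 0)))) q53152 (by decide +kernel)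
def q53167 : Q := Q.p (nat_lit 0x78000100000000000800002000000000000000000000000000000000000000000000000000000000000000) (nat_lit 0x3800004000038000400001000000000000000000000000000000000000000000000000000000000000000000000) (nat_lit 5)
theorem c53167 : QOK q53167 := cut [q25476] ⟨c25476, trivial⟩ (nd (nat_lit 276) (nat_lit 0) (cs (lf (nat_lit 44) (nat_lit 253)) (rf (nat_lit 0)))) q53167 (by decide +kernel)
def q53312 : Q := Q.p (nat_lit 0x40000000003c00000000000000000000000000000000000000000000000000000000000000000000000000) (nat_lit 0x70000ff8001f8000fe0000000000e0000780001e0000700000400000000000000000000000000000000000000000000000) (nat_lit 11)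
theorem c53312 : QOK q53312 := cut [q53245, q53252, q53262, q28940, q28054] ⟨c53245, c53252, c53262, c28940, c28054, trivial⟩ (nd (nat_lit 323) (nat_lit 0) (cs (lf (nat_lit 5) (nat_lit 298)) (nd (nat_lit 345) (nat_lit 0) (cs (nd (nat_lit 278) (nat_lit 0) (cs (lf (nat_lit 42) (nat_lit 278)) (rf (nat_lit 0)))) (cs (nd (nat_lit 279) (nat_lit 0) (cs (nd (nat_lit 344) (nat_lit 0) (cs (lf (nat_lit 41) (nat_lit 278)) (nd (nat_lit 257) (nat_lit 0) (cs (lf (nat_lit 40) (nat_lit 256)) (rf (nat_lit 1)))))) (cs (nd (nat_lit 344) (nat_lit 0) (cs (lf (nat_lit 41) (nat_lit 278)) (nd (nat_lit 257) (nat_lit 0) (cs (lf (nat_lit 40) (nat_lit 256)) (rf (nat_lit 2)))))) (cs (nd (nat_lit 257) (nat_lit 0) (cs (rf (nat_lit 3)) (cs (rf (nat_lit 1)) (cs (rf (nat_lit 2)) (nd (nat_lit 346) (nat_lit 0) (cs (lf (nat_lit 29) (nat_lit 279)) (nd (nat_lit 236) (nat_lit 0) (cs (lf (nat_lit 34) (nat_lit 235)) (nd (nat_lit 235) (nat_lit 0) (cs (lf (nat_lit 35) (nat_lit 213)) (nd (nat_lit 278) (nat_lit 0) (cs (lf (nat_lit 47) (nat_lit 256)) (lf (nat_lit 36) (nat_lit 212))))))))))))))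 (nd (nat_lit 344) (nat_lit 0) (cs (lf (nat_lit 41) (nat_lit 278)) (nd (nat_lit 346) (nat_lit 0) (cs (lf (nat_lit 29) (nat_lit 279)) (nd (nat_lit 278) (nat_lit 0) (cs (lf (nat_lit 47) (nat_lit 256)) (nd (nat_lit 347) (nat_lit 0) (cs (nd (nat_lit 321) (nat_lit 0) (cs (lf (nat_lit 22) (nat_lit 321)) (nd (nat_lit 343) (nat_lit 0) (cs (lf (nat_lit 30) (nat_lit 277)) (nd (nat_lit 364) (nat_lit 0) (cs (lf (nat_lit 11) (nat_lit 341)) (lf (nat_lit 36) (nat_lit 276)))))))) (nd (nat_lit 370) (nat_lit 0) (cs (lf (nat_lit 4) (nat_lit 344)) (nd (nat_lit 326) (nat_lit 0) (cs (lf (nat_lit 16) (nat_lit 322)) (nd (nat_lit 348) (nat_lit 0) (cs (lf (nat_lit 17) (nat_lit 323)) (lf (nat_lit 5) (nat_lit 345)))))))))))))))))))) (cs (nd (nat_lit 366) (nat_lit 0) (cs (nd (nat_lit 279) (nat_lit 0) (cs (nd (nat_lit 368) (nat_lit 0) (cs (nd (nat_lit 367) (nat_lit 0) (cs (lf (nat_lit 41) (nat_lit 300)) (lf (nat_lit 29) (nat_lit 301)))) (lf (nat_lit 28) (nat_lit 279)))) (lf (nat_lit 40) (nat_lit 278)))) (cs (nd (nat_lit 367) (nat_lit 0) (cs (lf (nat_lit 41) (nat_lit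 300)) (nd (nat_lit 322) (nat_lit 0) (cs (lf (nat_lit 42) (nat_lit 300)) (nd (nat_lit 368) (nat_lit 0) (cs (lf (nat_lit 29) (nat_lit 301)) (nd (nat_lit 365) (nat_lit 0) (cs (nd (nat_lit 346) (nat_lit 0) (cs (lf (nat_lit 12) (nat_lit 342)) (lf (nat_lit 24) (nat_lit 279)))) (lf (nat_lit 22) (nat_lit 342)))))))))) (cs (nd (nat_lit 344) (nat_lit 0) (cs (lf (nat_lit 36) (nat_lit 278)) (nd (nat_lit 322) (nat_lit 0) (cs (lf (nat_lit 30) (nat_lit 300)) (lf (nat_lit 47) (nat_lit 277)))))) (cs (nd (nat_lit 344) (nat_lit 0) (cs (lf (nat_lit 36) (nat_lit 278)) (nd (nat_lit 277) (nat_lit 0) (cs (lf (nat_lit 44) (nat_lit 277)) (nd (nat_lit 343) (nat_lit 0) (cs (lf (nat_lit 26) (nat_lit 277)) (rf (nat_lit 4)))))))) (nd (nat_lit 367) (nat_lit 0) (cs (lf (nat_lit 41) (nat_lit 300)) (nd (nat_lit 322) (nat_lit 0) (cs (lf (nat_lit 42) (nat_lit 300)) (nd (nat_lit 277) (nat_lit 0) (cs (nd (nat_lit 233) (nat_lit 0) (cs (lf (nat_lit 25) (nat_lit 233)) (nd (nat_lit 368) (nat_lit 0) (cs (lf (nat_lit 29) (nat_lit 301)) (nd (nat_lit 365) (nat_lit 0) (cs (lf (nat_lit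 22) (nat_lit 342)) (nd (nat_lit 346) (nat_lit 0) (cs (lf (nat_lit 12) (nat_lit 342)) (lf (nat_lit 17) (nat_lit 343)))))))))) (lf (nat_lit 43) (nat_lit 277))))))))))))) (nd (nat_lit 278) (nat_lit 0) (cs (lf (nat_lit 42) (nat_lit 278)) (nd (nat_lit 256) (nat_lit 0) (cs (lf (nat_lit 45) (nat_lit 256)) (lf (nat_lit 24) (nat_lit 234)))))))))))) q53312 (by decide +kernel)
def q53336 : Q := Q.p (nat_lit 0x3c0000000000000000000000000000000000000000000000000000000000000000000000000000000) (nat_lit 0x380000400003800000000000000000000000000000000000000000000000000000000000000000000000000) (nat_lit 4)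
theorem c53336 : QOK q53336 := cut [q14412] ⟨c14412, trivial⟩ (nd (nat_lit 344) (nat_lit 0) (cs (lf (nat_lit 4) (nat_lit 318)) (nd (nat_lit 300) (nat_lit 0) (cs (lf (nat_lit 16) (nat_lit 296)) (rf (nat_lit 0)))))) q53336 (by decide +kernel)
def q53366 : Q := Q.p (nat_lit 0x1000000000078000020000000000000000000000000000000000000000000000000000000000000000000000000000000) (nat_lit 0x40000700000c00003000000000040000000000000000000000000000000000000000000000000000000000000000000000000000000) (nat_lit 5)
theorem c53366 : QOK q53366 := cut [q53365] ⟨c53365, trivial⟩ (nd (nat_lit 361) (nat_lit 0) (cs (lf (nat_lit 11) (nat_lit 338)) (rf (nat_lit 0)))) q53366 (by decide +kernel)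
def q53415 : Q := Q.p (nat_lit 0x70000080000000000000000000000000000000000000000000000000000000000000000000000000000000) (nat_lit 0x780008c000738000000000000000000000000000000000000000000000000000000000000000000000000000000) (nat_lit 5)
theorem c53415 : QOK q53415 := cut [q25476, q52751, q53414] ⟨c25476, c52751, c53414, trivial⟩ (nd (nat_lit 339) (nat_lit 0) (cs (rf (nat_lit 0)) (cs (rf (nat_lit 1)) (rf (nat_lit 2))))) q53415 (by decide +kernel)
def q53426 : Q := Q.p (nat_lit 0x70000080000000000800002000000000000000000000000000000000000000000000000000000000000000) (nat_lit 0x200000f80000c000378000cc0001200000800000000000000000000000000000000000000000000000000000000000000) (nat_lit 10)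
theorem c53426 : QOK q53426 := cut [q25476, q53414, q53418] ⟨c25476, c53414, c53418, trivial⟩ (nd (nat_lit 339) (nat_lit 0) (cs (rf (nat_lit 0)) (cs (rf (nat_lit 1)) (nd (nat_lit 317) (nat_lit 0) (cs (lf (nat_lit 23) (nat_lit 316)) (nd (nat_lit 360) (nat_lit 0) (cs (lf (nat_lit 10) (nat_lit 338)) (nd (nat_lit 320) (nat_lit 0) (cs (lf (nat_lit 17) (nat_lit 317)) (nd (nat_lit 298) (nat_lit 0) (cs (lf (nat_lit 45) (nat_lit 253)) (nd (nat_lit 363) (nat_lit 0) (cs (lf (nat_lit 30) (nat_lit 297)) (nd (nat_lit 318) (nat_lit 0) (cs (lf (nat_lit 17) (nat_lit 295)) (nd (nat_lit 295) (nat_lit 0) (cs (lf (nat_lit 23) (nat_lit 294)) (rf (nat_lit 2))))))))))))))))))) q53426 (by decide +kernel)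
def q53441 : Q := Q.p (nat_lit 0xe0000080000000000000000000000000000000000000000000000000000000000000000000000000000000) (nat_lit 0x300001d40000000000000000000000000000000000000000000000000000000000000000000000000000000) (nat_lit 4)
theorem c53441 : QOK q53441 := cut [q52974] ⟨c52974, trivial⟩ (nd (nat_lit 344) (nat_lit 0) (cs (lf (nat_lit 23) (nat_lit 318)) (rf (nat_lit 0)))) q53441 (by decide +kernel)
def q53453 : Q := Q.p (nat_lit 0x58000100000000000800002000000000000000000000000000000000000000000000000000000000000000) (nat_lit 0x60002e0000200000000000000000000000000000000000000000000000000000000000000000000000000) (nat_lit 4)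
theorem c53453 : QOK q53453 := cut [q42322] ⟨c42322, trivial⟩ (nd (nat_lit 319) (nat_lit 0) (cs (lf (nat_lit 26) (nat_lit 253)) (nd (nat_lit 318) (nat_lit 0) (cs (lf (nat_lit 6) (nat_lit 317)) (rf (nat_lit 0)))))) q53453 (by decide +kernel)
def q53462 : Q := Q.p (nat_lit 0x50000300000000000000000000000000000000000000000000000000000000000000000000000000000000) (nat_lit 0x28000c80000000000000000000000000000000000000000000000000000000000000000000000000000000) (nat_lit 3)
theorem c53462 : QOK q53462 := cut [q43178] ⟨c43178, trivial⟩ (nd (nat_lit 341) (nat_lit 0) (cs (lf (nat_lit 12) (nat_lit 317)) (rf (nat_lit 0)))) q53462 (by decide +kernel)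
def q53485 : Q := Q.p (nat_lit 0x10000040000100000000000800002000000000000000000000000000000000000000000000000000000000000000) (nat_lit 0x80000e000028000000000200000c00003000000000000000000000000000000000000000000000000000000000000000000000) (nat_lit 6)
theorem c53485 : QOK q53485 := cut [q53354] ⟨c53354, trivial⟩ (nd (nat_lit 298) (nat_lit 0) (cs (lf (nat_lit 45) (nat_lit 253)) (nd (nat_lit 365) (nat_lit 0) (cs (lf (nat_lit 29) (nat_lit 298)) (rf (nat_lit 0)))))) q53485 (by decide +kernel)
def q53486 : Q := Q.p (nat_lit 0x70000100000000000000000000000000000000000000000000000000000000000000000000000000000000) (nat_lit 0x380000c000238000000000000000000000000000000000000000000000000000000000000000000000000000000) (nat_lit 5)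
theorem c53486 : QOK q53486 := cut [q25476] ⟨c25476, trivial⟩ (nd (nat_lit 339) (nat_lit 0) (cs (lf (nat_lit 17) (nat_lit 317)) (rf (nat_lit 0)))) q53486 (by decide +kernel)
def q53513 : Q := Q.p (nat_lit 0x50000380000000000c00000000000000000000000000000000000000000000000000000000000000000000) (nat_lit 0x20000440003800003000008000000000000000000000000000000000000000000000000000000000000000) (nat_lit 5)
theorem c53513 : QOK q53513 := cut [q53510] ⟨c53510, trivial⟩ (nd (nat_lit 322) (nat_lit 0) (cs (lf (nat_lit 10) (nat_lit 318)) (nd (nat_lit 300) (nat_lit 0) (cs (lf (nat_lit 17) (nat_lit 297)) (nd (nat_lit 299) (nat_lit 0) (cs (lf (nat_lit 12) (nat_lit 296)) (rf (nat_lit 0)))))))) q53513 (by decide +kernel)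
def q53550 : Q := Q.p (nat_lit 0xf0000100000000000000000000000000000000000000000000000000000000000000000000000000000000) (nat_lit 0x2000008000060000000000200000400001000000000000000000000000000000000000000000000000000000000000000000000) (nat_lit 4)
theorem c53550 : QOK q53550 := cut [q30212] ⟨c30212, trivial⟩ (nd (nat_lit 365) (nat_lit 0) (cs (lf (nat_lit 5) (nat_lit 340)) (nd (nat_lit 387) (nat_lit 0) (cs (lf (nat_lit 42) (nat_lit 320)) (rf (nat_lit 0)))))) q53550 (by decide +kernel)
def q53558 : Q := Q.p (nat_lit 0x30000050000100000400000000000000000000000000000000000000000000000000000000000000000000000000) (nat_lit 0x100000400003200004c0003a0000200000000000000000000000000000000000000000000000000000000000000000000000000000000) (nat_lit 7)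
theorem c53558 : QOK q53558 := cut [q30081] ⟨c30081, trivial⟩ (nd (nat_lit 363) (nat_lit 0) (cs (lf (nat_lit 41) (nat_lit 297)) (nd (nat_lit 366) (nat_lit 0) (cs (lf (nat_lit 22) (nat_lit 340)) (nd (nat_lit 388) (nat_lit 0) (cs (lf (nat_lit 5) (nat_lit 363)) (nd (nat_lit 344) (nat_lit 0) (cs (lf (nat_lit 17) (nat_lit 341)) (nd (nat_lit 343) (nat_lit 0) (cs (rf (nat_lit 0)) (lf (nat_lit 12) (nat_lit 340)))))))))))) q53558 (by decide +kernel)
def q53571 : Q := Q.p (nat_lit 0x10000040000300000000000000000000000000000000000000000000000000000000000000000000000000000000) (nat_lit 0x4000000000080000000000800002000008000000000000000000000000000000000000000000000000000000000000000) (nat_lit 3)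
theorem c53571 : QOK q53571 := cut [q53514] ⟨c53514, trivial⟩ (nd (nat_lit 299) (nat_lit 0) (cs (lf (nat_lit 30) (nat_lit 298)) (rf (nat_lit 0)))) q53571 (by decide +kernel)
def q53596 : Q := Q.p (nat_lit 0x10000040000100000000000000000000000000000000000000000000000000000000000000000000000000000000) (nat_lit 0x600003e0003e00002e000020000280000c00002000000000000000000000000000000000000000000000000000000000000000000000) (nat_lit 10)
theorem c53596 : QOK q53596 := cut [q53472, q53349] ⟨c53472, c53349, trivial⟩ (nd (nat_lit 386) (nat_lit 0) (cs (rf (nat_lit 0)) (cs (nd (nat_lit 387) (nat_lit 0) (cs (lf (nat_lit 29) (nat_lit 320)) (nd (nat_lit 298) (nat_lit 0) (cs (lf (nat_lit 28) (nat_lit 298)) (rf (nat_lit 1)))))) (nd (nat_lit 385) (nat_lit 0) (cs (lf (nat_lit 41) (nat_lit 319)) (nd (nat_lit 298) (nat_lit 0) (cs (lf (nat_lit 40) (nat_lit 297)) (rf (nat_lit 1))))))))) q53596 (by decide +kernel)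
def q53624 : Q := Q.p (nat_lit 0x78000000000000000000000000000000000000000000000000000000000000000000000000000000000000) (nat_lit 0x73000080000070000000000000000000000000000000000000000000000000000000000000000000000000000000) (nat_lit 5)
theorem c53624 : QOK q53624 := cut [q28993] ⟨c28993, trivial⟩ (nd (nat_lit 365) (nat_lit 0) (cs (lf (nat_lit 4) (nat_lit 339)) (nd (nat_lit 360) (nat_lit 0) (cs (lf (nat_lit 10) (nat_lit 338)) (nd (nat_lit 343) (nat_lit 0) (cs (lf (nat_lit 5) (nat_lit 340)) (rf (nat_lit 0)))))))) q53624 (by decide +kernel)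
def q53659 : Q := Q.p (nat_lit 0x70000000000000000000000000000000000000000000000000000000000000000000000000000000000000) (nat_lit 0x7f80008c000038000000000000000000000000000000000000000000000000000000000000000000000000000000) (nat_lit 5)
theorem c53659 : QOK q53659 := cut [q25476, q25479, q52840] ⟨c25476, c25479, c52840, trivial⟩ (nd (nat_lit 339) (nat_lit 0) (cs (rf (nat_lit 0)) (cs (rf (nat_lit 1)) (rf (nat_lit 2))))) q53659 (by decide +kernel)
def q53696 : Q := Q.p (nat_lit 0x78000000000000000000000000000000000000000000000000000000000000000000000000000000000000) (nat_lit 0x7000080000070000000000000000000000000000000000000000000000000000000000000000000000000000000) (nat_lit 4)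
theorem c53696 : QOK q53696 := cut [q28993] ⟨c28993, trivial⟩ (nd (nat_lit 361) (nat_lit 0) (cs (lf (nat_lit 11) (nat_lit 338)) (nd (nat_lit 343) (nat_lit 0) (cs (lf (nat_lit 10) (nat_lit 339)) (rf (nat_lit 0)))))) q53696 (by decide +kernel)
def q53706 : Q := Q.p (nat_lit 0x50000080000000000800002000000000000000000000000000000000000000000000000000000000000000) (nat_lit 0x14000020000040000200000000000000000000000000000000000000000000000000000000000000000000000000) (nat_lit 3)
theorem c53706 : QOK q53706 := cut [q2577] ⟨c2577, trivial⟩ (nd (nat_lit 297) (nat_lit 0) (cs (lf (nat_lit 40) (nat_lit 252)) (rf (nat_lit 0)))) q53706 (by decide +kernel)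
def q53707 : Q := Q.p (nat_lit 0x50000080000000000800002000000000000000000000000000000000000000000000000000000000000000) (nat_lit 0x14000020000100000200000000000000000000000000000000000000000000000000000000000000000000000000) (nat_lit 3)
theorem c53707 : QOK q53707 := cut [q2577] ⟨c2577, trivial⟩ (nd (nat_lit 297) (nat_lit 0) (cs (lf (nat_lit 28) (nat_lit 253)) (rf (nat_lit 0)))) q53707 (by decide +kernel)
def q53713 : Q := Q.p (nat_lit 0x70000080000000000800002000000000000000000000000000000000000000000000000000000000000000) (nat_lit 0x3380000c000378000c00003000000000000000000000000000000000000000000000000000000000000000000000) (nat_lit 7)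
theorem c53713 : QOK q53713 := cut [q25476, q53414] ⟨c25476, c53414, trivial⟩ (nd (nat_lit 339) (nat_lit 0) (cs (rf (nat_lit 0)) (cs (rf (nat_lit 1)) (nd (nat_lit 317) (nat_lit 0) (cs (lf (nat_lit 23) (nat_lit 316)) (nd (nat_lit 320) (nat_lit 0) (cs (lf (nat_lit 17) (nat_lit 317)) (nd (nat_lit 364) (nat_lit 0) (cs (lf (nat_lit 5) (nat_lit 339)) (nd (nat_lit 298) (nat_lit 0) (cs (lf (nat_lit 45) (nat_lit 253)) (nd (nat_lit 299) (nat_lit 0) (cs (lf (nat_lit 13) (nat_lit 295)) (lf (nat_lit 35) (nat_lit 276))))))))))))))) q53713 (by decide +kernel)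
def q53831 : Q := Q.p (nat_lit 0x70000080000000000800002000000000000000000000000000000000000000000000000000000000000000) (nat_lit 0x10000fc0003f0000fc000ff80000c0001780004c0001300000400000000000000000000000000000000000000000000000000000000000000) (nat_lit 13)
theorem c53831 : QOK q53831 := cut [q31222, q43645, q53795, q53446] ⟨c31222, c43645, c53795, c53446, trivial⟩ (nd (nat_lit 364) (nat_lit 0) (cs (rf (nat_lit 0)) (cs (nd (nat_lit 386) (nat_lit 0) (cs (lf (nat_lit 42) (nat_lit 319)) (nd (nat_lit 385) (nat_lit 0) (cs (nd (nat_lit 320) (nat_lit 0) (cs (lf (nat_lit 41) (nat_lit 319)) (nd (nat_lit 298) (nat_lit 0) (cs (lf (nat_lit 45) (nat_lit 253)) (lf (nat_lit 31) (nat_lit 297)))))) (cs (nd (nat_lit 320) (nat_lit 0) (cs (lf (nat_lit 41) (nat_lit 319)) (nd (nat_lit 387) (nat_lit 0) (cs (lf (nat_lit 29) (nat_lit 320)) (nd (nat_lit 298) (nat_lit 0) (cs (lf (nat_lit 45) (nat_lit 253)) (lf (nat_lit 28) (nat_lit 298)))))))) (nd (nat_lit 384) (nat_lit 0) (cs (rf (nat_lit 1)) (nd (nat_lit 406) (nat_lit 0) (cs (lf (nat_lit 38) (nat_lit 318)) (lf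 (nat_lit 32) (nat_lit 318))))))))))) (cs (nd (nat_lit 386) (nat_lit 0) (cs (lf (nat_lit 42) (nat_lit 319)) (nd (nat_lit 339) (nat_lit 0) (cs (lf (nat_lit 5) (nat_lit 339)) (rf (nat_lit 2)))))) (nd (nat_lit 408) (nat_lit 0) (cs (lf (nat_lit 43) (nat_lit 319)) (nd (nat_lit 339) (nat_lit 0) (cs (rf (nat_lit 3)) (cs (rf (nat_lit 2)) (nd (nat_lit 361) (nat_lit 0) (cs (lf (nat_lit 11) (nat_lit 338)) (nd (nat_lit 383) (nat_lit 0) (cs (nd (nat_lit 405) (nat_lit 0) (cs (lf (nat_lit 35) (nat_lit 317)) (nd (nat_lit 404) (nat_lit 0) (cs (lf (nat_lit 41) (nat_lit 338)) (nd (nat_lit 362) (nat_lit 0) (cs (lf (nat_lit 30) (nat_lit 339)) (nd (nat_lit 406) (nat_lit 0) (cs (lf (nat_lit 29) (nat_lit 339)) (lf (nat_lit 31) (nat_lit 318)))))))))) (cs (nd (nat_lit 317) (nat_lit 0) (cs (lf (nat_lit 23) (nat_lit 316)) (nd (nat_lit 384) (nat_lit 0) (cs (lf (nat_lit 29) (nat_lit 317)) (nd (nat_lit 295) (nat_lit 0) (cs (lf (nat_lit 28) (nat_lit 295)) (nd (nat_lit 272) (nat_lit 0) (cs (lf (nat_lit 46) (nat_lit 272)) (nd (nat_lit 250) (nat_lit 0) (cs (lf (nat_lit 45)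 (nat_lit 250)) (nd (nat_lit 382) (nat_lit 0) (cs (lf (nat_lit 41) (nat_lit 316)) (nd (nat_lit 385) (nat_lit 0) (cs (lf (nat_lit 16) (nat_lit 360)) (lf (nat_lit 4) (nat_lit 382)))))))))))))))) (cs (nd (nat_lit 316) (nat_lit 0) (cs (lf (nat_lit 22) (nat_lit 316)) (nd (nat_lit 405) (nat_lit 0) (cs (lf (nat_lit 35) (nat_lit 317)) (nd (nat_lit 426) (nat_lit 0) (cs (lf (nat_lit 40) (nat_lit 338)) (nd (nat_lit 427) (nat_lit 0) (cs (lf (nat_lit 34) (nat_lit 339)) (lf (nat_lit 41) (nat_lit 360)))))))))) (cs (nd (nat_lit 316) (nat_lit 0) (cs (lf (nat_lit 22) (nat_lit 316)) (nd (nat_lit 405) (nat_lit 0) (cs (lf (nat_lit 35) (nat_lit 317)) (nd (nat_lit 404) (nat_lit 0) (cs (lf (nat_lit 41) (nat_lit 338)) (nd (nat_lit 406) (nat_lit 0) (cs (lf (nat_lit 29) (nat_lit 339)) (nd (nat_lit 407) (nat_lit 0) (cs (lf (nat_lit 23) (nat_lit 382)) (nd (nat_lit 430) (nat_lit 0) (cs (lf (nat_lit 4) (nat_lit 404)) (lf (nat_lit 5) (nat_lit 405)))))))))))))) (nd (nat_lit 316) (nat_lit 0) (cs (lf (nat_lit 22) (nat_lit 316)) (nd (nat_lit 405) (nat_lit 0) (cs (lf (nat_lit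 35) (nat_lit 317)) (nd (nat_lit 406) (nat_lit 0) (cs (lf (nat_lit 29) (nat_lit 339)) (nd (nat_lit 362) (nat_lit 0) (cs (lf (nat_lit 30) (nat_lit 339)) (lf (nat_lit 31) (nat_lit 318)))))))))))))))))))))))))) q53831 (by decide +kernel)
def q53848 : Q := Q.p (nat_lit 0x70000080000000000800002000000000000000000000000000000000000000000000000000000000000000) (nat_lit 0x380000e00007c00038c000170000400001000000000000000000000000000000000000000000000000000000000000000000000) (nat_lit 10)
theorem c53848 : QOK q53848 := cut [q53837] ⟨c53837, trivial⟩ (nd (nat_lit 317) (nat_lit 0) (cs (nd (nat_lit 339) (nat_lit 0) (cs (lf (nat_lit 23) (nat_lit 316)) (rf (nat_lit 0)))) (cs (nd (nat_lit 343) (nat_lit 0) (cs (lf (nat_lit 22) (nat_lit 317)) (nd (nat_lit 365) (nat_lit 0) (cs (lf (nat_lit 5) (nat_lit 340)) (nd (nat_lit 339) (nat_lit 0) (cs (lf (nat_lit 4) (nat_lit 339)) (nd (nat_lit 320) (nat_lit 0) (cs (lf (nat_lit 12) (nat_lit 316)) (nd (nat_lit 298) (nat_lit 0) (cs (lf (nat_lit 24) (nat_lit 276)) (nd (nat_lit 387) (nat_lit 0) (cs (lf (nat_lit 42) (nat_lit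 320)) (nd (nat_lit 363) (nat_lit 0) (cs (lf (nat_lit 30) (nat_lit 297)) (nd (nat_lit 344) (nat_lit 0) (cs (lf (nat_lit 18) (nat_lit 319)) (lf (nat_lit 11) (nat_lit 340)))))))))))))))))) (nd (nat_lit 318) (nat_lit 0) (cs (lf (nat_lit 0) (nat_lit 316)) (lf (nat_lit 18) (nat_lit 317))))))) q53848 (by decide +kernel)
def q53909 : Q := Q.p (nat_lit 0xf0000100000000000800002000000000000000000000000000000000000000000000000000000000000000) (nat_lit 0xe000300001ce0000400001000000000000000000000000000000000000000000000000000000000000000000000) (nat_lit 7)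
theorem c53909 : QOK q53909 := cut [q53616] ⟨c53616, trivial⟩ (nd (nat_lit 276) (nat_lit 0) (cs (lf (nat_lit 44) (nat_lit 253)) (nd (nat_lit 317) (nat_lit 0) (cs (lf (nat_lit 22) (nat_lit 317)) (nd (nat_lit 362) (nat_lit 0) (cs (lf (nat_lit 11) (nat_lit 339)) (nd (nat_lit 344) (nat_lit 0) (cs (lf (nat_lit 10) (nat_lit 340)) (rf (nat_lit 0)))))))))) q53909 (by decide +kernel)
def q53932 : Q := Q.p (nat_lit 0x10000000000200000800002000000000000000000000000000000000000000000000000000000000000000) (nat_lit 0x140000600001c0000000000000000000000000000000000000000000000000000000000000000000000000000000) (nat_lit 4)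
theorem c53932 : QOK q53932 := cut [q2609] ⟨c2609, trivial⟩ (nd (nat_lit 319) (nat_lit 0) (cs (lf (nat_lit 40) (nat_lit 252)) (nd (nat_lit 341) (nat_lit 0) (cs (lf (nat_lit 41) (nat_lit 274)) (rf (nat_lit 0)))))) q53932 (by decide +kernel)
def q53956 : Q := Q.p (nat_lit 0x380001e00002000000000000000000000000000000000000000000000000000000000000000) (nat_lit 0x40000300000c00000000000000000000000000000000000000000000000000000000000000000000000000) (nat_lit 3)
theorem c53956 : QOK q53956 := cut [q15058] ⟨c15058, trivial⟩ (nd (nat_lit 298) (nat_lit 0) (cs (lf (nat_lit 5) (nat_lit 273)) (rf (nat_lit 0)))) q53956 (by decide +kernel)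
def q53965 : Q := Q.p (nat_lit 0x1c000040000000000000000000000000000000000000000000000000000000000000000000000000000000) (nat_lit 0x20003a0000000000000000000000000000000000000000000000000000000000000000000000000000000) (nat_lit 3)
theorem c53965 : QOK q53965 := cut [q53964] ⟨c53964, trivial⟩ (nd (nat_lit 319) (nat_lit 0) (cs (lf (nat_lit 12) (nat_lit 315)) (rf (nat_lit 0)))) q53965 (by decide +kernel)
def q53986 : Q := Q.p (nat_lit 0x3c0000c0000000000000000000000000000000000000000000000000000000000000000000000000000000) (nat_lit 0x38001c0000020000000000000000000000000000000000000000000000000000000000000000000000000000000) (nat_lit 4)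
theorem c53986 : QOK q53986 := cut [q53982] ⟨c53982, trivial⟩ (nd (nat_lit 360) (nat_lit 0) (cs (lf (nat_lit 11) (nat_lit 337)) (nd (nat_lit 342) (nat_lit 0) (cs (lf (nat_lit 10) (nat_lit 338)) (rf (nat_lit 0)))))) q53986 (by decide +kernel)
def q53991 : Q := Q.p (nat_lit 0x1e000060000000000000000000000000000000000000000000000000000000000000000000000000000000) (nat_lit 0x100000c000000000000000080000200000000000000000000000000000000000000000000000000000000000000000000) (nat_lit 3)
theorem c53991 : QOK q53991 := cut [q31298] ⟨c31298, trivial⟩ (nd (nat_lit 362) (nat_lit 0) (cs (lf (nat_lit 5) (nat_lit 337)) (rf (nat_lit 0)))) q53991 (by decide +kernel)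
def q53995 : Q := Q.p (nat_lit 0x38000000000000000800002000000000000000000000000000000000000000000000000000000000000000) (nat_lit 0x80000380000e00007f0000c00007b0000c00003000000000000000000000000000000000000000000000000000000000000000000000) (nat_lit 12)
theorem c53995 : QOK q53995 := cut [q25104, q52751, q52840, q53878] ⟨c25104, c52751, c52840, c53878, trivial⟩ (nd (nat_lit 342) (nat_lit 0) (cs (rf (nat_lit 0)) (cs (rf (nat_lit 1)) (cs (rf (nat_lit 2)) (rf (nat_lit 3)))))) q53995 (by decide +kernel)
def q54000 : Q := Q.p (nat_lit 0x3c000010000040000000000000000000000000000000000000000000000000000000000000000000000000) (nat_lit 0x18000000001800000a0000380000a00000000000000000000000000000000000000000000000000000000000000) (nat_lit 6)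
theorem c54000 : QOK q54000 := cut [q53998] ⟨c53998, trivial⟩ (nd (nat_lit 360) (nat_lit 0) (cs (lf (nat_lit 11) (nat_lit 337)) (nd (nat_lit 319) (nat_lit 0) (cs (lf (nat_lit 17) (nat_lit 316)) (rf (nat_lit 0)))))) q54000 (by decide +kernel)
def q54027 : Q := Q.p (nat_lit 0x1e000000000000000000000000000000000000000000000000000000000000000000000000000000000000) (nat_lit 0xee00001000000000000000000000000000000000000000000000000000000000000000000000000000000000000) (nat_lit 4)
theorem c54027 : QOK q54027 := cut [q25512] ⟨c25512, trivial⟩ (nd (nat_lit 358) (nat_lit 0) (cs (lf (nat_lit 10) (nat_lit 336)) (nd (nat_lit 336) (nat_lit 0) (cs (lf (nat_lit 11) (nat_lit 335)) (rf (nat_lit 0)))))) q54027 (by decide +kernel)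
def q54048 : Q := Q.p (nat_lit 0x38000000000000000000000000000000000000000000000000000000000000000000000000000000000000) (nat_lit 0x738000c4000738000000000000000000000000000000000000000000000000000000000000000000000000000000) (nat_lit 5)
theorem c54048 : QOK q54048 := cut [q25104, q25476] ⟨c25104, c25476, trivial⟩ (nd (nat_lit 342) (nat_lit 0) (cs (rf (nat_lit 0)) (rf (nat_lit 1)))) q54048 (by decide +kernel)
def q54056 : Q := Q.p (nat_lit 0x100003c000050000040000000000000000000000000000000000000000000000000000000000000000000000000) (nat_lit 0x1a0000020000080000000000000000000000000000000000000000000000000000000000000000000) (nat_lit 3)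
theorem c54056 : QOK q54056 := cut [q54055] ⟨c54055, trivial⟩ (nd (nat_lit 319) (nat_lit 0) (cs (lf (nat_lit 17) (nat_lit 316)) (rf (nat_lit 0)))) q54056 (by decide +kernel)
def q54063 : Q := Q.p (nat_lit 0x70000040000000000000000000000000000000000000000000000000000000000000000000000000000000) (nat_lit 0x180000ea0000000000000000000000000000000000000000000000000000000000000000000000000000000) (nat_lit 4)
theorem c54063 : QOK q54063 := cut [q13306] ⟨c13306, trivial⟩ (nd (nat_lit 343) (nat_lit 0) (cs (rf (nat_lit 0)) (lf (nat_lit 23) (nat_lit 317)))) q54063 (by decide +kernel)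
def q54080 : Q := Q.p (nat_lit 0x2000018000060000080000000000000000000000000000000000000000000000000000000000000000000000000) (nat_lit 0x600001800004000000000000000000000000000000000000000000000000000000000000000000000000000000000000000000) (nat_lit 3)
theorem c54080 : QOK q54080 := cut [q45078] ⟨c45078, trivial⟩ (nd (nat_lit 383) (nat_lit 0) (cs (lf (nat_lit 30) (nat_lit 317)) (rf (nat_lit 0)))) q54080 (by decide +kernel)
def q54088 : Q := Q.p (nat_lit 0x8000070000040000c00000000000000000000000000000000000000000000000000000000000000000000) (nat_lit 0x80000020000300000400000000000000000000000000000000000000000000000000000000000000) (nat_lit 3)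
theorem c54088 : QOK q54088 := cut [q54087] ⟨c54087, trivial⟩ (nd (nat_lit 293) (nat_lit 0) (cs (lf (nat_lit 18) (nat_lit 293)) (rf (nat_lit 0)))) q54088 (by decide +kernel)
def q54093 : Q := Q.p (nat_lit 0x18000070000000000c00000000000000000000000000000000000000000000000000000000000000000000) (nat_lit 0x300008c000070000300000400000000000000000000000000000000000000000000000000000000000000) (nat_lit 6)
theorem c54093 : QOK q54093 := cut [q54087] ⟨c54087, trivial⟩ (nd (nat_lit 315) (nat_lit 0) (cs (lf (nat_lit 0) (nat_lit 314)) (nd (nat_lit 336) (nat_lit 0) (cs (lf (nat_lit 10) (nat_lit 314)) (nd (nat_lit 293) (nat_lit 0) (cs (lf (nat_lit 23) (nat_lit 292)) (nd (nat_lit 294) (nat_lit 0) (cs (lf (nat_lit 18) (nat_lit 293)) (rf (nat_lit 0)))))))))) q54093 (by decide +kernel)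
def q54095 : Q := Q.p (nat_lit 0x600000c0000000000000000000000000000000000000000000000000000000000000000000000000) (nat_lit 0x190000030000000000000000000000000000000000000000000000000000000000000000000000000) (nat_lit 3)
theorem c54095 : QOK q54095 := cut [q16830] ⟨c16830, trivial⟩ (nd (nat_lit 319) (nat_lit 0) (cs (lf (nat_lit 18) (nat_lit 294)) (rf (nat_lit 0)))) q54095 (by decide +kernel)
def q54128 : Q := Q.p (nat_lit 0x3800008000000000000000000000000000000000000000000000000000000000000000000000000000000000000000000) (nat_lit 0x4400070000000000000000000000000000000000000000000000000000000000000000000000000000000000000000000) (nat_lit 3)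
theorem c54128 : QOK q54128 := cut [q46044] ⟨c46044, trivial⟩ (nd (nat_lit 364) (nat_lit 0) (cs (lf (nat_lit 12) (nat_lit 360)) (rf (nat_lit 0)))) q54128 (by decide +kernel)
def q54204 : Q := Q.p (nat_lit 0x18000060000000000000000000000000000000000000000000000000000000000000000000000000000000) (nat_lit 0xf0000fc0000f80006300009c0000f0000100000400000000000000000000000000000000000000000000000000000000000000) (nat_lit 9)
theorem c54204 : QOK q54204 := cut [q43323, q54187, q18220] ⟨c43323, c54187, c18220, trivial⟩ (nd (nat_lit 316) (nat_lit 0) (cs (rf (nat_lit 0)) (cs (nd (nat_lit 315) (nat_lit 0) (cs (lf (nat_lit 0) (nat_lit 314)) (nd (nat_lit 336) (nat_lit 0) (cs (lf (nat_lit 10) (nat_lit 314)) (nd (nat_lit 293) (nat_lit 0) (cs (lf (nat_lit 23) (nat_lit 292)) (nd (nat_lit 294) (nat_lit 0) (cs (lf (nat_lit 18) (nat_lit 293)) (nd (nat_lit 272) (nat_lit 0) (cs (lf (nat_lit 24) (nat_lit 250)) (nd (nat_lit 361) (nat_lit 0) (cs (lf (nat_lit 42) (nat_lit 294)) (lf (nat_lit 45) (nat_lit 272)))))))))))))) (nd (nat_lit 361) (nat_lit 0) (cs (nd (nat_lit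 383) (nat_lit 0) (cs (lf (nat_lit 30) (nat_lit 317)) (lf (nat_lit 47) (nat_lit 294)))) (cs (nd (nat_lit 362) (nat_lit 0) (cs (rf (nat_lit 1)) (cs (nd (nat_lit 341) (nat_lit 0) (cs (lf (nat_lit 18) (nat_lit 316)) (nd (nat_lit 360) (nat_lit 0) (cs (lf (nat_lit 12) (nat_lit 337)) (nd (nat_lit 295) (nat_lit 0) (cs (lf (nat_lit 41) (nat_lit 294)) (nd (nat_lit 294) (nat_lit 0) (cs (rf (nat_lit 2)) (lf (nat_lit 47) (nat_lit 272)))))))))) (nd (nat_lit 341) (nat_lit 0) (cs (lf (nat_lit 18) (nat_lit 316)) (nd (nat_lit 360) (nat_lit 0) (cs (lf (nat_lit 12) (nat_lit 337)) (nd (nat_lit 384) (nat_lit 0) (cs (lf (nat_lit 42) (nat_lit 317)) (nd (nat_lit 385) (nat_lit 0) (cs (lf (nat_lit 29) (nat_lit 318)) (nd (nat_lit 386) (nat_lit 0) (cs (lf (nat_lit 18) (nat_lit 361)) (lf (nat_lit 3) (nat_lit 360))))))))))))))) (nd (nat_lit 341) (nat_lit 0) (cs (lf (nat_lit 18) (nat_lit 316)) (nd (nat_lit 383) (nat_lit 0) (cs (lf (nat_lit 30) (nat_lit 317)) (nd (nat_lit 382) (nat_lit 0) (cs (lf (nat_lit 41) (nat_lit 316)) (nd (nat_lit 295) (nat_lit 0) (cs (lf (nat_lit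 40) (nat_lit 294)) (nd (nat_lit 384) (nat_lit 0) (cs (lf (nat_lit 29) (nat_lit 317)) (lf (nat_lit 43) (nat_lit 295)))))))))))))))))) q54204 (by decide +kernel)
def q54208 : Q := Q.p (nat_lit 0x1c000058000040000000000000000000000000000000000000000000000000000000000000000000000000000000) (nat_lit 0x200000c00002000080000000000000000000000000000000000000000000000000000000000000000000000000000000000000) (nat_lit 3)
theorem c54208 : QOK q54208 := cut [q42516] ⟨c42516, trivial⟩ (nd (nat_lit 361) (nat_lit 0) (cs (lf (nat_lit 17) (nat_lit 339)) (rf (nat_lit 0)))) q54208 (by decide +kernel)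
def q54241 : Q := Q.p (nat_lit 0x80000200000c000000000000000000000000000000000000000000000000000000000000000000000000000000000000) (nat_lit 0x200000000001000000000010000040000100000000000000000000000000000000000000000000000000000000000000000000) (nat_lit 3)
theorem c54241 : QOK q54241 := cut [q54240] ⟨c54240, trivial⟩ (nd (nat_lit 316) (nat_lit 0) (cs (lf (nat_lit 42) (nat_lit 316)) (rf (nat_lit 0)))) q54241 (by decide +kernel)
def q54250 : Q := Q.p (nat_lit 0x80000200000c000000000000000000000000000000000000000000000000000000000000000000000000000000000000) (nat_lit 0x200000000000000000000030000040000100000000000000000000000000000000000000000000000000000000000000000000) (nat_lit 3)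
theorem c54250 : QOK q54250 := cut [q43399] ⟨c43399, trivial⟩ (nd (nat_lit 316) (nat_lit 0) (cs (rf (nat_lit 0)) (lf (nat_lit 42) (nat_lit 316)))) q54250 (by decide +kernel)
def q54254 : Q := Q.p (nat_lit 0x80000200001c000000000000000000000000000000000000000000000000000000000000000000000000000000000000) (nat_lit 0x1c0000700001400005000000000020000000000000000000000000000000000000000000000000000000000000000000000000000000) (nat_lit 5)
theorem c54254 : QOK q54254 := cut [q22678] ⟨c22678, trivial⟩ (nd (nat_lit 405) (nat_lit 0) (cs (nd (nat_lit 406) (nat_lit 0) (cs (lf (nat_lit 29) (nat_lit 339)) (nd (nat_lit 317) (nat_lit 0) (cs (rf (nat_lit 0)) (lf (nat_lit 28) (nat_lit 317)))))) (nd (nat_lit 427) (nat_lit 0) (cs (lf (nat_lit 34) (nat_lit 339)) (lf (nat_lit 46) (nat_lit 338)))))) q54254 (by decide +kernel)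
def q54298 : Q := Q.p (nat_lit 0x800002000008000020000000000000000000000000000000000000000000000000000000000000000000000000000000) (nat_lit 0x500001400005000000000000000080000000000000000000000000000000000000000000000000000000000000000000000000) (nat_lit 4)
theorem c54298 : QOK q54298 := cut [q45874] ⟨c45874, trivial⟩ (nd (nat_lit 384) (nat_lit 0) (cs (lf (nat_lit 29) (nat_lit 317)) (nd (nat_lit 295) (nat_lit 0) (cs (lf (nat_lit 28) (nat_lit 295)) (rf (nat_lit 0)))))) q54298 (by decide +kernel)
def q54357 : Q := Q.p (nat_lit 0x6000008000020000080000000000000000000000000000000000000000000000000000000000000000000) (nat_lit 0x10000000000040000300000400000000000000000000000000000000000000000000000000000000) (nat_lit 3)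
theorem c54357 : QOK q54357 := cut [q54356] ⟨c54356, trivial⟩ (nd (nat_lit 249) (nat_lit 0) (cs (lf (nat_lit 28) (nat_lit 249)) (rf (nat_lit 0)))) q54357 (by decide +kernel)
def q54368 : Q := Q.p (nat_lit 0x1c000000000000000c00002000000000000000000000000000000000000000000000000000000000000000) (nat_lit 0xe0000030000ce000100000000000000000000000000000000000000000000000000000000000000000000000000) (nat_lit 6)
theorem c54368 : QOK q54368 := cut [q54367] ⟨c54367, trivial⟩ (nd (nat_lit 318) (nat_lit 0) (cs (lf (nat_lit 32) (nat_lit 252)) (rf (nat_lit 0)))) q54368 (by decide +kernel)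
def q54396 : Q := Q.p (nat_lit 0x3c000000000000000000000000000000000000000000000000000000000000000000000000000000000000) (nat_lit 0x38000040000398000000000000000000000000000000000000000000000000000000000000000000000000000000) (nat_lit 5)
theorem c54396 : QOK q54396 := cut [q54395] ⟨c54395, trivial⟩ (nd (nat_lit 315) (nat_lit 0) (cs (lf (nat_lit 22) (nat_lit 315)) (rf (nat_lit 0)))) q54396 (by decide +kernel)
def q54413 : Q := Q.p (nat_lit 0x180000c00000000000000000000000000000000000000000000000000000000000000000000) (nat_lit 0x60003200000000000000000000000000000000000000000000000000000000000000000000) (nat_lit 3)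
theorem c54413 : QOK q54413 := cut [q54412] ⟨c54412, trivial⟩ (nd (nat_lit 276) (nat_lit 0) (cs (lf (nat_lit 6) (nat_lit 273)) (rf (nat_lit 0)))) q54413 (by decide +kernel)

end Crest.Agent.H3.Snaky.CR
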