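import Crest.Agent.H3.Snaky.Cert
import Crest.Agent.H3.Snaky.CR.CR0
import Crest.Agent.H3.Snaky.CR.CR1
import Crest.Agent.H3.Snaky.CR.CR2
import Crest.Agent.H3.Snaky.CR.CR3
import Crest.Agent.H3.Snaky.CR.CR4
import Crest.Agent.H3.Snaky.CR.CR5
import Crest.Agent.H3.Snaky.CR.CR6
import Crest.Agent.H3.Snaky.CR.CR9
import Crest.Agent.H3.Snaky.CR.CR10
import Crest.Agent.H3.Snaky.CR.CR11
import Crest.Agent.H3.Snaky.CR.CR12
import Crest.Agent.H3.Snaky.CR.CR13

set_option autoImplicit false
set_option maxRecDepth 100000

namespace Crest.Agent.H3.Snaky.CR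

open T

def q54419 : Q := Q.p (nat_lit 0x38000020000000000c00002000000000000000000000000000000000000000000000000000000000000000) (nat_lit 0xc40003c0000d00001000000000000000000000000000000000000000000000000000000000000000000000) (nat_lit 6)
theorem c54419 : QOK q54419 := cut [q13070] ⟨c13070, trivial⟩ (nd (nat_lit 318) (nat_lit 0) (cs (lf (nat_lit 32) (nat_lit 252)) (nd (nat_lit 342) (nat_lit 0) (cs (lf (nat_lit 18) (nat_lit 317)) (nd (nat_lit 320) (nat_lit 0) (cs (lf (nat_lit 17) (nat_lit 317)) (nd (nat_lit 319) (nat_lit 0) (cs (rf (nat_lit 0)) (lf (nat_lit 12) (nat_lit 316)))))))))) q54419 (by decide +kernel)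
def q54420 : Q := Q.p (nat_lit 0x38000020000000000000000000000000000000000000000000000000000000000000000000000000000000) (nat_lit 0x4400001c000000000000000000000000000000000000000000000000000000000000000000000000000000) (nat_lit 3)
theorem c54420 : QOK q54420 := cut [q45532] ⟨c45532, trivial⟩ (nd (nat_lit 316) (nat_lit 0) (cs (lf (nat_lit 18) (nat_lit 316)) (rf (nat_lit 0)))) q54420 (by decide +kernel)
def q54427 : Q := Q.p (nat_lit 0x2000018000020000080000000000000000000000000000000000000000000000000000000000000000000000000) (nat_lit 0x1400005800060000000000000000000000000000000000000000000000000000000000000000000000000000000000000) (nat_lit 4)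
theorem c54427 : QOK q54427 := cut [q54077] ⟨c54077, trivial⟩ (nd (nat_lit 362) (nat_lit 0) (cs (lf (nat_lit 29) (nat_lit 295)) (rf (nat_lit 0)))) q54427 (by decide +kernel)
def q54436 : Q := Q.p (nat_lit 0x3c000070000000000000000000000000000000000000000000000000000000000000000000000000000000) (nat_lit 0xb80003e0001f800000000000000000000000000000000000000000000000000000000000000000000000000000000000000000) (nat_lit 8)
theorem c54436 : QOK q54436 := cut [q46335] ⟨c46335, trivial⟩ (nd (nat_lit 360) (nat_lit 0) (cs (lf (nat_lit 11) (nat_lit 337)) (nd (nat_lit 363) (nat_lit 0) (cs (lf (nat_lit 5) (nat_lit 338)) (nd (nat_lit 382) (nat_lit 0) (cs (lf (nat_lit 30) (nat_lit 316)) (nd (nat_lit 383) (nat_lit 0) (cs (lf (nat_lit 29) (nat_lit 316)) (nd (nat_lit 385) (nat_lit 0) (cs (lf (nat_lit 42) (nat_lit 318)) (rf (nat_lit 0)))))))))))) q54436 (by decide +kernel)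
def q54547 : Q := Q.p (nat_lit 0x1c000000000000000c00002000000000000000000000000000000000000000000000000000000000000000) (nat_lit 0x500001c0000780003f8000600003c0000100000000000000000000000000000000000000000000000000000000000000000000000000) (nat_lit 10)
theorem c54547 : QOK q54547 := cut [q52810, q54033, q54395, q46371] ⟨c52810, c54033, c54395, c46371, trivial⟩ (nd (nat_lit 341) (nat_lit 0) (cs (rf (nat_lit 0)) (cs (rf (nat_lit 1)) (cs (rf (nat_lit 2)) (nd (nat_lit 363) (nat_lit 0) (cs (lf (nat_lit 5) (nat_lit 338)) (nd (nat_lit 385) (nat_lit 0) (cs (nd (nat_lit 318) (nat_lit 0) (cs (lf (nat_lit 32) (nat_lit 252)) (lf (nat_lit 42) (nat_lit 318)))) (cs (nd (nat_lit 359) (nat_lit 0) (cs (lf (nat_lit 10) (nat_lit 337)) (nd (nat_lit 319) (nat_lit 0) (cs (lf (nat_lit 17) (nat_lit 316)) (nd (nat_lit 408) (nat_lit 0) (cs (nd (nat_lit 406) (nat_lit 0) (cs (nd (nat_lit 407) (nat_lit 0) (cs (lf (nat_lit 29) (nat_lit 341)) (lf (nat_lit 41) (nat_lit 340)))) (lf (nat_lit 40) (nat_lit 318)))) (lf (nat_lit 28) (nat_lit 319)))))))) (nd (nat_lit 360) (nat_lit 0) (cs (lf (nat_lit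 11) (nat_lit 337)) (nd (nat_lit 319) (nat_lit 0) (cs (lf (nat_lit 17) (nat_lit 316)) (nd (nat_lit 384) (nat_lit 0) (cs (lf (nat_lit 41) (nat_lit 318)) (nd (nat_lit 296) (nat_lit 0) (cs (lf (nat_lit 46) (nat_lit 296)) (rf (nat_lit 3))))))))))))))))))) q54547 (by decide +kernel)
def q54612 : Q := Q.p (nat_lit 0x38000060000000000800002000000000000000000000000000000000000000000000000000000000000000) (nat_lit 0x39c000c7000300000400001000000000000000000000000000000000000000000000000000000000000000000000) (nat_lit 8)
theorem c54612 : QOK q54612 := cut [q54607] ⟨c54607, trivial⟩ (nd (nat_lit 342) (nat_lit 0) (cs (lf (nat_lit 18) (nat_lit 317)) (nd (nat_lit 320) (nat_lit 0) (cs (lf (nat_lit 17) (nat_lit 317)) (nd (nat_lit 276) (nat_lit 0) (cs (lf (nat_lit 44) (nat_lit 253)) (nd (nat_lit 364) (nat_lit 0) (cs (lf (nat_lit 5) (nat_lit 339)) (nd (nat_lit 338) (nat_lit 0) (cs (lf (nat_lit 4) (nat_lit 338)) (rf (nat_lit 0)))))))))))) q54612 (by decide +kernel)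
def q54618 : Q := Q.p (nat_lit 0x3c000060000000000000000000000000000000000000000000000000000000000000000000000000000000) (nat_lit 0x800002400019800000000018000080000200000000000000000000000000000000000000000000000000000000000000000000) (nat_lit 6)
theorem c54618 : QOK q54618 := cut [q54614] ⟨c54614, trivial⟩ (nd (nat_lit 316) (nat_lit 0) (cs (lf (nat_lit 0) (nat_lit 315)) (nd (nat_lit 363) (nat_lit 0) (cs (lf (nat_lit 5) (nat_lit 338)) (nd (nat_lit 385) (nat_lit 0) (cs (lf (nat_lit 42) (nat_lit 318)) (nd (nat_lit 360) (nat_lit 0) (cs (lf (nat_lit 11) (nat_lit 337)) (rf (nat_lit 0)))))))))) q54618 (by decide +kernel)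
def q54647 : Q := Q.p (nat_lit 0x2000008000020000080000000000000000000000000000000000000000000000000000000000000000000) (nat_lit 0x400001000004000000000040000300000400000000000000000000000000000000000000000000000000000000) (nat_lit 4)
theorem c54647 : QOK q54647 := cut [q54356] ⟨c54356, trivial⟩ (nd (nat_lit 336) (nat_lit 0) (cs (lf (nat_lit 41) (nat_lit 270)) (nd (nat_lit 249) (nat_lit 0) (cs (rf (nat_lit 0)) (lf (nat_lit 40) (nat_lit 248)))))) q54647 (by decide +kernel)
def q54655 : Q := Q.p (nat_lit 0x400002000008000020000080000000000000000000000000000000000000000000000000000000000000000000) (nat_lit 0x100000800000000000000010000040000100000000000000000000000000000000000000000000000000000000000000) (nat_lit 3)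
theorem c54655 : QOK q54655 := cut [q54654] ⟨c54654, trivial⟩ (nd (nat_lit 359) (nat_lit 0) (cs (lf (nat_lit 41) (nat_lit 292)) (rf (nat_lit 0)))) q54655 (by decide +kernel)
def q54783 : Q := Q.p (nat_lit 0x100001e0000000000000000000000000000000000000000000000000000000000000000000000000000000) (nat_lit 0x2e000018000070000000000000000000000000000000000000000000000000000000000000000000000000) (nat_lit 5)
theorem c54783 : QOK q54783 := cut [q14566] ⟨c14566, trivial⟩ (nd (nat_lit 338) (nat_lit 0) (cs (lf (nat_lit 10) (nat_lit 316)) (nd (nat_lit 316) (nat_lit 0) (cs (lf (nat_lit 11) (nat_lit 315)) (nd (nat_lit 315) (nat_lit 0) (cs (lf (nat_lit 5) (nat_lit 315)) (rf (nat_lit 0)))))))) q54783 (by decide +kernel)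
def q54790 : Q := Q.p (nat_lit 0x100001c0000000000000000000000000000000000000000000000000000000000000000000000000000000) (nat_lit 0x1e8001e20007000000000000000000000000000000000000000000000000000000000000000000000000000) (nat_lit 7)
theorem c54790 : QOK q54790 := cut [q13112] ⟨c13112, trivial⟩ (nd (nat_lit 321) (nat_lit 0) (cs (lf (nat_lit 11) (nat_lit 317)) (nd (nat_lit 343) (nat_lit 0) (cs (lf (nat_lit 5) (nat_lit 318)) (nd (nat_lit 342) (nat_lit 0) (cs (lf (nat_lit 0) (nat_lit 317)) (nd (nat_lit 322) (nat_lit 0) (cs (lf (nat_lit 13) (nat_lit 318)) (nd (nat_lit 323) (nat_lit 0) (cs (rf (nat_lit 0)) (lf (nat_lit 6) (nat_lit 320)))))))))))) q54790 (by decide +kernel)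
def q54794 : Q := Q.p (nat_lit 0x100003c00000000000000000000000000000000000000000000000000000000000000000000) (nat_lit 0x3a00004000000000000000000000000000000000000000000000000000000000000000000000) (nat_lit 3)
theorem c54794 : QOK q54794 := cut [q15788] ⟨c15788, trivial⟩ (nd (nat_lit 278) (nat_lit 0) (cs (rf (nat_lit 0)) (lf (nat_lit 10) (nat_lit 274)))) q54794 (by decide +kernel)
def q54809 : Q := Q.p (nat_lit 0x100003c00000000000000000000000000000000000000000000000000000000000000000000) (nat_lit 0x200004000038000000000000000000000000000000000000000000000000000000000000000) (nat_lit 3)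
theorem c54809 : QOK q54809 := cut [q23274] ⟨c23274, trivial⟩ (nd (nat_lit 256) (nat_lit 0) (cs (lf (nat_lit 16) (nat_lit 252)) (rf (nat_lit 0)))) q54809 (by decide +kernel)
def q54814 : Q := Q.p (nat_lit 0x3c00002000000000000000000000000000000000000000000000000000000000000000) (nat_lit 0x40000100001c00000200018000020000000000000000000000000000000000000000000000000000000000) (nat_lit 5)
theorem c54814 : QOK q54814 := cut [q54811] ⟨c54811, trivial⟩ (nd (nat_lit 299) (nat_lit 0) (cs (lf (nat_lit 5) (nat_lit 274)) (nd (nat_lit 298) (nat_lit 0) (cs (lf (nat_lit 0) (nat_lit 273)) (nd (nat_lit 320) (nat_lit 0) (cs (lf (nat_lit 42) (nat_lit 253)) (rf (nat_lit 0)))))))) q54814 (by decide +kernel)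
def q54899 : Q := Q.p (nat_lit 0x3c00002000000000000000000000000000000000000000000000000000000000000000) (nat_lit 0x4000039000000000000000000000000000000000000000000000000000000000000000) (nat_lit 3)
theorem c54899 : QOK q54899 := cut [q15730] ⟨c15730, trivial⟩ (nd (nat_lit 278) (nat_lit 0) (cs (lf (nat_lit 23) (nat_lit 252)) (rf (nat_lit 0)))) q54899 (by decide +kernel)
def q54918 : Q := Q.p (nat_lit 0x20000080000300000000000000000000000000000000000000000000000000000000000000) (nat_lit 0x8000000000040000000000400001000004000000000000000000000000000000000000000000000) (nat_lit 3)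
theorem c54918 : QOK q54918 := cut [q54917] ⟨c54917, trivial⟩ (nd (nat_lit 226) (nat_lit 0) (cs (lf (nat_lit 42) (nat_lit 226)) (rf (nat_lit 0)))) q54918 (by decide +kernel)
def q54925 : Q := Q.p (nat_lit 0x20000080000200000800000000000000000000000000000000000000000000000000000000) (nat_lit 0x1400007000014000000000000000000000000000000000000000000000) (nat_lit 4)
theorem c54925 : QOK q54925 := cut [q46572] ⟨c46572, trivial⟩ (nd (nat_lit 206) (nat_lit 0) (cs (lf (nat_lit 34) (nat_lit 205)) (nd (nat_lit 205) (nat_lit 0) (cs (lf (nat_lit 35) (nat_lit 183)) (rf (nat_lit 0)))))) q54925 (by decide +kernel)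
def q54929 : Q := Q.p (nat_lit 0xc000030000080000200000000000000000000000000000000000000000000000000000000000000) (nat_lit 0x400003000000c000000000000000000000000000000000000000000000000000000000000000000000000) (nat_lit 3)
theorem c54929 : QOK q54929 := cut [q54928] ⟨c54928, trivial⟩ (nd (nat_lit 316) (nat_lit 0) (cs (lf (nat_lit 29) (nat_lit 249)) (rf (nat_lit 0)))) q54929 (by decide +kernel)
def q54936 : Q := Q.p (nat_lit 0x2000008000020000080000000000000000000000000000000000000000000000000000000000000000000) (nat_lit 0x1000004000010000000000040000300000400000000000000000000000000000000000000000000000000000000) (nat_lit 4)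
theorem c54936 : QOK q54936 := cut [q54934] ⟨c54934, trivial⟩ (nd (nat_lit 248) (nat_lit 0) (cs (lf (nat_lit 46) (nat_lit 248)) (nd (nat_lit 249) (nat_lit 0) (cs (lf (nat_lit 47) (nat_lit 226)) (rf (nat_lit 0)))))) q54936 (by decide +kernel)
def q54947 : Q := Q.p (nat_lit 0x38000020000c00002000000000000000000000000000000000000000000000000000000000000000) (nat_lit 0x30000040000110000000000000000000000000000000000000000000000000000000000000000000000000) (nat_lit 3)
theorem c54947 : QOK q54947 := cut [q54946] ⟨c54946, trivial⟩ (nd (nat_lit 318) (nat_lit 0) (cs (lf (nat_lit 23) (nat_lit 292)) (rf (nat_lit 0)))) q54947 (by decide +kernel)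
def q54962 : Q := Q.p (nat_lit 0xc0000200000800002000000000000000000000000000000000000000000000000000) (nat_lit 0x10000000000100000c000010000000000000000000000000000000000000000) (nat_lit 3)
theorem c54962 : QOK q54962 := cut [q26954] ⟨c26954, trivial⟩ (nd (nat_lit 183) (nat_lit 0) (cs (lf (nat_lit 40) (nat_lit 182)) (rf (nat_lit 0)))) q54962 (by decide +kernel)
def q54991 : Q := Q.p (nat_lit 0x4000020000e80002300000000010000000000000000000000000000000000000000000000000000) (nat_lit 0x90000000001000007800004000040000000000000000000000000000000000000000000000) (nat_lit 5)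
theorem c54991 : QOK q54991 := cut [q13373] ⟨c13373, trivial⟩ (nd (nat_lit 227) (nat_lit 0) (cs (lf (nat_lit 40) (nat_lit 226)) (nd (nat_lit 228) (nat_lit 0) (cs (lf (nat_lit 35) (nat_lit 205)) (nd (nat_lit 230) (nat_lit 0) (cs (rf (nat_lit 0)) (lf (nat_lit 7) (nat_lit 226)))))))) q54991 (by decide +kernel)
def q55009 : Q := Q.p (nat_lit 0x8000020000080000100000000000000000000000000000000000000000000000000000000000000) (nat_lit 0x2000000000010000040000000000400001000000000000000000000000000000000000000000000000000) (nat_lit 3)
theorem c55009 : QOK q55009 := cut [q47835] ⟨c47835, trivial⟩ (nd (nat_lit 270) (nat_lit 0) (cs (rf (nat_lit 0)) (lf (nat_lit 42) (nat_lit 248)))) q55009 (by decide +kernel)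
def q55014 : Q := Q.p (nat_lit 0x2000008000020000080000000000000000000000000000000000000000000000000000000000000000000) (nat_lit 0x500001c00005000000000000000000000000000000000000000000000000000000000000000000000000000000000000) (nat_lit 4)
theorem c55014 : QOK q55014 := cut [q55011] ⟨c55011, trivial⟩ (nd (nat_lit 358) (nat_lit 0) (cs (lf (nat_lit 40) (nat_lit 270)) (nd (nat_lit 360) (nat_lit 0) (cs (rf (nat_lit 0)) (lf (nat_lit 28) (nat_lit 271)))))) q55014 (by decide +kernel)
def q55062 : Q := Q.p (nat_lit 0x2000008000020000080000000000000000000000000000000000000000000000000000000000000000000) (nat_lit 0x400001800004000000000010000040000100000000000000000000000000000000000000000000000000000000000000) (nat_lit 4)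
theorem c55062 : QOK q55062 := cut [q54654] ⟨c54654, trivial⟩ (nd (nat_lit 360) (nat_lit 0) (cs (lf (nat_lit 28) (nat_lit 271)) (nd (nat_lit 359) (nat_lit 0) (cs (lf (nat_lit 29) (nat_lit 293)) (rf (nat_lit 0)))))) q55062 (by decide +kernel)
def q55102 : Q := Q.p (nat_lit 0x10000020000080000200000000000000000000000000000000000000000000000000000000000000000000) (nat_lit 0x500000c000050000000000000000800000000000000000000000000000000000000000000000000000000000000) (nat_lit 4)
theorem c55102 : QOK q55102 := cut [q54479] ⟨c54479, trivial⟩ (nd (nat_lit 339) (nat_lit 0) (cs (lf (nat_lit 29) (nat_lit 273)) (rf (nat_lit 0)))) q55102 (by decide +kernel)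
def q55104 : Q := Q.p (nat_lit 0x10000020000080000e00002000000000000000000000000000000000000000000000000000000000000000) (nat_lit 0x6000008000040000100000000000000000000000000000000000000000000000000000000000000000000000000) (nat_lit 3)
theorem c55104 : QOK q55104 := cut [q55103] ⟨c55103, trivial⟩ (nd (nat_lit 339) (nat_lit 0) (cs (lf (nat_lit 29) (nat_lit 273)) (rf (nat_lit 0)))) q55104 (by decide +kernel)
def q55170 : Q := Q.p (nat_lit 0xc00003800000000000000000000000000000000000000000000000000000000000000) (nat_lit 0x200000e000038000060000380000600003800000000000000000000000000000000000000000000000000000000) (nat_lit 9)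
theorem c55170 : QOK q55170 := cut [q13608, q25590, q23863, q55166] ⟨c13608, c25590, c23863, c55166, trivial⟩ (nd (nat_lit 250) (nat_lit 0) (cs (lf (nat_lit 0) (nat_lit 249)) (nd (nat_lit 228) (nat_lit 0) (cs (lf (nat_lit 23) (nat_lit 227)) (nd (nat_lit 272) (nat_lit 0) (cs (lf (nat_lit 11) (nat_lit 249)) (nd (nat_lit 294) (nat_lit 0) (cs (rf (nat_lit 0)) (cs (nd (nat_lit 273) (nat_lit 0) (cs (lf (nat_lit 11) (nat_lit 271)) (rf (nat_lit 1)))) (cs (nd (nat_lit 316) (nat_lit 0) (cs (lf (nat_lit 35) (nat_lit 228)) (nd (nat_lit 315) (nat_lit 0) (cs (lf (nat_lit 41) (nat_lit 249)) (nd (nat_lit 338) (nat_lit 0) (cs (lf (nat_lit 34) (nat_lit 250)) (rf (nat_lit 2)))))))) (rf (nat_lit 3)))))))))))) q55170 (by decide +kernel)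
def q55196 : Q := Q.p (nat_lit 0x800002000008000020000010000040000000000000000000000000000000000000000000000) (nat_lit 0x100001e00005a0000000000000000000000000000000000000000000000) (nat_lit 5)
theorem c55196 : QOK q55196 := cut [q55193] ⟨c55193, trivial⟩ (nd (nat_lit 210) (nat_lit 0) (cs (lf (nat_lit 46) (nat_lit 210)) (nd (nat_lit 211) (nat_lit 0) (cs (lf (nat_lit 47) (nat_lit 188)) (nd (nat_lit 209) (nat_lit 0) (cs (lf (nat_lit 23) (nat_lit 185)) (rf (nat_lit 0)))))))) q55196 (by decide +kernel)
def q55203 : Q := Q.p (nat_lit 0x200000800002000010000000000000000000000000000000000000000000000000000000000000000) (nat_lit 0x80000000000000004000008000040000100000000000000000000000000000000000000000000000000000) (nat_lit 3)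
theorem c55203 : QOK q55203 := cut [q26399] ⟨c26399, trivial⟩ (nd (nat_lit 278) (nat_lit 0) (cs (lf (nat_lit 30) (nat_lit 255)) (rf (nat_lit 0)))) q55203 (by decide +kernel)
def q55219 : Q := Q.p (nat_lit 0x180000300000000000c00003800000000000000000000000000000000000000000000000000000000000000) (nat_lit 0x100000c0000100000000000000002000000000000000000000000000000000000000000000000000000000) (nat_lit 3)
theorem c55219 : QOK q55219 := cut [q13507] ⟨c13507, trivial⟩ (nd (nat_lit 318) (nat_lit 0) (cs (lf (nat_lit 1) (nat_lit 318)) (rf (nat_lit 0)))) q55219 (by decide +kernel)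
def q55233 : Q := Q.p (nat_lit 0x80000200000800002800003000000000010000000000000000000000000000000000000000000000000000) (nat_lit 0x400001c000070000040000400001000004000000000004000000000040000000000000000000000000000000000000000000000) (nat_lit 7)
theorem c55233 : QOK q55233 := cut [q13851] ⟨c13851, trivial⟩ (nd (nat_lit 186) (nat_lit 0) (cs (lf (nat_lit 26) (nat_lit 186)) (rf (nat_lit 0)))) q55233 (by decide +kernel)
def q55338 : Q := Q.p (nat_lit 0xf0000000000000000000000000000000000000000000000000000000000000000000000000000000) (nat_lit 0x70000008000070000000000000000000000000000000000000000000000000000000000000000000000000) (nat_lit 4)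
theorem c55338 : QOK q55338 := cut [q14566] ⟨c14566, trivial⟩ (nd (nat_lit 341) (nat_lit 0) (cs (lf (nat_lit 5) (nat_lit 316)) (nd (nat_lit 315) (nat_lit 0) (cs (rf (nat_lit 0)) (lf (nat_lit 4) (nat_lit 315)))))) q55338 (by decide +kernel)
def q55392 : Q := Q.p (nat_lit 0x100000400001e0000000000000000000000000000000000000000000000000000000000000000000000000000000) (nat_lit 0x280000e000028000000000000000cc0000000000000000000000000000000000000000000000000000000000000000000000000) (nat_lit 6)
theorem c55392 : QOK q55392 := cut [q55391] ⟨c55391, trivial⟩ (nd (nat_lit 294) (nat_lit 0) (cs (lf (nat_lit 22) (nat_lit 294)) (rf (nat_lit 0)))) q55392 (by decide +kernel)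
def q55405 : Q := Q.p (nat_lit 0xf0000040000d00001000000000000000000000000000000000000000000000000000000000000000) (nat_lit 0x100000080000000000e00001800000000000000000000000000000000000000000000000000000000) (nat_lit 4)
theorem c55405 : QOK q55405 := cut [q55403] ⟨c55403, trivial⟩ (nd (nat_lit 295) (nat_lit 0) (cs (lf (nat_lit 18) (nat_lit 294)) (nd (nat_lit 250) (nat_lit 0) (cs (lf (nat_lit 24) (nat_lit 228)) (rf (nat_lit 0)))))) q55405 (by decide +kernel)
def q55442 : Q := Q.p (nat_lit 0xc0000300000400001000000000000000000000000000000000000000000000000000000000000000) (nat_lit 0x8000030000c00000000000000000000000000000000000000000000000000000000000000000000000000) (nat_lit 3)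
theorem c55442 : QOK q55442 := cut [q23048] ⟨c23048, trivial⟩ (nd (nat_lit 317) (nat_lit 0) (cs (lf (nat_lit 41) (nat_lit 251)) (rf (nat_lit 0)))) q55442 (by decide +kernel)
def q55446 : Q := Q.p (nat_lit 0xc0000300000800002000000000000000000000000000000000000000000000000000000000000000) (nat_lit 0x400003000000c0000000000000000000000000000000000000000000000000000000000000000000000000) (nat_lit 3)
theorem c55446 : QOK q55446 := cut [q22047] ⟨c22047, trivial⟩ (nd (nat_lit 320) (nat_lit 0) (cs (lf (nat_lit 29) (nat_lit 253)) (rf (nat_lit 0)))) q55446 (by decide +kernel)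
def q55475 : Q := Q.p (nat_lit 0x40000d00000400001000000000000000000000000000000000000000000000000000000000) (nat_lit 0x280001a0000000000000000000000000000000000000000000000000000000000000000000000000) (nat_lit 3)
theorem c55475 : QOK q55475 := cut [q55474] ⟨c55474, trivial⟩ (nd (nat_lit 295) (nat_lit 0) (cs (lf (nat_lit 29) (nat_lit 228)) (rf (nat_lit 0)))) q55475 (by decide +kernel)
def q55487 : Q := Q.p (nat_lit 0x8000120000480000400000000000000000000000000000000000000000000000000000000000000000000) (nat_lit 0x2000000000210000300000000000000000000000000000000000000000000000000000000000000000000000000) (nat_lit 3)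
theorem c55487 : QOK q55487 := cut [q14832] ⟨c14832, trivial⟩ (nd (nat_lit 296) (nat_lit 0) (cs (lf (nat_lit 30) (nat_lit 273)) (rf (nat_lit 0)))) q55487 (by decide +kernel)
def q55519 : Q := Q.p (nat_lit 0x200000c00003800000000000000000000000000000000000000000000000000000000000000) (nat_lit 0x700007c0000180000000000000002000000000000000000000000000000000000000000000000000000000) (nat_lit 6)
theorem c55519 : QOK q55519 := cut [q12842] ⟨c12842, trivial⟩ (nd (nat_lit 319) (nat_lit 0) (cs (lf (nat_lit 42) (nat_lit 252)) (nd (nat_lit 320) (nat_lit 0) (cs (lf (nat_lit 29) (nat_lit 253)) (nd (nat_lit 318) (nat_lit 0) (cs (lf (nat_lit 41) (nat_lit 252)) (nd (nat_lit 296) (nat_lit 0) (cs (lf (nat_lit 47) (nat_lit 229)) (rf (nat_lit 0)))))))))) q55519 (by decide +kernel)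
def q55546 : Q := Q.p (nat_lit 0x1e0000000000000000c00001800000000000000000000000000000000000000000000000000000000000000) (nat_lit 0x1c000200001c00000000003000000000000000000000000000000000000000000000000000000000000000000000) (nat_lit 5)
theorem c55546 : QOK q55546 := cut [q28056] ⟨c28056, trivial⟩ (nd (nat_lit 363) (nat_lit 0) (cs (lf (nat_lit 11) (nat_lit 340)) (nd (nat_lit 276) (nat_lit 0) (cs (lf (nat_lit 18) (nat_lit 251)) (nd (nat_lit 345) (nat_lit 0) (cs (lf (nat_lit 10) (nat_lit 341)) (rf (nat_lit 0)))))))) q55546 (by decide +kernel)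
def q55694 : Q := Q.p (nat_lit 0x200001e00002000000000010000000000000000000000000000000000000000000000000000) (nat_lit 0x48000330000dc0000000001000004000000000000000000000000000000000000000000000000000000000) (nat_lit 7)
theorem c55694 : QOK q55694 := cut [q55084] ⟨c55084, trivial⟩ (nd (nat_lit 295) (nat_lit 0) (cs (lf (nat_lit 11) (nat_lit 272)) (nd (nat_lit 298) (nat_lit 0) (cs (lf (nat_lit 5) (nat_lit 273)) (nd (nat_lit 320) (nat_lit 0) (cs (lf (nat_lit 42) (nat_lit 253)) (nd (nat_lit 296) (nat_lit 0) (cs (lf (nat_lit 5) (nat_lit 295)) (nd (nat_lit 317) (nat_lit 0) (cs (lf (nat_lit 11) (nat_lit 294)) (rf (nat_lit 0)))))))))))) q55694 (by decide +kernel)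
def q55839 : Q := Q.p (nat_lit 0x40000000001e00002000000000000000000000000000000000000000000000000000000000000000) (nat_lit 0x50000100000d00000000001000008000020000000000000000000000000000000000000000000000000000) (nat_lit 5)
theorem c55839 : QOK q55839 := cut [q55836] ⟨c55836, trivial⟩ (nd (nat_lit 298) (nat_lit 0) (cs (lf (nat_lit 5) (nat_lit 273)) (nd (nat_lit 320) (nat_lit 0) (cs (lf (nat_lit 42) (nat_lit 253)) (nd (nat_lit 231) (nat_lit 0) (cs (lf (nat_lit 24) (nat_lit 209)) (rf (nat_lit 0)))))))) q55839 (by decide +kernel)
def q55842 : Q := Q.p (nat_lit 0x50000060000000000000000000000000000000000000000000000000000000000000000000000000000000) (nat_lit 0xa0000098000000000000000000000000000000000000000000000000000000000000000000000000000000) (nat_lit 3)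
theorem c55842 : QOK q55842 := cut [q13308] ⟨c13308, trivial⟩ (nd (nat_lit 341) (nat_lit 0) (cs (lf (nat_lit 18) (nat_lit 317)) (rf (nat_lit 0)))) q55842 (by decide +kernel)
def q55923 : Q := Q.p (nat_lit 0x70000020000000000000000000000000000000000000000000000000000000000000000000000000000000) (nat_lit 0x800000d8000000000000000000000000000000000000000000000000000000000000000000000000000000) (nat_lit 3)
theorem c55923 : QOK q55923 := cut [q13308] ⟨c13308, trivial⟩ (nd (nat_lit 318) (nat_lit 0) (cs (lf (nat_lit 18) (nat_lit 317)) (rf (nat_lit 0)))) q55923 (by decide +kernel)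
def q55962 : Q := Q.p (nat_lit 0x1b0000000000000000000000000000000000000000000000000000) (nat_lit 0x40000ee0000000000000000000000000000000000000000000000) (nat_lit 3)
theorem c55962 : QOK q55962 := cut [q2453, q10177] ⟨c2453, c10177, trivial⟩ (nd (nat_lit 210) (nat_lit 0) (cs (rf (nat_lit 0)) (rf (nat_lit 1)))) q55962 (by decide +kernel)
def q55979 : Q := Q.p (nat_lit 0xf0000240000800000000000000000000000000000000000000000) (nat_lit 0x60000000000180001600005000000000000000000000000000000000000) (nat_lit 5)
theorem c55979 : QOK q55979 := cut [q55978] ⟨c55978, trivial⟩ (nd (nat_lit 233) (nat_lit 0) (cs (lf (nat_lit 5) (nat_lit 208)) (rf (nat_lit 0)))) q55979 (by decide +kernel)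
def q55986 : Q := Q.p (nat_lit 0xf0000200000800000000000000000000000000000000000000000) (nat_lit 0x70000000000000000400003000004000000000000000000000000000000) (nat_lit 4)
theorem c55986 : QOK q55986 := cut [q9941] ⟨c9941, trivial⟩ (nd (nat_lit 233) (nat_lit 0) (cs (lf (nat_lit 5) (nat_lit 208)) (nd (nat_lit 144) (nat_lit 0) (cs (rf (nat_lit 0)) (lf (nat_lit 46) (nat_lit 144)))))) q55986 (by decide +kernel)
def q56049 : Q := Q.p (nat_lit 0x40000f00000000000000000000000000000000000000000000000000000000000000000000) (nat_lit 0x80001000000e00000000000000000000000000000000000000000000000000000000000000) (nat_lit 3)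
theorem c56049 : QOK q56049 := cut [q15619] ⟨c15619, trivial⟩ (nd (nat_lit 276) (nat_lit 0) (cs (lf (nat_lit 10) (nat_lit 272)) (rf (nat_lit 0)))) q56049 (by decide +kernel)
def q56066 : Q := Q.p (nat_lit 0xf00003000008000000000000000000000000000000000000000000000000000000000) (nat_lit 0x40000100001000000e00010000000000000000000000000000000000000000000000000000000000) (nat_lit 4)
theorem c56066 : QOK q56066 := cut [q22229] ⟨c22229, trivial⟩ (nd (nat_lit 296) (nat_lit 0) (cs (lf (nat_lit 30) (nat_lit 230)) (rf (nat_lit 0)))) q56066 (by decide +kernel)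
def q56071 : Q := Q.p (nat_lit 0xc0000000000c00002000000000000000000000000000000000000000000000000000000000000000) (nat_lit 0x10000070000100000200000000001000000000000000000000000000000000000000000000000000000000000000) (nat_lit 4)
theorem c56071 : QOK q56071 := cut [q56035] ⟨c56035, trivial⟩ (nd (nat_lit 297) (nat_lit 0) (cs (lf (nat_lit 41) (nat_lit 252)) (rf (nat_lit 0)))) q56071 (by decide +kernel)
def q56104 : Q := Q.p (nat_lit 0x10000040000100002400008000000000000000000000000000000000000000000000000000000000) (nat_lit 0x80001800012000000000000000000000000000000000000000000000000000000000) (nat_lit 3)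
theorem c56104 : QOK q56104 := cut [q56101] ⟨c56101, trivial⟩ (nd (nat_lit 251) (nat_lit 0) (cs (lf (nat_lit 35) (nat_lit 228)) (rf (nat_lit 0)))) q56104 (by decide +kernel)
def q56123 : Q := Q.p (nat_lit 0x10000040000100000400000000000000000000000000000000000000000000000000000000000000) (nat_lit 0x2000008000020000000000200001800002000000000000000000000000000000000000000000000000000) (nat_lit 4)
theorem c56123 : QOK q56123 := cut [q14247] ⟨c14247, trivial⟩ (nd (nat_lit 315) (nat_lit 0) (cs (lf (nat_lit 41) (nat_lit 249)) (nd (nat_lit 228) (nat_lit 0) (cs (lf (nat_lit 40) (nat_lit 227)) (rf (nat_lit 0)))))) q56123 (by decide +kernel)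
def q56129 : Q := Q.p (nat_lit 0x4000010000040000100000000000000000000000000000000000000000000000000000000000000000000) (nat_lit 0x800002000008000000000080000600000800000000000000000000000000000000000000000000000000000000) (nat_lit 4)
theorem c56129 : QOK q56129 := cut [q23197] ⟨c23197, trivial⟩ (nd (nat_lit 337) (nat_lit 0) (cs (lf (nat_lit 41) (nat_lit 271)) (nd (nat_lit 250) (nat_lit 0) (cs (lf (nat_lit 40) (nat_lit 249)) (rf (nat_lit 0)))))) q56129 (by decide +kernel)
def q56138 : Q := Q.p (nat_lit 0xf0000000000000000000000000000000000000000000000000000000000000000000000000000000) (nat_lit 0x77000008000000000000000000000000000000000000000000000000000000000000000000000000000000) (nat_lit 4)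
theorem c56138 : QOK q56138 := cut [q48367] ⟨c48367, trivial⟩ (nd (nat_lit 337) (nat_lit 0) (cs (lf (nat_lit 10) (nat_lit 315)) (nd (nat_lit 315) (nat_lit 0) (cs (lf (nat_lit 11) (nat_lit 314)) (rf (nat_lit 0)))))) q56138 (by decide +kernel)
def q56192 : Q := Q.p (nat_lit 0x100000c00002000000000000000000000000000000000000000000000000000000000000000) (nat_lit 0x10000040000000000000001000008000020000000000000000000000000000000000000000000000000000) (nat_lit 3)
theorem c56192 : QOK q56192 := cut [q56191] ⟨c56191, trivial⟩ (nd (nat_lit 318) (nat_lit 0) (cs (lf (nat_lit 30) (nat_lit 252)) (rf (nat_lit 0)))) q56192 (by decide +kernel)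
def q56243 : Q := Q.p (nat_lit 0x600003c00000000000000000000000000000000000000000000000000000000000000000000) (nat_lit 0xc000038000000000000000000000000000000000000000000000000000000000000000) (nat_lit 3)
theorem c56243 : QOK q56243 := cut [q15730] ⟨c15730, trivial⟩ (nd (nat_lit 278) (nat_lit 0) (cs (lf (nat_lit 6) (nat_lit 275)) (rf (nat_lit 0)))) q56243 (by decide +kernel)
def q56357 : Q := Q.p (nat_lit 0x80000200000c00000000010000000000000000000000000000000000000000000000000000) (nat_lit 0x20000000000000000000007000004000000000000000000000000000000000000000000000000000) (nat_lit 3)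
theorem c56357 : QOK q56357 := cut [q25187] ⟨c25187, trivial⟩ (nd (nat_lit 228) (nat_lit 0) (cs (lf (nat_lit 42) (nat_lit 228)) (rf (nat_lit 0)))) q56357 (by decide +kernel)
def q56379 : Q := Q.p (nat_lit 0xe0000240000000000000000000000000000000000000000000000000000000000000000000) (nat_lit 0x7000018000120000000000000000000000000000000000000000000000000000000000000000000) (nat_lit 4)
theorem c56379 : QOK q56379 := cut [q56378] ⟨c56378, trivial⟩ (nd (nat_lit 292) (nat_lit 0) (cs (lf (nat_lit 23) (nat_lit 269)) (rf (nat_lit 0)))) q56379 (by decide +kernel)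
def q56399 : Q := Q.p (nat_lit 0x80000200000800002000000000000000000000000000000000000000000000000000000000) (nat_lit 0x14000070000140000000000000000000000000000000000000000000000000000000000000000000000000) (nat_lit 4)
theorem c56399 : QOK q56399 := cut [q44432] ⟨c44432, trivial⟩ (nd (nat_lit 316) (nat_lit 0) (cs (lf (nat_lit 40) (nat_lit 228)) (nd (nat_lit 318) (nat_lit 0) (cs (lf (nat_lit 28) (nat_lit 229)) (rf (nat_lit 0)))))) q56399 (by decide +kernel)
def q56401 : Q := Q.p (nat_lit 0x80000200000c00000000000000000000000000000000000000000000000000000000000000) (nat_lit 0x20000000000100000000001000004000010000000000000000000000000000000000000000000000) (nat_lit 3)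
theorem c56401 : QOK q56401 := cut [q15321] ⟨c15321, trivial⟩ (nd (nat_lit 228) (nat_lit 0) (cs (lf (nat_lit 42) (nat_lit 228)) (rf (nat_lit 0)))) q56401 (by decide +kernel)
def q56407 : Q := Q.p (nat_lit 0x20000700000c00000000000000000000000000000000000000000000000000000000000000) (nat_lit 0x20000280001900000e0000000001000004000000000000000000000000000000000000000000000000000) (nat_lit 6)
theorem c56407 : QOK q56407 := cut [q56403] ⟨c56403, trivial⟩ (nd (nat_lit 271) (nat_lit 0) (cs (lf (nat_lit 11) (nat_lit 270)) (nd (nat_lit 315) (nat_lit 0) (cs (lf (nat_lit 30) (nat_lit 249)) (nd (nat_lit 270) (nat_lit 0) (cs (lf (nat_lit 12) (nat_lit 247)) (nd (nat_lit 228) (nat_lit 0) (cs (lf (nat_lit 36) (nat_lit 205)) (rf (nat_lit 0)))))))))) q56407 (by decide +kernel)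
def q56417 : Q := Q.p (nat_lit 0xf00000000000000000000000000000000000000000000000000000000000000) (nat_lit 0x770000080000000000000000000000000000000000000000000000000000000000000) (nat_lit 4)
theorem c56417 : QOK q56417 := cut [q56415] ⟨c56415, trivial⟩ (nd (nat_lit 273) (nat_lit 0) (cs (lf (nat_lit 5) (nat_lit 248)) (nd (nat_lit 247) (nat_lit 0) (cs (lf (nat_lit 4) (nat_lit 247)) (rf (nat_lit 0)))))) q56417 (by decide +kernel)
def q56437 : Q := Q.p (nat_lit 0x300000400001000004000000000000000000000000000000000000000000000) (nat_lit 0x800000000002000018000020000000000000000000000000000000000) (nat_lit 3)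
theorem c56437 : QOK q56437 := cut [q975] ⟨c975, trivial⟩ (nd (nat_lit 160) (nat_lit 0) (cs (rf (nat_lit 0)) (lf (nat_lit 28) (nat_lit 160)))) q56437 (by decide +kernel)
def q56448 : Q := Q.p (nat_lit 0xf00000000000000000000000000000000000000000000000000000000000000) (nat_lit 0x700000080000700000000000000000000000000000000000000000000000000000000) (nat_lit 4)
theorem c56448 : QOK q56448 := cut [q4119] ⟨c4119, trivial⟩ (nd (nat_lit 273) (nat_lit 0) (cs (lf (nat_lit 5) (nat_lit 248)) (nd (nat_lit 247) (nat_lit 0) (cs (rf (nat_lit 0)) (lf (nat_lit 4) (nat_lit 247)))))) q56448 (by decide +kernel)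
def q56474 : Q := Q.p (nat_lit 0x60000b00002400001000016000000000000000000000000000000000000000000000000000) (nat_lit 0x1800000000080000e0000218000f0000180000000000000000000000000000000000000000) (nat_lit 8)
theorem c56474 : QOK q56474 := cut [q56473] ⟨c56473, trivial⟩ (nd (nat_lit 291) (nat_lit 0) (cs (lf (nat_lit 13) (nat_lit 269)) (rf (nat_lit 0)))) q56474 (by decide +kernel)
def q56480 : Q := Q.p (nat_lit 0x20000080000600001800000000000000000000000000000000000000000000000000000000) (nat_lit 0x800000700001000000000000000000000000000000000000000000000000000) (nat_lit 3)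
theorem c56480 : QOK q56480 := cut [q56479] ⟨c56479, trivial⟩ (nd (nat_lit 226) (nat_lit 0) (cs (lf (nat_lit 47) (nat_lit 204)) (rf (nat_lit 0)))) q56480 (by decide +kernel)
def q56490 : Q := Q.p (nat_lit 0x10000040000900000600000000000000000000000000000000000000000000000000000000000000) (nat_lit 0x4000000000000000600000800002000000000000000000000000000000000000000000000000000000000) (nat_lit 3)
theorem c56490 : QOK q56490 := cut [q12962] ⟨c12962, trivial⟩ (nd (nat_lit 273) (nat_lit 0) (cs (rf (nat_lit 0)) (lf (nat_lit 19) (nat_lit 249)))) q56490 (by decide +kernel)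
def q56496 : Q := Q.p (nat_lit 0x10000040000100000600000000000000000000000000000000000000000000000000000000000000) (nat_lit 0x200000c000020000000000080000000000000000000000000000000000000000000000000000000000000000000) (nat_lit 3)
theorem c56496 : QOK q56496 := cut [q14118] ⟨c14118, trivial⟩ (nd (nat_lit 339) (nat_lit 0) (cs (rf (nat_lit 0)) (lf (nat_lit 28) (nat_lit 250)))) q56496 (by decide +kernel)
def q56522 : Q := Q.p (nat_lit 0x30000080000200000000000000000000000000000000000000000000000000000000000000) (nat_lit 0x400001000004000000000040000000000800000000000000000000000000000000000000000000000000000000) (nat_lit 3)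
theorem c56522 : QOK q56522 := cut [q56521] ⟨c56521, trivial⟩ (nd (nat_lit 314) (nat_lit 0) (cs (lf (nat_lit 36) (nat_lit 226)) (rf (nat_lit 0)))) q56522 (by decide +kernel)
def q56552 : Q := Q.p (nat_lit 0x20000180000600000800000000000000000000000000000000000000000000000000000000) (nat_lit 0x300000c000010000000000000000000000000000000000000000000000000000000000000000000000000) (nat_lit 3)
theorem c56552 : QOK q56552 := cut [q46565] ⟨c46565, trivial⟩ (nd (nat_lit 315) (nat_lit 0) (cs (lf (nat_lit 30) (nat_lit 249)) (rf (nat_lit 0)))) q56552 (by decide +kernel)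
def q56561 : Q := Q.p (nat_lit 0x100000600000800000000000000000000000000000000000000000000000000000000) (nat_lit 0x10000040000080000000000000002000008000000000000000000000000000000000000000000000) (nat_lit 3)
theorem c56561 : QOK q56561 := cut [q45350] ⟨c45350, trivial⟩ (nd (nat_lit 205) (nat_lit 0) (cs (lf (nat_lit 24) (nat_lit 183)) (rf (nat_lit 0)))) q56561 (by decide +kernel)
def q56608 : Q := Q.p (nat_lit 0x800002000000000010000040000000000000000000000000000000000000000000000) (nat_lit 0x100000c000020000000000100000000000000000000000000000000000000000) (nat_lit 3)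
theorem c56608 : QOK q56608 := cut [q16038] ⟨c16038, trivial⟩ (nd (nat_lit 230) (nat_lit 0) (cs (lf (nat_lit 27) (nat_lit 186)) (rf (nat_lit 0)))) q56608 (by decide +kernel)
def q56631 : Q := Q.p (nat_lit 0x100000600000800000000000000000000000000000000000000000000000000000000) (nat_lit 0x10000040000080000000001000002000000000000000000000000000000000000000000000000000) (nat_lit 3)
theorem c56631 : QOK q56631 := cut [q52300] ⟨c52300, trivial⟩ (nd (nat_lit 294) (nat_lit 0) (cs (lf (nat_lit 42) (nat_lit 227)) (rf (nat_lit 0)))) q56631 (by decide +kernel)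
def q56640 : Q := Q.p (nat_lit 0x600000800002000000000000000000000000000000000000000000000000000) (nat_lit 0x140000100001400000000008000020000000000000000000000000000000000000000) (nat_lit 4)
theorem c56640 : QOK q56640 := cut [q41027] ⟨c41027, trivial⟩ (nd (nat_lit 183) (nat_lit 0) (cs (lf (nat_lit 29) (nat_lit 183)) (rf (nat_lit 0)))) q56640 (by decide +kernel)
def q56732 : Q := Q.p (nat_lit 0x2000004000010000040000000000000000000000000000000000000000000000) (nat_lit 0x8000000000000000380000e00002800000000000000000000000000000) (nat_lit 5)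
theorem c56732 : QOK q56732 := cut [q448] ⟨c448, trivial⟩ (nd (nat_lit 164) (nat_lit 0) (cs (lf (nat_lit 28) (nat_lit 164)) (rf (nat_lit 0)))) q56732 (by decide +kernel)
def q56765 : Q := Q.p (nat_lit 0x30000050000000000000000000000000000000000000000000000) (nat_lit 0xc00000a8000000000000000000000000000000000000000000000) (nat_lit 3)
theorem c56765 : QOK q56765 := cut [q18910] ⟨c18910, trivial⟩ (nd (nat_lit 185) (nat_lit 0) (cs (lf (nat_lit 0) (nat_lit 183)) (rf (nat_lit 0)))) q56765 (by decide +kernel)
def q56772 : Q := Q.p (nat_lit 0x10000000000000001e00000000000000000000000000000000000000000000000000000000) (nat_lit 0x600001c0000000000c00000000000000000000000000000000000000000000000000) (nat_lit 4)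
theorem c56772 : QOK q56772 := cut [q56770] ⟨c56770, trivial⟩ (nd (nat_lit 247) (nat_lit 0) (cs (lf (nat_lit 11) (nat_lit 224)) (nd (nat_lit 203) (nat_lit 0) (cs (lf (nat_lit 23) (nat_lit 202)) (rf (nat_lit 0)))))) q56772 (by decide +kernel)
def q56866 : Q := Q.p (nat_lit 0x700000800002000000000000000000000000000000000000000000000000000) (nat_lit 0x40000000001000000000018000060000100000000000000000000000000000000000) (nat_lit 4)
theorem c56866 : QOK q56866 := cut [q23761] ⟨c23761, trivial⟩ (nd (nat_lit 183) (nat_lit 0) (cs (lf (nat_lit 41) (nat_lit 182)) (rf (nat_lit 0)))) q56866 (by decide +kernel)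
def q56871 : Q := Q.p (nat_lit 0x800002200000800012000048000000000000000000000000000000000000000000000) (nat_lit 0x8000020000030000040000000000000000000000000000000000000000) (nat_lit 3)
theorem c56871 : QOK q56871 := cut [q56870] ⟨c56870, trivial⟩ (nd (nat_lit 209) (nat_lit 0) (cs (lf (nat_lit 44) (nat_lit 186)) (rf (nat_lit 0)))) q56871 (by decide +kernel)
def q56922 : Q := Q.p (nat_lit 0x20000080000600000800000000000000000000000000000000000000000000000000000000) (nat_lit 0x4000018000040000000000000001000000000000000000000000000000000000000000000000000000000) (nat_lit 3)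
theorem c56922 : QOK q56922 := cut [q56921] ⟨c56921, trivial⟩ (nd (nat_lit 316) (nat_lit 0) (cs (lf (nat_lit 28) (nat_lit 227)) (rf (nat_lit 0)))) q56922 (by decide +kernel)
def q56930 : Q := Q.p (nat_lit 0x8000020000080000600000000000000000000000000000000000000000000000000000000000000) (nat_lit 0x1000007000014000000000100000000000000000000000000000000000000000000000000000000000000000000) (nat_lit 4)
theorem c56930 : QOK q56930 := cut [q56929] ⟨c56929, trivial⟩ (nd (nat_lit 314) (nat_lit 0) (cs (lf (nat_lit 41) (nat_lit 248)) (rf (nat_lit 0)))) q56930 (by decide +kernel)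
def q56952 : Q := Q.p (nat_lit 0x600000800002000008000000000000000000000000000000000000000000000) (nat_lit 0x1000000000004000030000040000000000000000000000000000000000) (nat_lit 3)
theorem c56952 : QOK q56952 := cut [q5269] ⟨c5269, trivial⟩ (nd (nat_lit 161) (nat_lit 0) (cs (lf (nat_lit 28) (nat_lit 161)) (rf (nat_lit 0)))) q56952 (by decide +kernel)
def q56962 : Q := Q.p (nat_lit 0x38000080000000000000000000000000000000000000000000000000000000000000000000) (nat_lit 0x4000740000000000000000000000000000000000000000000000000000000000000000000) (nat_lit 3)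
theorem c56962 : QOK q56962 := cut [q56961] ⟨c56961, trivial⟩ (nd (nat_lit 272) (nat_lit 0) (cs (lf (nat_lit 12) (nat_lit 268)) (rf (nat_lit 0)))) q56962 (by decide +kernel)
def q56984 : Q := Q.p (nat_lit 0x2000008000020000080000000000000000000000000000000000000000000000000000000000000000000) (nat_lit 0x500001c00005000000000000000000000000000000000000000000000000000000000000000000000000000000000000) (nat_lit 4)
theorem c56984 : QOK q56984 := cut [q55011] ⟨c55011, trivial⟩ (nd (nat_lit 360) (nat_lit 0) (cs (lf (nat_lit 28) (nat_lit 271)) (nd (nat_lit 358) (nat_lit 0) (cs (lf (nat_lit 40) (nat_lit 270)) (rf (nat_lit 0)))))) q56984 (by decide +kernel)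
def q57003 : Q := Q.p (nat_lit 0xc0000200000800002000000000000000000000000000000000000000000000000000) (nat_lit 0x100000000004000018000040000000000000000000000000000000000000000) (nat_lit 3)
theorem c57003 : QOK q57003 := cut [q56661] ⟨c56661, trivial⟩ (nd (nat_lit 183) (nat_lit 0) (cs (lf (nat_lit 40) (nat_lit 182)) (rf (nat_lit 0)))) q57003 (by decide +kernel)
def q57056 : Q := Q.p (nat_lit 0x3c0000600000000000000000000000000000000000000000000000000000000000000) (nat_lit 0x1c000030000000000000000000000000000000000000000000000000000000000000000000) (nat_lit 3)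
theorem c57056 : QOK q57056 := cut [q57055] ⟨c57055, trivial⟩ (nd (nat_lit 291) (nat_lit 0) (cs (lf (nat_lit 10) (nat_lit 269)) (rf (nat_lit 0)))) q57056 (by decide +kernel)
def q57077 : Q := Q.p (nat_lit 0x40000180000200000000000000000000000000000000000000000000000000000000) (nat_lit 0x4000010000000000000000400000800002000000000000000000000000000000000000000000000) (nat_lit 3)
theorem c57077 : QOK q57077 := cut [q17210] ⟨c17210, trivial⟩ (nd (nat_lit 292) (nat_lit 0) (cs (lf (nat_lit 42) (nat_lit 225)) (rf (nat_lit 0)))) q57077 (by decide +kernel)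
def q57083 : Q := Q.p (nat_lit 0x3c0000600000000000000000000000000000000000000000000000000000000000000) (nat_lit 0x300001c0000000000000000000000000000000000000000000000000000000000000) (nat_lit 3)
theorem c57083 : QOK q57083 := cut [q44591] ⟨c44591, trivial⟩ (nd (nat_lit 247) (nat_lit 0) (cs (lf (nat_lit 1) (nat_lit 247)) (rf (nat_lit 0)))) q57083 (by decide +kernel)
def q57098 : Q := Q.p (nat_lit 0x200000800003000000000000000000000000000000000000000000000000000) (nat_lit 0x80000000000400000000004000010000040000000000000000000000000000000000) (nat_lit 3)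
theorem c57098 : QOK q57098 := cut [q44761] ⟨c44761, trivial⟩ (nd (nat_lit 182) (nat_lit 0) (cs (lf (nat_lit 42) (nat_lit 182)) (rf (nat_lit 0)))) q57098 (by decide +kernel)
def q57225 : Q := Q.p (nat_lit 0x100000600000800000000000000000000000000000000000000000000000000000000) (nat_lit 0x10000040000080000000000000002000008000000000000000000000000000000000000000000000) (nat_lit 3)
theorem c57225 : QOK q57225 := cut [q14158] ⟨c14158, trivial⟩ (nd (nat_lit 294) (nat_lit 0) (cs (lf (nat_lit 42) (nat_lit 227)) (rf (nat_lit 0)))) q57225 (by decide +kernel)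
def q57345 : Q := Q.p (nat_lit 0x20000080000600000000000000000000000000000000000000000000000000000000000000) (nat_lit 0x1000006000018000000000100000000001000000000000000000000000000000000000000000000000000000000) (nat_lit 4)
theorem c57345 : QOK q57345 := cut [q56929] ⟨c56929, trivial⟩ (nd (nat_lit 315) (nat_lit 0) (cs (lf (nat_lit 35) (nat_lit 227)) (rf (nat_lit 0)))) q57345 (by decide +kernel)
def q57365 : Q := Q.p (nat_lit 0x40000300000c00001000000000000000000000000000000000000000000000000000) (nat_lit 0x800006000018000000000000000000000000000000000000000) (nat_lit 3)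
theorem c57365 : QOK q57365 := cut [q11927] ⟨c11927, trivial⟩ (nd (nat_lit 182) (nat_lit 0) (cs (rf (nat_lit 0)) (lf (nat_lit 24) (nat_lit 160)))) q57365 (by decide +kernel)
def q57373 : Q := Q.p (nat_lit 0x40000700000000000000000000000000000000000000000000000000000000000000) (nat_lit 0xb8000800000000000000000000000000000000000000000000000000000000000000) (nat_lit 3)
theorem c57373 : QOK q57373 := cut [q44577] ⟨c44577, trivial⟩ (nd (nat_lit 269) (nat_lit 0) (cs (lf (nat_lit 6) (nat_lit 247)) (rf (nat_lit 0)))) q57373 (by decide +kernel)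
def q57398 : Q := Q.p (nat_lit 0x100000780000000000000000000000000000000000000000000000000000000000000) (nat_lit 0xb8000040000000000000000000000000000000000000000000000000000000000000) (nat_lit 3)
theorem c57398 : QOK q57398 := cut [q17277] ⟨c17277, trivial⟩ (nd (nat_lit 246) (nat_lit 0) (cs (rf (nat_lit 0)) (lf (nat_lit 4) (nat_lit 246)))) q57398 (by decide +kernel)
def q57430 : Q := Q.p (nat_lit 0x3c0000800000000000000000000000000000000000000000000000000000000) (nat_lit 0x200005c0000000000000000000000000000000000000000000000000000000) (nat_lit 3)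
theorem c57430 : QOK q57430 := cut [q57428] ⟨c57428, trivial⟩ (nd (nat_lit 245) (nat_lit 0) (cs (rf (nat_lit 0)) (lf (nat_lit 16) (nat_lit 223)))) q57430 (by decide +kernel)
def q57439 : Q := Q.p (nat_lit 0x3c0000800000000000000000000000000000000000000000000000000000000) (nat_lit 0x1c000020000400000000000000000000000000000000000000000000000000000000) (nat_lit 3)
theorem c57439 : QOK q57439 := cut [q57438] ⟨c57438, trivial⟩ (nd (nat_lit 245) (nat_lit 0) (cs (lf (nat_lit 16) (nat_lit 223)) (rf (nat_lit 0)))) q57439 (by decide +kernel)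
def q57466 : Q := Q.p (nat_lit 0x780001800000000000000000000000000000000000000000000000000000000) (nat_lit 0x40000300000000000000002000008000000000000000000000000000000000000000000000) (nat_lit 3)
theorem c57466 : QOK q57466 := cut [q51495] ⟨c51495, trivial⟩ (nd (nat_lit 272) (nat_lit 0) (cs (lf (nat_lit 5) (nat_lit 247)) (rf (nat_lit 0)))) q57466 (by decide +kernel)
def q57492 : Q := Q.p (nat_lit 0x20000080000200000800000000000000000000000000000000000000000000000000000000) (nat_lit 0x4000010000040000000001000006000010000000000000000000000000000000000000000000000) (nat_lit 4)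
theorem c57492 : QOK q57492 := cut [q12030] ⟨c12030, trivial⟩ (nd (nat_lit 206) (nat_lit 0) (cs (lf (nat_lit 34) (nat_lit 205)) (nd (nat_lit 205) (nat_lit 0) (cs (rf (nat_lit 0)) (lf (nat_lit 35) (nat_lit 183)))))) q57492 (by decide +kernel)
def q57499 : Q := Q.p (nat_lit 0x80000200000c00000000000000000000000000000000000000000000000000000000) (nat_lit 0x20000000000100000000001000004000010000000000000000000000000000000000000000) (nat_lit 3)
theorem c57499 : QOK q57499 := cut [q41315] ⟨c41315, trivial⟩ (nd (nat_lit 204) (nat_lit 0) (cs (lf (nat_lit 42) (nat_lit 204)) (rf (nat_lit 0)))) q57499 (by decide +kernel)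
def q57501 : Q := Q.p (nat_lit 0x80000200000c00000000000000000000000000000000000000000000000000000000) (nat_lit 0x20000000000000000000003000004000010000000000000000000000000000000000000000) (nat_lit 3)
theorem c57501 : QOK q57501 := cut [q57500] ⟨c57500, trivial⟩ (nd (nat_lit 204) (nat_lit 0) (cs (lf (nat_lit 42) (nat_lit 204)) (rf (nat_lit 0)))) q57501 (by decide +kernel)
def q57615 : Q := Q.p (nat_lit 0x40000300000400001000000000000000000000000000000000000000000000000000) (nat_lit 0x80000e000038000080000000000800000000000000000000000000000000000000000000000000000000) (nat_lit 5)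
theorem c57615 : QOK q57615 := cut [q56430] ⟨c56430, trivial⟩ (nd (nat_lit 293) (nat_lit 0) (cs (lf (nat_lit 28) (nat_lit 204)) (rf (nat_lit 0)))) q57615 (by decide +kernel)
def q57623 : Q := Q.p (nat_lit 0x800002e00000000000000000000000000000000000000000000000000000000000000) (nat_lit 0x1000001000001c00000000000000000000000000000000000000000000000000000000) (nat_lit 3)
theorem c57623 : QOK q57623 := cut [q2063] ⟨c2063, trivial⟩ (nd (nat_lit 252) (nat_lit 0) (cs (lf (nat_lit 5) (nat_lit 250)) (rf (nat_lit 0)))) q57623 (by decide +kernel)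
def q57626 : Q := Q.p (nat_lit 0x10000040000300000000000000000000000000000000000000000000000000000000000000) (nat_lit 0x4000000000080000000000800002000008000000000000000000000000000000000000000000000) (nat_lit 3)
theorem c57626 : QOK q57626 := cut [q57625] ⟨c57625, trivial⟩ (nd (nat_lit 227) (nat_lit 0) (cs (lf (nat_lit 30) (nat_lit 226)) (rf (nat_lit 0)))) q57626 (by decide +kernel)
def q57635 : Q := Q.p (nat_lit 0x10000040000300000000000000000000000000000000000000000000000000000000000000) (nat_lit 0xa0000380000e000000000000000000000800000000000000000000000000000000000000000000000000000000) (nat_lit 5)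
theorem c57635 : QOK q57635 := cut [q57632] ⟨c57632, trivial⟩ (nd (nat_lit 314) (nat_lit 0) (cs (lf (nat_lit 35) (nat_lit 226)) (nd (nat_lit 335) (nat_lit 0) (cs (lf (nat_lit 40) (nat_lit 247)) (nd (nat_lit 337) (nat_lit 0) (cs (lf (nat_lit 28) (nat_lit 248)) (rf (nat_lit 0)))))))) q57635 (by decide +kernel)
def q57679 : Q := Q.p (nat_lit 0x40000300000c000010000000000000000000000000000000000000000000000000000) (nat_lit 0x60000180000200000000000000000000000000000000000000000000000000000000000000000000) (nat_lit 3)
theorem c57679 : QOK q57679 := cut [q57678] ⟨c57678, trivial⟩ (nd (nat_lit 296) (nat_lit 0) (cs (lf (nat_lit 30) (nat_lit 230)) (rf (nat_lit 0)))) q57679 (by decide +kernel)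
def q57688 : Q := Q.p (nat_lit 0x8000020000080000200000000000000000000000000000000000000000000000) (nat_lit 0x500001c00005000000000000000000000000000000000000) (nat_lit 4)
theorem c57688 : QOK q57688 := cut [q57685] ⟨c57685, trivial⟩ (nd (nat_lit 168) (nat_lit 0) (cs (nd (nat_lit 167) (nat_lit 0) (cs (lf (nat_lit 35) (nat_lit 145)) (rf (nat_lit 0)))) (lf (nat_lit 34) (nat_lit 167)))) q57688 (by decide +kernel)
def q57696 : Q := Q.p (nat_lit 0x80000200003c0000a0000200000000000000000000000000000000000000000000000) (nat_lit 0x18000000000040000100000400000000000000000000000000000000000000000) (nat_lit 3)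
theorem c57696 : QOK q57696 := cut [q57695] ⟨c57695, trivial⟩ (nd (nat_lit 255) (nat_lit 0) (cs (lf (nat_lit 5) (nat_lit 230)) (rf (nat_lit 0)))) q57696 (by decide +kernel)
def q57706 : Q := Q.p (nat_lit 0x80000100000c00001000000000000000000000000000000000000000000000000000000000) (nat_lit 0x2000038000060000000000000002000000000000000000000000000000000000000000000000000000000) (nat_lit 4)
theorem c57706 : QOK q57706 := cut [q55166] ⟨c55166, trivial⟩ (nd (nat_lit 294) (nat_lit 0) (cs (lf (nat_lit 29) (nat_lit 228)) (rf (nat_lit 0)))) q57706 (by decide +kernel)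
def q57745 : Q := Q.p (nat_lit 0x4000000000100000f0000000000000000000000000000000000000000000000) (nat_lit 0x140000300001c0000700000c0003b0000200000800000000000000000000000000000) (nat_lit 10)
theorem c57745 : QOK q57745 := cut [q19679] ⟨c19679, trivial⟩ (nd (nat_lit 205) (nat_lit 0) (cs (lf (nat_lit 10) (nat_lit 183)) (nd (nat_lit 183) (nat_lit 0) (cs (lf (nat_lit 11) (nat_lit 182)) (nd (nat_lit 164) (nat_lit 0) (cs (lf (nat_lit 17) (nat_lit 161)) (nd (nat_lit 163) (nat_lit 0) (cs (lf (nat_lit 12) (nat_lit 160)) (nd (nat_lit 119) (nat_lit 0) (cs (lf (nat_lit 25) (nat_lit 119)) (nd (nat_lit 161) (nat_lit 0) (cs (lf (nat_lit 23) (nat_lit 160)) (rf (nat_lit 0)))))))))))))) q57745 (by decide +kernel)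
def q57751 : Q := Q.p (nat_lit 0x1c0000300000000000000000000000000000000000000000) (nat_lit 0x1c0000638000400000000000000000000000000000000000000000) (nat_lit 5)
theorem c57751 : QOK q57751 := cut [q7272] ⟨c7272, trivial⟩ (nd (nat_lit 189) (nat_lit 0) (cs (lf (nat_lit 18) (nat_lit 164)) (nd (nat_lit 211) (nat_lit 0) (cs (lf (nat_lit 5) (nat_lit 186)) (nd (nat_lit 185) (nat_lit 0) (cs (lf (nat_lit 4) (nat_lit 185)) (rf (nat_lit 0)))))))) q57751 (by decide +kernel)
def q57778 : Q := Q.p (nat_lit 0x1c0000100000000000000000000000000000000000000000) (nat_lit 0x1c0000638000680000000000000000000000000000000000000000) (nat_lit 6)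
theorem c57778 : QOK q57778 := cut [q7272] ⟨c7272, trivial⟩ (nd (nat_lit 189) (nat_lit 0) (cs (lf (nat_lit 23) (nat_lit 163)) (nd (nat_lit 211) (nat_lit 0) (cs (lf (nat_lit 5) (nat_lit 186)) (nd (nat_lit 185) (nat_lit 0) (cs (lf (nat_lit 4) (nat_lit 185)) (nd (nat_lit 165) (nat_lit 0) (cs (rf (nat_lit 0)) (lf (nat_lit 18) (nat_lit 164)))))))))) q57778 (by decide +kernel)
def q57790 : Q := Q.p (nat_lit 0x100000c0000100000400000000000000000000000000000000000) (nat_lit 0x20000080000380000e000008000000000000000000) (nat_lit 5)
theorem c57790 : QOK q57790 := cut [q11200] ⟨c11200, trivial⟩ (nd (nat_lit 121) (nat_lit 0) (cs (lf (nat_lit 34) (nat_lit 120)) (nd (nat_lit 120) (nat_lit 0) (cs (lf (nat_lit 35) (nat_lit 98)) (nd (nat_lit 98) (nat_lit 0) (cs (lf (nat_lit 28) (nat_lit 98)) (rf (nat_lit 0)))))))) q57790 (by decide +kernel)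
def q57794 : Q := Q.p (nat_lit 0x3c0000000000000000000000000000000000000000000000) (nat_lit 0x20001dc0000000000000000000000000000000000000000) (nat_lit 4)
theorem c57794 : QOK q57794 := cut [q4969] ⟨c4969, trivial⟩ (nd (nat_lit 163) (nat_lit 0) (cs (lf (nat_lit 22) (nat_lit 163)) (nd (nat_lit 185) (nat_lit 0) (cs (lf (nat_lit 23) (nat_lit 162)) (rf (nat_lit 0)))))) q57794 (by decide +kernel)
def q57823 : Q := Q.p (nat_lit 0x3c0000000000000000000000000000000000000000000000) (nat_lit 0x380000400000380000000000000000000000000000000000000000) (nat_lit 4)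
theorem c57823 : QOK q57823 := cut [q20941] ⟨c20941, trivial⟩ (nd (nat_lit 212) (nat_lit 0) (cs (lf (nat_lit 4) (nat_lit 186)) (nd (nat_lit 190) (nat_lit 0) (cs (lf (nat_lit 5) (nat_lit 187)) (rf (nat_lit 0)))))) q57823 (by decide +kernel)
def q57825 : Q := Q.p (nat_lit 0x4000000000000000e0000480000000000000000000000000000000000000000) (nat_lit 0x1000006000010000200000000000000000000000000000000000000000) (nat_lit 3)
theorem c57825 : QOK q57825 := cut [q19696] ⟨c19696, trivial⟩ (nd (nat_lit 184) (nat_lit 0) (cs (lf (nat_lit 16) (nat_lit 162)) (rf (nat_lit 0)))) q57825 (by decide +kernel)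
def q57839 : Q := Q.p (nat_lit 0x100000c00002000000000000000000000000000000000000) (nat_lit 0x10000040000200000000000000008000020000000000000000000000000) (nat_lit 3)
theorem c57839 : QOK q57839 := cut [q20350] ⟨c20350, trivial⟩ (nd (nat_lit 210) (nat_lit 0) (cs (lf (nat_lit 30) (nat_lit 144)) (rf (nat_lit 0)))) q57839 (by decide +kernel)
def q57878 : Q := Q.p (nat_lit 0x100000c00002000002000000000000000000000000000000) (nat_lit 0x10000040000200000000001800004000018000040000000000000000000) (nat_lit 5)
theorem c57878 : QOK q57878 := cut [q57861] ⟨c57861, trivial⟩ (nd (nat_lit 210) (nat_lit 0) (cs (lf (nat_lit 30) (nat_lit 144)) (nd (nat_lit 144) (nat_lit 0) (cs (lf (nat_lit 46) (nat_lit 121)) (nd (nat_lit 122) (nat_lit 0) (cs (lf (nat_lit 47) (nat_lit 99)) (rf (nat_lit 0)))))))) q57878 (by decide +kernel)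
def q57935 : Q := Q.p (nat_lit 0x10000040000000000e00000000000000000000000000000000000) (nat_lit 0x10000110001e000000000000000000000000000000) (nat_lit 4)
theorem c57935 : QOK q57935 := cut [q20391] ⟨c20391, trivial⟩ (nd (nat_lit 121) (nat_lit 0) (cs (lf (nat_lit 32) (nat_lit 120)) (rf (nat_lit 0)))) q57935 (by decide +kernel)
def q57937 : Q := Q.p (nat_lit 0x10000060000000000e00000000000000000000000000000000000) (nat_lit 0x80001100000f00000000000000000000000000000) (nat_lit 4)
theorem c57937 : QOK q57937 := cut [q5707] ⟨c5707, trivial⟩ (nd (nat_lit 119) (nat_lit 0) (cs (rf (nat_lit 0)) (lf (nat_lit 26) (nat_lit 119)))) q57937 (by decide +kernel)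
def q57959 : Q := Q.p (nat_lit 0x10000060000000000e00000000000000000000000000000000000) (nat_lit 0x80001000001f00000000000000000000000000000) (nat_lit 4)
theorem c57959 : QOK q57959 := cut [q9079] ⟨c9079, trivial⟩ (nd (nat_lit 119) (nat_lit 0) (cs (lf (nat_lit 26) (nat_lit 119)) (rf (nat_lit 0)))) q57959 (by decide +kernel)
def q57962 : Q := Q.p (nat_lit 0x100000f80000000000000000000000000000000000) (nat_lit 0xc0003040000000000000000000000000000000000) (nat_lit 3)
theorem c57962 : QOK q57962 := cut [q1926] ⟨c1926, trivial⟩ (nd (nat_lit 163) (nat_lit 0) (cs (rf (nat_lit 0)) (lf (nat_lit 0) (nat_lit 138)))) q57962 (by decide +kernel)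
def q57995 : Q := Q.p (nat_lit 0x300000c0000000000800000000000000000000000000000000000) (nat_lit 0x300000400003000000000000000000000000000000) (nat_lit 3)
theorem c57995 : QOK q57995 := cut [q9197, q57934, q57982] ⟨c9197, c57934, c57982, trivial⟩ (nd (nat_lit 142) (nat_lit 0) (cs (rf (nat_lit 0)) (cs (rf (nat_lit 1)) (cs (rf (nat_lit 2)) (nd (nat_lit 165) (nat_lit 0) (cs (lf (nat_lit 36) (nat_lit 120)) (lf (nat_lit 47) (nat_lit 120)))))))) q57995 (by decide +kernel)
def q58005 : Q := Q.p (nat_lit 0xb00001c0000000001000000000000000000000000000000000000) (nat_lit 0x10000060000040000600001c00000000000000000000000000000000000000000) (nat_lit 5)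
theorem c58005 : QOK q58005 := cut [q4709] ⟨c4709, trivial⟩ (nd (nat_lit 189) (nat_lit 0) (cs (lf (nat_lit 6) (nat_lit 186)) (nd (nat_lit 167) (nat_lit 0) (cs (lf (nat_lit 17) (nat_lit 164)) (nd (nat_lit 233) (nat_lit 0) (cs (rf (nat_lit 0)) (lf (nat_lit 46) (nat_lit 144)))))))) q58005 (by decide +kernel)
def q58011 : Q := Q.p (nat_lit 0xb0000180000000001000000000000000000000000000000000000) (nat_lit 0x8000020000040000600000400000000004000000000000000000000000000000) (nat_lit 4)
theorem c58011 : QOK q58011 := cut [q19303] ⟨c19303, trivial⟩ (nd (nat_lit 189) (nat_lit 0) (cs (lf (nat_lit 6) (nat_lit 186)) (rf (nat_lit 0)))) q58011 (by decide +kernel)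
def q58032 : Q := Q.p (nat_lit 0x100001e0000000000000000000000000000000000000000000000) (nat_lit 0x720000e000071c0000200000800000000000000000000000000000) (nat_lit 8)
theorem c58032 : QOK q58032 := cut [q20954] ⟨c20954, trivial⟩ (nd (nat_lit 163) (nat_lit 0) (cs (lf (nat_lit 23) (nat_lit 162)) (nd (nat_lit 119) (nat_lit 0) (cs (lf (nat_lit 25) (nat_lit 119)) (nd (nat_lit 189) (nat_lit 0) (cs (lf (nat_lit 22) (nat_lit 163)) (rf (nat_lit 0)))))))) q58032 (by decide +kernel)
def q58036 : Q := Q.p (nat_lit 0xf0000000000000000000000000000000000000000000000) (nat_lit 0x8000770000000000000000000000000000000000000000) (nat_lit 4)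
theorem c58036 : QOK q58036 := cut [q39096] ⟨c39096, trivial⟩ (nd (nat_lit 161) (nat_lit 0) (cs (lf (nat_lit 22) (nat_lit 161)) (nd (nat_lit 183) (nat_lit 0) (cs (lf (nat_lit 23) (nat_lit 160)) (rf (nat_lit 0)))))) q58036 (by decide +kernel)
def q58040 : Q := Q.p (nat_lit 0xf0000000000000000000000000000000000000000000000) (nat_lit 0xe0000100000e00000000000000000000000000000000000000000) (nat_lit 4)
theorem c58040 : QOK q58040 := cut [q58038] ⟨c58038, trivial⟩ (nd (nat_lit 166) (nat_lit 0) (cs (lf (nat_lit 16) (nat_lit 162)) (nd (nat_lit 210) (nat_lit 0) (cs (lf (nat_lit 4) (nat_lit 184)) (rf (nat_lit 0)))))) q58040 (by decide +kernel)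
def q58105 : Q := Q.p (nat_lit 0xf00004000000000000000000000000000000) (nat_lit 0x1000008e00000000000000000000000000000) (nat_lit 3)
theorem c58105 : QOK q58105 := cut [q8180] ⟨c8180, trivial⟩ (nd (nat_lit 144) (nat_lit 0) (cs (lf (nat_lit 17) (nat_lit 119)) (rf (nat_lit 0)))) q58105 (by decide +kernel)
def q58175 : Q := Q.p (nat_lit 0x1c00004000000000000000000000000000000) (nat_lit 0x2200038000000000000000000000000000000) (nat_lit 3)
theorem c58175 : QOK q58175 := cut [q19524] ⟨c19524, trivial⟩ (nd (nat_lit 123) (nat_lit 0) (cs (lf (nat_lit 12) (nat_lit 119)) (rf (nat_lit 0)))) q58175 (by decide +kernel)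
def q58181 : Q := Q.p (nat_lit 0x1c00001000000000000000000000000000000) (nat_lit 0x2200000e00000000000000000000000000000) (nat_lit 3)
theorem c58181 : QOK q58181 := cut [q19604] ⟨c19604, trivial⟩ (nd (nat_lit 119) (nat_lit 0) (cs (lf (nat_lit 18) (nat_lit 119)) (rf (nat_lit 0)))) q58181 (by decide +kernel)
def q58220 : Q := Q.p (nat_lit 0x300001c0000000000800000000000000000000000000000000000) (nat_lit 0x700001c0000000000600001000006000000000000000000000000000000) (nat_lit 6)
theorem c58220 : QOK q58220 := cut [q58192] ⟨c58192, trivial⟩ (nd (nat_lit 165) (nat_lit 0) (cs (lf (nat_lit 36) (nat_lit 120)) (rf (nat_lit 0)))) q58220 (by decide +kernel)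
def q58258 : Q := Q.p (nat_lit 0x300001c0000000000800000000000000000000000000000000000) (nat_lit 0x180000600000180000400003000000000000000000000000000000) (nat_lit 5)
theorem c58258 : QOK q58258 := cut [q10427] ⟨c10427, trivial⟩ (nd (nat_lit 189) (nat_lit 0) (cs (lf (nat_lit 6) (nat_lit 186)) (nd (nat_lit 211) (nat_lit 0) (cs (lf (nat_lit 5) (nat_lit 186)) (nd (nat_lit 164) (nat_lit 0) (cs (lf (nat_lit 23) (nat_lit 163)) (rf (nat_lit 0)))))))) q58258 (by decide +kernel)
def q58272 : Q := Q.p (nat_lit 0x300001c0000100000000000000000000000000000000000000000) (nat_lit 0x2000004e0003e0000f800000000000000000000000000000) (nat_lit 8)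
theorem c58272 : QOK q58272 := cut [q58268] ⟨c58268, trivial⟩ (nd (nat_lit 142) (nat_lit 0) (cs (lf (nat_lit 24) (nat_lit 120)) (nd (nat_lit 163) (nat_lit 0) (cs (lf (nat_lit 18) (nat_lit 163)) (nd (nat_lit 161) (nat_lit 0) (cs (lf (nat_lit 1) (nat_lit 161)) (nd (nat_lit 141) (nat_lit 0) (cs (lf (nat_lit 47) (nat_lit 119)) (rf (nat_lit 0)))))))))) q58272 (by decide +kernel)
def q58309 : Q := Q.p (nat_lit 0x4000000000300000e0000080000000000000000000000000000000000000000) (nat_lit 0x1000006000018000000000000000000000000000000000000000000000) (nat_lit 3)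
theorem c58309 : QOK q58309 := cut [q19696] ⟨c19696, trivial⟩ (nd (nat_lit 184) (nat_lit 0) (cs (lf (nat_lit 0) (nat_lit 183)) (rf (nat_lit 0)))) q58309 (by decide +kernel)
def q58338 : Q := Q.p (nat_lit 0x8000020000000000100000e0000000000000000000000000000000000000000000000) (nat_lit 0x8000060000018000000000000000000000000000000000000000000000) (nat_lit 3)
theorem c58338 : QOK q58338 := cut [q11] ⟨c11, trivial⟩ (nd (nat_lit 209) (nat_lit 0) (cs (rf (nat_lit 0)) (lf (nat_lit 44) (nat_lit 186)))) q58338 (by decide +kernel)
def q58372 : Q := Q.p (nat_lit 0x8000020000000000100001c0000000000000000000000000000000000000000000000) (nat_lit 0x280001a0000620001c00001000004000000000000000000000000000000) (nat_lit 7)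
theorem c58372 : QOK q58372 := cut [q8140] ⟨c8140, trivial⟩ (nd (nat_lit 209) (nat_lit 0) (cs (lf (nat_lit 44) (nat_lit 186)) (rf (nat_lit 0)))) q58372 (by decide +kernel)
def q58397 : Q := Q.p (nat_lit 0x10000040000300000400000000000000000000000000000000000) (nat_lit 0xc80000380000800000000000000000000000000000) (nat_lit 4)
theorem c58397 : QOK q58397 := cut [q58395] ⟨c58395, trivial⟩ (nd (nat_lit 141) (nat_lit 0) (cs (lf (nat_lit 47) (nat_lit 119)) (nd (nat_lit 140) (nat_lit 0) (cs (lf (nat_lit 0) (nat_lit 139)) (rf (nat_lit 0)))))) q58397 (by decide +kernel)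
def q58405 : Q := Q.p (nat_lit 0x300001e0000000000000000000000000000000000000000000000) (nat_lit 0x18000e00000000000000000000000000000000000000000) (nat_lit 3)
theorem c58405 : QOK q58405 := cut [q8023] ⟨c8023, trivial⟩ (nd (nat_lit 184) (nat_lit 0) (cs (lf (nat_lit 0) (nat_lit 183)) (rf (nat_lit 0)))) q58405 (by decide +kernel)
def q58485 : Q := Q.p (nat_lit 0x1e0000000000000000000000000000000000000000000000000000000000000000000000000) (nat_lit 0xe0000100000e0000000000000000000000000000000000000000000000000000000000000000000) (nat_lit 4)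
theorem c58485 : QOK q58485 := cut [q40786] ⟨c40786, trivial⟩ (nd (nat_lit 270) (nat_lit 0) (cs (lf (nat_lit 22) (nat_lit 270)) (nd (nat_lit 292) (nat_lit 0) (cs (lf (nat_lit 23) (nat_lit 269)) (rf (nat_lit 0)))))) q58485 (by decide +kernel)
def q58494 : Q := Q.p (nat_lit 0x60000200000c00001000000000000000000000000000000000000000000000000000000000) (nat_lit 0xec000180000180000200002000000000000000000000000000000000000000000000000000000000) (nat_lit 6)
theorem c58494 : QOK q58494 := cut [q58489] ⟨c58489, trivial⟩ (nd (nat_lit 315) (nat_lit 0) (cs (lf (nat_lit 38) (nat_lit 227)) (nd (nat_lit 249) (nat_lit 0) (cs (nd (nat_lit 295) (nat_lit 0) (cs (lf (nat_lit 42) (nat_lit 228)) (nd (nat_lit 296) (nat_lit 0) (cs (lf (nat_lit 11) (nat_lit 292)) (rf (nat_lit 0)))))) (lf (nat_lit 32) (nat_lit 227)))))) q58494 (by decide +kernel)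
def q58497 : Q := Q.p (nat_lit 0x60000200000c00001000000000000000000000000000000000000000000000000000000000) (nat_lit 0x4000018000000000100000000002000000000000000000000000000000000000000000000000000000000) (nat_lit 3)
theorem c58497 : QOK q58497 := cut [q25590] ⟨c25590, trivial⟩ (nd (nat_lit 272) (nat_lit 0) (cs (lf (nat_lit 41) (nat_lit 227)) (rf (nat_lit 0)))) q58497 (by decide +kernel)
def q58508 : Q := Q.p (nat_lit 0x20000800002c00000000000000000000000000000000000000000000000000000000000000) (nat_lit 0x80000000011c0001200001800000000000000000000000000000000000000000000000000000000) (nat_lit 5)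
theorem c58508 : QOK q58508 := cut [q58505] ⟨c58505, trivial⟩ (nd (nat_lit 252) (nat_lit 0) (cs (lf (nat_lit 5) (nat_lit 250)) (nd (nat_lit 271) (nat_lit 0) (cs (lf (nat_lit 10) (nat_lit 249)) (nd (nat_lit 249) (nat_lit 0) (cs (lf (nat_lit 11) (nat_lit 248)) (rf (nat_lit 0)))))))) q58508 (by decide +kernel)
def q58513 : Q := Q.p (nat_lit 0x20000080000600000000000000000000000000000000000000000000000000000000000000) (nat_lit 0x8000000000000000000001800004000010000000000000000000000000000000000000000000000) (nat_lit 3)
theorem c58513 : QOK q58513 := cut [q58512] ⟨c58512, trivial⟩ (nd (nat_lit 228) (nat_lit 0) (cs (lf (nat_lit 30) (nat_lit 227)) (rf (nat_lit 0)))) q58513 (by decide +kernel)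
def q58518 : Q := Q.p (nat_lit 0x8000020000080000400000000000000000000000000000000000000000000000000000000000000) (nat_lit 0x4000010000040000000000300001c00001000000000000000000000000000000000000000000000000000) (nat_lit 5)
theorem c58518 : QOK q58518 := cut [q58517] ⟨c58517, trivial⟩ (nd (nat_lit 249) (nat_lit 0) (cs (lf (nat_lit 35) (nat_lit 227)) (rf (nat_lit 0)))) q58518 (by decide +kernel)
def q58539 : Q := Q.p (nat_lit 0x200000e0000000000000000000000000000000000000000000000000000000000000000000000000) (nat_lit 0x57000018000000000000000000000000000000000000000000000000000000000000000000000000) (nat_lit 4)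
theorem c58539 : QOK q58539 := cut [q58538] ⟨c58538, trivial⟩ (nd (nat_lit 292) (nat_lit 0) (cs (lf (nat_lit 5) (nat_lit 292)) (rf (nat_lit 0)))) q58539 (by decide +kernel)
def q58544 : Q := Q.p (nat_lit 0x80000e0000000000000000000000000000000000000000000000000000000000000000000000000) (nat_lit 0x7000110000000000000000000000000000000000000000000000000000000000000000000000000) (nat_lit 3)
theorem c58544 : QOK q58544 := cut [q47483] ⟨c47483, trivial⟩ (nd (nat_lit 314) (nat_lit 0) (cs (lf (nat_lit 6) (nat_lit 292)) (rf (nat_lit 0)))) q58544 (by decide +kernel)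
def q58551 : Q := Q.p (nat_lit 0xf0000000000000000000000000000000000000000000000000000000000000000000000000) (nat_lit 0x77000008000000000000000000000000000000000000000000000000000000000000000000000000) (nat_lit 4)
theorem c58551 : QOK q58551 := cut [q58549] ⟨c58549, trivial⟩ (nd (nat_lit 317) (nat_lit 0) (cs (lf (nat_lit 5) (nat_lit 292)) (nd (nat_lit 291) (nat_lit 0) (cs (lf (nat_lit 4) (nat_lit 291)) (rf (nat_lit 0)))))) q58551 (by decide +kernel)
def q58556 : Q := Q.p (nat_lit 0xf0000000000000000000000000000000000000000000000000000000000000000000000000) (nat_lit 0x70000008000070000000000000000000000000000000000000000000000000000000000000000000) (nat_lit 4)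
theorem c58556 : QOK q58556 := cut [q14241] ⟨c14241, trivial⟩ (nd (nat_lit 317) (nat_lit 0) (cs (lf (nat_lit 5) (nat_lit 292)) (nd (nat_lit 291) (nat_lit 0) (cs (rf (nat_lit 0)) (lf (nat_lit 4) (nat_lit 291)))))) q58556 (by decide +kernel)
def q58557 : Q := Q.p (nat_lit 0x400000f0000000000000000000000000000000000000000000000000000000000000000000000000) (nat_lit 0x8e000100000000000000000000000000000000000000000000000000000000000000000000000000) (nat_lit 3)
theorem c58557 : QOK q58557 := cut [q40786] ⟨c40786, trivial⟩ (nd (nat_lit 296) (nat_lit 0) (cs (lf (nat_lit 5) (nat_lit 293)) (rf (nat_lit 0)))) q58557 (by decide +kernel)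
def q58633 : Q := Q.p (nat_lit 0x30000040000d00000000000000000000000000000000000000000000000000000000000000) (nat_lit 0x8000000000000000200000600000800000000000000000000000000000000000000000000000000) (nat_lit 3)
theorem c58633 : QOK q58633 := cut [q58632] ⟨c58632, trivial⟩ (nd (nat_lit 226) (nat_lit 0) (cs (lf (nat_lit 29) (nat_lit 226)) (rf (nat_lit 0)))) q58633 (by decide +kernel)
def q58643 : Q := Q.p (nat_lit 0xc000030000040000400001000000000000000000000000000000000000000000000000000000000) (nat_lit 0x380002e00000000000000000000000000000000000000000000000000000000) (nat_lit 4)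
theorem c58643 : QOK q58643 := cut [q58636] ⟨c58636, trivial⟩ (nd (nat_lit 248) (nat_lit 0) (cs (lf (nat_lit 24) (nat_lit 226)) (rf (nat_lit 0)))) q58643 (by decide +kernel)
def q58700 : Q := Q.p (nat_lit 0x78000000000000000000000000000000000000000000000000000000000000000000000000) (nat_lit 0x1dc00006000038000000000000000000000000000000000000000000000000000000000000000000) (nat_lit 6)
theorem c58700 : QOK q58700 := cut [q58695] ⟨c58695, trivial⟩ (nd (nat_lit 268) (nat_lit 0) (cs (lf (nat_lit 22) (nat_lit 268)) (nd (nat_lit 290) (nat_lit 0) (cs (lf (nat_lit 23) (nat_lit 267)) (nd (nat_lit 311) (nat_lit 0) (cs (nd (nat_lit 289) (nat_lit 0) (cs (lf (nat_lit 11) (nat_lit 288)) (rf (nat_lit 0)))) (lf (nat_lit 10) (nat_lit 289)))))))) q58700 (by decide +kernel)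
def q58712 : Q := Q.p (nat_lit 0x40000100000c00001000000000000000000000000000000000000000000000000000000000) (nat_lit 0x8000030000080000000000000002800006000008000000000000000000000000000000000000000000000) (nat_lit 5)
theorem c58712 : QOK q58712 := cut [q17571] ⟨c17571, trivial⟩ (nd (nat_lit 205) (nat_lit 0) (cs (lf (nat_lit 46) (nat_lit 205)) (nd (nat_lit 183) (nat_lit 0) (cs (lf (nat_lit 45) (nat_lit 183)) (rf (nat_lit 0)))))) q58712 (by decide +kernel)
def q58727 : Q := Q.p (nat_lit 0xf0000200000000000000000000000000000000000000000000000000000000000000000000) (nat_lit 0x8000170000000000000000000000000000000000000000000000000000000000000000000) (nat_lit 3)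
theorem c58727 : QOK q58727 := cut [q14241] ⟨c14241, trivial⟩ (nd (nat_lit 291) (nat_lit 0) (cs (rf (nat_lit 0)) (lf (nat_lit 16) (nat_lit 269)))) q58727 (by decide +kernel)
def q58729 : Q := Q.p (nat_lit 0xf0000200000800000000000000000000000000000000000000000000000000000000000000) (nat_lit 0xce000100000000000000002000000000000000000000000000000000000000000000000000000000) (nat_lit 4)
theorem c58729 : QOK q58729 := cut [q58489] ⟨c58489, trivial⟩ (nd (nat_lit 314) (nat_lit 0) (cs (lf (nat_lit 11) (nat_lit 291)) (nd (nat_lit 296) (nat_lit 0) (cs (lf (nat_lit 10) (nat_lit 292)) (rf (nat_lit 0)))))) q58729 (by decide +kernel)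
def q58733 : Q := Q.p (nat_lit 0x10000078000000000000000000000000000000000000000000000000000000000000000000000000) (nat_lit 0xb800004000000000000000000000000000000000000000000000000000000000000000000000000) (nat_lit 3)
theorem c58733 : QOK q58733 := cut [q58732] ⟨c58732, trivial⟩ (nd (nat_lit 290) (nat_lit 0) (cs (lf (nat_lit 4) (nat_lit 290)) (rf (nat_lit 0)))) q58733 (by decide +kernel)
def q58755 : Q := Q.p (nat_lit 0x8000060000000000400000000000000000000000000000000000000000000000000000000000000) (nat_lit 0x800002000010000000000100000000001000000000000000000000000000000000000000000000000000000000) (nat_lit 3)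
theorem c58755 : QOK q58755 := cut [q45149] ⟨c45149, trivial⟩ (nd (nat_lit 272) (nat_lit 0) (cs (lf (nat_lit 36) (nat_lit 227)) (rf (nat_lit 0)))) q58755 (by decide +kernel)
def q58768 : Q := Q.p (nat_lit 0xa0000200000c00000000000000000000000000000000000000000000000000000000000000) (nat_lit 0x100001c0000f0000150000100000000002000000000000000000000000000000000000000000000000000000000) (nat_lit 5)
theorem c58768 : QOK q58768 := cut [q58765, q58767] ⟨c58765, c58767, trivial⟩ (nd (nat_lit 317) (nat_lit 0) (cs (rf (nat_lit 0)) (rf (nat_lit 1)))) q58768 (by decide +kernel)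
def q58771 : Q := Q.p (nat_lit 0x800002e00000000000000000000000000000000000000000000000000000000000000) (nat_lit 0x400001000001c00000000000000000000000000000000000000000000000000000000) (nat_lit 3)
theorem c58771 : QOK q58771 := cut [q2063] ⟨c2063, trivial⟩ (nd (nat_lit 252) (nat_lit 0) (cs (lf (nat_lit 4) (nat_lit 249)) (rf (nat_lit 0)))) q58771 (by decide +kernel)
def q58783 : Q := Q.p (nat_lit 0x20000000002e00000000000000000000000000000000000000000000000000000000000000) (nat_lit 0x80000100000700011c0003f00002000000000000000000000000000000000000000000000000000) (nat_lit 6)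
theorem c58783 : QOK q58783 := cut [q15305, q58778] ⟨c15305, c58778, trivial⟩ (nd (nat_lit 248) (nat_lit 0) (cs (rf (nat_lit 0)) (cs (nd (nat_lit 270) (nat_lit 0) (cs (lf (nat_lit 11) (nat_lit 247)) (nd (nat_lit 226) (nat_lit 0) (cs (lf (nat_lit 23) (nat_lit 225)) (nd (nat_lit 227) (nat_lit 0) (cs (nd (nat_lit 292) (nat_lit 0) (cs (lf (nat_lit 29) (nat_lit 226)) (lf (nat_lit 35) (nat_lit 204)))) (lf (nat_lit 18) (nat_lit 226)))))))) (cs (nd (nat_lit 269) (nat_lit 0) (cs (lf (nat_lit 10) (nat_lit 247)) (nd (nat_lit 247) (nat_lit 0) (cs (lf (nat_lit 11) (nat_lit 246)) (rf (nat_lit 1)))))) (nd (nat_lit 225) (nat_lit 0) (cs (lf (nat_lit 22) (nat_lit 225)) (nd (nat_lit 247) (nat_lit 0) (cs (lf (nat_lit 23) (nat_lit 224)) (rf (nat_lit 1)))))))))) q58783 (by decide +kernel)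
def q58784 : Q := Q.p (nat_lit 0x20000100000600001000000000000000000000000000000000000000000000000000000000) (nat_lit 0x18000040000000000000000800002000000000000000000000000000000000000000000000000000) (nat_lit 3)
theorem c58784 : QOK q58784 := cut [q17589] ⟨c17589, trivial⟩ (nd (nat_lit 294) (nat_lit 0) (cs (lf (nat_lit 41) (nat_lit 227)) (rf (nat_lit 0)))) q58784 (by decide +kernel)
def q58797 : Q := Q.p (nat_lit 0x20000080000200000800000000000000000000000000000000000000000000000000000000) (nat_lit 0x4000010000040000000000400003000004000000000000000000000000000000000000000000000) (nat_lit 4)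
theorem c58797 : QOK q58797 := cut [q58795] ⟨c58795, trivial⟩ (nd (nat_lit 204) (nat_lit 0) (cs (lf (nat_lit 46) (nat_lit 204)) (nd (nat_lit 292) (nat_lit 0) (cs (lf (nat_lit 41) (nat_lit 226)) (rf (nat_lit 0)))))) q58797 (by decide +kernel)
def q58804 : Q := Q.p (nat_lit 0x20000080000600000800000000000000000000000000000000000000000000000000000000) (nat_lit 0x10000000000040000700001c000040000000000000000000000000000000000000000) (nat_lit 5)
theorem c58804 : QOK q58804 := cut [q58802] ⟨c58802, trivial⟩ (nd (nat_lit 204) (nat_lit 0) (cs (lf (nat_lit 46) (nat_lit 204)) (nd (nat_lit 205) (nat_lit 0) (cs (lf (nat_lit 47) (nat_lit 182)) (rf (nat_lit 0)))))) q58804 (by decide +kernel)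
def q58810 : Q := Q.p (nat_lit 0x20000040000300000400000000000000000000000000000000000000000000000000000000) (nat_lit 0xc000010000000000000000800002000000000000000000000000000000000000000000000000000) (nat_lit 3)
theorem c58810 : QOK q58810 := cut [q58809] ⟨c58809, trivial⟩ (nd (nat_lit 292) (nat_lit 0) (cs (lf (nat_lit 29) (nat_lit 226)) (rf (nat_lit 0)))) q58810 (by decide +kernel)
def q58832 : Q := Q.p (nat_lit 0x20000000000f00000000000000000000000000000000000000000000000000000000000000) (nat_lit 0x8000000000080000000000e00001000004000000000000000000000000000000000000000000000) (nat_lit 4)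
theorem c58832 : QOK q58832 := cut [q58830] ⟨c58830, trivial⟩ (nd (nat_lit 226) (nat_lit 0) (cs (lf (nat_lit 23) (nat_lit 225)) (nd (nat_lit 271) (nat_lit 0) (cs (lf (nat_lit 42) (nat_lit 226)) (rf (nat_lit 0)))))) q58832 (by decide +kernel)
def q58841 : Q := Q.p (nat_lit 0x20000000000f00000000000000000000000000000000000000000000000000000000000000) (nat_lit 0x6f00000c0003800004000010000000000000000000000000000000000000000000000) (nat_lit 7)
theorem c58841 : QOK q58841 := cut [q58838] ⟨c58838, trivial⟩ (nd (nat_lit 273) (nat_lit 0) (cs (lf (nat_lit 5) (nat_lit 248)) (nd (nat_lit 269) (nat_lit 0) (cs (lf (nat_lit 10) (nat_lit 247)) (nd (nat_lit 247) (nat_lit 0) (cs (lf (nat_lit 11) (nat_lit 246)) (rf (nat_lit 0)))))))) q58841 (by decide +kernel)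
def q58851 : Q := Q.p (nat_lit 0x60000d00000400000000000000000000000000000000000000000000000000000000000000) (nat_lit 0x20000180000080000000001800006000008000000000000000000000000000000000000000000000) (nat_lit 5)
theorem c58851 : QOK q58851 := cut [q58849] ⟨c58849, trivial⟩ (nd (nat_lit 295) (nat_lit 0) (cs (lf (nat_lit 15) (nat_lit 271)) (nd (nat_lit 228) (nat_lit 0) (cs (lf (nat_lit 29) (nat_lit 228)) (rf (nat_lit 0)))))) q58851 (by decide +kernel)
def q58854 : Q := Q.p (nat_lit 0x60000300000400000000000000000000000000000000000000000000000000000000000000) (nat_lit 0x28000080000000000000001000004000000000000000000000000000000000000000000000000000) (nat_lit 3)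
theorem c58854 : QOK q58854 := cut [q14448] ⟨c14448, trivial⟩ (nd (nat_lit 228) (nat_lit 0) (cs (lf (nat_lit 41) (nat_lit 227)) (rf (nat_lit 0)))) q58854 (by decide +kernel)
def q58887 : Q := Q.p (nat_lit 0x10000060000900000400000000000000000000000000000000000000000000000000000000000000) (nat_lit 0x4000000000000000600000800002000000000000000000000000000000000000000000000000000000000) (nat_lit 3)
theorem c58887 : QOK q58887 := cut [q12962] ⟨c12962, trivial⟩ (nd (nat_lit 273) (nat_lit 0) (cs (rf (nat_lit 0)) (lf (nat_lit 7) (nat_lit 271)))) q58887 (by decide +kernel)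
def q58889 : Q := Q.p (nat_lit 0x10000060000100000400000000000000000000000000000000000000000000000000000000000000) (nat_lit 0x40000300000e000028000000000080000000000000000000000000000000000000000000000000000000000000000000) (nat_lit 5)
theorem c58889 : QOK q58889 := cut [q23097] ⟨c23097, trivial⟩ (nd (nat_lit 339) (nat_lit 0) (cs (lf (nat_lit 28) (nat_lit 250)) (nd (nat_lit 315) (nat_lit 0) (cs (lf (nat_lit 41) (nat_lit 249)) (rf (nat_lit 0)))))) q58889 (by decide +kernel)
def q58935 : Q := Q.p (nat_lit 0x8000020000080000600000000000000000000000000000000000000000000000000000000000000) (nat_lit 0x2000000000000000070000900000400000000000000000000000000000000000000000000000000000000) (nat_lit 4)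
theorem c58935 : QOK q58935 := cut [q26206] ⟨c26206, trivial⟩ (nd (nat_lit 248) (nat_lit 0) (cs (lf (nat_lit 47) (nat_lit 226)) (nd (nat_lit 270) (nat_lit 0) (cs (rf (nat_lit 0)) (lf (nat_lit 42) (nat_lit 248)))))) q58935 (by decide +kernel)
def q58946 : Q := Q.p (nat_lit 0x40000300000400001000000000000000000000000000000000000000000000000000) (nat_lit 0x80000080000e000038000080000000000000000000000000000000000) (nat_lit 5)
theorem c58946 : QOK q58946 := cut [q58944] ⟨c58944, trivial⟩ (nd (nat_lit 181) (nat_lit 0) (cs (lf (nat_lit 46) (nat_lit 181)) (nd (nat_lit 182) (nat_lit 0) (cs (lf (nat_lit 47) (nat_lit 159)) (rf (nat_lit 0)))))) q58946 (by decide +kernel)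
def q58952 : Q := Q.p (nat_lit 0x10000040000300000000000000000000000000000000000000000000000000000000000000) (nat_lit 0x4000000000000000000000c00002000008000000000000000000000000000000000000000000000) (nat_lit 3)
theorem c58952 : QOK q58952 := cut [q58951] ⟨c58951, trivial⟩ (nd (nat_lit 227) (nat_lit 0) (cs (lf (nat_lit 30) (nat_lit 226)) (rf (nat_lit 0)))) q58952 (by decide +kernel)
def q58969 : Q := Q.p (nat_lit 0x3c0000000000000000000000000000000000000000000000000000000000000) (nat_lit 0x1c0000200001c0000000000000000000000000000000000000000000000000000000) (nat_lit 4)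
theorem c58969 : QOK q58969 := cut [q57428] ⟨c57428, trivial⟩ (nd (nat_lit 267) (nat_lit 0) (cs (lf (nat_lit 10) (nat_lit 245)) (nd (nat_lit 245) (nat_lit 0) (cs (lf (nat_lit 11) (nat_lit 244)) (rf (nat_lit 0)))))) q58969 (by decide +kernel)
def q59008 : Q := Q.p (nat_lit 0x8000020000080000200000000000000000000000000000000000000000000000000000000000000) (nat_lit 0x1400007000014000000000000000000000000000000000000000000000000000000000000000000000000000000) (nat_lit 4)
theorem c59008 : QOK q59008 := cut [q59006] ⟨c59006, trivial⟩ (nd (nat_lit 338) (nat_lit 0) (cs (lf (nat_lit 28) (nat_lit 249)) (nd (nat_lit 336) (nat_lit 0) (cs (lf (nat_lit 40) (nat_lit 248)) (rf (nat_lit 0)))))) q59008 (by decide +kernel)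
def q59010 : Q := Q.p (nat_lit 0x30000080000200000800000000000000000000000000000000000000000000000000000000) (nat_lit 0x40000000000400003000004000000000000000000000000000000000000000000000) (nat_lit 3)
theorem c59010 : QOK q59010 := cut [q46572] ⟨c46572, trivial⟩ (nd (nat_lit 205) (nat_lit 0) (cs (lf (nat_lit 40) (nat_lit 204)) (rf (nat_lit 0)))) q59010 (by decide +kernel)
def q59015 : Q := Q.p (nat_lit 0x10000020000080000200000000000000000000000000000000000000000000000000000000000000) (nat_lit 0x500002c00001c000000000000000800000000000000000000000000000000000000000000000000000000) (nat_lit 5)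
theorem c59015 : QOK q59015 := cut [q54928] ⟨c54928, trivial⟩ (nd (nat_lit 315) (nat_lit 0) (cs (lf (nat_lit 29) (nat_lit 249)) (nd (nat_lit 314) (nat_lit 0) (cs (lf (nat_lit 41) (nat_lit 248)) (nd (nat_lit 292) (nat_lit 0) (cs (lf (nat_lit 36) (nat_lit 226)) (rf (nat_lit 0)))))))) q59015 (by decide +kernel)
def q59018 : Q := Q.p (nat_lit 0x10000020000080000200000000000000000000000000000000000000000000000000000000000000) (nat_lit 0x1000004000008000040000000000000000800000000000000000000000000000000000000000000000000000000) (nat_lit 3)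
theorem c59018 : QOK q59018 := cut [q59017] ⟨c59017, trivial⟩ (nd (nat_lit 294) (nat_lit 0) (cs (lf (nat_lit 24) (nat_lit 227)) (rf (nat_lit 0)))) q59018 (by decide +kernel)
def q59020 : Q := Q.p (nat_lit 0x18000030000080000200000000000000000000000000000000000000000000000000000000000000) (nat_lit 0x1000064000008000000000000000000000000000000000000000000000000000000000000000000000000) (nat_lit 3)
theorem c59020 : QOK q59020 := cut [q59019] ⟨c59019, trivial⟩ (nd (nat_lit 314) (nat_lit 0) (cs (lf (nat_lit 41) (nat_lit 248)) (rf (nat_lit 0)))) q59020 (by decide +kernel)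
def q59038 : Q := Q.p (nat_lit 0x18000030000080000200000000000000000000000000000000000000000000000000000000000000) (nat_lit 0x100000600001c00003c0000400004c000040000000000000000000000000000000000000000000000000000000000000000000) (nat_lit 8)
theorem c59038 : QOK q59038 := cut [q59032] ⟨c59032, trivial⟩ (nd (nat_lit 336) (nat_lit 0) (cs (lf (nat_lit 40) (nat_lit 248)) (nd (nat_lit 290) (nat_lit 0) (cs (lf (nat_lit 1) (nat_lit 290)) (nd (nat_lit 337) (nat_lit 0) (cs (lf (nat_lit 41) (nat_lit 270)) (nd (nat_lit 334) (nat_lit 0) (cs (nd (nat_lit 359) (nat_lit 0) (cs (lf (nat_lit 47) (nat_lit 270)) (rf (nat_lit 0)))) (lf (nat_lit 13) (nat_lit 312)))))))))) q59038 (by decide +kernel)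
def q59045 : Q := Q.p (nat_lit 0x20000000000f00000000000000000000000000000000000000000000000000000000000000) (nat_lit 0x6800000c0003f00004000010000000000000000000000000000000000000000000000) (nat_lit 7)
theorem c59045 : QOK q59045 := cut [q58838] ⟨c58838, trivial⟩ (nd (nat_lit 273) (nat_lit 0) (cs (lf (nat_lit 5) (nat_lit 248)) (nd (nat_lit 225) (nat_lit 0) (cs (lf (nat_lit 22) (nat_lit 225)) (nd (nat_lit 247) (nat_lit 0) (cs (lf (nat_lit 23) (nat_lit 224)) (rf (nat_lit 0)))))))) q59045 (by decide +kernel)
def q59051 : Q := Q.p (nat_lit 0x80000780000000000000000000000000000000000000000000000000000000000000) (nat_lit 0x5c000060000380000000000000000000000000000000000000000000000000000000) (nat_lit 5)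
theorem c59051 : QOK q59051 := cut [q57438] ⟨c57438, trivial⟩ (nd (nat_lit 224) (nat_lit 0) (cs (lf (nat_lit 22) (nat_lit 224)) (nd (nat_lit 246) (nat_lit 0) (cs (lf (nat_lit 23) (nat_lit 223)) (nd (nat_lit 245) (nat_lit 0) (cs (rf (nat_lit 0)) (lf (nat_lit 4) (nat_lit 245)))))))) q59051 (by decide +kernel)
def q59055 : Q := Q.p (nat_lit 0x800003c0000000000000000000000000000000000000000000000000000000000000) (nat_lit 0x400000200001c0000000000000000000000000000000000000000000000000000000) (nat_lit 3)
theorem c59055 : QOK q59055 := cut [q57428] ⟨c57428, trivial⟩ (nd (nat_lit 245) (nat_lit 0) (cs (rf (nat_lit 0)) (lf (nat_lit 4) (nat_lit 245)))) q59055 (by decide +kernel)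
def q59106 : Q := Q.p (nat_lit 0x800000700000200000000000000000000000000000000000000000000000000000000) (nat_lit 0x600001800000400000000000000000000000000000000000000000000000000000000) (nat_lit 3)
theorem c59106 : QOK q59106 := cut [q23693] ⟨c23693, trivial⟩ (nd (nat_lit 251) (nat_lit 0) (cs (lf (nat_lit 22) (nat_lit 225)) (rf (nat_lit 0)))) q59106 (by decide +kernel)
def q59108 : Q := Q.p (nat_lit 0x800002f00000000000000000000000000000000000000000000000000000000000000) (nat_lit 0x10e0001000000000000000000000000000000000000000000000000000000000000000) (nat_lit 3)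
theorem c59108 : QOK q59108 := cut [q18192] ⟨c18192, trivial⟩ (nd (nat_lit 252) (nat_lit 0) (cs (lf (nat_lit 5) (nat_lit 250)) (rf (nat_lit 0)))) q59108 (by decide +kernel)
def q59111 : Q := Q.p (nat_lit 0x1000008000020000080000200000000000000000000000000000000000000000000000000000000000000) (nat_lit 0x1400006000010000000000000000000000000000000000000000000000000000000000000000000000000000000) (nat_lit 3)
theorem c59111 : QOK q59111 := cut [q59006] ⟨c59006, trivial⟩ (nd (nat_lit 338) (nat_lit 0) (cs (lf (nat_lit 28) (nat_lit 249)) (rf (nat_lit 0)))) q59111 (by decide +kernel)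
def q59140 : Q := Q.p (nat_lit 0x40000180000200000000000000000000000000000000000000000000000000000000) (nat_lit 0x4000010000020000000000000000800002000000000000000000000000000000000000000000000) (nat_lit 3)
theorem c59140 : QOK q59140 := cut [q51302] ⟨c51302, trivial⟩ (nd (nat_lit 292) (nat_lit 0) (cs (lf (nat_lit 42) (nat_lit 225)) (rf (nat_lit 0)))) q59140 (by decide +kernel)
def q59148 : Q := Q.p (nat_lit 0x8000020000080000200000000000000000000000000000000000000000000000000000000) (nat_lit 0x4000010000040000000000400001800004000000000000000000000000000000000000000000000) (nat_lit 4)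
theorem c59148 : QOK q59148 := cut [q59146] ⟨c59146, trivial⟩ (nd (nat_lit 292) (nat_lit 0) (cs (lf (nat_lit 29) (nat_lit 225)) (nd (nat_lit 203) (nat_lit 0) (cs (lf (nat_lit 28) (nat_lit 203)) (rf (nat_lit 0)))))) q59148 (by decide +kernel)
def q59189 : Q := Q.p (nat_lit 0x2000008000020000180000000000000000000000000000000000000000000000000000000000000) (nat_lit 0x100000c00001000000000040000000000000000000000000000000000000000000000000000000000000000000) (nat_lit 3)
theorem c59189 : QOK q59189 := cut [q59188] ⟨c59188, trivial⟩ (nd (nat_lit 334) (nat_lit 0) (cs (lf (nat_lit 40) (nat_lit 246)) (rf (nat_lit 0)))) q59189 (by decide +kernel)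
def q59221 : Q := Q.p (nat_lit 0x820002700000000000000000000000000000000000000000000000000000000000000) (nat_lit 0x1440001800000000000000000000000000000000000000000000000000000000000000) (nat_lit 3)
theorem c59221 : QOK q59221 := cut [q15394] ⟨c15394, trivial⟩ (nd (nat_lit 251) (nat_lit 0) (cs (lf (nat_lit 10) (nat_lit 247)) (rf (nat_lit 0)))) q59221 (by decide +kernel)
def q59279 : Q := Q.p (nat_lit 0x300000c0000600000800000000000000000000000000000000000000000000000000000000) (nat_lit 0x100000c0000030000000000000000000000000000000000000000000000000000000000000000000) (nat_lit 3)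
theorem c59279 : QOK q59279 := cut [q59278] ⟨c59278, trivial⟩ (nd (nat_lit 269) (nat_lit 0) (cs (lf (nat_lit 12) (nat_lit 246)) (rf (nat_lit 0)))) q59279 (by decide +kernel)
def q59324 : Q := Q.p (nat_lit 0x8000020000080000200000000000000000000000000000000000000000000000000000000000000) (nat_lit 0x1000004000010000000000100000c00001000000000000000000000000000000000000000000000000000) (nat_lit 4)
theorem c59324 : QOK q59324 := cut [q59322] ⟨c59322, trivial⟩ (nd (nat_lit 226) (nat_lit 0) (cs (lf (nat_lit 46) (nat_lit 226)) (nd (nat_lit 314) (nat_lit 0) (cs (lf (nat_lit 41) (nat_lit 248)) (rf (nat_lit 0)))))) q59324 (by decide +kernel)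
def q59334 : Q := Q.p (nat_lit 0x20000880002600000800000000000000000000000000000000000000000000000000000000) (nat_lit 0x540001d0001600001900008000020000000000000000000000000000000000000000000000000000) (nat_lit 7)
theorem c59334 : QOK q59334 := cut [q23876, q59327, q11506] ⟨c23876, c59327, c11506, trivial⟩ (nd (nat_lit 274) (nat_lit 0) (cs (rf (nat_lit 0)) (cs (nd (nat_lit 294) (nat_lit 0) (cs (lf (nat_lit 29) (nat_lit 227)) (nd (nat_lit 295) (nat_lit 0) (cs (lf (nat_lit 15) (nat_lit 271)) (rf (nat_lit 1)))))) (nd (nat_lit 252) (nat_lit 0) (cs (lf (nat_lit 2) (nat_lit 249)) (nd (nat_lit 292) (nat_lit 0) (cs (lf (nat_lit 41) (nat_lit 226)) (nd (nat_lit 294) (nat_lit 0) (cs (lf (nat_lit 29) (nat_lit 227)) (nd (nat_lit 296) (nat_lit 0) (cs (rf (nat_lit 2)) (lf (nat_lit 14) (nat_lit 271))))))))))))) q59334 (by decide +kernel)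
def q59335 : Q := Q.p (nat_lit 0x600001a00000000000000000000000000000000000000000000000000000000) (nat_lit 0x1c0000500000000000000000000000000000000000000000000000000000000) (nat_lit 3)
theorem c59335 : QOK q59335 := cut [q47042, q56781, q56823, q56824] ⟨c47042, c56781, c56823, c56824, trivial⟩ (nd (nat_lit 247) (nat_lit 0) (cs (rf (nat_lit 0)) (cs (rf (nat_lit 1)) (cs (rf (nat_lit 2)) (rf (nat_lit 3)))))) q59335 (by decide +kernel)
def q59352 : Q := Q.p (nat_lit 0xe000020000000000000000000000000000000000000000000000000000000000000000000000000) (nat_lit 0x10001d0000000000000000000000000000000000000000000000000000000000000000000000000) (nat_lit 3)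
theorem c59352 : QOK q59352 := cut [q59351] ⟨c59351, trivial⟩ (nd (nat_lit 294) (nat_lit 0) (cs (lf (nat_lit 12) (nat_lit 290)) (rf (nat_lit 0)))) q59352 (by decide +kernel)
def q59360 : Q := Q.p (nat_lit 0xe000020000080000200000000000000000000000000000000000000000000000000000000000000) (nat_lit 0x3cc000700001dc000000000000000000000000000000000000000000000000000000000000000000000000) (nat_lit 8)
theorem c59360 : QOK q59360 := cut [q59357] ⟨c59357, trivial⟩ (nd (nat_lit 316) (nat_lit 0) (cs (lf (nat_lit 29) (nat_lit 249)) (nd (nat_lit 290) (nat_lit 0) (cs (lf (nat_lit 22) (nat_lit 290)) (nd (nat_lit 334) (nat_lit 0) (cs (lf (nat_lit 10) (nat_lit 312)) (rf (nat_lit 0)))))))) q59360 (by decide +kernel)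
def q59376 : Q := Q.p (nat_lit 0x20000080000600000000000000000000000000000000000000000000000000000000000000) (nat_lit 0x300000c000010000060001900000f00001000000000000000000000000000000000000000000000000000) (nat_lit 6)
theorem c59376 : QOK q59376 := cut [q59058] ⟨c59058, trivial⟩ (nd (nat_lit 314) (nat_lit 0) (cs (nd (nat_lit 315) (nat_lit 0) (cs (lf (nat_lit 41) (nat_lit 248)) (nd (nat_lit 248) (nat_lit 0) (cs (lf (nat_lit 47) (nat_lit 226)) (nd (nat_lit 270) (nat_lit 0) (cs (lf (nat_lit 42) (nat_lit 248)) (rf (nat_lit 0)))))))) (cs (nd (nat_lit 227) (nat_lit 0) (cs (lf (nat_lit 40) (nat_lit 226)) (nd (nat_lit 226) (nat_lit 0) (cs (lf (nat_lit 47) (nat_lit 204)) (nd (nat_lit 225) (nat_lit 0) (cs (lf (nat_lit 0) (nat_lit 224)) (nd (nat_lit 251) (nat_lit 0) (cs (lf (nat_lit 21) (nat_lit 225)) (lf (nat_lit 18) (nat_lit 226)))))))))) (nd (nat_lit 292) (nat_lit 0) (cs (lf (nat_lit 36) (nat_lit 226)) (nd (nat_lit 336) (nat_lit 0) (cs (lf (nat_lit 33) (nat_lit 248)) (lf (nat_lit 39) (nat_lit 248))))))))) q59376 (by decide +kernel)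
def q59381 : Q := Q.p (nat_lit 0x4000030000040000100000000000000000000000000000000000000000000000000000000000000) (nat_lit 0x8000038000c8000000000000000000000000000000000000000000000000000000000000000000000000) (nat_lit 4)
theorem c59381 : QOK q59381 := cut [q59379] ⟨c59379, trivial⟩ (nd (nat_lit 313) (nat_lit 0) (cs (lf (nat_lit 41) (nat_lit 247)) (nd (nat_lit 294) (nat_lit 0) (cs (lf (nat_lit 6) (nat_lit 291)) (rf (nat_lit 0)))))) q59381 (by decide +kernel)
def q59416 : Q := Q.p (nat_lit 0x40000100000600000000000000000000000000000000000000000000000000000000) (nat_lit 0x10000000000000000000001800002000008000000000000000000000000000000000000000) (nat_lit 3)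
theorem c59416 : QOK q59416 := cut [q41268] ⟨c41268, trivial⟩ (nd (nat_lit 203) (nat_lit 0) (cs (rf (nat_lit 0)) (lf (nat_lit 42) (nat_lit 203)))) q59416 (by decide +kernel)
def q59458 : Q := Q.p (nat_lit 0x300000c0000d00000000000000000000000000000000000000000000000000000000000000) (nat_lit 0x200000600001800000000000000000000000000000000000000000000000000) (nat_lit 3)
theorem c59458 : QOK q59458 := cut [q58632] ⟨c58632, trivial⟩ (nd (nat_lit 226) (nat_lit 0) (cs (lf (nat_lit 24) (nat_lit 204)) (rf (nat_lit 0)))) q59458 (by decide +kernel)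
def q59492 : Q := Q.p (nat_lit 0x60000180000400001000000000000000000000000000000000000000000000000000000000) (nat_lit 0x20000180000060000000000000000000000000000000000000000000000000000000000000000000) (nat_lit 3)
theorem c59492 : QOK q59492 := cut [q47554] ⟨c47554, trivial⟩ (nd (nat_lit 295) (nat_lit 0) (cs (lf (nat_lit 29) (nat_lit 228)) (rf (nat_lit 0)))) q59492 (by decide +kernel)
def q59513 : Q := Q.p (nat_lit 0x200003c0000400000000000000000000000000000000000000000000000000000000000000) (nat_lit 0x800002000019f000038000200000000000000000000000000000000000000000000000000000000000000) (nat_lit 7)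
theorem c59513 : QOK q59513 := cut [q11918, q59505, q46774] ⟨c11918, c59505, c46774, trivial⟩ (nd (nat_lit 269) (nat_lit 0) (cs (rf (nat_lit 0)) (cs (nd (nat_lit 268) (nat_lit 0) (cs (lf (nat_lit 16) (nat_lit 246)) (nd (nat_lit 295) (nat_lit 0) (cs (lf (nat_lit 5) (nat_lit 270)) (nd (nat_lit 317) (nat_lit 0) (cs (lf (nat_lit 42) (nat_lit 250)) (rf (nat_lit 1)))))))) (cs (nd (nat_lit 295) (nat_lit 0) (cs (lf (nat_lit 5) (nat_lit 270)) (nd (nat_lit 317) (nat_lit 0) (cs (lf (nat_lit 42) (nat_lit 250)) (rf (nat_lit 2)))))) (nd (nat_lit 292) (nat_lit 0) (cs (lf (nat_lit 11) (nat_lit 269)) (nd (nat_lit 268) (nat_lit 0) (cs (lf (nat_lit 0) (nat_lit 267)) (lf (nat_lit 16) (nat_lit 246)))))))))) q59513 (by decide +kernel)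
def q59555 : Q := Q.p (nat_lit 0x60000980000400001000000000000000000000000000000000000000000000000000000000) (nat_lit 0x20000180000440000000000000000000000000000000000000000000000000000000000000000000) (nat_lit 3)
theorem c59555 : QOK q59555 := cut [q59254] ⟨c59254, trivial⟩ (nd (nat_lit 295) (nat_lit 0) (cs (lf (nat_lit 29) (nat_lit 228)) (rf (nat_lit 0)))) q59555 (by decide +kernel)
def q59568 : Q := Q.p (nat_lit 0x60000180000400000000000000000000000000000000000000000000000000000000000000) (nat_lit 0x1400001c0000600003c0001f00007c00000000000000000000000000000000000000000000000000) (nat_lit 11)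
theorem c59568 : QOK q59568 := cut [q56770] ⟨c56770, trivial⟩ (nd (nat_lit 228) (nat_lit 0) (cs (lf (nat_lit 36) (nat_lit 205)) (nd (nat_lit 227) (nat_lit 0) (cs (lf (nat_lit 47) (nat_lit 205)) (nd (nat_lit 249) (nat_lit 0) (cs (lf (nat_lit 42) (nat_lit 227)) (nd (nat_lit 292) (nat_lit 0) (cs (lf (nat_lit 41) (nat_lit 226)) (nd (nat_lit 226) (nat_lit 0) (cs (lf (nat_lit 47) (nat_lit 204)) (nd (nat_lit 290) (nat_lit 0) (cs (lf (nat_lit 13) (nat_lit 268)) (nd (nat_lit 225) (nat_lit 0) (cs (lf (nat_lit 0) (nat_lit 224)) (nd (nat_lit 203) (nat_lit 0) (cs (lf (nat_lit 23) (nat_lit 202)) (nd (nat_lit 247) (nat_lit 0) (cs (lf (nat_lit 11) (nat_lit 224)) (rf (nat_lit 0)))))))))))))))))))) q59568 (by decide +kernel)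
def q59572 : Q := Q.p (nat_lit 0xf00000c0000000000000000000000000000000000000000000000000000000000000000000) (nat_lit 0x1000006000000000000000200000800000000000000000000000000000000000000000000000000000000) (nat_lit 3)
theorem c59572 : QOK q59572 := cut [q14210] ⟨c14210, trivial⟩ (nd (nat_lit 314) (nat_lit 0) (cs (rf (nat_lit 0)) (lf (nat_lit 11) (nat_lit 291)))) q59572 (by decide +kernel)
def q59581 : Q := Q.p (nat_lit 0x600009e0000000000000000000000000000000000000000000000000000000000000000000) (nat_lit 0x1c000600000000000000000000000000000000000000000000000000000000000000000000) (nat_lit 3)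
theorem c59581 : QOK q59581 := cut [q11918] ⟨c11918, trivial⟩ (nd (nat_lit 273) (nat_lit 0) (cs (rf (nat_lit 0)) (lf (nat_lit 7) (nat_lit 271)))) q59581 (by decide +kernel)
def q59587 : Q := Q.p (nat_lit 0x200001c0002100000000000000000000000000000000000000000000000000000000000000) (nat_lit 0x10000600001080000000000000000000000000000000000000000000000000000000000000) (nat_lit 3)
theorem c59587 : QOK q59587 := cut [q59501] ⟨c59501, trivial⟩ (nd (nat_lit 273) (nat_lit 0) (cs (lf (nat_lit 23) (nat_lit 247)) (rf (nat_lit 0)))) q59587 (by decide +kernel)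
def q59598 : Q := Q.p (nat_lit 0x200001e0000000000000000000000000000000000000000000000000000000000000000000) (nat_lit 0x400000100000e0000000000000000000000000000000000000000000000000000000000000) (nat_lit 3)
theorem c59598 : QOK q59598 := cut [q46765] ⟨c46765, trivial⟩ (nd (nat_lit 268) (nat_lit 0) (cs (lf (nat_lit 5) (nat_lit 268)) (rf (nat_lit 0)))) q59598 (by decide +kernel)
def q59602 : Q := Q.p (nat_lit 0x280009c0002000000000000000000000000000000000000000000000000000000000000000) (nat_lit 0x50000600001000000000000000000000000000000000000000000000000000000000000000) (nat_lit 3)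
theorem c59602 : QOK q59602 := cut [q59533] ⟨c59533, trivial⟩ (nd (nat_lit 273) (nat_lit 0) (cs (lf (nat_lit 10) (nat_lit 269)) (rf (nat_lit 0)))) q59602 (by decide +kernel)
def q59613 : Q := Q.p (nat_lit 0x200001e0000000000000000000000000000000000000000000000000000000000000000000) (nat_lit 0x1e000018000070000000000000000000000000000000000000000000000000000000000000) (nat_lit 5)
theorem c59613 : QOK q59613 := cut [q47766] ⟨c47766, trivial⟩ (nd (nat_lit 290) (nat_lit 0) (cs (lf (nat_lit 10) (nat_lit 268)) (nd (nat_lit 268) (nat_lit 0) (cs (lf (nat_lit 11) (nat_lit 267)) (nd (nat_lit 267) (nat_lit 0) (cs (lf (nat_lit 4) (nat_lit 267)) (rf (nat_lit 0)))))))) q59613 (by decide +kernel)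
def q59651 : Q := Q.p (nat_lit 0x600009e0000000000000000000000000000000000000000000000000000000000000000000) (nat_lit 0x6000001c0000000000000000000000000000000000000000000000000000000000000) (nat_lit 3)
theorem c59651 : QOK q59651 := cut [q22122] ⟨c22122, trivial⟩ (nd (nat_lit 273) (nat_lit 0) (cs (lf (nat_lit 7) (nat_lit 271)) (rf (nat_lit 0)))) q59651 (by decide +kernel)
def q59657 : Q := Q.p (nat_lit 0x30000180000000000000000000000000000000000000000000000000000000000000000000) (nat_lit 0xc000640000000000000000000000000000000000000000000000000000000000000000000) (nat_lit 3)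
theorem c59657 : QOK q59657 := cut [q56961] ⟨c56961, trivial⟩ (nd (nat_lit 291) (nat_lit 0) (cs (lf (nat_lit 12) (nat_lit 268)) (rf (nat_lit 0)))) q59657 (by decide +kernel)
def q59682 : Q := Q.p (nat_lit 0x20000380000200000800000000000000000000000000000000000000000000000000000000) (nat_lit 0x400001c000040000000000000000000000000000000000000000000000000000000000000000000) (nat_lit 3)
theorem c59682 : QOK q59682 := cut [q48093] ⟨c48093, trivial⟩ (nd (nat_lit 292) (nat_lit 0) (cs (lf (nat_lit 41) (nat_lit 226)) (rf (nat_lit 0)))) q59682 (by decide +kernel)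
def q59711 : Q := Q.p (nat_lit 0x80000700001c0000000000000000000000000000000000000000000000000000000000000000000) (nat_lit 0x40000000000300001c0000600000800000000000000000000000000000000000000000000000000) (nat_lit 5)
theorem c59711 : QOK q59711 := cut [q59626] ⟨c59626, trivial⟩ (nd (nat_lit 248) (nat_lit 0) (cs (lf (nat_lit 24) (nat_lit 226)) (nd (nat_lit 269) (nat_lit 0) (cs (lf (nat_lit 0) (nat_lit 268)) (nd (nat_lit 247) (nat_lit 0) (cs (lf (nat_lit 23) (nat_lit 246)) (rf (nat_lit 0)))))))) q59711 (by decide +kernel)
def q59772 : Q := Q.p (nat_lit 0x8000020000080000400000000000000000000000000000000000000000000000000000000000000) (nat_lit 0x2000000000040000100000000001000004000000000000000000000000000000000000000000000000000) (nat_lit 3)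
theorem c59772 : QOK q59772 := cut [q49469] ⟨c49469, trivial⟩ (nd (nat_lit 272) (nat_lit 0) (cs (lf (nat_lit 30) (nat_lit 249)) (rf (nat_lit 0)))) q59772 (by decide +kernel)
def q59776 : Q := Q.p (nat_lit 0x8000020000080000400000000000000000000000000000000000000000000000000000000000000) (nat_lit 0x5000014000050000000000200001800000000000000000000000000000000000000000000000000000000) (nat_lit 5)
theorem c59776 : QOK q59776 := cut [q59775] ⟨c59775, trivial⟩ (nd (nat_lit 249) (nat_lit 0) (cs (lf (nat_lit 35) (nat_lit 227)) (rf (nat_lit 0)))) q59776 (by decide +kernel)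
def q59838 : Q := Q.p (nat_lit 0x200000c0000100000000000000000000000000000000000000000000000000000000000000) (nat_lit 0x2000008000010000000000000000400001000000000000000000000000000000000000000000000000000) (nat_lit 3)
theorem c59838 : QOK q59838 := cut [q47835] ⟨c47835, trivial⟩ (nd (nat_lit 315) (nat_lit 0) (cs (rf (nat_lit 0)) (lf (nat_lit 42) (nat_lit 248)))) q59838 (by decide +kernel)
def q59879 : Q := Q.p (nat_lit 0xc0000600000000000000000000000000000000000000000000000000000000000000) (nat_lit 0x30001900000000000000000000000000000000000000000000000000000000000000) (nat_lit 3)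
theorem c59879 : QOK q59879 := cut [q58820] ⟨c58820, trivial⟩ (nd (nat_lit 251) (nat_lit 0) (cs (lf (nat_lit 6) (nat_lit 248)) (rf (nat_lit 0)))) q59879 (by decide +kernel)
def q59913 : Q := Q.p (nat_lit 0x20000080000200000800000000000000000000000000000000000000000000000000000000) (nat_lit 0x10000040000100000000001000006000010000000000000000000000000000000000000000000000) (nat_lit 4)
theorem c59913 : QOK q59913 := cut [q52305] ⟨c52305, trivial⟩ (nd (nat_lit 294) (nat_lit 0) (cs (lf (nat_lit 29) (nat_lit 227)) (nd (nat_lit 205) (nat_lit 0) (cs (lf (nat_lit 28) (nat_lit 205)) (rf (nat_lit 0)))))) q59913 (by decide +kernel)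
def q59916 : Q := Q.p (nat_lit 0x20000080000200000800000000000000000000000000000000000000000000000000000000) (nat_lit 0x14000050000140000000000000002000000000000000000000000000000000000000000000000000) (nat_lit 4)
theorem c59916 : QOK q59916 := cut [q12030] ⟨c12030, trivial⟩ (nd (nat_lit 294) (nat_lit 0) (cs (lf (nat_lit 29) (nat_lit 227)) (nd (nat_lit 205) (nat_lit 0) (cs (lf (nat_lit 28) (nat_lit 205)) (rf (nat_lit 0)))))) q59916 (by decide +kernel)
def q59927 : Q := Q.p (nat_lit 0x200000c0000200000800000000000000000000000000000000000000000000000000000000) (nat_lit 0x140001d0000020000000000000000000000000000000000000000000000000000000000000000000) (nat_lit 4)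
theorem c59927 : QOK q59927 := cut [q59925] ⟨c59925, trivial⟩ (nd (nat_lit 294) (nat_lit 0) (cs (lf (nat_lit 29) (nat_lit 227)) (nd (nat_lit 295) (nat_lit 0) (cs (lf (nat_lit 18) (nat_lit 270)) (rf (nat_lit 0)))))) q59927 (by decide +kernel)
def q59935 : Q := Q.p (nat_lit 0x1e00000000000000000000000000000000000000000000000000000000000000000000) (nat_lit 0x1dc0002000000000000000000000000000000000000000000000000000000000000000000000) (nat_lit 4)
theorem c59935 : QOK q59935 := cut [q22116] ⟨c22116, trivial⟩ (nd (nat_lit 299) (nat_lit 0) (cs (lf (nat_lit 4) (nat_lit 273)) (nd (nat_lit 295) (nat_lit 0) (cs (lf (nat_lit 11) (nat_lit 272)) (rf (nat_lit 0)))))) q59935 (by decide +kernel)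
def q59939 : Q := Q.p (nat_lit 0x60000c00002000008000000000000000000000000000000000000000000000000000000000) (nat_lit 0x10000040000180000000001000000000000000000000000000000000000000000000000000000000000000) (nat_lit 3)
theorem c59939 : QOK q59939 := cut [q15828] ⟨c15828, trivial⟩ (nd (nat_lit 296) (nat_lit 0) (cs (lf (nat_lit 14) (nat_lit 271)) (rf (nat_lit 0)))) q59939 (by decide +kernel)
def q60014 : Q := Q.p (nat_lit 0x600000c0000000000000000000000000000000000000000000000000000000000000000000) (nat_lit 0x190000030000000000000000000000000000000000000000000000000000000000000000000) (nat_lit 3)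
theorem c60014 : QOK q60014 := cut [q60013] ⟨c60013, trivial⟩ (nd (nat_lit 269) (nat_lit 0) (cs (lf (nat_lit 0) (nat_lit 268)) (rf (nat_lit 0)))) q60014 (by decide +kernel)
def q60023 : Q := Q.p (nat_lit 0x80000200000c0000000000000000000000000000000000000000000000000000000000000000000) (nat_lit 0x2000000000010000000000100000400001000000000000000000000000000000000000000000000000000) (nat_lit 3)
theorem c60023 : QOK q60023 := cut [q47835] ⟨c47835, trivial⟩ (nd (nat_lit 248) (nat_lit 0) (cs (rf (nat_lit 0)) (lf (nat_lit 42) (nat_lit 248)))) q60023 (by decide +kernel)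
def q60028 : Q := Q.p (nat_lit 0x600000c0000000000000000000000000000000000000000000000000000000000000000000) (nat_lit 0x180000130000000000000000000000000000000000000000000000000000000000000000000) (nat_lit 3)
theorem c60028 : QOK q60028 := cut [q60027] ⟨c60027, trivial⟩ (nd (nat_lit 295) (nat_lit 0) (cs (lf (nat_lit 18) (nat_lit 270)) (rf (nat_lit 0)))) q60028 (by decide +kernel)
def q60031 : Q := Q.p (nat_lit 0x600000c0000400000000000000000000000000000000000000000000000000000000000000) (nat_lit 0x130001b00000000000000000000000000000000000000000000000000000000000000) (nat_lit 4)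
theorem c60031 : QOK q60031 := cut [q60030] ⟨c60030, trivial⟩ (nd (nat_lit 269) (nat_lit 0) (cs (lf (nat_lit 0) (nat_lit 268)) (rf (nat_lit 0)))) q60031 (by decide +kernel)
def q60044 : Q := Q.p (nat_lit 0x30000080000200000800000000000000000000000000000000000000000000000000000000) (nat_lit 0x40000000000400003000004000000000000000000000000000000000000000000000) (nat_lit 3)
theorem c60044 : QOK q60044 := cut [q58795] ⟨c58795, trivial⟩ (nd (nat_lit 204) (nat_lit 0) (cs (lf (nat_lit 46) (nat_lit 204)) (rf (nat_lit 0)))) q60044 (by decide +kernel)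
def q60054 : Q := Q.p (nat_lit 0x10000060000080000000000000000000000000000000000000000000000000000000000000000000) (nat_lit 0x1000004000008000000000000000200000800000000000000000000000000000000000000000000000000000000) (nat_lit 3)
theorem c60054 : QOK q60054 := cut [q59017] ⟨c59017, trivial⟩ (nd (nat_lit 249) (nat_lit 0) (cs (lf (nat_lit 24) (nat_lit 227)) (rf (nat_lit 0)))) q60054 (by decide +kernel)
def q60056 : Q := Q.p (nat_lit 0x18000060000080000200000000000000000000000000000000000000000000000000000000000000) (nat_lit 0x1000006000180000000000000000000000000000000000000000000000000000000000000000000000000) (nat_lit 3)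
theorem c60056 : QOK q60056 := cut [q60055] ⟨c60055, trivial⟩ (nd (nat_lit 314) (nat_lit 0) (cs (lf (nat_lit 41) (nat_lit 248)) (rf (nat_lit 0)))) q60056 (by decide +kernel)
def q60059 : Q := Q.p (nat_lit 0x18000060000080002400000000000000000000000000000000000000000000000000000000000000) (nat_lit 0x2000000000000000100001800002000000000000000000000000000000000000000000000000000000000) (nat_lit 3)
theorem c60059 : QOK q60059 := cut [q59862] ⟨c59862, trivial⟩ (nd (nat_lit 272) (nat_lit 0) (cs (lf (nat_lit 30) (nat_lit 249)) (rf (nat_lit 0)))) q60059 (by decide +kernel)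
def q60063 : Q := Q.p (nat_lit 0x10000060000080000000000000000000000000000000000000000000000000000000000000000000) (nat_lit 0x1000004000000000000000100000200000800000000000000000000000000000000000000000000000000000000) (nat_lit 3)
theorem c60063 : QOK q60063 := cut [q60062] ⟨c60062, trivial⟩ (nd (nat_lit 249) (nat_lit 0) (cs (lf (nat_lit 24) (nat_lit 227)) (rf (nat_lit 0)))) q60063 (by decide +kernel)
def q60072 : Q := Q.p (nat_lit 0x80000f00000c0000000000000000000000000000000000000000000000000000000000000000000) (nat_lit 0x600001800076000000000000000100000400000000000000000000000000000000000000000000000000000000) (nat_lit 6)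
theorem c60072 : QOK q60072 := cut [q59731] ⟨c59731, trivial⟩ (nd (nat_lit 314) (nat_lit 0) (cs (lf (nat_lit 11) (nat_lit 291)) (nd (nat_lit 336) (nat_lit 0) (cs (lf (nat_lit 30) (nat_lit 270)) (nd (nat_lit 226) (nat_lit 0) (cs (lf (nat_lit 25) (nat_lit 226)) (nd (nat_lit 317) (nat_lit 0) (cs (lf (nat_lit 5) (nat_lit 292)) (rf (nat_lit 0)))))))))) q60072 (by decide +kernel)
def q60108 : Q := Q.p (nat_lit 0x18000060000100000400000000000000000000000000000000000000000000000000000000000000) (nat_lit 0x80000e0000010000000000000000000000000000000000000000000000000000000000000000000000000) (nat_lit 3)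
theorem c60108 : QOK q60108 := cut [q59788] ⟨c59788, trivial⟩ (nd (nat_lit 317) (nat_lit 0) (cs (lf (nat_lit 29) (nat_lit 250)) (rf (nat_lit 0)))) q60108 (by decide +kernel)
def q60123 : Q := Q.p (nat_lit 0x80000200003c0000000000000000000000000000000000000000000000000000000000000000000) (nat_lit 0x380000400001000000000000000000000000000000000000000000000000000) (nat_lit 3)
theorem c60123 : QOK q60123 := cut [q60122] ⟨c60122, trivial⟩ (nd (nat_lit 248) (nat_lit 0) (cs (lf (nat_lit 23) (nat_lit 247)) (rf (nat_lit 0)))) q60123 (by decide +kernel)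
def q60127 : Q := Q.p (nat_lit 0x20000380000600000000000000000000000000000000000000000000000000000000000000) (nat_lit 0x2000008000000000000000180000400000000000000000000000000000000000000000000000000000000) (nat_lit 3)
theorem c60127 : QOK q60127 := cut [q57236] ⟨c57236, trivial⟩ (nd (nat_lit 248) (nat_lit 0) (cs (lf (nat_lit 0) (nat_lit 247)) (rf (nat_lit 0)))) q60127 (by decide +kernel)
def q60138 : Q := Q.p (nat_lit 0x60000980000600000000000000000000000000000000000000000000000000000000000000) (nat_lit 0x300000f000000000600000180000400000000000000000000000000000000000000000000000000000000) (nat_lit 6)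
theorem c60138 : QOK q60138 := cut [q45270] ⟨c45270, trivial⟩ (nd (nat_lit 315) (nat_lit 0) (cs (lf (nat_lit 30) (nat_lit 249)) (nd (nat_lit 314) (nat_lit 0) (cs (lf (nat_lit 41) (nat_lit 248)) (nd (nat_lit 312) (nat_lit 0) (cs (lf (nat_lit 13) (nat_lit 290)) (nd (nat_lit 273) (nat_lit 0) (cs (lf (nat_lit 7) (nat_lit 271)) (rf (nat_lit 0)))))))))) q60138 (by decide +kernel)
def q60149 : Q := Q.p (nat_lit 0x80000200001a0000600000000000000000000000000000000000000000000000000000000000000) (nat_lit 0x100001c0000400000000000000000000000000000000000000000000000000000000) (nat_lit 3)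
theorem c60149 : QOK q60149 := cut [q60148] ⟨c60148, trivial⟩ (nd (nat_lit 248) (nat_lit 0) (cs (lf (nat_lit 47) (nat_lit 226)) (rf (nat_lit 0)))) q60149 (by decide +kernel)
def q60175 : Q := Q.p (nat_lit 0x800002000008000020000000000000000000000000000000000000000000000000000000000000000000) (nat_lit 0x100000600001000000000004000010000040000000000000000000000000000000000000000000000000000000000000) (nat_lit 4)
theorem c60175 : QOK q60175 := cut [q48900] ⟨c48900, trivial⟩ (nd (nat_lit 268) (nat_lit 0) (cs (lf (nat_lit 47) (nat_lit 246)) (nd (nat_lit 358) (nat_lit 0) (cs (rf (nat_lit 0)) (lf (nat_lit 28) (nat_lit 269)))))) q60175 (by decide +kernel)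
def q60229 : Q := Q.p (nat_lit 0x18000020000300000600000000000000000000000000000000000000000000000000000000000000) (nat_lit 0x4000000000000000080000180000400000000000000000000000000000000000000000000000000000000) (nat_lit 3)
theorem c60229 : QOK q60229 := cut [q45270] ⟨c45270, trivial⟩ (nd (nat_lit 271) (nat_lit 0) (cs (lf (nat_lit 29) (nat_lit 249)) (rf (nat_lit 0)))) q60229 (by decide +kernel)
def q60242 : Q := Q.p (nat_lit 0x10000040000100000400000000000000000000000000000000000000000000000000000000000000) (nat_lit 0x200000c000020000000000080000200000800000000000000000000000000000000000000000000000000000000) (nat_lit 4)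
theorem c60242 : QOK q60242 := cut [q23197] ⟨c23197, trivial⟩ (nd (nat_lit 339) (nat_lit 0) (cs (lf (nat_lit 28) (nat_lit 250)) (nd (nat_lit 338) (nat_lit 0) (cs (lf (nat_lit 29) (nat_lit 272)) (rf (nat_lit 0)))))) q60242 (by decide +kernel)
def q60251 : Q := Q.p (nat_lit 0xf00000c0000000000000000000000000000000000000000000000000000000000000000000) (nat_lit 0x7000000e000100000000000000000000000000000000000000000000000000000000000000000000) (nat_lit 4)
theorem c60251 : QOK q60251 := cut [q60249] ⟨c60249, trivial⟩ (nd (nat_lit 317) (nat_lit 0) (cs (lf (nat_lit 5) (nat_lit 292)) (nd (nat_lit 291) (nat_lit 0) (cs (lf (nat_lit 4) (nat_lit 291)) (rf (nat_lit 0)))))) q60251 (by decide +kernel)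
def q60327 : Q := Q.p (nat_lit 0x70000340000400000000000000000000000000000000000000000000000000000000000000) (nat_lit 0x8000060000080000020000000000000000000000000000000000000000000000000000000000000000000) (nat_lit 3)
theorem c60327 : QOK q60327 := cut [q60326] ⟨c60326, trivial⟩ (nd (nat_lit 295) (nat_lit 0) (cs (lf (nat_lit 23) (nat_lit 269)) (rf (nat_lit 0)))) q60327 (by decide +kernel)
def q60355 : Q := Q.p (nat_lit 0x20000380000000000000000000000000000000000000000000000000000000000000000000) (nat_lit 0x1c000440000000000000000000000000000000000000000000000000000000000000000000) (nat_lit 3)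
theorem c60355 : QOK q60355 := cut [q48093] ⟨c48093, trivial⟩ (nd (nat_lit 292) (nat_lit 0) (cs (lf (nat_lit 6) (nat_lit 270)) (rf (nat_lit 0)))) q60355 (by decide +kernel)
def q60378 : Q := Q.p (nat_lit 0x200000e0000000000000000000000000000000000000000000000000000000000000000000) (nat_lit 0x57000018000000000000000000000000000000000000000000000000000000000000000000) (nat_lit 4)
theorem c60378 : QOK q60378 := cut [q59505] ⟨c59505, trivial⟩ (nd (nat_lit 268) (nat_lit 0) (cs (lf (nat_lit 5) (nat_lit 268)) (rf (nat_lit 0)))) q60378 (by decide +kernel)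
def q60449 : Q := Q.p (nat_lit 0x20000080000400000000000000000000000000000000000000000000000000000000000000) (nat_lit 0x2000008000040000100000200001800004000010000000000000000000000000000000000000000000000) (nat_lit 4)
theorem c60449 : QOK q60449 := cut [q60412, q48953, q58512] ⟨c60412, c48953, c58512, trivial⟩ (nd (nat_lit 228) (nat_lit 0) (cs (rf (nat_lit 0)) (cs (nd (nat_lit 272) (nat_lit 0) (cs (lf (nat_lit 36) (nat_lit 205)) (rf (nat_lit 1)))) (cs (nd (nat_lit 249) (nat_lit 0) (cs (lf (nat_lit 30) (nat_lit 227)) (rf (nat_lit 2)))) (nd (nat_lit 315) (nat_lit 0) (cs (lf (nat_lit 33) (nat_lit 227)) (nd (nat_lit 272) (nat_lit 0) (cs (lf (nat_lit 30) (nat_lit 249)) (lf (nat_lit 39) (nat_lit 227)))))))))) q60449 (by decide +kernel)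
def q60452 : Q := Q.p (nat_lit 0x20000b00002400000000000000000000000000000000000000000000000000000000000000) (nat_lit 0x10000480001200000000000000000000000000000000000000000000000000000000000000) (nat_lit 3)
theorem c60452 : QOK q60452 := cut [q22194] ⟨c22194, trivial⟩ (nd (nat_lit 274) (nat_lit 0) (cs (lf (nat_lit 23) (nat_lit 249)) (rf (nat_lit 0)))) q60452 (by decide +kernel)
def q60465 : Q := Q.p (nat_lit 0x20000180000400000000000000000000000000000000000000000000000000000000000000) (nat_lit 0x2000008000000000000000200001000004000000000000000000000000000000000000000000000000000) (nat_lit 3)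
theorem c60465 : QOK q60465 := cut [q49189] ⟨c49189, trivial⟩ (nd (nat_lit 228) (nat_lit 0) (cs (lf (nat_lit 36) (nat_lit 205)) (rf (nat_lit 0)))) q60465 (by decide +kernel)
def q60471 : Q := Q.p (nat_lit 0x30000060000000000000000000000000000000000000000000000000000000000000000000000000) (nat_lit 0xc0000098000000000000000000000000000000000000000000000000000000000000000000000000) (nat_lit 3)
theorem c60471 : QOK q60471 := cut [q46651] ⟨c46651, trivial⟩ (nd (nat_lit 318) (nat_lit 0) (cs (lf (nat_lit 18) (nat_lit 293)) (rf (nat_lit 0)))) q60471 (by decide +kernel)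
def q60489 : Q := Q.p (nat_lit 0x8000020000100000400000000000000000000000000000000000000000000000000000000000000) (nat_lit 0x800002000010000040000000000000001000000000000000000000000000000000000000000000000000000000) (nat_lit 3)
theorem c60489 : QOK q60489 := cut [q45149] ⟨c45149, trivial⟩ (nd (nat_lit 294) (nat_lit 0) (cs (lf (nat_lit 36) (nat_lit 227)) (rf (nat_lit 0)))) q60489 (by decide +kernel)
def q60492 : Q := Q.p (nat_lit 0x8000020000100000400000000000000000000000000000000000000000000000000000000000000) (nat_lit 0x800002000010000040000080000000000000000000000000000000000000000000000000000000000000000000) (nat_lit 3)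
theorem c60492 : QOK q60492 := cut [q60491] ⟨c60491, trivial⟩ (nd (nat_lit 337) (nat_lit 0) (cs (lf (nat_lit 33) (nat_lit 249)) (rf (nat_lit 0)))) q60492 (by decide +kernel)
def q60521 : Q := Q.p (nat_lit 0x20000300000400001000000000000000000000000000000000000000000000000000000000) (nat_lit 0x80000800000000006000018000020000000000000000000000000000000000000000) (nat_lit 4)
theorem c60521 : QOK q60521 := cut [q17117] ⟨c17117, trivial⟩ (nd (nat_lit 206) (nat_lit 0) (cs (lf (nat_lit 40) (nat_lit 205)) (nd (nat_lit 183) (nat_lit 0) (cs (lf (nat_lit 46) (nat_lit 183)) (rf (nat_lit 0)))))) q60521 (by decide +kernel)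
def q60525 : Q := Q.p (nat_lit 0x60000100000400001000000000000000000000000000000000000000000000000000000000) (nat_lit 0x20000080000280000000000000004000000000000000000000000000000000000000000000000000) (nat_lit 3)
theorem c60525 : QOK q60525 := cut [q6623] ⟨c6623, trivial⟩ (nd (nat_lit 206) (nat_lit 0) (cs (lf (nat_lit 40) (nat_lit 205)) (rf (nat_lit 0)))) q60525 (by decide +kernel)
def q60541 : Q := Q.p (nat_lit 0x600000a0000000000000000000000000000000000000000000000000000000000000000000) (nat_lit 0x190000050000000000000000000000000000000000000000000000000000000000000000000) (nat_lit 3)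
theorem c60541 : QOK q60541 := cut [q60013] ⟨c60013, trivial⟩ (nd (nat_lit 270) (nat_lit 0) (cs (lf (nat_lit 0) (nat_lit 268)) (rf (nat_lit 0)))) q60541 (by decide +kernel)
def q60543 : Q := Q.p (nat_lit 0xf0000800000000000000000000000000000000000000000000000000000000000000000000) (nat_lit 0xe0000100000400000000000000000000000000000000000000000000000000000000000000000000) (nat_lit 3)
theorem c60543 : QOK q60543 := cut [q60542] ⟨c60542, trivial⟩ (nd (nat_lit 296) (nat_lit 0) (cs (lf (nat_lit 16) (nat_lit 271)) (rf (nat_lit 0)))) q60543 (by decide +kernel)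
def q60558 : Q := Q.p (nat_lit 0x2000008000020000080000000000000000000000000000000000000000000000000000000000000) (nat_lit 0x140000700001400000000000000000000000000000000000000000000000000) (nat_lit 4)
theorem c60558 : QOK q60558 := cut [q48725] ⟨c48725, trivial⟩ (nd (nat_lit 226) (nat_lit 0) (cs (lf (nat_lit 34) (nat_lit 225)) (nd (nat_lit 225) (nat_lit 0) (cs (lf (nat_lit 35) (nat_lit 203)) (rf (nat_lit 0)))))) q60558 (by decide +kernel)
def q60627 : Q := Q.p (nat_lit 0xe0000080000600001800000000000000000000000000000000000000000000000000000000) (nat_lit 0x64000010000100000000000000000000000000000000000000000000000000000000000000000000) (nat_lit 3)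
theorem c60627 : QOK q60627 := cut [q60626] ⟨c60626, trivial⟩ (nd (nat_lit 317) (nat_lit 0) (cs (lf (nat_lit 26) (nat_lit 228)) (rf (nat_lit 0)))) q60627 (by decide +kernel)
def q60636 : Q := Q.p (nat_lit 0x300000c00001800000000000000000000000000000000000000000000000000000000) (nat_lit 0x4000010000040000000000000002000002000000000000000000000000000000000000000000000000000) (nat_lit 3)
theorem c60636 : QOK q60636 := cut [q25590] ⟨c25590, trivial⟩ (nd (nat_lit 294) (nat_lit 0) (cs (lf (nat_lit 47) (nat_lit 205)) (rf (nat_lit 0)))) q60636 (by decide +kernel)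
def q60650 : Q := Q.p (nat_lit 0x300000c0000100000400000000000000000000000000000000000000000000000000000000) (nat_lit 0x200000c000300000000000000000000000000000000000000000000000000000000000000000000) (nat_lit 3)
theorem c60650 : QOK q60650 := cut [q60073] ⟨c60073, trivial⟩ (nd (nat_lit 291) (nat_lit 0) (cs (lf (nat_lit 41) (nat_lit 225)) (rf (nat_lit 0)))) q60650 (by decide +kernel)
def q60673 : Q := Q.p (nat_lit 0x80000200000a0000600000000000000000000000000000000000000000000000000000000000000) (nat_lit 0x3100001c0000400000000000000000000000000000000000000000000000000000000) (nat_lit 4)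
theorem c60673 : QOK q60673 := cut [q60671] ⟨c60671, trivial⟩ (nd (nat_lit 248) (nat_lit 0) (cs (lf (nat_lit 47) (nat_lit 226)) (nd (nat_lit 247) (nat_lit 0) (cs (lf (nat_lit 11) (nat_lit 246)) (rf (nat_lit 0)))))) q60673 (by decide +kernel)
def q60684 : Q := Q.p (nat_lit 0x3c0000400001000000000000000000000000000000000000000000000000000000000) (nat_lit 0x8000020000180000000000800000000000000000000000000000000000000000000000000000000000000) (nat_lit 3)
theorem c60684 : QOK q60684 := cut [q60683] ⟨c60683, trivial⟩ (nd (nat_lit 295) (nat_lit 0) (cs (lf (nat_lit 5) (nat_lit 270)) (rf (nat_lit 0)))) q60684 (by decide +kernel)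
def q60688 : Q := Q.p (nat_lit 0x200001c0000400000000000000000000000000000000000000000000000000000000000000) (nat_lit 0xe0000300008e0001000004000000000000000000000000000000000000000000000000000) (nat_lit 6)
theorem c60688 : QOK q60688 := cut [q59607] ⟨c59607, trivial⟩ (nd (nat_lit 269) (nat_lit 0) (cs (lf (nat_lit 17) (nat_lit 247)) (rf (nat_lit 0)))) q60688 (by decide +kernel)
def q60694 : Q := Q.p (nat_lit 0xf80000400001000000000000000000000000000000000000000000000000000000000) (nat_lit 0x20000180001060000800000000000000000000000000000000000000000000000000000000000000) (nat_lit 4)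
theorem c60694 : QOK q60694 := cut [q56403] ⟨c56403, trivial⟩ (nd (nat_lit 251) (nat_lit 0) (cs (lf (nat_lit 18) (nat_lit 250)) (nd (nat_lit 270) (nat_lit 0) (cs (lf (nat_lit 12) (nat_lit 247)) (rf (nat_lit 0)))))) q60694 (by decide +kernel)
def q60700 : Q := Q.p (nat_lit 0x700000400000000000000000000000000000000000000000000000000000000) (nat_lit 0x800000b80000000000000000000000000000000000000000000000000000000) (nat_lit 3)
theorem c60700 : QOK q60700 := cut [q60699] ⟨c60699, trivial⟩ (nd (nat_lit 225) (nat_lit 0) (cs (lf (nat_lit 18) (nat_lit 225)) (rf (nat_lit 0)))) q60700 (by decide +kernel)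
def q60732 : Q := Q.p (nat_lit 0x60000900000400001000000000000000000000000000000000000000000000000000000000) (nat_lit 0x20000180000600000000000000000000000000000000000000000000000000000000000000000000) (nat_lit 3)
theorem c60732 : QOK q60732 := cut [q14136] ⟨c14136, trivial⟩ (nd (nat_lit 274) (nat_lit 0) (cs (lf (nat_lit 8) (nat_lit 271)) (rf (nat_lit 0)))) q60732 (by decide +kernel)
def q60746 : Q := Q.p (nat_lit 0x18000030000300000400000000000000000000000000000000000000000000000000000000000000) (nat_lit 0x80000600000c0000000000000000000000000000000000000000000000000000000000000000000000000) (nat_lit 3)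
theorem c60746 : QOK q60746 := cut [q60745] ⟨c60745, trivial⟩ (nd (nat_lit 317) (nat_lit 0) (cs (lf (nat_lit 18) (nat_lit 292)) (rf (nat_lit 0)))) q60746 (by decide +kernel)
def q60765 : Q := Q.p (nat_lit 0x8000030000300000000000000000000000000000000000000000000000000000000000000000000) (nat_lit 0x15c0004e000000000000000000000000000000000000000000000000000000000000000000000000) (nat_lit 5)
theorem c60765 : QOK q60765 := cut [q60763] ⟨c60763, trivial⟩ (nd (nat_lit 291) (nat_lit 0) (cs (lf (nat_lit 15) (nat_lit 269)) (rf (nat_lit 0)))) q60765 (by decide +kernel)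
def q60772 : Q := Q.p (nat_lit 0x8000020000980000600000000000000000000000000000000000000000000000000000000000000) (nat_lit 0x600000180000400000000000000000000000000000000000000000000000000000000) (nat_lit 3)
theorem c60772 : QOK q60772 := cut [q45270] ⟨c45270, trivial⟩ (nd (nat_lit 273) (nat_lit 0) (cs (lf (nat_lit 19) (nat_lit 249)) (rf (nat_lit 0)))) q60772 (by decide +kernel)
def q60779 : Q := Q.p (nat_lit 0xe0000900000400000000000000000000000000000000000000000000000000000000000000) (nat_lit 0x8000060000018000600000000000000000000000000000000000000000000000000000000000000000000) (nat_lit 4)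
theorem c60779 : QOK q60779 := cut [q60777] ⟨c60777, trivial⟩ (nd (nat_lit 273) (nat_lit 0) (cs (lf (nat_lit 7) (nat_lit 271)) (nd (nat_lit 317) (nat_lit 0) (cs (lf (nat_lit 42) (nat_lit 250)) (rf (nat_lit 0)))))) q60779 (by decide +kernel)
def q60786 : Q := Q.p (nat_lit 0x8000020000100000400000000000000000000000000000000000000000000000000000000000000) (nat_lit 0x40000700001c000020000040000500000c0000000000000000000000000000000000000000000000000000000000000000000) (nat_lit 7)
theorem c60786 : QOK q60786 := cut [q48442] ⟨c48442, trivial⟩ (nd (nat_lit 337) (nat_lit 0) (cs (lf (nat_lit 33) (nat_lit 249)) (nd (nat_lit 359) (nat_lit 0) (cs (lf (nat_lit 34) (nat_lit 271)) (nd (nat_lit 360) (nat_lit 0) (cs (lf (nat_lit 29) (nat_lit 293)) (rf (nat_lit 0)))))))) q60786 (by decide +kernel)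
def q60884 : Q := Q.p (nat_lit 0xc000020000080000200000000000000000000000000000000000000000000000000000000000000) (nat_lit 0x10000000000100000c00001000000000000000000000000000000000000000000000000000) (nat_lit 3)
theorem c60884 : QOK q60884 := cut [q59322] ⟨c59322, trivial⟩ (nd (nat_lit 226) (nat_lit 0) (cs (lf (nat_lit 46) (nat_lit 226)) (rf (nat_lit 0)))) q60884 (by decide +kernel)
def q60915 : Q := Q.p (nat_lit 0x18000060000080000200000000000000000000000000000000000000000000000000000000000000) (nat_lit 0x1000007000080000000000000000000000000000000000000000000000000000000000000000000000000) (nat_lit 3)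
theorem c60915 : QOK q60915 := cut [q60914] ⟨c60914, trivial⟩ (nd (nat_lit 314) (nat_lit 0) (cs (lf (nat_lit 41) (nat_lit 248)) (rf (nat_lit 0)))) q60915 (by decide +kernel)
def q60935 : Q := Q.p (nat_lit 0x8000020000080000200000000000000000000000000000000000000000000000000000000) (nat_lit 0x400003000004000000000040000100000400000000000000000000000000000000000000000000000000) (nat_lit 4)
theorem c60935 : QOK q60935 := cut [q60933] ⟨c60933, trivial⟩ (nd (nat_lit 312) (nat_lit 0) (cs (lf (nat_lit 40) (nat_lit 224)) (nd (nat_lit 224) (nat_lit 0) (cs (lf (nat_lit 47) (nat_lit 202)) (rf (nat_lit 0)))))) q60935 (by decide +kernel)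
def q61006 : Q := Q.p (nat_lit 0x8000020000080000400000000000000000000000000000000000000000000000000000000000000) (nat_lit 0x100000700001c00003000004000010000140000000000000000000000000000000000000000000000000000000000000000000) (nat_lit 7)
theorem c61006 : QOK q61006 := cut [q61003] ⟨c61003, trivial⟩ (nd (nat_lit 337) (nat_lit 0) (cs (lf (nat_lit 34) (nat_lit 249)) (nd (nat_lit 358) (nat_lit 0) (cs (lf (nat_lit 40) (nat_lit 270)) (nd (nat_lit 359) (nat_lit 0) (cs (lf (nat_lit 41) (nat_lit 292)) (rf (nat_lit 0)))))))) q61006 (by decide +kernel)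
def q61276 : Q := Q.p (nat_lit 0x80000600001000000000000000000000000000000000000000000000000000000000) (nat_lit 0x8000020000000000000000800004000010000000000000000000000000000000000000000000000) (nat_lit 3)
theorem c61276 : QOK q61276 := cut [q61275] ⟨c61275, trivial⟩ (nd (nat_lit 206) (nat_lit 0) (cs (lf (nat_lit 36) (nat_lit 183)) (rf (nat_lit 0)))) q61276 (by decide +kernel)
def q61285 : Q := Q.p (nat_lit 0x2000010000040000700000000000000000000000000000000000000000000000000000000000000) (nat_lit 0x8000000000800000600000800000000000000000000000000000000000000000000000000) (nat_lit 3)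
theorem c61285 : QOK q61285 := cut [q61284] ⟨c61284, trivial⟩ (nd (nat_lit 226) (nat_lit 0) (cs (lf (nat_lit 40) (nat_lit 225)) (rf (nat_lit 0)))) q61285 (by decide +kernel)
def q61291 : Q := Q.p (nat_lit 0x3c0000600000000000000000000000000000000000000000000000000000000000000) (nat_lit 0x1c000030000000000000000000000000000000000000000000000000000000000000000000) (nat_lit 3)
theorem c61291 : QOK q61291 := cut [q11918] ⟨c11918, trivial⟩ (nd (nat_lit 269) (nat_lit 0) (cs (rf (nat_lit 0)) (lf (nat_lit 12) (nat_lit 246)))) q61291 (by decide +kernel)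
def q61331 : Q := Q.p (nat_lit 0x80000600001000000000000000000000000000000000000000000000000000000000) (nat_lit 0x8000020000100000000000000004000010000000000000000000000000000000000000000000000) (nat_lit 3)
theorem c61331 : QOK q61331 := cut [q61330] ⟨c61330, trivial⟩ (nd (nat_lit 293) (nat_lit 0) (cs (lf (nat_lit 30) (nat_lit 227)) (rf (nat_lit 0)))) q61331 (by decide +kernel)
def q61386 : Q := Q.p (nat_lit 0x40000100000400001000000000000000000000000000000000000000000000000000000000) (nat_lit 0x280000a0000280000000000000004000000000000000000000000000000000000000000000000000) (nat_lit 4)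
theorem c61386 : QOK q61386 := cut [q4155] ⟨c4155, trivial⟩ (nd (nat_lit 295) (nat_lit 0) (cs (lf (nat_lit 29) (nat_lit 228)) (nd (nat_lit 206) (nat_lit 0) (cs (lf (nat_lit 28) (nat_lit 206)) (rf (nat_lit 0)))))) q61386 (by decide +kernel)
def q61412 : Q := Q.p (nat_lit 0x600007800000000000000000000000000000000000000000000000000000000) (nat_lit 0x100000000000000003000008000020000000000000000000000000000000000000000) (nat_lit 3)
theorem c61412 : QOK q61412 := cut [q5153] ⟨c5153, trivial⟩ (nd (nat_lit 205) (nat_lit 0) (cs (lf (nat_lit 23) (nat_lit 204)) (rf (nat_lit 0)))) q61412 (by decide +kernel)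
def q61422 : Q := Q.p (nat_lit 0x600000000000000078000000000000000000000000000000000000000000000) (nat_lit 0x100000000000800003000000000040000000000000000000000000000000000000000) (nat_lit 3)
theorem c61422 : QOK q61422 := cut [q61421] ⟨c61421, trivial⟩ (nd (nat_lit 205) (nat_lit 0) (cs (lf (nat_lit 11) (nat_lit 182)) (rf (nat_lit 0)))) q61422 (by decide +kernel)
def q61439 : Q := Q.p (nat_lit 0x100000400001000014000040000000000000000000000000000000000000000000000) (nat_lit 0x220000380000a0000000000000000000000000000000000000000) (nat_lit 4)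
theorem c61439 : QOK q61439 := cut [q61437] ⟨c61437, trivial⟩ (nd (nat_lit 183) (nat_lit 0) (cs (lf (nat_lit 46) (nat_lit 183)) (nd (nat_lit 184) (nat_lit 0) (cs (lf (nat_lit 47) (nat_lit 161)) (rf (nat_lit 0)))))) q61439 (by decide +kernel)
def q61455 : Q := Q.p (nat_lit 0x1c8000300000000000000000000000000000000000000000) (nat_lit 0x1c0000630000000000000000000000000000000000000000000000) (nat_lit 4)
theorem c61455 : QOK q61455 := cut [q9253] ⟨c9253, trivial⟩ (nd (nat_lit 185) (nat_lit 0) (cs (lf (nat_lit 13) (nat_lit 161)) (nd (nat_lit 189) (nat_lit 0) (cs (rf (nat_lit 0)) (lf (nat_lit 18) (nat_lit 164)))))) q61455 (by decide +kernel)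
def q61486 : Q := Q.p (nat_lit 0x300000e0000000000c00000000000000000000000000000000000) (nat_lit 0x100000c0000000000200000000001000000000000000000000000000000) (nat_lit 3)
theorem c61486 : QOK q61486 := cut [q58082] ⟨c58082, trivial⟩ (nd (nat_lit 210) (nat_lit 0) (cs (lf (nat_lit 18) (nat_lit 185)) (rf (nat_lit 0)))) q61486 (by decide +kernel)
def q61492 : Q := Q.p (nat_lit 0x4000000000000000f0000000000000000000000000000000000000000000000) (nat_lit 0x800002000018000060000000000e0000000000000000000000000000000000000000) (nat_lit 5)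
theorem c61492 : QOK q61492 := cut [q17165] ⟨c17165, trivial⟩ (nd (nat_lit 162) (nat_lit 0) (cs (lf (nat_lit 23) (nat_lit 161)) (nd (nat_lit 206) (nat_lit 0) (cs (lf (nat_lit 11) (nat_lit 183)) (nd (nat_lit 228) (nat_lit 0) (cs (lf (nat_lit 35) (nat_lit 162)) (rf (nat_lit 0)))))))) q61492 (by decide +kernel)
def q61516 : Q := Q.p (nat_lit 0x20000080000600000000000000000000000000000000000000000000000000000000000000) (nat_lit 0x8000000000100000000001000004000010000000000000000000000000000000000000000000000) (nat_lit 3)
theorem c61516 : QOK q61516 := cut [q61330] ⟨c61330, trivial⟩ (nd (nat_lit 228) (nat_lit 0) (cs (lf (nat_lit 30) (nat_lit 227)) (rf (nat_lit 0)))) q61516 (by decide +kernel)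
def q61519 : Q := Q.p (nat_lit 0x70000080000700000600000000000000000000000000000000000000000000000000000000) (nat_lit 0x80000070000000000000000800000000000000000000000000000000000000000000000000) (nat_lit 3)
theorem c61519 : QOK q61519 := cut [q61518] ⟨c61518, trivial⟩ (nd (nat_lit 270) (nat_lit 0) (cs (lf (nat_lit 47) (nat_lit 203)) (rf (nat_lit 0)))) q61519 (by decide +kernel)
def q61527 : Q := Q.p (nat_lit 0x20000080000200000800000000000000000000000000000000000000000000000000000000) (nat_lit 0x4000010000040000000001000006000010000000000000000000000000000000000000000000000) (nat_lit 4)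
theorem c61527 : QOK q61527 := cut [q52305] ⟨c52305, trivial⟩ (nd (nat_lit 292) (nat_lit 0) (cs (lf (nat_lit 41) (nat_lit 226)) (nd (nat_lit 205) (nat_lit 0) (cs (lf (nat_lit 40) (nat_lit 204)) (rf (nat_lit 0)))))) q61527 (by decide +kernel)
def q61540 : Q := Q.p (nat_lit 0x8000020000080000600000800000000000000000000000000000000000000000000000000000000) (nat_lit 0x200000000000000010000000000040000300000c000000000000000000000000000000000000000000000) (nat_lit 4)
theorem c61540 : QOK q61540 := cut [q46968] ⟨c46968, trivial⟩ (nd (nat_lit 204) (nat_lit 0) (cs (lf (nat_lit 46) (nat_lit 204)) (nd (nat_lit 272) (nat_lit 0) (cs (lf (nat_lit 30) (nat_lit 249)) (rf (nat_lit 0)))))) q61540 (by decide +kernel)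
def q61547 : Q := Q.p (nat_lit 0x9e0000600000000000000000000000000000000000000000000000000000000000000) (nat_lit 0x1c000600000000000000000000000000000000000000000000000000000000000000000000) (nat_lit 3)
theorem c61547 : QOK q61547 := cut [q11918] ⟨c11918, trivial⟩ (nd (nat_lit 273) (nat_lit 0) (cs (rf (nat_lit 0)) (lf (nat_lit 19) (nat_lit 249)))) q61547 (by decide +kernel)
def q61563 : Q := Q.p (nat_lit 0xc0000700000400000000000000000000000000000000000000000000000000000000) (nat_lit 0x10000000000800000380001800006000000000000000000000000000000000000000000000) (nat_lit 5)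
theorem c61563 : QOK q61563 := cut [q61559] ⟨c61559, trivial⟩ (nd (nat_lit 225) (nat_lit 0) (cs (lf (nat_lit 18) (nat_lit 225)) (nd (nat_lit 223) (nat_lit 0) (cs (nd (nat_lit 203) (nat_lit 0) (cs (lf (nat_lit 42) (nat_lit 203)) (rf (nat_lit 0)))) (lf (nat_lit 1) (nat_lit 223)))))) q61563 (by decide +kernel)
def q61569 : Q := Q.p (nat_lit 0x1c0000600001000004000000000000000000000000000000000000000000000000000) (nat_lit 0x50000000000000000800002000008000000000000000000000000000000000000000000000) (nat_lit 3)
theorem c61569 : QOK q61569 := cut [q61564] ⟨c61564, trivial⟩ (nd (nat_lit 205) (nat_lit 0) (cs (lf (nat_lit 47) (nat_lit 183)) (rf (nat_lit 0)))) q61569 (by decide +kernel)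
def q61589 : Q := Q.p (nat_lit 0x3c0000200000000000000000000000000000000000000000000000000000000000000) (nat_lit 0x4000018000000000180000800002000000000000000000000000000000000000000000000000000) (nat_lit 4)
theorem c61589 : QOK q61589 := cut [q61587] ⟨c61587, trivial⟩ (nd (nat_lit 292) (nat_lit 0) (cs (lf (nat_lit 11) (nat_lit 269)) (nd (nat_lit 248) (nat_lit 0) (cs (lf (nat_lit 23) (nat_lit 247)) (rf (nat_lit 0)))))) q61589 (by decide +kernel)
def q61605 : Q := Q.p (nat_lit 0x10000040000700000400000000000000000000000000000000000000000000000000000000) (nat_lit 0x80000380000800000000000000000000000000000000000000000000000000) (nat_lit 3)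
theorem c61605 : QOK q61605 := cut [q61604] ⟨c61604, trivial⟩ (nd (nat_lit 225) (nat_lit 0) (cs (lf (nat_lit 47) (nat_lit 203)) (rf (nat_lit 0)))) q61605 (by decide +kernel)
def q61611 : Q := Q.p (nat_lit 0x68000180000600000000000000000000000000000000000000000000000000000000000000) (nat_lit 0xc000030000010000000000000000000000000000000000000000000000000000000000000000000000000) (nat_lit 3)
theorem c61611 : QOK q61611 := cut [q47212] ⟨c47212, trivial⟩ (nd (nat_lit 316) (nat_lit 0) (cs (lf (nat_lit 42) (nat_lit 249)) (rf (nat_lit 0)))) q61611 (by decide +kernel)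
def q61636 : Q := Q.p (nat_lit 0x100000c0000200000000000000000000000000000000000000000000000000000000000000) (nat_lit 0x1000004000000000000000100000800002000000000000000000000000000000000000000000000000000) (nat_lit 3)
theorem c61636 : QOK q61636 := cut [q61635] ⟨c61635, trivial⟩ (nd (nat_lit 227) (nat_lit 0) (cs (lf (nat_lit 36) (nat_lit 204)) (rf (nat_lit 0)))) q61636 (by decide +kernel)

end Crest.Agent.H3.Snaky.CR
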