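import Crest.Agent.H3.Snaky.Cert
import Crest.Agent.H3.Snaky.CR.CR0
import Crest.Agent.H3.Snaky.CR.CR1
import Crest.Agent.H3.Snaky.CR.CR2
import Crest.Agent.H3.Snaky.CR.CR3
import Crest.Agent.H3.Snaky.CR.CR4
import Crest.Agent.H3.Snaky.CR.CR5
import Crest.Agent.H3.Snaky.CR.CR6
import Crest.Agent.H3.Snaky.CR.CR8
import Crest.Agent.H3.Snaky.CR.CR9
import Crest.Agent.H3.Snaky.CR.CR10
import Crest.Agent.H3.Snaky.CR.CR11
import Crest.Agent.H3.Snaky.CR.CR12
import Crest.Agent.H3.Snaky.CR.CR13
import Crest.Agent.H3.Snaky.CR.CR14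

set_option autoImplicit false
set_option maxRecDepth 100000

namespace Crest.Agent.H3.Snaky.CR

open T

def q61641 : Q := Q.p (nat_lit 0x700000c0000400000000000000000000000000000000000000000000000000000000000000) (nat_lit 0x8000060000188000700000000000000000000000000000000000000000000000000000000000000000000) (nat_lit 5)
theorem c61641 : QOK q61641 := cut [q60326] ⟨c60326, trivial⟩ (nd (nat_lit 295) (nat_lit 0) (cs (lf (nat_lit 18) (nat_lit 270)) (nd (nat_lit 273) (nat_lit 0) (cs (lf (nat_lit 17) (nat_lit 270)) (nd (nat_lit 272) (nat_lit 0) (cs (lf (nat_lit 11) (nat_lit 269)) (rf (nat_lit 0)))))))) q61641 (by decide +kernel)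
def q61660 : Q := Q.p (nat_lit 0x20000080000600001800000000000000000000000000000000000000000000000000000000) (nat_lit 0x4000010000140000000000000002000008000020000000000000000000000000000000000000000) (nat_lit 4)
theorem c61660 : QOK q61660 := cut [q5153] ⟨c5153, trivial⟩ (nd (nat_lit 292) (nat_lit 0) (cs (lf (nat_lit 41) (nat_lit 226)) (nd (nat_lit 205) (nat_lit 0) (cs (rf (nat_lit 0)) (lf (nat_lit 40) (nat_lit 204)))))) q61660 (by decide +kernel)
def q61667 : Q := Q.p (nat_lit 0x40000000000600001800000000000000000000000000000000000000000000000000000000) (nat_lit 0x14000018000600000200001c000070000000000000000000000000000000000000000) (nat_lit 7)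
theorem c61667 : QOK q61667 := cut [q56677] ⟨c56677, trivial⟩ (nd (nat_lit 205) (nat_lit 0) (cs (lf (nat_lit 43) (nat_lit 205)) (nd (nat_lit 183) (nat_lit 0) (cs (lf (nat_lit 24) (nat_lit 161)) (nd (nat_lit 160) (nat_lit 0) (cs (lf (nat_lit 46) (nat_lit 160)) (nd (nat_lit 162) (nat_lit 0) (cs (lf (nat_lit 34) (nat_lit 161)) (nd (nat_lit 248) (nat_lit 0) (cs (lf (nat_lit 41) (nat_lit 182)) (rf (nat_lit 0)))))))))))) q61667 (by decide +kernel)
def q61671 : Q := Q.p (nat_lit 0x60000980000200000800000000000000000000000000000000000000000000000000000000) (nat_lit 0x4000018000600000000000000000000000000000000000000000000000000000000000000000000) (nat_lit 3)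
theorem c61671 : QOK q61671 := cut [q52265] ⟨c52265, trivial⟩ (nd (nat_lit 273) (nat_lit 0) (cs (lf (nat_lit 7) (nat_lit 271)) (rf (nat_lit 0)))) q61671 (by decide +kernel)
def q61685 : Q := Q.p (nat_lit 0x20000080000600000800000000000000000000000000000000000000000000000000000000) (nat_lit 0x4000050000140000000000000002000008000000000000000000000000000000000000000000000) (nat_lit 4)
theorem c61685 : QOK q61685 := cut [q40955] ⟨c40955, trivial⟩ (nd (nat_lit 292) (nat_lit 0) (cs (lf (nat_lit 41) (nat_lit 226)) (nd (nat_lit 205) (nat_lit 0) (cs (lf (nat_lit 40) (nat_lit 204)) (rf (nat_lit 0)))))) q61685 (by decide +kernel)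
def q61696 : Q := Q.p (nat_lit 0x20000080000600000000000000000000000000000000000000000000000000000000000000) (nat_lit 0x500001c000050000000000000001800000000000000000000000000000000000000000000000000000000) (nat_lit 5)
theorem c61696 : QOK q61696 := cut [q59775] ⟨c59775, trivial⟩ (nd (nat_lit 315) (nat_lit 0) (cs (lf (nat_lit 35) (nat_lit 227)) (rf (nat_lit 0)))) q61696 (by decide +kernel)
def q61716 : Q := Q.p (nat_lit 0x20000080000600000000000000000000000000000000000000000000000000000000000000) (nat_lit 0x60000180000700000c000010000140000100001c00001000000000000000000000000000000000000000000000000000) (nat_lit 9)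
theorem c61716 : QOK q61716 := cut [q61712] ⟨c61712, trivial⟩ (nd (nat_lit 315) (nat_lit 0) (cs (lf (nat_lit 35) (nat_lit 227)) (nd (nat_lit 226) (nat_lit 0) (cs (lf (nat_lit 46) (nat_lit 226)) (nd (nat_lit 204) (nat_lit 0) (cs (lf (nat_lit 45) (nat_lit 204)) (nd (nat_lit 314) (nat_lit 0) (cs (lf (nat_lit 41) (nat_lit 248)) (rf (nat_lit 0)))))))))) q61716 (by decide +kernel)
def q61727 : Q := Q.p (nat_lit 0x20000080000600000000000000000000000000000000000000000000000000000000000000) (nat_lit 0x700001c0000700003800005c000140000100001c00001000000000000000000000000000000000000000000000000000) (nat_lit 12)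
theorem c61727 : QOK q61727 := cut [q61718] ⟨c61718, trivial⟩ (nd (nat_lit 315) (nat_lit 0) (cs (lf (nat_lit 35) (nat_lit 227)) (nd (nat_lit 226) (nat_lit 0) (cs (lf (nat_lit 46) (nat_lit 226)) (nd (nat_lit 204) (nat_lit 0) (cs (lf (nat_lit 45) (nat_lit 204)) (nd (nat_lit 316) (nat_lit 0) (cs (lf (nat_lit 29) (nat_lit 249)) (nd (nat_lit 337) (nat_lit 0) (cs (lf (nat_lit 34) (nat_lit 249)) (nd (nat_lit 358) (nat_lit 0) (cs (lf (nat_lit 40) (nat_lit 270)) (nd (nat_lit 359) (nat_lit 0) (cs (lf (nat_lit 41) (nat_lit 292)) (nd (nat_lit 294) (nat_lit 0) (cs (lf (nat_lit 30) (nat_lit 293)) (nd (nat_lit 360) (nat_lit 0) (cs (lf (nat_lit 29) (nat_lit 293)) (rf (nat_lit 0)))))))))))))))))))) q61727 (by decide +kernel)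
def q61731 : Q := Q.p (nat_lit 0x40000300000600000000000000000000000000000000000000000000000000000000000000) (nat_lit 0x4000010000000000000000800002800000000000000000000000000000000000000000000000000000000) (nat_lit 3)
theorem c61731 : QOK q61731 := cut [q12962] ⟨c12962, trivial⟩ (nd (nat_lit 316) (nat_lit 0) (cs (lf (nat_lit 47) (nat_lit 227)) (rf (nat_lit 0)))) q61731 (by decide +kernel)
def q61740 : Q := Q.p (nat_lit 0x78000000000000000000000000000000000000000000000000000000000000000000000000) (nat_lit 0x38000004000038000000000000000000000000000000000000000000000000000000000000000000) (nat_lit 4)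
theorem c61740 : QOK q61740 := cut [q61738] ⟨c61738, trivial⟩ (nd (nat_lit 268) (nat_lit 0) (cs (lf (nat_lit 22) (nat_lit 268)) (nd (nat_lit 316) (nat_lit 0) (cs (lf (nat_lit 5) (nat_lit 291)) (rf (nat_lit 0)))))) q61740 (by decide +kernel)
def q61761 : Q := Q.p (nat_lit 0x78000000000000000000000000000000000000000000000000000000000000000000000000) (nat_lit 0x3b800004000000000000000000000000000000000000000000000000000000000000000000000000) (nat_lit 4)
theorem c61761 : QOK q61761 := cut [q61759] ⟨c61759, trivial⟩ (nd (nat_lit 312) (nat_lit 0) (cs (lf (nat_lit 10) (nat_lit 290)) (nd (nat_lit 316) (nat_lit 0) (cs (lf (nat_lit 5) (nat_lit 291)) (rf (nat_lit 0)))))) q61761 (by decide +kernel)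
def q61771 : Q := Q.p (nat_lit 0xf0000000000400000000010000000000000000000000000000000000000000000000000000) (nat_lit 0x76000000000660000800007000000000000000000000000000000000000000000000000000000000) (nat_lit 7)
theorem c61771 : QOK q61771 := cut [q61766] ⟨c61766, trivial⟩ (nd (nat_lit 317) (nat_lit 0) (cs (lf (nat_lit 5) (nat_lit 292)) (nd (nat_lit 313) (nat_lit 0) (cs (lf (nat_lit 10) (nat_lit 291)) (nd (nat_lit 269) (nat_lit 0) (cs (lf (nat_lit 22) (nat_lit 269)) (nd (nat_lit 273) (nat_lit 0) (cs (lf (nat_lit 17) (nat_lit 270)) (nd (nat_lit 251) (nat_lit 0) (cs (lf (nat_lit 47) (nat_lit 228)) (rf (nat_lit 0)))))))))))) q61771 (by decide +kernel)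
def q61775 : Q := Q.p (nat_lit 0xf0000000000000000000000000000000000000000000000000000000000000000000000000) (nat_lit 0x70000008000070000000000000000000000000000000000000000000000000000000000000000000) (nat_lit 4)
theorem c61775 : QOK q61775 := cut [q61773] ⟨c61773, trivial⟩ (nd (nat_lit 269) (nat_lit 0) (cs (lf (nat_lit 22) (nat_lit 269)) (nd (nat_lit 291) (nat_lit 0) (cs (lf (nat_lit 23) (nat_lit 268)) (rf (nat_lit 0)))))) q61775 (by decide +kernel)
def q61780 : Q := Q.p (nat_lit 0xe0000800000600000000000000000000000000000000000000000000000000000000000000) (nat_lit 0x110000700000000000000000000000000000000000000000000000000000000000000000000) (nat_lit 3)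
theorem c61780 : QOK q61780 := cut [q61779] ⟨c61779, trivial⟩ (nd (nat_lit 274) (nat_lit 0) (cs (lf (nat_lit 15) (nat_lit 271)) (rf (nat_lit 0)))) q61780 (by decide +kernel)
def q61782 : Q := Q.p (nat_lit 0xf0000000000400000000000000000000000000000000000000000000000000000000000000) (nat_lit 0x2000008000060000000000300000000001000000000000000000000000000000000000000000000000000000000) (nat_lit 4)
theorem c61782 : QOK q61782 := cut [q47555] ⟨c47555, trivial⟩ (nd (nat_lit 317) (nat_lit 0) (cs (lf (nat_lit 5) (nat_lit 292)) (nd (nat_lit 272) (nat_lit 0) (cs (lf (nat_lit 24) (nat_lit 228)) (rf (nat_lit 0)))))) q61782 (by decide +kernel)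
def q61784 : Q := Q.p (nat_lit 0x1e0000000000000000000000000000000000000000000000000000000000000000000000000) (nat_lit 0xee000010000000000000000000000000000000000000000000000000000000000000000000000000) (nat_lit 4)
theorem c61784 : QOK q61784 := cut [q60542] ⟨c60542, trivial⟩ (nd (nat_lit 314) (nat_lit 0) (cs (lf (nat_lit 10) (nat_lit 292)) (nd (nat_lit 292) (nat_lit 0) (cs (lf (nat_lit 11) (nat_lit 291)) (rf (nat_lit 0)))))) q61784 (by decide +kernel)
def q61799 : Q := Q.p (nat_lit 0x10000060000000000600000000000000000000000000000000000000000000000000000000000000) (nat_lit 0x2000008000000000100000000001800000000000000000000000000000000000000000000000000000000) (nat_lit 3)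
theorem c61799 : QOK q61799 := cut [q61798] ⟨c61798, trivial⟩ (nd (nat_lit 272) (nat_lit 0) (cs (lf (nat_lit 47) (nat_lit 227)) (rf (nat_lit 0)))) q61799 (by decide +kernel)
def q61808 : Q := Q.p (nat_lit 0x800001000004000070000000000000000000000000000000000000000000000000000000000000000000000000) (nat_lit 0x2000000000080000060000080000000000000000000000000000000000000000000000000000000000000) (nat_lit 3)
theorem c61808 : QOK q61808 := cut [q61805] ⟨c61805, trivial⟩ (nd (nat_lit 270) (nat_lit 0) (cs (lf (nat_lit 28) (nat_lit 270)) (rf (nat_lit 0)))) q61808 (by decide +kernel)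
def q61832 : Q := Q.p (nat_lit 0xc00009000004000010000000000000000000000000000000000000000000000000000000000000000000000000) (nat_lit 0x80001200006000000000000000000000000000000000000000000000000000000000000000000000000000000000000) (nat_lit 3)
theorem c61832 : QOK q61832 := cut [q48495] ⟨c48495, trivial⟩ (nd (nat_lit 357) (nat_lit 0) (cs (lf (nat_lit 41) (nat_lit 291)) (rf (nat_lit 0)))) q61832 (by decide +kernel)
def q61900 : Q := Q.p (nat_lit 0x78000000000000000000000000000000000000000000000000000000000000000000000000) (nat_lit 0x7000080000070000000000000000000000000000000000000000000000000000000000000000000) (nat_lit 4)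
theorem c61900 : QOK q61900 := cut [q61899] ⟨c61899, trivial⟩ (nd (nat_lit 269) (nat_lit 0) (cs (lf (nat_lit 23) (nat_lit 268)) (rf (nat_lit 0)))) q61900 (by decide +kernel)
def q61901 : Q := Q.p (nat_lit 0x10000078000000000000000000000000000000000000000000000000000000000000000000000000) (nat_lit 0xb800004000000000000000000000000000000000000000000000000000000000000000000000000) (nat_lit 3)
theorem c61901 : QOK q61901 := cut [q61759] ⟨c61759, trivial⟩ (nd (nat_lit 312) (nat_lit 0) (cs (lf (nat_lit 10) (nat_lit 290)) (rf (nat_lit 0)))) q61901 (by decide +kernel)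
def q61903 : Q := Q.p (nat_lit 0x10000078000000000000000000000000000000000000000000000000000000000000000000000000) (nat_lit 0x8000004000038000000000000000000000000000000000000000000000000000000000000000000) (nat_lit 3)
theorem c61903 : QOK q61903 := cut [q44926] ⟨c44926, trivial⟩ (nd (nat_lit 290) (nat_lit 0) (cs (rf (nat_lit 0)) (lf (nat_lit 4) (nat_lit 290)))) q61903 (by decide +kernel)
def q61919 : Q := Q.p (nat_lit 0x80000600000800002000000000000000000000000000000000000000000000000000) (nat_lit 0x100000000000000004000018000040000000000000000000000000000000000000000) (nat_lit 3)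
theorem c61919 : QOK q61919 := cut [q56661] ⟨c56661, trivial⟩ (nd (nat_lit 183) (nat_lit 0) (cs (lf (nat_lit 29) (nat_lit 183)) (rf (nat_lit 0)))) q61919 (by decide +kernel)
def q61925 : Q := Q.p (nat_lit 0xe0000800000000000000000000000000000000000000000000000000000000000000000000) (nat_lit 0x110001600000000000000000000000000000000000000000000000000000000000000000000) (nat_lit 3)
theorem c61925 : QOK q61925 := cut [q61924] ⟨c61924, trivial⟩ (nd (nat_lit 274) (nat_lit 0) (cs (lf (nat_lit 15) (nat_lit 271)) (rf (nat_lit 0)))) q61925 (by decide +kernel)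
def q61940 : Q := Q.p (nat_lit 0x40000000000600000800000000000000000000000000000000000000000000000000000000) (nat_lit 0x10000000000100000000001000002000008000000000000000000000000000000000000000000000) (nat_lit 3)
theorem c61940 : QOK q61940 := cut [q23102] ⟨c23102, trivial⟩ (nd (nat_lit 272) (nat_lit 0) (cs (lf (nat_lit 42) (nat_lit 227)) (rf (nat_lit 0)))) q61940 (by decide +kernel)
def q61951 : Q := Q.p (nat_lit 0x60000080000200000800000000000000000000000000000000000000000000000000000000) (nat_lit 0x100000000000400003000004000000000000000000000000000000000000000000000) (nat_lit 3)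
theorem c61951 : QOK q61951 := cut [q46572] ⟨c46572, trivial⟩ (nd (nat_lit 205) (nat_lit 0) (cs (lf (nat_lit 28) (nat_lit 205)) (rf (nat_lit 0)))) q61951 (by decide +kernel)
def q62029 : Q := Q.p (nat_lit 0x280000b0000600000800000000000000000000000000000000000000000000000000000000) (nat_lit 0x8000020000000000000000c0000700001400000000000000000000000000000000000000000000000000) (nat_lit 5)
theorem c62029 : QOK q62029 := cut [q62027] ⟨c62027, trivial⟩ (nd (nat_lit 226) (nat_lit 0) (cs (lf (nat_lit 47) (nat_lit 204)) (nd (nat_lit 224) (nat_lit 0) (cs (lf (nat_lit 1) (nat_lit 224)) (rf (nat_lit 0)))))) q62029 (by decide +kernel)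
def q62053 : Q := Q.p (nat_lit 0x38000080000000000000000000000000000000000000000000000000000000000000000000) (nat_lit 0x44000700000000000000000000000000000000000000000000000000000000000000000000) (nat_lit 3)
theorem c62053 : QOK q62053 := cut [q62039] ⟨c62039, trivial⟩ (nd (nat_lit 272) (nat_lit 0) (cs (lf (nat_lit 12) (nat_lit 268)) (rf (nat_lit 0)))) q62053 (by decide +kernel)
def q62055 : Q := Q.p (nat_lit 0x80000600000800001000000000000000000000000000000000000000000000000000) (nat_lit 0x4000010000000000000000200000c000000000000000000000000000000000000000000000) (nat_lit 3)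
theorem c62055 : QOK q62055 := cut [q40955] ⟨c40955, trivial⟩ (nd (nat_lit 205) (nat_lit 0) (cs (lf (nat_lit 47) (nat_lit 182)) (rf (nat_lit 0)))) q62055 (by decide +kernel)
def q62076 : Q := Q.p (nat_lit 0x60000080000200000000000000000000000000000000000000000000000000000000000000) (nat_lit 0x1000004000018000000000000000000000800000000000000000000000000000000000000000000000000000000) (nat_lit 3)
theorem c62076 : QOK q62076 := cut [q59017] ⟨c59017, trivial⟩ (nd (nat_lit 316) (nat_lit 0) (cs (lf (nat_lit 24) (nat_lit 227)) (rf (nat_lit 0)))) q62076 (by decide +kernel)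
def q62089 : Q := Q.p (nat_lit 0x78000080000000000000000000000000000000000000000000000000000000000000000000) (nat_lit 0x380000600005c000000000000000000000000000000000000000000000000000000000000000000) (nat_lit 5)
theorem c62089 : QOK q62089 := cut [q62086] ⟨c62086, trivial⟩ (nd (nat_lit 312) (nat_lit 0) (cs (lf (nat_lit 10) (nat_lit 290)) (nd (nat_lit 290) (nat_lit 0) (cs (lf (nat_lit 11) (nat_lit 289)) (nd (nat_lit 289) (nat_lit 0) (cs (lf (nat_lit 16) (nat_lit 267)) (rf (nat_lit 0)))))))) q62089 (by decide +kernel)
def q62109 : Q := Q.p (nat_lit 0x20000080000600000000000000000000000000000000000000000000000000000000000000) (nat_lit 0x300000c000010000100000000001c0000300000c000000000000000000000000000000000000000000000) (nat_lit 7)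
theorem c62109 : QOK q62109 := cut [q62104] ⟨c62104, trivial⟩ (nd (nat_lit 315) (nat_lit 0) (cs (lf (nat_lit 35) (nat_lit 227)) (nd (nat_lit 314) (nat_lit 0) (cs (lf (nat_lit 41) (nat_lit 248)) (nd (nat_lit 227) (nat_lit 0) (cs (lf (nat_lit 40) (nat_lit 226)) (nd (nat_lit 204) (nat_lit 0) (cs (lf (nat_lit 46) (nat_lit 204)) (nd (nat_lit 205) (nat_lit 0) (cs (lf (nat_lit 47) (nat_lit 182)) (rf (nat_lit 0)))))))))))) q62109 (by decide +kernel)
def q62137 : Q := Q.p (nat_lit 0xf00003000000000000000000000000000000000000000000000000000000000) (nat_lit 0x80000600000000000000004000010000000000000000000000000000000000000000000000) (nat_lit 3)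
theorem c62137 : QOK q62137 := cut [q62136] ⟨c62136, trivial⟩ (nd (nat_lit 273) (nat_lit 0) (cs (lf (nat_lit 5) (nat_lit 248)) (rf (nat_lit 0)))) q62137 (by decide +kernel)
def q62143 : Q := Q.p (nat_lit 0x40000300001c00000000000000000000000000000000000000000000000000000000) (nat_lit 0xe000038000020000000006000001800000000000000000000000000000000000000000000000000) (nat_lit 6)
theorem c62143 : QOK q62143 := cut [q27575] ⟨c27575, trivial⟩ (nd (nat_lit 292) (nat_lit 0) (cs (lf (nat_lit 30) (nat_lit 226)) (nd (nat_lit 293) (nat_lit 0) (cs (lf (nat_lit 29) (nat_lit 226)) (nd (nat_lit 229) (nat_lit 0) (cs (lf (nat_lit 6) (nat_lit 226)) (nd (nat_lit 204) (nat_lit 0) (cs (lf (nat_lit 23) (nat_lit 203)) (rf (nat_lit 0)))))))))) q62143 (by decide +kernel)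
def q62148 : Q := Q.p (nat_lit 0x300000600001800000000000000000000000000000000000000000000000000000000) (nat_lit 0x80000000000800000000004000010000040000000000000000000000000000000000000000) (nat_lit 3)
theorem c62148 : QOK q62148 := cut [q57556] ⟨c57556, trivial⟩ (nd (nat_lit 206) (nat_lit 0) (cs (lf (nat_lit 29) (nat_lit 206)) (rf (nat_lit 0)))) q62148 (by decide +kernel)
def q62160 : Q := Q.p (nat_lit 0x700001c00000000000000000000000000000000000000000000000000000000) (nat_lit 0x6300001c00000000000000000000000000000000000000000000000000) (nat_lit 4)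
theorem c62160 : QOK q62160 := cut [q62159] ⟨c62159, trivial⟩ (nd (nat_lit 229) (nat_lit 0) (cs (lf (nat_lit 6) (nat_lit 226)) (rf (nat_lit 0)))) q62160 (by decide +kernel)
def q62203 : Q := Q.p (nat_lit 0x4000010000000000000001e0000000000000000000000000000000000000000) (nat_lit 0x10000000000080000600001c000000000000000000000000000000000000000000000) (nat_lit 4)
theorem c62203 : QOK q62203 := cut [q38154] ⟨c38154, trivial⟩ (nd (nat_lit 183) (nat_lit 0) (cs (lf (nat_lit 11) (nat_lit 160)) (nd (nat_lit 206) (nat_lit 0) (cs (lf (nat_lit 45) (nat_lit 161)) (rf (nat_lit 0)))))) q62203 (by decide +kernel)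
def q62247 : Q := Q.p (nat_lit 0x50000300000000000000000000000000000000000000000) (nat_lit 0x28000c80000000000000000000000000000000000000000) (nat_lit 3)
theorem c62247 : QOK q62247 := cut [q8811] ⟨c8811, trivial⟩ (nd (nat_lit 185) (nat_lit 0) (cs (lf (nat_lit 12) (nat_lit 161)) (rf (nat_lit 0)))) q62247 (by decide +kernel)
def q62251 : Q := Q.p (nat_lit 0x600001000004000010000000000000000000000000000000000000000000000) (nat_lit 0x800000000008000060000080000000000000000000000000000000000) (nat_lit 3)
theorem c62251 : QOK q62251 := cut [q17129] ⟨c17129, trivial⟩ (nd (nat_lit 161) (nat_lit 0) (cs (lf (nat_lit 46) (nat_lit 161)) (rf (nat_lit 0)))) q62251 (by decide +kernel)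
def q62260 : Q := Q.p (nat_lit 0x600001000000000050000180000000000000000000000000000000000000000) (nat_lit 0x8000040000a0000060000080000000000000000000000000000000000) (nat_lit 4)
theorem c62260 : QOK q62260 := cut [q62224] ⟨c62224, trivial⟩ (nd (nat_lit 206) (nat_lit 0) (cs (lf (nat_lit 34) (nat_lit 162)) (rf (nat_lit 0)))) q62260 (by decide +kernel)
def q62276 : Q := Q.p (nat_lit 0x400001000000000050000180000000000000000000000000000000000000000) (nat_lit 0x4000028000600000000000000000000000000000000000000000) (nat_lit 3)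
theorem c62276 : QOK q62276 := cut [q62275] ⟨c62275, trivial⟩ (nd (nat_lit 185) (nat_lit 0) (cs (lf (nat_lit 32) (nat_lit 162)) (rf (nat_lit 0)))) q62276 (by decide +kernel)
def q62284 : Q := Q.p (nat_lit 0x2000010000000000000001c0000000000000000000000000000000000000000) (nat_lit 0x8000040003b8000600000380000000000000000000000000000000000) (nat_lit 6)
theorem c62284 : QOK q62284 := cut [q6419] ⟨c6419, trivial⟩ (nd (nat_lit 184) (nat_lit 0) (cs (nd (nat_lit 165) (nat_lit 0) (cs (lf (nat_lit 11) (nat_lit 161)) (nd (nat_lit 139) (nat_lit 0) (cs (lf (nat_lit 22) (nat_lit 139)) (nd (nat_lit 166) (nat_lit 0) (cs (lf (nat_lit 10) (nat_lit 162)) (rf (nat_lit 0)))))))) (nd (nat_lit 206) (nat_lit 0) (cs (lf (nat_lit 35) (nat_lit 140)) (lf (nat_lit 40) (nat_lit 161)))))) q62284 (by decide +kernel)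
def q62302 : Q := Q.p (nat_lit 0x300000600000000000000000000000000000000000) (nat_lit 0xc00000980000000000000000000000000000000000) (nat_lit 3)
theorem c62302 : QOK q62302 := cut [q34410] ⟨c34410, trivial⟩ (nd (nat_lit 140) (nat_lit 0) (cs (lf (nat_lit 0) (nat_lit 139)) (rf (nat_lit 0)))) q62302 (by decide +kernel)
def q62308 : Q := Q.p (nat_lit 0x800000600001000000000018000000000000000000000000000000000000000000000) (nat_lit 0x700000800000000006000000000020000000000000000000000000000000000000000) (nat_lit 4)
theorem c62308 : QOK q62308 := cut [q62306] ⟨c62306, trivial⟩ (nd (nat_lit 206) (nat_lit 0) (cs (lf (nat_lit 47) (nat_lit 161)) (nd (nat_lit 272) (nat_lit 0) (cs (lf (nat_lit 46) (nat_lit 183)) (rf (nat_lit 0)))))) q62308 (by decide +kernel)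
def q62374 : Q := Q.p (nat_lit 0x600001000000000010000040000000000000000000000000000000000000000) (nat_lit 0x200000800002800004000000000000000000000000000000000000000000000000000) (nat_lit 3)
theorem c62374 : QOK q62374 := cut [q17202] ⟨c17202, trivial⟩ (nd (nat_lit 206) (nat_lit 0) (cs (lf (nat_lit 40) (nat_lit 161)) (rf (nat_lit 0)))) q62374 (by decide +kernel)
def q62406 : Q := Q.p (nat_lit 0x300000400001000000000000000000000000000000000000000000000000000000000) (nat_lit 0x80000200000c0000000000000000000004000000000000000000000000000000000000000000000000000) (nat_lit 3)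
theorem c62406 : QOK q62406 := cut [q62405] ⟨c62405, trivial⟩ (nd (nat_lit 295) (nat_lit 0) (cs (lf (nat_lit 24) (nat_lit 206)) (rf (nat_lit 0)))) q62406 (by decide +kernel)
def q62410 : Q := Q.p (nat_lit 0xa00000600000000000000000000000000000000000000000000000000000000000000) (nat_lit 0x1500000900000000000000000000000000000000000000000000000000000000000000) (nat_lit 3)
theorem c62410 : QOK q62410 := cut [q22114] ⟨c22114, trivial⟩ (nd (nat_lit 274) (nat_lit 0) (cs (lf (nat_lit 21) (nat_lit 249)) (rf (nat_lit 0)))) q62410 (by decide +kernel)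
def q62417 : Q := Q.p (nat_lit 0x80000200000400001000000000000000000000000000000000000000000000000000000000) (nat_lit 0x8000020000040000100000000000000004000000000000000000000000000000000000000000000000000) (nat_lit 3)
theorem c62417 : QOK q62417 := cut [q62405] ⟨c62405, trivial⟩ (nd (nat_lit 272) (nat_lit 0) (cs (lf (nat_lit 24) (nat_lit 206)) (rf (nat_lit 0)))) q62417 (by decide +kernel)
def q62422 : Q := Q.p (nat_lit 0x80000200000400001000000000000000000000000000000000000000000000000000000000) (nat_lit 0x20000000000000000800002000004000010000000000000000000000000000000000000000000000) (nat_lit 3)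
theorem c62422 : QOK q62422 := cut [q14477] ⟨c14477, trivial⟩ (nd (nat_lit 251) (nat_lit 0) (cs (lf (nat_lit 42) (nat_lit 228)) (rf (nat_lit 0)))) q62422 (by decide +kernel)
def q62425 : Q := Q.p (nat_lit 0x800002600009000010000000000000000000000000000000000000000000000000000) (nat_lit 0x6000020000040000100000000000000000000000000000000000000000) (nat_lit 3)
theorem c62425 : QOK q62425 := cut [q3985] ⟨c3985, trivial⟩ (nd (nat_lit 230) (nat_lit 0) (cs (rf (nat_lit 0)) (lf (nat_lit 8) (nat_lit 227)))) q62425 (by decide +kernel)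
def q62430 : Q := Q.p (nat_lit 0x700001800000000000000000000000000000000000000000000000000000000) (nat_lit 0x20000080000300008c0000700001000000000000000000000000000000000000000000000000000) (nat_lit 6)
theorem c62430 : QOK q62430 := cut [q47089] ⟨c47089, trivial⟩ (nd (nat_lit 247) (nat_lit 0) (cs (lf (nat_lit 12) (nat_lit 224)) (nd (nat_lit 225) (nat_lit 0) (cs (lf (nat_lit 23) (nat_lit 224)) (nd (nat_lit 269) (nat_lit 0) (cs (lf (nat_lit 11) (nat_lit 246)) (nd (nat_lit 226) (nat_lit 0) (cs (lf (nat_lit 5) (nat_lit 225)) (rf (nat_lit 0)))))))))) q62430 (by decide +kernel)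
def q62480 : Q := Q.p (nat_lit 0x40000300000800000000000000000000000000000000000000000000000000000000) (nat_lit 0x4000010000000000000000400002000008000000000000000000000000000000000000000000000) (nat_lit 3)
theorem c62480 : QOK q62480 := cut [q58951] ⟨c58951, trivial⟩ (nd (nat_lit 292) (nat_lit 0) (cs (lf (nat_lit 30) (nat_lit 226)) (rf (nat_lit 0)))) q62480 (by decide +kernel)
def q62495 : Q := Q.p (nat_lit 0x700001c00000000000000000000000000000000000000000000000000000000) (nat_lit 0x20000080000700000c0000000001000004000000000000000000000000000000000000000000000) (nat_lit 5)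
theorem c62495 : QOK q62495 := cut [q45488] ⟨c45488, trivial⟩ (nd (nat_lit 247) (nat_lit 0) (cs (lf (nat_lit 12) (nat_lit 224)) (nd (nat_lit 269) (nat_lit 0) (cs (lf (nat_lit 11) (nat_lit 246)) (nd (nat_lit 291) (nat_lit 0) (cs (lf (nat_lit 30) (nat_lit 225)) (rf (nat_lit 0)))))))) q62495 (by decide +kernel)
def q62503 : Q := Q.p (nat_lit 0x900000600001800000000000000000000000000000000000000000000000000000000) (nat_lit 0x300000c0000600000180000000004000000000000000000000000000000000000000000000000000) (nat_lit 5)
theorem c62503 : QOK q62503 := cut [q62501] ⟨c62501, trivial⟩ (nd (nat_lit 273) (nat_lit 0) (cs (lf (nat_lit 19) (nat_lit 249)) (nd (nat_lit 247) (nat_lit 0) (cs (lf (nat_lit 1) (nat_lit 247)) (rf (nat_lit 0)))))) q62503 (by decide +kernel)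
def q62505 : Q := Q.p (nat_lit 0x300000600001800000000008000000000000000000000000000000000000000000000) (nat_lit 0x80000000000000000000004000010000060000000000000000000000000000000000000000) (nat_lit 3)
theorem c62505 : QOK q62505 := cut [q62504] ⟨c62504, trivial⟩ (nd (nat_lit 206) (nat_lit 0) (cs (lf (nat_lit 29) (nat_lit 206)) (rf (nat_lit 0)))) q62505 (by decide +kernel)
def q62511 : Q := Q.p (nat_lit 0x8000010000040000100000400000000000000000000000000000000000000000000000000000000) (nat_lit 0x2800006000008000000000000000000000000000000000000000000000000000000000000000000000000) (nat_lit 3)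
theorem c62511 : QOK q62511 := cut [q15227] ⟨c15227, trivial⟩ (nd (nat_lit 313) (nat_lit 0) (cs (rf (nat_lit 0)) (lf (nat_lit 40) (nat_lit 225)))) q62511 (by decide +kernel)
def q62513 : Q := Q.p (nat_lit 0x700001000003800000000000000000000000000000000000000000000000000) (nat_lit 0x80000e000004000000000000000000000000000000000000000000000000000) (nat_lit 3)
theorem c62513 : QOK q62513 := cut [q23632] ⟨c23632, trivial⟩ (nd (nat_lit 229) (nat_lit 0) (cs (rf (nat_lit 0)) (lf (nat_lit 3) (nat_lit 203)))) q62513 (by decide +kernel)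
def q62531 : Q := Q.p (nat_lit 0x800002600001800010000048000000000000000000000000000000000000000000000) (nat_lit 0x8000024000030000060000000000000000000000000000000000000000) (nat_lit 4)
theorem c62531 : QOK q62531 := cut [q62529] ⟨c62529, trivial⟩ (nd (nat_lit 209) (nat_lit 0) (cs (lf (nat_lit 44) (nat_lit 186)) (nd (nat_lit 184) (nat_lit 0) (cs (lf (nat_lit 2) (nat_lit 183)) (rf (nat_lit 0)))))) q62531 (by decide +kernel)
def q62533 : Q := Q.p (nat_lit 0x40000700001800000000010000000000000000000000000000000000000000000000) (nat_lit 0x6000008000060000000000000000000000000000000000000000) (nat_lit 3)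
theorem c62533 : QOK q62533 := cut [q62529] ⟨c62529, trivial⟩ (nd (nat_lit 183) (nat_lit 0) (cs (lf (nat_lit 37) (nat_lit 182)) (rf (nat_lit 0)))) q62533 (by decide +kernel)
def q62536 : Q := Q.p (nat_lit 0x400005000014000050000000000000000000000000000000000000000000000) (nat_lit 0x620000a0000680000800000000000000000000000000000000000) (nat_lit 5)
theorem c62536 : QOK q62536 := cut [q8753] ⟨c8753, trivial⟩ (nd (nat_lit 185) (nat_lit 0) (cs (lf (nat_lit 35) (nat_lit 162)) (nd (nat_lit 187) (nat_lit 0) (cs (lf (nat_lit 11) (nat_lit 183)) (nd (nat_lit 165) (nat_lit 0) (cs (lf (nat_lit 17) (nat_lit 162)) (rf (nat_lit 0)))))))) q62536 (by decide +kernel)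
def q62540 : Q := Q.p (nat_lit 0x400001000014000050000000000000000000000000000000000000000000000) (nat_lit 0x200000280000a0000000000000000000000000000000000000000) (nat_lit 3)
theorem c62540 : QOK q62540 := cut [q61437] ⟨c61437, trivial⟩ (nd (nat_lit 183) (nat_lit 0) (cs (lf (nat_lit 47) (nat_lit 161)) (rf (nat_lit 0)))) q62540 (by decide +kernel)
def q62567 : Q := Q.p (nat_lit 0x10000040000300000400000000000000000000000000000000000000000000000000000000) (nat_lit 0xa000068000038000000000000001000000000000000000000000000000000000000000000000000) (nat_lit 5)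
theorem c62567 : QOK q62567 := cut [q62564] ⟨c62564, trivial⟩ (nd (nat_lit 293) (nat_lit 0) (cs (lf (nat_lit 29) (nat_lit 226)) (nd (nat_lit 291) (nat_lit 0) (cs (lf (nat_lit 41) (nat_lit 225)) (nd (nat_lit 269) (nat_lit 0) (cs (lf (nat_lit 36) (nat_lit 203)) (rf (nat_lit 0)))))))) q62567 (by decide +kernel)
def q62593 : Q := Q.p (nat_lit 0x2000000000010000058000100000000000000000000000000000000000000000) (nat_lit 0xc000000000020000200000800000000000000000000000000000000000) (nat_lit 3)
theorem c62593 : QOK q62593 := cut [q62170] ⟨c62170, trivial⟩ (nd (nat_lit 165) (nat_lit 0) (cs (lf (nat_lit 14) (nat_lit 161)) (rf (nat_lit 0)))) q62593 (by decide +kernel)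
def q62609 : Q := Q.p (nat_lit 0x1800003000000000000000000000000000000000000000000000000000) (nat_lit 0x6400000c00000000000000000000000000000000000000000000000000) (nat_lit 3)
theorem c62609 : QOK q62609 := cut [q57256] ⟨c57256, trivial⟩ (nd (nat_lit 229) (nat_lit 0) (cs (lf (nat_lit 18) (nat_lit 204)) (rf (nat_lit 0)))) q62609 (by decide +kernel)
def q62617 : Q := Q.p (nat_lit 0x700000400001000004000000000000000000000000000000000000000000000) (nat_lit 0x8000060000800000000000800002000008000000000000000000000000000000000000000) (nat_lit 4)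
theorem c62617 : QOK q62617 := cut [q62615] ⟨c62615, trivial⟩ (nd (nat_lit 181) (nat_lit 0) (cs (lf (nat_lit 47) (nat_lit 159)) (nd (nat_lit 270) (nat_lit 0) (cs (lf (nat_lit 46) (nat_lit 181)) (rf (nat_lit 0)))))) q62617 (by decide +kernel)
def q62621 : Q := Q.p (nat_lit 0x78000020000000000000000000000000000000000000000) (nat_lit 0x80000740000000000000000000000000000000000000000) (nat_lit 3)
theorem c62621 : QOK q62621 := cut [q39096] ⟨c39096, trivial⟩ (nd (nat_lit 187) (nat_lit 0) (cs (lf (nat_lit 22) (nat_lit 161)) (rf (nat_lit 0)))) q62621 (by decide +kernel)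
def q62632 : Q := Q.p (nat_lit 0x70000020000000000000000000000000000000000000000) (nat_lit 0x800000d8000000000000000000000000000000000000000) (nat_lit 3)
theorem c62632 : QOK q62632 := cut [q3733] ⟨c3733, trivial⟩ (nd (nat_lit 162) (nat_lit 0) (cs (lf (nat_lit 18) (nat_lit 161)) (rf (nat_lit 0)))) q62632 (by decide +kernel)
def q62671 : Q := Q.p (nat_lit 0x600001e00010000000000000000000000000000000000000000000000000000) (nat_lit 0x1c000e000020c00000000000000000000000000000000000000000000000000) (nat_lit 5)
theorem c62671 : QOK q62671 := cut [q57522] ⟨c57522, trivial⟩ (nd (nat_lit 202) (nat_lit 0) (cs (lf (nat_lit 22) (nat_lit 202)) (nd (nat_lit 247) (nat_lit 0) (cs (lf (nat_lit 11) (nat_lit 224)) (nd (nat_lit 229) (nat_lit 0) (cs (lf (nat_lit 10) (nat_lit 225)) (rf (nat_lit 0)))))))) q62671 (by decide +kernel)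
def q62675 : Q := Q.p (nat_lit 0x40000700001c00000000000000000000000000000000000000000000000000000000) (nat_lit 0x8000020000800006000001800000000000000000000000000000000000000000000000000) (nat_lit 4)
theorem c62675 : QOK q62675 := cut [q62615] ⟨c62615, trivial⟩ (nd (nat_lit 229) (nat_lit 0) (cs (lf (nat_lit 6) (nat_lit 226)) (nd (nat_lit 204) (nat_lit 0) (cs (lf (nat_lit 23) (nat_lit 203)) (rf (nat_lit 0)))))) q62675 (by decide +kernel)
def q62701 : Q := Q.p (nat_lit 0x600001c00010000000000000000000000000000000000000000000000000000) (nat_lit 0x100006300021c00000000000000000000000000000000000000000000000000) (nat_lit 5)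
theorem c62701 : QOK q62701 := cut [q62698] ⟨c62698, trivial⟩ (nd (nat_lit 225) (nat_lit 0) (cs (lf (nat_lit 0) (nat_lit 224)) (nd (nat_lit 203) (nat_lit 0) (cs (lf (nat_lit 23) (nat_lit 202)) (nd (nat_lit 229) (nat_lit 0) (cs (lf (nat_lit 22) (nat_lit 203)) (rf (nat_lit 0)))))))) q62701 (by decide +kernel)
def q62705 : Q := Q.p (nat_lit 0x600001c00010000000000000000000000000000000000000000000000000000) (nat_lit 0xc000e300021c00000000000000000000000000000000000000000000000000) (nat_lit 6)
theorem c62705 : QOK q62705 := cut [q57522] ⟨c57522, trivial⟩ (nd (nat_lit 225) (nat_lit 0) (cs (lf (nat_lit 0) (nat_lit 224)) (nd (nat_lit 246) (nat_lit 0) (cs (lf (nat_lit 10) (nat_lit 224)) (nd (nat_lit 203) (nat_lit 0) (cs (lf (nat_lit 23) (nat_lit 202)) (nd (nat_lit 229) (nat_lit 0) (cs (lf (nat_lit 22) (nat_lit 203)) (rf (nat_lit 0)))))))))) q62705 (by decide +kernel)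
def q62715 : Q := Q.p (nat_lit 0x680001800010000000000000000000000000000000000000000000000000000) (nat_lit 0x10000e000020000000000000000000000000000000000000000000000000000) (nat_lit 3)
theorem c62715 : QOK q62715 := cut [q57522] ⟨c57522, trivial⟩ (nd (nat_lit 229) (nat_lit 0) (cs (lf (nat_lit 13) (nat_lit 225)) (rf (nat_lit 0)))) q62715 (by decide +kernel)
def q62735 : Q := Q.p (nat_lit 0x600001c00011000000000000000000000000000000000000000000000000000) (nat_lit 0xe000020800000000000000000000000000000000000000000000000000) (nat_lit 3)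
theorem c62735 : QOK q62735 := cut [q57522] ⟨c57522, trivial⟩ (nd (nat_lit 229) (nat_lit 0) (cs (lf (nat_lit 23) (nat_lit 203)) (rf (nat_lit 0)))) q62735 (by decide +kernel)
def q62755 : Q := Q.p (nat_lit 0x80001a00002800000000000000000000000000000000000000000000000000) (nat_lit 0x20000000000100001400001000004000010000000000000000000000000000000000) (nat_lit 4)
theorem c62755 : QOK q62755 := cut [q49358] ⟨c49358, trivial⟩ (nd (nat_lit 202) (nat_lit 0) (cs (rf (nat_lit 0)) (lf (nat_lit 2) (nat_lit 202)))) q62755 (by decide +kernel)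
def q62761 : Q := Q.p (nat_lit 0x40000900000600001000000000000000000000000000000000000000000000000000000000) (nat_lit 0x280001a0000600000000000000000000000000000000000000000000000000000000000000000000) (nat_lit 4)
theorem c62761 : QOK q62761 := cut [q55474] ⟨c55474, trivial⟩ (nd (nat_lit 295) (nat_lit 0) (cs (lf (nat_lit 29) (nat_lit 228)) (nd (nat_lit 274) (nat_lit 0) (cs (lf (nat_lit 20) (nat_lit 249)) (rf (nat_lit 0)))))) q62761 (by decide +kernel)
def q62764 : Q := Q.p (nat_lit 0x40000040000700003000000000000000000000000000000000000000000000000000000000) (nat_lit 0x30000080000620000800000000000000000000000000000000000000000000000000000000000000) (nat_lit 4)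
theorem c62764 : QOK q62764 := cut [q62763] ⟨c62763, trivial⟩ (nd (nat_lit 251) (nat_lit 0) (cs (lf (nat_lit 11) (nat_lit 247)) (rf (nat_lit 0)))) q62764 (by decide +kernel)
def q62777 : Q := Q.p (nat_lit 0x700009400001000000000000000000000000000000000000000000000000000) (nat_lit 0x40000000006a00000800002000008000020000000000000000000000000000000000) (nat_lit 5)
theorem c62777 : QOK q62777 := cut [q26229] ⟨c26229, trivial⟩ (nd (nat_lit 229) (nat_lit 0) (cs (lf (nat_lit 7) (nat_lit 227)) (nd (nat_lit 203) (nat_lit 0) (cs (lf (nat_lit 20) (nat_lit 203)) (rf (nat_lit 0)))))) q62777 (by decide +kernel)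
def q62780 : Q := Q.p (nat_lit 0x78000800000000000000000000000000000000000000000000000000000000000000000000) (nat_lit 0x70000180000600000000000000000000000000000000000000000000000000000000000000000000) (nat_lit 4)
theorem c62780 : QOK q62780 := cut [q61736] ⟨c61736, trivial⟩ (nd (nat_lit 317) (nat_lit 0) (cs (lf (nat_lit 4) (nat_lit 291)) (nd (nat_lit 295) (nat_lit 0) (cs (lf (nat_lit 5) (nat_lit 292)) (rf (nat_lit 0)))))) q62780 (by decide +kernel)
def q62810 : Q := Q.p (nat_lit 0x40000000000700009400000000000000000000000000000000000000000000000000000000) (nat_lit 0x30000080000660000800006200000000000000000000000000000000000000000000000000000000) (nat_lit 6)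
theorem c62810 : QOK q62810 := cut [q62763] ⟨c62763, trivial⟩ (nd (nat_lit 229) (nat_lit 0) (cs (lf (nat_lit 7) (nat_lit 227)) (nd (nat_lit 251) (nat_lit 0) (cs (lf (nat_lit 23) (nat_lit 225)) (nd (nat_lit 269) (nat_lit 0) (cs (lf (nat_lit 10) (nat_lit 247)) (rf (nat_lit 0)))))))) q62810 (by decide +kernel)
def q62827 : Q := Q.p (nat_lit 0x40000040000700000c00000000000000000000000000000000000000000000000000000000) (nat_lit 0xc0000b0000020000800000000000000000000000000000000000000000000000000000000000000) (nat_lit 4)
theorem c62827 : QOK q62827 := cut [q62825] ⟨c62825, trivial⟩ (nd (nat_lit 292) (nat_lit 0) (cs (lf (nat_lit 30) (nat_lit 226)) (nd (nat_lit 293) (nat_lit 0) (cs (lf (nat_lit 29) (nat_lit 226)) (rf (nat_lit 0)))))) q62827 (by decide +kernel)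
def q62888 : Q := Q.p (nat_lit 0x1e000004000000000000000000000000000000000000000000000000000000000000000000000000) (nat_lit 0xe00001000002000000000000000000000000000000000000000000000000000000000000000000000000) (nat_lit 3)
theorem c62888 : QOK q62888 := cut [q62887] ⟨c62887, trivial⟩ (nd (nat_lit 334) (nat_lit 0) (cs (lf (nat_lit 10) (nat_lit 312)) (rf (nat_lit 0)))) q62888 (by decide +kernel)
def q62939 : Q := Q.p (nat_lit 0x80000200000f00000000000000000000000000000000000000000000000000000000000000) (nat_lit 0x20000000000000000000007000004000000000000000000000000000000000000000000000000000) (nat_lit 3)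
theorem c62939 : QOK q62939 := cut [q62938] ⟨c62938, trivial⟩ (nd (nat_lit 229) (nat_lit 0) (cs (lf (nat_lit 17) (nat_lit 226)) (rf (nat_lit 0)))) q62939 (by decide +kernel)
def q62972 : Q := Q.p (nat_lit 0xf000000000000000000000000000000000000000000000000000000000000000000000000000000) (nat_lit 0x700000800007000000000000000000000000000000000000000000000000000000000000000000000000) (nat_lit 4)
theorem c62972 : QOK q62972 := cut [q62970] ⟨c62970, trivial⟩ (nd (nat_lit 333) (nat_lit 0) (cs (lf (nat_lit 10) (nat_lit 311)) (nd (nat_lit 311) (nat_lit 0) (cs (lf (nat_lit 11) (nat_lit 310)) (rf (nat_lit 0)))))) q62972 (by decide +kernel)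
def q63043 : Q := Q.p (nat_lit 0x6000000000040000700000000000000000000000000000000000000000000000000000000000000) (nat_lit 0x1fc0007f00019f000d7800738000860006000000000000000000000000000000000000000000000000000000000) (nat_lit 12)
theorem c63043 : QOK q63043 := cut [q62958, q62970] ⟨c62958, c62970, trivial⟩ (nd (nat_lit 335) (nat_lit 0) (cs (lf (nat_lit 38) (nat_lit 247)) (nd (nat_lit 334) (nat_lit 0) (cs (nd (nat_lit 251) (nat_lit 0) (cs (lf (nat_lit 11) (nat_lit 247)) (nd (nat_lit 229) (nat_lit 0) (cs (lf (nat_lit 17) (nat_lit 226)) (nd (nat_lit 273) (nat_lit 0) (cs (lf (nat_lit 5) (nat_lit 248)) (nd (nat_lit 332) (nat_lit 0) (cs (nd (nat_lit 316) (nat_lit 0) (cs (rf (nat_lit 0)) (lf (nat_lit 7) (nat_lit 312)))) (lf (nat_lit 13) (nat_lit 310)))))))))) (cs (nd (nat_lit 312) (nat_lit 0) (cs (nd (nat_lit 315) (nat_lit 0) (cs (nd (nat_lit 337) (nat_lit 0) (cs (lf (nat_lit 5) (nat_lit 312)) (nd (nat_lit 311) (nat_lit 0) (cs (rf (nat_lit 1)) (lf (nat_lit 19) (nat_lit 311)))))) (lf (nat_lit 6) (nat_lit 312)))) (cs (nd (nat_lit 269) (nat_lit 0)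 (cs (lf (nat_lit 6) (nat_lit 247)) (nd (nat_lit 268) (nat_lit 0) (cs (lf (nat_lit 12) (nat_lit 245)) (nd (nat_lit 290) (nat_lit 0) (cs (lf (nat_lit 29) (nat_lit 268)) (lf (nat_lit 24) (nat_lit 246)))))))) (nd (nat_lit 251) (nat_lit 0) (cs (lf (nat_lit 11) (nat_lit 247)) (nd (nat_lit 229) (nat_lit 0) (cs (lf (nat_lit 17) (nat_lit 226)) (nd (nat_lit 273) (nat_lit 0) (cs (lf (nat_lit 5) (nat_lit 248)) (nd (nat_lit 315) (nat_lit 0) (cs (lf (nat_lit 6) (nat_lit 312)) (nd (nat_lit 337) (nat_lit 0) (cs (lf (nat_lit 5) (nat_lit 312)) (nd (nat_lit 311) (nat_lit 0) (cs (lf (nat_lit 4) (nat_lit 311)) (nd (nat_lit 288) (nat_lit 0) (cs (lf (nat_lit 22) (nat_lit 288)) (nd (nat_lit 310) (nat_lit 0) (cs (lf (nat_lit 23) (nat_lit 287)) (lf (nat_lit 0) (nat_lit 309))))))))))))))))))))) (cs (nd (nat_lit 333) (nat_lit 0) (cs (lf (nat_lit 12) (nat_lit 310)) (nd (nat_lit 311) (nat_lit 0) (cs (nd (nat_lit 310) (nat_lit 0) (cs (nd (nat_lit 309) (nat_lit 0) (cs (lf (nat_lit 0) (nat_lit 308)) (lf (nat_lit 3) (nat_lit 309)))) (lf (nat_lit 18) (nat_lit 310)))) (cs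 (nd (nat_lit 251) (nat_lit 0) (cs (lf (nat_lit 11) (nat_lit 247)) (nd (nat_lit 229) (nat_lit 0) (cs (lf (nat_lit 17) (nat_lit 226)) (nd (nat_lit 273) (nat_lit 0) (cs (lf (nat_lit 5) (nat_lit 248)) (nd (nat_lit 336) (nat_lit 0) (cs (nd (nat_lit 359) (nat_lit 0) (cs (nd (nat_lit 355) (nat_lit 0) (cs (nd (nat_lit 337) (nat_lit 0) (cs (lf (nat_lit 10) (nat_lit 333)) (lf (nat_lit 5) (nat_lit 334)))) (lf (nat_lit 11) (nat_lit 332)))) (lf (nat_lit 4) (nat_lit 333)))) (lf (nat_lit 23) (nat_lit 310)))))))))) (nd (nat_lit 269) (nat_lit 0) (cs (lf (nat_lit 6) (nat_lit 247)) (nd (nat_lit 267) (nat_lit 0) (cs (lf (nat_lit 13) (nat_lit 245)) (nd (nat_lit 289) (nat_lit 0) (cs (lf (nat_lit 29) (nat_lit 267)) (nd (nat_lit 312) (nat_lit 0) (cs (lf (nat_lit 23) (nat_lit 288)) (lf (nat_lit 24) (nat_lit 245))))))))))))))) (nd (nat_lit 315) (nat_lit 0) (cs (lf (nat_lit 6) (nat_lit 312)) (nd (nat_lit 333) (nat_lit 0) (cs (lf (nat_lit 12) (nat_lit 310)) (lf (nat_lit 9) (nat_lit 311)))))))))))) q63043 (by decide +kernel)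
def q63073 : Q := Q.p (nat_lit 0x800003800000000000000000000000000000000000000000000000000000000000000000000000000000) (nat_lit 0x7000004400000000000000000000000000000000000000000000000000000000000000000000000000000) (nat_lit 3)
theorem c63073 : QOK q63073 := cut [q63071] ⟨c63071, trivial⟩ (nd (nat_lit 336) (nat_lit 0) (cs (rf (nat_lit 0)) (lf (nat_lit 0) (nat_lit 310)))) q63073 (by decide +kernel)
def q63125 : Q := Q.p (nat_lit 0x800003800000000000000000000000000000000000000000000000000000000000000000000000000000) (nat_lit 0x8000060000dc000770003c0000e7000008000020000000000000000000000000000000000000000000000000000000000000) (nat_lit 8)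
theorem c63125 : QOK q63125 := cut [q63071, q63097, q63104, q63108, q63124] ⟨c63071, c63097, c63104, c63108, c63124, trivial⟩ (nd (nat_lit 336) (nat_lit 0) (cs (rf (nat_lit 0)) (cs (nd (nat_lit 314) (nat_lit 0) (cs (rf (nat_lit 1)) (cs (nd (nat_lit 289) (nat_lit 0) (cs (lf (nat_lit 23) (nat_lit 288)) (nd (nat_lit 315) (nat_lit 0) (cs (lf (nat_lit 22) (nat_lit 289)) (nd (nat_lit 316) (nat_lit 0) (cs (lf (nat_lit 11) (nat_lit 312)) (lf (nat_lit 6) (nat_lit 313)))))))) (cs (nd (nat_lit 332) (nat_lit 0) (cs (lf (nat_lit 10) (nat_lit 310)) (rf (nat_lit 2)))) (nd (nat_lit 334) (nat_lit 0) (cs (nd (nat_lit 333) (nat_lit 0) (cs (lf (nat_lit 12) (nat_lit 310)) (nd (nat_lit 358) (nat_lit 0) (cs (nd (nat_lit 355) (nat_lit 0) (cs (lf (nat_lit 11) (nat_lit 332)) (rf (nat_lit 3)))) (lf (nat_lit 5) (nat_lit 333)))))) (cs (nd (nat_lit 289) (nat_lit 0) (cs (lf (nat_lit 23) (nat_lit 288)) (nd (nat_lit 267) (nat_lit 0) (cs (lf (nat_lit 24) (nat_lit 245)) (nd (nat_lit 356) (nat_lit 0) (cs (lf (nat_lit 45) (nat_lit 267)) (lf (nat_lit 42) (nat_lit 289))))))))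 (nd (nat_lit 289) (nat_lit 0) (cs (lf (nat_lit 23) (nat_lit 288)) (nd (nat_lit 333) (nat_lit 0) (cs (lf (nat_lit 12) (nat_lit 310)) (nd (nat_lit 267) (nat_lit 0) (cs (lf (nat_lit 29) (nat_lit 267)) (lf (nat_lit 24) (nat_lit 245))))))))))))))) (rf (nat_lit 4))))) q63125 (by decide +kernel)
def q63162 : Q := Q.p (nat_lit 0x800003000000000000000000000000000000000000000000000000000000000000000000000000000000) (nat_lit 0x380000f0001fc000770003cc000e7000010000040000000000000000000000000000000000000000000000000000000000000) (nat_lit 10)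
theorem c63162 : QOK q63162 := cut [q63071, q63097, q63104, q63108] ⟨c63071, c63097, c63104, c63108, trivial⟩ (nd (nat_lit 336) (nat_lit 0) (cs (nd (nat_lit 311) (nat_lit 0) (cs (rf (nat_lit 0)) (lf (nat_lit 0) (nat_lit 310)))) (cs (nd (nat_lit 311) (nat_lit 0) (cs (lf (nat_lit 0) (nat_lit 310)) (nd (nat_lit 314) (nat_lit 0) (cs (rf (nat_lit 1)) (cs (rf (nat_lit 2)) (nd (nat_lit 333) (nat_lit 0) (cs (lf (nat_lit 11) (nat_lit 310)) (nd (nat_lit 355) (nat_lit 0) (cs (nd (nat_lit 334) (nat_lit 0) (cs (lf (nat_lit 11) (nat_lit 332)) (rf (nat_lit 3)))) (cs (nd (nat_lit 354) (nat_lit 0) (cs (nd (nat_lit 289) (nat_lit 0) (cs (lf (nat_lit 23) (nat_lit 288)) (lf (nat_lit 41) (nat_lit 288)))) (lf (nat_lit 8) (nat_lit 332)))) (nd (nat_lit 290) (nat_lit 0) (cs (lf (nat_lit 30) (nat_lit 289)) (nd (nat_lit 289) (nat_lit 0) (cs (lf (nat_lit 23) (nat_lit 288)) (lf (nat_lit 35) (nat_lit 267)))))))))))))))) (cs (nd (nat_lit 337) (nat_lit 0) (cs (lf (nat_lit 18) (nat_lit 312)) (nd (nat_lit 334) (nat_lit 0) (cs (nd (nat_lit 315) (nat_lit 0) (cs (lf (nat_lit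 17) (nat_lit 312)) (nd (nat_lit 314) (nat_lit 0) (cs (lf (nat_lit 12) (nat_lit 311)) (nd (nat_lit 290) (nat_lit 0) (cs (lf (nat_lit 23) (nat_lit 289)) (nd (nat_lit 268) (nat_lit 0) (cs (lf (nat_lit 29) (nat_lit 268)) (lf (nat_lit 24) (nat_lit 246)))))))))) (cs (nd (nat_lit 359) (nat_lit 0) (cs (lf (nat_lit 5) (nat_lit 334)) (nd (nat_lit 333) (nat_lit 0) (cs (lf (nat_lit 4) (nat_lit 333)) (nd (nat_lit 355) (nat_lit 0) (cs (lf (nat_lit 10) (nat_lit 333)) (lf (nat_lit 11) (nat_lit 332)))))))) (nd (nat_lit 359) (nat_lit 0) (cs (lf (nat_lit 5) (nat_lit 334)) (nd (nat_lit 356) (nat_lit 0) (cs (lf (nat_lit 11) (nat_lit 333)) (nd (nat_lit 378) (nat_lit 0) (cs (nd (nat_lit 379) (nat_lit 0) (cs (nd (nat_lit 357) (nat_lit 0) (cs (nd (nat_lit 377) (nat_lit 0) (cs (lf (nat_lit 41) (nat_lit 311)) (lf (nat_lit 7) (nat_lit 355)))) (lf (nat_lit 24) (nat_lit 290)))) (lf (nat_lit 29) (nat_lit 312)))) (lf (nat_lit 30) (nat_lit 312))))))))))))) (nd (nat_lit 337) (nat_lit 0) (cs (lf (nat_lit 18) (nat_lit 312)) (nd (nat_lit 311) (nat_lit 0) (cs (lf (nat_lit 0)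 (nat_lit 310)) (lf (nat_lit 21) (nat_lit 311)))))))))) q63162 (by decide +kernel)
def q63194 : Q := Q.p (nat_lit 0x1800002000008000000000000000000000000000000000000000000000000000000000000000000) (nat_lit 0x40000100000600000000000000000000020000000000000000000000000000000000000000000000000000000000000) (nat_lit 3)
theorem c63194 : QOK q63194 := cut [q63171] ⟨c63171, trivial⟩ (nd (nat_lit 334) (nat_lit 0) (cs (lf (nat_lit 24) (nat_lit 245)) (rf (nat_lit 0)))) q63194 (by decide +kernel)
def q63305 : Q := Q.p (nat_lit 0x4000010000040000300000000000000000000000000000000000000000000000000000000000000) (nat_lit 0x800003000008000000000080000000000000000000000000000000000000000000000000000000000000000000) (nat_lit 3)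
theorem c63305 : QOK q63305 := cut [q46883] ⟨c46883, trivial⟩ (nd (nat_lit 336) (nat_lit 0) (cs (lf (nat_lit 34) (nat_lit 248)) (rf (nat_lit 0)))) q63305 (by decide +kernel)
def q63321 : Q := Q.p (nat_lit 0x4000010000040000300000000000000000000000000000000000000000000000000000000000000) (nat_lit 0x200001800002000000000080000000000000000000000000000000000000000000000000000000000000000000) (nat_lit 3)
theorem c63321 : QOK q63321 := cut [q46908] ⟨c46908, trivial⟩ (nd (nat_lit 336) (nat_lit 0) (cs (lf (nat_lit 34) (nat_lit 248)) (rf (nat_lit 0)))) q63321 (by decide +kernel)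
def q63340 : Q := Q.p (nat_lit 0x6000018000040000100000000000000000000000000000000000000000000000000000000000000) (nat_lit 0x2000018000006000000000000000000000000000000000000000000000000000000000000000000000000) (nat_lit 3)
theorem c63340 : QOK q63340 := cut [q63339] ⟨c63339, trivial⟩ (nd (nat_lit 315) (nat_lit 0) (cs (lf (nat_lit 29) (nat_lit 248)) (rf (nat_lit 0)))) q63340 (by decide +kernel)
def q63348 : Q := Q.p (nat_lit 0x8000010000040000100000000000000000000000000000000000000000000000000000000000000) (nat_lit 0x800002000004000020000000000000000400000000000000000000000000000000000000000000000000000000) (nat_lit 3)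
theorem c63348 : QOK q63348 := cut [q63347] ⟨c63347, trivial⟩ (nd (nat_lit 293) (nat_lit 0) (cs (lf (nat_lit 24) (nat_lit 226)) (rf (nat_lit 0)))) q63348 (by decide +kernel)
def q63372 : Q := Q.p (nat_lit 0x180000c0000000000000000000000000000000000000000000000000000000000000000000) (nat_lit 0x26000300000000000000000000000000000000000000000000000000000000000000000000) (nat_lit 3)
theorem c63372 : QOK q63372 := cut [q63371] ⟨c63371, trivial⟩ (nd (nat_lit 290) (nat_lit 0) (cs (lf (nat_lit 12) (nat_lit 267)) (rf (nat_lit 0)))) q63372 (by decide +kernel)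
def q63452 : Q := Q.p (nat_lit 0x3c000000000000000000000000000000000000000000000000000000000000000000000000) (nat_lit 0x1c0000200001c000000000000000000000000000000000000000000000000000000000000000000) (nat_lit 4)
theorem c63452 : QOK q63452 := cut [q62086] ⟨c62086, trivial⟩ (nd (nat_lit 311) (nat_lit 0) (cs (lf (nat_lit 10) (nat_lit 289)) (nd (nat_lit 289) (nat_lit 0) (cs (lf (nat_lit 11) (nat_lit 288)) (rf (nat_lit 0)))))) q63452 (by decide +kernel)
def q63456 : Q := Q.p (nat_lit 0x10000040000100000200000000000000000000000000000000000000000000000000000000000000) (nat_lit 0xa0000380000e000000000000000080000000000000000000000000000000000000000000000000000000000000000000) (nat_lit 5)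
theorem c63456 : QOK q63456 := cut [q22964] ⟨c22964, trivial⟩ (nd (nat_lit 338) (nat_lit 0) (cs (lf (nat_lit 46) (nat_lit 249)) (nd (nat_lit 361) (nat_lit 0) (cs (lf (nat_lit 28) (nat_lit 272)) (nd (nat_lit 360) (nat_lit 0) (cs (rf (nat_lit 0)) (lf (nat_lit 29) (nat_lit 294)))))))) q63456 (by decide +kernel)
def q63481 : Q := Q.p (nat_lit 0x4000010000040000100000000000000000000000000000000000000000000000000000000000000) (nat_lit 0xa0000380000a000000000000000000000000000000000000000000000000000000000000000000000000000000) (nat_lit 4)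
theorem c63481 : QOK q63481 := cut [q57632] ⟨c57632, trivial⟩ (nd (nat_lit 337) (nat_lit 0) (cs (lf (nat_lit 28) (nat_lit 248)) (nd (nat_lit 335) (nat_lit 0) (cs (lf (nat_lit 40) (nat_lit 247)) (rf (nat_lit 0)))))) q63481 (by decide +kernel)
def q63487 : Q := Q.p (nat_lit 0x200000700000000000000000000000000000000000000000000000000000000000000) (nat_lit 0x80000400000880007000004000010000000000000000000000000000000000000000000000) (nat_lit 5)
theorem c63487 : QOK q63487 := cut [q62136] ⟨c62136, trivial⟩ (nd (nat_lit 251) (nat_lit 0) (cs (lf (nat_lit 5) (nat_lit 248)) (nd (nat_lit 229) (nat_lit 0) (cs (lf (nat_lit 17) (nat_lit 226)) (nd (nat_lit 228) (nat_lit 0) (cs (lf (nat_lit 12) (nat_lit 225)) (rf (nat_lit 0)))))))) q63487 (by decide +kernel)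
def q63489 : Q := Q.p (nat_lit 0x780000000000000000000000000000000000000000000000000000000000000) (nat_lit 0x800007700000000000000000000000000000000000000000000000000000000) (nat_lit 4)
theorem c63489 : QOK q63489 := cut [q4119] ⟨c4119, trivial⟩ (nd (nat_lit 229) (nat_lit 0) (cs (lf (nat_lit 16) (nat_lit 225)) (nd (nat_lit 251) (nat_lit 0) (cs (rf (nat_lit 0)) (lf (nat_lit 17) (nat_lit 226)))))) q63489 (by decide +kernel)
def q63511 : Q := Q.p (nat_lit 0x100000780001000000000000000000000000000000000000000000000000000000000) (nat_lit 0x20000080000040000000004000010000000000000000000000000000000000000000000000) (nat_lit 3)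
theorem c63511 : QOK q63511 := cut [q52052] ⟨c52052, trivial⟩ (nd (nat_lit 271) (nat_lit 0) (cs (lf (nat_lit 0) (nat_lit 246)) (rf (nat_lit 0)))) q63511 (by decide +kernel)
def q63518 : Q := Q.p (nat_lit 0x20000700000000000000000000000000000000000000000000000000000000000000) (nat_lit 0xd8000800000000000000000000000000000000000000000000000000000000000000) (nat_lit 3)
theorem c63518 : QOK q63518 := cut [q44577] ⟨c44577, trivial⟩ (nd (nat_lit 270) (nat_lit 0) (cs (lf (nat_lit 6) (nat_lit 247)) (rf (nat_lit 0)))) q63518 (by decide +kernel)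
def q63532 : Q := Q.p (nat_lit 0x780000200000800000000000000000000000000000000000000000000000000) (nat_lit 0x330000000000000001400007000014000000000000000000000000000000000000000) (nat_lit 6)
theorem c63532 : QOK q63532 := cut [q51538] ⟨c51538, trivial⟩ (nd (nat_lit 269) (nat_lit 0) (cs (lf (nat_lit 11) (nat_lit 246)) (nd (nat_lit 272) (nat_lit 0) (cs (lf (nat_lit 5) (nat_lit 247)) (rf (nat_lit 0)))))) q63532 (by decide +kernel)
def q63540 : Q := Q.p (nat_lit 0x10000040000700000400000000000000000000000000000000000000000000000000000000) (nat_lit 0xb00002800000000000000000000000000000000000000000000000000) (nat_lit 3)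
theorem c63540 : QOK q63540 := cut [q46953] ⟨c46953, trivial⟩ (nd (nat_lit 227) (nat_lit 0) (cs (lf (nat_lit 35) (nat_lit 204)) (rf (nat_lit 0)))) q63540 (by decide +kernel)
def q63547 : Q := Q.p (nat_lit 0x780000000000000000000000000000000000000000000000000000000000000) (nat_lit 0x40003b80000000000000000000000000000000000000000000000000000000) (nat_lit 4)
theorem c63547 : QOK q63547 := cut [q26239] ⟨c26239, trivial⟩ (nd (nat_lit 224) (nat_lit 0) (cs (lf (nat_lit 22) (nat_lit 224)) (nd (nat_lit 228) (nat_lit 0) (cs (lf (nat_lit 17) (nat_lit 225)) (rf (nat_lit 0)))))) q63547 (by decide +kernel)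
def q63564 : Q := Q.p (nat_lit 0x700000c0000400001000000000000000000000000000000000000000000000000000000000) (nat_lit 0x60000180000600000800000000000000000000000000000000000000000000000000000000000000) (nat_lit 4)
theorem c63564 : QOK q63564 := cut [q63563] ⟨c63563, trivial⟩ (nd (nat_lit 295) (nat_lit 0) (cs (lf (nat_lit 18) (nat_lit 270)) (rf (nat_lit 0)))) q63564 (by decide +kernel)
def q63593 : Q := Q.p (nat_lit 0x40000700000000000000000000000000000000000000000000000000000000000000) (nat_lit 0x38000880000000000000000000000000000000000000000000000000000000000000) (nat_lit 3)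
theorem c63593 : QOK q63593 := cut [q40883] ⟨c40883, trivial⟩ (nd (nat_lit 269) (nat_lit 0) (cs (lf (nat_lit 6) (nat_lit 247)) (rf (nat_lit 0)))) q63593 (by decide +kernel)
def q63629 : Q := Q.p (nat_lit 0x80000f00002000000000000000000000000000000000000000000000000000000000) (nat_lit 0x80000600000080001000004000010000000000000000000000000000000000000000000000) (nat_lit 4)
theorem c63629 : QOK q63629 := cut [q26233] ⟨c26233, trivial⟩ (nd (nat_lit 228) (nat_lit 0) (cs (lf (nat_lit 12) (nat_lit 225)) (nd (nat_lit 206) (nat_lit 0) (cs (lf (nat_lit 36) (nat_lit 183)) (rf (nat_lit 0)))))) q63629 (by decide +kernel)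
def q63685 : Q := Q.p (nat_lit 0x700000400000000000000000000000000000000000000000000000000000000) (nat_lit 0x880000380000000000000000000000000000000000000000000000000000000) (nat_lit 3)
theorem c63685 : QOK q63685 := cut [q61604] ⟨c61604, trivial⟩ (nd (nat_lit 225) (nat_lit 0) (cs (lf (nat_lit 18) (nat_lit 225)) (rf (nat_lit 0)))) q63685 (by decide +kernel)
def q63692 : Q := Q.p (nat_lit 0x600001000004000000000000000000000000000000000000000000000000000) (nat_lit 0x8000020000080000000000800000000010000000000000000000000000000000000000000000000) (nat_lit 3)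
theorem c63692 : QOK q63692 := cut [q61275] ⟨c61275, trivial⟩ (nd (nat_lit 271) (nat_lit 0) (cs (lf (nat_lit 36) (nat_lit 183)) (rf (nat_lit 0)))) q63692 (by decide +kernel)
def q63781 : Q := Q.p (nat_lit 0x780000000000000000000000000000000000000000000000000000000000000) (nat_lit 0x770000800000000000000000000000000000000000000000000000000000000000000) (nat_lit 4)
theorem c63781 : QOK q63781 := cut [q63779] ⟨c63779, trivial⟩ (nd (nat_lit 273) (nat_lit 0) (cs (lf (nat_lit 4) (nat_lit 247)) (nd (nat_lit 269) (nat_lit 0) (cs (lf (nat_lit 11) (nat_lit 246)) (rf (nat_lit 0)))))) q63781 (by decide +kernel)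
def q63800 : Q := Q.p (nat_lit 0x80000300000400000000000000000000000000000000000000000000000000000000) (nat_lit 0x8000020000000000000000800001000004000000000000000000000000000000000000000000000) (nat_lit 3)
theorem c63800 : QOK q63800 := cut [q63799] ⟨c63799, trivial⟩ (nd (nat_lit 204) (nat_lit 0) (cs (lf (nat_lit 24) (nat_lit 182)) (rf (nat_lit 0)))) q63800 (by decide +kernel)
def q63808 : Q := Q.p (nat_lit 0x80000700000800002000000000000000000000000000000000000000000000000000) (nat_lit 0x400003000000c0000000000000000000000000000000000000000000000000000000000000) (nat_lit 3)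
theorem c63808 : QOK q63808 := cut [q40967] ⟨c40967, trivial⟩ (nd (nat_lit 272) (nat_lit 0) (cs (lf (nat_lit 29) (nat_lit 205)) (rf (nat_lit 0)))) q63808 (by decide +kernel)
def q63832 : Q := Q.p (nat_lit 0x80000300000400000000000000000000000000000000000000000000000000000000) (nat_lit 0x8000020000040000000000000001000004000000000000000000000000000000000000000000000) (nat_lit 3)
theorem c63832 : QOK q63832 := cut [q54917] ⟨c54917, trivial⟩ (nd (nat_lit 293) (nat_lit 0) (cs (lf (nat_lit 42) (nat_lit 226)) (rf (nat_lit 0)))) q63832 (by decide +kernel)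
def q63835 : Q := Q.p (nat_lit 0x10000000000180000200000000000000000000000000000000000000000000000000000000) (nat_lit 0x4000000000040000000000400000800002000000000000000000000000000000000000000000000) (nat_lit 3)
theorem c63835 : QOK q63835 := cut [q17210] ⟨c17210, trivial⟩ (nd (nat_lit 270) (nat_lit 0) (cs (lf (nat_lit 42) (nat_lit 225)) (rf (nat_lit 0)))) q63835 (by decide +kernel)
def q63836 : Q := Q.p (nat_lit 0x10000020000180000200000000000000000000000000000000000000000000000000000000) (nat_lit 0x6000008000000000000000400001000000000000000000000000000000000000000000000000000) (nat_lit 3)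
theorem c63836 : QOK q63836 := cut [q59099] ⟨c59099, trivial⟩ (nd (nat_lit 291) (nat_lit 0) (cs (lf (nat_lit 29) (nat_lit 225)) (rf (nat_lit 0)))) q63836 (by decide +kernel)
def q63847 : Q := Q.p (nat_lit 0x80000200000600001000000000000000000000000000000000000000000000000000000000) (nat_lit 0x180000800000000004000010000000000000000000000000000000000000000000000) (nat_lit 3)
theorem c63847 : QOK q63847 := cut [q56464] ⟨c56464, trivial⟩ (nd (nat_lit 206) (nat_lit 0) (cs (lf (nat_lit 27) (nat_lit 206)) (rf (nat_lit 0)))) q63847 (by decide +kernel)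
def q63852 : Q := Q.p (nat_lit 0x600007000000000010000000000000000000000000000000000000000000000) (nat_lit 0x100000800003000008000060000000000000000000000000000000000000000) (nat_lit 4)
theorem c63852 : QOK q63852 := cut [q63604] ⟨c63604, trivial⟩ (nd (nat_lit 227) (nat_lit 0) (cs (lf (nat_lit 11) (nat_lit 226)) (nd (nat_lit 205) (nat_lit 0) (cs (lf (nat_lit 23) (nat_lit 204)) (rf (nat_lit 0)))))) q63852 (by decide +kernel)
def q63922 : Q := Q.p (nat_lit 0x20000000000600001800010000000000000000000000000000000000000000000000000000) (nat_lit 0x80000900006700021800004000010000000000000000000000000000000000000000) (nat_lit 6)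
theorem c63922 : QOK q63922 := cut [q56479, q62698] ⟨c56479, c62698, trivial⟩ (nd (nat_lit 226) (nat_lit 0) (cs (rf (nat_lit 0)) (nd (nat_lit 204) (nat_lit 0) (cs (lf (nat_lit 43) (nat_lit 204)) (nd (nat_lit 160) (nat_lit 0) (cs (lf (nat_lit 25) (nat_lit 160)) (nd (nat_lit 229) (nat_lit 0) (cs (lf (nat_lit 23) (nat_lit 203)) (rf (nat_lit 1)))))))))) q63922 (by decide +kernel)
def q63924 : Q := Q.p (nat_lit 0x80000600001800002000000000000000000000000000000000000000000000000000) (nat_lit 0x100000c000030000000000000000000000000000000000000000) (nat_lit 3)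
theorem c63924 : QOK q63924 := cut [q63923] ⟨c63923, trivial⟩ (nd (nat_lit 182) (nat_lit 0) (cs (lf (nat_lit 46) (nat_lit 182)) (rf (nat_lit 0)))) q63924 (by decide +kernel)
def q63948 : Q := Q.p (nat_lit 0x60000000000600001000000000000000000000000000000000000000000000000000000000) (nat_lit 0x18000000000100000000000800002000000000000000000000000000000000000000000000000000) (nat_lit 3)
theorem c63948 : QOK q63948 := cut [q17589] ⟨c17589, trivial⟩ (nd (nat_lit 272) (nat_lit 0) (cs (lf (nat_lit 41) (nat_lit 227)) (rf (nat_lit 0)))) q63948 (by decide +kernel)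
def q63956 : Q := Q.p (nat_lit 0x20000080000600000800000000000000000000000000000000000000000000000000000000) (nat_lit 0x140000d0000070000000000000002000000000000000000000000000000000000000000000000000) (nat_lit 5)
theorem c63956 : QOK q63956 := cut [q61518] ⟨c61518, trivial⟩ (nd (nat_lit 294) (nat_lit 0) (cs (lf (nat_lit 29) (nat_lit 227)) (nd (nat_lit 292) (nat_lit 0) (cs (lf (nat_lit 41) (nat_lit 226)) (nd (nat_lit 270) (nat_lit 0) (cs (lf (nat_lit 36) (nat_lit 204)) (rf (nat_lit 0)))))))) q63956 (by decide +kernel)
def q63963 : Q := Q.p (nat_lit 0x800002600005800013000000000000000000000000000000000000000000000000000) (nat_lit 0x8000020000078000160000000000000000000000000000000000000000) (nat_lit 5)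
theorem c63963 : QOK q63963 := cut [q16038] ⟨c16038, trivial⟩ (nd (nat_lit 183) (nat_lit 0) (cs (lf (nat_lit 24) (nat_lit 161)) (nd (nat_lit 184) (nat_lit 0) (cs (lf (nat_lit 35) (nat_lit 161)) (nd (nat_lit 186) (nat_lit 0) (cs (rf (nat_lit 0)) (lf (nat_lit 7) (nat_lit 182)))))))) q63963 (by decide +kernel)
def q63972 : Q := Q.p (nat_lit 0x300000600001000000000000000000000000000000000000000000000000000000000) (nat_lit 0xa0000080000000000000004000010000000000000000000000000000000000000000000000) (nat_lit 3)
theorem c63972 : QOK q63972 := cut [q45099] ⟨c45099, trivial⟩ (nd (nat_lit 206) (nat_lit 0) (cs (lf (nat_lit 29) (nat_lit 206)) (rf (nat_lit 0)))) q63972 (by decide +kernel)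
def q63981 : Q := Q.p (nat_lit 0x40000100000600001000000000000000000000000000000000000000000000000000000000) (nat_lit 0xc0000380000a0000080000000000000004000000000000000000000000000000000000000000000000000) (nat_lit 5)
theorem c63981 : QOK q63981 := cut [q17422] ⟨c17422, trivial⟩ (nd (nat_lit 293) (nat_lit 0) (cs (lf (nat_lit 41) (nat_lit 227)) (nd (nat_lit 271) (nat_lit 0) (cs (lf (nat_lit 36) (nat_lit 205)) (nd (nat_lit 316) (nat_lit 0) (cs (rf (nat_lit 0)) (lf (nat_lit 42) (nat_lit 249)))))))) q63981 (by decide +kernel)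
def q63982 : Q := Q.p (nat_lit 0x100000600001000002000000000000000000000000000000000000000000000000000) (nat_lit 0x20000080000000000000004000018000000000000000000000000000000000000000000000) (nat_lit 3)
theorem c63982 : QOK q63982 := cut [q45099] ⟨c45099, trivial⟩ (nd (nat_lit 206) (nat_lit 0) (cs (lf (nat_lit 47) (nat_lit 183)) (rf (nat_lit 0)))) q63982 (by decide +kernel)
def q63996 : Q := Q.p (nat_lit 0x40000300000400001000000000000000000000000000000000000000000000000000000000) (nat_lit 0x6000018000020000000000800002000000000000000000000000000000000000000000000000000000000) (nat_lit 4)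
theorem c63996 : QOK q63996 := cut [q12962] ⟨c12962, trivial⟩ (nd (nat_lit 315) (nat_lit 0) (cs (lf (nat_lit 40) (nat_lit 227)) (nd (nat_lit 316) (nat_lit 0) (cs (lf (nat_lit 41) (nat_lit 249)) (rf (nat_lit 0)))))) q63996 (by decide +kernel)
def q64020 : Q := Q.p (nat_lit 0x40000300000400001000000000000000000000000000000000000000000000000000) (nat_lit 0x4000010000000000000000800002800006000018000000000000000000000000000000000000000) (nat_lit 5)
theorem c64020 : QOK q64020 := cut [q62563] ⟨c62563, trivial⟩ (nd (nat_lit 181) (nat_lit 0) (cs (lf (nat_lit 46) (nat_lit 181)) (nd (nat_lit 182) (nat_lit 0) (cs (lf (nat_lit 47) (nat_lit 159)) (nd (nat_lit 227) (nat_lit 0) (cs (lf (nat_lit 24) (nat_lit 160)) (rf (nat_lit 0)))))))) q64020 (by decide +kernel)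
def q64023 : Q := Q.p (nat_lit 0x40000700000400000800000000000000000000000000000000000000000000000000) (nat_lit 0x10000000000000000b80000000000000000000000000000000000000000000000000000000) (nat_lit 3)
theorem c64023 : QOK q64023 := cut [q60699] ⟨c60699, trivial⟩ (nd (nat_lit 225) (nat_lit 0) (cs (lf (nat_lit 42) (nat_lit 203)) (rf (nat_lit 0)))) q64023 (by decide +kernel)
def q64136 : Q := Q.p (nat_lit 0xc0000300000400001000000000000000000000000000000000000000000000000000) (nat_lit 0x180000600001800000000000000020000280000a000000000000000000000000000000000000000000000) (nat_lit 6)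
theorem c64136 : QOK q64136 := cut [q26208] ⟨c26208, trivial⟩ (nd (nat_lit 183) (nat_lit 0) (cs (lf (nat_lit 34) (nat_lit 182)) (nd (nat_lit 203) (nat_lit 0) (cs (lf (nat_lit 47) (nat_lit 181)) (nd (nat_lit 292) (nat_lit 0) (cs (lf (nat_lit 46) (nat_lit 203)) (rf (nat_lit 0)))))))) q64136 (by decide +kernel)
def q64143 : Q := Q.p (nat_lit 0x40000100000e00001000000000000000000000000000000000000000000000000000) (nat_lit 0x1000000e00002000000000000000000000000000000000000000000000) (nat_lit 3)
theorem c64143 : QOK q64143 := cut [q64142] ⟨c64142, trivial⟩ (nd (nat_lit 203) (nat_lit 0) (cs (lf (nat_lit 47) (nat_lit 181)) (rf (nat_lit 0)))) q64143 (by decide +kernel)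
def q64165 : Q := Q.p (nat_lit 0x700001000000000000000000000000000000000000000000000000000000000) (nat_lit 0x3800000c0002380000000000000000000000000000000000000000000000000000000) (nat_lit 5)
theorem c64165 : QOK q64165 := cut [q57393] ⟨c57393, trivial⟩ (nd (nat_lit 247) (nat_lit 0) (cs (lf (nat_lit 17) (nat_lit 225)) (rf (nat_lit 0)))) q64165 (by decide +kernel)
def q64188 : Q := Q.p (nat_lit 0x60000900000400000000000000000000000000000000000000000000000000000000000000) (nat_lit 0x280001800004c0000000001000004000000000000000000000000000000000000000000000000000) (nat_lit 5)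
theorem c64188 : QOK q64188 := cut [q64186] ⟨c64186, trivial⟩ (nd (nat_lit 228) (nat_lit 0) (cs (lf (nat_lit 41) (nat_lit 227)) (nd (nat_lit 295) (nat_lit 0) (cs (lf (nat_lit 29) (nat_lit 228)) (rf (nat_lit 0)))))) q64188 (by decide +kernel)
def q64210 : Q := Q.p (nat_lit 0x20000180000300000e00000000000000000000000000000000000000000000000000000000) (nat_lit 0x600001c000040000000000000000800000000000000000000000000000000000000000000000000) (nat_lit 4)
theorem c64210 : QOK q64210 := cut [q64208] ⟨c64208, trivial⟩ (nd (nat_lit 292) (nat_lit 0) (cs (lf (nat_lit 41) (nat_lit 226)) (nd (nat_lit 291) (nat_lit 0) (cs (lf (nat_lit 12) (nat_lit 268)) (rf (nat_lit 0)))))) q64210 (by decide +kernel)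
def q64225 : Q := Q.p (nat_lit 0x60000380000600000000000000000000000000000000000000000000000000000000000000) (nat_lit 0x300000e000198000000000000000000000000000000000000000000000000000000000000000000000000) (nat_lit 5)
theorem c64225 : QOK q64225 := cut [q45259] ⟨c45259, trivial⟩ (nd (nat_lit 292) (nat_lit 0) (cs (lf (nat_lit 12) (nat_lit 269)) (nd (nat_lit 315) (nat_lit 0) (cs (lf (nat_lit 30) (nat_lit 249)) (nd (nat_lit 314) (nat_lit 0) (cs (lf (nat_lit 41) (nat_lit 248)) (rf (nat_lit 0)))))))) q64225 (by decide +kernel)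
def q64233 : Q := Q.p (nat_lit 0x8000040000300000400000000000000000000000000000000000000000000000000000000000000) (nat_lit 0x200000a0000000000000001000004000000000000000000000000000000000000000000000000000) (nat_lit 3)
theorem c64233 : QOK q64233 := cut [q14448] ⟨c14448, trivial⟩ (nd (nat_lit 228) (nat_lit 0) (cs (lf (nat_lit 40) (nat_lit 227)) (rf (nat_lit 0)))) q64233 (by decide +kernel)
def q64263 : Q := Q.p (nat_lit 0xe0000800000400001000010000000000000000000000000000000000000000000000000000) (nat_lit 0x30000100001600000800006000000000000000000000000000000000000000000000000000000000) (nat_lit 5)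
theorem c64263 : QOK q64263 := cut [q61766] ⟨c61766, trivial⟩ (nd (nat_lit 274) (nat_lit 0) (cs (lf (nat_lit 15) (nat_lit 271)) (nd (nat_lit 273) (nat_lit 0) (cs (lf (nat_lit 6) (nat_lit 272)) (nd (nat_lit 251) (nat_lit 0) (cs (lf (nat_lit 42) (nat_lit 228)) (rf (nat_lit 0)))))))) q64263 (by decide +kernel)
def q64271 : Q := Q.p (nat_lit 0xe0000080000600001800000000000000000000000000000000000000000000000000000000) (nat_lit 0x64000010000600000800000000000000000000000000000000000000000000000000000000000000) (nat_lit 4)
theorem c64271 : QOK q64271 := cut [q63563] ⟨c63563, trivial⟩ (nd (nat_lit 292) (nat_lit 0) (cs (lf (nat_lit 41) (nat_lit 226)) (rf (nat_lit 0)))) q64271 (by decide +kernel)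
def q64284 : Q := Q.p (nat_lit 0x40000e0000000000000000000000000000000000000000000000000000000000000000000000000) (nat_lit 0xea000110000000000000000000000000000000000000000000000000000000000000000000000000) (nat_lit 4)
theorem c64284 : QOK q64284 := cut [q60542] ⟨c60542, trivial⟩ (nd (nat_lit 292) (nat_lit 0) (cs (lf (nat_lit 11) (nat_lit 291)) (nd (nat_lit 296) (nat_lit 0) (cs (lf (nat_lit 10) (nat_lit 292)) (rf (nat_lit 0)))))) q64284 (by decide +kernel)
def q64294 : Q := Q.p (nat_lit 0x100000400000e0000000000000000000000000000000000000000000000000000000000000000000000000) (nat_lit 0x1000004000008000020000010000200000800000000000000000000000000000000000000000000000000000000000000) (nat_lit 4)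
theorem c64294 : QOK q64294 := cut [q25147] ⟨c25147, trivial⟩ (nd (nat_lit 317) (nat_lit 0) (cs (lf (nat_lit 0) (nat_lit 292)) (nd (nat_lit 273) (nat_lit 0) (cs (lf (nat_lit 24) (nat_lit 251)) (rf (nat_lit 0)))))) q64294 (by decide +kernel)
def q64296 : Q := Q.p (nat_lit 0x400000e0000000000000000000000000000000000000000000000000000000000000000000000000) (nat_lit 0x1b0000010000000000000000000000000000000000000000000000000000000000000000000000000) (nat_lit 3)
theorem c64296 : QOK q64296 := cut [q43297] ⟨c43297, trivial⟩ (nd (nat_lit 317) (nat_lit 0) (cs (lf (nat_lit 0) (nat_lit 292)) (rf (nat_lit 0)))) q64296 (by decide +kernel)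
def q64302 : Q := Q.p (nat_lit 0x40000e0000000000000000000000000000000000000000000000000000000000000000000000000) (nat_lit 0x1b000100000000000000000000000000000000000000000000000000000000000000000000000000) (nat_lit 3)
theorem c64302 : QOK q64302 := cut [q61052] ⟨c61052, trivial⟩ (nd (nat_lit 315) (nat_lit 0) (cs (lf (nat_lit 6) (nat_lit 292)) (rf (nat_lit 0)))) q64302 (by decide +kernel)
def q64310 : Q := Q.p (nat_lit 0x600001800002000000000000000000000000000000000000000000000000000) (nat_lit 0x8000000000000000180007c000070000000000000000000000000000000000000000) (nat_lit 6)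
theorem c64310 : QOK q64310 := cut [q57188] ⟨c57188, trivial⟩ (nd (nat_lit 183) (nat_lit 0) (cs (lf (nat_lit 24) (nat_lit 161)) (nd (nat_lit 184) (nat_lit 0) (cs (lf (nat_lit 35) (nat_lit 161)) (nd (nat_lit 182) (nat_lit 0) (cs (lf (nat_lit 47) (nat_lit 160)) (nd (nat_lit 204) (nat_lit 0) (cs (lf (nat_lit 42) (nat_lit 182)) (rf (nat_lit 0)))))))))) q64310 (by decide +kernel)
def q64322 : Q := Q.p (nat_lit 0x80000200000800002000000000000000000000000000000000000000000000) (nat_lit 0x10000040000100000000004000018000040000000000000000000000000000000000) (nat_lit 4)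
theorem c64322 : QOK q64322 := cut [q38317] ⟨c38317, trivial⟩ (nd (nat_lit 160) (nat_lit 0) (cs (lf (nat_lit 34) (nat_lit 159)) (nd (nat_lit 159) (nat_lit 0) (cs (lf (nat_lit 35) (nat_lit 137)) (rf (nat_lit 0)))))) q64322 (by decide +kernel)
def q64332 : Q := Q.p (nat_lit 0x900000600001e00000000000000000000000000000000000000000000000000000000) (nat_lit 0x6000001c0000000000c00000000000000000000000000000000000000000000000000) (nat_lit 4)
theorem c64332 : QOK q64332 := cut [q64331] ⟨c64331, trivial⟩ (nd (nat_lit 202) (nat_lit 0) (cs (lf (nat_lit 22) (nat_lit 202)) (rf (nat_lit 0)))) q64332 (by decide +kernel)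
def q64492 : Q := Q.p (nat_lit 0x1e0000100000000000000000000000000000000000000000000000000000000000000) (nat_lit 0x80000200001c000000000000000400001000000000000000000000000000000000000000000000000000) (nat_lit 4)
theorem c64492 : QOK q64492 := cut [q64491] ⟨c64491, trivial⟩ (nd (nat_lit 291) (nat_lit 0) (cs (lf (nat_lit 11) (nat_lit 268)) (rf (nat_lit 0)))) q64492 (by decide +kernel)
def q64610 : Q := Q.p (nat_lit 0x400001e00000000000000000000000000000000000000000000000000) (nat_lit 0x200000100000e00000000000000000000000000000000000000000000) (nat_lit 3)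
theorem c64610 : QOK q64610 := cut [q26986] ⟨c26986, trivial⟩ (nd (nat_lit 200) (nat_lit 0) (cs (rf (nat_lit 0)) (lf (nat_lit 4) (nat_lit 200)))) q64610 (by decide +kernel)
def q64654 : Q := Q.p (nat_lit 0xe0000800000600000000010000000000000000000000000000000000000000000000000000) (nat_lit 0x10000100001600000900006000000000000000000000000000000000000000000000000000000000) (nat_lit 5)
theorem c64654 : QOK q64654 := cut [q61766] ⟨c61766, trivial⟩ (nd (nat_lit 274) (nat_lit 0) (cs (lf (nat_lit 15) (nat_lit 271)) (nd (nat_lit 273) (nat_lit 0) (cs (lf (nat_lit 6) (nat_lit 272)) (nd (nat_lit 251) (nat_lit 0) (cs (lf (nat_lit 0) (nat_lit 248)) (rf (nat_lit 0)))))))) q64654 (by decide +kernel)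
def q64672 : Q := Q.p (nat_lit 0x4000030000000000200000000000000000000000000000000000000000000000000000000000000) (nat_lit 0x400001000008000000000080000000000800000000000000000000000000000000000000000000000000000000) (nat_lit 3)
theorem c64672 : QOK q64672 := cut [q62073] ⟨c62073, trivial⟩ (nd (nat_lit 271) (nat_lit 0) (cs (lf (nat_lit 36) (nat_lit 226)) (rf (nat_lit 0)))) q64672 (by decide +kernel)
def q64680 : Q := Q.p (nat_lit 0x40000300000800000000000000000000000000000000000000000000000000000000) (nat_lit 0x4000010000080000000000000002000008000000000000000000000000000000000000000000000) (nat_lit 3)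
theorem c64680 : QOK q64680 := cut [q57625] ⟨c57625, trivial⟩ (nd (nat_lit 292) (nat_lit 0) (cs (lf (nat_lit 30) (nat_lit 226)) (rf (nat_lit 0)))) q64680 (by decide +kernel)
def q64681 : Q := Q.p (nat_lit 0x40000200000c00002000000000000000000000000000000000000000000000000000000000) (nat_lit 0x30000080000000000000001000004000000000000000000000000000000000000000000000000000) (nat_lit 3)
theorem c64681 : QOK q64681 := cut [q62938] ⟨c62938, trivial⟩ (nd (nat_lit 295) (nat_lit 0) (cs (lf (nat_lit 41) (nat_lit 228)) (rf (nat_lit 0)))) q64681 (by decide +kernel)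
def q64735 : Q := Q.p (nat_lit 0x60000180000600000000000000000000000000000000000000000000000000000000000000) (nat_lit 0x400009c000070000800000800002000000000000000000000000000000000000000000000000000) (nat_lit 6)
theorem c64735 : QOK q64735 := cut [q61681] ⟨c61681, trivial⟩ (nd (nat_lit 227) (nat_lit 0) (cs (lf (nat_lit 24) (nat_lit 205)) (rf (nat_lit 0)))) q64735 (by decide +kernel)
def q64748 : Q := Q.p (nat_lit 0xb00002400001000012000000000000000000000000000000000000000000000000000) (nat_lit 0x80000e0000258000f8000180000000000000000000000000000000000000000) (nat_lit 8)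
theorem c64748 : QOK q64748 := cut [q56473] ⟨c56473, trivial⟩ (nd (nat_lit 206) (nat_lit 0) (cs (lf (nat_lit 47) (nat_lit 183)) (rf (nat_lit 0)))) q64748 (by decide +kernel)
def q64772 : Q := Q.p (nat_lit 0xf0000000000000000000000000000000000000000000000000000) (nat_lit 0x100000ee0000000000000000000000000000000000000000000000) (nat_lit 4)
theorem c64772 : QOK q64772 := cut [q6043] ⟨c6043, trivial⟩ (nd (nat_lit 190) (nat_lit 0) (cs (lf (nat_lit 16) (nat_lit 186)) (nd (nat_lit 186) (nat_lit 0) (cs (lf (nat_lit 23) (nat_lit 185)) (rf (nat_lit 0)))))) q64772 (by decide +kernel)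
def q64789 : Q := Q.p (nat_lit 0x4000010000040000100000000000000000000000000000000000000000000000000000000000000) (nat_lit 0xa0000380000a000000000000000000000000000000000000000000000000000000000000000000000000000000) (nat_lit 4)
theorem c64789 : QOK q64789 := cut [q46883] ⟨c46883, trivial⟩ (nd (nat_lit 335) (nat_lit 0) (cs (lf (nat_lit 40) (nat_lit 247)) (nd (nat_lit 336) (nat_lit 0) (cs (lf (nat_lit 41) (nat_lit 269)) (rf (nat_lit 0)))))) q64789 (by decide +kernel)
def q64828 : Q := Q.p (nat_lit 0x78000080000000000000000000000000000000000000000000000000000000000000000000) (nat_lit 0x3800186000060000000000000000000000000000000000000000000000000000000000000000000) (nat_lit 5)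
theorem c64828 : QOK q64828 := cut [q64825] ⟨c64825, trivial⟩ (nd (nat_lit 312) (nat_lit 0) (cs (lf (nat_lit 10) (nat_lit 290)) (nd (nat_lit 290) (nat_lit 0) (cs (lf (nat_lit 11) (nat_lit 289)) (nd (nat_lit 270) (nat_lit 0) (cs (lf (nat_lit 12) (nat_lit 267)) (rf (nat_lit 0)))))))) q64828 (by decide +kernel)
def q64831 : Q := Q.p (nat_lit 0x78000080000000000000000000000000000000000000000000000000000000000000000000) (nat_lit 0x1c00006000078000000000000000000000000000000000000000000000000000000000000000000) (nat_lit 5)
theorem c64831 : QOK q64831 := cut [q63460] ⟨c63460, trivial⟩ (nd (nat_lit 268) (nat_lit 0) (cs (lf (nat_lit 22) (nat_lit 268)) (nd (nat_lit 290) (nat_lit 0) (cs (lf (nat_lit 23) (nat_lit 267)) (nd (nat_lit 289) (nat_lit 0) (cs (lf (nat_lit 16) (nat_lit 267)) (rf (nat_lit 0)))))))) q64831 (by decide +kernel)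
def q64846 : Q := Q.p (nat_lit 0x10000040000100000600001000000000000000000000000000000000000000000000000000000000) (nat_lit 0x4000000000020000080000000000000004000010000000000000000000000000000000000000000000000) (nat_lit 3)
theorem c64846 : QOK q64846 := cut [q52052] ⟨c52052, trivial⟩ (nd (nat_lit 271) (nat_lit 0) (cs (lf (nat_lit 42) (nat_lit 249)) (rf (nat_lit 0)))) q64846 (by decide +kernel)
def q64871 : Q := Q.p (nat_lit 0x60000300000300000800000000000000000000000000000000000000000000000000000000) (nat_lit 0x40000180000c0000000000000000000000000000000000000000000000000000000000000000000) (nat_lit 3)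
theorem c64871 : QOK q64871 := cut [q48593] ⟨c48593, trivial⟩ (nd (nat_lit 292) (nat_lit 0) (cs (lf (nat_lit 12) (nat_lit 269)) (rf (nat_lit 0)))) q64871 (by decide +kernel)
def q64877 : Q := Q.p (nat_lit 0x10000040000300000600000000000000000000000000000000000000000000000000000000000000) (nat_lit 0xa000068000038000000000180001000000000000000000000000000000000000000000000000000000000) (nat_lit 6)
theorem c64877 : QOK q64877 := cut [q56492] ⟨c56492, trivial⟩ (nd (nat_lit 247) (nat_lit 0) (cs (lf (nat_lit 1) (nat_lit 247)) (nd (nat_lit 315) (nat_lit 0) (cs (lf (nat_lit 41) (nat_lit 249)) (nd (nat_lit 293) (nat_lit 0) (cs (lf (nat_lit 36) (nat_lit 227)) (rf (nat_lit 0)))))))) q64877 (by decide +kernel)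
def q64934 : Q := Q.p (nat_lit 0x38000040000100000400000000000000000000000000000000000000000000000000000000000000) (nat_lit 0x6000180000000000000001000000000000000000000000000000000000000000000000000000000) (nat_lit 3)
theorem c64934 : QOK q64934 := cut [q23853] ⟨c23853, trivial⟩ (nd (nat_lit 295) (nat_lit 0) (cs (lf (nat_lit 24) (nat_lit 228)) (rf (nat_lit 0)))) q64934 (by decide +kernel)
def q65174 : Q := Q.p (nat_lit 0x80000340000600000000000000000000000000000000000000000000000000000000000000) (nat_lit 0x1400000b0000000000000000000000000000000000000000000000000000000000000000000) (nat_lit 3)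
theorem c65174 : QOK q65174 := cut [q65173] ⟨c65173, trivial⟩ (nd (nat_lit 271) (nat_lit 0) (cs (lf (nat_lit 5) (nat_lit 270)) (rf (nat_lit 0)))) q65174 (by decide +kernel)
def q65299 : Q := Q.p (nat_lit 0x20000000000600001000000000000000000000000000000000000000000000000000000000) (nat_lit 0x8000000000080000000000800004000010000000000000000000000000000000000000000000000) (nat_lit 3)
theorem c65299 : QOK q65299 := cut [q58512] ⟨c58512, trivial⟩ (nd (nat_lit 271) (nat_lit 0) (cs (lf (nat_lit 30) (nat_lit 227)) (rf (nat_lit 0)))) q65299 (by decide +kernel)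
def q65304 : Q := Q.p (nat_lit 0x30000040000700000800000000000000000000000000000000000000000000000000000000) (nat_lit 0x8000000000000000000000700000800000000000000000000000000000000000000000000000000) (nat_lit 3)
theorem c65304 : QOK q65304 := cut [q46953] ⟨c46953, trivial⟩ (nd (nat_lit 226) (nat_lit 0) (cs (lf (nat_lit 29) (nat_lit 226)) (rf (nat_lit 0)))) q65304 (by decide +kernel)
def q65422 : Q := Q.p (nat_lit 0x9e0000600000000000000000000000000000000000000000000000000000000000000) (nat_lit 0x1c0000600000000000000000000000000000000000000000000000000000000000000000000) (nat_lit 3)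
theorem c65422 : QOK q65422 := cut [q11939] ⟨c11939, trivial⟩ (nd (nat_lit 273) (nat_lit 0) (cs (rf (nat_lit 0)) (lf (nat_lit 19) (nat_lit 249)))) q65422 (by decide +kernel)
def q65437 : Q := Q.p (nat_lit 0x9c0000600000000000000000000000000000000000000000000000000000000000000) (nat_lit 0x6300001c0000000000000000000000000000000000000000000000000000000000000) (nat_lit 4)
theorem c65437 : QOK q65437 := cut [q65436] ⟨c65436, trivial⟩ (nd (nat_lit 269) (nat_lit 0) (cs (lf (nat_lit 12) (nat_lit 246)) (rf (nat_lit 0)))) q65437 (by decide +kernel)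
def q65471 : Q := Q.p (nat_lit 0x10000020000080000200000800000000000000000000000000000000000000000000000000000000) (nat_lit 0x500000c000010000000000000000000000000000000000000000000000000000000000000000000000000) (nat_lit 3)
theorem c65471 : QOK q65471 := cut [q46565] ⟨c46565, trivial⟩ (nd (nat_lit 315) (nat_lit 0) (cs (lf (nat_lit 29) (nat_lit 249)) (rf (nat_lit 0)))) q65471 (by decide +kernel)
def q65473 : Q := Q.p (nat_lit 0x20000080000200000400000000000000000000000000000000000000000000000000000000000000) (nat_lit 0x140000700001c000000000000000100000000000000000000000000000000000000000000000000000000000000000000) (nat_lit 5)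
theorem c65473 : QOK q65473 := cut [q25202] ⟨c25202, trivial⟩ (nd (nat_lit 339) (nat_lit 0) (cs (rf (nat_lit 0)) (lf (nat_lit 46) (nat_lit 250)))) q65473 (by decide +kernel)
def q65487 : Q := Q.p (nat_lit 0x20000080000600000800000000000000000000000000000000000000000000000000000000) (nat_lit 0x8000000000000000900000700001000000000000000000000000000000000000000000000000000) (nat_lit 4)
theorem c65487 : QOK q65487 := cut [q57364] ⟨c57364, trivial⟩ (nd (nat_lit 226) (nat_lit 0) (cs (lf (nat_lit 47) (nat_lit 204)) (nd (nat_lit 248) (nat_lit 0) (cs (lf (nat_lit 42) (nat_lit 226)) (rf (nat_lit 0)))))) q65487 (by decide +kernel)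
def q65540 : Q := Q.p (nat_lit 0x40000380000600000000000000000000000000000000000000000000000000000000000000) (nat_lit 0xe000038000180000060000000001000000000000000000000000000000000000000000000000000000000) (nat_lit 6)
theorem c65540 : QOK q65540 := cut [q44498] ⟨c44498, trivial⟩ (nd (nat_lit 316) (nat_lit 0) (cs (lf (nat_lit 42) (nat_lit 249)) (nd (nat_lit 315) (nat_lit 0) (cs (lf (nat_lit 41) (nat_lit 249)) (nd (nat_lit 317) (nat_lit 0) (cs (lf (nat_lit 29) (nat_lit 250)) (nd (nat_lit 295) (nat_lit 0) (cs (lf (nat_lit 24) (nat_lit 228)) (rf (nat_lit 0)))))))))) q65540 (by decide +kernel)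
def q65543 : Q := Q.p (nat_lit 0x40000980000600001000000000000000000000000000000000000000000000000000000000) (nat_lit 0x20000180000660000000000000000000000000000000000000000000000000000000000000000000) (nat_lit 4)
theorem c65543 : QOK q65543 := cut [q44498] ⟨c44498, trivial⟩ (nd (nat_lit 273) (nat_lit 0) (cs (lf (nat_lit 19) (nat_lit 249)) (nd (nat_lit 295) (nat_lit 0) (cs (lf (nat_lit 29) (nat_lit 228)) (rf (nat_lit 0)))))) q65543 (by decide +kernel)
def q65582 : Q := Q.p (nat_lit 0x980000600001000000000000000000000000000000000000000000000000000000000) (nat_lit 0x80000600000000000000004000010000000000000000000000000000000000000000000000) (nat_lit 3)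
theorem c65582 : QOK q65582 := cut [q23798] ⟨c23798, trivial⟩ (nd (nat_lit 206) (nat_lit 0) (cs (lf (nat_lit 36) (nat_lit 183)) (rf (nat_lit 0)))) q65582 (by decide +kernel)
def q65601 : Q := Q.p (nat_lit 0xc0000300001800006000000000000000000000000000000000000000000000000000) (nat_lit 0x400001c00007000000000000000000000000000000000000000000000) (nat_lit 4)
theorem c65601 : QOK q65601 := cut [q57324] ⟨c57324, trivial⟩ (nd (nat_lit 204) (nat_lit 0) (cs (lf (nat_lit 47) (nat_lit 182)) (nd (nat_lit 203) (nat_lit 0) (cs (lf (nat_lit 0) (nat_lit 202)) (rf (nat_lit 0)))))) q65601 (by decide +kernel)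
def q65631 : Q := Q.p (nat_lit 0x10000040000180000600000000000000000000000000000000000000000000000000000000000000) (nat_lit 0x80000200000a0000000000000001000004000010000000000000000000000000000000000000000000000) (nat_lit 4)
theorem c65631 : QOK q65631 := cut [q52052] ⟨c52052, trivial⟩ (nd (nat_lit 317) (nat_lit 0) (cs (lf (nat_lit 29) (nat_lit 250)) (nd (nat_lit 228) (nat_lit 0) (cs (lf (nat_lit 28) (nat_lit 228)) (rf (nat_lit 0)))))) q65631 (by decide +kernel)
def q65636 : Q := Q.p (nat_lit 0x60000d80000400000000000000000000000000000000000000000000000000000000000000) (nat_lit 0x20000180000000000000001000004000000000000000000000000000000000000000000000000000) (nat_lit 3)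
theorem c65636 : QOK q65636 := cut [q65635] ⟨c65635, trivial⟩ (nd (nat_lit 295) (nat_lit 0) (cs (lf (nat_lit 15) (nat_lit 271)) (rf (nat_lit 0)))) q65636 (by decide +kernel)
def q65642 : Q := Q.p (nat_lit 0x70000180000600000000000000000000000000000000000000000000000000000000000000) (nat_lit 0xc0000f0000080000000000000000000000000000000000000000000000000000000000000000000000000) (nat_lit 4)
theorem c65642 : QOK q65642 := cut [q47467] ⟨c47467, trivial⟩ (nd (nat_lit 316) (nat_lit 0) (cs (lf (nat_lit 42) (nat_lit 249)) (nd (nat_lit 317) (nat_lit 0) (cs (lf (nat_lit 29) (nat_lit 250)) (rf (nat_lit 0)))))) q65642 (by decide +kernel)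
def q65658 : Q := Q.p (nat_lit 0x40000380000600000000000000000000000000000000000000000000000000000000000000) (nat_lit 0x60000180000a0000000000000001000004000010000000000000000000000000000000000000000000000) (nat_lit 5)
theorem c65658 : QOK q65658 := cut [q65654] ⟨c65654, trivial⟩ (nd (nat_lit 316) (nat_lit 0) (cs (lf (nat_lit 42) (nat_lit 249)) (nd (nat_lit 315) (nat_lit 0) (cs (lf (nat_lit 41) (nat_lit 249)) (nd (nat_lit 228) (nat_lit 0) (cs (rf (nat_lit 0)) (lf (nat_lit 31) (nat_lit 227)))))))) q65658 (by decide +kernel)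
def q65697 : Q := Q.p (nat_lit 0x40000180000700000000000000000000000000000000000000000000000000000000000000) (nat_lit 0x6000018000020000000000000001400000000000000000000000000000000000000000000000000000000) (nat_lit 4)
theorem c65697 : QOK q65697 := cut [q65696] ⟨c65696, trivial⟩ (nd (nat_lit 316) (nat_lit 0) (cs (lf (nat_lit 42) (nat_lit 249)) (rf (nat_lit 0)))) q65697 (by decide +kernel)
def q65706 : Q := Q.p (nat_lit 0x3c0000600000000000000000000000000000000000000000000000000000000000000) (nat_lit 0x300001c0000000000000000000000000000000000000000000000000000000000000) (nat_lit 3)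
theorem c65706 : QOK q65706 := cut [q22122] ⟨c22122, trivial⟩ (nd (nat_lit 269) (nat_lit 0) (cs (rf (nat_lit 0)) (lf (nat_lit 12) (nat_lit 246)))) q65706 (by decide +kernel)
def q65751 : Q := Q.p (nat_lit 0x20000280001a0000480000000000000000000000000000000000000000000000000000000000000) (nat_lit 0x400001000004000000000000001600007c00007000004000000000000000000000000000000000000000) (nat_lit 8)
theorem c65751 : QOK q65751 := cut [q59153] ⟨c59153, trivial⟩ (nd (nat_lit 312) (nat_lit 0) (cs (lf (nat_lit 41) (nat_lit 246)) (nd (nat_lit 225) (nat_lit 0) (cs (lf (nat_lit 40) (nat_lit 224)) (nd (nat_lit 206) (nat_lit 0) (cs (lf (nat_lit 37) (nat_lit 205)) (rf (nat_lit 0)))))))) q65751 (by decide +kernel)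
def q65753 : Q := Q.p (nat_lit 0x1000002000008000020000080000000000000000000000000000000000000000000000000000000000000) (nat_lit 0x400000800000000000000010000040000100000000000000000000000000000000000000000000000000000000) (nat_lit 3)
theorem c65753 : QOK q65753 := cut [q65752] ⟨c65752, trivial⟩ (nd (nat_lit 335) (nat_lit 0) (cs (lf (nat_lit 29) (nat_lit 269)) (rf (nat_lit 0)))) q65753 (by decide +kernel)
def q65776 : Q := Q.p (nat_lit 0x300000c0000600000800000000000000000000000000000000000000000000000000000000) (nat_lit 0x80000700001c8000700000000000000000000000000000000000000000000000000000000000000000000) (nat_lit 6)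
theorem c65776 : QOK q65776 := cut [q60326] ⟨c60326, trivial⟩ (nd (nat_lit 294) (nat_lit 0) (cs (lf (nat_lit 29) (nat_lit 227)) (nd (nat_lit 295) (nat_lit 0) (cs (lf (nat_lit 18) (nat_lit 270)) (nd (nat_lit 273) (nat_lit 0) (cs (lf (nat_lit 17) (nat_lit 270)) (nd (nat_lit 272) (nat_lit 0) (cs (lf (nat_lit 12) (nat_lit 269)) (rf (nat_lit 0)))))))))) q65776 (by decide +kernel)
def q65782 : Q := Q.p (nat_lit 0x10000040000600000c00000000000000000000000000000000000000000000000000000000) (nat_lit 0x100001300001f00000000000000000000000000000000000000000000000000) (nat_lit 5)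
theorem c65782 : QOK q65782 := cut [q49378] ⟨c49378, trivial⟩ (nd (nat_lit 225) (nat_lit 0) (cs (lf (nat_lit 0) (nat_lit 224)) (nd (nat_lit 203) (nat_lit 0) (cs (lf (nat_lit 44) (nat_lit 203)) (nd (nat_lit 202) (nat_lit 0) (cs (lf (nat_lit 18) (nat_lit 202)) (rf (nat_lit 0)))))))) q65782 (by decide +kernel)
def q65785 : Q := Q.p (nat_lit 0x100000c0000600000c00000000000000000000000000000000000000000000000000000000) (nat_lit 0x20000000000100001300004c00010000000000000000000000000000000000000000000000) (nat_lit 5)
theorem c65785 : QOK q65785 := cut [q56623] ⟨c56623, trivial⟩ (nd (nat_lit 225) (nat_lit 0) (cs (lf (nat_lit 0) (nat_lit 224)) (nd (nat_lit 203) (nat_lit 0) (cs (lf (nat_lit 44) (nat_lit 203)) (nd (nat_lit 228) (nat_lit 0) (cs (lf (nat_lit 23) (nat_lit 202)) (rf (nat_lit 0)))))))) q65785 (by decide +kernel)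
def q65801 : Q := Q.p (nat_lit 0x100000e0000200000c00000000000000000000000000000000000000000000000000000000) (nat_lit 0x100000e0000000000000000000001000000000000000000000000000000000000000000000000000) (nat_lit 3)
theorem c65801 : QOK q65801 := cut [q59278] ⟨c59278, trivial⟩ (nd (nat_lit 293) (nat_lit 0) (cs (lf (nat_lit 47) (nat_lit 204)) (rf (nat_lit 0)))) q65801 (by decide +kernel)
def q65837 : Q := Q.p (nat_lit 0x40000080000200000800002000000000000000000000000000000000000000000000000000) (nat_lit 0x10000020000000000000000400001000004000000000000000000000000000000000000000000000) (nat_lit 3)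
theorem c65837 : QOK q65837 := cut [q65836] ⟨c65836, trivial⟩ (nd (nat_lit 204) (nat_lit 0) (cs (lf (nat_lit 47) (nat_lit 182)) (rf (nat_lit 0)))) q65837 (by decide +kernel)
def q65860 : Q := Q.p (nat_lit 0x60000080000200000000000000000000000000000000000000000000000000000000000000) (nat_lit 0x1000004000010000000000100000000000800000000000000000000000000000000000000000000000000000000) (nat_lit 3)
theorem c65860 : QOK q65860 := cut [q60062] ⟨c60062, trivial⟩ (nd (nat_lit 316) (nat_lit 0) (cs (lf (nat_lit 24) (nat_lit 227)) (rf (nat_lit 0)))) q65860 (by decide +kernel)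
def q65868 : Q := Q.p (nat_lit 0xc000020000080000600000000000000000000000000000000000000000000000000000000000000) (nat_lit 0x2000000000050000100000000000800002000008000000000000000000000000000000000000000000000) (nat_lit 4)
theorem c65868 : QOK q65868 := cut [q40946] ⟨c40946, trivial⟩ (nd (nat_lit 227) (nat_lit 0) (cs (lf (nat_lit 40) (nat_lit 226)) (nd (nat_lit 272) (nat_lit 0) (cs (lf (nat_lit 30) (nat_lit 249)) (rf (nat_lit 0)))))) q65868 (by decide +kernel)
def q65916 : Q := Q.p (nat_lit 0x200000c0000700000000000000000000000000000000000000000000000000000000000000) (nat_lit 0x58000778001de0007000000e0001380004000000000000000000000000000000000000000000000000000) (nat_lit 11)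
theorem c65916 : QOK q65916 := cut [q60671, q65446, q65896] ⟨c60671, c65446, c65896, trivial⟩ (nd (nat_lit 247) (nat_lit 0) (cs (rf (nat_lit 0)) (cs (rf (nat_lit 1)) (nd (nat_lit 292) (nat_lit 0) (cs (nd (nat_lit 225) (nat_lit 0) (cs (lf (nat_lit 42) (nat_lit 225)) (lf (nat_lit 23) (nat_lit 224)))) (cs (nd (nat_lit 294) (nat_lit 0) (cs (nd (nat_lit 224) (nat_lit 0) (cs (lf (nat_lit 22) (nat_lit 224)) (nd (nat_lit 295) (nat_lit 0) (cs (lf (nat_lit 18) (nat_lit 270)) (nd (nat_lit 273) (nat_lit 0) (cs (lf (nat_lit 17) (nat_lit 270)) (nd (nat_lit 317) (nat_lit 0) (cs (lf (nat_lit 5) (nat_lit 292)) (nd (nat_lit 291) (nat_lit 0) (cs (lf (nat_lit 4) (nat_lit 291)) (nd (nat_lit 312) (nat_lit 0) (cs (lf (nat_lit 10) (nat_lit 290)) (nd (nat_lit 290) (nat_lit 0) (cs (lf (nat_lit 11) (nat_lit 289)) (lf (nat_lit 12) (nat_lit 267)))))))))))))))) (cs (nd (nat_lit 272) (nat_lit 0) (cs (lf (nat_lit 5) (nat_lit 247)) (nd (nat_lit 206) (nat_lit 0) (cs (lf (nat_lit 37) (nat_lit 205)) (nd (nat_lit 291) (nat_lit 0) (cs (lf (nat_lit 12) (nat_lit 268)) (rf (nat_lit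 2)))))))) (cs (nd (nat_lit 224) (nat_lit 0) (cs (lf (nat_lit 22) (nat_lit 224)) (nd (nat_lit 295) (nat_lit 0) (cs (lf (nat_lit 18) (nat_lit 270)) (nd (nat_lit 273) (nat_lit 0) (cs (lf (nat_lit 4) (nat_lit 247)) (lf (nat_lit 17) (nat_lit 270)))))))) (nd (nat_lit 224) (nat_lit 0) (cs (lf (nat_lit 22) (nat_lit 224)) (nd (nat_lit 295) (nat_lit 0) (cs (lf (nat_lit 18) (nat_lit 270)) (nd (nat_lit 317) (nat_lit 0) (cs (lf (nat_lit 5) (nat_lit 292)) (nd (nat_lit 291) (nat_lit 0) (cs (lf (nat_lit 4) (nat_lit 291)) (nd (nat_lit 272) (nat_lit 0) (cs (lf (nat_lit 24) (nat_lit 228)) (lf (nat_lit 12) (nat_lit 268)))))))))))))))) (nd (nat_lit 272) (nat_lit 0) (cs (lf (nat_lit 5) (nat_lit 247)) (nd (nat_lit 206) (nat_lit 0) (cs (lf (nat_lit 37) (nat_lit 205)) (nd (nat_lit 291) (nat_lit 0) (cs (lf (nat_lit 12) (nat_lit 268)) (nd (nat_lit 314) (nat_lit 0) (cs (lf (nat_lit 30) (nat_lit 248)) (nd (nat_lit 313) (nat_lit 0) (cs (lf (nat_lit 41) (nat_lit 247)) (nd (nat_lit 312) (nat_lit 0) (cs (lf (nat_lit 12) (nat_lit 289)) (lf (nat_lit 6) (nat_lit 290))))))))))))))))))))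 q65916 (by decide +kernel)
def q65921 : Q := Q.p (nat_lit 0x80000200000c00000000000000000000000000000000000000000000000000000000000000) (nat_lit 0x500001c000070000000000000000000001000000000000000000000000000000000000000000000000000000000) (nat_lit 5)
theorem c65921 : QOK q65921 := cut [q65918] ⟨c65918, trivial⟩ (nd (nat_lit 317) (nat_lit 0) (cs (lf (nat_lit 47) (nat_lit 228)) (nd (nat_lit 338) (nat_lit 0) (cs (lf (nat_lit 40) (nat_lit 250)) (nd (nat_lit 339) (nat_lit 0) (cs (lf (nat_lit 41) (nat_lit 272)) (rf (nat_lit 0)))))))) q65921 (by decide +kernel)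
def q65979 : Q := Q.p (nat_lit 0x4000000000300000e0000000000000000000000000000000000000000000000) (nat_lit 0x10000060001180006e0000800002000000000000000000000000000000) (nat_lit 7)
theorem c65979 : QOK q65979 := cut [q65976] ⟨c65976, trivial⟩ (nd (nat_lit 184) (nat_lit 0) (cs (lf (nat_lit 0) (nat_lit 183)) (nd (nat_lit 165) (nat_lit 0) (cs (lf (nat_lit 17) (nat_lit 162)) (nd (nat_lit 121) (nat_lit 0) (cs (lf (nat_lit 37) (nat_lit 120)) (rf (nat_lit 0)))))))) q65979 (by decide +kernel)
def q65981 : Q := Q.p (nat_lit 0x400000000002000008000020000000000000000000000000000000000000000) (nat_lit 0x140000300001c00000000000000000000000000000000000000000000000000000000) (nat_lit 4)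
theorem c65981 : QOK q65981 := cut [q26948] ⟨c26948, trivial⟩ (nd (nat_lit 227) (nat_lit 0) (cs (lf (nat_lit 28) (nat_lit 161)) (nd (nat_lit 249) (nat_lit 0) (cs (lf (nat_lit 29) (nat_lit 183)) (rf (nat_lit 0)))))) q65981 (by decide +kernel)
def q66022 : Q := Q.p (nat_lit 0x4000000000300000e0000000000800000000000000000000000000000000000) (nat_lit 0x10000060000180001e0001600003800000000000000000000000000000) (nat_lit 8)
theorem c66022 : QOK q66022 := cut [q57934] ⟨c57934, trivial⟩ (nd (nat_lit 184) (nat_lit 0) (cs (lf (nat_lit 0) (nat_lit 183)) (nd (nat_lit 162) (nat_lit 0) (cs (lf (nat_lit 23) (nat_lit 161)) (nd (nat_lit 206) (nat_lit 0) (cs (lf (nat_lit 11) (nat_lit 183)) (nd (nat_lit 163) (nat_lit 0) (cs (lf (nat_lit 31) (nat_lit 162)) (nd (nat_lit 141) (nat_lit 0) (cs (lf (nat_lit 24) (nat_lit 119)) (nd (nat_lit 142) (nat_lit 0) (cs (lf (nat_lit 6) (nat_lit 140)) (rf (nat_lit 0)))))))))))))) q66022 (by decide +kernel)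
def q66032 : Q := Q.p (nat_lit 0x8000020000000000100001e0000000000000000000000000000000000000000000000) (nat_lit 0x180000e0000000000c00000000000000000000000000000000000000000) (nat_lit 4)
theorem c66032 : QOK q66032 := cut [q58170] ⟨c58170, trivial⟩ (nd (nat_lit 231) (nat_lit 0) (cs (lf (nat_lit 45) (nat_lit 186)) (nd (nat_lit 210) (nat_lit 0) (cs (lf (nat_lit 5) (nat_lit 185)) (rf (nat_lit 0)))))) q66032 (by decide +kernel)
def q66050 : Q := Q.p (nat_lit 0x300000c0000200000e00000000000000000000000000000000000) (nat_lit 0x100001000004c00000000000000000000000000000) (nat_lit 3)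
theorem c66050 : QOK q66050 := cut [q8399] ⟨c8399, trivial⟩ (nd (nat_lit 144) (nat_lit 0) (cs (lf (nat_lit 35) (nat_lit 121)) (rf (nat_lit 0)))) q66050 (by decide +kernel)
def q66083 : Q := Q.p (nat_lit 0x4000000000100000e0000000000000000000000000000000000000000000000) (nat_lit 0x10000660001180000e0000000000000000000000000000000000000000) (nat_lit 5)
theorem c66083 : QOK q66083 := cut [q9201, q65976] ⟨c9201, c65976, trivial⟩ (nd (nat_lit 184) (nat_lit 0) (cs (rf (nat_lit 0)) (rf (nat_lit 1)))) q66083 (by decide +kernel)
def q66095 : Q := Q.p (nat_lit 0x3c0000800002000000000000000000000000000000000000) (nat_lit 0x100001c0000000000000000000008000000000000000000000000000000) (nat_lit 3)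
theorem c66095 : QOK q66095 := cut [q19295] ⟨c19295, trivial⟩ (nd (nat_lit 211) (nat_lit 0) (cs (lf (nat_lit 5) (nat_lit 186)) (rf (nat_lit 0)))) q66095 (by decide +kernel)
def q66108 : Q := Q.p (nat_lit 0x100000f00000000000000000000000000000000000) (nat_lit 0x200000080000700000000000000000000000000000) (nat_lit 3)
theorem c66108 : QOK q66108 := cut [q5711] ⟨c5711, trivial⟩ (nd (nat_lit 139) (nat_lit 0) (cs (lf (nat_lit 5) (nat_lit 139)) (rf (nat_lit 0)))) q66108 (by decide +kernel)
def q66181 : Q := Q.p (nat_lit 0x4000000000000000c00003c0000000000000000000000000000000000000000) (nat_lit 0x1000006000038000400000000000000000000000000000000000000000) (nat_lit 4)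
theorem c66181 : QOK q66181 := cut [q19696] ⟨c19696, trivial⟩ (nd (nat_lit 184) (nat_lit 0) (cs (lf (nat_lit 11) (nat_lit 161)) (nd (nat_lit 185) (nat_lit 0) (cs (lf (nat_lit 17) (nat_lit 162)) (rf (nat_lit 0)))))) q66181 (by decide +kernel)
def q66217 : Q := Q.p (nat_lit 0x8000020000000000100000c0000000000800000000000000000000000000000000000) (nat_lit 0x1000004000020000000000200000000002000000000000000000000000000000) (nat_lit 3)
theorem c66217 : QOK q66217 := cut [q19512] ⟨c19512, trivial⟩ (nd (nat_lit 230) (nat_lit 0) (cs (lf (nat_lit 27) (nat_lit 186)) (rf (nat_lit 0)))) q66217 (by decide +kernel)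
def q66262 : Q := Q.p (nat_lit 0x900001c0000000000000000000000000000000000000000000000) (nat_lit 0x120000600003800000000000000000000000000000000000000000) (nat_lit 4)
theorem c66262 : QOK q66262 := cut [q19779] ⟨c19779, trivial⟩ (nd (nat_lit 189) (nat_lit 0) (cs (lf (nat_lit 5) (nat_lit 186)) (rf (nat_lit 0)))) q66262 (by decide +kernel)
def q66281 : Q := Q.p (nat_lit 0x800003800000000000000000000000000000) (nat_lit 0x15c0000600000000000000000000000000000) (nat_lit 4)
theorem c66281 : QOK q66281 := cut [q66280] ⟨c66280, trivial⟩ (nd (nat_lit 118) (nat_lit 0) (cs (lf (nat_lit 5) (nat_lit 118)) (rf (nat_lit 0)))) q66281 (by decide +kernel)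
def q66375 : Q := Q.p (nat_lit 0x24000000000100000f0000000000000000000000000000000000000000000000) (nat_lit 0xa0000780001200005000006000000000680000800002000000000000000000000000000000) (nat_lit 9)
theorem c66375 : QOK q66375 := cut [q21132] ⟨c21132, trivial⟩ (nd (nat_lit 165) (nat_lit 0) (cs (lf (nat_lit 17) (nat_lit 162)) (nd (nat_lit 121) (nat_lit 0) (cs (lf (nat_lit 37) (nat_lit 120)) (nd (nat_lit 252) (nat_lit 0) (cs (lf (nat_lit 31) (nat_lit 164)) (nd (nat_lit 206) (nat_lit 0) (cs (lf (nat_lit 11) (nat_lit 183)) (nd (nat_lit 228) (nat_lit 0) (cs (lf (nat_lit 35) (nat_lit 162)) (nd (nat_lit 271) (nat_lit 0) (cs (lf (nat_lit 40) (nat_lit 183)) (nd (nat_lit 272) (nat_lit 0) (cs (lf (nat_lit 41) (nat_lit 205)) (rf (nat_lit 0)))))))))))))))) q66375 (by decide +kernel)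
def q66382 : Q := Q.p (nat_lit 0x100000c0000100000400000000000000000000000000000000000) (nat_lit 0x20000000000000000800003000008000000000000000000000000) (nat_lit 3)
theorem c66382 : QOK q66382 := cut [q615] ⟨c615, trivial⟩ (nd (nat_lit 120) (nat_lit 0) (cs (rf (nat_lit 0)) (lf (nat_lit 29) (nat_lit 120)))) q66382 (by decide +kernel)
def q66399 : Q := Q.p (nat_lit 0x300000f00000000000000000000000000000000000000000) (nat_lit 0x40000000000000006000008000020000000000000000000000000) (nat_lit 3)
theorem c66399 : QOK q66399 := cut [q3026] ⟨c3026, trivial⟩ (nd (nat_lit 145) (nat_lit 0) (cs (lf (nat_lit 17) (nat_lit 142)) (rf (nat_lit 0)))) q66399 (by decide +kernel)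
def q66457 : Q := Q.p (nat_lit 0x8000020000000000100000e0000100000000000000000000000000000000000000000) (nat_lit 0x1000004000020000000000280000c00003800006000008000000000000000000) (nat_lit 7)
theorem c66457 : QOK q66457 := cut [q20133] ⟨c20133, trivial⟩ (nd (nat_lit 230) (nat_lit 0) (cs (lf (nat_lit 27) (nat_lit 186)) (nd (nat_lit 143) (nat_lit 0) (cs (lf (nat_lit 34) (nat_lit 142)) (nd (nat_lit 142) (nat_lit 0) (cs (lf (nat_lit 35) (nat_lit 120)) (nd (nat_lit 120) (nat_lit 0) (cs (lf (nat_lit 29) (nat_lit 120)) (nd (nat_lit 97) (nat_lit 0) (cs (lf (nat_lit 46) (nat_lit 97)) (rf (nat_lit 0)))))))))))) q66457 (by decide +kernel)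
def q66471 : Q := Q.p (nat_lit 0x80000200000f00000000000000000000000000000000000) (nat_lit 0x200000000000e000100000c000000000000000000000000000000) (nat_lit 4)
theorem c66471 : QOK q66471 := cut [q9067] ⟨c9067, trivial⟩ (nd (nat_lit 162) (nat_lit 0) (cs (lf (nat_lit 11) (nat_lit 139)) (nd (nat_lit 144) (nat_lit 0) (cs (lf (nat_lit 10) (nat_lit 140)) (rf (nat_lit 0)))))) q66471 (by decide +kernel)
def q66497 : Q := Q.p (nat_lit 0x8000020000000000100000c0000000000800000000000000000000000000000000000) (nat_lit 0x1000004000020000000000300000000000000000000000000000000000000000) (nat_lit 3)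
theorem c66497 : QOK q66497 := cut [q9184] ⟨c9184, trivial⟩ (nd (nat_lit 230) (nat_lit 0) (cs (lf (nat_lit 27) (nat_lit 186)) (rf (nat_lit 0)))) q66497 (by decide +kernel)
def q66540 : Q := Q.p (nat_lit 0x100001c0000200000000000000000000000000000000000000000) (nat_lit 0x10000060000620003d0001f80000a000000000000000000000000000000) (nat_lit 9)
theorem c66540 : QOK q66540 := cut [q9280, q19779, q66530] ⟨c9280, c19779, c66530, trivial⟩ (nd (nat_lit 143) (nat_lit 0) (cs (lf (nat_lit 36) (nat_lit 120)) (nd (nat_lit 189) (nat_lit 0) (cs (rf (nat_lit 0)) (cs (rf (nat_lit 1)) (nd (nat_lit 167) (nat_lit 0) (cs (lf (nat_lit 17) (nat_lit 164)) (nd (nat_lit 166) (nat_lit 0) (cs (lf (nat_lit 12) (nat_lit 163)) (nd (nat_lit 210) (nat_lit 0) (cs (lf (nat_lit 42) (nat_lit 143)) (nd (nat_lit 145) (nat_lit 0) (cs (lf (nat_lit 36) (nat_lit 122)) (rf (nat_lit 2))))))))))))))) q66540 (by decide +kernel)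
def q66580 : Q := Q.p (nat_lit 0x4000000000000001e0000080000000000000000000000000000000000000000) (nat_lit 0x10000e6000010000000000000000000000000000000000000000000000) (nat_lit 4)
theorem c66580 : QOK q66580 := cut [q19696] ⟨c19696, trivial⟩ (nd (nat_lit 210) (nat_lit 0) (cs (lf (nat_lit 5) (nat_lit 185)) (nd (nat_lit 184) (nat_lit 0) (cs (lf (nat_lit 4) (nat_lit 184)) (rf (nat_lit 0)))))) q66580 (by decide +kernel)
def q66602 : Q := Q.p (nat_lit 0xc0000140000000000000000000000000000000000000000) (nat_lit 0x3200000a0000000000000000000000000000000000000000) (nat_lit 3)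
theorem c66602 : QOK q66602 := cut [q4949] ⟨c4949, trivial⟩ (nd (nat_lit 163) (nat_lit 0) (cs (lf (nat_lit 0) (nat_lit 161)) (rf (nat_lit 0)))) q66602 (by decide +kernel)
def q66727 : Q := Q.p (nat_lit 0x800002600001000010000040000000000000000000000000000000000000000000000) (nat_lit 0x100000e000020000000000000000000000000000000000000000000000000000) (nat_lit 3)
theorem c66727 : QOK q66727 := cut [q66726] ⟨c66726, trivial⟩ (nd (nat_lit 231) (nat_lit 0) (cs (lf (nat_lit 45) (nat_lit 186)) (rf (nat_lit 0)))) q66727 (by decide +kernel)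
def q66728 : Q := Q.p (nat_lit 0x800002600001000010000040000000000000000000000000000000000000000000000) (nat_lit 0x118000e800000000000000000000000000000000000000000000000000000000) (nat_lit 4)
theorem c66728 : QOK q66728 := cut [q61264] ⟨c61264, trivial⟩ (nd (nat_lit 230) (nat_lit 0) (cs (lf (nat_lit 27) (nat_lit 186)) (rf (nat_lit 0)))) q66728 (by decide +kernel)
def q66733 : Q := Q.p (nat_lit 0x980000600001000000000000000000000000000000000000000000000000000000000) (nat_lit 0x80000600000000000000004000010000000000000000000000000000000000000000000000) (nat_lit 3)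
theorem c66733 : QOK q66733 := cut [q65654] ⟨c65654, trivial⟩ (nd (nat_lit 273) (nat_lit 0) (cs (lf (nat_lit 19) (nat_lit 249)) (rf (nat_lit 0)))) q66733 (by decide +kernel)
def q66753 : Q := Q.p (nat_lit 0x800002200001800010000040000000000000000000000000000000000000000000000) (nat_lit 0x1100006000020000000000000000000000000000000000000000000000000000) (nat_lit 3)
theorem c66753 : QOK q66753 := cut [q54956] ⟨c54956, trivial⟩ (nd (nat_lit 230) (nat_lit 0) (cs (lf (nat_lit 27) (nat_lit 186)) (rf (nat_lit 0)))) q66753 (by decide +kernel)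
def q66765 : Q := Q.p (nat_lit 0x70000820000000000000000000000000000000000000000000000000000000000000000000) (nat_lit 0x180000640000000000000000000000000000000000000000000000000000000000000000000) (nat_lit 3)
theorem c66765 : QOK q66765 := cut [q61736] ⟨c61736, trivial⟩ (nd (nat_lit 295) (nat_lit 0) (cs (lf (nat_lit 22) (nat_lit 269)) (rf (nat_lit 0)))) q66765 (by decide +kernel)
def q66768 : Q := Q.p (nat_lit 0x600000a0000000000000000000000000000000000000000000000000000000000000000000) (nat_lit 0x180000150000000000000000000000000000000000000000000000000000000000000000000) (nat_lit 3)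
theorem c66768 : QOK q66768 := cut [q66767] ⟨c66767, trivial⟩ (nd (nat_lit 270) (nat_lit 0) (cs (lf (nat_lit 0) (nat_lit 268)) (rf (nat_lit 0)))) q66768 (by decide +kernel)
def q66815 : Q := Q.p (nat_lit 0xf0000800002000000000010000040000000000000000000000000000000000000000000000) (nat_lit 0x7000008000070001000004000000000000000000000000000000000000000000000000000000000) (nat_lit 5)
theorem c66815 : QOK q66815 := cut [q14507] ⟨c14507, trivial⟩ (nd (nat_lit 269) (nat_lit 0) (cs (lf (nat_lit 22) (nat_lit 269)) (nd (nat_lit 230) (nat_lit 0) (cs (lf (nat_lit 27) (nat_lit 186)) (rf (nat_lit 0)))))) q66815 (by decide +kernel)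
def q66830 : Q := Q.p (nat_lit 0x70000100000500000000000000000000000000000000000000000000000000000000000000) (nat_lit 0x80000200000c000000000040000000001400000000000000000000000000000000000000000000000000000000) (nat_lit 4)
theorem c66830 : QOK q66830 := cut [q65205] ⟨c65205, trivial⟩ (nd (nat_lit 315) (nat_lit 0) (cs (lf (nat_lit 36) (nat_lit 227)) (nd (nat_lit 337) (nat_lit 0) (cs (lf (nat_lit 30) (nat_lit 271)) (rf (nat_lit 0)))))) q66830 (by decide +kernel)
def q66846 : Q := Q.p (nat_lit 0x780000400000000000000000000000000000000000000000000000000000000) (nat_lit 0x8000030000000000300001000004000000000000000000000000000000000000000000000) (nat_lit 4)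
theorem c66846 : QOK q66846 := cut [q40907] ⟨c40907, trivial⟩ (nd (nat_lit 269) (nat_lit 0) (cs (lf (nat_lit 11) (nat_lit 246)) (nd (nat_lit 225) (nat_lit 0) (cs (lf (nat_lit 23) (nat_lit 224)) (rf (nat_lit 0)))))) q66846 (by decide +kernel)
def q66866 : Q := Q.p (nat_lit 0x40000100000600000000000000000000000000000000000000000000000000000000000000) (nat_lit 0x280000e000038000000000000000000000800000000000000000000000000000000000000000000000000000000) (nat_lit 5)
theorem c66866 : QOK q66866 := cut [q14182] ⟨c14182, trivial⟩ (nd (nat_lit 316) (nat_lit 0) (cs (lf (nat_lit 47) (nat_lit 227)) (nd (nat_lit 339) (nat_lit 0) (cs (lf (nat_lit 28) (nat_lit 250)) (nd (nat_lit 337) (nat_lit 0) (cs (lf (nat_lit 40) (nat_lit 249)) (rf (nat_lit 0)))))))) q66866 (by decide +kernel)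
def q66873 : Q := Q.p (nat_lit 0x60000c00000600000000000000000000000000000000000000000000000000000000000000) (nat_lit 0x190000300000000000000000000000000000000000000000000000000000000000000000000) (nat_lit 3)
theorem c66873 : QOK q66873 := cut [q61779] ⟨c61779, trivial⟩ (nd (nat_lit 295) (nat_lit 0) (cs (lf (nat_lit 15) (nat_lit 271)) (rf (nat_lit 0)))) q66873 (by decide +kernel)
def q66876 : Q := Q.p (nat_lit 0x60000c00000000000000000000000000000000000000000000000000000000000000000000) (nat_lit 0x190001200000000000000000000000000000000000000000000000000000000000000000000) (nat_lit 3)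
theorem c66876 : QOK q66876 := cut [q61924] ⟨c61924, trivial⟩ (nd (nat_lit 295) (nat_lit 0) (cs (lf (nat_lit 15) (nat_lit 271)) (rf (nat_lit 0)))) q66876 (by decide +kernel)
def q66878 : Q := Q.p (nat_lit 0x100000c00002000000000010000040000000000000000000000000000000000000000000000) (nat_lit 0x4000000000000000100000c000020000000000000000000000000000000000000000000000000000) (nat_lit 3)
theorem c66878 : QOK q66878 := cut [q66877] ⟨c66877, trivial⟩ (nd (nat_lit 231) (nat_lit 0) (cs (lf (nat_lit 45) (nat_lit 186)) (rf (nat_lit 0)))) q66878 (by decide +kernel)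
def q66922 : Q := Q.p (nat_lit 0x10000070000000000000000000000000000000000000000000000000000000000000000000000000) (nat_lit 0x2380000c000038000000000000000000000000000000000000000000000000000000000000000000) (nat_lit 5)
theorem c66922 : QOK q66922 := cut [q61764] ⟨c61764, trivial⟩ (nd (nat_lit 291) (nat_lit 0) (cs (lf (nat_lit 5) (nat_lit 291)) (rf (nat_lit 0)))) q66922 (by decide +kernel)
def q66940 : Q := Q.p (nat_lit 0x2000070000800000000000000000000000000000000000000000000000000000000000000000000) (nat_lit 0x4000180000600000000000000000000000000000000000000000000000000000000000000000000) (nat_lit 3)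
theorem c66940 : QOK q66940 := cut [q61736] ⟨c61736, trivial⟩ (nd (nat_lit 295) (nat_lit 0) (cs (lf (nat_lit 10) (nat_lit 291)) (rf (nat_lit 0)))) q66940 (by decide +kernel)
def q66952 : Q := Q.p (nat_lit 0x800002780000800010000040000000000000000000000000000000000000000000000) (nat_lit 0x38001040005000000000000000000000000000000000000000000000000000000000) (nat_lit 4)
theorem c66952 : QOK q66952 := cut [q66951] ⟨c66951, trivial⟩ (nd (nat_lit 230) (nat_lit 0) (cs (lf (nat_lit 27) (nat_lit 186)) (rf (nat_lit 0)))) q66952 (by decide +kernel)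
def q66972 : Q := Q.p (nat_lit 0x60000900003600008000000000000000000000000000000000000000000000000000000000) (nat_lit 0x40000180000600000000000000000000000000000000000000000000000000000000000000000000) (nat_lit 3)
theorem c66972 : QOK q66972 := cut [q66971] ⟨c66971, trivial⟩ (nd (nat_lit 274) (nat_lit 0) (cs (lf (nat_lit 20) (nat_lit 249)) (rf (nat_lit 0)))) q66972 (by decide +kernel)
def q66980 : Q := Q.p (nat_lit 0x600000800002000000000000000000000000000000000000000000000000000) (nat_lit 0x100000000001000000000018000060000100000000000000000000000000000000000) (nat_lit 4)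
theorem c66980 : QOK q66980 := cut [q23761] ⟨c23761, trivial⟩ (nd (nat_lit 183) (nat_lit 0) (cs (lf (nat_lit 29) (nat_lit 183)) (rf (nat_lit 0)))) q66980 (by decide +kernel)
def q66985 : Q := Q.p (nat_lit 0x600000800032000040000000000000000000000000000000000000000000000) (nat_lit 0x100000000000000000000038000040000000000000000000000000000000000000000) (nat_lit 3)
theorem c66985 : QOK q66985 := cut [q56870] ⟨c56870, trivial⟩ (nd (nat_lit 183) (nat_lit 0) (cs (lf (nat_lit 29) (nat_lit 183)) (rf (nat_lit 0)))) q66985 (by decide +kernel)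
def q67017 : Q := Q.p (nat_lit 0x70000080000600000600000800000000000000000000000000000000000000000000000000) (nat_lit 0x80000070000100000000000000000000000000000000000000000000000000000000000000) (nat_lit 3)
theorem c67017 : QOK q67017 := cut [q61518] ⟨c61518, trivial⟩ (nd (nat_lit 270) (nat_lit 0) (cs (lf (nat_lit 44) (nat_lit 203)) (rf (nat_lit 0)))) q67017 (by decide +kernel)
def q67027 : Q := Q.p (nat_lit 0x20000080000200000800000000000000000000000000000000000000000000000000000000) (nat_lit 0x4000010000040000000000400003000004000000000000000000000000000000000000000000000) (nat_lit 4)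
theorem c67027 : QOK q67027 := cut [q12030] ⟨c12030, trivial⟩ (nd (nat_lit 204) (nat_lit 0) (cs (lf (nat_lit 46) (nat_lit 204)) (nd (nat_lit 205) (nat_lit 0) (cs (lf (nat_lit 47) (nat_lit 182)) (rf (nat_lit 0)))))) q67027 (by decide +kernel)
def q67046 : Q := Q.p (nat_lit 0x20000900000600000800030000040000000000000000000000000000000000000000000000) (nat_lit 0x300001c0000680000000001000004000038000060000000000000000000000000000000000000000) (nat_lit 8)
theorem c67046 : QOK q67046 := cut [q56611] ⟨c56611, trivial⟩ (nd (nat_lit 274) (nat_lit 0) (cs (lf (nat_lit 20) (nat_lit 249)) (nd (nat_lit 294) (nat_lit 0) (cs (lf (nat_lit 42) (nat_lit 227)) (nd (nat_lit 295) (nat_lit 0) (cs (lf (nat_lit 15) (nat_lit 271)) (nd (nat_lit 228) (nat_lit 0) (cs (lf (nat_lit 29) (nat_lit 228)) (rf (nat_lit 0)))))))))) q67046 (by decide +kernel)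
def q67049 : Q := Q.p (nat_lit 0x20000000000200000800002000000000000000000000000000000000000000000000000000) (nat_lit 0x80000000001400005000014000000000000000000000000000000000000000000000) (nat_lit 3)
theorem c67049 : QOK q67049 := cut [q46572, q52305] ⟨c46572, c52305, trivial⟩ (nd (nat_lit 271) (nat_lit 0) (cs (rf (nat_lit 0)) (rf (nat_lit 1)))) q67049 (by decide +kernel)
def q67088 : Q := Q.p (nat_lit 0x70000180000000000000000000000000000000000000000000000000000000000000000000) (nat_lit 0x20000080000300008c000070000100000000000000000000000000000000000000000000000000000000000000) (nat_lit 6)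
theorem c67088 : QOK q67088 := cut [q47299] ⟨c47299, trivial⟩ (nd (nat_lit 291) (nat_lit 0) (cs (lf (nat_lit 12) (nat_lit 268)) (nd (nat_lit 313) (nat_lit 0) (cs (lf (nat_lit 11) (nat_lit 290)) (nd (nat_lit 269) (nat_lit 0) (cs (lf (nat_lit 23) (nat_lit 268)) (nd (nat_lit 270) (nat_lit 0) (cs (lf (nat_lit 5) (nat_lit 269)) (rf (nat_lit 0)))))))))) q67088 (by decide +kernel)
def q67103 : Q := Q.p (nat_lit 0x8000020000880002200000000010000040000000000000000000000000000000000000000000000) (nat_lit 0x400003000004000000000040000100008400020000000000000000000000000000000000000000000000000000) (nat_lit 5)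
theorem c67103 : QOK q67103 := cut [q54356] ⟨c54356, trivial⟩ (nd (nat_lit 336) (nat_lit 0) (cs (lf (nat_lit 40) (nat_lit 248)) (nd (nat_lit 209) (nat_lit 0) (cs (lf (nat_lit 44) (nat_lit 186)) (nd (nat_lit 337) (nat_lit 0) (cs (rf (nat_lit 0)) (lf (nat_lit 41) (nat_lit 270)))))))) q67103 (by decide +kernel)
def q67108 : Q := Q.p (nat_lit 0x8000020000080000200000000000000000000000000000000000000000000000000000000000000) (nat_lit 0x4000010000040000000000100000c00001000000000000000000000000000000000000000000000000000) (nat_lit 4)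
theorem c67108 : QOK q67108 := cut [q44099] ⟨c44099, trivial⟩ (nd (nat_lit 316) (nat_lit 0) (cs (lf (nat_lit 29) (nat_lit 249)) (nd (nat_lit 227) (nat_lit 0) (cs (lf (nat_lit 28) (nat_lit 227)) (rf (nat_lit 0)))))) q67108 (by decide +kernel)
def q67154 : Q := Q.p (nat_lit 0x8000020000880000600000000000000000000000000000000000000000000000000000000000000) (nat_lit 0x70000160001c0000700000180000800000000000000000000000000000000000000000000000000000000) (nat_lit 8)
theorem c67154 : QOK q67154 := cut [q60055] ⟨c60055, trivial⟩ (nd (nat_lit 314) (nat_lit 0) (cs (lf (nat_lit 41) (nat_lit 248)) (nd (nat_lit 272) (nat_lit 0) (cs (lf (nat_lit 30) (nat_lit 249)) (nd (nat_lit 273) (nat_lit 0) (cs (lf (nat_lit 19) (nat_lit 249)) (nd (nat_lit 247) (nat_lit 0) (cs (lf (nat_lit 1) (nat_lit 247)) (nd (nat_lit 316) (nat_lit 0) (cs (lf (nat_lit 29) (nat_lit 249)) (nd (nat_lit 294) (nat_lit 0) (cs (lf (nat_lit 47) (nat_lit 227)) (rf (nat_lit 0)))))))))))))) q67154 (by decide +kernel)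
def q67170 : Q := Q.p (nat_lit 0x80000f0000000000000000000000000000000000000000000000000000000000000000000000000) (nat_lit 0x2000066000000000660000100000400000000000000000000000000000000000000000000000000000000) (nat_lit 6)
theorem c67170 : QOK q67170 := cut [q58648] ⟨c58648, trivial⟩ (nd (nat_lit 314) (nat_lit 0) (cs (lf (nat_lit 11) (nat_lit 291)) (nd (nat_lit 317) (nat_lit 0) (cs (lf (nat_lit 5) (nat_lit 292)) (nd (nat_lit 273) (nat_lit 0) (cs (lf (nat_lit 17) (nat_lit 270)) (nd (nat_lit 270) (nat_lit 0) (cs (lf (nat_lit 23) (nat_lit 269)) (rf (nat_lit 0)))))))))) q67170 (by decide +kernel)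
def q67178 : Q := Q.p (nat_lit 0x80000e0000000000000000000000000000000000000000000000000000000000000000000000000) (nat_lit 0xf780011c000070000000000000000000000000000000000000000000000000000000000000000000) (nat_lit 8)
theorem c67178 : QOK q67178 := cut [q58732] ⟨c58732, trivial⟩ (nd (nat_lit 296) (nat_lit 0) (cs (lf (nat_lit 11) (nat_lit 292)) (nd (nat_lit 318) (nat_lit 0) (cs (lf (nat_lit 5) (nat_lit 293)) (nd (nat_lit 292) (nat_lit 0) (cs (lf (nat_lit 4) (nat_lit 292)) (nd (nat_lit 269) (nat_lit 0) (cs (lf (nat_lit 22) (nat_lit 269)) (nd (nat_lit 291) (nat_lit 0) (cs (lf (nat_lit 23) (nat_lit 268)) (nd (nat_lit 290) (nat_lit 0) (cs (lf (nat_lit 5) (nat_lit 290)) (rf (nat_lit 0)))))))))))))) q67178 (by decide +kernel)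
def q67185 : Q := Q.p (nat_lit 0x8000020000080000200000000000000000000000000000000000000000000000000000000000000) (nat_lit 0x400007000014000000000040000100000400000000000000000000000000000000000000000000000000000000) (nat_lit 5)
theorem c67185 : QOK q67185 := cut [q67184] ⟨c67184, trivial⟩ (nd (nat_lit 316) (nat_lit 0) (cs (lf (nat_lit 29) (nat_lit 249)) (rf (nat_lit 0)))) q67185 (by decide +kernel)
def q67190 : Q := Q.p (nat_lit 0xe000020000080000200000000000000000000000000000000000000000000000000000000000000) (nat_lit 0x3c0000700001dc000000000000000000000000000000000000000000000000000000000000000000000000) (nat_lit 7)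
theorem c67190 : QOK q67190 := cut [q59357] ⟨c59357, trivial⟩ (nd (nat_lit 316) (nat_lit 0) (cs (lf (nat_lit 29) (nat_lit 249)) (nd (nat_lit 290) (nat_lit 0) (cs (lf (nat_lit 22) (nat_lit 290)) (rf (nat_lit 0)))))) q67190 (by decide +kernel)
def q67194 : Q := Q.p (nat_lit 0x8000020000880002600000000010000040000000000000000000000000000000000000000000000) (nat_lit 0x400003000004000000000100001000004000000000000000000000000000000000000000000000000000000000) (nat_lit 4)
theorem c67194 : QOK q67194 := cut [q56973] ⟨c56973, trivial⟩ (nd (nat_lit 230) (nat_lit 0) (cs (lf (nat_lit 27) (nat_lit 186)) (rf (nat_lit 0)))) q67194 (by decide +kernel)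
def q67199 : Q := Q.p (nat_lit 0x8000020000800000600000000030000040000000000000000000000000000000000000000000000) (nat_lit 0xc0000780000000001000006000038000020000000000000000000000000000000000000000) (nat_lit 7)
theorem c67199 : QOK q67199 := cut [q67161] ⟨c67161, trivial⟩ (nd (nat_lit 228) (nat_lit 0) (cs (lf (nat_lit 32) (nat_lit 227)) (nd (nat_lit 272) (nat_lit 0) (cs (lf (nat_lit 39) (nat_lit 227)) (nd (nat_lit 273) (nat_lit 0) (cs (lf (nat_lit 19) (nat_lit 249)) (rf (nat_lit 0)))))))) q67199 (by decide +kernel)
def q67204 : Q := Q.p (nat_lit 0xe0000880002600000000010000040000000000000000000000000000000000000000000000) (nat_lit 0x110000070001000004000000000000000000000000000000000000000000000000000000000) (nat_lit 4)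
theorem c67204 : QOK q67204 := cut [q61062] ⟨c61062, trivial⟩ (nd (nat_lit 230) (nat_lit 0) (cs (lf (nat_lit 27) (nat_lit 186)) (rf (nat_lit 0)))) q67204 (by decide +kernel)
def q67205 : Q := Q.p (nat_lit 0xc0000800000680001000000000000000000000000000000000000000000000000000000000) (nat_lit 0x20000000000700000100000000000000000000000000000000000000000000000000000000000000) (nat_lit 3)
theorem c67205 : QOK q67205 := cut [q56821] ⟨c56821, trivial⟩ (nd (nat_lit 272) (nat_lit 0) (cs (lf (nat_lit 29) (nat_lit 228)) (rf (nat_lit 0)))) q67205 (by decide +kernel)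
def q67214 : Q := Q.p (nat_lit 0x80000600000800002000000000000000000000000000000000000000000000000000) (nat_lit 0x10000140000100000000000000008000000000000000000000000000000000000000000000) (nat_lit 3)
theorem c67214 : QOK q67214 := cut [q3639] ⟨c3639, trivial⟩ (nd (nat_lit 183) (nat_lit 0) (cs (lf (nat_lit 29) (nat_lit 183)) (rf (nat_lit 0)))) q67214 (by decide +kernel)
def q67226 : Q := Q.p (nat_lit 0x80000200000800031000040000000000000000000000000000000000000000000000) (nat_lit 0x600003c000040000000000000000000000000000000000000000) (nat_lit 4)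
theorem c67226 : QOK q67226 := cut [q67225] ⟨c67225, trivial⟩ (nd (nat_lit 205) (nat_lit 0) (cs (lf (nat_lit 47) (nat_lit 182)) (rf (nat_lit 0)))) q67226 (by decide +kernel)
def q67294 : Q := Q.p (nat_lit 0x8000020000880002600000000010000040000000000000000000000000000000000000000000000) (nat_lit 0x6000014000050000140001000004800002000008000000000000000000000000000000000000000000000) (nat_lit 7)
theorem c67294 : QOK q67294 := cut [q62104] ⟨c62104, trivial⟩ (nd (nat_lit 230) (nat_lit 0) (cs (lf (nat_lit 27) (nat_lit 186)) (nd (nat_lit 316) (nat_lit 0) (cs (lf (nat_lit 29) (nat_lit 249)) (nd (nat_lit 227) (nat_lit 0) (cs (lf (nat_lit 28) (nat_lit 227)) (nd (nat_lit 292) (nat_lit 0) (cs (lf (nat_lit 41) (nat_lit 226)) (nd (nat_lit 205) (nat_lit 0) (cs (lf (nat_lit 40) (nat_lit 204)) (rf (nat_lit 0)))))))))))) q67294 (by decide +kernel)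
def q67372 : Q := Q.p (nat_lit 0x600001800032000040000000000000000000000000000000000000000000000) (nat_lit 0x38000060000000000000000000000000000000000000000) (nat_lit 3)
theorem c67372 : QOK q67372 := cut [q56870] ⟨c56870, trivial⟩ (nd (nat_lit 183) (nat_lit 0) (cs (lf (nat_lit 24) (nat_lit 161)) (rf (nat_lit 0)))) q67372 (by decide +kernel)
def q67412 : Q := Q.p (nat_lit 0x10000000000780000200001000000000000000000000000000000000000000000000000000) (nat_lit 0x70000000000000000800004000000000000000000000000000000000000000000000) (nat_lit 3)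
theorem c67412 : QOK q67412 := cut [q67411] ⟨c67411, trivial⟩ (nd (nat_lit 269) (nat_lit 0) (cs (lf (nat_lit 11) (nat_lit 246)) (rf (nat_lit 0)))) q67412 (by decide +kernel)
def q67420 : Q := Q.p (nat_lit 0x8000020003080004a000000000000000000000000000000000000000000000) (nat_lit 0x400034000010000000000000000000000000000000000000000) (nat_lit 3)
theorem c67420 : QOK q67420 := cut [q17283] ⟨c17283, trivial⟩ (nd (nat_lit 184) (nat_lit 0) (cs (lf (nat_lit 2) (nat_lit 183)) (rf (nat_lit 0)))) q67420 (by decide +kernel)
def q67430 : Q := Q.p (nat_lit 0x10000800002000000e00031000040000000000000000000000000000000000000000000000) (nat_lit 0x80000600010c0007000000c00000000000000000000000000000000000000000000000000) (nat_lit 6)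
theorem c67430 : QOK q67430 := cut [q67389] ⟨c67389, trivial⟩ (nd (nat_lit 230) (nat_lit 0) (cs (lf (nat_lit 27) (nat_lit 186)) (nd (nat_lit 228) (nat_lit 0) (cs (lf (nat_lit 14) (nat_lit 205)) (nd (nat_lit 247) (nat_lit 0) (cs (lf (nat_lit 11) (nat_lit 224)) (nd (nat_lit 203) (nat_lit 0) (cs (lf (nat_lit 23) (nat_lit 202)) (rf (nat_lit 0)))))))))) q67430 (by decide +kernel)
def q67445 : Q := Q.p (nat_lit 0x700001800001000004000000000000000000000000000000000000000000000) (nat_lit 0x300000c0000400000000000000000000000000000000000000000000000000000000) (nat_lit 3)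
theorem c67445 : QOK q67445 := cut [q44764] ⟨c44764, trivial⟩ (nd (nat_lit 247) (nat_lit 0) (cs (lf (nat_lit 12) (nat_lit 224)) (rf (nat_lit 0)))) q67445 (by decide +kernel)
def q67472 : Q := Q.p (nat_lit 0x10000000000300000800000000000000000000000000000000000000000000000000000000) (nat_lit 0x4000000000040000000000400002000008000000000000000000000000000000000000000000000) (nat_lit 3)
theorem c67472 : QOK q67472 := cut [q58951] ⟨c58951, trivial⟩ (nd (nat_lit 270) (nat_lit 0) (cs (lf (nat_lit 30) (nat_lit 226)) (rf (nat_lit 0)))) q67472 (by decide +kernel)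
def q67507 : Q := Q.p (nat_lit 0x20000880002600000800030000040000000000000000000000000000000000000000000000) (nat_lit 0x10000100000740000300000c000020000000000000000000000000000000000000000) (nat_lit 6)
theorem c67507 : QOK q67507 := cut [q5153] ⟨c5153, trivial⟩ (nd (nat_lit 204) (nat_lit 0) (cs (lf (nat_lit 46) (nat_lit 204)) (nd (nat_lit 230) (nat_lit 0) (cs (lf (nat_lit 27) (nat_lit 186)) (nd (nat_lit 228) (nat_lit 0) (cs (lf (nat_lit 14) (nat_lit 205)) (nd (nat_lit 205) (nat_lit 0) (cs (rf (nat_lit 0)) (lf (nat_lit 47) (nat_lit 182)))))))))) q67507 (by decide +kernel)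
def q67554 : Q := Q.p (nat_lit 0x20000880002600000000010000040000000000000000000000000000000000000000000000) (nat_lit 0x800000000000000100000f000020000000000000000000000000000000000000000000000000000) (nat_lit 4)
theorem c67554 : QOK q67554 := cut [q67552] ⟨c67552, trivial⟩ (nd (nat_lit 230) (nat_lit 0) (cs (lf (nat_lit 27) (nat_lit 186)) (nd (nat_lit 228) (nat_lit 0) (cs (lf (nat_lit 30) (nat_lit 227)) (rf (nat_lit 0)))))) q67554 (by decide +kernel)
def q67635 : Q := Q.p (nat_lit 0xe0000200000800003000000000000000000000000000000000000000000000000000) (nat_lit 0x4c0001000001c0000600000000000000000000000000000000000000000000000000000000) (nat_lit 5)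
theorem c67635 : QOK q67635 := cut [q57087] ⟨c57087, trivial⟩ (nd (nat_lit 272) (nat_lit 0) (cs (lf (nat_lit 29) (nat_lit 205)) (nd (nat_lit 291) (nat_lit 0) (cs (lf (nat_lit 11) (nat_lit 268)) (nd (nat_lit 247) (nat_lit 0) (cs (lf (nat_lit 23) (nat_lit 246)) (rf (nat_lit 0)))))))) q67635 (by decide +kernel)
def q67641 : Q := Q.p (nat_lit 0x80000200000800002000000000000000000000000000000000000000000000000000) (nat_lit 0x14000070000140000000000000000000000000000000000000000000000000000000000000000000) (nat_lit 4)
theorem c67641 : QOK q67641 := cut [q40957] ⟨c40957, trivial⟩ (nd (nat_lit 292) (nat_lit 0) (cs (lf (nat_lit 40) (nat_lit 204)) (rf (nat_lit 0)))) q67641 (by decide +kernel)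
def q67648 : Q := Q.p (nat_lit 0x80000600000800002000000000000000000000000000000000000000000000000000) (nat_lit 0x38000070000100000780005e00016000000000000000000000000000000000000000000000) (nat_lit 10)
theorem c67648 : QOK q67648 := cut [q40888] ⟨c40888, trivial⟩ (nd (nat_lit 270) (nat_lit 0) (cs (lf (nat_lit 41) (nat_lit 204)) (nd (nat_lit 269) (nat_lit 0) (cs (lf (nat_lit 12) (nat_lit 246)) (nd (nat_lit 184) (nat_lit 0) (cs (lf (nat_lit 34) (nat_lit 183)) (nd (nat_lit 204) (nat_lit 0) (cs (lf (nat_lit 47) (nat_lit 182)) (nd (nat_lit 226) (nat_lit 0) (cs (lf (nat_lit 42) (nat_lit 204)) (nd (nat_lit 248) (nat_lit 0) (cs (lf (nat_lit 41) (nat_lit 203)) (nd (nat_lit 224) (nat_lit 0) (cs (lf (nat_lit 1) (nat_lit 224)) (rf (nat_lit 0)))))))))))))))) q67648 (by decide +kernel)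
def q67695 : Q := Q.p (nat_lit 0xc0000200000800000000000000000000000000000000000000000000000000000000) (nat_lit 0x1000004000010000000000100000000002000000000000000000000000000000000000000000000000000) (nat_lit 3)
theorem c67695 : QOK q67695 := cut [q61635] ⟨c61635, trivial⟩ (nd (nat_lit 292) (nat_lit 0) (cs (lf (nat_lit 36) (nat_lit 204)) (rf (nat_lit 0)))) q67695 (by decide +kernel)
def q67813 : Q := Q.p (nat_lit 0x9c0000600000000000000000000000000000000000000000000000000000000000000) (nat_lit 0x6300001c0000000000000000000000000000000000000000000000000000000000000) (nat_lit 4)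
theorem c67813 : QOK q67813 := cut [q22122] ⟨c22122, trivial⟩ (nd (nat_lit 269) (nat_lit 0) (cs (lf (nat_lit 12) (nat_lit 246)) (nd (nat_lit 273) (nat_lit 0) (cs (lf (nat_lit 19) (nat_lit 249)) (rf (nat_lit 0)))))) q67813 (by decide +kernel)
def q67848 : Q := Q.p (nat_lit 0x600001c00030000000000000000000000000000000000000000000000000000) (nat_lit 0x6300001c00000000000000000000000000000000000000000000000000) (nat_lit 4)
theorem c67848 : QOK q67848 := cut [q62159] ⟨c62159, trivial⟩ (nd (nat_lit 229) (nat_lit 0) (cs (lf (nat_lit 15) (nat_lit 205)) (rf (nat_lit 0)))) q67848 (by decide +kernel)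
def q67851 : Q := Q.p (nat_lit 0x900000600001800000000000000000000000000000000000000000000000000000000) (nat_lit 0x300000c0000600000000000000004000000000000000000000000000000000000000000000000000) (nat_lit 4)
theorem c67851 : QOK q67851 := cut [q14448] ⟨c14448, trivial⟩ (nd (nat_lit 294) (nat_lit 0) (cs (lf (nat_lit 42) (nat_lit 227)) (nd (nat_lit 273) (nat_lit 0) (cs (rf (nat_lit 0)) (lf (nat_lit 19) (nat_lit 249)))))) q67851 (by decide +kernel)
def q67869 : Q := Q.p (nat_lit 0x80000200000800003000000000000000000000000000000000000000000000) (nat_lit 0x4000030000040000000000400000000000000000000000000000000000000000000000000) (nat_lit 3)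
theorem c67869 : QOK q67869 := cut [q45596] ⟨c45596, trivial⟩ (nd (nat_lit 268) (nat_lit 0) (cs (lf (nat_lit 40) (nat_lit 180)) (rf (nat_lit 0)))) q67869 (by decide +kernel)
def q67907 : Q := Q.p (nat_lit 0x20000080000200000800000000000000000000000000000000000000000000000000) (nat_lit 0x4000018000040000000000100000400001000000000000000000000000000000000000000000000) (nat_lit 4)
theorem c67907 : QOK q67907 := cut [q44702] ⟨c44702, trivial⟩ (nd (nat_lit 202) (nat_lit 0) (cs (lf (nat_lit 47) (nat_lit 180)) (nd (nat_lit 291) (nat_lit 0) (cs (rf (nat_lit 0)) (lf (nat_lit 46) (nat_lit 202)))))) q67907 (by decide +kernel)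
def q67929 : Q := Q.p (nat_lit 0x880000600000800002000000000000000000000000000000000000000000000000000) (nat_lit 0x1d0000740000000001000005000014000000000000000000000000000000000000000000000) (nat_lit 7)
theorem c67929 : QOK q67929 := cut [q67928] ⟨c67928, trivial⟩ (nd (nat_lit 272) (nat_lit 0) (cs (lf (nat_lit 29) (nat_lit 205)) (rf (nat_lit 0)))) q67929 (by decide +kernel)
def q67951 : Q := Q.p (nat_lit 0xc0000200000800002000000000000000000000000000000000000000000000000000) (nat_lit 0x40000700001c000060000000000100000400001000004000000000000000000000000000000000000000000000) (nat_lit 7)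
theorem c67951 : QOK q67951 := cut [q56647] ⟨c56647, trivial⟩ (nd (nat_lit 204) (nat_lit 0) (cs (lf (nat_lit 47) (nat_lit 182)) (nd (nat_lit 293) (nat_lit 0) (cs (lf (nat_lit 46) (nat_lit 204)) (nd (nat_lit 316) (nat_lit 0) (cs (lf (nat_lit 28) (nat_lit 227)) (nd (nat_lit 315) (nat_lit 0) (cs (lf (nat_lit 29) (nat_lit 249)) (rf (nat_lit 0)))))))))) q67951 (by decide +kernel)
def q67967 : Q := Q.p (nat_lit 0x380000600000800003000000000000000000000000000000000000000000000000000) (nat_lit 0x80000000000000003000004c00010000000000000000000000000000000000000000000000) (nat_lit 4)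
theorem c67967 : QOK q67967 := cut [q27694] ⟨c27694, trivial⟩ (nd (nat_lit 206) (nat_lit 0) (cs (lf (nat_lit 35) (nat_lit 183)) (nd (nat_lit 228) (nat_lit 0) (cs (lf (nat_lit 29) (nat_lit 206)) (rf (nat_lit 0)))))) q67967 (by decide +kernel)
def q67987 : Q := Q.p (nat_lit 0xc0000200000800000000000000000000000000000000000000000) (nat_lit 0x1000000000010000000000300000c000010000000000000000000000000) (nat_lit 4)
theorem c67987 : QOK q67987 := cut [q9959] ⟨c9959, trivial⟩ (nd (nat_lit 145) (nat_lit 0) (cs (lf (nat_lit 41) (nat_lit 144)) (nd (nat_lit 123) (nat_lit 0) (cs (rf (nat_lit 0)) (lf (nat_lit 40) (nat_lit 122)))))) q67987 (by decide +kernel)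
def q67989 : Q := Q.p (nat_lit 0x20000080000200000800000000000000000000000000000000000000000) (nat_lit 0x1400007000014000000000000000000000000000000) (nat_lit 4)
theorem c67989 : QOK q67989 := cut [q58379] ⟨c58379, trivial⟩ (nd (nat_lit 146) (nat_lit 0) (cs (lf (nat_lit 34) (nat_lit 145)) (nd (nat_lit 145) (nat_lit 0) (cs (lf (nat_lit 35) (nat_lit 123)) (rf (nat_lit 0)))))) q67989 (by decide +kernel)
def q67997 : Q := Q.p (nat_lit 0x200000800002000048000000000000000000000000000000000000000000000) (nat_lit 0x800000000000000050000b0000040000000000000000000000000000000000000000) (nat_lit 4)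
theorem c67997 : QOK q67997 := cut [q41158] ⟨c41158, trivial⟩ (nd (nat_lit 184) (nat_lit 0) (cs (lf (nat_lit 35) (nat_lit 161)) (nd (nat_lit 206) (nat_lit 0) (cs (lf (nat_lit 30) (nat_lit 183)) (rf (nat_lit 0)))))) q67997 (by decide +kernel)
def q68006 : Q := Q.p (nat_lit 0x900002600000800010000040000000000000000000000000000000000000000000000) (nat_lit 0x300000c0000600000180009000026000000000000000000000000000000000000000000000000000) (nat_lit 7)
theorem c68006 : QOK q68006 := cut [q14448] ⟨c14448, trivial⟩ (nd (nat_lit 209) (nat_lit 0) (cs (lf (nat_lit 44) (nat_lit 186)) (nd (nat_lit 273) (nat_lit 0) (cs (lf (nat_lit 19) (nat_lit 249)) (nd (nat_lit 247) (nat_lit 0) (cs (lf (nat_lit 1) (nat_lit 247)) (nd (nat_lit 294) (nat_lit 0) (cs (lf (nat_lit 42) (nat_lit 227)) (nd (nat_lit 228) (nat_lit 0) (cs (lf (nat_lit 47) (nat_lit 205)) (rf (nat_lit 0)))))))))))) q68006 (by decide +kernel)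
def q68030 : Q := Q.p (nat_lit 0x900000600001800000000000000000000000000000000000000000000000000000000) (nat_lit 0x80000680000000000000004000010000040000000000000000000000000000000000000000) (nat_lit 4)
theorem c68030 : QOK q68030 := cut [q14196] ⟨c14196, trivial⟩ (nd (nat_lit 273) (nat_lit 0) (cs (lf (nat_lit 19) (nat_lit 249)) (nd (nat_lit 206) (nat_lit 0) (cs (lf (nat_lit 29) (nat_lit 206)) (rf (nat_lit 0)))))) q68030 (by decide +kernel)
def q68049 : Q := Q.p (nat_lit 0x4000070000300000400000000000000000000000000000000000000000000000000000000000000) (nat_lit 0x8000062000080000000000000000000000000000000000000000000000000000000000000000000000000) (nat_lit 3)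
theorem c68049 : QOK q68049 := cut [q60326] ⟨c60326, trivial⟩ (nd (nat_lit 295) (nat_lit 0) (cs (lf (nat_lit 11) (nat_lit 291)) (rf (nat_lit 0)))) q68049 (by decide +kernel)
def q68092 : Q := Q.p (nat_lit 0x980000600000800002000000000000000000000000000000000000000000000000000) (nat_lit 0xa0000600000180001000004000010000000000000000000000000000000000000000000000) (nat_lit 5)
theorem c68092 : QOK q68092 := cut [q68067] ⟨c68067, trivial⟩ (nd (nat_lit 273) (nat_lit 0) (cs (lf (nat_lit 19) (nat_lit 249)) (nd (nat_lit 247) (nat_lit 0) (cs (lf (nat_lit 1) (nat_lit 247)) (rf (nat_lit 0)))))) q68092 (by decide +kernel)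
def q68210 : Q := Q.p (nat_lit 0x60000180000300000000000000000000000000000000000000000000000000000000000000) (nat_lit 0x700001c000040000000000c00003000000000000000000000000000000000000000000000000000) (nat_lit 6)
theorem c68210 : QOK q68210 := cut [q63824] ⟨c63824, trivial⟩ (nd (nat_lit 227) (nat_lit 0) (cs (lf (nat_lit 24) (nat_lit 205)) (nd (nat_lit 226) (nat_lit 0) (cs (lf (nat_lit 47) (nat_lit 204)) (rf (nat_lit 0)))))) q68210 (by decide +kernel)
def q68212 : Q := Q.p (nat_lit 0x20000980002600000800010000040000000000000000000000000000000000000000000000) (nat_lit 0x300000c000010000000001000004000000000000000000000000000000000000000000000000000000000) (nat_lit 4)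
theorem c68212 : QOK q68212 := cut [q47034] ⟨c47034, trivial⟩ (nd (nat_lit 230) (nat_lit 0) (cs (lf (nat_lit 27) (nat_lit 186)) (rf (nat_lit 0)))) q68212 (by decide +kernel)
def q68238 : Q := Q.p (nat_lit 0x38000040000c00002000008000010000040000000000000000000000000000000000000000000000) (nat_lit 0x440001a0000000001000004000000000000000000000000000000000000000000000000000000000) (nat_lit 4)
theorem c68238 : QOK q68238 := cut [q68237] ⟨c68237, trivial⟩ (nd (nat_lit 252) (nat_lit 0) (cs (lf (nat_lit 26) (nat_lit 186)) (rf (nat_lit 0)))) q68238 (by decide +kernel)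
def q68289 : Q := Q.p (nat_lit 0xf0000000000200000000000000000000000000000000000000000000000000000000000000) (nat_lit 0x200000e000000000060000100000c00000000000000000000000000000000000000000000000000000000) (nat_lit 5)
theorem c68289 : QOK q68289 := cut [q66809] ⟨c66809, trivial⟩ (nd (nat_lit 314) (nat_lit 0) (cs (lf (nat_lit 11) (nat_lit 291)) (rf (nat_lit 0)))) q68289 (by decide +kernel)
def q68383 : Q := Q.p (nat_lit 0x10000000000180000200000000000000000000000000000000000000000000000000000000) (nat_lit 0x4000000000060000000000000000800002000000000000000000000000000000000000000000000) (nat_lit 3)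
theorem c68383 : QOK q68383 := cut [q51302] ⟨c51302, trivial⟩ (nd (nat_lit 270) (nat_lit 0) (cs (lf (nat_lit 42) (nat_lit 225)) (rf (nat_lit 0)))) q68383 (by decide +kernel)
def q68485 : Q := Q.p (nat_lit 0x20000080000600000000000000000000000000000000000000000000000000000000000000) (nat_lit 0x140000700001c000050000100000000000800000000000000000000000000000000000000000000000000000000) (nat_lit 5)
theorem c68485 : QOK q68485 := cut [q56929, q56973, q59775] ⟨c56929, c56973, c59775, trivial⟩ (nd (nat_lit 315) (nat_lit 0) (cs (rf (nat_lit 0)) (cs (rf (nat_lit 1)) (rf (nat_lit 2))))) q68485 (by decide +kernel)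
def q68530 : Q := Q.p (nat_lit 0x8000060000380000000000000000000000000000000000000000000000000000000000000) (nat_lit 0x1c00007c00030000000000000000800000000000000000000000000000000000000000000000000000000) (nat_lit 6)
theorem c68530 : QOK q68530 := cut [q47058] ⟨c47058, trivial⟩ (nd (nat_lit 313) (nat_lit 0) (cs (lf (nat_lit 30) (nat_lit 247)) (nd (nat_lit 314) (nat_lit 0) (cs (lf (nat_lit 29) (nat_lit 247)) (nd (nat_lit 292) (nat_lit 0) (cs (lf (nat_lit 35) (nat_lit 226)) (nd (nat_lit 312) (nat_lit 0) (cs (rf (nat_lit 0)) (lf (nat_lit 41) (nat_lit 246)))))))))) q68530 (by decide +kernel)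
def q68538 : Q := Q.p (nat_lit 0x30000080000700000c00000000000000000000000000000000000000000000000000000000) (nat_lit 0x200000e000078000000000300000800000000000000000000000000000000000000000000000000) (nat_lit 6)
theorem c68538 : QOK q68538 := cut [q57381] ⟨c57381, trivial⟩ (nd (nat_lit 225) (nat_lit 0) (cs (lf (nat_lit 0) (nat_lit 224)) (nd (nat_lit 270) (nat_lit 0) (cs (lf (nat_lit 47) (nat_lit 203)) (nd (nat_lit 268) (nat_lit 0) (cs (lf (nat_lit 13) (nat_lit 246)) (rf (nat_lit 0)))))))) q68538 (by decide +kernel)
def q68558 : Q := Q.p (nat_lit 0x20000180000200000800000000000000000000000000000000000000000000000000) (nat_lit 0x40000040000700001c000040000000000000000000000000000000000) (nat_lit 5)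
theorem c68558 : QOK q68558 := cut [q44688] ⟨c44688, trivial⟩ (nd (nat_lit 180) (nat_lit 0) (cs (lf (nat_lit 46) (nat_lit 180)) (nd (nat_lit 181) (nat_lit 0) (cs (lf (nat_lit 47) (nat_lit 158)) (rf (nat_lit 0)))))) q68558 (by decide +kernel)
def q68561 : Q := Q.p (nat_lit 0xa0000380000200001000000000000000000000000000000000000000000000000000) (nat_lit 0x8000028000000000000000c00000000000000000000000000000000000000000000000000000000) (nat_lit 3)
theorem c68561 : QOK q68561 := cut [q63799] ⟨c63799, trivial⟩ (nd (nat_lit 226) (nat_lit 0) (cs (lf (nat_lit 30) (nat_lit 203)) (rf (nat_lit 0)))) q68561 (by decide +kernel)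
def q68591 : Q := Q.p (nat_lit 0x880002780000000010000040000000000000000000000000000000000000000000000) (nat_lit 0x78001070004ee0000000000000000000000000000000000000000000000000000000) (nat_lit 8)
theorem c68591 : QOK q68591 := cut [q49911] ⟨c49911, trivial⟩ (nd (nat_lit 230) (nat_lit 0) (cs (lf (nat_lit 27) (nat_lit 186)) (nd (nat_lit 268) (nat_lit 0) (cs (lf (nat_lit 10) (nat_lit 246)) (nd (nat_lit 246) (nat_lit 0) (cs (lf (nat_lit 11) (nat_lit 245)) (nd (nat_lit 245) (nat_lit 0) (cs (lf (nat_lit 4) (nat_lit 245)) (nd (nat_lit 226) (nat_lit 0) (cs (lf (nat_lit 17) (nat_lit 223)) (nd (nat_lit 244) (nat_lit 0) (cs (lf (nat_lit 16) (nat_lit 222)) (rf (nat_lit 0)))))))))))))) q68591 (by decide +kernel)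
def q68593 : Q := Q.p (nat_lit 0x80001a0000080000000000000000000000000000000000000000000000000000000000000) (nat_lit 0x5000034000040000000000200000000000000000000000000000000000000000000000000000000) (nat_lit 4)
theorem c68593 : QOK q68593 := cut [q48861] ⟨c48861, trivial⟩ (nd (nat_lit 290) (nat_lit 0) (cs (lf (nat_lit 8) (nat_lit 268)) (nd (nat_lit 225) (nat_lit 0) (cs (lf (nat_lit 41) (nat_lit 224)) (rf (nat_lit 0)))))) q68593 (by decide +kernel)
def q68603 : Q := Q.p (nat_lit 0x80000780000400000000000000000000000000000000000000000000000000000000) (nat_lit 0x78000060000800000000000000000000000000000000000000000000000000000000) (nat_lit 4)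
theorem c68603 : QOK q68603 := cut [q68601] ⟨c68601, trivial⟩ (nd (nat_lit 268) (nat_lit 0) (cs (lf (nat_lit 10) (nat_lit 246)) (nd (nat_lit 246) (nat_lit 0) (cs (lf (nat_lit 11) (nat_lit 245)) (rf (nat_lit 0)))))) q68603 (by decide +kernel)
def q68605 : Q := Q.p (nat_lit 0x20000180000600000800000000000000000000000000000000000000000000000000) (nat_lit 0x40000300000c000000000000000000000000000000000000000) (nat_lit 3)
theorem c68605 : QOK q68605 := cut [q45687] ⟨c45687, trivial⟩ (nd (nat_lit 181) (nat_lit 0) (cs (lf (nat_lit 24) (nat_lit 159)) (rf (nat_lit 0)))) q68605 (by decide +kernel)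
def q68613 : Q := Q.p (nat_lit 0x80000780000400000000000000000000000000000000000000000000000000000000) (nat_lit 0x40000060000b80000000000000000000000000000000000000000000000000000000) (nat_lit 4)
theorem c68613 : QOK q68613 := cut [q68601] ⟨c68601, trivial⟩ (nd (nat_lit 224) (nat_lit 0) (cs (lf (nat_lit 22) (nat_lit 224)) (nd (nat_lit 246) (nat_lit 0) (cs (lf (nat_lit 23) (nat_lit 223)) (rf (nat_lit 0)))))) q68613 (by decide +kernel)
def q68618 : Q := Q.p (nat_lit 0x80000300000400000000000000000000000000000000000000000000000000000000) (nat_lit 0x8000020000000000000000800001000004000000000000000000000000000000000000000000000) (nat_lit 3)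
theorem c68618 : QOK q68618 := cut [q58830] ⟨c58830, trivial⟩ (nd (nat_lit 293) (nat_lit 0) (cs (lf (nat_lit 42) (nat_lit 226)) (rf (nat_lit 0)))) q68618 (by decide +kernel)
def q68642 : Q := Q.p (nat_lit 0x880002780000200010800040000000000000000000000000000000000000000000000) (nat_lit 0x30000370001000004c00001700005000000000000000000000000000000000000000000000) (nat_lit 9)
theorem c68642 : QOK q68642 := cut [q48817] ⟨c48817, trivial⟩ (nd (nat_lit 269) (nat_lit 0) (cs (lf (nat_lit 11) (nat_lit 246)) (nd (nat_lit 230) (nat_lit 0) (cs (lf (nat_lit 27) (nat_lit 186)) (nd (nat_lit 202) (nat_lit 0) (cs (lf (nat_lit 47) (nat_lit 180)) (nd (nat_lit 270) (nat_lit 0) (cs (lf (nat_lit 29) (nat_lit 203)) (nd (nat_lit 272) (nat_lit 0) (cs (lf (nat_lit 5) (nat_lit 247)) (nd (nat_lit 204) (nat_lit 0) (cs (lf (nat_lit 35) (nat_lit 181)) (nd (nat_lit 226) (nat_lit 0) (cs (lf (nat_lit 29) (nat_lit 204)) (rf (nat_lit 0)))))))))))))))) q68642 (by decide +kernel)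
def q68659 : Q := Q.p (nat_lit 0x30000880002780000400010000040000000000000000000000000000000000000000000000) (nat_lit 0x200000c000360001000004300000000000000000000000000000000000000000000000000000000) (nat_lit 6)
theorem c68659 : QOK q68659 := cut [q68656] ⟨c68656, trivial⟩ (nd (nat_lit 230) (nat_lit 0) (cs (lf (nat_lit 27) (nat_lit 186)) (nd (nat_lit 272) (nat_lit 0) (cs (lf (nat_lit 5) (nat_lit 247)) (nd (nat_lit 224) (nat_lit 0) (cs (lf (nat_lit 22) (nat_lit 224)) (rf (nat_lit 0)))))))) q68659 (by decide +kernel)
def q68670 : Q := Q.p (nat_lit 0x40000700000400000800000000000000000000000000000000000000000000000000) (nat_lit 0x10000000000080000380000000000000000000000000000000000000000000000000000000) (nat_lit 3)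
theorem c68670 : QOK q68670 := cut [q61604] ⟨c61604, trivial⟩ (nd (nat_lit 225) (nat_lit 0) (cs (lf (nat_lit 42) (nat_lit 203)) (rf (nat_lit 0)))) q68670 (by decide +kernel)
def q68681 : Q := Q.p (nat_lit 0xc0000300000400001000000000000000000000000000000000000000000000000000) (nat_lit 0x1000006000018000020000000000800000000000000000000000000000000000000000000000000000000) (nat_lit 4)
theorem c68681 : QOK q68681 := cut [q68679] ⟨c68679, trivial⟩ (nd (nat_lit 291) (nat_lit 0) (cs (lf (nat_lit 40) (nat_lit 203)) (nd (nat_lit 292) (nat_lit 0) (cs (lf (nat_lit 41) (nat_lit 225)) (rf (nat_lit 0)))))) q68681 (by decide +kernel)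
def q68705 : Q := Q.p (nat_lit 0x8e0002180000000010000040000000000000000000000000000000000000000000000) (nat_lit 0x80000200000c000300000000008400020000000000000000000000000000000000000000000000000000) (nat_lit 5)
theorem c68705 : QOK q68705 := cut [q41086] ⟨c41086, trivial⟩ (nd (nat_lit 209) (nat_lit 0) (cs (lf (nat_lit 44) (nat_lit 186)) (nd (nat_lit 272) (nat_lit 0) (cs (lf (nat_lit 18) (nat_lit 247)) (nd (nat_lit 291) (nat_lit 0) (cs (lf (nat_lit 11) (nat_lit 268)) (rf (nat_lit 0)))))))) q68705 (by decide +kernel)
def q68749 : Q := Q.p (nat_lit 0x40000900000600000000000000000000000000000000000000000000000000000000000000) (nat_lit 0x280000e0000380000c000030000080000680000180000800000000000000000000000000000000000000000000000000000000) (nat_lit 10)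
theorem c68749 : QOK q68749 := cut [q44158] ⟨c44158, trivial⟩ (nd (nat_lit 273) (nat_lit 0) (cs (lf (nat_lit 19) (nat_lit 249)) (nd (nat_lit 247) (nat_lit 0) (cs (lf (nat_lit 1) (nat_lit 247)) (nd (nat_lit 316) (nat_lit 0) (cs (lf (nat_lit 47) (nat_lit 227)) (nd (nat_lit 317) (nat_lit 0) (cs (lf (nat_lit 29) (nat_lit 250)) (nd (nat_lit 338) (nat_lit 0) (cs (lf (nat_lit 46) (nat_lit 249)) (nd (nat_lit 360) (nat_lit 0) (cs (lf (nat_lit 34) (nat_lit 272)) (nd (nat_lit 383) (nat_lit 0) (cs (lf (nat_lit 28) (nat_lit 294)) (nd (nat_lit 381) (nat_lit 0) (cs (rf (nat_lit 0)) (lf (nat_lit 40) (nat_lit 293)))))))))))))))))) q68749 (by decide +kernel)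
def q68797 : Q := Q.p (nat_lit 0x40000900002600008000010000040000000000000000000000000000000000000000000000) (nat_lit 0x4000018000020000080001000007800004000000000000000000000000000000000000000000000000000) (nat_lit 6)
theorem c68797 : QOK q68797 := cut [q45192] ⟨c45192, trivial⟩ (nd (nat_lit 230) (nat_lit 0) (cs (lf (nat_lit 27) (nat_lit 186)) (nd (nat_lit 228) (nat_lit 0) (cs (lf (nat_lit 8) (nat_lit 227)) (nd (nat_lit 293) (nat_lit 0) (cs (lf (nat_lit 41) (nat_lit 227)) (nd (nat_lit 271) (nat_lit 0) (cs (lf (nat_lit 36) (nat_lit 205)) (rf (nat_lit 0)))))))))) q68797 (by decide +kernel)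

end Crest.Agent.H3.Snaky.CR
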