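import Crest.Agent.H3.Snaky.Cert
import Crest.Agent.H3.Snaky.CR.CR0
import Crest.Agent.H3.Snaky.CR.CR1
import Crest.Agent.H3.Snaky.CR.CR2
import Crest.Agent.H3.Snaky.CR.CR3
import Crest.Agent.H3.Snaky.CR.CR4
import Crest.Agent.H3.Snaky.CR.CR5
import Crest.Agent.H3.Snaky.CR.CR6
import Crest.Agent.H3.Snaky.CR.CR8
import Crest.Agent.H3.Snaky.CR.CR9
import Crest.Agent.H3.Snaky.CR.CR10
import Crest.Agent.H3.Snaky.CR.CR11
import Crest.Agent.H3.Snaky.CR.CR12
import Crest.Agent.H3.Snaky.CR.CR13
import Crest.Agent.H3.Snaky.CR.CR14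
import Crest.Agent.H3.Snaky.CR.CR15

set_option autoImplicit false
set_option maxRecDepth 100000

namespace Crest.Agent.H3.Snaky.CR

open T

def q68819 : Q := Q.p (nat_lit 0x40000900000600000000000000000000000000000000000000000000000000000000000000) (nat_lit 0x8000060000380003e0000180000a0000680000180000800000000000000000000000000000000000000000000000000000000) (nat_lit 11)
theorem c68819 : QOK q68819 := cut [q68256] ⟨c68256, trivial⟩ (nd (nat_lit 273) (nat_lit 0) (cs (lf (nat_lit 19) (nat_lit 249)) (nd (nat_lit 247) (nat_lit 0) (cs (lf (nat_lit 1) (nat_lit 247)) (nd (nat_lit 316) (nat_lit 0) (cs (lf (nat_lit 47) (nat_lit 227)) (rf (nat_lit 0)))))))) q68819 (by decide +kernel)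
def q68959 : Q := Q.p (nat_lit 0x600001800002000040000000000000000000000000000000000000000000000) (nat_lit 0x800000000000000040000bc0000f0000000000000000000000000000000000000000) (nat_lit 6)
theorem c68959 : QOK q68959 := cut [q41035] ⟨c41035, trivial⟩ (nd (nat_lit 183) (nat_lit 0) (cs (lf (nat_lit 24) (nat_lit 161)) (nd (nat_lit 160) (nat_lit 0) (cs (lf (nat_lit 46) (nat_lit 160)) (nd (nat_lit 184) (nat_lit 0) (cs (lf (nat_lit 35) (nat_lit 161)) (nd (nat_lit 206) (nat_lit 0) (cs (lf (nat_lit 41) (nat_lit 183)) (rf (nat_lit 0)))))))))) q68959 (by decide +kernel)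
def q68969 : Q := Q.p (nat_lit 0x800002600001800010000040000000000000000000000000000000000000000000000) (nat_lit 0xc0000780001000006000027000010000040000000000000000000000000000000000000000) (nat_lit 8)
theorem c68969 : QOK q68969 := cut [q5181] ⟨c5181, trivial⟩ (nd (nat_lit 230) (nat_lit 0) (cs (lf (nat_lit 27) (nat_lit 186)) (nd (nat_lit 229) (nat_lit 0) (cs (lf (nat_lit 17) (nat_lit 205)) (nd (nat_lit 205) (nat_lit 0) (cs (lf (nat_lit 23) (nat_lit 204)) (nd (nat_lit 272) (nat_lit 0) (cs (lf (nat_lit 42) (nat_lit 205)) (nd (nat_lit 273) (nat_lit 0) (cs (lf (nat_lit 19) (nat_lit 249)) (nd (nat_lit 206) (nat_lit 0) (cs (lf (nat_lit 29) (nat_lit 206)) (rf (nat_lit 0)))))))))))))) q68969 (by decide +kernel)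
def q68995 : Q := Q.p (nat_lit 0x600000800012000040000000000000000000000000000000000000000000000) (nat_lit 0x10000000000000002100003c000070000040000000000000000000000000000000000) (nat_lit 6)
theorem c68995 : QOK q68995 := cut [q56874] ⟨c56874, trivial⟩ (nd (nat_lit 183) (nat_lit 0) (cs (lf (nat_lit 29) (nat_lit 183)) (nd (nat_lit 160) (nat_lit 0) (cs (lf (nat_lit 46) (nat_lit 160)) (nd (nat_lit 138) (nat_lit 0) (cs (lf (nat_lit 45) (nat_lit 138)) (rf (nat_lit 0)))))))) q68995 (by decide +kernel)
def q69076 : Q := Q.p (nat_lit 0x100000c0000300000400000000000000000000000000000000000000000000000000000000) (nat_lit 0x200001800006000000000000000000000000000000000000000000000) (nat_lit 3)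
theorem c69076 : QOK q69076 := cut [q61559] ⟨c61559, trivial⟩ (nd (nat_lit 203) (nat_lit 0) (cs (lf (nat_lit 46) (nat_lit 203)) (rf (nat_lit 0)))) q69076 (by decide +kernel)
def q69144 : Q := Q.p (nat_lit 0x60000980002780000000010000040000000000000000000000000000000000000000000000) (nat_lit 0x200008c000070001000004400001000000000000000000000000000000000000000000000000000) (nat_lit 6)
theorem c69144 : QOK q69144 := cut [q69143] ⟨c69143, trivial⟩ (nd (nat_lit 230) (nat_lit 0) (cs (lf (nat_lit 27) (nat_lit 186)) (rf (nat_lit 0)))) q69144 (by decide +kernel)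
def q69176 : Q := Q.p (nat_lit 0x20000180000680000000000000000000000000000000000000000000000000000000000000) (nat_lit 0x140003000004000000000000000000000000000000000000000000000000000) (nat_lit 3)
theorem c69176 : QOK q69176 := cut [q52073] ⟨c52073, trivial⟩ (nd (nat_lit 248) (nat_lit 0) (cs (lf (nat_lit 0) (nat_lit 246)) (rf (nat_lit 0)))) q69176 (by decide +kernel)
def q69210 : Q := Q.p (nat_lit 0x60000900002600000000010000040000000000000000000000000000000000000000000000) (nat_lit 0x1000004000018000060000100000c000000000000000000000000000000000000000000000000000000000) (nat_lit 5)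
theorem c69210 : QOK q69210 := cut [q22293] ⟨c22293, trivial⟩ (nd (nat_lit 274) (nat_lit 0) (cs (lf (nat_lit 20) (nat_lit 249)) (nd (nat_lit 296) (nat_lit 0) (cs (lf (nat_lit 14) (nat_lit 271)) (nd (nat_lit 252) (nat_lit 0) (cs (lf (nat_lit 26) (nat_lit 186)) (rf (nat_lit 0)))))))) q69210 (by decide +kernel)
def q69245 : Q := Q.p (nat_lit 0x3a0000080000000000000000000000000000000000000000000000000000000000000) (nat_lit 0x1c000040000040000000000000000000000000000000000000000000000000000000000000) (nat_lit 3)
theorem c69245 : QOK q69245 := cut [q11918] ⟨c11918, trivial⟩ (nd (nat_lit 270) (nat_lit 0) (cs (rf (nat_lit 0)) (lf (nat_lit 23) (nat_lit 246)))) q69245 (by decide +kernel)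
def q69257 : Q := Q.p (nat_lit 0x3a0000600000000000000000000000000000000000000000000000000000000000000) (nat_lit 0x1c000050000000000000000000000000000000000000000000000000000000000000000000) (nat_lit 3)
theorem c69257 : QOK q69257 := cut [q11918] ⟨c11918, trivial⟩ (nd (nat_lit 270) (nat_lit 0) (cs (rf (nat_lit 0)) (lf (nat_lit 12) (nat_lit 246)))) q69257 (by decide +kernel)
def q69277 : Q := Q.p (nat_lit 0x980002600000800010000040000000000000000000000000000000000000000000000) (nat_lit 0x3c0000700011c000440000700001c000000000000000000000000000000000000000000000) (nat_lit 10)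
theorem c69277 : QOK q69277 := cut [q47024] ⟨c47024, trivial⟩ (nd (nat_lit 230) (nat_lit 0) (cs (lf (nat_lit 27) (nat_lit 186)) (nd (nat_lit 205) (nat_lit 0) (cs (lf (nat_lit 24) (nat_lit 183)) (nd (nat_lit 270) (nat_lit 0) (cs (lf (nat_lit 41) (nat_lit 204)) (nd (nat_lit 204) (nat_lit 0) (cs (lf (nat_lit 47) (nat_lit 182)) (nd (nat_lit 269) (nat_lit 0) (cs (lf (nat_lit 12) (nat_lit 246)) (nd (nat_lit 184) (nat_lit 0) (cs (lf (nat_lit 34) (nat_lit 183)) (nd (nat_lit 246) (nat_lit 0) (cs (lf (nat_lit 22) (nat_lit 246)) (nd (nat_lit 291) (nat_lit 0) (cs (lf (nat_lit 11) (nat_lit 268)) (rf (nat_lit 0)))))))))))))))))) q69277 (by decide +kernel)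
def q69280 : Q := Q.p (nat_lit 0x3a0000080000000000000000000000000000000000000000000000000000000000000) (nat_lit 0x1c0000040000040000000000000000000000000000000000000000000000000000000000000) (nat_lit 3)
theorem c69280 : QOK q69280 := cut [q11939] ⟨c11939, trivial⟩ (nd (nat_lit 270) (nat_lit 0) (cs (rf (nat_lit 0)) (lf (nat_lit 23) (nat_lit 246)))) q69280 (by decide +kernel)
def q69288 : Q := Q.p (nat_lit 0x9a0000600000000000000000000000000000000000000000000000000000000000000) (nat_lit 0x6500001c0000000000000000000000000000000000000000000000000000000000000) (nat_lit 4)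
theorem c69288 : QOK q69288 := cut [q45664] ⟨c45664, trivial⟩ (nd (nat_lit 273) (nat_lit 0) (cs (lf (nat_lit 19) (nat_lit 249)) (nd (nat_lit 247) (nat_lit 0) (cs (lf (nat_lit 1) (nat_lit 247)) (rf (nat_lit 0)))))) q69288 (by decide +kernel)
def q69289 : Q := Q.p (nat_lit 0x3a0000600000000000000000000000000000000000000000000000000000000000000) (nat_lit 0x1c0000050000000000000000000000000000000000000000000000000000000000000000000) (nat_lit 3)
theorem c69289 : QOK q69289 := cut [q11939] ⟨c11939, trivial⟩ (nd (nat_lit 270) (nat_lit 0) (cs (rf (nat_lit 0)) (lf (nat_lit 12) (nat_lit 246)))) q69289 (by decide +kernel)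
def q69300 : Q := Q.p (nat_lit 0x3c0000600000000000000000000000000000000000000000000000000000000000000) (nat_lit 0x1c0000030000000000000000000000000000000000000000000000000000000000000000000) (nat_lit 3)
theorem c69300 : QOK q69300 := cut [q65173] ⟨c65173, trivial⟩ (nd (nat_lit 295) (nat_lit 0) (cs (lf (nat_lit 5) (nat_lit 270)) (rf (nat_lit 0)))) q69300 (by decide +kernel)
def q69336 : Q := Q.p (nat_lit 0x8000020000080000300000000000000000000000000000000000000000000000000000000) (nat_lit 0x1000006000010000000000040000000000000000000000000000000000000000000000000000000000000) (nat_lit 3)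
theorem c69336 : QOK q69336 := cut [q69335] ⟨c69335, trivial⟩ (nd (nat_lit 314) (nat_lit 0) (cs (lf (nat_lit 28) (nat_lit 225)) (rf (nat_lit 0)))) q69336 (by decide +kernel)
def q69339 : Q := Q.p (nat_lit 0x8000020000080000200000000000000000000000000000000000000000000000000000000) (nat_lit 0x5000014000050000000000000000800000000000000000000000000000000000000000000000000) (nat_lit 4)
theorem c69339 : QOK q69339 := cut [q48788] ⟨c48788, trivial⟩ (nd (nat_lit 292) (nat_lit 0) (cs (lf (nat_lit 29) (nat_lit 225)) (nd (nat_lit 203) (nat_lit 0) (cs (lf (nat_lit 28) (nat_lit 203)) (rf (nat_lit 0)))))) q69339 (by decide +kernel)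
def q69384 : Q := Q.p (nat_lit 0x20000080000200000800000000000000000000000000000000000000000000000000) (nat_lit 0x500001c000050000000000000000000000000000000000000000000000000000000000000000000) (nat_lit 4)
theorem c69384 : QOK q69384 := cut [q44702] ⟨c44702, trivial⟩ (nd (nat_lit 290) (nat_lit 0) (cs (lf (nat_lit 40) (nat_lit 202)) (nd (nat_lit 291) (nat_lit 0) (cs (lf (nat_lit 41) (nat_lit 224)) (rf (nat_lit 0)))))) q69384 (by decide +kernel)
def q69388 : Q := Q.p (nat_lit 0x600001200000c00000000000000000000000000000000000000000000000000) (nat_lit 0x100000000000c00003000008000020000000000000000000000000000000000000000) (nat_lit 4)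
theorem c69388 : QOK q69388 := cut [q5153] ⟨c5153, trivial⟩ (nd (nat_lit 227) (nat_lit 0) (cs (lf (nat_lit 20) (nat_lit 202)) (nd (nat_lit 205) (nat_lit 0) (cs (rf (nat_lit 0)) (lf (nat_lit 2) (nat_lit 202)))))) q69388 (by decide +kernel)
def q69417 : Q := Q.p (nat_lit 0x600004000030000047000000000000000000000000000000000000000000000) (nat_lit 0x1000000000038000060000380000e0000000000000000000000000000000000000000) (nat_lit 6)
theorem c69417 : QOK q69417 := cut [q67397, q61421, q69415] ⟨c67397, c61421, c69415, trivial⟩ (nd (nat_lit 183) (nat_lit 0) (cs (nd (nat_lit 161) (nat_lit 0) (cs (lf (nat_lit 17) (nat_lit 158)) (nd (nat_lit 205) (nat_lit 0) (cs (lf (nat_lit 5) (nat_lit 180)) (nd (nat_lit 227) (nat_lit 0) (cs (lf (nat_lit 28) (nat_lit 161)) (lf (nat_lit 29) (nat_lit 183)))))))) (cs (nd (nat_lit 184) (nat_lit 0) (cs (lf (nat_lit 2) (nat_lit 183)) (nd (nat_lit 205) (nat_lit 0) (cs (lf (nat_lit 5) (nat_lit 180)) (nd (nat_lit 227) (nat_lit 0) (cs (lf (nat_lit 29) (nat_lit 183)) (rf (nat_lit 0)))))))) (cs (nd (nat_lit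 205) (nat_lit 0) (cs (lf (nat_lit 5) (nat_lit 180)) (nd (nat_lit 184) (nat_lit 0) (cs (lf (nat_lit 2) (nat_lit 183)) (rf (nat_lit 1)))))) (nd (nat_lit 184) (nat_lit 0) (cs (lf (nat_lit 2) (nat_lit 183)) (rf (nat_lit 2)))))))) q69417 (by decide +kernel)
def q69486 : Q := Q.p (nat_lit 0x600004200031800000000000000000000000000000000000000000000000000) (nat_lit 0x100000000003dc0006400018000060000000000000000000000000000000000000000) (nat_lit 7)
theorem c69486 : QOK q69486 := cut [q5153] ⟨c5153, trivial⟩ (nd (nat_lit 227) (nat_lit 0) (cs (nd (nat_lit 228) (nat_lit 0) (cs (lf (nat_lit 14) (nat_lit 205)) (nd (nat_lit 226) (nat_lit 0) (cs (lf (nat_lit 0) (nat_lit 224)) (lf (nat_lit 23) (nat_lit 202)))))) (cs (nd (nat_lit 228) (nat_lit 0) (cs (lf (nat_lit 14) (nat_lit 205)) (nd (nat_lit 224) (nat_lit 0) (cs (lf (nat_lit 2) (nat_lit 224)) (nd (nat_lit 222) (nat_lit 0) (cs (lf (nat_lit 13) (nat_lit 200)) (nd (nat_lit 205) (nat_lit 0) (cs (rf (nat_lit 0)) (lf (nat_lit 6) (nat_lit 202)))))))))) (cs (nd (nat_lit 224) (nat_lit 0) (cs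 (lf (nat_lit 2) (nat_lit 224)) (nd (nat_lit 222) (nat_lit 0) (cs (lf (nat_lit 13) (nat_lit 200)) (nd (nat_lit 205) (nat_lit 0) (cs (lf (nat_lit 6) (nat_lit 202)) (nd (nat_lit 183) (nat_lit 0) (cs (lf (nat_lit 29) (nat_lit 183)) (nd (nat_lit 184) (nat_lit 0) (cs (lf (nat_lit 35) (nat_lit 161)) (lf (nat_lit 12) (nat_lit 180)))))))))))) (nd (nat_lit 228) (nat_lit 0) (cs (lf (nat_lit 14) (nat_lit 205)) (nd (nat_lit 205) (nat_lit 0) (cs (rf (nat_lit 0)) (lf (nat_lit 0) (nat_lit 202)))))))))) q69486 (by decide +kernel)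
def q69538 : Q := Q.p (nat_lit 0x8000020000080000200000000000000000000000000000000000000000000000000000000) (nat_lit 0x4000010000040000000000400001800004000000000000000000000000000000000000000000000) (nat_lit 4)
theorem c69538 : QOK q69538 := cut [q67411] ⟨c67411, trivial⟩ (nd (nat_lit 204) (nat_lit 0) (cs (lf (nat_lit 34) (nat_lit 203)) (nd (nat_lit 292) (nat_lit 0) (cs (lf (nat_lit 29) (nat_lit 225)) (rf (nat_lit 0)))))) q69538 (by decide +kernel)
def q69550 : Q := Q.p (nat_lit 0x600000600001800000000000000000000000000000000000000000000000000) (nat_lit 0x980006000000000000000000000000000000000000000000000000000) (nat_lit 3)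
theorem c69550 : QOK q69550 := cut [q50332] ⟨c50332, trivial⟩ (nd (nat_lit 224) (nat_lit 0) (cs (lf (nat_lit 3) (nat_lit 224)) (rf (nat_lit 0)))) q69550 (by decide +kernel)
def q69570 : Q := Q.p (nat_lit 0xe000020000080000300000000000000000000000000000000000000000000000000000000) (nat_lit 0x4c0003000001c000040000000000000000000000000000000000000000000000000000000000000) (nat_lit 5)
theorem c69570 : QOK q69570 := cut [q52175] ⟨c52175, trivial⟩ (nd (nat_lit 292) (nat_lit 0) (cs (lf (nat_lit 29) (nat_lit 225)) (rf (nat_lit 0)))) q69570 (by decide +kernel)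
def q69576 : Q := Q.p (nat_lit 0x8000020000080000200000000000000000000000000000000000000000000000000000000) (nat_lit 0x1000006000010000000000040000100000400000000000000000000000000000000000000000000000000) (nat_lit 4)
theorem c69576 : QOK q69576 := cut [q69335] ⟨c69335, trivial⟩ (nd (nat_lit 314) (nat_lit 0) (cs (lf (nat_lit 28) (nat_lit 225)) (nd (nat_lit 224) (nat_lit 0) (cs (lf (nat_lit 47) (nat_lit 202)) (rf (nat_lit 0)))))) q69576 (by decide +kernel)
def q69595 : Q := Q.p (nat_lit 0xc000030000040000100000000000000000000000000000000000000000000000000000000) (nat_lit 0x800003800040000000000000000000000000000000000000000000000000000000000000000000) (nat_lit 3)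
theorem c69595 : QOK q69595 := cut [q69594] ⟨c69594, trivial⟩ (nd (nat_lit 289) (nat_lit 0) (cs (lf (nat_lit 41) (nat_lit 223)) (rf (nat_lit 0)))) q69595 (by decide +kernel)
def q69641 : Q := Q.p (nat_lit 0x10000080000300000c00000000000000000000000000000000000000000000000000) (nat_lit 0x40000000000000006000018000060000000000000000000000000000000000) (nat_lit 4)
theorem c69641 : QOK q69641 := cut [q69639] ⟨c69639, trivial⟩ (nd (nat_lit 181) (nat_lit 0) (cs (rf (nat_lit 0)) (lf (nat_lit 31) (nat_lit 180)))) q69641 (by decide +kernel)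
def q69714 : Q := Q.p (nat_lit 0x8000020000080000300000000000000000000000000000000000000000000000000000000) (nat_lit 0x400003000004000000000040000000000000000000000000000000000000000000000000000000000000) (nat_lit 3)
theorem c69714 : QOK q69714 := cut [q47097] ⟨c47097, trivial⟩ (nd (nat_lit 313) (nat_lit 0) (cs (rf (nat_lit 0)) (lf (nat_lit 46) (nat_lit 224)))) q69714 (by decide +kernel)
def q69773 : Q := Q.p (nat_lit 0x80000200000800002000000000000000000000000000000000000000000000) (nat_lit 0x100000400000000077c000de00017c00000000000000000000000000000000000000) (nat_lit 9)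
theorem c69773 : QOK q69773 := cut [q50374, q69767] ⟨c50374, c69767, trivial⟩ (nd (nat_lit 180) (nat_lit 0) (cs (lf (nat_lit 47) (nat_lit 158)) (nd (nat_lit 179) (nat_lit 0) (cs (nd (nat_lit 178) (nat_lit 0) (cs (nd (nat_lit 199) (nat_lit 0) (cs (nd (nat_lit 177) (nat_lit 0) (cs (lf (nat_lit 4) (nat_lit 177)) (lf (nat_lit 11) (nat_lit 176)))) (lf (nat_lit 10) (nat_lit 177)))) (lf (nat_lit 5) (nat_lit 178)))) (cs (nd (nat_lit 246) (nat_lit 0) (cs (lf (nat_lit 41) (nat_lit 180)) (nd (nat_lit 182) (nat_lit 0) (cs (lf (nat_lit 35) (nat_lit 159)) (rf (nat_lit 0)))))) (cs (nd (nat_lit 182) (nat_lit 0) (cs (lf (nat_lit 35) (nat_lit 159)) (nd (nat_lit 246) (nat_lit 0) (cs (lf (nat_lit 41) (nat_lit 180)) (nd (nat_lit 156) (nat_lit 0) (cs (lf (nat_lit 22) (nat_lit 156)) (nd (nat_lit 205) (nat_lit 0) (cs (lf (nat_lit 4) (nat_lit 179)) (nd (nat_lit 201) (nat_lit 0) (cs (lf (nat_lit 11) (nat_lit 178)) (nd (nat_lit 183) (nat_lit 0) (cs (lf (nat_lit 10) (nat_lit 179)) (lf (nat_lit 5) (nat_lit 180)))))))))))))) (nd (nat_lit 246) (nat_lit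 0) (cs (lf (nat_lit 41) (nat_lit 180)) (nd (nat_lit 160) (nat_lit 0) (cs (lf (nat_lit 34) (nat_lit 159)) (nd (nat_lit 178) (nat_lit 0) (cs (lf (nat_lit 5) (nat_lit 178)) (nd (nat_lit 177) (nat_lit 0) (cs (lf (nat_lit 4) (nat_lit 177)) (rf (nat_lit 1)))))))))))))))) q69773 (by decide +kernel)
def q69841 : Q := Q.p (nat_lit 0x40000100000400001000000000000000000000000000000000000000000000000000000000) (nat_lit 0xa0000380000a0000000000000000000000000000000000000000000000000000000000000000000000000) (nat_lit 4)
theorem c69841 : QOK q69841 := cut [q8903] ⟨c8903, trivial⟩ (nd (nat_lit 317) (nat_lit 0) (cs (lf (nat_lit 28) (nat_lit 228)) (nd (nat_lit 316) (nat_lit 0) (cs (rf (nat_lit 0)) (lf (nat_lit 29) (nat_lit 250)))))) q69841 (by decide +kernel)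
def q69946 : Q := Q.p (nat_lit 0x780000000000000000000000000000000000000000000000000000000) (nat_lit 0x38000040000380000000000000000000000000000000000000000000000000) (nat_lit 4)
theorem c69946 : QOK q69946 := cut [q69944] ⟨c69944, trivial⟩ (nd (nat_lit 244) (nat_lit 0) (cs (lf (nat_lit 10) (nat_lit 222)) (nd (nat_lit 222) (nat_lit 0) (cs (lf (nat_lit 11) (nat_lit 221)) (rf (nat_lit 0)))))) q69946 (by decide +kernel)
def q69992 : Q := Q.p (nat_lit 0x4000030000080000000000000000000000000000000000000000000000000000000000000) (nat_lit 0x400001000008000000000000000200000800000000000000000000000000000000000000000000000000) (nat_lit 3)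
theorem c69992 : QOK q69992 := cut [q69991] ⟨c69991, trivial⟩ (nd (nat_lit 312) (nat_lit 0) (cs (lf (nat_lit 30) (nat_lit 246)) (rf (nat_lit 0)))) q69992 (by decide +kernel)
def q70007 : Q := Q.p (nat_lit 0x18000030000000000000000000000000000000000000000000000000000000000000000000) (nat_lit 0x6400000c000000000000000000000000000000000000000000000000000000000000000000) (nat_lit 3)
theorem c70007 : QOK q70007 := cut [q62049] ⟨c62049, trivial⟩ (nd (nat_lit 293) (nat_lit 0) (cs (lf (nat_lit 18) (nat_lit 268)) (rf (nat_lit 0)))) q70007 (by decide +kernel)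
def q70040 : Q := Q.p (nat_lit 0x20000380000a0000000000000000000000000000000000000000000000000000000000000) (nat_lit 0x8000000000000000580001e0000500000400000000000000000000000000000000000000000000) (nat_lit 5)
theorem c70040 : QOK q70040 := cut [q50698] ⟨c50698, trivial⟩ (nd (nat_lit 246) (nat_lit 0) (cs (rf (nat_lit 0)) (nd (nat_lit 244) (nat_lit 0) (cs (lf (nat_lit 0) (nat_lit 243)) (nd (nat_lit 222) (nat_lit 0) (cs (lf (nat_lit 23) (nat_lit 221)) (nd (nat_lit 200) (nat_lit 0) (cs (lf (nat_lit 24) (nat_lit 178)) (lf (nat_lit 45) (nat_lit 200)))))))))) q70040 (by decide +kernel)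
def q70072 : Q := Q.p (nat_lit 0x1000002000008000020000080000000000000000000000000000000000000000000000000000000000000) (nat_lit 0x400000800000000000000040000100000400000000000000000000000000000000000000000000000000000000) (nat_lit 3)
theorem c70072 : QOK q70072 := cut [q70071] ⟨c70071, trivial⟩ (nd (nat_lit 335) (nat_lit 0) (cs (lf (nat_lit 29) (nat_lit 269)) (rf (nat_lit 0)))) q70072 (by decide +kernel)
def q70079 : Q := Q.p (nat_lit 0xe000008000000000000000000000000000000000000000000000000000000000000000000000000) (nat_lit 0x10000017000000000000000000000000000000000000000000000000000000000000000000000000) (nat_lit 3)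
theorem c70079 : QOK q70079 := cut [q70078] ⟨c70078, trivial⟩ (nd (nat_lit 290) (nat_lit 0) (cs (lf (nat_lit 18) (nat_lit 290)) (rf (nat_lit 0)))) q70079 (by decide +kernel)
def q70100 : Q := Q.p (nat_lit 0x2000008000020000080000000000000000000000000000000000000000000000000000000000000) (nat_lit 0x500001c00005000000000000000000000000000000000000000000000000000000000000000000000000000000) (nat_lit 4)
theorem c70100 : QOK q70100 := cut [q70098] ⟨c70098, trivial⟩ (nd (nat_lit 334) (nat_lit 0) (cs (lf (nat_lit 40) (nat_lit 246)) (nd (nat_lit 336) (nat_lit 0) (cs (lf (nat_lit 28) (nat_lit 247)) (rf (nat_lit 0)))))) q70100 (by decide +kernel)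
def q70104 : Q := Q.p (nat_lit 0x200000800002000068000c000000000000000000000000000000000000000000000000000000000) (nat_lit 0x100000c00001000000000040000100003400000000000000000000000000000000000000000000000000000000) (nat_lit 5)
theorem c70104 : QOK q70104 := cut [q59188] ⟨c59188, trivial⟩ (nd (nat_lit 228) (nat_lit 0) (cs (lf (nat_lit 8) (nat_lit 227)) (nd (nat_lit 334) (nat_lit 0) (cs (lf (nat_lit 40) (nat_lit 246)) (nd (nat_lit 248) (nat_lit 0) (cs (lf (nat_lit 35) (nat_lit 225)) (rf (nat_lit 0)))))))) q70104 (by decide +kernel)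
def q70139 : Q := Q.p (nat_lit 0x18000020000080000200000000000000000000000000000000000000000000000000000000) (nat_lit 0x40000000000400001800004000000000000000000000000000000000000000000000) (nat_lit 3)
theorem c70139 : QOK q70139 := cut [q67411] ⟨c67411, trivial⟩ (nd (nat_lit 204) (nat_lit 0) (cs (lf (nat_lit 34) (nat_lit 203)) (rf (nat_lit 0)))) q70139 (by decide +kernel)
def q70153 : Q := Q.p (nat_lit 0x8000020000080000200000000000000000000000000000000000000000000000000000000) (nat_lit 0x4000010000040000000000400001800004000000000000000000000000000000000000000000000) (nat_lit 4)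
theorem c70153 : QOK q70153 := cut [q44702] ⟨c44702, trivial⟩ (nd (nat_lit 204) (nat_lit 0) (cs (lf (nat_lit 34) (nat_lit 203)) (nd (nat_lit 203) (nat_lit 0) (cs (lf (nat_lit 35) (nat_lit 181)) (rf (nat_lit 0)))))) q70153 (by decide +kernel)
def q70186 : Q := Q.p (nat_lit 0x8000020000780000000000000000000000000000000000000000000000000000000000000) (nat_lit 0x10000040000000000700001800006000000000000000000000000000000000000000000000) (nat_lit 5)
theorem c70186 : QOK q70186 := cut [q63689] ⟨c63689, trivial⟩ (nd (nat_lit 225) (nat_lit 0) (cs (lf (nat_lit 23) (nat_lit 224)) (nd (nat_lit 204) (nat_lit 0) (cs (lf (nat_lit 34) (nat_lit 203)) (rf (nat_lit 0)))))) q70186 (by decide +kernel)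
def q70199 : Q := Q.p (nat_lit 0x8000020000780000000000000000000000000000000000000000000000000000000000000) (nat_lit 0x1000004000040000000000700001c00007000004000000000000000000000000000000000000000) (nat_lit 7)
theorem c70199 : QOK q70199 := cut [q70195] ⟨c70195, trivial⟩ (nd (nat_lit 225) (nat_lit 0) (cs (lf (nat_lit 23) (nat_lit 224)) (nd (nat_lit 204) (nat_lit 0) (cs (lf (nat_lit 34) (nat_lit 203)) (nd (nat_lit 203) (nat_lit 0) (cs (lf (nat_lit 35) (nat_lit 181)) (nd (nat_lit 290) (nat_lit 0) (cs (lf (nat_lit 41) (nat_lit 224)) (rf (nat_lit 0)))))))))) q70199 (by decide +kernel)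
def q70270 : Q := Q.p (nat_lit 0x380001a0000200000000000000000000000000000000000000000000000000000000000000) (nat_lit 0x4000030000040000010000000000000000000000000000000000000000000000000000000000000000000) (nat_lit 3)
theorem c70270 : QOK q70270 := cut [q65896] ⟨c65896, trivial⟩ (nd (nat_lit 294) (nat_lit 0) (cs (lf (nat_lit 23) (nat_lit 268)) (rf (nat_lit 0)))) q70270 (by decide +kernel)
def q70277 : Q := Q.p (nat_lit 0x80000280000a0000280000000000000000000000000000000000000000000000000000000000000) (nat_lit 0x5000034000010000000000000000200000000000000000000000000000000000000000000000000000000) (nat_lit 4)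
theorem c70277 : QOK q70277 := cut [q70275] ⟨c70275, trivial⟩ (nd (nat_lit 316) (nat_lit 0) (cs (lf (nat_lit 29) (nat_lit 249)) (nd (nat_lit 314) (nat_lit 0) (cs (lf (nat_lit 41) (nat_lit 248)) (rf (nat_lit 0)))))) q70277 (by decide +kernel)
def q70292 : Q := Q.p (nat_lit 0x1e0000600000000000000000000000000000000000000000000000000000000000000) (nat_lit 0xe0000380000fc000000000000001000000000000000000000000000000000000000000000000000000000) (nat_lit 7)
theorem c70292 : QOK q70292 := cut [q47212] ⟨c47212, trivial⟩ (nd (nat_lit 291) (nat_lit 0) (cs (lf (nat_lit 11) (nat_lit 268)) (nd (nat_lit 294) (nat_lit 0) (cs (lf (nat_lit 5) (nat_lit 269)) (nd (nat_lit 316) (nat_lit 0) (cs (lf (nat_lit 42) (nat_lit 249)) (nd (nat_lit 315) (nat_lit 0) (cs (lf (nat_lit 41) (nat_lit 249)) (nd (nat_lit 293) (nat_lit 0) (cs (rf (nat_lit 0)) (lf (nat_lit 35) (nat_lit 227)))))))))))) q70292 (by decide +kernel)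
def q70305 : Q := Q.p (nat_lit 0x400001a0000600000000000000000000000000000000000000000000000000000000000000) (nat_lit 0x200000a0000040000000001000004000010000000000000000000000000000000000000000000000) (nat_lit 4)
theorem c70305 : QOK q70305 := cut [q52052] ⟨c52052, trivial⟩ (nd (nat_lit 295) (nat_lit 0) (cs (lf (nat_lit 1) (nat_lit 269)) (nd (nat_lit 228) (nat_lit 0) (cs (lf (nat_lit 29) (nat_lit 228)) (rf (nat_lit 0)))))) q70305 (by decide +kernel)
def q70391 : Q := Q.p (nat_lit 0x3c0000600000000000000000000000000000000000000000000000000000000000000) (nat_lit 0xf00007c0001b80000000001c0000400000000000000000000000000000000000000000000000000000000) (nat_lit 9)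
theorem c70391 : QOK q70391 := cut [q40967, q46832] ⟨c40967, c46832, trivial⟩ (nd (nat_lit 248) (nat_lit 0) (cs (rf (nat_lit 0)) (nd (nat_lit 295) (nat_lit 0) (cs (lf (nat_lit 5) (nat_lit 270)) (nd (nat_lit 317) (nat_lit 0) (cs (lf (nat_lit 42) (nat_lit 250)) (nd (nat_lit 292) (nat_lit 0) (cs (lf (nat_lit 11) (nat_lit 269)) (nd (nat_lit 314) (nat_lit 0) (cs (lf (nat_lit 30) (nat_lit 248)) (nd (nat_lit 315) (nat_lit 0) (cs (lf (nat_lit 29) (nat_lit 248)) (nd (nat_lit 293) (nat_lit 0) (cs (lf (nat_lit 47) (nat_lit 226)) (rf (nat_lit 1)))))))))))))))) q70391 (by decide +kernel)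
def q70453 : Q := Q.p (nat_lit 0x80001e0000080000000000000000000000000000000000000000000000000000000000000) (nat_lit 0x4000010000200000000000200000800000000000000000000000000000000000000000000000000) (nat_lit 3)
theorem c70453 : QOK q70453 := cut [q14234] ⟨c14234, trivial⟩ (nd (nat_lit 292) (nat_lit 0) (cs (rf (nat_lit 0)) (lf (nat_lit 6) (nat_lit 269)))) q70453 (by decide +kernel)
def q70468 : Q := Q.p (nat_lit 0x28000180000200000000000000000000000000000000000000000000000000000000000000) (nat_lit 0x4000030000054000200000000000000000000000000000000000000000000000000000000000000000000) (nat_lit 4)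
theorem c70468 : QOK q70468 := cut [q65896] ⟨c65896, trivial⟩ (nd (nat_lit 292) (nat_lit 0) (cs (lf (nat_lit 12) (nat_lit 268)) (nd (nat_lit 294) (nat_lit 0) (cs (lf (nat_lit 17) (nat_lit 269)) (rf (nat_lit 0)))))) q70468 (by decide +kernel)
def q70512 : Q := Q.p (nat_lit 0x920002680000000010000040000000000000000000000000000000000000000000000) (nat_lit 0x2ce0011700071c0000000000000000000000000000000000000000000000000000000) (nat_lit 9)
theorem c70512 : QOK q70512 := cut [q70235] ⟨c70235, trivial⟩ (nd (nat_lit 230) (nat_lit 0) (cs (lf (nat_lit 27) (nat_lit 186)) (nd (nat_lit 248) (nat_lit 0) (cs (lf (nat_lit 5) (nat_lit 247)) (nd (nat_lit 228) (nat_lit 0) (cs (lf (nat_lit 17) (nat_lit 225)) (nd (nat_lit 246) (nat_lit 0) (cs (lf (nat_lit 4) (nat_lit 246)) (nd (nat_lit 223) (nat_lit 0) (cs (lf (nat_lit 22) (nat_lit 223)) (nd (nat_lit 245) (nat_lit 0) (cs (lf (nat_lit 23) (nat_lit 222)) (nd (nat_lit 244) (nat_lit 0) (cs (lf (nat_lit 5) (nat_lit 244)) (rf (nat_lit 0)))))))))))))))) q70512 (by decide +kernel)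
def q70530 : Q := Q.p (nat_lit 0x800002000000200010e00040000000000000000000000000000000000000000000000) (nat_lit 0x1000004570000180000000000000000000000000000000000000000000000000) (nat_lit 5)
theorem c70530 : QOK q70530 := cut [q48747] ⟨c48747, trivial⟩ (nd (nat_lit 230) (nat_lit 0) (cs (lf (nat_lit 27) (nat_lit 186)) (rf (nat_lit 0)))) q70530 (by decide +kernel)
def q70531 : Q := Q.p (nat_lit 0x10000000000000001e00000800000000000000000000000000000000000000000000) (nat_lit 0x400001c0002000000000000000000000000000000000000000000000000000) (nat_lit 3)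
theorem c70531 : QOK q70531 := cut [q64627] ⟨c64627, trivial⟩ (nd (nat_lit 224) (nat_lit 0) (cs (rf (nat_lit 0)) (lf (nat_lit 43) (nat_lit 179)))) q70531 (by decide +kernel)
def q70541 : Q := Q.p (nat_lit 0xe000820002080000200010000040000000000000000000000000000000000000000000000) (nat_lit 0x1800057001000004400001000000000000000000000000000000000000000000000000000) (nat_lit 6)
theorem c70541 : QOK q70541 := cut [q69564] ⟨c69564, trivial⟩ (nd (nat_lit 230) (nat_lit 0) (cs (lf (nat_lit 27) (nat_lit 186)) (rf (nat_lit 0)))) q70541 (by decide +kernel)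
def q70561 : Q := Q.p (nat_lit 0x8000020000080000200000000000000000000000000000000000000000000000000000000) (nat_lit 0x1000004000010000000000400001800004000000000000000000000000000000000000000000000) (nat_lit 4)
theorem c70561 : QOK q70561 := cut [q59146] ⟨c59146, trivial⟩ (nd (nat_lit 290) (nat_lit 0) (cs (lf (nat_lit 41) (nat_lit 224)) (nd (nat_lit 203) (nat_lit 0) (cs (lf (nat_lit 40) (nat_lit 202)) (rf (nat_lit 0)))))) q70561 (by decide +kernel)
def q70571 : Q := Q.p (nat_lit 0xc000120000080000200000000000000000000000000000000000000000000000000000000) (nat_lit 0x4000070000098000000000000000000000000000000000000000000000000000000000000000000) (nat_lit 4)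
theorem c70571 : QOK q70571 := cut [q70569] ⟨c70569, trivial⟩ (nd (nat_lit 292) (nat_lit 0) (cs (lf (nat_lit 29) (nat_lit 225)) (nd (nat_lit 293) (nat_lit 0) (cs (lf (nat_lit 16) (nat_lit 268)) (rf (nat_lit 0)))))) q70571 (by decide +kernel)
def q70580 : Q := Q.p (nat_lit 0x2000008000820002080000000010000040000000000000000000000000000000000000000000000) (nat_lit 0x100000c00001000000000010001040004100000000000000000000000000000000000000000000000000000000) (nat_lit 5)
theorem c70580 : QOK q70580 := cut [q70577] ⟨c70577, trivial⟩ (nd (nat_lit 230) (nat_lit 0) (cs (lf (nat_lit 27) (nat_lit 186)) (nd (nat_lit 246) (nat_lit 0) (cs (lf (nat_lit 47) (nat_lit 224)) (nd (nat_lit 334) (nat_lit 0) (cs (lf (nat_lit 40) (nat_lit 246)) (rf (nat_lit 0)))))))) q70580 (by decide +kernel)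
def q70600 : Q := Q.p (nat_lit 0x20000080000200000800000000000000000000000000000000000000000000000000) (nat_lit 0x4000010000040000000000400003000004000000000000000000000000000000000000000) (nat_lit 4)
theorem c70600 : QOK q70600 := cut [q27277] ⟨c27277, trivial⟩ (nd (nat_lit 180) (nat_lit 0) (cs (lf (nat_lit 46) (nat_lit 180)) (nd (nat_lit 181) (nat_lit 0) (cs (lf (nat_lit 47) (nat_lit 158)) (rf (nat_lit 0)))))) q70600 (by decide +kernel)
def q70612 : Q := Q.p (nat_lit 0x2000008000820002080000000010000040000000000000000000000000000000000000000000000) (nat_lit 0x1000004000014000010001040004600001c00007000004000000000000000000000000000000000000000) (nat_lit 9)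
theorem c70612 : QOK q70612 := cut [q48896] ⟨c48896, trivial⟩ (nd (nat_lit 230) (nat_lit 0) (cs (lf (nat_lit 27) (nat_lit 186)) (rf (nat_lit 0)))) q70612 (by decide +kernel)
def q70614 : Q := Q.p (nat_lit 0xc000030000080000000000000000000000000000000000000000000000000000000000000) (nat_lit 0x400003000000c000000000200000800000000000000000000000000000000000000000000000000) (nat_lit 4)
theorem c70614 : QOK q70614 := cut [q50585] ⟨c50585, trivial⟩ (nd (nat_lit 225) (nat_lit 0) (cs (lf (nat_lit 36) (nat_lit 202)) (rf (nat_lit 0)))) q70614 (by decide +kernel)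
def q70663 : Q := Q.p (nat_lit 0x1e0000600000000000000000000000000000000000000000000000000000000000000) (nat_lit 0x700003c0000dc000200000000000000000000000000000000000000000000000000000000000000000000) (nat_lit 7)
theorem c70663 : QOK q70663 := cut [q70659] ⟨c70659, trivial⟩ (nd (nat_lit 294) (nat_lit 0) (cs (lf (nat_lit 5) (nat_lit 269)) (nd (nat_lit 291) (nat_lit 0) (cs (lf (nat_lit 11) (nat_lit 268)) (nd (nat_lit 292) (nat_lit 0) (cs (lf (nat_lit 6) (nat_lit 269)) (nd (nat_lit 314) (nat_lit 0) (cs (lf (nat_lit 30) (nat_lit 248)) (rf (nat_lit 0)))))))))) q70663 (by decide +kernel)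
def q70676 : Q := Q.p (nat_lit 0x60000600000000000000000000000000000000000000000000000000000000000000) (nat_lit 0x380009c000138000000000000000000000000000000000000000000000000000000000000) (nat_lit 6)
theorem c70676 : QOK q70676 := cut [q69691] ⟨c69691, trivial⟩ (nd (nat_lit 268) (nat_lit 0) (cs (lf (nat_lit 15) (nat_lit 246)) (nd (nat_lit 267) (nat_lit 0) (cs (rf (nat_lit 0)) (lf (nat_lit 16) (nat_lit 245)))))) q70676 (by decide +kernel)
def q70714 : Q := Q.p (nat_lit 0x30000600000000000000000000000000000000000000000000000000000000000000) (nat_lit 0xc8000180000000000000000000000000000000000000000000000000000000000000) (nat_lit 3)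
theorem c70714 : QOK q70714 := cut [q70672] ⟨c70672, trivial⟩ (nd (nat_lit 270) (nat_lit 0) (cs (lf (nat_lit 15) (nat_lit 246)) (rf (nat_lit 0)))) q70714 (by decide +kernel)
def q70716 : Q := Q.p (nat_lit 0x78000000000000000000000000000000000000000000000000000000000000000000) (nat_lit 0x3b800004000000000000000000000000000000000000000000000000000000000000000000) (nat_lit 4)
theorem c70716 : QOK q70716 := cut [q51030] ⟨c51030, trivial⟩ (nd (nat_lit 292) (nat_lit 0) (cs (lf (nat_lit 5) (nat_lit 267)) (nd (nat_lit 266) (nat_lit 0) (cs (lf (nat_lit 4) (nat_lit 266)) (rf (nat_lit 0)))))) q70716 (by decide +kernel)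
def q70733 : Q := Q.p (nat_lit 0x4000030000080000000000000000000000000000000000000000000000000000000000000) (nat_lit 0x400001000000000000000040000200000800000000000000000000000000000000000000000000000000) (nat_lit 3)
theorem c70733 : QOK q70733 := cut [q70732] ⟨c70732, trivial⟩ (nd (nat_lit 312) (nat_lit 0) (cs (lf (nat_lit 30) (nat_lit 246)) (rf (nat_lit 0)))) q70733 (by decide +kernel)
def q70736 : Q := Q.p (nat_lit 0x1000004000010000040000000000000000000000000000000000000000000000000000000000000) (nat_lit 0x200000800002000000000020000180000200000000000000000000000000000000000000000000000000) (nat_lit 4)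
theorem c70736 : QOK q70736 := cut [q50955] ⟨c50955, trivial⟩ (nd (nat_lit 311) (nat_lit 0) (cs (lf (nat_lit 41) (nat_lit 245)) (nd (nat_lit 224) (nat_lit 0) (cs (lf (nat_lit 40) (nat_lit 223)) (rf (nat_lit 0)))))) q70736 (by decide +kernel)
def q70738 : Q := Q.p (nat_lit 0x300000c000020000080000000000000000000000000000000000000000000000000000000000000) (nat_lit 0x100000c000003000000000000000000000000000000000000000000000000000000000000000000000000) (nat_lit 3)
theorem c70738 : QOK q70738 := cut [q70737] ⟨c70737, trivial⟩ (nd (nat_lit 314) (nat_lit 0) (cs (lf (nat_lit 29) (nat_lit 247)) (rf (nat_lit 0)))) q70738 (by decide +kernel)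
def q70762 : Q := Q.p (nat_lit 0x78000000000000000000000000000000000000000000000000000000000000000000) (nat_lit 0x38000004000038000000000000000000000000000000000000000000000000000000000000) (nat_lit 4)
theorem c70762 : QOK q70762 := cut [q50968] ⟨c50968, trivial⟩ (nd (nat_lit 292) (nat_lit 0) (cs (lf (nat_lit 5) (nat_lit 267)) (nd (nat_lit 266) (nat_lit 0) (cs (lf (nat_lit 4) (nat_lit 266)) (rf (nat_lit 0)))))) q70762 (by decide +kernel)
def q70765 : Q := Q.p (nat_lit 0x800002000018000000000000000000000000000000000000000000000000000000000000000000) (nat_lit 0x200000000004000000000040000100000400000000000000000000000000000000000000000000000000) (nat_lit 3)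
theorem c70765 : QOK q70765 := cut [q70764] ⟨c70764, trivial⟩ (nd (nat_lit 246) (nat_lit 0) (cs (lf (nat_lit 30) (nat_lit 245)) (rf (nat_lit 0)))) q70765 (by decide +kernel)
def q70813 : Q := Q.p (nat_lit 0x980002600008000010000040000000000000000000000000000000000000000000000) (nat_lit 0x20000000001000007000004000010000000000000000000000000000000000000000000000) (nat_lit 4)
theorem c70813 : QOK q70813 := cut [q52052] ⟨c52052, trivial⟩ (nd (nat_lit 230) (nat_lit 0) (cs (lf (nat_lit 27) (nat_lit 186)) (nd (nat_lit 228) (nat_lit 0) (cs (lf (nat_lit 8) (nat_lit 227)) (rf (nat_lit 0)))))) q70813 (by decide +kernel)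
def q70836 : Q := Q.p (nat_lit 0x80001a0000680000000000000000000000000000000000000000000000000000000000000) (nat_lit 0x1000004000040000100000300000400000000000000000000000000000000000000000000000000) (nat_lit 4)
theorem c70836 : QOK q70836 := cut [q46580] ⟨c46580, trivial⟩ (nd (nat_lit 290) (nat_lit 0) (cs (lf (nat_lit 8) (nat_lit 268)) (nd (nat_lit 225) (nat_lit 0) (cs (lf (nat_lit 41) (nat_lit 224)) (rf (nat_lit 0)))))) q70836 (by decide +kernel)
def q70846 : Q := Q.p (nat_lit 0x8000020000780000000000000000000000000000000000000000000000000000000000000) (nat_lit 0x1400007000014000000000000000300000000000000000000000000000000000000000000000000000000) (nat_lit 5)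
theorem c70846 : QOK q70846 := cut [q70845] ⟨c70845, trivial⟩ (nd (nat_lit 225) (nat_lit 0) (cs (lf (nat_lit 23) (nat_lit 224)) (rf (nat_lit 0)))) q70846 (by decide +kernel)
def q70854 : Q := Q.p (nat_lit 0x80001e0000600000000000000000000000000000000000000000000000000000000000000) (nat_lit 0xe00003c0000f0000000000000000000000000000000000000000000000000000000000000000000000000) (nat_lit 6)
theorem c70854 : QOK q70854 := cut [q47208] ⟨c47208, trivial⟩ (nd (nat_lit 294) (nat_lit 0) (cs (lf (nat_lit 5) (nat_lit 269)) (nd (nat_lit 316) (nat_lit 0) (cs (lf (nat_lit 42) (nat_lit 249)) (rf (nat_lit 0)))))) q70854 (by decide +kernel)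
def q70866 : Q := Q.p (nat_lit 0x80009a0002280000000010000040000000000000000000000000000000000000000000000) (nat_lit 0x2000000000000001140004600001000004000000000000000000000000000000000000000000000) (nat_lit 5)
theorem c70866 : QOK q70866 := cut [q59174] ⟨c59174, trivial⟩ (nd (nat_lit 248) (nat_lit 0) (cs (lf (nat_lit 0) (nat_lit 246)) (nd (nat_lit 230) (nat_lit 0) (cs (lf (nat_lit 27) (nat_lit 186)) (rf (nat_lit 0)))))) q70866 (by decide +kernel)
def q70891 : Q := Q.p (nat_lit 0x1e0000600000000000000000000000000000000000000000000000000000000000000) (nat_lit 0x780001f0000ec0000000001c0001400000000000000000000000000000000000000000000000000000000) (nat_lit 10)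
theorem c70891 : QOK q70891 := cut [q70883] ⟨c70883, trivial⟩ (nd (nat_lit 246) (nat_lit 0) (cs (lf (nat_lit 22) (nat_lit 246)) (nd (nat_lit 291) (nat_lit 0) (cs (lf (nat_lit 11) (nat_lit 268)) (nd (nat_lit 294) (nat_lit 0) (cs (lf (nat_lit 5) (nat_lit 269)) (nd (nat_lit 316) (nat_lit 0) (cs (lf (nat_lit 42) (nat_lit 249)) (nd (nat_lit 315) (nat_lit 0) (cs (lf (nat_lit 41) (nat_lit 249)) (nd (nat_lit 293) (nat_lit 0) (cs (lf (nat_lit 35) (nat_lit 227)) (nd (nat_lit 248) (nat_lit 0) (cs (lf (nat_lit 47) (nat_lit 226)) (nd (nat_lit 313) (nat_lit 0) (cs (lf (nat_lit 30) (nat_lit 247)) (rf (nat_lit 0)))))))))))))))))) q70891 (by decide +kernel)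
def q70933 : Q := Q.p (nat_lit 0x10000040000120000600000000000000000000000000000000000000000000000000000000000000) (nat_lit 0x40000000000800000d0000000000000000000000000000000000000000000000000000000000000000000) (nat_lit 3)
theorem c70933 : QOK q70933 := cut [q47071] ⟨c47071, trivial⟩ (nd (nat_lit 271) (nat_lit 0) (cs (lf (nat_lit 42) (nat_lit 249)) (rf (nat_lit 0)))) q70933 (by decide +kernel)
def q70937 : Q := Q.p (nat_lit 0x10000040000900002400000000010000040000000000000000000000000000000000000000000000) (nat_lit 0x280000e000028000000000000001000004000000000000000000000000000000000000000000000000000000000) (nat_lit 5)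
theorem c70937 : QOK q70937 := cut [q14126] ⟨c14126, trivial⟩ (nd (nat_lit 339) (nat_lit 0) (cs (lf (nat_lit 28) (nat_lit 250)) (nd (nat_lit 230) (nat_lit 0) (cs (lf (nat_lit 27) (nat_lit 186)) (nd (nat_lit 338) (nat_lit 0) (cs (lf (nat_lit 29) (nat_lit 272)) (rf (nat_lit 0)))))))) q70937 (by decide +kernel)
def q70961 : Q := Q.p (nat_lit 0x820002680008200010800040000000000000000000000000000000000000000000000) (nat_lit 0x10000040001100007000001000006000010000000000000000000000000000000000000000) (nat_lit 6)
theorem c70961 : QOK q70961 := cut [q46780] ⟨c46780, trivial⟩ (nd (nat_lit 230) (nat_lit 0) (cs (lf (nat_lit 27) (nat_lit 186)) (nd (nat_lit 228) (nat_lit 0) (cs (lf (nat_lit 8) (nat_lit 227)) (nd (nat_lit 182) (nat_lit 0) (cs (lf (nat_lit 34) (nat_lit 181)) (nd (nat_lit 270) (nat_lit 0) (cs (lf (nat_lit 29) (nat_lit 203)) (rf (nat_lit 0)))))))))) q70961 (by decide +kernel)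
def q70967 : Q := Q.p (nat_lit 0x20000080000300000800000000000000000000000000000000000000000000000000) (nat_lit 0x100000400000000004c0007400005000000000000000000000000000000000000000000000) (nat_lit 6)
theorem c70967 : QOK q70967 := cut [q70965] ⟨c70965, trivial⟩ (nd (nat_lit 180) (nat_lit 0) (cs (lf (nat_lit 46) (nat_lit 180)) (nd (nat_lit 270) (nat_lit 0) (cs (lf (nat_lit 29) (nat_lit 203)) (rf (nat_lit 0)))))) q70967 (by decide +kernel)
def q71021 : Q := Q.p (nat_lit 0x2000008000020000080000000000000000000000000000000000000000000000000000000000000) (nat_lit 0x100000c00001000000000040000100000400000000000000000000000000000000000000000000000000000000) (nat_lit 4)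
theorem c71021 : QOK q71021 := cut [q70071] ⟨c70071, trivial⟩ (nd (nat_lit 334) (nat_lit 0) (cs (lf (nat_lit 40) (nat_lit 246)) (nd (nat_lit 335) (nat_lit 0) (cs (lf (nat_lit 41) (nat_lit 268)) (rf (nat_lit 0)))))) q71021 (by decide +kernel)
def q71030 : Q := Q.p (nat_lit 0x20000680000200000000000000000000000000000000000000000000000000000000) (nat_lit 0x4000010000140000000001800006000010000000000000000000000000000000000000000) (nat_lit 5)
theorem c71030 : QOK q71030 := cut [q71029] ⟨c71029, trivial⟩ (nd (nat_lit 268) (nat_lit 0) (cs (lf (nat_lit 8) (nat_lit 246)) (rf (nat_lit 0)))) q71030 (by decide +kernel)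
def q71059 : Q := Q.p (nat_lit 0x920002680008200010000040000000000000000000000000000000000000000000000) (nat_lit 0x140000700003c000080001000007400007c00017000004000000000000000000000000000000000000000) (nat_lit 10)
theorem c71059 : QOK q71059 := cut [q70845, q45099] ⟨c70845, c45099, trivial⟩ (nd (nat_lit 291) (nat_lit 0) (cs (rf (nat_lit 0)) (nd (nat_lit 230) (nat_lit 0) (cs (lf (nat_lit 27) (nat_lit 186)) (nd (nat_lit 228) (nat_lit 0) (cs (lf (nat_lit 8) (nat_lit 227)) (nd (nat_lit 204) (nat_lit 0) (cs (lf (nat_lit 34) (nat_lit 203)) (nd (nat_lit 203) (nat_lit 0) (cs (lf (nat_lit 35) (nat_lit 181)) (nd (nat_lit 180) (nat_lit 0) (cs (lf (nat_lit 46) (nat_lit 180)) (nd (nat_lit 181) (nat_lit 0) (cs (lf (nat_lit 47) (nat_lit 158)) (nd (nat_lit 206) (nat_lit 0) (cs (rf (nat_lit 1)) (lf (nat_lit 19) (nat_lit 180)))))))))))))))))) q71059 (by decide +kernel)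
def q71074 : Q := Q.p (nat_lit 0x20000100000780000000000000000000000000000000000000000000000000000000000000) (nat_lit 0x2000008000000000080000040000400000000000000000000000000000000000000000000000000000000) (nat_lit 3)
theorem c71074 : QOK q71074 := cut [q57236] ⟨c57236, trivial⟩ (nd (nat_lit 271) (nat_lit 0) (cs (lf (nat_lit 0) (nat_lit 246)) (rf (nat_lit 0)))) q71074 (by decide +kernel)
def q71199 : Q := Q.p (nat_lit 0x8000030000080000200000000000000000000000000000000000000000000000000000000) (nat_lit 0x100001c00007000010000000000040000000000000000000000000000000000000000000000000000000000000) (nat_lit 5)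
theorem c71199 : QOK q71199 := cut [q48770] ⟨c48770, trivial⟩ (nd (nat_lit 314) (nat_lit 0) (cs (lf (nat_lit 28) (nat_lit 225)) (nd (nat_lit 313) (nat_lit 0) (cs (lf (nat_lit 29) (nat_lit 247)) (nd (nat_lit 335) (nat_lit 0) (cs (rf (nat_lit 0)) (lf (nat_lit 47) (nat_lit 246)))))))) q71199 (by decide +kernel)
def q71242 : Q := Q.p (nat_lit 0x3c000040000000000000000000000000000000000000000000000000000000000000) (nat_lit 0x1c000002000080000000000000000000000000000000000000000000000000000000000000) (nat_lit 3)
theorem c71242 : QOK q71242 := cut [q71219] ⟨c71219, trivial⟩ (nd (nat_lit 265) (nat_lit 0) (cs (rf (nat_lit 0)) (lf (nat_lit 17) (nat_lit 243)))) q71242 (by decide +kernel)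
def q71248 : Q := Q.p (nat_lit 0x838002040000000010000040000000000000000000000000000000000000000000000) (nat_lit 0x80000200001c000006001080004100000400000000000000000000000000000000000000000000000000) (nat_lit 6)
theorem c71248 : QOK q71248 := cut [q50589] ⟨c50589, trivial⟩ (nd (nat_lit 291) (nat_lit 0) (cs (nd (nat_lit 266) (nat_lit 0) (cs (lf (nat_lit 5) (nat_lit 266)) (nd (nat_lit 265) (nat_lit 0) (cs (lf (nat_lit 4) (nat_lit 265)) (lf (nat_lit 17) (nat_lit 243)))))) (cs (nd (nat_lit 230) (nat_lit 0) (cs (lf (nat_lit 27) (nat_lit 186)) (nd (nat_lit 313) (nat_lit 0) (cs (lf (nat_lit 42) (nat_lit 246)) (nd (nat_lit 224) (nat_lit 0) (cs (lf (nat_lit 24) (nat_lit 202)) (lf (nat_lit 27) (nat_lit 224)))))))) (nd (nat_lit 230) (nat_lit 0) (cs (lf (nat_lit 27) (nat_lit 186)) (nd (nat_lit 266) (nat_lit 0) (cs (lf (nat_lit 5) (nat_lit 266)) (nd (nat_lit 247) (nat_lit 0) (cs (lf (nat_lit 12) (nat_lit 243)) (rf (nat_lit 0))))))))))) q71248 (by decide +kernel)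
def q71320 : Q := Q.p (nat_lit 0x60000980002600000000000000000000000000000000000000000000000000000000000000) (nat_lit 0x3e0000f8000100000600000000000000000000000000000000000000000000000000000000000000000000) (nat_lit 7)
theorem c71320 : QOK q71320 := cut [q65647] ⟨c65647, trivial⟩ (nd (nat_lit 316) (nat_lit 0) (cs (lf (nat_lit 42) (nat_lit 249)) (nd (nat_lit 317) (nat_lit 0) (cs (lf (nat_lit 29) (nat_lit 250)) (nd (nat_lit 318) (nat_lit 0) (cs (lf (nat_lit 18) (nat_lit 293)) (nd (nat_lit 315) (nat_lit 0) (cs (lf (nat_lit 30) (nat_lit 249)) (rf (nat_lit 0)))))))))) q71320 (by decide +kernel)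
def q71471 : Q := Q.p (nat_lit 0x70000100000000000000000000000000000000000000000000000000000000000000000000) (nat_lit 0x380000c000238000000000000000000000000000000000000000000000000000000000000000000) (nat_lit 5)
theorem c71471 : QOK q71471 := cut [q61764] ⟨c61764, trivial⟩ (nd (nat_lit 291) (nat_lit 0) (cs (lf (nat_lit 17) (nat_lit 269)) (rf (nat_lit 0)))) q71471 (by decide +kernel)
def q71486 : Q := Q.p (nat_lit 0x70000900002000000000010000040000000000000000000000000000000000000000000000) (nat_lit 0x3b80000c000200001000004000000000000000000000000000000000000000000000000000000000) (nat_lit 6)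
theorem c71486 : QOK q71486 := cut [q71474] ⟨c71474, trivial⟩ (nd (nat_lit 230) (nat_lit 0) (cs (lf (nat_lit 27) (nat_lit 186)) (nd (nat_lit 291) (nat_lit 0) (cs (lf (nat_lit 17) (nat_lit 269)) (rf (nat_lit 0)))))) q71486 (by decide +kernel)
def q71503 : Q := Q.p (nat_lit 0x10000060000900002400000000010000040000000000000000000000000000000000000000000000) (nat_lit 0x80000e0000380000e00000800000000000000100000c000020000000000000000000000000000000000000000000000000000) (nat_lit 8)
theorem c71503 : QOK q71503 := cut [q14126, q28149] ⟨c14126, c28149, trivial⟩ (nd (nat_lit 338) (nat_lit 0) (cs (rf (nat_lit 0)) (cs (nd (nat_lit 230) (nat_lit 0) (cs (lf (nat_lit 27) (nat_lit 186)) (nd (nat_lit 209) (nat_lit 0) (cs (lf (nat_lit 44) (nat_lit 186)) (nd (nat_lit 361) (nat_lit 0) (cs (lf (nat_lit 28) (nat_lit 272)) (nd (nat_lit 360) (nat_lit 0) (cs (lf (nat_lit 29) (nat_lit 294)) (nd (nat_lit 382) (nat_lit 0) (cs (nd (nat_lit 381) (nat_lit 0) (cs (lf (nat_lit 41) (nat_lit 315)) (lf (nat_lit 40) (nat_lit 293)))) (lf (nat_lit 46) (nat_lit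 293)))))))))))) (cs (nd (nat_lit 359) (nat_lit 0) (cs (lf (nat_lit 40) (nat_lit 271)) (nd (nat_lit 230) (nat_lit 0) (cs (lf (nat_lit 27) (nat_lit 186)) (nd (nat_lit 361) (nat_lit 0) (cs (rf (nat_lit 1)) (lf (nat_lit 28) (nat_lit 272)))))))) (nd (nat_lit 209) (nat_lit 0) (cs (lf (nat_lit 44) (nat_lit 186)) (nd (nat_lit 361) (nat_lit 0) (cs (lf (nat_lit 28) (nat_lit 272)) (nd (nat_lit 230) (nat_lit 0) (cs (lf (nat_lit 27) (nat_lit 186)) (nd (nat_lit 360) (nat_lit 0) (cs (lf (nat_lit 29) (nat_lit 294)) (nd (nat_lit 315) (nat_lit 0) (cs (lf (nat_lit 41) (nat_lit 249)) (lf (nat_lit 42) (nat_lit 293)))))))))))))))) q71503 (by decide +kernel)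
def q71520 : Q := Q.p (nat_lit 0x10000060000d00002400008000010000040000000000000000000000000000000000000000000000) (nat_lit 0x80000e0000100000000001000004000000000000000000000000000000000000000000000000000000000) (nat_lit 4)
theorem c71520 : QOK q71520 := cut [q17066] ⟨c17066, trivial⟩ (nd (nat_lit 252) (nat_lit 0) (cs (lf (nat_lit 26) (nat_lit 186)) (nd (nat_lit 318) (nat_lit 0) (cs (rf (nat_lit 0)) (lf (nat_lit 31) (nat_lit 230)))))) q71520 (by decide +kernel)
def q71570 : Q := Q.p (nat_lit 0x78000100000200000000000000000000000000000000000000000000000000000000000000) (nat_lit 0x4000030000004000080000000000000000000000000000000000000000000000000000000000000000000) (nat_lit 3)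
theorem c71570 : QOK q71570 := cut [q65896] ⟨c65896, trivial⟩ (nd (nat_lit 271) (nat_lit 0) (cs (lf (nat_lit 12) (nat_lit 268)) (rf (nat_lit 0)))) q71570 (by decide +kernel)
def q71578 : Q := Q.p (nat_lit 0xf0000100000400000000000000000000000000000000000000000000000000000000000000) (nat_lit 0x2000008000070000000000000000000000000000000000000000000000000000000000000000000000000000000) (nat_lit 3)
theorem c71578 : QOK q71578 := cut [q14187] ⟨c14187, trivial⟩ (nd (nat_lit 317) (nat_lit 0) (cs (rf (nat_lit 0)) (lf (nat_lit 5) (nat_lit 292)))) q71578 (by decide +kernel)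
def q71590 : Q := Q.p (nat_lit 0x70000900002400000000010000040000000000000000000000000000000000000000000000) (nat_lit 0x200000800007700018c0004c0001000004000000000000000000000000000000000000000000000000000000000) (nat_lit 9)
theorem c71590 : QOK q71590 := cut [q71580, q14187, q58538] ⟨c71580, c14187, c58538, trivial⟩ (nd (nat_lit 317) (nat_lit 0) (cs (rf (nat_lit 0)) (cs (nd (nat_lit 230) (nat_lit 0) (cs (lf (nat_lit 27) (nat_lit 186)) (nd (nat_lit 295) (nat_lit 0) (cs (lf (nat_lit 5) (nat_lit 292)) (nd (nat_lit 296) (nat_lit 0) (cs (lf (nat_lit 16) (nat_lit 271)) (nd (nat_lit 339) (nat_lit 0) (cs (lf (nat_lit 42) (nat_lit 272)) (nd (nat_lit 313) (nat_lit 0) (cs (lf (nat_lit 10) (nat_lit 291)) (nd (nat_lit 291) (nat_lit 0) (cs (lf (nat_lit 11) (nat_lit 290)) (nd (nat_lit 271) (nat_lit 0) (cs (lf (nat_lit 23) (nat_lit 270)) (lf (nat_lit 12) (nat_lit 268)))))))))))))))) (cs (nd (nat_lit 295) (nat_lit 0) (cs (rf (nat_lit 1)) (lf (nat_lit 5) (nat_lit 292)))) (nd (nat_lit 295) (nat_lit 0) (cs (lf (nat_lit 5) (nat_lit 292))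 (rf (nat_lit 2)))))))) q71590 (by decide +kernel)
def q71619 : Q := Q.p (nat_lit 0x78000100000200000000000000000000000000000000000000000000000000000000000000) (nat_lit 0x4000030000004000080000000000000000000000000000000000000000000000000000000000000000000) (nat_lit 3)
theorem c71619 : QOK q71619 := cut [q63439] ⟨c63439, trivial⟩ (nd (nat_lit 316) (nat_lit 0) (cs (lf (nat_lit 5) (nat_lit 291)) (rf (nat_lit 0)))) q71619 (by decide +kernel)
def q71645 : Q := Q.p (nat_lit 0x60000d80002600000000010000040000000000000000000000000000000000000000000000) (nat_lit 0xc0000f000010000000000100000c000020000000000000000000000000000000000000000000000000000) (nat_lit 6)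
theorem c71645 : QOK q71645 := cut [q71641] ⟨c71641, trivial⟩ (nd (nat_lit 231) (nat_lit 0) (cs (lf (nat_lit 45) (nat_lit 186)) (nd (nat_lit 316) (nat_lit 0) (cs (lf (nat_lit 42) (nat_lit 249)) (nd (nat_lit 317) (nat_lit 0) (cs (lf (nat_lit 29) (nat_lit 250)) (nd (nat_lit 252) (nat_lit 0) (cs (lf (nat_lit 26) (nat_lit 186)) (rf (nat_lit 0)))))))))) q71645 (by decide +kernel)
def q71702 : Q := Q.p (nat_lit 0x800002000000000070000040000000000000000000000000000000000000000000000) (nat_lit 0x1000006000080000020000000000000000000000000000000000000000000000) (nat_lit 3)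
theorem c71702 : QOK q71702 := cut [q1167] ⟨c1167, trivial⟩ (nd (nat_lit 230) (nat_lit 0) (cs (lf (nat_lit 27) (nat_lit 186)) (rf (nat_lit 0)))) q71702 (by decide +kernel)
def q71765 : Q := Q.p (nat_lit 0x20000980002600000000010000040000000000000000000000000000000000000000000000) (nat_lit 0xf00007c00019c00064000100000c000020000000000000000000000000000000000000000000000000000) (nat_lit 10)
theorem c71765 : QOK q71765 := cut [q71758, q71759] ⟨c71758, c71759, trivial⟩ (nd (nat_lit 209) (nat_lit 0) (cs (lf (nat_lit 44) (nat_lit 186)) (nd (nat_lit 315) (nat_lit 0) (cs (lf (nat_lit 30) (nat_lit 249)) (nd (nat_lit 314) (nat_lit 0) (cs (lf (nat_lit 41) (nat_lit 248)) (nd (nat_lit 292) (nat_lit 0) (cs (nd (nat_lit 273) (nat_lit 0) (cs (lf (nat_lit 6) (nat_lit 270)) (nd (nat_lit 230) (nat_lit 0) (cs (lf (nat_lit 27) (nat_lit 186)) (nd (nat_lit 316) (nat_lit 0) (cs (lf (nat_lit 29) (nat_lit 249)) (nd (nat_lit 317) (nat_lit 0) (cs (lf (nat_lit 18) (nat_lit 292)) (nd (nat_lit 295) (nat_lit 0) (cs (lf (nat_lit 42) (nat_lit 250)) (lf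 (nat_lit 17) (nat_lit 292)))))))))))) (cs (rf (nat_lit 0)) (nd (nat_lit 230) (nat_lit 0) (cs (lf (nat_lit 27) (nat_lit 186)) (nd (nat_lit 291) (nat_lit 0) (cs (lf (nat_lit 12) (nat_lit 268)) (rf (nat_lit 1))))))))))))))) q71765 (by decide +kernel)
def q71889 : Q := Q.p (nat_lit 0x60000180000600000000000000000000000000000000000000000000000000000000000000) (nat_lit 0xc0000f0000190000060000000000000000000000000000000000000000000000000000000000000000000) (nat_lit 6)
theorem c71889 : QOK q71889 := cut [q47554] ⟨c47554, trivial⟩ (nd (nat_lit 316) (nat_lit 0) (cs (lf (nat_lit 42) (nat_lit 249)) (nd (nat_lit 317) (nat_lit 0) (cs (lf (nat_lit 29) (nat_lit 250)) (nd (nat_lit 318) (nat_lit 0) (cs (lf (nat_lit 18) (nat_lit 293)) (nd (nat_lit 295) (nat_lit 0) (cs (lf (nat_lit 0) (nat_lit 292)) (rf (nat_lit 0)))))))))) q71889 (by decide +kernel)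
def q71920 : Q := Q.p (nat_lit 0x20000800002780000000010000040000000000000000000000000000000000000000000000) (nat_lit 0x80000080000f0001000004700001c00007000004000000000000000000000000000000000000000) (nat_lit 8)
theorem c71920 : QOK q71920 := cut [q63703, q45687] ⟨c63703, c45687, trivial⟩ (nd (nat_lit 269) (nat_lit 0) (cs (lf (nat_lit 11) (nat_lit 246)) (nd (nat_lit 204) (nat_lit 0) (cs (rf (nat_lit 0)) (cs (nd (nat_lit 226) (nat_lit 0) (cs (lf (nat_lit 36) (nat_lit 181)) (nd (nat_lit 270) (nat_lit 0) (cs (lf (nat_lit 28) (nat_lit 204)) (lf (nat_lit 41) (nat_lit 203)))))) (cs (nd (nat_lit 230) (nat_lit 0) (cs (lf (nat_lit 27) (nat_lit 186)) (nd (nat_lit 225) (nat_lit 0) (cs (lf (nat_lit 23) (nat_lit 224)) (nd (nat_lit 203) (nat_lit 0) (cs (lf (nat_lit 35) (nat_lit 181)) (nd (nat_lit 181) (nat_lit 0) (cs (lf (nat_lit 29) (nat_lit 181)) (rf (nat_lit 1)))))))))) (nd (nat_lit 230) (nat_lit 0) (cs (lf (nat_lit 27) (nat_lit 186)) (nd (nat_lit 225) (nat_lit 0) (cs (lf (nat_lit 23) (nat_lit 224)) (nd (nat_lit 226) (nat_lit 0)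 (cs (lf (nat_lit 30) (nat_lit 203)) (nd (nat_lit 271) (nat_lit 0) (cs (lf (nat_lit 42) (nat_lit 226)) (lf (nat_lit 27) (nat_lit 204)))))))))))))))) q71920 (by decide +kernel)
def q71939 : Q := Q.p (nat_lit 0x60000d80002600000000010000040000000000000000000000000000000000000000000000) (nat_lit 0xd000036000198000060000000008000020000000000000000000000000000000000000000000000000000) (nat_lit 8)
theorem c71939 : QOK q71939 := cut [q64821] ⟨c64821, trivial⟩ (nd (nat_lit 295) (nat_lit 0) (cs (lf (nat_lit 15) (nat_lit 271)) (nd (nat_lit 270) (nat_lit 0) (cs (lf (nat_lit 0) (nat_lit 269)) (nd (nat_lit 209) (nat_lit 0) (cs (lf (nat_lit 44) (nat_lit 186)) (nd (nat_lit 316) (nat_lit 0) (cs (lf (nat_lit 42) (nat_lit 249)) (nd (nat_lit 317) (nat_lit 0) (cs (lf (nat_lit 29) (nat_lit 250)) (nd (nat_lit 292) (nat_lit 0) (cs (lf (nat_lit 0) (nat_lit 291)) (rf (nat_lit 0)))))))))))))) q71939 (by decide +kernel)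
def q71976 : Q := Q.p (nat_lit 0x10000068000180000600000000000000000000000000000000000000000000000000000000000000) (nat_lit 0x300000f000004000000000000000000000000000000000000000000000000000000000000000000000000) (nat_lit 4)
theorem c71976 : QOK q71976 := cut [q46687] ⟨c46687, trivial⟩ (nd (nat_lit 315) (nat_lit 0) (cs (lf (nat_lit 30) (nat_lit 249)) (rf (nat_lit 0)))) q71976 (by decide +kernel)
def q71987 : Q := Q.p (nat_lit 0xc000028000080000200000000000000000000000000000000000000000000000000000000000000) (nat_lit 0x40000130000c4000000000000000000000000000000000000000000000000000000000000000000000000) (nat_lit 4)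
theorem c71987 : QOK q71987 := cut [q71986] ⟨c71986, trivial⟩ (nd (nat_lit 316) (nat_lit 0) (cs (lf (nat_lit 29) (nat_lit 249)) (rf (nat_lit 0)))) q71987 (by decide +kernel)
def q72088 : Q := Q.p (nat_lit 0x8000030000900002600000000010000040000000000000000000000000000000000000000000000) (nat_lit 0x800002000004000000000640001180004400000000000000000000000000000000000000000000000000000000) (nat_lit 6)
theorem c72088 : QOK q72088 := cut [q63347] ⟨c63347, trivial⟩ (nd (nat_lit 230) (nat_lit 0) (cs (lf (nat_lit 27) (nat_lit 186)) (nd (nat_lit 273) (nat_lit 0) (cs (lf (nat_lit 19) (nat_lit 249)) (nd (nat_lit 248) (nat_lit 0) (cs (lf (nat_lit 0) (nat_lit 247)) (nd (nat_lit 270) (nat_lit 0) (cs (lf (nat_lit 24) (nat_lit 226)) (rf (nat_lit 0)))))))))) q72088 (by decide +kernel)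
def q72115 : Q := Q.p (nat_lit 0x2000008000070000020000000000000000000000000000000000000000000000000000000000000000000) (nat_lit 0x4000080000040000100000400000000000000000000000000000000000000000000000000000000) (nat_lit 3)
theorem c72115 : QOK q72115 := cut [q48136] ⟨c48136, trivial⟩ (nd (nat_lit 270) (nat_lit 0) (cs (lf (nat_lit 18) (nat_lit 269)) (rf (nat_lit 0)))) q72115 (by decide +kernel)
def q72191 : Q := Q.p (nat_lit 0xe000020000080000200000000000000000000000000000000000000000000000000000000000000) (nat_lit 0x4c000300001dc000000000000000000000000000000000000000000000000000000000000000000000000) (nat_lit 6)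
theorem c72191 : QOK q72191 := cut [q71835] ⟨c71835, trivial⟩ (nd (nat_lit 316) (nat_lit 0) (cs (lf (nat_lit 29) (nat_lit 249)) (nd (nat_lit 291) (nat_lit 0) (cs (lf (nat_lit 23) (nat_lit 290)) (nd (nat_lit 334) (nat_lit 0) (cs (lf (nat_lit 10) (nat_lit 312)) (nd (nat_lit 317) (nat_lit 0) (cs (lf (nat_lit 22) (nat_lit 291)) (rf (nat_lit 0)))))))))) q72191 (by decide +kernel)
def q72221 : Q := Q.p (nat_lit 0x60000980000600000000000000000000000000000000000000000000000000000000000000) (nat_lit 0x4000018000600000000000800002000000000000000000000000000000000000000000000000000) (nat_lit 4)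
theorem c72221 : QOK q72221 := cut [q52265] ⟨c52265, trivial⟩ (nd (nat_lit 227) (nat_lit 0) (cs (lf (nat_lit 24) (nat_lit 205)) (nd (nat_lit 273) (nat_lit 0) (cs (lf (nat_lit 19) (nat_lit 249)) (rf (nat_lit 0)))))) q72221 (by decide +kernel)
def q72266 : Q := Q.p (nat_lit 0x20000080000200000800000000000000000000000000000000000000000000000000) (nat_lit 0x4000010000040000000001000006000010000000000000000000000000000000000000000) (nat_lit 4)
theorem c72266 : QOK q72266 := cut [q27277] ⟨c27277, trivial⟩ (nd (nat_lit 182) (nat_lit 0) (cs (lf (nat_lit 34) (nat_lit 181)) (nd (nat_lit 181) (nat_lit 0) (cs (lf (nat_lit 35) (nat_lit 159)) (rf (nat_lit 0)))))) q72266 (by decide +kernel)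
def q72339 : Q := Q.p (nat_lit 0x20000080000300000000000000000000000000000000000000000000000000000000000000) (nat_lit 0x8000000000000000000000c00001000004000000000000000000000000000000000000000000000) (nat_lit 3)
theorem c72339 : QOK q72339 := cut [q58830] ⟨c58830, trivial⟩ (nd (nat_lit 226) (nat_lit 0) (cs (lf (nat_lit 42) (nat_lit 226)) (rf (nat_lit 0)))) q72339 (by decide +kernel)
def q72352 : Q := Q.p (nat_lit 0x80000300000000001000000000000000000000000000000000000000000000000000) (nat_lit 0x8000020000000000000000c00000000004000000000000000000000000000000000000000000000) (nat_lit 3)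
theorem c72352 : QOK q72352 := cut [q63799] ⟨c63799, trivial⟩ (nd (nat_lit 226) (nat_lit 0) (cs (lf (nat_lit 24) (nat_lit 182)) (rf (nat_lit 0)))) q72352 (by decide +kernel)
def q72364 : Q := Q.p (nat_lit 0x18000040000100000000000000000000000000000000000000000000000000000000) (nat_lit 0x2000000000020000000000c00003000008000000000000000000000000000000000000000) (nat_lit 4)
theorem c72364 : QOK q72364 := cut [q72362] ⟨c72362, trivial⟩ (nd (nat_lit 202) (nat_lit 0) (cs (lf (nat_lit 41) (nat_lit 201)) (nd (nat_lit 181) (nat_lit 0) (cs (lf (nat_lit 34) (nat_lit 180)) (rf (nat_lit 0)))))) q72364 (by decide +kernel)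
def q72372 : Q := Q.p (nat_lit 0x4000010000040000100000000000000000000000000000000000000000000000000000000) (nat_lit 0x800003000008000000000020000080000200000000000000000000000000000000000000000000000000) (nat_lit 4)
theorem c72372 : QOK q72372 := cut [q72371] ⟨c72371, trivial⟩ (nd (nat_lit 223) (nat_lit 0) (cs (lf (nat_lit 47) (nat_lit 201)) (rf (nat_lit 0)))) q72372 (by decide +kernel)
def q72384 : Q := Q.p (nat_lit 0x100000c0000300000400000000000000000000000000000000000000000000000000000000) (nat_lit 0x80000300000c000000000000000000000000000000000000000000000) (nat_lit 3)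
theorem c72384 : QOK q72384 := cut [q46745] ⟨c46745, trivial⟩ (nd (nat_lit 204) (nat_lit 0) (cs (lf (nat_lit 24) (nat_lit 182)) (rf (nat_lit 0)))) q72384 (by decide +kernel)
def q72489 : Q := Q.p (nat_lit 0x10000080000200000800030000040000000000000000000000000000000000000000000000) (nat_lit 0x40000000000000006000038000040000000000000000000000000000000000000000) (nat_lit 4)
theorem c72489 : QOK q72489 := cut [q67225] ⟨c67225, trivial⟩ (nd (nat_lit 205) (nat_lit 0) (cs (lf (nat_lit 40) (nat_lit 204)) (rf (nat_lit 0)))) q72489 (by decide +kernel)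
def q72523 : Q := Q.p (nat_lit 0x1c0000180000600000000000000000000000000000000000000000000000000000000000000) (nat_lit 0xe00003c000000000000000000000000000000000000000000000000000000000000000000000000000000) (nat_lit 4)
theorem c72523 : QOK q72523 := cut [q46629] ⟨c46629, trivial⟩ (nd (nat_lit 316) (nat_lit 0) (cs (lf (nat_lit 42) (nat_lit 249)) (nd (nat_lit 317) (nat_lit 0) (cs (lf (nat_lit 29) (nat_lit 250)) (rf (nat_lit 0)))))) q72523 (by decide +kernel)
def q72562 : Q := Q.p (nat_lit 0x80000200008c0002200000000010000040000000000000000000000000000000000000000000000) (nat_lit 0x50000160001c0000000001000004800000000000000000000000000000000000000000000000000000000) (nat_lit 6)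
theorem c72562 : QOK q72562 := cut [q47186] ⟨c47186, trivial⟩ (nd (nat_lit 230) (nat_lit 0) (cs (lf (nat_lit 27) (nat_lit 186)) (nd (nat_lit 316) (nat_lit 0) (cs (lf (nat_lit 29) (nat_lit 249)) (nd (nat_lit 294) (nat_lit 0) (cs (lf (nat_lit 24) (nat_lit 227)) (nd (nat_lit 295) (nat_lit 0) (cs (lf (nat_lit 18) (nat_lit 270)) (rf (nat_lit 0)))))))))) q72562 (by decide +kernel)
def q72578 : Q := Q.p (nat_lit 0x80000200000c0000200000000000000000000000000000000000000000000000000000000000000) (nat_lit 0x6000010000050000000000100000800002000008000000000000000000000000000000000000000000000) (nat_lit 5)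
theorem c72578 : QOK q72578 := cut [q72577] ⟨c72577, trivial⟩ (nd (nat_lit 316) (nat_lit 0) (cs (lf (nat_lit 29) (nat_lit 249)) (rf (nat_lit 0)))) q72578 (by decide +kernel)
def q72584 : Q := Q.p (nat_lit 0x1c0000200000c0000000000000000000000000000000000000000000000000000000000000000000) (nat_lit 0x80000200002000001c000000000100000000000000000000000000000000000000000000000000000000000000) (nat_lit 4)
theorem c72584 : QOK q72584 := cut [q54928] ⟨c54928, trivial⟩ (nd (nat_lit 337) (nat_lit 0) (cs (lf (nat_lit 47) (nat_lit 248)) (nd (nat_lit 292) (nat_lit 0) (cs (lf (nat_lit 42) (nat_lit 270)) (rf (nat_lit 0)))))) q72584 (by decide +kernel)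
def q72616 : Q := Q.p (nat_lit 0x80000200008c0002200000000010000040000000000000000000000000000000000000000000000) (nat_lit 0x1000006000010000000000000000100008000020000000000000000000000000000000000000000000000000000) (nat_lit 4)
theorem c72616 : QOK q72616 := cut [q54934] ⟨c54934, trivial⟩ (nd (nat_lit 209) (nat_lit 0) (cs (lf (nat_lit 44) (nat_lit 186)) (nd (nat_lit 337) (nat_lit 0) (cs (lf (nat_lit 47) (nat_lit 248)) (rf (nat_lit 0)))))) q72616 (by decide +kernel)
def q72633 : Q := Q.p (nat_lit 0x380008c0002000000000010000040000000000000000000000000000000000000000000000) (nat_lit 0x38001c6000020001000004000000000000000000000000000000000000000000000000000000000) (nat_lit 6)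
theorem c72633 : QOK q72633 := cut [q64825] ⟨c64825, trivial⟩ (nd (nat_lit 230) (nat_lit 0) (cs (lf (nat_lit 27) (nat_lit 186)) (nd (nat_lit 290) (nat_lit 0) (cs (lf (nat_lit 12) (nat_lit 267)) (nd (nat_lit 312) (nat_lit 0) (cs (lf (nat_lit 11) (nat_lit 289)) (nd (nat_lit 294) (nat_lit 0) (cs (lf (nat_lit 10) (nat_lit 290)) (rf (nat_lit 0)))))))))) q72633 (by decide +kernel)
def q72658 : Q := Q.p (nat_lit 0xc0000200000800030000040000000000000000000000000000000000000000000000) (nat_lit 0x10000000000000000000006000038000040000000000000000000000000000000000000000) (nat_lit 4)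
theorem c72658 : QOK q72658 := cut [q67225] ⟨c67225, trivial⟩ (nd (nat_lit 205) (nat_lit 0) (cs (lf (nat_lit 41) (nat_lit 204)) (rf (nat_lit 0)))) q72658 (by decide +kernel)
def q72677 : Q := Q.p (nat_lit 0x9e0000600000000000000000000000000000000000000000000000000000000000000) (nat_lit 0xc0006000001c0000000000000000000000000000000000000000000000000000000000000) (nat_lit 4)
theorem c72677 : QOK q72677 := cut [q65436] ⟨c65436, trivial⟩ (nd (nat_lit 290) (nat_lit 0) (cs (lf (nat_lit 10) (nat_lit 268)) (rf (nat_lit 0)))) q72677 (by decide +kernel)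
def q72835 : Q := Q.p (nat_lit 0x820002780000000011000040000000000000000000000000000000000000000000000) (nat_lit 0x40000000008300020c00007000004000000000000000000000000000000000000000) (nat_lit 6)
theorem c72835 : QOK q72835 := cut [q70195] ⟨c70195, trivial⟩ (nd (nat_lit 225) (nat_lit 0) (cs (lf (nat_lit 23) (nat_lit 224)) (nd (nat_lit 209) (nat_lit 0) (cs (lf (nat_lit 44) (nat_lit 186)) (nd (nat_lit 203) (nat_lit 0) (cs (lf (nat_lit 35) (nat_lit 181)) (rf (nat_lit 0)))))))) q72835 (by decide +kernel)
def q73068 : Q := Q.p (nat_lit 0x10000060000d00002400000000000000000000000000000000000000000000000000000000000000) (nat_lit 0x180000e0000180000000000000000000000000000000000000000000000000000000000000000000000000) (nat_lit 4)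
theorem c73068 : QOK q73068 := cut [q73066] ⟨c73066, trivial⟩ (nd (nat_lit 296) (nat_lit 0) (cs (lf (nat_lit 14) (nat_lit 271)) (nd (nat_lit 317) (nat_lit 0) (cs (lf (nat_lit 29) (nat_lit 250)) (rf (nat_lit 0)))))) q73068 (by decide +kernel)
def q73159 : Q := Q.p (nat_lit 0x100000c0000100000400000000000000000000000000000000000000000000000000000000) (nat_lit 0x200002e000300000000000000000000000000000000000000000000000000000000000000000000) (nat_lit 4)
theorem c73159 : QOK q73159 := cut [q47001] ⟨c47001, trivial⟩ (nd (nat_lit 291) (nat_lit 0) (cs (lf (nat_lit 41) (nat_lit 225)) (nd (nat_lit 272) (nat_lit 0) (cs (rf (nat_lit 0)) (lf (nat_lit 6) (nat_lit 269)))))) q73159 (by decide +kernel)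
def q73215 : Q := Q.p (nat_lit 0x2000008000020000080000000000000000000000000000000000000000000000000000000000000) (nat_lit 0x1000004000010000000000040000300000400000000000000000000000000000000000000000000000000) (nat_lit 4)
theorem c73215 : QOK q73215 := cut [q48725] ⟨c48725, trivial⟩ (nd (nat_lit 314) (nat_lit 0) (cs (lf (nat_lit 29) (nat_lit 247)) (nd (nat_lit 225) (nat_lit 0) (cs (lf (nat_lit 28) (nat_lit 225)) (rf (nat_lit 0)))))) q73215 (by decide +kernel)
def q73247 : Q := Q.p (nat_lit 0x100000c00002000000000010000040000000000000000000000000000000000000000000000) (nat_lit 0x4000000000000000100000c000020000000000000000000000000000000000000000000000000000) (nat_lit 3)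
theorem c73247 : QOK q73247 := cut [q66877] ⟨c66877, trivial⟩ (nd (nat_lit 231) (nat_lit 0) (cs (lf (nat_lit 36) (nat_lit 208)) (rf (nat_lit 0)))) q73247 (by decide +kernel)
def q73296 : Q := Q.p (nat_lit 0xa0000680000000000000000000000000000000000000000000000000000000000000) (nat_lit 0x310000140000000000000000000000000000000000000000000000000000000000000) (nat_lit 3)
theorem c73296 : QOK q73296 := cut [q60671] ⟨c60671, trivial⟩ (nd (nat_lit 248) (nat_lit 0) (cs (lf (nat_lit 11) (nat_lit 246)) (rf (nat_lit 0)))) q73296 (by decide +kernel)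
def q73299 : Q := Q.p (nat_lit 0x2000008000020000080000000000000000000000000000000000000000000000000000000000000) (nat_lit 0x100000c00001000000000010000040000100000000000000000000000000000000000000000000000000000000) (nat_lit 4)
theorem c73299 : QOK q73299 := cut [q70577] ⟨c70577, trivial⟩ (nd (nat_lit 334) (nat_lit 0) (cs (lf (nat_lit 40) (nat_lit 246)) (nd (nat_lit 246) (nat_lit 0) (cs (lf (nat_lit 47) (nat_lit 224)) (rf (nat_lit 0)))))) q73299 (by decide +kernel)
def q73311 : Q := Q.p (nat_lit 0x2000008000820002080000000010000040000000000000000000000000000000000000000000000) (nat_lit 0x1400005800070000000001000004200000000000000000000000000000000000000000000000000000000) (nat_lit 6)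
theorem c73311 : QOK q73311 := cut [q52220] ⟨c52220, trivial⟩ (nd (nat_lit 230) (nat_lit 0) (cs (lf (nat_lit 27) (nat_lit 186)) (nd (nat_lit 312) (nat_lit 0) (cs (lf (nat_lit 41) (nat_lit 246)) (nd (nat_lit 314) (nat_lit 0) (cs (lf (nat_lit 29) (nat_lit 247)) (nd (nat_lit 292) (nat_lit 0) (cs (lf (nat_lit 24) (nat_lit 225)) (rf (nat_lit 0)))))))))) q73311 (by decide +kernel)
def q73326 : Q := Q.p (nat_lit 0x20000080008a0002280000000010000040000000000000000000000000000000000000000000000) (nat_lit 0x540001dc00077000100001040004100000000000000000000000000000000000000000000000000000000) (nat_lit 9)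
theorem c73326 : QOK q73326 := cut [q70588, q70279] ⟨c70588, c70279, trivial⟩ (nd (nat_lit 312) (nat_lit 0) (cs (lf (nat_lit 41) (nat_lit 246)) (nd (nat_lit 293) (nat_lit 0) (cs (rf (nat_lit 0)) (cs (nd (nat_lit 314) (nat_lit 0) (cs (lf (nat_lit 29) (nat_lit 247)) (nd (nat_lit 294) (nat_lit 0) (cs (lf (nat_lit 8) (nat_lit 290)) (lf (nat_lit 15) (nat_lit 290)))))) (cs (nd (nat_lit 230) (nat_lit 0) (cs (lf (nat_lit 27) (nat_lit 186)) (nd (nat_lit 224) (nat_lit 0) (cs (lf (nat_lit 46) (nat_lit 224)) (nd (nat_lit 314) (nat_lit 0) (cs (lf (nat_lit 29) (nat_lit 247)) (nd (nat_lit 315) (nat_lit 0) (cs (lf (nat_lit 17) (nat_lit 290)) (rf (nat_lit 1)))))))))) (nd (nat_lit 230) (nat_lit 0) (cs (lf (nat_lit 27) (nat_lit 186)) (nd (nat_lit 224) (nat_lit 0) (cs (lf (nat_lit 46) (nat_lit 224)) (nd (nat_lit 314) (nat_lit 0) (cs (lf (nat_lit 29) (nat_lit 247)) (nd (nat_lit 292) (nat_lit 0) (cs (lf (nat_lit 12) (nat_lit 289)) (nd (nat_lit 290) (nat_lit 0) (cs (lf (nat_lit 17) (nat_lit 268)) (nd (nat_lit 289) (nat_lit 0) (cs (lf (nat_lit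 0) (nat_lit 288)) (lf (nat_lit 5) (nat_lit 289)))))))))))))))))))) q73326 (by decide +kernel)
def q73347 : Q := Q.p (nat_lit 0x80000a0000680000400000000000000000000000000000000000000000000000000000000) (nat_lit 0x2000000000300000140000000000000000000000000000000000000000000000000000000000000) (nat_lit 3)
theorem c73347 : QOK q73347 := cut [q60671] ⟨c60671, trivial⟩ (nd (nat_lit 248) (nat_lit 0) (cs (lf (nat_lit 30) (nat_lit 225)) (rf (nat_lit 0)))) q73347 (by decide +kernel)
def q73356 : Q := Q.p (nat_lit 0x8000820002080000200010000040000000000000000000000000000000000000000000000) (nat_lit 0x1400007000014000000001000004000000000000000000000000000000000000000000000000000000000) (nat_lit 5)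
theorem c73356 : QOK q73356 := cut [q70845] ⟨c70845, trivial⟩ (nd (nat_lit 230) (nat_lit 0) (cs (lf (nat_lit 27) (nat_lit 186)) (rf (nat_lit 0)))) q73356 (by decide +kernel)
def q73362 : Q := Q.p (nat_lit 0x80000680000200000000000000000000000000000000000000000000000000000000) (nat_lit 0x300000140000100000000000000000000000000000000000000000000000000000000) (nat_lit 3)
theorem c73362 : QOK q73362 := cut [q60671] ⟨c60671, trivial⟩ (nd (nat_lit 248) (nat_lit 0) (cs (lf (nat_lit 23) (nat_lit 224)) (rf (nat_lit 0)))) q73362 (by decide +kernel)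
def q73401 : Q := Q.p (nat_lit 0x40000100000d0000300000000000000000000000000000000000000000000000000000000) (nat_lit 0x80000e0000200000000000000000000000000000000000000000000000000) (nat_lit 3)
theorem c73401 : QOK q73401 := cut [q71208] ⟨c71208, trivial⟩ (nd (nat_lit 223) (nat_lit 0) (cs (lf (nat_lit 47) (nat_lit 201)) (rf (nat_lit 0)))) q73401 (by decide +kernel)
def q73409 : Q := Q.p (nat_lit 0x10000040000300000c0000000000000000000000000000000000000000000000000000000000000) (nat_lit 0x20000080000a000000000000000100000400001000000000000000000000000000000000000000000000) (nat_lit 4)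
theorem c73409 : QOK q73409 := cut [q50857] ⟨c50857, trivial⟩ (nd (nat_lit 311) (nat_lit 0) (cs (lf (nat_lit 41) (nat_lit 245)) (nd (nat_lit 224) (nat_lit 0) (cs (lf (nat_lit 40) (nat_lit 223)) (rf (nat_lit 0)))))) q73409 (by decide +kernel)
def q73462 : Q := Q.p (nat_lit 0x880002200000800012000040000000000000000000000000000000000000000000000) (nat_lit 0x4000030000040000000008400025000014000000000000000000000000000000000000000000000) (nat_lit 6)
theorem c73462 : QOK q73462 := cut [q73460] ⟨c73460, trivial⟩ (nd (nat_lit 209) (nat_lit 0) (cs (lf (nat_lit 44) (nat_lit 186)) (nd (nat_lit 184) (nat_lit 0) (cs (lf (nat_lit 34) (nat_lit 183)) (rf (nat_lit 0)))))) q73462 (by decide +kernel)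
def q73542 : Q := Q.p (nat_lit 0x20000880002200000800010000040000000000000000000000000000000000000000000000) (nat_lit 0x10000040000100000000008000026000038000040000000000000000000000000000000000000000) (nat_lit 6)
theorem c73542 : QOK q73542 := cut [q67225] ⟨c67225, trivial⟩ (nd (nat_lit 209) (nat_lit 0) (cs (lf (nat_lit 44) (nat_lit 186)) (nd (nat_lit 294) (nat_lit 0) (cs (lf (nat_lit 29) (nat_lit 227)) (nd (nat_lit 205) (nat_lit 0) (cs (lf (nat_lit 28) (nat_lit 205)) (rf (nat_lit 0)))))))) q73542 (by decide +kernel)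
def q73712 : Q := Q.p (nat_lit 0x400001000004000810002000000000010000040000000000000000000000000000000000000000000000) (nat_lit 0x80000300000800000000002000008001020004000000000000000000000000000000000000000000000000000000000) (nat_lit 5)
theorem c73712 : QOK q73712 := cut [q73709] ⟨c73709, trivial⟩ (nd (nat_lit 357) (nat_lit 0) (cs (nd (nat_lit 230) (nat_lit 0) (cs (lf (nat_lit 27) (nat_lit 186)) (rf (nat_lit 0)))) (lf (nat_lit 28) (nat_lit 268)))) q73712 (by decide +kernel)
def q73734 : Q := Q.p (nat_lit 0x1000004000010000040000000000000000000000000000000000000000000000000000000000000) (nat_lit 0xa0000380000e00000000000000008000020000080000000000000000000000000000000000000000000000000000000) (nat_lit 6)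
theorem c73734 : QOK q73734 := cut [q73732] ⟨c73732, trivial⟩ (nd (nat_lit 245) (nat_lit 0) (cs (lf (nat_lit 47) (nat_lit 223)) (nd (nat_lit 334) (nat_lit 0) (cs (lf (nat_lit 46) (nat_lit 245)) (rf (nat_lit 0)))))) q73734 (by decide +kernel)
def q73736 : Q := Q.p (nat_lit 0x1000004000010000040000000000000000000000000000000000000000000000000000000000000) (nat_lit 0xa0000380000a00000000000000000000000000000000000000000000000000) (nat_lit 4)
theorem c73736 : QOK q73736 := cut [q50955] ⟨c50955, trivial⟩ (nd (nat_lit 225) (nat_lit 0) (cs (lf (nat_lit 34) (nat_lit 224)) (nd (nat_lit 224) (nat_lit 0) (cs (lf (nat_lit 35) (nat_lit 202)) (rf (nat_lit 0)))))) q73736 (by decide +kernel)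
def q73745 : Q := Q.p (nat_lit 0x1000004000010000040000000000000000000000000000000000000000000000000000000000000) (nat_lit 0x280000e00002800000000000000080000200000000000000000000000000000000000000000000000000000000) (nat_lit 5)
theorem c73745 : QOK q73745 := cut [q73743] ⟨c73743, trivial⟩ (nd (nat_lit 333) (nat_lit 0) (cs (lf (nat_lit 40) (nat_lit 245)) (nd (nat_lit 225) (nat_lit 0) (cs (lf (nat_lit 34) (nat_lit 224)) (rf (nat_lit 0)))))) q73745 (by decide +kernel)
def q73763 : Q := Q.p (nat_lit 0x1000004000810002040000000010000040000000000000000000000000000000000000000000000) (nat_lit 0x200000800002000000001080004300000800000000000000000000000000000000000000000000000000) (nat_lit 5)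
theorem c73763 : QOK q73763 := cut [q73762] ⟨c73762, trivial⟩ (nd (nat_lit 230) (nat_lit 0) (cs (lf (nat_lit 27) (nat_lit 186)) (rf (nat_lit 0)))) q73763 (by decide +kernel)
def q73791 : Q := Q.p (nat_lit 0x20000080000200000400000000000000000000000000000000000000000000000000000000) (nat_lit 0x8000000000040000100000000001000004000000000000000000000000000000000000000000000) (nat_lit 3)
theorem c73791 : QOK q73791 := cut [q54917] ⟨c54917, trivial⟩ (nd (nat_lit 248) (nat_lit 0) (cs (lf (nat_lit 42) (nat_lit 226)) (rf (nat_lit 0)))) q73791 (by decide +kernel)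
def q73793 : Q := Q.p (nat_lit 0x20000080000200000400000000000000000000000000000000000000000000000000000000) (nat_lit 0x40000100000800001000004000000000000000000000000000000000000000000000) (nat_lit 3)
theorem c73793 : QOK q73793 := cut [q73792] ⟨c73792, trivial⟩ (nd (nat_lit 204) (nat_lit 0) (cs (lf (nat_lit 45) (nat_lit 204)) (rf (nat_lit 0)))) q73793 (by decide +kernel)
def q73794 : Q := Q.p (nat_lit 0x20000080000200000400000000000000000000000000000000000000000000000000000000) (nat_lit 0x8000000000000000100000800001000004000000000000000000000000000000000000000000000) (nat_lit 3)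
theorem c73794 : QOK q73794 := cut [q58830] ⟨c58830, trivial⟩ (nd (nat_lit 248) (nat_lit 0) (cs (lf (nat_lit 42) (nat_lit 226)) (rf (nat_lit 0)))) q73794 (by decide +kernel)
def q73803 : Q := Q.p (nat_lit 0x8000024000880002200000000010000040000000000000000000000000000000000000000000000) (nat_lit 0x100000700001c00007000010000058000040000100008400020000000000000000000000000000000000000000000000000000) (nat_lit 10)
theorem c73803 : QOK q73803 := cut [q59032] ⟨c59032, trivial⟩ (nd (nat_lit 209) (nat_lit 0) (cs (lf (nat_lit 44) (nat_lit 186)) (nd (nat_lit 316) (nat_lit 0) (cs (lf (nat_lit 29) (nat_lit 249)) (nd (nat_lit 291) (nat_lit 0) (cs (nd (nat_lit 248) (nat_lit 0) (cs (lf (nat_lit 47) (nat_lit 226)) (nd (nat_lit 337) (nat_lit 0) (cs (lf (nat_lit 46) (nat_lit 248)) (nd (nat_lit 358) (nat_lit 0) (cs (lf (nat_lit 40) (nat_lit 270)) (nd (nat_lit 359) (nat_lit 0) (cs (lf (nat_lit 41) (nat_lit 292)) (rf (nat_lit 0)))))))))) (lf (nat_lit 2) (nat_lit 290)))))))) q73803 (by decide +kernel)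
def q73810 : Q := Q.p (nat_lit 0x8000024000880002200000000010000040000000000000000000000000000000000000000000000) (nat_lit 0x5000016000018000000001000004000000000000000000000000000000000000000000000000000000000) (nat_lit 5)
theorem c73810 : QOK q73810 := cut [q73805] ⟨c73805, trivial⟩ (nd (nat_lit 314) (nat_lit 0) (cs (lf (nat_lit 41) (nat_lit 248)) (nd (nat_lit 230) (nat_lit 0) (cs (lf (nat_lit 27) (nat_lit 186)) (rf (nat_lit 0)))))) q73810 (by decide +kernel)
def q73850 : Q := Q.p (nat_lit 0x34000090000000000000000000000000000000000000000000000000000000000000000000) (nat_lit 0xee0000b000048000000000000000000000000000000000000000000000000000000000000000000) (nat_lit 6)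
theorem c73850 : QOK q73850 := cut [q73848] ⟨c73848, trivial⟩ (nd (nat_lit 291) (nat_lit 0) (cs (lf (nat_lit 23) (nat_lit 267)) (nd (nat_lit 289) (nat_lit 0) (cs (lf (nat_lit 16) (nat_lit 267)) (rf (nat_lit 0)))))) q73850 (by decide +kernel)
def q73872 : Q := Q.p (nat_lit 0x8000020000880002200000000010000040000000000000000000000000000000000000000000000) (nat_lit 0x1000006000010000000000040001100004400000000000000000000000000000000000000000000000000000000) (nat_lit 5)
theorem c73872 : QOK q73872 := cut [q54923] ⟨c54923, trivial⟩ (nd (nat_lit 230) (nat_lit 0) (cs (lf (nat_lit 27) (nat_lit 186)) (rf (nat_lit 0)))) q73872 (by decide +kernel)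
def q73875 : Q := Q.p (nat_lit 0x30000080000200000000000000000000000000000000000000000000000000000000000000) (nat_lit 0x40000100000c000000000000000000000800000000000000000000000000000000000000000000000000000000) (nat_lit 3)
theorem c73875 : QOK q73875 := cut [q62073] ⟨c62073, trivial⟩ (nd (nat_lit 314) (nat_lit 0) (cs (lf (nat_lit 36) (nat_lit 226)) (rf (nat_lit 0)))) q73875 (by decide +kernel)
def q73885 : Q := Q.p (nat_lit 0x34000010000000000000000000000000000000000000000000000000000000000000000000) (nat_lit 0x800003800048000008000040000100000000000000000000000000000000000000000000000000000000) (nat_lit 5)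
theorem c73885 : QOK q73885 := cut [q62045] ⟨c62045, trivial⟩ (nd (nat_lit 291) (nat_lit 0) (cs (lf (nat_lit 23) (nat_lit 267)) (rf (nat_lit 0)))) q73885 (by decide +kernel)
def q73904 : Q := Q.p (nat_lit 0x1000004000010000040000000000000000000000000000000000000000000000000000000000000) (nat_lit 0x280000e00002800000000000000000000000000000000000000000000000000000000000000000000000000000) (nat_lit 4)
theorem c73904 : QOK q73904 := cut [q73743] ⟨c73743, trivial⟩ (nd (nat_lit 333) (nat_lit 0) (cs (lf (nat_lit 40) (nat_lit 245)) (rf (nat_lit 0)))) q73904 (by decide +kernel)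
def q73921 : Q := Q.p (nat_lit 0x8000024000090000200000000000000000000000000000000000000000000000000000000000000) (nat_lit 0x180000780005a000000000040000900000000000000000000000000000000000000000000000000000000) (nat_lit 7)
theorem c73921 : QOK q73921 := cut [q62045] ⟨c62045, trivial⟩ (nd (nat_lit 314) (nat_lit 0) (cs (lf (nat_lit 41) (nat_lit 248)) (nd (nat_lit 292) (nat_lit 0) (cs (lf (nat_lit 36) (nat_lit 226)) (nd (nat_lit 291) (nat_lit 0) (cs (lf (nat_lit 0) (nat_lit 289)) (rf (nat_lit 0)))))))) q73921 (by decide +kernel)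
def q73965 : Q := Q.p (nat_lit 0x10000040000100000400000000000000000000000000000000000000000000000000) (nat_lit 0x2000008000020000000000200001800002000000000000000000000000000000000000000) (nat_lit 4)
theorem c73965 : QOK q73965 := cut [q73963] ⟨c73963, trivial⟩ (nd (nat_lit 179) (nat_lit 0) (cs (lf (nat_lit 46) (nat_lit 179)) (nd (nat_lit 180) (nat_lit 0) (cs (lf (nat_lit 47) (nat_lit 157)) (rf (nat_lit 0)))))) q73965 (by decide +kernel)
def q73986 : Q := Q.p (nat_lit 0x34000090000000000000000000000000000000000000000000000000000000000000000000) (nat_lit 0x1c0000a000048000000000000000000000000000000000000000000000000000000000000000000) (nat_lit 4)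
theorem c73986 : QOK q73986 := cut [q72459] ⟨c72459, trivial⟩ (nd (nat_lit 291) (nat_lit 0) (cs (lf (nat_lit 23) (nat_lit 267)) (rf (nat_lit 0)))) q73986 (by decide +kernel)
def q74013 : Q := Q.p (nat_lit 0x4000810002040000100010000040000000000000000000000000000000000000000000000) (nat_lit 0x800002000008001000004200000c00002000000000000000000000000000000000000000000000) (nat_lit 5)
theorem c74013 : QOK q74013 := cut [q51113] ⟨c51113, trivial⟩ (nd (nat_lit 230) (nat_lit 0) (cs (lf (nat_lit 27) (nat_lit 186)) (nd (nat_lit 289) (nat_lit 0) (cs (lf (nat_lit 41) (nat_lit 223)) (nd (nat_lit 202) (nat_lit 0) (cs (lf (nat_lit 40) (nat_lit 201)) (rf (nat_lit 0)))))))) q74013 (by decide +kernel)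
def q74030 : Q := Q.p (nat_lit 0x10000040000100000400000000000000000000000000000000000000000000000000) (nat_lit 0x2000008000020000000000800003000008000000000000000000000000000000000000000) (nat_lit 4)
theorem c74030 : QOK q74030 := cut [q72362] ⟨c72362, trivial⟩ (nd (nat_lit 181) (nat_lit 0) (cs (lf (nat_lit 34) (nat_lit 180)) (nd (nat_lit 267) (nat_lit 0) (cs (lf (nat_lit 41) (nat_lit 201)) (rf (nat_lit 0)))))) q74030 (by decide +kernel)
def q74045 : Q := Q.p (nat_lit 0x1000004000010000040000000000000000000000000000000000000000000000000000000000000) (nat_lit 0x200000c00002000000000008000020000080000000000000000000000000000000000000000000000000000000) (nat_lit 4)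
theorem c74045 : QOK q74045 := cut [q74043] ⟨c74043, trivial⟩ (nd (nat_lit 335) (nat_lit 0) (cs (lf (nat_lit 28) (nat_lit 246)) (nd (nat_lit 334) (nat_lit 0) (cs (lf (nat_lit 29) (nat_lit 268)) (rf (nat_lit 0)))))) q74045 (by decide +kernel)
def q74058 : Q := Q.p (nat_lit 0x400001000004000010000000000000000000000000000000000000000000000000000000000000000000) (nat_lit 0x80000200000800000000008000060000080000000000000000000000000000000000000000000000000000000) (nat_lit 4)
theorem c74058 : QOK q74058 := cut [q74043] ⟨c74043, trivial⟩ (nd (nat_lit 333) (nat_lit 0) (cs (lf (nat_lit 41) (nat_lit 267)) (nd (nat_lit 246) (nat_lit 0) (cs (lf (nat_lit 40) (nat_lit 245)) (rf (nat_lit 0)))))) q74058 (by decide +kernel)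
def q74064 : Q := Q.p (nat_lit 0x400001000004000810002000000000010000040000000000000000000000000000000000000000000000) (nat_lit 0x20000180000200000000002000008001020004000000000000000000000000000000000000000000000000000000000) (nat_lit 5)
theorem c74064 : QOK q74064 := cut [q74063] ⟨c74063, trivial⟩ (nd (nat_lit 230) (nat_lit 0) (cs (lf (nat_lit 27) (nat_lit 186)) (rf (nat_lit 0)))) q74064 (by decide +kernel)
def q74066 : Q := Q.p (nat_lit 0x400001000004000010000000000000000000000000000000000000000000000000000000000000000000) (nat_lit 0x200000800002000000000008000060000080000000000000000000000000000000000000000000000000000000) (nat_lit 4)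
theorem c74066 : QOK q74066 := cut [q74043] ⟨c74043, trivial⟩ (nd (nat_lit 335) (nat_lit 0) (cs (lf (nat_lit 29) (nat_lit 268)) (nd (nat_lit 246) (nat_lit 0) (cs (lf (nat_lit 28) (nat_lit 246)) (rf (nat_lit 0)))))) q74066 (by decide +kernel)
def q74101 : Q := Q.p (nat_lit 0x1000004000810002000000000010000040000000000000000000000000000000000000000000000) (nat_lit 0x200000e0000380000e0000280000a0000080010c0004300000c00000000000000000000000000000000000000000000000000) (nat_lit 9)
theorem c74101 : QOK q74101 := cut [q73732, q73729] ⟨c73732, c73729, trivial⟩ (nd (nat_lit 334) (nat_lit 0) (cs (rf (nat_lit 0)) (cs (nd (nat_lit 335) (nat_lit 0) (cs (lf (nat_lit 29) (nat_lit 268)) (nd (nat_lit 246) (nat_lit 0) (cs (lf (nat_lit 28) (nat_lit 246)) (nd (nat_lit 225) (nat_lit 0) (cs (lf (nat_lit 34) (nat_lit 224)) (nd (nat_lit 224) (nat_lit 0) (cs (lf (nat_lit 35) (nat_lit 202)) (nd (nat_lit 230) (nat_lit 0) (cs (lf (nat_lit 27) (nat_lit 186)) (nd (nat_lit 289) (nat_lit 0) (cs (lf (nat_lit 41) (nat_lit 223)) (nd (nat_lit 267) (nat_lit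 0) (cs (lf (nat_lit 42) (nat_lit 267)) (lf (nat_lit 36) (nat_lit 201)))))))))))))))) (cs (nd (nat_lit 230) (nat_lit 0) (cs (lf (nat_lit 27) (nat_lit 186)) (nd (nat_lit 355) (nat_lit 0) (cs (lf (nat_lit 40) (nat_lit 267)) (nd (nat_lit 356) (nat_lit 0) (cs (lf (nat_lit 41) (nat_lit 289)) (nd (nat_lit 379) (nat_lit 0) (cs (lf (nat_lit 28) (nat_lit 290)) (nd (nat_lit 289) (nat_lit 0) (cs (nd (nat_lit 378) (nat_lit 0) (cs (lf (nat_lit 29) (nat_lit 312)) (lf (nat_lit 46) (nat_lit 289)))) (lf (nat_lit 47) (nat_lit 267)))))))))))) (nd (nat_lit 333) (nat_lit 0) (cs (lf (nat_lit 41) (nat_lit 267)) (nd (nat_lit 246) (nat_lit 0) (cs (lf (nat_lit 40) (nat_lit 245)) (rf (nat_lit 1)))))))))) q74101 (by decide +kernel)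
def q74144 : Q := Q.p (nat_lit 0x400001000004000010000000000000000000000000000000000000000000000000000000000000000000) (nat_lit 0x80000300000800000000002000008000020000000000000000000000000000000000000000000000000000000000000) (nat_lit 4)
theorem c74144 : QOK q74144 := cut [q73709] ⟨c73709, trivial⟩ (nd (nat_lit 357) (nat_lit 0) (cs (rf (nat_lit 0)) (lf (nat_lit 28) (nat_lit 268)))) q74144 (by decide +kernel)
def q74164 : Q := Q.p (nat_lit 0x600000300000000000000000000000000000000000000000000000000000000) (nat_lit 0x180000c80000000000000000000000000000000000000000000000000000000) (nat_lit 3)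
theorem c74164 : QOK q74164 := cut [q72358] ⟨c72358, trivial⟩ (nd (nat_lit 248) (nat_lit 0) (cs (lf (nat_lit 21) (nat_lit 224)) (rf (nat_lit 0)))) q74164 (by decide +kernel)
def q74177 : Q := Q.p (nat_lit 0x4000010000000000300000000000000000000000000000000000000000000000000000000) (nat_lit 0x280000a000028000040000000000c00000000000000000000000000000000000000000000000000) (nat_lit 5)
theorem c74177 : QOK q74177 := cut [q74176] ⟨c74176, trivial⟩ (nd (nat_lit 246) (nat_lit 0) (cs (lf (nat_lit 35) (nat_lit 202)) (rf (nat_lit 0)))) q74177 (by decide +kernel)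
def q74187 : Q := Q.p (nat_lit 0x10000000000780000000000000000000000000000000000000000000000000000000) (nat_lit 0x4000000000040000000000700000800002000000000000000000000000000000000000000) (nat_lit 4)
theorem c74187 : QOK q74187 := cut [q74185] ⟨c74185, trivial⟩ (nd (nat_lit 201) (nat_lit 0) (cs (lf (nat_lit 23) (nat_lit 200)) (nd (nat_lit 246) (nat_lit 0) (cs (lf (nat_lit 42) (nat_lit 201)) (rf (nat_lit 0)))))) q74187 (by decide +kernel)
def q74216 : Q := Q.p (nat_lit 0x3c0000000000000000000000000000000000000000000000000000000) (nat_lit 0x1c0000200001c0000000000000000000000000000000000000000000000000) (nat_lit 4)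
theorem c74216 : QOK q74216 := cut [q51835] ⟨c51835, trivial⟩ (nd (nat_lit 243) (nat_lit 0) (cs (lf (nat_lit 10) (nat_lit 221)) (nd (nat_lit 221) (nat_lit 0) (cs (lf (nat_lit 11) (nat_lit 220)) (rf (nat_lit 0)))))) q74216 (by decide +kernel)
def q74247 : Q := Q.p (nat_lit 0x780000000000000000000000000000000000000000000000000000000) (nat_lit 0x40003b80000000000000000000000000000000000000000000000000) (nat_lit 4)
theorem c74247 : QOK q74247 := cut [q69944] ⟨c69944, trivial⟩ (nd (nat_lit 204) (nat_lit 0) (cs (lf (nat_lit 17) (nat_lit 201)) (nd (nat_lit 222) (nat_lit 0) (cs (lf (nat_lit 16) (nat_lit 200)) (rf (nat_lit 0)))))) q74247 (by decide +kernel)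
def q74275 : Q := Q.p (nat_lit 0x4000810002040000100010000040000000000000000000000000000000000000000000000) (nat_lit 0xa0000380000a000000001000004000000000000000000000000000000000000000000000000000000000) (nat_lit 5)
theorem c74275 : QOK q74275 := cut [q74272] ⟨c74272, trivial⟩ (nd (nat_lit 311) (nat_lit 0) (cs (lf (nat_lit 40) (nat_lit 223)) (nd (nat_lit 230) (nat_lit 0) (cs (lf (nat_lit 27) (nat_lit 186)) (nd (nat_lit 313) (nat_lit 0) (cs (lf (nat_lit 28) (nat_lit 224)) (rf (nat_lit 0)))))))) q74275 (by decide +kernel)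
def q74278 : Q := Q.p (nat_lit 0x10000640000100000400000000000000000000000000000000000000000000000000) (nat_lit 0x8000020000180000000000000001000000000000000000000000000000000000000000000) (nat_lit 3)
theorem c74278 : QOK q74278 := cut [q74277] ⟨c74277, trivial⟩ (nd (nat_lit 269) (nat_lit 0) (cs (lf (nat_lit 29) (nat_lit 202)) (rf (nat_lit 0)))) q74278 (by decide +kernel)
def q74289 : Q := Q.p (nat_lit 0x10000040000100000400000000000000000000000000000000000000000000000000) (nat_lit 0xa0000380000a000000000000000000000000000000000000000) (nat_lit 4)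
theorem c74289 : QOK q74289 := cut [q74287] ⟨c74287, trivial⟩ (nd (nat_lit 181) (nat_lit 0) (cs (lf (nat_lit 34) (nat_lit 180)) (nd (nat_lit 180) (nat_lit 0) (cs (lf (nat_lit 35) (nat_lit 158)) (rf (nat_lit 0)))))) q74289 (by decide +kernel)
def q74305 : Q := Q.p (nat_lit 0x10000040000100000400000000000000000000000000000000000000000000000000) (nat_lit 0x280000e000028000000000000000000000000000000000000000000000000000000000000000000) (nat_lit 4)
theorem c74305 : QOK q74305 := cut [q74303] ⟨c74303, trivial⟩ (nd (nat_lit 289) (nat_lit 0) (cs (lf (nat_lit 40) (nat_lit 201)) (nd (nat_lit 291) (nat_lit 0) (cs (lf (nat_lit 28) (nat_lit 202)) (rf (nat_lit 0)))))) q74305 (by decide +kernel)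
def q74309 : Q := Q.p (nat_lit 0x10000040000100000400000000000000000000000000000000000000000000000000) (nat_lit 0x800006000008000000000080000200000800000000000000000000000000000000000000000000) (nat_lit 4)
theorem c74309 : QOK q74309 := cut [q50554] ⟨c50554, trivial⟩ (nd (nat_lit 289) (nat_lit 0) (cs (lf (nat_lit 40) (nat_lit 201)) (nd (nat_lit 290) (nat_lit 0) (cs (lf (nat_lit 41) (nat_lit 223)) (rf (nat_lit 0)))))) q74309 (by decide +kernel)
def q74314 : Q := Q.p (nat_lit 0x10000040000100000400000000000000000000000000000000000000000000000000) (nat_lit 0x200000c000020000000000080000200000800000000000000000000000000000000000000000000) (nat_lit 4)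
theorem c74314 : QOK q74314 := cut [q50554] ⟨c50554, trivial⟩ (nd (nat_lit 291) (nat_lit 0) (cs (lf (nat_lit 28) (nat_lit 202)) (nd (nat_lit 290) (nat_lit 0) (cs (lf (nat_lit 29) (nat_lit 224)) (rf (nat_lit 0)))))) q74314 (by decide +kernel)
def q74347 : Q := Q.p (nat_lit 0x10000040000300000000000000000000000000000000000000000000000000000000) (nat_lit 0x4000000000080000000000800002000008000000000000000000000000000000000000000) (nat_lit 3)
theorem c74347 : QOK q74347 := cut [q56888] ⟨c56888, trivial⟩ (nd (nat_lit 203) (nat_lit 0) (cs (lf (nat_lit 30) (nat_lit 202)) (rf (nat_lit 0)))) q74347 (by decide +kernel)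
def q74359 : Q := Q.p (nat_lit 0x40000780000000000000000000000000000000000000000000000000000000) (nat_lit 0xb80000600001c0000000000000000000000000000000000000000000000000) (nat_lit 5)
theorem c74359 : QOK q74359 := cut [q51835] ⟨c51835, trivial⟩ (nd (nat_lit 244) (nat_lit 0) (cs (lf (nat_lit 10) (nat_lit 222)) (nd (nat_lit 222) (nat_lit 0) (cs (lf (nat_lit 11) (nat_lit 221)) (nd (nat_lit 221) (nat_lit 0) (cs (rf (nat_lit 0)) (lf (nat_lit 5) (nat_lit 221)))))))) q74359 (by decide +kernel)
def q74367 : Q := Q.p (nat_lit 0x810002600000300010000040000000000000000000000000000000000000000000000) (nat_lit 0xe0000380000e0000200011c0004000000800000000000000000000000000000000000000000000000000) (nat_lit 6)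
theorem c74367 : QOK q74367 := cut [q74272, q45768] ⟨c74272, c45768, trivial⟩ (nd (nat_lit 290) (nat_lit 0) (cs (nd (nat_lit 247) (nat_lit 0) (cs (lf (nat_lit 20) (nat_lit 224)) (nd (nat_lit 203) (nat_lit 0) (cs (lf (nat_lit 39) (nat_lit 202)) (lf (nat_lit 32) (nat_lit 202)))))) (cs (nd (nat_lit 246) (nat_lit 0) (cs (lf (nat_lit 35) (nat_lit 202)) (nd (nat_lit 313) (nat_lit 0) (cs (lf (nat_lit 28) (nat_lit 224)) (nd (nat_lit 311) (nat_lit 0) (cs (lf (nat_lit 40) (nat_lit 223)) (rf (nat_lit 0)))))))) (cs (nd (nat_lit 247) (nat_lit 0) (cs (lf (nat_lit 20) (nat_lit 224)) (nd (nat_lit 312) (nat_lit 0) (cs (lf (nat_lit 33) (nat_lit 224)) (nd (nat_lit 269) (nat_lit 0) (cs (lf (nat_lit 30) (nat_lit 246)) (lf (nat_lit 39) (nat_lit 224)))))))) (nd (nat_lit 230) (nat_lit 0) (cs (lf (nat_lit 27) (nat_lit 186)) (nd (nat_lit 247) (nat_lit 0) (cs (lf (nat_lit 20) (nat_lit 224)) (nd (nat_lit 269) (nat_lit 0) (cs (rf (nat_lit 1)) (lf (nat_lit 36) (nat_lit 202)))))))))))) q74367 (by decide +kernel)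
def q74385 : Q := Q.p (nat_lit 0x8100020c0000100010000040000000000000000000000000000000000000000000000) (nat_lit 0x380001e00000e001000004200000c00000000000000000000000000000000000000000000000000) (nat_lit 7)
theorem c74385 : QOK q74385 := cut [q72378, q74384] ⟨c72378, c74384, trivial⟩ (nd (nat_lit 290) (nat_lit 0) (cs (rf (nat_lit 0)) (rf (nat_lit 1)))) q74385 (by decide +kernel)
def q74421 : Q := Q.p (nat_lit 0x810002040000100010400040000000000000000000000000000000000000000000000) (nat_lit 0x4000000000000008600020b80002800000000000000000000000000000000000000000000) (nat_lit 6)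
theorem c74421 : QOK q74421 := cut [q50843] ⟨c50843, trivial⟩ (nd (nat_lit 201) (nat_lit 0) (cs (lf (nat_lit 47) (nat_lit 179)) (nd (nat_lit 209) (nat_lit 0) (cs (lf (nat_lit 44) (nat_lit 186)) (nd (nat_lit 203) (nat_lit 0) (cs (lf (nat_lit 35) (nat_lit 180)) (nd (nat_lit 225) (nat_lit 0) (cs (lf (nat_lit 30) (nat_lit 202)) (rf (nat_lit 0)))))))))) q74421 (by decide +kernel)
def q74431 : Q := Q.p (nat_lit 0x100000c0000100000400000000000000000000000000000000000000000000000000) (nat_lit 0x20000000000000000200001800002000000000000000000000000000000000000000) (nat_lit 3)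
theorem c74431 : QOK q74431 := cut [q74287] ⟨c74287, trivial⟩ (nd (nat_lit 180) (nat_lit 0) (cs (lf (nat_lit 29) (nat_lit 180)) (rf (nat_lit 0)))) q74431 (by decide +kernel)
def q74442 : Q := Q.p (nat_lit 0x10000040000300000c00000000000000000000000000000000000000000000000000) (nat_lit 0x20000080000300000e0000380000e00000000000000000000000000000000000000000000) (nat_lit 7)
theorem c74442 : QOK q74442 := cut [q50445] ⟨c50445, trivial⟩ (nd (nat_lit 267) (nat_lit 0) (cs (lf (nat_lit 41) (nat_lit 201)) (rf (nat_lit 0)))) q74442 (by decide +kernel)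
def q74447 : Q := Q.p (nat_lit 0x80000300000400000000000000000000000000000000000000000000000000) (nat_lit 0x8000020000000000000000800001000004000000000000000000000000000000000000000) (nat_lit 3)
theorem c74447 : QOK q74447 := cut [q45756] ⟨c45756, trivial⟩ (nd (nat_lit 269) (nat_lit 0) (cs (lf (nat_lit 42) (nat_lit 202)) (rf (nat_lit 0)))) q74447 (by decide +kernel)
def q74462 : Q := Q.p (nat_lit 0x20000180000400000000000000000000000000000000000000000000000000) (nat_lit 0x2000008000040000000000000001000004000000000000000000000000000000000000000) (nat_lit 3)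
theorem c74462 : QOK q74462 := cut [q64595] ⟨c64595, trivial⟩ (nd (nat_lit 267) (nat_lit 0) (cs (lf (nat_lit 30) (nat_lit 201)) (rf (nat_lit 0)))) q74462 (by decide +kernel)
def q74469 : Q := Q.p (nat_lit 0x30000040000100000400000000000000000000000000000000000000000000000000) (nat_lit 0x80000000000800003000008000000000000000000000000000000000000000) (nat_lit 3)
theorem c74469 : QOK q74469 := cut [q51156] ⟨c51156, trivial⟩ (nd (nat_lit 180) (nat_lit 0) (cs (lf (nat_lit 28) (nat_lit 180)) (rf (nat_lit 0)))) q74469 (by decide +kernel)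
def q74473 : Q := Q.p (nat_lit 0x780000600000000000000000000000000000000000000000000000000) (nat_lit 0x8000030000000000000001000004000000000000000000000000000000000000000) (nat_lit 3)
theorem c74473 : QOK q74473 := cut [q51650] ⟨c51650, trivial⟩ (nd (nat_lit 245) (nat_lit 0) (cs (lf (nat_lit 11) (nat_lit 222)) (rf (nat_lit 0)))) q74473 (by decide +kernel)
def q74489 : Q := Q.p (nat_lit 0x100000700000000000000000000000000000000000000000000000000) (nat_lit 0xe80000080000000000000000000000000000000000000000000000000) (nat_lit 3)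
theorem c74489 : QOK q74489 := cut [q74488] ⟨c74488, trivial⟩ (nd (nat_lit 225) (nat_lit 0) (cs (lf (nat_lit 0) (nat_lit 199)) (rf (nat_lit 0)))) q74489 (by decide +kernel)
def q74531 : Q := Q.p (nat_lit 0x30000040000100000400000000000000000000000000000000000000000000000000) (nat_lit 0x20000080000a0000000000000001000000000000000000000000000000000000000000000) (nat_lit 3)
theorem c74531 : QOK q74531 := cut [q73963] ⟨c73963, trivial⟩ (nd (nat_lit 180) (nat_lit 0) (cs (lf (nat_lit 28) (nat_lit 180)) (rf (nat_lit 0)))) q74531 (by decide +kernel)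
def q74614 : Q := Q.p (nat_lit 0x10000000000300000800000000000000000000000000000000000000000000000000) (nat_lit 0x4000000000040000000000400002000008000000000000000000000000000000000000000) (nat_lit 3)
theorem c74614 : QOK q74614 := cut [q74613] ⟨c74613, trivial⟩ (nd (nat_lit 246) (nat_lit 0) (cs (lf (nat_lit 30) (nat_lit 202)) (rf (nat_lit 0)))) q74614 (by decide +kernel)
def q74628 : Q := Q.p (nat_lit 0x10000640000300000400000000000000000000000000000000000000000000000000) (nat_lit 0x2000008000000000c80000b80002800000000000000000000000000000000000000000000) (nat_lit 6)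
theorem c74628 : QOK q74628 := cut [q74624] ⟨c74624, trivial⟩ (nd (nat_lit 226) (nat_lit 0) (cs (lf (nat_lit 3) (nat_lit 224)) (nd (nat_lit 181) (nat_lit 0) (cs (lf (nat_lit 34) (nat_lit 180)) (nd (nat_lit 267) (nat_lit 0) (cs (lf (nat_lit 41) (nat_lit 201)) (nd (nat_lit 201) (nat_lit 0) (cs (lf (nat_lit 47) (nat_lit 179)) (rf (nat_lit 0)))))))))) q74628 (by decide +kernel)
def q74706 : Q := Q.p (nat_lit 0x4000020000880002200000000010000040000000000000000000000000000000000000000000000) (nat_lit 0x500001a0001c0000000001000004800000000000000000000000000000000000000000000000000000000) (nat_lit 6)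
theorem c74706 : QOK q74706 := cut [q60055] ⟨c60055, trivial⟩ (nd (nat_lit 230) (nat_lit 0) (cs (lf (nat_lit 27) (nat_lit 186)) (nd (nat_lit 315) (nat_lit 0) (cs (lf (nat_lit 41) (nat_lit 248)) (nd (nat_lit 316) (nat_lit 0) (cs (lf (nat_lit 29) (nat_lit 249)) (nd (nat_lit 294) (nat_lit 0) (cs (lf (nat_lit 24) (nat_lit 227)) (rf (nat_lit 0)))))))))) q74706 (by decide +kernel)
def q74726 : Q := Q.p (nat_lit 0x6000010000000000100000000000000000000000000000000000000000000000000000000) (nat_lit 0x800000000008000040000200000c00002000000000000000000000000000000000000000000000) (nat_lit 4)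
theorem c74726 : QOK q74726 := cut [q74725] ⟨c74725, trivial⟩ (nd (nat_lit 246) (nat_lit 0) (cs (lf (nat_lit 41) (nat_lit 223)) (rf (nat_lit 0)))) q74726 (by decide +kernel)
def q74804 : Q := Q.p (nat_lit 0x6000810002040000000010000040000000000000000000000000000000000000000000000) (nat_lit 0x280000b8000ef00039c0002f001098004060000000000000000000000000000000000000000000000000000000) (nat_lit 8)
theorem c74804 : QOK q74804 := cut [q74757, q74779] ⟨c74757, c74779, trivial⟩ (nd (nat_lit 288) (nat_lit 0) (cs (nd (nat_lit 230) (nat_lit 0) (cs (lf (nat_lit 27) (nat_lit 186)) (nd (nat_lit 287) (nat_lit 0) (cs (lf (nat_lit 17) (nat_lit 265)) (nd (nat_lit 267) (nat_lit 0) (cs (lf (nat_lit 12) (nat_lit 264)) (nd (nat_lit 311) (nat_lit 0) (cs (lf (nat_lit 30) (nat_lit 245)) (nd (nat_lit 265) (nat_lit 0) (cs (lf (nat_lit 23) (nat_lit 264)) (nd (nat_lit 266) (nat_lit 0) (cs (lf (nat_lit 17) (nat_lit 243)) (lf (nat_lit 18) (nat_lit 265)))))))))))))) (cs (nd (nat_lit 287) (nat_lit 0) (cs (lf (nat_lit 17) (nat_lit 265)) (nd (nat_lit 267)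 (nat_lit 0) (cs (lf (nat_lit 12) (nat_lit 264)) (nd (nat_lit 265) (nat_lit 0) (cs (lf (nat_lit 23) (nat_lit 264)) (rf (nat_lit 0)))))))) (cs (nd (nat_lit 287) (nat_lit 0) (cs (lf (nat_lit 17) (nat_lit 265)) (nd (nat_lit 230) (nat_lit 0) (cs (lf (nat_lit 27) (nat_lit 186)) (nd (nat_lit 265) (nat_lit 0) (cs (lf (nat_lit 23) (nat_lit 264)) (nd (nat_lit 309) (nat_lit 0) (cs (lf (nat_lit 11) (nat_lit 286)) (nd (nat_lit 291) (nat_lit 0) (cs (lf (nat_lit 22) (nat_lit 265)) (lf (nat_lit 10) (nat_lit 287)))))))))))) (cs (nd (nat_lit 291) (nat_lit 0) (cs (nd (nat_lit 313) (nat_lit 0) (cs (lf (nat_lit 5) (nat_lit 288)) (nd (nat_lit 335) (nat_lit 0) (cs (lf (nat_lit 42) (nat_lit 268)) (lf (nat_lit 45) (nat_lit 246)))))) (nd (nat_lit 230) (nat_lit 0) (cs (lf (nat_lit 27) (nat_lit 186)) (nd (nat_lit 310) (nat_lit 0) (cs (lf (nat_lit 11) (nat_lit 287)) (nd (nat_lit 265) (nat_lit 0) (cs (lf (nat_lit 22) (nat_lit 265)) (nd (nat_lit 311) (nat_lit 0) (cs (lf (nat_lit 6) (nat_lit 288)) (nd (nat_lit 333) (nat_lit 0) (cs (lf (nat_lit 30) (nat_lit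 267)) (lf (nat_lit 33) (nat_lit 245)))))))))))))) (cs (nd (nat_lit 287) (nat_lit 0) (cs (lf (nat_lit 17) (nat_lit 265)) (nd (nat_lit 267) (nat_lit 0) (cs (lf (nat_lit 12) (nat_lit 264)) (nd (nat_lit 309) (nat_lit 0) (cs (lf (nat_lit 11) (nat_lit 286)) (nd (nat_lit 265) (nat_lit 0) (cs (lf (nat_lit 23) (nat_lit 264)) (rf (nat_lit 1)))))))))) (cs (nd (nat_lit 265) (nat_lit 0) (cs (nd (nat_lit 230) (nat_lit 0) (cs (lf (nat_lit 27) (nat_lit 186)) (nd (nat_lit 287) (nat_lit 0) (cs (lf (nat_lit 23) (nat_lit 264)) (rf (nat_lit 0)))))) (cs (nd (nat_lit 266) (nat_lit 0) (cs (lf (nat_lit 18) (nat_lit 265)) (nd (nat_lit 267) (nat_lit 0) (cs (lf (nat_lit 17) (nat_lit 243)) (lf (nat_lit 0) (nat_lit 264)))))) (cs (nd (nat_lit 287) (nat_lit 0) (cs (lf (nat_lit 23) (nat_lit 264)) (nd (nat_lit 267) (nat_lit 0) (cs (lf (nat_lit 12) (nat_lit 264)) (nd (nat_lit 309) (nat_lit 0) (cs (lf (nat_lit 11) (nat_lit 286)) (rf (nat_lit 1)))))))) (nd (nat_lit 230) (nat_lit 0) (cs (lf (nat_lit 27) (nat_lit 186)) (nd (nat_lit 291) (nat_lit 0) (cs (lf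 (nat_lit 22) (nat_lit 265)) (nd (nat_lit 310) (nat_lit 0) (cs (lf (nat_lit 11) (nat_lit 287)) (nd (nat_lit 314) (nat_lit 0) (cs (lf (nat_lit 4) (nat_lit 288)) (nd (nat_lit 292) (nat_lit 0) (cs (lf (nat_lit 5) (nat_lit 289)) (lf (nat_lit 10) (nat_lit 288)))))))))))))))) (nd (nat_lit 230) (nat_lit 0) (cs (lf (nat_lit 27) (nat_lit 186)) (nd (nat_lit 287) (nat_lit 0) (cs (lf (nat_lit 17) (nat_lit 265)) (nd (nat_lit 267) (nat_lit 0) (cs (lf (nat_lit 12) (nat_lit 264)) (nd (nat_lit 309) (nat_lit 0) (cs (lf (nat_lit 11) (nat_lit 286)) (nd (nat_lit 291) (nat_lit 0) (cs (lf (nat_lit 10) (nat_lit 287)) (nd (nat_lit 292) (nat_lit 0) (cs (lf (nat_lit 18) (nat_lit 267)) (lf (nat_lit 23) (nat_lit 266))))))))))))))))))))) q74804 (by decide +kernel)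
def q74884 : Q := Q.p (nat_lit 0x6000890002600000000010000040000000000000000000000000000000000000000000000) (nat_lit 0x40000300000e0007980006e00103800c0c0020100000000000000000000000000000000000000000000000000) (nat_lit 10)
theorem c74884 : QOK q74884 := cut [q69673, q74867] ⟨c69673, c74867, trivial⟩ (nd (nat_lit 269) (nat_lit 0) (cs (lf (nat_lit 14) (nat_lit 246)) (nd (nat_lit 209) (nat_lit 0) (cs (lf (nat_lit 44) (nat_lit 186)) (nd (nat_lit 288) (nat_lit 0) (cs (lf (nat_lit 12) (nat_lit 265)) (nd (nat_lit 291) (nat_lit 0) (cs (nd (nat_lit 266) (nat_lit 0) (cs (lf (nat_lit 23) (nat_lit 265)) (nd (nat_lit 267) (nat_lit 0) (cs (lf (nat_lit 5) (nat_lit 266)) (rf (nat_lit 0)))))) (cs (nd (nat_lit 230) (nat_lit 0) (cs (lf (nat_lit 27) (nat_lit 186)) (nd (nat_lit 310) (nat_lit 0) (cs (lf (nat_lit 11) (nat_lit 287)) (nd (nat_lit 292) (nat_lit 0) (cs (lf (nat_lit 10) (nat_lit 288)) (nd (nat_lit 293) (nat_lit 0) (cs (lf (nat_lit 23) (nat_lit 267)) (lf (nat_lit 18) (nat_lit 268)))))))))) (cs (nd (nat_lit 266) (nat_lit 0) (cs (lf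 (nat_lit 23) (nat_lit 265)) (nd (nat_lit 230) (nat_lit 0) (cs (lf (nat_lit 27) (nat_lit 186)) (nd (nat_lit 310) (nat_lit 0) (cs (lf (nat_lit 11) (nat_lit 287)) (nd (nat_lit 311) (nat_lit 0) (cs (lf (nat_lit 6) (nat_lit 288)) (nd (nat_lit 244) (nat_lit 0) (cs (lf (nat_lit 24) (nat_lit 222)) (lf (nat_lit 29) (nat_lit 244)))))))))))) (cs (nd (nat_lit 266) (nat_lit 0) (cs (lf (nat_lit 23) (nat_lit 265)) (nd (nat_lit 310) (nat_lit 0) (cs (lf (nat_lit 11) (nat_lit 287)) (nd (nat_lit 230) (nat_lit 0) (cs (lf (nat_lit 27) (nat_lit 186)) (nd (nat_lit 267) (nat_lit 0) (cs (lf (nat_lit 5) (nat_lit 266)) (rf (nat_lit 1)))))))))) (nd (nat_lit 267) (nat_lit 0) (cs (nd (nat_lit 230) (nat_lit 0) (cs (lf (nat_lit 27) (nat_lit 186)) (nd (nat_lit 266) (nat_lit 0) (cs (lf (nat_lit 23) (nat_lit 265)) (rf (nat_lit 0)))))) (cs (nd (nat_lit 230) (nat_lit 0) (cs (lf (nat_lit 27) (nat_lit 186)) (nd (nat_lit 310) (nat_lit 0) (cs (lf (nat_lit 11) (nat_lit 287)) (nd (nat_lit 332) (nat_lit 0) (cs (lf (nat_lit 30) (nat_lit 266)) (nd (nat_lit 245) (nat_lit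 0) (cs (lf (nat_lit 39) (nat_lit 244)) (lf (nat_lit 36) (nat_lit 222)))))))))) (nd (nat_lit 310) (nat_lit 0) (cs (lf (nat_lit 11) (nat_lit 287)) (nd (nat_lit 266) (nat_lit 0) (cs (lf (nat_lit 23) (nat_lit 265)) (rf (nat_lit 1)))))))))))))))))))) q74884 (by decide +kernel)
def q74900 : Q := Q.p (nat_lit 0x70000040008b0002240000000010000040000000000000000000000000000000000000000000000) (nat_lit 0x400001000008000038000000001080004a00000000000000000000000000000000000000000000000000000000) (nat_lit 6)
theorem c74900 : QOK q74900 := cut [q74899] ⟨c74899, trivial⟩ (nd (nat_lit 230) (nat_lit 0) (cs (lf (nat_lit 27) (nat_lit 186)) (rf (nat_lit 0)))) q74900 (by decide +kernel)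
def q74909 : Q := Q.p (nat_lit 0x1000004000030000000000000000000000000000000000000000000000000000000000000000000) (nat_lit 0x400000000008000000000080000200000800000000000000000000000000000000000000000000000000) (nat_lit 3)
theorem c74909 : QOK q74909 := cut [q69991] ⟨c69991, trivial⟩ (nd (nat_lit 247) (nat_lit 0) (cs (lf (nat_lit 30) (nat_lit 246)) (rf (nat_lit 0)))) q74909 (by decide +kernel)
def q74939 : Q := Q.p (nat_lit 0x1000004000030000040000000000000000000000000000000000000000000000000000000000000) (nat_lit 0xa000068000038000080000b80002e0000000000000000000000000000000000000000000000000000000) (nat_lit 7)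
theorem c74939 : QOK q74939 := cut [q73691] ⟨c73691, trivial⟩ (nd (nat_lit 245) (nat_lit 0) (cs (lf (nat_lit 47) (nat_lit 223)) (nd (nat_lit 311) (nat_lit 0) (cs (lf (nat_lit 41) (nat_lit 245)) (nd (nat_lit 244) (nat_lit 0) (cs (lf (nat_lit 0) (nat_lit 243)) (nd (nat_lit 289) (nat_lit 0) (cs (nd (nat_lit 247) (nat_lit 0) (cs (lf (nat_lit 35) (nat_lit 224)) (rf (nat_lit 0)))) (nd (nat_lit 288) (nat_lit 0) (cs (lf (nat_lit 12) (nat_lit 265)) (nd (nat_lit 313) (nat_lit 0) (cs (lf (nat_lit 29) (nat_lit 246)) (lf (nat_lit 18) (nat_lit 288)))))))))))))) q74939 (by decide +kernel)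
def q74945 : Q := Q.p (nat_lit 0x1000004000030000000000000000000000000000000000000000000000000000000000000000000) (nat_lit 0x4000000000000000000000c0000200000800000000000000000000000000000000000000000000000000) (nat_lit 3)
theorem c74945 : QOK q74945 := cut [q70732] ⟨c70732, trivial⟩ (nd (nat_lit 247) (nat_lit 0) (cs (lf (nat_lit 30) (nat_lit 246)) (rf (nat_lit 0)))) q74945 (by decide +kernel)
def q74951 : Q := Q.p (nat_lit 0x10000040008b0002240000000010000040000000000000000000000000000000000000000000000) (nat_lit 0x400007a0001e800078000000001080004a00000000000000000000000000000000000000000000000000000000) (nat_lit 7)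
theorem c74951 : QOK q74951 := cut [q74888, q74894, q74899, q74904] ⟨c74888, c74894, c74899, c74904, trivial⟩ (nd (nat_lit 313) (nat_lit 0) (cs (lf (nat_lit 29) (nat_lit 246)) (nd (nat_lit 314) (nat_lit 0) (cs (rf (nat_lit 0)) (cs (rf (nat_lit 1)) (cs (rf (nat_lit 2)) (rf (nat_lit 3)))))))) q74951 (by decide +kernel)
def q75102 : Q := Q.p (nat_lit 0x10000040000300000c0000000000000000000000000000000000000000000000000000000000000) (nat_lit 0x20000080000300000e0000380000e0000000000000000000000000000000000000000000000000000000) (nat_lit 7)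
theorem c75102 : QOK q75102 := cut [q75017] ⟨c75017, trivial⟩ (nd (nat_lit 311) (nat_lit 0) (cs (lf (nat_lit 41) (nat_lit 245)) (nd (nat_lit 245) (nat_lit 0) (cs (lf (nat_lit 47) (nat_lit 223)) (nd (nat_lit 244) (nat_lit 0) (cs (lf (nat_lit 0) (nat_lit 243)) (rf (nat_lit 0)))))))) q75102 (by decide +kernel)
def q75193 : Q := Q.p (nat_lit 0x30000030000000000000000000000000000000000000000000000000000000000000000000) (nat_lit 0x4c00000c000000000000000000000000000000000000000000000000000000000000000000) (nat_lit 3)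
theorem c75193 : QOK q75193 := cut [q62049] ⟨c62049, trivial⟩ (nd (nat_lit 291) (nat_lit 0) (cs (lf (nat_lit 18) (nat_lit 268)) (rf (nat_lit 0)))) q75193 (by decide +kernel)
def q75267 : Q := Q.p (nat_lit 0x90000640000100000000000000000000000000000000000000000000000000000000) (nat_lit 0xa0000680000a0000000000400001000000000000000000000000000000000000000000000) (nat_lit 5)
theorem c75267 : QOK q75267 := cut [q75265] ⟨c75265, trivial⟩ (nd (nat_lit 269) (nat_lit 0) (cs (lf (nat_lit 14) (nat_lit 246)) (nd (nat_lit 202) (nat_lit 0) (cs (lf (nat_lit 29) (nat_lit 202)) (rf (nat_lit 0)))))) q75267 (by decide +kernel)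
def q75335 : Q := Q.p (nat_lit 0x80000700000100000000000000000000000000000000000000000000000000000000) (nat_lit 0x1000000c0000280000000000000000000000000000000000000000000000000000000) (nat_lit 3)
theorem c75335 : QOK q75335 := cut [q75329] ⟨c75329, trivial⟩ (nd (nat_lit 247) (nat_lit 0) (cs (lf (nat_lit 22) (nat_lit 224)) (rf (nat_lit 0)))) q75335 (by decide +kernel)
def q75343 : Q := Q.p (nat_lit 0x40000100000400001000000000000000000000000000000000000000000000) (nat_lit 0x800002000008000000000200000c000020000000000000000000000000000000000) (nat_lit 4)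
theorem c75343 : QOK q75343 := cut [q75341] ⟨c75341, trivial⟩ (nd (nat_lit 245) (nat_lit 0) (cs (lf (nat_lit 41) (nat_lit 179)) (nd (nat_lit 158) (nat_lit 0) (cs (lf (nat_lit 40) (nat_lit 157)) (rf (nat_lit 0)))))) q75343 (by decide +kernel)
def q75350 : Q := Q.p (nat_lit 0x810002040000100010400040000000000000000000000000000000000000000000000) (nat_lit 0x800006000008000000008080020200000800000000000000000000000000000000000000000000) (nat_lit 5)
theorem c75350 : QOK q75350 := cut [q75348] ⟨c75348, trivial⟩ (nd (nat_lit 201) (nat_lit 0) (cs (lf (nat_lit 47) (nat_lit 179)) (nd (nat_lit 209) (nat_lit 0) (cs (lf (nat_lit 44) (nat_lit 186)) (rf (nat_lit 0)))))) q75350 (by decide +kernel)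
def q75355 : Q := Q.p (nat_lit 0x40000100000400001000000000000000000000000000000000000000000000) (nat_lit 0x280000e000028000000000000000000000000000000000) (nat_lit 4)
theorem c75355 : QOK q75355 := cut [q37976] ⟨c37976, trivial⟩ (nd (nat_lit 159) (nat_lit 0) (cs (lf (nat_lit 34) (nat_lit 158)) (nd (nat_lit 158) (nat_lit 0) (cs (rf (nat_lit 0)) (lf (nat_lit 35) (nat_lit 136)))))) q75355 (by decide +kernel)
def q75360 : Q := Q.p (nat_lit 0x800002040000100010400041000000000000000000000000000000000000000000000) (nat_lit 0x10000000008000021800002e0000a000000000000000000000000000000000000000) (nat_lit 6)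
theorem c75360 : QOK q75360 := cut [q75357] ⟨c75357, trivial⟩ (nd (nat_lit 181) (nat_lit 0) (cs (lf (nat_lit 35) (nat_lit 158)) (nd (nat_lit 209) (nat_lit 0) (cs (lf (nat_lit 44) (nat_lit 186)) (nd (nat_lit 203) (nat_lit 0) (cs (lf (nat_lit 30) (nat_lit 180)) (rf (nat_lit 0)))))))) q75360 (by decide +kernel)
def q75370 : Q := Q.p (nat_lit 0x80000600000000003000000000000000000000000000000000000000000000000000) (nat_lit 0x4000010000000000080000000000c000000000000000000000000000000000000000000000) (nat_lit 3)
theorem c75370 : QOK q75370 := cut [q40955] ⟨c40955, trivial⟩ (nd (nat_lit 227) (nat_lit 0) (cs (lf (nat_lit 47) (nat_lit 182)) (rf (nat_lit 0)))) q75370 (by decide +kernel)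
def q75373 : Q := Q.p (nat_lit 0x20000080000200000000001000000000000000000000000000000000000000000000000000) (nat_lit 0x8000000000040000100000c00000000000000000000000000000000000000000000000000000000) (nat_lit 3)
theorem c75373 : QOK q75373 := cut [q75372] ⟨c75372, trivial⟩ (nd (nat_lit 226) (nat_lit 0) (cs (lf (nat_lit 45) (nat_lit 204)) (rf (nat_lit 0)))) q75373 (by decide +kernel)
def q75380 : Q := Q.p (nat_lit 0x20000080000200000100001400000000000000000000000000000000000000000000000000) (nat_lit 0x10000040000100000000000c80006800018000000000000000000000000000000000000000000000) (nat_lit 6)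
theorem c75380 : QOK q75380 := cut [q75376] ⟨c75376, trivial⟩ (nd (nat_lit 227) (nat_lit 0) (cs (lf (nat_lit 46) (nat_lit 204)) (nd (nat_lit 294) (nat_lit 0) (cs (lf (nat_lit 29) (nat_lit 227)) (nd (nat_lit 205) (nat_lit 0) (cs (lf (nat_lit 28) (nat_lit 205)) (nd (nat_lit 203) (nat_lit 0) (cs (lf (nat_lit 11) (nat_lit 201)) (rf (nat_lit 0)))))))))) q75380 (by decide +kernel)
def q75392 : Q := Q.p (nat_lit 0x8000020000880002600000000010000040000000000000000000000000000000000000000000000) (nat_lit 0x1de000370001ce000700001000004000000000000000000000000000000000000000000000000000000000) (nat_lit 8)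
theorem c75392 : QOK q75392 := cut [q62887] ⟨c62887, trivial⟩ (nd (nat_lit 316) (nat_lit 0) (cs (lf (nat_lit 29) (nat_lit 249)) (nd (nat_lit 314) (nat_lit 0) (cs (lf (nat_lit 41) (nat_lit 248)) (nd (nat_lit 295) (nat_lit 0) (cs (nd (nat_lit 252) (nat_lit 0) (cs (lf (nat_lit 26) (nat_lit 186)) (nd (nat_lit 317) (nat_lit 0) (cs (lf (nat_lit 17) (nat_lit 292)) (nd (nat_lit 339) (nat_lit 0) (cs (lf (nat_lit 5) (nat_lit 314)) (nd (nat_lit 273) (nat_lit 0) (cs (lf (nat_lit 46) (nat_lit 250)) (lf (nat_lit 34) (nat_lit 251)))))))))) (nd (nat_lit 313) (nat_lit 0) (cs (lf (nat_lit 16) (nat_lit 291)) (nd (nat_lit 334) (nat_lit 0) (cs (lf (nat_lit 10) (nat_lit 312)) (nd (nat_lit 290) (nat_lit 0) (cs (lf (nat_lit 22) (nat_lit 290)) (rf (nat_lit 0)))))))))))))) q75392 (by decide +kernel)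
def q75413 : Q := Q.p (nat_lit 0x8000020000880002600000000000000000000000000000000000000000000000000000000000000) (nat_lit 0x1e0000f00001c0000700000000000800000000000000000000000000000000000000000000000000000000) (nat_lit 8)
theorem c75413 : QOK q75413 := cut [q73066] ⟨c73066, trivial⟩ (nd (nat_lit 316) (nat_lit 0) (cs (lf (nat_lit 29) (nat_lit 249)) (nd (nat_lit 272) (nat_lit 0) (cs (lf (nat_lit 30) (nat_lit 249)) (nd (nat_lit 274) (nat_lit 0) (cs (lf (nat_lit 20) (nat_lit 249)) (nd (nat_lit 294) (nat_lit 0) (cs (lf (nat_lit 24) (nat_lit 227)) (nd (nat_lit 317) (nat_lit 0) (cs (lf (nat_lit 29) (nat_lit 250)) (nd (nat_lit 296) (nat_lit 0) (cs (lf (nat_lit 14) (nat_lit 271)) (rf (nat_lit 0)))))))))))))) q75413 (by decide +kernel)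
def q75419 : Q := Q.p (nat_lit 0x33800050000000000000000000000000000000000000000000000) (nat_lit 0xc40000a0000000000000000000000000000000000000000000000) (nat_lit 3)
theorem c75419 : QOK q75419 := cut [q18910] ⟨c18910, trivial⟩ (nd (nat_lit 185) (nat_lit 0) (cs (rf (nat_lit 0)) (lf (nat_lit 15) (nat_lit 181)))) q75419 (by decide +kernel)
def q75453 : Q := Q.p (nat_lit 0x800002000000000011e00040000000000000000000000000000000000000000000000) (nat_lit 0x80e002010000e000000000000000000000000000000000000000000000) (nat_lit 5)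
theorem c75453 : QOK q75453 := cut [q75450] ⟨c75450, trivial⟩ (nd (nat_lit 209) (nat_lit 0) (cs (lf (nat_lit 44) (nat_lit 186)) (nd (nat_lit 222) (nat_lit 0) (cs (lf (nat_lit 10) (nat_lit 200)) (nd (nat_lit 200) (nat_lit 0) (cs (lf (nat_lit 11) (nat_lit 199)) (rf (nat_lit 0)))))))) q75453 (by decide +kernel)
def q75465 : Q := Q.p (nat_lit 0x1e00000000000000000000000000000000000000000000000000) (nat_lit 0x10000ee00000000000000000000000000000000000000000000) (nat_lit 4)
theorem c75465 : QOK q75465 := cut [q75450] ⟨c75450, trivial⟩ (nd (nat_lit 178) (nat_lit 0) (cs (lf (nat_lit 22) (nat_lit 178)) (nd (nat_lit 200) (nat_lit 0) (cs (lf (nat_lit 23) (nat_lit 177)) (rf (nat_lit 0)))))) q75465 (by decide +kernel)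
def q75471 : Q := Q.p (nat_lit 0x100001c00000000000000000000000000000000000000000000000000) (nat_lit 0xe0002200000000000000000000000000000000000000000000000000) (nat_lit 3)
theorem c75471 : QOK q75471 := cut [q64637] ⟨c64637, trivial⟩ (nd (nat_lit 223) (nat_lit 0) (cs (lf (nat_lit 6) (nat_lit 201)) (rf (nat_lit 0)))) q75471 (by decide +kernel)
def q75482 : Q := Q.p (nat_lit 0x180001400000000000000000000000000000000000000000000000000) (nat_lit 0x60002a00000000000000000000000000000000000000000000000000) (nat_lit 3)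
theorem c75482 : QOK q75482 := cut [q64637] ⟨c64637, trivial⟩ (nd (nat_lit 203) (nat_lit 0) (cs (lf (nat_lit 6) (nat_lit 201)) (rf (nat_lit 0)))) q75482 (by decide +kernel)
def q75514 : Q := Q.p (nat_lit 0x40000da0000600000000000000000000000000000000000000000000000000000000000000) (nat_lit 0x300001f0001a0000040000000000000000000000000000000000000000000000000000000000000000000) (nat_lit 6)
theorem c75514 : QOK q75514 := cut [q61052] ⟨c61052, trivial⟩ (nd (nat_lit 295) (nat_lit 0) (cs (lf (nat_lit 1) (nat_lit 269)) (nd (nat_lit 293) (nat_lit 0) (cs (lf (nat_lit 15) (nat_lit 271)) (nd (nat_lit 315) (nat_lit 0) (cs (lf (nat_lit 30) (nat_lit 249)) (nd (nat_lit 314) (nat_lit 0) (cs (lf (nat_lit 41) (nat_lit 248)) (rf (nat_lit 0)))))))))) q75514 (by decide +kernel)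
def q75542 : Q := Q.p (nat_lit 0x810002640000100010400040000000000000000000000000000000000000000000000) (nat_lit 0x60000180000e000020001180004080000200000800000000000000000000000000000000000000000000) (nat_lit 8)
theorem c75542 : QOK q75542 := cut [q74283] ⟨c74283, trivial⟩ (nd (nat_lit 269) (nat_lit 0) (cs (lf (nat_lit 29) (nat_lit 202)) (nd (nat_lit 247) (nat_lit 0) (cs (lf (nat_lit 8) (nat_lit 246)) (nd (nat_lit 230) (nat_lit 0) (cs (lf (nat_lit 27) (nat_lit 186)) (rf (nat_lit 0)))))))) q75542 (by decide +kernel)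
def q75546 : Q := Q.p (nat_lit 0x810002040000100010400040000000000000000000000000000000000000000000000) (nat_lit 0x280000e000028000000008000020800002000000000000000000000000000000000000000000000) (nat_lit 6)
theorem c75546 : QOK q75546 := cut [q74303] ⟨c74303, trivial⟩ (nd (nat_lit 209) (nat_lit 0) (cs (lf (nat_lit 44) (nat_lit 186)) (nd (nat_lit 181) (nat_lit 0) (cs (lf (nat_lit 34) (nat_lit 180)) (nd (nat_lit 291) (nat_lit 0) (cs (lf (nat_lit 28) (nat_lit 202)) (nd (nat_lit 289) (nat_lit 0) (cs (lf (nat_lit 40) (nat_lit 201)) (rf (nat_lit 0)))))))))) q75546 (by decide +kernel)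
def q75554 : Q := Q.p (nat_lit 0x10000040000100000e00000000000000000000000000000000000000000000000000) (nat_lit 0x40000000000000000c0003000000000000000000000000000000000000000000000000000) (nat_lit 3)
theorem c75554 : QOK q75554 := cut [q75553] ⟨c75553, trivial⟩ (nd (nat_lit 223) (nat_lit 0) (cs (lf (nat_lit 42) (nat_lit 201)) (rf (nat_lit 0)))) q75554 (by decide +kernel)
def q75613 : Q := Q.p (nat_lit 0x3c00000000000000000000000000000000000000000000000000) (nat_lit 0x400003b800000000000000000000000000000000000000000000) (nat_lit 4)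
theorem c75613 : QOK q75613 := cut [q3964] ⟨c3964, trivial⟩ (nd (nat_lit 184) (nat_lit 0) (cs (lf (nat_lit 16) (nat_lit 180)) (nd (nat_lit 206) (nat_lit 0) (cs (lf (nat_lit 17) (nat_lit 181)) (rf (nat_lit 0)))))) q75613 (by decide +kernel)
def q75627 : Q := Q.p (nat_lit 0x30000000000100000400000000000000000000000000000000000000000000000000) (nat_lit 0xa0000080000e0000000000000001000000000000000000000000000000000000000000000) (nat_lit 4)
theorem c75627 : QOK q75627 := cut [q75265] ⟨c75265, trivial⟩ (nd (nat_lit 246) (nat_lit 0) (cs (lf (nat_lit 29) (nat_lit 202)) (rf (nat_lit 0)))) q75627 (by decide +kernel)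
def q75650 : Q := Q.p (nat_lit 0x8000040000100000400001000000000000000000000000000000000000000000000) (nat_lit 0x2000010000000000000000200000800002000000000000000000000000000000000000000) (nat_lit 3)
theorem c75650 : QOK q75650 := cut [q74287] ⟨c74287, trivial⟩ (nd (nat_lit 268) (nat_lit 0) (cs (lf (nat_lit 41) (nat_lit 201)) (rf (nat_lit 0)))) q75650 (by decide +kernel)
def q75656 : Q := Q.p (nat_lit 0x800002040000100010400041000000000000000000000000000000000000000000000) (nat_lit 0x2000018001020004000000800002000008000000000000000000000000000000000000000) (nat_lit 5)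
theorem c75656 : QOK q75656 := cut [q51156] ⟨c51156, trivial⟩ (nd (nat_lit 267) (nat_lit 0) (cs (lf (nat_lit 40) (nat_lit 179)) (nd (nat_lit 230) (nat_lit 0) (cs (lf (nat_lit 27) (nat_lit 186)) (nd (nat_lit 268) (nat_lit 0) (cs (lf (nat_lit 41) (nat_lit 201)) (rf (nat_lit 0)))))))) q75656 (by decide +kernel)
def q75663 : Q := Q.p (nat_lit 0x90000640000100000400000000000000000000000000000000000000000000000000) (nat_lit 0x60000180000000000000001000000000000000000000000000000000000000000000) (nat_lit 3)
theorem c75663 : QOK q75663 := cut [q74277] ⟨c74277, trivial⟩ (nd (nat_lit 269) (nat_lit 0) (cs (lf (nat_lit 14) (nat_lit 246)) (rf (nat_lit 0)))) q75663 (by decide +kernel)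
def q75675 : Q := Q.p (nat_lit 0x80000640000100000400001000000000000000000000000000000000000000000000) (nat_lit 0x8000070000080000000000000000000000000000000000000000000000000000000000000) (nat_lit 3)
theorem c75675 : QOK q75675 := cut [q75506] ⟨c75506, trivial⟩ (nd (nat_lit 269) (nat_lit 0) (cs (lf (nat_lit 28) (nat_lit 180)) (rf (nat_lit 0)))) q75675 (by decide +kernel)
def q75684 : Q := Q.p (nat_lit 0x100000400001000004000000000000000000000000000000000000000) (nat_lit 0x20000080000200000000008000030000080000000000000000000000000000) (nat_lit 4)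
theorem c75684 : QOK q75684 := cut [q75681] ⟨c75681, trivial⟩ (nd (nat_lit 223) (nat_lit 0) (cs (lf (nat_lit 41) (nat_lit 157)) (nd (nat_lit 136) (nat_lit 0) (cs (rf (nat_lit 0)) (lf (nat_lit 40) (nat_lit 135)))))) q75684 (by decide +kernel)
def q75706 : Q := Q.p (nat_lit 0x3c00000000000000000000000000000000000000000000) (nat_lit 0x1c0000200001c00000000000000000000000000000000000000) (nat_lit 4)
theorem c75706 : QOK q75706 := cut [q69767] ⟨c69767, trivial⟩ (nd (nat_lit 199) (nat_lit 0) (cs (lf (nat_lit 10) (nat_lit 177)) (nd (nat_lit 177) (nat_lit 0) (cs (lf (nat_lit 11) (nat_lit 176)) (rf (nat_lit 0)))))) q75706 (by decide +kernel)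
def q75730 : Q := Q.p (nat_lit 0x100000400001000004000000000000000000000000000000000000000) (nat_lit 0x20000080000200000000002000018000020000000000000000000000000000) (nat_lit 4)
theorem c75730 : QOK q75730 := cut [q75728] ⟨c75728, trivial⟩ (nd (nat_lit 223) (nat_lit 0) (cs (lf (nat_lit 41) (nat_lit 157)) (nd (nat_lit 136) (nat_lit 0) (cs (lf (nat_lit 40) (nat_lit 135)) (rf (nat_lit 0)))))) q75730 (by decide +kernel)
def q75733 : Q := Q.p (nat_lit 0x100000400001000004000000000000000000000000000000000000000) (nat_lit 0xa0000380000a0000000000000000000000000000) (nat_lit 4)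
theorem c75733 : QOK q75733 := cut [q75732] ⟨c75732, trivial⟩ (nd (nat_lit 135) (nat_lit 0) (cs (lf (nat_lit 46) (nat_lit 135)) (rf (nat_lit 0)))) q75733 (by decide +kernel)
def q75737 : Q := Q.p (nat_lit 0x180000600000800002000000000000000000000000000000000000000) (nat_lit 0x10000060001800000000000000000000000000000000000000000000000000) (nat_lit 3)
theorem c75737 : QOK q75737 := cut [q75736] ⟨c75736, trivial⟩ (nd (nat_lit 222) (nat_lit 0) (cs (lf (nat_lit 41) (nat_lit 156)) (rf (nat_lit 0)))) q75737 (by decide +kernel)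
def q75776 : Q := Q.p (nat_lit 0xf00000400000000000000000000000000000000000000000000) (nat_lit 0x200000e0001000000000001000004000000000000000000000000000000000) (nat_lit 4)
theorem c75776 : QOK q75776 := cut [q75774] ⟨c75774, trivial⟩ (nd (nat_lit 222) (nat_lit 0) (cs (lf (nat_lit 11) (nat_lit 199)) (nd (nat_lit 223) (nat_lit 0) (cs (lf (nat_lit 6) (nat_lit 200)) (rf (nat_lit 0)))))) q75776 (by decide +kernel)
def q75899 : Q := Q.p (nat_lit 0x800002000000100010600041000004000000000000000000000000000000000000000) (nat_lit 0x103000c0f00201c000e80000b80000c000000000000000000000000000000000) (nat_lit 9)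
theorem c75899 : QOK q75899 := cut [q75839, q75892] ⟨c75839, c75892, trivial⟩ (nd (nat_lit 223) (nat_lit 0) (cs (lf (nat_lit 41) (nat_lit 157)) (nd (nat_lit 181) (nat_lit 0) (cs (rf (nat_lit 0)) (cs (nd (nat_lit 182) (nat_lit 0) (cs (lf (nat_lit 6) (nat_lit 179)) (nd (nat_lit 230) (nat_lit 0) (cs (lf (nat_lit 27) (nat_lit 186)) (nd (nat_lit 209) (nat_lit 0) (cs (lf (nat_lit 44) (nat_lit 186)) (nd (nat_lit 157) (nat_lit 0) (cs (lf (nat_lit 47) (nat_lit 135)) (nd (nat_lit 156) (nat_lit 0) (cs (lf (nat_lit 3) (nat_lit 156)) (lf (nat_lit 0) (nat_lit 155)))))))))))) (nd (nat_lit 199) (nat_lit 0) (cs (lf (nat_lit 13) (nat_lit 177)) (nd (nat_lit 157) (nat_lit 0) (cs (lf (nat_lit 47) (nat_lit 135)) (nd (nat_lit 156) (nat_lit 0) (cs (lf (nat_lit 0) (nat_lit 155)) (nd (nat_lit 179) (nat_lit 0) (cs (lf (nat_lit 47) (nat_lit 134)) (nd (nat_lit 222) (nat_lit 0) (cs (lf (nat_lit 41) (nat_lit 156)) (rf (nat_lit 1))))))))))))))))) q75899 (by decide +kernel)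
def q75919 : Q := Q.p (nat_lit 0x800002000000100010600041000000000000000000000000000000000000000000000) (nat_lit 0x103000c0e0021800002800007c0003c0000e0000200000000000000000000000) (nat_lit 9)
theorem c75919 : QOK q75919 := cut [q75900, q75906, q75736] ⟨c75900, c75906, c75736, trivial⟩ (nd (nat_lit 209) (nat_lit 0) (cs (lf (nat_lit 44) (nat_lit 186)) (nd (nat_lit 158) (nat_lit 0) (cs (rf (nat_lit 0)) (cs (nd (nat_lit 230) (nat_lit 0) (cs (lf (nat_lit 27) (nat_lit 186)) (nd (nat_lit 135) (nat_lit 0) (cs (lf (nat_lit 46) (nat_lit 135)) (nd (nat_lit 136) (nat_lit 0) (cs (lf (nat_lit 47) (nat_lit 113)) (rf (nat_lit 1)))))))) (nd (nat_lit 223) (nat_lit 0) (cs (lf (nat_lit 41) (nat_lit 157)) (nd (nat_lit 222) (nat_lit 0) (cs (rf (nat_lit 2)) (nd (nat_lit 157) (nat_lit 0) (cs (lf (nat_lit 47) (nat_lit 135)) (nd (nat_lit 179) (nat_lit 0) (cs (lf (nat_lit 41) (nat_lit 156)) (nd (nat_lit 156) (nat_lit 0) (cs (lf (nat_lit 47) (nat_lit 134)) (nd (nat_lit 155) (nat_lit 0) (cs (lf (nat_lit 5) (nat_lit 155)) (lf (nat_lit 0) (nat_lit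 154))))))))))))))))))) q75919 (by decide +kernel)
def q75939 : Q := Q.p (nat_lit 0x890002600000100010400040000000000000000000000000000000000000000000000) (nat_lit 0x80000600001c0008000020000001000000000000000000000000000000000000000000000) (nat_lit 5)
theorem c75939 : QOK q75939 := cut [q75938] ⟨c75938, trivial⟩ (nd (nat_lit 209) (nat_lit 0) (cs (lf (nat_lit 44) (nat_lit 186)) (rf (nat_lit 0)))) q75939 (by decide +kernel)
def q75948 : Q := Q.p (nat_lit 0x80000300000000001c00000000000000000000000000000000000000000000000000) (nat_lit 0x40000020003e000000000000000000000000000000000000000000000) (nat_lit 4)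
theorem c75948 : QOK q75948 := cut [q75947] ⟨c75947, trivial⟩ (nd (nat_lit 182) (nat_lit 0) (cs (lf (nat_lit 26) (nat_lit 182)) (rf (nat_lit 0)))) q75948 (by decide +kernel)
def q75981 : Q := Q.p (nat_lit 0x10000040000100000400000000000000000000000000000000000000000000000000) (nat_lit 0x800006000008000000000080000200000800000000000000000000000000000000000000000000) (nat_lit 4)
theorem c75981 : QOK q75981 := cut [q75348] ⟨c75348, trivial⟩ (nd (nat_lit 201) (nat_lit 0) (cs (lf (nat_lit 47) (nat_lit 179)) (rf (nat_lit 0)))) q75981 (by decide +kernel)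
def q75996 : Q := Q.p (nat_lit 0x40000100001400001800000000000000000000000000000000000000000000) (nat_lit 0x230000e000008000000000000000000000000000000000000000) (nat_lit 4)
theorem c75996 : QOK q75996 := cut [q75994] ⟨c75994, trivial⟩ (nd (nat_lit 181) (nat_lit 0) (cs (lf (nat_lit 35) (nat_lit 158)) (nd (nat_lit 182) (nat_lit 0) (cs (lf (nat_lit 5) (nat_lit 179)) (rf (nat_lit 0)))))) q75996 (by decide +kernel)
def q76003 : Q := Q.p (nat_lit 0x40000100001400001800000000000000000000000000000000000000000000) (nat_lit 0x9c0002600009c00000000000000000000000000000000000000) (nat_lit 6)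
theorem c76003 : QOK q76003 := cut [q76002] ⟨c76002, trivial⟩ (nd (nat_lit 181) (nat_lit 0) (cs (lf (nat_lit 35) (nat_lit 158)) (rf (nat_lit 0)))) q76003 (by decide +kernel)
def q76005 : Q := Q.p (nat_lit 0x1400001800000000000000000000000000000000000000000000) (nat_lit 0x2a00000600000000000000000000000000000000000000000000) (nat_lit 3)
theorem c76005 : QOK q76005 := cut [q76004] ⟨c76004, trivial⟩ (nd (nat_lit 203) (nat_lit 0) (cs (lf (nat_lit 18) (nat_lit 179)) (rf (nat_lit 0)))) q76005 (by decide +kernel)
def q76010 : Q := Q.p (nat_lit 0x80000640000100000400001000000000000000000000000000000000000000000000) (nat_lit 0x8000070000000000000000200000800002000000000000000000000000000000000000000) (nat_lit 4)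
theorem c76010 : QOK q76010 := cut [q75338] ⟨c75338, trivial⟩ (nd (nat_lit 179) (nat_lit 0) (cs (lf (nat_lit 47) (nat_lit 157)) (nd (nat_lit 268) (nat_lit 0) (cs (lf (nat_lit 46) (nat_lit 179)) (rf (nat_lit 0)))))) q76010 (by decide +kernel)
def q76014 : Q := Q.p (nat_lit 0x20000100000400001000004000000000000000000000000000000000000000) (nat_lit 0x8000040000000000000002000008000020000000000000000000000000000000000) (nat_lit 3)
theorem c76014 : QOK q76014 := cut [q75341] ⟨c75341, trivial⟩ (nd (nat_lit 246) (nat_lit 0) (cs (lf (nat_lit 41) (nat_lit 179)) (rf (nat_lit 0)))) q76014 (by decide +kernel)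
def q76019 : Q := Q.p (nat_lit 0x20000100000400001000004000000000000000000000000000000000000000) (nat_lit 0x8000040000000000000000800002000008000000000000000000000000000000000) (nat_lit 3)
theorem c76019 : QOK q76019 := cut [q37976] ⟨c37976, trivial⟩ (nd (nat_lit 246) (nat_lit 0) (cs (rf (nat_lit 0)) (lf (nat_lit 41) (nat_lit 179)))) q76019 (by decide +kernel)
def q76096 : Q := Q.p (nat_lit 0x80000640000180000600000000000000000000000000000000000000000000000000) (nat_lit 0xc000070000000000000000000000000000000000000000000000000000000000000000000) (nat_lit 3)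
theorem c76096 : QOK q76096 := cut [q75338] ⟨c75338, trivial⟩ (nd (nat_lit 268) (nat_lit 0) (cs (lf (nat_lit 42) (nat_lit 201)) (rf (nat_lit 0)))) q76096 (by decide +kernel)
def q76113 : Q := Q.p (nat_lit 0x400001000004000010000000000000000000000000000000000) (nat_lit 0x280000e0000280000000000000000000000) (nat_lit 4)
theorem c76113 : QOK q76113 := cut [q76111] ⟨c76111, trivial⟩ (nd (nat_lit 115) (nat_lit 0) (cs (lf (nat_lit 34) (nat_lit 114)) (nd (nat_lit 114) (nat_lit 0) (cs (lf (nat_lit 35) (nat_lit 92)) (rf (nat_lit 0)))))) q76113 (by decide +kernel)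
def q76118 : Q := Q.p (nat_lit 0x80000640000100000400001000000000000000000000000000000000000000000000) (nat_lit 0xa000078000020000000000000000000000000000000000000000000000000000000000000) (nat_lit 4)
theorem c76118 : QOK q76118 := cut [q75338] ⟨c75338, trivial⟩ (nd (nat_lit 267) (nat_lit 0) (cs (lf (nat_lit 40) (nat_lit 179)) (nd (nat_lit 268) (nat_lit 0) (cs (lf (nat_lit 41) (nat_lit 201)) (rf (nat_lit 0)))))) q76118 (by decide +kernel)
def q76126 : Q := Q.p (nat_lit 0x80000020000100000400001000000000000000000000000000000000000000000000) (nat_lit 0x8000078000040000000000200000800002000000000000000000000000000000000000000) (nat_lit 5)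
theorem c76126 : QOK q76126 := cut [q76123] ⟨c76123, trivial⟩ (nd (nat_lit 246) (nat_lit 0) (cs (lf (nat_lit 41) (nat_lit 179)) (nd (nat_lit 179) (nat_lit 0) (cs (lf (nat_lit 47) (nat_lit 157)) (nd (nat_lit 268) (nat_lit 0) (cs (lf (nat_lit 46) (nat_lit 179)) (rf (nat_lit 0)))))))) q76126 (by decide +kernel)
def q76143 : Q := Q.p (nat_lit 0x100000400001000004000000000000000000000000000000000000000) (nat_lit 0x800002000008000080000380000e0000080000000000000000000000) (nat_lit 6)
theorem c76143 : QOK q76143 := cut [q76139] ⟨c76139, trivial⟩ (nd (nat_lit 137) (nat_lit 0) (cs (lf (nat_lit 34) (nat_lit 136)) (nd (nat_lit 136) (nat_lit 0) (cs (lf (nat_lit 35) (nat_lit 114)) (nd (nat_lit 113) (nat_lit 0) (cs (lf (nat_lit 46) (nat_lit 113)) (nd (nat_lit 201) (nat_lit 0) (cs (lf (nat_lit 41) (nat_lit 135)) (rf (nat_lit 0)))))))))) q76143 (by decide +kernel)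
def q76148 : Q := Q.p (nat_lit 0x100000400001000004000000000000000000000000000000000000000) (nat_lit 0x80000a0000280000a0000180000e0000300000800000000000000000) (nat_lit 8)
theorem c76148 : QOK q76148 := cut [q75878] ⟨c75878, trivial⟩ (nd (nat_lit 135) (nat_lit 0) (cs (lf (nat_lit 46) (nat_lit 135)) (nd (nat_lit 136) (nat_lit 0) (cs (lf (nat_lit 47) (nat_lit 113)) (nd (nat_lit 201) (nat_lit 0) (cs (rf (nat_lit 0)) (lf (nat_lit 41) (nat_lit 135)))))))) q76148 (by decide +kernel)
def q76157 : Q := Q.p (nat_lit 0x100000400001000004000000000000000000000000000000000000000) (nat_lit 0x1000004000008000020000080000a0000300000c0000000000000000000000000000) (nat_lit 6)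
theorem c76157 : QOK q76157 := cut [q76154] ⟨c76154, trivial⟩ (nd (nat_lit 137) (nat_lit 0) (cs (lf (nat_lit 34) (nat_lit 136)) (nd (nat_lit 136) (nat_lit 0) (cs (lf (nat_lit 35) (nat_lit 114)) (nd (nat_lit 201) (nat_lit 0) (cs (lf (nat_lit 41) (nat_lit 135)) (rf (nat_lit 0)))))))) q76157 (by decide +kernel)
def q76177 : Q := Q.p (nat_lit 0x100001c000000000000000000000000000000000000000) (nat_lit 0x3a800060000180000000000000000000000000000000000) (nat_lit 5)
theorem c76177 : QOK q76177 := cut [q76175] ⟨c76175, trivial⟩ (nd (nat_lit 161) (nat_lit 0) (cs (lf (nat_lit 11) (nat_lit 157)) (nd (nat_lit 139) (nat_lit 0) (cs (lf (nat_lit 17) (nat_lit 136)) (rf (nat_lit 0)))))) q76177 (by decide +kernel)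
def q76179 : Q := Q.p (nat_lit 0x80000200000010003040004100001c000000000000000000000000000000000000000) (nat_lit 0x100000400000000003c000022000008000000000000000000000000000000000) (nat_lit 5)
theorem c76179 : QOK q76179 := cut [q75743] ⟨c75743, trivial⟩ (nd (nat_lit 157) (nat_lit 0) (cs (lf (nat_lit 47) (nat_lit 135)) (nd (nat_lit 230) (nat_lit 0) (cs (lf (nat_lit 27) (nat_lit 186)) (rf (nat_lit 0)))))) q76179 (by decide +kernel)
def q76233 : Q := Q.p (nat_lit 0x1c0000400000000000000000000000000000000000000000000000000) (nat_lit 0x20003a00000000000000000000000000000000000000000000000000) (nat_lit 3)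
theorem c76233 : QOK q76233 := cut [q76232] ⟨c76232, trivial⟩ (nd (nat_lit 203) (nat_lit 0) (cs (lf (nat_lit 12) (nat_lit 199)) (rf (nat_lit 0)))) q76233 (by decide +kernel)
def q76235 : Q := Q.p (nat_lit 0x1c0000400000000000000000000000000000000000000000000000000) (nat_lit 0x220003800000000000000000000000000000000000000000000000000) (nat_lit 3)
theorem c76235 : QOK q76235 := cut [q50797] ⟨c50797, trivial⟩ (nd (nat_lit 203) (nat_lit 0) (cs (rf (nat_lit 0)) (lf (nat_lit 12) (nat_lit 199)))) q76235 (by decide +kernel)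
def q76238 : Q := Q.p (nat_lit 0x8000026000003c0010000040000000000000000000000000000000000000000000000) (nat_lit 0x1038004c00000000000000000000000000000000000000000000000000000000) (nat_lit 4)
theorem c76238 : QOK q76238 := cut [q76237] ⟨c76237, trivial⟩ (nd (nat_lit 230) (nat_lit 0) (cs (lf (nat_lit 27) (nat_lit 186)) (rf (nat_lit 0)))) q76238 (by decide +kernel)
def q76239 : Q := Q.p (nat_lit 0x6000003c0000000000000000000000000000000000000000000000000000000) (nat_lit 0xc00003800000000000000000000000000000000000000000000000000) (nat_lit 3)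
theorem c76239 : QOK q76239 := cut [q50211] ⟨c50211, trivial⟩ (nd (nat_lit 226) (nat_lit 0) (cs (lf (nat_lit 3) (nat_lit 224)) (rf (nat_lit 0)))) q76239 (by decide +kernel)
def q76242 : Q := Q.p (nat_lit 0x90000600000300000400000000000000000000000000000000000000000000000000) (nat_lit 0x80000600000c0000000000000000000000000000000000000000000000000000000000000) (nat_lit 3)
theorem c76242 : QOK q76242 := cut [q76241] ⟨c76241, trivial⟩ (nd (nat_lit 269) (nat_lit 0) (cs (lf (nat_lit 14) (nat_lit 246)) (rf (nat_lit 0)))) q76242 (by decide +kernel)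
def q76262 : Q := Q.p (nat_lit 0x60000780000000000000000000000000000000000000000000000000) (nat_lit 0x10000000000000000300000800002000000000000000000000000000000000) (nat_lit 3)
theorem c76262 : QOK q76262 := cut [q76261] ⟨c76261, trivial⟩ (nd (nat_lit 177) (nat_lit 0) (cs (lf (nat_lit 23) (nat_lit 176)) (rf (nat_lit 0)))) q76262 (by decide +kernel)
def q76270 : Q := Q.p (nat_lit 0x1c0000400000000000000000000000000000000000000000000000000) (nat_lit 0xfc0002300003c0000000000000000000000000000000000000000000000000) (nat_lit 5)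
theorem c76270 : QOK q76270 := cut [q76258, q76269] ⟨c76258, c76269, trivial⟩ (nd (nat_lit 221) (nat_lit 0) (cs (rf (nat_lit 0)) (rf (nat_lit 1)))) q76270 (by decide +kernel)
def q76277 : Q := Q.p (nat_lit 0x100001e0000000000000000000000000000000000000000000000000000000) (nat_lit 0x400000c0000000000c0000200000800000000000000000000000000000000000000) (nat_lit 4)
theorem c76277 : QOK q76277 := cut [q76275] ⟨c76275, trivial⟩ (nd (nat_lit 199) (nat_lit 0) (cs (lf (nat_lit 23) (nat_lit 198)) (nd (nat_lit 243) (nat_lit 0) (cs (lf (nat_lit 11) (nat_lit 220)) (rf (nat_lit 0)))))) q76277 (by decide +kernel)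
def q76306 : Q := Q.p (nat_lit 0x1e0000000000000000000000000000000000000000000000000000000) (nat_lit 0x200000c0002000001c0000400001000000000000000000000000000000000000000) (nat_lit 5)
theorem c76306 : QOK q76306 := cut [q76302] ⟨c76302, trivial⟩ (nd (nat_lit 243) (nat_lit 0) (cs (lf (nat_lit 11) (nat_lit 220)) (nd (nat_lit 199) (nat_lit 0) (cs (lf (nat_lit 23) (nat_lit 198)) (nd (nat_lit 200) (nat_lit 0) (cs (rf (nat_lit 0)) (lf (nat_lit 18) (nat_lit 199)))))))) q76306 (by decide +kernel)
def q76317 : Q := Q.p (nat_lit 0x1e0000000000000000000000000000000000000000000000000000000) (nat_lit 0x400001c0002000000c0000200000800000000000000000000000000000000000000) (nat_lit 5)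
theorem c76317 : QOK q76317 := cut [q76275] ⟨c76275, trivial⟩ (nd (nat_lit 199) (nat_lit 0) (cs (lf (nat_lit 23) (nat_lit 198)) (nd (nat_lit 243) (nat_lit 0) (cs (lf (nat_lit 11) (nat_lit 220)) (nd (nat_lit 244) (nat_lit 0) (cs (rf (nat_lit 0)) (lf (nat_lit 6) (nat_lit 221)))))))) q76317 (by decide +kernel)
def q76325 : Q := Q.p (nat_lit 0x30000000000180000400000000000000000000000000000000000000000000000000) (nat_lit 0xc000000000040000000000200000800000000000000000000000000000000000000000000) (nat_lit 3)
theorem c76325 : QOK q76325 := cut [q76324] ⟨c76324, trivial⟩ (nd (nat_lit 246) (nat_lit 0) (cs (lf (nat_lit 29) (nat_lit 202)) (rf (nat_lit 0)))) q76325 (by decide +kernel)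
def q76374 : Q := Q.p (nat_lit 0x810002040000180010400040000000000000000000000000000000000000000000000) (nat_lit 0x2000008001020004e00003b00002e00002000000000000000000000000000000000000000) (nat_lit 9)
theorem c76374 : QOK q76374 := cut [q76253, q74665] ⟨c76253, c74665, trivial⟩ (nd (nat_lit 201) (nat_lit 0) (cs (rf (nat_lit 0)) (nd (nat_lit 230) (nat_lit 0) (cs (lf (nat_lit 27) (nat_lit 186)) (nd (nat_lit 267) (nat_lit 0) (cs (lf (nat_lit 41) (nat_lit 201)) (nd (nat_lit 203) (nat_lit 0) (cs (lf (nat_lit 35) (nat_lit 180)) (nd (nat_lit 204) (nat_lit 0) (cs (lf (nat_lit 6) (nat_lit 201)) (nd (nat_lit 226) (nat_lit 0) (cs (lf (nat_lit 5) (nat_lit 201)) (nd (nat_lit 200) (nat_lit 0) (cs (rf (nat_lit 1)) (lf (nat_lit 19) (nat_lit 200)))))))))))))))) q76374 (by decide +kernel)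
def q76376 : Q := Q.p (nat_lit 0x80000600000300002000000000000000000000000000000000000000000000000000) (nat_lit 0x40000100000000000c00000000008000000000000000000000000000000000000000000000) (nat_lit 3)
theorem c76376 : QOK q76376 := cut [q40955] ⟨c40955, trivial⟩ (nd (nat_lit 227) (nat_lit 0) (cs (rf (nat_lit 0)) (lf (nat_lit 2) (nat_lit 224)))) q76376 (by decide +kernel)
def q76401 : Q := Q.p (nat_lit 0x180000f00000000000000000000000000000000000000000000000000) (nat_lit 0xc0000700000000000000000000000000000000000000000000) (nat_lit 3)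
theorem c76401 : QOK q76401 := cut [q48761] ⟨c48761, trivial⟩ (nd (nat_lit 199) (nat_lit 0) (cs (rf (nat_lit 0)) (lf (nat_lit 0) (nat_lit 198)))) q76401 (by decide +kernel)
def q76404 : Q := Q.p (nat_lit 0x80000300000400000000000000000000000000000000000000000000) (nat_lit 0x8000020000000000000000800001000004000000000000000000000000000000000) (nat_lit 3)
theorem c76404 : QOK q76404 := cut [q50224] ⟨c50224, trivial⟩ (nd (nat_lit 245) (nat_lit 0) (cs (lf (nat_lit 42) (nat_lit 178)) (rf (nat_lit 0)))) q76404 (by decide +kernel)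
def q76419 : Q := Q.p (nat_lit 0x20000080000600000800000000000000000000000000000000000000000000) (nat_lit 0x1900000700001000000000000000000000000000000000000000) (nat_lit 4)
theorem c76419 : QOK q76419 := cut [q76418] ⟨c76418, trivial⟩ (nd (nat_lit 178) (nat_lit 0) (cs (lf (nat_lit 47) (nat_lit 156)) (rf (nat_lit 0)))) q76419 (by decide +kernel)
def q76439 : Q := Q.p (nat_lit 0xc0000f00000000000000000000000000000000000000000000000000) (nat_lit 0x20000000000000000600001000004000000000000000000000000000000000) (nat_lit 3)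
theorem c76439 : QOK q76439 := cut [q75774] ⟨c75774, trivial⟩ (nd (nat_lit 178) (nat_lit 0) (cs (lf (nat_lit 23) (nat_lit 177)) (rf (nat_lit 0)))) q76439 (by decide +kernel)
def q76489 : Q := Q.p (nat_lit 0x80000620000180000600000000000000000000000000000000000000000000000000) (nat_lit 0xe000078000040000000000000000800000000000000000000000000000000000000000000) (nat_lit 5)
theorem c76489 : QOK q76489 := cut [q76488] ⟨c76488, trivial⟩ (nd (nat_lit 267) (nat_lit 0) (cs (lf (nat_lit 30) (nat_lit 201)) (rf (nat_lit 0)))) q76489 (by decide +kernel)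
def q76492 : Q := Q.p (nat_lit 0x8000020000180000600000000000000000000000000000000000000000000000000) (nat_lit 0x1000004000050000000000000000800002000008000000000000000000000000000000000) (nat_lit 4)
theorem c76492 : QOK q76492 := cut [q76410] ⟨c76410, trivial⟩ (nd (nat_lit 266) (nat_lit 0) (cs (lf (nat_lit 41) (nat_lit 200)) (nd (nat_lit 179) (nat_lit 0) (cs (rf (nat_lit 0)) (lf (nat_lit 40) (nat_lit 178)))))) q76492 (by decide +kernel)
def q76499 : Q := Q.p (nat_lit 0x20000180000600000000000000000000000000000000000000000000000000) (nat_lit 0x700003c00001c000000000000000800000000000000000000000000000000000000000000) (nat_lit 6)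
theorem c76499 : QOK q76499 := cut [q76498] ⟨c76498, trivial⟩ (nd (nat_lit 267) (nat_lit 0) (cs (lf (nat_lit 30) (nat_lit 201)) (rf (nat_lit 0)))) q76499 (by decide +kernel)
def q76538 : Q := Q.p (nat_lit 0x8000020000180000600000000000000000000000000000000000000000000000000) (nat_lit 0x2000001c0000400000000000000000000000000000000000000000000) (nat_lit 3)
theorem c76538 : QOK q76538 := cut [q76537] ⟨c76537, trivial⟩ (nd (nat_lit 200) (nat_lit 0) (cs (lf (nat_lit 47) (nat_lit 178)) (rf (nat_lit 0)))) q76538 (by decide +kernel)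
def q76555 : Q := Q.p (nat_lit 0x30000180000000000000000000000000000000000000000000000000000000) (nat_lit 0x4c000600000000000000000000000000000000000000000000000000000000) (nat_lit 3)
theorem c76555 : QOK q76555 := cut [q51798] ⟨c51798, trivial⟩ (nd (nat_lit 225) (nat_lit 0) (cs (rf (nat_lit 0)) (lf (nat_lit 6) (nat_lit 222)))) q76555 (by decide +kernel)
def q76618 : Q := Q.p (nat_lit 0x800002000000180010c00040000000000000000000000000000000000000000000000) (nat_lit 0x1000004060003200000000000000000000000000000000000000000000000000) (nat_lit 4)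
theorem c76618 : QOK q76618 := cut [q76232] ⟨c76232, trivial⟩ (nd (nat_lit 230) (nat_lit 0) (cs (lf (nat_lit 27) (nat_lit 186)) (nd (nat_lit 222) (nat_lit 0) (cs (lf (nat_lit 12) (nat_lit 199)) (rf (nat_lit 0)))))) q76618 (by decide +kernel)
def q76622 : Q := Q.p (nat_lit 0x8000026000003c0010000040000000000000000000000000000000000000000000000) (nat_lit 0x1000004c00000380000000000000000000000000000000000000000000000000) (nat_lit 4)
theorem c76622 : QOK q76622 := cut [q69944] ⟨c69944, trivial⟩ (nd (nat_lit 230) (nat_lit 0) (cs (lf (nat_lit 27) (nat_lit 186)) (nd (nat_lit 226) (nat_lit 0) (cs (lf (nat_lit 3) (nat_lit 224)) (rf (nat_lit 0)))))) q76622 (by decide +kernel)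
def q76656 : Q := Q.p (nat_lit 0x180001e00000000000000000000000000000000000000000000000000) (nat_lit 0xe0000010000e000000000000000000000000000000000000000000000) (nat_lit 4)
theorem c76656 : QOK q76656 := cut [q75450] ⟨c75450, trivial⟩ (nd (nat_lit 226) (nat_lit 0) (cs (lf (nat_lit 5) (nat_lit 201)) (nd (nat_lit 200) (nat_lit 0) (cs (rf (nat_lit 0)) (lf (nat_lit 19) (nat_lit 200)))))) q76656 (by decide +kernel)
def q76743 : Q := Q.p (nat_lit 0x20000000000300000400000000000000000000000000000000000000000000000000) (nat_lit 0x8000000000080000000000800001000004000000000000000000000000000000000000000) (nat_lit 3)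
theorem c76743 : QOK q76743 := cut [q45756] ⟨c45756, trivial⟩ (nd (nat_lit 247) (nat_lit 0) (cs (lf (nat_lit 42) (nat_lit 202)) (rf (nat_lit 0)))) q76743 (by decide +kernel)
def q76750 : Q := Q.p (nat_lit 0x810002040000100010400040000000000000000000000000000000000000000000000) (nat_lit 0x800006000008001000004200000800002000000000000000000000000000000000000000000000) (nat_lit 5)
theorem c76750 : QOK q76750 := cut [q51113] ⟨c51113, trivial⟩ (nd (nat_lit 289) (nat_lit 0) (cs (lf (nat_lit 40) (nat_lit 201)) (nd (nat_lit 230) (nat_lit 0) (cs (lf (nat_lit 27) (nat_lit 186)) (nd (nat_lit 290) (nat_lit 0) (cs (lf (nat_lit 41) (nat_lit 223)) (rf (nat_lit 0)))))))) q76750 (by decide +kernel)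
def q76759 : Q := Q.p (nat_lit 0x8a0002640000100010400040000000000000000000000000000000000000000000000) (nat_lit 0x800006000058001000004200000800002000000000000000000000000000000000000000000000) (nat_lit 6)
theorem c76759 : QOK q76759 := cut [q76757] ⟨c76757, trivial⟩ (nd (nat_lit 230) (nat_lit 0) (cs (lf (nat_lit 27) (nat_lit 186)) (nd (nat_lit 268) (nat_lit 0) (cs (lf (nat_lit 14) (nat_lit 246)) (rf (nat_lit 0)))))) q76759 (by decide +kernel)
def q76768 : Q := Q.p (nat_lit 0x100000700000000000000000000000000000000000000000000000000) (nat_lit 0x2800000c0003800000000000000000000000000000000000000000000) (nat_lit 4)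
theorem c76768 : QOK q76768 := cut [q76767] ⟨c76767, trivial⟩ (nd (nat_lit 199) (nat_lit 0) (cs (lf (nat_lit 5) (nat_lit 199)) (rf (nat_lit 0)))) q76768 (by decide +kernel)
def q76778 : Q := Q.p (nat_lit 0x780000000000000000000000000000000000000000000000000) (nat_lit 0x40000840003f00000c00002000008000000000000000000000000000) (nat_lit 7)
theorem c76778 : QOK q76778 := cut [q76772] ⟨c76772, trivial⟩ (nd (nat_lit 180) (nat_lit 0) (cs (lf (nat_lit 17) (nat_lit 177)) (nd (nat_lit 179) (nat_lit 0) (cs (nd (nat_lit 177) (nat_lit 0) (cs (lf (nat_lit 23) (nat_lit 176)) (nd (nat_lit 178) (nat_lit 0) (cs (lf (nat_lit 18) (nat_lit 177)) (nd (nat_lit 155) (nat_lit 0) (cs (lf (nat_lit 23) (nat_lit 154)) (rf (nat_lit 0)))))))) (lf (nat_lit 12) (nat_lit 176)))))) q76778 (by decide +kernel)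
def q76786 : Q := Q.p (nat_lit 0x100000700000000000000000000000000000000000000000000000000) (nat_lit 0x2f00008c0000700000000000000000000000000000000000000000000) (nat_lit 6)
theorem c76786 : QOK q76786 := cut [q76784] ⟨c76784, trivial⟩ (nd (nat_lit 199) (nat_lit 0) (cs (lf (nat_lit 5) (nat_lit 199)) (nd (nat_lit 198) (nat_lit 0) (cs (lf (nat_lit 4) (nat_lit 198)) (rf (nat_lit 0)))))) q76786 (by decide +kernel)
def q76789 : Q := Q.p (nat_lit 0xf00000000000000000000000000000000000000000000000000) (nat_lit 0xe00001000000e00000000000000000000000000000000000000000000) (nat_lit 4)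
theorem c76789 : QOK q76789 := cut [q26986] ⟨c26986, trivial⟩ (nd (nat_lit 226) (nat_lit 0) (cs (lf (nat_lit 4) (nat_lit 200)) (nd (nat_lit 204) (nat_lit 0) (cs (rf (nat_lit 0)) (lf (nat_lit 5) (nat_lit 201)))))) q76789 (by decide +kernel)
def q76799 : Q := Q.p (nat_lit 0x300000f00000000000000000000000000000000000000000000000000) (nat_lit 0x40000180000e0001000000800002000000000000000000000000000000000000000) (nat_lit 5)
theorem c76799 : QOK q76799 := cut [q76391] ⟨c76391, trivial⟩ (nd (nat_lit 222) (nat_lit 0) (cs (lf (nat_lit 11) (nat_lit 199)) (nd (nat_lit 223) (nat_lit 0) (cs (lf (nat_lit 17) (nat_lit 200)) (rf (nat_lit 0)))))) q76799 (by decide +kernel)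
def q76804 : Q := Q.p (nat_lit 0x100000700000000000000000000000000000000000000000000000000) (nat_lit 0x80000b00008c0003f00001000004000000000000000000000000000000000) (nat_lit 6)
theorem c76804 : QOK q76804 := cut [q75772, q76767] ⟨c75772, c76767, trivial⟩ (nd (nat_lit 199) (nat_lit 0) (cs (rf (nat_lit 0)) (rf (nat_lit 1)))) q76804 (by decide +kernel)
def q76821 : Q := Q.p (nat_lit 0x80000200000000000f00000000000000000000000000000000000000000000000000) (nat_lit 0xc0000300000e000000000000000000000000000000000000000000000) (nat_lit 4)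
theorem c76821 : QOK q76821 := cut [q74407] ⟨c74407, trivial⟩ (nd (nat_lit 182) (nat_lit 0) (cs (lf (nat_lit 16) (nat_lit 178)) (nd (nat_lit 204) (nat_lit 0) (cs (lf (nat_lit 17) (nat_lit 179)) (rf (nat_lit 0)))))) q76821 (by decide +kernel)
def q76829 : Q := Q.p (nat_lit 0x40000f00000000000000000000000000000000000000000000000000) (nat_lit 0x10000000001000000e00002000008000000000000000000000000000000000) (nat_lit 4)
theorem c76829 : QOK q76829 := cut [q69623] ⟨c69623, trivial⟩ (nd (nat_lit 178) (nat_lit 0) (cs (lf (nat_lit 23) (nat_lit 177)) (nd (nat_lit 179) (nat_lit 0) (cs (lf (nat_lit 18) (nat_lit 178)) (rf (nat_lit 0)))))) q76829 (by decide +kernel)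
def q76849 : Q := Q.p (nat_lit 0x100000700000000000000000000000000000000000000000000000000) (nat_lit 0x270000880000700000000000000000000000000000000000000000000) (nat_lit 5)
theorem c76849 : QOK q76849 := cut [q48761] ⟨c48761, trivial⟩ (nd (nat_lit 199) (nat_lit 0) (cs (lf (nat_lit 5) (nat_lit 199)) (nd (nat_lit 221) (nat_lit 0) (cs (lf (nat_lit 11) (nat_lit 198)) (nd (nat_lit 203) (nat_lit 0) (cs (lf (nat_lit 10) (nat_lit 199)) (rf (nat_lit 0)))))))) q76849 (by decide +kernel)
def q76854 : Q := Q.p (nat_lit 0x780000200000000000000000000000000000000000000000000) (nat_lit 0x10000070000800000000000800002000000000000000000000000000000000) (nat_lit 4)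
theorem c76854 : QOK q76854 := cut [q76261] ⟨c76261, trivial⟩ (nd (nat_lit 221) (nat_lit 0) (cs (lf (nat_lit 11) (nat_lit 198)) (nd (nat_lit 222) (nat_lit 0) (cs (rf (nat_lit 0)) (lf (nat_lit 6) (nat_lit 199)))))) q76854 (by decide +kernel)
def q76894 : Q := Q.p (nat_lit 0x20000180000600000800000000000000000000000000000000000000000000) (nat_lit 0x4000010000040000000000000002000008000000000000000000000000000000000) (nat_lit 3)
theorem c76894 : QOK q76894 := cut [q76893] ⟨c76893, trivial⟩ (nd (nat_lit 244) (nat_lit 0) (cs (lf (nat_lit 41) (nat_lit 178)) (rf (nat_lit 0)))) q76894 (by decide +kernel)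
def q76899 : Q := Q.p (nat_lit 0x20000180000200000800000000000000000000000000000000000000000000) (nat_lit 0x400001c000640000000000400001000000000000000000000000000000000000000) (nat_lit 5)
theorem c76899 : QOK q76899 := cut [q76898] ⟨c76898, trivial⟩ (nd (nat_lit 156) (nat_lit 0) (cs (lf (nat_lit 46) (nat_lit 156)) (rf (nat_lit 0)))) q76899 (by decide +kernel)
def q76903 : Q := Q.p (nat_lit 0x20000180000600000800000000000000000000000000000000000000000000) (nat_lit 0x1000006000018000000000000000000000000000000000) (nat_lit 3)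
theorem c76903 : QOK q76903 := cut [q76901] ⟨c76901, trivial⟩ (nd (nat_lit 158) (nat_lit 0) (cs (rf (nat_lit 0)) (lf (nat_lit 37) (nat_lit 157)))) q76903 (by decide +kernel)
def q76986 : Q := Q.p (nat_lit 0x180000700000000004000000000000000000000000000000000000000) (nat_lit 0x80000600000000001000000000010000000000000000000000000000000000) (nat_lit 3)
theorem c76986 : QOK q76986 := cut [q76985] ⟨c76985, trivial⟩ (nd (nat_lit 180) (nat_lit 0) (cs (lf (nat_lit 36) (nat_lit 135)) (rf (nat_lit 0)))) q76986 (by decide +kernel)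
def q77018 : Q := Q.p (nat_lit 0x800002000000080010700040000006000000000000000000000000000000000000000) (nat_lit 0x100800407000000000e7000198000ff000008000000000000000000000000000) (nat_lit 6)
theorem c77018 : QOK q77018 := cut [q76994, q76999] ⟨c76994, c76999, trivial⟩ (nd (nat_lit 156) (nat_lit 0) (cs (nd (nat_lit 159) (nat_lit 0) (cs (nd (nat_lit 178) (nat_lit 0) (cs (lf (nat_lit 11) (nat_lit 155)) (rf (nat_lit 0)))) (rf (nat_lit 1)))) (cs (nd (nat_lit 178) (nat_lit 0) (cs (lf (nat_lit 24) (nat_lit 134)) (nd (nat_lit 177) (nat_lit 0) (cs (lf (nat_lit 6) (nat_lit 155)) (nd (nat_lit 155) (nat_lit 0) (cs (lf (nat_lit 11) (nat_lit 154)) (nd (nat_lit 133) (nat_lit 0) (cs (lf (nat_lit 24) (nat_lit 111)) (lf (nat_lit 23) (nat_lit 132)))))))))) (cs (nd (nat_lit 159) (nat_lit 0) (cs (rf (nat_lit 1)) (cs (nd (nat_lit 134) (nat_lit 0) (cs (nd (nat_lit 182) (nat_lit 0) (cs (lf (nat_lit 4) (nat_lit 156)) (nd (nat_lit 160) (nat_lit 0) (cs (lf (nat_lit 5) (nat_lit 157)) (lf (nat_lit 22) (nat_lit 134)))))) (lf (nat_lit 23) (nat_lit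 133)))) (nd (nat_lit 133) (nat_lit 0) (cs (nd (nat_lit 137) (nat_lit 0) (cs (lf (nat_lit 17) (nat_lit 134)) (nd (nat_lit 155) (nat_lit 0) (cs (lf (nat_lit 16) (nat_lit 133)) (lf (nat_lit 23) (nat_lit 132)))))) (lf (nat_lit 22) (nat_lit 133))))))) (nd (nat_lit 230) (nat_lit 0) (cs (lf (nat_lit 27) (nat_lit 186)) (nd (nat_lit 178) (nat_lit 0) (cs (lf (nat_lit 24) (nat_lit 134)) (rf (nat_lit 0)))))))))) q77018 (by decide +kernel)
def q77074 : Q := Q.p (nat_lit 0x800002020000180010600040800000000000000000000000000000000000000000000) (nat_lit 0x600101c0040300001c000f70003d000000000000000000000000000000000000000) (nat_lit 7)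
theorem c77074 : QOK q77074 := cut [q77063, q75859, q77071] ⟨c77063, c75859, c77071, trivial⟩ (nd (nat_lit 199) (nat_lit 0) (cs (nd (nat_lit 244) (nat_lit 0) (cs (lf (nat_lit 41) (nat_lit 178)) (nd (nat_lit 200) (nat_lit 0) (cs (lf (nat_lit 0) (nat_lit 198)) (nd (nat_lit 243) (nat_lit 0) (cs (lf (nat_lit 12) (nat_lit 220)) (nd (nat_lit 221) (nat_lit 0) (cs (lf (nat_lit 11) (nat_lit 198)) (nd (nat_lit 178) (nat_lit 0) (cs (lf (nat_lit 47) (nat_lit 156)) (lf (nat_lit 30) (nat_lit 177)))))))))))) (cs (nd (nat_lit 180) (nat_lit 0) (cs (lf (nat_lit 35) (nat_lit 157)) (nd (nat_lit 230) (nat_lit 0) (cs (lf (nat_lit 27) (nat_lit 186)) (nd (nat_lit 244) (nat_lit 0) (cs (lf (nat_lit 41) (nat_lit 178)) (rf (nat_lit 0)))))))) (cs (nd (nat_lit 180) (nat_lit 0) (cs (lf (nat_lit 35) (nat_lit 157)) (nd (nat_lit 181) (nat_lit 0) (cs (lf (nat_lit 13) (nat_lit 177)) (nd (nat_lit 178) (nat_lit 0) (cs (lf (nat_lit 47) (nat_lit 156)) (nd (nat_lit 182) (nat_lit 0) (cs (lf (nat_lit 6) (nat_lit 179)) (rf (nat_lit 1)))))))))) (nd (nat_lit 230)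 (nat_lit 0) (cs (lf (nat_lit 27) (nat_lit 186)) (nd (nat_lit 180) (nat_lit 0) (cs (lf (nat_lit 36) (nat_lit 157)) (rf (nat_lit 2)))))))))) q77074 (by decide +kernel)
def q77114 : Q := Q.p (nat_lit 0x180000600001000004000000000000000000000000000000000000000) (nat_lit 0x80000600000180000000000000000000000000000000000000000000000000) (nat_lit 3)
theorem c77114 : QOK q77114 := cut [q77113] ⟨c77113, trivial⟩ (nd (nat_lit 225) (nat_lit 0) (cs (lf (nat_lit 29) (nat_lit 158)) (rf (nat_lit 0)))) q77114 (by decide +kernel)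

end Crest.Agent.H3.Snaky.CR
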