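import Crest.Agent.H3.Snaky.Cert
import Crest.Agent.H3.Snaky.CR.CR0
import Crest.Agent.H3.Snaky.CR.CR1
import Crest.Agent.H3.Snaky.CR.CR2
import Crest.Agent.H3.Snaky.CR.CR3
import Crest.Agent.H3.Snaky.CR.CR4
import Crest.Agent.H3.Snaky.CR.CR5
import Crest.Agent.H3.Snaky.CR.CR6
import Crest.Agent.H3.Snaky.CR.CR7
import Crest.Agent.H3.Snaky.CR.CR8
import Crest.Agent.H3.Snaky.CR.CR9
import Crest.Agent.H3.Snaky.CR.CR10
import Crest.Agent.H3.Snaky.CR.CR11
import Crest.Agent.H3.Snaky.CR.CR12
import Crest.Agent.H3.Snaky.CR.CR13
import Crest.Agent.H3.Snaky.CR.CR14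
import Crest.Agent.H3.Snaky.CR.CR15
import Crest.Agent.H3.Snaky.CR.CR16

set_option autoImplicit false
set_option maxRecDepth 100000

namespace Crest.Agent.H3.Snaky.CR

open T

def q77134 : Q := Q.p (nat_lit 0x180000600001800000000000000000000000000000000000000000000) (nat_lit 0x800002000000000000000040000300000c000000000000000000000000000000000) (nat_lit 4)
theorem c77134 : QOK q77134 := cut [q76955] ⟨c76955, trivial⟩ (nd (nat_lit 245) (nat_lit 0) (cs (lf (nat_lit 30) (nat_lit 179)) (rf (nat_lit 0)))) q77134 (by decide +kernel)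
def q77155 : Q := Q.p (nat_lit 0x300000f00000000004000000000000000000000000000000000000000) (nat_lit 0x60000000006000008000030000000000000000000000000000000000) (nat_lit 4)
theorem c77155 : QOK q77155 := cut [q77153] ⟨c77153, trivial⟩ (nd (nat_lit 221) (nat_lit 0) (cs (lf (nat_lit 10) (nat_lit 199)) (nd (nat_lit 181) (nat_lit 0) (cs (lf (nat_lit 17) (nat_lit 178)) (rf (nat_lit 0)))))) q77155 (by decide +kernel)
def q77225 : Q := Q.p (nat_lit 0x300000600000000000000000000000000000000000000000000000000) (nat_lit 0xc80000180000000000000000000000000000000000000000000000000) (nat_lit 3)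
theorem c77225 : QOK q77225 := cut [q74624] ⟨c74624, trivial⟩ (nd (nat_lit 226) (nat_lit 0) (cs (lf (nat_lit 18) (nat_lit 201)) (rf (nat_lit 0)))) q77225 (by decide +kernel)
def q77235 : Q := Q.p (nat_lit 0x300000e00000400000000000000000000000000000000000000000000) (nat_lit 0x80007000000800000000000000000000000000000000000000000000) (nat_lit 3)
theorem c77235 : QOK q77235 := cut [q49411] ⟨c49411, trivial⟩ (nd (nat_lit 204) (nat_lit 0) (cs (lf (nat_lit 22) (nat_lit 178)) (rf (nat_lit 0)))) q77235 (by decide +kernel)
def q77245 : Q := Q.p (nat_lit 0x80000600000300000000000000000000000000000000000000000000000000000000) (nat_lit 0x40000100000000000c0000780001c000000000000000000000000000000000000000000000) (nat_lit 5)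
theorem c77245 : QOK q77245 := cut [q40955, q76737] ⟨c40955, c76737, trivial⟩ (nd (nat_lit 227) (nat_lit 0) (cs (lf (nat_lit 2) (nat_lit 224)) (nd (nat_lit 205) (nat_lit 0) (cs (rf (nat_lit 0)) (rf (nat_lit 1)))))) q77245 (by decide +kernel)
def q77309 : Q := Q.p (nat_lit 0x800002640000100010400041000000000000000000000000000000000000000000000) (nat_lit 0x2f0010b8004ef000030000280000a000000000000000000000000000000000000000) (nat_lit 9)
theorem c77309 : QOK q77309 := cut [q49253] ⟨c49253, trivial⟩ (nd (nat_lit 245) (nat_lit 0) (cs (lf (nat_lit 41) (nat_lit 179)) (nd (nat_lit 179) (nat_lit 0) (cs (lf (nat_lit 47) (nat_lit 157)) (nd (nat_lit 244) (nat_lit 0) (cs (nd (nat_lit 230) (nat_lit 0) (cs (lf (nat_lit 27) (nat_lit 186)) (nd (nat_lit 225) (nat_lit 0) (cs (lf (nat_lit 12) (nat_lit 221)) (nd (nat_lit 226) (nat_lit 0) (cs (lf (nat_lit 3) (nat_lit 224)) (lf (nat_lit 9) (nat_lit 222)))))))) (cs (nd (nat_lit 230) (nat_lit 0) (cs (lf (nat_lit 27) (nat_lit 186)) (nd (nat_lit 247) (nat_lit 0) (cs (lf (nat_lit 29) (nat_lit 180)) (nd (nat_lit 265)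 (nat_lit 0) (cs (lf (nat_lit 10) (nat_lit 243)) (nd (nat_lit 221) (nat_lit 0) (cs (lf (nat_lit 22) (nat_lit 221)) (rf (nat_lit 0)))))))))) (nd (nat_lit 159) (nat_lit 0) (cs (lf (nat_lit 34) (nat_lit 158)) (nd (nat_lit 247) (nat_lit 0) (cs (lf (nat_lit 29) (nat_lit 180)) (nd (nat_lit 222) (nat_lit 0) (cs (lf (nat_lit 23) (nat_lit 221)) (nd (nat_lit 266) (nat_lit 0) (cs (lf (nat_lit 11) (nat_lit 243)) (nd (nat_lit 201) (nat_lit 0) (cs (lf (nat_lit 33) (nat_lit 178)) (lf (nat_lit 38) (nat_lit 178))))))))))))))))))) q77309 (by decide +kernel)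
def q77346 : Q := Q.p (nat_lit 0x100000400001000004000000000000000000000000000000000000000) (nat_lit 0x80000200000800000000008000030000080000000000000000000000000000) (nat_lit 4)
theorem c77346 : QOK q77346 := cut [q77344] ⟨c77344, trivial⟩ (nd (nat_lit 137) (nat_lit 0) (cs (lf (nat_lit 34) (nat_lit 136)) (nd (nat_lit 136) (nat_lit 0) (cs (lf (nat_lit 35) (nat_lit 114)) (rf (nat_lit 0)))))) q77346 (by decide +kernel)
def q77348 : Q := Q.p (nat_lit 0x100000400001000004000000000000000000000000000000000000000) (nat_lit 0x80000200000800000000002000018000020000000000000000000000000000) (nat_lit 4)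
theorem c77348 : QOK q77348 := cut [q75728] ⟨c75728, trivial⟩ (nd (nat_lit 225) (nat_lit 0) (cs (lf (nat_lit 29) (nat_lit 158)) (nd (nat_lit 136) (nat_lit 0) (cs (rf (nat_lit 0)) (lf (nat_lit 28) (nat_lit 136)))))) q77348 (by decide +kernel)
def q77440 : Q := Q.p (nat_lit 0x880002600000900010000040000000000000000000000000000000000000000000000) (nat_lit 0x40000700001c000060000100001000004600001000000000000000000000000000000000000000000000000000) (nat_lit 8)
theorem c77440 : QOK q77440 := cut [q56973] ⟨c56973, trivial⟩ (nd (nat_lit 230) (nat_lit 0) (cs (lf (nat_lit 27) (nat_lit 186)) (nd (nat_lit 226) (nat_lit 0) (cs (lf (nat_lit 1) (nat_lit 224)) (nd (nat_lit 293) (nat_lit 0) (cs (lf (nat_lit 47) (nat_lit 204)) (nd (nat_lit 316) (nat_lit 0) (cs (lf (nat_lit 28) (nat_lit 227)) (nd (nat_lit 315) (nat_lit 0) (cs (lf (nat_lit 29) (nat_lit 249)) (rf (nat_lit 0)))))))))))) q77440 (by decide +kernel)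
def q77444 : Q := Q.p (nat_lit 0x80000600000900000400000000000000000000000000000000000000000000000000) (nat_lit 0x60000100000000000480003a0000c000000000000000000000000000000000000000000000) (nat_lit 5)
theorem c77444 : QOK q77444 := cut [q40955] ⟨c40955, trivial⟩ (nd (nat_lit 205) (nat_lit 0) (cs (rf (nat_lit 0)) (nd (nat_lit 204) (nat_lit 0) (cs (lf (nat_lit 47) (nat_lit 182)) (nd (nat_lit 203) (nat_lit 0) (cs (lf (nat_lit 11) (nat_lit 201)) (nd (nat_lit 226) (nat_lit 0) (cs (lf (nat_lit 42) (nat_lit 204)) (lf (nat_lit 0) (nat_lit 201)))))))))) q77444 (by decide +kernel)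
def q77451 : Q := Q.p (nat_lit 0x8a0002640000900010400040000000000000000000000000000000000000000000000) (nat_lit 0x40000140001080004000002000009000000000000000000000000000000000000000000000) (nat_lit 5)
theorem c77451 : QOK q77451 := cut [q40946] ⟨c40946, trivial⟩ (nd (nat_lit 230) (nat_lit 0) (cs (lf (nat_lit 27) (nat_lit 186)) (nd (nat_lit 247) (nat_lit 0) (cs (lf (nat_lit 24) (nat_lit 180)) (nd (nat_lit 272) (nat_lit 0) (cs (rf (nat_lit 0)) (lf (nat_lit 20) (nat_lit 246)))))))) q77451 (by decide +kernel)
def q77469 : Q := Q.p (nat_lit 0x80000200000800002000000000000000000000000000000000000000000000000000) (nat_lit 0x500001c000050000000000000000000000000000000000000000) (nat_lit 4)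
theorem c77469 : QOK q77469 := cut [q56661] ⟨c56661, trivial⟩ (nd (nat_lit 182) (nat_lit 0) (cs (lf (nat_lit 46) (nat_lit 182)) (nd (nat_lit 183) (nat_lit 0) (cs (lf (nat_lit 47) (nat_lit 160)) (rf (nat_lit 0)))))) q77469 (by decide +kernel)
def q77520 : Q := Q.p (nat_lit 0x100000400001000004000000000000000000000000000000000000000) (nat_lit 0x80000e80000a00000800000000018000060000080000000000000000000000) (nat_lit 7)
theorem c77520 : QOK q77520 := cut [q76139] ⟨c76139, trivial⟩ (nd (nat_lit 225) (nat_lit 0) (cs (lf (nat_lit 29) (nat_lit 158)) (nd (nat_lit 136) (nat_lit 0) (cs (lf (nat_lit 28) (nat_lit 136)) (nd (nat_lit 201) (nat_lit 0) (cs (lf (nat_lit 41) (nat_lit 135)) (nd (nat_lit 226) (nat_lit 0) (cs (lf (nat_lit 18) (nat_lit 201)) (nd (nat_lit 113) (nat_lit 0) (cs (lf (nat_lit 46) (nat_lit 113)) (rf (nat_lit 0)))))))))))) q77520 (by decide +kernel)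
def q77533 : Q := Q.p (nat_lit 0x800002000000100010400041000004000000000000000000000000000000000000000) (nat_lit 0x100010c000ce80020b80000800002000010000040000000000000000000000000000) (nat_lit 10)
theorem c77533 : QOK q77533 := cut [q76154] ⟨c76154, trivial⟩ (nd (nat_lit 230) (nat_lit 0) (cs (lf (nat_lit 27) (nat_lit 186)) (nd (nat_lit 225) (nat_lit 0) (cs (lf (nat_lit 29) (nat_lit 158)) (nd (nat_lit 136) (nat_lit 0) (cs (lf (nat_lit 28) (nat_lit 136)) (nd (nat_lit 201) (nat_lit 0) (cs (lf (nat_lit 41) (nat_lit 135)) (nd (nat_lit 226) (nat_lit 0) (cs (lf (nat_lit 18) (nat_lit 201)) (nd (nat_lit 199) (nat_lit 0) (cs (lf (nat_lit 1) (nat_lit 199)) (nd (nat_lit 209) (nat_lit 0) (cs (lf (nat_lit 44) (nat_lit 186)) (rf (nat_lit 0)))))))))))))))) q77533 (by decide +kernel)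
def q77555 : Q := Q.p (nat_lit 0x40000100000400001000000000000000000000000000000000000000000000) (nat_lit 0x80000a0000280000800000000006000018000020000000000000000000000000000) (nat_lit 6)
theorem c77555 : QOK q77555 := cut [q77344] ⟨c77344, trivial⟩ (nd (nat_lit 245) (nat_lit 0) (cs (lf (nat_lit 41) (nat_lit 179)) (nd (nat_lit 158) (nat_lit 0) (cs (lf (nat_lit 40) (nat_lit 157)) (nd (nat_lit 135) (nat_lit 0) (cs (lf (nat_lit 46) (nat_lit 135)) (nd (nat_lit 136) (nat_lit 0) (cs (lf (nat_lit 47) (nat_lit 113)) (rf (nat_lit 0)))))))))) q77555 (by decide +kernel)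
def q77577 : Q := Q.p (nat_lit 0x100000400001000004000000000000000000000000000000000000000) (nat_lit 0xa0000280000a00000000000000010000000000000000000000000000000000) (nat_lit 4)
theorem c77577 : QOK q77577 := cut [q77344] ⟨c77344, trivial⟩ (nd (nat_lit 223) (nat_lit 0) (cs (lf (nat_lit 41) (nat_lit 157)) (nd (nat_lit 136) (nat_lit 0) (cs (lf (nat_lit 40) (nat_lit 135)) (rf (nat_lit 0)))))) q77577 (by decide +kernel)
def q77599 : Q := Q.p (nat_lit 0x400001000004000010000000000000000000000000000000000) (nat_lit 0x200000800002000000000008000060000080000000000000000000000) (nat_lit 4)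
theorem c77599 : QOK q77599 := cut [q77596] ⟨c77596, trivial⟩ (nd (nat_lit 113) (nat_lit 0) (cs (lf (nat_lit 46) (nat_lit 113)) (nd (nat_lit 203) (nat_lit 0) (cs (rf (nat_lit 0)) (lf (nat_lit 29) (nat_lit 136)))))) q77599 (by decide +kernel)
def q77609 : Q := Q.p (nat_lit 0x80000200000000001000004000001e000000000000000000000000000000000000000) (nat_lit 0x800002000003c000020000000000000000000000000000000000000000) (nat_lit 4)
theorem c77609 : QOK q77609 := cut [q75743] ⟨c75743, trivial⟩ (nd (nat_lit 209) (nat_lit 0) (cs (lf (nat_lit 44) (nat_lit 186)) (rf (nat_lit 0)))) q77609 (by decide +kernel)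
def q77652 : Q := Q.p (nat_lit 0x600000180000400001000004000010000000000000000000000000000000000) (nat_lit 0x100000e00000800000000000000000000000000000000000000000000000000) (nat_lit 3)
theorem c77652 : QOK q77652 := cut [q73754] ⟨c73754, trivial⟩ (nd (nat_lit 225) (nat_lit 0) (cs (rf (nat_lit 0)) (lf (nat_lit 28) (nat_lit 136)))) q77652 (by decide +kernel)
def q77710 : Q := Q.p (nat_lit 0x100000400001000004000000000000000000000000000000000000000) (nat_lit 0x10000040000200001800002e0000a0000300000c0000000000000000000000000000) (nat_lit 8)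
theorem c77710 : QOK q77710 := cut [q75357] ⟨c75357, trivial⟩ (nd (nat_lit 137) (nat_lit 0) (cs (lf (nat_lit 34) (nat_lit 136)) (nd (nat_lit 136) (nat_lit 0) (cs (lf (nat_lit 35) (nat_lit 114)) (nd (nat_lit 203) (nat_lit 0) (cs (lf (nat_lit 29) (nat_lit 136)) (nd (nat_lit 181) (nat_lit 0) (cs (lf (nat_lit 24) (nat_lit 114)) (nd (nat_lit 246) (nat_lit 0) (cs (lf (nat_lit 30) (nat_lit 180)) (rf (nat_lit 0)))))))))))) q77710 (by decide +kernel)
def q77718 : Q := Q.p (nat_lit 0x880002200000400011000040000000000000000000000000000000000000000000000) (nat_lit 0x8000020000040001100004000000000004000000000000000000000000000000000000000000000) (nat_lit 4)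
theorem c77718 : QOK q77718 := cut [q44580] ⟨c44580, trivial⟩ (nd (nat_lit 230) (nat_lit 0) (cs (lf (nat_lit 27) (nat_lit 186)) (nd (nat_lit 248) (nat_lit 0) (cs (lf (nat_lit 24) (nat_lit 182)) (rf (nat_lit 0)))))) q77718 (by decide +kernel)
def q77733 : Q := Q.p (nat_lit 0x880002200000500011400040000000000000000000000000000000000000000000000) (nat_lit 0x20000000001000004880006a00018000000000000000000000000000000000000000000000) (nat_lit 6)
theorem c77733 : QOK q77733 := cut [q75376] ⟨c75376, trivial⟩ (nd (nat_lit 230) (nat_lit 0) (cs (lf (nat_lit 27) (nat_lit 186)) (nd (nat_lit 227) (nat_lit 0) (cs (lf (nat_lit 42) (nat_lit 204)) (nd (nat_lit 203) (nat_lit 0) (cs (lf (nat_lit 0) (nat_lit 201)) (nd (nat_lit 205) (nat_lit 0) (cs (lf (nat_lit 11) (nat_lit 201)) (rf (nat_lit 0)))))))))) q77733 (by decide +kernel)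
def q77745 : Q := Q.p (nat_lit 0x100000400002000008000000000000000000000000000000000000000) (nat_lit 0x40000000000000001000004000020000080000000000000000000000000000) (nat_lit 3)
theorem c77745 : QOK q77745 := cut [q77744] ⟨c77744, trivial⟩ (nd (nat_lit 180) (nat_lit 0) (cs (lf (nat_lit 30) (nat_lit 158)) (rf (nat_lit 0)))) q77745 (by decide +kernel)
def q77752 : Q := Q.p (nat_lit 0x10003040004a000000000000000000000000000000000000000000000) (nat_lit 0x10000040000200000800034000008000020000000000000000000000000000000000) (nat_lit 5)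
theorem c77752 : QOK q77752 := cut [q50744] ⟨c50744, trivial⟩ (nd (nat_lit 184) (nat_lit 0) (cs (lf (nat_lit 2) (nat_lit 183)) (nd (nat_lit 203) (nat_lit 0) (cs (lf (nat_lit 8) (nat_lit 180)) (nd (nat_lit 246) (nat_lit 0) (cs (lf (nat_lit 30) (nat_lit 180)) (rf (nat_lit 0)))))))) q77752 (by decide +kernel)
def q77770 : Q := Q.p (nat_lit 0x3040004a000000000000000000000000000000000000000000000) (nat_lit 0xa000350000e0000000000000000000000000000000000000000) (nat_lit 5)
theorem c77770 : QOK q77770 := cut [q69415] ⟨c69415, trivial⟩ (nd (nat_lit 184) (nat_lit 0) (cs (lf (nat_lit 2) (nat_lit 183)) (nd (nat_lit 182) (nat_lit 0) (cs (lf (nat_lit 10) (nat_lit 180)) (nd (nat_lit 180) (nat_lit 0) (cs (lf (nat_lit 11) (nat_lit 179)) (rf (nat_lit 0)))))))) q77770 (by decide +kernel)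
def q77776 : Q := Q.p (nat_lit 0x100000400003000000000000000000000000000000000000000000000) (nat_lit 0x4000000000000000000000c000020000080000000000000000000000000000) (nat_lit 3)
theorem c77776 : QOK q77776 := cut [q77744] ⟨c77744, trivial⟩ (nd (nat_lit 159) (nat_lit 0) (cs (lf (nat_lit 30) (nat_lit 158)) (rf (nat_lit 0)))) q77776 (by decide +kernel)
def q77780 : Q := Q.p (nat_lit 0x880002600000900010000040000000000000000000000000000000000000000000000) (nat_lit 0x4000018000060000000001100004600001000000000000000000000000000000000000000000000000000) (nat_lit 6)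
theorem c77780 : QOK q77780 := cut [q65832] ⟨c65832, trivial⟩ (nd (nat_lit 230) (nat_lit 0) (cs (lf (nat_lit 27) (nat_lit 186)) (nd (nat_lit 226) (nat_lit 0) (cs (lf (nat_lit 1) (nat_lit 224)) (nd (nat_lit 293) (nat_lit 0) (cs (lf (nat_lit 47) (nat_lit 204)) (nd (nat_lit 316) (nat_lit 0) (cs (lf (nat_lit 28) (nat_lit 227)) (rf (nat_lit 0)))))))))) q77780 (by decide +kernel)
def q78062 : Q := Q.p (nat_lit 0x20000080000100000400000000000000000000000000000000000000000000000000) (nat_lit 0x500001c00007000008000000000040000200000000000000000000000000000000000000000000000000000000) (nat_lit 6)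
theorem c78062 : QOK q78062 := cut [q70098] ⟨c70098, trivial⟩ (nd (nat_lit 291) (nat_lit 0) (cs (lf (nat_lit 45) (nat_lit 202)) (nd (nat_lit 313) (nat_lit 0) (cs (lf (nat_lit 46) (nat_lit 224)) (nd (nat_lit 336) (nat_lit 0) (cs (lf (nat_lit 28) (nat_lit 247)) (nd (nat_lit 334) (nat_lit 0) (cs (lf (nat_lit 40) (nat_lit 246)) (rf (nat_lit 0)))))))))) q78062 (by decide +kernel)
def q78078 : Q := Q.p (nat_lit 0x880002680000100010000040000000000000000000000000000000000000000000000) (nat_lit 0x300000140008200020000000000000000000000000000000000000000000000000000) (nat_lit 4)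
theorem c78078 : QOK q78078 := cut [q60671] ⟨c60671, trivial⟩ (nd (nat_lit 209) (nat_lit 0) (cs (lf (nat_lit 44) (nat_lit 186)) (nd (nat_lit 248) (nat_lit 0) (cs (lf (nat_lit 22) (nat_lit 224)) (rf (nat_lit 0)))))) q78078 (by decide +kernel)
def q78090 : Q := Q.p (nat_lit 0x3c0000000000000000000000000000000000000000000000000000000) (nat_lit 0x100000dc000030000e00000800002000000000000000000000000000000000000000) (nat_lit 7)
theorem c78090 : QOK q78090 := cut [q76253] ⟨c76253, trivial⟩ (nd (nat_lit 243) (nat_lit 0) (cs (lf (nat_lit 10) (nat_lit 221)) (nd (nat_lit 221) (nat_lit 0) (cs (lf (nat_lit 11) (nat_lit 220)) (nd (nat_lit 246) (nat_lit 0) (cs (lf (nat_lit 5) (nat_lit 221)) (nd (nat_lit 202) (nat_lit 0) (cs (lf (nat_lit 17) (nat_lit 199)) (nd (nat_lit 201) (nat_lit 0) (cs (lf (nat_lit 12) (nat_lit 198)) (rf (nat_lit 0)))))))))))) q78090 (by decide +kernel)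
def q78099 : Q := Q.p (nat_lit 0x8000020000003c0010000040000000000000000000000000000000000000000000000) (nat_lit 0x80010e0004030000dc0001000004000000000000000000000000000000000000000) (nat_lit 8)
theorem c78099 : QOK q78099 := cut [q78094] ⟨c78094, trivial⟩ (nd (nat_lit 230) (nat_lit 0) (cs (lf (nat_lit 27) (nat_lit 186)) (nd (nat_lit 199) (nat_lit 0) (cs (lf (nat_lit 22) (nat_lit 199)) (nd (nat_lit 221) (nat_lit 0) (cs (lf (nat_lit 23) (nat_lit 198)) (nd (nat_lit 202) (nat_lit 0) (cs (lf (nat_lit 17) (nat_lit 199)) (nd (nat_lit 246) (nat_lit 0) (cs (lf (nat_lit 5) (nat_lit 221)) (rf (nat_lit 0)))))))))))) q78099 (by decide +kernel)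
def q78205 : Q := Q.p (nat_lit 0x80000300000c00002000000000000000000000000000000000000000000000) (nat_lit 0x100000c000030000000000000000000000000000000000) (nat_lit 3)
theorem c78205 : QOK q78205 := cut [q77153] ⟨c77153, trivial⟩ (nd (nat_lit 158) (nat_lit 0) (cs (lf (nat_lit 46) (nat_lit 158)) (rf (nat_lit 0)))) q78205 (by decide +kernel)
def q78282 : Q := Q.p (nat_lit 0x100000c00001800004000000000000000000000000000000000000000) (nat_lit 0x200002000002000018000060000000000000000000000000000) (nat_lit 4)
theorem c78282 : QOK q78282 := cut [q78280] ⟨c78280, trivial⟩ (nd (nat_lit 135) (nat_lit 0) (cs (lf (nat_lit 46) (nat_lit 135)) (nd (nat_lit 136) (nat_lit 0) (cs (lf (nat_lit 47) (nat_lit 113)) (rf (nat_lit 0)))))) q78282 (by decide +kernel)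
def q78322 : Q := Q.p (nat_lit 0x100000c00001000004000000000000000000000000000000000000000) (nat_lit 0x200000e0003200000000000000000000000000000000000000000000000000) (nat_lit 4)
theorem c78322 : QOK q78322 := cut [q64637] ⟨c64637, trivial⟩ (nd (nat_lit 223) (nat_lit 0) (cs (lf (nat_lit 41) (nat_lit 157)) (nd (nat_lit 204) (nat_lit 0) (cs (lf (nat_lit 6) (nat_lit 201)) (rf (nat_lit 0)))))) q78322 (by decide +kernel)
def q78375 : Q := Q.p (nat_lit 0x100000f00000000000000000000000000000000000000000000000000) (nat_lit 0x200000080000700000000000000000000000000000000000000000000) (nat_lit 3)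
theorem c78375 : QOK q78375 := cut [q48761] ⟨c48761, trivial⟩ (nd (nat_lit 199) (nat_lit 0) (cs (rf (nat_lit 0)) (lf (nat_lit 5) (nat_lit 199)))) q78375 (by decide +kernel)
def q78382 : Q := Q.p (nat_lit 0x800002000000100010f00040000000000000000000000000000000000000000000000) (nat_lit 0xe00103c0040e0000000000e00003000008000000000000000000000000000000000) (nat_lit 7)
theorem c78382 : QOK q78382 := cut [q76878, q76880] ⟨c76878, c76880, trivial⟩ (nd (nat_lit 222) (nat_lit 0) (cs (lf (nat_lit 11) (nat_lit 199)) (nd (nat_lit 244) (nat_lit 0) (cs (rf (nat_lit 0)) (cs (rf (nat_lit 1)) (nd (nat_lit 178) (nat_lit 0) (cs (lf (nat_lit 23) (nat_lit 177)) (nd (nat_lit 245) (nat_lit 0) (cs (lf (nat_lit 29) (nat_lit 178)) (nd (nat_lit 223) (nat_lit 0) (cs (lf (nat_lit 24) (nat_lit 156)) (nd (nat_lit 243) (nat_lit 0) (cs (lf (nat_lit 12) (nat_lit 220)) (lf (nat_lit 41) (nat_lit 177))))))))))))))) q78382 (by decide +kernel)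
def q78403 : Q := Q.p (nat_lit 0x100000e0000000001e000000000000000000000000000000000000000) (nat_lit 0x100000e0000000000c00000000010000000000000000000000000000000000) (nat_lit 4)
theorem c78403 : QOK q78403 := cut [q78402] ⟨c78402, trivial⟩ (nd (nat_lit 179) (nat_lit 0) (cs (lf (nat_lit 11) (nat_lit 156)) (rf (nat_lit 0)))) q78403 (by decide +kernel)
def q78412 : Q := Q.p (nat_lit 0x100000e00000000006000000000000000000000000000000000000000) (nat_lit 0x100000e0000000000800000000018000000000000000000000000000000000) (nat_lit 4)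
theorem c78412 : QOK q78412 := cut [q78402] ⟨c78402, trivial⟩ (nd (nat_lit 179) (nat_lit 0) (cs (lf (nat_lit 24) (nat_lit 135)) (rf (nat_lit 0)))) q78412 (by decide +kernel)
def q78479 : Q := Q.p (nat_lit 0xc0000100000400001000000000000000000000000000000000000000000000) (nat_lit 0x200000000000800006000008000000000000000000000000000000000) (nat_lit 3)
theorem c78479 : QOK q78479 := cut [q37976] ⟨c37976, trivial⟩ (nd (nat_lit 158) (nat_lit 0) (cs (rf (nat_lit 0)) (lf (nat_lit 28) (nat_lit 158)))) q78479 (by decide +kernel)
def q78608 : Q := Q.p (nat_lit 0x8000020000880002600000000010000040000000000000000000000000000000000000000000000) (nat_lit 0x2000000000000000140001100004400000000000000000000000000000000000000000000000000000000) (nat_lit 4)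
theorem c78608 : QOK q78608 := cut [q54356] ⟨c54356, trivial⟩ (nd (nat_lit 230) (nat_lit 0) (cs (lf (nat_lit 27) (nat_lit 186)) (nd (nat_lit 337) (nat_lit 0) (cs (lf (nat_lit 34) (nat_lit 249)) (rf (nat_lit 0)))))) q78608 (by decide +kernel)
def q78664 : Q := Q.p (nat_lit 0x3c00002000000000000000000000000000000000000000000000000000000000) (nat_lit 0xe0000300005c00000000000000000000000000000000000000000000000000000000) (nat_lit 5)
theorem c78664 : QOK q78664 := cut [q78662] ⟨c78662, trivial⟩ (nd (nat_lit 227) (nat_lit 0) (cs (lf (nat_lit 22) (nat_lit 227)) (nd (nat_lit 249) (nat_lit 0) (cs (lf (nat_lit 23) (nat_lit 226)) (rf (nat_lit 0)))))) q78664 (by decide +kernel)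
def q78670 : Q := Q.p (nat_lit 0xc00002000008000020000000000000000000000000000000000000000000000) (nat_lit 0x1000000000040000180000400000000000000000000000000000000000) (nat_lit 3)
theorem c78670 : QOK q78670 := cut [q5427] ⟨c5427, trivial⟩ (nd (nat_lit 163) (nat_lit 0) (cs (lf (nat_lit 40) (nat_lit 162)) (rf (nat_lit 0)))) q78670 (by decide +kernel)
def q78674 : Q := Q.p (nat_lit 0x200000800002000018000020000000000000000000000000000000000000000000000) (nat_lit 0x800000000000000040000000000100000c0000300000000000000000000000000000000000) (nat_lit 4)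
theorem c78674 : QOK q78674 := cut [q5105] ⟨c5105, trivial⟩ (nd (nat_lit 162) (nat_lit 0) (cs (lf (nat_lit 46) (nat_lit 162)) (nd (nat_lit 230) (nat_lit 0) (cs (lf (nat_lit 30) (nat_lit 207)) (rf (nat_lit 0)))))) q78674 (by decide +kernel)
def q78698 : Q := Q.p (nat_lit 0x78000000000000000000000000000000000000000000000000000) (nat_lit 0x77000080000000000000000000000000000000000000000000000000000) (nat_lit 4)
theorem c78698 : QOK q78698 := cut [q10359] ⟨c10359, trivial⟩ (nd (nat_lit 233) (nat_lit 0) (cs (lf (nat_lit 4) (nat_lit 207)) (nd (nat_lit 229) (nat_lit 0) (cs (lf (nat_lit 11) (nat_lit 206)) (rf (nat_lit 0)))))) q78698 (by decide +kernel)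
def q78745 : Q := Q.p (nat_lit 0x800003c000000000000000000000000000000000000000000000000000) (nat_lit 0x400000200001c000000000000000000000000000000000000000000000) (nat_lit 3)
theorem c78745 : QOK q78745 := cut [q24673] ⟨c24673, trivial⟩ (nd (nat_lit 183) (nat_lit 0) (cs (lf (nat_lit 22) (nat_lit 183)) (rf (nat_lit 0)))) q78745 (by decide +kernel)
def q78749 : Q := Q.p (nat_lit 0x100000c00003c000000000000000000000000000000000000000000000000000) (nat_lit 0x100000600003800040000020000080000000000000000000000000000000000000000) (nat_lit 5)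
theorem c78749 : QOK q78749 := cut [q78747] ⟨c78747, trivial⟩ (nd (nat_lit 228) (nat_lit 0) (cs (lf (nat_lit 11) (nat_lit 205)) (nd (nat_lit 229) (nat_lit 0) (cs (lf (nat_lit 6) (nat_lit 206)) (rf (nat_lit 0)))))) q78749 (by decide +kernel)
def q78834 : Q := Q.p (nat_lit 0x2000008000030000080000000000000000000000000000000000000000000000) (nat_lit 0x4c000700000400000000000000000000000000000000000000000) (nat_lit 4)
theorem c78834 : QOK q78834 := cut [q78832] ⟨c78832, trivial⟩ (nd (nat_lit 188) (nat_lit 0) (cs (lf (nat_lit 35) (nat_lit 165)) (nd (nat_lit 189) (nat_lit 0) (cs (lf (nat_lit 6) (nat_lit 186)) (rf (nat_lit 0)))))) q78834 (by decide +kernel)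
def q78839 : Q := Q.p (nat_lit 0x1000000000078000040000000000000000000000000000000000000000000000) (nat_lit 0x600000800003000000000030000000000000000000000000000000000000000000000) (nat_lit 4)
theorem c78839 : QOK q78839 := cut [q282] ⟨c282, trivial⟩ (nd (nat_lit 229) (nat_lit 0) (cs (lf (nat_lit 11) (nat_lit 206)) (nd (nat_lit 185) (nat_lit 0) (cs (lf (nat_lit 23) (nat_lit 184)) (rf (nat_lit 0)))))) q78839 (by decide +kernel)
def q78903 : Q := Q.p (nat_lit 0x10000040000100001c0000000000000000000000000000000000000000000000) (nat_lit 0x3a8000620000080000000000000000000000000000000000000000) (nat_lit 5)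
theorem c78903 : QOK q78903 := cut [q8028] ⟨c8028, trivial⟩ (nd (nat_lit 189) (nat_lit 0) (cs (lf (nat_lit 11) (nat_lit 185)) (nd (nat_lit 163) (nat_lit 0) (cs (lf (nat_lit 46) (nat_lit 163)) (rf (nat_lit 0)))))) q78903 (by decide +kernel)
def q78937 : Q := Q.p (nat_lit 0x1000006000010000040000100000000000000000000000000000000000000000) (nat_lit 0x100000400000000000000008000020000000000400000000000000000000000000000000000) (nat_lit 3)
theorem c78937 : QOK q78937 := cut [q78936] ⟨c78936, trivial⟩ (nd (nat_lit 207) (nat_lit 0) (cs (lf (nat_lit 36) (nat_lit 141)) (rf (nat_lit 0)))) q78937 (by decide +kernel)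
def q78945 : Q := Q.p (nat_lit 0xc000010000140000000000000000000000000000000000000000) (nat_lit 0x30000000000000002a00003c0000e00002000000000000000000000000) (nat_lit 7)
theorem c78945 : QOK q78945 := cut [q6778] ⟨c6778, trivial⟩ (nd (nat_lit 140) (nat_lit 0) (cs (lf (nat_lit 29) (nat_lit 140)) (nd (nat_lit 119) (nat_lit 0) (cs (lf (nat_lit 34) (nat_lit 118)) (nd (nat_lit 97) (nat_lit 0) (cs (lf (nat_lit 33) (nat_lit 96)) (rf (nat_lit 0)))))))) q78945 (by decide +kernel)
def q79007 : Q := Q.p (nat_lit 0x1000007800000000000000000000000000000000000000000000000000000000000000) (nat_lit 0xb80000400000000000000000000000000000000000000000000000000000000000000) (nat_lit 3)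
theorem c79007 : QOK q79007 := cut [q79006] ⟨c79006, trivial⟩ (nd (nat_lit 250) (nat_lit 0) (cs (lf (nat_lit 4) (nat_lit 250)) (rf (nat_lit 0)))) q79007 (by decide +kernel)
def q79013 : Q := Q.p (nat_lit 0x7800000000000000000000000000000000000000000000000000000000000000) (nat_lit 0x380000400038000000000000000000000000000000000000000000000000000000000) (nat_lit 4)
theorem c79013 : QOK q79013 := cut [q79011] ⟨c79011, trivial⟩ (nd (nat_lit 272) (nat_lit 0) (cs (lf (nat_lit 10) (nat_lit 250)) (nd (nat_lit 250) (nat_lit 0) (cs (lf (nat_lit 11) (nat_lit 249)) (rf (nat_lit 0)))))) q79013 (by decide +kernel)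
def q79023 : Q := Q.p (nat_lit 0x1000007800000000000000000000000000000000000000000000000000000000000000) (nat_lit 0x800000400003800000000000000000000000000000000000000000000000000000000) (nat_lit 3)
theorem c79023 : QOK q79023 := cut [q79022] ⟨c79022, trivial⟩ (nd (nat_lit 250) (nat_lit 0) (cs (lf (nat_lit 4) (nat_lit 250)) (rf (nat_lit 0)))) q79023 (by decide +kernel)
def q79028 : Q := Q.p (nat_lit 0x7000004000000000000000000000000000000000000000000000000000000000) (nat_lit 0x800000b800000000000000000000000000000000000000000000000000000000) (nat_lit 3)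
theorem c79028 : QOK q79028 := cut [q79026] ⟨c79026, trivial⟩ (nd (nat_lit 229) (nat_lit 0) (cs (rf (nat_lit 0)) (lf (nat_lit 18) (nat_lit 229)))) q79028 (by decide +kernel)
def q79032 : Q := Q.p (nat_lit 0x3000004000010000040000000000000000000000000000000000000000000000) (nat_lit 0x8000000000020000180000200000000000000000000000000000000000) (nat_lit 3)
theorem c79032 : QOK q79032 := cut [q497] ⟨c497, trivial⟩ (nd (nat_lit 164) (nat_lit 0) (cs (lf (nat_lit 28) (nat_lit 164)) (rf (nat_lit 0)))) q79032 (by decide +kernel)
def q79034 : Q := Q.p (nat_lit 0x1000004000010000080000000000000000000000000000000000000000000000) (nat_lit 0x400000000008000020000000000200000800000000000000000000000000000000000) (nat_lit 3)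
theorem c79034 : QOK q79034 := cut [q10611] ⟨c10611, trivial⟩ (nd (nat_lit 209) (nat_lit 0) (cs (lf (nat_lit 30) (nat_lit 186)) (rf (nat_lit 0)))) q79034 (by decide +kernel)
def q79044 : Q := Q.p (nat_lit 0x400007000004000010000000000000000000000000000000000000000000000000000) (nat_lit 0x280000b00000000000000000000000000000000000000000000000000000000000000000000) (nat_lit 3)
theorem c79044 : QOK q79044 := cut [q79043] ⟨c79043, trivial⟩ (nd (nat_lit 275) (nat_lit 0) (cs (lf (nat_lit 29) (nat_lit 208)) (rf (nat_lit 0)))) q79044 (by decide +kernel)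
def q79045 : Q := Q.p (nat_lit 0x100000400003000004000000000000000000000000000000000000000000000000000000000) (nat_lit 0x200000c0000200000000000000008000000000000000000000000000000000000000000000000000000000) (nat_lit 3)
theorem c79045 : QOK q79045 := cut [q10904] ⟨c10904, trivial⟩ (nd (nat_lit 318) (nat_lit 0) (cs (lf (nat_lit 35) (nat_lit 230)) (rf (nat_lit 0)))) q79045 (by decide +kernel)
def q79054 : Q := Q.p (nat_lit 0xc00007000008000020000000000000000000000000000000000000000000000000000) (nat_lit 0x1c00007000000000010000040000100000000000000000000000000000000000000000000000) (nat_lit 5)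
theorem c79054 : QOK q79054 := cut [q79052] ⟨c79052, trivial⟩ (nd (nat_lit 276) (nat_lit 0) (cs (lf (nat_lit 29) (nat_lit 209)) (nd (nat_lit 277) (nat_lit 0) (cs (lf (nat_lit 18) (nat_lit 252)) (rf (nat_lit 0)))))) q79054 (by decide +kernel)
def q79062 : Q := Q.p (nat_lit 0x400007000004000010000000000000000000000000000000000000000000000000000) (nat_lit 0x80000b80000000000000000000000000000000000000000000000000000000000000000000) (nat_lit 3)
theorem c79062 : QOK q79062 := cut [q79061] ⟨c79061, trivial⟩ (nd (nat_lit 273) (nat_lit 0) (cs (lf (nat_lit 41) (nat_lit 207)) (rf (nat_lit 0)))) q79062 (by decide +kernel)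
def q79070 : Q := Q.p (nat_lit 0x40000f000004000000000000000000000000000000000000000000000000000000000) (nat_lit 0x200000800010000000000010000040000000000000000000000000000000000000000000000) (nat_lit 3)
theorem c79070 : QOK q79070 := cut [q79068] ⟨c79068, trivial⟩ (nd (nat_lit 275) (nat_lit 0) (cs (rf (nat_lit 0)) (lf (nat_lit 6) (nat_lit 252)))) q79070 (by decide +kernel)
def q79078 : Q := Q.p (nat_lit 0x800003000004000000000000000000000000000000000000000000000000000000000) (nat_lit 0x80000200000000000000008000010000040000000000000000000000000000000000000000000000) (nat_lit 3)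
theorem c79078 : QOK q79078 := cut [q1298] ⟨c1298, trivial⟩ (nd (nat_lit 208) (nat_lit 0) (cs (lf (nat_lit 24) (nat_lit 186)) (rf (nat_lit 0)))) q79078 (by decide +kernel)
def q79080 : Q := Q.p (nat_lit 0xc00007000004000000000000000000000000000000000000000000000000000000000) (nat_lit 0x80000300000000000000010000040000000000000000000000000000000000000000000000) (nat_lit 3)
theorem c79080 : QOK q79080 := cut [q79043] ⟨c79043, trivial⟩ (nd (nat_lit 208) (nat_lit 0) (cs (lf (nat_lit 24) (nat_lit 186)) (rf (nat_lit 0)))) q79080 (by decide +kernel)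
def q79095 : Q := Q.p (nat_lit 0x20000080000700000c000000000000000000000000000000000000000000000000000000000) (nat_lit 0x1000000000010000060000180000200000000000000000000000000000000000000000) (nat_lit 4)
theorem c79095 : QOK q79095 := cut [q79093] ⟨c79093, trivial⟩ (nd (nat_lit 210) (nat_lit 0) (cs (lf (nat_lit 34) (nat_lit 209)) (nd (nat_lit 209) (nat_lit 0) (cs (lf (nat_lit 35) (nat_lit 187)) (rf (nat_lit 0)))))) q79095 (by decide +kernel)
def q79098 : Q := Q.p (nat_lit 0xf00000c000000000000000000000000000000000000000000000000000000000) (nat_lit 0x100000600000000000000020000080000000000000000000000000000000000000000000000) (nat_lit 3)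
theorem c79098 : QOK q79098 := cut [q79097] ⟨c79097, trivial⟩ (nd (nat_lit 274) (nat_lit 0) (cs (lf (nat_lit 11) (nat_lit 251)) (rf (nat_lit 0)))) q79098 (by decide +kernel)
def q79105 : Q := Q.p (nat_lit 0x40000000000700000c000040000000000000000000000000000000000000000000000000000) (nat_lit 0x7000018000060000080000100000000000000000000000000000000000000000000000) (nat_lit 5)
theorem c79105 : QOK q79105 := cut [q79102] ⟨c79102, trivial⟩ (nd (nat_lit 255) (nat_lit 0) (cs (lf (nat_lit 18) (nat_lit 230)) (nd (nat_lit 233) (nat_lit 0) (cs (lf (nat_lit 17) (nat_lit 230)) (nd (nat_lit 277) (nat_lit 0) (cs (lf (nat_lit 5) (nat_lit 252)) (rf (nat_lit 0)))))))) q79105 (by decide +kernel)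
def q79112 : Q := Q.p (nat_lit 0x800003000004000000000000000000000000000000000000000000000000000000000) (nat_lit 0x80000200000400000000000000010000040000000000000000000000000000000000000000000000) (nat_lit 3)
theorem c79112 : QOK q79112 := cut [q79111] ⟨c79111, trivial⟩ (nd (nat_lit 297) (nat_lit 0) (cs (lf (nat_lit 42) (nat_lit 230)) (rf (nat_lit 0)))) q79112 (by decide +kernel)
def q79118 : Q := Q.p (nat_lit 0x7000010000000000000000000000000000000000000000000000000000000000) (nat_lit 0x8000e8000000000000000000000000000000000000000000000000000000000) (nat_lit 3)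
theorem c79118 : QOK q79118 := cut [q79116] ⟨c79116, trivial⟩ (nd (nat_lit 233) (nat_lit 0) (cs (rf (nat_lit 0)) (lf (nat_lit 12) (nat_lit 229)))) q79118 (by decide +kernel)
def q79123 : Q := Q.p (nat_lit 0x6000010000040000000000000000000000000000000000000000000000000000) (nat_lit 0x800000000008000000000300000c00002000000000000000000000000000000000000) (nat_lit 4)
theorem c79123 : QOK q79123 := cut [q79121] ⟨c79121, trivial⟩ (nd (nat_lit 188) (nat_lit 0) (cs (rf (nat_lit 0)) (lf (nat_lit 41) (nat_lit 187)))) q79123 (by decide +kernel)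
def q79128 : Q := Q.p (nat_lit 0x6000010000040000000000000000000000000000000000000000000000000000) (nat_lit 0x800000000000000000000380000e00002800000000000000000000000000000000000) (nat_lit 5)
theorem c79128 : QOK q79128 := cut [q79127] ⟨c79127, trivial⟩ (nd (nat_lit 188) (nat_lit 0) (cs (lf (nat_lit 41) (nat_lit 187)) (rf (nat_lit 0)))) q79128 (by decide +kernel)
def q79136 : Q := Q.p (nat_lit 0x6000010000040000080000000000000000000000000000000000000000000000) (nat_lit 0x8000000000300000e00002000000000000000000000000000000000000) (nat_lit 4)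
theorem c79136 : QOK q79136 := cut [q79133] ⟨c79133, trivial⟩ (nd (nat_lit 188) (nat_lit 0) (cs (nd (nat_lit 166) (nat_lit 0) (cs (lf (nat_lit 40) (nat_lit 165)) (rf (nat_lit 0)))) (lf (nat_lit 47) (nat_lit 165)))) q79136 (by decide +kernel)
def q79139 : Q := Q.p (nat_lit 0x4000010000040000080000000000000000000000000000000000000000000000) (nat_lit 0x1000000000008000020000000000200000800000000000000000000000000000000000) (nat_lit 3)
theorem c79139 : QOK q79139 := cut [q79138] ⟨c79138, trivial⟩ (nd (nat_lit 209) (nat_lit 0) (cs (lf (nat_lit 42) (nat_lit 187)) (rf (nat_lit 0)))) q79139 (by decide +kernel)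
def q79149 : Q := Q.p (nat_lit 0x1000007000010000040000000000000000000000000000000000000000000000000000) (nat_lit 0xa00006800000000000000000000000000000000000000000000000000000000000000000000) (nat_lit 3)
theorem c79149 : QOK q79149 := cut [q79147] ⟨c79147, trivial⟩ (nd (nat_lit 275) (nat_lit 0) (cs (rf (nat_lit 0)) (lf (nat_lit 41) (nat_lit 209)))) q79149 (by decide +kernel)
def q79152 : Q := Q.p (nat_lit 0x1000007000010000080000000000000000000000000000000000000000000000000000) (nat_lit 0x4000000000000000e8000000000000000000000000000000000000000000000000000000000) (nat_lit 3)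
theorem c79152 : QOK q79152 := cut [q79116] ⟨c79116, trivial⟩ (nd (nat_lit 233) (nat_lit 0) (cs (rf (nat_lit 0)) (lf (nat_lit 30) (nat_lit 210)))) q79152 (by decide +kernel)
def q79159 : Q := Q.p (nat_lit 0x6000010000040000100000000000000000000000000000000000000000000000) (nat_lit 0x8000000000080000600000800000000000000000000000000000000000) (nat_lit 3)
theorem c79159 : QOK q79159 := cut [q79158] ⟨c79158, trivial⟩ (nd (nat_lit 166) (nat_lit 0) (cs (lf (nat_lit 40) (nat_lit 165)) (rf (nat_lit 0)))) q79159 (by decide +kernel)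
def q79164 : Q := Q.p (nat_lit 0x7800000000000000000000000000000000000000000000000000000000000000) (nat_lit 0x3800000400003800000000000000000000000000000000000000000000000000000000) (nat_lit 4)
theorem c79164 : QOK q79164 := cut [q79163] ⟨c79163, trivial⟩ (nd (nat_lit 228) (nat_lit 0) (cs (lf (nat_lit 22) (nat_lit 228)) (rf (nat_lit 0)))) q79164 (by decide +kernel)
def q79169 : Q := Q.p (nat_lit 0x800006000010000000000000000000000000000000000000000000000000000000000) (nat_lit 0x80000200000000000000008000040000100000000000000000000000000000000000000000000000) (nat_lit 3)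
theorem c79169 : QOK q79169 := cut [q79167] ⟨c79167, trivial⟩ (nd (nat_lit 210) (nat_lit 0) (cs (rf (nat_lit 0)) (lf (nat_lit 36) (nat_lit 187)))) q79169 (by decide +kernel)
def q79171 : Q := Q.p (nat_lit 0x1800007000010000000000000000000000000000000000000000000000000000000000) (nat_lit 0x800006000000000000000040000100000000000000000000000000000000000000000000000) (nat_lit 3)
theorem c79171 : QOK q79171 := cut [q79147] ⟨c79147, trivial⟩ (nd (nat_lit 210) (nat_lit 0) (cs (rf (nat_lit 0)) (lf (nat_lit 36) (nat_lit 187)))) q79171 (by decide +kernel)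
def q79177 : Q := Q.p (nat_lit 0x200000800007000018000000000000000000000000000000000000000000000000000000000) (nat_lit 0x100000500001400000000000000020000080000000000000000000000000000000000000000000000) (nat_lit 4)
theorem c79177 : QOK q79177 := cut [q6232] ⟨c6232, trivial⟩ (nd (nat_lit 298) (nat_lit 0) (cs (lf (nat_lit 29) (nat_lit 231)) (nd (nat_lit 209) (nat_lit 0) (cs (rf (nat_lit 0)) (lf (nat_lit 43) (nat_lit 209)))))) q79177 (by decide +kernel)
def q79182 : Q := Q.p (nat_lit 0x7800018000000000000000000000000000000000000000000000000000000000) (nat_lit 0x400003000000000000000020000080000000000000000000000000000000000000000000000) (nat_lit 3)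
theorem c79182 : QOK q79182 := cut [q79181] ⟨c79181, trivial⟩ (nd (nat_lit 276) (nat_lit 0) (cs (lf (nat_lit 5) (nat_lit 251)) (rf (nat_lit 0)))) q79182 (by decide +kernel)
def q79187 : Q := Q.p (nat_lit 0x300000800002000008000000000000000000000000000000000000000000000000000000000) (nat_lit 0x400000000004000030000040000000000000000000000000000000000000000000000) (nat_lit 3)
theorem c79187 : QOK q79187 := cut [q79186] ⟨c79186, trivial⟩ (nd (nat_lit 209) (nat_lit 0) (cs (lf (nat_lit 40) (nat_lit 208)) (rf (nat_lit 0)))) q79187 (by decide +kernel)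
def q79195 : Q := Q.p (nat_lit 0x200000800006000018000000000000000000000000000000000000000000000000000000000) (nat_lit 0x40000100001400000000000000020000080000200000000000000000000000000000000000000000) (nat_lit 4)
theorem c79195 : QOK q79195 := cut [q79193] ⟨c79193, trivial⟩ (nd (nat_lit 296) (nat_lit 0) (cs (lf (nat_lit 41) (nat_lit 230)) (nd (nat_lit 209) (nat_lit 0) (cs (lf (nat_lit 40) (nat_lit 208)) (rf (nat_lit 0)))))) q79195 (by decide +kernel)
def q79199 : Q := Q.p (nat_lit 0x800006000010000000000000000000000000000000000000000000000000000000000) (nat_lit 0x80000200001000000000000000040000100000000000000000000000000000000000000000000000) (nat_lit 3)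
theorem c79199 : QOK q79199 := cut [q79198] ⟨c79198, trivial⟩ (nd (nat_lit 297) (nat_lit 0) (cs (lf (nat_lit 30) (nat_lit 231)) (rf (nat_lit 0)))) q79199 (by decide +kernel)
def q79201 : Q := Q.p (nat_lit 0x7800000000000000000000000000000000000000000000000000000000000000) (nat_lit 0x380000400003800000000000000000000000000000000000000000000000000000000) (nat_lit 4)
theorem c79201 : QOK q79201 := cut [q79022] ⟨c79022, trivial⟩ (nd (nat_lit 272) (nat_lit 0) (cs (lf (nat_lit 10) (nat_lit 250)) (nd (nat_lit 250) (nat_lit 0) (cs (lf (nat_lit 11) (nat_lit 249)) (rf (nat_lit 0)))))) q79201 (by decide +kernel)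
def q79216 : Q := Q.p (nat_lit 0x200000f000000000000000000000000000000000000000000000000000000000000000) (nat_lit 0x1700000800000000000000000000000000000000000000000000000000000000000000) (nat_lit 3)
theorem c79216 : QOK q79216 := cut [q79215] ⟨c79215, trivial⟩ (nd (nat_lit 251) (nat_lit 0) (cs (lf (nat_lit 4) (nat_lit 251)) (rf (nat_lit 0)))) q79216 (by decide +kernel)
def q79223 : Q := Q.p (nat_lit 0xf000000000000000000000000000000000000000000000000000000000000000) (nat_lit 0xe000100000e0000000000000000000000000000000000000000000000000000000000) (nat_lit 4)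
theorem c79223 : QOK q79223 := cut [q79220] ⟨c79220, trivial⟩ (nd (nat_lit 234) (nat_lit 0) (cs (nd (nat_lit 274) (nat_lit 0) (cs (lf (nat_lit 11) (nat_lit 251)) (rf (nat_lit 0)))) (lf (nat_lit 16) (nat_lit 230)))) q79223 (by decide +kernel)
def q79226 : Q := Q.p (nat_lit 0x200000f000020000000000000000000000000000000000000000000000000000000000) (nat_lit 0x800000000000800010000040000100000000000000000000000000000000000000000000000) (nat_lit 3)
theorem c79226 : QOK q79226 := cut [q79225] ⟨c79225, trivial⟩ (nd (nat_lit 232) (nat_lit 0) (cs (lf (nat_lit 12) (nat_lit 229)) (rf (nat_lit 0)))) q79226 (by decide +kernel)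
def q79231 : Q := Q.p (nat_lit 0x7800000000000000000000000000000000000000000000000000000000000000) (nat_lit 0x7700008000000000000000000000000000000000000000000000000000000000000000) (nat_lit 4)
theorem c79231 : QOK q79231 := cut [q79215] ⟨c79215, trivial⟩ (nd (nat_lit 277) (nat_lit 0) (cs (lf (nat_lit 4) (nat_lit 251)) (nd (nat_lit 255) (nat_lit 0) (cs (lf (nat_lit 5) (nat_lit 252)) (rf (nat_lit 0)))))) q79231 (by decide +kernel)
def q79237 : Q := Q.p (nat_lit 0xc00003c000000000000000000000000000000000000000000000000000000000) (nat_lit 0x1000000000000000180000200000800000000000000000000000000000000000000000) (nat_lit 3)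
theorem c79237 : QOK q79237 := cut [q79236] ⟨c79236, trivial⟩ (nd (nat_lit 211) (nat_lit 0) (cs (lf (nat_lit 17) (nat_lit 208)) (rf (nat_lit 0)))) q79237 (by decide +kernel)
def q79251 : Q := Q.p (nat_lit 0x600001e000000000000000000000000000000000000000000000000000000000) (nat_lit 0x8000000000000000c0000100000400000000000000000000000000000000000000000) (nat_lit 3)
theorem c79251 : QOK q79251 := cut [q79250] ⟨c79250, trivial⟩ (nd (nat_lit 210) (nat_lit 0) (cs (lf (nat_lit 17) (nat_lit 207)) (rf (nat_lit 0)))) q79251 (by decide +kernel)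
def q79259 : Q := Q.p (nat_lit 0x7800020000000000000000000000000000000000000000000000000000000000) (nat_lit 0x8000047000000000000000000000000000000000000000000000000000000000) (nat_lit 3)
theorem c79259 : QOK q79259 := cut [q79258] ⟨c79258, trivial⟩ (nd (nat_lit 229) (nat_lit 0) (cs (lf (nat_lit 23) (nat_lit 228)) (rf (nat_lit 0)))) q79259 (by decide +kernel)
def q79268 : Q := Q.p (nat_lit 0x780001e000000000000000000000000000000000000000000000000000000000000000) (nat_lit 0x1000004000030000000000000000e0000100000400000000000000000000000000000000000000000000000) (nat_lit 5)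
theorem c79268 : QOK q79268 := cut [q79265] ⟨c79265, trivial⟩ (nd (nat_lit 234) (nat_lit 0) (cs (lf (nat_lit 17) (nat_lit 231)) (nd (nat_lit 190) (nat_lit 0) (cs (rf (nat_lit 0)) (lf (nat_lit 37) (nat_lit 189)))))) q79268 (by decide +kernel)
def q79273 : Q := Q.p (nat_lit 0x800002000018000060000000000000000000000000000000000000000000000000000) (nat_lit 0x2000001c000040000000000000000000000000000000000000000000000) (nat_lit 3)
theorem c79273 : QOK q79273 := cut [q2928] ⟨c2928, trivial⟩ (nd (nat_lit 208) (nat_lit 0) (cs (lf (nat_lit 47) (nat_lit 186)) (rf (nat_lit 0)))) q79273 (by decide +kernel)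
def q79283 : Q := Q.p (nat_lit 0x18000030000000000000000000000000000000000000000000000000000) (nat_lit 0x6400000c000000000000000000000000000000000000000000000000000) (nat_lit 3)
theorem c79283 : QOK q79283 := cut [q25040] ⟨c25040, trivial⟩ (nd (nat_lit 207) (nat_lit 0) (cs (lf (nat_lit 0) (nat_lit 206)) (rf (nat_lit 0)))) q79283 (by decide +kernel)
def q79290 : Q := Q.p (nat_lit 0x1800006000008000020000000000000000000000000000000000000000000000000000) (nat_lit 0x100000600018000000000000000000000000000000000000000000000000000000000000000) (nat_lit 3)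
theorem c79290 : QOK q79290 := cut [q79289] ⟨c79289, trivial⟩ (nd (nat_lit 274) (nat_lit 0) (cs (lf (nat_lit 41) (nat_lit 208)) (rf (nat_lit 0)))) q79290 (by decide +kernel)
def q79297 : Q := Q.p (nat_lit 0x800006000018000020000000000000000000000000000000000000000000000000000) (nat_lit 0xc0000300000400000000000000000000000000000000000000000000000000000000000000000000) (nat_lit 3)
theorem c79297 : QOK q79297 := cut [q16427] ⟨c16427, trivial⟩ (nd (nat_lit 297) (nat_lit 0) (cs (rf (nat_lit 0)) (lf (nat_lit 30) (nat_lit 231)))) q79297 (by decide +kernel)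
def q79298 : Q := Q.p (nat_lit 0x18000030000000000000000000000000000000000000000000000000000) (nat_lit 0x6400000c000000000000000000000000000000000000000000000000000) (nat_lit 3)
theorem c79298 : QOK q79298 := cut [q15484] ⟨c15484, trivial⟩ (nd (nat_lit 233) (nat_lit 0) (cs (lf (nat_lit 18) (nat_lit 208)) (rf (nat_lit 0)))) q79298 (by decide +kernel)
def q79310 : Q := Q.p (nat_lit 0x600003c000000000000000000000000000000000000000000000000000000000) (nat_lit 0xc0000380000000000000000000000000000000000000000000000000000) (nat_lit 3)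
theorem c79310 : QOK q79310 := cut [q79309] ⟨c79309, trivial⟩ (nd (nat_lit 234) (nat_lit 0) (cs (lf (nat_lit 6) (nat_lit 231)) (rf (nat_lit 0)))) q79310 (by decide +kernel)
def q79324 : Q := Q.p (nat_lit 0x600001e000000000000000000000000000000000000000000000000000000000) (nat_lit 0xe000039c000000000000000000000000000000000000000000000000000) (nat_lit 5)
theorem c79324 : QOK q79324 := cut [q79322] ⟨c79322, trivial⟩ (nd (nat_lit 207) (nat_lit 0) (cs (lf (nat_lit 23) (nat_lit 206)) (nd (nat_lit 233) (nat_lit 0) (cs (lf (nat_lit 22) (nat_lit 207)) (rf (nat_lit 0)))))) q79324 (by decide +kernel)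
def q79346 : Q := Q.p (nat_lit 0x1000006000038000000000000000000000000000000000000000000000000000000000) (nat_lit 0x80000c4000380000200000800000000000000000000000000000000000000000) (nat_lit 5)
theorem c79346 : QOK q79346 := cut [q79342] ⟨c79342, trivial⟩ (nd (nat_lit 234) (nat_lit 0) (cs (lf (nat_lit 6) (nat_lit 231)) (nd (nat_lit 212) (nat_lit 0) (cs (lf (nat_lit 17) (nat_lit 209)) (nd (nat_lit 211) (nat_lit 0) (cs (rf (nat_lit 0)) (lf (nat_lit 12) (nat_lit 208)))))))) q79346 (by decide +kernel)
def q79350 : Q := Q.p (nat_lit 0x100000c000038000000000000000000000000000000000000000000000000000000000) (nat_lit 0x6000180000200000000000000000000000000000000000000000000000) (nat_lit 3)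
theorem c79350 : QOK q79350 := cut [q79349] ⟨c79349, trivial⟩ (nd (nat_lit 230) (nat_lit 0) (cs (lf (nat_lit 0) (nat_lit 229)) (rf (nat_lit 0)))) q79350 (by decide +kernel)
def q79388 : Q := Q.p (nat_lit 0x800016000060000100000000000000000000000000000000000000000000000000000) (nat_lit 0x2400008000000000000000400001000000000000000000000000000000000000000000) (nat_lit 3)
theorem c79388 : QOK q79388 := cut [q79387] ⟨c79387, trivial⟩ (nd (nat_lit 255) (nat_lit 0) (cs (lf (nat_lit 11) (nat_lit 252)) (rf (nat_lit 0)))) q79388 (by decide +kernel)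
def q79424 : Q := Q.p (nat_lit 0x1800006000010000080000000000000000000000000000000000000000000000000000) (nat_lit 0xc0000300000c00000000000000020000000000000000000000000000000000000000000000000000000000) (nat_lit 4)
theorem c79424 : QOK q79424 := cut [q79422] ⟨c79422, trivial⟩ (nd (nat_lit 298) (nat_lit 0) (cs (rf (nat_lit 0)) (lf (nat_lit 34) (nat_lit 210)))) q79424 (by decide +kernel)
def q79439 : Q := Q.p (nat_lit 0x1000004000010000040000000000000000000000000000000000000000000000000000) (nat_lit 0x80000600000800000000020000080000200000000000000000000000000000000000000000000000) (nat_lit 4)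
theorem c79439 : QOK q79439 := cut [q79436] ⟨c79436, trivial⟩ (nd (nat_lit 297) (nat_lit 0) (cs (nd (nat_lit 298) (nat_lit 0) (cs (lf (nat_lit 41) (nat_lit 231)) (rf (nat_lit 0)))) (lf (nat_lit 40) (nat_lit 209)))) q79439 (by decide +kernel)
def q79444 : Q := Q.p (nat_lit 0x7800006000000000000000000000000000000000000000000000000000000000000000) (nat_lit 0x1c0000700038000000000000000000000000000000000000000000000000000000000000000) (nat_lit 5)
theorem c79444 : QOK q79444 := cut [q79442] ⟨c79442, trivial⟩ (nd (nat_lit 256) (nat_lit 0) (cs (lf (nat_lit 17) (nat_lit 253)) (nd (nat_lit 274) (nat_lit 0) (cs (lf (nat_lit 16) (nat_lit 252)) (rf (nat_lit 0)))))) q79444 (by decide +kernel)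
def q79455 : Q := Q.p (nat_lit 0x6000010000040000000000000000000000000000000000000000000000000000) (nat_lit 0x2800008000020000000000180000600000800000000000000000000000000000000000) (nat_lit 5)
theorem c79455 : QOK q79455 := cut [q79158] ⟨c79158, trivial⟩ (nd (nat_lit 188) (nat_lit 0) (cs (lf (nat_lit 41) (nat_lit 187)) (nd (nat_lit 255) (nat_lit 0) (cs (nd (nat_lit 166) (nat_lit 0) (cs (rf (nat_lit 0)) (lf (nat_lit 28) (nat_lit 166)))) (lf (nat_lit 29) (nat_lit 188)))))) q79455 (by decide +kernel)
def q79457 : Q := Q.p (nat_lit 0x4000010000040000100000000000000000000000000000000000000000000000) (nat_lit 0x2000008000020000000000200000c00002000000000000000000000000000000000000) (nat_lit 4)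
theorem c79457 : QOK q79457 := cut [q79133] ⟨c79133, trivial⟩ (nd (nat_lit 255) (nat_lit 0) (cs (lf (nat_lit 29) (nat_lit 188)) (nd (nat_lit 166) (nat_lit 0) (cs (rf (nat_lit 0)) (lf (nat_lit 28) (nat_lit 166)))))) q79457 (by decide +kernel)
def q79463 : Q := Q.p (nat_lit 0x800006000018000020000000000000000000000000000000000000000000000000000) (nat_lit 0x40000180000600000000000000000000000000000000000000000) (nat_lit 3)
theorem c79463 : QOK q79463 := cut [q79461] ⟨c79461, trivial⟩ (nd (nat_lit 188) (nat_lit 0) (cs (rf (nat_lit 0)) (lf (nat_lit 37) (nat_lit 187)))) q79463 (by decide +kernel)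
def q79467 : Q := Q.p (nat_lit 0x800006000018000020000000000000000000000000000000000000000000000000000) (nat_lit 0x100000c0000300000000000000000000000000000000000000000) (nat_lit 3)
theorem c79467 : QOK q79467 := cut [q79466] ⟨c79466, trivial⟩ (nd (nat_lit 186) (nat_lit 0) (cs (lf (nat_lit 46) (nat_lit 186)) (rf (nat_lit 0)))) q79467 (by decide +kernel)
def q79497 : Q := Q.p (nat_lit 0xe00003c000000000000000000000000000000000000000000000000000000000) (nat_lit 0x20000000000000001f80007e0001f80000000000000000000000000000000000000000) (nat_lit 10)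
theorem c79497 : QOK q79497 := cut [q79491] ⟨c79491, trivial⟩ (nd (nat_lit 211) (nat_lit 0) (cs (lf (nat_lit 17) (nat_lit 208)) (nd (nat_lit 189) (nat_lit 0) (cs (lf (nat_lit 36) (nat_lit 166)) (nd (nat_lit 207) (nat_lit 0) (cs (lf (nat_lit 22) (nat_lit 207)) (nd (nat_lit 168) (nat_lit 0) (cs (lf (nat_lit 34) (nat_lit 167)) (nd (nat_lit 188) (nat_lit 0) (cs (lf (nat_lit 47) (nat_lit 166)) (nd (nat_lit 210) (nat_lit 0) (cs (lf (nat_lit 29) (nat_lit 188)) (rf (nat_lit 0)))))))))))))) q79497 (by decide +kernel)
def q79506 : Q := Q.p (nat_lit 0xe000038000000000000000000000000000000000000000000000000000000000) (nat_lit 0x28000000000060001c0000700001c00000000000000000000000000000000000000000) (nat_lit 7)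
theorem c79506 : QOK q79506 := cut [q79503] ⟨c79503, trivial⟩ (nd (nat_lit 230) (nat_lit 0) (cs (lf (nat_lit 0) (nat_lit 229)) (nd (nat_lit 211) (nat_lit 0) (cs (lf (nat_lit 17) (nat_lit 208)) (nd (nat_lit 189) (nat_lit 0) (cs (lf (nat_lit 36) (nat_lit 166)) (rf (nat_lit 0)))))))) q79506 (by decide +kernel)
def q79511 : Q := Q.p (nat_lit 0x1e000020000000000000000000000000000000000000000000000000000000000) (nat_lit 0x40000100000e000000000000000080000200000000000000000000000000000000000000000000000) (nat_lit 4)
theorem c79511 : QOK q79511 := cut [q79508] ⟨c79508, trivial⟩ (nd (nat_lit 278) (nat_lit 0) (cs (lf (nat_lit 5) (nat_lit 253)) (nd (nat_lit 300) (nat_lit 0) (cs (rf (nat_lit 0)) (lf (nat_lit 42) (nat_lit 233)))))) q79511 (by decide +kernel)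
def q79556 : Q := Q.p (nat_lit 0x100003c0000000000000000000000000000000000000000000000000000) (nat_lit 0x3a0000400000000000000000000000000000000000000000000000000000) (nat_lit 3)
theorem c79556 : QOK q79556 := cut [q79554] ⟨c79554, trivial⟩ (nd (nat_lit 214) (nat_lit 0) (cs (rf (nat_lit 0)) (lf (nat_lit 10) (nat_lit 210)))) q79556 (by decide +kernel)
def q79560 : Q := Q.p (nat_lit 0xf0000000000000000000000000000000000000000000000000000) (nat_lit 0x7000008000070000000000000000000000000000000000000000000000) (nat_lit 4)
theorem c79560 : QOK q79560 := cut [q7441] ⟨c7441, trivial⟩ (nd (nat_lit 229) (nat_lit 0) (cs (lf (nat_lit 10) (nat_lit 207)) (nd (nat_lit 207) (nat_lit 0) (cs (lf (nat_lit 11) (nat_lit 206)) (rf (nat_lit 0)))))) q79560 (by decide +kernel)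
def q79570 : Q := Q.p (nat_lit 0x10000040000100001c0000000000000000000000000000000000000000000000000000) (nat_lit 0x8000220001c80000000000000000000000000000000000000000000000) (nat_lit 4)
theorem c79570 : QOK q79570 := cut [q79569] ⟨c79569, trivial⟩ (nd (nat_lit 213) (nat_lit 0) (cs (lf (nat_lit 11) (nat_lit 209)) (rf (nat_lit 0)))) q79570 (by decide +kernel)
def q79579 : Q := Q.p (nat_lit 0x400001000006000010000000000000000000000000000000000000000000000000000000000) (nat_lit 0x20000180000200000000000000008000000000000000000000000000000000000000000000000000000000) (nat_lit 3)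
theorem c79579 : QOK q79579 := cut [q79577] ⟨c79577, trivial⟩ (nd (nat_lit 319) (nat_lit 0) (cs (rf (nat_lit 0)) (lf (nat_lit 40) (nat_lit 231)))) q79579 (by decide +kernel)
def q79587 : Q := Q.p (nat_lit 0x400001000006000000000000000000000000000000000000000000000000000000000000000) (nat_lit 0x8000060000180000000000800000000008000000000000000000000000000000000000000000000000000000000) (nat_lit 4)
theorem c79587 : QOK q79587 := cut [q79586] ⟨c79586, trivial⟩ (nd (nat_lit 320) (nat_lit 0) (cs (lf (nat_lit 47) (nat_lit 231)) (rf (nat_lit 0)))) q79587 (by decide +kernel)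
def q79601 : Q := Q.p (nat_lit 0x1000006000018000040000000000000000000000000000000000000000000000000000) (nat_lit 0x80000300000c00000000000000000000000000000000000000000) (nat_lit 3)
theorem c79601 : QOK q79601 := cut [q79600] ⟨c79600, trivial⟩ (nd (nat_lit 189) (nat_lit 0) (cs (lf (nat_lit 34) (nat_lit 188)) (rf (nat_lit 0)))) q79601 (by decide +kernel)
def q79607 : Q := Q.p (nat_lit 0x1000004000018000060000000000000000000000000000000000000000000000000000) (nat_lit 0x4000380000200000000000000000000000000000000000000000000000) (nat_lit 3)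
theorem c79607 : QOK q79607 := cut [q79606] ⟨c79606, trivial⟩ (nd (nat_lit 211) (nat_lit 0) (cs (lf (nat_lit 35) (nat_lit 188)) (rf (nat_lit 0)))) q79607 (by decide +kernel)
def q79623 : Q := Q.p (nat_lit 0x1000006000018000040000000000000000000000000000000000000000000000000000) (nat_lit 0x80000e0000000000e00003bc0002f0000200000000000000000000000000000000000000000) (nat_lit 10)
theorem c79623 : QOK q79623 := cut [q79193, q7441] ⟨c79193, c7441, trivial⟩ (nd (nat_lit 209) (nat_lit 0) (cs (rf (nat_lit 0)) (nd (nat_lit 277) (nat_lit 0) (cs (lf (nat_lit 29) (nat_lit 210)) (nd (nat_lit 278) (nat_lit 0) (cs (lf (nat_lit 18) (nat_lit 253)) (nd (nat_lit 211) (nat_lit 0) (cs (lf (nat_lit 35) (nat_lit 188)) (nd (nat_lit 212) (nat_lit 0) (cs (lf (nat_lit 6) (nat_lit 209)) (nd (nat_lit 234) (nat_lit 0) (cs (lf (nat_lit 5) (nat_lit 209)) (nd (nat_lit 208) (nat_lit 0) (cs (nd (nat_lit 207) (nat_lit 0) (cs (lf (nat_lit 0) (nat_lit 206)) (rf (nat_lit 1)))) (lf (nat_lit 19) (nat_lit 208)))))))))))))))) q79623 (by decide +kernel)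
def q79640 : Q := Q.p (nat_lit 0x6000018000040000300000000000000000000000000000000000000000000000) (nat_lit 0x1000000000000000030000c80000200000000000000000000000000000000000000000) (nat_lit 4)
theorem c79640 : QOK q79640 := cut [q79638] ⟨c79638, trivial⟩ (nd (nat_lit 187) (nat_lit 0) (cs (lf (nat_lit 47) (nat_lit 165)) (nd (nat_lit 209) (nat_lit 0) (cs (lf (nat_lit 29) (nat_lit 187)) (rf (nat_lit 0)))))) q79640 (by decide +kernel)
def q79652 : Q := Q.p (nat_lit 0x1e0000000000000000000000000000000000000000000000) (nat_lit 0x10000ee0000000000000000000000000000000000000000) (nat_lit 4)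
theorem c79652 : QOK q79652 := cut [q8023] ⟨c8023, trivial⟩ (nd (nat_lit 162) (nat_lit 0) (cs (lf (nat_lit 22) (nat_lit 162)) (nd (nat_lit 184) (nat_lit 0) (cs (lf (nat_lit 23) (nat_lit 161)) (rf (nat_lit 0)))))) q79652 (by decide +kernel)
def q79693 : Q := Q.p (nat_lit 0x6000018000040000100000000000000000000000000000000000000000000000) (nat_lit 0x2000018000006000000000000000000000000000000000000000000000000000000000) (nat_lit 3)
theorem c79693 : QOK q79693 := cut [q79626] ⟨c79626, trivial⟩ (nd (nat_lit 255) (nat_lit 0) (cs (lf (nat_lit 29) (nat_lit 188)) (rf (nat_lit 0)))) q79693 (by decide +kernel)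
def q79734 : Q := Q.p (nat_lit 0x800006000010000000000000000000000000000000000000000000000000000000000) (nat_lit 0x80000200001000000000008000040000000000000000000000000000000000000000000000000000) (nat_lit 3)
theorem c79734 : QOK q79734 := cut [q79733] ⟨c79733, trivial⟩ (nd (nat_lit 297) (nat_lit 0) (cs (lf (nat_lit 30) (nat_lit 231)) (rf (nat_lit 0)))) q79734 (by decide +kernel)
def q79735 : Q := Q.p (nat_lit 0x300000800002000008000000000000000000000000000000000000000000000000000000000) (nat_lit 0x400000000004000030000040000000000000000000000000000000000000000000000) (nat_lit 3)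
theorem c79735 : QOK q79735 := cut [q52636] ⟨c52636, trivial⟩ (nd (nat_lit 208) (nat_lit 0) (cs (lf (nat_lit 46) (nat_lit 208)) (rf (nat_lit 0)))) q79735 (by decide +kernel)
def q79752 : Q := Q.p (nat_lit 0x1000004000010000060000000000000000000000000000000000000000000000000000) (nat_lit 0x400000000000000060000098000200000000000000000000000000000000000000000000000) (nat_lit 4)
theorem c79752 : QOK q79752 := cut [q79750] ⟨c79750, trivial⟩ (nd (nat_lit 211) (nat_lit 0) (cs (lf (nat_lit 35) (nat_lit 188)) (nd (nat_lit 233) (nat_lit 0) (cs (lf (nat_lit 30) (nat_lit 210)) (rf (nat_lit 0)))))) q79752 (by decide +kernel)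
def q79763 : Q := Q.p (nat_lit 0x600001800004000010000000000000000000000000000000000000000000000000000000000) (nat_lit 0x200001800000600000000000000000000000000000000000000000000000000000000000000000000) (nat_lit 3)
theorem c79763 : QOK q79763 := cut [q79762] ⟨c79762, trivial⟩ (nd (nat_lit 299) (nat_lit 0) (cs (lf (nat_lit 29) (nat_lit 232)) (rf (nat_lit 0)))) q79763 (by decide +kernel)
def q79768 : Q := Q.p (nat_lit 0x400001800006000010000000000000000000000000000000000000000000000000000000000) (nat_lit 0x40000100000000000000008000020000080000000000000000000000000000000000000000000000000000) (nat_lit 3)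
theorem c79768 : QOK q79768 := cut [q79767] ⟨c79767, trivial⟩ (nd (nat_lit 320) (nat_lit 0) (cs (lf (nat_lit 42) (nat_lit 253)) (rf (nat_lit 0)))) q79768 (by decide +kernel)
def q79787 : Q := Q.p (nat_lit 0x1800006000008000020000000000000000000000000000000000000000000000000000) (nat_lit 0x100000700008000000000000000000000000000000000000000000000000000000000000000) (nat_lit 3)
theorem c79787 : QOK q79787 := cut [q79786] ⟨c79786, trivial⟩ (nd (nat_lit 274) (nat_lit 0) (cs (lf (nat_lit 41) (nat_lit 208)) (rf (nat_lit 0)))) q79787 (by decide +kernel)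
def q79800 : Q := Q.p (nat_lit 0x40000100000c0000000000000000000000000000000000000000000000000000) (nat_lit 0x1000000000020000000000200000800002000000000000000000000000000000000000) (nat_lit 3)
theorem c79800 : QOK q79800 := cut [q79798] ⟨c79798, trivial⟩ (nd (nat_lit 189) (nat_lit 0) (cs (rf (nat_lit 0)) (lf (nat_lit 30) (nat_lit 188)))) q79800 (by decide +kernel)
def q79832 : Q := Q.p (nat_lit 0x100001c0000000000000000000000000000000000000000000000000000) (nat_lit 0x20000188000220001c00001000004000000000000000000000000000000000000) (nat_lit 6)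
theorem c79832 : QOK q79832 := cut [q79828] ⟨c79828, trivial⟩ (nd (nat_lit 213) (nat_lit 0) (cs (lf (nat_lit 11) (nat_lit 209)) (nd (nat_lit 191) (nat_lit 0) (cs (lf (nat_lit 17) (nat_lit 188)) (nd (nat_lit 190) (nat_lit 0) (cs (lf (nat_lit 12) (nat_lit 187)) (nd (nat_lit 235) (nat_lit 0) (cs (lf (nat_lit 5) (nat_lit 210)) (rf (nat_lit 0)))))))))) q79832 (by decide +kernel)
def q79852 : Q := Q.p (nat_lit 0x60000100001c0000000000000000000000000000000000000000000000000000) (nat_lit 0x200001e0000620001c00001000004000000000000000000000000000000000000) (nat_lit 6)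
theorem c79852 : QOK q79852 := cut [q79828, q79850] ⟨c79828, c79850, trivial⟩ (nd (nat_lit 235) (nat_lit 0) (cs (nd (nat_lit 234) (nat_lit 0) (cs (lf (nat_lit 8) (nat_lit 231)) (lf (nat_lit 0) (nat_lit 209)))) (cs (nd (nat_lit 213) (nat_lit 0) (cs (lf (nat_lit 5) (nat_lit 210)) (nd (nat_lit 191) (nat_lit 0) (cs (lf (nat_lit 17) (nat_lit 188)) (nd (nat_lit 190) (nat_lit 0) (cs (lf (nat_lit 12) (nat_lit 187)) (rf (nat_lit 0)))))))) (nd (nat_lit 213) (nat_lit 0) (cs (lf (nat_lit 5) (nat_lit 210)) (rf (nat_lit 1))))))) q79852 (by decide +kernel)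
def q79868 : Q := Q.p (nat_lit 0x4000010000060000000000000000000000000000000000000000000000000000) (nat_lit 0x1000000000008000000000080000200000800000000000000000000000000000000000) (nat_lit 3)
theorem c79868 : QOK q79868 := cut [q79138] ⟨c79138, trivial⟩ (nd (nat_lit 187) (nat_lit 0) (cs (lf (nat_lit 42) (nat_lit 187)) (rf (nat_lit 0)))) q79868 (by decide +kernel)
def q79895 : Q := Q.p (nat_lit 0x1000006000010000040000100000000000000000000000000000000000000000000000) (nat_lit 0x100000400000000000000008000020000000000400000000000000000000000000000000000000000) (nat_lit 3)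
theorem c79895 : QOK q79895 := cut [q79894] ⟨c79894, trivial⟩ (nd (nat_lit 231) (nat_lit 0) (cs (lf (nat_lit 36) (nat_lit 165)) (rf (nat_lit 0)))) q79895 (by decide +kernel)
def q79902 : Q := Q.p (nat_lit 0x6000010000040000000000000000000000000000000000000000000000000000) (nat_lit 0x2800008000028000000000100000400000000000000000000000000000000000000000) (nat_lit 4)
theorem c79902 : QOK q79902 := cut [q79891] ⟨c79891, trivial⟩ (nd (nat_lit 188) (nat_lit 0) (cs (lf (nat_lit 41) (nat_lit 187)) (rf (nat_lit 0)))) q79902 (by decide +kernel)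
def q79912 : Q := Q.p (nat_lit 0x4000010000040000100000000000000000000000000000000000000000000000) (nat_lit 0x10000000000000001800002e0000a00000000000000000000000000000000000000000) (nat_lit 5)
theorem c79912 : QOK q79912 := cut [q79909] ⟨c79909, trivial⟩ (nd (nat_lit 189) (nat_lit 0) (cs (lf (nat_lit 35) (nat_lit 166)) (nd (nat_lit 211) (nat_lit 0) (cs (lf (nat_lit 30) (nat_lit 188)) (nd (nat_lit 187) (nat_lit 0) (cs (lf (nat_lit 47) (nat_lit 165)) (rf (nat_lit 0)))))))) q79912 (by decide +kernel)
def q79923 : Q := Q.p (nat_lit 0x20000080000300000c0000000000000000000000000000000000000000000000000000) (nat_lit 0x8000700000400000000000000000000000000000000000000000000000) (nat_lit 3)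
theorem c79923 : QOK q79923 := cut [q79922] ⟨c79922, trivial⟩ (nd (nat_lit 212) (nat_lit 0) (cs (lf (nat_lit 35) (nat_lit 189)) (rf (nat_lit 0)))) q79923 (by decide +kernel)
def q79947 : Q := Q.p (nat_lit 0x10000060000300000c0000000000000000000000000000000000000000000000000000) (nat_lit 0xc0000030000080000000000000000000000000000000000000000000000) (nat_lit 3)
theorem c79947 : QOK q79947 := cut [q79946] ⟨c79946, trivial⟩ (nd (nat_lit 234) (nat_lit 0) (cs (lf (nat_lit 6) (nat_lit 231)) (rf (nat_lit 0)))) q79947 (by decide +kernel)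
def q79959 : Q := Q.p (nat_lit 0x1800006000010000040000000000000000000000000000000000000000000000000000) (nat_lit 0x800006000001800000000000000000000000000000000000000000000000000000000000000) (nat_lit 3)
theorem c79959 : QOK q79959 := cut [q79958] ⟨c79958, trivial⟩ (nd (nat_lit 277) (nat_lit 0) (cs (lf (nat_lit 29) (nat_lit 210)) (rf (nat_lit 0)))) q79959 (by decide +kernel)
def q79967 : Q := Q.p (nat_lit 0x1000004000010000040000000000000000000000000000000000000000000000000000) (nat_lit 0x200000c00002000000000020000080000200000000000000000000000000000000000000000000000) (nat_lit 4)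
theorem c79967 : QOK q79967 := cut [q79965] ⟨c79965, trivial⟩ (nd (nat_lit 211) (nat_lit 0) (cs (lf (nat_lit 35) (nat_lit 188)) (nd (nat_lit 299) (nat_lit 0) (cs (lf (nat_lit 28) (nat_lit 210)) (rf (nat_lit 0)))))) q79967 (by decide +kernel)
def q79970 : Q := Q.p (nat_lit 0x4000010000040000180000000000000000000000000000000000000000000000) (nat_lit 0x1000000000000000180000260000800000000000000000000000000000000000000000) (nat_lit 4)
theorem c79970 : QOK q79970 := cut [q79909] ⟨c79909, trivial⟩ (nd (nat_lit 189) (nat_lit 0) (cs (lf (nat_lit 35) (nat_lit 166)) (nd (nat_lit 211) (nat_lit 0) (cs (lf (nat_lit 30) (nat_lit 188)) (rf (nat_lit 0)))))) q79970 (by decide +kernel)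
def q79973 : Q := Q.p (nat_lit 0xc0000180000000000000000000000000000000000000000000000) (nat_lit 0x320000060000000000000000000000000000000000000000000000) (nat_lit 3)
theorem c79973 : QOK q79973 := cut [q79972] ⟨c79972, trivial⟩ (nd (nat_lit 212) (nat_lit 0) (cs (lf (nat_lit 18) (nat_lit 187)) (rf (nat_lit 0)))) q79973 (by decide +kernel)
def q79975 : Q := Q.p (nat_lit 0xc0000180000400000000000000000000000000000000000000000) (nat_lit 0x20000020000000000000001800006000008000000000000000000000000) (nat_lit 4)
theorem c79975 : QOK q79975 := cut [q4655] ⟨c4655, trivial⟩ (nd (nat_lit 144) (nat_lit 0) (cs (lf (nat_lit 29) (nat_lit 144)) (nd (nat_lit 122) (nat_lit 0) (cs (lf (nat_lit 41) (nat_lit 121)) (rf (nat_lit 0)))))) q79975 (by decide +kernel)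
def q79988 : Q := Q.p (nat_lit 0x6000010000040000000000000000000000000000000000000000000000000000) (nat_lit 0x80000200001800000000000000000000100000000000000000000000000000000000000000000000) (nat_lit 3)
theorem c79988 : QOK q79988 := cut [q79276] ⟨c79276, trivial⟩ (nd (nat_lit 275) (nat_lit 0) (cs (lf (nat_lit 36) (nat_lit 187)) (rf (nat_lit 0)))) q79988 (by decide +kernel)
def q79992 : Q := Q.p (nat_lit 0x600003c000000000000000000000000000000000000000000000000000000000) (nat_lit 0x1c00003000000000000000000000000000000000000000000000000000000000) (nat_lit 3)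
theorem c79992 : QOK q79992 := cut [q79990] ⟨c79990, trivial⟩ (nd (nat_lit 251) (nat_lit 0) (cs (rf (nat_lit 0)) (lf (nat_lit 13) (nat_lit 229)))) q79992 (by decide +kernel)
def q79997 : Q := Q.p (nat_lit 0x300003c000000000000000000000000000000000000000000000000000000000) (nat_lit 0x800000000000000018000040000100000000000000000000000000000000000000000) (nat_lit 3)
theorem c79997 : QOK q79997 := cut [q79996] ⟨c79996, trivial⟩ (nd (nat_lit 208) (nat_lit 0) (cs (lf (nat_lit 23) (nat_lit 207)) (rf (nat_lit 0)))) q79997 (by decide +kernel)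
def q80003 : Q := Q.p (nat_lit 0x600003c000000000000000000000000000000000000000000000000000000000) (nat_lit 0x300001c000000000000000000000000000000000000000000000000000) (nat_lit 3)
theorem c80003 : QOK q80003 := cut [q80002] ⟨c80002, trivial⟩ (nd (nat_lit 207) (nat_lit 0) (cs (lf (nat_lit 22) (nat_lit 207)) (rf (nat_lit 0)))) q80003 (by decide +kernel)
def q80010 : Q := Q.p (nat_lit 0x1800006000018000020000000000000000000000000000000000000000000000000000) (nat_lit 0x100002700001c00020000010000040000000000000000000000000000000000000000000000) (nat_lit 6)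
theorem c80010 : QOK q80010 := cut [q80008] ⟨c80008, trivial⟩ (nd (nat_lit 274) (nat_lit 0) (cs (lf (nat_lit 41) (nat_lit 208)) (nd (nat_lit 186) (nat_lit 0) (cs (lf (nat_lit 46) (nat_lit 186)) (rf (nat_lit 0)))))) q80010 (by decide +kernel)
def q80019 : Q := Q.p (nat_lit 0x700003c000000000000000000000000000000000000000000000000000000000) (nat_lit 0x4000010000000000000001b80002c0000b00000000000000000000000000000000000000000) (nat_lit 7)
theorem c80019 : QOK q80019 := cut [q80014] ⟨c80014, trivial⟩ (nd (nat_lit 211) (nat_lit 0) (cs (lf (nat_lit 17) (nat_lit 208)) (nd (nat_lit 167) (nat_lit 0) (cs (lf (nat_lit 37) (nat_lit 166)) (nd (nat_lit 276) (nat_lit 0) (cs (lf (nat_lit 30) (nat_lit 210)) (nd (nat_lit 187) (nat_lit 0) (cs (lf (nat_lit 25) (nat_lit 187)) (nd (nat_lit 208) (nat_lit 0) (cs (lf (nat_lit 23) (nat_lit 207)) (rf (nat_lit 0)))))))))))) q80019 (by decide +kernel)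
def q80025 : Q := Q.p (nat_lit 0x60000180001a000000000000000000000000000000000000000000000000000000000) (nat_lit 0x400000c000030000000000000000000000000000000000000000000000) (nat_lit 3)
theorem c80025 : QOK q80025 := cut [q80024] ⟨c80024, trivial⟩ (nd (nat_lit 207) (nat_lit 0) (cs (lf (nat_lit 24) (nat_lit 185)) (rf (nat_lit 0)))) q80025 (by decide +kernel)
def q80040 : Q := Q.p (nat_lit 0x800006000018000000000000000000000000000000000000000000000000000000000) (nat_lit 0x1c0000f00000700000000000000020000000000000000000000000000000000000000000000000000) (nat_lit 6)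
theorem c80040 : QOK q80040 := cut [q80039] ⟨c80039, trivial⟩ (nd (nat_lit 297) (nat_lit 0) (cs (lf (nat_lit 30) (nat_lit 231)) (rf (nat_lit 0)))) q80040 (by decide +kernel)
def q80082 : Q := Q.p (nat_lit 0x300000c000010000000000000000000000000000000000000000000000000000) (nat_lit 0x600001800006000000000000000200000e0000380000000000000000000000000000000000000000) (nat_lit 7)
theorem c80082 : QOK q80082 := cut [q80078] ⟨c80078, trivial⟩ (nd (nat_lit 186) (nat_lit 0) (cs (lf (nat_lit 24) (nat_lit 164)) (nd (nat_lit 163) (nat_lit 0) (cs (lf (nat_lit 46) (nat_lit 163)) (nd (nat_lit 187) (nat_lit 0) (cs (lf (nat_lit 35) (nat_lit 164)) (nd (nat_lit 274) (nat_lit 0) (cs (lf (nat_lit 37) (nat_lit 186)) (rf (nat_lit 0)))))))))) q80082 (by decide +kernel)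
def q80144 : Q := Q.p (nat_lit 0x6000018000000000080000000000000000000000000000000000000000000000) (nat_lit 0x48000318000e40007c0003f40007f80000000000000000000000000000000000000000) (nat_lit 11)
theorem c80144 : QOK q80144 := cut [q79383, q79994, q80114, q80117, q20941, q80141] ⟨c79383, c79994, c80114, c80117, c20941, c80141, trivial⟩ (nd (nat_lit 233) (nat_lit 0) (cs (rf (nat_lit 0)) (cs (rf (nat_lit 1)) (nd (nat_lit 188) (nat_lit 0) (cs (nd (nat_lit 189) (nat_lit 0) (cs (nd (nat_lit 167) (nat_lit 0) (cs (nd (nat_lit 168) (nat_lit 0) (cs (lf (nat_lit 12) (nat_lit 164)) (nd (nat_lit 169) (nat_lit 0) (cs (lf (nat_lit 6) (nat_lit 166)) (lf (nat_lit 9) (nat_lit 165)))))) (lf (nat_lit 38) (nat_lit 166)))) (cs (nd (nat_lit 190) (nat_lit 0) (cs (nd (nat_lit 251) (nat_lit 0) (cs (lf (nat_lit 13) (nat_lit 229)) (rf (nat_lit 2)))) (rf (nat_lit 3)))) (cs (nd (nat_lit 190) (nat_lit 0) (cs (rf (nat_lit 2)) (cs (nd (nat_lit 251) (nat_lit 0) (cs (lf (nat_lit 13) (nat_lit 229)) (nd (nat_lit 165) (nat_lit 0) (cs (lf (nat_lit 23) (nat_lit 164)) (nd (nat_lit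 213) (nat_lit 0) (cs (lf (nat_lit 4) (nat_lit 187)) (nd (nat_lit 191) (nat_lit 0) (cs (lf (nat_lit 5) (nat_lit 188)) (lf (nat_lit 22) (nat_lit 165)))))))))) (cs (nd (nat_lit 212) (nat_lit 0) (cs (lf (nat_lit 5) (nat_lit 187)) (nd (nat_lit 168) (nat_lit 0) (cs (lf (nat_lit 17) (nat_lit 165)) (nd (nat_lit 186) (nat_lit 0) (cs (lf (nat_lit 16) (nat_lit 164)) (rf (nat_lit 4)))))))) (nd (nat_lit 168) (nat_lit 0) (cs (lf (nat_lit 17) (nat_lit 165)) (nd (nat_lit 167) (nat_lit 0) (cs (lf (nat_lit 12) (nat_lit 164)) (nd (nat_lit 251) (nat_lit 0) (cs (lf (nat_lit 13) (nat_lit 229)) (nd (nat_lit 213) (nat_lit 0) (cs (lf (nat_lit 4) (nat_lit 187)) (nd (nat_lit 191) (nat_lit 0) (cs (lf (nat_lit 5) (nat_lit 188)) (nd (nat_lit 192) (nat_lit 0) (cs (lf (nat_lit 18) (nat_lit 167)) (lf (nat_lit 23) (nat_lit 166)))))))))))))))))) (nd (nat_lit 251) (nat_lit 0) (cs (lf (nat_lit 13) (nat_lit 229)) (nd (nat_lit 211) (nat_lit 0) (cs (lf (nat_lit 36) (nat_lit 166)) (nd (nat_lit 212) (nat_lit 0) (cs (lf (nat_lit 12) (nat_lit 208)) (nd (nat_lit 213) (nat_lit 0) (cs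 (lf (nat_lit 6) (nat_lit 210)) (lf (nat_lit 3) (nat_lit 187)))))))))))))) (cs (rf (nat_lit 5)) (nd (nat_lit 210) (nat_lit 0) (cs (lf (nat_lit 36) (nat_lit 165)) (lf (nat_lit 41) (nat_lit 187)))))))))) q80144 (by decide +kernel)
def q80157 : Q := Q.p (nat_lit 0x6000018000020000080000000000000000000000000000000000000000000000) (nat_lit 0x400001800060000000000000000000000000000000000000000000000000000000000) (nat_lit 3)
theorem c80157 : QOK q80157 := cut [q80089] ⟨c80089, trivial⟩ (nd (nat_lit 252) (nat_lit 0) (cs (lf (nat_lit 41) (nat_lit 186)) (rf (nat_lit 0)))) q80157 (by decide +kernel)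
def q80199 : Q := Q.p (nat_lit 0x1e000000000000000000000000000000000000000000000000000000000) (nat_lit 0x200000c0002000001c000040000100000000000000000000000000000000000000000) (nat_lit 5)
theorem c80199 : QOK q80199 := cut [q80198] ⟨c80198, trivial⟩ (nd (nat_lit 251) (nat_lit 0) (cs (lf (nat_lit 11) (nat_lit 228)) (rf (nat_lit 0)))) q80199 (by decide +kernel)
def q80202 : Q := Q.p (nat_lit 0x700000c000010000040000000000000000000000000000000000000000000000) (nat_lit 0x1400000000000000020000080000200000000000000000000000000000000000000000) (nat_lit 3)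
theorem c80202 : QOK q80202 := cut [q80201] ⟨c80201, trivial⟩ (nd (nat_lit 187) (nat_lit 0) (cs (lf (nat_lit 35) (nat_lit 164)) (rf (nat_lit 0)))) q80202 (by decide +kernel)
def q80210 : Q := Q.p (nat_lit 0x600001e000000000000000000000000000000000000000000000000000000000) (nat_lit 0x10000e000001c000000000000000000000000000000000000000000000000000) (nat_lit 4)
theorem c80210 : QOK q80210 := cut [q79994] ⟨c79994, trivial⟩ (nd (nat_lit 207) (nat_lit 0) (cs (lf (nat_lit 23) (nat_lit 206)) (nd (nat_lit 233) (nat_lit 0) (cs (lf (nat_lit 22) (nat_lit 207)) (rf (nat_lit 0)))))) q80210 (by decide +kernel)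
def q80215 : Q := Q.p (nat_lit 0x100001e000000000000000000000000000000000000000000000000000000000) (nat_lit 0x10000040000000000000001c000020000080000000000000000000000000000000000000000) (nat_lit 4)
theorem c80215 : QOK q80215 := cut [q80214] ⟨c80214, trivial⟩ (nd (nat_lit 207) (nat_lit 0) (cs (lf (nat_lit 23) (nat_lit 206)) (rf (nat_lit 0)))) q80215 (by decide +kernel)
def q80222 : Q := Q.p (nat_lit 0x6000078000000000000000000000000000000000000000000000000000000000) (nat_lit 0x1000000000000000030000080000200000000000000000000000000000000000000000) (nat_lit 3)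
theorem c80222 : QOK q80222 := cut [q79193] ⟨c79193, trivial⟩ (nd (nat_lit 209) (nat_lit 0) (cs (rf (nat_lit 0)) (lf (nat_lit 23) (nat_lit 208)))) q80222 (by decide +kernel)
def q80235 : Q := Q.p (nat_lit 0x7000018000040000100000000000000000000000000000000000000000000000) (nat_lit 0x1400000000000000020000280000a00000000000000000000000000000000000000000) (nat_lit 4)
theorem c80235 : QOK q80235 := cut [q80201] ⟨c80201, trivial⟩ (nd (nat_lit 167) (nat_lit 0) (cs (lf (nat_lit 34) (nat_lit 166)) (nd (nat_lit 187) (nat_lit 0) (cs (lf (nat_lit 47) (nat_lit 165)) (rf (nat_lit 0)))))) q80235 (by decide +kernel)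
def q80246 : Q := Q.p (nat_lit 0x400001800002000000000000000000000000000000000000000000000000000000000) (nat_lit 0x40000100000000000000004000008000020000000000000000000000000000000000000000000000) (nat_lit 3)
theorem c80246 : QOK q80246 := cut [q80245] ⟨c80245, trivial⟩ (nd (nat_lit 296) (nat_lit 0) (cs (lf (nat_lit 42) (nat_lit 229)) (rf (nat_lit 0)))) q80246 (by decide +kernel)
def q80250 : Q := Q.p (nat_lit 0x1e00006000000000000000000000000000000000000000000000000000000000000000) (nat_lit 0x40000100000c00000000000000008000000000000000000000000000000000000000000000000000000000) (nat_lit 3)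
theorem c80250 : QOK q80250 := cut [q80249] ⟨c80249, trivial⟩ (nd (nat_lit 298) (nat_lit 0) (cs (lf (nat_lit 5) (nat_lit 273)) (rf (nat_lit 0)))) q80250 (by decide +kernel)
def q80265 : Q := Q.p (nat_lit 0x600001800004000010000000000000000000000000000000000000000000000000000000000) (nat_lit 0x200003800000400000000000000000000000000000000000000000000000000000000000000000000) (nat_lit 3)
theorem c80265 : QOK q80265 := cut [q80264] ⟨c80264, trivial⟩ (nd (nat_lit 299) (nat_lit 0) (cs (lf (nat_lit 29) (nat_lit 232)) (rf (nat_lit 0)))) q80265 (by decide +kernel)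
def q80278 : Q := Q.p (nat_lit 0x1000006000010000040000000000000000000000000000000000000000000000000000) (nat_lit 0x80000e800001800000000000000000000000000000000000000000000000000000000000000) (nat_lit 4)
theorem c80278 : QOK q80278 := cut [q80276] ⟨c80276, trivial⟩ (nd (nat_lit 277) (nat_lit 0) (cs (lf (nat_lit 29) (nat_lit 210)) (nd (nat_lit 252) (nat_lit 0) (cs (lf (nat_lit 0) (nat_lit 251)) (rf (nat_lit 0)))))) q80278 (by decide +kernel)
def q80283 : Q := Q.p (nat_lit 0x400003800004000010000000000000000000000000000000000000000000000000000000000) (nat_lit 0x200001800000600000000000000000000000000000000000000000000000000000000000000000000) (nat_lit 3)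
theorem c80283 : QOK q80283 := cut [q16930] ⟨c16930, trivial⟩ (nd (nat_lit 299) (nat_lit 0) (cs (rf (nat_lit 0)) (lf (nat_lit 29) (nat_lit 232)))) q80283 (by decide +kernel)
def q80292 : Q := Q.p (nat_lit 0x800006000010000000000000000000000000000000000000000000000000000000000) (nat_lit 0x200001000000000008000040000100000000000000000000000000000000000000000000000) (nat_lit 3)
theorem c80292 : QOK q80292 := cut [q80291] ⟨c80291, trivial⟩ (nd (nat_lit 210) (nat_lit 0) (cs (lf (nat_lit 36) (nat_lit 187)) (rf (nat_lit 0)))) q80292 (by decide +kernel)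
def q80294 : Q := Q.p (nat_lit 0x40000000000700001c000000000000000000000000000000000000000000000000000000000) (nat_lit 0x1000000000060000180000000000000000000000000000000000000000000000000000) (nat_lit 3)
theorem c80294 : QOK q80294 := cut [q80293] ⟨c80293, trivial⟩ (nd (nat_lit 233) (nat_lit 0) (cs (lf (nat_lit 6) (nat_lit 230)) (rf (nat_lit 0)))) q80294 (by decide +kernel)
def q80310 : Q := Q.p (nat_lit 0x1000007000018000000000000000000000000000000000000000000000000000000000) (nat_lit 0x100000400000000000000060000080000000000000000000000000000000000000000000000000000) (nat_lit 3)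
theorem c80310 : QOK q80310 := cut [q80309] ⟨c80309, trivial⟩ (nd (nat_lit 298) (nat_lit 0) (cs (lf (nat_lit 42) (nat_lit 231)) (rf (nat_lit 0)))) q80310 (by decide +kernel)
def q80313 : Q := Q.p (nat_lit 0x400001800006000010000000000000000000000000000000000000000000000000000000000) (nat_lit 0x60000180000200000000000000000000000000000000000000000000000000000000000000000000000000) (nat_lit 3)
theorem c80313 : QOK q80313 := cut [q80312] ⟨c80312, trivial⟩ (nd (nat_lit 319) (nat_lit 0) (cs (lf (nat_lit 40) (nat_lit 231)) (rf (nat_lit 0)))) q80313 (by decide +kernel)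
def q80317 : Q := Q.p (nat_lit 0x800002000038000020000000000000000000000000000000000000000000000000000) (nat_lit 0x400001c000040000000000000000000000000000000000000000000000) (nat_lit 3)
theorem c80317 : QOK q80317 := cut [q15484] ⟨c15484, trivial⟩ (nd (nat_lit 208) (nat_lit 0) (cs (lf (nat_lit 47) (nat_lit 186)) (rf (nat_lit 0)))) q80317 (by decide +kernel)
def q80331 : Q := Q.p (nat_lit 0x7800010000000000000000000000000000000000000000000000000000000000) (nat_lit 0x380000400008000000000000000000000000000000000000000000000000000000000) (nat_lit 3)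
theorem c80331 : QOK q80331 := cut [q80330] ⟨c80330, trivial⟩ (nd (nat_lit 272) (nat_lit 0) (cs (lf (nat_lit 10) (nat_lit 250)) (rf (nat_lit 0)))) q80331 (by decide +kernel)
def q80335 : Q := Q.p (nat_lit 0x400001000004000010000000000000000000000000000000000000000000000000000000000) (nat_lit 0x280000a00002800000000000000040000000000000000000000000000000000000000000000000000) (nat_lit 4)
theorem c80335 : QOK q80335 := cut [q80333] ⟨c80333, trivial⟩ (nd (nat_lit 299) (nat_lit 0) (cs (lf (nat_lit 29) (nat_lit 232)) (nd (nat_lit 210) (nat_lit 0) (cs (lf (nat_lit 28) (nat_lit 210)) (rf (nat_lit 0)))))) q80335 (by decide +kernel)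
def q80344 : Q := Q.p (nat_lit 0x1000006000010000000000000000000000000000000000000000000000000000000000) (nat_lit 0x380001e00000e00000000008000060000000000000000000000000000000000000000000000000000) (nat_lit 6)
theorem c80344 : QOK q80344 := cut [q79762, q80343] ⟨c79762, c80343, trivial⟩ (nd (nat_lit 298) (nat_lit 0) (cs (nd (nat_lit 299) (nat_lit 0) (cs (lf (nat_lit 29) (nat_lit 232)) (nd (nat_lit 297) (nat_lit 0) (cs (lf (nat_lit 41) (nat_lit 231)) (nd (nat_lit 275) (nat_lit 0) (cs (rf (nat_lit 0)) (lf (nat_lit 36) (nat_lit 209)))))))) (rf (nat_lit 1)))) q80344 (by decide +kernel)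
def q80369 : Q := Q.p (nat_lit 0x800003000018000060000000000000000000000000000000000000000000000000000) (nat_lit 0x60000018000040000000000000000000000000000000000000000000000) (nat_lit 3)
theorem c80369 : QOK q80369 := cut [q80368] ⟨c80368, trivial⟩ (nd (nat_lit 233) (nat_lit 0) (cs (lf (nat_lit 6) (nat_lit 230)) (rf (nat_lit 0)))) q80369 (by decide +kernel)
def q80379 : Q := Q.p (nat_lit 0x200000800007000018000000000000000000000000000000000000000000000000000000000) (nat_lit 0x14000050000040000000000700001c000000000000000000000000000000000000000000000000000) (nat_lit 6)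
theorem c80379 : QOK q80379 := cut [q80257] ⟨c80257, trivial⟩ (nd (nat_lit 230) (nat_lit 0) (cs (lf (nat_lit 47) (nat_lit 208)) (nd (nat_lit 298) (nat_lit 0) (cs (lf (nat_lit 29) (nat_lit 231)) (nd (nat_lit 229) (nat_lit 0) (cs (lf (nat_lit 0) (nat_lit 228)) (nd (nat_lit 296) (nat_lit 0) (cs (lf (nat_lit 41) (nat_lit 230)) (rf (nat_lit 0)))))))))) q80379 (by decide +kernel)
def q80393 : Q := Q.p (nat_lit 0xc000020000080000000000000000000000000000000000000000000000000000) (nat_lit 0x1000000000010000000000600001800004000000000000000000000000000000000000) (nat_lit 4)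
theorem c80393 : QOK q80393 := cut [q80392] ⟨c80392, trivial⟩ (nd (nat_lit 189) (nat_lit 0) (cs (lf (nat_lit 41) (nat_lit 188)) (rf (nat_lit 0)))) q80393 (by decide +kernel)
def q80398 : Q := Q.p (nat_lit 0x300000c000020000080000000000000000000000000000000000000000000000000000) (nat_lit 0x180000600001800000000000000010000040000100000000000000000000000000000000000000000000000) (nat_lit 5)
theorem c80398 : QOK q80398 := cut [q80396] ⟨c80396, trivial⟩ (nd (nat_lit 210) (nat_lit 0) (cs (lf (nat_lit 47) (nat_lit 188)) (nd (nat_lit 299) (nat_lit 0) (cs (lf (nat_lit 25) (nat_lit 210)) (rf (nat_lit 0)))))) q80398 (by decide +kernel)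
def q80406 : Q := Q.p (nat_lit 0x800002000008000020000000000000000000000000000000000000000000000000000000000) (nat_lit 0x140000700001400000000000000000000000000000000000000000000000000000000000000000000000000) (nat_lit 4)
theorem c80406 : QOK q80406 := cut [q80404] ⟨c80404, trivial⟩ (nd (nat_lit 322) (nat_lit 0) (cs (lf (nat_lit 28) (nat_lit 233)) (nd (nat_lit 320) (nat_lit 0) (cs (lf (nat_lit 40) (nat_lit 232)) (rf (nat_lit 0)))))) q80406 (by decide +kernel)
def q80423 : Q := Q.p (nat_lit 0xf000040000000000000000000000000000000000000000000000000000000000) (nat_lit 0xe000010000080000000000000000000000000000000000000000000000000000000000) (nat_lit 3)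
theorem c80423 : QOK q80423 := cut [q80421] ⟨c80421, trivial⟩ (nd (nat_lit 278) (nat_lit 0) (cs (rf (nat_lit 0)) (lf (nat_lit 4) (nat_lit 252)))) q80423 (by decide +kernel)
def q80428 : Q := Q.p (nat_lit 0xf000000000000000000000000000000000000000000000000000000000000000) (nat_lit 0xee00010000000000000000000000000000000000000000000000000000000000000000) (nat_lit 4)
theorem c80428 : QOK q80428 := cut [q80426] ⟨c80426, trivial⟩ (nd (nat_lit 278) (nat_lit 0) (cs (lf (nat_lit 4) (nat_lit 252)) (nd (nat_lit 256) (nat_lit 0) (cs (lf (nat_lit 5) (nat_lit 253)) (rf (nat_lit 0)))))) q80428 (by decide +kernel)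
def q80446 : Q := Q.p (nat_lit 0x200000800002000008000000000000000000000000000000000000000000000000000) (nat_lit 0x14000070000140000000000000000000000000000000000000000) (nat_lit 4)
theorem c80446 : QOK q80446 := cut [q80445] ⟨c80445, trivial⟩ (nd (nat_lit 184) (nat_lit 0) (cs (lf (nat_lit 46) (nat_lit 184)) (rf (nat_lit 0)))) q80446 (by decide +kernel)
def q80449 : Q := Q.p (nat_lit 0x1800002000008000020000000000000000000000000000000000000000000000) (nat_lit 0x40000000000100000c0000100000000000000000000000000000000000) (nat_lit 3)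
theorem c80449 : QOK q80449 := cut [q5088] ⟨c5088, trivial⟩ (nd (nat_lit 163) (nat_lit 0) (cs (lf (nat_lit 28) (nat_lit 163)) (rf (nat_lit 0)))) q80449 (by decide +kernel)
def q80457 : Q := Q.p (nat_lit 0x80001e000000000000000000000000000000000000000000000000000000000000000) (nat_lit 0x1d000020000000000000000000000000000000000000000000000000000000000000000) (nat_lit 3)
theorem c80457 : QOK q80457 := cut [q80456] ⟨c80456, trivial⟩ (nd (nat_lit 257) (nat_lit 0) (cs (lf (nat_lit 10) (nat_lit 253)) (rf (nat_lit 0)))) q80457 (by decide +kernel)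
def q80463 : Q := Q.p (nat_lit 0xf000020000000000000000000000000000000000000000000000000000000000) (nat_lit 0x800017000000000000000000000000000000000000000000000000000000000) (nat_lit 3)
theorem c80463 : QOK q80463 := cut [q80462] ⟨c80462, trivial⟩ (nd (nat_lit 251) (nat_lit 0) (cs (lf (nat_lit 16) (nat_lit 229)) (rf (nat_lit 0)))) q80463 (by decide +kernel)
def q80497 : Q := Q.p (nat_lit 0x1e000000000000000000000000000000000000000000000000000000000000000) (nat_lit 0x380000e0000380000ec000000000ec000380000e00003000008000000000000000000000000000000000000) (nat_lit 13)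
theorem c80497 : QOK q80497 := cut [q80472] ⟨c80472, trivial⟩ (nd (nat_lit 234) (nat_lit 0) (cs (lf (nat_lit 17) (nat_lit 231)) (nd (nat_lit 212) (nat_lit 0) (cs (rf (nat_lit 0)) (cs (nd (nat_lit 230) (nat_lit 0) (cs (lf (nat_lit 22) (nat_lit 230)) (nd (nat_lit 274) (nat_lit 0) (cs (lf (nat_lit 10) (nat_lit 252)) (nd (nat_lit 278) (nat_lit 0) (cs (lf (nat_lit 5) (nat_lit 253)) (nd (nat_lit 277) (nat_lit 0) (cs (lf (nat_lit 41) (nat_lit 211)) (nd (nat_lit 191) (nat_lit 0) (cs (lf (nat_lit 34) (nat_lit 190)) (nd (nat_lit 211) (nat_lit 0) (cs (lf (nat_lit 47) (nat_lit 189)) (nd (nat_lit 300) (nat_lit 0) (cs (lf (nat_lit 25) (nat_lit 211)) (nd (nat_lit 323) (nat_lit 0) (cs (lf (nat_lit 28) (nat_lit 234)) (nd (nat_lit 322) (nat_lit 0) (cs (lf (nat_lit 42) (nat_lit 255)) (lf (nat_lit 29) (nat_lit 256)))))))))))))))))))) (cs (nd (nat_lit 278) (nat_lit 0) (cs (lf (nat_lit 5) (nat_lit 253)) (nd (nat_lit 191) (nat_lit 0) (cs (lf (nat_lit 34) (nat_lit 190)) (nd (nat_lit 169) (nat_lit 0) (cs (nd (nat_lit 230) (nat_lit 0) (cs (lf (nat_lit 22) (nat_lit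 230)) (nd (nat_lit 274) (nat_lit 0) (cs (lf (nat_lit 10) (nat_lit 252)) (nd (nat_lit 211) (nat_lit 0) (cs (lf (nat_lit 47) (nat_lit 189)) (nd (nat_lit 300) (nat_lit 0) (cs (nd (nat_lit 323) (nat_lit 0) (cs (lf (nat_lit 28) (nat_lit 234)) (nd (nat_lit 321) (nat_lit 0) (cs (lf (nat_lit 40) (nat_lit 233)) (nd (nat_lit 322) (nat_lit 0) (cs (lf (nat_lit 29) (nat_lit 256)) (lf (nat_lit 41) (nat_lit 255)))))))) (lf (nat_lit 46) (nat_lit 211)))))))))) (lf (nat_lit 33) (nat_lit 168)))))))) (nd (nat_lit 278) (nat_lit 0) (cs (lf (nat_lit 5) (nat_lit 253)) (nd (nat_lit 277) (nat_lit 0) (cs (lf (nat_lit 41) (nat_lit 211)) (lf (nat_lit 36) (nat_lit 189)))))))))))) q80497 (by decide +kernel)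
def q80500 : Q := Q.p (nat_lit 0x1e000000000000000000000000000000000000000000000000000000000000000) (nat_lit 0x1c0000200001c0000000000000000000000000000000000000000000000000000000000) (nat_lit 4)
theorem c80500 : QOK q80500 := cut [q80498] ⟨c80498, trivial⟩ (nd (nat_lit 235) (nat_lit 0) (cs (lf (nat_lit 16) (nat_lit 231)) (nd (nat_lit 279) (nat_lit 0) (cs (lf (nat_lit 4) (nat_lit 253)) (rf (nat_lit 0)))))) q80500 (by decide +kernel)
def q80508 : Q := Q.p (nat_lit 0x1e000000000000000000000000000000000000000000000000000000000000000) (nat_lit 0x1c000200001cc000000000000000000000000000000000000000000000000000000000) (nat_lit 5)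
theorem c80508 : QOK q80508 := cut [q80505] ⟨c80505, trivial⟩ (nd (nat_lit 235) (nat_lit 0) (cs (lf (nat_lit 16) (nat_lit 231)) (nd (nat_lit 230) (nat_lit 0) (cs (lf (nat_lit 22) (nat_lit 230)) (nd (nat_lit 257) (nat_lit 0) (cs (lf (nat_lit 17) (nat_lit 232)) (rf (nat_lit 0)))))))) q80508 (by decide +kernel)
def q80524 : Q := Q.p (nat_lit 0x400001000004000010000000000000000000000000000000000000000000000000000) (nat_lit 0x280000e0000280000000000000000000000000000000000000000) (nat_lit 4)
theorem c80524 : QOK q80524 := cut [q80522] ⟨c80522, trivial⟩ (nd (nat_lit 185) (nat_lit 0) (cs (lf (nat_lit 46) (nat_lit 185)) (nd (nat_lit 187) (nat_lit 0) (cs (lf (nat_lit 34) (nat_lit 186)) (rf (nat_lit 0)))))) q80524 (by decide +kernel)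
def q80536 : Q := Q.p (nat_lit 0x1e000000000000000000000000000000000000000000000000000000000000000) (nat_lit 0x3b8000600001c0000000000000000000000000000000000000000000000000000000000) (nat_lit 6)
theorem c80536 : QOK q80536 := cut [q80530] ⟨c80530, trivial⟩ (nd (nat_lit 235) (nat_lit 0) (cs (lf (nat_lit 16) (nat_lit 231)) (nd (nat_lit 257) (nat_lit 0) (cs (lf (nat_lit 17) (nat_lit 232)) (nd (nat_lit 276) (nat_lit 0) (cs (nd (nat_lit 258) (nat_lit 0) (cs (rf (nat_lit 0)) (lf (nat_lit 10) (nat_lit 254)))) (lf (nat_lit 11) (nat_lit 253)))))))) q80536 (by decide +kernel)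
def q80540 : Q := Q.p (nat_lit 0x1e000000000000000000000000000000000000000000000000000000000000000) (nat_lit 0xe00000100000e000000000000000000000000000000000000000000000000000000000) (nat_lit 4)
theorem c80540 : QOK q80540 := cut [q80538] ⟨c80538, trivial⟩ (nd (nat_lit 278) (nat_lit 0) (cs (lf (nat_lit 5) (nat_lit 253)) (nd (nat_lit 252) (nat_lit 0) (cs (lf (nat_lit 4) (nat_lit 252)) (rf (nat_lit 0)))))) q80540 (by decide +kernel)
def q80542 : Q := Q.p (nat_lit 0x1e000000000000000000000000000000000000000000000000000000000000000) (nat_lit 0x10000ee000000000000000000000000000000000000000000000000000000000) (nat_lit 4)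
theorem c80542 : QOK q80542 := cut [q80538] ⟨c80538, trivial⟩ (nd (nat_lit 234) (nat_lit 0) (cs (lf (nat_lit 17) (nat_lit 231)) (nd (nat_lit 252) (nat_lit 0) (cs (lf (nat_lit 16) (nat_lit 230)) (rf (nat_lit 0)))))) q80542 (by decide +kernel)
def q80546 : Q := Q.p (nat_lit 0x7800000000000000000000000000000000000000000000000000000000000000) (nat_lit 0x3b80000400000000000000000000000000000000000000000000000000000000000000) (nat_lit 4)
theorem c80546 : QOK q80546 := cut [q80544] ⟨c80544, trivial⟩ (nd (nat_lit 272) (nat_lit 0) (cs (lf (nat_lit 10) (nat_lit 250)) (nd (nat_lit 250) (nat_lit 0) (cs (lf (nat_lit 11) (nat_lit 249)) (rf (nat_lit 0)))))) q80546 (by decide +kernel)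
def q80552 : Q := Q.p (nat_lit 0x100000f800000000000000000000000000000000000000000000000000000000000000) (nat_lit 0xc00030400000000000000000000000000000000000000000000000000000000000000) (nat_lit 3)
theorem c80552 : QOK q80552 := cut [q80551] ⟨c80551, trivial⟩ (nd (nat_lit 275) (nat_lit 0) (cs (lf (nat_lit 0) (nat_lit 250)) (rf (nat_lit 0)))) q80552 (by decide +kernel)
def q80566 : Q := Q.p (nat_lit 0x200003c000000000000000000000000000000000000000000000000000000000000000) (nat_lit 0x39000040000000000000000000000000000000000000000000000000000000000000000) (nat_lit 3)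
theorem c80566 : QOK q80566 := cut [q80530] ⟨c80530, trivial⟩ (nd (nat_lit 258) (nat_lit 0) (cs (lf (nat_lit 11) (nat_lit 254)) (rf (nat_lit 0)))) q80566 (by decide +kernel)
def q80572 : Q := Q.p (nat_lit 0x400000f000000000000000000000000000000000000000000000000000000000000000) (nat_lit 0x800001000000e000000000000000000000000000000000000000000000000000000000) (nat_lit 3)
theorem c80572 : QOK q80572 := cut [q80538] ⟨c80538, trivial⟩ (nd (nat_lit 256) (nat_lit 0) (cs (lf (nat_lit 5) (nat_lit 253)) (rf (nat_lit 0)))) q80572 (by decide +kernel)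
def q80576 : Q := Q.p (nat_lit 0xf000000000000000000000000000000000000000000000000000000000000000) (nat_lit 0xe0000100000e0000000000000000000000000000000000000000000000000000000000) (nat_lit 4)
theorem c80576 : QOK q80576 := cut [q80421] ⟨c80421, trivial⟩ (nd (nat_lit 278) (nat_lit 0) (cs (lf (nat_lit 4) (nat_lit 252)) (nd (nat_lit 234) (nat_lit 0) (cs (lf (nat_lit 16) (nat_lit 230)) (rf (nat_lit 0)))))) q80576 (by decide +kernel)
def q80578 : Q := Q.p (nat_lit 0xf000040000000000000000000000000000000000000000000000000000000000) (nat_lit 0x1000008e000000000000000000000000000000000000000000000000000000000) (nat_lit 3)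
theorem c80578 : QOK q80578 := cut [q80538] ⟨c80538, trivial⟩ (nd (nat_lit 256) (nat_lit 0) (cs (lf (nat_lit 17) (nat_lit 231)) (rf (nat_lit 0)))) q80578 (by decide +kernel)
def q80583 : Q := Q.p (nat_lit 0x80000200001800000000000000000000000000000000000000000000000000000000000000) (nat_lit 0x20000000000400000000004000010000040000000000000000000000000000000000000000000000) (nat_lit 3)
theorem c80583 : QOK q80583 := cut [q80582] ⟨c80582, trivial⟩ (nd (nat_lit 230) (nat_lit 0) (cs (lf (nat_lit 30) (nat_lit 229)) (rf (nat_lit 0)))) q80583 (by decide +kernel)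
def q80585 : Q := Q.p (nat_lit 0x200000800002000008000000000000000000000000000000000000000000000000000) (nat_lit 0x14000070000140000000000000000000000000000000000000000) (nat_lit 4)
theorem c80585 : QOK q80585 := cut [q5313] ⟨c5313, trivial⟩ (nd (nat_lit 186) (nat_lit 0) (cs (lf (nat_lit 34) (nat_lit 185)) (nd (nat_lit 185) (nat_lit 0) (cs (lf (nat_lit 35) (nat_lit 163)) (rf (nat_lit 0)))))) q80585 (by decide +kernel)
def q80608 : Q := Q.p (nat_lit 0xf000020000000000000000000000000000000000000000000000000000000000) (nat_lit 0x700000800010000000000000000000000000000000000000000000000000000000000) (nat_lit 3)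
theorem c80608 : QOK q80608 := cut [q79215] ⟨c79215, trivial⟩ (nd (nat_lit 251) (nat_lit 0) (cs (lf (nat_lit 16) (nat_lit 229)) (rf (nat_lit 0)))) q80608 (by decide +kernel)
def q80611 : Q := Q.p (nat_lit 0x3c00008000000000000000000000000000000000000000000000000000000000) (nat_lit 0x1c0000200004000000000000000000000000000000000000000000000000000000000) (nat_lit 3)
theorem c80611 : QOK q80611 := cut [q3762] ⟨c3762, trivial⟩ (nd (nat_lit 249) (nat_lit 0) (cs (rf (nat_lit 0)) (lf (nat_lit 16) (nat_lit 227)))) q80611 (by decide +kernel)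
def q80624 : Q := Q.p (nat_lit 0x7800000000000000000000000000000000000000000000000000000000000000) (nat_lit 0x10000050000360001860001f800020000080000000000000000000000000000000000000000000000) (nat_lit 10)
theorem c80624 : QOK q80624 := cut [q80616] ⟨c80616, trivial⟩ (nd (nat_lit 276) (nat_lit 0) (cs (lf (nat_lit 5) (nat_lit 251)) (nd (nat_lit 228) (nat_lit 0) (cs (lf (nat_lit 22) (nat_lit 228)) (nd (nat_lit 250) (nat_lit 0) (cs (lf (nat_lit 23) (nat_lit 227)) (nd (nat_lit 231) (nat_lit 0) (cs (lf (nat_lit 17) (nat_lit 228)) (nd (nat_lit 298) (nat_lit 0) (cs (lf (nat_lit 42) (nat_lit 231)) (nd (nat_lit 209) (nat_lit 0) (cs (lf (nat_lit 24) (nat_lit 187)) (nd (nat_lit 230) (nat_lit 0) (cs (lf (nat_lit 12) (nat_lit 227)) (nd (nat_lit 255) (nat_lit 0) (cs (lf (nat_lit 18) (nat_lit 230)) (rf (nat_lit 0)))))))))))))))))) q80624 (by decide +kernel)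
def q80641 : Q := Q.p (nat_lit 0x800001e000000000000000000000000000000000000000000000000000000000000000) (nat_lit 0x1000002000001c000000000000000000000000000000000000000000000000000000000) (nat_lit 3)
theorem c80641 : QOK q80641 := cut [q80640] ⟨c80640, trivial⟩ (nd (nat_lit 257) (nat_lit 0) (cs (lf (nat_lit 5) (nat_lit 254)) (rf (nat_lit 0)))) q80641 (by decide +kernel)
def q80645 : Q := Q.p (nat_lit 0x1e000000000000000000000000000000000000000000000000000000000000000) (nat_lit 0x200001dc000000000000000000000000000000000000000000000000000000000) (nat_lit 4)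
theorem c80645 : QOK q80645 := cut [q80640] ⟨c80640, trivial⟩ (nd (nat_lit 235) (nat_lit 0) (cs (lf (nat_lit 16) (nat_lit 231)) (nd (nat_lit 257) (nat_lit 0) (cs (lf (nat_lit 17) (nat_lit 232)) (rf (nat_lit 0)))))) q80645 (by decide +kernel)
def q80649 : Q := Q.p (nat_lit 0x100000400003000000000000000000000000000000000000000000000000000000000000000) (nat_lit 0x40000000000800000000008000020000080000000000000000000000000000000000000000000000) (nat_lit 3)
theorem c80649 : QOK q80649 := cut [q80648] ⟨c80648, trivial⟩ (nd (nat_lit 231) (nat_lit 0) (cs (lf (nat_lit 30) (nat_lit 230)) (rf (nat_lit 0)))) q80649 (by decide +kernel)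
def q80652 : Q := Q.p (nat_lit 0x300000400001000004000000000000000000000000000000000000000000000000000000000) (nat_lit 0x800000000008000030000080000000000000000000000000000000000000000000000) (nat_lit 3)
theorem c80652 : QOK q80652 := cut [q80651] ⟨c80651, trivial⟩ (nd (nat_lit 208) (nat_lit 0) (cs (lf (nat_lit 28) (nat_lit 208)) (rf (nat_lit 0)))) q80652 (by decide +kernel)
def q80675 : Q := Q.p (nat_lit 0x10000240000f000020000000000000000000000000000000000000000000000000000000000) (nat_lit 0x380000e0000a00000800000000018000040000100000000000000000000000000000000000000000000000) (nat_lit 7)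
theorem c80675 : QOK q80675 := cut [q80670] ⟨c80670, trivial⟩ (nd (nat_lit 318) (nat_lit 0) (cs (lf (nat_lit 35) (nat_lit 230)) (nd (nat_lit 317) (nat_lit 0) (cs (lf (nat_lit 41) (nat_lit 251)) (nd (nat_lit 319) (nat_lit 0) (cs (lf (nat_lit 29) (nat_lit 252)) (nd (nat_lit 275) (nat_lit 0) (cs (lf (nat_lit 30) (nat_lit 252)) (nd (nat_lit 232) (nat_lit 0) (cs (lf (nat_lit 31) (nat_lit 231)) (rf (nat_lit 0)))))))))))) q80675 (by decide +kernel)
def q80685 : Q := Q.p (nat_lit 0x1e000000000000000000000000000000000000000000000000000000000000000) (nat_lit 0xee00001000000000000000000000000000000000000000000000000000000000000000) (nat_lit 4)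
theorem c80685 : QOK q80685 := cut [q80426] ⟨c80426, trivial⟩ (nd (nat_lit 278) (nat_lit 0) (cs (lf (nat_lit 5) (nat_lit 253)) (nd (nat_lit 252) (nat_lit 0) (cs (lf (nat_lit 4) (nat_lit 252)) (rf (nat_lit 0)))))) q80685 (by decide +kernel)
def q80687 : Q := Q.p (nat_lit 0x7800010000000000000000000000000000000000000000000000000000000000) (nat_lit 0x380000400008000000000000000000000000000000000000000000000000000000000) (nat_lit 3)
theorem c80687 : QOK q80687 := cut [q79006] ⟨c79006, trivial⟩ (nd (nat_lit 250) (nat_lit 0) (cs (lf (nat_lit 16) (nat_lit 228)) (rf (nat_lit 0)))) q80687 (by decide +kernel)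
def q80707 : Q := Q.p (nat_lit 0x6000008000020000080000000000000000000000000000000000000000000000) (nat_lit 0x400001000014000000000000000200000000000000000000000000000000000000000) (nat_lit 3)
theorem c80707 : QOK q80707 := cut [q80706] ⟨c80706, trivial⟩ (nd (nat_lit 252) (nat_lit 0) (cs (lf (nat_lit 41) (nat_lit 186)) (rf (nat_lit 0)))) q80707 (by decide +kernel)
def q80713 : Q := Q.p (nat_lit 0x1800006000010000040000000000000000000000000000000000000000000000000000) (nat_lit 0x80000e000001000000000000000000000000000000000000000000000000000000000000000) (nat_lit 3)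
theorem c80713 : QOK q80713 := cut [q80712] ⟨c80712, trivial⟩ (nd (nat_lit 277) (nat_lit 0) (cs (lf (nat_lit 29) (nat_lit 210)) (rf (nat_lit 0)))) q80713 (by decide +kernel)
def q80720 : Q := Q.p (nat_lit 0xc00006000000000000000000000000000000000000000000000000000000000000000) (nat_lit 0x300019000000000000000000000000000000000000000000000000000000000000000) (nat_lit 3)
theorem c80720 : QOK q80720 := cut [q80719] ⟨c80719, trivial⟩ (nd (nat_lit 255) (nat_lit 0) (cs (lf (nat_lit 6) (nat_lit 252)) (rf (nat_lit 0)))) q80720 (by decide +kernel)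
def q80723 : Q := Q.p (nat_lit 0x3000008000020000080000000000000000000000000000000000000000000000) (nat_lit 0x4000000000040000300000400000000000000000000000000000000000) (nat_lit 3)
theorem c80723 : QOK q80723 := cut [q1565] ⟨c1565, trivial⟩ (nd (nat_lit 164) (nat_lit 0) (cs (rf (nat_lit 0)) (lf (nat_lit 46) (nat_lit 164)))) q80723 (by decide +kernel)
def q80727 : Q := Q.p (nat_lit 0x6000008000020000080000000000000000000000000000000000000000000000) (nat_lit 0x10000000000100000600001000000000000000000000000000000000000) (nat_lit 3)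
theorem c80727 : QOK q80727 := cut [q80726] ⟨c80726, trivial⟩ (nd (nat_lit 166) (nat_lit 0) (cs (lf (nat_lit 34) (nat_lit 165)) (rf (nat_lit 0)))) q80727 (by decide +kernel)
def q80732 : Q := Q.p (nat_lit 0x2000008000020000080000000000000000000000000000000000000000000000) (nat_lit 0x100000c00001000000000040000140000500000000000000000000000000000000000000000) (nat_lit 5)
theorem c80732 : QOK q80732 := cut [q80731] ⟨c80731, trivial⟩ (nd (nat_lit 164) (nat_lit 0) (cs (lf (nat_lit 46) (nat_lit 164)) (rf (nat_lit 0)))) q80732 (by decide +kernel)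
def q80735 : Q := Q.p (nat_lit 0x600000c000000000000000000000000000000000000000000000000000000000) (nat_lit 0x19000003000000000000000000000000000000000000000000000000000000000) (nat_lit 3)
theorem c80735 : QOK q80735 := cut [q80734] ⟨c80734, trivial⟩ (nd (nat_lit 229) (nat_lit 0) (cs (lf (nat_lit 0) (nat_lit 228)) (rf (nat_lit 0)))) q80735 (by decide +kernel)
def q80756 : Q := Q.p (nat_lit 0x2000008000020000080000000000000000000000000000000000000000000000) (nat_lit 0x400001000004000000000100000600001000000000000000000000000000000000000) (nat_lit 4)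
theorem c80756 : QOK q80756 := cut [q10395] ⟨c10395, trivial⟩ (nd (nat_lit 166) (nat_lit 0) (cs (lf (nat_lit 34) (nat_lit 165)) (nd (nat_lit 165) (nat_lit 0) (cs (lf (nat_lit 35) (nat_lit 143)) (rf (nat_lit 0)))))) q80756 (by decide +kernel)
def q80763 : Q := Q.p (nat_lit 0x200000e000000000000000000000000000000000000000000000000000000000000000) (nat_lit 0x1d000001000000000000000000000000000000000000000000000000000000000000000) (nat_lit 3)
theorem c80763 : QOK q80763 := cut [q80761] ⟨c80761, trivial⟩ (nd (nat_lit 278) (nat_lit 0) (cs (rf (nat_lit 0)) (lf (nat_lit 0) (nat_lit 252)))) q80763 (by decide +kernel)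
def q80777 : Q := Q.p (nat_lit 0x80000200000c000000000000000000000000000000000000000000000000000000000000000) (nat_lit 0x200000000000000000000030000040000100000000000000000000000000000000000000000000000) (nat_lit 3)
theorem c80777 : QOK q80777 := cut [q80776] ⟨c80776, trivial⟩ (nd (nat_lit 232) (nat_lit 0) (cs (lf (nat_lit 42) (nat_lit 232)) (rf (nat_lit 0)))) q80777 (by decide +kernel)
def q80789 : Q := Q.p (nat_lit 0x100000800002000008000000000000000000000000000000000000000000000000000000000000000) (nat_lit 0x140000600001400000000000000020000000000000000000000000000000000000000000000000000000000) (nat_lit 4)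
theorem c80789 : QOK q80789 := cut [q80787] ⟨c80787, trivial⟩ (nd (nat_lit 321) (nat_lit 0) (cs (lf (nat_lit 41) (nat_lit 254)) (nd (nat_lit 233) (nat_lit 0) (cs (lf (nat_lit 40) (nat_lit 232)) (rf (nat_lit 0)))))) q80789 (by decide +kernel)
def q80799 : Q := Q.p (nat_lit 0x800002000008000020000000000000000000000000000000000000000000000000000000000) (nat_lit 0x500001400005000000000000000080000000000000000000000000000000000000000000000000000) (nat_lit 4)
theorem c80799 : QOK q80799 := cut [q80797] ⟨c80797, trivial⟩ (nd (nat_lit 300) (nat_lit 0) (cs (lf (nat_lit 29) (nat_lit 233)) (nd (nat_lit 211) (nat_lit 0) (cs (lf (nat_lit 28) (nat_lit 211)) (rf (nat_lit 0)))))) q80799 (by decide +kernel)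
def q80801 : Q := Q.p (nat_lit 0x80000200000e000020000000000000000000000000000000000000000000000000000000000) (nat_lit 0xd0000140000000000000000000000000000000000000000000000000000) (nat_lit 3)
theorem c80801 : QOK q80801 := cut [q80800] ⟨c80800, trivial⟩ (nd (nat_lit 232) (nat_lit 0) (cs (lf (nat_lit 47) (nat_lit 210)) (rf (nat_lit 0)))) q80801 (by decide +kernel)
def q80805 : Q := Q.p (nat_lit 0x80000200000c000000000000000000000000000000000000000000000000000000000000000) (nat_lit 0x200000000001000000000010000040000100000000000000000000000000000000000000000000000) (nat_lit 3)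
theorem c80805 : QOK q80805 := cut [q80804] ⟨c80804, trivial⟩ (nd (nat_lit 232) (nat_lit 0) (cs (lf (nat_lit 42) (nat_lit 232)) (rf (nat_lit 0)))) q80805 (by decide +kernel)
def q80814 : Q := Q.p (nat_lit 0x200000e000020000000000000000000000000000000000000000000000000000000000) (nat_lit 0x8000000000010001c0000180000400001000000000000000000000000000000000000000000) (nat_lit 5)
theorem c80814 : QOK q80814 := cut [q15742] ⟨c15742, trivial⟩ (nd (nat_lit 234) (nat_lit 0) (cs (lf (nat_lit 12) (nat_lit 230)) (nd (nat_lit 235) (nat_lit 0) (cs (lf (nat_lit 6) (nat_lit 232)) (nd (nat_lit 212) (nat_lit 0) (cs (rf (nat_lit 0)) (lf (nat_lit 30) (nat_lit 211)))))))) q80814 (by decide +kernel)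
def q80819 : Q := Q.p (nat_lit 0xe000008000000000000000000000000000000000000000000000000000000000) (nat_lit 0x11000007000000000000000000000000000000000000000000000000000000000) (nat_lit 3)
theorem c80819 : QOK q80819 := cut [q80766] ⟨c80766, trivial⟩ (nd (nat_lit 230) (nat_lit 0) (cs (lf (nat_lit 18) (nat_lit 230)) (rf (nat_lit 0)))) q80819 (by decide +kernel)
def q80821 : Q := Q.p (nat_lit 0x80001e0000000000000000000000000000000000000000000000000000) (nat_lit 0x1d0000200000000000000000000000000000000000000000000000000000) (nat_lit 3)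
theorem c80821 : QOK q80821 := cut [q9426] ⟨c9426, trivial⟩ (nd (nat_lit 213) (nat_lit 0) (cs (lf (nat_lit 10) (nat_lit 209)) (rf (nat_lit 0)))) q80821 (by decide +kernel)
def q80845 : Q := Q.p (nat_lit 0x1800006000008000020000000000000000000000000000000000000000000000000000) (nat_lit 0x20000080000200000000000000014000010000040000000000000000000000000000000000000000000000) (nat_lit 4)
theorem c80845 : QOK q80845 := cut [q80843] ⟨c80843, trivial⟩ (nd (nat_lit 208) (nat_lit 0) (cs (lf (nat_lit 47) (nat_lit 186)) (nd (nat_lit 297) (nat_lit 0) (cs (lf (nat_lit 46) (nat_lit 208)) (rf (nat_lit 0)))))) q80845 (by decide +kernel)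
def q80858 : Q := Q.p (nat_lit 0x200000e000008000000000000000000000000000000000000000000000000000000000) (nat_lit 0x100004600001000066000020000080000000000000000000000000000000000000000000000) (nat_lit 6)
theorem c80858 : QOK q80858 := cut [q80854] ⟨c80854, trivial⟩ (nd (nat_lit 252) (nat_lit 0) (cs (lf (nat_lit 5) (nat_lit 252)) (nd (nat_lit 274) (nat_lit 0) (cs (lf (nat_lit 11) (nat_lit 251)) (nd (nat_lit 233) (nat_lit 0) (cs (lf (nat_lit 17) (nat_lit 230)) (nd (nat_lit 209) (nat_lit 0) (cs (lf (nat_lit 36) (nat_lit 186)) (rf (nat_lit 0)))))))))) q80858 (by decide +kernel)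
def q80862 : Q := Q.p (nat_lit 0x1e000000000000000000000000000000000000000000000000000000000000000) (nat_lit 0xe0000010000e0000000000000000000000000000000000000000000000000000000000) (nat_lit 4)
theorem c80862 : QOK q80862 := cut [q80860] ⟨c80860, trivial⟩ (nd (nat_lit 278) (nat_lit 0) (cs (lf (nat_lit 5) (nat_lit 253)) (nd (nat_lit 252) (nat_lit 0) (cs (lf (nat_lit 4) (nat_lit 252)) (rf (nat_lit 0)))))) q80862 (by decide +kernel)
def q80863 : Q := Q.p (nat_lit 0x18000078000000000000000000000000000000000000000000000000000000000) (nat_lit 0x2000000000000000300000400001000000000000000000000000000000000000000000) (nat_lit 3)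
theorem c80863 : QOK q80863 := cut [q79387] ⟨c79387, trivial⟩ (nd (nat_lit 212) (nat_lit 0) (cs (lf (nat_lit 17) (nat_lit 209)) (rf (nat_lit 0)))) q80863 (by decide +kernel)
def q80867 : Q := Q.p (nat_lit 0x200000c000010000000000000000000000000000000000000000000000000000000000) (nat_lit 0x200000800000000000000020000040000100000000000000000000000000000000000000000000000) (nat_lit 3)
theorem c80867 : QOK q80867 := cut [q80776] ⟨c80776, trivial⟩ (nd (nat_lit 299) (nat_lit 0) (cs (lf (nat_lit 42) (nat_lit 232)) (rf (nat_lit 0)))) q80867 (by decide +kernel)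
def q80872 : Q := Q.p (nat_lit 0xe000008000000000000000000000000000000000000000000000000000000000) (nat_lit 0x10000017000000000000000000000000000000000000000000000000000000000) (nat_lit 3)
theorem c80872 : QOK q80872 := cut [q80765] ⟨c80765, trivial⟩ (nd (nat_lit 230) (nat_lit 0) (cs (lf (nat_lit 18) (nat_lit 230)) (rf (nat_lit 0)))) q80872 (by decide +kernel)
def q80881 : Q := Q.p (nat_lit 0x400003000008000000000000000000000000000000000000000000000000000000000) (nat_lit 0x40000100000800000000000000020000080000000000000000000000000000000000000000000000) (nat_lit 3)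
theorem c80881 : QOK q80881 := cut [q80648] ⟨c80648, trivial⟩ (nd (nat_lit 296) (nat_lit 0) (cs (lf (nat_lit 30) (nat_lit 230)) (rf (nat_lit 0)))) q80881 (by decide +kernel)
def q80889 : Q := Q.p (nat_lit 0x6000008000020000080000000000000000000000000000000000000000000000) (nat_lit 0x10000000000040000300000400000000000000000000000000000000000) (nat_lit 3)
theorem c80889 : QOK q80889 := cut [q80888] ⟨c80888, trivial⟩ (nd (nat_lit 164) (nat_lit 0) (cs (lf (nat_lit 46) (nat_lit 164)) (rf (nat_lit 0)))) q80889 (by decide +kernel)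
def q80891 : Q := Q.p (nat_lit 0x6000008000020000080000000000000000000000000000000000000000000000) (nat_lit 0x10000000000040000300000400000000000000000000000000000000000) (nat_lit 3)
theorem c80891 : QOK q80891 := cut [q1578] ⟨c1578, trivial⟩ (nd (nat_lit 165) (nat_lit 0) (cs (rf (nat_lit 0)) (lf (nat_lit 28) (nat_lit 165)))) q80891 (by decide +kernel)
def q80901 : Q := Q.p (nat_lit 0xe00002c000080000000000000000000000000000000000000000000000000000) (nat_lit 0x1000006000001000010000100000400000000000000000000000000000000000000000000000) (nat_lit 4)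
theorem c80901 : QOK q80901 := cut [q80899] ⟨c80899, trivial⟩ (nd (nat_lit 212) (nat_lit 0) (cs (lf (nat_lit 14) (nat_lit 208)) (nd (nat_lit 277) (nat_lit 0) (cs (lf (nat_lit 35) (nat_lit 189)) (rf (nat_lit 0)))))) q80901 (by decide +kernel)
def q80905 : Q := Q.p (nat_lit 0x1000006000008000000000000000000000000000000000000000000000000000000000) (nat_lit 0x100000400000800000000000000020000080000000000000000000000000000000000000000000000) (nat_lit 3)
theorem c80905 : QOK q80905 := cut [q80904] ⟨c80904, trivial⟩ (nd (nat_lit 298) (nat_lit 0) (cs (lf (nat_lit 42) (nat_lit 231)) (rf (nat_lit 0)))) q80905 (by decide +kernel)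
def q80924 : Q := Q.p (nat_lit 0x4000010000060000180000000000000000000000000000000000000000000000) (nat_lit 0x10000e00000800000000000000000000000000000000000000000) (nat_lit 3)
theorem c80924 : QOK q80924 := cut [q79638] ⟨c79638, trivial⟩ (nd (nat_lit 189) (nat_lit 0) (cs (lf (nat_lit 35) (nat_lit 166)) (rf (nat_lit 0)))) q80924 (by decide +kernel)
def q80935 : Q := Q.p (nat_lit 0x200000800006000018000000000000000000000000000000000000000000000000000000000) (nat_lit 0x8000007000010000000000000000000000000000000000000000000000000000) (nat_lit 3)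
theorem c80935 : QOK q80935 := cut [q79307] ⟨c79307, trivial⟩ (nd (nat_lit 230) (nat_lit 0) (cs (rf (nat_lit 0)) (lf (nat_lit 47) (nat_lit 208)))) q80935 (by decide +kernel)
def q80949 : Q := Q.p (nat_lit 0x800006000008000020000080000000000000000000000000000000000000000000000) (nat_lit 0x80000200000000000000010000040000000000200000000000000000000000000000000000000000) (nat_lit 3)
theorem c80949 : QOK q80949 := cut [q80160] ⟨c80160, trivial⟩ (nd (nat_lit 232) (nat_lit 0) (cs (lf (nat_lit 24) (nat_lit 165)) (rf (nat_lit 0)))) q80949 (by decide +kernel)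
def q80971 : Q := Q.p (nat_lit 0x400007000000000000000000000000000000000000000000000000000000000000000) (nat_lit 0xb80008000000000000000000000000000000000000000000000000000000000000000) (nat_lit 3)
theorem c80971 : QOK q80971 := cut [q79061] ⟨c79061, trivial⟩ (nd (nat_lit 273) (nat_lit 0) (cs (rf (nat_lit 0)) (lf (nat_lit 6) (nat_lit 251)))) q80971 (by decide +kernel)
def q80973 : Q := Q.p (nat_lit 0x40000200000c000030000000000000000000000000000000000000000000000000000000000) (nat_lit 0x1000000000000000180000600001800000000000000000000000000000000000000000) (nat_lit 4)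
theorem c80973 : QOK q80973 := cut [q13821] ⟨c13821, trivial⟩ (nd (nat_lit 211) (nat_lit 0) (cs (lf (nat_lit 40) (nat_lit 210)) (nd (nat_lit 189) (nat_lit 0) (cs (rf (nat_lit 0)) (lf (nat_lit 36) (nat_lit 166)))))) q80973 (by decide +kernel)
def q80983 : Q := Q.p (nat_lit 0x400001000006000000000000000000000000000000000000000000000000000000000) (nat_lit 0x100000000000000000000018000020000080000000000000000000000000000000000000000) (nat_lit 3)
theorem c80983 : QOK q80983 := cut [q80982] ⟨c80982, trivial⟩ (nd (nat_lit 207) (nat_lit 0) (cs (lf (nat_lit 42) (nat_lit 207)) (rf (nat_lit 0)))) q80983 (by decide +kernel)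
def q80993 : Q := Q.p (nat_lit 0x100000c00003000004000000000000000000000000000000000000000000000000000000000) (nat_lit 0x2000018000060000000000000000000000000000000000000000000000) (nat_lit 3)
theorem c80993 : QOK q80993 := cut [q80992] ⟨c80992, trivial⟩ (nd (nat_lit 207) (nat_lit 0) (cs (lf (nat_lit 46) (nat_lit 207)) (rf (nat_lit 0)))) q80993 (by decide +kernel)
def q81007 : Q := Q.p (nat_lit 0x100000400001000004000000000000000000000000000000000000000000000000000000000) (nat_lit 0x20000080000200000000002000018000020000000000000000000000000000000000000000000000) (nat_lit 4)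
theorem c81007 : QOK q81007 := cut [q81005] ⟨c81005, trivial⟩ (nd (nat_lit 207) (nat_lit 0) (cs (lf (nat_lit 46) (nat_lit 207)) (nd (nat_lit 295) (nat_lit 0) (cs (lf (nat_lit 41) (nat_lit 229)) (rf (nat_lit 0)))))) q81007 (by decide +kernel)
def q81010 : Q := Q.p (nat_lit 0x100000400007000004000000000000000000000000000000000000000000000000000000000) (nat_lit 0x2000008000000000000000b000028000000000000000000000000000000000000000000000000000) (nat_lit 4)
theorem c81010 : QOK q81010 := cut [q81008] ⟨c81008, trivial⟩ (nd (nat_lit 295) (nat_lit 0) (cs (lf (nat_lit 41) (nat_lit 229)) (nd (nat_lit 231) (nat_lit 0) (cs (lf (nat_lit 35) (nat_lit 208)) (rf (nat_lit 0)))))) q81010 (by decide +kernel)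
def q81014 : Q := Q.p (nat_lit 0x100000400003000000000000000000000000000000000000000000000000000000000000000) (nat_lit 0x4000000000000000000000c000020000080000000000000000000000000000000000000000000000) (nat_lit 3)
theorem c81014 : QOK q81014 := cut [q81013] ⟨c81013, trivial⟩ (nd (nat_lit 231) (nat_lit 0) (cs (lf (nat_lit 30) (nat_lit 230)) (rf (nat_lit 0)))) q81014 (by decide +kernel)
def q81018 : Q := Q.p (nat_lit 0xf000030000000000000000000000000000000000000000000000000000000000) (nat_lit 0x800006000000000000000040000100000000000000000000000000000000000000000000000) (nat_lit 3)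
theorem c81018 : QOK q81018 := cut [q79225] ⟨c79225, trivial⟩ (nd (nat_lit 277) (nat_lit 0) (cs (lf (nat_lit 5) (nat_lit 252)) (rf (nat_lit 0)))) q81018 (by decide +kernel)
def q81023 : Q := Q.p (nat_lit 0x200007800000000000000000000000000000000000000000000000000000000000000) (nat_lit 0x400008000007000000000000000000000000000000000000000000000000000000000) (nat_lit 3)
theorem c81023 : QOK q81023 := cut [q81022] ⟨c81022, trivial⟩ (nd (nat_lit 229) (nat_lit 0) (cs (lf (nat_lit 23) (nat_lit 228)) (rf (nat_lit 0)))) q81023 (by decide +kernel)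
def q81027 : Q := Q.p (nat_lit 0x200000c000010000000000000000000000000000000000000000000000000000000000) (nat_lit 0x200000800001000000000000000040000100000000000000000000000000000000000000000000000) (nat_lit 3)
theorem c81027 : QOK q81027 := cut [q80804] ⟨c80804, trivial⟩ (nd (nat_lit 299) (nat_lit 0) (cs (lf (nat_lit 42) (nat_lit 232)) (rf (nat_lit 0)))) q81027 (by decide +kernel)
def q81031 : Q := Q.p (nat_lit 0x100000f00000c000000000000000000000000000000000000000000000000000000000) (nat_lit 0x100000600000000000000020000080000000000000000000000000000000000000000000000) (nat_lit 3)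
theorem c81031 : QOK q81031 := cut [q80616] ⟨c80616, trivial⟩ (nd (nat_lit 209) (nat_lit 0) (cs (lf (nat_lit 24) (nat_lit 187)) (rf (nat_lit 0)))) q81031 (by decide +kernel)
def q81054 : Q := Q.p (nat_lit 0xf000000000000000000000000000000000000000000000000000000000000000) (nat_lit 0x700000800070000000000000000000000000000000000000000000000000000000000) (nat_lit 4)
theorem c81054 : QOK q81054 := cut [q81052] ⟨c81052, trivial⟩ (nd (nat_lit 273) (nat_lit 0) (cs (lf (nat_lit 10) (nat_lit 251)) (nd (nat_lit 251) (nat_lit 0) (cs (lf (nat_lit 11) (nat_lit 250)) (rf (nat_lit 0)))))) q81054 (by decide +kernel)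
def q81057 : Q := Q.p (nat_lit 0x800002000008000020000000000000000000000000000000000000000000000000000000000) (nat_lit 0x400001000004000000000040000180000400000000000000000000000000000000000000000000000) (nat_lit 4)
theorem c81057 : QOK q81057 := cut [q66783] ⟨c66783, trivial⟩ (nd (nat_lit 300) (nat_lit 0) (cs (lf (nat_lit 29) (nat_lit 233)) (nd (nat_lit 211) (nat_lit 0) (cs (lf (nat_lit 28) (nat_lit 211)) (rf (nat_lit 0)))))) q81057 (by decide +kernel)
def q81061 : Q := Q.p (nat_lit 0x10000080000200000c000000000000000000000000000000000000000000000000000000000000000) (nat_lit 0x400001c0000600000000001000000000000000000000000000000000000000000000000000000000000000000000) (nat_lit 4)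
theorem c81061 : QOK q81061 := cut [q14279] ⟨c14279, trivial⟩ (nd (nat_lit 321) (nat_lit 0) (cs (lf (nat_lit 41) (nat_lit 254)) (nd (nat_lit 343) (nat_lit 0) (cs (rf (nat_lit 0)) (lf (nat_lit 46) (nat_lit 254)))))) q81061 (by decide +kernel)
def q81067 : Q := Q.p (nat_lit 0x800002000008000020000040000000000000000000000000000000000000000000000000000) (nat_lit 0x100000400001000000000000000080000100000000000000000000000000000000000000000000000) (nat_lit 3)
theorem c81067 : QOK q81067 := cut [q79102] ⟨c79102, trivial⟩ (nd (nat_lit 298) (nat_lit 0) (cs (lf (nat_lit 41) (nat_lit 232)) (rf (nat_lit 0)))) q81067 (by decide +kernel)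
def q81084 : Q := Q.p (nat_lit 0x7800010000000000000000000000000000000000000000000000000000000000) (nat_lit 0x40000b800000000000000000000000000000000000000000000000000000000) (nat_lit 3)
theorem c81084 : QOK q81084 := cut [q79022] ⟨c79022, trivial⟩ (nd (nat_lit 250) (nat_lit 0) (cs (lf (nat_lit 16) (nat_lit 228)) (rf (nat_lit 0)))) q81084 (by decide +kernel)
def q81094 : Q := Q.p (nat_lit 0x1e000000000000000000000000000000000000000000000000000000000000000) (nat_lit 0x1c0000600003b8000000000000000000000000000000000000000000000000000000000) (nat_lit 6)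
theorem c81094 : QOK q81094 := cut [q81090] ⟨c81090, trivial⟩ (nd (nat_lit 279) (nat_lit 0) (cs (lf (nat_lit 4) (nat_lit 253)) (nd (nat_lit 257) (nat_lit 0) (cs (lf (nat_lit 5) (nat_lit 254)) (nd (nat_lit 236) (nat_lit 0) (cs (lf (nat_lit 16) (nat_lit 232)) (nd (nat_lit 232) (nat_lit 0) (cs (lf (nat_lit 23) (nat_lit 231)) (rf (nat_lit 0)))))))))) q81094 (by decide +kernel)
def q81101 : Q := Q.p (nat_lit 0xe000020000000000000000000000000000000000000000000000000000000000) (nat_lit 0x110001c0000000000000000000000000000000000000000000000000000000000) (nat_lit 3)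
theorem c81101 : QOK q81101 := cut [q81100] ⟨c81100, trivial⟩ (nd (nat_lit 234) (nat_lit 0) (cs (lf (nat_lit 12) (nat_lit 230)) (rf (nat_lit 0)))) q81101 (by decide +kernel)
def q81106 : Q := Q.p (nat_lit 0x80000200000c0000000000000000000000000000000000000000000000000000) (nat_lit 0x2000000000010000000000100000400001000000000000000000000000000000000000) (nat_lit 3)
theorem c81106 : QOK q81106 := cut [q8059] ⟨c8059, trivial⟩ (nd (nat_lit 188) (nat_lit 0) (cs (lf (nat_lit 42) (nat_lit 188)) (rf (nat_lit 0)))) q81106 (by decide +kernel)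
def q81141 : Q := Q.p (nat_lit 0xf000030000000000000000000000000000000000000000000000000000000000) (nat_lit 0xe00070000008000000000000000000000000000000000000000000000000000000000) (nat_lit 4)
theorem c81141 : QOK q81141 := cut [q81139] ⟨c81139, trivial⟩ (nd (nat_lit 274) (nat_lit 0) (cs (lf (nat_lit 11) (nat_lit 251)) (nd (nat_lit 256) (nat_lit 0) (cs (lf (nat_lit 10) (nat_lit 252)) (rf (nat_lit 0)))))) q81141 (by decide +kernel)
def q81147 : Q := Q.p (nat_lit 0x100000c000020000000000000000000000000000000000000000000000000000000000) (nat_lit 0x100000400000000000000010000080000200000000000000000000000000000000000000000000000) (nat_lit 3)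
theorem c81147 : QOK q81147 := cut [q81146] ⟨c81146, trivial⟩ (nd (nat_lit 298) (nat_lit 0) (cs (lf (nat_lit 30) (nat_lit 232)) (rf (nat_lit 0)))) q81147 (by decide +kernel)
def q81149 : Q := Q.p (nat_lit 0x100000c000020000000000000000000000000000000000000000000000000000000000) (nat_lit 0x100000400002000000000000000080000200000000000000000000000000000000000000000000000) (nat_lit 3)
theorem c81149 : QOK q81149 := cut [q81148] ⟨c81148, trivial⟩ (nd (nat_lit 298) (nat_lit 0) (cs (lf (nat_lit 30) (nat_lit 232)) (rf (nat_lit 0)))) q81149 (by decide +kernel)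
def q81153 : Q := Q.p (nat_lit 0x8000020000080000200000000000000000000000000000000000000000000000) (nat_lit 0x500001c00005000000000000000000000000000000000000) (nat_lit 4)
theorem c81153 : QOK q81153 := cut [q81152] ⟨c81152, trivial⟩ (nd (nat_lit 166) (nat_lit 0) (cs (lf (nat_lit 46) (nat_lit 166)) (rf (nat_lit 0)))) q81153 (by decide +kernel)
def q81176 : Q := Q.p (nat_lit 0xc000020000080000000000000000000000000000000000000000000000000000) (nat_lit 0x1000000000010000000000300000c00001000000000000000000000000000000000000) (nat_lit 4)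
theorem c81176 : QOK q81176 := cut [q57685] ⟨c57685, trivial⟩ (nd (nat_lit 189) (nat_lit 0) (cs (lf (nat_lit 41) (nat_lit 188)) (nd (nat_lit 167) (nat_lit 0) (cs (rf (nat_lit 0)) (lf (nat_lit 40) (nat_lit 166)))))) q81176 (by decide +kernel)
def q81181 : Q := Q.p (nat_lit 0x1000004000038000010000000000000000000000000000000000000000000000000000000000) (nat_lit 0x2000040000020000080000200000000000000000000000000000000000000000000000) (nat_lit 3)
theorem c81181 : QOK q81181 := cut [q79508] ⟨c79508, trivial⟩ (nd (nat_lit 233) (nat_lit 0) (cs (lf (nat_lit 18) (nat_lit 232)) (rf (nat_lit 0)))) q81181 (by decide +kernel)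
def q81192 : Q := Q.p (nat_lit 0x200000800006000000000000000000000000000000000000000000000000000000000000000) (nat_lit 0x80000000001000000000010000040000100000000000000000000000000000000000000000000000) (nat_lit 3)
theorem c81192 : QOK q81192 := cut [q79198] ⟨c79198, trivial⟩ (nd (nat_lit 232) (nat_lit 0) (cs (lf (nat_lit 30) (nat_lit 231)) (rf (nat_lit 0)))) q81192 (by decide +kernel)
def q81198 : Q := Q.p (nat_lit 0x200000e000030000000000000000000000000000000000000000000000000000000000) (nat_lit 0x2000008000000000000000c0000100000000000000000000000000000000000000000000000000000) (nat_lit 3)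
theorem c81198 : QOK q81198 := cut [q80800] ⟨c80800, trivial⟩ (nd (nat_lit 299) (nat_lit 0) (cs (lf (nat_lit 42) (nat_lit 232)) (rf (nat_lit 0)))) q81198 (by decide +kernel)
def q81209 : Q := Q.p (nat_lit 0x200000800006000008000000000000000000000000000000000000000000000000000000000) (nat_lit 0x400001000000000010000060000180000000000000000000000000000000000000000000000) (nat_lit 4)
theorem c81209 : QOK q81209 := cut [q81207] ⟨c81207, trivial⟩ (nd (nat_lit 210) (nat_lit 0) (cs (lf (nat_lit 34) (nat_lit 209)) (nd (nat_lit 209) (nat_lit 0) (cs (lf (nat_lit 35) (nat_lit 187)) (rf (nat_lit 0)))))) q81209 (by decide +kernel)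
def q81211 : Q := Q.p (nat_lit 0x200000800002000008000000000000000000000000000000000000000000000000000000000) (nat_lit 0x40000100000400000000010000060000100000000000000000000000000000000000000000000000) (nat_lit 4)
theorem c81211 : QOK q81211 := cut [q11580] ⟨c11580, trivial⟩ (nd (nat_lit 296) (nat_lit 0) (cs (lf (nat_lit 41) (nat_lit 230)) (nd (nat_lit 209) (nat_lit 0) (cs (lf (nat_lit 40) (nat_lit 208)) (rf (nat_lit 0)))))) q81211 (by decide +kernel)
def q81238 : Q := Q.p (nat_lit 0x20000080000e000000000000000000000000000000000000000000000000000000000000000) (nat_lit 0x700003e0001dc0001600000000028000060000180000400000000000000000000000000000000000000000) (nat_lit 8)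
theorem c81238 : QOK q81238 := cut [q81218, q81228, q2544] ⟨c81218, c81228, c2544, trivial⟩ (nd (nat_lit 320) (nat_lit 0) (cs (nd (nat_lit 231) (nat_lit 0) (cs (lf (nat_lit 28) (nat_lit 231)) (nd (nat_lit 296) (nat_lit 0) (cs (lf (nat_lit 41) (nat_lit 230)) (nd (nat_lit 209) (nat_lit 0) (cs (lf (nat_lit 40) (nat_lit 208)) (nd (nat_lit 188) (nat_lit 0) (cs (lf (nat_lit 34) (nat_lit 187)) (nd (nat_lit 187) (nat_lit 0) (cs (lf (nat_lit 35) (nat_lit 165)) (lf (nat_lit 29) (nat_lit 187)))))))))))) (cs (nd (nat_lit 319) (nat_lit 0) (cs (lf (nat_lit 29) (nat_lit 253)) (nd (nat_lit 276) (nat_lit 0) (cs (lf (nat_lit 30) (nat_lit 253)) (nd (nat_lit 273) (nat_lit 0) (cs (lf (nat_lit 13) (nat_lit 251)) (nd (nat_lit 318) (nat_lit 0) (cs (lf (nat_lit 41) (nat_lit 252)) (nd (nat_lit 296) (nat_lit 0) (cs (lf (nat_lit 36) (nat_lit 230)) (rf (nat_lit 0)))))))))))) (cs (nd (nat_lit 319) (nat_lit 0) (cs (lf (nat_lit 29) (nat_lit 253)) (nd (nat_lit 318) (nat_lit 0) (cs (lf (nat_lit 41) (nat_lit 252)) (nd (nat_lit 231) (nat_lit 0) (cs (lf (nat_lit 40) (nat_lit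 230)) (lf (nat_lit 28) (nat_lit 231)))))))) (cs (nd (nat_lit 319) (nat_lit 0) (cs (lf (nat_lit 29) (nat_lit 253)) (nd (nat_lit 231) (nat_lit 0) (cs (lf (nat_lit 28) (nat_lit 231)) (nd (nat_lit 276) (nat_lit 0) (cs (lf (nat_lit 30) (nat_lit 253)) (nd (nat_lit 274) (nat_lit 0) (cs (lf (nat_lit 12) (nat_lit 251)) (rf (nat_lit 1)))))))))) (nd (nat_lit 319) (nat_lit 0) (cs (lf (nat_lit 29) (nat_lit 253)) (nd (nat_lit 318) (nat_lit 0) (cs (lf (nat_lit 41) (nat_lit 252)) (nd (nat_lit 276) (nat_lit 0) (cs (lf (nat_lit 30) (nat_lit 253)) (nd (nat_lit 273) (nat_lit 0) (cs (lf (nat_lit 13) (nat_lit 251)) (nd (nat_lit 298) (nat_lit 0) (cs (rf (nat_lit 2)) (lf (nat_lit 35) (nat_lit 232))))))))))))))))) q81238 (by decide +kernel)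
def q81296 : Q := Q.p (nat_lit 0x1f000000000000000000000000000000000000000000000000000000000000000) (nat_lit 0x60800078000000000000000000000000000000000000000000000000000000000) (nat_lit 4)
theorem c81296 : QOK q81296 := cut [q81139] ⟨c81139, trivial⟩ (nd (nat_lit 233) (nat_lit 0) (cs (lf (nat_lit 17) (nat_lit 230)) (nd (nat_lit 232) (nat_lit 0) (cs (lf (nat_lit 12) (nat_lit 229)) (rf (nat_lit 0)))))) q81296 (by decide +kernel)
def q81312 : Q := Q.p (nat_lit 0x1e000000000000000000000000000000000000000000000000000000000000000) (nat_lit 0x1c000610000f8000000000000000000000000000000000000000000000000000000000) (nat_lit 6)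
theorem c81312 : QOK q81312 := cut [q81309] ⟨c81309, trivial⟩ (nd (nat_lit 234) (nat_lit 0) (cs (lf (nat_lit 17) (nat_lit 231)) (nd (nat_lit 233) (nat_lit 0) (cs (lf (nat_lit 12) (nat_lit 230)) (nd (nat_lit 275) (nat_lit 0) (cs (lf (nat_lit 11) (nat_lit 252)) (rf (nat_lit 0)))))))) q81312 (by decide +kernel)
def q81315 : Q := Q.p (nat_lit 0x40000f000004000000000000000000000000000000000000000000000000000000000) (nat_lit 0x100000000010000008000020000080000000000000000000000000000000000000000000000) (nat_lit 3)
theorem c81315 : QOK q81315 := cut [q79097] ⟨c79097, trivial⟩ (nd (nat_lit 231) (nat_lit 0) (cs (lf (nat_lit 18) (nat_lit 230)) (rf (nat_lit 0)))) q81315 (by decide +kernel)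
def q81319 : Q := Q.p (nat_lit 0x180000400001000004000000000000000000000000000000000000000000000000000000000) (nat_lit 0x200000000002000018000020000000000000000000000000000000000000000000000) (nat_lit 3)
theorem c81319 : QOK q81319 := cut [q22287] ⟨c22287, trivial⟩ (nd (nat_lit 208) (nat_lit 0) (cs (lf (nat_lit 40) (nat_lit 207)) (rf (nat_lit 0)))) q81319 (by decide +kernel)
def q81323 : Q := Q.p (nat_lit 0x80000100000400003000000000000000000000000000000000000000000000000000000000000000) (nat_lit 0x2000038000060000000000800000000000000000000000000000000000000000000000000000000000000000000) (nat_lit 4)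
theorem c81323 : QOK q81323 := cut [q42100] ⟨c42100, trivial⟩ (nd (nat_lit 318) (nat_lit 0) (cs (lf (nat_lit 29) (nat_lit 252)) (nd (nat_lit 340) (nat_lit 0) (cs (lf (nat_lit 34) (nat_lit 252)) (rf (nat_lit 0)))))) q81323 (by decide +kernel)
def q81327 : Q := Q.p (nat_lit 0x80000100000400003000000000000000000000000000000000000000000000000000000000000000) (nat_lit 0x30000040000200000800000000006000018000060000000000000000000000000000000000000000000000) (nat_lit 6)
theorem c81327 : QOK q81327 := cut [q80992] ⟨c80992, trivial⟩ (nd (nat_lit 318) (nat_lit 0) (cs (lf (nat_lit 29) (nat_lit 252)) (nd (nat_lit 230) (nat_lit 0) (cs (lf (nat_lit 28) (nat_lit 230)) (nd (nat_lit 207) (nat_lit 0) (cs (lf (nat_lit 46) (nat_lit 207)) (nd (nat_lit 275) (nat_lit 0) (cs (lf (nat_lit 30) (nat_lit 252)) (rf (nat_lit 0)))))))))) q81327 (by decide +kernel)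
def q81331 : Q := Q.p (nat_lit 0x400001000004000010000000000000000000000000000000000000000000000000000) (nat_lit 0x280000e0000280000000000000000000000000000000000000000) (nat_lit 4)
theorem c81331 : QOK q81331 := cut [q32039] ⟨c32039, trivial⟩ (nd (nat_lit 187) (nat_lit 0) (cs (lf (nat_lit 34) (nat_lit 186)) (nd (nat_lit 186) (nat_lit 0) (cs (lf (nat_lit 35) (nat_lit 164)) (rf (nat_lit 0)))))) q81331 (by decide +kernel)
def q81337 : Q := Q.p (nat_lit 0x2000007800000000000000000000000000000000000000000000000000000000000000) (nat_lit 0x4000008000007000000000000000000000000000000000000000000000000000000000) (nat_lit 3)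
theorem c81337 : QOK q81337 := cut [q80462] ⟨c80462, trivial⟩ (nd (nat_lit 255) (nat_lit 0) (cs (lf (nat_lit 5) (nat_lit 252)) (rf (nat_lit 0)))) q81337 (by decide +kernel)
def q81348 : Q := Q.p (nat_lit 0xf000000000000000000000000000000000000000000000000000000000000000) (nat_lit 0xe0000300001dc000000000000000000000000000000000000000000000000000000000) (nat_lit 6)
theorem c81348 : QOK q81348 := cut [q81344] ⟨c81344, trivial⟩ (nd (nat_lit 278) (nat_lit 0) (cs (lf (nat_lit 4) (nat_lit 252)) (nd (nat_lit 256) (nat_lit 0) (cs (lf (nat_lit 5) (nat_lit 253)) (nd (nat_lit 235) (nat_lit 0) (cs (lf (nat_lit 16) (nat_lit 231)) (nd (nat_lit 231) (nat_lit 0) (cs (lf (nat_lit 23) (nat_lit 230)) (rf (nat_lit 0)))))))))) q81348 (by decide +kernel)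
def q81362 : Q := Q.p (nat_lit 0x800003000004000000000000000000000000000000000000000000000000000000000000000) (nat_lit 0x80000200000400000000000000010000040000000000000000000000000000000000000000000000000000) (nat_lit 3)
theorem c81362 : QOK q81362 := cut [q81361] ⟨c81361, trivial⟩ (nd (nat_lit 321) (nat_lit 0) (cs (lf (nat_lit 42) (nat_lit 254)) (rf (nat_lit 0)))) q81362 (by decide +kernel)
def q81381 : Q := Q.p (nat_lit 0xf00000c000000000000000000000000000000000000000000000000000000000) (nat_lit 0x7000000e00010000000000000000000000000000000000000000000000000000000000) (nat_lit 4)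
theorem c81381 : QOK q81381 := cut [q9779] ⟨c9779, trivial⟩ (nd (nat_lit 277) (nat_lit 0) (cs (lf (nat_lit 5) (nat_lit 252)) (nd (nat_lit 251) (nat_lit 0) (cs (rf (nat_lit 0)) (lf (nat_lit 4) (nat_lit 251)))))) q81381 (by decide +kernel)
def q81383 : Q := Q.p (nat_lit 0x80000300000c000040000000000000000000000000000000000000000000000000000) (nat_lit 0x400000000000000020000180000200000000000000000000000000000000000000000) (nat_lit 3)
theorem c81383 : QOK q81383 := cut [q80169] ⟨c80169, trivial⟩ (nd (nat_lit 209) (nat_lit 0) (cs (lf (nat_lit 35) (nat_lit 187)) (rf (nat_lit 0)))) q81383 (by decide +kernel)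
def q81389 : Q := Q.p (nat_lit 0x20000080000300000c000000000000000000000000000000000000000000000000000000000) (nat_lit 0x40000100000400000000000000060000180000600000000000000000000000000000000000000000) (nat_lit 5)
theorem c81389 : QOK q81389 := cut [q1591] ⟨c1591, trivial⟩ (nd (nat_lit 296) (nat_lit 0) (cs (lf (nat_lit 41) (nat_lit 230)) (nd (nat_lit 209) (nat_lit 0) (cs (lf (nat_lit 40) (nat_lit 208)) (nd (nat_lit 187) (nat_lit 0) (cs (rf (nat_lit 0)) (lf (nat_lit 36) (nat_lit 164)))))))) q81389 (by decide +kernel)
def q81409 : Q := Q.p (nat_lit 0x7000004000000000000000000000000000000000000000000000000000000000) (nat_lit 0x8800003800000000000000000000000000000000000000000000000000000000) (nat_lit 3)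
theorem c81409 : QOK q81409 := cut [q81406] ⟨c81406, trivial⟩ (nd (nat_lit 229) (nat_lit 0) (cs (lf (nat_lit 18) (nat_lit 229)) (rf (nat_lit 0)))) q81409 (by decide +kernel)
def q81413 : Q := Q.p (nat_lit 0x400001000006000000000000000000000000000000000000000000000000000000000000000) (nat_lit 0x100000000000000000000018000020000080000000000000000000000000000000000000000000000) (nat_lit 3)
theorem c81413 : QOK q81413 := cut [q81412] ⟨c81412, trivial⟩ (nd (nat_lit 231) (nat_lit 0) (cs (lf (nat_lit 42) (nat_lit 231)) (rf (nat_lit 0)))) q81413 (by decide +kernel)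
def q81418 : Q := Q.p (nat_lit 0xe00003c00002000000000000000000000000000000000000000000000000000000000000000) (nat_lit 0x10000060000180000000000000000000000000000000000000000000000000000000000000000000000000) (nat_lit 3)
theorem c81418 : QOK q81418 := cut [q81417] ⟨c81417, trivial⟩ (nd (nat_lit 296) (nat_lit 0) (cs (lf (nat_lit 12) (nat_lit 273)) (rf (nat_lit 0)))) q81418 (by decide +kernel)
def q81428 : Q := Q.p (nat_lit 0x400001000004000010000020000000000000000000000000000000000000000000000000000) (nat_lit 0x80000200000800000000000000040000080000000000000000000000000000000000000000000000) (nat_lit 3)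
theorem c81428 : QOK q81428 := cut [q81427] ⟨c81427, trivial⟩ (nd (nat_lit 297) (nat_lit 0) (cs (lf (nat_lit 41) (nat_lit 231)) (rf (nat_lit 0)))) q81428 (by decide +kernel)
def q81437 : Q := Q.p (nat_lit 0x180000400001000004000000000000000000000000000000000000000000000000000000000000000) (nat_lit 0x80000200000a00000000000000010000000000000000000000000000000000000000000000000000000000) (nat_lit 3)
theorem c81437 : QOK q81437 := cut [q81436] ⟨c81436, trivial⟩ (nd (nat_lit 232) (nat_lit 0) (cs (lf (nat_lit 40) (nat_lit 231)) (rf (nat_lit 0)))) q81437 (by decide +kernel)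
def q81442 : Q := Q.p (nat_lit 0x80000400001000006000000000000000000000000000000000000000000000000000000000000000) (nat_lit 0x200000e0000300000000000800000000000000000000000000000000000000000000000000000000000000000000) (nat_lit 4)
theorem c81442 : QOK q81442 := cut [q81440] ⟨c81440, trivial⟩ (nd (nat_lit 320) (nat_lit 0) (cs (lf (nat_lit 41) (nat_lit 253)) (nd (nat_lit 342) (nat_lit 0) (cs (lf (nat_lit 46) (nat_lit 253)) (rf (nat_lit 0)))))) q81442 (by decide +kernel)
def q81446 : Q := Q.p (nat_lit 0x80000400001000007000000000000000000000000000000000000000000000000000000000000000) (nat_lit 0x60000100000200000800000000014000000000000000000000000000000000000000000000000000000000) (nat_lit 4)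
theorem c81446 : QOK q81446 := cut [q81444] ⟨c81444, trivial⟩ (nd (nat_lit 320) (nat_lit 0) (cs (lf (nat_lit 41) (nat_lit 253)) (nd (nat_lit 275) (nat_lit 0) (cs (lf (nat_lit 42) (nat_lit 253)) (rf (nat_lit 0)))))) q81446 (by decide +kernel)
def q81451 : Q := Q.p (nat_lit 0x1e00001800000000000000000000000000000000000000000000000000000000000000) (nat_lit 0x200000c0000000000000004000010000000000000000000000000000000000000000000000000000) (nat_lit 3)
theorem c81451 : QOK q81451 := cut [q81450] ⟨c81450, trivial⟩ (nd (nat_lit 295) (nat_lit 0) (cs (lf (nat_lit 11) (nat_lit 272)) (rf (nat_lit 0)))) q81451 (by decide +kernel)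
def q81457 : Q := Q.p (nat_lit 0x400001600003800008000000000000000000000000000000000000000000000000000000000) (nat_lit 0xc000070000bc0000800000000000000000000000000000000000000000000000000000000000000000000) (nat_lit 6)
theorem c81457 : QOK q81457 := cut [q16010] ⟨c16010, trivial⟩ (nd (nat_lit 275) (nat_lit 0) (cs (lf (nat_lit 5) (nat_lit 273)) (nd (nat_lit 295) (nat_lit 0) (cs (lf (nat_lit 11) (nat_lit 272)) (nd (nat_lit 296) (nat_lit 0) (cs (lf (nat_lit 30) (nat_lit 230)) (nd (nat_lit 317) (nat_lit 0) (cs (lf (nat_lit 30) (nat_lit 251)) (rf (nat_lit 0)))))))))) q81457 (by decide +kernel)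
def q81463 : Q := Q.p (nat_lit 0x1000006000008000000000000000000000000000000000000000000000000000000000) (nat_lit 0x100000400000000000000010000020000080000000000000000000000000000000000000000000000) (nat_lit 3)
theorem c81463 : QOK q81463 := cut [q81412] ⟨c81412, trivial⟩ (nd (nat_lit 298) (nat_lit 0) (cs (lf (nat_lit 42) (nat_lit 231)) (rf (nat_lit 0)))) q81463 (by decide +kernel)
def q81466 : Q := Q.p (nat_lit 0x1800007000008000020000000000000000000000000000000000000000000000000000) (nat_lit 0x200000c0000300000400000c00010000000000000000000000000000000000000000000000000000000000) (nat_lit 5)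
theorem c81466 : QOK q81466 := cut [q80843] ⟨c80843, trivial⟩ (nd (nat_lit 296) (nat_lit 0) (cs (lf (nat_lit 40) (nat_lit 208)) (nd (nat_lit 250) (nat_lit 0) (cs (lf (nat_lit 1) (nat_lit 250)) (nd (nat_lit 297) (nat_lit 0) (cs (lf (nat_lit 41) (nat_lit 230)) (rf (nat_lit 0)))))))) q81466 (by decide +kernel)
def q81468 : Q := Q.p (nat_lit 0x1800007000008000030000000000000000000000000000000000000000000000000000) (nat_lit 0x1c0000700000000004000000000000000000000000000000000000000000000000000000000) (nat_lit 4)
theorem c81468 : QOK q81468 := cut [q24766] ⟨c24766, trivial⟩ (nd (nat_lit 274) (nat_lit 0) (cs (lf (nat_lit 41) (nat_lit 208)) (nd (nat_lit 273) (nat_lit 0) (cs (rf (nat_lit 0)) (lf (nat_lit 12) (nat_lit 250)))))) q81468 (by decide +kernel)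
def q81478 : Q := Q.p (nat_lit 0x3c0000c000000000000000000000000000000000000000000000000000000000) (nat_lit 0x200001800000000000000010000040000000000000000000000000000000000000000000000) (nat_lit 3)
theorem c81478 : QOK q81478 := cut [q81477] ⟨c81477, trivial⟩ (nd (nat_lit 275) (nat_lit 0) (cs (lf (nat_lit 5) (nat_lit 250)) (rf (nat_lit 0)))) q81478 (by decide +kernel)

end Crest.Agent.H3.Snaky.CR
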