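import Crest.Agent.H3.Snaky.Cert
import Crest.Agent.H3.Snaky.CR.CR0
import Crest.Agent.H3.Snaky.CR.CR1
import Crest.Agent.H3.Snaky.CR.CR2
import Crest.Agent.H3.Snaky.CR.CR3
import Crest.Agent.H3.Snaky.CR.CR4
import Crest.Agent.H3.Snaky.CR.CR5
import Crest.Agent.H3.Snaky.CR.CR6
import Crest.Agent.H3.Snaky.CR.CR7
import Crest.Agent.H3.Snaky.CR.CR8
import Crest.Agent.H3.Snaky.CR.CR9
import Crest.Agent.H3.Snaky.CR.CR10
import Crest.Agent.H3.Snaky.CR.CR11
import Crest.Agent.H3.Snaky.CR.CR12
import Crest.Agent.H3.Snaky.CR.CR14
import Crest.Agent.H3.Snaky.CR.CR15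
import Crest.Agent.H3.Snaky.CR.CR16
import Crest.Agent.H3.Snaky.CR.CR17

set_option autoImplicit false
set_option maxRecDepth 100000

namespace Crest.Agent.H3.Snaky.CR

open T

def q81483 : Q := Q.p (nat_lit 0x3c00008000000000000000000000000000000000000000000000000000000000) (nat_lit 0x1c00000200004000000000000000000000000000000000000000000000000000000000) (nat_lit 3)
theorem c81483 : QOK q81483 := cut [q26063] ⟨c26063, trivial⟩ (nd (nat_lit 275) (nat_lit 0) (cs (lf (nat_lit 5) (nat_lit 250)) (rf (nat_lit 0)))) q81483 (by decide +kernel)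
def q81489 : Q := Q.p (nat_lit 0x7c00008000000000000000000000000000000000000000000000000000000000) (nat_lit 0x18200006000000000000000000000000000000000000000000000000000000000) (nat_lit 3)
theorem c81489 : QOK q81489 := cut [q81488] ⟨c81488, trivial⟩ (nd (nat_lit 230) (nat_lit 0) (cs (lf (nat_lit 12) (nat_lit 227)) (rf (nat_lit 0)))) q81489 (by decide +kernel)
def q81497 : Q := Q.p (nat_lit 0xe000020000000000000000000000000000000000000000000000000000000000) (nat_lit 0x7000001800047000000000000000000000000000000000000000000000000000000000) (nat_lit 5)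
theorem c81497 : QOK q81497 := cut [q79214] ⟨c79214, trivial⟩ (nd (nat_lit 252) (nat_lit 0) (cs (lf (nat_lit 17) (nat_lit 230)) (rf (nat_lit 0)))) q81497 (by decide +kernel)
def q81499 : Q := Q.p (nat_lit 0x200000e000020000080000000000000000000000000000000000000000000000000000) (nat_lit 0x140000d000000000000000000000000000000000000000000000000000000000000000000000) (nat_lit 3)
theorem c81499 : QOK q81499 := cut [q81498] ⟨c81498, trivial⟩ (nd (nat_lit 276) (nat_lit 0) (cs (lf (nat_lit 41) (nat_lit 210)) (rf (nat_lit 0)))) q81499 (by decide +kernel)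
def q81503 : Q := Q.p (nat_lit 0x200000e000020000080000000000000000000000000000000000000000000000000000) (nat_lit 0x100001d000000000000000140000500000000000000000000000000000000000000000000000) (nat_lit 5)
theorem c81503 : QOK q81503 := cut [q80761] ⟨c80761, trivial⟩ (nd (nat_lit 188) (nat_lit 0) (cs (lf (nat_lit 46) (nat_lit 188)) (nd (nat_lit 190) (nat_lit 0) (cs (lf (nat_lit 34) (nat_lit 189)) (nd (nat_lit 278) (nat_lit 0) (cs (lf (nat_lit 29) (nat_lit 211)) (rf (nat_lit 0)))))))) q81503 (by decide +kernel)
def q81531 : Q := Q.p (nat_lit 0x7800008000000000000000000000000000000000000000000000000000000000000000) (nat_lit 0x100000400003800000000000000020000080000000000000000000000000000000000000000000000000000) (nat_lit 4)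
theorem c81531 : QOK q81531 := cut [q31451] ⟨c31451, trivial⟩ (nd (nat_lit 300) (nat_lit 0) (cs (lf (nat_lit 5) (nat_lit 275)) (nd (nat_lit 322) (nat_lit 0) (cs (lf (nat_lit 42) (nat_lit 255)) (rf (nat_lit 0)))))) q81531 (by decide +kernel)
def q81548 : Q := Q.p (nat_lit 0xe000018000000000000000000000000000000000000000000000000000000000) (nat_lit 0xe000031c00020000000000000000000000000000000000000000000000000000000000) (nat_lit 5)
theorem c81548 : QOK q81548 := cut [q81545] ⟨c81545, trivial⟩ (nd (nat_lit 256) (nat_lit 0) (cs (lf (nat_lit 18) (nat_lit 231)) (nd (nat_lit 278) (nat_lit 0) (cs (lf (nat_lit 5) (nat_lit 253)) (nd (nat_lit 252) (nat_lit 0) (cs (lf (nat_lit 4) (nat_lit 252)) (rf (nat_lit 0)))))))) q81548 (by decide +kernel)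
def q81550 : Q := Q.p (nat_lit 0x400001000006000018000000000000000000000000000000000000000000000000000000000) (nat_lit 0x8000000000200000c0000300000400000000000000000000000000000000000000000) (nat_lit 4)
theorem c81550 : QOK q81550 := cut [q79250] ⟨c79250, trivial⟩ (nd (nat_lit 211) (nat_lit 0) (cs (lf (nat_lit 34) (nat_lit 210)) (nd (nat_lit 210) (nat_lit 0) (cs (lf (nat_lit 35) (nat_lit 188)) (rf (nat_lit 0)))))) q81550 (by decide +kernel)
def q81598 : Q := Q.p (nat_lit 0x200000800006000008000000000000000000000000000000000000000000000000000000000) (nat_lit 0x100000c0000100000000000000010000000000000000000000000000000000000000000000000000000000) (nat_lit 3)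
theorem c81598 : QOK q81598 := cut [q15793] ⟨c15793, trivial⟩ (nd (nat_lit 319) (nat_lit 0) (cs (rf (nat_lit 0)) (lf (nat_lit 35) (nat_lit 231)))) q81598 (by decide +kernel)
def q81606 : Q := Q.p (nat_lit 0x800004000018000060000000000000000000000000000000000000000000000000000000000) (nat_lit 0x2000000000000000300000c00003000000000000000000000000000000000000000000) (nat_lit 4)
theorem c81606 : QOK q81606 := cut [q81604] ⟨c81604, trivial⟩ (nd (nat_lit 212) (nat_lit 0) (cs (lf (nat_lit 40) (nat_lit 211)) (nd (nat_lit 190) (nat_lit 0) (cs (lf (nat_lit 36) (nat_lit 167)) (rf (nat_lit 0)))))) q81606 (by decide +kernel)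
def q81638 : Q := Q.p (nat_lit 0x3c000020000000000000000000000000000000000000000000000000000000000) (nat_lit 0x40000390000000000000000000000000000000000000000000000000000000000) (nat_lit 3)
theorem c81638 : QOK q81638 := cut [q81636] ⟨c81636, trivial⟩ (nd (nat_lit 258) (nat_lit 0) (cs (rf (nat_lit 0)) (lf (nat_lit 23) (nat_lit 232)))) q81638 (by decide +kernel)
def q81647 : Q := Q.p (nat_lit 0x180000600000c000030000000000000000000000000000000000000000000000000000) (nat_lit 0x100001c0000700000000000000000000000000000000000000000000000) (nat_lit 4)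
theorem c81647 : QOK q81647 := cut [q81645] ⟨c81645, trivial⟩ (nd (nat_lit 210) (nat_lit 0) (cs (lf (nat_lit 35) (nat_lit 187)) (nd (nat_lit 211) (nat_lit 0) (cs (lf (nat_lit 6) (nat_lit 208)) (rf (nat_lit 0)))))) q81647 (by decide +kernel)
def q81672 : Q := Q.p (nat_lit 0x800007c00000000000000000000000000000000000000000000000000000000000000) (nat_lit 0x600018200000000000000000000000000000000000000000000000000000000000000) (nat_lit 3)
theorem c81672 : QOK q81672 := cut [q79079] ⟨c79079, trivial⟩ (nd (nat_lit 274) (nat_lit 0) (cs (lf (nat_lit 0) (nat_lit 249)) (rf (nat_lit 0)))) q81672 (by decide +kernel)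
def q81677 : Q := Q.p (nat_lit 0x7000010000000000000000000000000000000000000000000000000000000000) (nat_lit 0x88000e0000000000000000000000000000000000000000000000000000000000) (nat_lit 3)
theorem c81677 : QOK q81677 := cut [q80981] ⟨c80981, trivial⟩ (nd (nat_lit 233) (nat_lit 0) (cs (lf (nat_lit 12) (nat_lit 229)) (rf (nat_lit 0)))) q81677 (by decide +kernel)
def q81679 : Q := Q.p (nat_lit 0xa00007000010000000000000000000000000000000000000000000000000000000000) (nat_lit 0x1100000c00008000000000000000000000000000000000000000000000000000000000) (nat_lit 3)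
theorem c81679 : QOK q81679 := cut [q81678] ⟨c81678, trivial⟩ (nd (nat_lit 251) (nat_lit 0) (cs (lf (nat_lit 11) (nat_lit 250)) (rf (nat_lit 0)))) q81679 (by decide +kernel)
def q81696 : Q := Q.p (nat_lit 0x1e00003000008000020000000000000000000000000000000000000000000000000000) (nat_lit 0xc0000000000000004000010000040000000000000000000000000000000000000000000000) (nat_lit 3)
theorem c81696 : QOK q81696 := cut [q81695] ⟨c81695, trivial⟩ (nd (nat_lit 295) (nat_lit 0) (cs (lf (nat_lit 11) (nat_lit 272)) (rf (nat_lit 0)))) q81696 (by decide +kernel)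
def q81705 : Q := Q.p (nat_lit 0x600000800002000008000000000000000000000000000000000000000000000000000000000) (nat_lit 0x1000000000004000030000040000000000000000000000000000000000000000000000) (nat_lit 3)
theorem c81705 : QOK q81705 := cut [q79186] ⟨c79186, trivial⟩ (nd (nat_lit 209) (nat_lit 0) (cs (lf (nat_lit 28) (nat_lit 209)) (rf (nat_lit 0)))) q81705 (by decide +kernel)
def q81709 : Q := Q.p (nat_lit 0x200007000018000000000000000000000000000000000000000000000000000000000) (nat_lit 0x400038000004000000000000000000000000000000000000000000000000000000000) (nat_lit 3)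
theorem c81709 : QOK q81709 := cut [q81708] ⟨c81708, trivial⟩ (nd (nat_lit 255) (nat_lit 0) (cs (lf (nat_lit 10) (nat_lit 251)) (rf (nat_lit 0)))) q81709 (by decide +kernel)
def q81722 : Q := Q.p (nat_lit 0x1e000000000000000000000000000000000000000000000000000000000000000) (nat_lit 0x1dc00020000000000000000000000000000000000000000000000000000000000000000) (nat_lit 4)
theorem c81722 : QOK q81722 := cut [q81720] ⟨c81720, trivial⟩ (nd (nat_lit 279) (nat_lit 0) (cs (lf (nat_lit 4) (nat_lit 253)) (nd (nat_lit 275) (nat_lit 0) (cs (lf (nat_lit 11) (nat_lit 252)) (rf (nat_lit 0)))))) q81722 (by decide +kernel)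
def q81729 : Q := Q.p (nat_lit 0x7800000000000000000000000000000000000000000000000000000000000000) (nat_lit 0x380000400003800000000000000000000000000000000000000000000000000000000) (nat_lit 4)
theorem c81729 : QOK q81729 := cut [q81727] ⟨c81727, trivial⟩ (nd (nat_lit 228) (nat_lit 0) (cs (lf (nat_lit 22) (nat_lit 228)) (nd (nat_lit 272) (nat_lit 0) (cs (lf (nat_lit 10) (nat_lit 250)) (rf (nat_lit 0)))))) q81729 (by decide +kernel)
def q81735 : Q := Q.p (nat_lit 0x180001e000000000000000000000000000000000000000000000000000000000) (nat_lit 0x40000000000000000c000020000080000000000000000000000000000000000000000) (nat_lit 3)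
theorem c81735 : QOK q81735 := cut [q81734] ⟨c81734, trivial⟩ (nd (nat_lit 207) (nat_lit 0) (cs (lf (nat_lit 23) (nat_lit 206)) (rf (nat_lit 0)))) q81735 (by decide +kernel)
def q81756 : Q := Q.p (nat_lit 0x400001000007000010000000000000000000000000000000000000000000000000000000000) (nat_lit 0x680000a0000000000000000000000000000000000000000000000000000) (nat_lit 3)
theorem c81756 : QOK q81756 := cut [q80309] ⟨c80309, trivial⟩ (nd (nat_lit 231) (nat_lit 0) (cs (lf (nat_lit 47) (nat_lit 209)) (rf (nat_lit 0)))) q81756 (by decide +kernel)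
def q81761 : Q := Q.p (nat_lit 0x1000004000030000000000000000000000000000000000000000000000000000000000) (nat_lit 0x4000000000000000000000c0000200000800000000000000000000000000000000000000000) (nat_lit 3)
theorem c81761 : QOK q81761 := cut [q80189] ⟨c80189, trivial⟩ (nd (nat_lit 211) (nat_lit 0) (cs (lf (nat_lit 30) (nat_lit 210)) (rf (nat_lit 0)))) q81761 (by decide +kernel)
def q81770 : Q := Q.p (nat_lit 0x1e000000000000000000000000000000000000000000000000000000000000000) (nat_lit 0x1c00002000001c000000000000000000000000000000000000000000000000000000000) (nat_lit 4)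
theorem c81770 : QOK q81770 := cut [q81768] ⟨c81768, trivial⟩ (nd (nat_lit 279) (nat_lit 0) (cs (lf (nat_lit 4) (nat_lit 253)) (nd (nat_lit 231) (nat_lit 0) (cs (lf (nat_lit 23) (nat_lit 230)) (rf (nat_lit 0)))))) q81770 (by decide +kernel)
def q81776 : Q := Q.p (nat_lit 0x80000200001c000008000000000000000000000000000000000000000000000000000000000) (nat_lit 0x1000020000010000040000100000000000000000000000000000000000000000000000) (nat_lit 3)
theorem c81776 : QOK q81776 := cut [q80804] ⟨c80804, trivial⟩ (nd (nat_lit 232) (nat_lit 0) (cs (lf (nat_lit 18) (nat_lit 231)) (rf (nat_lit 0)))) q81776 (by decide +kernel)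
def q81787 : Q := Q.p (nat_lit 0x100000400001000004000000000000000000000000000000000000000000000000000000000) (nat_lit 0x20000080000200000000008000030000080000000000000000000000000000000000000000000000) (nat_lit 4)
theorem c81787 : QOK q81787 := cut [q57678] ⟨c57678, trivial⟩ (nd (nat_lit 209) (nat_lit 0) (cs (lf (nat_lit 34) (nat_lit 208)) (nd (nat_lit 208) (nat_lit 0) (cs (lf (nat_lit 35) (nat_lit 186)) (rf (nat_lit 0)))))) q81787 (by decide +kernel)
def q81804 : Q := Q.p (nat_lit 0x80000400003000004000000000000000000000000000000000000000000000000000000000) (nat_lit 0x200000a00000000000000010000040000000000000000000000000000000000000000000000) (nat_lit 3)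
theorem c81804 : QOK q81804 := cut [q81803] ⟨c81803, trivial⟩ (nd (nat_lit 208) (nat_lit 0) (cs (lf (nat_lit 40) (nat_lit 207)) (rf (nat_lit 0)))) q81804 (by decide +kernel)
def q81811 : Q := Q.p (nat_lit 0x80000100000400003000000000000000000000000000000000000000000000000000000000000000) (nat_lit 0x20000280000a000000000040000300000c0000200000000000000000000000000000000000000000) (nat_lit 6)
theorem c81811 : QOK q81811 := cut [q81808] ⟨c81808, trivial⟩ (nd (nat_lit 230) (nat_lit 0) (cs (lf (nat_lit 28) (nat_lit 230)) (nd (nat_lit 295) (nat_lit 0) (cs (lf (nat_lit 41) (nat_lit 229)) (nd (nat_lit 208) (nat_lit 0) (cs (lf (nat_lit 40) (nat_lit 207)) (rf (nat_lit 0)))))))) q81811 (by decide +kernel)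
def q81813 : Q := Q.p (nat_lit 0xc00007000004000000000000000000000000000000000000000000000000000000000) (nat_lit 0x80000300000000000000010000040000000000000000000000000000000000000000000000) (nat_lit 3)
theorem c81813 : QOK q81813 := cut [q81812] ⟨c81812, trivial⟩ (nd (nat_lit 273) (nat_lit 0) (cs (lf (nat_lit 12) (nat_lit 250)) (rf (nat_lit 0)))) q81813 (by decide +kernel)
def q81819 : Q := Q.p (nat_lit 0x40000100000400001000000000000000000000000000000000000000000000000000000000000000) (nat_lit 0x280000a0000280000000000000004000000000000000000000000000000000000000000000000000000000) (nat_lit 4)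
theorem c81819 : QOK q81819 := cut [q10904] ⟨c10904, trivial⟩ (nd (nat_lit 317) (nat_lit 0) (cs (lf (nat_lit 41) (nat_lit 251)) (nd (nat_lit 230) (nat_lit 0) (cs (rf (nat_lit 0)) (lf (nat_lit 40) (nat_lit 229)))))) q81819 (by decide +kernel)
def q81824 : Q := Q.p (nat_lit 0x3c0000c000020000000000000000000000000000000000000000000000000000000000) (nat_lit 0x200001800000000000000010000040000000000000000000000000000000000000000000000000000) (nat_lit 3)
theorem c81824 : QOK q81824 := cut [q80658] ⟨c80658, trivial⟩ (nd (nat_lit 299) (nat_lit 0) (cs (lf (nat_lit 5) (nat_lit 274)) (rf (nat_lit 0)))) q81824 (by decide +kernel)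
def q81832 : Q := Q.p (nat_lit 0x10000140000f000008000000000000000000000000000000000000000000000000000000000) (nat_lit 0x100000680006800000000000000000000000000000000000000000000000000000000000000000000) (nat_lit 4)
theorem c81832 : QOK q81832 := cut [q81830] ⟨c81830, trivial⟩ (nd (nat_lit 298) (nat_lit 0) (cs (lf (nat_lit 42) (nat_lit 231)) (nd (nat_lit 277) (nat_lit 0) (cs (lf (nat_lit 5) (nat_lit 252)) (rf (nat_lit 0)))))) q81832 (by decide +kernel)
def q81837 : Q := Q.p (nat_lit 0x400003000008000000000000000000000000000000000000000000000000000000000) (nat_lit 0x40000100000000000000004000020000080000000000000000000000000000000000000000000000) (nat_lit 3)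
theorem c81837 : QOK q81837 := cut [q81013] ⟨c81013, trivial⟩ (nd (nat_lit 296) (nat_lit 0) (cs (lf (nat_lit 30) (nat_lit 230)) (rf (nat_lit 0)))) q81837 (by decide +kernel)
def q81847 : Q := Q.p (nat_lit 0xc00003000028000020000000000000000000000000000000000000000000000000000) (nat_lit 0x200000000000000014000058000160000000000000000000000000000000000000000000000) (nat_lit 5)
theorem c81847 : QOK q81847 := cut [q80768] ⟨c80768, trivial⟩ (nd (nat_lit 188) (nat_lit 0) (cs (lf (nat_lit 34) (nat_lit 187)) (nd (nat_lit 208) (nat_lit 0) (cs (lf (nat_lit 47) (nat_lit 186)) (nd (nat_lit 230) (nat_lit 0) (cs (lf (nat_lit 29) (nat_lit 208)) (rf (nat_lit 0)))))))) q81847 (by decide +kernel)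
def q81851 : Q := Q.p (nat_lit 0x2c0000e000008000020000000000000000000000000000000000000000000000000000) (nat_lit 0x80000200001c00001000000000010000000000000000000000000000000000000000000000000000000000) (nat_lit 4)
theorem c81851 : QOK q81851 := cut [q81370] ⟨c81370, trivial⟩ (nd (nat_lit 276) (nat_lit 0) (cs (lf (nat_lit 29) (nat_lit 209)) (rf (nat_lit 0)))) q81851 (by decide +kernel)
def q81864 : Q := Q.p (nat_lit 0xf800010000000000000000000000000000000000000000000000000000000000) (nat_lit 0x3040000c000000000000000000000000000000000000000000000000000000000) (nat_lit 3)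
theorem c81864 : QOK q81864 := cut [q81708] ⟨c81708, trivial⟩ (nd (nat_lit 231) (nat_lit 0) (cs (lf (nat_lit 12) (nat_lit 228)) (rf (nat_lit 0)))) q81864 (by decide +kernel)
def q81879 : Q := Q.p (nat_lit 0x80001e000008000000000000000000000000000000000000000000000000000000000) (nat_lit 0x200000000020000010000040000100000000000000000000000000000000000000000000000) (nat_lit 3)
theorem c81879 : QOK q81879 := cut [q81878] ⟨c81878, trivial⟩ (nd (nat_lit 232) (nat_lit 0) (cs (lf (nat_lit 18) (nat_lit 231)) (rf (nat_lit 0)))) q81879 (by decide +kernel)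
def q81889 : Q := Q.p (nat_lit 0x80000e000000000000000000000000000000000000000000000000000000000000000) (nat_lit 0x7f4000f00003b0000040000100000000000000000000000000000000000000000000000) (nat_lit 10)
theorem c81889 : QOK q81889 := cut [q80632] ⟨c80632, trivial⟩ (nd (nat_lit 256) (nat_lit 0) (cs (lf (nat_lit 11) (nat_lit 252)) (nd (nat_lit 278) (nat_lit 0) (cs (lf (nat_lit 5) (nat_lit 253)) (nd (nat_lit 257) (nat_lit 0) (cs (lf (nat_lit 10) (nat_lit 253)) (nd (nat_lit 236) (nat_lit 0) (cs (lf (nat_lit 16) (nat_lit 232)) (nd (nat_lit 258) (nat_lit 0) (cs (lf (nat_lit 17) (nat_lit 233)) (nd (nat_lit 232) (nat_lit 0) (cs (lf (nat_lit 22) (nat_lit 232)) (nd (nat_lit 188) (nat_lit 0) (cs (lf (nat_lit 37) (nat_lit 187)) (rf (nat_lit 0)))))))))))))))) q81889 (by decide +kernel)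
def q81896 : Q := Q.p (nat_lit 0x80000200000c000000000000000000000000000000000000000000000000000000000) (nat_lit 0x200000000000000000000030000040000100000000000000000000000000000000000000000) (nat_lit 3)
theorem c81896 : QOK q81896 := cut [q3985] ⟨c3985, trivial⟩ (nd (nat_lit 208) (nat_lit 0) (cs (lf (nat_lit 42) (nat_lit 208)) (rf (nat_lit 0)))) q81896 (by decide +kernel)
def q81901 : Q := Q.p (nat_lit 0x800002000008000020000000000000000000000000000000000000000000000000000) (nat_lit 0x500001c0000500000000000000000000000000000000000000000) (nat_lit 4)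
theorem c81901 : QOK q81901 := cut [q81899] ⟨c81899, trivial⟩ (nd (nat_lit 188) (nat_lit 0) (cs (lf (nat_lit 34) (nat_lit 187)) (nd (nat_lit 187) (nat_lit 0) (cs (lf (nat_lit 35) (nat_lit 165)) (rf (nat_lit 0)))))) q81901 (by decide +kernel)
def q81917 : Q := Q.p (nat_lit 0xf000000000000000000000000000000000000000000000000000000000000000) (nat_lit 0x200000c00030c0003f000040000100000000000000000000000000000000000000000000000) (nat_lit 8)
theorem c81917 : QOK q81917 := cut [q81878] ⟨c81878, trivial⟩ (nd (nat_lit 229) (nat_lit 0) (cs (lf (nat_lit 22) (nat_lit 229)) (nd (nat_lit 251) (nat_lit 0) (cs (lf (nat_lit 23) (nat_lit 228)) (nd (nat_lit 232) (nat_lit 0) (cs (lf (nat_lit 17) (nat_lit 229)) (nd (nat_lit 231) (nat_lit 0) (cs (lf (nat_lit 12) (nat_lit 228)) (nd (nat_lit 256) (nat_lit 0) (cs (lf (nat_lit 18) (nat_lit 231)) (nd (nat_lit 275) (nat_lit 0) (cs (lf (nat_lit 11) (nat_lit 252)) (rf (nat_lit 0)))))))))))))) q81917 (by decide +kernel)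
def q81918 : Q := Q.p (nat_lit 0x3c000010000000000000000000000000000000000000000000000000000000000) (nat_lit 0x400003a0000000000000000000000000000000000000000000000000000000000) (nat_lit 3)
theorem c81918 : QOK q81918 := cut [q81636] ⟨c81636, trivial⟩ (nd (nat_lit 258) (nat_lit 0) (cs (lf (nat_lit 22) (nat_lit 232)) (rf (nat_lit 0)))) q81918 (by decide +kernel)
def q81927 : Q := Q.p (nat_lit 0xf000000000000000000000000000000000000000000000000000000000000000) (nat_lit 0x700000800007000000000000000000000000000000000000000000000000000000000) (nat_lit 4)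
theorem c81927 : QOK q81927 := cut [q80462] ⟨c80462, trivial⟩ (nd (nat_lit 273) (nat_lit 0) (cs (lf (nat_lit 10) (nat_lit 251)) (nd (nat_lit 251) (nat_lit 0) (cs (lf (nat_lit 11) (nat_lit 250)) (rf (nat_lit 0)))))) q81927 (by decide +kernel)
def q81956 : Q := Q.p (nat_lit 0x80000f000010000000000000000000000000000000000000000000000000000000000) (nat_lit 0x8000020000000000000000e000010000040000000000000000000000000000000000000000000000) (nat_lit 4)
theorem c81956 : QOK q81956 := cut [q81955] ⟨c81955, trivial⟩ (nd (nat_lit 230) (nat_lit 0) (cs (lf (nat_lit 23) (nat_lit 229)) (rf (nat_lit 0)))) q81956 (by decide +kernel)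
def q81957 : Q := Q.p (nat_lit 0x3c00003000000000000000000000000000000000000000000000000000000000000000) (nat_lit 0x40000180000000000000008000020000000000000000000000000000000000000000000000000000) (nat_lit 3)
theorem c81957 : QOK q81957 := cut [q11506] ⟨c11506, trivial⟩ (nd (nat_lit 296) (nat_lit 0) (cs (rf (nat_lit 0)) (lf (nat_lit 11) (nat_lit 273)))) q81957 (by decide +kernel)
def q81961 : Q := Q.p (nat_lit 0xb00000c00003000000000000000000000000000000000000000000000000000000000000000) (nat_lit 0x18000060000400000000000000000000000000000000000000000000000000000000000000000000000000) (nat_lit 3)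
theorem c81961 : QOK q81961 := cut [q81960] ⟨c81960, trivial⟩ (nd (nat_lit 318) (nat_lit 0) (cs (lf (nat_lit 30) (nat_lit 252)) (rf (nat_lit 0)))) q81961 (by decide +kernel)
def q81970 : Q := Q.p (nat_lit 0x3c00003000000000000000000000000000000000000000000000000000000000000000) (nat_lit 0x10000040000180000000000000008000000000000000000000000000000000000000000000000000000000) (nat_lit 3)
theorem c81970 : QOK q81970 := cut [q22293] ⟨c22293, trivial⟩ (nd (nat_lit 296) (nat_lit 0) (cs (lf (nat_lit 11) (nat_lit 273)) (rf (nat_lit 0)))) q81970 (by decide +kernel)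
def q81990 : Q := Q.p (nat_lit 0x1000007800010000000000000000000000000000000000000000000000000000000000) (nat_lit 0x400000000000400008000020000080000000000000000000000000000000000000000000000) (nat_lit 3)
theorem c81990 : QOK q81990 := cut [q79181] ⟨c79181, trivial⟩ (nd (nat_lit 231) (nat_lit 0) (cs (lf (nat_lit 12) (nat_lit 228)) (rf (nat_lit 0)))) q81990 (by decide +kernel)
def q81994 : Q := Q.p (nat_lit 0xc00003000018000060000000000000000000000000000000000000000000000000000) (nat_lit 0x400001c000070000000000000000000000000000000000000000000000) (nat_lit 4)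
theorem c81994 : QOK q81994 := cut [q81993] ⟨c81993, trivial⟩ (nd (nat_lit 208) (nat_lit 0) (cs (lf (nat_lit 47) (nat_lit 186)) (rf (nat_lit 0)))) q81994 (by decide +kernel)
def q82021 : Q := Q.p (nat_lit 0x400000f000024000000000000000000000000000000000000000000000000000000000) (nat_lit 0x480001200009c00070000390000090000240000000000000000000000000000000000000000000000) (nat_lit 10)
theorem c82021 : QOK q82021 := cut [q82014] ⟨c82014, trivial⟩ (nd (nat_lit 256) (nat_lit 0) (cs (lf (nat_lit 5) (nat_lit 253)) (nd (nat_lit 275) (nat_lit 0) (cs (lf (nat_lit 11) (nat_lit 252)) (nd (nat_lit 300) (nat_lit 0) (cs (lf (nat_lit 42) (nat_lit 233)) (nd (nat_lit 189) (nat_lit 0) (cs (nd (nat_lit 186) (nat_lit 0) (cs (lf (nat_lit 25) (nat_lit 186)) (nd (nat_lit 297) (nat_lit 0) (cs (lf (nat_lit 42) (nat_lit 230)) (rf (nat_lit 0)))))) (lf (nat_lit 25) (nat_lit 189)))))))))) q82021 (by decide +kernel)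
def q82028 : Q := Q.p (nat_lit 0x14000018000000000000000000000000000000000000000000000000000) (nat_lit 0x2a000006000000000000000000000000000000000000000000000000000) (nat_lit 3)
theorem c82028 : QOK q82028 := cut [q3987] ⟨c3987, trivial⟩ (nd (nat_lit 231) (nat_lit 0) (cs (lf (nat_lit 18) (nat_lit 207)) (rf (nat_lit 0)))) q82028 (by decide +kernel)
def q82037 : Q := Q.p (nat_lit 0x100000400003000004000000000000000000000000000000000000000000000000000000000) (nat_lit 0x8000060000080000000000000008000000000000000000000000000000000000000000000000000000000) (nat_lit 3)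
theorem c82037 : QOK q82037 := cut [q13202] ⟨c13202, trivial⟩ (nd (nat_lit 318) (nat_lit 0) (cs (lf (nat_lit 35) (nat_lit 230)) (rf (nat_lit 0)))) q82037 (by decide +kernel)
def q82056 : Q := Q.p (nat_lit 0xc000034000010000100000000000000000000000000000000000000000000000) (nat_lit 0x1000000000008000188000200000400000000000000000000000000000000000000000) (nat_lit 4)
theorem c82056 : QOK q82056 := cut [q82055] ⟨c82055, trivial⟩ (nd (nat_lit 231) (nat_lit 0) (cs (lf (nat_lit 23) (nat_lit 207)) (rf (nat_lit 0)))) q82056 (by decide +kernel)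
def q82063 : Q := Q.p (nat_lit 0x200000800002000008000000000000000000000000000000000000000000000000000000000) (nat_lit 0x140000500001400000000000000020000000000000000000000000000000000000000000000000000) (nat_lit 4)
theorem c82063 : QOK q82063 := cut [q16427] ⟨c16427, trivial⟩ (nd (nat_lit 298) (nat_lit 0) (cs (lf (nat_lit 29) (nat_lit 231)) (nd (nat_lit 209) (nat_lit 0) (cs (lf (nat_lit 28) (nat_lit 209)) (rf (nat_lit 0)))))) q82063 (by decide +kernel)
def q82089 : Q := Q.p (nat_lit 0xe000008000000000000000000000000000000000000000000000000000000000) (nat_lit 0x39c000f00007e4000000000000000000000000000000000000000000000000000000000) (nat_lit 9)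
theorem c82089 : QOK q82089 := cut [q82086] ⟨c82086, trivial⟩ (nd (nat_lit 256) (nat_lit 0) (cs (lf (nat_lit 23) (nat_lit 230)) (nd (nat_lit 234) (nat_lit 0) (cs (lf (nat_lit 17) (nat_lit 231)) (nd (nat_lit 275) (nat_lit 0) (cs (lf (nat_lit 11) (nat_lit 252)) (rf (nat_lit 0)))))))) q82089 (by decide +kernel)
def q82100 : Q := Q.p (nat_lit 0x7800000000000000000000000000000000000000000000000000000000000000) (nat_lit 0x3800000400003800000000000000000000000000000000000000000000000000000000) (nat_lit 4)
theorem c82100 : QOK q82100 := cut [q80544] ⟨c80544, trivial⟩ (nd (nat_lit 228) (nat_lit 0) (cs (lf (nat_lit 22) (nat_lit 228)) (nd (nat_lit 250) (nat_lit 0) (cs (lf (nat_lit 23) (nat_lit 227)) (rf (nat_lit 0)))))) q82100 (by decide +kernel)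
def q82110 : Q := Q.p (nat_lit 0xe000020000000000000000000000000000000000000000000000000000000000) (nat_lit 0x700001800047000000000000000000000000000000000000000000000000000000000) (nat_lit 5)
theorem c82110 : QOK q82110 := cut [q79210] ⟨c79210, trivial⟩ (nd (nat_lit 252) (nat_lit 0) (cs (lf (nat_lit 17) (nat_lit 230)) (rf (nat_lit 0)))) q82110 (by decide +kernel)
def q82179 : Q := Q.p (nat_lit 0x300000f000000000000000000000000000000000000000000000000000000000) (nat_lit 0x400000000000000060000080000200000000000000000000000000000000000000000) (nat_lit 3)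
theorem c82179 : QOK q82179 := cut [q80169] ⟨c80169, trivial⟩ (nd (nat_lit 209) (nat_lit 0) (cs (lf (nat_lit 17) (nat_lit 206)) (rf (nat_lit 0)))) q82179 (by decide +kernel)
def q82187 : Q := Q.p (nat_lit 0x3c00000000000000000000000000000000000000000000000000000000000000) (nat_lit 0x380004000038000000000000000000000000000000000000000000000000000000000) (nat_lit 4)
theorem c82187 : QOK q82187 := cut [q79006] ⟨c79006, trivial⟩ (nd (nat_lit 232) (nat_lit 0) (cs (lf (nat_lit 16) (nat_lit 228)) (nd (nat_lit 254) (nat_lit 0) (cs (rf (nat_lit 0)) (lf (nat_lit 17) (nat_lit 229)))))) q82187 (by decide +kernel)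
def q82189 : Q := Q.p (nat_lit 0x400003e00000000000000000000000000000000000000000000000000000000000000) (nat_lit 0x30000c100000000000000000000000000000000000000000000000000000000000000) (nat_lit 3)
theorem c82189 : QOK q82189 := cut [q82188] ⟨c82188, trivial⟩ (nd (nat_lit 273) (nat_lit 0) (cs (lf (nat_lit 0) (nat_lit 248)) (rf (nat_lit 0)))) q82189 (by decide +kernel)
def q82198 : Q := Q.p (nat_lit 0x3800002000000000000000000000000000000000000000000000000000000000) (nat_lit 0x4000005c00000000000000000000000000000000000000000000000000000000) (nat_lit 3)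
theorem c82198 : QOK q82198 := cut [q82197] ⟨c82197, trivial⟩ (nd (nat_lit 228) (nat_lit 0) (cs (lf (nat_lit 18) (nat_lit 228)) (rf (nat_lit 0)))) q82198 (by decide +kernel)
def q82200 : Q := Q.p (nat_lit 0x1e000010000000000000000000000000000000000000000000000000000000000) (nat_lit 0x200001c8000000000000000000000000000000000000000000000000000000000) (nat_lit 3)
theorem c82200 : QOK q82200 := cut [q82199] ⟨c82199, trivial⟩ (nd (nat_lit 257) (nat_lit 0) (cs (lf (nat_lit 23) (nat_lit 231)) (rf (nat_lit 0)))) q82200 (by decide +kernel)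
def q82207 : Q := Q.p (nat_lit 0x200003800002000008000000000000000000000000000000000000000000000000000) (nat_lit 0x140000580000000000000000000000000000000000000000000000000000000000000000000) (nat_lit 3)
theorem c82207 : QOK q82207 := cut [q15375] ⟨c15375, trivial⟩ (nd (nat_lit 274) (nat_lit 0) (cs (lf (nat_lit 29) (nat_lit 207)) (rf (nat_lit 0)))) q82207 (by decide +kernel)
def q82208 : Q := Q.p (nat_lit 0x80000200001800002000000000000000000000000000000000000000000000000000000000) (nat_lit 0x10000060000100000000000000004000000000000000000000000000000000000000000000000000000000) (nat_lit 3)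
theorem c82208 : QOK q82208 := cut [q22663] ⟨c22663, trivial⟩ (nd (nat_lit 317) (nat_lit 0) (cs (rf (nat_lit 0)) (lf (nat_lit 35) (nat_lit 229)))) q82208 (by decide +kernel)
def q82221 : Q := Q.p (nat_lit 0x800002000008000040000000000000000000000000000000000000000000000) (nat_lit 0x200000000004000010000000000100000400000000000000000000000000000000000) (nat_lit 3)
theorem c82221 : QOK q82221 := cut [q1773] ⟨c1773, trivial⟩ (nd (nat_lit 208) (nat_lit 0) (cs (lf (nat_lit 30) (nat_lit 185)) (rf (nat_lit 0)))) q82221 (by decide +kernel)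
def q82227 : Q := Q.p (nat_lit 0x200003800002000000000000000000000000000000000000000000000000000000000) (nat_lit 0x50000c000004000000000000000000000000000000000000000000000000000000000) (nat_lit 3)
theorem c82227 : QOK q82227 := cut [q81022] ⟨c81022, trivial⟩ (nd (nat_lit 254) (nat_lit 0) (cs (lf (nat_lit 11) (nat_lit 250)) (rf (nat_lit 0)))) q82227 (by decide +kernel)
def q82229 : Q := Q.p (nat_lit 0x200007800002000000000000000000000000000000000000000000000000000000000) (nat_lit 0x80000000008000004000010000040000000000000000000000000000000000000000000000) (nat_lit 3)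
theorem c82229 : QOK q82229 := cut [q82228] ⟨c82228, trivial⟩ (nd (nat_lit 230) (nat_lit 0) (cs (lf (nat_lit 18) (nat_lit 229)) (rf (nat_lit 0)))) q82229 (by decide +kernel)
def q82235 : Q := Q.p (nat_lit 0xc00007000016000010000000000000000000000000000000000000000000000000000) (nat_lit 0xe0000180000000000000000000000000000000000000000000000) (nat_lit 3)
theorem c82235 : QOK q82235 := cut [q82234] ⟨c82234, trivial⟩ (nd (nat_lit 209) (nat_lit 0) (cs (lf (nat_lit 35) (nat_lit 186)) (rf (nat_lit 0)))) q82235 (by decide +kernel)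
def q82244 : Q := Q.p (nat_lit 0x3c00010000000000000000000000000000000000000000000000000000000000) (nat_lit 0x4000023800000000000000000000000000000000000000000000000000000000) (nat_lit 3)
theorem c82244 : QOK q82244 := cut [q79022] ⟨c79022, trivial⟩ (nd (nat_lit 254) (nat_lit 0) (cs (lf (nat_lit 17) (nat_lit 229)) (rf (nat_lit 0)))) q82244 (by decide +kernel)
def q82253 : Q := Q.p (nat_lit 0x3c00000000000000000000000000000000000000000000000000000000000000) (nat_lit 0xfc0004380007000000000000000000000000000000000000000000000000000000000) (nat_lit 7)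
theorem c82253 : QOK q82253 := cut [q82249] ⟨c82249, trivial⟩ (nd (nat_lit 271) (nat_lit 0) (cs (lf (nat_lit 10) (nat_lit 249)) (nd (nat_lit 249) (nat_lit 0) (cs (lf (nat_lit 11) (nat_lit 248)) (nd (nat_lit 274) (nat_lit 0) (cs (lf (nat_lit 5) (nat_lit 249)) (nd (nat_lit 248) (nat_lit 0) (cs (lf (nat_lit 4) (nat_lit 248)) (rf (nat_lit 0)))))))))) q82253 (by decide +kernel)
def q82258 : Q := Q.p (nat_lit 0x40000f000000000000000000000000000000000000000000000000000000000000000) (nat_lit 0xe800010000000000000000000000000000000000000000000000000000000000000000) (nat_lit 3)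
theorem c82258 : QOK q82258 := cut [q82257] ⟨c82257, trivial⟩ (nd (nat_lit 256) (nat_lit 0) (cs (lf (nat_lit 10) (nat_lit 252)) (rf (nat_lit 0)))) q82258 (by decide +kernel)
def q82266 : Q := Q.p (nat_lit 0x380000c000020000000000000000000000000000000000000000000000000000) (nat_lit 0xa000000000000000100001c0000700000000000000000000000000000000000000000) (nat_lit 5)
theorem c82266 : QOK q82266 := cut [q82263] ⟨c82263, trivial⟩ (nd (nat_lit 187) (nat_lit 0) (cs (lf (nat_lit 36) (nat_lit 164)) (nd (nat_lit 166) (nat_lit 0) (cs (lf (nat_lit 34) (nat_lit 165)) (nd (nat_lit 186) (nat_lit 0) (cs (lf (nat_lit 47) (nat_lit 164)) (rf (nat_lit 0)))))))) q82266 (by decide +kernel)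
def q82275 : Q := Q.p (nat_lit 0x3800008000000000000000000000000000000000000000000000000000000000) (nat_lit 0x400074000000000000000000000000000000000000000000000000000000000) (nat_lit 3)
theorem c82275 : QOK q82275 := cut [q82274] ⟨c82274, trivial⟩ (nd (nat_lit 232) (nat_lit 0) (cs (lf (nat_lit 12) (nat_lit 228)) (rf (nat_lit 0)))) q82275 (by decide +kernel)
def q82278 : Q := Q.p (nat_lit 0x3800008000000000000000000000000000000000000000000000000000000000) (nat_lit 0x4400070000000000000000000000000000000000000000000000000000000000) (nat_lit 3)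
theorem c82278 : QOK q82278 := cut [q82277] ⟨c82277, trivial⟩ (nd (nat_lit 232) (nat_lit 0) (cs (lf (nat_lit 12) (nat_lit 228)) (rf (nat_lit 0)))) q82278 (by decide +kernel)
def q82280 : Q := Q.p (nat_lit 0x400003000008000000000000000000000000000000000000000000000000000000000) (nat_lit 0x40000100000000000000004000020000080000000000000000000000000000000000000000000000) (nat_lit 3)
theorem c82280 : QOK q82280 := cut [q82279] ⟨c82279, trivial⟩ (nd (nat_lit 209) (nat_lit 0) (cs (lf (nat_lit 36) (nat_lit 186)) (rf (nat_lit 0)))) q82280 (by decide +kernel)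
def q82283 : Q := Q.p (nat_lit 0x200000c00003000008000000000000000000000000000000000000000000000000000000000) (nat_lit 0x60000180000400000000000000000000000000000000000000000000000000000000000000000000000000) (nat_lit 3)
theorem c82283 : QOK q82283 := cut [q82282] ⟨c82282, trivial⟩ (nd (nat_lit 320) (nat_lit 0) (cs (lf (nat_lit 28) (nat_lit 231)) (rf (nat_lit 0)))) q82283 (by decide +kernel)
def q82288 : Q := Q.p (nat_lit 0x100000400001000004000000000000000000000000000000000000000000000000000000000) (nat_lit 0xa0000280000a00000000000000010000000000000000000000000000000000000000000000000000) (nat_lit 4)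
theorem c82288 : QOK q82288 := cut [q57678] ⟨c57678, trivial⟩ (nd (nat_lit 297) (nat_lit 0) (cs (lf (nat_lit 29) (nat_lit 230)) (nd (nat_lit 208) (nat_lit 0) (cs (lf (nat_lit 28) (nat_lit 208)) (rf (nat_lit 0)))))) q82288 (by decide +kernel)
def q82291 : Q := Q.p (nat_lit 0x100000400001000004000000000000000000000000000000000000000000000000000000000) (nat_lit 0x80000200000800000000002000018000020000000000000000000000000000000000000000000000) (nat_lit 4)
theorem c82291 : QOK q82291 := cut [q22287] ⟨c22287, trivial⟩ (nd (nat_lit 297) (nat_lit 0) (cs (lf (nat_lit 29) (nat_lit 230)) (nd (nat_lit 208) (nat_lit 0) (cs (lf (nat_lit 28) (nat_lit 208)) (rf (nat_lit 0)))))) q82291 (by decide +kernel)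
def q82293 : Q := Q.p (nat_lit 0x10000380000c000000000000000000000000000000000000000000000000000000000) (nat_lit 0x20001c000002000000000000000000000000000000000000000000000000000000000) (nat_lit 3)
theorem c82293 : QOK q82293 := cut [q81488] ⟨c81488, trivial⟩ (nd (nat_lit 254) (nat_lit 0) (cs (lf (nat_lit 10) (nat_lit 250)) (rf (nat_lit 0)))) q82293 (by decide +kernel)
def q82300 : Q := Q.p (nat_lit 0x3000008000020000000000000000000000000000000000000000000000000000) (nat_lit 0x400000000004000000000180000600001000000000000000000000000000000000000) (nat_lit 4)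
theorem c82300 : QOK q82300 := cut [q82299] ⟨c82299, trivial⟩ (nd (nat_lit 187) (nat_lit 0) (cs (lf (nat_lit 41) (nat_lit 186)) (rf (nat_lit 0)))) q82300 (by decide +kernel)
def q82301 : Q := Q.p (nat_lit 0x3000008000020000000000000000000000000000000000000000000000000000) (nat_lit 0x4000000000000000000001c0000700001400000000000000000000000000000000000) (nat_lit 5)
theorem c82301 : QOK q82301 := cut [q80750] ⟨c80750, trivial⟩ (nd (nat_lit 187) (nat_lit 0) (cs (lf (nat_lit 41) (nat_lit 186)) (rf (nat_lit 0)))) q82301 (by decide +kernel)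
def q82326 : Q := Q.p (nat_lit 0xa000060000000000000000000000000000000000000000000000000000) (nat_lit 0x15000180000000000000000000000000000000000000000000000000000) (nat_lit 3)
theorem c82326 : QOK q82326 := cut [q82325] ⟨c82325, trivial⟩ (nd (nat_lit 230) (nat_lit 0) (cs (lf (nat_lit 12) (nat_lit 206)) (rf (nat_lit 0)))) q82326 (by decide +kernel)
def q82330 : Q := Q.p (nat_lit 0xf0000000000000000000000000000000000000000000000000000) (nat_lit 0xe0000100000e00000000000000000000000000000000000000000000000) (nat_lit 4)
theorem c82330 : QOK q82330 := cut [q691] ⟨c691, trivial⟩ (nd (nat_lit 190) (nat_lit 0) (cs (lf (nat_lit 16) (nat_lit 186)) (nd (nat_lit 234) (nat_lit 0) (cs (lf (nat_lit 4) (nat_lit 208)) (rf (nat_lit 0)))))) q82330 (by decide +kernel)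
def q82342 : Q := Q.p (nat_lit 0xc00003800008000020000000000000000000000000000000000000000000000000000) (nat_lit 0x28000038000000003400001c000060000000000000000000000000000000000000000000000) (nat_lit 7)
theorem c82342 : QOK q82342 := cut [q82337] ⟨c82337, trivial⟩ (nd (nat_lit 208) (nat_lit 0) (cs (lf (nat_lit 47) (nat_lit 186)) (nd (nat_lit 230) (nat_lit 0) (cs (lf (nat_lit 29) (nat_lit 208)) (nd (nat_lit 273) (nat_lit 0) (cs (lf (nat_lit 41) (nat_lit 207)) (nd (nat_lit 271) (nat_lit 0) (cs (lf (nat_lit 13) (nat_lit 249)) (nd (nat_lit 232) (nat_lit 0) (cs (lf (nat_lit 6) (nat_lit 229)) (rf (nat_lit 0)))))))))))) q82342 (by decide +kernel)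
def q82357 : Q := Q.p (nat_lit 0xc0000f000000000000000000000000000000000000000000000000000000000) (nat_lit 0x200000000000000006000010000040000000000000000000000000000000000000000) (nat_lit 3)
theorem c82357 : QOK q82357 := cut [q10808] ⟨c10808, trivial⟩ (nd (nat_lit 206) (nat_lit 0) (cs (lf (nat_lit 23) (nat_lit 205)) (rf (nat_lit 0)))) q82357 (by decide +kernel)
def q82377 : Q := Q.p (nat_lit 0x10000040000380000c000000000000000000000000000000000000000000000000000000000) (nat_lit 0xb00006f0000b80000600003800008000000000000000000000000000000000000000000000000000) (nat_lit 10)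
theorem c82377 : QOK q82377 := cut [q82369] ⟨c82369, trivial⟩ (nd (nat_lit 229) (nat_lit 0) (cs (lf (nat_lit 47) (nat_lit 207)) (nd (nat_lit 297) (nat_lit 0) (cs (lf (nat_lit 29) (nat_lit 230)) (nd (nat_lit 227) (nat_lit 0) (cs (lf (nat_lit 1) (nat_lit 227)) (nd (nat_lit 295) (nat_lit 0) (cs (lf (nat_lit 41) (nat_lit 229)) (nd (nat_lit 250) (nat_lit 0) (cs (lf (nat_lit 12) (nat_lit 227)) (nd (nat_lit 272) (nat_lit 0) (cs (lf (nat_lit 11) (nat_lit 249)) (nd (nat_lit 294) (nat_lit 0) (cs (lf (nat_lit 30) (nat_lit 228)) (nd (nat_lit 273) (nat_lit 0) (cs (lf (nat_lit 18) (nat_lit 272)) (rf (nat_lit 0)))))))))))))))))) q82377 (by decide +kernel)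
def q82380 : Q := Q.p (nat_lit 0x10000040000380000c000000000000000000000000000000000000000000000000000000000) (nat_lit 0x200000000002000018000060000100000000000000000000000000000000000000000) (nat_lit 4)
theorem c82380 : QOK q82380 := cut [q82378] ⟨c82378, trivial⟩ (nd (nat_lit 207) (nat_lit 0) (cs (lf (nat_lit 46) (nat_lit 207)) (nd (nat_lit 208) (nat_lit 0) (cs (lf (nat_lit 47) (nat_lit 185)) (rf (nat_lit 0)))))) q82380 (by decide +kernel)
def q82395 : Q := Q.p (nat_lit 0xf000008000000000000000000000000000000000000000000000000000000000) (nat_lit 0xe000010000004000000000000000000000000000000000000000000000000000000000) (nat_lit 3)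
theorem c82395 : QOK q82395 := cut [q82257] ⟨c82257, trivial⟩ (nd (nat_lit 256) (nat_lit 0) (cs (lf (nat_lit 23) (nat_lit 230)) (rf (nat_lit 0)))) q82395 (by decide +kernel)
def q82405 : Q := Q.p (nat_lit 0x80000200000800002000000000000000000000000000000000000000000000000000000000) (nat_lit 0x14000070000140000000000000000000000000000000000000000000000000000000000000000000000000) (nat_lit 4)
theorem c82405 : QOK q82405 := cut [q22663] ⟨c22663, trivial⟩ (nd (nat_lit 316) (nat_lit 0) (cs (lf (nat_lit 40) (nat_lit 228)) (nd (nat_lit 317) (nat_lit 0) (cs (lf (nat_lit 41) (nat_lit 250)) (rf (nat_lit 0)))))) q82405 (by decide +kernel)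
def q82408 : Q := Q.p (nat_lit 0x80000300000800002000000000000000000000000000000000000000000000000000000000) (nat_lit 0x4000000000000000100000c000010000000000000000000000000000000000000000000000) (nat_lit 3)
theorem c82408 : QOK q82408 := cut [q12654] ⟨c12654, trivial⟩ (nd (nat_lit 207) (nat_lit 0) (cs (lf (nat_lit 41) (nat_lit 206)) (rf (nat_lit 0)))) q82408 (by decide +kernel)
def q82413 : Q := Q.p (nat_lit 0x180000200000800000000000000000000000000000000000000000000000000000000000000) (nat_lit 0x4000010000060000000000000000000002000000000000000000000000000000000000000000000000000000000) (nat_lit 3)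
theorem c82413 : QOK q82413 := cut [q44056] ⟨c44056, trivial⟩ (nd (nat_lit 318) (nat_lit 0) (cs (lf (nat_lit 24) (nat_lit 229)) (rf (nat_lit 0)))) q82413 (by decide +kernel)
def q82418 : Q := Q.p (nat_lit 0x100000800002000008000020000000000000000000000000000000000000000000000000000000000) (nat_lit 0x140000600001000000000000000000000000000000000000000000000000000000000000000000000000000) (nat_lit 3)
theorem c82418 : QOK q82418 := cut [q80787] ⟨c80787, trivial⟩ (nd (nat_lit 321) (nat_lit 0) (cs (lf (nat_lit 41) (nat_lit 254)) (rf (nat_lit 0)))) q82418 (by decide +kernel)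
def q82453 : Q := Q.p (nat_lit 0x10000040000100000400000000000000000000000000000000000000000000000000000000) (nat_lit 0x80000380000e000008000020000080000200000000000000000000000000000000000000000000000000000000) (nat_lit 6)
theorem c82453 : QOK q82453 := cut [q46883] ⟨c46883, trivial⟩ (nd (nat_lit 313) (nat_lit 0) (cs (lf (nat_lit 40) (nat_lit 225)) (nd (nat_lit 314) (nat_lit 0) (cs (lf (nat_lit 41) (nat_lit 247)) (nd (nat_lit 247) (nat_lit 0) (cs (lf (nat_lit 47) (nat_lit 225)) (nd (nat_lit 336) (nat_lit 0) (cs (lf (nat_lit 46) (nat_lit 247)) (rf (nat_lit 0)))))))))) q82453 (by decide +kernel)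
def q82461 : Q := Q.p (nat_lit 0x10000040000100000400000000000000000000000000000000000000000000000000000000) (nat_lit 0x800002000008000020000380000e000020000000000000000000000000000000000000000) (nat_lit 6)
theorem c82461 : QOK q82461 := cut [q47646] ⟨c47646, trivial⟩ (nd (nat_lit 203) (nat_lit 0) (cs (lf (nat_lit 46) (nat_lit 203)) (nd (nat_lit 204) (nat_lit 0) (cs (lf (nat_lit 47) (nat_lit 181)) (nd (nat_lit 269) (nat_lit 0) (cs (lf (nat_lit 41) (nat_lit 203)) (nd (nat_lit 182) (nat_lit 0) (cs (lf (nat_lit 40) (nat_lit 181)) (rf (nat_lit 0)))))))))) q82461 (by decide +kernel)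
def q82468 : Q := Q.p (nat_lit 0xe0000300000000000000000000000000000000000000000000000000000000000000000000) (nat_lit 0xe000718000080000000000000000000000000000000000000000000000000000000000000000000) (nat_lit 5)
theorem c82468 : QOK q82468 := cut [q82438] ⟨c82438, trivial⟩ (nd (nat_lit 292) (nat_lit 0) (cs (lf (nat_lit 12) (nat_lit 269)) (rf (nat_lit 0)))) q82468 (by decide +kernel)
def q82498 : Q := Q.p (nat_lit 0x20000080000300000800000000000000000000000000000000000000000000000000000000000000) (nat_lit 0x40000700001c000040000040000000000000000000000000000000000000000000000000000000000000000000000000) (nat_lit 5)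
theorem c82498 : QOK q82498 := cut [q12761] ⟨c12761, trivial⟩ (nd (nat_lit 340) (nat_lit 0) (cs (lf (nat_lit 28) (nat_lit 251)) (nd (nat_lit 339) (nat_lit 0) (cs (lf (nat_lit 29) (nat_lit 273)) (nd (nat_lit 361) (nat_lit 0) (cs (rf (nat_lit 0)) (lf (nat_lit 46) (nat_lit 272)))))))) q82498 (by decide +kernel)
def q82542 : Q := Q.p (nat_lit 0xc0000200000800002000000000000000000000000000000000000000000000000000000000) (nat_lit 0x10000000000100000c000010000000000000000000000000000000000000000000000) (nat_lit 3)
theorem c82542 : QOK q82542 := cut [q12654] ⟨c12654, trivial⟩ (nd (nat_lit 207) (nat_lit 0) (cs (rf (nat_lit 0)) (lf (nat_lit 40) (nat_lit 206)))) q82542 (by decide +kernel)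
def q82547 : Q := Q.p (nat_lit 0x40000080000200000800000000000000000000000000000000000000000000000000000000000000) (nat_lit 0x140000b0000070000000000000002000000000000000000000000000000000000000000000000000000000) (nat_lit 5)
theorem c82547 : QOK q82547 := cut [q18220] ⟨c18220, trivial⟩ (nd (nat_lit 317) (nat_lit 0) (cs (lf (nat_lit 29) (nat_lit 251)) (nd (nat_lit 316) (nat_lit 0) (cs (lf (nat_lit 41) (nat_lit 250)) (nd (nat_lit 294) (nat_lit 0) (cs (lf (nat_lit 36) (nat_lit 228)) (rf (nat_lit 0)))))))) q82547 (by decide +kernel)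
def q82548 : Q := Q.p (nat_lit 0x40000080000200000800000000000000000000000000000000000000000000000000000000000000) (nat_lit 0x4000010000020000100000000000000002000000000000000000000000000000000000000000000000000000000) (nat_lit 3)
theorem c82548 : QOK q82548 := cut [q44056] ⟨c44056, trivial⟩ (nd (nat_lit 296) (nat_lit 0) (cs (lf (nat_lit 24) (nat_lit 229)) (rf (nat_lit 0)))) q82548 (by decide +kernel)
def q82549 : Q := Q.p (nat_lit 0x600000c0000200000800000000000000000000000000000000000000000000000000000000000000) (nat_lit 0x4000190000020000000000000000000000000000000000000000000000000000000000000000000000000) (nat_lit 3)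
theorem c82549 : QOK q82549 := cut [q25139] ⟨c25139, trivial⟩ (nd (nat_lit 316) (nat_lit 0) (cs (lf (nat_lit 41) (nat_lit 250)) (rf (nat_lit 0)))) q82549 (by decide +kernel)
def q82567 : Q := Q.p (nat_lit 0x10000080000200003800000000000000000000000000000000000000000000000000000000000000) (nat_lit 0x40000000004000003000004000000000000000000000000000000000000000000000000000) (nat_lit 3)
theorem c82567 : QOK q82567 := cut [q82566] ⟨c82566, trivial⟩ (nd (nat_lit 229) (nat_lit 0) (cs (lf (nat_lit 40) (nat_lit 228)) (rf (nat_lit 0)))) q82567 (by decide +kernel)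
def q82570 : Q := Q.p (nat_lit 0x20000080000200003800000000000000000000000000000000000000000000000000000000000000) (nat_lit 0x10000040000100000000004000003000004000000000000000000000000000000000000000000000000000) (nat_lit 4)
theorem c82570 : QOK q82570 := cut [q82566] ⟨c82566, trivial⟩ (nd (nat_lit 318) (nat_lit 0) (cs (lf (nat_lit 29) (nat_lit 251)) (nd (nat_lit 229) (nat_lit 0) (cs (lf (nat_lit 28) (nat_lit 229)) (rf (nat_lit 0)))))) q82570 (by decide +kernel)
def q82584 : Q := Q.p (nat_lit 0x200003800002000000000000000000000000000000000000000000000000000000000) (nat_lit 0x80000000004000001c0000c000010000040000000000000000000000000000000000000000) (nat_lit 5)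
theorem c82584 : QOK q82584 := cut [q82581] ⟨c82581, trivial⟩ (nd (nat_lit 228) (nat_lit 0) (cs (lf (nat_lit 18) (nat_lit 228)) (nd (nat_lit 226) (nat_lit 0) (cs (lf (nat_lit 1) (nat_lit 226)) (nd (nat_lit 206) (nat_lit 0) (cs (lf (nat_lit 42) (nat_lit 206)) (rf (nat_lit 0)))))))) q82584 (by decide +kernel)
def q82586 : Q := Q.p (nat_lit 0x20000080000200001800002000000000000000000000000000000000000000000000000000000000) (nat_lit 0x8000000000100000400000000000000008000020000000000000000000000000000000000000000000000) (nat_lit 3)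
theorem c82586 : QOK q82586 := cut [q82585] ⟨c82585, trivial⟩ (nd (nat_lit 274) (nat_lit 0) (cs (lf (nat_lit 30) (nat_lit 251)) (rf (nat_lit 0)))) q82586 (by decide +kernel)
def q82589 : Q := Q.p (nat_lit 0x20000080000200001800000000000000000000000000000000000000000000000000000000000000) (nat_lit 0x4000018000040000000000400000000000000000000000000000000000000000000000000000000000000000000) (nat_lit 3)
theorem c82589 : QOK q82589 := cut [q65918] ⟨c65918, trivial⟩ (nd (nat_lit 339) (nat_lit 0) (cs (rf (nat_lit 0)) (lf (nat_lit 34) (nat_lit 251)))) q82589 (by decide +kernel)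
def q82598 : Q := Q.p (nat_lit 0x80000200001800002000000000000000000000000000000000000000000000000000000000) (nat_lit 0x40000000000100001c000070000100000000000000000000000000000000000000000) (nat_lit 5)
theorem c82598 : QOK q82598 := cut [q82595] ⟨c82595, trivial⟩ (nd (nat_lit 206) (nat_lit 0) (cs (lf (nat_lit 46) (nat_lit 206)) (nd (nat_lit 207) (nat_lit 0) (cs (lf (nat_lit 47) (nat_lit 184)) (nd (nat_lit 185) (nat_lit 0) (cs (lf (nat_lit 29) (nat_lit 185)) (rf (nat_lit 0)))))))) q82598 (by decide +kernel)
def q82620 : Q := Q.p (nat_lit 0xe0000200003800002000000000000000000000000000000000000000000000000000000000) (nat_lit 0x4c000100000dc0000000000000000000000000000000000000000000000000000000000000000000) (nat_lit 5)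
theorem c82620 : QOK q82620 := cut [q82617] ⟨c82617, trivial⟩ (nd (nat_lit 296) (nat_lit 0) (cs (lf (nat_lit 29) (nat_lit 229)) (nd (nat_lit 314) (nat_lit 0) (cs (lf (nat_lit 10) (nat_lit 292)) (nd (nat_lit 274) (nat_lit 0) (cs (lf (nat_lit 17) (nat_lit 271)) (rf (nat_lit 0)))))))) q82620 (by decide +kernel)
def q82629 : Q := Q.p (nat_lit 0x80000200000800002000000000000000000000000000000000000000000000000000000000) (nat_lit 0x50000140000500000000000000008000000000000000000000000000000000000000000000000000) (nat_lit 4)
theorem c82629 : QOK q82629 := cut [q82627] ⟨c82627, trivial⟩ (nd (nat_lit 296) (nat_lit 0) (cs (lf (nat_lit 29) (nat_lit 229)) (nd (nat_lit 207) (nat_lit 0) (cs (lf (nat_lit 28) (nat_lit 207)) (rf (nat_lit 0)))))) q82629 (by decide +kernel)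
def q82631 : Q := Q.p (nat_lit 0x20000080000200001800000000000000000000000000000000000000000000000000000000000000) (nat_lit 0x100000c000010000000000400000000000000000000000000000000000000000000000000000000000000000000) (nat_lit 3)
theorem c82631 : QOK q82631 := cut [q9863] ⟨c9863, trivial⟩ (nd (nat_lit 339) (nat_lit 0) (cs (rf (nat_lit 0)) (lf (nat_lit 34) (nat_lit 251)))) q82631 (by decide +kernel)
def q82637 : Q := Q.p (nat_lit 0x40000080000200001800000000000000000000000000000000000000000000000000000000000000) (nat_lit 0x10000040000000000300001c000070000100000000000000000000000000000000000000000) (nat_lit 6)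
theorem c82637 : QOK q82637 := cut [q82634] ⟨c82634, trivial⟩ (nd (nat_lit 229) (nat_lit 0) (cs (lf (nat_lit 28) (nat_lit 229)) (nd (nat_lit 206) (nat_lit 0) (cs (lf (nat_lit 46) (nat_lit 206)) (nd (nat_lit 207) (nat_lit 0) (cs (lf (nat_lit 47) (nat_lit 184)) (rf (nat_lit 0)))))))) q82637 (by decide +kernel)
def q82645 : Q := Q.p (nat_lit 0x20000180000200000800000000000000000000000000000000000000000000000000000000000000) (nat_lit 0x400001c000640000000000000000000000000000000000000000000000000000000000000000000000000) (nat_lit 4)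
theorem c82645 : QOK q82645 := cut [q82643] ⟨c82643, trivial⟩ (nd (nat_lit 316) (nat_lit 0) (cs (lf (nat_lit 41) (nat_lit 250)) (nd (nat_lit 297) (nat_lit 0) (cs (lf (nat_lit 6) (nat_lit 294)) (rf (nat_lit 0)))))) q82645 (by decide +kernel)
def q82664 : Q := Q.p (nat_lit 0x400003000008000000000000000000000000000000000000000000000000000000000) (nat_lit 0x40000100000800000000000000020000080000000000000000000000000000000000000000000000) (nat_lit 3)
theorem c82664 : QOK q82664 := cut [q17544] ⟨c17544, trivial⟩ (nd (nat_lit 209) (nat_lit 0) (cs (lf (nat_lit 36) (nat_lit 186)) (rf (nat_lit 0)))) q82664 (by decide +kernel)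
def q82682 : Q := Q.p (nat_lit 0x80000600001800000000000000000000000000000000000000000000000000000000000000) (nat_lit 0xc000030000140000000000000002000008000020000000000000000000000000000000000000000000000) (nat_lit 5)
theorem c82682 : QOK q82682 := cut [q82585] ⟨c82585, trivial⟩ (nd (nat_lit 317) (nat_lit 0) (cs (lf (nat_lit 30) (nat_lit 251)) (nd (nat_lit 316) (nat_lit 0) (cs (lf (nat_lit 41) (nat_lit 250)) (nd (nat_lit 229) (nat_lit 0) (cs (lf (nat_lit 40) (nat_lit 228)) (rf (nat_lit 0)))))))) q82682 (by decide +kernel)
def q82691 : Q := Q.p (nat_lit 0x60000180000400001000000000000000000000000000000000000000000000000000000000000000) (nat_lit 0x20000180000060000000000000000000000000000000000000000000000000000000000000000000000000) (nat_lit 3)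
theorem c82691 : QOK q82691 := cut [q82690] ⟨c82690, trivial⟩ (nd (nat_lit 319) (nat_lit 0) (cs (lf (nat_lit 29) (nat_lit 252)) (rf (nat_lit 0)))) q82691 (by decide +kernel)
def q82700 : Q := Q.p (nat_lit 0x1e0000080000200000800000000000000000000000000000000000000000000000000000000000000) (nat_lit 0x4000010000e00000000000000000000000000000000000000000000000000000000000000000000000000) (nat_lit 3)
theorem c82700 : QOK q82700 := cut [q14853] ⟨c14853, trivial⟩ (nd (nat_lit 298) (nat_lit 0) (cs (lf (nat_lit 17) (nat_lit 295)) (rf (nat_lit 0)))) q82700 (by decide +kernel)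
def q82750 : Q := Q.p (nat_lit 0x1000004000030000000000000000000000000000000000000000000000000000000000000000000000000000000) (nat_lit 0x20000180000600000000008000000000080000000000000000000000000000000000000000000000000000000000000000000000000) (nat_lit 4)
theorem c82750 : QOK q82750 := cut [q47902] ⟨c47902, trivial⟩ (nd (nat_lit 382) (nat_lit 0) (cs (rf (nat_lit 0)) (lf (nat_lit 35) (nat_lit 294)))) q82750 (by decide +kernel)
def q82760 : Q := Q.p (nat_lit 0x1000004000030000000000080000000000000000000000000000000000000000000000000000000000000000000) (nat_lit 0x80000300000c000000000080000000000e0000000000000000000000000000000000000000000000000000000000000000000000000) (nat_lit 5)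
theorem c82760 : QOK q82760 := cut [q82759] ⟨c82759, trivial⟩ (nd (nat_lit 293) (nat_lit 0) (cs (lf (nat_lit 45) (nat_lit 271)) (rf (nat_lit 0)))) q82760 (by decide +kernel)
def q82766 : Q := Q.p (nat_lit 0x1000004000030000000000080000200000800000000000000000000000000000000000000000000000000000000) (nat_lit 0xa0000380000e000000000000000000000e0000000000000000000000000000000000000000000000000000000000000000000000000) (nat_lit 6)
theorem c82766 : QOK q82766 := cut [q82765] ⟨c82765, trivial⟩ (nd (nat_lit 293) (nat_lit 0) (cs (lf (nat_lit 28) (nat_lit 227)) (rf (nat_lit 0)))) q82766 (by decide +kernel)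
def q82788 : Q := Q.p (nat_lit 0xf0000000000000000000000000000000000000000000000000000000000000000000000000000000) (nat_lit 0xe0000100000e00000000000000000000000000000000000000000000000000000000000000000000000000) (nat_lit 4)
theorem c82788 : QOK q82788 := cut [q43990] ⟨c43990, trivial⟩ (nd (nat_lit 298) (nat_lit 0) (cs (lf (nat_lit 16) (nat_lit 294)) (nd (nat_lit 320) (nat_lit 0) (cs (lf (nat_lit 17) (nat_lit 295)) (rf (nat_lit 0)))))) q82788 (by decide +kernel)
def q82841 : Q := Q.p (nat_lit 0x18000048000100000400000000000000000000000000000000000000000000000000000000000000000000000000) (nat_lit 0x8000024000030000000000000000000000000000000000000000000000000000000000000000000000000000000000000) (nat_lit 3)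
theorem c82841 : QOK q82841 := cut [q55339] ⟨c55339, trivial⟩ (nd (nat_lit 365) (nat_lit 0) (cs (lf (nat_lit 29) (nat_lit 298)) (rf (nat_lit 0)))) q82841 (by decide +kernel)
def q82877 : Q := Q.p (nat_lit 0xe0000200000000000000000000000000000000000000000000000000000000000000000000000000) (nat_lit 0x70000018000470000000000000000000000000000000000000000000000000000000000000000000000000) (nat_lit 5)
theorem c82877 : QOK q82877 := cut [q82876] ⟨c82876, trivial⟩ (nd (nat_lit 316) (nat_lit 0) (cs (lf (nat_lit 17) (nat_lit 294)) (rf (nat_lit 0)))) q82877 (by decide +kernel)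
def q82897 : Q := Q.p (nat_lit 0x1c0000100000000000000000000000000000000000000000000000000000000000000000000000000) (nat_lit 0x2200000e0000000000000000000000000000000000000000000000000000000000000000000000000) (nat_lit 3)
theorem c82897 : QOK q82897 := cut [q15985] ⟨c15985, trivial⟩ (nd (nat_lit 295) (nat_lit 0) (cs (lf (nat_lit 18) (nat_lit 295)) (rf (nat_lit 0)))) q82897 (by decide +kernel)
def q82910 : Q := Q.p (nat_lit 0x3c0000000000000000000000000000000000000000000000000000000000000000000000000000000) (nat_lit 0x3b8000400000000000000000000000000000000000000000000000000000000000000000000000000000000) (nat_lit 4)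
theorem c82910 : QOK q82910 := cut [q13219] ⟨c13219, trivial⟩ (nd (nat_lit 344) (nat_lit 0) (cs (lf (nat_lit 4) (nat_lit 318)) (nd (nat_lit 340) (nat_lit 0) (cs (lf (nat_lit 11) (nat_lit 317)) (rf (nat_lit 0)))))) q82910 (by decide +kernel)
def q82991 : Q := Q.p (nat_lit 0x78000000000000003c00000000000000000000000000000000000000000000000000000000000000) (nat_lit 0x3800004000380000000000000018000000000000000000000000000000000000000000000000000000000) (nat_lit 5)
theorem c82991 : QOK q82991 := cut [q43036] ⟨c43036, trivial⟩ (nd (nat_lit 231) (nat_lit 0) (cs (lf (nat_lit 17) (nat_lit 228)) (rf (nat_lit 0)))) q82991 (by decide +kernel)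
def q83001 : Q := Q.p (nat_lit 0x78000000000000002000000000000000000000000000000000000000000000000000000000000000) (nat_lit 0x33000080000700000800000000000000000000000000000000000000000000000000000000000000000000) (nat_lit 5)
theorem c83001 : QOK q83001 := cut [q48392] ⟨c48392, trivial⟩ (nd (nat_lit 340) (nat_lit 0) (cs (lf (nat_lit 5) (nat_lit 315)) (nd (nat_lit 336) (nat_lit 0) (cs (lf (nat_lit 10) (nat_lit 314)) (rf (nat_lit 0)))))) q83001 (by decide +kernel)
def q83127 : Q := Q.p (nat_lit 0x50000000000000003c00000000000000000000000000000000000000000000000000000000000000) (nat_lit 0x7a0001ac0003c000018000020001a800000000000000000000000000000000000000000000000000000000) (nat_lit 11)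
theorem c83127 : QOK q83127 := cut [q48367] ⟨c48367, trivial⟩ (nd (nat_lit 272) (nat_lit 0) (cs (lf (nat_lit 11) (nat_lit 249)) (nd (nat_lit 294) (nat_lit 0) (cs (lf (nat_lit 35) (nat_lit 228)) (nd (nat_lit 227) (nat_lit 0) (cs (lf (nat_lit 46) (nat_lit 227)) (nd (nat_lit 317) (nat_lit 0) (cs (lf (nat_lit 29) (nat_lit 250)) (nd (nat_lit 231) (nat_lit 0) (cs (lf (nat_lit 17) (nat_lit 228)) (nd (nat_lit 315) (nat_lit 0) (cs (lf (nat_lit 41) (nat_lit 249)) (nd (nat_lit 296) (nat_lit 0) (cs (lf (nat_lit 17) (nat_lit 293)) (nd (nat_lit 295) (nat_lit 0) (cs (lf (nat_lit 12) (nat_lit 292)) (nd (nat_lit 319) (nat_lit 0) (cs (lf (nat_lit 18) (nat_lit 294)) (rf (nat_lit 0)))))))))))))))))))) q83127 (by decide +kernel)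
def q83207 : Q := Q.p (nat_lit 0x6000010000000000070000000000000000000000000000000000000000000000) (nat_lit 0x8000000000000000e0000380000fe0002800000000000000000000000000000000000) (nat_lit 6)
theorem c83207 : QOK q83207 := cut [q4891, q8023] ⟨c4891, c8023, trivial⟩ (nd (nat_lit 188) (nat_lit 0) (cs (nd (nat_lit 210) (nat_lit 0) (cs (lf (nat_lit 41) (nat_lit 187)) (nd (nat_lit 167) (nat_lit 0) (cs (lf (nat_lit 34) (nat_lit 166)) (nd (nat_lit 166) (nat_lit 0) (cs (lf (nat_lit 35) (nat_lit 144)) (nd (nat_lit 165) (nat_lit 0) (cs (lf (nat_lit 47) (nat_lit 143)) (lf (nat_lit 9) (nat_lit 163)))))))))) (cs (nd (nat_lit 187) (nat_lit 0) (cs (rf (nat_lit 0)) (rf (nat_lit 1)))) (nd (nat_lit 210) (nat_lit 0) (cs (lf (nat_lit 41) (nat_lit 187)) (nd (nat_lit 187) (nat_lit 0) (cs (lf (nat_lit 5) (nat_lit 185)) (lf (nat_lit 4) (nat_lit 184))))))))) q83207 (by decide +kernel)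
def q83218 : Q := Q.p (nat_lit 0x78000000000000000000000000000000000000000000000) (nat_lit 0x7000080000700000000000000000000000000000000000000000) (nat_lit 4)
theorem c83218 : QOK q83218 := cut [q8778] ⟨c8778, trivial⟩ (nd (nat_lit 205) (nat_lit 0) (cs (lf (nat_lit 11) (nat_lit 182)) (nd (nat_lit 165) (nat_lit 0) (cs (rf (nat_lit 0)) (lf (nat_lit 16) (nat_lit 161)))))) q83218 (by decide +kernel)
def q83298 : Q := Q.p (nat_lit 0xf0000080000000000000000000000000000000000000000) (nat_lit 0x100000e40000000000000000000000000000000000000000) (nat_lit 3)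
theorem c83298 : QOK q83298 := cut [q8023] ⟨c8023, trivial⟩ (nd (nat_lit 188) (nat_lit 0) (cs (lf (nat_lit 23) (nat_lit 162)) (rf (nat_lit 0)))) q83298 (by decide +kernel)
def q83332 : Q := Q.p (nat_lit 0x200000f0000000000000000000000000000000000000000000000) (nat_lit 0x10000008000070000000000000000000000000000000000000000) (nat_lit 3)
theorem c83332 : QOK q83332 := cut [q19153] ⟨c19153, trivial⟩ (nd (nat_lit 183) (nat_lit 0) (cs (rf (nat_lit 0)) (lf (nat_lit 4) (nat_lit 183)))) q83332 (by decide +kernel)
def q83349 : Q := Q.p (nat_lit 0x1e0000000000000000000000000000000000000000000000) (nat_lit 0x1c000200001c00000000000000000000000000000000000000000) (nat_lit 4)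
theorem c83349 : QOK q83349 := cut [q83348] ⟨c83348, trivial⟩ (nd (nat_lit 207) (nat_lit 0) (cs (lf (nat_lit 11) (nat_lit 184)) (rf (nat_lit 0)))) q83349 (by decide +kernel)
def q83369 : Q := Q.p (nat_lit 0x80001e000000000000000e0000000000000000000000000000000000000000000000) (nat_lit 0xc000000000010000160001180007e0001980002000008000000000000000000000000) (nat_lit 10)
theorem c83369 : QOK q83369 := cut [q83334, q83367] ⟨c83334, c83367, trivial⟩ (nd (nat_lit 184) (nat_lit 0) (cs (rf (nat_lit 0)) (nd (nat_lit 274) (nat_lit 0) (cs (lf (nat_lit 5) (nat_lit 249)) (rf (nat_lit 1)))))) q83369 (by decide +kernel)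
def q83410 : Q := Q.p (nat_lit 0x800026000080000200000a0000000000000000000000000000000000000000000000) (nat_lit 0x1000046000150000700001000000000000000000000000000000000000) (nat_lit 6)
theorem c83410 : QOK q83410 := cut [q83334] ⟨c83334, trivial⟩ (nd (nat_lit 166) (nat_lit 0) (cs (lf (nat_lit 34) (nat_lit 165)) (nd (nat_lit 144) (nat_lit 0) (cs (lf (nat_lit 33) (nat_lit 143)) (nd (nat_lit 186) (nat_lit 0) (cs (lf (nat_lit 47) (nat_lit 164)) (nd (nat_lit 184) (nat_lit 0) (cs (lf (nat_lit 5) (nat_lit 184)) (rf (nat_lit 0)))))))))) q83410 (by decide +kernel)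
def q83503 : Q := Q.p (nat_lit 0x8000038000000000000000000000000000000000000000000000) (nat_lit 0x1400000600001c000000000000000000000000000000000000000) (nat_lit 4)
theorem c83503 : QOK q83503 := cut [q17223] ⟨c17223, trivial⟩ (nd (nat_lit 182) (nat_lit 0) (cs (lf (nat_lit 5) (nat_lit 182)) (nd (nat_lit 181) (nat_lit 0) (cs (rf (nat_lit 0)) (lf (nat_lit 4) (nat_lit 181)))))) q83503 (by decide +kernel)
def q83505 : Q := Q.p (nat_lit 0x3c000030000000000000000000000000000000000000000) (nat_lit 0x400001800000000000000080000200000000000000000000000000000) (nat_lit 3)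
theorem c83505 : QOK q83505 := cut [q37680] ⟨c37680, trivial⟩ (nd (nat_lit 204) (nat_lit 0) (cs (lf (nat_lit 11) (nat_lit 181)) (rf (nat_lit 0)))) q83505 (by decide +kernel)
def q83565 : Q := Q.p (nat_lit 0x2000008000020000040000000000000000000000000000000000000000000000) (nat_lit 0x800000000000000010000080000100000400000000000000000000000000000000000) (nat_lit 3)
theorem c83565 : QOK q83565 := cut [q33] ⟨c33, trivial⟩ (nd (nat_lit 208) (nat_lit 0) (cs (rf (nat_lit 0)) (lf (nat_lit 42) (nat_lit 186)))) q83565 (by decide +kernel)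
def q83616 : Q := Q.p (nat_lit 0x7800000000000000000000000000000000000000000000000000000000000000) (nat_lit 0xf00008700003800000000000000000000000000000000000000000000000000000000) (nat_lit 6)
theorem c83616 : QOK q83616 := cut [q83612] ⟨c83612, trivial⟩ (nd (nat_lit 228) (nat_lit 0) (cs (lf (nat_lit 22) (nat_lit 228)) (nd (nat_lit 273) (nat_lit 0) (cs (lf (nat_lit 11) (nat_lit 250)) (nd (nat_lit 250) (nat_lit 0) (cs (lf (nat_lit 23) (nat_lit 227)) (nd (nat_lit 274) (nat_lit 0) (cs (lf (nat_lit 6) (nat_lit 251)) (rf (nat_lit 0)))))))))) q83616 (by decide +kernel)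
def q83621 : Q := Q.p (nat_lit 0xc00003800018000060000000000000000000000000000000000000000000000000000) (nat_lit 0x200001c000070000000000000000000000000000000000000000000000) (nat_lit 4)
theorem c83621 : QOK q83621 := cut [q83619] ⟨c83619, trivial⟩ (nd (nat_lit 208) (nat_lit 0) (cs (lf (nat_lit 47) (nat_lit 186)) (nd (nat_lit 207) (nat_lit 0) (cs (lf (nat_lit 0) (nat_lit 206)) (rf (nat_lit 0)))))) q83621 (by decide +kernel)
def q83632 : Q := Q.p (nat_lit 0x60000080000600000800000000000000000000000000000000000000000000000000000000000000) (nat_lit 0x4000090000070000000000000002000000000000000000000000000000000000000000000000000000000) (nat_lit 4)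
theorem c83632 : QOK q83632 := cut [q82685] ⟨c82685, trivial⟩ (nd (nat_lit 316) (nat_lit 0) (cs (lf (nat_lit 41) (nat_lit 250)) (rf (nat_lit 0)))) q83632 (by decide +kernel)
def q83647 : Q := Q.p (nat_lit 0x80000600003800000000000000000000000000000000000000000000000000000000000000) (nat_lit 0x1800006000010000000000000000a000000000000000000000000000000000000000000000000000000000) (nat_lit 4)
theorem c83647 : QOK q83647 := cut [q83646] ⟨c83646, trivial⟩ (nd (nat_lit 317) (nat_lit 0) (cs (lf (nat_lit 30) (nat_lit 251)) (rf (nat_lit 0)))) q83647 (by decide +kernel)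
def q83666 : Q := Q.p (nat_lit 0x400001800002000000000000000000000000000000000000000000000000000000000) (nat_lit 0x40000100000200000000000000008000020000000000000000000000000000000000000000000000) (nat_lit 3)
theorem c83666 : QOK q83666 := cut [q40801] ⟨c40801, trivial⟩ (nd (nat_lit 296) (nat_lit 0) (cs (lf (nat_lit 42) (nat_lit 229)) (rf (nat_lit 0)))) q83666 (by decide +kernel)
def q83671 : Q := Q.p (nat_lit 0x100000c00002000000000000000000000000000000000000000000000000000000000) (nat_lit 0x10000040000000000000001000008000020000000000000000000000000000000000000000000000) (nat_lit 3)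
theorem c83671 : QOK q83671 := cut [q22936] ⟨c22936, trivial⟩ (nd (nat_lit 294) (nat_lit 0) (cs (lf (nat_lit 30) (nat_lit 228)) (rf (nat_lit 0)))) q83671 (by decide +kernel)
def q83676 : Q := Q.p (nat_lit 0x100003c00001000000000000000000000000000000000000000000000000000000000) (nat_lit 0x40000000004000002000008000020000000000000000000000000000000000000000000000) (nat_lit 3)
theorem c83676 : QOK q83676 := cut [q20249] ⟨c20249, trivial⟩ (nd (nat_lit 229) (nat_lit 0) (cs (rf (nat_lit 0)) (lf (nat_lit 18) (nat_lit 228)))) q83676 (by decide +kernel)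
def q83680 : Q := Q.p (nat_lit 0x100003800000000000000000000000000000000000000000000000000000000000000) (nat_lit 0x6c0004000000000000000000000000000000000000000000000000000000000000000) (nat_lit 3)
theorem c83680 : QOK q83680 := cut [q11855] ⟨c11855, trivial⟩ (nd (nat_lit 273) (nat_lit 0) (cs (rf (nat_lit 0)) (lf (nat_lit 6) (nat_lit 250)))) q83680 (by decide +kernel)
def q83685 : Q := Q.p (nat_lit 0x600007800000000000000000000000000000000000000000000000000000000000000) (nat_lit 0x100000000000000003000008000020000000000000000000000000000000000000000000000) (nat_lit 3)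
theorem c83685 : QOK q83685 := cut [q82585] ⟨c82585, trivial⟩ (nd (nat_lit 229) (nat_lit 0) (cs (lf (nat_lit 23) (nat_lit 228)) (rf (nat_lit 0)))) q83685 (by decide +kernel)
def q83694 : Q := Q.p (nat_lit 0xf000000000000000000000000000000000000000000000000000000000000000) (nat_lit 0x800077000000000000000000000000000000000000000000000000000000000) (nat_lit 4)
theorem c83694 : QOK q83694 := cut [q81052] ⟨c81052, trivial⟩ (nd (nat_lit 229) (nat_lit 0) (cs (lf (nat_lit 22) (nat_lit 229)) (nd (nat_lit 251) (nat_lit 0) (cs (lf (nat_lit 23) (nat_lit 228)) (rf (nat_lit 0)))))) q83694 (by decide +kernel)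
def q83696 : Q := Q.p (nat_lit 0x400003c00000000000000000000000000000000000000000000000000000000000000) (nat_lit 0x9c0000200000000000000000000000000000000000000000000000000000000000000) (nat_lit 3)
theorem c83696 : QOK q83696 := cut [q3762] ⟨c3762, trivial⟩ (nd (nat_lit 249) (nat_lit 0) (cs (rf (nat_lit 0)) (lf (nat_lit 5) (nat_lit 249)))) q83696 (by decide +kernel)
def q83700 : Q := Q.p (nat_lit 0x400003c00000000000000000000000000000000000000000000000000000000000000) (nat_lit 0x800000200001c00000000000000000000000000000000000000000000000000000000) (nat_lit 3)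
theorem c83700 : QOK q83700 := cut [q2063] ⟨c2063, trivial⟩ (nd (nat_lit 249) (nat_lit 0) (cs (rf (nat_lit 0)) (lf (nat_lit 5) (nat_lit 249)))) q83700 (by decide +kernel)
def q83712 : Q := Q.p (nat_lit 0x3000006000000000000000000000000000000000000000000000000000000000) (nat_lit 0xc800001800000000000000000000000000000000000000000000000000000000) (nat_lit 3)
theorem c83712 : QOK q83712 := cut [q83711] ⟨c83711, trivial⟩ (nd (nat_lit 228) (nat_lit 0) (cs (lf (nat_lit 0) (nat_lit 227)) (rf (nat_lit 0)))) q83712 (by decide +kernel)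
def q83718 : Q := Q.p (nat_lit 0x40000100000400002000000000000000000000000000000000000000000000000000000000000000) (nat_lit 0x280000e000038000000000000000800000000000000000000000000000000000000000000000000000000000000000000) (nat_lit 5)
theorem c83718 : QOK q83718 := cut [q83717] ⟨c83717, trivial⟩ (nd (nat_lit 340) (nat_lit 0) (cs (lf (nat_lit 34) (nat_lit 252)) (rf (nat_lit 0)))) q83718 (by decide +kernel)
def q83723 : Q := Q.p (nat_lit 0x3000006000000000000000000000000000000000000000000000000000000000) (nat_lit 0xc800001800000000000000000000000000000000000000000000000000000000) (nat_lit 3)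
theorem c83723 : QOK q83723 := cut [q81406] ⟨c81406, trivial⟩ (nd (nat_lit 254) (nat_lit 0) (cs (lf (nat_lit 18) (nat_lit 229)) (rf (nat_lit 0)))) q83723 (by decide +kernel)
def q83728 : Q := Q.p (nat_lit 0x100000400001000004000000000000000000000000000000000000000000000000000000000) (nat_lit 0x280000e0000280000000000000000000000000000000000000000000000000000000000000000000000000) (nat_lit 4)
theorem c83728 : QOK q83728 := cut [q82046] ⟨c82046, trivial⟩ (nd (nat_lit 319) (nat_lit 0) (cs (lf (nat_lit 28) (nat_lit 230)) (nd (nat_lit 317) (nat_lit 0) (cs (lf (nat_lit 40) (nat_lit 229)) (rf (nat_lit 0)))))) q83728 (by decide +kernel)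
def q83731 : Q := Q.p (nat_lit 0x100000400003000004000000000000000000000000000000000000000000000000000000000) (nat_lit 0x80000380000e0000080000800000000000000000000000000000000000000000000000000000000000000000000) (nat_lit 5)
theorem c83731 : QOK q83731 := cut [q42162] ⟨c42162, trivial⟩ (nd (nat_lit 317) (nat_lit 0) (cs (lf (nat_lit 40) (nat_lit 229)) (nd (nat_lit 318) (nat_lit 0) (cs (lf (nat_lit 41) (nat_lit 251)) (rf (nat_lit 0)))))) q83731 (by decide +kernel)
def q83734 : Q := Q.p (nat_lit 0x100000c00003000004000000000000000000000000000000000000000000000000000000000) (nat_lit 0x18000060000080000000000000000000000000000000000000000000000000000000000000000000000000) (nat_lit 3)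
theorem c83734 : QOK q83734 := cut [q13202] ⟨c13202, trivial⟩ (nd (nat_lit 318) (nat_lit 0) (cs (lf (nat_lit 30) (nat_lit 252)) (rf (nat_lit 0)))) q83734 (by decide +kernel)
def q83749 : Q := Q.p (nat_lit 0x400003000004000010000000000000000000000000000000000000000000000000000) (nat_lit 0x20000080000c8000338000e80007a0000000000000000000000000000000000000000000000) (nat_lit 7)
theorem c83749 : QOK q83749 := cut [q83739, q83711, q83746] ⟨c83739, c83711, c83746, trivial⟩ (nd (nat_lit 209) (nat_lit 0) (cs (lf (nat_lit 35) (nat_lit 186)) (nd (nat_lit 210) (nat_lit 0) (cs (nd (nat_lit 207) (nat_lit 0) (cs (lf (nat_lit 47) (nat_lit 185)) (nd (nat_lit 275) (nat_lit 0) (cs (lf (nat_lit 29) (nat_lit 208)) (nd (nat_lit 188) (nat_lit 0) (cs (lf (nat_lit 17) (nat_lit 185)) (rf (nat_lit 0)))))))) (cs (nd (nat_lit 229) (nat_lit 0) (cs (lf (nat_lit 6) (nat_lit 207)) (nd (nat_lit 228) (nat_lit 0) (cs (lf (nat_lit 12) (nat_lit 205)) (rf (nat_lit 1)))))) (nd (nat_lit 211) (nat_lit 0) (cs (lf (nat_lit 11) (nat_lit 207)) (rf (nat_lit 2))))))))) q83749 (by decide +kernel)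
def q83751 : Q := Q.p (nat_lit 0x40000100000400003000004000000000000000000000000000000000000000000000000000000000) (nat_lit 0x10000000000200000800000000000000010000040000000000000000000000000000000000000000000000) (nat_lit 3)
theorem c83751 : QOK q83751 := cut [q79068] ⟨c79068, trivial⟩ (nd (nat_lit 275) (nat_lit 0) (cs (lf (nat_lit 30) (nat_lit 252)) (rf (nat_lit 0)))) q83751 (by decide +kernel)
def q83826 : Q := Q.p (nat_lit 0x380000500000000000000000000000000000000000000000000000000000000000000000000) (nat_lit 0x1c000060000880000000000000000000000000000000000000000000000000000000000000000000) (nat_lit 4)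
theorem c83826 : QOK q83826 := cut [q83825] ⟨c83825, trivial⟩ (nd (nat_lit 294) (nat_lit 0) (cs (lf (nat_lit 23) (nat_lit 271)) (rf (nat_lit 0)))) q83826 (by decide +kernel)
def q83829 : Q := Q.p (nat_lit 0x500003000000000000000000000000000000000000000000000000000000000000000) (nat_lit 0xa8000c000000000000000000000000000000000000000000000000000000000000000) (nat_lit 3)
theorem c83829 : QOK q83829 := cut [q83821] ⟨c83821, trivial⟩ (nd (nat_lit 273) (nat_lit 0) (cs (lf (nat_lit 12) (nat_lit 249)) (rf (nat_lit 0)))) q83829 (by decide +kernel)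
def q83835 : Q := Q.p (nat_lit 0x100000400003000004000000000000000000000000000000000000000000000000000000000) (nat_lit 0x8000000000020000380000e0000200000000000000000000000000000000000000000) (nat_lit 5)
theorem c83835 : QOK q83835 := cut [q18739] ⟨c18739, trivial⟩ (nd (nat_lit 207) (nat_lit 0) (cs (lf (nat_lit 46) (nat_lit 207)) (nd (nat_lit 208) (nat_lit 0) (cs (lf (nat_lit 47) (nat_lit 185)) (nd (nat_lit 186) (nat_lit 0) (cs (lf (nat_lit 29) (nat_lit 186)) (rf (nat_lit 0)))))))) q83835 (by decide +kernel)
def q83839 : Q := Q.p (nat_lit 0x600003000000000000000000000000000000000000000000000000000000000000000) (nat_lit 0x98000c000000000000000000000000000000000000000000000000000000000000000) (nat_lit 3)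
theorem c83839 : QOK q83839 := cut [q79061] ⟨c79061, trivial⟩ (nd (nat_lit 254) (nat_lit 0) (cs (rf (nat_lit 0)) (lf (nat_lit 6) (nat_lit 251)))) q83839 (by decide +kernel)
def q83850 : Q := Q.p (nat_lit 0x1e0000600000000000000000000000000000000000000000000000000000000000000000000) (nat_lit 0x1c000e00000100000000000000000000000000000000000000000000000000000000000000000000) (nat_lit 4)
theorem c83850 : QOK q83850 := cut [q83848] ⟨c83848, trivial⟩ (nd (nat_lit 315) (nat_lit 0) (cs (lf (nat_lit 11) (nat_lit 292)) (nd (nat_lit 297) (nat_lit 0) (cs (lf (nat_lit 10) (nat_lit 293)) (rf (nat_lit 0)))))) q83850 (by decide +kernel)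
def q83882 : Q := Q.p (nat_lit 0x1c0000600003000000000000000000000000000000000000000000000000000000000000000) (nat_lit 0x300001c0000000000000000000000000000000000000000000000000000000000000000000) (nat_lit 3)
theorem c83882 : QOK q83882 := cut [q83881] ⟨c83881, trivial⟩ (nd (nat_lit 271) (nat_lit 0) (cs (lf (nat_lit 13) (nat_lit 249)) (rf (nat_lit 0)))) q83882 (by decide +kernel)
def q83934 : Q := Q.p (nat_lit 0x300000400001000000000000000000000000000000000000000000000000000000000000000) (nat_lit 0x80000200000c0000000000000000000004000000000000000000000000000000000000000000000000000000000) (nat_lit 3)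
theorem c83934 : QOK q83934 := cut [q83933] ⟨c83933, trivial⟩ (nd (nat_lit 319) (nat_lit 0) (cs (lf (nat_lit 24) (nat_lit 230)) (rf (nat_lit 0)))) q83934 (by decide +kernel)
def q83937 : Q := Q.p (nat_lit 0x80000100000400001000000000000000000000000000000000000000000000000000000000000000) (nat_lit 0x8000020000040000200000000000000004000000000000000000000000000000000000000000000000000000000) (nat_lit 3)
theorem c83937 : QOK q83937 := cut [q83933] ⟨c83933, trivial⟩ (nd (nat_lit 297) (nat_lit 0) (cs (lf (nat_lit 24) (nat_lit 230)) (rf (nat_lit 0)))) q83937 (by decide +kernel)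
def q83956 : Q := Q.p (nat_lit 0x400001000004000010000000000000000000000000000000000000000000000000000) (nat_lit 0xa0000380000a00000000000000020000080000000000000000000000000000000000000000000000) (nat_lit 5)
theorem c83956 : QOK q83956 := cut [q57678] ⟨c57678, trivial⟩ (nd (nat_lit 297) (nat_lit 0) (cs (lf (nat_lit 28) (nat_lit 208)) (nd (nat_lit 187) (nat_lit 0) (cs (lf (nat_lit 34) (nat_lit 186)) (nd (nat_lit 296) (nat_lit 0) (cs (lf (nat_lit 29) (nat_lit 230)) (rf (nat_lit 0)))))))) q83956 (by decide +kernel)
def q83958 : Q := Q.p (nat_lit 0x400001000004000010000000000000000000000000000000000000000000000000000) (nat_lit 0x800002000008000000000200000c0000200000000000000000000000000000000000000000) (nat_lit 4)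
theorem c83958 : QOK q83958 := cut [q11035] ⟨c11035, trivial⟩ (nd (nat_lit 187) (nat_lit 0) (cs (lf (nat_lit 34) (nat_lit 186)) (nd (nat_lit 186) (nat_lit 0) (cs (lf (nat_lit 35) (nat_lit 164)) (rf (nat_lit 0)))))) q83958 (by decide +kernel)
def q83962 : Q := Q.p (nat_lit 0x400007800000000000000000000000000000000000000000000000000000000000000) (nat_lit 0xae0000700003800000000000000000000000000000000000000000000000000000000) (nat_lit 6)
theorem c83962 : QOK q83962 := cut [q82663] ⟨c82663, trivial⟩ (nd (nat_lit 228) (nat_lit 0) (cs (lf (nat_lit 22) (nat_lit 228)) (nd (nat_lit 250) (nat_lit 0) (cs (lf (nat_lit 23) (nat_lit 227)) (rf (nat_lit 0)))))) q83962 (by decide +kernel)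
def q83965 : Q := Q.p (nat_lit 0x400007000016000010000000000000000000000000000000000000000000000000000) (nat_lit 0x2000008000000000000000e0000180000000000000000000000000000000000000000000000) (nat_lit 4)
theorem c83965 : QOK q83965 := cut [q82234] ⟨c82234, trivial⟩ (nd (nat_lit 209) (nat_lit 0) (cs (lf (nat_lit 35) (nat_lit 186)) (nd (nat_lit 275) (nat_lit 0) (cs (lf (nat_lit 29) (nat_lit 208)) (rf (nat_lit 0)))))) q83965 (by decide +kernel)
def q83984 : Q := Q.p (nat_lit 0x400007000000000000000000000000000000000000000000000000000000000000000) (nat_lit 0xea00018000000000000000000000000000000000000000000000000000000000000000) (nat_lit 4)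
theorem c83984 : QOK q83984 := cut [q83982] ⟨c83982, trivial⟩ (nd (nat_lit 255) (nat_lit 0) (cs (lf (nat_lit 11) (nat_lit 251)) (nd (nat_lit 278) (nat_lit 0) (cs (lf (nat_lit 4) (nat_lit 252)) (rf (nat_lit 0)))))) q83984 (by decide +kernel)
def q83988 : Q := Q.p (nat_lit 0x60000000000600003000000000000000000000000000000000000000000000000000000000000000) (nat_lit 0x18000000000100000800000800000000000000000000000000000000000000000000000000000000000000) (nat_lit 3)
theorem c83988 : QOK q83988 := cut [q4049] ⟨c4049, trivial⟩ (nd (nat_lit 296) (nat_lit 0) (cs (rf (nat_lit 0)) (lf (nat_lit 41) (nat_lit 251)))) q83988 (by decide +kernel)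
def q83991 : Q := Q.p (nat_lit 0x60000100000600001000000000000000000000000000000000000000000000000000000000000000) (nat_lit 0x20000090000e00000000000000004000000000000000000000000000000000000000000000000000000000) (nat_lit 4)
theorem c83991 : QOK q83991 := cut [q83989] ⟨c83989, trivial⟩ (nd (nat_lit 319) (nat_lit 0) (cs (lf (nat_lit 29) (nat_lit 252)) (nd (nat_lit 297) (nat_lit 0) (cs (lf (nat_lit 24) (nat_lit 230)) (rf (nat_lit 0)))))) q83991 (by decide +kernel)
def q84011 : Q := Q.p (nat_lit 0xf0000000000400003000000000000000000000000000000000000000000000000000000000000000) (nat_lit 0x20000008000670000800000000004000000000000000000000000000000000000000000000000000000000) (nat_lit 5)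
theorem c84011 : QOK q84011 := cut [q84000] ⟨c84000, trivial⟩ (nd (nat_lit 293) (nat_lit 0) (cs (lf (nat_lit 22) (nat_lit 293)) (nd (nat_lit 292) (nat_lit 0) (cs (lf (nat_lit 21) (nat_lit 292)) (nd (nat_lit 297) (nat_lit 0) (cs (lf (nat_lit 17) (nat_lit 294)) (rf (nat_lit 0)))))))) q84011 (by decide +kernel)
def q84023 : Q := Q.p (nat_lit 0x60000080000600007000000000000000000000000000000000000000000000000000000000000000) (nat_lit 0x14000010000000000800000f00031000000000000000000000000000000000000000000000000000000000) (nat_lit 6)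
theorem c84023 : QOK q84023 := cut [q83612] ⟨c83612, trivial⟩ (nd (nat_lit 251) (nat_lit 0) (cs (lf (nat_lit 29) (nat_lit 251)) (nd (nat_lit 316) (nat_lit 0) (cs (lf (nat_lit 41) (nat_lit 250)) (nd (nat_lit 232) (nat_lit 0) (cs (lf (nat_lit 17) (nat_lit 229)) (nd (nat_lit 250) (nat_lit 0) (cs (lf (nat_lit 47) (nat_lit 228)) (rf (nat_lit 0)))))))))) q84023 (by decide +kernel)
def q84049 : Q := Q.p (nat_lit 0x80000600001000000000000000000000000000000000000000000000000000000000000000) (nat_lit 0x8000020000100000000000000004000010000000000000000000000000000000000000000000000000000) (nat_lit 3)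
theorem c84049 : QOK q84049 := cut [q83986] ⟨c83986, trivial⟩ (nd (nat_lit 317) (nat_lit 0) (cs (lf (nat_lit 30) (nat_lit 251)) (rf (nat_lit 0)))) q84049 (by decide +kernel)
def q84066 : Q := Q.p (nat_lit 0x700000400000000000000000000000000000000000000000000000000000000000000) (nat_lit 0x800000b80000000000000000000000000000000000000000000000000000000000000) (nat_lit 3)
theorem c84066 : QOK q84066 := cut [q11360] ⟨c11360, trivial⟩ (nd (nat_lit 249) (nat_lit 0) (cs (lf (nat_lit 18) (nat_lit 249)) (rf (nat_lit 0)))) q84066 (by decide +kernel)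
def q84073 : Q := Q.p (nat_lit 0x600003000000000000000000000000000000000000000000000000000000000000000) (nat_lit 0x18000c800000000000000000000000000000000000000000000000000000000000000) (nat_lit 3)
theorem c84073 : QOK q84073 := cut [q84072] ⟨c84072, trivial⟩ (nd (nat_lit 272) (nat_lit 0) (cs (lf (nat_lit 12) (nat_lit 249)) (rf (nat_lit 0)))) q84073 (by decide +kernel)
def q84089 : Q := Q.p (nat_lit 0x1c0000400001000004000000000000000000000000000000000000000000000000000000000) (nat_lit 0x9c000220000800000000000000000000000000000000000000000000000000000000000000000000) (nat_lit 4)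
theorem c84089 : QOK q84089 := cut [q83801] ⟨c83801, trivial⟩ (nd (nat_lit 293) (nat_lit 0) (cs (lf (nat_lit 17) (nat_lit 271)) (nd (nat_lit 297) (nat_lit 0) (cs (lf (nat_lit 29) (nat_lit 230)) (rf (nat_lit 0)))))) q84089 (by decide +kernel)
def q84092 : Q := Q.p (nat_lit 0x1c0000400003000000000000000000000000000000000000000000000000000000000000000) (nat_lit 0x30000bc0000000000000000000000000000000000000000000000000000000000000000000) (nat_lit 4)
theorem c84092 : QOK q84092 := cut [q82617] ⟨c82617, trivial⟩ (nd (nat_lit 293) (nat_lit 0) (cs (lf (nat_lit 17) (nat_lit 271)) (nd (nat_lit 273) (nat_lit 0) (cs (lf (nat_lit 12) (nat_lit 270)) (rf (nat_lit 0)))))) q84092 (by decide +kernel)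
def q84109 : Q := Q.p (nat_lit 0x700003400004000000000000000000000000000000000000000000000000000000000) (nat_lit 0x80000600000800000200000000000000000000000000000000000000000000000000000000000000) (nat_lit 3)
theorem c84109 : QOK q84109 := cut [q84108] ⟨c84108, trivial⟩ (nd (nat_lit 275) (nat_lit 0) (cs (lf (nat_lit 23) (nat_lit 249)) (rf (nat_lit 0)))) q84109 (by decide +kernel)
def q84112 : Q := Q.p (nat_lit 0x600003000004000000000000000000000000000000000000000000000000000000000) (nat_lit 0x280000800000000000000010000040000000000000000000000000000000000000000000000) (nat_lit 3)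
theorem c84112 : QOK q84112 := cut [q81803] ⟨c81803, trivial⟩ (nd (nat_lit 208) (nat_lit 0) (cs (lf (nat_lit 41) (nat_lit 207)) (rf (nat_lit 0)))) q84112 (by decide +kernel)
def q84151 : Q := Q.p (nat_lit 0x600001000004000000000000000000000000000000000000000000000000000000000) (nat_lit 0x800000000008000000000300000c0000200000000000000000000000000000000000000000) (nat_lit 4)
theorem c84151 : QOK q84151 := cut [q7303] ⟨c7303, trivial⟩ (nd (nat_lit 208) (nat_lit 0) (cs (lf (nat_lit 41) (nat_lit 207)) (nd (nat_lit 187) (nat_lit 0) (cs (lf (nat_lit 34) (nat_lit 186)) (rf (nat_lit 0)))))) q84151 (by decide +kernel)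
def q84155 : Q := Q.p (nat_lit 0x400001000004000010000000000000000000000000000000000000000000000000000) (nat_lit 0x80000300000800000000002000008000020000000000000000000000000000000000000000000000) (nat_lit 4)
theorem c84155 : QOK q84155 := cut [q1337] ⟨c1337, trivial⟩ (nd (nat_lit 207) (nat_lit 0) (cs (lf (nat_lit 47) (nat_lit 185)) (nd (nat_lit 296) (nat_lit 0) (cs (rf (nat_lit 0)) (lf (nat_lit 46) (nat_lit 207)))))) q84155 (by decide +kernel)
def q84171 : Q := Q.p (nat_lit 0x180000400001000000000000000000000000000000000000000000000000000000000000000) (nat_lit 0x2000008000060000000000000000000004000000000000000000000000000000000000000000000000000000000) (nat_lit 3)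
theorem c84171 : QOK q84171 := cut [q84170] ⟨c84170, trivial⟩ (nd (nat_lit 317) (nat_lit 0) (cs (lf (nat_lit 36) (nat_lit 229)) (rf (nat_lit 0)))) q84171 (by decide +kernel)
def q84196 : Q := Q.p (nat_lit 0x100000600003000004000000000000000000000000000000000000000000000000000000000) (nat_lit 0x300000c0000200000800000800000000000000000000000000000000000000000000000000000000000000) (nat_lit 4)
theorem c84196 : QOK q84196 := cut [q4049] ⟨c4049, trivial⟩ (nd (nat_lit 319) (nat_lit 0) (cs (lf (nat_lit 28) (nat_lit 230)) (nd (nat_lit 318) (nat_lit 0) (cs (lf (nat_lit 29) (nat_lit 252)) (rf (nat_lit 0)))))) q84196 (by decide +kernel)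
def q84203 : Q := Q.p (nat_lit 0x100000600003000004000000000000000000000000000000000000000000000000000000000) (nat_lit 0xa0000680000180000000000000000000000000000000000000000000000000000000000000000000) (nat_lit 4)
theorem c84203 : QOK q84203 := cut [q84202] ⟨c84202, trivial⟩ (nd (nat_lit 295) (nat_lit 0) (cs (lf (nat_lit 41) (nat_lit 229)) (rf (nat_lit 0)))) q84203 (by decide +kernel)
def q84212 : Q := Q.p (nat_lit 0x40000100000400001000000000000000000000000000000000000000000000000000000000000000) (nat_lit 0x20000080000200000000000800006000008000000000000000000000000000000000000000000000000000) (nat_lit 4)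
theorem c84212 : QOK q84212 := cut [q13876] ⟨c13876, trivial⟩ (nd (nat_lit 319) (nat_lit 0) (cs (lf (nat_lit 29) (nat_lit 252)) (nd (nat_lit 230) (nat_lit 0) (cs (lf (nat_lit 28) (nat_lit 230)) (rf (nat_lit 0)))))) q84212 (by decide +kernel)
def q84214 : Q := Q.p (nat_lit 0x40000100000400001000000000000000000000000000000000000000000000000000000000000000) (nat_lit 0x8000020000080000000000800006000008000000000000000000000000000000000000000000000000000) (nat_lit 4)
theorem c84214 : QOK q84214 := cut [q13876] ⟨c13876, trivial⟩ (nd (nat_lit 317) (nat_lit 0) (cs (lf (nat_lit 41) (nat_lit 251)) (nd (nat_lit 230) (nat_lit 0) (cs (lf (nat_lit 40) (nat_lit 229)) (rf (nat_lit 0)))))) q84214 (by decide +kernel)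
def q84220 : Q := Q.p (nat_lit 0x300000400003000004000000000000000000000000000000000000000000000000000000000) (nat_lit 0x20000480000380000000000000010000000000000000000000000000000000000000000000000000) (nat_lit 4)
theorem c84220 : QOK q84220 := cut [q84218] ⟨c84218, trivial⟩ (nd (nat_lit 295) (nat_lit 0) (cs (lf (nat_lit 41) (nat_lit 229)) (nd (nat_lit 273) (nat_lit 0) (cs (lf (nat_lit 36) (nat_lit 207)) (rf (nat_lit 0)))))) q84220 (by decide +kernel)
def q84224 : Q := Q.p (nat_lit 0x40000100000400003000000000000000000000000000000000000000000000000000000000000000) (nat_lit 0x1000000000000000030000c800002000000000000000000000000000000000000000000000000000000000) (nat_lit 4)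
theorem c84224 : QOK q84224 := cut [q82188] ⟨c82188, trivial⟩ (nd (nat_lit 251) (nat_lit 0) (cs (lf (nat_lit 47) (nat_lit 229)) (nd (nat_lit 273) (nat_lit 0) (cs (lf (nat_lit 42) (nat_lit 251)) (rf (nat_lit 0)))))) q84224 (by decide +kernel)
def q84249 : Q := Q.p (nat_lit 0x180000600003000000000000000000000000000000000000000000000000000000000000000) (nat_lit 0x80000600000180000000004000010000000000000000000000000000000000000000000000000000) (nat_lit 4)
theorem c84249 : QOK q84249 := cut [q84202] ⟨c84202, trivial⟩ (nd (nat_lit 230) (nat_lit 0) (cs (lf (nat_lit 36) (nat_lit 207)) (rf (nat_lit 0)))) q84249 (by decide +kernel)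
def q84257 : Q := Q.p (nat_lit 0x3800002000000000000000000000000000000000000000000000000000000000) (nat_lit 0x4400001c00000000000000000000000000000000000000000000000000000000) (nat_lit 3)
theorem c84257 : QOK q84257 := cut [q84256] ⟨c84256, trivial⟩ (nd (nat_lit 228) (nat_lit 0) (cs (lf (nat_lit 18) (nat_lit 228)) (rf (nat_lit 0)))) q84257 (by decide +kernel)
def q84261 : Q := Q.p (nat_lit 0x400003c00000000000000000000000000000000000000000000000000000000000000) (nat_lit 0x2e0000300001c00000000000000000000000000000000000000000000000000000000) (nat_lit 5)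
theorem c84261 : QOK q84261 := cut [q18192] ⟨c18192, trivial⟩ (nd (nat_lit 227) (nat_lit 0) (cs (lf (nat_lit 22) (nat_lit 227)) (nd (nat_lit 249) (nat_lit 0) (cs (lf (nat_lit 23) (nat_lit 226)) (nd (nat_lit 248) (nat_lit 0) (cs (lf (nat_lit 4) (nat_lit 248)) (rf (nat_lit 0)))))))) q84261 (by decide +kernel)
def q84263 : Q := Q.p (nat_lit 0x100000600003800000000000000000000000000000000000000000000000000000000000000) (nat_lit 0xc000003000008000000000000000000000000000000000000000000000000000) (nat_lit 3)
theorem c84263 : QOK q84263 := cut [q84262] ⟨c84262, trivial⟩ (nd (nat_lit 229) (nat_lit 0) (cs (lf (nat_lit 24) (nat_lit 207)) (rf (nat_lit 0)))) q84263 (by decide +kernel)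
def q84283 : Q := Q.p (nat_lit 0x3c00001000000000000000000000000000000000000000000000000000000000) (nat_lit 0x80000380004000000000004000010000000000000000000000000000000000000000000000) (nat_lit 4)
theorem c84283 : QOK q84283 := cut [q14896] ⟨c14896, trivial⟩ (nd (nat_lit 272) (nat_lit 0) (cs (lf (nat_lit 11) (nat_lit 249)) (nd (nat_lit 273) (nat_lit 0) (cs (rf (nat_lit 0)) (lf (nat_lit 6) (nat_lit 250)))))) q84283 (by decide +kernel)
def q84298 : Q := Q.p (nat_lit 0x3000008000060000000000000000000000000000000000000000000000000000) (nat_lit 0x300000c00000000006000190000140000000000000000000000000000000000000000000000) (nat_lit 6)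
theorem c84298 : QOK q84298 := cut [q756] ⟨c756, trivial⟩ (nd (nat_lit 275) (nat_lit 0) (cs (lf (nat_lit 35) (nat_lit 187)) (nd (nat_lit 274) (nat_lit 0) (cs (lf (nat_lit 41) (nat_lit 208)) (nd (nat_lit 208) (nat_lit 0) (cs (lf (nat_lit 47) (nat_lit 186)) (nd (nat_lit 230) (nat_lit 0) (cs (rf (nat_lit 0)) (lf (nat_lit 29) (nat_lit 208)))))))))) q84298 (by decide +kernel)
def q84304 : Q := Q.p (nat_lit 0x80000e0000000000000000000000000000000000000000000000000000) (nat_lit 0x14000f10000f00000000000000000000000000000000000000000000000) (nat_lit 6)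
theorem c84304 : QOK q84304 := cut [q84303] ⟨c84303, trivial⟩ (nd (nat_lit 212) (nat_lit 0) (cs (lf (nat_lit 11) (nat_lit 208)) (rf (nat_lit 0)))) q84304 (by decide +kernel)
def q84315 : Q := Q.p (nat_lit 0x30000080000e0000000000000000000000000000000000000000000000000000) (nat_lit 0x100000f0000310000e00000800002000000000000000000000000000000000000) (nat_lit 6)
theorem c84315 : QOK q84315 := cut [q84308, q84313] ⟨c84308, c84313, trivial⟩ (nd (nat_lit 234) (nat_lit 0) (cs (nd (nat_lit 233) (nat_lit 0) (cs (lf (nat_lit 0) (nat_lit 208)) (lf (nat_lit 8) (nat_lit 230)))) (cs (nd (nat_lit 212) (nat_lit 0) (cs (lf (nat_lit 5) (nat_lit 209)) (nd (nat_lit 190) (nat_lit 0) (cs (lf (nat_lit 17) (nat_lit 187)) (nd (nat_lit 189) (nat_lit 0) (cs (lf (nat_lit 12) (nat_lit 186)) (rf (nat_lit 0)))))))) (nd (nat_lit 212) (nat_lit 0) (cs (lf (nat_lit 5) (nat_lit 209)) (rf (nat_lit 1))))))) q84315 (by decide +kernel)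
def q84319 : Q := Q.p (nat_lit 0x20000080000f0000000000000000000000000000000000000000000000000000) (nat_lit 0x6000000000060000100000000000000000000000000000000000000000) (nat_lit 3)
theorem c84319 : QOK q84319 := cut [q10546] ⟨c10546, trivial⟩ (nd (nat_lit 230) (nat_lit 0) (cs (lf (nat_lit 11) (nat_lit 207)) (rf (nat_lit 0)))) q84319 (by decide +kernel)
def q84323 : Q := Q.p (nat_lit 0x1e0000000000000000000000000000000000000000000000000000) (nat_lit 0x100000c0000010000e00000800002000000000000000000000000000000000000) (nat_lit 5)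
theorem c84323 : QOK q84323 := cut [q84308] ⟨c84308, trivial⟩ (nd (nat_lit 190) (nat_lit 0) (cs (lf (nat_lit 17) (nat_lit 187)) (nd (nat_lit 189) (nat_lit 0) (cs (lf (nat_lit 12) (nat_lit 186)) (nd (nat_lit 234) (nat_lit 0) (cs (lf (nat_lit 5) (nat_lit 209)) (rf (nat_lit 0)))))))) q84323 (by decide +kernel)
def q84329 : Q := Q.p (nat_lit 0x2000008000060000180000000000000000000000000000000000000000000000) (nat_lit 0x80000070000100000000000000000000000000000000000000000) (nat_lit 3)
theorem c84329 : QOK q84329 := cut [q84328] ⟨c84328, trivial⟩ (nd (nat_lit 186) (nat_lit 0) (cs (lf (nat_lit 47) (nat_lit 164)) (rf (nat_lit 0)))) q84329 (by decide +kernel)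
def q84333 : Q := Q.p (nat_lit 0x80000200000c00003000000000000000000000000000000000000000000000000000000000000000) (nat_lit 0x20001c000010000000000000000000000000000000000000000000000000000000000) (nat_lit 3)
theorem c84333 : QOK q84333 := cut [q79079] ⟨c79079, trivial⟩ (nd (nat_lit 254) (nat_lit 0) (cs (rf (nat_lit 0)) (lf (nat_lit 35) (nat_lit 231)))) q84333 (by decide +kernel)
def q84340 : Q := Q.p (nat_lit 0x80000600000c00003000000000000000000000000000000000000000000000000000000000000000) (nat_lit 0x30000c000010000000000000000000000000000000000000000000000000000000000) (nat_lit 3)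
theorem c84340 : QOK q84340 := cut [q84339] ⟨c84339, trivial⟩ (nd (nat_lit 273) (nat_lit 0) (cs (lf (nat_lit 0) (nat_lit 272)) (rf (nat_lit 0)))) q84340 (by decide +kernel)
def q84358 : Q := Q.p (nat_lit 0x78000010000000000000000000000000000000000000000000000) (nat_lit 0x3800004000008000000000000000000000000000000000000000000000) (nat_lit 3)
theorem c84358 : QOK q84358 := cut [q7862] ⟨c7862, trivial⟩ (nd (nat_lit 206) (nat_lit 0) (cs (lf (nat_lit 23) (nat_lit 183)) (rf (nat_lit 0)))) q84358 (by decide +kernel)
def q84362 : Q := Q.p (nat_lit 0x800002000008000038000000000000000000000000000000000000000000000000000) (nat_lit 0x30000044000100000000000000000000000000000000000000000000000) (nat_lit 3)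
theorem c84362 : QOK q84362 := cut [q7801] ⟨c7801, trivial⟩ (nd (nat_lit 210) (nat_lit 0) (cs (lf (nat_lit 35) (nat_lit 187)) (rf (nat_lit 0)))) q84362 (by decide +kernel)
def q84387 : Q := Q.p (nat_lit 0x3000008000020000000000000000000000000000000000000000000000000000) (nat_lit 0x4000040000100000400000c0000700001c00004000000000000000000000000000000) (nat_lit 7)
theorem c84387 : QOK q84387 := cut [q84386] ⟨c84386, trivial⟩ (nd (nat_lit 187) (nat_lit 0) (cs (lf (nat_lit 41) (nat_lit 186)) (rf (nat_lit 0)))) q84387 (by decide +kernel)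
def q84393 : Q := Q.p (nat_lit 0x2000018000020000080000200000000000000000000000000000000000000000) (nat_lit 0x200000800000000000000040000100000000000800000000000000000000000000000000000) (nat_lit 3)
theorem c84393 : QOK q84393 := cut [q17429] ⟨c17429, trivial⟩ (nd (nat_lit 210) (nat_lit 0) (cs (lf (nat_lit 24) (nat_lit 143)) (rf (nat_lit 0)))) q84393 (by decide +kernel)
def q84399 : Q := Q.p (nat_lit 0x2000038000060000000000000000000000000000000000000000000000000000) (nat_lit 0x200000800000000000000018000040000000000000000000000000000000000000000000000) (nat_lit 3)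
theorem c84399 : QOK q84399 := cut [q84398] ⟨c84398, trivial⟩ (nd (nat_lit 208) (nat_lit 0) (cs (lf (nat_lit 0) (nat_lit 207)) (rf (nat_lit 0)))) q84399 (by decide +kernel)
def q84406 : Q := Q.p (nat_lit 0x3000008000020000000000000000000000000000000000000000000000000000) (nat_lit 0x400004000010000040000180000700001c00001000000000000000000000000000000) (nat_lit 7)
theorem c84406 : QOK q84406 := cut [q84392] ⟨c84392, trivial⟩ (nd (nat_lit 187) (nat_lit 0) (cs (lf (nat_lit 41) (nat_lit 186)) (rf (nat_lit 0)))) q84406 (by decide +kernel)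
def q84409 : Q := Q.p (nat_lit 0xc00003000004000010000000000000000000000000000000000000000000000000000) (nat_lit 0x8000030000c000000000000000000000000000000000000000000000000000000000000000) (nat_lit 3)
theorem c84409 : QOK q84409 := cut [q84408] ⟨c84408, trivial⟩ (nd (nat_lit 273) (nat_lit 0) (cs (lf (nat_lit 41) (nat_lit 207)) (rf (nat_lit 0)))) q84409 (by decide +kernel)
def q84418 : Q := Q.p (nat_lit 0x300001e000000000000000000000000000000000000000000000000000000000) (nat_lit 0x600001c0000000000000000000000000000000000000000000000000000) (nat_lit 3)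
theorem c84418 : QOK q84418 := cut [q22590] ⟨c22590, trivial⟩ (nd (nat_lit 233) (nat_lit 0) (cs (lf (nat_lit 6) (nat_lit 230)) (rf (nat_lit 0)))) q84418 (by decide +kernel)
def q84425 : Q := Q.p (nat_lit 0x300001e000000000000000000000000000000000000000000000000000000000) (nat_lit 0x600001c0000000000000000000000000000000000000000000000000000) (nat_lit 3)
theorem c84425 : QOK q84425 := cut [q84424] ⟨c84424, trivial⟩ (nd (nat_lit 211) (nat_lit 0) (cs (lf (nat_lit 16) (nat_lit 207)) (rf (nat_lit 0)))) q84425 (by decide +kernel)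
def q84436 : Q := Q.p (nat_lit 0x300000c000010000040000000000000000000000000000000000000000000000) (nat_lit 0x60000180000600000000000000008000020000080000000000000000000000000000000000000000) (nat_lit 5)
theorem c84436 : QOK q84436 := cut [q80078] ⟨c80078, trivial⟩ (nd (nat_lit 185) (nat_lit 0) (cs (lf (nat_lit 47) (nat_lit 163)) (nd (nat_lit 274) (nat_lit 0) (cs (lf (nat_lit 46) (nat_lit 185)) (rf (nat_lit 0)))))) q84436 (by decide +kernel)
def q84443 : Q := Q.p (nat_lit 0x1000006000008000000000000000000000000000000000000000000000000000) (nat_lit 0x100000400000000000000010000020000080000000000000000000000000000000000000000) (nat_lit 3)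
theorem c84443 : QOK q84443 := cut [q80982] ⟨c80982, trivial⟩ (nd (nat_lit 274) (nat_lit 0) (cs (lf (nat_lit 42) (nat_lit 207)) (rf (nat_lit 0)))) q84443 (by decide +kernel)
def q84451 : Q := Q.p (nat_lit 0x800003c000000000000000000000000000000000000000000000000000000000) (nat_lit 0x40000020001c0000000000000000000000000000000000000000000000000000) (nat_lit 3)
theorem c84451 : QOK q84451 := cut [q22590] ⟨c22590, trivial⟩ (nd (nat_lit 229) (nat_lit 0) (cs (rf (nat_lit 0)) (lf (nat_lit 4) (nat_lit 229)))) q84451 (by decide +kernel)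
def q84457 : Q := Q.p (nat_lit 0x200003c000000000000000000000000000000000000000000000000000000000) (nat_lit 0x2000008000040000020001c0000100000400000000000000000000000000000000000000000) (nat_lit 5)
theorem c84457 : QOK q84457 := cut [q84455] ⟨c84455, trivial⟩ (nd (nat_lit 211) (nat_lit 0) (cs (lf (nat_lit 17) (nat_lit 208)) (nd (nat_lit 210) (nat_lit 0) (cs (lf (nat_lit 12) (nat_lit 207)) (rf (nat_lit 0)))))) q84457 (by decide +kernel)
def q84480 : Q := Q.p (nat_lit 0x300001c000000000000000000000000000000000000000000000000000000000) (nat_lit 0x3c0001f00006e0001c000062000190000200000800000000000000000000000000000000000000000) (nat_lit 13)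
theorem c84480 : QOK q84480 := cut [q84469] ⟨c84469, trivial⟩ (nd (nat_lit 233) (nat_lit 0) (cs (lf (nat_lit 6) (nat_lit 230)) (nd (nat_lit 255) (nat_lit 0) (cs (lf (nat_lit 5) (nat_lit 230)) (nd (nat_lit 254) (nat_lit 0) (cs (lf (nat_lit 0) (nat_lit 229)) (nd (nat_lit 277) (nat_lit 0) (cs (lf (nat_lit 5) (nat_lit 252)) (nd (nat_lit 274) (nat_lit 0) (cs (lf (nat_lit 11) (nat_lit 251)) (nd (nat_lit 211) (nat_lit 0) (cs (lf (nat_lit 17) (nat_lit 208)) (nd (nat_lit 167) (nat_lit 0) (cs (lf (nat_lit 37) (nat_lit 166)) (nd (nat_lit 296) (nat_lit 0) (cs (lf (nat_lit 30) (nat_lit 230)) (nd (nat_lit 297) (nat_lit 0) (cs (lf (nat_lit 29) (nat_lit 230)) (nd (nat_lit 275) (nat_lit 0) (cs (lf (nat_lit 24) (nat_lit 208)) (nd (nat_lit 298) (nat_lit 0) (cs (lf (nat_lit 29) (nat_lit 231)) (rf (nat_lit 0)))))))))))))))))))))))) q84480 (by decide +kernel)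
def q84483 : Q := Q.p (nat_lit 0xf000030000080000000000000000000000000000000000000000000000000000) (nat_lit 0x800006000000000000000040000100000000000000000000000000000000000000000000000) (nat_lit 3)
theorem c84483 : QOK q84483 := cut [q84482] ⟨c84482, trivial⟩ (nd (nat_lit 277) (nat_lit 0) (cs (lf (nat_lit 5) (nat_lit 252)) (rf (nat_lit 0)))) q84483 (by decide +kernel)
def q84490 : Q := Q.p (nat_lit 0x10000040000300001c000000000000000000000000000000000000000000000000000000000) (nat_lit 0x80000200000800000000000000050000000000000000000000000000000000000000000000000000) (nat_lit 3)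
theorem c84490 : QOK q84490 := cut [q84489] ⟨c84489, trivial⟩ (nd (nat_lit 297) (nat_lit 0) (cs (lf (nat_lit 29) (nat_lit 230)) (rf (nat_lit 0)))) q84490 (by decide +kernel)
def q84509 : Q := Q.p (nat_lit 0x80000e0000000000000000000000000000000000000000000000000000) (nat_lit 0x394000f00007e00000000000000000000000000000000000000000000000) (nat_lit 8)
theorem c84509 : QOK q84509 := cut [q84503] ⟨c84503, trivial⟩ (nd (nat_lit 212) (nat_lit 0) (cs (lf (nat_lit 11) (nat_lit 208)) (nd (nat_lit 190) (nat_lit 0) (cs (lf (nat_lit 17) (nat_lit 187)) (nd (nat_lit 213) (nat_lit 0) (cs (lf (nat_lit 10) (nat_lit 209)) (nd (nat_lit 236) (nat_lit 0) (cs (lf (nat_lit 4) (nat_lit 210)) (nd (nat_lit 214) (nat_lit 0) (cs (lf (nat_lit 5) (nat_lit 211)) (nd (nat_lit 215) (nat_lit 0) (cs (lf (nat_lit 23) (nat_lit 189)) (rf (nat_lit 0)))))))))))))) q84509 (by decide +kernel)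
def q84515 : Q := Q.p (nat_lit 0x2000008000020000040000000000000000000000000000000000000000000000) (nat_lit 0x800000000004000010000000000100000400000000000000000000000000000000000) (nat_lit 3)
theorem c84515 : QOK q84515 := cut [q1562] ⟨c1562, trivial⟩ (nd (nat_lit 208) (nat_lit 0) (cs (lf (nat_lit 42) (nat_lit 186)) (rf (nat_lit 0)))) q84515 (by decide +kernel)
def q84528 : Q := Q.p (nat_lit 0x80000f0000000000000000000000000000000000000000000000000000) (nat_lit 0x1700000c000038000000000000000000000000000000000000000000000) (nat_lit 5)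
theorem c84528 : QOK q84528 := cut [q173] ⟨c173, trivial⟩ (nd (nat_lit 229) (nat_lit 0) (cs (lf (nat_lit 10) (nat_lit 207)) (nd (nat_lit 207) (nat_lit 0) (cs (lf (nat_lit 11) (nat_lit 206)) (nd (nat_lit 206) (nat_lit 0) (cs (lf (nat_lit 5) (nat_lit 206)) (rf (nat_lit 0)))))))) q84528 (by decide +kernel)
def q84554 : Q := Q.p (nat_lit 0x30000080001e0000000000000000000000000000000000000000000000000000) (nat_lit 0xf0000200000000000000000000000000000000000000000000000000000) (nat_lit 3)
theorem c84554 : QOK q84554 := cut [q84313] ⟨c84313, trivial⟩ (nd (nat_lit 234) (nat_lit 0) (cs (lf (nat_lit 5) (nat_lit 209)) (rf (nat_lit 0)))) q84554 (by decide +kernel)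
def q84569 : Q := Q.p (nat_lit 0x8000020000080000200000000000000000000000000000000000000000) (nat_lit 0x4000010000040000000000400001800004000000000000000000000000000000) (nat_lit 4)
theorem c84569 : QOK q84569 := cut [q84567] ⟨c84567, trivial⟩ (nd (nat_lit 144) (nat_lit 0) (cs (lf (nat_lit 34) (nat_lit 143)) (nd (nat_lit 143) (nat_lit 0) (cs (lf (nat_lit 35) (nat_lit 121)) (rf (nat_lit 0)))))) q84569 (by decide +kernel)
def q84613 : Q := Q.p (nat_lit 0x200000c00003000008000000000000000000000000000000000000000000000000000000000) (nat_lit 0x20000080000000000000004000010000040000000000000000000000000000000000000000000000000000) (nat_lit 3)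
theorem c84613 : QOK q84613 := cut [q84612] ⟨c84612, trivial⟩ (nd (nat_lit 319) (nat_lit 0) (cs (lf (nat_lit 42) (nat_lit 252)) (rf (nat_lit 0)))) q84613 (by decide +kernel)
def q84623 : Q := Q.p (nat_lit 0xc000018000000000000000000000000000000000000000000000000000) (nat_lit 0x30000026000000000000000000000000000000000000000000000000000) (nat_lit 3)
theorem c84623 : QOK q84623 := cut [q4011] ⟨c4011, trivial⟩ (nd (nat_lit 206) (nat_lit 0) (cs (lf (nat_lit 0) (nat_lit 205)) (rf (nat_lit 0)))) q84623 (by decide +kernel)
def q84624 : Q := Q.p (nat_lit 0x40000300000c000010000000000000000000000000000000000000000000000000000) (nat_lit 0x8000060000180000000000000000000000000000000000000000) (nat_lit 3)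
theorem c84624 : QOK q84624 := cut [q32039] ⟨c32039, trivial⟩ (nd (nat_lit 186) (nat_lit 0) (cs (lf (nat_lit 24) (nat_lit 164)) (rf (nat_lit 0)))) q84624 (by decide +kernel)
def q84637 : Q := Q.p (nat_lit 0x100000400001000004000000000000000000000000000000000000000000000000000000000) (nat_lit 0x20000080000200000000002000018000020000000000000000000000000000000000000000000000) (nat_lit 4)
theorem c84637 : QOK q84637 := cut [q81005] ⟨c81005, trivial⟩ (nd (nat_lit 295) (nat_lit 0) (cs (lf (nat_lit 41) (nat_lit 229)) (nd (nat_lit 207) (nat_lit 0) (cs (lf (nat_lit 46) (nat_lit 207)) (rf (nat_lit 0)))))) q84637 (by decide +kernel)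
def q84647 : Q := Q.p (nat_lit 0x200000800003000008000000000000000000000000000000000000000000000000000000000) (nat_lit 0x40000180000400000000000000004000000000000000000000000000000000000000000000000000000000) (nat_lit 3)
theorem c84647 : QOK q84647 := cut [q21970] ⟨c21970, trivial⟩ (nd (nat_lit 319) (nat_lit 0) (cs (lf (nat_lit 47) (nat_lit 230)) (rf (nat_lit 0)))) q84647 (by decide +kernel)
def q84694 : Q := Q.p (nat_lit 0x10000040000100000400000000000000000000000000000000000000000000000) (nat_lit 0x8000020000080000000000200001800002000000000000000000000000000000000000) (nat_lit 4)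
theorem c84694 : QOK q84694 := cut [q22451] ⟨c22451, trivial⟩ (nd (nat_lit 257) (nat_lit 0) (cs (lf (nat_lit 29) (nat_lit 190)) (nd (nat_lit 168) (nat_lit 0) (cs (rf (nat_lit 0)) (lf (nat_lit 28) (nat_lit 168)))))) q84694 (by decide +kernel)
def q84706 : Q := Q.p (nat_lit 0x1e00000000000000000000000000000000000000000000000000000000000000000000000000) (nat_lit 0x1c0000200001c000000000000000000000000000000000000000000000000000000000000000000000) (nat_lit 4)
theorem c84706 : QOK q84706 := cut [q28143] ⟨c28143, trivial⟩ (nd (nat_lit 323) (nat_lit 0) (cs (lf (nat_lit 4) (nat_lit 297)) (nd (nat_lit 301) (nat_lit 0) (cs (lf (nat_lit 5) (nat_lit 298)) (rf (nat_lit 0)))))) q84706 (by decide +kernel)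
def q84709 : Q := Q.p (nat_lit 0x80001e00000000000000000000000000000000000000000000000000000000000000000000000000) (nat_lit 0x10000200001c000000000000000000000000000000000000000000000000000000000000000000000) (nat_lit 3)
theorem c84709 : QOK q84709 := cut [q28143] ⟨c28143, trivial⟩ (nd (nat_lit 301) (nat_lit 0) (cs (lf (nat_lit 10) (nat_lit 297)) (rf (nat_lit 0)))) q84709 (by decide +kernel)
def q84785 : Q := Q.p (nat_lit 0x20000000000b000048000100000400000000000000000000000000000000000000000000000) (nat_lit 0x600003c0003c0000f00003b0001e00007a0001e800010000040000000000000000000000000000000) (nat_lit 10)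
theorem c84785 : QOK q84785 := cut [q84699] ⟨c84699, trivial⟩ (nd (nat_lit 256) (nat_lit 0) (cs (rf (nat_lit 0)) (cs (nd (nat_lit 191) (nat_lit 0) (cs (lf (nat_lit 35) (nat_lit 168)) (nd (nat_lit 192) (nat_lit 0) (cs (nd (nat_lit 213) (nat_lit 0) (cs (lf (nat_lit 30) (nat_lit 190)) (nd (nat_lit 193) (nat_lit 0) (cs (nd (nat_lit 171) (nat_lit 0) (cs (nd (nat_lit 233) (nat_lit 0) (cs (nd (nat_lit 215) (nat_lit 0) (cs (lf (nat_lit 7) (nat_lit 211)) (lf (nat_lit 5) (nat_lit 190)))) (lf (nat_lit 13) (nat_lit 209)))) (lf (nat_lit 17) (nat_lit 168)))) (lf (nat_lit 6) (nat_lit 190)))))) (cs (nd (nat_lit 213) (nat_lit 0) (cs (lf (nat_lit 30) (nat_lit 190)) (nd (nat_lit 193) (nat_lit 0) (cs (lf (nat_lit 6) (nat_lit 190)) (nd (nat_lit 171) (nat_lit 0) (cs (lf (nat_lit 17) (nat_lit 168)) (nd (nat_lit 189) (nat_lit 0) (cs (lf (nat_lit 47) (nat_lit 167)) (lf (nat_lit 16) (nat_lit 167)))))))))) (cs (nd (nat_lit 189) (nat_lit 0) (cs (lf (nat_lit 47) (nat_lit 167)) (nd (nat_lit 232) (nat_lit 0) (cs (lf (nat_lit 7) (nat_lit 230)) (nd (nat_lit 171) (nat_lit 0) (cs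 (lf (nat_lit 16) (nat_lit 167)) (nd (nat_lit 215) (nat_lit 0) (cs (nd (nat_lit 193) (nat_lit 0) (cs (lf (nat_lit 5) (nat_lit 190)) (lf (nat_lit 17) (nat_lit 168)))) (lf (nat_lit 4) (nat_lit 189)))))))))) (cs (nd (nat_lit 189) (nat_lit 0) (cs (lf (nat_lit 47) (nat_lit 167)) (nd (nat_lit 232) (nat_lit 0) (cs (lf (nat_lit 7) (nat_lit 230)) (nd (nat_lit 170) (nat_lit 0) (cs (nd (nat_lit 214) (nat_lit 0) (cs (lf (nat_lit 5) (nat_lit 189)) (nd (nat_lit 213) (nat_lit 0) (cs (lf (nat_lit 30) (nat_lit 190)) (nd (nat_lit 148) (nat_lit 0) (cs (lf (nat_lit 41) (nat_lit 147)) (lf (nat_lit 36) (nat_lit 125)))))))) (lf (nat_lit 17) (nat_lit 167)))))))) (nd (nat_lit 213) (nat_lit 0) (cs (lf (nat_lit 30) (nat_lit 190)) (nd (nat_lit 193) (nat_lit 0) (cs (lf (nat_lit 6) (nat_lit 190)) (nd (nat_lit 215) (nat_lit 0) (cs (lf (nat_lit 5) (nat_lit 190)) (nd (nat_lit 189) (nat_lit 0) (cs (lf (nat_lit 47) (nat_lit 167)) (lf (nat_lit 19) (nat_lit 189))))))))))))))))) (cs (nd (nat_lit 233) (nat_lit 0) (cs (lf (nat_lit 8) (nat_lit 230)) (nd (nat_lit 279) (nat_lit 0) (cs (lf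 (nat_lit 28) (nat_lit 190)) (nd (nat_lit 278) (nat_lit 0) (cs (lf (nat_lit 29) (nat_lit 212)) (nd (nat_lit 280) (nat_lit 0) (cs (lf (nat_lit 18) (nat_lit 255)) (nd (nat_lit 300) (nat_lit 0) (cs (lf (nat_lit 42) (nat_lit 233)) (nd (nat_lit 299) (nat_lit 0) (cs (lf (nat_lit 41) (nat_lit 233)) (lf (nat_lit 13) (nat_lit 275)))))))))))))) (nd (nat_lit 191) (nat_lit 0) (cs (lf (nat_lit 35) (nat_lit 168)) (nd (nat_lit 167) (nat_lit 0) (cs (lf (nat_lit 46) (nat_lit 167)) (nd (nat_lit 233) (nat_lit 0) (cs (lf (nat_lit 8) (nat_lit 230)) (nd (nat_lit 257) (nat_lit 0) (cs (lf (nat_lit 29) (nat_lit 190)) (nd (nat_lit 258) (nat_lit 0) (cs (lf (nat_lit 18) (nat_lit 233)) (nd (nat_lit 236) (nat_lit 0) (cs (lf (nat_lit 17) (nat_lit 233)) (nd (nat_lit 280) (nat_lit 0) (cs (lf (nat_lit 5) (nat_lit 255)) (nd (nat_lit 213) (nat_lit 0) (cs (lf (nat_lit 26) (nat_lit 191)) (lf (nat_lit 45) (nat_lit 191)))))))))))))))))))))) q84785 (by decide +kernel)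
def q84860 : Q := Q.p (nat_lit 0xc000020000080000200000000000000000000000000000000000000000000000) (nat_lit 0x10000000000400001800004000000000000000000000000000000000000) (nat_lit 3)
theorem c84860 : QOK q84860 := cut [q84859] ⟨c84859, trivial⟩ (nd (nat_lit 167) (nat_lit 0) (cs (lf (nat_lit 40) (nat_lit 166)) (rf (nat_lit 0)))) q84860 (by decide +kernel)
def q84907 : Q := Q.p (nat_lit 0x40000f000000000000000000000000000000000000000000000000000000000) (nat_lit 0x10000000001000000e000020000080000000000000000000000000000000000000000) (nat_lit 4)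
theorem c84907 : QOK q84907 := cut [q1066] ⟨c1066, trivial⟩ (nd (nat_lit 206) (nat_lit 0) (cs (lf (nat_lit 23) (nat_lit 205)) (nd (nat_lit 207) (nat_lit 0) (cs (rf (nat_lit 0)) (lf (nat_lit 18) (nat_lit 206)))))) q84907 (by decide +kernel)
def q84913 : Q := Q.p (nat_lit 0x2000008000040000100000000000000000000000000000000000000000000000) (nat_lit 0x800000000000000020000080000400001000000000000000000000000000000000000) (nat_lit 3)
theorem c84913 : QOK q84913 := cut [q687] ⟨c687, trivial⟩ (nd (nat_lit 209) (nat_lit 0) (cs (rf (nat_lit 0)) (lf (nat_lit 30) (nat_lit 187)))) q84913 (by decide +kernel)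
def q84918 : Q := Q.p (nat_lit 0x800002000008000020000000000000000000000000000000000000000000000000000000000) (nat_lit 0x140000700001400000000000000000000000000000000000000000000000000000000000000000000000000) (nat_lit 4)
theorem c84918 : QOK q84918 := cut [q14270] ⟨c14270, trivial⟩ (nd (nat_lit 322) (nat_lit 0) (cs (lf (nat_lit 28) (nat_lit 233)) (nd (nat_lit 321) (nat_lit 0) (cs (lf (nat_lit 29) (nat_lit 255)) (rf (nat_lit 0)))))) q84918 (by decide +kernel)
def q84946 : Q := Q.p (nat_lit 0xb000018000000000000000000000000000000000000000000000000000000000) (nat_lit 0x1a000068000040000640001c0000500000400000000000000000000000000000000000000000) (nat_lit 8)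
theorem c84946 : QOK q84946 := cut [q84455] ⟨c84455, trivial⟩ (nd (nat_lit 210) (nat_lit 0) (cs (rf (nat_lit 0)) (cs (nd (nat_lit 275) (nat_lit 0) (cs (lf (nat_lit 30) (nat_lit 209)) (nd (nat_lit 233) (nat_lit 0) (cs (lf (nat_lit 6) (nat_lit 230)) (nd (nat_lit 277) (nat_lit 0) (cs (lf (nat_lit 42) (nat_lit 210)) (nd (nat_lit 278) (nat_lit 0) (cs (lf (nat_lit 2) (nat_lit 252)) (nd (nat_lit 211) (nat_lit 0) (cs (lf (nat_lit 29) (nat_lit 211)) (nd (nat_lit 212) (nat_lit 0) (cs (lf (nat_lit 35) (nat_lit 189)) (lf (nat_lit 12) (nat_lit 208)))))))))))))) (nd (nat_lit 233) (nat_lit 0) (cs (lf (nat_lit 6) (nat_lit 230)) (nd (nat_lit 277) (nat_lit 0) (cs (lf (nat_lit 42) (nat_lit 210)) (nd (nat_lit 188) (nat_lit 0) (cs (lf (nat_lit 45) (nat_lit 188)) (lf (nat_lit 24) (nat_lit 166))))))))))) q84946 (by decide +kernel)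
def q84949 : Q := Q.p (nat_lit 0xf000018000000000000000000000000000000000000000000000000000000000) (nat_lit 0xe00030000000000000000000000000000000000000000000000000000000000000000) (nat_lit 3)
theorem c84949 : QOK q84949 := cut [q80426] ⟨c80426, trivial⟩ (nd (nat_lit 256) (nat_lit 0) (cs (lf (nat_lit 18) (nat_lit 231)) (rf (nat_lit 0)))) q84949 (by decide +kernel)
def q84952 : Q := Q.p (nat_lit 0x300001e000000000000000000000000000000000000000000000000000000000) (nat_lit 0x180000e000000000000000000000000000000000000000000000000000) (nat_lit 3)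
theorem c84952 : QOK q84952 := cut [q22541] ⟨c22541, trivial⟩ (nd (nat_lit 228) (nat_lit 0) (cs (lf (nat_lit 0) (nat_lit 227)) (rf (nat_lit 0)))) q84952 (by decide +kernel)
def q84968 : Q := Q.p (nat_lit 0x8000020000080001e0000000000000000000000000000000000000000000000000000) (nat_lit 0x1000004000000001c0000200001c00000000000000000000000000000000000000000000000) (nat_lit 5)
theorem c84968 : QOK q84968 := cut [q1600] ⟨c1600, trivial⟩ (nd (nat_lit 235) (nat_lit 0) (cs (lf (nat_lit 4) (nat_lit 209)) (nd (nat_lit 274) (nat_lit 0) (cs (lf (nat_lit 41) (nat_lit 208)) (nd (nat_lit 213) (nat_lit 0) (cs (rf (nat_lit 0)) (lf (nat_lit 5) (nat_lit 210)))))))) q84968 (by decide +kernel)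
def q84970 : Q := Q.p (nat_lit 0xf0000400000000000000000000000000000000000000000000000) (nat_lit 0xe0000100000800000000000000000000000000000000000000000000000) (nat_lit 3)
theorem c84970 : QOK q84970 := cut [q1161] ⟨c1161, trivial⟩ (nd (nat_lit 212) (nat_lit 0) (cs (lf (nat_lit 17) (nat_lit 187)) (rf (nat_lit 0)))) q84970 (by decide +kernel)
def q84980 : Q := Q.p (nat_lit 0x8000020000080000e0000000000000000000000000000000000000000000000000000) (nat_lit 0x100000400000000004000110000e40000000000000000000000000000000000000000000000) (nat_lit 5)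
theorem c84980 : QOK q84980 := cut [q80837] ⟨c80837, trivial⟩ (nd (nat_lit 274) (nat_lit 0) (cs (lf (nat_lit 41) (nat_lit 208)) (rf (nat_lit 0)))) q84980 (by decide +kernel)
def q84984 : Q := Q.p (nat_lit 0x8000020000080000e0000000000000000000000000000000000000000000000000000) (nat_lit 0x1000004000000000e4000110000040000000000000000000000000000000000000000000000) (nat_lit 5)
theorem c84984 : QOK q84984 := cut [q84981] ⟨c84981, trivial⟩ (nd (nat_lit 212) (nat_lit 0) (cs (lf (nat_lit 11) (nat_lit 208)) (nd (nat_lit 274) (nat_lit 0) (cs (lf (nat_lit 41) (nat_lit 208)) (nd (nat_lit 234) (nat_lit 0) (cs (lf (nat_lit 5) (nat_lit 209)) (rf (nat_lit 0)))))))) q84984 (by decide +kernel)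
def q85038 : Q := Q.p (nat_lit 0x40000300000c000030000000000000000000000000000000000000000000000000000) (nat_lit 0x8000038000c00000380000e000038000000000000000000000000000000000000000000000) (nat_lit 8)
theorem c85038 : QOK q85038 := cut [q85033] ⟨c85033, trivial⟩ (nd (nat_lit 207) (nat_lit 0) (cs (lf (nat_lit 47) (nat_lit 185)) (nd (nat_lit 273) (nat_lit 0) (cs (lf (nat_lit 41) (nat_lit 207)) (nd (nat_lit 206) (nat_lit 0) (cs (lf (nat_lit 0) (nat_lit 205)) (nd (nat_lit 271) (nat_lit 0) (cs (lf (nat_lit 13) (nat_lit 249)) (nd (nat_lit 183) (nat_lit 0) (cs (lf (nat_lit 22) (nat_lit 183)) (rf (nat_lit 0)))))))))))) q85038 (by decide +kernel)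
def q85040 : Q := Q.p (nat_lit 0x40000300000c000010000000000000000000000000000000000000000000000000000) (nat_lit 0x200000c0000300000000000000000000000000000000000000000) (nat_lit 3)
theorem c85040 : QOK q85040 := cut [q80014] ⟨c80014, trivial⟩ (nd (nat_lit 187) (nat_lit 0) (cs (lf (nat_lit 37) (nat_lit 186)) (rf (nat_lit 0)))) q85040 (by decide +kernel)
def q85047 : Q := Q.p (nat_lit 0x600001c000000000080000000000000000000000000000000000000000000000) (nat_lit 0x30000c0000100000600000000000000000000000000000000000000000) (nat_lit 4)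
theorem c85047 : QOK q85047 := cut [q85045] ⟨c85045, trivial⟩ (nd (nat_lit 229) (nat_lit 0) (cs (lf (nat_lit 0) (nat_lit 228)) (nd (nat_lit 210) (nat_lit 0) (cs (lf (nat_lit 17) (nat_lit 207)) (rf (nat_lit 0)))))) q85047 (by decide +kernel)
def q85096 : Q := Q.p (nat_lit 0xf0000100000000000000000000000000000000000000000000000) (nat_lit 0x8000270000000000000000000000000000000000000000000000) (nat_lit 3)
theorem c85096 : QOK q85096 := cut [q7441] ⟨c7441, trivial⟩ (nd (nat_lit 207) (nat_lit 0) (cs (lf (nat_lit 17) (nat_lit 185)) (rf (nat_lit 0)))) q85096 (by decide +kernel)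
def q85105 : Q := Q.p (nat_lit 0x20000080000e0000000000000000000000000000000000000000000000000000) (nat_lit 0x800000000004000110000f40000000000000000000000000000000000000000000000) (nat_lit 5)
theorem c85105 : QOK q85105 := cut [q85102] ⟨c85102, trivial⟩ (nd (nat_lit 212) (nat_lit 0) (cs (lf (nat_lit 11) (nat_lit 208)) (nd (nat_lit 190) (nat_lit 0) (cs (lf (nat_lit 17) (nat_lit 187)) (nd (nat_lit 208) (nat_lit 0) (cs (lf (nat_lit 16) (nat_lit 186)) (rf (nat_lit 0)))))))) q85105 (by decide +kernel)
def q85120 : Q := Q.p (nat_lit 0x100000800003000008000000000000000000000000000000000000000000000000000000000) (nat_lit 0xc0000200000000000000004000010000000000000000000000000000000000000000000000000000) (nat_lit 3)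
theorem c85120 : QOK q85120 := cut [q84557] ⟨c84557, trivial⟩ (nd (nat_lit 297) (nat_lit 0) (cs (lf (nat_lit 41) (nat_lit 230)) (rf (nat_lit 0)))) q85120 (by decide +kernel)
def q85127 : Q := Q.p (nat_lit 0x20000380000f0000000000000000000000000000000000000000000000000000) (nat_lit 0x4000000000000000700000c00001000000000000000000000000000000000000) (nat_lit 4)
theorem c85127 : QOK q85127 := cut [q85126] ⟨c85126, trivial⟩ (nd (nat_lit 166) (nat_lit 0) (cs (lf (nat_lit 37) (nat_lit 165)) (rf (nat_lit 0)))) q85127 (by decide +kernel)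
def q85132 : Q := Q.p (nat_lit 0x300003c000060000000000000000000000000000000000000000000000000000) (nat_lit 0x90000660001c000000000000000000000000000000000000000000000000000000000000000) (nat_lit 5)
theorem c85132 : QOK q85132 := cut [q85129] ⟨c85129, trivial⟩ (nd (nat_lit 274) (nat_lit 0) (cs (lf (nat_lit 30) (nat_lit 208)) (nd (nat_lit 255) (nat_lit 0) (cs (lf (nat_lit 5) (nat_lit 230)) (nd (nat_lit 254) (nat_lit 0) (cs (lf (nat_lit 11) (nat_lit 251)) (rf (nat_lit 0)))))))) q85132 (by decide +kernel)
def q85135 : Q := Q.p (nat_lit 0x300000f0000000000400000000000000000000000000000000000000000) (nat_lit 0x600000800003000000000000000000000000000000000000) (nat_lit 3)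
theorem c85135 : QOK q85135 := cut [q10678] ⟨c10678, trivial⟩ (nd (nat_lit 189) (nat_lit 0) (cs (lf (nat_lit 17) (nat_lit 186)) (rf (nat_lit 0)))) q85135 (by decide +kernel)
def q85148 : Q := Q.p (nat_lit 0xc000070000000000000000000000000000000000000000000000000000) (nat_lit 0x7000018e000038000000000000000000000000000000000000000000000) (nat_lit 6)
theorem c85148 : QOK q85148 := cut [q173] ⟨c173, trivial⟩ (nd (nat_lit 211) (nat_lit 0) (cs (lf (nat_lit 6) (nat_lit 208)) (nd (nat_lit 233) (nat_lit 0) (cs (lf (nat_lit 5) (nat_lit 208)) (nd (nat_lit 207) (nat_lit 0) (cs (lf (nat_lit 19) (nat_lit 207)) (nd (nat_lit 206) (nat_lit 0) (cs (rf (nat_lit 0)) (lf (nat_lit 0) (nat_lit 205)))))))))) q85148 (by decide +kernel)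
def q85172 : Q := Q.p (nat_lit 0xe000008000000000000000000000000000000000000000000000000000) (nat_lit 0x10000017000000000000000000000000000000000000000000000000000) (nat_lit 3)
theorem c85172 : QOK q85172 := cut [q85171] ⟨c85171, trivial⟩ (nd (nat_lit 206) (nat_lit 0) (cs (lf (nat_lit 18) (nat_lit 206)) (rf (nat_lit 0)))) q85172 (by decide +kernel)
def q85178 : Q := Q.p (nat_lit 0xc000060000000000000000000000000000000000000000000000000000) (nat_lit 0x3000190000000000000000000000000000000000000000000000000000) (nat_lit 3)
theorem c85178 : QOK q85178 := cut [q85177] ⟨c85177, trivial⟩ (nd (nat_lit 211) (nat_lit 0) (cs (lf (nat_lit 6) (nat_lit 208)) (rf (nat_lit 0)))) q85178 (by decide +kernel)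
def q85185 : Q := Q.p (nat_lit 0x3000008000020000000000000000000000000000000000000000000000000000) (nat_lit 0x400004000014000040000080000300000c00001000000000000000000000000000000) (nat_lit 6)
theorem c85185 : QOK q85185 := cut [q84567] ⟨c84567, trivial⟩ (nd (nat_lit 187) (nat_lit 0) (cs (lf (nat_lit 41) (nat_lit 186)) (nd (nat_lit 165) (nat_lit 0) (cs (lf (nat_lit 40) (nat_lit 164)) (nd (nat_lit 142) (nat_lit 0) (cs (lf (nat_lit 46) (nat_lit 142)) (nd (nat_lit 143) (nat_lit 0) (cs (lf (nat_lit 47) (nat_lit 120)) (rf (nat_lit 0)))))))))) q85185 (by decide +kernel)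
def q85187 : Q := Q.p (nat_lit 0x200000800002000018000000000000000000000000000000000000000000000000000000000) (nat_lit 0x40000180000400000000004000000000000000000000000000000000000000000000000000000000000000) (nat_lit 3)
theorem c85187 : QOK q85187 := cut [q21970] ⟨c21970, trivial⟩ (nd (nat_lit 319) (nat_lit 0) (cs (rf (nat_lit 0)) (lf (nat_lit 34) (nat_lit 231)))) q85187 (by decide +kernel)
def q85239 : Q := Q.p (nat_lit 0x6000010000000000100000000000000000000000000000000000000000000000) (nat_lit 0x800000000008000040000200000c00002000000000000000000000000000000000000) (nat_lit 4)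
theorem c85239 : QOK q85239 := cut [q79121] ⟨c79121, trivial⟩ (nd (nat_lit 210) (nat_lit 0) (cs (rf (nat_lit 0)) (lf (nat_lit 41) (nat_lit 187)))) q85239 (by decide +kernel)
def q85251 : Q := Q.p (nat_lit 0x200000800002000008000000000000000000000000000000000000000000000000000) (nat_lit 0x100000c0000100000000001000004000010000000000000000000000000000000000000000000000) (nat_lit 4)
theorem c85251 : QOK q85251 := cut [q85249] ⟨c85249, trivial⟩ (nd (nat_lit 294) (nat_lit 0) (cs (lf (nat_lit 40) (nat_lit 206)) (nd (nat_lit 206) (nat_lit 0) (cs (lf (nat_lit 47) (nat_lit 184)) (rf (nat_lit 0)))))) q85251 (by decide +kernel)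
def q85264 : Q := Q.p (nat_lit 0x80001e0000000000000000000000000000000000000000000000) (nat_lit 0x1d0000200000000000000000000000000000000000000000000000) (nat_lit 3)
theorem c85264 : QOK q85264 := cut [q9253] ⟨c9253, trivial⟩ (nd (nat_lit 189) (nat_lit 0) (cs (rf (nat_lit 0)) (lf (nat_lit 10) (nat_lit 185)))) q85264 (by decide +kernel)
def q85285 : Q := Q.p (nat_lit 0x800003000008000020000000000000000000000000000000000000000000000) (nat_lit 0x40000100001c0000700001000000000000000000000000000000) (nat_lit 5)
theorem c85285 : QOK q85285 := cut [q12494] ⟨c12494, trivial⟩ (nd (nat_lit 162) (nat_lit 0) (cs (lf (nat_lit 46) (nat_lit 162)) (nd (nat_lit 163) (nat_lit 0) (cs (lf (nat_lit 47) (nat_lit 140)) (nd (nat_lit 141) (nat_lit 0) (cs (lf (nat_lit 40) (nat_lit 140)) (rf (nat_lit 0)))))))) q85285 (by decide +kernel)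
def q85295 : Q := Q.p (nat_lit 0x3800002000008000010000000000000000000000000000000000000000000000) (nat_lit 0x40000300004000000000004000000000000000000000000000000000000000000000000000) (nat_lit 3)
theorem c85295 : QOK q85295 := cut [q85252] ⟨c85252, trivial⟩ (nd (nat_lit 273) (nat_lit 0) (cs (lf (nat_lit 46) (nat_lit 184)) (rf (nat_lit 0)))) q85295 (by decide +kernel)
def q85301 : Q := Q.p (nat_lit 0x200000800002000008000000000000000000000000000000000000000000000000000) (nat_lit 0x100000c0000100000000001000004000010000000000000000000000000000000000000000000000) (nat_lit 4)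
theorem c85301 : QOK q85301 := cut [q85249] ⟨c85249, trivial⟩ (nd (nat_lit 206) (nat_lit 0) (cs (lf (nat_lit 47) (nat_lit 184)) (nd (nat_lit 294) (nat_lit 0) (cs (lf (nat_lit 40) (nat_lit 206)) (rf (nat_lit 0)))))) q85301 (by decide +kernel)
def q85305 : Q := Q.p (nat_lit 0x800002000008000060000000000000000000000000000000000000000000000) (nat_lit 0x200000000000000006000190000040000000000000000000000000000000000000000) (nat_lit 4)
theorem c85305 : QOK q85305 := cut [q85303] ⟨c85303, trivial⟩ (nd (nat_lit 184) (nat_lit 0) (cs (lf (nat_lit 47) (nat_lit 162)) (nd (nat_lit 206) (nat_lit 0) (cs (lf (nat_lit 42) (nat_lit 184)) (rf (nat_lit 0)))))) q85305 (by decide +kernel)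
def q85321 : Q := Q.p (nat_lit 0x80000200000c000000000000000000000000000000000000000000000000000) (nat_lit 0x200000000001000000000010000040000100000000000000000000000000000000000) (nat_lit 3)
theorem c85321 : QOK q85321 := cut [q3899] ⟨c3899, trivial⟩ (nd (nat_lit 184) (nat_lit 0) (cs (lf (nat_lit 42) (nat_lit 184)) (rf (nat_lit 0)))) q85321 (by decide +kernel)
def q85322 : Q := Q.p (nat_lit 0x600000c000000000000000000000000000000000000000000000000000) (nat_lit 0x18000013000000000000000000000000000000000000000000000000000) (nat_lit 3)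
theorem c85322 : QOK q85322 := cut [q85171] ⟨c85171, trivial⟩ (nd (nat_lit 231) (nat_lit 0) (cs (lf (nat_lit 18) (nat_lit 206)) (rf (nat_lit 0)))) q85322 (by decide +kernel)
def q85330 : Q := Q.p (nat_lit 0x20000380000600000e000000000000000000000000000000000000000000000000000) (nat_lit 0x500001c0000300001f000100000280000a0000000000000000000000000000000000000000) (nat_lit 9)
theorem c85330 : QOK q85330 := cut [q46929] ⟨c46929, trivial⟩ (nd (nat_lit 163) (nat_lit 0) (cs (lf (nat_lit 25) (nat_lit 163)) (nd (nat_lit 272) (nat_lit 0) (cs (lf (nat_lit 41) (nat_lit 206)) (nd (nat_lit 270) (nat_lit 0) (cs (lf (nat_lit 13) (nat_lit 248)) (nd (nat_lit 227) (nat_lit 0) (cs (lf (nat_lit 1) (nat_lit 227)) (nd (nat_lit 226) (nat_lit 0) (cs (nd (nat_lit 224) (nat_lit 0) (cs (lf (nat_lit 13) (nat_lit 202)) (nd (nat_lit 248) (nat_lit 0) (cs (lf (nat_lit 30) (nat_lit 204)) (rf (nat_lit 0)))))) (lf (nat_lit 6) (nat_lit 204)))))))))))) q85330 (by decide +kernel)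
def q85336 : Q := Q.p (nat_lit 0x300000700000c000000000000000000000000000000000000000000000000000) (nat_lit 0x18000070000180000600000000000000000000000000000000000000000) (nat_lit 5)
theorem c85336 : QOK q85336 := cut [q83580] ⟨c83580, trivial⟩ (nd (nat_lit 231) (nat_lit 0) (cs (lf (nat_lit 18) (nat_lit 206)) (nd (nat_lit 209) (nat_lit 0) (cs (lf (nat_lit 17) (nat_lit 206)) (nd (nat_lit 187) (nat_lit 0) (cs (lf (nat_lit 36) (nat_lit 164)) (rf (nat_lit 0)))))))) q85336 (by decide +kernel)
def q85343 : Q := Q.p (nat_lit 0x300000600000c000000000000000000000000000000000000000000000000000) (nat_lit 0x19800002000000000000000000000000000000000000000000000000000) (nat_lit 3)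
theorem c85343 : QOK q85343 := cut [q85342] ⟨c85342, trivial⟩ (nd (nat_lit 231) (nat_lit 0) (cs (lf (nat_lit 18) (nat_lit 206)) (rf (nat_lit 0)))) q85343 (by decide +kernel)
def q85365 : Q := Q.p (nat_lit 0x20000380000200000e000000000000000000000000000000000000000000000000000) (nat_lit 0x400001c000000000dc0001000004c000000000000000000000000000000000000000000000) (nat_lit 7)
theorem c85365 : QOK q85365 := cut [q5282] ⟨c5282, trivial⟩ (nd (nat_lit 208) (nat_lit 0) (cs (lf (nat_lit 35) (nat_lit 185)) (nd (nat_lit 272) (nat_lit 0) (cs (lf (nat_lit 41) (nat_lit 206)) (nd (nat_lit 270) (nat_lit 0) (cs (lf (nat_lit 13) (nat_lit 248)) (nd (nat_lit 182) (nat_lit 0) (cs (lf (nat_lit 22) (nat_lit 182)) (nd (nat_lit 230) (nat_lit 0) (cs (lf (nat_lit 5) (nat_lit 205)) (rf (nat_lit 0)))))))))))) q85365 (by decide +kernel)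
def q85368 : Q := Q.p (nat_lit 0x20000080000200000e000000000000000000000000000000000000000000000000000) (nat_lit 0x40000100000000005000001800007000000000000000000000000000000000000000000000) (nat_lit 5)
theorem c85368 : QOK q85368 := cut [q898] ⟨c898, trivial⟩ (nd (nat_lit 272) (nat_lit 0) (cs (lf (nat_lit 41) (nat_lit 206)) (nd (nat_lit 204) (nat_lit 0) (cs (lf (nat_lit 5) (nat_lit 204)) (nd (nat_lit 203) (nat_lit 0) (cs (rf (nat_lit 0)) (lf (nat_lit 4) (nat_lit 203)))))))) q85368 (by decide +kernel)
def q85371 : Q := Q.p (nat_lit 0x200003800002000004000000000000000000000000000000000000000000000000000) (nat_lit 0x80000000000000005c00000000000000000000000000000000000000000000000000000000) (nat_lit 3)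
theorem c85371 : QOK q85371 := cut [q82197] ⟨c82197, trivial⟩ (nd (nat_lit 228) (nat_lit 0) (cs (lf (nat_lit 42) (nat_lit 206)) (rf (nat_lit 0)))) q85371 (by decide +kernel)
def q85402 : Q := Q.p (nat_lit 0x2000038000000000000000000000000000000000000000000000000000) (nat_lit 0x3d0003c4000e00000000000000000000000000000000000000000000000) (nat_lit 7)
theorem c85402 : QOK q85402 := cut [q10104] ⟨c10104, trivial⟩ (nd (nat_lit 210) (nat_lit 0) (cs (lf (nat_lit 11) (nat_lit 206)) (nd (nat_lit 232) (nat_lit 0) (cs (lf (nat_lit 5) (nat_lit 207)) (nd (nat_lit 211) (nat_lit 0) (cs (lf (nat_lit 10) (nat_lit 207)) (nd (nat_lit 190) (nat_lit 0) (cs (lf (nat_lit 16) (nat_lit 186)) (nd (nat_lit 231) (nat_lit 0) (cs (lf (nat_lit 0) (nat_lit 206)) (rf (nat_lit 0)))))))))))) q85402 (by decide +kernel)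
def q85426 : Q := Q.p (nat_lit 0x80000200000800002000000000000000000000000000000000000000000000000000000000) (nat_lit 0x10000040000100000000004000018000040000000000000000000000000000000000000000000000) (nat_lit 4)
theorem c85426 : QOK q85426 := cut [q82627] ⟨c82627, trivial⟩ (nd (nat_lit 208) (nat_lit 0) (cs (lf (nat_lit 34) (nat_lit 207)) (nd (nat_lit 207) (nat_lit 0) (cs (lf (nat_lit 35) (nat_lit 185)) (rf (nat_lit 0)))))) q85426 (by decide +kernel)
def q85433 : Q := Q.p (nat_lit 0x200001800002000008000000000000000000000000000000000000000000000000000) (nat_lit 0x200000800000000000000040000140000300000c0000000000000000000000000000000000000000) (nat_lit 5)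
theorem c85433 : QOK q85433 := cut [q85430] ⟨c85430, trivial⟩ (nd (nat_lit 184) (nat_lit 0) (cs (lf (nat_lit 46) (nat_lit 184)) (nd (nat_lit 185) (nat_lit 0) (cs (lf (nat_lit 47) (nat_lit 162)) (nd (nat_lit 230) (nat_lit 0) (cs (lf (nat_lit 24) (nat_lit 163)) (rf (nat_lit 0)))))))) q85433 (by decide +kernel)
def q85472 : Q := Q.p (nat_lit 0x300000c000020000080000000000000000000000000000000000000000000000) (nat_lit 0x80000200000800000000000000050000100000400000000000000000000000000000000000000000) (nat_lit 4)
theorem c85472 : QOK q85472 := cut [q85470] ⟨c85470, trivial⟩ (nd (nat_lit 188) (nat_lit 0) (cs (lf (nat_lit 35) (nat_lit 165)) (nd (nat_lit 275) (nat_lit 0) (cs (lf (nat_lit 34) (nat_lit 187)) (rf (nat_lit 0)))))) q85472 (by decide +kernel)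
def q85488 : Q := Q.p (nat_lit 0x780000c000000000000000000000000000000000000000000000000000000000) (nat_lit 0x380000600000000000000000000000000000000000000000000000000000000000000) (nat_lit 3)
theorem c85488 : QOK q85488 := cut [q79006] ⟨c79006, trivial⟩ (nd (nat_lit 250) (nat_lit 0) (cs (lf (nat_lit 12) (nat_lit 227)) (rf (nat_lit 0)))) q85488 (by decide +kernel)
def q85502 : Q := Q.p (nat_lit 0x780000c000000000000000000000000000000000000000000000000000000000) (nat_lit 0x18000070000000000000000000000000000000000000000000000000000000000) (nat_lit 3)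
theorem c85502 : QOK q85502 := cut [q85501] ⟨c85501, trivial⟩ (nd (nat_lit 233) (nat_lit 0) (cs (lf (nat_lit 16) (nat_lit 229)) (rf (nat_lit 0)))) q85502 (by decide +kernel)
def q85505 : Q := Q.p (nat_lit 0x200001800004000000000000000000000000000000000000000000000000000000000) (nat_lit 0x20000080000000000000002000010000040000000000000000000000000000000000000000000000) (nat_lit 3)
theorem c85505 : QOK q85505 := cut [q85504] ⟨c85504, trivial⟩ (nd (nat_lit 295) (nat_lit 0) (cs (lf (nat_lit 30) (nat_lit 229)) (rf (nat_lit 0)))) q85505 (by decide +kernel)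
def q85510 : Q := Q.p (nat_lit 0x80000200002c000030000000000000000000000000000000000000000000000000000) (nat_lit 0x400001c0000100000000000000000000000000000000000000000000000) (nat_lit 3)
theorem c85510 : QOK q85510 := cut [q85509] ⟨c85509, trivial⟩ (nd (nat_lit 210) (nat_lit 0) (cs (lf (nat_lit 35) (nat_lit 187)) (rf (nat_lit 0)))) q85510 (by decide +kernel)
def q85523 : Q := Q.p (nat_lit 0x7800002000000000000000000000000000000000000000000000000000000000) (nat_lit 0x8000074000000000000000000000000000000000000000000000000000000000) (nat_lit 3)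
theorem c85523 : QOK q85523 := cut [q79258] ⟨c79258, trivial⟩ (nd (nat_lit 233) (nat_lit 0) (cs (lf (nat_lit 16) (nat_lit 229)) (rf (nat_lit 0)))) q85523 (by decide +kernel)
def q85527 : Q := Q.p (nat_lit 0x100003800000000000000000000000000000000000000000000000000000000000000) (nat_lit 0x2c0004400000000000000000000000000000000000000000000000000000000000000) (nat_lit 3)
theorem c85527 : QOK q85527 := cut [q929] ⟨c929, trivial⟩ (nd (nat_lit 273) (nat_lit 0) (cs (rf (nat_lit 0)) (lf (nat_lit 6) (nat_lit 250)))) q85527 (by decide +kernel)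
def q85528 : Q := Q.p (nat_lit 0x100000c00002000000000000000000000000000000000000000000000000000000000) (nat_lit 0x10000040000200000000000000008000020000000000000000000000000000000000000000000000) (nat_lit 3)
theorem c85528 : QOK q85528 := cut [q41379] ⟨c41379, trivial⟩ (nd (nat_lit 294) (nat_lit 0) (cs (lf (nat_lit 30) (nat_lit 228)) (rf (nat_lit 0)))) q85528 (by decide +kernel)
def q85531 : Q := Q.p (nat_lit 0x100000e00002800000000000000000000000000000000000000000000000000000000) (nat_lit 0x270000180004000002000008000000000000000000000000000000000000000000000) (nat_lit 5)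
theorem c85531 : QOK q85531 := cut [q56415] ⟨c56415, trivial⟩ (nd (nat_lit 183) (nat_lit 0) (cs (lf (nat_lit 25) (nat_lit 183)) (nd (nat_lit 248) (nat_lit 0) (cs (lf (nat_lit 17) (nat_lit 226)) (nd (nat_lit 247) (nat_lit 0) (cs (lf (nat_lit 5) (nat_lit 247)) (rf (nat_lit 0)))))))) q85531 (by decide +kernel)
def q85537 : Q := Q.p (nat_lit 0x1e00004000000000000000000000000000000000000000000000000000000000) (nat_lit 0x100002e00000000000000000000000000000000000000000000000000000000) (nat_lit 3)
theorem c85537 : QOK q85537 := cut [q9769] ⟨c9769, trivial⟩ (nd (nat_lit 248) (nat_lit 0) (cs (lf (nat_lit 16) (nat_lit 226)) (rf (nat_lit 0)))) q85537 (by decide +kernel)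
def q85544 : Q := Q.p (nat_lit 0x3c00000000000000000000000000000000000000000000000000000000000000) (nat_lit 0xe000030000fc00000000000000000000000000000000000000000000000000000000) (nat_lit 6)
theorem c85544 : QOK q85544 := cut [q18192] ⟨c18192, trivial⟩ (nd (nat_lit 227) (nat_lit 0) (cs (lf (nat_lit 22) (nat_lit 227)) (nd (nat_lit 249) (nat_lit 0) (cs (lf (nat_lit 23) (nat_lit 226)) (nd (nat_lit 230) (nat_lit 0) (cs (lf (nat_lit 17) (nat_lit 227)) (nd (nat_lit 248) (nat_lit 0) (cs (lf (nat_lit 16) (nat_lit 226)) (rf (nat_lit 0)))))))))) q85544 (by decide +kernel)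
def q85549 : Q := Q.p (nat_lit 0x3c00000000000000000000000000000000000000000000000000000000000000) (nat_lit 0x1c000c30000f000000000000000000000000000000000000000000000000000000000) (nat_lit 6)
theorem c85549 : QOK q85549 := cut [q85547] ⟨c85547, trivial⟩ (nd (nat_lit 271) (nat_lit 0) (cs (lf (nat_lit 10) (nat_lit 249)) (nd (nat_lit 249) (nat_lit 0) (cs (lf (nat_lit 11) (nat_lit 248)) (rf (nat_lit 0)))))) q85549 (by decide +kernel)
def q85550 : Q := Q.p (nat_lit 0x7800006000000000000000000000000000000000000000000000000000000000) (nat_lit 0x80000300000000000000010000040000000000000000000000000000000000000000000000) (nat_lit 3)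
theorem c85550 : QOK q85550 := cut [q82228] ⟨c82228, trivial⟩ (nd (nat_lit 273) (nat_lit 0) (cs (lf (nat_lit 11) (nat_lit 250)) (rf (nat_lit 0)))) q85550 (by decide +kernel)
def q85564 : Q := Q.p (nat_lit 0x3e00000000000000000000000000000000000000000000000000000000000000) (nat_lit 0xe0004180007000000000000000000000000000000000000000000000000000000000) (nat_lit 5)
theorem c85564 : QOK q85564 := cut [q82249] ⟨c82249, trivial⟩ (nd (nat_lit 270) (nat_lit 0) (cs (lf (nat_lit 10) (nat_lit 248)) (nd (nat_lit 248) (nat_lit 0) (cs (lf (nat_lit 11) (nat_lit 247)) (rf (nat_lit 0)))))) q85564 (by decide +kernel)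
def q85579 : Q := Q.p (nat_lit 0x3800001000000000000000000000000000000000000000000000000000000000) (nat_lit 0x4000006c00000000000000000000000000000000000000000000000000000000) (nat_lit 3)
theorem c85579 : QOK q85579 := cut [q82197] ⟨c82197, trivial⟩ (nd (nat_lit 229) (nat_lit 0) (cs (lf (nat_lit 18) (nat_lit 228)) (rf (nat_lit 0)))) q85579 (by decide +kernel)
def q85592 : Q := Q.p (nat_lit 0x400003000000000010000180000000000000000000000000000000000000000000000) (nat_lit 0x800002c000640000000000000000000000000000000000000000000000) (nat_lit 4)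
theorem c85592 : QOK q85592 := cut [q1467] ⟨c1467, trivial⟩ (nd (nat_lit 209) (nat_lit 0) (cs (lf (nat_lit 38) (nat_lit 186)) (nd (nat_lit 207) (nat_lit 0) (cs (lf (nat_lit 12) (nat_lit 184)) (rf (nat_lit 0)))))) q85592 (by decide +kernel)
def q85609 : Q := Q.p (nat_lit 0x3c0000000000000000000000000000000000000000000000) (nat_lit 0x380000400000380000000000000000000000000000000000000000) (nat_lit 4)
theorem c85609 : QOK q85609 := cut [q85607] ⟨c85607, trivial⟩ (nd (nat_lit 212) (nat_lit 0) (cs (lf (nat_lit 4) (nat_lit 186)) (nd (nat_lit 164) (nat_lit 0) (cs (lf (nat_lit 23) (nat_lit 163)) (rf (nat_lit 0)))))) q85609 (by decide +kernel)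
def q85611 : Q := Q.p (nat_lit 0x3c0000c00000000000000000000000000000000000000000) (nat_lit 0x380001c00000200000000000000000000000000000000000000000) (nat_lit 4)
theorem c85611 : QOK q85611 := cut [q57918] ⟨c57918, trivial⟩ (nd (nat_lit 212) (nat_lit 0) (cs (lf (nat_lit 4) (nat_lit 186)) (nd (nat_lit 190) (nat_lit 0) (cs (lf (nat_lit 5) (nat_lit 187)) (rf (nat_lit 0)))))) q85611 (by decide +kernel)
def q85617 : Q := Q.p (nat_lit 0x3c0000000000000000000000000000000000000000000000) (nat_lit 0x20001dc0000000000000000000000000000000000000000) (nat_lit 4)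
theorem c85617 : QOK q85617 := cut [q7631] ⟨c7631, trivial⟩ (nd (nat_lit 167) (nat_lit 0) (cs (lf (nat_lit 17) (nat_lit 164)) (nd (nat_lit 185) (nat_lit 0) (cs (lf (nat_lit 16) (nat_lit 163)) (rf (nat_lit 0)))))) q85617 (by decide +kernel)
def q85687 : Q := Q.p (nat_lit 0x10000070000000000000000000000000000000000000000000000000000) (nat_lit 0xe0000088000000000000000000000000000000000000000000000000000) (nat_lit 3)
theorem c85687 : QOK q85687 := cut [q17515] ⟨c17515, trivial⟩ (nd (nat_lit 233) (nat_lit 0) (cs (lf (nat_lit 0) (nat_lit 207)) (rf (nat_lit 0)))) q85687 (by decide +kernel)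
def q85706 : Q := Q.p (nat_lit 0x3000030000000000000000000000000000000000000000000000000000000000) (nat_lit 0xc8000c0000000000000000000000000000000000000000000000000000000000) (nat_lit 3)
theorem c85706 : QOK q85706 := cut [q80981] ⟨c80981, trivial⟩ (nd (nat_lit 254) (nat_lit 0) (cs (lf (nat_lit 12) (nat_lit 229)) (rf (nat_lit 0)))) q85706 (by decide +kernel)
def q85713 : Q := Q.p (nat_lit 0x600003000000000000000000000000000000000000000000000000000000000000000) (nat_lit 0x18000c800000000000000000000000000000000000000000000000000000000000000) (nat_lit 3)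
theorem c85713 : QOK q85713 := cut [q85712] ⟨c85712, trivial⟩ (nd (nat_lit 254) (nat_lit 0) (cs (lf (nat_lit 6) (nat_lit 251)) (rf (nat_lit 0)))) q85713 (by decide +kernel)

end Crest.Agent.H3.Snaky.CR
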