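import Crest.Agent.H3.Snaky.Cert
import Crest.Agent.H3.Snaky.CR.CR0
import Crest.Agent.H3.Snaky.CR.CR1
import Crest.Agent.H3.Snaky.CR.CR2
import Crest.Agent.H3.Snaky.CR.CR3
import Crest.Agent.H3.Snaky.CR.CR4
import Crest.Agent.H3.Snaky.CR.CR5
import Crest.Agent.H3.Snaky.CR.CR6
import Crest.Agent.H3.Snaky.CR.CR7
import Crest.Agent.H3.Snaky.CR.CR9
import Crest.Agent.H3.Snaky.CR.CR10
import Crest.Agent.H3.Snaky.CR.CR11
import Crest.Agent.H3.Snaky.CR.CR12
import Crest.Agent.H3.Snaky.CR.CR13
import Crest.Agent.H3.Snaky.CR.CR15
import Crest.Agent.H3.Snaky.CR.CR16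
import Crest.Agent.H3.Snaky.CR.CR17
import Crest.Agent.H3.Snaky.CR.CR18

set_option autoImplicit false
set_option maxRecDepth 100000

namespace Crest.Agent.H3.Snaky.CR

open T

def q85749 : Q := Q.p (nat_lit 0x3000028000000000000000000000000000000000000000000000000000000000) (nat_lit 0xc00054000000000000000000000000000000000000000000000000000000000) (nat_lit 3)
theorem c85749 : QOK q85749 := cut [q10759] ⟨c10759, trivial⟩ (nd (nat_lit 232) (nat_lit 0) (cs (lf (nat_lit 6) (nat_lit 230)) (rf (nat_lit 0)))) q85749 (by decide +kernel)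
def q85772 : Q := Q.p (nat_lit 0x20000080000200000c0000000000000000000000000000000000000000000000000000) (nat_lit 0x400001c0000700001c00004000010000010000000000000000000000000000000000000000000000000000000000) (nat_lit 7)
theorem c85772 : QOK q85772 := cut [q14279] ⟨c14279, trivial⟩ (nd (nat_lit 278) (nat_lit 0) (cs (lf (nat_lit 29) (nat_lit 211)) (nd (nat_lit 299) (nat_lit 0) (cs (lf (nat_lit 46) (nat_lit 210)) (nd (nat_lit 320) (nat_lit 0) (cs (lf (nat_lit 40) (nat_lit 232)) (nd (nat_lit 321) (nat_lit 0) (cs (lf (nat_lit 41) (nat_lit 254)) (nd (nat_lit 343) (nat_lit 0) (cs (lf (nat_lit 35) (nat_lit 255)) (rf (nat_lit 0)))))))))))) q85772 (by decide +kernel)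
def q85782 : Q := Q.p (nat_lit 0x18000020000080000200000000000000000000000000000000000000000000000) (nat_lit 0x40000000000100000c00001000000000000000000000000000000000000) (nat_lit 3)
theorem c85782 : QOK q85782 := cut [q57685] ⟨c57685, trivial⟩ (nd (nat_lit 167) (nat_lit 0) (cs (lf (nat_lit 28) (nat_lit 167)) (rf (nat_lit 0)))) q85782 (by decide +kernel)
def q85791 : Q := Q.p (nat_lit 0x8000020000080000200000000000000000000000000000000000000000000000) (nat_lit 0x2000000000000000060001d00001400000000000000000000000000000000000000000) (nat_lit 5)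
theorem c85791 : QOK q85791 := cut [q85788] ⟨c85788, trivial⟩ (nd (nat_lit 188) (nat_lit 0) (cs (lf (nat_lit 47) (nat_lit 166)) (nd (nat_lit 210) (nat_lit 0) (cs (lf (nat_lit 42) (nat_lit 188)) (nd (nat_lit 190) (nat_lit 0) (cs (lf (nat_lit 35) (nat_lit 167)) (rf (nat_lit 0)))))))) q85791 (by decide +kernel)
def q85824 : Q := Q.p (nat_lit 0x20000380000000000000000000000000000000000000000000000000000) (nat_lit 0x40000310000440003800002000008000000000000000000000000000000000000) (nat_lit 6)
theorem c85824 : QOK q85824 := cut [q85823] ⟨c85823, trivial⟩ (nd (nat_lit 214) (nat_lit 0) (cs (lf (nat_lit 11) (nat_lit 210)) (rf (nat_lit 0)))) q85824 (by decide +kernel)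
def q85868 : Q := Q.p (nat_lit 0x8000020000080000200000000000000000000000000000000000000000000000) (nat_lit 0x1000006000010000000000040000100000400000000000000000000000000000000000000000) (nat_lit 4)
theorem c85868 : QOK q85868 := cut [q85866] ⟨c85866, trivial⟩ (nd (nat_lit 278) (nat_lit 0) (cs (lf (nat_lit 28) (nat_lit 189)) (nd (nat_lit 277) (nat_lit 0) (cs (lf (nat_lit 29) (nat_lit 211)) (rf (nat_lit 0)))))) q85868 (by decide +kernel)
def q85877 : Q := Q.p (nat_lit 0x8000020000080000200000000000000000000000000000000000000000000000) (nat_lit 0x400001000005000004000010000180000700001c000010000000000000000000000000) (nat_lit 8)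
theorem c85877 : QOK q85877 := cut [q85875] ⟨c85875, trivial⟩ (nd (nat_lit 256) (nat_lit 0) (cs (lf (nat_lit 29) (nat_lit 189)) (nd (nat_lit 167) (nat_lit 0) (cs (lf (nat_lit 28) (nat_lit 167)) (rf (nat_lit 0)))))) q85877 (by decide +kernel)
def q85885 : Q := Q.p (nat_lit 0x8000020000080000200000000000000000000000000000000000000000000000) (nat_lit 0x1000006000010000000000100000400001000000000000000000000000000000000000000000) (nat_lit 4)
theorem c85885 : QOK q85885 := cut [q13821] ⟨c13821, trivial⟩ (nd (nat_lit 278) (nat_lit 0) (cs (lf (nat_lit 28) (nat_lit 189)) (nd (nat_lit 277) (nat_lit 0) (cs (lf (nat_lit 29) (nat_lit 211)) (rf (nat_lit 0)))))) q85885 (by decide +kernel)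
def q85914 : Q := Q.p (nat_lit 0x8000020000080000400000000000000000000000000000000000000000000000) (nat_lit 0x2000000000000000060001b00001400000000000000000000000000000000000000000) (nat_lit 5)
theorem c85914 : QOK q85914 := cut [q85788] ⟨c85788, trivial⟩ (nd (nat_lit 189) (nat_lit 0) (cs (lf (nat_lit 35) (nat_lit 167)) (nd (nat_lit 188) (nat_lit 0) (cs (lf (nat_lit 47) (nat_lit 166)) (nd (nat_lit 210) (nat_lit 0) (cs (lf (nat_lit 42) (nat_lit 188)) (rf (nat_lit 0)))))))) q85914 (by decide +kernel)
def q85969 : Q := Q.p (nat_lit 0x40000e000030000000000000000000000000000000000000000000000000000000000) (nat_lit 0x1c800070000000000000000000000000000000000000000000000000000000000000000) (nat_lit 4)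
theorem c85969 : QOK q85969 := cut [q85968] ⟨c85968, trivial⟩ (nd (nat_lit 256) (nat_lit 0) (cs (lf (nat_lit 10) (nat_lit 252)) (rf (nat_lit 0)))) q85969 (by decide +kernel)
def q85998 : Q := Q.p (nat_lit 0xb000020000080000200000000000000000000000000000000000000000000000) (nat_lit 0x14000040000000000100000c00001000000000000000000000000000000000000) (nat_lit 4)
theorem c85998 : QOK q85998 := cut [q57685] ⟨c57685, trivial⟩ (nd (nat_lit 234) (nat_lit 0) (cs (lf (nat_lit 14) (nat_lit 230)) (nd (nat_lit 167) (nat_lit 0) (cs (lf (nat_lit 29) (nat_lit 167)) (rf (nat_lit 0)))))) q85998 (by decide +kernel)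
def q86000 : Q := Q.p (nat_lit 0xb000020000080000200000000000000000000000000000000000000000000000) (nat_lit 0x14000040000000000400001800004000000000000000000000000000000000000) (nat_lit 4)
theorem c86000 : QOK q86000 := cut [q84859] ⟨c84859, trivial⟩ (nd (nat_lit 234) (nat_lit 0) (cs (lf (nat_lit 14) (nat_lit 230)) (nd (nat_lit 167) (nat_lit 0) (cs (lf (nat_lit 29) (nat_lit 167)) (rf (nat_lit 0)))))) q86000 (by decide +kernel)
def q86011 : Q := Q.p (nat_lit 0x100000400003000004000000000000000000000000000000000000000000000000000000000) (nat_lit 0x2000008000000000080000300000c0000000000000000000000000000000000000000000000) (nat_lit 4)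
theorem c86011 : QOK q86011 := cut [q81803] ⟨c81803, trivial⟩ (nd (nat_lit 209) (nat_lit 0) (cs (lf (nat_lit 34) (nat_lit 208)) (nd (nat_lit 208) (nat_lit 0) (cs (lf (nat_lit 35) (nat_lit 186)) (rf (nat_lit 0)))))) q86011 (by decide +kernel)
def q86019 : Q := Q.p (nat_lit 0x3000004000010000040000000000000000000000000000000000000000000000) (nat_lit 0x8000000000080000300000800000000000000000000000000000000000) (nat_lit 3)
theorem c86019 : QOK q86019 := cut [q432] ⟨c432, trivial⟩ (nd (nat_lit 164) (nat_lit 0) (cs (lf (nat_lit 28) (nat_lit 164)) (rf (nat_lit 0)))) q86019 (by decide +kernel)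
def q86029 : Q := Q.p (nat_lit 0x400003000004000020000000000000000000000000000000000000000000000000000) (nat_lit 0x8000000000000000180000e0000080000000000000000000000000000000000000000) (nat_lit 4)
theorem c86029 : QOK q86029 := cut [q32039] ⟨c32039, trivial⟩ (nd (nat_lit 208) (nat_lit 0) (cs (lf (nat_lit 35) (nat_lit 186)) (nd (nat_lit 186) (nat_lit 0) (cs (lf (nat_lit 29) (nat_lit 186)) (rf (nat_lit 0)))))) q86029 (by decide +kernel)
def q86097 : Q := Q.p (nat_lit 0xb000020000080000200000000000000000000000000000000000000000000000) (nat_lit 0x1000006000014000000000000000000000000000000000000000000000000000000000000000) (nat_lit 3)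
theorem c86097 : QOK q86097 := cut [q86041] ⟨c86041, trivial⟩ (nd (nat_lit 278) (nat_lit 0) (cs (lf (nat_lit 28) (nat_lit 189)) (rf (nat_lit 0)))) q86097 (by decide +kernel)
def q86150 : Q := Q.p (nat_lit 0x30000280000000000000000000000000000000000000000000000) (nat_lit 0x4c000500000000000000000000000000000000000000000000000) (nat_lit 3)
theorem c86150 : QOK q86150 := cut [q78832] ⟨c78832, trivial⟩ (nd (nat_lit 188) (nat_lit 0) (cs (lf (nat_lit 6) (nat_lit 186)) (rf (nat_lit 0)))) q86150 (by decide +kernel)
def q86211 : Q := Q.p (nat_lit 0x40000b000020000030000000000000000000000000000000000000000000000000000) (nat_lit 0x40000700001c000060000140000440001cc000780001000000000000000000000000000000000000000000) (nat_lit 12)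
theorem c86211 : QOK q86211 := cut [q86199, q14270] ⟨c86199, c14270, trivial⟩ (nd (nat_lit 190) (nat_lit 0) (cs (nd (nat_lit 187) (nat_lit 0) (cs (lf (nat_lit 32) (nat_lit 186)) (nd (nat_lit 189) (nat_lit 0) (cs (lf (nat_lit 8) (nat_lit 186)) (nd (nat_lit 211) (nat_lit 0) (cs (lf (nat_lit 35) (nat_lit 167)) (lf (nat_lit 14) (nat_lit 186)))))))) (cs (nd (nat_lit 234) (nat_lit 0) (cs (lf (nat_lit 14) (nat_lit 230)) (nd (nat_lit 212) (nat_lit 0) (cs (lf (nat_lit 36) (nat_lit 167)) (rf (nat_lit 0)))))) (nd (nat_lit 187) (nat_lit 0) (cs (lf (nat_lit 32) (nat_lit 186)) (nd (nat_lit 234) (nat_lit 0) (cs (lf (nat_lit 14) (nat_lit 230)) (nd (nat_lit 211) (nat_lit 0) (cs (lf (nat_lit 2) (nat_lit 208)) (nd (nat_lit 188) (nat_lit 0) (cs (lf (nat_lit 7) (nat_lit 186)) (nd (nat_lit 206) (nat_lit 0) (cs (lf (nat_lit 13) (nat_lit 184)) (nd (nat_lit 277) (nat_lit 0) (cs (lf (nat_lit 34) (nat_lit 189)) (nd (nat_lit 300) (nat_lit 0) (cs (lf (nat_lit 28) (nat_lit 211)) (nd (nat_lit 299) (nat_lit 0) (cs (lf (nat_lit 29) (nat_lit 233)) (nd (nat_lit 321) (nat_lit 0) (cs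 (lf (nat_lit 34) (nat_lit 233)) (rf (nat_lit 1))))))))))))))))))))))) q86211 (by decide +kernel)
def q86263 : Q := Q.p (nat_lit 0x6000008000020000080000000000000000000000000000000000000000000000000000) (nat_lit 0x10000000000040000300000400000000000000000000000000000000000000000) (nat_lit 3)
theorem c86263 : QOK q86263 := cut [q85866] ⟨c85866, trivial⟩ (nd (nat_lit 189) (nat_lit 0) (cs (lf (nat_lit 28) (nat_lit 189)) (rf (nat_lit 0)))) q86263 (by decide +kernel)
def q86274 : Q := Q.p (nat_lit 0x2000008000020000080000000000000000000000000000000000000000000000000000) (nat_lit 0x140000700001400000000000000000000000000000000000000000) (nat_lit 4)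
theorem c86274 : QOK q86274 := cut [q85866] ⟨c85866, trivial⟩ (nd (nat_lit 190) (nat_lit 0) (cs (lf (nat_lit 34) (nat_lit 189)) (nd (nat_lit 189) (nat_lit 0) (cs (lf (nat_lit 35) (nat_lit 167)) (rf (nat_lit 0)))))) q86274 (by decide +kernel)
def q86294 : Q := Q.p (nat_lit 0x100000600001000004000000000000000000000000000000000000000000000000000000000) (nat_lit 0x800002000000000008000080000380000e0000080000000000000000000000000000000000000000) (nat_lit 6)
theorem c86294 : QOK q86294 := cut [q11335] ⟨c11335, trivial⟩ (nd (nat_lit 209) (nat_lit 0) (cs (lf (nat_lit 34) (nat_lit 208)) (nd (nat_lit 208) (nat_lit 0) (cs (lf (nat_lit 35) (nat_lit 186)) (nd (nat_lit 297) (nat_lit 0) (cs (lf (nat_lit 29) (nat_lit 230)) (nd (nat_lit 185) (nat_lit 0) (cs (lf (nat_lit 46) (nat_lit 185)) (rf (nat_lit 0)))))))))) q86294 (by decide +kernel)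
def q86310 : Q := Q.p (nat_lit 0x100000400003000000000000000000000000000000000000000000000000000000000000000) (nat_lit 0x600003e0003e00002e000038000c800008000000000000000000000000000000000000000000000000000000000) (nat_lit 12)
theorem c86310 : QOK q86310 := cut [q42170] ⟨c42170, trivial⟩ (nd (nat_lit 318) (nat_lit 0) (cs (lf (nat_lit 35) (nat_lit 230)) (nd (nat_lit 319) (nat_lit 0) (cs (lf (nat_lit 29) (nat_lit 252)) (nd (nat_lit 339) (nat_lit 0) (cs (lf (nat_lit 40) (nat_lit 251)) (nd (nat_lit 340) (nat_lit 0) (cs (lf (nat_lit 41) (nat_lit 273)) (nd (nat_lit 337) (nat_lit 0) (cs (lf (nat_lit 13) (nat_lit 315)) (nd (nat_lit 320) (nat_lit 0) (cs (lf (nat_lit 6) (nat_lit 317)) (nd (nat_lit 273) (nat_lit 0) (cs (lf (nat_lit 47) (nat_lit 251)) (nd (nat_lit 254) (nat_lit 0) (cs (lf (nat_lit 6) (nat_lit 251)) (nd (nat_lit 271) (nat_lit 0) (cs (lf (nat_lit 13) (nat_lit 249)) (nd (nat_lit 295) (nat_lit 0) (cs (rf (nat_lit 0)) (lf (nat_lit 42) (nat_lit 273)))))))))))))))))))))) q86310 (by decide +kernel)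
def q86313 : Q := Q.p (nat_lit 0x3000018000000000000000000000000000000000000000000000000000000000) (nat_lit 0x4c00060000000000000000000000000000000000000000000000000000000000) (nat_lit 3)
theorem c86313 : QOK q86313 := cut [q86312] ⟨c86312, trivial⟩ (nd (nat_lit 233) (nat_lit 0) (cs (lf (nat_lit 6) (nat_lit 230)) (rf (nat_lit 0)))) q86313 (by decide +kernel)
def q86318 : Q := Q.p (nat_lit 0xd00007000010000000000000000000000000000000000000000000000000000000000) (nat_lit 0x80000e00020000000000000000000000000000000000000000000000000000000000) (nat_lit 3)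
theorem c86318 : QOK q86318 := cut [q14355] ⟨c14355, trivial⟩ (nd (nat_lit 251) (nat_lit 0) (cs (rf (nat_lit 0)) (lf (nat_lit 17) (nat_lit 229)))) q86318 (by decide +kernel)
def q86323 : Q := Q.p (nat_lit 0x800006000010000000000000000000000000000000000000000000000000000000000) (nat_lit 0x80000200000000000000008000040000100000000000000000000000000000000000000000000000) (nat_lit 3)
theorem c86323 : QOK q86323 := cut [q86322] ⟨c86322, trivial⟩ (nd (nat_lit 297) (nat_lit 0) (cs (lf (nat_lit 30) (nat_lit 231)) (rf (nat_lit 0)))) q86323 (by decide +kernel)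
def q86344 : Q := Q.p (nat_lit 0x10000040000100000400000000000000000000000000000000000000000000000000000000000000) (nat_lit 0x8000020000080000000000200001800002000000000000000000000000000000000000000000000000000) (nat_lit 4)
theorem c86344 : QOK q86344 := cut [q17422] ⟨c17422, trivial⟩ (nd (nat_lit 227) (nat_lit 0) (cs (lf (nat_lit 46) (nat_lit 227)) (nd (nat_lit 228) (nat_lit 0) (cs (lf (nat_lit 47) (nat_lit 205)) (rf (nat_lit 0)))))) q86344 (by decide +kernel)
def q86384 : Q := Q.p (nat_lit 0x800003000018000020000000000000000000000000000000000000000000000000000) (nat_lit 0x60000058000140000000000000000000000000000000000000000000000) (nat_lit 4)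
theorem c86384 : QOK q86384 := cut [q80368] ⟨c80368, trivial⟩ (nd (nat_lit 233) (nat_lit 0) (cs (lf (nat_lit 6) (nat_lit 230)) (nd (nat_lit 210) (nat_lit 0) (cs (lf (nat_lit 35) (nat_lit 187)) (rf (nat_lit 0)))))) q86384 (by decide +kernel)
def q86389 : Q := Q.p (nat_lit 0x280000f000000000000000000000000000000000000000000000000000000000000000) (nat_lit 0x800000000000800070000040000100000000000000000000000000000000000000000000000) (nat_lit 4)
theorem c86389 : QOK q86389 := cut [q80670] ⟨c80670, trivial⟩ (nd (nat_lit 233) (nat_lit 0) (cs (lf (nat_lit 17) (nat_lit 230)) (nd (nat_lit 232) (nat_lit 0) (cs (lf (nat_lit 12) (nat_lit 229)) (rf (nat_lit 0)))))) q86389 (by decide +kernel)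
def q86408 : Q := Q.p (nat_lit 0x60000080000e00001000000000000000000000000000000000000000000000000000000000000000) (nat_lit 0x10000000000000000000000e00001000000000000000000000000000000000000000000000000000000000) (nat_lit 3)
theorem c86408 : QOK q86408 := cut [q14481] ⟨c14481, trivial⟩ (nd (nat_lit 251) (nat_lit 0) (cs (lf (nat_lit 29) (nat_lit 251)) (rf (nat_lit 0)))) q86408 (by decide +kernel)
def q86430 : Q := Q.p (nat_lit 0x200000c00003000000000000000000000000000000000000000000000000000000000000000) (nat_lit 0x700001e0001c00000000000000008000000000000000000000000000000000000000000000000000000000) (nat_lit 6)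
theorem c86430 : QOK q86430 := cut [q22906] ⟨c22906, trivial⟩ (nd (nat_lit 319) (nat_lit 0) (cs (lf (nat_lit 42) (nat_lit 252)) (rf (nat_lit 0)))) q86430 (by decide +kernel)
def q86432 : Q := Q.p (nat_lit 0x80000200000c00003000000000000000000000000000000000000000000000000000000000000000) (nat_lit 0x40000100000500000000000000008000020000080000000000000000000000000000000000000000000000) (nat_lit 4)
theorem c86432 : QOK q86432 := cut [q24703] ⟨c24703, trivial⟩ (nd (nat_lit 320) (nat_lit 0) (cs (lf (nat_lit 29) (nat_lit 253)) (nd (nat_lit 231) (nat_lit 0) (cs (lf (nat_lit 28) (nat_lit 231)) (rf (nat_lit 0)))))) q86432 (by decide +kernel)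
def q86455 : Q := Q.p (nat_lit 0x400003400008000000000000000000000000000000000000000000000000000000000) (nat_lit 0x800000a00014000000000000000000000000000000000000000000000000000000000) (nat_lit 3)
theorem c86455 : QOK q86455 := cut [q82366] ⟨c82366, trivial⟩ (nd (nat_lit 251) (nat_lit 0) (cs (lf (nat_lit 17) (nat_lit 228)) (rf (nat_lit 0)))) q86455 (by decide +kernel)
def q86546 : Q := Q.p (nat_lit 0x40000700000000000000000000000000000000000000000000000000000000000000000000) (nat_lit 0xb8000800000000000000000000000000000000000000000000000000000000000000000000) (nat_lit 3)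
theorem c86546 : QOK q86546 := cut [q48673] ⟨c48673, trivial⟩ (nd (nat_lit 293) (nat_lit 0) (cs (lf (nat_lit 6) (nat_lit 271)) (rf (nat_lit 0)))) q86546 (by decide +kernel)
def q86569 : Q := Q.p (nat_lit 0x500003000000000000000000000000000000000000000000000000000000000000000) (nat_lit 0x28000c800000000000000000000000000000000000000000000000000000000000000) (nat_lit 3)
theorem c86569 : QOK q86569 := cut [q84072] ⟨c84072, trivial⟩ (nd (nat_lit 273) (nat_lit 0) (cs (lf (nat_lit 12) (nat_lit 249)) (rf (nat_lit 0)))) q86569 (by decide +kernel)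
def q86572 : Q := Q.p (nat_lit 0x300000c00006000008000000000000000000000000000000000000000000000000000000000) (nat_lit 0x100000c00000300000000000000000000000000000000000000000000000000000000000000000000) (nat_lit 3)
theorem c86572 : QOK q86572 := cut [q86571] ⟨c86571, trivial⟩ (nd (nat_lit 273) (nat_lit 0) (cs (lf (nat_lit 12) (nat_lit 250)) (rf (nat_lit 0)))) q86572 (by decide +kernel)
def q86578 : Q := Q.p (nat_lit 0x380000400001000000000000000000000000000000000000000000000000000000000000000) (nat_lit 0x200000800003c000440000000000000004000000000000000000000000000000000000000000000000000000000) (nat_lit 5)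
theorem c86578 : QOK q86578 := cut [q82643] ⟨c82643, trivial⟩ (nd (nat_lit 317) (nat_lit 0) (cs (lf (nat_lit 36) (nat_lit 229)) (nd (nat_lit 339) (nat_lit 0) (cs (lf (nat_lit 30) (nat_lit 273)) (nd (nat_lit 316) (nat_lit 0) (cs (lf (nat_lit 6) (nat_lit 294)) (rf (nat_lit 0)))))))) q86578 (by decide +kernel)
def q86596 : Q := Q.p (nat_lit 0x180000400001000000000000000000000000000000000000000000000000000000000000000) (nat_lit 0x2000008000020000000000200000000004000000000000000000000000000000000000000000000000000000000) (nat_lit 3)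
theorem c86596 : QOK q86596 := cut [q86595] ⟨c86595, trivial⟩ (nd (nat_lit 317) (nat_lit 0) (cs (lf (nat_lit 36) (nat_lit 229)) (rf (nat_lit 0)))) q86596 (by decide +kernel)
def q86612 : Q := Q.p (nat_lit 0x400007800004000000000000000000000000000000000000000000000000000000000) (nat_lit 0x80000300000000000000010000040000000000000000000000000000000000000000000000) (nat_lit 3)
theorem c86612 : QOK q86612 := cut [q84227] ⟨c84227, trivial⟩ (nd (nat_lit 273) (nat_lit 0) (cs (lf (nat_lit 11) (nat_lit 250)) (rf (nat_lit 0)))) q86612 (by decide +kernel)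
def q86623 : Q := Q.p (nat_lit 0x3000018000000000000000000000000000000000000000000000000000000000) (nat_lit 0x4c00024000000000000000000000000000000000000000000000000000000000) (nat_lit 3)
theorem c86623 : QOK q86623 := cut [q86622] ⟨c86622, trivial⟩ (nd (nat_lit 251) (nat_lit 0) (cs (lf (nat_lit 12) (nat_lit 228)) (rf (nat_lit 0)))) q86623 (by decide +kernel)
def q86631 : Q := Q.p (nat_lit 0x3000018000000000000000000000000000000000000000000000000000000000) (nat_lit 0xc00064000000000000000000000000000000000000000000000000000000000) (nat_lit 3)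
theorem c86631 : QOK q86631 := cut [q10759] ⟨c10759, trivial⟩ (nd (nat_lit 233) (nat_lit 0) (cs (lf (nat_lit 6) (nat_lit 230)) (rf (nat_lit 0)))) q86631 (by decide +kernel)
def q86657 : Q := Q.p (nat_lit 0x380000500000000000000000000000000000000000000000000000000000000000000000000) (nat_lit 0x700001c0000ea00000000000000000000000000000000000000000000000000000000000000000000) (nat_lit 6)
theorem c86657 : QOK q86657 := cut [q86656] ⟨c86656, trivial⟩ (nd (nat_lit 298) (nat_lit 0) (cs (lf (nat_lit 22) (nat_lit 272)) (rf (nat_lit 0)))) q86657 (by decide +kernel)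
def q86677 : Q := Q.p (nat_lit 0x40000300000c000010000000000000000000000000000000000000000000000000000) (nat_lit 0x8000060000180000000000000000000000000000000000000000) (nat_lit 3)
theorem c86677 : QOK q86677 := cut [q86673] ⟨c86673, trivial⟩ (nd (nat_lit 185) (nat_lit 0) (cs (lf (nat_lit 46) (nat_lit 185)) (rf (nat_lit 0)))) q86677 (by decide +kernel)
def q86699 : Q := Q.p (nat_lit 0x100000000001800002000000000000000000000000000000000000000000000000000000000) (nat_lit 0x40000000000400000000004000008000020000000000000000000000000000000000000000000000) (nat_lit 3)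
theorem c86699 : QOK q86699 := cut [q80245] ⟨c80245, trivial⟩ (nd (nat_lit 274) (nat_lit 0) (cs (lf (nat_lit 42) (nat_lit 229)) (rf (nat_lit 0)))) q86699 (by decide +kernel)
def q86700 : Q := Q.p (nat_lit 0x80000200001800002000000000000000000000000000000000000000000000000000000000) (nat_lit 0x4000030000040000000000000004000000000000000000000000000000000000000000000000000000000) (nat_lit 3)
theorem c86700 : QOK q86700 := cut [q41526] ⟨c41526, trivial⟩ (nd (nat_lit 317) (nat_lit 0) (cs (rf (nat_lit 0)) (lf (nat_lit 35) (nat_lit 229)))) q86700 (by decide +kernel)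
def q86745 : Q := Q.p (nat_lit 0xc00003c000000000100000000000000000000000000000000000000000000000) (nat_lit 0x180000200000c00000000000000000000000000000000000000000) (nat_lit 3)
theorem c86745 : QOK q86745 := cut [q86744] ⟨c86744, trivial⟩ (nd (nat_lit 211) (nat_lit 0) (cs (lf (nat_lit 17) (nat_lit 208)) (rf (nat_lit 0)))) q86745 (by decide +kernel)
def q86761 : Q := Q.p (nat_lit 0x40000f000000000000000000000000000000000000000000000000000000000000000) (nat_lit 0x80001000000e000000000000000000000000000000000000000000000000000000000) (nat_lit 3)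
theorem c86761 : QOK q86761 := cut [q80538] ⟨c80538, trivial⟩ (nd (nat_lit 256) (nat_lit 0) (cs (lf (nat_lit 10) (nat_lit 252)) (rf (nat_lit 0)))) q86761 (by decide +kernel)
def q86766 : Q := Q.p (nat_lit 0xf000004000000000000000000000000000000000000000000000000000000000) (nat_lit 0xe000010000008000000000000000000000000000000000000000000000000000000000) (nat_lit 3)
theorem c86766 : QOK q86766 := cut [q86765] ⟨c86765, trivial⟩ (nd (nat_lit 278) (nat_lit 0) (cs (lf (nat_lit 4) (nat_lit 252)) (rf (nat_lit 0)))) q86766 (by decide +kernel)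
def q86779 : Q := Q.p (nat_lit 0x1e000008000000000000000000000000000000000000000000000000000000000) (nat_lit 0x200001d0000000000000000000000000000000000000000000000000000000000) (nat_lit 3)
theorem c86779 : QOK q86779 := cut [q82199] ⟨c82199, trivial⟩ (nd (nat_lit 257) (nat_lit 0) (cs (lf (nat_lit 22) (nat_lit 231)) (rf (nat_lit 0)))) q86779 (by decide +kernel)
def q86821 : Q := Q.p (nat_lit 0x3000018000060000000000000000000000000000000000000000000000000000) (nat_lit 0x18c000e0000398000f60001f00007000000000000000000000000000000000000) (nat_lit 11)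
theorem c86821 : QOK q86821 := cut [q86802, q86804, q86820] ⟨c86802, c86804, c86820, trivial⟩ (nd (nat_lit 211) (nat_lit 0) (cs (rf (nat_lit 0)) (cs (nd (nat_lit 233) (nat_lit 0) (cs (lf (nat_lit 6) (nat_lit 230)) (nd (nat_lit 208) (nat_lit 0) (cs (lf (nat_lit 0) (nat_lit 207)) (nd (nat_lit 250) (nat_lit 0) (cs (lf (nat_lit 13) (nat_lit 228)) (nd (nat_lit 185) (nat_lit 0) (cs (lf (nat_lit 22) (nat_lit 185)) (nd (nat_lit 189) (nat_lit 0) (cs (lf (nat_lit 17) (nat_lit 186)) (rf (nat_lit 1)))))))))))) (cs (nd (nat_lit 166) (nat_lit 0) (cs (lf (nat_lit 37) (nat_lit 165)) (nd (nat_lit 250) (nat_lit 0) (cs (lf (nat_lit 13) (nat_lit 228)) (nd (nat_lit 212) (nat_lit 0) (cs (lf (nat_lit 6) (nat_lit 209)) (nd (nat_lit 190) (nat_lit 0) (cs (lf (nat_lit 17) (nat_lit 187)) (nd (nat_lit 189) (nat_lit 0) (cs (lf (nat_lit 12) (nat_lit 186)) (nd (nat_lit 167) (nat_lit 0) (cs (lf (nat_lit 36) (nat_lit 144)) (nd (nat_lit 164) (nat_lit 0) (cs (lf (nat_lit 1) (nat_lit 164)) (nd (nat_lit 233) (nat_lit 0) (cs (lf (nat_lit 47) (nat_lit 144)) (nd (nat_lit 168) (nat_lit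 0) (cs (lf (nat_lit 35) (nat_lit 145)) (lf (nat_lit 30) (nat_lit 167)))))))))))))))))))) (rf (nat_lit 2)))))) q86821 (by decide +kernel)
def q86851 : Q := Q.p (nat_lit 0x80000200001800000000000000000000000000000000000000000000000000000000000000) (nat_lit 0x20000000000000000000006000010000040000000000000000000000000000000000000000000000) (nat_lit 3)
theorem c86851 : QOK q86851 := cut [q85504] ⟨c85504, trivial⟩ (nd (nat_lit 230) (nat_lit 0) (cs (lf (nat_lit 30) (nat_lit 229)) (rf (nat_lit 0)))) q86851 (by decide +kernel)
def q86860 : Q := Q.p (nat_lit 0xf000018000000000000000000000000000000000000000000000000000000000) (nat_lit 0xe000030000000000000000000000000000000000000000000000000000000000000000) (nat_lit 3)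
theorem c86860 : QOK q86860 := cut [q79353] ⟨c79353, trivial⟩ (nd (nat_lit 278) (nat_lit 0) (cs (rf (nat_lit 0)) (lf (nat_lit 4) (nat_lit 252)))) q86860 (by decide +kernel)
def q86868 : Q := Q.p (nat_lit 0x500003800008000000000000000000000000000000000000000000000000000000000) (nat_lit 0x880000600004000020000080000000000000000000000000000000000000000000000) (nat_lit 4)
theorem c86868 : QOK q86868 := cut [q82366] ⟨c82366, trivial⟩ (nd (nat_lit 187) (nat_lit 0) (cs (lf (nat_lit 37) (nat_lit 186)) (nd (nat_lit 250) (nat_lit 0) (cs (lf (nat_lit 11) (nat_lit 249)) (rf (nat_lit 0)))))) q86868 (by decide +kernel)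
def q86874 : Q := Q.p (nat_lit 0xf00003000000000000000000000000000000000000000000000000000000000000000) (nat_lit 0x20000080000600000000000000004000000000000000000000000000000000000000000000000000000000) (nat_lit 3)
theorem c86874 : QOK q86874 := cut [q86873] ⟨c86873, trivial⟩ (nd (nat_lit 297) (nat_lit 0) (cs (lf (nat_lit 5) (nat_lit 272)) (rf (nat_lit 0)))) q86874 (by decide +kernel)
def q86906 : Q := Q.p (nat_lit 0x20000080000200000800000000000000000000000000000000000000000000000000000000000000) (nat_lit 0x14000050000140000000000000002000000000000000000000000000000000000000000000000000000000) (nat_lit 4)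
theorem c86906 : QOK q86906 := cut [q22663] ⟨c22663, trivial⟩ (nd (nat_lit 316) (nat_lit 0) (cs (lf (nat_lit 41) (nat_lit 250)) (nd (nat_lit 229) (nat_lit 0) (cs (lf (nat_lit 40) (nat_lit 228)) (rf (nat_lit 0)))))) q86906 (by decide +kernel)
def q86921 : Q := Q.p (nat_lit 0x7000028000000000000000000000000000000000000000000000000000000000) (nat_lit 0x18000046000000000000000000000000000000000000000000000000000000000) (nat_lit 3)
theorem c86921 : QOK q86921 := cut [q84925] ⟨c84925, trivial⟩ (nd (nat_lit 255) (nat_lit 0) (cs (lf (nat_lit 17) (nat_lit 230)) (rf (nat_lit 0)))) q86921 (by decide +kernel)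
def q86924 : Q := Q.p (nat_lit 0x200007000008000000000000000000000000000000000000000000000000000000000) (nat_lit 0x400018000006000000000000000000000000000000000000000000000000000000000) (nat_lit 3)
theorem c86924 : QOK q86924 := cut [q84925] ⟨c84925, trivial⟩ (nd (nat_lit 255) (nat_lit 0) (cs (lf (nat_lit 10) (nat_lit 251)) (rf (nat_lit 0)))) q86924 (by decide +kernel)
def q86958 : Q := Q.p (nat_lit 0x300000c000030000000000000000000000000000000000000000000000000000) (nat_lit 0x2000008000008000700001c8000100000000000000000000000000000000000000000000000) (nat_lit 6)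
theorem c86958 : QOK q86958 := cut [q86956] ⟨c86956, trivial⟩ (nd (nat_lit 275) (nat_lit 0) (cs (lf (nat_lit 42) (nat_lit 208)) (nd (nat_lit 210) (nat_lit 0) (cs (lf (nat_lit 35) (nat_lit 187)) (rf (nat_lit 0)))))) q86958 (by decide +kernel)
def q86978 : Q := Q.p (nat_lit 0x300001e000000000000000000000000000000000000000000000000000000000) (nat_lit 0x400000c0000000000c000020000080000000000000000000000000000000000000000) (nat_lit 4)
theorem c86978 : QOK q86978 := cut [q81734] ⟨c81734, trivial⟩ (nd (nat_lit 207) (nat_lit 0) (cs (lf (nat_lit 23) (nat_lit 206)) (nd (nat_lit 251) (nat_lit 0) (cs (lf (nat_lit 12) (nat_lit 228)) (rf (nat_lit 0)))))) q86978 (by decide +kernel)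
def q86995 : Q := Q.p (nat_lit 0x20000080000e0000080000000000000000000000000000000000000000000000) (nat_lit 0x10000070000100000000000000000000000000000000000000000) (nat_lit 3)
theorem c86995 : QOK q86995 := cut [q79870] ⟨c79870, trivial⟩ (nd (nat_lit 186) (nat_lit 0) (cs (lf (nat_lit 47) (nat_lit 164)) (rf (nat_lit 0)))) q86995 (by decide +kernel)
def q87009 : Q := Q.p (nat_lit 0x300000c000040000180000000000000000000000000000000000000000000000) (nat_lit 0x4000000000000000300000700001c0000000000000000000000000000000000000000) (nat_lit 5)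
theorem c87009 : QOK q87009 := cut [q87008] ⟨c87008, trivial⟩ (nd (nat_lit 209) (nat_lit 0) (cs (lf (nat_lit 41) (nat_lit 186)) (rf (nat_lit 0)))) q87009 (by decide +kernel)
def q87016 : Q := Q.p (nat_lit 0x800002000018000000000000000000000000000000000000000000000000000000000) (nat_lit 0x200000000004000000000040000100000400000000000000000000000000000000000000000) (nat_lit 3)
theorem c87016 : QOK q87016 := cut [q85515] ⟨c85515, trivial⟩ (nd (nat_lit 210) (nat_lit 0) (cs (lf (nat_lit 30) (nat_lit 209)) (rf (nat_lit 0)))) q87016 (by decide +kernel)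
def q87022 : Q := Q.p (nat_lit 0xa00003000008000020000000000000000000000000000000000000000000000000000) (nat_lit 0x100000580004000000000000000000000000000000000000000000000000000000000000000) (nat_lit 3)
theorem c87022 : QOK q87022 := cut [q87021] ⟨c87021, trivial⟩ (nd (nat_lit 274) (nat_lit 0) (cs (lf (nat_lit 41) (nat_lit 208)) (rf (nat_lit 0)))) q87022 (by decide +kernel)
def q87075 : Q := Q.p (nat_lit 0x40000100001c000010000000000000000000000000000000000000000000000000000) (nat_lit 0x200000e000020000000000000000000000000000000000000000000000) (nat_lit 3)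
theorem c87075 : QOK q87075 := cut [q3987] ⟨c3987, trivial⟩ (nd (nat_lit 207) (nat_lit 0) (cs (lf (nat_lit 47) (nat_lit 185)) (rf (nat_lit 0)))) q87075 (by decide +kernel)
def q87096 : Q := Q.p (nat_lit 0x200001800004000000000000000000000000000000000000000000000000000000000) (nat_lit 0x20000080000400000000000000010000040000000000000000000000000000000000000000000000) (nat_lit 3)
theorem c87096 : QOK q87096 := cut [q15359] ⟨c15359, trivial⟩ (nd (nat_lit 208) (nat_lit 0) (cs (lf (nat_lit 36) (nat_lit 185)) (rf (nat_lit 0)))) q87096 (by decide +kernel)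
def q87115 : Q := Q.p (nat_lit 0x80000200001c000020000000000000000000000000000000000000000000000000000) (nat_lit 0x20001c0000100000000000000000000000000000000000000000000000) (nat_lit 3)
theorem c87115 : QOK q87115 := cut [q87114] ⟨c87114, trivial⟩ (nd (nat_lit 210) (nat_lit 0) (cs (lf (nat_lit 35) (nat_lit 187)) (rf (nat_lit 0)))) q87115 (by decide +kernel)
def q87128 : Q := Q.p (nat_lit 0x3000004000010000000000000000000000000000000000000000000000000000) (nat_lit 0xa000008000080000000000c0000300000800000000000000000000000000000000000) (nat_lit 5)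
theorem c87128 : QOK q87128 := cut [q25] ⟨c25, trivial⟩ (nd (nat_lit 186) (nat_lit 0) (cs (lf (nat_lit 29) (nat_lit 186)) (nd (nat_lit 251) (nat_lit 0) (cs (lf (nat_lit 41) (nat_lit 185)) (rf (nat_lit 0)))))) q87128 (by decide +kernel)
def q87129 : Q := Q.p (nat_lit 0x1000004000010000040000000000000000000000000000000000000000000000) (nat_lit 0x800006000008000000000200000a0000280000000000000000000000000000000000000000) (nat_lit 5)
theorem c87129 : QOK q87129 := cut [q367] ⟨c367, trivial⟩ (nd (nat_lit 163) (nat_lit 0) (cs (rf (nat_lit 0)) (lf (nat_lit 46) (nat_lit 163)))) q87129 (by decide +kernel)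
def q87133 : Q := Q.p (nat_lit 0x300000f000000000000000000000000000000000000000000000000000000000) (nat_lit 0x80007000000e000000000000000000000000000000000000000000000000000) (nat_lit 4)
theorem c87133 : QOK q87133 := cut [q87131] ⟨c87131, trivial⟩ (nd (nat_lit 206) (nat_lit 0) (cs (lf (nat_lit 23) (nat_lit 205)) (nd (nat_lit 232) (nat_lit 0) (cs (lf (nat_lit 22) (nat_lit 206)) (rf (nat_lit 0)))))) q87133 (by decide +kernel)
def q87141 : Q := Q.p (nat_lit 0x300000e000000000000000000000000000000000000000000000000000000000) (nat_lit 0x10000040000080001180000e000020000080000000000000000000000000000000000000000) (nat_lit 6)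
theorem c87141 : QOK q87141 := cut [q87138] ⟨c87138, trivial⟩ (nd (nat_lit 228) (nat_lit 0) (cs (lf (nat_lit 0) (nat_lit 227)) (nd (nat_lit 206) (nat_lit 0) (cs (lf (nat_lit 23) (nat_lit 205)) (nd (nat_lit 207) (nat_lit 0) (cs (lf (nat_lit 18) (nat_lit 206)) (rf (nat_lit 0)))))))) q87141 (by decide +kernel)
def q87148 : Q := Q.p (nat_lit 0x200001800006000008000000000000000000000000000000000000000000000000000) (nat_lit 0x40000300000c0000000000000000000000000000000000000000) (nat_lit 3)
theorem c87148 : QOK q87148 := cut [q87147] ⟨c87147, trivial⟩ (nd (nat_lit 184) (nat_lit 0) (cs (lf (nat_lit 46) (nat_lit 184)) (rf (nat_lit 0)))) q87148 (by decide +kernel)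
def q87155 : Q := Q.p (nat_lit 0x100001e000000000000000000000000000000000000000000000000000000000) (nat_lit 0x10000040000080000000000c000020000080000000000000000000000000000000000000000) (nat_lit 4)
theorem c87155 : QOK q87155 := cut [q87138] ⟨c87138, trivial⟩ (nd (nat_lit 207) (nat_lit 0) (cs (lf (nat_lit 23) (nat_lit 206)) (rf (nat_lit 0)))) q87155 (by decide +kernel)
def q87161 : Q := Q.p (nat_lit 0x3000006000000000000000000000000000000000000000000000000000000000) (nat_lit 0xc000009800000000000000000000000000000000000000000000000000000000) (nat_lit 3)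
theorem c87161 : QOK q87161 := cut [q79026] ⟨c79026, trivial⟩ (nd (nat_lit 254) (nat_lit 0) (cs (rf (nat_lit 0)) (lf (nat_lit 18) (nat_lit 229)))) q87161 (by decide +kernel)
def q87164 : Q := Q.p (nat_lit 0x1000004000010000040000000000000000000000000000000000000000000000) (nat_lit 0x200000800002000000000020000180000200000000000000000000000000000000000) (nat_lit 4)
theorem c87164 : QOK q87164 := cut [q83805] ⟨c83805, trivial⟩ (nd (nat_lit 251) (nat_lit 0) (cs (lf (nat_lit 41) (nat_lit 185)) (rf (nat_lit 0)))) q87164 (by decide +kernel)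
def q87168 : Q := Q.p (nat_lit 0x7000020000000000000000000000000000000000000000000000000000000000) (nat_lit 0x88000d0000000000000000000000000000000000000000000000000000000000) (nat_lit 3)
theorem c87168 : QOK q87168 := cut [q80981] ⟨c80981, trivial⟩ (nd (nat_lit 232) (nat_lit 0) (cs (lf (nat_lit 12) (nat_lit 229)) (rf (nat_lit 0)))) q87168 (by decide +kernel)
def q87169 : Q := Q.p (nat_lit 0xf000004000000000000000000000000000000000000000000000000000000000) (nat_lit 0xe000010000008000000000000000000000000000000000000000000000000000000000) (nat_lit 3)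
theorem c87169 : QOK q87169 := cut [q82257] ⟨c82257, trivial⟩ (nd (nat_lit 256) (nat_lit 0) (cs (lf (nat_lit 22) (nat_lit 230)) (rf (nat_lit 0)))) q87169 (by decide +kernel)
def q87190 : Q := Q.p (nat_lit 0x100001c0000000000000000000000000000000000000000000000) (nat_lit 0x3a8000600001800000000000000000000000000000000000000000) (nat_lit 5)
theorem c87190 : QOK q87190 := cut [q8028] ⟨c8028, trivial⟩ (nd (nat_lit 189) (nat_lit 0) (cs (lf (nat_lit 11) (nat_lit 185)) (nd (nat_lit 167) (nat_lit 0) (cs (lf (nat_lit 17) (nat_lit 164)) (rf (nat_lit 0)))))) q87190 (by decide +kernel)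
def q87199 : Q := Q.p (nat_lit 0x3000004000010000000000000000000000000000000000000000000000000000) (nat_lit 0x800006000008000080000200000e0000380000200000000000000000000000000000000000) (nat_lit 5)
theorem c87199 : QOK q87199 := cut [q367, q441] ⟨c367, c441, trivial⟩ (nd (nat_lit 186) (nat_lit 0) (cs (rf (nat_lit 0)) (rf (nat_lit 1)))) q87199 (by decide +kernel)
def q87208 : Q := Q.p (nat_lit 0x400003000004000010000040000000000000000000000000000000000000000000000) (nat_lit 0x40000100000000000000008000020000000000100000000000000000000000000000000000000000) (nat_lit 3)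
theorem c87208 : QOK q87208 := cut [q87207] ⟨c87207, trivial⟩ (nd (nat_lit 231) (nat_lit 0) (cs (lf (nat_lit 24) (nat_lit 164)) (rf (nat_lit 0)))) q87208 (by decide +kernel)
def q87228 : Q := Q.p (nat_lit 0x400001000006000000000000000000000000000000000000000000000000000000000) (nat_lit 0x100000000000800000000008000020000080000000000000000000000000000000000000000) (nat_lit 3)
theorem c87228 : QOK q87228 := cut [q87227] ⟨c87227, trivial⟩ (nd (nat_lit 207) (nat_lit 0) (cs (lf (nat_lit 42) (nat_lit 207)) (rf (nat_lit 0)))) q87228 (by decide +kernel)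
def q87245 : Q := Q.p (nat_lit 0x3000004000010000040000000000000000000000000000000000000000000000) (nat_lit 0x20000080000a000000000000000100000000000000000000000000000000000000000) (nat_lit 3)
theorem c87245 : QOK q87245 := cut [q5533] ⟨c5533, trivial⟩ (nd (nat_lit 164) (nat_lit 0) (cs (lf (nat_lit 28) (nat_lit 164)) (rf (nat_lit 0)))) q87245 (by decide +kernel)
def q87286 : Q := Q.p (nat_lit 0x1e000008000000000000000000000000000000000000000000000000000000000) (nat_lit 0x200001d0000000000000000000000000000000000000000000000000000000000) (nat_lit 3)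
theorem c87286 : QOK q87286 := cut [q81344] ⟨c81344, trivial⟩ (nd (nat_lit 235) (nat_lit 0) (cs (lf (nat_lit 16) (nat_lit 231)) (rf (nat_lit 0)))) q87286 (by decide +kernel)
def q87304 : Q := Q.p (nat_lit 0x400007800000000000000000000000000000000000000000000000000000000000000) (nat_lit 0xae0000700038000000000000000000000000000000000000000000000000000000000) (nat_lit 6)
theorem c87304 : QOK q87304 := cut [q82663] ⟨c82663, trivial⟩ (nd (nat_lit 232) (nat_lit 0) (cs (lf (nat_lit 17) (nat_lit 229)) (nd (nat_lit 250) (nat_lit 0) (cs (lf (nat_lit 16) (nat_lit 228)) (rf (nat_lit 0)))))) q87304 (by decide +kernel)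
def q87351 : Q := Q.p (nat_lit 0x10000040000300000c000000000000000000000000000000000000000000000000000000000) (nat_lit 0x4000003800008000000000000000000000000000000000000000000000000000) (nat_lit 3)
theorem c87351 : QOK q87351 := cut [q84417] ⟨c84417, trivial⟩ (nd (nat_lit 229) (nat_lit 0) (cs (lf (nat_lit 47) (nat_lit 207)) (rf (nat_lit 0)))) q87351 (by decide +kernel)
def q87363 : Q := Q.p (nat_lit 0x100000400003000004000000000000000000000000000000000000000000000000000000000) (nat_lit 0xa0000280000800000e0001b8000ee000080000000000000000000000000000000000000000000000) (nat_lit 10)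
theorem c87363 : QOK q87363 := cut [q79097, q87355] ⟨c79097, c87355, trivial⟩ (nd (nat_lit 231) (nat_lit 0) (cs (rf (nat_lit 0)) (nd (nat_lit 295) (nat_lit 0) (cs (lf (nat_lit 41) (nat_lit 229)) (nd (nat_lit 297) (nat_lit 0) (cs (lf (nat_lit 29) (nat_lit 230)) (nd (nat_lit 229) (nat_lit 0) (cs (lf (nat_lit 47) (nat_lit 207)) (nd (nat_lit 228) (nat_lit 0) (cs (lf (nat_lit 0) (nat_lit 227)) (nd (nat_lit 205) (nat_lit 0) (cs (lf (nat_lit 22) (nat_lit 205)) (nd (nat_lit 250) (nat_lit 0) (cs (lf (nat_lit 11) (nat_lit 227)) (nd (nat_lit 232) (nat_lit 0) (cs (lf (nat_lit 10) (nat_lit 228)) (rf (nat_lit 1)))))))))))))))))) q87363 (by decide +kernel)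
def q87369 : Q := Q.p (nat_lit 0x40000100000400001000002000000000000000000000000000000000000000000000000000000000) (nat_lit 0x8000020000080000000000000004000008000000000000000000000000000000000000000000000000000) (nat_lit 3)
theorem c87369 : QOK q87369 := cut [q13202] ⟨c13202, trivial⟩ (nd (nat_lit 230) (nat_lit 0) (cs (lf (nat_lit 47) (nat_lit 207)) (rf (nat_lit 0)))) q87369 (by decide +kernel)
def q87375 : Q := Q.p (nat_lit 0x40000100000400003000000000000000000000000000000000000000000000000000000000000000) (nat_lit 0x10000000000200000800000800006000018000040000000000000000000000000000000000000000000000) (nat_lit 5)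
theorem c87375 : QOK q87375 := cut [q79068] ⟨c79068, trivial⟩ (nd (nat_lit 229) (nat_lit 0) (cs (lf (nat_lit 46) (nat_lit 229)) (nd (nat_lit 275) (nat_lit 0) (cs (lf (nat_lit 30) (nat_lit 252)) (nd (nat_lit 230) (nat_lit 0) (cs (lf (nat_lit 47) (nat_lit 207)) (rf (nat_lit 0)))))))) q87375 (by decide +kernel)
def q87384 : Q := Q.p (nat_lit 0x100000400003000000000000000000000000000000000000000000000000000000000000000) (nat_lit 0x20000380000e000000000020000080000a000000000000000000000000000000000000000000000000000000000) (nat_lit 6)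
theorem c87384 : QOK q87384 := cut [q87382] ⟨c87382, trivial⟩ (nd (nat_lit 318) (nat_lit 0) (cs (lf (nat_lit 35) (nat_lit 230)) (nd (nat_lit 319) (nat_lit 0) (cs (lf (nat_lit 29) (nat_lit 252)) (rf (nat_lit 0)))))) q87384 (by decide +kernel)
def q87418 : Q := Q.p (nat_lit 0x200000400003000004000000000000000000000000000000000000000000000000000000000) (nat_lit 0xc0000100000000000000008000020000000000000000000000000000000000000000000000000000) (nat_lit 3)
theorem c87418 : QOK q87418 := cut [q4419] ⟨c4419, trivial⟩ (nd (nat_lit 296) (nat_lit 0) (cs (lf (nat_lit 29) (nat_lit 230)) (rf (nat_lit 0)))) q87418 (by decide +kernel)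
def q87431 : Q := Q.p (nat_lit 0x1e00004000000000000000000000000000000000000000000000000000000000) (nat_lit 0x100000c00000100002000008000020000000000000000000000000000000000000000000000) (nat_lit 4)
theorem c87431 : QOK q87431 := cut [q20230] ⟨c20230, trivial⟩ (nd (nat_lit 229) (nat_lit 0) (cs (lf (nat_lit 12) (nat_lit 226)) (nd (nat_lit 274) (nat_lit 0) (cs (rf (nat_lit 0)) (lf (nat_lit 5) (nat_lit 249)))))) q87431 (by decide +kernel)
def q87445 : Q := Q.p (nat_lit 0x7000020000000000000000000000000000000000000000000000000000000000) (nat_lit 0x8000d8000000000000000000000000000000000000000000000000000000000) (nat_lit 3)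
theorem c87445 : QOK q87445 := cut [q79116] ⟨c79116, trivial⟩ (nd (nat_lit 232) (nat_lit 0) (cs (rf (nat_lit 0)) (lf (nat_lit 12) (nat_lit 229)))) q87445 (by decide +kernel)
def q87466 : Q := Q.p (nat_lit 0x6000030000040000000000000000000000000000000000000000000000000000) (nat_lit 0x800000000000000080000300000e00003800002000000000000000000000000000000) (nat_lit 6)
theorem c87466 : QOK q87466 := cut [q4625] ⟨c4625, trivial⟩ (nd (nat_lit 188) (nat_lit 0) (cs (lf (nat_lit 41) (nat_lit 187)) (nd (nat_lit 167) (nat_lit 0) (cs (lf (nat_lit 34) (nat_lit 166)) (nd (nat_lit 166) (nat_lit 0) (cs (lf (nat_lit 35) (nat_lit 144)) (nd (nat_lit 144) (nat_lit 0) (cs (rf (nat_lit 0)) (lf (nat_lit 28) (nat_lit 144)))))))))) q87466 (by decide +kernel)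
def q87473 : Q := Q.p (nat_lit 0x400003000006000028000000000000000000000000000000000000000000000000000) (nat_lit 0xc00038000004000080000000000000000000000000000000000000000000000) (nat_lit 4)
theorem c87473 : QOK q87473 := cut [q87471] ⟨c87471, trivial⟩ (nd (nat_lit 231) (nat_lit 0) (cs (lf (nat_lit 36) (nat_lit 186)) (nd (nat_lit 232) (nat_lit 0) (cs (lf (nat_lit 23) (nat_lit 206)) (rf (nat_lit 0)))))) q87473 (by decide +kernel)
def q87479 : Q := Q.p (nat_lit 0x100000400001000004000000000000000000000000000000000000000000000000000000000) (nat_lit 0x80000200000800000000008000030000080000000000000000000000000000000000000000000000) (nat_lit 4)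
theorem c87479 : QOK q87479 := cut [q87477] ⟨c87477, trivial⟩ (nd (nat_lit 209) (nat_lit 0) (cs (lf (nat_lit 34) (nat_lit 208)) (nd (nat_lit 297) (nat_lit 0) (cs (lf (nat_lit 29) (nat_lit 230)) (rf (nat_lit 0)))))) q87479 (by decide +kernel)
def q87526 : Q := Q.p (nat_lit 0x300000c000010000000000000000000000000000000000000000000000000000) (nat_lit 0x40000100000400000000000000028000060000180000000000000000000000000000000000000000) (nat_lit 5)
theorem c87526 : QOK q87526 := cut [q87207] ⟨c87207, trivial⟩ (nd (nat_lit 186) (nat_lit 0) (cs (lf (nat_lit 24) (nat_lit 164)) (nd (nat_lit 185) (nat_lit 0) (cs (lf (nat_lit 47) (nat_lit 163)) (nd (nat_lit 274) (nat_lit 0) (cs (lf (nat_lit 46) (nat_lit 185)) (rf (nat_lit 0)))))))) q87526 (by decide +kernel)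
def q87531 : Q := Q.p (nat_lit 0x300000e000000000000000000000000000000000000000000000000000000000) (nat_lit 0xe000118000e0000000000000000000000000000000000000000000000000000) (nat_lit 5)
theorem c87531 : QOK q87531 := cut [q87528] ⟨c87528, trivial⟩ (nd (nat_lit 228) (nat_lit 0) (cs (lf (nat_lit 0) (nat_lit 227)) (nd (nat_lit 210) (nat_lit 0) (cs (lf (nat_lit 16) (nat_lit 206)) (nd (nat_lit 232) (nat_lit 0) (cs (lf (nat_lit 17) (nat_lit 207)) (rf (nat_lit 0)))))))) q87531 (by decide +kernel)
def q87678 : Q := Q.p (nat_lit 0x300000c000010000060000000000000000000000000000000000000000000000) (nat_lit 0x4000000000000000e0000090000200000000000000000000000000000000000000000) (nat_lit 4)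
theorem c87678 : QOK q87678 := cut [q8398] ⟨c8398, trivial⟩ (nd (nat_lit 187) (nat_lit 0) (cs (lf (nat_lit 35) (nat_lit 164)) (nd (nat_lit 209) (nat_lit 0) (cs (lf (nat_lit 41) (nat_lit 186)) (rf (nat_lit 0)))))) q87678 (by decide +kernel)
def q87682 : Q := Q.p (nat_lit 0x40000300000c000030000000000000000000000000000000000000000000000000000) (nat_lit 0x400000380004e000038000000000000000000000000000000000000000000000) (nat_lit 6)
theorem c87682 : QOK q87682 := cut [q85074] ⟨c85074, trivial⟩ (nd (nat_lit 207) (nat_lit 0) (cs (lf (nat_lit 47) (nat_lit 185)) (rf (nat_lit 0)))) q87682 (by decide +kernel)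
def q87699 : Q := Q.p (nat_lit 0x300000d00000c000000000000000000000000000000000000000000000000000) (nat_lit 0x100004600002000000000020000080000000000000000000000000000000000000000) (nat_lit 4)
theorem c87699 : QOK q87699 := cut [q78747] ⟨c78747, trivial⟩ (nd (nat_lit 229) (nat_lit 0) (cs (rf (nat_lit 0)) (lf (nat_lit 5) (nat_lit 228)))) q87699 (by decide +kernel)
def q87705 : Q := Q.p (nat_lit 0x40000100000400001c000000000000000000000000000000000000000000000000000) (nat_lit 0x200000800000000001c0002200009c000000000000000000000000000000000000000000000) (nat_lit 6)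
theorem c87705 : QOK q87705 := cut [q78656] ⟨c78656, trivial⟩ (nd (nat_lit 209) (nat_lit 0) (cs (lf (nat_lit 35) (nat_lit 186)) (nd (nat_lit 275) (nat_lit 0) (cs (lf (nat_lit 29) (nat_lit 208)) (rf (nat_lit 0)))))) q87705 (by decide +kernel)
def q87808 : Q := Q.p (nat_lit 0x10000000000300000c000060000000000000000000000000000000000000000000000000000) (nat_lit 0xc0000200000800000000000000000000100000000000000000000000000000000000000000000000) (nat_lit 3)
theorem c87808 : QOK q87808 := cut [q87807] ⟨c87807, trivial⟩ (nd (nat_lit 275) (nat_lit 0) (cs (lf (nat_lit 35) (nat_lit 187)) (rf (nat_lit 0)))) q87808 (by decide +kernel)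
def q87819 : Q := Q.p (nat_lit 0x3c0000000000000000000000000000000000000000000000000000000000000000000000000) (nat_lit 0x1dc000020000000000000000000000000000000000000000000000000000000000000000000000000) (nat_lit 4)
theorem c87819 : QOK q87819 := cut [q83801] ⟨c83801, trivial⟩ (nd (nat_lit 319) (nat_lit 0) (cs (lf (nat_lit 5) (nat_lit 294)) (nd (nat_lit 293) (nat_lit 0) (cs (lf (nat_lit 4) (nat_lit 293)) (rf (nat_lit 0)))))) q87819 (by decide +kernel)
def q87827 : Q := Q.p (nat_lit 0x100000f00000000000000000000000000000000000000000000000000000000000000000000000000) (nat_lit 0x1c8000300000e000000000000000000000000000000000000000000000000000000000000000000000) (nat_lit 5)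
theorem c87827 : QOK q87827 := cut [q28300] ⟨c28300, trivial⟩ (nd (nat_lit 278) (nat_lit 0) (cs (lf (nat_lit 16) (nat_lit 274)) (nd (nat_lit 300) (nat_lit 0) (cs (lf (nat_lit 17) (nat_lit 275)) (nd (nat_lit 301) (nat_lit 0) (cs (lf (nat_lit 11) (nat_lit 297)) (rf (nat_lit 0)))))))) q87827 (by decide +kernel)
def q87863 : Q := Q.p (nat_lit 0x20000080000200000c0000000000000000000000000000000000000000000000) (nat_lit 0x8000000000000000c0000130000400000000000000000000000000000000000000000) (nat_lit 4)
theorem c87863 : QOK q87863 := cut [q84328] ⟨c84328, trivial⟩ (nd (nat_lit 188) (nat_lit 0) (cs (lf (nat_lit 35) (nat_lit 165)) (nd (nat_lit 210) (nat_lit 0) (cs (lf (nat_lit 30) (nat_lit 187)) (rf (nat_lit 0)))))) q87863 (by decide +kernel)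
def q87908 : Q := Q.p (nat_lit 0x300001e000000000000000000000000000000000000000000000000000000000) (nat_lit 0xe00001800000000000000000000000000000000000000000000000000000000) (nat_lit 3)
theorem c87908 : QOK q87908 := cut [q10704] ⟨c10704, trivial⟩ (nd (nat_lit 250) (nat_lit 0) (cs (lf (nat_lit 13) (nat_lit 228)) (rf (nat_lit 0)))) q87908 (by decide +kernel)
def q87927 : Q := Q.p (nat_lit 0x80000f000000000000000000000000000000000000000000000000000000000) (nat_lit 0x8000020000000000000000e000010000040000000000000000000000000000000000000000) (nat_lit 4)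
theorem c87927 : QOK q87927 := cut [q18616] ⟨c18616, trivial⟩ (nd (nat_lit 206) (nat_lit 0) (cs (lf (nat_lit 23) (nat_lit 205)) (nd (nat_lit 184) (nat_lit 0) (cs (lf (nat_lit 24) (nat_lit 162)) (rf (nat_lit 0)))))) q87927 (by decide +kernel)
def q87940 : Q := Q.p (nat_lit 0x300000c000020000000000000000000000000000000000000000000000000000) (nat_lit 0x8000000000130001c00001c0000700000000000000000000000000000000000000000) (nat_lit 7)
theorem c87940 : QOK q87940 := cut [q84327] ⟨c84327, trivial⟩ (nd (nat_lit 187) (nat_lit 0) (cs (lf (nat_lit 36) (nat_lit 164)) (nd (nat_lit 164) (nat_lit 0) (cs (lf (nat_lit 46) (nat_lit 164)) (nd (nat_lit 188) (nat_lit 0) (cs (lf (nat_lit 35) (nat_lit 165)) (nd (nat_lit 210) (nat_lit 0) (cs (lf (nat_lit 30) (nat_lit 187)) (rf (nat_lit 0)))))))))) q87940 (by decide +kernel)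
def q87949 : Q := Q.p (nat_lit 0x3800006000008000000000000000000000000000000000000000000000000000) (nat_lit 0xa000000000000000100000700001c0000000000000000000000000000000000000000) (nat_lit 5)
theorem c87949 : QOK q87949 := cut [q82263] ⟨c82263, trivial⟩ (nd (nat_lit 185) (nat_lit 0) (cs (lf (nat_lit 24) (nat_lit 163)) (nd (nat_lit 162) (nat_lit 0) (cs (lf (nat_lit 46) (nat_lit 162)) (nd (nat_lit 186) (nat_lit 0) (cs (lf (nat_lit 35) (nat_lit 163)) (rf (nat_lit 0)))))))) q87949 (by decide +kernel)
def q87955 : Q := Q.p (nat_lit 0x340001c000040000000000000000000000000000000000000000000000000000) (nat_lit 0x200003800080000000000000000000000000000000000000000000000000000) (nat_lit 3)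
theorem c87955 : QOK q87955 := cut [q10704] ⟨c10704, trivial⟩ (nd (nat_lit 229) (nat_lit 0) (cs (lf (nat_lit 17) (nat_lit 207)) (rf (nat_lit 0)))) q87955 (by decide +kernel)
def q87971 : Q := Q.p (nat_lit 0x380001e000000000000000000000000000000000000000000000000000000000) (nat_lit 0x300000c00003000000000000000dc0001700005c0000000000000000000000000000000000000000) (nat_lit 10)
theorem c87971 : QOK q87971 := cut [q87968] ⟨c87968, trivial⟩ (nd (nat_lit 210) (nat_lit 0) (cs (lf (nat_lit 17) (nat_lit 207)) (nd (nat_lit 166) (nat_lit 0) (cs (lf (nat_lit 37) (nat_lit 165)) (nd (nat_lit 207) (nat_lit 0) (cs (lf (nat_lit 23) (nat_lit 206)) (rf (nat_lit 0)))))))) q87971 (by decide +kernel)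
def q87979 : Q := Q.p (nat_lit 0x600001000004000000000000000000000000000000000000000000000000000000000) (nat_lit 0x8000020000080000000000800000000010000000000000000000000000000000000000000000000000000) (nat_lit 3)
theorem c87979 : QOK q87979 := cut [q87978] ⟨c87978, trivial⟩ (nd (nat_lit 295) (nat_lit 0) (cs (lf (nat_lit 36) (nat_lit 207)) (rf (nat_lit 0)))) q87979 (by decide +kernel)
def q87998 : Q := Q.p (nat_lit 0x20000080000300000c000000000000000000000000000000000000000000000000000000000) (nat_lit 0x800070000040000000000000000000000000000000000000000000000000000) (nat_lit 3)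
theorem c87998 : QOK q87998 := cut [q87131] ⟨c87131, trivial⟩ (nd (nat_lit 232) (nat_lit 0) (cs (lf (nat_lit 35) (nat_lit 209)) (rf (nat_lit 0)))) q87998 (by decide +kernel)
def q88018 : Q := Q.p (nat_lit 0x600003000004000010000000000000000000000000000000000000000000000000000) (nat_lit 0x100000c000030000098000080000a000000000000000000000000000000000000000000000000000000000) (nat_lit 6)
theorem c88018 : QOK q88018 := cut [q11042] ⟨c11042, trivial⟩ (nd (nat_lit 271) (nat_lit 0) (cs (lf (nat_lit 13) (nat_lit 249)) (nd (nat_lit 297) (nat_lit 0) (cs (lf (nat_lit 28) (nat_lit 208)) (nd (nat_lit 296) (nat_lit 0) (cs (lf (nat_lit 29) (nat_lit 230)) (nd (nat_lit 318) (nat_lit 0) (cs (lf (nat_lit 35) (nat_lit 230)) (rf (nat_lit 0)))))))))) q88018 (by decide +kernel)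
def q88088 : Q := Q.p (nat_lit 0x100000400003c000000000000000000000000000000000000000000000000000) (nat_lit 0x8000000000180000200000800000000000000000000000000000000000) (nat_lit 3)
theorem c88088 : QOK q88088 := cut [q10611] ⟨c10611, trivial⟩ (nd (nat_lit 187) (nat_lit 0) (cs (lf (nat_lit 17) (nat_lit 184)) (rf (nat_lit 0)))) q88088 (by decide +kernel)
def q88099 : Q := Q.p (nat_lit 0x400003000006000018000000000000000000000000000000000000000000000000000) (nat_lit 0x800003800008000380000e4000098000000000000000000000000000000000000000000000) (nat_lit 8)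
theorem c88099 : QOK q88099 := cut [q88097] ⟨c88097, trivial⟩ (nd (nat_lit 273) (nat_lit 0) (cs (lf (nat_lit 41) (nat_lit 207)) (nd (nat_lit 271) (nat_lit 0) (cs (lf (nat_lit 13) (nat_lit 249)) (rf (nat_lit 0)))))) q88099 (by decide +kernel)
def q88107 : Q := Q.p (nat_lit 0x400003000006000018000000000000000000000000000000000000000000000000000) (nat_lit 0x8000000000380000e0000380000400000000000000000000000000000000000000000) (nat_lit 6)
theorem c88107 : QOK q88107 := cut [q16319] ⟨c16319, trivial⟩ (nd (nat_lit 209) (nat_lit 0) (cs (lf (nat_lit 35) (nat_lit 186)) (nd (nat_lit 210) (nat_lit 0) (cs (lf (nat_lit 6) (nat_lit 207)) (rf (nat_lit 0)))))) q88107 (by decide +kernel)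
def q88121 : Q := Q.p (nat_lit 0x1000004000010000020000000000000000000000000000000000000000000000) (nat_lit 0x400000000002000008000000000080000200000000000000000000000000000000000) (nat_lit 3)
theorem c88121 : QOK q88121 := cut [q1410] ⟨c1410, trivial⟩ (nd (nat_lit 207) (nat_lit 0) (cs (lf (nat_lit 42) (nat_lit 185)) (rf (nat_lit 0)))) q88121 (by decide +kernel)
def q88132 : Q := Q.p (nat_lit 0x40000300000c000030000000000000000000000000000000000000000000000000000) (nat_lit 0x800003800000000038001ce000738000000000000000000000000000000000000000000000) (nat_lit 10)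
theorem c88132 : QOK q88132 := cut [q88128] ⟨c88128, trivial⟩ (nd (nat_lit 273) (nat_lit 0) (cs (lf (nat_lit 41) (nat_lit 207)) (nd (nat_lit 271) (nat_lit 0) (cs (lf (nat_lit 13) (nat_lit 249)) (nd (nat_lit 207) (nat_lit 0) (cs (lf (nat_lit 47) (nat_lit 185)) (nd (nat_lit 206) (nat_lit 0) (cs (lf (nat_lit 0) (nat_lit 205)) (rf (nat_lit 0)))))))))) q88132 (by decide +kernel)
def q88155 : Q := Q.p (nat_lit 0x50000300000c000000000000000000000000000000000000000000000000000000000) (nat_lit 0x800002800000000000000300000c0000300000000000000000000000000000000000000000) (nat_lit 5)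
theorem c88155 : QOK q88155 := cut [q80014] ⟨c80014, trivial⟩ (nd (nat_lit 187) (nat_lit 0) (cs (lf (nat_lit 37) (nat_lit 186)) (nd (nat_lit 273) (nat_lit 0) (cs (lf (nat_lit 12) (nat_lit 249)) (nd (nat_lit 208) (nat_lit 0) (cs (lf (nat_lit 41) (nat_lit 207)) (rf (nat_lit 0)))))))) q88155 (by decide +kernel)
def q88167 : Q := Q.p (nat_lit 0x380000e000000000000000000000000000000000000000000000000000000000) (nat_lit 0x100000c0000380000600000000018000040000000000000000000000000000000000000000000000) (nat_lit 6)
theorem c88167 : QOK q88167 := cut [q82228] ⟨c82228, trivial⟩ (nd (nat_lit 250) (nat_lit 0) (cs (lf (nat_lit 12) (nat_lit 227)) (nd (nat_lit 272) (nat_lit 0) (cs (lf (nat_lit 11) (nat_lit 249)) (nd (nat_lit 294) (nat_lit 0) (cs (lf (nat_lit 30) (nat_lit 228)) (nd (nat_lit 273) (nat_lit 0) (cs (lf (nat_lit 36) (nat_lit 206)) (rf (nat_lit 0)))))))))) q88167 (by decide +kernel)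
def q88278 : Q := Q.p (nat_lit 0x100000400007800000000000000000000000000000000000000000000000000000000000000) (nat_lit 0x800000400038000020000080000000000000000000000000000000000000000000000) (nat_lit 4)
theorem c88278 : QOK q88278 := cut [q80648] ⟨c80648, trivial⟩ (nd (nat_lit 232) (nat_lit 0) (cs (lf (nat_lit 17) (nat_lit 229)) (nd (nat_lit 231) (nat_lit 0) (cs (lf (nat_lit 12) (nat_lit 228)) (rf (nat_lit 0)))))) q88278 (by decide +kernel)
def q88302 : Q := Q.p (nat_lit 0x200003800000000000000000000000000000000000000000000000000000000000000) (nat_lit 0x5c0004000000000000000000000000000000000000000000000000000000000000000) (nat_lit 3)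
theorem c88302 : QOK q88302 := cut [q11855] ⟨c11855, trivial⟩ (nd (nat_lit 272) (nat_lit 0) (cs (rf (nat_lit 0)) (lf (nat_lit 6) (nat_lit 250)))) q88302 (by decide +kernel)
def q88365 : Q := Q.p (nat_lit 0x3000005000000000000000000000000000000000000000000000000000000000) (nat_lit 0xc00000a800000000000000000000000000000000000000000000000000000000) (nat_lit 3)
theorem c88365 : QOK q88365 := cut [q88364] ⟨c88364, trivial⟩ (nd (nat_lit 229) (nat_lit 0) (cs (lf (nat_lit 0) (nat_lit 227)) (rf (nat_lit 0)))) q88365 (by decide +kernel)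
def q88388 : Q := Q.p (nat_lit 0x100000400001000004000000000000000000000000000000000000000000000000000) (nat_lit 0x1000004000008000020000080000a0000300000c0000000000000000000000000000000000000000) (nat_lit 6)
theorem c88388 : QOK q88388 := cut [q56530] ⟨c56530, trivial⟩ (nd (nat_lit 185) (nat_lit 0) (cs (lf (nat_lit 34) (nat_lit 184)) (nd (nat_lit 184) (nat_lit 0) (cs (lf (nat_lit 35) (nat_lit 162)) (nd (nat_lit 249) (nat_lit 0) (cs (lf (nat_lit 41) (nat_lit 183)) (nd (nat_lit 227) (nat_lit 0) (cs (lf (nat_lit 36) (nat_lit 161)) (rf (nat_lit 0)))))))))) q88388 (by decide +kernel)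
def q88399 : Q := Q.p (nat_lit 0x100003400001000004000000000000000000000000000000000000000000000000000) (nat_lit 0x40000000000000006c0003a000028000000000000000000000000000000000000000000000) (nat_lit 6)
theorem c88399 : QOK q88399 := cut [q88397] ⟨c88397, trivial⟩ (nd (nat_lit 207) (nat_lit 0) (cs (lf (nat_lit 35) (nat_lit 184)) (nd (nat_lit 183) (nat_lit 0) (cs (lf (nat_lit 46) (nat_lit 183)) (rf (nat_lit 0)))))) q88399 (by decide +kernel)
def q88402 : Q := Q.p (nat_lit 0x100003400001000004000000000000000000000000000000000000000000000000000) (nat_lit 0x60000080000000006c00038000020000000000000000000000000000000000000000000000) (nat_lit 6)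
theorem c88402 : QOK q88402 := cut [q88397] ⟨c88397, trivial⟩ (nd (nat_lit 207) (nat_lit 0) (cs (lf (nat_lit 35) (nat_lit 184)) (nd (nat_lit 271) (nat_lit 0) (cs (lf (nat_lit 41) (nat_lit 205)) (rf (nat_lit 0)))))) q88402 (by decide +kernel)
def q88405 : Q := Q.p (nat_lit 0x400003c00000000000000000000000000000000000000000000000000000000000000) (nat_lit 0x80000c30000f000000000000000000000000000000000000000000000000000000000) (nat_lit 5)
theorem c88405 : QOK q88405 := cut [q85547] ⟨c85547, trivial⟩ (nd (nat_lit 249) (nat_lit 0) (cs (lf (nat_lit 5) (nat_lit 249)) (rf (nat_lit 0)))) q88405 (by decide +kernel)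
def q88412 : Q := Q.p (nat_lit 0x100000c00001000008000000000000000000000000000000000000000000000000000) (nat_lit 0x80000200000000000000004000030000000000000000000000000000000000000000000000) (nat_lit 3)
theorem c88412 : QOK q88412 := cut [q4159] ⟨c4159, trivial⟩ (nd (nat_lit 206) (nat_lit 0) (cs (lf (nat_lit 35) (nat_lit 184)) (rf (nat_lit 0)))) q88412 (by decide +kernel)
def q88422 : Q := Q.p (nat_lit 0x400001e00000000000000000000000000000000000000000000000000000000000000) (nat_lit 0x20000010000e000000000000000000000000000000000000000000000000000000000) (nat_lit 3)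
theorem c88422 : QOK q88422 := cut [q88421] ⟨c88421, trivial⟩ (nd (nat_lit 248) (nat_lit 0) (cs (lf (nat_lit 4) (nat_lit 248)) (rf (nat_lit 0)))) q88422 (by decide +kernel)
def q88426 : Q := Q.p (nat_lit 0xf00003000000000000000000000000000000000000000000000000000000000000000) (nat_lit 0x80000600000000000000004000010000000000000000000000000000000000000000000000000000) (nat_lit 3)
theorem c88426 : QOK q88426 := cut [q88425] ⟨c88425, trivial⟩ (nd (nat_lit 297) (nat_lit 0) (cs (lf (nat_lit 5) (nat_lit 272)) (rf (nat_lit 0)))) q88426 (by decide +kernel)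
def q88440 : Q := Q.p (nat_lit 0x140000500003400001000000000000000000000000000000000000000000000000000000000) (nat_lit 0x80000000000a00003e0000be000020000000000000000000000000000000000000000) (nat_lit 8)
theorem c88440 : QOK q88440 := cut [q88434] ⟨c88434, trivial⟩ (nd (nat_lit 207) (nat_lit 0) (cs (lf (nat_lit 34) (nat_lit 206)) (nd (nat_lit 206) (nat_lit 0) (cs (lf (nat_lit 35) (nat_lit 184)) (nd (nat_lit 183) (nat_lit 0) (cs (lf (nat_lit 46) (nat_lit 183)) (nd (nat_lit 184) (nat_lit 0) (cs (lf (nat_lit 47) (nat_lit 161)) (nd (nat_lit 181) (nat_lit 0) (cs (lf (nat_lit 1) (nat_lit 181)) (nd (nat_lit 209) (nat_lit 0) (cs (lf (nat_lit 19) (nat_lit 183)) (rf (nat_lit 0)))))))))))))) q88440 (by decide +kernel)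
def q88476 : Q := Q.p (nat_lit 0x10000140000100000400000000000000000000000000000000000000000000000000000000000000) (nat_lit 0xa00002c000280000000000800002000000000000000000000000000000000000000000000000000000000) (nat_lit 5)
theorem c88476 : QOK q88476 := cut [q88474] ⟨c88474, trivial⟩ (nd (nat_lit 317) (nat_lit 0) (cs (lf (nat_lit 29) (nat_lit 250)) (nd (nat_lit 229) (nat_lit 0) (cs (lf (nat_lit 34) (nat_lit 228)) (rf (nat_lit 0)))))) q88476 (by decide +kernel)
def q88479 : Q := Q.p (nat_lit 0x10000140000100000400000000000000000000000000000000000000000000000000000000000000) (nat_lit 0xa00002c000280000000000000000000000000000000000000000000000000000000000000000000000000) (nat_lit 4)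
theorem c88479 : QOK q88479 := cut [q88474] ⟨c88474, trivial⟩ (nd (nat_lit 317) (nat_lit 0) (cs (lf (nat_lit 29) (nat_lit 250)) (rf (nat_lit 0)))) q88479 (by decide +kernel)
def q88517 : Q := Q.p (nat_lit 0x100000400003c00000000000000000000000000000000000000000000000000000000000000) (nat_lit 0x200004000003800008000020000000000000000000000000000000000000000000000) (nat_lit 4)
theorem c88517 : QOK q88517 := cut [q40801] ⟨c40801, trivial⟩ (nd (nat_lit 228) (nat_lit 0) (cs (lf (nat_lit 23) (nat_lit 227)) (nd (nat_lit 229) (nat_lit 0) (cs (rf (nat_lit 0)) (lf (nat_lit 18) (nat_lit 228)))))) q88517 (by decide +kernel)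
def q88619 : Q := Q.p (nat_lit 0x80000200000800002000000000000000000000000000000000000000000000000000000000) (nat_lit 0x40000100000400000000004000018000040000000000000000000000000000000000000000000000) (nat_lit 4)
theorem c88619 : QOK q88619 := cut [q88617] ⟨c88617, trivial⟩ (nd (nat_lit 296) (nat_lit 0) (cs (lf (nat_lit 29) (nat_lit 229)) (nd (nat_lit 207) (nat_lit 0) (cs (lf (nat_lit 28) (nat_lit 207)) (rf (nat_lit 0)))))) q88619 (by decide +kernel)
def q88653 : Q := Q.p (nat_lit 0x10000040000300000c000000000000000000000000000000000000000000000000000000000) (nat_lit 0x20000080000a00000000000000010000040000100000000000000000000000000000000000000000) (nat_lit 4)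
theorem c88653 : QOK q88653 := cut [q79996] ⟨c79996, trivial⟩ (nd (nat_lit 295) (nat_lit 0) (cs (lf (nat_lit 41) (nat_lit 229)) (nd (nat_lit 208) (nat_lit 0) (cs (lf (nat_lit 40) (nat_lit 207)) (rf (nat_lit 0)))))) q88653 (by decide +kernel)
def q88742 : Q := Q.p (nat_lit 0x1800003000000000000000000000000000000000000000000000000000000000000000) (nat_lit 0x6000004c00000000000000000000000000000000000000000000000000000000000000) (nat_lit 3)
theorem c88742 : QOK q88742 := cut [q88741] ⟨c88741, trivial⟩ (nd (nat_lit 251) (nat_lit 0) (cs (lf (nat_lit 0) (nat_lit 250)) (rf (nat_lit 0)))) q88742 (by decide +kernel)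
def q88744 : Q := Q.p (nat_lit 0xc00003000004000010000000000000000000000000000000000000000000000000000) (nat_lit 0x80000380004000000000000000000000000000000000000000000000000000000000000000) (nat_lit 3)
theorem c88744 : QOK q88744 := cut [q87021] ⟨c87021, trivial⟩ (nd (nat_lit 273) (nat_lit 0) (cs (lf (nat_lit 41) (nat_lit 207)) (rf (nat_lit 0)))) q88744 (by decide +kernel)
def q88756 : Q := Q.p (nat_lit 0x3000008000020000000000000000000000000000000000000000000000000000) (nat_lit 0x4000018000040000040000100001c0000700001000000000000000000000000000000000000) (nat_lit 5)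
theorem c88756 : QOK q88756 := cut [q82299, q88755] ⟨c82299, c88755, trivial⟩ (nd (nat_lit 187) (nat_lit 0) (cs (rf (nat_lit 0)) (rf (nat_lit 1)))) q88756 (by decide +kernel)
def q88764 : Q := Q.p (nat_lit 0x3800002000008000020000000000000000000000000000000000000000000000000000) (nat_lit 0x1b00000400004000010000040000100000000000000000000000000000000000000000000000) (nat_lit 5)
theorem c88764 : QOK q88764 := cut [q88763] ⟨c88763, trivial⟩ (nd (nat_lit 274) (nat_lit 0) (cs (lf (nat_lit 41) (nat_lit 208)) (rf (nat_lit 0)))) q88764 (by decide +kernel)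
def q88771 : Q := Q.p (nat_lit 0x3000008000020000000000000000000000000000000000000000000000000000) (nat_lit 0x400001c000040000000000100001c0000700001000000000000000000000000000000000000) (nat_lit 7)
theorem c88771 : QOK q88771 := cut [q88755] ⟨c88755, trivial⟩ (nd (nat_lit 187) (nat_lit 0) (cs (lf (nat_lit 41) (nat_lit 186)) (nd (nat_lit 166) (nat_lit 0) (cs (lf (nat_lit 34) (nat_lit 165)) (nd (nat_lit 144) (nat_lit 0) (cs (lf (nat_lit 33) (nat_lit 143)) (rf (nat_lit 0)))))))) q88771 (by decide +kernel)
def q88773 : Q := Q.p (nat_lit 0x2000008000020000080000100000000000000000000000000000000000000000) (nat_lit 0x1000004000010000000000000000200000400000000000000000000000000000000000) (nat_lit 3)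
theorem c88773 : QOK q88773 := cut [q80888] ⟨c80888, trivial⟩ (nd (nat_lit 254) (nat_lit 0) (cs (lf (nat_lit 29) (nat_lit 187)) (rf (nat_lit 0)))) q88773 (by decide +kernel)
def q88780 : Q := Q.p (nat_lit 0x400001000006000018000000000000000000000000000000000000000000000000000000000) (nat_lit 0x800002000008000000000000000c0000300000c00000000000000000000000000000000000000000) (nat_lit 5)
theorem c88780 : QOK q88780 := cut [q88777] ⟨c88777, trivial⟩ (nd (nat_lit 297) (nat_lit 0) (cs (lf (nat_lit 41) (nat_lit 231)) (nd (nat_lit 210) (nat_lit 0) (cs (lf (nat_lit 40) (nat_lit 209)) (nd (nat_lit 188) (nat_lit 0) (cs (lf (nat_lit 36) (nat_lit 165)) (rf (nat_lit 0)))))))) q88780 (by decide +kernel)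
def q88800 : Q := Q.p (nat_lit 0x80000200000800002000000000000000000000000000000000000000000000000000000000) (nat_lit 0x1000004000010000000000100000c000010000000000000000000000000000000000000000000000) (nat_lit 4)
theorem c88800 : QOK q88800 := cut [q88798] ⟨c88798, trivial⟩ (nd (nat_lit 206) (nat_lit 0) (cs (lf (nat_lit 46) (nat_lit 206)) (nd (nat_lit 294) (nat_lit 0) (cs (lf (nat_lit 41) (nat_lit 228)) (rf (nat_lit 0)))))) q88800 (by decide +kernel)
def q88801 : Q := Q.p (nat_lit 0x3c00008000000000000000000000000000000000000000000000000000000000) (nat_lit 0x200005c00000000000000000000000000000000000000000000000000000000) (nat_lit 3)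
theorem c88801 : QOK q88801 := cut [q6262] ⟨c6262, trivial⟩ (nd (nat_lit 227) (nat_lit 0) (cs (lf (nat_lit 22) (nat_lit 227)) (rf (nat_lit 0)))) q88801 (by decide +kernel)
def q88810 : Q := Q.p (nat_lit 0x1c00003000008000020000000000000000000000000000000000000000000000000000) (nat_lit 0x1a00006000004000010000040000100000000000000000000000000000000000000000000000) (nat_lit 5)
theorem c88810 : QOK q88810 := cut [q88763] ⟨c88763, trivial⟩ (nd (nat_lit 277) (nat_lit 0) (cs (lf (nat_lit 18) (nat_lit 252)) (rf (nat_lit 0)))) q88810 (by decide +kernel)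
def q88820 : Q := Q.p (nat_lit 0x1000004000038000040000000000000000000000000000000000000000000000000000) (nat_lit 0x4000380000200000000000000000000000000000000000000000000000) (nat_lit 3)
theorem c88820 : QOK q88820 := cut [q88819] ⟨c88819, trivial⟩ (nd (nat_lit 211) (nat_lit 0) (cs (lf (nat_lit 35) (nat_lit 188)) (rf (nat_lit 0)))) q88820 (by decide +kernel)
def q88832 : Q := Q.p (nat_lit 0x200003800006000000000000000000000000000000000000000000000000000000000) (nat_lit 0x20000080000000000000001800004000000000000000000000000000000000000000000000000000) (nat_lit 3)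
theorem c88832 : QOK q88832 := cut [q88831] ⟨c88831, trivial⟩ (nd (nat_lit 295) (nat_lit 0) (cs (lf (nat_lit 30) (nat_lit 229)) (rf (nat_lit 0)))) q88832 (by decide +kernel)
def q88839 : Q := Q.p (nat_lit 0x3c00000000000000000000000000000000000000000000000000000000000000) (nat_lit 0x380004000003800000000000000000000000000000000000000000000000000000000) (nat_lit 4)
theorem c88839 : QOK q88839 := cut [q88837] ⟨c88837, trivial⟩ (nd (nat_lit 272) (nat_lit 0) (cs (lf (nat_lit 11) (nat_lit 249)) (nd (nat_lit 228) (nat_lit 0) (cs (lf (nat_lit 23) (nat_lit 227)) (rf (nat_lit 0)))))) q88839 (by decide +kernel)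
def q88842 : Q := Q.p (nat_lit 0x180001e000000000040000000000000000000000000000000000000000000000) (nat_lit 0xc000020000180000000000000000000000000000000000000000) (nat_lit 3)
theorem c88842 : QOK q88842 := cut [q88841] ⟨c88841, trivial⟩ (nd (nat_lit 207) (nat_lit 0) (cs (lf (nat_lit 23) (nat_lit 206)) (rf (nat_lit 0)))) q88842 (by decide +kernel)
def q88853 : Q := Q.p (nat_lit 0x380000e000010000000000000000000000000000000000000000000000000000) (nat_lit 0x680003b00004000000000020000080000000000000000000000000000000000000000000000) (nat_lit 6)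
theorem c88853 : QOK q88853 := cut [q88849] ⟨c88849, trivial⟩ (nd (nat_lit 275) (nat_lit 0) (cs (lf (nat_lit 42) (nat_lit 208)) (nd (nat_lit 273) (nat_lit 0) (cs (lf (nat_lit 30) (nat_lit 207)) (nd (nat_lit 254) (nat_lit 0) (cs (lf (nat_lit 11) (nat_lit 250)) (nd (nat_lit 276) (nat_lit 0) (cs (lf (nat_lit 5) (nat_lit 251)) (rf (nat_lit 0)))))))))) q88853 (by decide +kernel)
def q88856 : Q := Q.p (nat_lit 0x3800006000008000020000000000000000000000000000000000000000000000) (nat_lit 0x40000300004000000000010000040000100000000000000000000000000000000000000000) (nat_lit 4)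
theorem c88856 : QOK q88856 := cut [q85252] ⟨c85252, trivial⟩ (nd (nat_lit 186) (nat_lit 0) (cs (lf (nat_lit 35) (nat_lit 163)) (nd (nat_lit 273) (nat_lit 0) (cs (rf (nat_lit 0)) (lf (nat_lit 37) (nat_lit 185)))))) q88856 (by decide +kernel)
def q88863 : Q := Q.p (nat_lit 0x2000018000040000000000000000000000000000000000000000000000000000) (nat_lit 0x200000800004000000000000000100000400000000000000000000000000000000000000000) (nat_lit 3)
theorem c88863 : QOK q88863 := cut [q85515] ⟨c85515, trivial⟩ (nd (nat_lit 275) (nat_lit 0) (cs (lf (nat_lit 30) (nat_lit 209)) (rf (nat_lit 0)))) q88863 (by decide +kernel)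
def q88878 : Q := Q.p (nat_lit 0x380001a000008000000000000000000000000000000000000000000000000000) (nat_lit 0x40000300004000004000004000010000000000000000000000000000000000000000000000) (nat_lit 4)
theorem c88878 : QOK q88878 := cut [q85252] ⟨c85252, trivial⟩ (nd (nat_lit 206) (nat_lit 0) (cs (lf (nat_lit 20) (nat_lit 206)) (nd (nat_lit 273) (nat_lit 0) (cs (lf (nat_lit 47) (nat_lit 184)) (rf (nat_lit 0)))))) q88878 (by decide +kernel)
def q88898 : Q := Q.p (nat_lit 0xc00003800008000000000000000000000000000000000000000000000000000000000) (nat_lit 0x400003000000000000000020000080000000000000000000000000000000000000000000000) (nat_lit 3)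
theorem c88898 : QOK q88898 := cut [q21982] ⟨c21982, trivial⟩ (nd (nat_lit 209) (nat_lit 0) (cs (lf (nat_lit 36) (nat_lit 186)) (rf (nat_lit 0)))) q88898 (by decide +kernel)
def q88912 : Q := Q.p (nat_lit 0x200000800003000008000000000000000000000000000000000000000000000000000000000) (nat_lit 0x100000c0000100000000000000004000000000000000000000000000000000000000000000000000000000) (nat_lit 3)
theorem c88912 : QOK q88912 := cut [q15793] ⟨c15793, trivial⟩ (nd (nat_lit 319) (nat_lit 0) (cs (lf (nat_lit 47) (nat_lit 230)) (rf (nat_lit 0)))) q88912 (by decide +kernel)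
def q88915 : Q := Q.p (nat_lit 0x1800003000000000000000000000000000000000000000000000000000000000000000) (nat_lit 0x6400000c00000000000000000000000000000000000000000000000000000000000000) (nat_lit 3)
theorem c88915 : QOK q88915 := cut [q15386] ⟨c15386, trivial⟩ (nd (nat_lit 251) (nat_lit 0) (cs (lf (nat_lit 0) (nat_lit 250)) (rf (nat_lit 0)))) q88915 (by decide +kernel)
def q88933 : Q := Q.p (nat_lit 0x200000800003000000000000000000000000000000000000000000000000000000000000000) (nat_lit 0x80000000000400000000004000010000040000000000000000000000000000000000000000000000) (nat_lit 3)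
theorem c88933 : QOK q88933 := cut [q79111] ⟨c79111, trivial⟩ (nd (nat_lit 230) (nat_lit 0) (cs (lf (nat_lit 42) (nat_lit 230)) (rf (nat_lit 0)))) q88933 (by decide +kernel)
def q88936 : Q := Q.p (nat_lit 0x200000800002000008000000000000000000000000000000000000000000000000000000000) (nat_lit 0x100000400001000000000004000030000040000000000000000000000000000000000000000000000) (nat_lit 4)
theorem c88936 : QOK q88936 := cut [q88935] ⟨c88935, trivial⟩ (nd (nat_lit 208) (nat_lit 0) (cs (lf (nat_lit 46) (nat_lit 208)) (rf (nat_lit 0)))) q88936 (by decide +kernel)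
def q88941 : Q := Q.p (nat_lit 0x200000800003000000000000000000000000000000000000000000000000000000000000000) (nat_lit 0x8000000000000000000000c000010000040000000000000000000000000000000000000000000000) (nat_lit 3)
theorem c88941 : QOK q88941 := cut [q88337] ⟨c88337, trivial⟩ (nd (nat_lit 230) (nat_lit 0) (cs (lf (nat_lit 42) (nat_lit 230)) (rf (nat_lit 0)))) q88941 (by decide +kernel)
def q88949 : Q := Q.p (nat_lit 0x80000200000800003000000000000000000000000000000000000000000000000000000000000000) (nat_lit 0x20000000000100000400004000018000060000080000000000000000000000000000000000000000000000) (nat_lit 5)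
theorem c88949 : QOK q88949 := cut [q24703] ⟨c24703, trivial⟩ (nd (nat_lit 232) (nat_lit 0) (cs (lf (nat_lit 34) (nat_lit 231)) (nd (nat_lit 274) (nat_lit 0) (cs (lf (nat_lit 42) (nat_lit 252)) (nd (nat_lit 231) (nat_lit 0) (cs (lf (nat_lit 35) (nat_lit 209)) (rf (nat_lit 0)))))))) q88949 (by decide +kernel)
def q88952 : Q := Q.p (nat_lit 0x100000400001000004000000000000000000000000000000000000000000000000000000000) (nat_lit 0xa0000380000a0000000000000000000000000000000000000000000000) (nat_lit 4)
theorem c88952 : QOK q88952 := cut [q22287] ⟨c22287, trivial⟩ (nd (nat_lit 209) (nat_lit 0) (cs (lf (nat_lit 34) (nat_lit 208)) (nd (nat_lit 208) (nat_lit 0) (cs (lf (nat_lit 35) (nat_lit 186)) (rf (nat_lit 0)))))) q88952 (by decide +kernel)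
def q88960 : Q := Q.p (nat_lit 0x780000000000000000000000000000000000000000000000000000000000000000000000000) (nat_lit 0x3b8000040000000000000000000000000000000000000000000000000000000000000000000000000) (nat_lit 4)
theorem c88960 : QOK q88960 := cut [q45023] ⟨c45023, trivial⟩ (nd (nat_lit 316) (nat_lit 0) (cs (lf (nat_lit 10) (nat_lit 294)) (nd (nat_lit 294) (nat_lit 0) (cs (lf (nat_lit 11) (nat_lit 293)) (rf (nat_lit 0)))))) q88960 (by decide +kernel)
def q88977 : Q := Q.p (nat_lit 0x3c0000000000000000000000000000000000000000000000000000000000000000000000000) (nat_lit 0x1dc000020000000000000000000000000000000000000000000000000000000000000000000000000) (nat_lit 4)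
theorem c88977 : QOK q88977 := cut [q87651] ⟨c87651, trivial⟩ (nd (nat_lit 315) (nat_lit 0) (cs (lf (nat_lit 10) (nat_lit 293)) (nd (nat_lit 293) (nat_lit 0) (cs (lf (nat_lit 11) (nat_lit 292)) (rf (nat_lit 0)))))) q88977 (by decide +kernel)
def q88980 : Q := Q.p (nat_lit 0x780000000002000000000000000000000000000000000000000000000000000000000000000) (nat_lit 0x20000380000000003000004000018000000000000000000000000000000000000000000000000000000000) (nat_lit 5)
theorem c88980 : QOK q88980 := cut [q88958] ⟨c88958, trivial⟩ (nd (nat_lit 276) (nat_lit 0) (cs (lf (nat_lit 17) (nat_lit 273)) (nd (nat_lit 320) (nat_lit 0) (cs (lf (nat_lit 5) (nat_lit 295)) (rf (nat_lit 0)))))) q88980 (by decide +kernel)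
def q88981 : Q := Q.p (nat_lit 0x780002000000000000000000000000000000000000000000000000000000000000000000000) (nat_lit 0x70000800004000000000000000000000000000000000000000000000000000000000000000000000) (nat_lit 3)
theorem c88981 : QOK q88981 := cut [q52572] ⟨c52572, trivial⟩ (nd (nat_lit 299) (nat_lit 0) (cs (lf (nat_lit 17) (nat_lit 274)) (rf (nat_lit 0)))) q88981 (by decide +kernel)
def q88986 : Q := Q.p (nat_lit 0x780000000000000000000000000000000000000000000000000000000000000000000000000) (nat_lit 0x770000800000300000000000000000000000000000000000000000000000000000000000000000000) (nat_lit 5)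
theorem c88986 : QOK q88986 := cut [q52572] ⟨c52572, trivial⟩ (nd (nat_lit 321) (nat_lit 0) (cs (lf (nat_lit 4) (nat_lit 295)) (nd (nat_lit 272) (nat_lit 0) (cs (lf (nat_lit 22) (nat_lit 272)) (nd (nat_lit 299) (nat_lit 0) (cs (lf (nat_lit 5) (nat_lit 296)) (rf (nat_lit 0)))))))) q88986 (by decide +kernel)
def q89032 : Q := Q.p (nat_lit 0xf00000000000000000000000000000000000000000000000000000000000000000000000000) (nat_lit 0xe0000100000e000000000000000000000000000000000000000000000000000000000000000000000) (nat_lit 4)
theorem c89032 : QOK q89032 := cut [q11774] ⟨c11774, trivial⟩ (nd (nat_lit 322) (nat_lit 0) (cs (lf (nat_lit 4) (nat_lit 296)) (nd (nat_lit 278) (nat_lit 0) (cs (lf (nat_lit 16) (nat_lit 274)) (rf (nat_lit 0)))))) q89032 (by decide +kernel)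
def q89106 : Q := Q.p (nat_lit 0x3c0000400000000000000000000000000000000000000000000000000000000000000000000) (nat_lit 0x1c0000300002e0000000000000000000000000000000000000000000000000000000000000000000) (nat_lit 5)
theorem c89106 : QOK q89106 := cut [q41983] ⟨c41983, trivial⟩ (nd (nat_lit 315) (nat_lit 0) (cs (lf (nat_lit 10) (nat_lit 293)) (nd (nat_lit 293) (nat_lit 0) (cs (lf (nat_lit 11) (nat_lit 292)) (nd (nat_lit 292) (nat_lit 0) (cs (lf (nat_lit 16) (nat_lit 270)) (rf (nat_lit 0)))))))) q89106 (by decide +kernel)
def q89110 : Q := Q.p (nat_lit 0x3c0000000000000000000000000000000000000000000000000000000000000000000000000) (nat_lit 0x700000c00007380000000000000000000000000000000000000000000000000000000000000000000) (nat_lit 6)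
theorem c89110 : QOK q89110 := cut [q23449] ⟨c23449, trivial⟩ (nd (nat_lit 272) (nat_lit 0) (cs (lf (nat_lit 23) (nat_lit 271)) (nd (nat_lit 298) (nat_lit 0) (cs (lf (nat_lit 22) (nat_lit 272)) (nd (nat_lit 277) (nat_lit 0) (cs (lf (nat_lit 16) (nat_lit 273)) (nd (nat_lit 299) (nat_lit 0) (cs (lf (nat_lit 17) (nat_lit 274)) (rf (nat_lit 0)))))))))) q89110 (by decide +kernel)
def q89127 : Q := Q.p (nat_lit 0x40000300000400001000000000000000000000000000000000000000000000000000000000000000) (nat_lit 0x80000380000e00003e000380000cc0000200000000000000000000000000000000000000000000000000000000000000000000) (nat_lit 8)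
theorem c89127 : QOK q89127 := cut [q42102, q83717, q89122] ⟨c42102, c83717, c89122, trivial⟩ (nd (nat_lit 340) (nat_lit 0) (cs (rf (nat_lit 0)) (cs (rf (nat_lit 1)) (cs (nd (nat_lit 361) (nat_lit 0) (cs (lf (nat_lit 40) (nat_lit 273)) (nd (nat_lit 362) (nat_lit 0) (cs (lf (nat_lit 41) (nat_lit 295)) (nd (nat_lit 273) (nat_lit 0) (cs (lf (nat_lit 46) (nat_lit 273)) (nd (nat_lit 298) (nat_lit 0) (cs (lf (nat_lit 18) (nat_lit 273)) (nd (nat_lit 385) (nat_lit 0) (cs (lf (nat_lit 28) (nat_lit 296)) (nd (nat_lit 384) (nat_lit 0) (cs (lf (nat_lit 29) (nat_lit 318)) (lf (nat_lit 34) (nat_lit 296)))))))))))))) (nd (nat_lit 339) (nat_lit 0) (cs (lf (nat_lit 41) (nat_lit 273)) (nd (nat_lit 319) (nat_lit 0) (cs (lf (nat_lit 29) (nat_lit 252)) (nd (nat_lit 362) (nat_lit 0) (cs (lf (nat_lit 30) (nat_lit 296)) (nd (nat_lit 337) (nat_lit 0) (cs (lf (nat_lit 13) (nat_lit 315)) (rf (nat_lit 2)))))))))))))) q89127 (by decide +kernel)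
def q89148 : Q := Q.p (nat_lit 0x80000f00000000000000000000000000000000000000000000000000000000000000000000000000) (nat_lit 0x80000600000080007000004000010000000000000000000000000000000000000000000000000000000000) (nat_lit 5)
theorem c89148 : QOK q89148 := cut [q89147] ⟨c89147, trivial⟩ (nd (nat_lit 321) (nat_lit 0) (cs (lf (nat_lit 5) (nat_lit 296)) (rf (nat_lit 0)))) q89148 (by decide +kernel)
def q89224 : Q := Q.p (nat_lit 0xc0000300000400001000000000000000000000000000000000000000000000000000000000000000) (nat_lit 0x1ce0007380000e0000000000000000000000000000000000000000000000000000000000000000000000000) (nat_lit 8)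
theorem c89224 : QOK q89224 := cut [q89223] ⟨c89223, trivial⟩ (nd (nat_lit 317) (nat_lit 0) (cs (lf (nat_lit 41) (nat_lit 251)) (rf (nat_lit 0)))) q89224 (by decide +kernel)
def q89312 : Q := Q.p (nat_lit 0x3c0000000000000000000000000000000000000000000000000000000000000000000000000) (nat_lit 0x1c000020001c00000000000000000000000000000000000000000000000000000000000000000000) (nat_lit 4)
theorem c89312 : QOK q89312 := cut [q45173] ⟨c45173, trivial⟩ (nd (nat_lit 315) (nat_lit 0) (cs (lf (nat_lit 10) (nat_lit 293)) (nd (nat_lit 293) (nat_lit 0) (cs (lf (nat_lit 11) (nat_lit 292)) (rf (nat_lit 0)))))) q89312 (by decide +kernel)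
def q89315 : Q := Q.p (nat_lit 0x780000000002000000000000000000000000000000000000000000000000000000000000000) (nat_lit 0x40000300000040003800000000000000000000000000000000000000000000000000000000000000000000) (nat_lit 4)
theorem c89315 : QOK q89315 := cut [q15058] ⟨c15058, trivial⟩ (nd (nat_lit 276) (nat_lit 0) (cs (lf (nat_lit 17) (nat_lit 273)) (nd (nat_lit 275) (nat_lit 0) (cs (lf (nat_lit 12) (nat_lit 272)) (rf (nat_lit 0)))))) q89315 (by decide +kernel)
def q89317 : Q := Q.p (nat_lit 0x20000180000000001000000000000000000000000000000000000000000000000000000000000000) (nat_lit 0x8000040000000000600000000004000000000000000000000000000000000000000000000000000000000) (nat_lit 3)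
theorem c89317 : QOK q89317 := cut [q84289] ⟨c84289, trivial⟩ (nd (nat_lit 274) (nat_lit 0) (cs (lf (nat_lit 36) (nat_lit 229)) (rf (nat_lit 0)))) q89317 (by decide +kernel)
def q89321 : Q := Q.p (nat_lit 0xf00000800000000000000000000000000000000000000000000000000000000000000000000) (nat_lit 0x100000e400000000000000000000000000000000000000000000000000000000000000000000) (nat_lit 3)
theorem c89321 : QOK q89321 := cut [q11623] ⟨c11623, trivial⟩ (nd (nat_lit 300) (nat_lit 0) (cs (lf (nat_lit 23) (nat_lit 274)) (rf (nat_lit 0)))) q89321 (by decide +kernel)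
def q89330 : Q := Q.p (nat_lit 0x780000000001000000000000000000000000000000000000000000000000000000000000000) (nat_lit 0x20000800000700000000004000010000000000000000000000000000000000000000000000000000) (nat_lit 4)
theorem c89330 : QOK q89330 := cut [q83845] ⟨c83845, trivial⟩ (nd (nat_lit 273) (nat_lit 0) (cs (lf (nat_lit 23) (nat_lit 272)) (nd (nat_lit 274) (nat_lit 0) (cs (lf (nat_lit 18) (nat_lit 273)) (rf (nat_lit 0)))))) q89330 (by decide +kernel)
def q89332 : Q := Q.p (nat_lit 0x20000780000000000000000000000000000000000000000000000000000000000000000000000000) (nat_lit 0x740000800000000000000000000000000000000000000000000000000000000000000000000000000) (nat_lit 3)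
theorem c89332 : QOK q89332 := cut [q23449] ⟨c23449, trivial⟩ (nd (nat_lit 299) (nat_lit 0) (cs (lf (nat_lit 10) (nat_lit 295)) (rf (nat_lit 0)))) q89332 (by decide +kernel)
def q89348 : Q := Q.p (nat_lit 0x780000000002000000000000000000000000000000000000000000000000000000000000000) (nat_lit 0xa0000380000e0000330000000003800000000000000000000000000000000000000000000000000000000000000000000) (nat_lit 8)
theorem c89348 : QOK q89348 := cut [q42048] ⟨c42048, trivial⟩ (nd (nat_lit 320) (nat_lit 0) (cs (lf (nat_lit 5) (nat_lit 295)) (nd (nat_lit 276) (nat_lit 0) (cs (lf (nat_lit 17) (nat_lit 273)) (nd (nat_lit 316) (nat_lit 0) (cs (lf (nat_lit 10) (nat_lit 294)) (nd (nat_lit 342) (nat_lit 0) (cs (rf (nat_lit 0)) (lf (nat_lit 46) (nat_lit 253)))))))))) q89348 (by decide +kernel)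
def q89353 : Q := Q.p (nat_lit 0x200000800002000008000000000000000000000000000000000000000000000000000000000) (nat_lit 0x14000070000140000000000000000000000000000000000000000000000) (nat_lit 4)
theorem c89353 : QOK q89353 := cut [q79186] ⟨c79186, trivial⟩ (nd (nat_lit 210) (nat_lit 0) (cs (lf (nat_lit 34) (nat_lit 209)) (nd (nat_lit 209) (nat_lit 0) (cs (lf (nat_lit 35) (nat_lit 187)) (rf (nat_lit 0)))))) q89353 (by decide +kernel)
def q89373 : Q := Q.p (nat_lit 0x600000800002000008000000000000000000000000000000000000000000000000000000000) (nat_lit 0x1000000000010000060000100000000000000000000000000000000000000000000000) (nat_lit 3)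
theorem c89373 : QOK q89373 := cut [q12648] ⟨c12648, trivial⟩ (nd (nat_lit 210) (nat_lit 0) (cs (lf (nat_lit 34) (nat_lit 209)) (rf (nat_lit 0)))) q89373 (by decide +kernel)
def q89390 : Q := Q.p (nat_lit 0x100000000003000008000000000000000000000000000000000000000000000000000000000) (nat_lit 0x40000000000400000000004000020000080000000000000000000000000000000000000000000000) (nat_lit 3)
theorem c89390 : QOK q89390 := cut [q81013] ⟨c81013, trivial⟩ (nd (nat_lit 274) (nat_lit 0) (cs (lf (nat_lit 30) (nat_lit 230)) (rf (nat_lit 0)))) q89390 (by decide +kernel)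
def q89399 : Q := Q.p (nat_lit 0x700001a00000000000000000000000000000000000000000000000000000000000000000000) (nat_lit 0xe00003800000400000000000000000000000000000000000000000000000000000000000000000000) (nat_lit 4)
theorem c89399 : QOK q89399 := cut [q11755] ⟨c11755, trivial⟩ (nd (nat_lit 299) (nat_lit 0) (cs (lf (nat_lit 22) (nat_lit 273)) (rf (nat_lit 0)))) q89399 (by decide +kernel)
def q89421 : Q := Q.p (nat_lit 0x3c0000c00002000000000000000000000000000000000000000000000000000000000000000) (nat_lit 0x400000380004000000000000000000000000000000000000000000000000000000000000000) (nat_lit 3)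
theorem c89421 : QOK q89421 := cut [q88570] ⟨c88570, trivial⟩ (nd (nat_lit 272) (nat_lit 0) (cs (lf (nat_lit 23) (nat_lit 271)) (rf (nat_lit 0)))) q89421 (by decide +kernel)
def q89442 : Q := Q.p (nat_lit 0x10000000000700001c000000000000000000000000000000000000000000000000000000000) (nat_lit 0x40000000000300000c000000000000000000000000000000000000000000000000000) (nat_lit 3)
theorem c89442 : QOK q89442 := cut [q80257] ⟨c80257, trivial⟩ (nd (nat_lit 229) (nat_lit 0) (cs (lf (nat_lit 0) (nat_lit 228)) (rf (nat_lit 0)))) q89442 (by decide +kernel)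
def q89453 : Q := Q.p (nat_lit 0x300000c00001000004000000000000000000000000000000000000000000000000000000000) (nat_lit 0x200000c0003000000000000000000000000000000000000000000000000000000000000000000000) (nat_lit 3)
theorem c89453 : QOK q89453 := cut [q25972] ⟨c25972, trivial⟩ (nd (nat_lit 295) (nat_lit 0) (cs (lf (nat_lit 41) (nat_lit 229)) (rf (nat_lit 0)))) q89453 (by decide +kernel)
def q89464 : Q := Q.p (nat_lit 0x300003c0000c0000000000000000000000000000000000000000000000000000) (nat_lit 0x38000060000180000000000000000000000000000000000000000) (nat_lit 4)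
theorem c89464 : QOK q89464 := cut [q89463] ⟨c89463, trivial⟩ (nd (nat_lit 208) (nat_lit 0) (cs (lf (nat_lit 23) (nat_lit 207)) (rf (nat_lit 0)))) q89464 (by decide +kernel)
def q89482 : Q := Q.p (nat_lit 0x100000400001000004000000000000000000000000000000000000000000000000000000000) (nat_lit 0x20000080000200000000002000018000020000000000000000000000000000000000000000000000) (nat_lit 4)
theorem c89482 : QOK q89482 := cut [q57678] ⟨c57678, trivial⟩ (nd (nat_lit 207) (nat_lit 0) (cs (lf (nat_lit 46) (nat_lit 207)) (nd (nat_lit 208) (nat_lit 0) (cs (lf (nat_lit 47) (nat_lit 185)) (rf (nat_lit 0)))))) q89482 (by decide +kernel)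
def q89494 : Q := Q.p (nat_lit 0xf0000000000000000000000000000000000000000000000000000) (nat_lit 0x4000070000008000600000800002000000000000000000000000000000000000) (nat_lit 5)
theorem c89494 : QOK q89494 := cut [q89491] ⟨c89491, trivial⟩ (nd (nat_lit 189) (nat_lit 0) (cs (lf (nat_lit 17) (nat_lit 186)) (nd (nat_lit 233) (nat_lit 0) (cs (lf (nat_lit 5) (nat_lit 208)) (nd (nat_lit 232) (nat_lit 0) (cs (lf (nat_lit 0) (nat_lit 207)) (rf (nat_lit 0)))))))) q89494 (by decide +kernel)
def q89519 : Q := Q.p (nat_lit 0x78000000000000000000000000000000000000000000000000000) (nat_lit 0x80000770000000000000000000000000000000000000000000000) (nat_lit 4)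
theorem c89519 : QOK q89519 := cut [q7441] ⟨c7441, trivial⟩ (nd (nat_lit 189) (nat_lit 0) (cs (lf (nat_lit 16) (nat_lit 185)) (nd (nat_lit 211) (nat_lit 0) (cs (lf (nat_lit 17) (nat_lit 186)) (rf (nat_lit 0)))))) q89519 (by decide +kernel)
def q89522 : Q := Q.p (nat_lit 0x200000800002000000000030000000000000000000000000000000000000000000000000000) (nat_lit 0x100000400001000000000008000000000040000000000000000000000000000000000000000000000) (nat_lit 3)
theorem c89522 : QOK q89522 := cut [q11867] ⟨c11867, trivial⟩ (nd (nat_lit 231) (nat_lit 0) (cs (lf (nat_lit 47) (nat_lit 186)) (rf (nat_lit 0)))) q89522 (by decide +kernel)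
def q89529 : Q := Q.p (nat_lit 0x80000200000800002000000000000000000000000000000000000000000000000000000000000000) (nat_lit 0x40000100000400000000004000018000040000000000000000000000000000000000000000000000000000) (nat_lit 4)
theorem c89529 : QOK q89529 := cut [q84612] ⟨c84612, trivial⟩ (nd (nat_lit 320) (nat_lit 0) (cs (lf (nat_lit 29) (nat_lit 253)) (nd (nat_lit 231) (nat_lit 0) (cs (lf (nat_lit 28) (nat_lit 231)) (rf (nat_lit 0)))))) q89529 (by decide +kernel)
def q89532 : Q := Q.p (nat_lit 0x80000700000000003000000000000000000000000000000000000000000000000000000000000000) (nat_lit 0x880000780000000004000000000000000000000000000000000000000000000000000000000) (nat_lit 4)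
theorem c89532 : QOK q89532 := cut [q89030] ⟨c89030, trivial⟩ (nd (nat_lit 274) (nat_lit 0) (cs (lf (nat_lit 24) (nat_lit 230)) (rf (nat_lit 0)))) q89532 (by decide +kernel)
def q89545 : Q := Q.p (nat_lit 0x80000780000000000000000000000000000000000000000000000000000000000000000000000000) (nat_lit 0x20000300000000003000004000010000000000000000000000000000000000000000000000000000000000) (nat_lit 4)
theorem c89545 : QOK q89545 := cut [q89544] ⟨c89544, trivial⟩ (nd (nat_lit 320) (nat_lit 0) (cs (lf (nat_lit 5) (nat_lit 295)) (rf (nat_lit 0)))) q89545 (by decide +kernel)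
def q89625 : Q := Q.p (nat_lit 0x80000200000800002000000000000000000000000000000000000000000000000000000000000000) (nat_lit 0x50000140000500000000000000008000000000000000000000000000000000000000000000000000000000) (nat_lit 4)
theorem c89625 : QOK q89625 := cut [q15793] ⟨c15793, trivial⟩ (nd (nat_lit 320) (nat_lit 0) (cs (lf (nat_lit 29) (nat_lit 253)) (nd (nat_lit 231) (nat_lit 0) (cs (lf (nat_lit 28) (nat_lit 231)) (rf (nat_lit 0)))))) q89625 (by decide +kernel)
def q89633 : Q := Q.p (nat_lit 0xe00000800000000000000000000000000000000000000000000000000000000000000000000) (nat_lit 0x1c0000300001c400000000000000000000000000000000000000000000000000000000000000000000) (nat_lit 5)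
theorem c89633 : QOK q89633 := cut [q11573] ⟨c11573, trivial⟩ (nd (nat_lit 300) (nat_lit 0) (cs (lf (nat_lit 23) (nat_lit 274)) (nd (nat_lit 279) (nat_lit 0) (cs (rf (nat_lit 0)) (lf (nat_lit 16) (nat_lit 275)))))) q89633 (by decide +kernel)
def q89666 : Q := Q.p (nat_lit 0x80000200001800002000000000000000000000000000000000000000000000000000000000) (nat_lit 0x100000400000000004000018000060000000000000000000000000000000000000000000000) (nat_lit 4)
theorem c89666 : QOK q89666 := cut [q89658] ⟨c89658, trivial⟩ (nd (nat_lit 208) (nat_lit 0) (cs (lf (nat_lit 34) (nat_lit 207)) (nd (nat_lit 207) (nat_lit 0) (cs (lf (nat_lit 35) (nat_lit 185)) (rf (nat_lit 0)))))) q89666 (by decide +kernel)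
def q89677 : Q := Q.p (nat_lit 0x200001800002000008000000000000000000000000000000000000000000000000000) (nat_lit 0x100000700001c0000100000000004000010000040000000000000000000000000000000000000000000000) (nat_lit 6)
theorem c89677 : QOK q89677 := cut [q89674] ⟨c89674, trivial⟩ (nd (nat_lit 294) (nat_lit 0) (cs (lf (nat_lit 40) (nat_lit 206)) (nd (nat_lit 186) (nat_lit 0) (cs (lf (nat_lit 34) (nat_lit 185)) (nd (nat_lit 295) (nat_lit 0) (cs (lf (nat_lit 41) (nat_lit 228)) (rf (nat_lit 0)))))))) q89677 (by decide +kernel)
def q89692 : Q := Q.p (nat_lit 0x1000003c00000000000000000000000000000000000000000000000000000000000000) (nat_lit 0x2380004000000000000000000000000000000000000000000000000000000000000000) (nat_lit 3)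
theorem c89692 : QOK q89692 := cut [q79006] ⟨c79006, trivial⟩ (nd (nat_lit 254) (nat_lit 0) (cs (rf (nat_lit 0)) (lf (nat_lit 5) (nat_lit 251)))) q89692 (by decide +kernel)
def q89707 : Q := Q.p (nat_lit 0x800002000008000040000000000000000000000000000000000000000000000) (nat_lit 0x200000000000000010000020000100000400000000000000000000000000000000000) (nat_lit 3)
theorem c89707 : QOK q89707 := cut [q1827] ⟨c1827, trivial⟩ (nd (nat_lit 208) (nat_lit 0) (cs (lf (nat_lit 30) (nat_lit 185)) (rf (nat_lit 0)))) q89707 (by decide +kernel)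
def q89713 : Q := Q.p (nat_lit 0x200001800002000008000000000000000000000000000000000000000000000000000) (nat_lit 0x40000700001c0000400000000004000000000000000000000000000000000000000000000000000000000) (nat_lit 5)
theorem c89713 : QOK q89713 := cut [q89711] ⟨c89711, trivial⟩ (nd (nat_lit 296) (nat_lit 0) (cs (lf (nat_lit 28) (nat_lit 207)) (nd (nat_lit 295) (nat_lit 0) (cs (lf (nat_lit 29) (nat_lit 229)) (rf (nat_lit 0)))))) q89713 (by decide +kernel)
def q89730 : Q := Q.p (nat_lit 0xa00003800002000008000000000000000000000000000000000000000000000000000) (nat_lit 0x80000280000400000000004000010000040000000000000000000000000000000000000000000000) (nat_lit 4)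
theorem c89730 : QOK q89730 := cut [q1140] ⟨c1140, trivial⟩ (nd (nat_lit 208) (nat_lit 0) (cs (lf (nat_lit 35) (nat_lit 185)) (nd (nat_lit 230) (nat_lit 0) (cs (lf (nat_lit 30) (nat_lit 207)) (rf (nat_lit 0)))))) q89730 (by decide +kernel)
def q89735 : Q := Q.p (nat_lit 0x800003800000000000000000000000000000000000000000000000000000000000000) (nat_lit 0x7000004400000000000000000000000000000000000000000000000000000000000000) (nat_lit 3)
theorem c89735 : QOK q89735 := cut [q88741] ⟨c88741, trivial⟩ (nd (nat_lit 276) (nat_lit 0) (cs (lf (nat_lit 0) (nat_lit 250)) (rf (nat_lit 0)))) q89735 (by decide +kernel)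
def q89739 : Q := Q.p (nat_lit 0x800003800002000000000000000000000000000000000000000000000000000000000) (nat_lit 0x200003000004000031000040000100000000000000000000000000000000000000000000000) (nat_lit 5)
theorem c89739 : QOK q89739 := cut [q89738] ⟨c89738, trivial⟩ (nd (nat_lit 254) (nat_lit 0) (cs (lf (nat_lit 23) (nat_lit 228)) (rf (nat_lit 0)))) q89739 (by decide +kernel)
def q89784 : Q := Q.p (nat_lit 0x100000c00003000000000000000000000000000000000000000000000000000000000000000) (nat_lit 0x380000e0000280000000000000004000000000000000000000000000000000000000000000000000000000) (nat_lit 5)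
theorem c89784 : QOK q89784 := cut [q13202] ⟨c13202, trivial⟩ (nd (nat_lit 318) (nat_lit 0) (cs (lf (nat_lit 30) (nat_lit 252)) (nd (nat_lit 319) (nat_lit 0) (cs (lf (nat_lit 29) (nat_lit 252)) (nd (nat_lit 230) (nat_lit 0) (cs (rf (nat_lit 0)) (lf (nat_lit 43) (nat_lit 230)))))))) q89784 (by decide +kernel)
def q89787 : Q := Q.p (nat_lit 0x100000e00001800006000000000000000000000000000000000000000000000000000000000) (nat_lit 0x300000e0000000000000000000000000000000000000000000000000000000000000000000000000) (nat_lit 3)
theorem c89787 : QOK q89787 := cut [q12949] ⟨c12949, trivial⟩ (nd (nat_lit 295) (nat_lit 0) (cs (lf (nat_lit 30) (nat_lit 229)) (rf (nat_lit 0)))) q89787 (by decide +kernel)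
def q89798 : Q := Q.p (nat_lit 0xa00003800000000000000000000000000000000000000000000000000000000000000) (nat_lit 0x200003100004000030000040000100000000000000000000000000000000000000000000000) (nat_lit 5)
theorem c89798 : QOK q89798 := cut [q89738] ⟨c89738, trivial⟩ (nd (nat_lit 254) (nat_lit 0) (cs (lf (nat_lit 11) (nat_lit 250)) (rf (nat_lit 0)))) q89798 (by decide +kernel)
def q89803 : Q := Q.p (nat_lit 0x80000a00003800000000000000000000000000000000000000000000000000000000000000) (nat_lit 0x50000340007400004000002000000000000000000000000000000000000000000000000000000000) (nat_lit 5)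
theorem c89803 : QOK q89803 := cut [q88741] ⟨c88741, trivial⟩ (nd (nat_lit 276) (nat_lit 0) (cs (rf (nat_lit 0)) (nd (nat_lit 294) (nat_lit 0) (cs (nd (nat_lit 229) (nat_lit 0) (cs (lf (nat_lit 41) (nat_lit 228)) (nd (nat_lit 296) (nat_lit 0) (cs (lf (nat_lit 29) (nat_lit 229)) (lf (nat_lit 15) (nat_lit 272)))))) (lf (nat_lit 8) (nat_lit 272)))))) q89803 (by decide +kernel)
def q89815 : Q := Q.p (nat_lit 0xe00003800000000000000000000000000000000000000000000000000000000000000) (nat_lit 0x780003e0000dc0003180000000002000000000000000000000000000000000000000000000000000000000) (nat_lit 10)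
theorem c89815 : QOK q89815 := cut [q14837] ⟨c14837, trivial⟩ (nd (nat_lit 276) (nat_lit 0) (cs (lf (nat_lit 18) (nat_lit 251)) (nd (nat_lit 271) (nat_lit 0) (cs (lf (nat_lit 13) (nat_lit 249)) (nd (nat_lit 295) (nat_lit 0) (cs (lf (nat_lit 11) (nat_lit 272)) (nd (nat_lit 298) (nat_lit 0) (cs (lf (nat_lit 5) (nat_lit 273)) (nd (nat_lit 320) (nat_lit 0) (cs (lf (nat_lit 42) (nat_lit 253)) (nd (nat_lit 317) (nat_lit 0) (cs (lf (nat_lit 30) (nat_lit 251)) (nd (nat_lit 318) (nat_lit 0) (cs (lf (nat_lit 29) (nat_lit 251)) (nd (nat_lit 296) (nat_lit 0) (cs (lf (nat_lit 47) (nat_lit 229)) (rf (nat_lit 0)))))))))))))))))) q89815 (by decide +kernel)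
def q89833 : Q := Q.p (nat_lit 0x3c00002000000000000000000000000000000000000000000000000000000000) (nat_lit 0x1c0000300004e00000000000000000000000000000000000000000000000000000000) (nat_lit 5)
theorem c89833 : QOK q89833 := cut [q9769] ⟨c9769, trivial⟩ (nd (nat_lit 271) (nat_lit 0) (cs (lf (nat_lit 10) (nat_lit 249)) (nd (nat_lit 249) (nat_lit 0) (cs (lf (nat_lit 11) (nat_lit 248)) (nd (nat_lit 248) (nat_lit 0) (cs (rf (nat_lit 0)) (lf (nat_lit 17) (nat_lit 226)))))))) q89833 (by decide +kernel)
def q89845 : Q := Q.p (nat_lit 0x80000200003800002000000000000000000000000000000000000000000000000000000000) (nat_lit 0x5800014000000000000000000000000000000000000000000000000000) (nat_lit 3)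
theorem c89845 : QOK q89845 := cut [q88831] ⟨c88831, trivial⟩ (nd (nat_lit 230) (nat_lit 0) (cs (lf (nat_lit 35) (nat_lit 207)) (rf (nat_lit 0)))) q89845 (by decide +kernel)
def q89850 : Q := Q.p (nat_lit 0x20000080000200001800002000000000000000000000000000000000000000000000000000000000) (nat_lit 0x800000000000000040000000000100000c000030000000000000000000000000000000000000000000000) (nat_lit 4)
theorem c89850 : QOK q89850 := cut [q22301] ⟨c22301, trivial⟩ (nd (nat_lit 206) (nat_lit 0) (cs (lf (nat_lit 46) (nat_lit 206)) (nd (nat_lit 274) (nat_lit 0) (cs (lf (nat_lit 30) (nat_lit 251)) (rf (nat_lit 0)))))) q89850 (by decide +kernel)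
def q89854 : Q := Q.p (nat_lit 0x70000080000400003000000000000000000000000000000000000000000000000000000000000000) (nat_lit 0x8000700000000000000008000000000000000000000000000000000000000000000000000000000) (nat_lit 3)
theorem c89854 : QOK q89854 := cut [q89853] ⟨c89853, trivial⟩ (nd (nat_lit 296) (nat_lit 0) (cs (lf (nat_lit 35) (nat_lit 230)) (rf (nat_lit 0)))) q89854 (by decide +kernel)
def q89866 : Q := Q.p (nat_lit 0x200001800004000000000000000000000000000000000000000000000000000000000) (nat_lit 0x20000080000400000000000000010000040000000000000000000000000000000000000000000000) (nat_lit 3)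
theorem c89866 : QOK q89866 := cut [q80582] ⟨c80582, trivial⟩ (nd (nat_lit 295) (nat_lit 0) (cs (lf (nat_lit 30) (nat_lit 229)) (rf (nat_lit 0)))) q89866 (by decide +kernel)
def q89875 : Q := Q.p (nat_lit 0x3c00000000000000000000000000000000000000000000000000000000000000) (nat_lit 0x18000400003b800000000000000000000000000000000000000000000000000000000) (nat_lit 5)
theorem c89875 : QOK q89875 := cut [q89874] ⟨c89874, trivial⟩ (nd (nat_lit 271) (nat_lit 0) (cs (lf (nat_lit 10) (nat_lit 249)) (rf (nat_lit 0)))) q89875 (by decide +kernel)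
def q89895 : Q := Q.p (nat_lit 0x200003800000000000000000000000000000000000000000000000000000000000000) (nat_lit 0x1c0004400000000000000000000000000000000000000000000000000000000000000) (nat_lit 3)
theorem c89895 : QOK q89895 := cut [q929] ⟨c929, trivial⟩ (nd (nat_lit 272) (nat_lit 0) (cs (rf (nat_lit 0)) (lf (nat_lit 6) (nat_lit 250)))) q89895 (by decide +kernel)
def q89896 : Q := Q.p (nat_lit 0x180000680000800002000000000000000000000000000000000000000000000000000000000) (nat_lit 0x10000070000040000000000000000000000000000000000000000000000000000000000000000000) (nat_lit 3)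
theorem c89896 : QOK q89896 := cut [q83881] ⟨c83881, trivial⟩ (nd (nat_lit 294) (nat_lit 0) (cs (lf (nat_lit 41) (nat_lit 228)) (rf (nat_lit 0)))) q89896 (by decide +kernel)
def q89908 : Q := Q.p (nat_lit 0x80000200000800002000000000000000000000000000000000000000000000000000000000) (nat_lit 0x50000140000500000000000000008000000000000000000000000000000000000000000000000000) (nat_lit 4)
theorem c89908 : QOK q89908 := cut [q89906] ⟨c89906, trivial⟩ (nd (nat_lit 294) (nat_lit 0) (cs (lf (nat_lit 41) (nat_lit 228)) (nd (nat_lit 296) (nat_lit 0) (cs (lf (nat_lit 29) (nat_lit 229)) (rf (nat_lit 0)))))) q89908 (by decide +kernel)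
def q89927 : Q := Q.p (nat_lit 0x3c00000000000000000000000000000000000000000000000000000000000000) (nat_lit 0x380004000038000000000000000000000000000000000000000000000000000000000) (nat_lit 4)
theorem c89927 : QOK q89927 := cut [q89863] ⟨c89863, trivial⟩ (nd (nat_lit 232) (nat_lit 0) (cs (lf (nat_lit 16) (nat_lit 228)) (rf (nat_lit 0)))) q89927 (by decide +kernel)
def q89946 : Q := Q.p (nat_lit 0x40000180000c000030000000000000000000000000000000000000000000000000000) (nat_lit 0x8000020000000000200000e000038000000000000000000000000000000000000000000000) (nat_lit 5)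
theorem c89946 : QOK q89946 := cut [q89945] ⟨c89945, trivial⟩ (nd (nat_lit 273) (nat_lit 0) (cs (lf (nat_lit 41) (nat_lit 207)) (rf (nat_lit 0)))) q89946 (by decide +kernel)
def q89986 : Q := Q.p (nat_lit 0x100003c00000000008000000000000000000000000000000000000000000000000000) (nat_lit 0x40000000000000003800000000020000000000000000000000000000000000000000000000) (nat_lit 3)
theorem c89986 : QOK q89986 := cut [q12442] ⟨c12442, trivial⟩ (nd (nat_lit 228) (nat_lit 0) (cs (lf (nat_lit 23) (nat_lit 227)) (rf (nat_lit 0)))) q89986 (by decide +kernel)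
def q89993 : Q := Q.p (nat_lit 0x7800010000040000000000000000000000000000000000000000000000000000) (nat_lit 0x200003800000000000000000000100000000000000000000000000000000000000000000000) (nat_lit 3)
theorem c89993 : QOK q89993 := cut [q89992] ⟨c89992, trivial⟩ (nd (nat_lit 276) (nat_lit 0) (cs (lf (nat_lit 5) (nat_lit 251)) (rf (nat_lit 0)))) q89993 (by decide +kernel)
def q89995 : Q := Q.p (nat_lit 0x1800006000010000040000000000000000000000000000000000000000000000000000) (nat_lit 0xc0000300000c00000000000000008000020000080000000000000000000000000000000000000000000000) (nat_lit 5)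
theorem c89995 : QOK q89995 := cut [q79422] ⟨c79422, trivial⟩ (nd (nat_lit 209) (nat_lit 0) (cs (lf (nat_lit 47) (nat_lit 187)) (nd (nat_lit 298) (nat_lit 0) (cs (lf (nat_lit 25) (nat_lit 209)) (rf (nat_lit 0)))))) q89995 (by decide +kernel)
def q90061 : Q := Q.p (nat_lit 0xc0000600003000000000000000000000000000000000000000000000000000000000000000) (nat_lit 0x20001980000000000000000000000000000000000000000000000000000000000000000000) (nat_lit 3)
theorem c90061 : QOK q90061 := cut [q12664] ⟨c12664, trivial⟩ (nd (nat_lit 275) (nat_lit 0) (cs (rf (nat_lit 0)) (lf (nat_lit 6) (nat_lit 272)))) q90061 (by decide +kernel)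
def q90065 : Q := Q.p (nat_lit 0xc0000200001800000000000000000000000000000000000000000000000000000000000000) (nat_lit 0x1000010000040000000000300000c000030000000000000000000000000000000000000000000000) (nat_lit 5)
theorem c90065 : QOK q90065 := cut [q89658] ⟨c89658, trivial⟩ (nd (nat_lit 229) (nat_lit 0) (cs (lf (nat_lit 41) (nat_lit 228)) (nd (nat_lit 206) (nat_lit 0) (cs (lf (nat_lit 46) (nat_lit 206)) (nd (nat_lit 207) (nat_lit 0) (cs (lf (nat_lit 47) (nat_lit 184)) (rf (nat_lit 0)))))))) q90065 (by decide +kernel)
def q90071 : Q := Q.p (nat_lit 0xc0000600003800000000000000000000000000000000000000000000000000000000000000) (nat_lit 0x24000198000700001980000000000000000000000000000000000000000000000000000000000000000000) (nat_lit 7)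
theorem c90071 : QOK q90071 := cut [q90066] ⟨c90066, trivial⟩ (nd (nat_lit 272) (nat_lit 0) (cs (lf (nat_lit 12) (nat_lit 249)) (nd (nat_lit 316) (nat_lit 0) (cs (lf (nat_lit 30) (nat_lit 250)) (nd (nat_lit 275) (nat_lit 0) (cs (lf (nat_lit 6) (nat_lit 272)) (nd (nat_lit 297) (nat_lit 0) (cs (lf (nat_lit 5) (nat_lit 272)) (nd (nat_lit 296) (nat_lit 0) (cs (lf (nat_lit 11) (nat_lit 293)) (rf (nat_lit 0)))))))))))) q90071 (by decide +kernel)
def q90085 : Q := Q.p (nat_lit 0x180000200000800000000000000000000000000000000000000000000000000000000000000) (nat_lit 0x4000000000040000000000300000c000010000000000000000000000000000000000000000000000) (nat_lit 4)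
theorem c90085 : QOK q90085 := cut [q12654] ⟨c12654, trivial⟩ (nd (nat_lit 229) (nat_lit 0) (cs (lf (nat_lit 29) (nat_lit 229)) (nd (nat_lit 207) (nat_lit 0) (cs (lf (nat_lit 28) (nat_lit 207)) (rf (nat_lit 0)))))) q90085 (by decide +kernel)
def q90094 : Q := Q.p (nat_lit 0x80000200000800001000000000000000000000000000000000000000000000000000000000000000) (nat_lit 0x500001c000070000000000000000400000000000000000000000000000000000000000000000000000000000000000000) (nat_lit 5)
theorem c90094 : QOK q90094 := cut [q14363] ⟨c14363, trivial⟩ (nd (nat_lit 341) (nat_lit 0) (cs (lf (nat_lit 46) (nat_lit 252)) (nd (nat_lit 364) (nat_lit 0) (cs (lf (nat_lit 28) (nat_lit 275)) (nd (nat_lit 363) (nat_lit 0) (cs (lf (nat_lit 29) (nat_lit 297)) (rf (nat_lit 0)))))))) q90094 (by decide +kernel)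
def q90122 : Q := Q.p (nat_lit 0x180000200003800000000000000000000000000000000000000000000000000000000000000) (nat_lit 0x4000010000060000640000dc0000000008000000000000000000000000000000000000000000000000000000000) (nat_lit 6)
theorem c90122 : QOK q90122 := cut [q44056, q86855] ⟨c44056, c86855, trivial⟩ (nd (nat_lit 318) (nat_lit 0) (cs (rf (nat_lit 0)) (nd (nat_lit 231) (nat_lit 0) (cs (lf (nat_lit 32) (nat_lit 230)) (nd (nat_lit 297) (nat_lit 0) (cs (lf (nat_lit 38) (nat_lit 230)) (rf (nat_lit 1)))))))) q90122 (by decide +kernel)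
def q90151 : Q := Q.p (nat_lit 0x400001000006000000000000000000000000000000000000000000000000000000000000000) (nat_lit 0x100000000000800000000008000020000080000000000000000000000000000000000000000000000) (nat_lit 3)
theorem c90151 : QOK q90151 := cut [q80904] ⟨c80904, trivial⟩ (nd (nat_lit 231) (nat_lit 0) (cs (lf (nat_lit 42) (nat_lit 231)) (rf (nat_lit 0)))) q90151 (by decide +kernel)
def q90156 : Q := Q.p (nat_lit 0x200001000004000010000000000000000000000000000000000000000000000000000000000) (nat_lit 0x8000000000000000e0000380000a00000000000000000000000000000000000000000) (nat_lit 5)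
theorem c90156 : QOK q90156 := cut [q90153] ⟨c90153, trivial⟩ (nd (nat_lit 210) (nat_lit 0) (cs (lf (nat_lit 40) (nat_lit 209)) (nd (nat_lit 189) (nat_lit 0) (cs (lf (nat_lit 34) (nat_lit 188)) (nd (nat_lit 188) (nat_lit 0) (cs (lf (nat_lit 35) (nat_lit 166)) (rf (nat_lit 0)))))))) q90156 (by decide +kernel)
def q90173 : Q := Q.p (nat_lit 0x1800006000010000050000000000000000000000000000000000000000000000000000) (nat_lit 0x4000000000000000080000200000c0000000000000000000000000000000000000000000000) (nat_lit 3)
theorem c90173 : QOK q90173 := cut [q15523] ⟨c15523, trivial⟩ (nd (nat_lit 209) (nat_lit 0) (cs (rf (nat_lit 0)) (lf (nat_lit 47) (nat_lit 187)))) q90173 (by decide +kernel)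
def q90196 : Q := Q.p (nat_lit 0x200007800006000008000000000000000000000000000000000000000000000000000) (nat_lit 0x38000004000010000000000000000000000000000000000000000000000) (nat_lit 3)
theorem c90196 : QOK q90196 := cut [q90195] ⟨c90195, trivial⟩ (nd (nat_lit 232) (nat_lit 0) (cs (lf (nat_lit 17) (nat_lit 229)) (rf (nat_lit 0)))) q90196 (by decide +kernel)
def q90209 : Q := Q.p (nat_lit 0x800002000008000040000000000000000000000000000000000000000000000) (nat_lit 0x10000170001b00001c0000700001800004000000000000000000000000) (nat_lit 8)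
theorem c90209 : QOK q90209 := cut [q85311, q85303] ⟨c85311, c85303, trivial⟩ (nd (nat_lit 185) (nat_lit 0) (cs (lf (nat_lit 35) (nat_lit 163)) (nd (nat_lit 206) (nat_lit 0) (cs (rf (nat_lit 0)) (cs (nd (nat_lit 187) (nat_lit 0) (cs (lf (nat_lit 6) (nat_lit 184)) (nd (nat_lit 205) (nat_lit 0) (cs (lf (nat_lit 12) (nat_lit 182)) (lf (nat_lit 15) (nat_lit 183)))))) (nd (nat_lit 184) (nat_lit 0) (cs (lf (nat_lit 47) (nat_lit 162)) (rf (nat_lit 1))))))))) q90209 (by decide +kernel)
def q90248 : Q := Q.p (nat_lit 0x800003c00008000000000000000000000000000000000000000000000000000000000) (nat_lit 0x200000000000200004000010000040000000000000000000000000000000000000000000000) (nat_lit 3)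
theorem c90248 : QOK q90248 := cut [q81477] ⟨c81477, trivial⟩ (nd (nat_lit 230) (nat_lit 0) (cs (lf (nat_lit 12) (nat_lit 227)) (rf (nat_lit 0)))) q90248 (by decide +kernel)
def q90264 : Q := Q.p (nat_lit 0x400003000004000010000000000000000000000000000000000000000000000000000) (nat_lit 0x10000000000480000b800008000020000000000000000000000000000000000000000000000) (nat_lit 5)
theorem c90264 : QOK q90264 := cut [q87523] ⟨c87523, trivial⟩ (nd (nat_lit 207) (nat_lit 0) (cs (lf (nat_lit 47) (nat_lit 185)) (nd (nat_lit 229) (nat_lit 0) (cs (lf (nat_lit 42) (nat_lit 207)) (rf (nat_lit 0)))))) q90264 (by decide +kernel)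
def q90271 : Q := Q.p (nat_lit 0x600003800002000000000000000000000000000000000000000000000000000000000) (nat_lit 0x40000180000000000000008000020000000000000000000000000000000000000000000000) (nat_lit 3)
theorem c90271 : QOK q90271 := cut [q15375] ⟨c15375, trivial⟩ (nd (nat_lit 207) (nat_lit 0) (cs (lf (nat_lit 24) (nat_lit 185)) (rf (nat_lit 0)))) q90271 (by decide +kernel)
def q90278 : Q := Q.p (nat_lit 0x2000008000020000080000000000000000000000000000000000000000000000) (nat_lit 0x400001800004000000000040000100000400000000000000000000000000000000000000000) (nat_lit 4)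
theorem c90278 : QOK q90278 := cut [q90276] ⟨c90276, trivial⟩ (nd (nat_lit 188) (nat_lit 0) (cs (lf (nat_lit 35) (nat_lit 165)) (nd (nat_lit 276) (nat_lit 0) (cs (lf (nat_lit 28) (nat_lit 187)) (rf (nat_lit 0)))))) q90278 (by decide +kernel)
def q90281 : Q := Q.p (nat_lit 0x80000300000c000020000000000000000000000000000000000000000000000000000) (nat_lit 0x180000600001000000000000000000000000000000000000000000000000000000000000000000000) (nat_lit 3)
theorem c90281 : QOK q90281 := cut [q11867] ⟨c11867, trivial⟩ (nd (nat_lit 297) (nat_lit 0) (cs (lf (nat_lit 42) (nat_lit 230)) (rf (nat_lit 0)))) q90281 (by decide +kernel)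
def q90282 : Q := Q.p (nat_lit 0x80000300000c000020000000000000000000000000000000000000000000000000000) (nat_lit 0xc0000300000400000000000000000000000000000000000000000000000000000000000000000000) (nat_lit 3)
theorem c90282 : QOK q90282 := cut [q87807] ⟨c87807, trivial⟩ (nd (nat_lit 296) (nat_lit 0) (cs (lf (nat_lit 40) (nat_lit 208)) (rf (nat_lit 0)))) q90282 (by decide +kernel)
def q90285 : Q := Q.p (nat_lit 0x1000006000008000000000000000000000000000000000000000000000000000) (nat_lit 0x100000400000800000000000000020000080000000000000000000000000000000000000000) (nat_lit 3)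
theorem c90285 : QOK q90285 := cut [q87227] ⟨c87227, trivial⟩ (nd (nat_lit 274) (nat_lit 0) (cs (lf (nat_lit 42) (nat_lit 207)) (rf (nat_lit 0)))) q90285 (by decide +kernel)
def q90292 : Q := Q.p (nat_lit 0x80000300000e000000000000000000000000000000000000000000000000000000000) (nat_lit 0xc0000300000400000000000000028000000000000000000000000000000000000000000000000000) (nat_lit 4)
theorem c90292 : QOK q90292 := cut [q90291] ⟨c90291, trivial⟩ (nd (nat_lit 297) (nat_lit 0) (cs (lf (nat_lit 42) (nat_lit 230)) (rf (nat_lit 0)))) q90292 (by decide +kernel)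
def q90296 : Q := Q.p (nat_lit 0x200000800003000008000000000000000000000000000000000000000000000000000000000) (nat_lit 0x140000580007000000000000000020000000000000000000000000000000000000000000000000000) (nat_lit 5)
theorem c90296 : QOK q90296 := cut [q90293] ⟨c90293, trivial⟩ (nd (nat_lit 296) (nat_lit 0) (cs (lf (nat_lit 41) (nat_lit 230)) (nd (nat_lit 298) (nat_lit 0) (cs (lf (nat_lit 29) (nat_lit 231)) (nd (nat_lit 276) (nat_lit 0) (cs (lf (nat_lit 24) (nat_lit 209)) (rf (nat_lit 0)))))))) q90296 (by decide +kernel)
def q90299 : Q := Q.p (nat_lit 0x20000080000300000c000000000000000000000000000000000000000000000000000000000) (nat_lit 0x100000400001400000000000000020000080000200000000000000000000000000000000000000000) (nat_lit 4)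
theorem c90299 : QOK q90299 := cut [q80169] ⟨c80169, trivial⟩ (nd (nat_lit 298) (nat_lit 0) (cs (lf (nat_lit 29) (nat_lit 231)) (nd (nat_lit 209) (nat_lit 0) (cs (lf (nat_lit 28) (nat_lit 209)) (rf (nat_lit 0)))))) q90299 (by decide +kernel)
def q90310 : Q := Q.p (nat_lit 0x80000200000e000020000000000000000000000000000000000000000000000000000) (nat_lit 0x100001c0000100000000000000000000000000000000000000000000000) (nat_lit 3)
theorem c90310 : QOK q90310 := cut [q82325] ⟨c82325, trivial⟩ (nd (nat_lit 210) (nat_lit 0) (cs (lf (nat_lit 35) (nat_lit 187)) (rf (nat_lit 0)))) q90310 (by decide +kernel)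
def q90323 : Q := Q.p (nat_lit 0x600003000000000000000000000000000000000000000000000000000000000000000) (nat_lit 0x980004800000000000000000000000000000000000000000000000000000000000000) (nat_lit 3)
theorem c90323 : QOK q90323 := cut [q86566] ⟨c86566, trivial⟩ (nd (nat_lit 272) (nat_lit 0) (cs (lf (nat_lit 12) (nat_lit 249)) (rf (nat_lit 0)))) q90323 (by decide +kernel)
def q90327 : Q := Q.p (nat_lit 0x100000600001000004000000000000000000000000000000000000000000000000000000000) (nat_lit 0x20000380000e0000200000000000800000000000000000000000000000000000000000000000000000000000000) (nat_lit 5)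
theorem c90327 : QOK q90327 := cut [q5047] ⟨c5047, trivial⟩ (nd (nat_lit 319) (nat_lit 0) (cs (lf (nat_lit 28) (nat_lit 230)) (nd (nat_lit 318) (nat_lit 0) (cs (lf (nat_lit 29) (nat_lit 252)) (rf (nat_lit 0)))))) q90327 (by decide +kernel)
def q90333 : Q := Q.p (nat_lit 0x600003000004000010000000000000000000000000000000000000000000000000000) (nat_lit 0x200000980004000000000000000000000000000000000000000000000000000000000000000) (nat_lit 3)
theorem c90333 : QOK q90333 := cut [q87021] ⟨c87021, trivial⟩ (nd (nat_lit 275) (nat_lit 0) (cs (lf (nat_lit 29) (nat_lit 208)) (rf (nat_lit 0)))) q90333 (by decide +kernel)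
def q90378 : Q := Q.p (nat_lit 0x3800006000018000000000000000000000000000000000000000000000000000) (nat_lit 0xc0000300004000000000000000000000000000000000000000000000000000000000000000) (nat_lit 3)
theorem c90378 : QOK q90378 := cut [q85252] ⟨c85252, trivial⟩ (nd (nat_lit 273) (nat_lit 0) (cs (lf (nat_lit 30) (nat_lit 207)) (rf (nat_lit 0)))) q90378 (by decide +kernel)
def q90400 : Q := Q.p (nat_lit 0x300000e000030000000000000000000000000000000000000000000000000000) (nat_lit 0xc8000078000180000000000000000000000000000000000000000) (nat_lit 5)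
theorem c90400 : QOK q90400 := cut [q37] ⟨c37, trivial⟩ (nd (nat_lit 210) (nat_lit 0) (cs (lf (nat_lit 6) (nat_lit 207)) (nd (nat_lit 186) (nat_lit 0) (cs (lf (nat_lit 24) (nat_lit 164)) (nd (nat_lit 185) (nat_lit 0) (cs (lf (nat_lit 47) (nat_lit 163)) (rf (nat_lit 0)))))))) q90400 (by decide +kernel)
def q90439 : Q := Q.p (nat_lit 0x2000018000040000000000000000000000000000000000000000000000000000) (nat_lit 0x200000800000000000000020000100000400000000000000000000000000000000000000000) (nat_lit 3)
theorem c90439 : QOK q90439 := cut [q90438] ⟨c90438, trivial⟩ (nd (nat_lit 188) (nat_lit 0) (cs (lf (nat_lit 36) (nat_lit 165)) (rf (nat_lit 0)))) q90439 (by decide +kernel)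
def q90451 : Q := Q.p (nat_lit 0x300000f000000000000000000000000000000000000000000000000000000000) (nat_lit 0x1800006000018000000000000000760001c0000700000000000000000000000000000000000000000) (nat_lit 9)
theorem c90451 : QOK q90451 := cut [q90445] ⟨c90445, trivial⟩ (nd (nat_lit 209) (nat_lit 0) (cs (lf (nat_lit 17) (nat_lit 206)) (nd (nat_lit 187) (nat_lit 0) (cs (lf (nat_lit 36) (nat_lit 164)) (nd (nat_lit 205) (nat_lit 0) (cs (lf (nat_lit 22) (nat_lit 205)) (nd (nat_lit 166) (nat_lit 0) (cs (lf (nat_lit 34) (nat_lit 165)) (nd (nat_lit 186) (nat_lit 0) (cs (lf (nat_lit 47) (nat_lit 164)) (nd (nat_lit 275) (nat_lit 0) (cs (lf (nat_lit 25) (nat_lit 186)) (rf (nat_lit 0)))))))))))))) q90451 (by decide +kernel)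
def q90465 : Q := Q.p (nat_lit 0x300000e000000000000000000000000000000000000000000000000000000000) (nat_lit 0xa000008000318000780001f80007e0000000000000000000000000000000000000000) (nat_lit 12)
theorem c90465 : QOK q90465 := cut [q90457] ⟨c90457, trivial⟩ (nd (nat_lit 228) (nat_lit 0) (cs (lf (nat_lit 0) (nat_lit 227)) (nd (nat_lit 209) (nat_lit 0) (cs (lf (nat_lit 17) (nat_lit 206)) (nd (nat_lit 187) (nat_lit 0) (cs (lf (nat_lit 36) (nat_lit 164)) (nd (nat_lit 166) (nat_lit 0) (cs (lf (nat_lit 34) (nat_lit 165)) (nd (nat_lit 186) (nat_lit 0) (cs (lf (nat_lit 47) (nat_lit 164)) (nd (nat_lit 208) (nat_lit 0) (cs (lf (nat_lit 29) (nat_lit 186)) (nd (nat_lit 251) (nat_lit 0) (cs (lf (nat_lit 41) (nat_lit 185)) (nd (nat_lit 232) (nat_lit 0) (cs (lf (nat_lit 6) (nat_lit 229)) (rf (nat_lit 0)))))))))))))))))) q90465 (by decide +kernel)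
def q90471 : Q := Q.p (nat_lit 0x400003000004000010000000000000000000000000000000000000000000000000000) (nat_lit 0x800003800008000000000200000c0000200000000000000000000000000000000000000000) (nat_lit 5)
theorem c90471 : QOK q90471 := cut [q18739] ⟨c18739, trivial⟩ (nd (nat_lit 273) (nat_lit 0) (cs (lf (nat_lit 41) (nat_lit 207)) (nd (nat_lit 271) (nat_lit 0) (cs (lf (nat_lit 13) (nat_lit 249)) (nd (nat_lit 186) (nat_lit 0) (cs (lf (nat_lit 40) (nat_lit 185)) (rf (nat_lit 0)))))))) q90471 (by decide +kernel)
def q90474 : Q := Q.p (nat_lit 0x400003000004000010000000000000000000000000000000000000000000000000000) (nat_lit 0x80000380000800000000008000060000080000000000000000000000000000000000000000) (nat_lit 5)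
theorem c90474 : QOK q90474 := cut [q32039] ⟨c32039, trivial⟩ (nd (nat_lit 273) (nat_lit 0) (cs (lf (nat_lit 41) (nat_lit 207)) (nd (nat_lit 271) (nat_lit 0) (cs (lf (nat_lit 13) (nat_lit 249)) (nd (nat_lit 186) (nat_lit 0) (cs (lf (nat_lit 40) (nat_lit 185)) (rf (nat_lit 0)))))))) q90474 (by decide +kernel)
def q90553 : Q := Q.p (nat_lit 0xc00003000004000018000000000000000000000000000000000000000000000000000) (nat_lit 0xe00003800008000030000e0000080000000000000000000000000000000000000000000000) (nat_lit 7)
theorem c90553 : QOK q90553 := cut [q674] ⟨c674, trivial⟩ (nd (nat_lit 209) (nat_lit 0) (cs (lf (nat_lit 35) (nat_lit 186)) (nd (nat_lit 273) (nat_lit 0) (cs (lf (nat_lit 41) (nat_lit 207)) (nd (nat_lit 272) (nat_lit 0) (cs (lf (nat_lit 12) (nat_lit 249)) (nd (nat_lit 294) (nat_lit 0) (cs (lf (nat_lit 11) (nat_lit 271)) (nd (nat_lit 229) (nat_lit 0) (cs (rf (nat_lit 0)) (lf (nat_lit 38) (nat_lit 206)))))))))))) q90553 (by decide +kernel)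
def q90617 : Q := Q.p (nat_lit 0x20000080000a00001800000000000000000000000000000000000000000000000000000000000000) (nat_lit 0x8000000000040003400000000000000000000000000000000000000000000000000000000000000000000) (nat_lit 3)
theorem c90617 : QOK q90617 := cut [q90616] ⟨c90616, trivial⟩ (nd (nat_lit 274) (nat_lit 0) (cs (lf (nat_lit 30) (nat_lit 251)) (rf (nat_lit 0)))) q90617 (by decide +kernel)
def q90623 : Q := Q.p (nat_lit 0x1e00001800000000000000000000000000000000000000000000000000000000000000) (nat_lit 0x80000200000c0000000000000004000000000000000000000000000000000000000000000000000000000) (nat_lit 3)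
theorem c90623 : QOK q90623 := cut [q90622] ⟨c90622, trivial⟩ (nd (nat_lit 295) (nat_lit 0) (cs (lf (nat_lit 11) (nat_lit 272)) (rf (nat_lit 0)))) q90623 (by decide +kernel)
def q90635 : Q := Q.p (nat_lit 0x1800003000008000000000000000000000000000000000000000000000000000000000) (nat_lit 0x400000400004000000000020000080000000000000000000000000000000000000000000000) (nat_lit 3)
theorem c90635 : QOK q90635 := cut [q90634] ⟨c90634, trivial⟩ (nd (nat_lit 209) (nat_lit 0) (cs (lf (nat_lit 29) (nat_lit 209)) (rf (nat_lit 0)))) q90635 (by decide +kernel)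
def q90638 : Q := Q.p (nat_lit 0x1800003000008000000000000000000000000000000000000000000000000000000000) (nat_lit 0x400000400000000000000060000180000400000000000000000000000000000000000000000) (nat_lit 4)
theorem c90638 : QOK q90638 := cut [q90637] ⟨c90637, trivial⟩ (nd (nat_lit 209) (nat_lit 0) (cs (lf (nat_lit 29) (nat_lit 209)) (rf (nat_lit 0)))) q90638 (by decide +kernel)
def q90663 : Q := Q.p (nat_lit 0x100000400003800004000000000000000000000000000000000000000000000000000000000) (nat_lit 0x4000003800008000000000000000000000000000000000000000000000000000) (nat_lit 3)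
theorem c90663 : QOK q90663 := cut [q90662] ⟨c90662, trivial⟩ (nd (nat_lit 229) (nat_lit 0) (cs (lf (nat_lit 47) (nat_lit 207)) (rf (nat_lit 0)))) q90663 (by decide +kernel)
def q90671 : Q := Q.p (nat_lit 0x80000200000800003000008000000000000000000000000000000000000000000000000000000000) (nat_lit 0x20000000000100000400000000000000020000080000000000000000000000000000000000000000000000) (nat_lit 3)
theorem c90671 : QOK q90671 := cut [q24703] ⟨c24703, trivial⟩ (nd (nat_lit 274) (nat_lit 0) (cs (lf (nat_lit 42) (nat_lit 252)) (rf (nat_lit 0)))) q90671 (by decide +kernel)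
def q90688 : Q := Q.p (nat_lit 0x200000800003800000000000000000000000000000000000000000000000000000000000000) (nat_lit 0x300000c000050000340000000000c000020000080000000000000000000000000000000000000000000000) (nat_lit 7)
theorem c90688 : QOK q90688 := cut [q90684] ⟨c90684, trivial⟩ (nd (nat_lit 319) (nat_lit 0) (cs (lf (nat_lit 47) (nat_lit 230)) (nd (nat_lit 318) (nat_lit 0) (cs (lf (nat_lit 41) (nat_lit 252)) (nd (nat_lit 231) (nat_lit 0) (cs (lf (nat_lit 40) (nat_lit 230)) (nd (nat_lit 274) (nat_lit 0) (cs (lf (nat_lit 42) (nat_lit 252)) (rf (nat_lit 0)))))))))) q90688 (by decide +kernel)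
def q90706 : Q := Q.p (nat_lit 0x200000800003000000000000000000000000000000000000000000000000000000000000000) (nat_lit 0x300000c000010000040000000001c000060000180000000000000000000000000000000000000000000000) (nat_lit 7)
theorem c90706 : QOK q90706 := cut [q22908] ⟨c22908, trivial⟩ (nd (nat_lit 319) (nat_lit 0) (cs (lf (nat_lit 47) (nat_lit 230)) (nd (nat_lit 318) (nat_lit 0) (cs (lf (nat_lit 41) (nat_lit 252)) (nd (nat_lit 231) (nat_lit 0) (cs (lf (nat_lit 40) (nat_lit 230)) (nd (nat_lit 274) (nat_lit 0) (cs (lf (nat_lit 42) (nat_lit 252)) (rf (nat_lit 0)))))))))) q90706 (by decide +kernel)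
def q90710 : Q := Q.p (nat_lit 0x100000e00003800002000000000000000000000000000000000000000000000000000000000) (nat_lit 0x100000e0000000004000001c00004000000000000000000000000000000000000000000000000000) (nat_lit 5)
theorem c90710 : QOK q90710 := cut [q12949] ⟨c12949, trivial⟩ (nd (nat_lit 228) (nat_lit 0) (cs (lf (nat_lit 18) (nat_lit 228)) (nd (nat_lit 226) (nat_lit 0) (cs (lf (nat_lit 1) (nat_lit 226)) (nd (nat_lit 295) (nat_lit 0) (cs (lf (nat_lit 47) (nat_lit 206)) (rf (nat_lit 0)))))))) q90710 (by decide +kernel)
def q90720 : Q := Q.p (nat_lit 0xe00003800000000000000000000000000000000000000000000000000000000000000) (nat_lit 0x58000160000dc0003000004000003000004000000000000000000000000000000000000000000000000000) (nat_lit 9)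
theorem c90720 : QOK q90720 := cut [q82566] ⟨c82566, trivial⟩ (nd (nat_lit 276) (nat_lit 0) (cs (lf (nat_lit 18) (nat_lit 251)) (nd (nat_lit 298) (nat_lit 0) (cs (lf (nat_lit 5) (nat_lit 273)) (nd (nat_lit 320) (nat_lit 0) (cs (lf (nat_lit 42) (nat_lit 253)) (nd (nat_lit 295) (nat_lit 0) (cs (lf (nat_lit 11) (nat_lit 272)) (nd (nat_lit 317) (nat_lit 0) (cs (lf (nat_lit 30) (nat_lit 251)) (nd (nat_lit 318) (nat_lit 0) (cs (lf (nat_lit 29) (nat_lit 251)) (nd (nat_lit 229) (nat_lit 0) (cs (lf (nat_lit 43) (nat_lit 229)) (rf (nat_lit 0)))))))))))))))) q90720 (by decide +kernel)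
def q90729 : Q := Q.p (nat_lit 0xe00003800000000000000000000000000000000000000000000000000000000000000) (nat_lit 0x700001c000076000018000000000a000000000000000000000000000000000000000000000000000000000) (nat_lit 8)
theorem c90729 : QOK q90729 := cut [q90723] ⟨c90723, trivial⟩ (nd (nat_lit 272) (nat_lit 0) (cs (lf (nat_lit 12) (nat_lit 249)) (nd (nat_lit 297) (nat_lit 0) (cs (lf (nat_lit 5) (nat_lit 272)) (nd (nat_lit 319) (nat_lit 0) (cs (lf (nat_lit 42) (nat_lit 252)) (nd (nat_lit 293) (nat_lit 0) (cs (lf (nat_lit 10) (nat_lit 271)) (nd (nat_lit 320) (nat_lit 0) (cs (lf (nat_lit 29) (nat_lit 253)) (nd (nat_lit 318) (nat_lit 0) (cs (lf (nat_lit 41) (nat_lit 252)) (rf (nat_lit 0)))))))))))))) q90729 (by decide +kernel)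
def q90750 : Q := Q.p (nat_lit 0x600000800002000000000000000000000000000000000000000000000000000000000000000) (nat_lit 0x10000040000100000000001000000000008000000000000000000000000000000000000000000000000000000000) (nat_lit 3)
theorem c90750 : QOK q90750 := cut [q25894] ⟨c25894, trivial⟩ (nd (nat_lit 320) (nat_lit 0) (cs (lf (nat_lit 24) (nat_lit 231)) (rf (nat_lit 0)))) q90750 (by decide +kernel)
def q90752 : Q := Q.p (nat_lit 0x300000800002000000000000000000000000000000000000000000000000000000000000000) (nat_lit 0x4000010000040000000000400000000008000000000000000000000000000000000000000000000000000000000) (nat_lit 3)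
theorem c90752 : QOK q90752 := cut [q45028] ⟨c45028, trivial⟩ (nd (nat_lit 318) (nat_lit 0) (cs (lf (nat_lit 36) (nat_lit 230)) (rf (nat_lit 0)))) q90752 (by decide +kernel)
def q90764 : Q := Q.p (nat_lit 0x1e00001800000000000000000000000000000000000000000000000000000000000000000000) (nat_lit 0xe700001c0000000000000000000000000000000000000000000000000000000000000000000000000) (nat_lit 5)
theorem c90764 : QOK q90764 := cut [q29490] ⟨c29490, trivial⟩ (nd (nat_lit 322) (nat_lit 0) (cs (lf (nat_lit 5) (nat_lit 297)) (nd (nat_lit 296) (nat_lit 0) (cs (lf (nat_lit 4) (nat_lit 296)) (rf (nat_lit 0)))))) q90764 (by decide +kernel)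
def q90784 : Q := Q.p (nat_lit 0x200000800003800000000000000000000000000000000000000000000000000000000000000) (nat_lit 0x100000400007c000050000100000000000000000000000000000000000000000000000) (nat_lit 4)
theorem c90784 : QOK q90784 := cut [q90245, q79198, q89503] ⟨c90245, c79198, c89503, trivial⟩ (nd (nat_lit 232) (nat_lit 0) (cs (rf (nat_lit 0)) (cs (nd (nat_lit 254) (nat_lit 0) (cs (lf (nat_lit 17) (nat_lit 229)) (rf (nat_lit 1)))) (cs (nd (nat_lit 210) (nat_lit 0) (cs (lf (nat_lit 33) (nat_lit 209)) (rf (nat_lit 2)))) (nd (nat_lit 231) (nat_lit 0) (cs (lf (nat_lit 35) (nat_lit 209)) (nd (nat_lit 230) (nat_lit 0) (cs (lf (nat_lit 6) (nat_lit 229)) (lf (nat_lit 47) (nat_lit 208)))))))))) q90784 (by decide +kernel)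
def q90815 : Q := Q.p (nat_lit 0xc00003800000000010000000000000000000000000000000000000000000000000000) (nat_lit 0x8000020000460000380000c000070000000000000000000000000000000000000000000000) (nat_lit 7)
theorem c90815 : QOK q90815 := cut [q62136] ⟨c62136, trivial⟩ (nd (nat_lit 250) (nat_lit 0) (cs (lf (nat_lit 0) (nat_lit 249)) (nd (nat_lit 228) (nat_lit 0) (cs (lf (nat_lit 23) (nat_lit 227)) (nd (nat_lit 229) (nat_lit 0) (cs (lf (nat_lit 18) (nat_lit 228)) (nd (nat_lit 207) (nat_lit 0) (cs (lf (nat_lit 24) (nat_lit 185)) (nd (nat_lit 273) (nat_lit 0) (cs (lf (nat_lit 35) (nat_lit 185)) (rf (nat_lit 0)))))))))))) q90815 (by decide +kernel)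
def q90838 : Q := Q.p (nat_lit 0x300001800000000000000000000000000000000000000000000000000000000000000000000) (nat_lit 0xc0006400000000000000000000000000000000000000000000000000000000000000000000) (nat_lit 3)
theorem c90838 : QOK q90838 := cut [q11665] ⟨c11665, trivial⟩ (nd (nat_lit 295) (nat_lit 0) (cs (lf (nat_lit 12) (nat_lit 272)) (rf (nat_lit 0)))) q90838 (by decide +kernel)
def q90858 : Q := Q.p (nat_lit 0x200001a00001800004000000000000000000000000000000000000000000000000000000000) (nat_lit 0x200001c0000400000000000000000000000000000000000000000000000000000000000000000000) (nat_lit 3)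
theorem c90858 : QOK q90858 := cut [q90857] ⟨c90857, trivial⟩ (nd (nat_lit 295) (nat_lit 0) (cs (lf (nat_lit 30) (nat_lit 229)) (rf (nat_lit 0)))) q90858 (by decide +kernel)
def q90860 : Q := Q.p (nat_lit 0xa00003800004000000000000000000000000000000000000000000000000000000000) (nat_lit 0x80000200000000000000008000010000040000000000000000000000000000000000000000000000) (nat_lit 3)
theorem c90860 : QOK q90860 := cut [q1298] ⟨c1298, trivial⟩ (nd (nat_lit 208) (nat_lit 0) (cs (rf (nat_lit 0)) (lf (nat_lit 36) (nat_lit 185)))) q90860 (by decide +kernel)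
def q90876 : Q := Q.p (nat_lit 0x800003000008000020000000000000000000000000000000000000000000000000000) (nat_lit 0xe000070000040000f00003d0000340000000000000000000000000000000000000000000000) (nat_lit 10)
theorem c90876 : QOK q90876 := cut [q90869] ⟨c90869, trivial⟩ (nd (nat_lit 276) (nat_lit 0) (cs (lf (nat_lit 29) (nat_lit 209)) (nd (nat_lit 277) (nat_lit 0) (cs (lf (nat_lit 18) (nat_lit 252)) (nd (nat_lit 186) (nat_lit 0) (cs (lf (nat_lit 46) (nat_lit 186)) (nd (nat_lit 210) (nat_lit 0) (cs (lf (nat_lit 35) (nat_lit 187)) (nd (nat_lit 232) (nat_lit 0) (cs (lf (nat_lit 30) (nat_lit 209)) (nd (nat_lit 234) (nat_lit 0) (cs (lf (nat_lit 7) (nat_lit 230)) (nd (nat_lit 254) (nat_lit 0) (cs (lf (nat_lit 29) (nat_lit 210)) (rf (nat_lit 0)))))))))))))))) q90876 (by decide +kernel)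
def q90969 : Q := Q.p (nat_lit 0x80000e0000000000000000000000000000000000000000000000000000) (nat_lit 0x1c4000300001c00000000000000000000000000000000000000000000000) (nat_lit 5)
theorem c90969 : QOK q90969 := cut [q9426] ⟨c9426, trivial⟩ (nd (nat_lit 212) (nat_lit 0) (cs (lf (nat_lit 11) (nat_lit 208)) (nd (nat_lit 191) (nat_lit 0) (cs (lf (nat_lit 16) (nat_lit 187)) (nd (nat_lit 213) (nat_lit 0) (cs (lf (nat_lit 17) (nat_lit 188)) (rf (nat_lit 0)))))))) q90969 (by decide +kernel)
def q91005 : Q := Q.p (nat_lit 0x3800008000020000000000000000000000000000000000000000000000000000) (nat_lit 0x100000500007c00004000010000000000000000000000000000000000000000000000000000000000) (nat_lit 4)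
theorem c91005 : QOK q91005 := cut [q90143, q80922, q91002] ⟨c90143, c80922, c91002, trivial⟩ (nd (nat_lit 276) (nat_lit 0) (cs (rf (nat_lit 0)) (cs (nd (nat_lit 254) (nat_lit 0) (cs (lf (nat_lit 5) (nat_lit 251)) (rf (nat_lit 1)))) (cs (rf (nat_lit 2)) (nd (nat_lit 275) (nat_lit 0) (cs (lf (nat_lit 29) (nat_lit 209)) (nd (nat_lit 274) (nat_lit 0) (cs (lf (nat_lit 18) (nat_lit 251)) (lf (nat_lit 41) (nat_lit 208)))))))))) q91005 (by decide +kernel)
def q91097 : Q := Q.p (nat_lit 0x3c00003000000000000000000000000000000000000000000000000000000000000000) (nat_lit 0x1c00000380004000000000000000000000000000000000000000000000000000000000000000) (nat_lit 4)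
theorem c91097 : QOK q91097 := cut [q87021] ⟨c87021, trivial⟩ (nd (nat_lit 299) (nat_lit 0) (cs (lf (nat_lit 5) (nat_lit 274)) (nd (nat_lit 273) (nat_lit 0) (cs (lf (nat_lit 4) (nat_lit 273)) (rf (nat_lit 0)))))) q91097 (by decide +kernel)
def q91100 : Q := Q.p (nat_lit 0x1c00003000000000000000000000000000000000000000000000000000000000000000) (nat_lit 0x40000100000e00000380004000008000020000000000000000000000000000000000000000000000000000) (nat_lit 4)
theorem c91100 : QOK q91100 := cut [q15512, q87021] ⟨c15512, c87021, trivial⟩ (nd (nat_lit 298) (nat_lit 0) (cs (rf (nat_lit 0)) (nd (nat_lit 273) (nat_lit 0) (cs (lf (nat_lit 5) (nat_lit 273)) (rf (nat_lit 1)))))) q91100 (by decide +kernel)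
def q91106 : Q := Q.p (nat_lit 0x1800002000008000020000000000000000000000000000000000000000000000000000) (nat_lit 0x4000000000040000180000400000000000000000000000000000000000000000) (nat_lit 3)
theorem c91106 : QOK q91106 := cut [q91105] ⟨c91105, trivial⟩ (nd (nat_lit 188) (nat_lit 0) (cs (lf (nat_lit 34) (nat_lit 187)) (rf (nat_lit 0)))) q91106 (by decide +kernel)
def q91137 : Q := Q.p (nat_lit 0x200000800002000008000000000000000000000000000000000000000000000000000000000) (nat_lit 0x100000400001000000000004000030000040000000000000000000000000000000000000000000000) (nat_lit 4)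
theorem c91137 : QOK q91137 := cut [q11867] ⟨c11867, trivial⟩ (nd (nat_lit 208) (nat_lit 0) (cs (lf (nat_lit 46) (nat_lit 208)) (nd (nat_lit 209) (nat_lit 0) (cs (lf (nat_lit 47) (nat_lit 186)) (rf (nat_lit 0)))))) q91137 (by decide +kernel)
def q91160 : Q := Q.p (nat_lit 0x800003000008000020000000000000000000000000000000000000000000000000000) (nat_lit 0x380001600000e0000780005e000178000000000000000000000000000000000000000000000) (nat_lit 12)
theorem c91160 : QOK q91160 := cut [q12193] ⟨c12193, trivial⟩ (nd (nat_lit 274) (nat_lit 0) (cs (lf (nat_lit 41) (nat_lit 208)) (nd (nat_lit 188) (nat_lit 0) (cs (lf (nat_lit 34) (nat_lit 187)) (nd (nat_lit 208) (nat_lit 0) (cs (lf (nat_lit 47) (nat_lit 186)) (nd (nat_lit 230) (nat_lit 0) (cs (lf (nat_lit 29) (nat_lit 208)) (nd (nat_lit 273) (nat_lit 0) (cs (lf (nat_lit 41) (nat_lit 207)) (nd (nat_lit 207) (nat_lit 0) (cs (lf (nat_lit 47) (nat_lit 185)) (nd (nat_lit 206) (nat_lit 0) (cs (lf (nat_lit 0) (nat_lit 205)) (nd (nat_lit 184) (nat_lit 0) (cs (lf (nat_lit 23) (nat_lit 183)) (nd (nat_lit 227) (nat_lit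 0) (cs (lf (nat_lit 10) (nat_lit 205)) (nd (nat_lit 251) (nat_lit 0) (cs (lf (nat_lit 44) (nat_lit 184)) (rf (nat_lit 0)))))))))))))))))))))) q91160 (by decide +kernel)
def q91171 : Q := Q.p (nat_lit 0x300001c000000000000000000000000000000000000000000000000000000000) (nat_lit 0x400006380001c000000000000000000000000000000000000000000000000000) (nat_lit 5)
theorem c91171 : QOK q91171 := cut [q84417] ⟨c84417, trivial⟩ (nd (nat_lit 233) (nat_lit 0) (cs (lf (nat_lit 6) (nat_lit 230)) (nd (nat_lit 207) (nat_lit 0) (cs (lf (nat_lit 22) (nat_lit 207)) (nd (nat_lit 229) (nat_lit 0) (cs (lf (nat_lit 23) (nat_lit 206)) (rf (nat_lit 0)))))))) q91171 (by decide +kernel)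
def q91177 : Q := Q.p (nat_lit 0x1000003000008000020000000000000000000000000000000000000000000000000000) (nat_lit 0x4000004000000000180000600001000000000000000000000000000000000000) (nat_lit 4)
theorem c91177 : QOK q91177 := cut [q82299] ⟨c82299, trivial⟩ (nd (nat_lit 187) (nat_lit 0) (cs (rf (nat_lit 0)) (lf (nat_lit 28) (nat_lit 187)))) q91177 (by decide +kernel)
def q91178 : Q := Q.p (nat_lit 0x800003000008000020000080000000000000000000000000000000000000000000000) (nat_lit 0x80000200000000000000004000010000000000200000000000000000000000000000000000000000) (nat_lit 3)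
theorem c91178 : QOK q91178 := cut [q85470] ⟨c85470, trivial⟩ (nd (nat_lit 230) (nat_lit 0) (cs (lf (nat_lit 36) (nat_lit 164)) (rf (nat_lit 0)))) q91178 (by decide +kernel)
def q91186 : Q := Q.p (nat_lit 0x3000008000020000080000000000000000000000000000000000000000000000) (nat_lit 0x1000004000014000000000000000200000000000000000000000000000000000000000) (nat_lit 3)
theorem c91186 : QOK q91186 := cut [q91185] ⟨c91185, trivial⟩ (nd (nat_lit 165) (nat_lit 0) (cs (lf (nat_lit 40) (nat_lit 164)) (rf (nat_lit 0)))) q91186 (by decide +kernel)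
def q91239 : Q := Q.p (nat_lit 0x300001e000000000000000000000000000000000000000000000000000000000) (nat_lit 0x180000e000000000000000000000000000000000000000000000000000) (nat_lit 3)
theorem c91239 : QOK q91239 := cut [q85342] ⟨c85342, trivial⟩ (nd (nat_lit 206) (nat_lit 0) (cs (lf (nat_lit 22) (nat_lit 206)) (rf (nat_lit 0)))) q91239 (by decide +kernel)
def q91283 : Q := Q.p (nat_lit 0x800003400003000008000000000000000000000000000000000000000000000000000) (nat_lit 0x40001180000800000000000000000000000000000000000000000000000000000000000000) (nat_lit 3)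
theorem c91283 : QOK q91283 := cut [q14974] ⟨c14974, trivial⟩ (nd (nat_lit 272) (nat_lit 0) (cs (lf (nat_lit 30) (nat_lit 206)) (rf (nat_lit 0)))) q91283 (by decide +kernel)
def q91318 : Q := Q.p (nat_lit 0xa000070000000000000000000000000000000000000000000000000000) (nat_lit 0x3100000c000000000000000000000000000000000000000000000000000) (nat_lit 3)
theorem c91318 : QOK q91318 := cut [q7801] ⟨c7801, trivial⟩ (nd (nat_lit 207) (nat_lit 0) (cs (lf (nat_lit 11) (nat_lit 206)) (rf (nat_lit 0)))) q91318 (by decide +kernel)
def q91339 : Q := Q.p (nat_lit 0x7800006000000000000000000000000000000000000000000000000000000000) (nat_lit 0x20000080000300000000000000010000000000000000000000000000000000000000000000000000) (nat_lit 3)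
theorem c91339 : QOK q91339 := cut [q85430] ⟨c85430, trivial⟩ (nd (nat_lit 273) (nat_lit 0) (cs (lf (nat_lit 11) (nat_lit 250)) (rf (nat_lit 0)))) q91339 (by decide +kernel)
def q91362 : Q := Q.p (nat_lit 0x100000400001000004000000000000000000000000000000000000000000000000000) (nat_lit 0x20000080000200000000008000030000080000000000000000000000000000000000000000) (nat_lit 4)
theorem c91362 : QOK q91362 := cut [q7721] ⟨c7721, trivial⟩ (nd (nat_lit 185) (nat_lit 0) (cs (lf (nat_lit 34) (nat_lit 184)) (nd (nat_lit 184) (nat_lit 0) (cs (lf (nat_lit 35) (nat_lit 162)) (rf (nat_lit 0)))))) q91362 (by decide +kernel)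
def q91386 : Q := Q.p (nat_lit 0x300000400001000000000000000000000000000000000000000000000000000000000000000) (nat_lit 0xa0000080000a00000000004000010000000000000000000000000000000000000000000000000000) (nat_lit 4)
theorem c91386 : QOK q91386 := cut [q89308] ⟨c89308, trivial⟩ (nd (nat_lit 230) (nat_lit 0) (cs (lf (nat_lit 29) (nat_lit 230)) (nd (nat_lit 295) (nat_lit 0) (cs (lf (nat_lit 41) (nat_lit 229)) (rf (nat_lit 0)))))) q91386 (by decide +kernel)
def q91397 : Q := Q.p (nat_lit 0x200000c00003000008000000000000000000000000000000000000000000000000000000000) (nat_lit 0x300000c0000100000000000000000000000000000000000000000000000000000000000000000000000000) (nat_lit 3)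
theorem c91397 : QOK q91397 := cut [q13474] ⟨c13474, trivial⟩ (nd (nat_lit 318) (nat_lit 0) (cs (rf (nat_lit 0)) (lf (nat_lit 31) (nat_lit 230)))) q91397 (by decide +kernel)
def q91409 : Q := Q.p (nat_lit 0x400003000008000000000000000000000000000000000000000000000000000000000) (nat_lit 0x100000800000000004000020000080000000000000000000000000000000000000000000000) (nat_lit 3)
theorem c91409 : QOK q91409 := cut [q91408] ⟨c91408, trivial⟩ (nd (nat_lit 209) (nat_lit 0) (cs (lf (nat_lit 36) (nat_lit 186)) (rf (nat_lit 0)))) q91409 (by decide +kernel)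
def q91429 : Q := Q.p (nat_lit 0x800003800008000040000000000000000000000000000000000000000000000000000) (nat_lit 0x200000000000000074000000000000000000000000000000000000000000000000000000000) (nat_lit 3)
theorem c91429 : QOK q91429 := cut [q82274] ⟨c82274, trivial⟩ (nd (nat_lit 232) (nat_lit 0) (cs (lf (nat_lit 30) (nat_lit 209)) (rf (nat_lit 0)))) q91429 (by decide +kernel)
def q91450 : Q := Q.p (nat_lit 0x80000200000c000020000000000000000000000000000000000000000000000000000) (nat_lit 0x130001c0000100000000000000000000000000000000000000000000000) (nat_lit 4)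
theorem c91450 : QOK q91450 := cut [q84327] ⟨c84327, trivial⟩ (nd (nat_lit 210) (nat_lit 0) (cs (lf (nat_lit 35) (nat_lit 187)) (rf (nat_lit 0)))) q91450 (by decide +kernel)

end Crest.Agent.H3.Snaky.CR
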