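import Crest.Agent.H3.Snaky.Cert
import Crest.Agent.H3.Snaky.CR.CR0
import Crest.Agent.H3.Snaky.CR.CR1
import Crest.Agent.H3.Snaky.CR.CR2
import Crest.Agent.H3.Snaky.CR.CR3
import Crest.Agent.H3.Snaky.CR.CR4
import Crest.Agent.H3.Snaky.CR.CR5
import Crest.Agent.H3.Snaky.CR.CR6
import Crest.Agent.H3.Snaky.CR.CR7
import Crest.Agent.H3.Snaky.CR.CR10
import Crest.Agent.H3.Snaky.CR.CR11
import Crest.Agent.H3.Snaky.CR.CR12
import Crest.Agent.H3.Snaky.CR.CR13
import Crest.Agent.H3.Snaky.CR.CR15
import Crest.Agent.H3.Snaky.CR.CR16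
import Crest.Agent.H3.Snaky.CR.CR17
import Crest.Agent.H3.Snaky.CR.CR18

set_option autoImplicit false
set_option maxRecDepth 100000

namespace Crest.Agent.H3.Snaky.CR

open T

def q91482 : Q := Q.p (nat_lit 0x380000c000000000000000000000000000000000000000000000000000000000) (nat_lit 0x180000600001f80004600000000000000000000000000000000000000000000000000000000000000) (nat_lit 7)
theorem c91482 : QOK q91482 := cut [q91478] ⟨c91478, trivial⟩ (nd (nat_lit 250) (nat_lit 0) (cs (lf (nat_lit 12) (nat_lit 227)) (nd (nat_lit 275) (nat_lit 0) (cs (lf (nat_lit 5) (nat_lit 250)) (nd (nat_lit 297) (nat_lit 0) (cs (lf (nat_lit 42) (nat_lit 230)) (nd (nat_lit 298) (nat_lit 0) (cs (lf (nat_lit 29) (nat_lit 231)) (rf (nat_lit 0)))))))))) q91482 (by decide +kernel)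
def q91489 : Q := Q.p (nat_lit 0x400003000004000010000000000000000000000000000000000000000000000000000) (nat_lit 0x1000000000000000038000680000a0000000000000000000000000000000000000000000000) (nat_lit 5)
theorem c91489 : QOK q91489 := cut [q11267] ⟨c11267, trivial⟩ (nd (nat_lit 209) (nat_lit 0) (cs (lf (nat_lit 35) (nat_lit 186)) (rf (nat_lit 0)))) q91489 (by decide +kernel)
def q91518 : Q := Q.p (nat_lit 0x400001000004000010000000000000000000000000000000000000000000000000000) (nat_lit 0x20000180000200000000008000020000080000000000000000000000000000000000000000000000) (nat_lit 4)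
theorem c91518 : QOK q91518 := cut [q1320] ⟨c1320, trivial⟩ (nd (nat_lit 295) (nat_lit 0) (cs (lf (nat_lit 40) (nat_lit 207)) (nd (nat_lit 209) (nat_lit 0) (cs (lf (nat_lit 35) (nat_lit 186)) (rf (nat_lit 0)))))) q91518 (by decide +kernel)
def q91522 : Q := Q.p (nat_lit 0x380000c000010000000000000000000000000000000000000000000000000000) (nat_lit 0x200001800000600000000000000000000000000000000000000000000000000000000000000) (nat_lit 3)
theorem c91522 : QOK q91522 := cut [q12193] ⟨c12193, trivial⟩ (nd (nat_lit 275) (nat_lit 0) (cs (lf (nat_lit 42) (nat_lit 208)) (rf (nat_lit 0)))) q91522 (by decide +kernel)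
def q91583 : Q := Q.p (nat_lit 0x400001800002000000000000000000000000000000000000000000000000000000000) (nat_lit 0x40000100000000000000004000008000020000000000000000000000000000000000000000000000) (nat_lit 3)
theorem c91583 : QOK q91583 := cut [q25656] ⟨c25656, trivial⟩ (nd (nat_lit 207) (nat_lit 0) (cs (lf (nat_lit 24) (nat_lit 185)) (rf (nat_lit 0)))) q91583 (by decide +kernel)
def q91618 : Q := Q.p (nat_lit 0x40000100000400001000000000000000000000000000000000000000000000000000000000000000) (nat_lit 0x280000a0000280000000000000004000000000000000000000000000000000000000000000000000000000) (nat_lit 4)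
theorem c91618 : QOK q91618 := cut [q13202] ⟨c13202, trivial⟩ (nd (nat_lit 319) (nat_lit 0) (cs (lf (nat_lit 29) (nat_lit 252)) (nd (nat_lit 230) (nat_lit 0) (cs (lf (nat_lit 28) (nat_lit 230)) (rf (nat_lit 0)))))) q91618 (by decide +kernel)
def q91652 : Q := Q.p (nat_lit 0xe00001800002000000000000000000000000000000000000000000000000000000000) (nat_lit 0x28000000000000000400001c000070000000000000000000000000000000000000000000000) (nat_lit 5)
theorem c91652 : QOK q91652 := cut [q91649] ⟨c91649, trivial⟩ (nd (nat_lit 207) (nat_lit 0) (cs (lf (nat_lit 24) (nat_lit 185)) (nd (nat_lit 184) (nat_lit 0) (cs (lf (nat_lit 46) (nat_lit 184)) (nd (nat_lit 208) (nat_lit 0) (cs (lf (nat_lit 35) (nat_lit 185)) (rf (nat_lit 0)))))))) q91652 (by decide +kernel)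
def q91669 : Q := Q.p (nat_lit 0x40000100000400003000000000000000000000000000000000000000000000000000000000000000) (nat_lit 0x10000000000000000380004800002000000000000000000000000000000000000000000000000000000000) (nat_lit 4)
theorem c91669 : QOK q91669 := cut [q91667] ⟨c91667, trivial⟩ (nd (nat_lit 251) (nat_lit 0) (cs (lf (nat_lit 47) (nat_lit 229)) (nd (nat_lit 273) (nat_lit 0) (cs (lf (nat_lit 42) (nat_lit 251)) (rf (nat_lit 0)))))) q91669 (by decide +kernel)
def q91675 : Q := Q.p (nat_lit 0x100000c00003000004000000000000000000000000000000000000000000000000000000000) (nat_lit 0x2000018000060000000000000000000000000000000000000000000000) (nat_lit 3)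
theorem c91675 : QOK q91675 := cut [q22287] ⟨c22287, trivial⟩ (nd (nat_lit 208) (nat_lit 0) (cs (lf (nat_lit 24) (nat_lit 186)) (rf (nat_lit 0)))) q91675 (by decide +kernel)
def q91682 : Q := Q.p (nat_lit 0x100000400001000004000000000000000000000000000000000000000000000000000000000) (nat_lit 0x80000200000800000000002000018000020000000000000000000000000000000000000000000000) (nat_lit 4)
theorem c91682 : QOK q91682 := cut [q91402] ⟨c91402, trivial⟩ (nd (nat_lit 207) (nat_lit 0) (cs (lf (nat_lit 46) (nat_lit 207)) (nd (nat_lit 297) (nat_lit 0) (cs (lf (nat_lit 29) (nat_lit 230)) (rf (nat_lit 0)))))) q91682 (by decide +kernel)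
def q91704 : Q := Q.p (nat_lit 0x380000c00001000000000000000000000000000000000000000000000000000000000000000) (nat_lit 0x20000180000060000000000000000000000000000000000000000000000000000000000000000000000000) (nat_lit 3)
theorem c91704 : QOK q91704 := cut [q22060] ⟨c22060, trivial⟩ (nd (nat_lit 319) (nat_lit 0) (cs (lf (nat_lit 42) (nat_lit 252)) (rf (nat_lit 0)))) q91704 (by decide +kernel)
def q91707 : Q := Q.p (nat_lit 0x380000600002000000000000000000000000000000000000000000000000000000000000000) (nat_lit 0x380000c60000800000000008000000000000000000000000000000000000000000000000000000000) (nat_lit 5)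
theorem c91707 : QOK q91707 := cut [q90104] ⟨c90104, trivial⟩ (nd (nat_lit 298) (nat_lit 0) (cs (lf (nat_lit 18) (nat_lit 273)) (rf (nat_lit 0)))) q91707 (by decide +kernel)
def q91737 : Q := Q.p (nat_lit 0x180000600000800000000000000000000000000000000000000000000000000000000000000) (nat_lit 0x10000060001800000000002000008000000000000000000000000000000000000000000000000000) (nat_lit 4)
theorem c91737 : QOK q91737 := cut [q91736] ⟨c91736, trivial⟩ (nd (nat_lit 229) (nat_lit 0) (cs (lf (nat_lit 24) (nat_lit 207)) (rf (nat_lit 0)))) q91737 (by decide +kernel)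
def q91766 : Q := Q.p (nat_lit 0x300000f00003000000000000000000000000000000000000000000000000000000000000000) (nat_lit 0x600001800000e0000000000000000000000000000000000000000000000000000000000000000000000000) (nat_lit 4)
theorem c91766 : QOK q91766 := cut [q14977] ⟨c14977, trivial⟩ (nd (nat_lit 319) (nat_lit 0) (cs (lf (nat_lit 42) (nat_lit 252)) (rf (nat_lit 0)))) q91766 (by decide +kernel)
def q91799 : Q := Q.p (nat_lit 0x300000400001000000000000000000000000000000000000000000000000000000000000000) (nat_lit 0x8000000000080000000000c000030000080000000000000000000000000000000000000000000000) (nat_lit 4)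
theorem c91799 : QOK q91799 := cut [q87477] ⟨c87477, trivial⟩ (nd (nat_lit 230) (nat_lit 0) (cs (lf (nat_lit 29) (nat_lit 230)) (nd (nat_lit 209) (nat_lit 0) (cs (lf (nat_lit 34) (nat_lit 208)) (rf (nat_lit 0)))))) q91799 (by decide +kernel)
def q91802 : Q := Q.p (nat_lit 0x700000c00001000000000000000000000000000000000000000000000000000000000000000) (nat_lit 0x1880007000000800000000000000000000000000000000000000000000000000000000000000) (nat_lit 4)
theorem c91802 : QOK q91802 := cut [q91801] ⟨c91801, trivial⟩ (nd (nat_lit 299) (nat_lit 0) (cs (lf (nat_lit 18) (nat_lit 274)) (rf (nat_lit 0)))) q91802 (by decide +kernel)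
def q91844 : Q := Q.p (nat_lit 0xe00003800008000020000000000000000000000000000000000000000000000000000) (nat_lit 0x8000000000000000600005e000178000000000000000000000000000000000000000000000) (nat_lit 7)
theorem c91844 : QOK q91844 := cut [q89945] ⟨c89945, trivial⟩ (nd (nat_lit 188) (nat_lit 0) (cs (lf (nat_lit 34) (nat_lit 187)) (nd (nat_lit 208) (nat_lit 0) (cs (lf (nat_lit 47) (nat_lit 186)) (nd (nat_lit 230) (nat_lit 0) (cs (lf (nat_lit 41) (nat_lit 207)) (rf (nat_lit 0)))))))) q91844 (by decide +kernel)
def q91853 : Q := Q.p (nat_lit 0x800003800008000020000000000000000000000000000000000000000000000000000) (nat_lit 0x400007000004000000000000000000000000000000000000000000000000000000000000000) (nat_lit 3)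
theorem c91853 : QOK q91853 := cut [q88741] ⟨c88741, trivial⟩ (nd (nat_lit 276) (nat_lit 0) (cs (lf (nat_lit 29) (nat_lit 209)) (rf (nat_lit 0)))) q91853 (by decide +kernel)
def q91865 : Q := Q.p (nat_lit 0x600001800002000000000000000000000000000000000000000000000000000000000) (nat_lit 0xc0000300000c000000000000000400001c000070000000000000000000000000000000000000000000000) (nat_lit 7)
theorem c91865 : QOK q91865 := cut [q89723] ⟨c89723, trivial⟩ (nd (nat_lit 207) (nat_lit 0) (cs (lf (nat_lit 24) (nat_lit 185)) (nd (nat_lit 184) (nat_lit 0) (cs (lf (nat_lit 46) (nat_lit 184)) (nd (nat_lit 208) (nat_lit 0) (cs (lf (nat_lit 35) (nat_lit 185)) (nd (nat_lit 295) (nat_lit 0) (cs (lf (nat_lit 37) (nat_lit 207)) (rf (nat_lit 0)))))))))) q91865 (by decide +kernel)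
def q91867 : Q := Q.p (nat_lit 0xe00003000008000020000000000000000000000000000000000000000000000000000) (nat_lit 0x280000000000000004000010000040000000000000000000000000000000000000000000000) (nat_lit 3)
theorem c91867 : QOK q91867 := cut [q91649] ⟨c91649, trivial⟩ (nd (nat_lit 208) (nat_lit 0) (cs (lf (nat_lit 47) (nat_lit 186)) (rf (nat_lit 0)))) q91867 (by decide +kernel)
def q91939 : Q := Q.p (nat_lit 0x80000f000000000000000000000000000000000000000000000000000000000) (nat_lit 0x8000020000000000000000e000010000040000000000000000000000000000000000000000) (nat_lit 4)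
theorem c91939 : QOK q91939 := cut [q82581] ⟨c82581, trivial⟩ (nd (nat_lit 206) (nat_lit 0) (cs (lf (nat_lit 23) (nat_lit 205)) (nd (nat_lit 273) (nat_lit 0) (cs (lf (nat_lit 42) (nat_lit 206)) (rf (nat_lit 0)))))) q91939 (by decide +kernel)
def q91955 : Q := Q.p (nat_lit 0xf00003000008000000000000000000000000000000000000000000000000000000000) (nat_lit 0x1000000e00010000000000000000000000000000000000000000000000000000000000) (nat_lit 3)
theorem c91955 : QOK q91955 := cut [q44386] ⟨c44386, trivial⟩ (nd (nat_lit 250) (nat_lit 0) (cs (lf (nat_lit 23) (nat_lit 249)) (rf (nat_lit 0)))) q91955 (by decide +kernel)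
def q91971 : Q := Q.p (nat_lit 0x80000380000c000000000000000000000000000000000000000000000000000000000) (nat_lit 0x80000200000000000000030000040000000000000000000000000000000000000000000000000000) (nat_lit 3)
theorem c91971 : QOK q91971 := cut [q91117] ⟨c91117, trivial⟩ (nd (nat_lit 297) (nat_lit 0) (cs (lf (nat_lit 42) (nat_lit 230)) (rf (nat_lit 0)))) q91971 (by decide +kernel)
def q92000 : Q := Q.p (nat_lit 0x80000300000e000000000000000000000000000000000000000000000000000000000) (nat_lit 0x1000000e00011800006000000000000000000000000000000000000000000000000000) (nat_lit 5)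
theorem c92000 : QOK q92000 := cut [q91998] ⟨c91998, trivial⟩ (nd (nat_lit 228) (nat_lit 0) (cs (lf (nat_lit 0) (nat_lit 227)) (nd (nat_lit 205) (nat_lit 0) (cs (lf (nat_lit 22) (nat_lit 205)) (rf (nat_lit 0)))))) q92000 (by decide +kernel)
def q92031 : Q := Q.p (nat_lit 0x40000500003400009000000000000000000000000000000000000000000000000000000000) (nat_lit 0x100000c0000380000a0000080000200000000024000080000000000000000000000000000000000000000000000) (nat_lit 7)
theorem c92031 : QOK q92031 := cut [q92030] ⟨c92030, trivial⟩ (nd (nat_lit 187) (nat_lit 0) (cs (lf (nat_lit 37) (nat_lit 186)) (rf (nat_lit 0)))) q92031 (by decide +kernel)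
def q92055 : Q := Q.p (nat_lit 0x40000380000c000010000000000000000000000000000000000000000000000000000) (nat_lit 0xc00003800000000330000e80000a0000000000000000000000000000000000000000000000) (nat_lit 8)
theorem c92055 : QOK q92055 := cut [q674] ⟨c674, trivial⟩ (nd (nat_lit 209) (nat_lit 0) (cs (lf (nat_lit 36) (nat_lit 186)) (nd (nat_lit 273) (nat_lit 0) (cs (lf (nat_lit 41) (nat_lit 207)) (nd (nat_lit 272) (nat_lit 0) (cs (lf (nat_lit 12) (nat_lit 249)) (nd (nat_lit 232) (nat_lit 0) (cs (lf (nat_lit 6) (nat_lit 229)) (nd (nat_lit 207) (nat_lit 0) (cs (lf (nat_lit 47) (nat_lit 185)) (nd (nat_lit 229) (nat_lit 0) (cs (rf (nat_lit 0)) (lf (nat_lit 41) (nat_lit 206)))))))))))))) q92055 (by decide +kernel)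
def q92061 : Q := Q.p (nat_lit 0x40000380000c000030000000000000000000000000000000000000000000000000000) (nat_lit 0x300000c0000380000600003800048000020000000000000000000000000000000000000000000000) (nat_lit 8)
theorem c92061 : QOK q92061 := cut [q10692] ⟨c10692, trivial⟩ (nd (nat_lit 185) (nat_lit 0) (cs (lf (nat_lit 46) (nat_lit 185)) (nd (nat_lit 250) (nat_lit 0) (cs (lf (nat_lit 12) (nat_lit 227)) (nd (nat_lit 272) (nat_lit 0) (cs (lf (nat_lit 11) (nat_lit 249)) (nd (nat_lit 228) (nat_lit 0) (cs (lf (nat_lit 23) (nat_lit 227)) (nd (nat_lit 295) (nat_lit 0) (cs (lf (nat_lit 40) (nat_lit 207)) (nd (nat_lit 229) (nat_lit 0) (cs (lf (nat_lit 17) (nat_lit 206)) (rf (nat_lit 0)))))))))))))) q92061 (by decide +kernel)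
def q92089 : Q := Q.p (nat_lit 0x300000f000000000040000000000000000000000000000000000000000000000) (nat_lit 0x60000080000300000000000000000000000000000000000000000) (nat_lit 3)
theorem c92089 : QOK q92089 := cut [q92088] ⟨c92088, trivial⟩ (nd (nat_lit 209) (nat_lit 0) (cs (lf (nat_lit 17) (nat_lit 206)) (rf (nat_lit 0)))) q92089 (by decide +kernel)
def q92167 : Q := Q.p (nat_lit 0x300000c000020000180000000000000000000000000000000000000000000000) (nat_lit 0x800000000000000018000640000100000000000000000000000000000000000000000) (nat_lit 4)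
theorem c92167 : QOK q92167 := cut [q356] ⟨c356, trivial⟩ (nd (nat_lit 186) (nat_lit 0) (cs (lf (nat_lit 47) (nat_lit 164)) (nd (nat_lit 208) (nat_lit 0) (cs (lf (nat_lit 29) (nat_lit 186)) (rf (nat_lit 0)))))) q92167 (by decide +kernel)
def q92183 : Q := Q.p (nat_lit 0xc00003000004000010000000000000000000000000000000000000000000000000000) (nat_lit 0x1000000000048000780001e0000780000800002000000000000000000000000000000000000) (nat_lit 9)
theorem c92183 : QOK q92183 := cut [q89491] ⟨c89491, trivial⟩ (nd (nat_lit 209) (nat_lit 0) (cs (lf (nat_lit 35) (nat_lit 186)) (nd (nat_lit 231) (nat_lit 0) (cs (lf (nat_lit 41) (nat_lit 208)) (nd (nat_lit 210) (nat_lit 0) (cs (lf (nat_lit 35) (nat_lit 187)) (nd (nat_lit 211) (nat_lit 0) (cs (lf (nat_lit 6) (nat_lit 208)) (nd (nat_lit 189) (nat_lit 0) (cs (lf (nat_lit 17) (nat_lit 186)) (nd (nat_lit 233) (nat_lit 0) (cs (lf (nat_lit 5) (nat_lit 208)) (nd (nat_lit 232) (nat_lit 0) (cs (lf (nat_lit 11) (nat_lit 229)) (rf (nat_lit 0)))))))))))))))) q92183 (by decide +kernel)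
def q92239 : Q := Q.p (nat_lit 0x7800000000000000000000000000000000000000000000000000000000000000) (nat_lit 0x700008000070000000000000000000000000000000000000000000000000000000000) (nat_lit 4)
theorem c92239 : QOK q92239 := cut [q79215] ⟨c79215, trivial⟩ (nd (nat_lit 233) (nat_lit 0) (cs (lf (nat_lit 16) (nat_lit 229)) (nd (nat_lit 255) (nat_lit 0) (cs (lf (nat_lit 17) (nat_lit 230)) (rf (nat_lit 0)))))) q92239 (by decide +kernel)
def q92248 : Q := Q.p (nat_lit 0x400007000004000000000000000000000000000000000000000000000000000000000) (nat_lit 0xa00018000008000000000000000000000000000000000000000000000000000000000) (nat_lit 3)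
theorem c92248 : QOK q92248 := cut [q92247] ⟨c92247, trivial⟩ (nd (nat_lit 255) (nat_lit 0) (cs (lf (nat_lit 11) (nat_lit 251)) (rf (nat_lit 0)))) q92248 (by decide +kernel)
def q92263 : Q := Q.p (nat_lit 0x7800000000000000000000000000000000000000000000000000000000000000) (nat_lit 0x300008000077000000000000000000000000000000000000000000000000000000000) (nat_lit 5)
theorem c92263 : QOK q92263 := cut [q80462] ⟨c80462, trivial⟩ (nd (nat_lit 233) (nat_lit 0) (cs (lf (nat_lit 16) (nat_lit 229)) (nd (nat_lit 272) (nat_lit 0) (cs (lf (nat_lit 10) (nat_lit 250)) (nd (nat_lit 255) (nat_lit 0) (cs (lf (nat_lit 17) (nat_lit 230)) (rf (nat_lit 0)))))))) q92263 (by decide +kernel)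
def q92275 : Q := Q.p (nat_lit 0x4000030000060000000000000000000000000000000000000000000000000000) (nat_lit 0x400001000000000000000080000280000000000000000000000000000000000000000000000) (nat_lit 3)
theorem c92275 : QOK q92275 := cut [q92274] ⟨c92274, trivial⟩ (nd (nat_lit 276) (nat_lit 0) (cs (lf (nat_lit 47) (nat_lit 187)) (rf (nat_lit 0)))) q92275 (by decide +kernel)
def q92287 : Q := Q.p (nat_lit 0x7000010000040000000000000000000000000000000000000000000000000000) (nat_lit 0x140000000006800003c0003f0000f00002800000000000000000000000000000000000) (nat_lit 9)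
theorem c92287 : QOK q92287 := cut [q79121, q79127, q92282] ⟨c79121, c79127, c92282, trivial⟩ (nd (nat_lit 188) (nat_lit 0) (cs (rf (nat_lit 0)) (cs (rf (nat_lit 1)) (nd (nat_lit 187) (nat_lit 0) (cs (lf (nat_lit 47) (nat_lit 165)) (nd (nat_lit 209) (nat_lit 0) (cs (lf (nat_lit 42) (nat_lit 187)) (nd (nat_lit 231) (nat_lit 0) (cs (lf (nat_lit 41) (nat_lit 186)) (nd (nat_lit 233) (nat_lit 0) (cs (lf (nat_lit 6) (nat_lit 230)) (rf (nat_lit 2))))))))))))) q92287 (by decide +kernel)
def q92317 : Q := Q.p (nat_lit 0x400001000004000010000000000000000000000000000000000000000000000000000000000) (nat_lit 0xa0000380000a00000000000000000000000000000000000000000000000000000000000000000000000000) (nat_lit 4)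
theorem c92317 : QOK q92317 := cut [q90000] ⟨c90000, trivial⟩ (nd (nat_lit 321) (nat_lit 0) (cs (lf (nat_lit 28) (nat_lit 232)) (nd (nat_lit 319) (nat_lit 0) (cs (lf (nat_lit 40) (nat_lit 231)) (rf (nat_lit 0)))))) q92317 (by decide +kernel)
def q92324 : Q := Q.p (nat_lit 0x200000800007000018000000000000000000000000000000000000000000000000000000000) (nat_lit 0x4000000000040000300000c0000200000000000000000000000000000000000000000) (nat_lit 4)
theorem c92324 : QOK q92324 := cut [q83627] ⟨c83627, trivial⟩ (nd (nat_lit 208) (nat_lit 0) (cs (lf (nat_lit 46) (nat_lit 208)) (nd (nat_lit 209) (nat_lit 0) (cs (lf (nat_lit 47) (nat_lit 186)) (rf (nat_lit 0)))))) q92324 (by decide +kernel)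
def q92337 : Q := Q.p (nat_lit 0x40000e000010000000000000000000000000000000000000000000000000000000000) (nat_lit 0x1c8000300000c8000000000000000000000000000000000000000000000000000000000) (nat_lit 5)
theorem c92337 : QOK q92337 := cut [q80456] ⟨c80456, trivial⟩ (nd (nat_lit 256) (nat_lit 0) (cs (lf (nat_lit 10) (nat_lit 252)) (nd (nat_lit 234) (nat_lit 0) (cs (lf (nat_lit 17) (nat_lit 231)) (nd (nat_lit 257) (nat_lit 0) (cs (rf (nat_lit 0)) (lf (nat_lit 23) (nat_lit 231)))))))) q92337 (by decide +kernel)
def q92346 : Q := Q.p (nat_lit 0x200003800000000000000000000000000000000000000000000000000000000000000) (nat_lit 0x50000c000070000000000000000000000000000000000000000000000000000000000) (nat_lit 4)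
theorem c92346 : QOK q92346 := cut [q81052] ⟨c81052, trivial⟩ (nd (nat_lit 254) (nat_lit 0) (cs (lf (nat_lit 11) (nat_lit 250)) (nd (nat_lit 255) (nat_lit 0) (cs (lf (nat_lit 10) (nat_lit 251)) (rf (nat_lit 0)))))) q92346 (by decide +kernel)
def q92357 : Q := Q.p (nat_lit 0x3c0000000001000000000000000000000000000000000000000000000000000000000000000) (nat_lit 0x20000180000020001c00000000000000000000000000000000000000000000000000000000000000000000) (nat_lit 4)
theorem c92357 : QOK q92357 := cut [q90066] ⟨c90066, trivial⟩ (nd (nat_lit 275) (nat_lit 0) (cs (lf (nat_lit 17) (nat_lit 272)) (nd (nat_lit 274) (nat_lit 0) (cs (lf (nat_lit 12) (nat_lit 271)) (rf (nat_lit 0)))))) q92357 (by decide +kernel)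
def q92463 : Q := Q.p (nat_lit 0x3c000000000000002000000000000000000000000000000000000000000000000000000000000000) (nat_lit 0x380000c0000700000800000000000000000000000000000000000000000000000000000000000000000000) (nat_lit 5)
theorem c92463 : QOK q92463 := cut [q48392] ⟨c48392, trivial⟩ (nd (nat_lit 340) (nat_lit 0) (cs (lf (nat_lit 4) (nat_lit 314)) (nd (nat_lit 318) (nat_lit 0) (cs (lf (nat_lit 5) (nat_lit 315)) (rf (nat_lit 0)))))) q92463 (by decide +kernel)
def q92495 : Q := Q.p (nat_lit 0x400001c000000000080000000000000000000000000000000000000000000000000000000000000000000) (nat_lit 0x38000022000020000000000200000000000000000000000000000000000000000000000000000000000000) (nat_lit 4)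
theorem c92495 : QOK q92495 := cut [q92494] ⟨c92494, trivial⟩ (nd (nat_lit 249) (nat_lit 0) (cs (lf (nat_lit 26) (nat_lit 249)) (rf (nat_lit 0)))) q92495 (by decide +kernel)
def q92564 : Q := Q.p (nat_lit 0x400001c000000000000000000000000000000000000000000000000000000000000000000000000000000) (nat_lit 0x180000600003e0002300001e0000300000c0000300000000000000000000000000000000000000000000000000000000) (nat_lit 10)
theorem c92564 : QOK q92564 := cut [q62842] ⟨c62842, trivial⟩ (nd (nat_lit 313) (nat_lit 0) (cs (nd (nat_lit 290) (nat_lit 0) (cs (lf (nat_lit 22) (nat_lit 290)) (rf (nat_lit 0)))) (cs (nd (nat_lit 291) (nat_lit 0) (cs (lf (nat_lit 23) (nat_lit 290)) (nd (nat_lit 292) (nat_lit 0) (cs (lf (nat_lit 18) (nat_lit 291)) (nd (nat_lit 335) (nat_lit 0) (cs (lf (nat_lit 11) (nat_lit 312)) (nd (nat_lit 357) (nat_lit 0) (cs (lf (nat_lit 30) (nat_lit 291)) (nd (nat_lit 358) (nat_lit 0) (cs (lf (nat_lit 29) (nat_lit 291)) (nd (nat_lit 269) (nat_lit 0) (cs (lf (nat_lit 28) (nat_lit 269)) (nd (nat_lit 246) (nat_lit 0) (cs (lf (nat_lit 46) (nat_lit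 246)) (nd (nat_lit 247) (nat_lit 0) (cs (lf (nat_lit 24) (nat_lit 225)) (lf (nat_lit 47) (nat_lit 224)))))))))))))))))) (nd (nat_lit 334) (nat_lit 0) (cs (lf (nat_lit 10) (nat_lit 312)) (nd (nat_lit 312) (nat_lit 0) (cs (lf (nat_lit 11) (nat_lit 311)) (lf (nat_lit 4) (nat_lit 312))))))))) q92564 (by decide +kernel)
def q92585 : Q := Q.p (nat_lit 0x200007800002000000000000000000000000000000000000000000000000000000000) (nat_lit 0x100000400008000000000008000020000000000000000000000000000000000000000000000) (nat_lit 3)
theorem c92585 : QOK q92585 := cut [q82585] ⟨c82585, trivial⟩ (nd (nat_lit 274) (nat_lit 0) (cs (lf (nat_lit 6) (nat_lit 251)) (rf (nat_lit 0)))) q92585 (by decide +kernel)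
def q92604 : Q := Q.p (nat_lit 0x7800000000000000000000000000000000000000000000000000000000000000) (nat_lit 0x40003b800000000000000000000000000000000000000000000000000000000) (nat_lit 4)
theorem c92604 : QOK q92604 := cut [q92602] ⟨c92602, trivial⟩ (nd (nat_lit 228) (nat_lit 0) (cs (lf (nat_lit 22) (nat_lit 228)) (nd (nat_lit 232) (nat_lit 0) (cs (lf (nat_lit 17) (nat_lit 229)) (rf (nat_lit 0)))))) q92604 (by decide +kernel)
def q92660 : Q := Q.p (nat_lit 0x7800000000000000000000000000000000000000000000000000000000000000) (nat_lit 0x8000077000000000000000000000000000000000000000000000000000000000) (nat_lit 4)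
theorem c92660 : QOK q92660 := cut [q81052] ⟨c81052, trivial⟩ (nd (nat_lit 229) (nat_lit 0) (cs (lf (nat_lit 23) (nat_lit 228)) (nd (nat_lit 255) (nat_lit 0) (cs (lf (nat_lit 22) (nat_lit 229)) (rf (nat_lit 0)))))) q92660 (by decide +kernel)
def q92704 : Q := Q.p (nat_lit 0xc00003000008000020000000000000000000000000000000000000000000000000000) (nat_lit 0x20000080000200000000000000014000040000100000000000000000000000000000000000000000000000) (nat_lit 4)
theorem c92704 : QOK q92704 := cut [q86873] ⟨c86873, trivial⟩ (nd (nat_lit 210) (nat_lit 0) (cs (lf (nat_lit 35) (nat_lit 187)) (nd (nat_lit 297) (nat_lit 0) (cs (lf (nat_lit 34) (nat_lit 209)) (rf (nat_lit 0)))))) q92704 (by decide +kernel)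
def q92705 : Q := Q.p (nat_lit 0x6000008000020000080000000000000000000000000000000000000000000000) (nat_lit 0x10000000000100000600001000000000000000000000000000000000000) (nat_lit 3)
theorem c92705 : QOK q92705 := cut [q2204] ⟨c2204, trivial⟩ (nd (nat_lit 165) (nat_lit 0) (cs (rf (nat_lit 0)) (lf (nat_lit 28) (nat_lit 165)))) q92705 (by decide +kernel)
def q92709 : Q := Q.p (nat_lit 0x2000008000020000080000000000000000000000000000000000000000000000) (nat_lit 0x400001800004000000000010000040000100000000000000000000000000000000000000000) (nat_lit 4)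
theorem c92709 : QOK q92709 := cut [q81899] ⟨c81899, trivial⟩ (nd (nat_lit 276) (nat_lit 0) (cs (lf (nat_lit 28) (nat_lit 187)) (nd (nat_lit 275) (nat_lit 0) (cs (lf (nat_lit 29) (nat_lit 209)) (rf (nat_lit 0)))))) q92709 (by decide +kernel)
def q92716 : Q := Q.p (nat_lit 0x300003c000000000000000000000000000000000000000000000000000000000) (nat_lit 0x1c0000020001c0000000000000000000000000000000000000000000000000000) (nat_lit 4)
theorem c92716 : QOK q92716 := cut [q22590] ⟨c22590, trivial⟩ (nd (nat_lit 255) (nat_lit 0) (cs (lf (nat_lit 5) (nat_lit 230)) (nd (nat_lit 229) (nat_lit 0) (cs (rf (nat_lit 0)) (lf (nat_lit 19) (nat_lit 229)))))) q92716 (by decide +kernel)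
def q92721 : Q := Q.p (nat_lit 0x300003c000000000000000000000000000000000000000000000000000000000) (nat_lit 0x1c00000200001c000000000000000000000000000000000000000000000000000) (nat_lit 4)
theorem c92721 : QOK q92721 := cut [q91992] ⟨c91992, trivial⟩ (nd (nat_lit 255) (nat_lit 0) (cs (lf (nat_lit 5) (nat_lit 230)) (nd (nat_lit 229) (nat_lit 0) (cs (lf (nat_lit 19) (nat_lit 229)) (rf (nat_lit 0)))))) q92721 (by decide +kernel)
def q92723 : Q := Q.p (nat_lit 0x40000300000c000010000000000000000000000000000000000000000000000000000) (nat_lit 0xc0000300000800000000000000000000000000000000000000000000000000000000000000000000) (nat_lit 3)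
theorem c92723 : QOK q92723 := cut [q1337] ⟨c1337, trivial⟩ (nd (nat_lit 296) (nat_lit 0) (cs (lf (nat_lit 30) (nat_lit 230)) (rf (nat_lit 0)))) q92723 (by decide +kernel)
def q92726 : Q := Q.p (nat_lit 0x300001e000000000000000000000000000000000000000000000000000000000) (nat_lit 0x1c000060000000000000000000000000000000000000000000000000000000000) (nat_lit 3)
theorem c92726 : QOK q92726 := cut [q85160] ⟨c85160, trivial⟩ (nd (nat_lit 255) (nat_lit 0) (cs (lf (nat_lit 19) (nat_lit 229)) (rf (nat_lit 0)))) q92726 (by decide +kernel)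
def q92732 : Q := Q.p (nat_lit 0x300000c00001000004000000000000000000000000000000000000000000000000000000000) (nat_lit 0x200000e0001000000000000000000000000000000000000000000000000000000000000000000000) (nat_lit 3)
theorem c92732 : QOK q92732 := cut [q56241] ⟨c56241, trivial⟩ (nd (nat_lit 295) (nat_lit 0) (cs (lf (nat_lit 41) (nat_lit 229)) (rf (nat_lit 0)))) q92732 (by decide +kernel)
def q92739 : Q := Q.p (nat_lit 0xc0000c00003000000000000000000000000000000000000000000000000000000000000000) (nat_lit 0x130000c000000000000000000000000000000000000000000000000000000000000000) (nat_lit 3)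
theorem c92739 : QOK q92739 := cut [q84408] ⟨c84408, trivial⟩ (nd (nat_lit 273) (nat_lit 0) (cs (lf (nat_lit 6) (nat_lit 272)) (rf (nat_lit 0)))) q92739 (by decide +kernel)
def q92795 : Q := Q.p (nat_lit 0x3000008000020000000000000000000000000000000000000000000000000000) (nat_lit 0x14000040000000000000001c0000700001400000000000000000000000000000000000) (nat_lit 6)
theorem c92795 : QOK q92795 := cut [q80750] ⟨c80750, trivial⟩ (nd (nat_lit 187) (nat_lit 0) (cs (lf (nat_lit 41) (nat_lit 186)) (nd (nat_lit 254) (nat_lit 0) (cs (lf (nat_lit 29) (nat_lit 187)) (rf (nat_lit 0)))))) q92795 (by decide +kernel)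
def q92801 : Q := Q.p (nat_lit 0x300000c000020000080000000000000000000000000000000000000000000000) (nat_lit 0x100000c000003000000000000000000000000000000000000000000000000000000000) (nat_lit 3)
theorem c92801 : QOK q92801 := cut [q92800] ⟨c92800, trivial⟩ (nd (nat_lit 254) (nat_lit 0) (cs (lf (nat_lit 29) (nat_lit 187)) (rf (nat_lit 0)))) q92801 (by decide +kernel)
def q92814 : Q := Q.p (nat_lit 0x2000008000020000080000000000000000000000000000000000000000000000) (nat_lit 0x400001800004000000000040000100000400000000000000000000000000000000000000000) (nat_lit 4)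
theorem c92814 : QOK q92814 := cut [q90276] ⟨c90276, trivial⟩ (nd (nat_lit 276) (nat_lit 0) (cs (lf (nat_lit 28) (nat_lit 187)) (nd (nat_lit 188) (nat_lit 0) (cs (lf (nat_lit 35) (nat_lit 165)) (rf (nat_lit 0)))))) q92814 (by decide +kernel)
def q92843 : Q := Q.p (nat_lit 0x80000300000c000020000000000000000000000000000000000000000000000000000) (nat_lit 0x100000c0000300000000000000000000000000000000000000000) (nat_lit 3)
theorem c92843 : QOK q92843 := cut [q92088] ⟨c92088, trivial⟩ (nd (nat_lit 186) (nat_lit 0) (cs (lf (nat_lit 25) (nat_lit 186)) (rf (nat_lit 0)))) q92843 (by decide +kernel)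
def q92863 : Q := Q.p (nat_lit 0x700000c000000000080000000000000000000000000000000000000000000000) (nat_lit 0x180000000001380003e0001780005e0000000000000000000000000000000000000000) (nat_lit 11)
theorem c92863 : QOK q92863 := cut [q92198] ⟨c92198, trivial⟩ (nd (nat_lit 209) (nat_lit 0) (cs (lf (nat_lit 29) (nat_lit 187)) (nd (nat_lit 166) (nat_lit 0) (cs (lf (nat_lit 34) (nat_lit 165)) (nd (nat_lit 228) (nat_lit 0) (cs (lf (nat_lit 1) (nat_lit 228)) (nd (nat_lit 186) (nat_lit 0) (cs (lf (nat_lit 47) (nat_lit 164)) (nd (nat_lit 208) (nat_lit 0) (cs (lf (nat_lit 42) (nat_lit 186)) (nd (nat_lit 185) (nat_lit 0) (cs (lf (nat_lit 47) (nat_lit 163)) (nd (nat_lit 184) (nat_lit 0) (cs (lf (nat_lit 0) (nat_lit 183)) (nd (nat_lit 161) (nat_lit 0) (cs (lf (nat_lit 22) (nat_lit 161)) (nd (nat_lit 206) (nat_lit 0) (cs (lf (nat_lit 11) (nat_lit 183)) (rf (nat_lit 0)))))))))))))))))))) q92863 (by decide +kernel)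
def q92874 : Q := Q.p (nat_lit 0xf0000000000000000000000000000000000000000000000) (nat_lit 0x7000008000070000000000000000000000000000000000000000) (nat_lit 4)
theorem c92874 : QOK q92874 := cut [q92873] ⟨c92873, trivial⟩ (nd (nat_lit 161) (nat_lit 0) (cs (lf (nat_lit 22) (nat_lit 161)) (rf (nat_lit 0)))) q92874 (by decide +kernel)
def q92882 : Q := Q.p (nat_lit 0xf0000000000000000000000000000000000000000000000) (nat_lit 0x100000ee0000000000000000000000000000000000000000) (nat_lit 4)
theorem c92882 : QOK q92882 := cut [q4891] ⟨c4891, trivial⟩ (nd (nat_lit 166) (nat_lit 0) (cs (lf (nat_lit 16) (nat_lit 162)) (nd (nat_lit 188) (nat_lit 0) (cs (lf (nat_lit 17) (nat_lit 163)) (rf (nat_lit 0)))))) q92882 (by decide +kernel)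
def q92896 : Q := Q.p (nat_lit 0x300000c000000000080000000000000000000000000000000000000000000000) (nat_lit 0x98000060001380003e0001780007e0000000000000000000000000000000000000000) (nat_lit 13)
theorem c92896 : QOK q92896 := cut [q9507] ⟨c9507, trivial⟩ (nd (nat_lit 209) (nat_lit 0) (cs (lf (nat_lit 36) (nat_lit 164)) (nd (nat_lit 166) (nat_lit 0) (cs (lf (nat_lit 34) (nat_lit 165)) (nd (nat_lit 186) (nat_lit 0) (cs (lf (nat_lit 47) (nat_lit 164)) (nd (nat_lit 208) (nat_lit 0) (cs (lf (nat_lit 29) (nat_lit 186)) (nd (nat_lit 185) (nat_lit 0) (cs (lf (nat_lit 47) (nat_lit 163)) (rf (nat_lit 0)))))))))))) q92896 (by decide +kernel)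
def q92920 : Q := Q.p (nat_lit 0x40000300000c000010000000000000000000000000000000000000000000000000000) (nat_lit 0x200000c0000300000000000000000000000000000000000000000) (nat_lit 3)
theorem c92920 : QOK q92920 := cut [q92040] ⟨c92040, trivial⟩ (nd (nat_lit 186) (nat_lit 0) (cs (lf (nat_lit 24) (nat_lit 164)) (rf (nat_lit 0)))) q92920 (by decide +kernel)
def q92960 : Q := Q.p (nat_lit 0x40000300003c000080000000000000000000000000000000000000000000000000000) (nat_lit 0x120001c000000000000000200000800000000000000000000000000000000000000000) (nat_lit 4)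
theorem c92960 : QOK q92960 := cut [q79236] ⟨c79236, trivial⟩ (nd (nat_lit 255) (nat_lit 0) (cs (lf (nat_lit 5) (nat_lit 230)) (nd (nat_lit 254) (nat_lit 0) (cs (lf (nat_lit 11) (nat_lit 251)) (rf (nat_lit 0)))))) q92960 (by decide +kernel)
def q92989 : Q := Q.p (nat_lit 0x400000800002000008000020000000000000000000000000000000000000000000000000000) (nat_lit 0x100000200000000000000004000010000040000000000000000000000000000000000000000000000) (nat_lit 3)
theorem c92989 : QOK q92989 := cut [q79186] ⟨c79186, trivial⟩ (nd (nat_lit 297) (nat_lit 0) (cs (lf (nat_lit 29) (nat_lit 231)) (rf (nat_lit 0)))) q92989 (by decide +kernel)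
def q92993 : Q := Q.p (nat_lit 0xc00003000008000020000000000000000000000000000000000000000000000000000) (nat_lit 0x20000180000600001000000000004000000000000000000000000000000000000000000000000000000000) (nat_lit 4)
theorem c92993 : QOK q92993 := cut [q86873] ⟨c86873, trivial⟩ (nd (nat_lit 298) (nat_lit 0) (cs (lf (nat_lit 28) (nat_lit 209)) (nd (nat_lit 297) (nat_lit 0) (cs (lf (nat_lit 29) (nat_lit 231)) (rf (nat_lit 0)))))) q92993 (by decide +kernel)
def q93010 : Q := Q.p (nat_lit 0x800003000008000020000000000000000000000000000000000000000000000000000) (nat_lit 0x100001c0000700001000000000004000000000000000000000000000000000000000000000000000000000) (nat_lit 5)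
theorem c93010 : QOK q93010 := cut [q93008] ⟨c93008, trivial⟩ (nd (nat_lit 298) (nat_lit 0) (cs (lf (nat_lit 28) (nat_lit 209)) (nd (nat_lit 297) (nat_lit 0) (cs (lf (nat_lit 29) (nat_lit 231)) (rf (nat_lit 0)))))) q93010 (by decide +kernel)
def q93029 : Q := Q.p (nat_lit 0x7000008000020000000000000000000000000000000000000000000000000000) (nat_lit 0x1000000000014000000000080000200000000000000000000000000000000000000000) (nat_lit 3)
theorem c93029 : QOK q93029 := cut [q80706] ⟨c80706, trivial⟩ (nd (nat_lit 187) (nat_lit 0) (cs (lf (nat_lit 29) (nat_lit 187)) (rf (nat_lit 0)))) q93029 (by decide +kernel)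
def q93042 : Q := Q.p (nat_lit 0xf000008000000000000000000000000000000000000000000000000000000000) (nat_lit 0x1c0000300000f0000000000000000000000000000000000000000000000000000000000) (nat_lit 5)
theorem c93042 : QOK q93042 := cut [q81768] ⟨c81768, trivial⟩ (nd (nat_lit 234) (nat_lit 0) (cs (lf (nat_lit 16) (nat_lit 230)) (nd (nat_lit 256) (nat_lit 0) (cs (lf (nat_lit 17) (nat_lit 231)) (nd (nat_lit 279) (nat_lit 0) (cs (lf (nat_lit 4) (nat_lit 253)) (rf (nat_lit 0)))))))) q93042 (by decide +kernel)
def q93045 : Q := Q.p (nat_lit 0x7000008000020000000000000000000000000000000000000000000000000000) (nat_lit 0x1000000000004000000000180000600001000000000000000000000000000000000000) (nat_lit 4)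
theorem c93045 : QOK q93045 := cut [q82299] ⟨c82299, trivial⟩ (nd (nat_lit 187) (nat_lit 0) (cs (lf (nat_lit 29) (nat_lit 187)) (rf (nat_lit 0)))) q93045 (by decide +kernel)
def q93063 : Q := Q.p (nat_lit 0xc000038000040000100000000000000000000000000000000000000000000000) (nat_lit 0x1000000000000000780001e00001800000000000000000000000000000000000000000) (nat_lit 6)
theorem c93063 : QOK q93063 := cut [q93059] ⟨c93059, trivial⟩ (nd (nat_lit 189) (nat_lit 0) (cs (lf (nat_lit 35) (nat_lit 166)) (nd (nat_lit 211) (nat_lit 0) (cs (lf (nat_lit 30) (nat_lit 188)) (nd (nat_lit 213) (nat_lit 0) (cs (rf (nat_lit 0)) (lf (nat_lit 7) (nat_lit 209)))))))) q93063 (by decide +kernel)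
def q93115 : Q := Q.p (nat_lit 0x600000a00002000008000000000000000000000000000000000000000000000000000000000) (nat_lit 0x780001c0001100000000000000000000000000000000000000000000000000000000000000000000) (nat_lit 5)
theorem c93115 : QOK q93115 := cut [q93054] ⟨c93054, trivial⟩ (nd (nat_lit 296) (nat_lit 0) (cs (lf (nat_lit 41) (nat_lit 230)) (rf (nat_lit 0)))) q93115 (by decide +kernel)
def q93122 : Q := Q.p (nat_lit 0x20000080000600003c000000000000000000000000000000000000000000000000000000000) (nat_lit 0x100000400001000000000000000180000000000000000000000000000000000000000000000000000) (nat_lit 3)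
theorem c93122 : QOK q93122 := cut [q80293] ⟨c80293, trivial⟩ (nd (nat_lit 298) (nat_lit 0) (cs (lf (nat_lit 29) (nat_lit 231)) (rf (nat_lit 0)))) q93122 (by decide +kernel)
def q93133 : Q := Q.p (nat_lit 0x1e000008000000000000000000000000000000000000000000000000000000000) (nat_lit 0x1c000020000010000000000000000000000000000000000000000000000000000000000) (nat_lit 3)
theorem c93133 : QOK q93133 := cut [q80456] ⟨c80456, trivial⟩ (nd (nat_lit 257) (nat_lit 0) (cs (rf (nat_lit 0)) (lf (nat_lit 22) (nat_lit 231)))) q93133 (by decide +kernel)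
def q93140 : Q := Q.p (nat_lit 0x400007000008000000000000000000000000000000000000000000000000000000000) (nat_lit 0x200018000006000000000000000000000000000000000000000000000000000000000) (nat_lit 3)
theorem c93140 : QOK q93140 := cut [q84925] ⟨c84925, trivial⟩ (nd (nat_lit 255) (nat_lit 0) (cs (lf (nat_lit 11) (nat_lit 251)) (rf (nat_lit 0)))) q93140 (by decide +kernel)
def q93142 : Q := Q.p (nat_lit 0xf00000c000000000000000000000000000000000000000000000000000000000) (nat_lit 0x40000100000600000000000000020000000000000000000000000000000000000000000000000000) (nat_lit 3)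
theorem c93142 : QOK q93142 := cut [q87207] ⟨c87207, trivial⟩ (nd (nat_lit 274) (nat_lit 0) (cs (lf (nat_lit 11) (nat_lit 251)) (rf (nat_lit 0)))) q93142 (by decide +kernel)
def q93152 : Q := Q.p (nat_lit 0x1000007000018000060000000000000000000000000000000000000000000000000000) (nat_lit 0xe0000380000200000000000000000000000000000000000000000000000) (nat_lit 4)
theorem c93152 : QOK q93152 := cut [q90869] ⟨c90869, trivial⟩ (nd (nat_lit 234) (nat_lit 0) (cs (lf (nat_lit 7) (nat_lit 230)) (rf (nat_lit 0)))) q93152 (by decide +kernel)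
def q93181 : Q := Q.p (nat_lit 0x800003000008000020000000000000000000000000000000000000000000000000000) (nat_lit 0x180000600001000000000004000010000000000000000000000000000000000000000000000000000) (nat_lit 4)
theorem c93181 : QOK q93181 := cut [q84557] ⟨c84557, trivial⟩ (nd (nat_lit 298) (nat_lit 0) (cs (lf (nat_lit 28) (nat_lit 209)) (nd (nat_lit 297) (nat_lit 0) (cs (lf (nat_lit 29) (nat_lit 231)) (rf (nat_lit 0)))))) q93181 (by decide +kernel)
def q93185 : Q := Q.p (nat_lit 0xb00000c000030000000000000000000000000000000000000000000000000000) (nat_lit 0x180000600004000000000000000000000000000000000000000000000000000000000000000) (nat_lit 3)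
theorem c93185 : QOK q93185 := cut [q93184] ⟨c93184, trivial⟩ (nd (nat_lit 274) (nat_lit 0) (cs (lf (nat_lit 30) (nat_lit 208)) (rf (nat_lit 0)))) q93185 (by decide +kernel)
def q93195 : Q := Q.p (nat_lit 0x30000380000e0000000000000000000000000000000000000000000000000000) (nat_lit 0x10000160001c000006000000000300000c00000000000000000000000000000000000000000) (nat_lit 7)
theorem c93195 : QOK q93195 := cut [q93190] ⟨c93190, trivial⟩ (nd (nat_lit 230) (nat_lit 0) (cs (lf (nat_lit 12) (nat_lit 207)) (nd (nat_lit 255) (nat_lit 0) (cs (lf (nat_lit 5) (nat_lit 230)) (nd (nat_lit 166) (nat_lit 0) (cs (lf (nat_lit 37) (nat_lit 165)) (nd (nat_lit 274) (nat_lit 0) (cs (lf (nat_lit 30) (nat_lit 208)) (nd (nat_lit 254) (nat_lit 0) (cs (lf (nat_lit 11) (nat_lit 251)) (rf (nat_lit 0)))))))))))) q93195 (by decide +kernel)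
def q93199 : Q := Q.p (nat_lit 0x300000f0000000000000000000000000000000000000000000000000000) (nat_lit 0x4000000000000000600000800002000000000000000000000000000000000000) (nat_lit 3)
theorem c93199 : QOK q93199 := cut [q89491] ⟨c89491, trivial⟩ (nd (nat_lit 189) (nat_lit 0) (cs (lf (nat_lit 17) (nat_lit 186)) (rf (nat_lit 0)))) q93199 (by decide +kernel)
def q93211 : Q := Q.p (nat_lit 0x40000300000c000070000000000000000000000000000000000000000000000000000) (nat_lit 0x60000180000c000070000180000600000000000000000000000000000000000000000000000) (nat_lit 7)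
theorem c93211 : QOK q93211 := cut [q93206] ⟨c93206, trivial⟩ (nd (nat_lit 211) (nat_lit 0) (cs (lf (nat_lit 6) (nat_lit 208)) (nd (nat_lit 233) (nat_lit 0) (cs (lf (nat_lit 5) (nat_lit 208)) (nd (nat_lit 189) (nat_lit 0) (cs (lf (nat_lit 17) (nat_lit 186)) (nd (nat_lit 275) (nat_lit 0) (cs (lf (nat_lit 29) (nat_lit 208)) (nd (nat_lit 276) (nat_lit 0) (cs (lf (nat_lit 29) (nat_lit 209)) (rf (nat_lit 0)))))))))))) q93211 (by decide +kernel)
def q93235 : Q := Q.p (nat_lit 0x300001c000060000000000000000000000000000000000000000000000000000) (nat_lit 0x6300001c000000000000000000000000000000000000000000000000000) (nat_lit 4)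
theorem c93235 : QOK q93235 := cut [q93233] ⟨c93233, trivial⟩ (nd (nat_lit 233) (nat_lit 0) (cs (lf (nat_lit 6) (nat_lit 230)) (nd (nat_lit 207) (nat_lit 0) (cs (lf (nat_lit 22) (nat_lit 207)) (rf (nat_lit 0)))))) q93235 (by decide +kernel)
def q93324 : Q := Q.p (nat_lit 0x78000000000000000000000000000000000000000000000) (nat_lit 0x3800004000380000000000000000000000000000000000000000) (nat_lit 4)
theorem c93324 : QOK q93324 := cut [q32667] ⟨c32667, trivial⟩ (nd (nat_lit 164) (nat_lit 0) (cs (lf (nat_lit 17) (nat_lit 161)) (nd (nat_lit 182) (nat_lit 0) (cs (lf (nat_lit 16) (nat_lit 160)) (rf (nat_lit 0)))))) q93324 (by decide +kernel)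
def q93389 : Q := Q.p (nat_lit 0x1c000040000000000000000000000000000000000000000) (nat_lit 0x22000380000000000000000000000000000000000000000) (nat_lit 3)
theorem c93389 : QOK q93389 := cut [q17749] ⟨c17749, trivial⟩ (nd (nat_lit 163) (nat_lit 0) (cs (lf (nat_lit 12) (nat_lit 159)) (rf (nat_lit 0)))) q93389 (by decide +kernel)
def q93395 : Q := Q.p (nat_lit 0x200000000000000003c000000000000000000000000000000000000000000000) (nat_lit 0x80000700000c0000380000000000000000000000000000000000000000) (nat_lit 5)
theorem c93395 : QOK q93395 := cut [q93393] ⟨c93393, trivial⟩ (nd (nat_lit 164) (nat_lit 0) (cs (lf (nat_lit 16) (nat_lit 160)) (nd (nat_lit 186) (nat_lit 0) (cs (lf (nat_lit 17) (nat_lit 161)) (rf (nat_lit 0)))))) q93395 (by decide +kernel)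
def q93434 : Q := Q.p (nat_lit 0x1c000040000000000000000000000000000000000000000) (nat_lit 0xe0000300008e000000000000000000000000000000000000000) (nat_lit 5)
theorem c93434 : QOK q93434 := cut [q93403] ⟨c93403, trivial⟩ (nd (nat_lit 181) (nat_lit 0) (cs (lf (nat_lit 17) (nat_lit 159)) (rf (nat_lit 0)))) q93434 (by decide +kernel)
def q93473 : Q := Q.p (nat_lit 0x1c000040000000000000000000000000000000000000000) (nat_lit 0x1e0002300003e000000000000000000000000000000000000000) (nat_lit 5)
theorem c93473 : QOK q93473 := cut [q17223] ⟨c17223, trivial⟩ (nd (nat_lit 181) (nat_lit 0) (cs (nd (nat_lit 202) (nat_lit 0) (cs (lf (nat_lit 10) (nat_lit 180)) (nd (nat_lit 180) (nat_lit 0) (cs (lf (nat_lit 11) (nat_lit 179)) (lf (nat_lit 16) (nat_lit 158)))))) (cs (nd (nat_lit 203) (nat_lit 0) (cs (lf (nat_lit 11) (nat_lit 180)) (nd (nat_lit 185) (nat_lit 0) (cs (rf (nat_lit 0)) (lf (nat_lit 10) (nat_lit 181)))))) (nd (nat_lit 158) (nat_lit 0) (cs (lf (nat_lit 22) (nat_lit 158)) (nd (nat_lit 180) (nat_lit 0) (cs (lf (nat_lit 23) (nat_lit 157)) (lf (nat_lit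 16) (nat_lit 158))))))))) q93473 (by decide +kernel)
def q93528 : Q := Q.p (nat_lit 0x3800006000010000000000000000000000000000000000000000000000000000) (nat_lit 0x8000030000c000000000000000000000000000000000000000000000000000000000000000) (nat_lit 3)
theorem c93528 : QOK q93528 := cut [q87179] ⟨c87179, trivial⟩ (nd (nat_lit 254) (nat_lit 0) (cs (lf (nat_lit 18) (nat_lit 229)) (rf (nat_lit 0)))) q93528 (by decide +kernel)
def q93580 : Q := Q.p (nat_lit 0xf0000300000c000000000000000000000000000000000000000000000000000000000) (nat_lit 0x200000e0000000000e00011800004000000000000000000000000000000000000000000000000000) (nat_lit 6)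
theorem c93580 : QOK q93580 := cut [q86527] ⟨c86527, trivial⟩ (nd (nat_lit 250) (nat_lit 0) (cs (lf (nat_lit 23) (nat_lit 249)) (nd (nat_lit 293) (nat_lit 0) (cs (lf (nat_lit 10) (nat_lit 271)) (rf (nat_lit 0)))))) q93580 (by decide +kernel)
def q93588 : Q := Q.p (nat_lit 0x80000300000c000020000000000000000000000000000000000000000000000000000) (nat_lit 0x80000200000000000000010000040000100000000000000000000000000000000000000000000000) (nat_lit 3)
theorem c93588 : QOK q93588 := cut [q11580] ⟨c11580, trivial⟩ (nd (nat_lit 297) (nat_lit 0) (cs (lf (nat_lit 42) (nat_lit 230)) (rf (nat_lit 0)))) q93588 (by decide +kernel)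
def q93600 : Q := Q.p (nat_lit 0x300001e000000000000000000000000000000000000000000000000000000000) (nat_lit 0xe00001800000000000000000000000000000000000000000000000000000000) (nat_lit 3)
theorem c93600 : QOK q93600 := cut [q87528] ⟨c87528, trivial⟩ (nd (nat_lit 228) (nat_lit 0) (cs (lf (nat_lit 0) (nat_lit 227)) (rf (nat_lit 0)))) q93600 (by decide +kernel)
def q93621 : Q := Q.p (nat_lit 0x80000f000008000000000000000000000000000000000000000000000000000) (nat_lit 0x200000000000000006000010000040000000000000000000000000000000000000000) (nat_lit 3)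
theorem c93621 : QOK q93621 := cut [q12242] ⟨c12242, trivial⟩ (nd (nat_lit 206) (nat_lit 0) (cs (lf (nat_lit 23) (nat_lit 205)) (rf (nat_lit 0)))) q93621 (by decide +kernel)
def q93630 : Q := Q.p (nat_lit 0x380000e000000000000000000000000000000000000000000000000000000000) (nat_lit 0x10000040000380000600000000008000020000000000000000000000000000000000000000000000) (nat_lit 5)
theorem c93630 : QOK q93630 := cut [q23608] ⟨c23608, trivial⟩ (nd (nat_lit 250) (nat_lit 0) (cs (lf (nat_lit 12) (nat_lit 227)) (nd (nat_lit 272) (nat_lit 0) (cs (lf (nat_lit 11) (nat_lit 249)) (nd (nat_lit 207) (nat_lit 0) (cs (lf (nat_lit 36) (nat_lit 184)) (rf (nat_lit 0)))))))) q93630 (by decide +kernel)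
def q93652 : Q := Q.p (nat_lit 0x300000e000000000000000000000000000000000000000000000000000000000) (nat_lit 0x1c0000700001d80000e00011800028000000000000000000000000000000000000000000000000000) (nat_lit 10)
theorem c93652 : QOK q93652 := cut [q90291] ⟨c90291, trivial⟩ (nd (nat_lit 228) (nat_lit 0) (cs (lf (nat_lit 0) (nat_lit 227)) (nd (nat_lit 250) (nat_lit 0) (cs (lf (nat_lit 11) (nat_lit 227)) (nd (nat_lit 251) (nat_lit 0) (cs (lf (nat_lit 17) (nat_lit 228)) (nd (nat_lit 275) (nat_lit 0) (cs (lf (nat_lit 5) (nat_lit 250)) (nd (nat_lit 297) (nat_lit 0) (cs (lf (nat_lit 42) (nat_lit 230)) (nd (nat_lit 271) (nat_lit 0) (cs (lf (nat_lit 10) (nat_lit 249)) (nd (nat_lit 298) (nat_lit 0) (cs (lf (nat_lit 29) (nat_lit 231)) (rf (nat_lit 0)))))))))))))))) q93652 (by decide +kernel)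
def q93683 : Q := Q.p (nat_lit 0x400001000004000010000000000000000000000000000000000000000000000000000) (nat_lit 0xa0000380000a00000000000000008000020000000000000000000000000000000000000000000000) (nat_lit 5)
theorem c93683 : QOK q93683 := cut [q93682] ⟨c93682, trivial⟩ (nd (nat_lit 185) (nat_lit 0) (cs (lf (nat_lit 46) (nat_lit 185)) (rf (nat_lit 0)))) q93683 (by decide +kernel)
def q93764 : Q := Q.p (nat_lit 0x40000300000c000000000040000000000000000000000000000000000000000000000) (nat_lit 0x30000080000300000000000000000000000000000000000000000) (nat_lit 3)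
theorem c93764 : QOK q93764 := cut [q92943] ⟨c92943, trivial⟩ (nd (nat_lit 187) (nat_lit 0) (cs (lf (nat_lit 37) (nat_lit 186)) (rf (nat_lit 0)))) q93764 (by decide +kernel)
def q93765 : Q := Q.p (nat_lit 0x40000300000c000000000040000000000000000000000000000000000000000000000) (nat_lit 0x80000200000800000000010000000000100000000000000000000000000000000000000000) (nat_lit 3)
theorem c93765 : QOK q93765 := cut [q11035] ⟨c11035, trivial⟩ (nd (nat_lit 208) (nat_lit 0) (cs (lf (nat_lit 24) (nat_lit 164)) (rf (nat_lit 0)))) q93765 (by decide +kernel)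
def q93793 : Q := Q.p (nat_lit 0x40000300000c000000000040000000000000000000000000000000000000000000000) (nat_lit 0x80000200000800000000030000080000200000000000000000000000000000000000000000) (nat_lit 4)
theorem c93793 : QOK q93793 := cut [q11035] ⟨c11035, trivial⟩ (nd (nat_lit 187) (nat_lit 0) (cs (lf (nat_lit 37) (nat_lit 186)) (nd (nat_lit 208) (nat_lit 0) (cs (lf (nat_lit 35) (nat_lit 164)) (rf (nat_lit 0)))))) q93793 (by decide +kernel)
def q93801 : Q := Q.p (nat_lit 0x300001e000020000000000000000000000000000000000000000000000000000) (nat_lit 0x100000600000c000000000dc000340000500000000000000000000000000000000000000000) (nat_lit 8)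
theorem c93801 : QOK q93801 := cut [q88848] ⟨c88848, trivial⟩ (nd (nat_lit 251) (nat_lit 0) (cs (lf (nat_lit 12) (nat_lit 228)) (nd (nat_lit 210) (nat_lit 0) (cs (lf (nat_lit 17) (nat_lit 207)) (nd (nat_lit 188) (nat_lit 0) (cs (lf (nat_lit 36) (nat_lit 165)) (nd (nat_lit 207) (nat_lit 0) (cs (lf (nat_lit 23) (nat_lit 206)) (nd (nat_lit 274) (nat_lit 0) (cs (lf (nat_lit 30) (nat_lit 208)) (nd (nat_lit 208) (nat_lit 0) (cs (lf (nat_lit 17) (nat_lit 185)) (rf (nat_lit 0)))))))))))))) q93801 (by decide +kernel)
def q93807 : Q := Q.p (nat_lit 0x380001e000020000000000000000000000000000000000000000000000000000) (nat_lit 0x2000000000000001dc0007c0000700000000000000000000000000000000000000000) (nat_lit 8)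
theorem c93807 : QOK q93807 := cut [q8544] ⟨c8544, trivial⟩ (nd (nat_lit 206) (nat_lit 0) (cs (lf (nat_lit 22) (nat_lit 206)) (nd (nat_lit 211) (nat_lit 0) (cs (lf (nat_lit 16) (nat_lit 207)) (nd (nat_lit 187) (nat_lit 0) (cs (lf (nat_lit 36) (nat_lit 164)) (nd (nat_lit 188) (nat_lit 0) (cs (lf (nat_lit 35) (nat_lit 165)) (nd (nat_lit 186) (nat_lit 0) (cs (lf (nat_lit 47) (nat_lit 164)) (nd (nat_lit 208) (nat_lit 0) (cs (lf (nat_lit 41) (nat_lit 185)) (rf (nat_lit 0)))))))))))))) q93807 (by decide +kernel)
def q93857 : Q := Q.p (nat_lit 0x100000400001c000000000000000000000000000000000000000000000000000) (nat_lit 0x40000000000870000380003e000080000200000000000000000000000000000000000) (nat_lit 8)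
theorem c93857 : QOK q93857 := cut [q27140] ⟨c27140, trivial⟩ (nd (nat_lit 185) (nat_lit 0) (cs (lf (nat_lit 42) (nat_lit 185)) (nd (nat_lit 141) (nat_lit 0) (cs (lf (nat_lit 25) (nat_lit 141)) (nd (nat_lit 205) (nat_lit 0) (cs (lf (nat_lit 5) (nat_lit 205)) (nd (nat_lit 182) (nat_lit 0) (cs (lf (nat_lit 22) (nat_lit 182)) (nd (nat_lit 204) (nat_lit 0) (cs (lf (nat_lit 23) (nat_lit 181)) (nd (nat_lit 203) (nat_lit 0) (cs (lf (nat_lit 16) (nat_lit 181)) (rf (nat_lit 0)))))))))))))) q93857 (by decide +kernel)
def q93863 : Q := Q.p (nat_lit 0x300000400003c000000000000000000000000000000000000000000000000000) (nat_lit 0x20000080000000001a0000400000b8000280000200000000000000000000000000000000000) (nat_lit 7)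
theorem c93863 : QOK q93863 := cut [q1410] ⟨c1410, trivial⟩ (nd (nat_lit 184) (nat_lit 0) (cs (lf (nat_lit 23) (nat_lit 183)) (nd (nat_lit 231) (nat_lit 0) (cs (lf (nat_lit 5) (nat_lit 206)) (nd (nat_lit 165) (nat_lit 0) (cs (lf (nat_lit 37) (nat_lit 164)) (nd (nat_lit 275) (nat_lit 0) (cs (lf (nat_lit 42) (nat_lit 208)) (nd (nat_lit 185) (nat_lit 0) (cs (lf (nat_lit 18) (nat_lit 184)) (rf (nat_lit 0)))))))))))) q93863 (by decide +kernel)
def q93897 : Q := Q.p (nat_lit 0x180000e000070000000000000000000000000000000000000000000000000000) (nat_lit 0x3000000c000030000080000000000000000000000000000000000000000) (nat_lit 4)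
theorem c93897 : QOK q93897 := cut [q23510] ⟨c23510, trivial⟩ (nd (nat_lit 232) (nat_lit 0) (cs (lf (nat_lit 6) (nat_lit 229)) (nd (nat_lit 207) (nat_lit 0) (cs (lf (nat_lit 23) (nat_lit 206)) (rf (nat_lit 0)))))) q93897 (by decide +kernel)
def q93924 : Q := Q.p (nat_lit 0xf000000000000000000000000000000000000000000000000000000000000000) (nat_lit 0x100000ee000000000000000000000000000000000000000000000000000000000) (nat_lit 4)
theorem c93924 : QOK q93924 := cut [q93922] ⟨c93922, trivial⟩ (nd (nat_lit 234) (nat_lit 0) (cs (lf (nat_lit 16) (nat_lit 230)) (nd (nat_lit 230) (nat_lit 0) (cs (lf (nat_lit 23) (nat_lit 229)) (rf (nat_lit 0)))))) q93924 (by decide +kernel)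
def q93927 : Q := Q.p (nat_lit 0xf000004000000000000000000000000000000000000000000000000000000000) (nat_lit 0x100000e8000000000000000000000000000000000000000000000000000000000) (nat_lit 3)
theorem c93927 : QOK q93927 := cut [q93922] ⟨c93922, trivial⟩ (nd (nat_lit 234) (nat_lit 0) (cs (lf (nat_lit 16) (nat_lit 230)) (rf (nat_lit 0)))) q93927 (by decide +kernel)
def q93942 : Q := Q.p (nat_lit 0x400001c000060000000000000000000000000000000000000000000000000000) (nat_lit 0x400001000000000000000180000200000000000000000000000000000000000000000000000) (nat_lit 3)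
theorem c93942 : QOK q93942 := cut [q93941] ⟨c93941, trivial⟩ (nd (nat_lit 276) (nat_lit 0) (cs (lf (nat_lit 42) (nat_lit 209)) (rf (nat_lit 0)))) q93942 (by decide +kernel)
def q94012 : Q := Q.p (nat_lit 0x1800002000008000000000000000000000000000000000000000000000000000) (nat_lit 0x2000000000040000060001f00001c0000500000000000000000000000000000000000) (nat_lit 6)
theorem c94012 : QOK q94012 := cut [q5481, q85444, q85303] ⟨c5481, c85444, c85303, trivial⟩ (nd (nat_lit 185) (nat_lit 0) (cs (rf (nat_lit 0)) (cs (rf (nat_lit 1)) (nd (nat_lit 184) (nat_lit 0) (cs (lf (nat_lit 47) (nat_lit 162)) (nd (nat_lit 206) (nat_lit 0) (cs (lf (nat_lit 42) (nat_lit 184)) (nd (nat_lit 186) (nat_lit 0) (cs (lf (nat_lit 35) (nat_lit 163)) (rf (nat_lit 2))))))))))) q94012 (by decide +kernel)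
def q94045 : Q := Q.p (nat_lit 0x3c00000000000000000000000000000000000000000000000000000000000000) (nat_lit 0x380004000003800000000000000000000000000000000000000000000000000000000) (nat_lit 4)
theorem c94045 : QOK q94045 := cut [q79022] ⟨c79022, trivial⟩ (nd (nat_lit 272) (nat_lit 0) (cs (lf (nat_lit 11) (nat_lit 249)) (nd (nat_lit 254) (nat_lit 0) (cs (lf (nat_lit 10) (nat_lit 250)) (rf (nat_lit 0)))))) q94045 (by decide +kernel)
def q94063 : Q := Q.p (nat_lit 0x20000080000300000c000000000000000000000000000000000000000000000000000000000) (nat_lit 0x100000400001000000000000000060000180000600000000000000000000000000000000000000000) (nat_lit 5)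
theorem c94063 : QOK q94063 := cut [q90372] ⟨c90372, trivial⟩ (nd (nat_lit 298) (nat_lit 0) (cs (lf (nat_lit 29) (nat_lit 231)) (nd (nat_lit 209) (nat_lit 0) (cs (lf (nat_lit 28) (nat_lit 209)) (rf (nat_lit 0)))))) q94063 (by decide +kernel)
def q94091 : Q := Q.p (nat_lit 0x7000014000040000000000000000000000000000000000000000000000000000) (nat_lit 0xa0000080000b8000b0000040000100000000000000000000000000000000000000000) (nat_lit 6)
theorem c94091 : QOK q94091 := cut [q79026, q81406, q10901] ⟨c79026, c81406, c10901, trivial⟩ (nd (nat_lit 229) (nat_lit 0) (cs (rf (nat_lit 0)) (cs (rf (nat_lit 1)) (nd (nat_lit 211) (nat_lit 0) (cs (lf (nat_lit 14) (nat_lit 207)) (nd (nat_lit 208) (nat_lit 0) (cs (lf (nat_lit 8) (nat_lit 207)) (nd (nat_lit 186) (nat_lit 0) (cs (lf (nat_lit 29) (nat_lit 186)) (rf (nat_lit 2))))))))))) q94091 (by decide +kernel)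
def q94095 : Q := Q.p (nat_lit 0x400003c000000000000000000000000000000000000000000000000000000000) (nat_lit 0x4000010000000000000001c0000200000800000000000000000000000000000000000000000) (nat_lit 4)
theorem c94095 : QOK q94095 := cut [q94094] ⟨c94094, trivial⟩ (nd (nat_lit 211) (nat_lit 0) (cs (lf (nat_lit 17) (nat_lit 208)) (rf (nat_lit 0)))) q94095 (by decide +kernel)
def q94114 : Q := Q.p (nat_lit 0x3000006000000000000000000000000000000000000000000000000000000000) (nat_lit 0xc000009800000000000000000000000000000000000000000000000000000000) (nat_lit 3)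
theorem c94114 : QOK q94114 := cut [q88364] ⟨c88364, trivial⟩ (nd (nat_lit 228) (nat_lit 0) (cs (lf (nat_lit 0) (nat_lit 227)) (rf (nat_lit 0)))) q94114 (by decide +kernel)
def q94116 : Q := Q.p (nat_lit 0x400007000004000010000000000000000000000000000000000000000000000000000) (nat_lit 0x80000380000800000000000000000000000000000000000000000000000000000000000000) (nat_lit 3)
theorem c94116 : QOK q94116 := cut [q85712] ⟨c85712, trivial⟩ (nd (nat_lit 273) (nat_lit 0) (cs (lf (nat_lit 41) (nat_lit 207)) (rf (nat_lit 0)))) q94116 (by decide +kernel)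
def q94138 : Q := Q.p (nat_lit 0x80000700000c000030000000000000000000000000000000000000000000000000000) (nat_lit 0x180000700000000000000000000000000000000000000000000000000000000000000000000) (nat_lit 3)
theorem c94138 : QOK q94138 := cut [q79043] ⟨c79043, trivial⟩ (nd (nat_lit 274) (nat_lit 0) (cs (lf (nat_lit 30) (nat_lit 208)) (rf (nat_lit 0)))) q94138 (by decide +kernel)
def q94159 : Q := Q.p (nat_lit 0x3000018000000000000000000000000000000000000000000000000000000000) (nat_lit 0x4c00060000000000000000000000000000000000000000000000000000000000) (nat_lit 3)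
theorem c94159 : QOK q94159 := cut [q82277] ⟨c82277, trivial⟩ (nd (nat_lit 251) (nat_lit 0) (cs (lf (nat_lit 12) (nat_lit 228)) (rf (nat_lit 0)))) q94159 (by decide +kernel)
def q94165 : Q := Q.p (nat_lit 0x10000080000200000800002000000000000000000000000000000000000000000000000000000000000000) (nat_lit 0x4000020000000000000001000004000010000000000000000000000000000000000000000000000000000000000) (nat_lit 3)
theorem c94165 : QOK q94165 := cut [q94164] ⟨c94164, trivial⟩ (nd (nat_lit 254) (nat_lit 0) (cs (lf (nat_lit 35) (nat_lit 231)) (rf (nat_lit 0)))) q94165 (by decide +kernel)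
def q94171 : Q := Q.p (nat_lit 0x80000200000800002000000000000000000000000000000000000000000000000000000000000000) (nat_lit 0x40000100000400000000004000018000040000000000000000000000000000000000000000000000000000) (nat_lit 4)
theorem c94171 : QOK q94171 := cut [q94169] ⟨c94169, trivial⟩ (nd (nat_lit 232) (nat_lit 0) (cs (lf (nat_lit 34) (nat_lit 231)) (nd (nat_lit 320) (nat_lit 0) (cs (lf (nat_lit 29) (nat_lit 253)) (rf (nat_lit 0)))))) q94171 (by decide +kernel)
def q94179 : Q := Q.p (nat_lit 0x80001e000008000000000000000000000000000000000000000000000000000000000) (nat_lit 0x400001000020000000000020000080000000000000000000000000000000000000000000000) (nat_lit 3)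
theorem c94179 : QOK q94179 := cut [q88849] ⟨c88849, trivial⟩ (nd (nat_lit 276) (nat_lit 0) (cs (lf (nat_lit 6) (nat_lit 253)) (rf (nat_lit 0)))) q94179 (by decide +kernel)
def q94212 : Q := Q.p (nat_lit 0x80001e000000000000000000000000000000000000000000000000000000000000000) (nat_lit 0x1d000020000000000000000000000000000000000000000000000000000000000000000) (nat_lit 3)
theorem c94212 : QOK q94212 := cut [q81720] ⟨c81720, trivial⟩ (nd (nat_lit 279) (nat_lit 0) (cs (lf (nat_lit 4) (nat_lit 253)) (rf (nat_lit 0)))) q94212 (by decide +kernel)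
def q94218 : Q := Q.p (nat_lit 0x10000040000080000e0000000000000000000000000000000000000000000000000000) (nat_lit 0x14000300000200000000000000000000000000000000000000000000000) (nat_lit 3)
theorem c94218 : QOK q94218 := cut [q79606] ⟨c79606, trivial⟩ (nd (nat_lit 232) (nat_lit 0) (cs (lf (nat_lit 35) (nat_lit 188)) (rf (nat_lit 0)))) q94218 (by decide +kernel)
def q94235 : Q := Q.p (nat_lit 0x800006000018000020000000000000000000000000000000000000000000000000000) (nat_lit 0x100000c0000300000000000000000000000000000000000000000) (nat_lit 3)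
theorem c94235 : QOK q94235 := cut [q81899] ⟨c81899, trivial⟩ (nd (nat_lit 187) (nat_lit 0) (cs (lf (nat_lit 24) (nat_lit 165)) (rf (nat_lit 0)))) q94235 (by decide +kernel)
def q94270 : Q := Q.p (nat_lit 0x7800004000010000000000000000000000000000000000000000000000000000) (nat_lit 0x20000080000700000000000000000000000000000000000000000000000000000000000000000000) (nat_lit 3)
theorem c94270 : QOK q94270 := cut [q15359] ⟨c15359, trivial⟩ (nd (nat_lit 273) (nat_lit 0) (cs (rf (nat_lit 0)) (lf (nat_lit 11) (nat_lit 250)))) q94270 (by decide +kernel)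
def q94292 : Q := Q.p (nat_lit 0x80000e00003800000000000000000000000000000000000000000000000000000000000000) (nat_lit 0xfc0003fc000170000000000000008000000000000000000000000000000000000000000000000000000000) (nat_lit 10)
theorem c94292 : QOK q94292 := cut [q22784] ⟨c22784, trivial⟩ (nd (nat_lit 317) (nat_lit 0) (cs (lf (nat_lit 30) (nat_lit 251)) (nd (nat_lit 318) (nat_lit 0) (cs (lf (nat_lit 29) (nat_lit 251)) (nd (nat_lit 296) (nat_lit 0) (cs (lf (nat_lit 35) (nat_lit 230)) (nd (nat_lit 293) (nat_lit 0) (cs (lf (nat_lit 13) (nat_lit 271)) (nd (nat_lit 319) (nat_lit 0) (cs (lf (nat_lit 29) (nat_lit 252)) (nd (nat_lit 320) (nat_lit 0) (cs (lf (nat_lit 18) (nat_lit 295)) (nd (nat_lit 342) (nat_lit 0) (cs (lf (nat_lit 5) (nat_lit 317)) (rf (nat_lit 0)))))))))))))))) q94292 (by decide +kernel)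
def q94336 : Q := Q.p (nat_lit 0x40000100000c00003000000000000000000000000000000000000000000000000000000000000000) (nat_lit 0x8000020000280000000000000004000010000040000000000000000000000000000000000000000000000) (nat_lit 4)
theorem c94336 : QOK q94336 := cut [q79068] ⟨c79068, trivial⟩ (nd (nat_lit 317) (nat_lit 0) (cs (lf (nat_lit 41) (nat_lit 251)) (nd (nat_lit 230) (nat_lit 0) (cs (lf (nat_lit 40) (nat_lit 229)) (rf (nat_lit 0)))))) q94336 (by decide +kernel)
def q94363 : Q := Q.p (nat_lit 0xc00007000000000000000000000000000000000000000000000000000000000000000) (nat_lit 0x1000018e00070000000000000000000000000000000000000000000000000000000000) (nat_lit 5)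
theorem c94363 : QOK q94363 := cut [q5304] ⟨c5304, trivial⟩ (nd (nat_lit 255) (nat_lit 0) (cs (lf (nat_lit 6) (nat_lit 252)) (nd (nat_lit 233) (nat_lit 0) (cs (lf (nat_lit 17) (nat_lit 230)) (nd (nat_lit 251) (nat_lit 0) (cs (rf (nat_lit 0)) (lf (nat_lit 16) (nat_lit 229)))))))) q94363 (by decide +kernel)
def q94366 : Q := Q.p (nat_lit 0xc00007800000000000000000000000000000000000000000000000000000000000000) (nat_lit 0x380000600000000000000000000000000000000000000000000000000000000000000) (nat_lit 3)
theorem c94366 : QOK q94366 := cut [q79006] ⟨c79006, trivial⟩ (nd (nat_lit 250) (nat_lit 0) (cs (lf (nat_lit 0) (nat_lit 249)) (rf (nat_lit 0)))) q94366 (by decide +kernel)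
def q94380 : Q := Q.p (nat_lit 0xe00003000000000000000000000000000000000000000000000000000000000000000) (nat_lit 0x700001c00007e0001180000600000000000000000000000000000000000000000000000000000000000000) (nat_lit 9)
theorem c94380 : QOK q94380 := cut [q14298] ⟨c14298, trivial⟩ (nd (nat_lit 272) (nat_lit 0) (cs (lf (nat_lit 12) (nat_lit 249)) (nd (nat_lit 297) (nat_lit 0) (cs (lf (nat_lit 5) (nat_lit 272)) (nd (nat_lit 319) (nat_lit 0) (cs (lf (nat_lit 42) (nat_lit 252)) (nd (nat_lit 249) (nat_lit 0) (cs (lf (nat_lit 22) (nat_lit 249)) (nd (nat_lit 320) (nat_lit 0) (cs (lf (nat_lit 29) (nat_lit 253)) (nd (nat_lit 318) (nat_lit 0) (cs (lf (nat_lit 41) (nat_lit 252)) (rf (nat_lit 0)))))))))))))) q94380 (by decide +kernel)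
def q94412 : Q := Q.p (nat_lit 0x1e00006000000000000000000000000000000000000000000000000000000000000000) (nat_lit 0x100000c00000000000000008000020000000000000000000000000000000000000000000000000000) (nat_lit 3)
theorem c94412 : QOK q94412 := cut [q94411] ⟨c94411, trivial⟩ (nd (nat_lit 298) (nat_lit 0) (cs (lf (nat_lit 5) (nat_lit 273)) (rf (nat_lit 0)))) q94412 (by decide +kernel)
def q94424 : Q := Q.p (nat_lit 0x3000018000000000000000000000000000000000000000000000000000000000) (nat_lit 0xc00064000000000000000000000000000000000000000000000000000000000) (nat_lit 3)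
theorem c94424 : QOK q94424 := cut [q82274] ⟨c82274, trivial⟩ (nd (nat_lit 251) (nat_lit 0) (cs (lf (nat_lit 12) (nat_lit 228)) (rf (nat_lit 0)))) q94424 (by decide +kernel)
def q94433 : Q := Q.p (nat_lit 0x200000800002000008000000000000000000000000000000000000000000000000000000000) (nat_lit 0x14000070000140000000000000000000000000000000000000000000000) (nat_lit 4)
theorem c94433 : QOK q94433 := cut [q11585] ⟨c11585, trivial⟩ (nd (nat_lit 208) (nat_lit 0) (cs (lf (nat_lit 46) (nat_lit 208)) (rf (nat_lit 0)))) q94433 (by decide +kernel)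
def q94438 : Q := Q.p (nat_lit 0x80000200000800003000000000000000000000000000000000000000000000000000000000000000) (nat_lit 0x60000140000500000400000000008000020000000000000000000000000000000000000000000000000000) (nat_lit 5)
theorem c94438 : QOK q94438 := cut [q94435] ⟨c94435, trivial⟩ (nd (nat_lit 320) (nat_lit 0) (cs (lf (nat_lit 29) (nat_lit 253)) (nd (nat_lit 231) (nat_lit 0) (cs (lf (nat_lit 28) (nat_lit 231)) (nd (nat_lit 296) (nat_lit 0) (cs (lf (nat_lit 41) (nat_lit 230)) (rf (nat_lit 0)))))))) q94438 (by decide +kernel)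
def q94508 : Q := Q.p (nat_lit 0x380000800001000000000000000000000000000000000000000000000000000000000000000) (nat_lit 0x20000060001400000000004000010000000000000000000000000000000000000000000000000000) (nat_lit 4)
theorem c94508 : QOK q94508 := cut [q94506] ⟨c94506, trivial⟩ (nd (nat_lit 294) (nat_lit 0) (cs (lf (nat_lit 17) (nat_lit 272)) (nd (nat_lit 274) (nat_lit 0) (cs (lf (nat_lit 12) (nat_lit 271)) (rf (nat_lit 0)))))) q94508 (by decide +kernel)
def q94532 : Q := Q.p (nat_lit 0x200000800003000010000000000000000000000000000000000000000000000000000000000) (nat_lit 0x100000500001400000000068000060000080000000000000000000000000000000000000000000000) (nat_lit 6)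
theorem c94532 : QOK q94532 := cut [q6232] ⟨c6232, trivial⟩ (nd (nat_lit 231) (nat_lit 0) (cs (lf (nat_lit 35) (nat_lit 209)) (nd (nat_lit 233) (nat_lit 0) (cs (lf (nat_lit 6) (nat_lit 230)) (nd (nat_lit 298) (nat_lit 0) (cs (lf (nat_lit 29) (nat_lit 231)) (nd (nat_lit 209) (nat_lit 0) (cs (lf (nat_lit 28) (nat_lit 209)) (rf (nat_lit 0)))))))))) q94532 (by decide +kernel)
def q94533 : Q := Q.p (nat_lit 0x200000800002000010000000000000000000000000000000000000000000000000000000000) (nat_lit 0x80000000001000004000000000040000100000000000000000000000000000000000000000000000) (nat_lit 3)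
theorem c94533 : QOK q94533 := cut [q79198] ⟨c79198, trivial⟩ (nd (nat_lit 254) (nat_lit 0) (cs (lf (nat_lit 30) (nat_lit 231)) (rf (nat_lit 0)))) q94533 (by decide +kernel)
def q94555 : Q := Q.p (nat_lit 0xc00007000010000000000000000000000000000000000000000000000000000000000) (nat_lit 0x1000000e00020000000000000000000000000000000000000000000000000000000000) (nat_lit 3)
theorem c94555 : QOK q94555 := cut [q5304] ⟨c5304, trivial⟩ (nd (nat_lit 251) (nat_lit 0) (cs (rf (nat_lit 0)) (lf (nat_lit 17) (nat_lit 229)))) q94555 (by decide +kernel)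
def q94574 : Q := Q.p (nat_lit 0x1000007000018000000000000000000000000000000000000000000000000000) (nat_lit 0x100000400000000000000060000080000000000000000000000000000000000000000000000) (nat_lit 3)
theorem c94574 : QOK q94574 := cut [q5014] ⟨c5014, trivial⟩ (nd (nat_lit 274) (nat_lit 0) (cs (lf (nat_lit 42) (nat_lit 207)) (rf (nat_lit 0)))) q94574 (by decide +kernel)
def q94594 : Q := Q.p (nat_lit 0x480001c000020000000000000000000000000000000000000000000000000000000000) (nat_lit 0x1000060000390000080000200000000000000000000000000000000000000000000000) (nat_lit 5)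
theorem c94594 : QOK q94594 := cut [q82014] ⟨c82014, trivial⟩ (nd (nat_lit 189) (nat_lit 0) (cs (rf (nat_lit 0)) (lf (nat_lit 25) (nat_lit 189)))) q94594 (by decide +kernel)
def q94684 : Q := Q.p (nat_lit 0x80000e000010000000000000000000000000000000000000000000000000000000000) (nat_lit 0x1400030000008000000000000000000000000000000000000000000000000000000000) (nat_lit 3)
theorem c94684 : QOK q94684 := cut [q81253] ⟨c81253, trivial⟩ (nd (nat_lit 256) (nat_lit 0) (cs (lf (nat_lit 11) (nat_lit 252)) (rf (nat_lit 0)))) q94684 (by decide +kernel)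
def q94710 : Q := Q.p (nat_lit 0x200007800000000000000000000000000000000000000000000000000000000000000) (nat_lit 0x400008000007000000000000000000000000000000000000000000000000000000000) (nat_lit 3)
theorem c94710 : QOK q94710 := cut [q80462] ⟨c80462, trivial⟩ (nd (nat_lit 255) (nat_lit 0) (cs (lf (nat_lit 10) (nat_lit 251)) (rf (nat_lit 0)))) q94710 (by decide +kernel)
def q94716 : Q := Q.p (nat_lit 0x800007000008000020000000000000000000000000000000000000000000000000000) (nat_lit 0x100000700008000000000000000000000000000000000000000000000000000000000000000) (nat_lit 3)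
theorem c94716 : QOK q94716 := cut [q94715] ⟨c94715, trivial⟩ (nd (nat_lit 274) (nat_lit 0) (cs (lf (nat_lit 41) (nat_lit 208)) (rf (nat_lit 0)))) q94716 (by decide +kernel)
def q94745 : Q := Q.p (nat_lit 0x1a00006000018000000000000000000000000000000000000000000000000000000000) (nat_lit 0x300000c00000400000000000000000000000000000000000000000000000000000000000000000000) (nat_lit 3)
theorem c94745 : QOK q94745 := cut [q94744] ⟨c94744, trivial⟩ (nd (nat_lit 298) (nat_lit 0) (cs (lf (nat_lit 42) (nat_lit 231)) (rf (nat_lit 0)))) q94745 (by decide +kernel)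
def q94756 : Q := Q.p (nat_lit 0x7800018000000000000000000000000000000000000000000000000000000000) (nat_lit 0x700018000006000000000000000000000000000000000000000000000000000000000) (nat_lit 4)
theorem c94756 : QOK q94756 := cut [q79626] ⟨c79626, trivial⟩ (nd (nat_lit 273) (nat_lit 0) (cs (lf (nat_lit 11) (nat_lit 250)) (nd (nat_lit 255) (nat_lit 0) (cs (lf (nat_lit 10) (nat_lit 251)) (rf (nat_lit 0)))))) q94756 (by decide +kernel)
def q94774 : Q := Q.p (nat_lit 0x1800002000008000020000000000000000000000000000000000000000000000000000) (nat_lit 0x40000000000100000c0000100000000000000000000000000000000000000000) (nat_lit 3)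
theorem c94774 : QOK q94774 := cut [q81899] ⟨c81899, trivial⟩ (nd (nat_lit 187) (nat_lit 0) (cs (rf (nat_lit 0)) (lf (nat_lit 28) (nat_lit 187)))) q94774 (by decide +kernel)
def q94801 : Q := Q.p (nat_lit 0x80000600003800008000000000000000000000000000000000000000000000000000000000) (nat_lit 0x18000060000100000000000000000000000000000000000000000000000000000000000000000000000000) (nat_lit 3)
theorem c94801 : QOK q94801 := cut [q86913] ⟨c86913, trivial⟩ (nd (nat_lit 317) (nat_lit 0) (cs (lf (nat_lit 30) (nat_lit 251)) (rf (nat_lit 0)))) q94801 (by decide +kernel)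
def q94813 : Q := Q.p (nat_lit 0x3c000000000000000000000000000000000000000000000000000000000) (nat_lit 0x20001dc000000000000000000000000000000000000000000000000000) (nat_lit 4)
theorem c94813 : QOK q94813 := cut [q22590] ⟨c22590, trivial⟩ (nd (nat_lit 207) (nat_lit 0) (cs (lf (nat_lit 22) (nat_lit 207)) (nd (nat_lit 229) (nat_lit 0) (cs (lf (nat_lit 23) (nat_lit 206)) (rf (nat_lit 0)))))) q94813 (by decide +kernel)
def q94894 : Q := Q.p (nat_lit 0xc00003800018000020000000000000000000000000000000000000000000000000000) (nat_lit 0x600001c000060000000000000000000000000000000000000000000000) (nat_lit 4)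
theorem c94894 : QOK q94894 := cut [q88888] ⟨c88888, trivial⟩ (nd (nat_lit 208) (nat_lit 0) (cs (lf (nat_lit 47) (nat_lit 186)) (rf (nat_lit 0)))) q94894 (by decide +kernel)
def q94936 : Q := Q.p (nat_lit 0xe00003000008000020000000000000000000000000000000000000000000000000000) (nat_lit 0x80000200004c0001000000c00004000000000000000000000000000000000000000000000000000000000) (nat_lit 5)
theorem c94936 : QOK q94936 := cut [q94935] ⟨c94935, trivial⟩ (nd (nat_lit 276) (nat_lit 0) (cs (lf (nat_lit 29) (nat_lit 209)) (rf (nat_lit 0)))) q94936 (by decide +kernel)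
def q94952 : Q := Q.p (nat_lit 0x100000400001000004000000000000000000000000000000000000000000000000000000000) (nat_lit 0x20000080000200000000008000030000080000000000000000000000000000000000000000000000) (nat_lit 4)
theorem c94952 : QOK q94952 := cut [q80651] ⟨c80651, trivial⟩ (nd (nat_lit 295) (nat_lit 0) (cs (lf (nat_lit 41) (nat_lit 229)) (nd (nat_lit 208) (nat_lit 0) (cs (lf (nat_lit 40) (nat_lit 207)) (rf (nat_lit 0)))))) q94952 (by decide +kernel)
def q95060 : Q := Q.p (nat_lit 0x100000600003800000000000000000000000000000000000000000000000000000000000000) (nat_lit 0x8000180000070000bc0002c000010000000000000000000000000000000000000000000000) (nat_lit 7)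
theorem c95060 : QOK q95060 := cut [q17541, q84121, q62136] ⟨c17541, c84121, c62136, trivial⟩ (nd (nat_lit 250) (nat_lit 0) (cs (rf (nat_lit 0)) (cs (rf (nat_lit 1)) (nd (nat_lit 229) (nat_lit 0) (cs (lf (nat_lit 24) (nat_lit 207)) (nd (nat_lit 275) (nat_lit 0) (cs (lf (nat_lit 5) (nat_lit 250)) (nd (nat_lit 209) (nat_lit 0) (cs (lf (nat_lit 37) (nat_lit 208)) (nd (nat_lit 228) (nat_lit 0) (cs (lf (nat_lit 23) (nat_lit 227)) (rf (nat_lit 2))))))))))))) q95060 (by decide +kernel)
def q95109 : Q := Q.p (nat_lit 0x1c0000400003000000000000000000000000000000000000000000000000000000000000000) (nat_lit 0x20000180000220001800000000008000020000000000000000000000000000000000000000000000000000) (nat_lit 5)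
theorem c95109 : QOK q95109 := cut [q90066] ⟨c90066, trivial⟩ (nd (nat_lit 275) (nat_lit 0) (cs (lf (nat_lit 12) (nat_lit 271)) (nd (nat_lit 209) (nat_lit 0) (cs (lf (nat_lit 37) (nat_lit 208)) (nd (nat_lit 297) (nat_lit 0) (cs (lf (nat_lit 17) (nat_lit 272)) (rf (nat_lit 0)))))))) q95109 (by decide +kernel)
def q95135 : Q := Q.p (nat_lit 0x180000600003000000000000000000000000000000000000000000000000000000000000000) (nat_lit 0x380000e0000098000000000c000030000000000000000000000000000000000000000000000000000) (nat_lit 7)
theorem c95135 : QOK q95135 := cut [q86649] ⟨c86649, trivial⟩ (nd (nat_lit 271) (nat_lit 0) (cs (lf (nat_lit 13) (nat_lit 249)) (nd (nat_lit 230) (nat_lit 0) (cs (lf (nat_lit 36) (nat_lit 207)) (rf (nat_lit 0)))))) q95135 (by decide +kernel)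
def q95151 : Q := Q.p (nat_lit 0x40000100000400001000002000000000000000000000000000000000000000000000000000000000) (nat_lit 0x8000020000080000000000000004000008000000000000000000000000000000000000000000000000000) (nat_lit 3)
theorem c95151 : QOK q95151 := cut [q25408] ⟨c25408, trivial⟩ (nd (nat_lit 317) (nat_lit 0) (cs (lf (nat_lit 41) (nat_lit 251)) (rf (nat_lit 0)))) q95151 (by decide +kernel)
def q95187 : Q := Q.p (nat_lit 0x300000400001000000000000000000000000000000000000000000000000000000000000000) (nat_lit 0x8000020000080000000000800000000004000000000000000000000000000000000000000000000000000000000) (nat_lit 3)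
theorem c95187 : QOK q95187 := cut [q86683] ⟨c86683, trivial⟩ (nd (nat_lit 319) (nat_lit 0) (cs (lf (nat_lit 24) (nat_lit 230)) (rf (nat_lit 0)))) q95187 (by decide +kernel)
def q95250 : Q := Q.p (nat_lit 0x3000006000010000000000000000000000000000000000000000000000000000) (nat_lit 0x120000cc000380000ec0007c0000f00000000000000000000000000000000000000000) (nat_lit 11)
theorem c95250 : QOK q95250 := cut [q88848] ⟨c88848, trivial⟩ (nd (nat_lit 251) (nat_lit 0) (cs (rf (nat_lit 0)) (nd (nat_lit 254) (nat_lit 0) (cs (lf (nat_lit 18) (nat_lit 229)) (nd (nat_lit 232) (nat_lit 0) (cs (lf (nat_lit 17) (nat_lit 229)) (nd (nat_lit 231) (nat_lit 0) (cs (lf (nat_lit 12) (nat_lit 228)) (nd (nat_lit 206) (nat_lit 0) (cs (lf (nat_lit 22) (nat_lit 206)) (nd (nat_lit 210) (nat_lit 0) (cs (lf (nat_lit 17) (nat_lit 207)) (nd (nat_lit 188) (nat_lit 0) (cs (lf (nat_lit 36) (nat_lit 165)) (nd (nat_lit 189) (nat_lit 0) (cs (lf (nat_lit 35) (nat_lit 166)) (nd (nat_lit 187) (nat_lit 0) (cs (lf (nat_lit 47) (nat_lit 165)) (nd (nat_lit 209) (nat_lit 0) (cs (lf (nat_lit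 6) (nat_lit 186)) (lf (nat_lit 29) (nat_lit 187)))))))))))))))))))))) q95250 (by decide +kernel)
def q95269 : Q := Q.p (nat_lit 0x100000400001800006000000000000000000000000000000000000000000000000000000000) (nat_lit 0x200000800002000000000000000300000c0000300000000000000000000000000000000000000000) (nat_lit 5)
theorem c95269 : QOK q95269 := cut [q18739] ⟨c18739, trivial⟩ (nd (nat_lit 295) (nat_lit 0) (cs (lf (nat_lit 41) (nat_lit 229)) (nd (nat_lit 208) (nat_lit 0) (cs (lf (nat_lit 40) (nat_lit 207)) (nd (nat_lit 186) (nat_lit 0) (cs (lf (nat_lit 36) (nat_lit 163)) (rf (nat_lit 0)))))))) q95269 (by decide +kernel)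
def q95277 : Q := Q.p (nat_lit 0x600001800004000010000000000000000000000000000000000000000000000000000) (nat_lit 0x200001800000600000000000000000000000000000000000000000000000000000000000000) (nat_lit 3)
theorem c95277 : QOK q95277 := cut [q15153] ⟨c15153, trivial⟩ (nd (nat_lit 275) (nat_lit 0) (cs (lf (nat_lit 29) (nat_lit 208)) (rf (nat_lit 0)))) q95277 (by decide +kernel)
def q95344 : Q := Q.p (nat_lit 0x200001e000020000000000000000000000000000000000000000000000000000) (nat_lit 0x8000000000000000c0000100000400000000000000000000000000000000000000000) (nat_lit 3)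
theorem c95344 : QOK q95344 := cut [q95343] ⟨c95343, trivial⟩ (nd (nat_lit 210) (nat_lit 0) (cs (lf (nat_lit 17) (nat_lit 207)) (rf (nat_lit 0)))) q95344 (by decide +kernel)
def q95364 : Q := Q.p (nat_lit 0x300000c000030000000000000000000000000000000000000000000000000000) (nat_lit 0x600001800004000000000000000080000200000000000000000000000000000000000000000) (nat_lit 4)
theorem c95364 : QOK q95364 := cut [q90502] ⟨c90502, trivial⟩ (nd (nat_lit 187) (nat_lit 0) (cs (lf (nat_lit 36) (nat_lit 164)) (nd (nat_lit 275) (nat_lit 0) (cs (lf (nat_lit 42) (nat_lit 208)) (rf (nat_lit 0)))))) q95364 (by decide +kernel)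
def q95394 : Q := Q.p (nat_lit 0x1e000000000000000000000000000000000000000000000000000000000000000) (nat_lit 0x1c0000200001c0000000000000000000000000000000000000000000000000000000000) (nat_lit 4)
theorem c95394 : QOK q95394 := cut [q80498] ⟨c80498, trivial⟩ (nd (nat_lit 279) (nat_lit 0) (cs (lf (nat_lit 4) (nat_lit 253)) (nd (nat_lit 235) (nat_lit 0) (cs (lf (nat_lit 16) (nat_lit 231)) (rf (nat_lit 0)))))) q95394 (by decide +kernel)
def q95511 : Q := Q.p (nat_lit 0x80000f00000c000000000000000000000000000000000000000000000000000000000) (nat_lit 0x1700000e00000000000000000000000000000000000000000000000000000000000000) (nat_lit 4)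
theorem c95511 : QOK q95511 := cut [q12193] ⟨c12193, trivial⟩ (nd (nat_lit 273) (nat_lit 0) (cs (lf (nat_lit 10) (nat_lit 251)) (nd (nat_lit 251) (nat_lit 0) (cs (rf (nat_lit 0)) (lf (nat_lit 11) (nat_lit 250)))))) q95511 (by decide +kernel)
def q95551 : Q := Q.p (nat_lit 0x200000800007000002000000000000000000000000000000000000000000000000000000000) (nat_lit 0x400008000004000010000040000000000000000000000000000000000000000000000) (nat_lit 3)
theorem c95551 : QOK q95551 := cut [q79111] ⟨c79111, trivial⟩ (nd (nat_lit 230) (nat_lit 0) (cs (lf (nat_lit 18) (nat_lit 229)) (rf (nat_lit 0)))) q95551 (by decide +kernel)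
def q95561 : Q := Q.p (nat_lit 0x800003800008000000000000000000000000000000000000000000000000000000000) (nat_lit 0x11c0000600004000000000000000000000000000000000000000000000000000000000) (nat_lit 4)
theorem c95561 : QOK q95561 := cut [q88836] ⟨c88836, trivial⟩ (nd (nat_lit 250) (nat_lit 0) (cs (lf (nat_lit 5) (nat_lit 250)) (rf (nat_lit 0)))) q95561 (by decide +kernel)
def q95569 : Q := Q.p (nat_lit 0x3c00000000000000000000000000000000000000000000000000000000000000) (nat_lit 0x1c0000c30000f000000000000000000000000000000000000000000000000000000000) (nat_lit 6)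
theorem c95569 : QOK q95569 := cut [q85547] ⟨c85547, trivial⟩ (nd (nat_lit 275) (nat_lit 0) (cs (lf (nat_lit 5) (nat_lit 250)) (nd (nat_lit 249) (nat_lit 0) (cs (lf (nat_lit 4) (nat_lit 249)) (rf (nat_lit 0)))))) q95569 (by decide +kernel)
def q95588 : Q := Q.p (nat_lit 0x7800000000000000000000000000000000000000000000000000000000000000) (nat_lit 0x4000010001ce000380001c7000008000020000000000000000000000000000000000000000000000) (nat_lit 10)
theorem c95588 : QOK q95588 := cut [q82199] ⟨c82199, trivial⟩ (nd (nat_lit 229) (nat_lit 0) (cs (lf (nat_lit 23) (nat_lit 228)) (nd (nat_lit 255) (nat_lit 0) (cs (lf (nat_lit 22) (nat_lit 229)) (nd (nat_lit 274) (nat_lit 0) (cs (lf (nat_lit 11) (nat_lit 251)) (nd (nat_lit 296) (nat_lit 0) (cs (lf (nat_lit 42) (nat_lit 229)) (nd (nat_lit 256) (nat_lit 0) (cs (lf (nat_lit 10) (nat_lit 252)) (nd (nat_lit 279) (nat_lit 0) (cs (lf (nat_lit 4) (nat_lit 253)) (nd (nat_lit 185) (nat_lit 0) (cs (lf (nat_lit 25) (nat_lit 185)) (nd (nat_lit 257) (nat_lit 0) (cs (lf (nat_lit 5) (nat_lit 254)) (rf (nat_lit 0))))))))))))))))))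 q95588 (by decide +kernel)
def q95602 : Q := Q.p (nat_lit 0x4000038000040000100000000000000000000000000000000000000000000000) (nat_lit 0x1000000000004000380000200000800000000000000000000000000000000000000000) (nat_lit 4)
theorem c95602 : QOK q95602 := cut [q88819] ⟨c88819, trivial⟩ (nd (nat_lit 189) (nat_lit 0) (cs (lf (nat_lit 35) (nat_lit 166)) (nd (nat_lit 211) (nat_lit 0) (cs (lf (nat_lit 30) (nat_lit 188)) (rf (nat_lit 0)))))) q95602 (by decide +kernel)
def q95611 : Q := Q.p (nat_lit 0x400001000010000060000080000000000000000000000000000000000000000000000) (nat_lit 0x2780001e00005c000200000800000000000000000000000000000000000) (nat_lit 8)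
theorem c95611 : QOK q95611 := cut [q113] ⟨c113, trivial⟩ (nd (nat_lit 143) (nat_lit 0) (cs (lf (nat_lit 25) (nat_lit 143)) (nd (nat_lit 208) (nat_lit 0) (cs (lf (nat_lit 32) (nat_lit 186)) (nd (nat_lit 207) (nat_lit 0) (cs (lf (nat_lit 5) (nat_lit 207)) (nd (nat_lit 228) (nat_lit 0) (cs (lf (nat_lit 10) (nat_lit 206)) (nd (nat_lit 206) (nat_lit 0) (cs (lf (nat_lit 11) (nat_lit 205)) (nd (nat_lit 205) (nat_lit 0) (cs (rf (nat_lit 0)) (lf (nat_lit 16) (nat_lit 183)))))))))))))) q95611 (by decide +kernel)
def q95632 : Q := Q.p (nat_lit 0x100000600003800000000000000000000000000000000000000000000000000000000000000) (nat_lit 0xc000003000008000000000000000000000000000000000000000000000000000) (nat_lit 3)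
theorem c95632 : QOK q95632 := cut [q95631] ⟨c95631, trivial⟩ (nd (nat_lit 254) (nat_lit 0) (cs (lf (nat_lit 6) (nat_lit 251)) (rf (nat_lit 0)))) q95632 (by decide +kernel)
def q95670 : Q := Q.p (nat_lit 0x800003000004000000000000000000000000000000000000000000000000000000000) (nat_lit 0x80000200000400000000008000010000000000000000000000000000000000000000000000000000) (nat_lit 3)
theorem c95670 : QOK q95670 := cut [q95669] ⟨c95669, trivial⟩ (nd (nat_lit 297) (nat_lit 0) (cs (lf (nat_lit 42) (nat_lit 230)) (rf (nat_lit 0)))) q95670 (by decide +kernel)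
def q95695 : Q := Q.p (nat_lit 0x7000018000060000000000000000000000000000000000000000000000000000) (nat_lit 0x380000f00000000066000190000040000000000000000000000000000000000000000000000) (nat_lit 8)
theorem c95695 : QOK q95695 := cut [q756] ⟨c756, trivial⟩ (nd (nat_lit 275) (nat_lit 0) (cs (lf (nat_lit 30) (nat_lit 209)) (nd (nat_lit 274) (nat_lit 0) (cs (lf (nat_lit 41) (nat_lit 208)) (nd (nat_lit 273) (nat_lit 0) (cs (lf (nat_lit 12) (nat_lit 250)) (nd (nat_lit 233) (nat_lit 0) (cs (lf (nat_lit 6) (nat_lit 230)) (nd (nat_lit 208) (nat_lit 0) (cs (lf (nat_lit 47) (nat_lit 186)) (nd (nat_lit 230) (nat_lit 0) (cs (lf (nat_lit 41) (nat_lit 207)) (rf (nat_lit 0)))))))))))))) q95695 (by decide +kernel)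
def q95738 : Q := Q.p (nat_lit 0xe000050000000000000000000000000000000000000000000000000000000000) (nat_lit 0x3000008c000000000000000000000000000000000000000000000000000000000) (nat_lit 3)
theorem c95738 : QOK q95738 := cut [q95737] ⟨c95737, trivial⟩ (nd (nat_lit 256) (nat_lit 0) (cs (lf (nat_lit 17) (nat_lit 231)) (rf (nat_lit 0)))) q95738 (by decide +kernel)
def q95766 : Q := Q.p (nat_lit 0x400007000010000000000000000000000000000000000000000000000000000000000) (nat_lit 0xa0003800000c000000000000000000000000000000000000000000000000000000000) (nat_lit 4)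
theorem c95766 : QOK q95766 := cut [q95737] ⟨c95737, trivial⟩ (nd (nat_lit 255) (nat_lit 0) (cs (lf (nat_lit 11) (nat_lit 251)) (nd (nat_lit 256) (nat_lit 0) (cs (lf (nat_lit 10) (nat_lit 252)) (rf (nat_lit 0)))))) q95766 (by decide +kernel)
def q95786 : Q := Q.p (nat_lit 0x80000200000a000020000000000000000000000000000000000000000000000000000) (nat_lit 0x5000058000140000000000000000000000000000000000000000000000) (nat_lit 4)
theorem c95786 : QOK q95786 := cut [q9763] ⟨c9763, trivial⟩ (nd (nat_lit 208) (nat_lit 0) (cs (lf (nat_lit 47) (nat_lit 186)) (nd (nat_lit 210) (nat_lit 0) (cs (lf (nat_lit 35) (nat_lit 187)) (rf (nat_lit 0)))))) q95786 (by decide +kernel)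
def q95863 : Q := Q.p (nat_lit 0x1a000060000000000000000000000000000000000000000000000000000) (nat_lit 0x100000c4000390000e00000800002000000000000000000000000000000000000) (nat_lit 7)
theorem c95863 : QOK q95863 := cut [q86802] ⟨c86802, trivial⟩ (nd (nat_lit 211) (nat_lit 0) (cs (lf (nat_lit 13) (nat_lit 207)) (rf (nat_lit 0)))) q95863 (by decide +kernel)
def q95953 : Q := Q.p (nat_lit 0xf00000800002000000000000000000000000000000000000000000000000000000000000000) (nat_lit 0x10000060000000000600000000000000000000000000000000000000000000000000000000000000000000) (nat_lit 3)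
theorem c95953 : QOK q95953 := cut [q81417] ⟨c81417, trivial⟩ (nd (nat_lit 274) (nat_lit 0) (cs (lf (nat_lit 23) (nat_lit 273)) (rf (nat_lit 0)))) q95953 (by decide +kernel)
def q95967 : Q := Q.p (nat_lit 0x10000000000300001c000000000000000000000000000000000000000000000000000000000) (nat_lit 0x40001c00006200000c000000000000000000000000000000000000000000000000000) (nat_lit 5)
theorem c95967 : QOK q95967 := cut [q80257] ⟨c80257, trivial⟩ (nd (nat_lit 233) (nat_lit 0) (cs (lf (nat_lit 6) (nat_lit 230)) (nd (nat_lit 255) (nat_lit 0) (cs (lf (nat_lit 5) (nat_lit 230)) (nd (nat_lit 229) (nat_lit 0) (cs (rf (nat_lit 0)) (lf (nat_lit 19) (nat_lit 229)))))))) q95967 (by decide +kernel)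
def q96034 : Q := Q.p (nat_lit 0x300000e00003000000000000000000000000000000000000000000000000000000000000000) (nat_lit 0x100000c0000000000c800078000040000000000000000000000000000000000000000000000000000) (nat_lit 6)
theorem c96034 : QOK q96034 := cut [q80089] ⟨c80089, trivial⟩ (nd (nat_lit 254) (nat_lit 0) (cs (lf (nat_lit 6) (nat_lit 251)) (nd (nat_lit 298) (nat_lit 0) (cs (lf (nat_lit 18) (nat_lit 273)) (nd (nat_lit 231) (nat_lit 0) (cs (lf (nat_lit 29) (nat_lit 231)) (nd (nat_lit 232) (nat_lit 0) (cs (lf (nat_lit 35) (nat_lit 209)) (rf (nat_lit 0)))))))))) q96034 (by decide +kernel)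
def q96151 : Q := Q.p (nat_lit 0x1000000000010000078000000000000000000000000000000000000000000000000000) (nat_lit 0x4000007000080000630000000000000000000000000000000000000000000000) (nat_lit 5)
theorem c96151 : QOK q96151 := cut [q96150] ⟨c96150, trivial⟩ (nd (nat_lit 184) (nat_lit 0) (cs (lf (nat_lit 22) (nat_lit 184)) (rf (nat_lit 0)))) q96151 (by decide +kernel)
def q96245 : Q := Q.p (nat_lit 0x2000008000070000020000000000000000000000000000000000000000000000) (nat_lit 0x4000080000040000100000400000000000000000000000000000000000) (nat_lit 3)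
theorem c96245 : QOK q96245 := cut [q1562] ⟨c1562, trivial⟩ (nd (nat_lit 186) (nat_lit 0) (cs (lf (nat_lit 18) (nat_lit 185)) (rf (nat_lit 0)))) q96245 (by decide +kernel)
def q96257 : Q := Q.p (nat_lit 0x9000038000000000000000000000000000000000000000000000000000) (nat_lit 0x680004780000e000000000000000000000000000000000000000000000) (nat_lit 6)
theorem c96257 : QOK q96257 := cut [q32620] ⟨c32620, trivial⟩ (nd (nat_lit 206) (nat_lit 0) (cs (lf (nat_lit 11) (nat_lit 205)) (nd (nat_lit 205) (nat_lit 0) (cs (lf (nat_lit 4) (nat_lit 205)) (nd (nat_lit 182) (nat_lit 0) (cs (lf (nat_lit 22) (nat_lit 182)) (nd (nat_lit 229) (nat_lit 0) (cs (lf (nat_lit 6) (nat_lit 206)) (rf (nat_lit 0)))))))))) q96257 (by decide +kernel)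
def q96293 : Q := Q.p (nat_lit 0x200001c000030000000000000000000000000000000000000000000000000000) (nat_lit 0x2000008000000000030000c0000100000000000000000000000000000000000000000000000) (nat_lit 4)
theorem c96293 : QOK q96293 := cut [q96291] ⟨c96291, trivial⟩ (nd (nat_lit 275) (nat_lit 0) (cs (lf (nat_lit 42) (nat_lit 208)) (nd (nat_lit 210) (nat_lit 0) (cs (lf (nat_lit 35) (nat_lit 187)) (rf (nat_lit 0)))))) q96293 (by decide +kernel)
def q96299 : Q := Q.p (nat_lit 0xf000008000000000000000000000000000000000000000000000000000000000) (nat_lit 0x100000e4000000000000000000000000000000000000000000000000000000000) (nat_lit 3)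
theorem c96299 : QOK q96299 := cut [q94187] ⟨c94187, trivial⟩ (nd (nat_lit 234) (nat_lit 0) (cs (lf (nat_lit 16) (nat_lit 230)) (rf (nat_lit 0)))) q96299 (by decide +kernel)
def q96307 : Q := Q.p (nat_lit 0x300000c000020000000000000000000000000000000000000000000000000000) (nat_lit 0x100001c0000020000000001c0000700000000000000000000000000000000000000000) (nat_lit 6)
theorem c96307 : QOK q96307 := cut [q81488] ⟨c81488, trivial⟩ (nd (nat_lit 187) (nat_lit 0) (cs (lf (nat_lit 36) (nat_lit 164)) (nd (nat_lit 164) (nat_lit 0) (cs (lf (nat_lit 46) (nat_lit 164)) (nd (nat_lit 166) (nat_lit 0) (cs (lf (nat_lit 34) (nat_lit 165)) (nd (nat_lit 254) (nat_lit 0) (cs (lf (nat_lit 29) (nat_lit 187)) (rf (nat_lit 0)))))))))) q96307 (by decide +kernel)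
def q96310 : Q := Q.p (nat_lit 0x800002000008000020000000000000000000000000000000000000000000000000000) (nat_lit 0x400001000004000000000040000180000400000000000000000000000000000000000000000) (nat_lit 4)
theorem c96310 : QOK q96310 := cut [q91105] ⟨c91105, trivial⟩ (nd (nat_lit 188) (nat_lit 0) (cs (lf (nat_lit 34) (nat_lit 187)) (nd (nat_lit 276) (nat_lit 0) (cs (lf (nat_lit 29) (nat_lit 209)) (rf (nat_lit 0)))))) q96310 (by decide +kernel)
def q96312 : Q := Q.p (nat_lit 0x800002000008000020000000000000000000000000000000000000000000000000000) (nat_lit 0x100000400001000000000040000180000400000000000000000000000000000000000000000) (nat_lit 4)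
theorem c96312 : QOK q96312 := cut [q23499] ⟨c23499, trivial⟩ (nd (nat_lit 188) (nat_lit 0) (cs (lf (nat_lit 34) (nat_lit 187)) (nd (nat_lit 187) (nat_lit 0) (cs (lf (nat_lit 35) (nat_lit 165)) (rf (nat_lit 0)))))) q96312 (by decide +kernel)
def q96313 : Q := Q.p (nat_lit 0xc00002000008000020000000000000000000000000000000000000000000000000000) (nat_lit 0x400001000005000000000000000080000000000000000000000000000000000000000000000) (nat_lit 3)
theorem c96313 : QOK q96313 := cut [q90502] ⟨c90502, trivial⟩ (nd (nat_lit 187) (nat_lit 0) (cs (lf (nat_lit 40) (nat_lit 186)) (rf (nat_lit 0)))) q96313 (by decide +kernel)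
def q96315 : Q := Q.p (nat_lit 0x200001c00002000004000000000000000000000000000000000000000000000000000000000) (nat_lit 0x80000000002000001c00000000000000000000000000000000000000000000000000000000000000) (nat_lit 3)
theorem c96315 : QOK q96315 := cut [q700] ⟨c700, trivial⟩ (nd (nat_lit 252) (nat_lit 0) (cs (rf (nat_lit 0)) (lf (nat_lit 42) (nat_lit 230)))) q96315 (by decide +kernel)
def q96324 : Q := Q.p (nat_lit 0xc00002000008000020000000000000000000000000000000000000000000000000000) (nat_lit 0x10000000000100000c0000100000000000000000000000000000000000000000) (nat_lit 3)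
theorem c96324 : QOK q96324 := cut [q81899] ⟨c81899, trivial⟩ (nd (nat_lit 187) (nat_lit 0) (cs (lf (nat_lit 40) (nat_lit 186)) (rf (nat_lit 0)))) q96324 (by decide +kernel)
def q96326 : Q := Q.p (nat_lit 0x200001c00002000010000000000000000000000000000000000000000000000000000000000) (nat_lit 0x8000000000020001c000000000000000000000000000000000000000000000000000000000000000) (nat_lit 3)
theorem c96326 : QOK q96326 := cut [q79289] ⟨c79289, trivial⟩ (nd (nat_lit 254) (nat_lit 0) (cs (lf (nat_lit 30) (nat_lit 231)) (rf (nat_lit 0)))) q96326 (by decide +kernel)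
def q96335 : Q := Q.p (nat_lit 0x2000008000020000080000000000000000000000000000000000000000000000) (nat_lit 0x100000c00001000000000040000100000400000000000000000000000000000000000000000) (nat_lit 4)
theorem c96335 : QOK q96335 := cut [q1591] ⟨c1591, trivial⟩ (nd (nat_lit 274) (nat_lit 0) (cs (lf (nat_lit 40) (nat_lit 186)) (nd (nat_lit 275) (nat_lit 0) (cs (lf (nat_lit 41) (nat_lit 208)) (rf (nat_lit 0)))))) q96335 (by decide +kernel)
def q96346 : Q := Q.p (nat_lit 0x100000e000008000000000000000000000000000000000000000000000000000000000) (nat_lit 0x800030000014000000000000000000000000000000000000000000000000000000000) (nat_lit 3)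
theorem c96346 : QOK q96346 := cut [q81526] ⟨c81526, trivial⟩ (nd (nat_lit 256) (nat_lit 0) (cs (lf (nat_lit 23) (nat_lit 230)) (rf (nat_lit 0)))) q96346 (by decide +kernel)
def q96363 : Q := Q.p (nat_lit 0xf00001c000000000000000000000000000000000000000000000000000000000) (nat_lit 0xe0000380007e00000000000000050000100000000000000000000000000000000000000000000000) (nat_lit 8)
theorem c96363 : QOK q96363 := cut [q96357] ⟨c96357, trivial⟩ (nd (nat_lit 277) (nat_lit 0) (cs (lf (nat_lit 5) (nat_lit 252)) (nd (nat_lit 188) (nat_lit 0) (cs (lf (nat_lit 25) (nat_lit 188)) (nd (nat_lit 274) (nat_lit 0) (cs (lf (nat_lit 11) (nat_lit 251)) (nd (nat_lit 296) (nat_lit 0) (cs (lf (nat_lit 30) (nat_lit 230)) (nd (nat_lit 297) (nat_lit 0) (cs (lf (nat_lit 29) (nat_lit 230)) (nd (nat_lit 275) (nat_lit 0) (cs (lf (nat_lit 24) (nat_lit 208)) (rf (nat_lit 0)))))))))))))) q96363 (by decide +kernel)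
def q96395 : Q := Q.p (nat_lit 0x1000007800000000000000000000000000000000000000000000000000000000000000) (nat_lit 0x1cf000380000e0000000000000000000000000000000000000000000000000000000000) (nat_lit 7)
theorem c96395 : QOK q96395 := cut [q96391] ⟨c96391, trivial⟩ (nd (nat_lit 273) (nat_lit 0) (cs (lf (nat_lit 11) (nat_lit 250)) (nd (nat_lit 255) (nat_lit 0) (cs (lf (nat_lit 10) (nat_lit 251)) (nd (nat_lit 234) (nat_lit 0) (cs (lf (nat_lit 16) (nat_lit 230)) (nd (nat_lit 256) (nat_lit 0) (cs (lf (nat_lit 17) (nat_lit 231)) (rf (nat_lit 0)))))))))) q96395 (by decide +kernel)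
def q96443 : Q := Q.p (nat_lit 0xf000008000000000000000000000000000000000000000000000000000000000) (nat_lit 0x100000e4000000000000000000000000000000000000000000000000000000000) (nat_lit 3)
theorem c96443 : QOK q96443 := cut [q80860] ⟨c80860, trivial⟩ (nd (nat_lit 256) (nat_lit 0) (cs (lf (nat_lit 23) (nat_lit 230)) (rf (nat_lit 0)))) q96443 (by decide +kernel)
def q96452 : Q := Q.p (nat_lit 0x40000700000c000000000000000000000000000000000000000000000000000000000) (nat_lit 0x40000100000000000000003000008000000000000000000000000000000000000000000000000000) (nat_lit 3)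
theorem c96452 : QOK q96452 := cut [q81008] ⟨c81008, trivial⟩ (nd (nat_lit 296) (nat_lit 0) (cs (lf (nat_lit 30) (nat_lit 230)) (rf (nat_lit 0)))) q96452 (by decide +kernel)
def q96471 : Q := Q.p (nat_lit 0xf000020000000000000000000000000000000000000000000000000000000000) (nat_lit 0x400007000000800000000080000200000000000000000000000000000000000000000000000) (nat_lit 4)
theorem c96471 : QOK q96471 := cut [q96469] ⟨c96469, trivial⟩ (nd (nat_lit 277) (nat_lit 0) (cs (lf (nat_lit 5) (nat_lit 252)) (nd (nat_lit 276) (nat_lit 0) (cs (lf (nat_lit 0) (nat_lit 251)) (rf (nat_lit 0)))))) q96471 (by decide +kernel)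
def q96505 : Q := Q.p (nat_lit 0x3000018000000000000000000000000000000000000000000000000000000000) (nat_lit 0x4800064000000000000000000000000000000000000000000000000000000000) (nat_lit 3)
theorem c96505 : QOK q96505 := cut [q96504] ⟨c96504, trivial⟩ (nd (nat_lit 233) (nat_lit 0) (cs (lf (nat_lit 6) (nat_lit 230)) (rf (nat_lit 0)))) q96505 (by decide +kernel)
def q96507 : Q := Q.p (nat_lit 0x300003c000040000000000000000000000000000000000000000000000000000) (nat_lit 0x200000800000000000000018000040000000000000000000000000000000000000000000000) (nat_lit 3)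
theorem c96507 : QOK q96507 := cut [q96506] ⟨c96506, trivial⟩ (nd (nat_lit 275) (nat_lit 0) (cs (lf (nat_lit 30) (nat_lit 209)) (rf (nat_lit 0)))) q96507 (by decide +kernel)
def q96517 : Q := Q.p (nat_lit 0x2c0000f000038000000000000000000000000000000000000000000000000000000000) (nat_lit 0x40000580001000000000000000080000200000000000000000000000000000000000000000000000) (nat_lit 4)
theorem c96517 : QOK q96517 := cut [q96515] ⟨c96515, trivial⟩ (nd (nat_lit 296) (nat_lit 0) (cs (lf (nat_lit 30) (nat_lit 230)) (nd (nat_lit 276) (nat_lit 0) (cs (lf (nat_lit 11) (nat_lit 273)) (rf (nat_lit 0)))))) q96517 (by decide +kernel)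
def q96643 : Q := Q.p (nat_lit 0x1800002000008000000000000000000000000000000000000000000000000000) (nat_lit 0x4000000000040000000000300000c0000100000000000000000000000000000000000) (nat_lit 4)
theorem c96643 : QOK q96643 := cut [q85444] ⟨c85444, trivial⟩ (nd (nat_lit 185) (nat_lit 0) (cs (lf (nat_lit 29) (nat_lit 185)) (rf (nat_lit 0)))) q96643 (by decide +kernel)
def q96655 : Q := Q.p (nat_lit 0x800002000008000020000000000000000000000000000000000000000000000000000) (nat_lit 0x100000600001000000000010000040000100000000000000000000000000000000000000000000000) (nat_lit 4)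
theorem c96655 : QOK q96655 := cut [q52525] ⟨c52525, trivial⟩ (nd (nat_lit 298) (nat_lit 0) (cs (lf (nat_lit 28) (nat_lit 209)) (nd (nat_lit 210) (nat_lit 0) (cs (lf (nat_lit 35) (nat_lit 187)) (rf (nat_lit 0)))))) q96655 (by decide +kernel)
def q96661 : Q := Q.p (nat_lit 0x1c00002800000000000000000000000000000000000000000000000000000000000000) (nat_lit 0x30000c400000000000000000000000000000000000000000000000000000000000000) (nat_lit 3)
theorem c96661 : QOK q96661 := cut [q96660] ⟨c96660, trivial⟩ (nd (nat_lit 273) (nat_lit 0) (cs (lf (nat_lit 23) (nat_lit 250)) (rf (nat_lit 0)))) q96661 (by decide +kernel)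
def q96670 : Q := Q.p (nat_lit 0x1c00002800000000000000000000000000000000000000000000000000000000000000) (nat_lit 0x700000e00003d000000000000000000000000000000000000000000000000000000000000000) (nat_lit 6)
theorem c96670 : QOK q96670 := cut [q96667] ⟨c96667, trivial⟩ (nd (nat_lit 277) (nat_lit 0) (cs (lf (nat_lit 22) (nat_lit 251)) (nd (nat_lit 256) (nat_lit 0) (cs (lf (nat_lit 16) (nat_lit 252)) (nd (nat_lit 278) (nat_lit 0) (cs (lf (nat_lit 17) (nat_lit 253)) (rf (nat_lit 0)))))))) q96670 (by decide +kernel)
def q96674 : Q := Q.p (nat_lit 0x1800002800000000000000000000000000000000000000000000000000000000000000) (nat_lit 0x6000005400000000000000000000000000000000000000000000000000000000000000) (nat_lit 3)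
theorem c96674 : QOK q96674 := cut [q88741] ⟨c88741, trivial⟩ (nd (nat_lit 252) (nat_lit 0) (cs (lf (nat_lit 0) (nat_lit 250)) (rf (nat_lit 0)))) q96674 (by decide +kernel)
def q96677 : Q := Q.p (nat_lit 0x100000800002000008000020000000000000000000000000000000000000000000000000000) (nat_lit 0x40000200000000000000010000040000100000000000000000000000000000000000000000000000) (nat_lit 3)
theorem c96677 : QOK q96677 := cut [q11580] ⟨c11580, trivial⟩ (nd (nat_lit 297) (nat_lit 0) (cs (lf (nat_lit 41) (nat_lit 230)) (rf (nat_lit 0)))) q96677 (by decide +kernel)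
def q96704 : Q := Q.p (nat_lit 0x80000e0000000000000000000000000000000000000000000000000000) (nat_lit 0x1d4000300000c00000000000000000000000000000000000000000000000) (nat_lit 5)
theorem c96704 : QOK q96704 := cut [q10382] ⟨c10382, trivial⟩ (nd (nat_lit 212) (nat_lit 0) (cs (lf (nat_lit 11) (nat_lit 208)) (nd (nat_lit 190) (nat_lit 0) (cs (lf (nat_lit 17) (nat_lit 187)) (rf (nat_lit 0)))))) q96704 (by decide +kernel)
def q96707 : Q := Q.p (nat_lit 0x800002000008000060000000000000000000000000000000000000000000000000000) (nat_lit 0x200000000000000006000190000040000000000000000000000000000000000000000000000) (nat_lit 4)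
theorem c96707 : QOK q96707 := cut [q756] ⟨c756, trivial⟩ (nd (nat_lit 208) (nat_lit 0) (cs (lf (nat_lit 47) (nat_lit 186)) (nd (nat_lit 230) (nat_lit 0) (cs (lf (nat_lit 42) (nat_lit 208)) (rf (nat_lit 0)))))) q96707 (by decide +kernel)
def q96727 : Q := Q.p (nat_lit 0x200000800002000018000000000000000000000000000000000000000000000000000000000) (nat_lit 0x40000180000400000000004000000000000000000000000000000000000000000000000000000000000000) (nat_lit 3)
theorem c96727 : QOK q96727 := cut [q96726] ⟨c96726, trivial⟩ (nd (nat_lit 320) (nat_lit 0) (cs (lf (nat_lit 28) (nat_lit 231)) (rf (nat_lit 0)))) q96727 (by decide +kernel)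
def q96747 : Q := Q.p (nat_lit 0x2000008000020000080000000000000000000000000000000000000000000000) (nat_lit 0x800004000014000050000140000600001800002000000000000000000000000000000) (nat_lit 7)
theorem c96747 : QOK q96747 := cut [q4304] ⟨c4304, trivial⟩ (nd (nat_lit 166) (nat_lit 0) (cs (lf (nat_lit 34) (nat_lit 165)) (nd (nat_lit 165) (nat_lit 0) (cs (lf (nat_lit 35) (nat_lit 143)) (nd (nat_lit 232) (nat_lit 0) (cs (lf (nat_lit 29) (nat_lit 165)) (nd (nat_lit 143) (nat_lit 0) (cs (lf (nat_lit 28) (nat_lit 143)) (nd (nat_lit 208) (nat_lit 0) (cs (lf (nat_lit 41) (nat_lit 142)) (rf (nat_lit 0)))))))))))) q96747 (by decide +kernel)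
def q96758 : Q := Q.p (nat_lit 0x200000e000000000000000000000000000000000000000000000000000000000) (nat_lit 0x5700001800000000000000000000000000000000000000000000000000000000) (nat_lit 4)
theorem c96758 : QOK q96758 := cut [q96757] ⟨c96757, trivial⟩ (nd (nat_lit 228) (nat_lit 0) (cs (lf (nat_lit 5) (nat_lit 228)) (rf (nat_lit 0)))) q96758 (by decide +kernel)
def q96763 : Q := Q.p (nat_lit 0xf000000000000000000000000000000000000000000000000000000000) (nat_lit 0x700000800070000000000000000000000000000000000000000000000000000) (nat_lit 4)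
theorem c96763 : QOK q96763 := cut [q96761] ⟨c96761, trivial⟩ (nd (nat_lit 249) (nat_lit 0) (cs (lf (nat_lit 10) (nat_lit 227)) (nd (nat_lit 227) (nat_lit 0) (cs (lf (nat_lit 11) (nat_lit 226)) (rf (nat_lit 0)))))) q96763 (by decide +kernel)
def q96768 : Q := Q.p (nat_lit 0x200000e000000000000000000000000000000000000000000000000000000000) (nat_lit 0x17000118000ee000000000000000000000000000000000000000000000000000) (nat_lit 5)
theorem c96768 : QOK q96768 := cut [q96757, q96767] ⟨c96757, c96767, trivial⟩ (nd (nat_lit 228) (nat_lit 0) (cs (rf (nat_lit 0)) (rf (nat_lit 1)))) q96768 (by decide +kernel)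
def q96776 : Q := Q.p (nat_lit 0x3c0000c000000000000000000000000000000000000000000000000000000000) (nat_lit 0x738001c000000000000000000000000000000000000000000000000000000000000000) (nat_lit 5)
theorem c96776 : QOK q96776 := cut [q96298] ⟨c96298, trivial⟩ (nd (nat_lit 272) (nat_lit 0) (cs (lf (nat_lit 11) (nat_lit 249)) (nd (nat_lit 254) (nat_lit 0) (cs (lf (nat_lit 10) (nat_lit 250)) (rf (nat_lit 0)))))) q96776 (by decide +kernel)
def q96828 : Q := Q.p (nat_lit 0x1e000000000000000000000000000000000000000000000000000000000) (nat_lit 0x1cc000200001c0000000000000000000000000000000000000000000000000000) (nat_lit 5)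
theorem c96828 : QOK q96828 := cut [q22590] ⟨c22590, trivial⟩ (nd (nat_lit 255) (nat_lit 0) (cs (lf (nat_lit 4) (nat_lit 229)) (nd (nat_lit 250) (nat_lit 0) (cs (lf (nat_lit 10) (nat_lit 228)) (nd (nat_lit 233) (nat_lit 0) (cs (lf (nat_lit 5) (nat_lit 230)) (rf (nat_lit 0)))))))) q96828 (by decide +kernel)
def q96835 : Q := Q.p (nat_lit 0xf000000000000000000000000000000000000000000000000000000000) (nat_lit 0x700000800007000000000000000000000000000000000000000000000000000) (nat_lit 4)
theorem c96835 : QOK q96835 := cut [q22543] ⟨c22543, trivial⟩ (nd (nat_lit 249) (nat_lit 0) (cs (lf (nat_lit 10) (nat_lit 227)) (nd (nat_lit 227) (nat_lit 0) (cs (lf (nat_lit 11) (nat_lit 226)) (rf (nat_lit 0)))))) q96835 (by decide +kernel)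
def q96846 : Q := Q.p (nat_lit 0x200000e000000000000000000000000000000000000000000000000000000000) (nat_lit 0x400001180007e0001d8000300000c00000000000000000000000000000000000) (nat_lit 10)
theorem c96846 : QOK q96846 := cut [q96838] ⟨c96838, trivial⟩ (nd (nat_lit 228) (nat_lit 0) (cs (lf (nat_lit 5) (nat_lit 228)) (nd (nat_lit 209) (nat_lit 0) (cs (lf (nat_lit 17) (nat_lit 206)) (nd (nat_lit 208) (nat_lit 0) (cs (lf (nat_lit 12) (nat_lit 205)) (nd (nat_lit 164) (nat_lit 0) (cs (lf (nat_lit 25) (nat_lit 164)) (nd (nat_lit 206) (nat_lit 0) (cs (lf (nat_lit 23) (nat_lit 205)) (nd (nat_lit 207) (nat_lit 0) (cs (lf (nat_lit 18) (nat_lit 206)) (nd (nat_lit 183) (nat_lit 0) (cs (lf (nat_lit 22) (nat_lit 183)) (nd (nat_lit 187) (nat_lit 0) (cs (lf (nat_lit 17) (nat_lit 184)) (rf (nat_lit 0)))))))))))))))))) q96846 (by decide +kernel)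
def q96856 : Q := Q.p (nat_lit 0x780000c000000000000000000000000000000000000000000000000000000000) (nat_lit 0x600003800000000000000000000000000000000000000000000000000000000) (nat_lit 3)
theorem c96856 : QOK q96856 := cut [q79022] ⟨c79022, trivial⟩ (nd (nat_lit 250) (nat_lit 0) (cs (lf (nat_lit 12) (nat_lit 227)) (rf (nat_lit 0)))) q96856 (by decide +kernel)
def q96878 : Q := Q.p (nat_lit 0x600001c000080000000000000000000000000000000000000000000000000000) (nat_lit 0x10000e0000100000000000000000000000000000000000000000000000000000) (nat_lit 3)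
theorem c96878 : QOK q96878 := cut [q79994] ⟨c79994, trivial⟩ (nd (nat_lit 233) (nat_lit 0) (cs (lf (nat_lit 17) (nat_lit 208)) (rf (nat_lit 0)))) q96878 (by decide +kernel)
def q96898 : Q := Q.p (nat_lit 0x6000008000020000080000000000000000000000000000000000000000) (nat_lit 0x10000000000040000300000400000000000000000000000000000) (nat_lit 3)
theorem c96898 : QOK q96898 := cut [q7236] ⟨c7236, trivial⟩ (nd (nat_lit 141) (nat_lit 0) (cs (rf (nat_lit 0)) (lf (nat_lit 28) (nat_lit 141)))) q96898 (by decide +kernel)
def q96906 : Q := Q.p (nat_lit 0x200003c000000000000000000000000000000000000000000000000000000000) (nat_lit 0x39000040000000000000000000000000000000000000000000000000000000000) (nat_lit 3)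
theorem c96906 : QOK q96906 := cut [q96905] ⟨c96905, trivial⟩ (nd (nat_lit 234) (nat_lit 0) (cs (lf (nat_lit 11) (nat_lit 230)) (rf (nat_lit 0)))) q96906 (by decide +kernel)
def q96982 : Q := Q.p (nat_lit 0x2000038000000000000000000000000000000000000000000000000000000000) (nat_lit 0x750000c0000000000000000000000000000000000000000000000000000000000) (nat_lit 4)
theorem c96982 : QOK q96982 := cut [q96981] ⟨c96981, trivial⟩ (nd (nat_lit 234) (nat_lit 0) (cs (lf (nat_lit 11) (nat_lit 230)) (rf (nat_lit 0)))) q96982 (by decide +kernel)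
def q97017 : Q := Q.p (nat_lit 0x2000038000040000000000000000000000000000000000000000000000000000) (nat_lit 0x50000c0000020000000000000000000000000000000000000000000000000000) (nat_lit 3)
theorem c97017 : QOK q97017 := cut [q97016] ⟨c97016, trivial⟩ (nd (nat_lit 234) (nat_lit 0) (cs (lf (nat_lit 11) (nat_lit 230)) (rf (nat_lit 0)))) q97017 (by decide +kernel)
def q97039 : Q := Q.p (nat_lit 0x200000e000008000020000000000000000000000000000000000000000000000) (nat_lit 0x40000340000dc000100000e40001d0000540000000000000000000000000000000000000000) (nat_lit 11)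
theorem c97039 : QOK q97039 := cut [q97030] ⟨c97030, trivial⟩ (nd (nat_lit 232) (nat_lit 0) (cs (lf (nat_lit 23) (nat_lit 206)) (nd (nat_lit 210) (nat_lit 0) (cs (lf (nat_lit 17) (nat_lit 207)) (nd (nat_lit 166) (nat_lit 0) (cs (lf (nat_lit 37) (nat_lit 165)) (nd (nat_lit 254) (nat_lit 0) (cs (lf (nat_lit 5) (nat_lit 229)) (nd (nat_lit 251) (nat_lit 0) (cs (lf (nat_lit 11) (nat_lit 228)) (nd (nat_lit 164) (nat_lit 0) (cs (lf (nat_lit 34) (nat_lit 163)) (nd (nat_lit 162) (nat_lit 0) (cs (lf (nat_lit 46) (nat_lit 162)) (nd (nat_lit 252) (nat_lit 0) (cs (lf (nat_lit 29) (nat_lit 185)) (nd (nat_lit 276) (nat_lit 0) (cs (lf (nat_lit 5) (nat_lit 251)) (rf (nat_lit 0)))))))))))))))))))) q97039 (by decide +kernel)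
def q97045 : Q := Q.p (nat_lit 0xe000008000020000000000000000000000000000000000000000000000) (nat_lit 0x1000010000007000010000180000700001c00001000000000000000000000000) (nat_lit 8)
theorem c97045 : QOK q97045 := cut [q1618] ⟨c1618, trivial⟩ (nd (nat_lit 206) (nat_lit 0) (cs (lf (nat_lit 18) (nat_lit 206)) (nd (nat_lit 204) (nat_lit 0) (cs (lf (nat_lit 1) (nat_lit 204)) (nd (nat_lit 163) (nat_lit 0) (cs (lf (nat_lit 29) (nat_lit 163)) (nd (nat_lit 142) (nat_lit 0) (cs (lf (nat_lit 34) (nat_lit 141)) (nd (nat_lit 141) (nat_lit 0) (cs (lf (nat_lit 35) (nat_lit 119)) (nd (nat_lit 119) (nat_lit 0) (cs (rf (nat_lit 0)) (lf (nat_lit 40) (nat_lit 118)))))))))))))) q97045 (by decide +kernel)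
def q97051 : Q := Q.p (nat_lit 0xe000008000020000000000000000000000000000000000000000000000) (nat_lit 0x10000100000070000100000c0000700001c00004000000000000000000000000) (nat_lit 8)
theorem c97051 : QOK q97051 := cut [q9839] ⟨c9839, trivial⟩ (nd (nat_lit 206) (nat_lit 0) (cs (lf (nat_lit 18) (nat_lit 206)) (nd (nat_lit 204) (nat_lit 0) (cs (lf (nat_lit 1) (nat_lit 204)) (nd (nat_lit 163) (nat_lit 0) (cs (lf (nat_lit 29) (nat_lit 163)) (nd (nat_lit 140) (nat_lit 0) (cs (lf (nat_lit 46) (nat_lit 140)) (nd (nat_lit 141) (nat_lit 0) (cs (lf (nat_lit 47) (nat_lit 118)) (nd (nat_lit 119) (nat_lit 0) (cs (rf (nat_lit 0)) (lf (nat_lit 40) (nat_lit 118)))))))))))))) q97051 (by decide +kernel)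
def q97067 : Q := Q.p (nat_lit 0x80000e000008000020000000000000000000000000000000000000000000000) (nat_lit 0x500001600000000000000000000000000000000000000000000000000000000000000) (nat_lit 3)
theorem c97067 : QOK q97067 := cut [q97066] ⟨c97066, trivial⟩ (nd (nat_lit 252) (nat_lit 0) (cs (lf (nat_lit 29) (nat_lit 185)) (rf (nat_lit 0)))) q97067 (by decide +kernel)
def q97071 : Q := Q.p (nat_lit 0x800006000008000020000000000000000000000000000000000000000000000) (nat_lit 0x400001c0000700000400000000010000040000100000000000000000000000000000000000000000) (nat_lit 6)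
theorem c97071 : QOK q97071 := cut [q93982] ⟨c93982, trivial⟩ (nd (nat_lit 272) (nat_lit 0) (cs (lf (nat_lit 40) (nat_lit 184)) (nd (nat_lit 164) (nat_lit 0) (cs (lf (nat_lit 34) (nat_lit 163)) (nd (nat_lit 273) (nat_lit 0) (cs (lf (nat_lit 41) (nat_lit 206)) (nd (nat_lit 295) (nat_lit 0) (cs (lf (nat_lit 35) (nat_lit 207)) (rf (nat_lit 0)))))))))) q97071 (by decide +kernel)
def q97076 : Q := Q.p (nat_lit 0x80000e000008000020000000000000000000000000000000000000000000000) (nat_lit 0x100001700000000000000050000140000000000000000000000000000000000000000) (nat_lit 5)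
theorem c97076 : QOK q97076 := cut [q97074] ⟨c97074, trivial⟩ (nd (nat_lit 164) (nat_lit 0) (cs (lf (nat_lit 34) (nat_lit 163)) (nd (nat_lit 162) (nat_lit 0) (cs (lf (nat_lit 46) (nat_lit 162)) (rf (nat_lit 0)))))) q97076 (by decide +kernel)
def q97097 : Q := Q.p (nat_lit 0x200007c000000000000000000000000000000000000000000000000000000000) (nat_lit 0x74000080000030000040000100000000000000000000000000000000000000000) (nat_lit 5)
theorem c97097 : QOK q97097 := cut [q97095] ⟨c97095, trivial⟩ (nd (nat_lit 208) (nat_lit 0) (cs (lf (nat_lit 22) (nat_lit 208)) (nd (nat_lit 164) (nat_lit 0) (cs (lf (nat_lit 25) (nat_lit 164)) (rf (nat_lit 0)))))) q97097 (by decide +kernel)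
def q97111 : Q := Q.p (nat_lit 0x200000e000004000000000000000000000000000000000000000000000000000) (nat_lit 0x1000001800072000000000000000000000000000000000000000000000000000) (nat_lit 4)
theorem c97111 : QOK q97111 := cut [q97110] ⟨c97110, trivial⟩ (nd (nat_lit 228) (nat_lit 0) (cs (lf (nat_lit 23) (nat_lit 205)) (rf (nat_lit 0)))) q97111 (by decide +kernel)
def q97113 : Q := Q.p (nat_lit 0x200001e000040000000000000000000000000000000000000000000000000000) (nat_lit 0x1800061800020000000000000000000000000000000000000000000000000000) (nat_lit 4)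
theorem c97113 : QOK q97113 := cut [q87131] ⟨c87131, trivial⟩ (nd (nat_lit 228) (nat_lit 0) (cs (lf (nat_lit 16) (nat_lit 206)) (nd (nat_lit 252) (nat_lit 0) (cs (lf (nat_lit 0) (nat_lit 227)) (rf (nat_lit 0)))))) q97113 (by decide +kernel)
def q97119 : Q := Q.p (nat_lit 0x200000f000000000000000000000000000000000000000000000000000000000) (nat_lit 0x1000000800070000000000000000000000000000000000000000000000000000) (nat_lit 3)
theorem c97119 : QOK q97119 := cut [q96761] ⟨c96761, trivial⟩ (nd (nat_lit 227) (nat_lit 0) (cs (lf (nat_lit 4) (nat_lit 227)) (rf (nat_lit 0)))) q97119 (by decide +kernel)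
def q97126 : Q := Q.p (nat_lit 0x200000e000008000000000000000000000000000000000000000000000000000) (nat_lit 0x400001c000300000c4000120000480000000000000000000000000000000000000000) (nat_lit 7)
theorem c97126 : QOK q97126 := cut [q81734] ⟨c81734, trivial⟩ (nd (nat_lit 232) (nat_lit 0) (cs (lf (nat_lit 23) (nat_lit 206)) (nd (nat_lit 210) (nat_lit 0) (cs (lf (nat_lit 17) (nat_lit 207)) (nd (nat_lit 166) (nat_lit 0) (cs (lf (nat_lit 37) (nat_lit 165)) (nd (nat_lit 251) (nat_lit 0) (cs (lf (nat_lit 11) (nat_lit 228)) (nd (nat_lit 252) (nat_lit 0) (cs (lf (nat_lit 6) (nat_lit 229)) (rf (nat_lit 0)))))))))))) q97126 (by decide +kernel)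
def q97173 : Q := Q.p (nat_lit 0x80000e000000000000000000000000000000000000000000000000000000000) (nat_lit 0x20000c40003000001c000040000100000000000000000000000000000000000000000) (nat_lit 6)
theorem c97173 : QOK q97173 := cut [q80198] ⟨c80198, trivial⟩ (nd (nat_lit 232) (nat_lit 0) (cs (lf (nat_lit 11) (nat_lit 228)) (nd (nat_lit 254) (nat_lit 0) (cs (lf (nat_lit 5) (nat_lit 229)) (rf (nat_lit 0)))))) q97173 (by decide +kernel)
def q97174 : Q := Q.p (nat_lit 0x200000800006000000000000000000000000000000000000000000000000000000000) (nat_lit 0x80000000001000000000010000040000100000000000000000000000000000000000000000) (nat_lit 3)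
theorem c97174 : QOK q97174 := cut [q10948] ⟨c10948, trivial⟩ (nd (nat_lit 208) (nat_lit 0) (cs (lf (nat_lit 30) (nat_lit 207)) (rf (nat_lit 0)))) q97174 (by decide +kernel)
def q97175 : Q := Q.p (nat_lit 0x200000800006000000000000000000000000000000000000000000000000000000000) (nat_lit 0x80000000000000000000018000040000100000000000000000000000000000000000000000) (nat_lit 3)
theorem c97175 : QOK q97175 := cut [q12953] ⟨c12953, trivial⟩ (nd (nat_lit 208) (nat_lit 0) (cs (lf (nat_lit 30) (nat_lit 207)) (rf (nat_lit 0)))) q97175 (by decide +kernel)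
def q97192 : Q := Q.p (nat_lit 0x3c000000000000000000000000000000000000000000000000000000000) (nat_lit 0x38000040000380000000000000000000000000000000000000000000000000000) (nat_lit 4)
theorem c97192 : QOK q97192 := cut [q97190] ⟨c97190, trivial⟩ (nd (nat_lit 212) (nat_lit 0) (cs (lf (nat_lit 16) (nat_lit 208)) (nd (nat_lit 256) (nat_lit 0) (cs (lf (nat_lit 4) (nat_lit 230)) (rf (nat_lit 0)))))) q97192 (by decide +kernel)
def q97205 : Q := Q.p (nat_lit 0x40000f000000000000000000000000000000000000000000000000000000000) (nat_lit 0x80001000000e000000000000000000000000000000000000000000000000000) (nat_lit 3)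
theorem c97205 : QOK q97205 := cut [q22541] ⟨c22541, trivial⟩ (nd (nat_lit 232) (nat_lit 0) (cs (lf (nat_lit 10) (nat_lit 228)) (rf (nat_lit 0)))) q97205 (by decide +kernel)
def q97224 : Q := Q.p (nat_lit 0x80001e000000000000000000000000000000000000000000000000000000000) (nat_lit 0x1d000020000000000000000000000000000000000000000000000000000000000) (nat_lit 3)
theorem c97224 : QOK q97224 := cut [q97223] ⟨c97223, trivial⟩ (nd (nat_lit 233) (nat_lit 0) (cs (lf (nat_lit 10) (nat_lit 229)) (rf (nat_lit 0)))) q97224 (by decide +kernel)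
def q97231 : Q := Q.p (nat_lit 0x80000e000000000000000000000000000000000000000000000000000000000) (nat_lit 0x140003000001c000000000000000000000000000000000000000000000000000) (nat_lit 4)
theorem c97231 : QOK q97231 := cut [q91992] ⟨c91992, trivial⟩ (nd (nat_lit 232) (nat_lit 0) (cs (lf (nat_lit 11) (nat_lit 228)) (nd (nat_lit 233) (nat_lit 0) (cs (lf (nat_lit 10) (nat_lit 229)) (rf (nat_lit 0)))))) q97231 (by decide +kernel)
def q97235 : Q := Q.p (nat_lit 0x100000800002000008000020000000000000000000000000000000000000000000000000000) (nat_lit 0x40000200000000000000004000010000040000000000000000000000000000000000000000000000) (nat_lit 3)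
theorem c97235 : QOK q97235 := cut [q79186] ⟨c79186, trivial⟩ (nd (nat_lit 297) (nat_lit 0) (cs (lf (nat_lit 41) (nat_lit 230)) (rf (nat_lit 0)))) q97235 (by decide +kernel)
def q97244 : Q := Q.p (nat_lit 0x28000180000000000000000000000000000000000000000000000) (nat_lit 0x54000600000000000000000000000000000000000000000000000) (nat_lit 3)
theorem c97244 : QOK q97244 := cut [q742] ⟨c742, trivial⟩ (nd (nat_lit 208) (nat_lit 0) (cs (lf (nat_lit 12) (nat_lit 184)) (rf (nat_lit 0)))) q97244 (by decide +kernel)
def q97247 : Q := Q.p (nat_lit 0x2000008000028000180000000000000000000000000000000000000000000000) (nat_lit 0xc4000070000100000000000000000000000000000000000000000) (nat_lit 4)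
theorem c97247 : QOK q97247 := cut [q97246] ⟨c97246, trivial⟩ (nd (nat_lit 186) (nat_lit 0) (cs (lf (nat_lit 47) (nat_lit 164)) (rf (nat_lit 0)))) q97247 (by decide +kernel)
def q97285 : Q := Q.p (nat_lit 0x20000080000200000c000000000000000000000000000000000000000000000000000000000) (nat_lit 0x100000c0000100000000001000000000000000000000000000000000000000000000000000000000000000) (nat_lit 3)
theorem c97285 : QOK q97285 := cut [q15793] ⟨c15793, trivial⟩ (nd (nat_lit 319) (nat_lit 0) (cs (lf (nat_lit 46) (nat_lit 230)) (rf (nat_lit 0)))) q97285 (by decide +kernel)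
def q97292 : Q := Q.p (nat_lit 0x200000c000020000080000200000000000000000000000000000000000000000) (nat_lit 0x200000800000000000000010000040000000000800000000000000000000000000000000000) (nat_lit 3)
theorem c97292 : QOK q97292 := cut [q6964] ⟨c6964, trivial⟩ (nd (nat_lit 208) (nat_lit 0) (cs (lf (nat_lit 36) (nat_lit 142)) (rf (nat_lit 0)))) q97292 (by decide +kernel)
def q97301 : Q := Q.p (nat_lit 0x200003c000000000000000000000000000000000000000000000000000000000) (nat_lit 0x200000800019800000000018000040000000000000000000000000000000000000000000000) (nat_lit 5)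
theorem c97301 : QOK q97301 := cut [q97298] ⟨c97298, trivial⟩ (nd (nat_lit 208) (nat_lit 0) (cs (lf (nat_lit 23) (nat_lit 207)) (nd (nat_lit 255) (nat_lit 0) (cs (lf (nat_lit 5) (nat_lit 230)) (nd (nat_lit 275) (nat_lit 0) (cs (lf (nat_lit 42) (nat_lit 208)) (rf (nat_lit 0)))))))) q97301 (by decide +kernel)
def q97306 : Q := Q.p (nat_lit 0x78000000000000000000000000000000000000000000000000000000000) (nat_lit 0x4000030000004000380000200000800000000000000000000000000000000000000000) (nat_lit 5)
theorem c97306 : QOK q97306 := cut [q97303] ⟨c97303, trivial⟩ (nd (nat_lit 212) (nat_lit 0) (cs (lf (nat_lit 17) (nat_lit 209)) (nd (nat_lit 211) (nat_lit 0) (cs (lf (nat_lit 12) (nat_lit 208)) (nd (nat_lit 256) (nat_lit 0) (cs (lf (nat_lit 5) (nat_lit 231)) (rf (nat_lit 0)))))))) q97306 (by decide +kernel)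
def q97319 : Q := Q.p (nat_lit 0xc00006000000000000000000000000000000000000000000000000000000000000000) (nat_lit 0x300019000000000000000000000000000000000000000000000000000000000000000) (nat_lit 3)
theorem c97319 : QOK q97319 := cut [q97318] ⟨c97318, trivial⟩ (nd (nat_lit 273) (nat_lit 0) (cs (lf (nat_lit 12) (nat_lit 250)) (rf (nat_lit 0)))) q97319 (by decide +kernel)
def q97323 : Q := Q.p (nat_lit 0x1e00000800000000000000000000000000000000000000000000000000000000000000) (nat_lit 0x400001c0002000000000002000008000000000000000000000000000000000000000000000000000) (nat_lit 4)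
theorem c97323 : QOK q97323 := cut [q22720] ⟨c22720, trivial⟩ (nd (nat_lit 295) (nat_lit 0) (cs (lf (nat_lit 11) (nat_lit 272)) (nd (nat_lit 296) (nat_lit 0) (cs (lf (nat_lit 6) (nat_lit 273)) (rf (nat_lit 0)))))) q97323 (by decide +kernel)
def q97329 : Q := Q.p (nat_lit 0x600007800008000000000000000000000000000000000000000000000000000000000) (nat_lit 0x40000100000000000000003000008000000000000000000000000000000000000000000000000000) (nat_lit 3)
theorem c97329 : QOK q97329 := cut [q95631] ⟨c95631, trivial⟩ (nd (nat_lit 296) (nat_lit 0) (cs (lf (nat_lit 30) (nat_lit 230)) (rf (nat_lit 0)))) q97329 (by decide +kernel)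
def q97337 : Q := Q.p (nat_lit 0xc00006000000000000000000000000000000000000000000000000000000000000000) (nat_lit 0x1300018000000000000000000000000000000000000000000000000000000000000000) (nat_lit 3)
theorem c97337 : QOK q97337 := cut [q97336] ⟨c97336, trivial⟩ (nd (nat_lit 273) (nat_lit 0) (cs (lf (nat_lit 12) (nat_lit 250)) (rf (nat_lit 0)))) q97337 (by decide +kernel)
def q97347 : Q := Q.p (nat_lit 0xc00002000008000000000000000000000000000000000000000000000000000000000) (nat_lit 0x10000040000100000000001000000000020000000000000000000000000000000000000000000000000000) (nat_lit 3)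
theorem c97347 : QOK q97347 := cut [q15828] ⟨c15828, trivial⟩ (nd (nat_lit 296) (nat_lit 0) (cs (lf (nat_lit 36) (nat_lit 208)) (rf (nat_lit 0)))) q97347 (by decide +kernel)
def q97351 : Q := Q.p (nat_lit 0x1800002000008000000000000000000000000000000000000000000000000000000000) (nat_lit 0x40000100000400000000004000000000020000000000000000000000000000000000000000000000000000) (nat_lit 3)
theorem c97351 : QOK q97351 := cut [q97350] ⟨c97350, trivial⟩ (nd (nat_lit 298) (nat_lit 0) (cs (lf (nat_lit 24) (nat_lit 209)) (rf (nat_lit 0)))) q97351 (by decide +kernel)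
def q97353 : Q := Q.p (nat_lit 0x300000c000038000040000000000000000000000000000000000000000000000000000) (nat_lit 0x380000600000000000000000000000000000000000000000000000) (nat_lit 3)
theorem c97353 : QOK q97353 := cut [q97352] ⟨c97352, trivial⟩ (nd (nat_lit 211) (nat_lit 0) (cs (lf (nat_lit 35) (nat_lit 188)) (rf (nat_lit 0)))) q97353 (by decide +kernel)
def q97369 : Q := Q.p (nat_lit 0x3c000000000000000000000000000000000000000000000000000000000) (nat_lit 0x1c0000200001c000000000000000000000000000000000000000000000000000) (nat_lit 4)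
theorem c97369 : QOK q97369 := cut [q97368] ⟨c97368, trivial⟩ (nd (nat_lit 207) (nat_lit 0) (cs (lf (nat_lit 22) (nat_lit 207)) (rf (nat_lit 0)))) q97369 (by decide +kernel)
def q97372 : Q := Q.p (nat_lit 0x2000078000000000000000000000000000000000000000000000000000000000) (nat_lit 0x800000000080000070000100000400000000000000000000000000000000000000000) (nat_lit 4)
theorem c97372 : QOK q97372 := cut [q95343] ⟨c95343, trivial⟩ (nd (nat_lit 209) (nat_lit 0) (cs (lf (nat_lit 23) (nat_lit 208)) (nd (nat_lit 210) (nat_lit 0) (cs (lf (nat_lit 18) (nat_lit 209)) (rf (nat_lit 0)))))) q97372 (by decide +kernel)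
def q97408 : Q := Q.p (nat_lit 0xe00002000000000000000000000000000000000000000000000000000000000000000) (nat_lit 0x10001d000000000000000000000000000000000000000000000000000000000000000) (nat_lit 3)
theorem c97408 : QOK q97408 := cut [q97318] ⟨c97318, trivial⟩ (nd (nat_lit 254) (nat_lit 0) (cs (lf (nat_lit 12) (nat_lit 250)) (rf (nat_lit 0)))) q97408 (by decide +kernel)
def q97409 : Q := Q.p (nat_lit 0xe00002000000000000000000000000000000000000000000000000000000000000000) (nat_lit 0x110001c000000000000000000000000000000000000000000000000000000000000000) (nat_lit 3)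
theorem c97409 : QOK q97409 := cut [q97336] ⟨c97336, trivial⟩ (nd (nat_lit 254) (nat_lit 0) (cs (lf (nat_lit 12) (nat_lit 250)) (rf (nat_lit 0)))) q97409 (by decide +kernel)
def q97411 : Q := Q.p (nat_lit 0x1e00000000000000000000000000000000000000000000000000000000000000000000) (nat_lit 0x1c000200001c000000000000000000000000000000000000000000000000000000000000000) (nat_lit 4)
theorem c97411 : QOK q97411 := cut [q2185] ⟨c2185, trivial⟩ (nd (nat_lit 255) (nat_lit 0) (cs (lf (nat_lit 16) (nat_lit 251)) (nd (nat_lit 277) (nat_lit 0) (cs (rf (nat_lit 0)) (lf (nat_lit 17) (nat_lit 252)))))) q97411 (by decide +kernel)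
def q97413 : Q := Q.p (nat_lit 0x1e00000000000000000000000000000000000000000000000000000000000000000000) (nat_lit 0x200001dc00000000000000000000000000000000000000000000000000000000000000) (nat_lit 4)
theorem c97413 : QOK q97413 := cut [q13423] ⟨c13423, trivial⟩ (nd (nat_lit 255) (nat_lit 0) (cs (lf (nat_lit 16) (nat_lit 251)) (nd (nat_lit 277) (nat_lit 0) (cs (lf (nat_lit 17) (nat_lit 252)) (rf (nat_lit 0)))))) q97413 (by decide +kernel)
def q97429 : Q := Q.p (nat_lit 0x200001c000040000000000000000000000000000000000000000000000000000) (nat_lit 0xc000003000080000000000000000000000000000000000000000000000000000) (nat_lit 3)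
theorem c97429 : QOK q97429 := cut [q97428] ⟨c97428, trivial⟩ (nd (nat_lit 229) (nat_lit 0) (cs (lf (nat_lit 17) (nat_lit 207)) (rf (nat_lit 0)))) q97429 (by decide +kernel)
def q97434 : Q := Q.p (nat_lit 0x80000200003c000000000000000000000000000000000000000000000000000000000) (nat_lit 0x38000040000100000000000000000000000000000000000000000) (nat_lit 3)
theorem c97434 : QOK q97434 := cut [q3985] ⟨c3985, trivial⟩ (nd (nat_lit 208) (nat_lit 0) (cs (rf (nat_lit 0)) (lf (nat_lit 23) (nat_lit 207)))) q97434 (by decide +kernel)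
def q97443 : Q := Q.p (nat_lit 0x2000078000000000000000000000000000000000000000000000000000000000) (nat_lit 0x4000080000700000000000000000000000000000000000000000000000000000) (nat_lit 3)
theorem c97443 : QOK q97443 := cut [q97226] ⟨c97226, trivial⟩ (nd (nat_lit 235) (nat_lit 0) (cs (lf (nat_lit 10) (nat_lit 231)) (rf (nat_lit 0)))) q97443 (by decide +kernel)
def q97448 : Q := Q.p (nat_lit 0x200003c000000000000000000000000000000000000000000000000000000000) (nat_lit 0xdc00003000000000000000000000000000000000000000000000000000000000) (nat_lit 4)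
theorem c97448 : QOK q97448 := cut [q97428] ⟨c97428, trivial⟩ (nd (nat_lit 251) (nat_lit 0) (cs (lf (nat_lit 10) (nat_lit 229)) (nd (nat_lit 229) (nat_lit 0) (cs (lf (nat_lit 11) (nat_lit 228)) (rf (nat_lit 0)))))) q97448 (by decide +kernel)
def q97482 : Q := Q.p (nat_lit 0x80000200003c000000000000000000000000000000000000000000000000000000000) (nat_lit 0x1800000000018000040000000000000000000000000000000000000000000000) (nat_lit 3)
theorem c97482 : QOK q97482 := cut [q96506] ⟨c96506, trivial⟩ (nd (nat_lit 252) (nat_lit 0) (cs (lf (nat_lit 11) (nat_lit 229)) (rf (nat_lit 0)))) q97482 (by decide +kernel)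
def q97489 : Q := Q.p (nat_lit 0x80000200003c000000000000000000000000000000000000000000000000000000000) (nat_lit 0x40000020001c0000100000400000000000000000000000000000000000000000) (nat_lit 4)
theorem c97489 : QOK q97489 := cut [q85515] ⟨c85515, trivial⟩ (nd (nat_lit 211) (nat_lit 0) (cs (lf (nat_lit 17) (nat_lit 208)) (nd (nat_lit 210) (nat_lit 0) (cs (lf (nat_lit 12) (nat_lit 207)) (rf (nat_lit 0)))))) q97489 (by decide +kernel)
def q97498 : Q := Q.p (nat_lit 0x2000038000000000000000000000000000000000000000000000000000000000) (nat_lit 0x50000c0000370000000000000000000000000000000000000000000000000000) (nat_lit 5)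
theorem c97498 : QOK q97498 := cut [q97496] ⟨c97496, trivial⟩ (nd (nat_lit 234) (nat_lit 0) (cs (lf (nat_lit 11) (nat_lit 230)) (nd (nat_lit 212) (nat_lit 0) (cs (lf (nat_lit 17) (nat_lit 209)) (rf (nat_lit 0)))))) q97498 (by decide +kernel)
def q97511 : Q := Q.p (nat_lit 0x80000b000018000000000000000000000000000000000000000000000000000000000) (nat_lit 0x10000064000018000040000000000000000000000000000000000000000000000) (nat_lit 4)
theorem c97511 : QOK q97511 := cut [q96506] ⟨c96506, trivial⟩ (nd (nat_lit 233) (nat_lit 0) (cs (lf (nat_lit 6) (nat_lit 230)) (nd (nat_lit 230) (nat_lit 0) (cs (lf (nat_lit 5) (nat_lit 230)) (rf (nat_lit 0)))))) q97511 (by decide +kernel)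
def q97534 : Q := Q.p (nat_lit 0x1c00003000008000000000000000000000000000000000000000000000000000000000) (nat_lit 0x40000180006000000000000000000000000000000000000000000000000000000000000000000000) (nat_lit 3)
theorem c97534 : QOK q97534 := cut [q14954] ⟨c14954, trivial⟩ (nd (nat_lit 296) (nat_lit 0) (cs (lf (nat_lit 30) (nat_lit 230)) (rf (nat_lit 0)))) q97534 (by decide +kernel)
def q97544 : Q := Q.p (nat_lit 0x300000f000008000000000000000000000000000000000000000000000000000000000) (nat_lit 0x100000400000000000000060000080000000000000000000000000000000000000000000000000000) (nat_lit 3)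
theorem c97544 : QOK q97544 := cut [q97543] ⟨c97543, trivial⟩ (nd (nat_lit 298) (nat_lit 0) (cs (lf (nat_lit 42) (nat_lit 231)) (rf (nat_lit 0)))) q97544 (by decide +kernel)
def q97550 : Q := Q.p (nat_lit 0x1800003000000000000000000000000000000000000000000000000000000000000000) (nat_lit 0x6000004c00000000000000000000000000000000000000000000000000000000000000) (nat_lit 3)
theorem c97550 : QOK q97550 := cut [q97549] ⟨c97549, trivial⟩ (nd (nat_lit 277) (nat_lit 0) (cs (lf (nat_lit 18) (nat_lit 252)) (rf (nat_lit 0)))) q97550 (by decide +kernel)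
def q97556 : Q := Q.p (nat_lit 0x1800007800008000000000000000000000000000000000000000000000000000000000) (nat_lit 0x3000000000370000c0000300000000000000000000000000000000000000000000000) (nat_lit 6)
theorem c97556 : QOK q97556 := cut [q97555] ⟨c97555, trivial⟩ (nd (nat_lit 272) (nat_lit 0) (cs (lf (nat_lit 10) (nat_lit 250)) (rf (nat_lit 0)))) q97556 (by decide +kernel)
def q97561 : Q := Q.p (nat_lit 0x1800007800008000000000000000000000000000000000000000000000000000000000) (nat_lit 0x700038000007000000000000000000000000000000000000000000000000000000000) (nat_lit 5)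
theorem c97561 : QOK q97561 := cut [q97558] ⟨c97558, trivial⟩ (nd (nat_lit 228) (nat_lit 0) (cs (lf (nat_lit 22) (nat_lit 228)) (nd (nat_lit 273) (nat_lit 0) (cs (lf (nat_lit 11) (nat_lit 250)) (nd (nat_lit 255) (nat_lit 0) (cs (lf (nat_lit 10) (nat_lit 251)) (rf (nat_lit 0)))))))) q97561 (by decide +kernel)
def q97580 : Q := Q.p (nat_lit 0x300000800002000008000000000000000000000000000000000000000000000000000000000) (nat_lit 0x100000480007000000000000000020000000000000000000000000000000000000000000000000000) (nat_lit 4)
theorem c97580 : QOK q97580 := cut [q16976] ⟨c16976, trivial⟩ (nd (nat_lit 298) (nat_lit 0) (cs (lf (nat_lit 29) (nat_lit 231)) (nd (nat_lit 276) (nat_lit 0) (cs (lf (nat_lit 24) (nat_lit 209)) (rf (nat_lit 0)))))) q97580 (by decide +kernel)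
def q97583 : Q := Q.p (nat_lit 0x800002000008000020000000000000000000000000000000000000000000000000000) (nat_lit 0x400001000004000000000040000180000400000000000000000000000000000000000000000) (nat_lit 4)
theorem c97583 : QOK q97583 := cut [q90502] ⟨c90502, trivial⟩ (nd (nat_lit 188) (nat_lit 0) (cs (lf (nat_lit 34) (nat_lit 187)) (nd (nat_lit 187) (nat_lit 0) (cs (lf (nat_lit 35) (nat_lit 165)) (rf (nat_lit 0)))))) q97583 (by decide +kernel)
def q97592 : Q := Q.p (nat_lit 0x200000800002000008000000000000000000000000000000000000000000000000000000000) (nat_lit 0x100000c0000100000000004000010000040000000000000000000000000000000000000000000000000000) (nat_lit 4)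
theorem c97592 : QOK q97592 := cut [q97591] ⟨c97591, trivial⟩ (nd (nat_lit 318) (nat_lit 0) (cs (lf (nat_lit 40) (nat_lit 230)) (rf (nat_lit 0)))) q97592 (by decide +kernel)
def q97609 : Q := Q.p (nat_lit 0x80000e00003c000000000000000000000000000000000000000000000000000000000) (nat_lit 0x10000000000000001c0000300000400000000000000000000000000000000000000000) (nat_lit 4)
theorem c97609 : QOK q97609 := cut [q82055] ⟨c82055, trivial⟩ (nd (nat_lit 188) (nat_lit 0) (cs (lf (nat_lit 37) (nat_lit 187)) (rf (nat_lit 0)))) q97609 (by decide +kernel)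
def q97611 : Q := Q.p (nat_lit 0x2c0000300000c000000000000000000000000000000000000000000000000000000000) (nat_lit 0x60000180001000000000000000000000000000000000000000000000000000000000000000000000) (nat_lit 3)
theorem c97611 : QOK q97611 := cut [q96357] ⟨c96357, trivial⟩ (nd (nat_lit 296) (nat_lit 0) (cs (lf (nat_lit 30) (nat_lit 230)) (rf (nat_lit 0)))) q97611 (by decide +kernel)
def q97679 : Q := Q.p (nat_lit 0x80000200000800002000000000000000000000000000000000000000000000000000000000000000) (nat_lit 0x4000030000040000000000400001000004000000000000000000000000000000000000000000000000000000000) (nat_lit 4)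
theorem c97679 : QOK q97679 := cut [q21907] ⟨c21907, trivial⟩ (nd (nat_lit 340) (nat_lit 0) (cs (lf (nat_lit 40) (nat_lit 252)) (nd (nat_lit 252) (nat_lit 0) (cs (lf (nat_lit 47) (nat_lit 230)) (rf (nat_lit 0)))))) q97679 (by decide +kernel)
def q97691 : Q := Q.p (nat_lit 0x40000080000200000800002000000000000000000000000000000000000000000000000000000000000000) (nat_lit 0x10000020000000000000000400001000004000000000000000000000000000000000000000000000000000000000) (nat_lit 3)
theorem c97691 : QOK q97691 := cut [q97690] ⟨c97690, trivial⟩ (nd (nat_lit 341) (nat_lit 0) (cs (lf (nat_lit 29) (nat_lit 275)) (rf (nat_lit 0)))) q97691 (by decide +kernel)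
def q97704 : Q := Q.p (nat_lit 0x100000800003000018000000000000000000000000000000000000000000000000000000000) (nat_lit 0xc0000200000000004000064000000000000000000000000000000000000000000000000000000000) (nat_lit 4)
theorem c97704 : QOK q97704 := cut [q90932] ⟨c90932, trivial⟩ (nd (nat_lit 233) (nat_lit 0) (cs (lf (nat_lit 6) (nat_lit 230)) (nd (nat_lit 297) (nat_lit 0) (cs (lf (nat_lit 41) (nat_lit 230)) (rf (nat_lit 0)))))) q97704 (by decide +kernel)
def q97710 : Q := Q.p (nat_lit 0x100000c0000f000004000000000000000000000000000000000000000000000000000000000) (nat_lit 0x20000080007000000000000000000000000000000000000000000000000000000000000000000000) (nat_lit 3)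
theorem c97710 : QOK q97710 := cut [q96357] ⟨c96357, trivial⟩ (nd (nat_lit 277) (nat_lit 0) (cs (lf (nat_lit 5) (nat_lit 252)) (rf (nat_lit 0)))) q97710 (by decide +kernel)
def q97727 : Q := Q.p (nat_lit 0x800007000018000000000000000000000000000000000000000000000000000000000) (nat_lit 0xe00003c0003300008c00007000020000080000000000000000000000000000000000000000000000) (nat_lit 10)
theorem c97727 : QOK q97727 := cut [q97719] ⟨c97719, trivial⟩ (nd (nat_lit 251) (nat_lit 0) (cs (lf (nat_lit 12) (nat_lit 228)) (nd (nat_lit 297) (nat_lit 0) (cs (lf (nat_lit 30) (nat_lit 231)) (nd (nat_lit 296) (nat_lit 0) (cs (lf (nat_lit 41) (nat_lit 230)) (nd (nat_lit 276) (nat_lit 0) (cs (lf (nat_lit 5) (nat_lit 251)) (nd (nat_lit 187) (nat_lit 0) (cs (lf (nat_lit 25) (nat_lit 187)) (nd (nat_lit 295) (nat_lit 0) (cs (lf (nat_lit 12) (nat_lit 272)) (nd (nat_lit 273) (nat_lit 0) (cs (lf (nat_lit 11) (nat_lit 250)) (nd (nat_lit 229) (nat_lit 0) (cs (lf (nat_lit 23) (nat_lit 228)) (rf (nat_lit 0)))))))))))))))))) q97727 (by decide +kernel)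
def q97741 : Q := Q.p (nat_lit 0xc00002000018000000000000000000000000000000000000000000000000000000000) (nat_lit 0x100001000004000000000060000180000600000000000000000000000000000000000000000) (nat_lit 5)
theorem c97741 : QOK q97741 := cut [q97738] ⟨c97738, trivial⟩ (nd (nat_lit 209) (nat_lit 0) (cs (lf (nat_lit 41) (nat_lit 208)) (nd (nat_lit 188) (nat_lit 0) (cs (lf (nat_lit 34) (nat_lit 187)) (nd (nat_lit 187) (nat_lit 0) (cs (lf (nat_lit 35) (nat_lit 165)) (rf (nat_lit 0)))))))) q97741 (by decide +kernel)
def q97763 : Q := Q.p (nat_lit 0x180000c0000000000000000000000000000000000000000000000000000) (nat_lit 0x26000300000000000000000000000000000000000000000000000000000) (nat_lit 3)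
theorem c97763 : QOK q97763 := cut [q7962] ⟨c7962, trivial⟩ (nd (nat_lit 230) (nat_lit 0) (cs (lf (nat_lit 12) (nat_lit 207)) (rf (nat_lit 0)))) q97763 (by decide +kernel)
def q97774 : Q := Q.p (nat_lit 0xc00006000000000000000000000000000000000000000000000000000000000000000) (nat_lit 0x1300009000000000000000000000000000000000000000000000000000000000000000) (nat_lit 3)
theorem c97774 : QOK q97774 := cut [q97773] ⟨c97773, trivial⟩ (nd (nat_lit 273) (nat_lit 0) (cs (lf (nat_lit 12) (nat_lit 250)) (rf (nat_lit 0)))) q97774 (by decide +kernel)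
def q97775 : Q := Q.p (nat_lit 0xc000038000000000100000000000000000000000000000000000000000000000) (nat_lit 0x1000000000006000180000200000400000000000000000000000000000000000000000) (nat_lit 4)
theorem c97775 : QOK q97775 := cut [q82055] ⟨c82055, trivial⟩ (nd (nat_lit 230) (nat_lit 0) (cs (lf (nat_lit 0) (nat_lit 229)) (rf (nat_lit 0)))) q97775 (by decide +kernel)
def q97802 : Q := Q.p (nat_lit 0x2000008000020000080000000000000000000000000000000000000000000000) (nat_lit 0x1000004000010000000000100000600001000000000000000000000000000000000000) (nat_lit 4)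
theorem c97802 : QOK q97802 := cut [q91185] ⟨c91185, trivial⟩ (nd (nat_lit 166) (nat_lit 0) (cs (lf (nat_lit 34) (nat_lit 165)) (nd (nat_lit 165) (nat_lit 0) (cs (lf (nat_lit 35) (nat_lit 143)) (rf (nat_lit 0)))))) q97802 (by decide +kernel)
def q97845 : Q := Q.p (nat_lit 0x20000380000c0000000000000000000000000000000000000000000000000000) (nat_lit 0x2000018000006000000000100000400000000000000000000000000000000000000000) (nat_lit 4)
theorem c97845 : QOK q97845 := cut [q10732] ⟨c10732, trivial⟩ (nd (nat_lit 188) (nat_lit 0) (cs (lf (nat_lit 36) (nat_lit 165)) (nd (nat_lit 230) (nat_lit 0) (cs (lf (nat_lit 12) (nat_lit 207)) (rf (nat_lit 0)))))) q97845 (by decide +kernel)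
def q97858 : Q := Q.p (nat_lit 0xc000020000080000200000000000000000000000000000000000000000) (nat_lit 0x10000000000100000c00001000000000000000000000000000000) (nat_lit 3)
theorem c97858 : QOK q97858 := cut [q97268] ⟨c97268, trivial⟩ (nd (nat_lit 142) (nat_lit 0) (cs (lf (nat_lit 46) (nat_lit 142)) (rf (nat_lit 0)))) q97858 (by decide +kernel)
def q97889 : Q := Q.p (nat_lit 0x200000c000070000000000000000000000000000000000000000000000000000) (nat_lit 0x380000e0001d800070000180000080000000000000000000000000000000000000000000000) (nat_lit 9)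
theorem c97889 : QOK q97889 := cut [q93184] ⟨c93184, trivial⟩ (nd (nat_lit 275) (nat_lit 0) (cs (lf (nat_lit 42) (nat_lit 208)) (nd (nat_lit 211) (nat_lit 0) (cs (lf (nat_lit 6) (nat_lit 208)) (nd (nat_lit 233) (nat_lit 0) (cs (lf (nat_lit 5) (nat_lit 208)) (nd (nat_lit 274) (nat_lit 0) (cs (lf (nat_lit 41) (nat_lit 208)) (nd (nat_lit 252) (nat_lit 0) (cs (lf (nat_lit 35) (nat_lit 186)) (nd (nat_lit 232) (nat_lit 0) (cs (lf (nat_lit 11) (nat_lit 229)) (nd (nat_lit 255) (nat_lit 0) (cs (lf (nat_lit 5) (nat_lit 230)) (rf (nat_lit 0)))))))))))))))) q97889 (by decide +kernel)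
def q97893 : Q := Q.p (nat_lit 0x2000018000060000000000000000000000000000000000000000000000000000) (nat_lit 0x300000c00005000000000000000080000200000800000000000000000000000000000000000) (nat_lit 5)
theorem c97893 : QOK q97893 := cut [q94631] ⟨c94631, trivial⟩ (nd (nat_lit 275) (nat_lit 0) (cs (lf (nat_lit 30) (nat_lit 209)) (nd (nat_lit 274) (nat_lit 0) (cs (lf (nat_lit 41) (nat_lit 208)) (nd (nat_lit 187) (nat_lit 0) (cs (lf (nat_lit 40) (nat_lit 186)) (rf (nat_lit 0)))))))) q97893 (by decide +kernel)
def q97917 : Q := Q.p (nat_lit 0x800002000008000020000000000000000000000000000000000000000000000000000) (nat_lit 0x4000010000040000000000100000c0000100000000000000000000000000000000000000000) (nat_lit 4)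
theorem c97917 : QOK q97917 := cut [q90502] ⟨c90502, trivial⟩ (nd (nat_lit 186) (nat_lit 0) (cs (lf (nat_lit 46) (nat_lit 186)) (nd (nat_lit 187) (nat_lit 0) (cs (lf (nat_lit 47) (nat_lit 164)) (rf (nat_lit 0)))))) q97917 (by decide +kernel)
def q97944 : Q := Q.p (nat_lit 0xe00002400008000000000000000000000000000000000000000000000000000000000) (nat_lit 0x140001100001800016000008000020000000000000000000000000000000000000000000000) (nat_lit 6)
theorem c97944 : QOK q97944 := cut [q23538] ⟨c23538, trivial⟩ (nd (nat_lit 251) (nat_lit 0) (cs (lf (nat_lit 18) (nat_lit 250)) (nd (nat_lit 232) (nat_lit 0) (cs (lf (nat_lit 14) (nat_lit 228)) (nd (nat_lit 229) (nat_lit 0) (cs (lf (nat_lit 8) (nat_lit 228)) (nd (nat_lit 207) (nat_lit 0) (cs (lf (nat_lit 29) (nat_lit 207)) (rf (nat_lit 0)))))))))) q97944 (by decide +kernel)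
def q97948 : Q := Q.p (nat_lit 0xc00002000008000020000000000000000000000000000000000000000000000000000) (nat_lit 0x10000000000100000c0000100000000000000000000000000000000000000000) (nat_lit 3)
theorem c97948 : QOK q97948 := cut [q97947] ⟨c97947, trivial⟩ (nd (nat_lit 186) (nat_lit 0) (cs (lf (nat_lit 46) (nat_lit 186)) (rf (nat_lit 0)))) q97948 (by decide +kernel)
def q97954 : Q := Q.p (nat_lit 0x20000080000200000c000000000000000000000000000000000000000000000000000000000) (nat_lit 0xc000010000000000c000013000040000000000000000000000000000000000000000000000000000) (nat_lit 5)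
theorem c97954 : QOK q97954 := cut [q79307] ⟨c79307, trivial⟩ (nd (nat_lit 296) (nat_lit 0) (cs (lf (nat_lit 41) (nat_lit 230)) (nd (nat_lit 232) (nat_lit 0) (cs (lf (nat_lit 35) (nat_lit 209)) (nd (nat_lit 254) (nat_lit 0) (cs (lf (nat_lit 30) (nat_lit 231)) (rf (nat_lit 0)))))))) q97954 (by decide +kernel)

end Crest.Agent.H3.Snaky.CR
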