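import Crest.Agent.H3.Snaky.Cert
import Crest.Agent.H3.Snaky.CR.CR0
import Crest.Agent.H3.Snaky.CR.CR1
import Crest.Agent.H3.Snaky.CR.CR2
import Crest.Agent.H3.Snaky.CR.CR3
import Crest.Agent.H3.Snaky.CR.CR4
import Crest.Agent.H3.Snaky.CR.CR5
import Crest.Agent.H3.Snaky.CR.CR6
import Crest.Agent.H3.Snaky.CR.CR9
import Crest.Agent.H3.Snaky.CR.CR12
import Crest.Agent.H3.Snaky.CR.CR15
import Crest.Agent.H3.Snaky.CR.CR16
import Crest.Agent.H3.Snaky.CR.CR17
import Crest.Agent.H3.Snaky.CR.CR18
import Crest.Agent.H3.Snaky.CR.CR19

set_option autoImplicit false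
set_option maxRecDepth 100000

namespace Crest.Agent.H3.Snaky.CR

open T

def q97957 : Q := Q.p (nat_lit 0x80000200000c000000000000000000000000000000000000000000000000000000000) (nat_lit 0x200000000001000000000010000040000100000000000000000000000000000000000000000) (nat_lit 3)
theorem c97957 : QOK q97957 := cut [q3983] ⟨c3983, trivial⟩ (nd (nat_lit 208) (nat_lit 0) (cs (lf (nat_lit 42) (nat_lit 208)) (rf (nat_lit 0)))) q97957 (by decide +kernel)
def q97963 : Q := Q.p (nat_lit 0x200001e000000000000000000000000000000000000000000000000000000000) (nat_lit 0x1dc0006000038c000000000000000000000000000000000000000000000000000) (nat_lit 7)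
theorem c97963 : QOK q97963 := cut [q79309] ⟨c79309, trivial⟩ (nd (nat_lit 206) (nat_lit 0) (cs (lf (nat_lit 22) (nat_lit 206)) (nd (nat_lit 250) (nat_lit 0) (cs (lf (nat_lit 10) (nat_lit 228)) (nd (nat_lit 255) (nat_lit 0) (cs (lf (nat_lit 4) (nat_lit 229)) (nd (nat_lit 233) (nat_lit 0) (cs (lf (nat_lit 5) (nat_lit 230)) (nd (nat_lit 234) (nat_lit 0) (cs (lf (nat_lit 11) (nat_lit 230)) (rf (nat_lit 0)))))))))))) q97963 (by decide +kernel)
def q97984 : Q := Q.p (nat_lit 0x80000200000e000020000000000000000000000000000000000000000000000000000) (nat_lit 0xd0000140000000000000000000000000000000000000000000000) (nat_lit 3)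
theorem c97984 : QOK q97984 := cut [q12194] ⟨c12194, trivial⟩ (nd (nat_lit 208) (nat_lit 0) (cs (lf (nat_lit 47) (nat_lit 186)) (rf (nat_lit 0)))) q97984 (by decide +kernel)
def q97987 : Q := Q.p (nat_lit 0x200000c000010000000000000000000000000000000000000000000000000000) (nat_lit 0x200000800001000000000000000040000100000000000000000000000000000000000000000) (nat_lit 3)
theorem c97987 : QOK q97987 := cut [q507] ⟨c507, trivial⟩ (nd (nat_lit 186) (nat_lit 0) (cs (rf (nat_lit 0)) (lf (nat_lit 24) (nat_lit 164)))) q97987 (by decide +kernel)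
def q97989 : Q := Q.p (nat_lit 0x200000e000030000000000000000000000000000000000000000000000000000) (nat_lit 0x2000008000000000000000c0000100000000000000000000000000000000000000000000000) (nat_lit 3)
theorem c97989 : QOK q97989 := cut [q12194] ⟨c12194, trivial⟩ (nd (nat_lit 275) (nat_lit 0) (cs (lf (nat_lit 42) (nat_lit 208)) (rf (nat_lit 0)))) q97989 (by decide +kernel)
def q98012 : Q := Q.p (nat_lit 0x200000c000010000000000000000000000000000000000000000000000000000) (nat_lit 0x200000800000000000000020000040000100000000000000000000000000000000000000000) (nat_lit 3)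
theorem c98012 : QOK q98012 := cut [q638] ⟨c638, trivial⟩ (nd (nat_lit 186) (nat_lit 0) (cs (lf (nat_lit 24) (nat_lit 164)) (rf (nat_lit 0)))) q98012 (by decide +kernel)
def q98040 : Q := Q.p (nat_lit 0x1c000010000000000000000000000000000000000000000000000000000) (nat_lit 0x2000002e000000000000000000000000000000000000000000000000000) (nat_lit 3)
theorem c98040 : QOK q98040 := cut [q3994] ⟨c3994, trivial⟩ (nd (nat_lit 207) (nat_lit 0) (cs (lf (nat_lit 18) (nat_lit 207)) (rf (nat_lit 0)))) q98040 (by decide +kernel)
def q98049 : Q := Q.p (nat_lit 0x200001c000010000000000000000000000000000000000000000000000000000) (nat_lit 0x80000200001c000030000ee000040000100000000000000000000000000000000000000000) (nat_lit 5)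
theorem c98049 : QOK q98049 := cut [q98046] ⟨c98046, trivial⟩ (nd (nat_lit 229) (nat_lit 0) (cs (nd (nat_lit 251) (nat_lit 0) (cs (lf (nat_lit 11) (nat_lit 228)) (nd (nat_lit 273) (nat_lit 0) (cs (lf (nat_lit 30) (nat_lit 207)) (nd (nat_lit 186) (nat_lit 0) (cs (lf (nat_lit 24) (nat_lit 164)) (lf (nat_lit 39) (nat_lit 185)))))))) (nd (nat_lit 206) (nat_lit 0) (cs (lf (nat_lit 22) (nat_lit 206)) (nd (nat_lit 210) (nat_lit 0) (cs (lf (nat_lit 17) (nat_lit 207)) (rf (nat_lit 0)))))))) q98049 (by decide +kernel)
def q98090 : Q := Q.p (nat_lit 0x200000c000030000000000000000000000000000000000000000000000000000) (nat_lit 0x600001800005000000000000000080000200000800000000000000000000000000000000000) (nat_lit 5)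
theorem c98090 : QOK q98090 := cut [q1989] ⟨c1989, trivial⟩ (nd (nat_lit 275) (nat_lit 0) (cs (lf (nat_lit 42) (nat_lit 208)) (nd (nat_lit 276) (nat_lit 0) (cs (lf (nat_lit 29) (nat_lit 209)) (nd (nat_lit 187) (nat_lit 0) (cs (rf (nat_lit 0)) (lf (nat_lit 28) (nat_lit 187)))))))) q98090 (by decide +kernel)
def q98112 : Q := Q.p (nat_lit 0x600000800002000004000000000000000000000000000000000000000000000000000000000) (nat_lit 0xc0000300000c0000000001000005000000000000000000000000000000000000000000000000000000000000000) (nat_lit 5)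
theorem c98112 : QOK q98112 := cut [q94618] ⟨c94618, trivial⟩ (nd (nat_lit 319) (nat_lit 0) (cs (lf (nat_lit 46) (nat_lit 230)) (nd (nat_lit 340) (nat_lit 0) (cs (lf (nat_lit 40) (nat_lit 252)) (nd (nat_lit 341) (nat_lit 0) (cs (lf (nat_lit 41) (nat_lit 274)) (rf (nat_lit 0)))))))) q98112 (by decide +kernel)
def q98129 : Q := Q.p (nat_lit 0x80000200000800002000000000000000000000000000000000000000000000000000000000000000) (nat_lit 0x10000060000100000000001000004000010000000000000000000000000000000000000000000000000000000000) (nat_lit 4)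
theorem c98129 : QOK q98129 := cut [q98127] ⟨c98127, trivial⟩ (nd (nat_lit 342) (nat_lit 0) (cs (lf (nat_lit 28) (nat_lit 253)) (nd (nat_lit 254) (nat_lit 0) (cs (lf (nat_lit 35) (nat_lit 231)) (rf (nat_lit 0)))))) q98129 (by decide +kernel)
def q98146 : Q := Q.p (nat_lit 0x40000100000d000030000000000000000000000000000000000000000000000000000) (nat_lit 0x80000e000020000000000000000000000000000000000000000000000) (nat_lit 3)
theorem c98146 : QOK q98146 := cut [q1388] ⟨c1388, trivial⟩ (nd (nat_lit 207) (nat_lit 0) (cs (lf (nat_lit 47) (nat_lit 185)) (rf (nat_lit 0)))) q98146 (by decide +kernel)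
def q98155 : Q := Q.p (nat_lit 0xc0000f000000000000000000000000000000000000000000000000000000000000000) (nat_lit 0x7000000800070000000000000000000000000000000000000000000000000000000000) (nat_lit 4)
theorem c98155 : QOK q98155 := cut [q81052] ⟨c81052, trivial⟩ (nd (nat_lit 277) (nat_lit 0) (cs (lf (nat_lit 5) (nat_lit 252)) (nd (nat_lit 251) (nat_lit 0) (cs (lf (nat_lit 19) (nat_lit 251)) (rf (nat_lit 0)))))) q98155 (by decide +kernel)
def q98157 : Q := Q.p (nat_lit 0xc0000f000000000000000000000000000000000000000000000000000000000000000) (nat_lit 0x7000000800007000000000000000000000000000000000000000000000000000000000) (nat_lit 4)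
theorem c98157 : QOK q98157 := cut [q80462] ⟨c80462, trivial⟩ (nd (nat_lit 277) (nat_lit 0) (cs (lf (nat_lit 5) (nat_lit 252)) (nd (nat_lit 251) (nat_lit 0) (cs (lf (nat_lit 19) (nat_lit 251)) (rf (nat_lit 0)))))) q98157 (by decide +kernel)
def q98158 : Q := Q.p (nat_lit 0xc0000300002c000000000000000000000000000000000000000000000000000000000) (nat_lit 0x10000018000060000000000000000000000000000000000000000000000) (nat_lit 3)
theorem c98158 : QOK q98158 := cut [q80768] ⟨c80768, trivial⟩ (nd (nat_lit 208) (nat_lit 0) (cs (lf (nat_lit 24) (nat_lit 186)) (rf (nat_lit 0)))) q98158 (by decide +kernel)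
def q98168 : Q := Q.p (nat_lit 0x2000008000020000080000000000000000000000000000000000000000000000) (nat_lit 0x1400005000014000000000000000200000000000000000000000000000000000000000) (nat_lit 4)
theorem c98168 : QOK q98168 := cut [q10395] ⟨c10395, trivial⟩ (nd (nat_lit 254) (nat_lit 0) (cs (lf (nat_lit 29) (nat_lit 187)) (nd (nat_lit 165) (nat_lit 0) (cs (rf (nat_lit 0)) (lf (nat_lit 28) (nat_lit 165)))))) q98168 (by decide +kernel)
def q98210 : Q := Q.p (nat_lit 0x1e000000000000000000000000000000000000000000000000000000000000000) (nat_lit 0x100000c0000010000e0000080000200000000000000000000000000000000000000000000000) (nat_lit 5)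
theorem c98210 : QOK q98210 := cut [q98207] ⟨c98207, trivial⟩ (nd (nat_lit 234) (nat_lit 0) (cs (lf (nat_lit 17) (nat_lit 231)) (nd (nat_lit 233) (nat_lit 0) (cs (lf (nat_lit 12) (nat_lit 230)) (nd (nat_lit 278) (nat_lit 0) (cs (lf (nat_lit 5) (nat_lit 253)) (rf (nat_lit 0)))))))) q98210 (by decide +kernel)
def q98213 : Q := Q.p (nat_lit 0xf000008000020000000000000000000000000000000000000000000000000000) (nat_lit 0x40000100000e00000000000000000000000000000000000000000000000000000000000000000000) (nat_lit 3)
theorem c98213 : QOK q98213 := cut [q17544] ⟨c17544, trivial⟩ (nd (nat_lit 274) (nat_lit 0) (cs (rf (nat_lit 0)) (lf (nat_lit 11) (nat_lit 251)))) q98213 (by decide +kernel)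
def q98259 : Q := Q.p (nat_lit 0x100000600000c000060000000000000000000000000000000000000000000000000000) (nat_lit 0x800000000010000190000640000100000000000000000000000000000000000000000) (nat_lit 5)
theorem c98259 : QOK q98259 := cut [q1382] ⟨c1382, trivial⟩ (nd (nat_lit 211) (nat_lit 0) (cs (lf (nat_lit 6) (nat_lit 208)) (nd (nat_lit 189) (nat_lit 0) (cs (lf (nat_lit 32) (nat_lit 188)) (nd (nat_lit 208) (nat_lit 0) (cs (lf (nat_lit 17) (nat_lit 186)) (rf (nat_lit 0)))))))) q98259 (by decide +kernel)
def q98272 : Q := Q.p (nat_lit 0xf000000000000000000000000000000000000000000000000000000000000000) (nat_lit 0x7000000800007000000000000000000000000000000000000000000000000000000000) (nat_lit 4)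
theorem c98272 : QOK q98272 := cut [q80462] ⟨c80462, trivial⟩ (nd (nat_lit 277) (nat_lit 0) (cs (lf (nat_lit 5) (nat_lit 252)) (nd (nat_lit 251) (nat_lit 0) (cs (lf (nat_lit 4) (nat_lit 251)) (rf (nat_lit 0)))))) q98272 (by decide +kernel)
def q98274 : Q := Q.p (nat_lit 0x1f000008000000000000000000000000000000000000000000000000000000000) (nat_lit 0x20c00030000000000000000000000000000000000000000000000000000000000) (nat_lit 3)
theorem c98274 : QOK q98274 := cut [q81545] ⟨c81545, trivial⟩ (nd (nat_lit 232) (nat_lit 0) (cs (lf (nat_lit 18) (nat_lit 231)) (rf (nat_lit 0)))) q98274 (by decide +kernel)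
def q98294 : Q := Q.p (nat_lit 0x80000200001e000000000000000000000000000000000000000000000000000000000) (nat_lit 0x10000048000330000dc00020000050000140000000000000000000000000000000000000000000000) (nat_lit 9)
theorem c98294 : QOK q98294 := cut [q98288] ⟨c98288, trivial⟩ (nd (nat_lit 254) (nat_lit 0) (cs (lf (nat_lit 5) (nat_lit 229)) (nd (nat_lit 188) (nat_lit 0) (cs (lf (nat_lit 37) (nat_lit 187)) (nd (nat_lit 251) (nat_lit 0) (cs (lf (nat_lit 11) (nat_lit 228)) (nd (nat_lit 252) (nat_lit 0) (cs (lf (nat_lit 6) (nat_lit 229)) (nd (nat_lit 276) (nat_lit 0) (cs (lf (nat_lit 5) (nat_lit 251)) (nd (nat_lit 298) (nat_lit 0) (cs (lf (nat_lit 42) (nat_lit 231)) (rf (nat_lit 0)))))))))))))) q98294 (by decide +kernel)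
def q98314 : Q := Q.p (nat_lit 0x1800002000008000020000000000000000000000000000000000000000000000000000) (nat_lit 0x100000400005000000000000000080000000000000000000000000000000000000000000000) (nat_lit 3)
theorem c98314 : QOK q98314 := cut [q23499] ⟨c23499, trivial⟩ (nd (nat_lit 187) (nat_lit 0) (cs (rf (nat_lit 0)) (lf (nat_lit 28) (nat_lit 187)))) q98314 (by decide +kernel)
def q98316 : Q := Q.p (nat_lit 0x1800002000008000020000000000000000000000000000000000000000000000000000) (nat_lit 0x4000000000040000180000400000000000000000000000000000000000000000) (nat_lit 3)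
theorem c98316 : QOK q98316 := cut [q1591] ⟨c1591, trivial⟩ (nd (nat_lit 187) (nat_lit 0) (cs (rf (nat_lit 0)) (lf (nat_lit 28) (nat_lit 187)))) q98316 (by decide +kernel)
def q98320 : Q := Q.p (nat_lit 0x80000200001e000000000000000000000000000000000000000000000000000000000) (nat_lit 0xc0000000000c0000100000000000000000000000000000000000000000000000) (nat_lit 3)
theorem c98320 : QOK q98320 := cut [q98319] ⟨c98319, trivial⟩ (nd (nat_lit 254) (nat_lit 0) (cs (lf (nat_lit 5) (nat_lit 229)) (rf (nat_lit 0)))) q98320 (by decide +kernel)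
def q98331 : Q := Q.p (nat_lit 0x80000200001c000008000000000000000000000000000000000000000000000000000) (nat_lit 0x1000020000010000040000100000000000000000000000000000000000000000) (nat_lit 3)
theorem c98331 : QOK q98331 := cut [q3983] ⟨c3983, trivial⟩ (nd (nat_lit 208) (nat_lit 0) (cs (lf (nat_lit 18) (nat_lit 207)) (rf (nat_lit 0)))) q98331 (by decide +kernel)
def q98349 : Q := Q.p (nat_lit 0xe00002000000000000000000000000000000000000000000000000000000000000000) (nat_lit 0x110000d000000000000000000000000000000000000000000000000000000000000000) (nat_lit 3)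
theorem c98349 : QOK q98349 := cut [q97773] ⟨c97773, trivial⟩ (nd (nat_lit 254) (nat_lit 0) (cs (lf (nat_lit 12) (nat_lit 250)) (rf (nat_lit 0)))) q98349 (by decide +kernel)
def q98358 : Q := Q.p (nat_lit 0x800002000008000020000040000000000000000000000000000000000000000000000) (nat_lit 0x400001000004000000000000000080000100000000000000000000000000000000000000000) (nat_lit 3)
theorem c98358 : QOK q98358 := cut [q98357] ⟨c98357, trivial⟩ (nd (nat_lit 276) (nat_lit 0) (cs (lf (nat_lit 29) (nat_lit 209)) (rf (nat_lit 0)))) q98358 (by decide +kernel)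
def q98362 : Q := Q.p (nat_lit 0x80000700000800004000000000000000000000000000000000000000000000000000000000000000) (nat_lit 0x20000000000080007000000000000000000000000000000000000000000000000000000000000000000000) (nat_lit 3)
theorem c98362 : QOK q98362 := cut [q16976] ⟨c16976, trivial⟩ (nd (nat_lit 276) (nat_lit 0) (cs (rf (nat_lit 0)) (lf (nat_lit 30) (nat_lit 253)))) q98362 (by decide +kernel)
def q98386 : Q := Q.p (nat_lit 0x80000600001000000000000000000000000000000000000000000000000000000000000000) (nat_lit 0x8000020000100000000000000004000010000000000000000000000000000000000000000000000000000) (nat_lit 3)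
theorem c98386 : QOK q98386 := cut [q94416] ⟨c94416, trivial⟩ (nd (nat_lit 230) (nat_lit 0) (cs (lf (nat_lit 36) (nat_lit 207)) (rf (nat_lit 0)))) q98386 (by decide +kernel)
def q98394 : Q := Q.p (nat_lit 0x100000c00003000004000000000000000000000000000000000000000000000000000000000) (nat_lit 0x80000300000c0000000000000000000000000000000000000000000000) (nat_lit 3)
theorem c98394 : QOK q98394 := cut [q98393] ⟨c98393, trivial⟩ (nd (nat_lit 208) (nat_lit 0) (cs (lf (nat_lit 24) (nat_lit 186)) (rf (nat_lit 0)))) q98394 (by decide +kernel)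
def q98539 : Q := Q.p (nat_lit 0x3c00000000000000000000000000000000000000000000000000000000000000) (nat_lit 0x380004000003800000000000000000000000000000000000000000000000000000000) (nat_lit 4)
theorem c98539 : QOK q98539 := cut [q88837] ⟨c88837, trivial⟩ (nd (nat_lit 228) (nat_lit 0) (cs (lf (nat_lit 23) (nat_lit 227)) (nd (nat_lit 272) (nat_lit 0) (cs (lf (nat_lit 11) (nat_lit 249)) (rf (nat_lit 0)))))) q98539 (by decide +kernel)
def q98557 : Q := Q.p (nat_lit 0xc00003c00000000000000000000000000000000000000000000000000000000000000) (nat_lit 0x7c0001f00001e0000380004000005800000000000000000000000000000000000000000000000000000000) (nat_lit 11)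
theorem c98557 : QOK q98557 := cut [q98554] ⟨c98554, trivial⟩ (nd (nat_lit 227) (nat_lit 0) (cs (lf (nat_lit 22) (nat_lit 227)) (nd (nat_lit 272) (nat_lit 0) (cs (lf (nat_lit 11) (nat_lit 249)) (nd (nat_lit 273) (nat_lit 0) (cs (lf (nat_lit 17) (nat_lit 250)) (rf (nat_lit 0)))))))) q98557 (by decide +kernel)
def q98559 : Q := Q.p (nat_lit 0x400001800002000000000000000000000000000000000000000000000000000000000) (nat_lit 0x40000100000200000000000000008000020000000000000000000000000000000000000000000000) (nat_lit 3)
theorem c98559 : QOK q98559 := cut [q11487] ⟨c11487, trivial⟩ (nd (nat_lit 207) (nat_lit 0) (cs (lf (nat_lit 24) (nat_lit 185)) (rf (nat_lit 0)))) q98559 (by decide +kernel)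
def q98565 : Q := Q.p (nat_lit 0xe00003800000000000000000000000000000000000000000000000000000000000000) (nat_lit 0x7c0001f00001e0000180000600005800000000000000000000000000000000000000000000000000000000) (nat_lit 11)
theorem c98565 : QOK q98565 := cut [q98554] ⟨c98554, trivial⟩ (nd (nat_lit 250) (nat_lit 0) (cs (lf (nat_lit 0) (nat_lit 249)) (nd (nat_lit 272) (nat_lit 0) (cs (lf (nat_lit 12) (nat_lit 249)) (nd (nat_lit 227) (nat_lit 0) (cs (lf (nat_lit 22) (nat_lit 227)) (rf (nat_lit 0)))))))) q98565 (by decide +kernel)
def q98590 : Q := Q.p (nat_lit 0xe00003c00009000020000000000000000000000000000000000000000000000000000) (nat_lit 0x20000080000000000000004000010000040000000000000000000000000000000000000000000000) (nat_lit 3)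
theorem c98590 : QOK q98590 := cut [q81695] ⟨c81695, trivial⟩ (nd (nat_lit 295) (nat_lit 0) (cs (lf (nat_lit 42) (nat_lit 228)) (rf (nat_lit 0)))) q98590 (by decide +kernel)
def q98694 : Q := Q.p (nat_lit 0x3c00000000000000000000000000000000000000000000000000000000000000000000) (nat_lit 0x1dc0000200000000000000000000000000000000000000000000000000000000000000000000) (nat_lit 4)
theorem c98694 : QOK q98694 := cut [q12684] ⟨c12684, trivial⟩ (nd (nat_lit 295) (nat_lit 0) (cs (lf (nat_lit 10) (nat_lit 273)) (nd (nat_lit 273) (nat_lit 0) (cs (lf (nat_lit 11) (nat_lit 272)) (rf (nat_lit 0)))))) q98694 (by decide +kernel)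
def q98714 : Q := Q.p (nat_lit 0xe00003000000000000000000000000000000000000000000000000000000000000000) (nat_lit 0x60001180000e0001d80003e0000f8000000000000000000000000000000000000000000000) (nat_lit 12)
theorem c98714 : QOK q98714 := cut [q98705] ⟨c98705, trivial⟩ (nd (nat_lit 272) (nat_lit 0) (cs (lf (nat_lit 12) (nat_lit 249)) (nd (nat_lit 250) (nat_lit 0) (cs (lf (nat_lit 23) (nat_lit 249)) (nd (nat_lit 293) (nat_lit 0) (cs (lf (nat_lit 10) (nat_lit 271)) (nd (nat_lit 251) (nat_lit 0) (cs (lf (nat_lit 5) (nat_lit 250)) (nd (nat_lit 231) (nat_lit 0) (cs (lf (nat_lit 17) (nat_lit 228)) (nd (nat_lit 187) (nat_lit 0) (cs (lf (nat_lit 37) (nat_lit 186)) (nd (nat_lit 228) (nat_lit 0) (cs (lf (nat_lit 23) (nat_lit 227)) (nd (nat_lit 206) (nat_lit 0) (cs (lf (nat_lit 24) (nat_lit 184)) (nd (nat_lit 207) (nat_lit 0) (cs (lf (nat_lit 35) (nat_lit 184)) (rf (nat_lit 0)))))))))))))))))))) q98714 (by decide +kernel)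
def q98740 : Q := Q.p (nat_lit 0x7800000000000000000000000000000000000000000000000000000000000000) (nat_lit 0x7000008000070000000000000000000000000000000000000000000000000000000000) (nat_lit 4)
theorem c98740 : QOK q98740 := cut [q98738] ⟨c98738, trivial⟩ (nd (nat_lit 233) (nat_lit 0) (cs (lf (nat_lit 16) (nat_lit 229)) (nd (nat_lit 255) (nat_lit 0) (cs (lf (nat_lit 17) (nat_lit 230)) (rf (nat_lit 0)))))) q98740 (by decide +kernel)
def q98762 : Q := Q.p (nat_lit 0x200007800000000000000000000000000000000000000000000000000000000000000) (nat_lit 0x7400008000000000000000000000000000000000000000000000000000000000000000) (nat_lit 3)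
theorem c98762 : QOK q98762 := cut [q98738] ⟨c98738, trivial⟩ (nd (nat_lit 255) (nat_lit 0) (cs (lf (nat_lit 10) (nat_lit 251)) (rf (nat_lit 0)))) q98762 (by decide +kernel)
def q98769 : Q := Q.p (nat_lit 0x180000600003800004000000000000000000000000000000000000000000000000000000000) (nat_lit 0x380000c000000000000000000000000000000000000000000000000000) (nat_lit 3)
theorem c98769 : QOK q98769 := cut [q88831] ⟨c88831, trivial⟩ (nd (nat_lit 229) (nat_lit 0) (cs (lf (nat_lit 24) (nat_lit 207)) (rf (nat_lit 0)))) q98769 (by decide +kernel)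
def q98795 : Q := Q.p (nat_lit 0x200000800002000008000000000000000000000000000000000000000000000000000000000) (nat_lit 0x100000c0000100000000004000014000050000000000000000000000000000000000000000000000000000) (nat_lit 5)
theorem c98795 : QOK q98795 := cut [q97591] ⟨c97591, trivial⟩ (nd (nat_lit 318) (nat_lit 0) (cs (lf (nat_lit 40) (nat_lit 230)) (nd (nat_lit 208) (nat_lit 0) (cs (lf (nat_lit 46) (nat_lit 208)) (rf (nat_lit 0)))))) q98795 (by decide +kernel)
def q98797 : Q := Q.p (nat_lit 0x200000800002000008000000000000000000000000000000000000000000000000000000000) (nat_lit 0x40000180000400000000004000010000040000000000000000000000000000000000000000000000000000) (nat_lit 4)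
theorem c98797 : QOK q98797 := cut [q96726] ⟨c96726, trivial⟩ (nd (nat_lit 320) (nat_lit 0) (cs (lf (nat_lit 28) (nat_lit 231)) (nd (nat_lit 232) (nat_lit 0) (cs (lf (nat_lit 35) (nat_lit 209)) (rf (nat_lit 0)))))) q98797 (by decide +kernel)
def q98814 : Q := Q.p (nat_lit 0x800002000008000020000000000000000000000000000000000000000000000000000) (nat_lit 0x10000040000100000100001c0000700001000000000000000000000000000000000000) (nat_lit 6)
theorem c98814 : QOK q98814 := cut [q80726] ⟨c80726, trivial⟩ (nd (nat_lit 186) (nat_lit 0) (cs (lf (nat_lit 46) (nat_lit 186)) (nd (nat_lit 187) (nat_lit 0) (cs (lf (nat_lit 47) (nat_lit 164)) (nd (nat_lit 166) (nat_lit 0) (cs (lf (nat_lit 34) (nat_lit 165)) (nd (nat_lit 254) (nat_lit 0) (cs (lf (nat_lit 29) (nat_lit 187)) (rf (nat_lit 0)))))))))) q98814 (by decide +kernel)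
def q98826 : Q := Q.p (nat_lit 0x80000400001800006000000000000000000000000000000000000000000000000000000000000000) (nat_lit 0x2000000000000000300000c0000300000000000000000000000000000000000000000000000) (nat_lit 4)
theorem c98826 : QOK q98826 := cut [q79436] ⟨c79436, trivial⟩ (nd (nat_lit 232) (nat_lit 0) (cs (lf (nat_lit 40) (nat_lit 231)) (nd (nat_lit 210) (nat_lit 0) (cs (lf (nat_lit 36) (nat_lit 187)) (rf (nat_lit 0)))))) q98826 (by decide +kernel)
def q98838 : Q := Q.p (nat_lit 0x1e00006000000000000000000000000000000000000000000000000000000000000000) (nat_lit 0x1c000e000001000000000000000000000000000000000000000000000000000000000000000) (nat_lit 4)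
theorem c98838 : QOK q98838 := cut [q80712] ⟨c80712, trivial⟩ (nd (nat_lit 295) (nat_lit 0) (cs (lf (nat_lit 11) (nat_lit 272)) (nd (nat_lit 277) (nat_lit 0) (cs (lf (nat_lit 10) (nat_lit 273)) (rf (nat_lit 0)))))) q98838 (by decide +kernel)
def q98844 : Q := Q.p (nat_lit 0x1e00002000000000000000000000000000000000000000000000000000000000000000) (nat_lit 0x40000100007fc000e000001000000000000000000000000000000000000000000000000000000000000000) (nat_lit 8)
theorem c98844 : QOK q98844 := cut [q15559] ⟨c15559, trivial⟩ (nd (nat_lit 298) (nat_lit 0) (cs (lf (nat_lit 5) (nat_lit 273)) (nd (nat_lit 320) (nat_lit 0) (cs (lf (nat_lit 42) (nat_lit 253)) (nd (nat_lit 295) (nat_lit 0) (cs (lf (nat_lit 11) (nat_lit 272)) (nd (nat_lit 277) (nat_lit 0) (cs (lf (nat_lit 10) (nat_lit 273)) (nd (nat_lit 278) (nat_lit 0) (cs (lf (nat_lit 23) (nat_lit 252)) (rf (nat_lit 0)))))))))))) q98844 (by decide +kernel)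
def q98854 : Q := Q.p (nat_lit 0xf00000000000000000000000000000000000000000000000000000000000000000000) (nat_lit 0xe00001000000e00000000000000000000000000000000000000000000000000000000000000) (nat_lit 4)
theorem c98854 : QOK q98854 := cut [q26190] ⟨c26190, trivial⟩ (nd (nat_lit 298) (nat_lit 0) (cs (lf (nat_lit 4) (nat_lit 272)) (nd (nat_lit 250) (nat_lit 0) (cs (lf (nat_lit 23) (nat_lit 249)) (rf (nat_lit 0)))))) q98854 (by decide +kernel)
def q98865 : Q := Q.p (nat_lit 0x2000007800000000000000000000000000000000000000000000000000000000000000) (nat_lit 0x4000008000070000000000000000000000000000000000000000000000000000000000) (nat_lit 3)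
theorem c98865 : QOK q98865 := cut [q98864] ⟨c98864, trivial⟩ (nd (nat_lit 233) (nat_lit 0) (cs (lf (nat_lit 16) (nat_lit 229)) (rf (nat_lit 0)))) q98865 (by decide +kernel)
def q98880 : Q := Q.p (nat_lit 0x1800007800000000000000000000000000000000000000000000000000000000000000) (nat_lit 0x200000000000000030000040000100000000000000000000000000000000000000000000000) (nat_lit 3)
theorem c98880 : QOK q98880 := cut [q90020] ⟨c90020, trivial⟩ (nd (nat_lit 232) (nat_lit 0) (cs (lf (nat_lit 17) (nat_lit 229)) (rf (nat_lit 0)))) q98880 (by decide +kernel)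
def q98923 : Q := Q.p (nat_lit 0xc0000300001c00001000000000000000000000000000000000000000000000000000000000000000) (nat_lit 0x80000380000e0000000000000000000000000000000000000000000000000000000000000000000000000) (nat_lit 4)
theorem c98923 : QOK q98923 := cut [q98922] ⟨c98922, trivial⟩ (nd (nat_lit 294) (nat_lit 0) (cs (lf (nat_lit 13) (nat_lit 272)) (rf (nat_lit 0)))) q98923 (by decide +kernel)
def q98957 : Q := Q.p (nat_lit 0x3c00006000000000000000000000000000000000000000000000000000000000000000) (nat_lit 0x380000c000000000000000000000000000000000000000000000000000000000000000000000) (nat_lit 3)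
theorem c98957 : QOK q98957 := cut [q15788] ⟨c15788, trivial⟩ (nd (nat_lit 278) (nat_lit 0) (cs (rf (nat_lit 0)) (lf (nat_lit 18) (nat_lit 253)))) q98957 (by decide +kernel)
def q98970 : Q := Q.p (nat_lit 0x1e00002000000000000000000000000000000000000000000000000000000000000000) (nat_lit 0x300005c0003f0000fc0002000000c00000000000000000000000000000000000000000000000000000000000000) (nat_lit 11)
theorem c98970 : QOK q98970 := cut [q55847] ⟨c55847, trivial⟩ (nd (nat_lit 250) (nat_lit 0) (cs (lf (nat_lit 22) (nat_lit 250)) (nd (nat_lit 298) (nat_lit 0) (cs (lf (nat_lit 5) (nat_lit 273)) (nd (nat_lit 320) (nat_lit 0) (cs (lf (nat_lit 42) (nat_lit 253)) (nd (nat_lit 295) (nat_lit 0) (cs (lf (nat_lit 11) (nat_lit 272)) (nd (nat_lit 296) (nat_lit 0) (cs (lf (nat_lit 6) (nat_lit 273)) (nd (nat_lit 297) (nat_lit 0) (cs (lf (nat_lit 5) (nat_lit 295)) (nd (nat_lit 317) (nat_lit 0) (cs (lf (nat_lit 11) (nat_lit 294)) (nd (nat_lit 318) (nat_lit 0) (cs (lf (nat_lit 30) (nat_lit 252)) (nd (nat_lit 339) (nat_lit 0) (cs (lf (nat_lit 30) (nat_lit 273)) (rf (nat_lit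 0)))))))))))))))))))) q98970 (by decide +kernel)
def q98972 : Q := Q.p (nat_lit 0xe00002000000000000000000000000000000000000000000000000000000000000000) (nat_lit 0x700000180004700000000000000000000000000000000000000000000000000000000000000) (nat_lit 5)
theorem c98972 : QOK q98972 := cut [q12676] ⟨c12676, trivial⟩ (nd (nat_lit 272) (nat_lit 0) (cs (rf (nat_lit 0)) (lf (nat_lit 17) (nat_lit 250)))) q98972 (by decide +kernel)
def q99002 : Q := Q.p (nat_lit 0x20000080000600000000000000000000000000000000000000000000000000000000000000000000) (nat_lit 0x8000000000100000000001000004000010000000000000000000000000000000000000000000000000000) (nat_lit 3)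
theorem c99002 : QOK q99002 := cut [q83986] ⟨c83986, trivial⟩ (nd (nat_lit 252) (nat_lit 0) (cs (lf (nat_lit 30) (nat_lit 251)) (rf (nat_lit 0)))) q99002 (by decide +kernel)
def q99003 : Q := Q.p (nat_lit 0x20000080000600000000000000000000000000000000000000000000000000000000000000000000) (nat_lit 0x8000000000000000000001800004000010000000000000000000000000000000000000000000000000000) (nat_lit 3)
theorem c99003 : QOK q99003 := cut [q84040] ⟨c84040, trivial⟩ (nd (nat_lit 252) (nat_lit 0) (cs (lf (nat_lit 30) (nat_lit 251)) (rf (nat_lit 0)))) q99003 (by decide +kernel)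
def q99006 : Q := Q.p (nat_lit 0x800001c00006000000000000000000000000000000000000000000000000000000000000000) (nat_lit 0x100000e000001000000000000000000000000000000000000000000000000000000000000000) (nat_lit 3)
theorem c99006 : QOK q99006 := cut [q80712] ⟨c80712, trivial⟩ (nd (nat_lit 277) (nat_lit 0) (cs (lf (nat_lit 5) (nat_lit 274)) (rf (nat_lit 0)))) q99006 (by decide +kernel)
def q99087 : Q := Q.p (nat_lit 0xc0000f000000000000000000000000000000000000000000000000000000000000000) (nat_lit 0x200000000000000006000010000040000000000000000000000000000000000000000000000) (nat_lit 3)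
theorem c99087 : QOK q99087 := cut [q79068] ⟨c79068, trivial⟩ (nd (nat_lit 230) (nat_lit 0) (cs (rf (nat_lit 0)) (lf (nat_lit 23) (nat_lit 229)))) q99087 (by decide +kernel)
def q99119 : Q := Q.p (nat_lit 0x200000d00003000000000000000000000000000000000000000000000000000000000000000) (nat_lit 0x560001200000e0000780001e000078000000000000000000000000000000000000000000000) (nat_lit 11)
theorem c99119 : QOK q99119 := cut [q15668] ⟨c15668, trivial⟩ (nd (nat_lit 208) (nat_lit 0) (cs (lf (nat_lit 25) (nat_lit 208)) (nd (nat_lit 273) (nat_lit 0) (cs (lf (nat_lit 5) (nat_lit 272)) (nd (nat_lit 293) (nat_lit 0) (cs (lf (nat_lit 10) (nat_lit 271)) (nd (nat_lit 250) (nat_lit 0) (cs (lf (nat_lit 23) (nat_lit 249)) (nd (nat_lit 251) (nat_lit 0) (cs (lf (nat_lit 5) (nat_lit 250)) (nd (nat_lit 228) (nat_lit 0) (cs (lf (nat_lit 23) (nat_lit 227)) (nd (nat_lit 206) (nat_lit 0) (cs (lf (nat_lit 24) (nat_lit 184)) (nd (nat_lit 183) (nat_lit 0) (cs (lf (nat_lit 46) (nat_lit 183)) (nd (nat_lit 207) (nat_lit 0) (cs (lf (nat_lit 35) (nat_lit 184)) (rf (nat_lit 0))))))))))))))))))))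 q99119 (by decide +kernel)
def q99127 : Q := Q.p (nat_lit 0x100000400001000004000000000000000000000000000000000000000000000000000) (nat_lit 0x20000080000200000000002000018000020000000000000000000000000000000000000000) (nat_lit 4)
theorem c99127 : QOK q99127 := cut [q7721] ⟨c7721, trivial⟩ (nd (nat_lit 183) (nat_lit 0) (cs (lf (nat_lit 46) (nat_lit 183)) (nd (nat_lit 184) (nat_lit 0) (cs (lf (nat_lit 47) (nat_lit 161)) (rf (nat_lit 0)))))) q99127 (by decide +kernel)
def q99154 : Q := Q.p (nat_lit 0xd00003000000000000000000000000000000000000000000000000000000000000000) (nat_lit 0x700001d0000760001280000e00003800000000000000000000000000000000000000000000000000000000) (nat_lit 11)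
theorem c99154 : QOK q99154 := cut [q1362] ⟨c1362, trivial⟩ (nd (nat_lit 273) (nat_lit 0) (cs (lf (nat_lit 12) (nat_lit 249)) (nd (nat_lit 297) (nat_lit 0) (cs (lf (nat_lit 5) (nat_lit 272)) (nd (nat_lit 319) (nat_lit 0) (cs (lf (nat_lit 42) (nat_lit 252)) (nd (nat_lit 250) (nat_lit 0) (cs (lf (nat_lit 23) (nat_lit 249)) (nd (nat_lit 320) (nat_lit 0) (cs (lf (nat_lit 29) (nat_lit 253)) (nd (nat_lit 251) (nat_lit 0) (cs (lf (nat_lit 5) (nat_lit 250)) (nd (nat_lit 227) (nat_lit 0) (cs (lf (nat_lit 22) (nat_lit 227)) (nd (nat_lit 318) (nat_lit 0) (cs (lf (nat_lit 41) (nat_lit 252)) (nd (nat_lit 229) (nat_lit 0) (cs (rf (nat_lit 0)) (lf (nat_lit 43) (nat_lit 229)))))))))))))))))))) q99154 (by decide +kernel)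
def q99161 : Q := Q.p (nat_lit 0x100000c00003800004000000000000000000000000000000000000000000000000000000000) (nat_lit 0xa000068000338000000000380000c000000000000000000000000000000000000000000000000000) (nat_lit 8)
theorem c99161 : QOK q99161 := cut [q14470] ⟨c14470, trivial⟩ (nd (nat_lit 297) (nat_lit 0) (cs (lf (nat_lit 42) (nat_lit 230)) (nd (nat_lit 295) (nat_lit 0) (cs (lf (nat_lit 41) (nat_lit 229)) (nd (nat_lit 276) (nat_lit 0) (cs (lf (nat_lit 6) (nat_lit 273)) (nd (nat_lit 229) (nat_lit 0) (cs (lf (nat_lit 47) (nat_lit 207)) (nd (nat_lit 228) (nat_lit 0) (cs (lf (nat_lit 0) (nat_lit 227)) (nd (nat_lit 273) (nat_lit 0) (cs (lf (nat_lit 47) (nat_lit 206)) (rf (nat_lit 0)))))))))))))) q99161 (by decide +kernel)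
def q99164 : Q := Q.p (nat_lit 0x380000d00000000000000000000000000000000000000000000000000000000000000000000) (nat_lit 0x700001c00000200000000000000000000000000000000000000000000000000000000000000000000) (nat_lit 4)
theorem c99164 : QOK q99164 := cut [q99163] ⟨c99163, trivial⟩ (nd (nat_lit 298) (nat_lit 0) (cs (lf (nat_lit 22) (nat_lit 272)) (rf (nat_lit 0)))) q99164 (by decide +kernel)
def q99235 : Q := Q.p (nat_lit 0x80000200000800002000000000000000000000000000000000000000000000000000000000000000) (nat_lit 0x1000004000010000000000100000c000010000000000000000000000000000000000000000000000000000) (nat_lit 4)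
theorem c99235 : QOK q99235 := cut [q99233] ⟨c99233, trivial⟩ (nd (nat_lit 230) (nat_lit 0) (cs (lf (nat_lit 46) (nat_lit 230)) (nd (nat_lit 318) (nat_lit 0) (cs (lf (nat_lit 41) (nat_lit 252)) (rf (nat_lit 0)))))) q99235 (by decide +kernel)
def q99254 : Q := Q.p (nat_lit 0x200001800002000008000020000000000000000000000000000000000000000000000000000) (nat_lit 0x20000080000000000000004000010000000000080000000000000000000000000000000000000000000000) (nat_lit 3)
theorem c99254 : QOK q99254 := cut [q80843] ⟨c80843, trivial⟩ (nd (nat_lit 254) (nat_lit 0) (cs (lf (nat_lit 24) (nat_lit 187)) (rf (nat_lit 0)))) q99254 (by decide +kernel)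
def q99262 : Q := Q.p (nat_lit 0x200003800006000000000000000000000000000000000000000000000000000000000000000) (nat_lit 0x20000080000000000000001800004000000000000000000000000000000000000000000000000000000000) (nat_lit 3)
theorem c99262 : QOK q99262 := cut [q99261] ⟨c99261, trivial⟩ (nd (nat_lit 252) (nat_lit 0) (cs (lf (nat_lit 0) (nat_lit 251)) (rf (nat_lit 0)))) q99262 (by decide +kernel)
def q99280 : Q := Q.p (nat_lit 0x80000200000800002000000000000000000000000000000000000000000000000000000000000000) (nat_lit 0x4000030000040000000000400001000004000000000000000000000000000000000000000000000000000000000) (nat_lit 4)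
theorem c99280 : QOK q99280 := cut [q97690] ⟨c97690, trivial⟩ (nd (nat_lit 340) (nat_lit 0) (cs (lf (nat_lit 40) (nat_lit 252)) (nd (nat_lit 341) (nat_lit 0) (cs (lf (nat_lit 41) (nat_lit 274)) (rf (nat_lit 0)))))) q99280 (by decide +kernel)
def q99294 : Q := Q.p (nat_lit 0x200000800002000008000000000000000000000000000000000000000000000000000000000) (nat_lit 0x20000180001d0000070000d0000140000300000c0000000000000000000000000000000000000000000000) (nat_lit 10)
theorem c99294 : QOK q99294 := cut [q86717] ⟨c86717, trivial⟩ (nd (nat_lit 298) (nat_lit 0) (cs (lf (nat_lit 29) (nat_lit 231)) (nd (nat_lit 208) (nat_lit 0) (cs (lf (nat_lit 46) (nat_lit 208)) (nd (nat_lit 209) (nat_lit 0) (cs (lf (nat_lit 47) (nat_lit 186)) (nd (nat_lit 274) (nat_lit 0) (cs (lf (nat_lit 41) (nat_lit 208)) (nd (nat_lit 299) (nat_lit 0) (cs (lf (nat_lit 18) (nat_lit 274)) (nd (nat_lit 273) (nat_lit 0) (cs (lf (nat_lit 0) (nat_lit 272)) (nd (nat_lit 252) (nat_lit 0) (cs (lf (nat_lit 36) (nat_lit 186)) (nd (nat_lit 254) (nat_lit 0) (cs (lf (nat_lit 6) (nat_lit 251)) (rf (nat_lit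 0)))))))))))))))))) q99294 (by decide +kernel)
def q99300 : Q := Q.p (nat_lit 0x200000800002000008000000000000000000000000000000000000000000000000000000000) (nat_lit 0x40000180000400000000001000014000050000000000000000000000000000000000000000000000000000) (nat_lit 5)
theorem c99300 : QOK q99300 := cut [q99297] ⟨c99297, trivial⟩ (nd (nat_lit 320) (nat_lit 0) (cs (lf (nat_lit 28) (nat_lit 231)) (nd (nat_lit 210) (nat_lit 0) (cs (lf (nat_lit 34) (nat_lit 209)) (nd (nat_lit 319) (nat_lit 0) (cs (lf (nat_lit 29) (nat_lit 253)) (rf (nat_lit 0)))))))) q99300 (by decide +kernel)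
def q99303 : Q := Q.p (nat_lit 0x20000480001c0000400000000000000000000000000000000000000000000000) (nat_lit 0x9000030000200000000001000004000000000000000000000000000000000000) (nat_lit 4)
theorem c99303 : QOK q99303 := cut [q85107] ⟨c85107, trivial⟩ (nd (nat_lit 232) (nat_lit 0) (cs (lf (nat_lit 6) (nat_lit 209)) (nd (nat_lit 233) (nat_lit 0) (cs (lf (nat_lit 11) (nat_lit 230)) (rf (nat_lit 0)))))) q99303 (by decide +kernel)
def q99318 : Q := Q.p (nat_lit 0x80000380000c000000000000000000000000000000000000000000000000000000000) (nat_lit 0x80000200000000000000030000040000000000000000000000000000000000000000000000000000) (nat_lit 3)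
theorem c99318 : QOK q99318 := cut [q96431] ⟨c96431, trivial⟩ (nd (nat_lit 232) (nat_lit 0) (cs (lf (nat_lit 6) (nat_lit 229)) (rf (nat_lit 0)))) q99318 (by decide +kernel)
def q99333 : Q := Q.p (nat_lit 0xf00000000000000000000000000000000000000000000000000000000000000000000000000) (nat_lit 0xe0000100000e000000000000000000000000000000000000000000000000000000000000000000000) (nat_lit 4)
theorem c99333 : QOK q99333 := cut [q22528] ⟨c22528, trivial⟩ (nd (nat_lit 278) (nat_lit 0) (cs (lf (nat_lit 16) (nat_lit 274)) (nd (nat_lit 300) (nat_lit 0) (cs (lf (nat_lit 17) (nat_lit 275)) (rf (nat_lit 0)))))) q99333 (by decide +kernel)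
def q99358 : Q := Q.p (nat_lit 0xe00001800003000000000000000000000000000000000000000000000000000000000000000) (nat_lit 0xc000070000018000600000c000030000000000000000000000000000000000000000000000000000000000) (nat_lit 7)
theorem c99358 : QOK q99358 := cut [q89238] ⟨c89238, trivial⟩ (nd (nat_lit 320) (nat_lit 0) (cs (lf (nat_lit 42) (nat_lit 253)) (nd (nat_lit 277) (nat_lit 0) (cs (lf (nat_lit 18) (nat_lit 252)) (nd (nat_lit 233) (nat_lit 0) (cs (nd (nat_lit 296) (nat_lit 0) (cs (lf (nat_lit 12) (nat_lit 273)) (rf (nat_lit 0)))) (lf (nat_lit 37) (nat_lit 232)))))))) q99358 (by decide +kernel)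
def q99361 : Q := Q.p (nat_lit 0xe00001800000000000000000000000000000000000000000000000000000000000000000000) (nat_lit 0xe000031c0002000000000000000000000000000000000000000000000000000000000000000000000) (nat_lit 5)
theorem c99361 : QOK q99361 := cut [q28145] ⟨c28145, trivial⟩ (nd (nat_lit 300) (nat_lit 0) (cs (lf (nat_lit 18) (nat_lit 275)) (nd (nat_lit 322) (nat_lit 0) (cs (lf (nat_lit 5) (nat_lit 297)) (nd (nat_lit 296) (nat_lit 0) (cs (lf (nat_lit 4) (nat_lit 296)) (rf (nat_lit 0)))))))) q99361 (by decide +kernel)
def q99364 : Q := Q.p (nat_lit 0xe00001800003000000000000000000000000000000000000000000000000000000000000000) (nat_lit 0x300000e000000000000000000000000000000000000000000000000000000000000000000000) (nat_lit 3)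
theorem c99364 : QOK q99364 := cut [q99363] ⟨c99363, trivial⟩ (nd (nat_lit 278) (nat_lit 0) (cs (lf (nat_lit 19) (nat_lit 252)) (rf (nat_lit 0)))) q99364 (by decide +kernel)
def q99367 : Q := Q.p (nat_lit 0xf00000000000000000000000000000000000000000000000000000000000000000000000000) (nat_lit 0x700000080007000000000000000000000000000000000000000000000000000000000000000000000) (nat_lit 4)
theorem c99367 : QOK q99367 := cut [q28147] ⟨c28147, trivial⟩ (nd (nat_lit 321) (nat_lit 0) (cs (lf (nat_lit 5) (nat_lit 296)) (nd (nat_lit 295) (nat_lit 0) (cs (lf (nat_lit 4) (nat_lit 295)) (rf (nat_lit 0)))))) q99367 (by decide +kernel)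
def q99383 : Q := Q.p (nat_lit 0x300000d00001000004000000000000000000000000000000000000000000000000000000000) (nat_lit 0x200000e0000080000000000000000000000000000000000000000000000000000000000000000000) (nat_lit 3)
theorem c99383 : QOK q99383 := cut [q14329] ⟨c14329, trivial⟩ (nd (nat_lit 295) (nat_lit 0) (cs (lf (nat_lit 41) (nat_lit 229)) (rf (nat_lit 0)))) q99383 (by decide +kernel)
def q99387 : Q := Q.p (nat_lit 0x380000e00002000000000000000000000000000000000000000000000000000000000000000) (nat_lit 0x300000c00000000000000008000000000000000000000000000000000000000000000000000000000) (nat_lit 3)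
theorem c99387 : QOK q99387 := cut [q91728] ⟨c91728, trivial⟩ (nd (nat_lit 298) (nat_lit 0) (cs (lf (nat_lit 18) (nat_lit 273)) (rf (nat_lit 0)))) q99387 (by decide +kernel)
def q99427 : Q := Q.p (nat_lit 0x200001a00003000000000000000000000000000000000000000000000000000000000000000) (nat_lit 0x100004c00030000040000000000000000000000000000000000000000000000000000) (nat_lit 4)
theorem c99427 : QOK q99427 := cut [q99425] ⟨c99425, trivial⟩ (nd (nat_lit 251) (nat_lit 0) (cs (lf (nat_lit 0) (nat_lit 250)) (nd (nat_lit 254) (nat_lit 0) (cs (lf (nat_lit 11) (nat_lit 250)) (rf (nat_lit 0)))))) q99427 (by decide +kernel)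
def q99497 : Q := Q.p (nat_lit 0x800003000004000000000000000000000000000000000000000000000000000000000) (nat_lit 0x80000200000400000000000000010000040000000000000000000000000000000000000000000000) (nat_lit 3)
theorem c99497 : QOK q99497 := cut [q1140] ⟨c1140, trivial⟩ (nd (nat_lit 208) (nat_lit 0) (cs (rf (nat_lit 0)) (lf (nat_lit 24) (nat_lit 186)))) q99497 (by decide +kernel)
def q99573 : Q := Q.p (nat_lit 0x800007800006000000000000000000000000000000000000000000000000000000000) (nat_lit 0x4000380000c0000100000000000000000000000000000000000000000000000) (nat_lit 4)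
theorem c99573 : QOK q99573 := cut [q98319] ⟨c98319, trivial⟩ (nd (nat_lit 232) (nat_lit 0) (cs (lf (nat_lit 17) (nat_lit 229)) (nd (nat_lit 231) (nat_lit 0) (cs (lf (nat_lit 12) (nat_lit 228)) (rf (nat_lit 0)))))) q99573 (by decide +kernel)
def q99609 : Q := Q.p (nat_lit 0xc00002000018000000000000000000000000000000000000000000000000000000000) (nat_lit 0x100001000005000000000020000080000200000000000000000000000000000000000000000) (nat_lit 4)
theorem c99609 : QOK q99609 := cut [q97738] ⟨c97738, trivial⟩ (nd (nat_lit 209) (nat_lit 0) (cs (lf (nat_lit 41) (nat_lit 208)) (nd (nat_lit 187) (nat_lit 0) (cs (lf (nat_lit 40) (nat_lit 186)) (rf (nat_lit 0)))))) q99609 (by decide +kernel)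
def q99624 : Q := Q.p (nat_lit 0x80000200000800006000000000000000000000000000000000000000000000000000000000000000) (nat_lit 0x10000060000100000000001000000000000000000000000000000000000000000000000000000000000000000000) (nat_lit 3)
theorem c99624 : QOK q99624 := cut [q98127] ⟨c98127, trivial⟩ (nd (nat_lit 342) (nat_lit 0) (cs (lf (nat_lit 28) (nat_lit 253)) (rf (nat_lit 0)))) q99624 (by decide +kernel)
def q99687 : Q := Q.p (nat_lit 0x800002000008000020000000000000000000000000000000000000000000000000000) (nat_lit 0x1000004000010000000000100000c0000100000000000000000000000000000000000000000) (nat_lit 4)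
theorem c99687 : QOK q99687 := cut [q97947] ⟨c97947, trivial⟩ (nd (nat_lit 186) (nat_lit 0) (cs (lf (nat_lit 46) (nat_lit 186)) (nd (nat_lit 274) (nat_lit 0) (cs (lf (nat_lit 41) (nat_lit 208)) (rf (nat_lit 0)))))) q99687 (by decide +kernel)
def q99706 : Q := Q.p (nat_lit 0x300000c00002000008000000000000000000000000000000000000000000000000000000000) (nat_lit 0x8000020000080000000000000005000010000040000000000000000000000000000000000000000000000000000) (nat_lit 4)
theorem c99706 : QOK q99706 := cut [q11816] ⟨c11816, trivial⟩ (nd (nat_lit 232) (nat_lit 0) (cs (lf (nat_lit 35) (nat_lit 209)) (nd (nat_lit 319) (nat_lit 0) (cs (rf (nat_lit 0)) (lf (nat_lit 34) (nat_lit 231)))))) q99706 (by decide +kernel)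
def q99722 : Q := Q.p (nat_lit 0x80000300000800002000000000000000000000000000000000000000000000000000000000000000) (nat_lit 0xc000030000040000000000400001000000000000000000000000000000000000000000000000000000000000000) (nat_lit 4)
theorem c99722 : QOK q99722 := cut [q11821] ⟨c11821, trivial⟩ (nd (nat_lit 340) (nat_lit 0) (cs (lf (nat_lit 40) (nat_lit 252)) (nd (nat_lit 341) (nat_lit 0) (cs (lf (nat_lit 41) (nat_lit 274)) (rf (nat_lit 0)))))) q99722 (by decide +kernel)
def q99754 : Q := Q.p (nat_lit 0x20000080000200000800002000000000000000000000000000000000000000000000000000000000000000) (nat_lit 0x8000000000000000180007400005000008000020000000000000000000000000000000000000000000000000000) (nat_lit 6)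
theorem c99754 : QOK q99754 := cut [q16001] ⟨c16001, trivial⟩ (nd (nat_lit 274) (nat_lit 0) (cs (lf (nat_lit 47) (nat_lit 252)) (nd (nat_lit 296) (nat_lit 0) (cs (lf (nat_lit 42) (nat_lit 274)) (nd (nat_lit 209) (nat_lit 0) (cs (lf (nat_lit 37) (nat_lit 208)) (nd (nat_lit 276) (nat_lit 0) (cs (rf (nat_lit 0)) (lf (nat_lit 35) (nat_lit 253)))))))))) q99754 (by decide +kernel)
def q99771 : Q := Q.p (nat_lit 0x800001c00002000000000000000000000000000000000000000000000000000000000000000) (nat_lit 0x40000030000c000000000000000000000000000000000000000000000000000000000000000) (nat_lit 3)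
theorem c99771 : QOK q99771 := cut [q96660] ⟨c96660, trivial⟩ (nd (nat_lit 273) (nat_lit 0) (cs (lf (nat_lit 4) (nat_lit 273)) (rf (nat_lit 0)))) q99771 (by decide +kernel)
def q99779 : Q := Q.p (nat_lit 0x7800002000000000000000000000000000000000000000000000000000000000000000) (nat_lit 0x3c000380000e4000000000000000000000000000000000000000000000000000000000000000) (nat_lit 6)
theorem c99779 : QOK q99779 := cut [q99778] ⟨c99778, trivial⟩ (nd (nat_lit 300) (nat_lit 0) (cs (lf (nat_lit 5) (nat_lit 275)) (rf (nat_lit 0)))) q99779 (by decide +kernel)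
def q99782 : Q := Q.p (nat_lit 0x3800002000000000000000000000000000000000000000000000000000000000000000) (nat_lit 0x4000005c00000000000000000000000000000000000000000000000000000000000000) (nat_lit 3)
theorem c99782 : QOK q99782 := cut [q97549] ⟨c97549, trivial⟩ (nd (nat_lit 252) (nat_lit 0) (cs (lf (nat_lit 18) (nat_lit 252)) (rf (nat_lit 0)))) q99782 (by decide +kernel)
def q99783 : Q := Q.p (nat_lit 0x3c00002000000000000000000000000000000000000000000000000000000000000000) (nat_lit 0x10000040000380000000000000008000020000000000000000000000000000000000000000000000000000) (nat_lit 4)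
theorem c99783 : QOK q99783 := cut [q15996] ⟨c15996, trivial⟩ (nd (nat_lit 296) (nat_lit 0) (cs (lf (nat_lit 11) (nat_lit 273)) (rf (nat_lit 0)))) q99783 (by decide +kernel)
def q99793 : Q := Q.p (nat_lit 0x80000200000800003000008000000000000000000000000000000000000000000000000000000000) (nat_lit 0x20000000000000000400000000010000060000180000000000000000000000000000000000000000000000) (nat_lit 4)
theorem c99793 : QOK q99793 := cut [q94522] ⟨c94522, trivial⟩ (nd (nat_lit 210) (nat_lit 0) (cs (lf (nat_lit 34) (nat_lit 209)) (nd (nat_lit 209) (nat_lit 0) (cs (lf (nat_lit 35) (nat_lit 187)) (rf (nat_lit 0)))))) q99793 (by decide +kernel)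
def q99829 : Q := Q.p (nat_lit 0x3800002000000000000000000000000000000000000000000000000000000000000000) (nat_lit 0x1ff0003c0000e1000000000000000000000000000000000000000000000000000000000000000) (nat_lit 9)
theorem c99829 : QOK q99829 := cut [q99826] ⟨c99826, trivial⟩ (nd (nat_lit 278) (nat_lit 0) (cs (lf (nat_lit 23) (nat_lit 252)) (nd (nat_lit 300) (nat_lit 0) (cs (lf (nat_lit 5) (nat_lit 275)) (nd (nat_lit 297) (nat_lit 0) (cs (lf (nat_lit 11) (nat_lit 274)) (rf (nat_lit 0)))))))) q99829 (by decide +kernel)
def q99831 : Q := Q.p (nat_lit 0x7800002000000000000000000000000000000000000000000000000000000000000000) (nat_lit 0x100000700008000000000008000020000000000000000000000000000000000000000000000000000) (nat_lit 4)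
theorem c99831 : QOK q99831 := cut [q26075] ⟨c26075, trivial⟩ (nd (nat_lit 297) (nat_lit 0) (cs (lf (nat_lit 11) (nat_lit 274)) (nd (nat_lit 298) (nat_lit 0) (cs (lf (nat_lit 6) (nat_lit 275)) (rf (nat_lit 0)))))) q99831 (by decide +kernel)
def q99842 : Q := Q.p (nat_lit 0x800003800000000000000000000000000000000000000000000000000000000000000000000) (nat_lit 0x15c0000600000000000000000000000000000000000000000000000000000000000000000000) (nat_lit 4)
theorem c99842 : QOK q99842 := cut [q99841] ⟨c99841, trivial⟩ (nd (nat_lit 274) (nat_lit 0) (cs (lf (nat_lit 5) (nat_lit 274)) (rf (nat_lit 0)))) q99842 (by decide +kernel)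
def q99844 : Q := Q.p (nat_lit 0x3c00002000000000000000000000000000000000000000000000000000000000000000) (nat_lit 0x1c000030000c000000000000000000000000000000000000000000000000000000000000000) (nat_lit 4)
theorem c99844 : QOK q99844 := cut [q96660] ⟨c96660, trivial⟩ (nd (nat_lit 295) (nat_lit 0) (cs (lf (nat_lit 10) (nat_lit 273)) (nd (nat_lit 273) (nat_lit 0) (cs (lf (nat_lit 11) (nat_lit 272)) (rf (nat_lit 0)))))) q99844 (by decide +kernel)
def q99846 : Q := Q.p (nat_lit 0x800003000004000000000000000000000000000000000000000000000000000000000000000) (nat_lit 0x80000200000000000000008000010000040000000000000000000000000000000000000000000000000000) (nat_lit 3)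
theorem c99846 : QOK q99846 := cut [q79758] ⟨c79758, trivial⟩ (nd (nat_lit 232) (nat_lit 0) (cs (lf (nat_lit 24) (nat_lit 210)) (rf (nat_lit 0)))) q99846 (by decide +kernel)
def q99857 : Q := Q.p (nat_lit 0xc00003000006000018000000000000000000000000000000000000000000000000000000000) (nat_lit 0x80000e0000380000000000000000000000000000000000000000000000000000) (nat_lit 4)
theorem c99857 : QOK q99857 := cut [q22422] ⟨c22422, trivial⟩ (nd (nat_lit 233) (nat_lit 0) (cs (lf (nat_lit 35) (nat_lit 210)) (nd (nat_lit 234) (nat_lit 0) (cs (rf (nat_lit 0)) (lf (nat_lit 6) (nat_lit 231)))))) q99857 (by decide +kernel)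
def q99900 : Q := Q.p (nat_lit 0x200000800003000000000000000000000000000000000000000000000000000000000000000000000) (nat_lit 0x80000000000400000000004000010000040000000000000000000000000000000000000000000000000000) (nat_lit 3)
theorem c99900 : QOK q99900 := cut [q81361] ⟨c81361, trivial⟩ (nd (nat_lit 254) (nat_lit 0) (cs (lf (nat_lit 42) (nat_lit 254)) (rf (nat_lit 0)))) q99900 (by decide +kernel)
def q99922 : Q := Q.p (nat_lit 0x400001800002000000000000000000000000000000000000000000000000000000000000000) (nat_lit 0x40000100000000000000004000008000020000000000000000000000000000000000000000000000000000) (nat_lit 3)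
theorem c99922 : QOK q99922 := cut [q97350] ⟨c97350, trivial⟩ (nd (nat_lit 231) (nat_lit 0) (cs (lf (nat_lit 24) (nat_lit 209)) (rf (nat_lit 0)))) q99922 (by decide +kernel)
def q99934 : Q := Q.p (nat_lit 0x100000400001000004000000000000000000000000000000000000000000000000000000000000000) (nat_lit 0xa0000280000a00000000000000010000000000000000000000000000000000000000000000000000000000) (nat_lit 4)
theorem c99934 : QOK q99934 := cut [q99932] ⟨c99932, trivial⟩ (nd (nat_lit 321) (nat_lit 0) (cs (lf (nat_lit 29) (nat_lit 254)) (nd (nat_lit 232) (nat_lit 0) (cs (lf (nat_lit 28) (nat_lit 232)) (rf (nat_lit 0)))))) q99934 (by decide +kernel)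
def q99949 : Q := Q.p (nat_lit 0x600001800002000008000000000000000000000000000000000000000000000000000000000) (nat_lit 0x40000180006000000000000000000000000000000000000000000000000000000000000000000000) (nat_lit 3)
theorem c99949 : QOK q99949 := cut [q16976] ⟨c16976, trivial⟩ (nd (nat_lit 296) (nat_lit 0) (cs (lf (nat_lit 41) (nat_lit 230)) (rf (nat_lit 0)))) q99949 (by decide +kernel)
def q99953 : Q := Q.p (nat_lit 0x100000400001000004000000000000000000000000000000000000000000000000000000000000000) (nat_lit 0x80000200000800000000008000030000080000000000000000000000000000000000000000000000000000) (nat_lit 4)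
theorem c99953 : QOK q99953 := cut [q81436] ⟨c81436, trivial⟩ (nd (nat_lit 233) (nat_lit 0) (cs (lf (nat_lit 34) (nat_lit 232)) (nd (nat_lit 232) (nat_lit 0) (cs (lf (nat_lit 35) (nat_lit 210)) (rf (nat_lit 0)))))) q99953 (by decide +kernel)
def q100002 : Q := Q.p (nat_lit 0x400001000006000018000000000000000000000000000000000000000000000000000000000) (nat_lit 0x10000e0000080000000000000000000000000000000000000000000000000000) (nat_lit 3)
theorem c100002 : QOK q100002 := cut [q79994] ⟨c79994, trivial⟩ (nd (nat_lit 233) (nat_lit 0) (cs (lf (nat_lit 35) (nat_lit 210)) (rf (nat_lit 0)))) q100002 (by decide +kernel)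
def q100010 : Q := Q.p (nat_lit 0x7c00002000000000000000000000000000000000000000000000000000000000000000) (nat_lit 0x830000c000000000000000000000000000000000000000000000000000000000000000) (nat_lit 3)
theorem c100010 : QOK q100010 := cut [q79786] ⟨c79786, trivial⟩ (nd (nat_lit 254) (nat_lit 0) (cs (lf (nat_lit 18) (nat_lit 253)) (rf (nat_lit 0)))) q100010 (by decide +kernel)
def q100075 : Q := Q.p (nat_lit 0x400001000007000010000000000000000000000000000000000000000000000000000000000) (nat_lit 0x80000e0000080000000000000000000000000000000000000000000000000000) (nat_lit 3)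
theorem c100075 : QOK q100075 := cut [q80981] ⟨c80981, trivial⟩ (nd (nat_lit 233) (nat_lit 0) (cs (lf (nat_lit 35) (nat_lit 210)) (rf (nat_lit 0)))) q100075 (by decide +kernel)
def q100095 : Q := Q.p (nat_lit 0x1400003800002000000000000000000000000000000000000000000000000000000000000000) (nat_lit 0x220000c000004000000000000000000000000000000000000000000000000000000000000000) (nat_lit 3)
theorem c100095 : QOK q100095 := cut [q100094] ⟨c100094, trivial⟩ (nd (nat_lit 278) (nat_lit 0) (cs (lf (nat_lit 5) (nat_lit 275)) (rf (nat_lit 0)))) q100095 (by decide +kernel)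
def q100118 : Q := Q.p (nat_lit 0x3800006000000000000000000000000000000000000000000000000000000000000000) (nat_lit 0x380000c700008000000000000000000000000000000000000000000000000000000000000000) (nat_lit 5)
theorem c100118 : QOK q100118 := cut [q79786] ⟨c79786, trivial⟩ (nd (nat_lit 278) (nat_lit 0) (cs (lf (nat_lit 18) (nat_lit 253)) (nd (nat_lit 300) (nat_lit 0) (cs (lf (nat_lit 5) (nat_lit 275)) (nd (nat_lit 274) (nat_lit 0) (cs (lf (nat_lit 4) (nat_lit 274)) (rf (nat_lit 0)))))))) q100118 (by decide +kernel)
def q100209 : Q := Q.p (nat_lit 0xc00001800000000000000000000000000000000000000000000000000000000000000000000) (nat_lit 0x3000002600000000000000000000000000000000000000000000000000000000000000000000) (nat_lit 3)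
theorem c100209 : QOK q100209 := cut [q100208] ⟨c100208, trivial⟩ (nd (nat_lit 300) (nat_lit 0) (cs (lf (nat_lit 18) (nat_lit 275)) (rf (nat_lit 0)))) q100209 (by decide +kernel)
def q100282 : Q := Q.p (nat_lit 0x400007000004000008000000000000000000000000000000000000000000000000000) (nat_lit 0x10000000000000000b800000000000000000000000000000000000000000000000000000000) (nat_lit 3)
theorem c100282 : QOK q100282 := cut [q79026] ⟨c79026, trivial⟩ (nd (nat_lit 229) (nat_lit 0) (cs (lf (nat_lit 42) (nat_lit 207)) (rf (nat_lit 0)))) q100282 (by decide +kernel)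
def q100313 : Q := Q.p (nat_lit 0x200000c0000200003000000000000000000000000000000000000000000000000000000000000000000000) (nat_lit 0x8000000000020001d80000000000000000000000000000000000000000000000000000000000000000000000000) (nat_lit 4)
theorem c100313 : QOK q100313 := cut [q16777] ⟨c16777, trivial⟩ (nd (nat_lit 298) (nat_lit 0) (cs (lf (nat_lit 30) (nat_lit 275)) (nd (nat_lit 296) (nat_lit 0) (cs (rf (nat_lit 0)) (lf (nat_lit 12) (nat_lit 273)))))) q100313 (by decide +kernel)
def q100328 : Q := Q.p (nat_lit 0x180000300000c000000000000000000000000000000000000000000000000000000000) (nat_lit 0xe00003c000030000cc00033000000000000000000000000000000000000000000000000000000000) (nat_lit 9)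
theorem c100328 : QOK q100328 := cut [q92800] ⟨c92800, trivial⟩ (nd (nat_lit 251) (nat_lit 0) (cs (lf (nat_lit 0) (nat_lit 250)) (nd (nat_lit 232) (nat_lit 0) (cs (lf (nat_lit 6) (nat_lit 229)) (nd (nat_lit 297) (nat_lit 0) (cs (lf (nat_lit 42) (nat_lit 230)) (nd (nat_lit 296) (nat_lit 0) (cs (lf (nat_lit 41) (nat_lit 230)) (nd (nat_lit 295) (nat_lit 0) (cs (lf (nat_lit 12) (nat_lit 272)) (nd (nat_lit 273) (nat_lit 0) (cs (lf (nat_lit 30) (nat_lit 229)) (nd (nat_lit 254) (nat_lit 0) (cs (lf (nat_lit 11) (nat_lit 250)) (rf (nat_lit 0)))))))))))))))) q100328 (by decide +kernel)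
def q100386 : Q := Q.p (nat_lit 0x200001800002000008000000000000000000000000000000000000000000000000000000000) (nat_lit 0x20000080000000000000005000014000010000000000000000000000000000000000000000000000000000) (nat_lit 4)
theorem c100386 : QOK q100386 := cut [q99724] ⟨c99724, trivial⟩ (nd (nat_lit 230) (nat_lit 0) (cs (lf (nat_lit 47) (nat_lit 208)) (nd (nat_lit 319) (nat_lit 0) (cs (lf (nat_lit 46) (nat_lit 230)) (rf (nat_lit 0)))))) q100386 (by decide +kernel)
def q100391 : Q := Q.p (nat_lit 0x1800002000008000000000000000000000000000000000000000000000000000000000) (nat_lit 0x500000400005000000000020000080000000000000000000000000000000000000000000000) (nat_lit 4)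
theorem c100391 : QOK q100391 := cut [q100389] ⟨c100389, trivial⟩ (nd (nat_lit 209) (nat_lit 0) (cs (lf (nat_lit 29) (nat_lit 209)) (nd (nat_lit 274) (nat_lit 0) (cs (lf (nat_lit 41) (nat_lit 208)) (rf (nat_lit 0)))))) q100391 (by decide +kernel)
def q100444 : Q := Q.p (nat_lit 0x200003c00002000000000000000000000000000000000000000000000000000000000000000) (nat_lit 0x80000000000000001800004000010000000000000000000000000000000000000000000000000000) (nat_lit 3)
theorem c100444 : QOK q100444 := cut [q88425] ⟨c88425, trivial⟩ (nd (nat_lit 252) (nat_lit 0) (cs (lf (nat_lit 23) (nat_lit 251)) (rf (nat_lit 0)))) q100444 (by decide +kernel)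
def q100471 : Q := Q.p (nat_lit 0x400001c00002000000000000000000000000000000000000000000000000000000000000000) (nat_lit 0x80000030000c000000000000000000000000000000000000000000000000000000000000000) (nat_lit 3)
theorem c100471 : QOK q100471 := cut [q96660] ⟨c96660, trivial⟩ (nd (nat_lit 273) (nat_lit 0) (cs (lf (nat_lit 5) (nat_lit 273)) (rf (nat_lit 0)))) q100471 (by decide +kernel)
def q100595 : Q := Q.p (nat_lit 0xc0000200000800002000000000000000000000000000000000000000000000000000000000000000000000) (nat_lit 0x40000100000500000000000000008000000000000000000000000000000000000000000000000000000000000000) (nat_lit 3)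
theorem c100595 : QOK q100595 := cut [q14279] ⟨c14279, trivial⟩ (nd (nat_lit 255) (nat_lit 0) (cs (lf (nat_lit 40) (nat_lit 254)) (rf (nat_lit 0)))) q100595 (by decide +kernel)
def q100653 : Q := Q.p (nat_lit 0xc00003800004000010000000000000000000000000000000000000000000000000000) (nat_lit 0xc80003380000000008000020000080000000000000000000000000000000000000000000000) (nat_lit 6)
theorem c100653 : QOK q100653 := cut [q1301] ⟨c1301, trivial⟩ (nd (nat_lit 273) (nat_lit 0) (cs (lf (nat_lit 41) (nat_lit 207)) (nd (nat_lit 271) (nat_lit 0) (cs (lf (nat_lit 13) (nat_lit 249)) (nd (nat_lit 209) (nat_lit 0) (cs (lf (nat_lit 35) (nat_lit 186)) (nd (nat_lit 276) (nat_lit 0) (cs (lf (nat_lit 18) (nat_lit 251)) (rf (nat_lit 0)))))))))) q100653 (by decide +kernel)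
def q100668 : Q := Q.p (nat_lit 0x40000200000800002000008000000000000000000000000000000000000000000000000000000000) (nat_lit 0x10000080000000000000004000010000040000000000000000000000000000000000000000000000000000) (nat_lit 3)
theorem c100668 : QOK q100668 := cut [q84612] ⟨c84612, trivial⟩ (nd (nat_lit 319) (nat_lit 0) (cs (lf (nat_lit 41) (nat_lit 252)) (rf (nat_lit 0)))) q100668 (by decide +kernel)
def q100698 : Q := Q.p (nat_lit 0x80000380000c000000000000000000000000000000000000000000000000000000000) (nat_lit 0xe00003c0003400000000030000020000000000000000000000000000000000000000000000000000) (nat_lit 7)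
theorem c100698 : QOK q100698 := cut [q100694] ⟨c100694, trivial⟩ (nd (nat_lit 232) (nat_lit 0) (cs (lf (nat_lit 6) (nat_lit 229)) (nd (nat_lit 297) (nat_lit 0) (cs (lf (nat_lit 42) (nat_lit 230)) (nd (nat_lit 296) (nat_lit 0) (cs (lf (nat_lit 41) (nat_lit 230)) (nd (nat_lit 274) (nat_lit 0) (cs (lf (nat_lit 36) (nat_lit 208)) (rf (nat_lit 0)))))))))) q100698 (by decide +kernel)
def q100737 : Q := Q.p (nat_lit 0x780001800000000000000000000000000000000000000000000000000000000000000000000) (nat_lit 0x70003800000400000000000000000000000000000000000000000000000000000000000000000000) (nat_lit 4)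
theorem c100737 : QOK q100737 := cut [q80264] ⟨c80264, trivial⟩ (nd (nat_lit 317) (nat_lit 0) (cs (lf (nat_lit 11) (nat_lit 294)) (nd (nat_lit 299) (nat_lit 0) (cs (lf (nat_lit 10) (nat_lit 295)) (rf (nat_lit 0)))))) q100737 (by decide +kernel)
def q100751 : Q := Q.p (nat_lit 0x200000800002000018000010000000000000000000000000000000000000000000000000000) (nat_lit 0x800000000010000040000000000200000c0000200000000000000000000000000000000000000000) (nat_lit 4)
theorem c100751 : QOK q100751 := cut [q79193] ⟨c79193, trivial⟩ (nd (nat_lit 254) (nat_lit 0) (cs (lf (nat_lit 30) (nat_lit 231)) (nd (nat_lit 209) (nat_lit 0) (cs (lf (nat_lit 47) (nat_lit 186)) (rf (nat_lit 0)))))) q100751 (by decide +kernel)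
def q100796 : Q := Q.p (nat_lit 0x800003000004000000000000000000000000000000000000000000000000000000000) (nat_lit 0x200000400000000008000010000040000000000000000000000000000000000000000000000) (nat_lit 3)
theorem c100796 : QOK q100796 := cut [q100795] ⟨c100795, trivial⟩ (nd (nat_lit 208) (nat_lit 0) (cs (lf (nat_lit 24) (nat_lit 186)) (rf (nat_lit 0)))) q100796 (by decide +kernel)
def q100925 : Q := Q.p (nat_lit 0x380000c000000000000000000000000000000000000000000000000000000000) (nat_lit 0x80000200001800000600000000010000000000000000000000000000000000000000000000000000) (nat_lit 4)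
theorem c100925 : QOK q100925 := cut [q85470] ⟨c85470, trivial⟩ (nd (nat_lit 250) (nat_lit 0) (cs (lf (nat_lit 12) (nat_lit 227)) (nd (nat_lit 275) (nat_lit 0) (cs (lf (nat_lit 5) (nat_lit 250)) (rf (nat_lit 0)))))) q100925 (by decide +kernel)
def q100941 : Q := Q.p (nat_lit 0x3c0000c000000000000000000000000000000000000000000000000000000000) (nat_lit 0x58000400000380001e0001f80007e0000000000000000000000000000000000000000) (nat_lit 12)
theorem c100941 : QOK q100941 := cut [q100938] ⟨c100938, trivial⟩ (nd (nat_lit 271) (nat_lit 0) (cs (lf (nat_lit 10) (nat_lit 249)) (nd (nat_lit 228) (nat_lit 0) (cs (lf (nat_lit 23) (nat_lit 227)) (nd (nat_lit 229) (nat_lit 0) (cs (lf (nat_lit 5) (nat_lit 228)) (rf (nat_lit 0)))))))) q100941 (by decide +kernel)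
def q100951 : Q := Q.p (nat_lit 0x700000c000000000000000000000000000000000000000000000000000000000) (nat_lit 0x20000080003f00018e00060000000000000000000000000000000000000000000000000000000000) (nat_lit 8)
theorem c100951 : QOK q100951 := cut [q100946] ⟨c100946, trivial⟩ (nd (nat_lit 255) (nat_lit 0) (cs (lf (nat_lit 18) (nat_lit 230)) (nd (nat_lit 233) (nat_lit 0) (cs (lf (nat_lit 17) (nat_lit 230)) (nd (nat_lit 273) (nat_lit 0) (cs (lf (nat_lit 10) (nat_lit 251)) (nd (nat_lit 251) (nat_lit 0) (cs (lf (nat_lit 11) (nat_lit 250)) (nd (nat_lit 295) (nat_lit 0) (cs (lf (nat_lit 30) (nat_lit 229)) (rf (nat_lit 0)))))))))))) q100951 (by decide +kernel)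
def q100955 : Q := Q.p (nat_lit 0x200001800006000000000000000000000000000000000000000000000000000000000) (nat_lit 0x6000018000040000000000000000c0000300000c0000000000000000000000000000000000000000) (nat_lit 6)
theorem c100955 : QOK q100955 := cut [q5313] ⟨c5313, trivial⟩ (nd (nat_lit 295) (nat_lit 0) (cs (lf (nat_lit 30) (nat_lit 229)) (nd (nat_lit 296) (nat_lit 0) (cs (lf (nat_lit 29) (nat_lit 229)) (nd (nat_lit 207) (nat_lit 0) (cs (lf (nat_lit 43) (nat_lit 207)) (nd (nat_lit 185) (nat_lit 0) (cs (lf (nat_lit 24) (nat_lit 163)) (rf (nat_lit 0)))))))))) q100955 (by decide +kernel)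
def q100978 : Q := Q.p (nat_lit 0x80000340000c000000000000000000000000000000000000000000000000000000000) (nat_lit 0x80000240001180004800003800008000020000000000000000000000000000000000000000000000) (nat_lit 7)
theorem c100978 : QOK q100978 := cut [q20249] ⟨c20249, trivial⟩ (nd (nat_lit 251) (nat_lit 0) (cs (lf (nat_lit 5) (nat_lit 250)) (nd (nat_lit 272) (nat_lit 0) (cs (lf (nat_lit 11) (nat_lit 249)) (nd (nat_lit 228) (nat_lit 0) (cs (lf (nat_lit 23) (nat_lit 227)) (nd (nat_lit 297) (nat_lit 0) (cs (lf (nat_lit 42) (nat_lit 230)) (nd (nat_lit 229) (nat_lit 0) (cs (rf (nat_lit 0)) (lf (nat_lit 5) (nat_lit 228)))))))))))) q100978 (by decide +kernel)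
def q100981 : Q := Q.p (nat_lit 0x400001000004000010000000000000000000000000000000000000000000000) (nat_lit 0x80000200000800000000008000060000080000000000000000000000000000000000) (nat_lit 4)
theorem c100981 : QOK q100981 := cut [q17165] ⟨c17165, trivial⟩ (nd (nat_lit 161) (nat_lit 0) (cs (lf (nat_lit 46) (nat_lit 161)) (nd (nat_lit 162) (nat_lit 0) (cs (lf (nat_lit 47) (nat_lit 139)) (rf (nat_lit 0)))))) q100981 (by decide +kernel)
def q101025 : Q := Q.p (nat_lit 0x40000300000e000010000000000000000000000000000000000000000000000000000) (nat_lit 0x280001a0000ce0000000000e000030000000000000000000000000000000000000000000000) (nat_lit 8)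
theorem c101025 : QOK q101025 := cut [q12193] ⟨c12193, trivial⟩ (nd (nat_lit 275) (nat_lit 0) (cs (lf (nat_lit 42) (nat_lit 208)) (nd (nat_lit 273) (nat_lit 0) (cs (lf (nat_lit 41) (nat_lit 207)) (nd (nat_lit 254) (nat_lit 0) (cs (lf (nat_lit 6) (nat_lit 251)) (nd (nat_lit 207) (nat_lit 0) (cs (lf (nat_lit 47) (nat_lit 185)) (nd (nat_lit 206) (nat_lit 0) (cs (lf (nat_lit 0) (nat_lit 205)) (nd (nat_lit 251) (nat_lit 0) (cs (lf (nat_lit 47) (nat_lit 184)) (rf (nat_lit 0)))))))))))))) q101025 (by decide +kernel)
def q101062 : Q := Q.p (nat_lit 0x20000580001a000000000000000000000000000000000000000000000000000000000) (nat_lit 0x80000000008000004000010000040000000000000000000000000000000000000000000000) (nat_lit 3)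
theorem c101062 : QOK q101062 := cut [q82228] ⟨c82228, trivial⟩ (nd (nat_lit 230) (nat_lit 0) (cs (lf (nat_lit 5) (nat_lit 229)) (rf (nat_lit 0)))) q101062 (by decide +kernel)
def q101146 : Q := Q.p (nat_lit 0x8000020000380000a000000000000000000000000000000000000000000000000000000000) (nat_lit 0x50000360001c000000000350000d4000100000400000000000000000000000000000000000000000) (nat_lit 10)
theorem c101146 : QOK q101146 := cut [q101138] ⟨c101138, trivial⟩ (nd (nat_lit 294) (nat_lit 0) (cs (lf (nat_lit 41) (nat_lit 228)) (nd (nat_lit 296) (nat_lit 0) (cs (lf (nat_lit 29) (nat_lit 229)) (nd (nat_lit 206) (nat_lit 0) (cs (lf (nat_lit 46) (nat_lit 206)) (nd (nat_lit 230) (nat_lit 0) (cs (lf (nat_lit 35) (nat_lit 207)) (nd (nat_lit 232) (nat_lit 0) (cs (lf (nat_lit 6) (nat_lit 229)) (nd (nat_lit 210) (nat_lit 0) (cs (lf (nat_lit 17) (nat_lit 207)) (nd (nat_lit 166) (nat_lit 0) (cs (lf (nat_lit 37) (nat_lit 165)) (nd (nat_lit 275) (nat_lit 0) (cs (lf (nat_lit 30) (nat_lit 209)) (rf (nat_lit 0)))))))))))))))))) q101146 (by decide +kernel)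
def q101181 : Q := Q.p (nat_lit 0x100001600006000008000000000000000000000000000000000000000000000000000000000) (nat_lit 0x100000e00000800000000000000000000000000000000000000000000000000000000000000000000) (nat_lit 3)
theorem c101181 : QOK q101181 := cut [q101180] ⟨c101180, trivial⟩ (nd (nat_lit 298) (nat_lit 0) (cs (lf (nat_lit 42) (nat_lit 231)) (rf (nat_lit 0)))) q101181 (by decide +kernel)
def q101207 : Q := Q.p (nat_lit 0x1e00000000000000000000000000000000000000000000000000000000000000000000) (nat_lit 0xc000200001dc00000000000000000000000000000000000000000000000000000000000000) (nat_lit 5)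
theorem c101207 : QOK q101207 := cut [q101204] ⟨c101204, trivial⟩ (nd (nat_lit 251) (nat_lit 0) (cs (lf (nat_lit 23) (nat_lit 250)) (nd (nat_lit 294) (nat_lit 0) (cs (lf (nat_lit 10) (nat_lit 272)) (nd (nat_lit 277) (nat_lit 0) (cs (lf (nat_lit 22) (nat_lit 251)) (rf (nat_lit 0)))))))) q101207 (by decide +kernel)
def q101244 : Q := Q.p (nat_lit 0x2000008000020000380000000000000000000000000000000000000000000000) (nat_lit 0x14000050000240003d0000c00003000004000010000000000000000000000000000000) (nat_lit 9)
theorem c101244 : QOK q101244 := cut [q80148] ⟨c80148, trivial⟩ (nd (nat_lit 190) (nat_lit 0) (cs (lf (nat_lit 11) (nat_lit 186)) (nd (nat_lit 168) (nat_lit 0) (cs (lf (nat_lit 17) (nat_lit 165)) (nd (nat_lit 212) (nat_lit 0) (cs (lf (nat_lit 5) (nat_lit 187)) (nd (nat_lit 252) (nat_lit 0) (cs (lf (nat_lit 41) (nat_lit 186)) (nd (nat_lit 254) (nat_lit 0) (cs (lf (nat_lit 29) (nat_lit 187)) (nd (nat_lit 210) (nat_lit 0) (cs (lf (nat_lit 6) (nat_lit 187)) (rf (nat_lit 0)))))))))))))) q101244 (by decide +kernel)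
def q101268 : Q := Q.p (nat_lit 0x2000008000020000080000000000000000000000000000000000000000000000) (nat_lit 0x1000004000010000100000700001c00001000000000000000000000000000000) (nat_lit 6)
theorem c101268 : QOK q101268 := cut [q101264] ⟨c101264, trivial⟩ (nd (nat_lit 166) (nat_lit 0) (cs (lf (nat_lit 34) (nat_lit 165)) (nd (nat_lit 165) (nat_lit 0) (cs (lf (nat_lit 35) (nat_lit 143)) (nd (nat_lit 142) (nat_lit 0) (cs (lf (nat_lit 46) (nat_lit 142)) (nd (nat_lit 143) (nat_lit 0) (cs (lf (nat_lit 47) (nat_lit 120)) (rf (nat_lit 0)))))))))) q101268 (by decide +kernel)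
def q101296 : Q := Q.p (nat_lit 0x6000018000040000080000000000000000000000000000000000000000000000) (nat_lit 0x300000c00003000000000000000020000000000000000000000000000000000000000000000000000) (nat_lit 4)
theorem c101296 : QOK q101296 := cut [q101295] ⟨c101295, trivial⟩ (nd (nat_lit 276) (nat_lit 0) (cs (lf (nat_lit 25) (nat_lit 187)) (rf (nat_lit 0)))) q101296 (by decide +kernel)
def q101303 : Q := Q.p (nat_lit 0x780000c000000000000000000000000000000000000000000000000000000000) (nat_lit 0x18000070000000000000000000000000000000000000000000000000000000000) (nat_lit 3)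
theorem c101303 : QOK q101303 := cut [q85501] ⟨c85501, trivial⟩ (nd (nat_lit 233) (nat_lit 0) (cs (lf (nat_lit 7) (nat_lit 229)) (rf (nat_lit 0)))) q101303 (by decide +kernel)
def q101318 : Q := Q.p (nat_lit 0x700000c000000000000000000000000000000000000000000000000000000000) (nat_lit 0x700018e00010000000000000000000000000000000000000000000000000000000000) (nat_lit 5)
theorem c101318 : QOK q101318 := cut [q9779] ⟨c9779, trivial⟩ (nd (nat_lit 255) (nat_lit 0) (cs (lf (nat_lit 18) (nat_lit 230)) (nd (nat_lit 273) (nat_lit 0) (cs (lf (nat_lit 10) (nat_lit 251)) (nd (nat_lit 251) (nat_lit 0) (cs (rf (nat_lit 0)) (lf (nat_lit 11) (nat_lit 250)))))))) q101318 (by decide +kernel)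
def q101326 : Q := Q.p (nat_lit 0x300002c000020000080000000000000000000000000000000000000000000000) (nat_lit 0x100001c000040000000000000000000000000000000000000000000000000000000000) (nat_lit 3)
theorem c101326 : QOK q101326 := cut [q85501] ⟨c85501, trivial⟩ (nd (nat_lit 254) (nat_lit 0) (cs (lf (nat_lit 29) (nat_lit 187)) (rf (nat_lit 0)))) q101326 (by decide +kernel)
def q101358 : Q := Q.p (nat_lit 0x600003c000030000080000000000000000000000000000000000000000000000) (nat_lit 0x180000700000c00000000000000000000000000000000000000000) (nat_lit 4)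
theorem c101358 : QOK q101358 := cut [q101357] ⟨c101357, trivial⟩ (nd (nat_lit 211) (nat_lit 0) (cs (lf (nat_lit 17) (nat_lit 208)) (rf (nat_lit 0)))) q101358 (by decide +kernel)
def q101387 : Q := Q.p (nat_lit 0x780000c000000000000000000000000000000000000000000000000000000000) (nat_lit 0x600003800000000000000000000000000000000000000000000000000000000) (nat_lit 3)
theorem c101387 : QOK q101387 := cut [q7471] ⟨c7471, trivial⟩ (nd (nat_lit 228) (nat_lit 0) (cs (rf (nat_lit 0)) (lf (nat_lit 1) (nat_lit 228)))) q101387 (by decide +kernel)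
def q101447 : Q := Q.p (nat_lit 0x200001e000000000000000000000000000000000000000000000000000000000) (nat_lit 0x80000200001d0000e00007e0000100000400000000000000000000000000000000000000000) (nat_lit 9)
theorem c101447 : QOK q101447 := cut [q101442] ⟨c101442, trivial⟩ (nd (nat_lit 210) (nat_lit 0) (cs (lf (nat_lit 17) (nat_lit 207)) (nd (nat_lit 166) (nat_lit 0) (cs (lf (nat_lit 37) (nat_lit 165)) (nd (nat_lit 255) (nat_lit 0) (cs (lf (nat_lit 4) (nat_lit 229)) (nd (nat_lit 233) (nat_lit 0) (cs (lf (nat_lit 5) (nat_lit 230)) (nd (nat_lit 277) (nat_lit 0) (cs (lf (nat_lit 42) (nat_lit 210)) (rf (nat_lit 0)))))))))))) q101447 (by decide +kernel)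
def q101456 : Q := Q.p (nat_lit 0x200001e000000000000000000000000000000000000000000000000000000000) (nat_lit 0x39c000e00007ec000100000400000000000000000000000000000000000000000) (nat_lit 10)
theorem c101456 : QOK q101456 := cut [q97226] ⟨c97226, trivial⟩ (nd (nat_lit 210) (nat_lit 0) (cs (lf (nat_lit 17) (nat_lit 207)) (nd (nat_lit 166) (nat_lit 0) (cs (lf (nat_lit 37) (nat_lit 165)) (nd (nat_lit 206) (nat_lit 0) (cs (lf (nat_lit 22) (nat_lit 206)) (nd (nat_lit 251) (nat_lit 0) (cs (lf (nat_lit 11) (nat_lit 228)) (nd (nat_lit 233) (nat_lit 0) (cs (lf (nat_lit 10) (nat_lit 229)) (nd (nat_lit 256) (nat_lit 0) (cs (lf (nat_lit 4) (nat_lit 230)) (nd (nat_lit 234) (nat_lit 0) (cs (lf (nat_lit 5) (nat_lit 231)) (nd (nat_lit 235) (nat_lit 0) (cs (lf (nat_lit 23) (nat_lit 209)) (rf (nat_lit 0)))))))))))))))))) q101456 (by decide +kernel)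
def q101513 : Q := Q.p (nat_lit 0x3c000000000000000000000000000000000000000000000000000000000) (nat_lit 0x38000040000380000000000000000000000000000000000000000000000000000) (nat_lit 4)
theorem c101513 : QOK q101513 := cut [q97190] ⟨c97190, trivial⟩ (nd (nat_lit 256) (nat_lit 0) (cs (lf (nat_lit 4) (nat_lit 230)) (nd (nat_lit 212) (nat_lit 0) (cs (lf (nat_lit 16) (nat_lit 208)) (rf (nat_lit 0)))))) q101513 (by decide +kernel)
def q101548 : Q := Q.p (nat_lit 0x200000800002000008000000000000000000000000000000000000000000000000000000000) (nat_lit 0x40000180000400000000004000010000040000000000000000000000000000000000000000000000000000) (nat_lit 4)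
theorem c101548 : QOK q101548 := cut [q84612] ⟨c84612, trivial⟩ (nd (nat_lit 320) (nat_lit 0) (cs (lf (nat_lit 28) (nat_lit 231)) (nd (nat_lit 319) (nat_lit 0) (cs (lf (nat_lit 29) (nat_lit 253)) (rf (nat_lit 0)))))) q101548 (by decide +kernel)
def q101561 : Q := Q.p (nat_lit 0x200000800002000008000000000000000000000000000000000000000000000000000000000) (nat_lit 0x100000700001c0000100001000004000010000000000000000000000000000000000000000000000000000000000) (nat_lit 6)
theorem c101561 : QOK q101561 := cut [q2609] ⟨c2609, trivial⟩ (nd (nat_lit 318) (nat_lit 0) (cs (lf (nat_lit 40) (nat_lit 230)) (nd (nat_lit 319) (nat_lit 0) (cs (lf (nat_lit 41) (nat_lit 252)) (nd (nat_lit 254) (nat_lit 0) (cs (lf (nat_lit 35) (nat_lit 231)) (nd (nat_lit 341) (nat_lit 0) (cs (rf (nat_lit 0)) (lf (nat_lit 34) (nat_lit 253)))))))))) q101561 (by decide +kernel)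
def q101581 : Q := Q.p (nat_lit 0x200000800002000008000000000000000000000000000000000000000000000000000000000) (nat_lit 0x100000c0000100000000001000004000010000000000000000000000000000000000000000000000000000) (nat_lit 4)
theorem c101581 : QOK q101581 := cut [q99297] ⟨c99297, trivial⟩ (nd (nat_lit 318) (nat_lit 0) (cs (lf (nat_lit 40) (nat_lit 230)) (nd (nat_lit 319) (nat_lit 0) (cs (lf (nat_lit 41) (nat_lit 252)) (rf (nat_lit 0)))))) q101581 (by decide +kernel)
def q101586 : Q := Q.p (nat_lit 0x800002000008000020000000000000000000000000000000000000000000000000000) (nat_lit 0x100000600001000000000004000010000040000000000000000000000000000000000000000000000) (nat_lit 4)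
theorem c101586 : QOK q101586 := cut [q731] ⟨c731, trivial⟩ (nd (nat_lit 298) (nat_lit 0) (cs (lf (nat_lit 28) (nat_lit 209)) (nd (nat_lit 208) (nat_lit 0) (cs (rf (nat_lit 0)) (lf (nat_lit 47) (nat_lit 186)))))) q101586 (by decide +kernel)
def q101610 : Q := Q.p (nat_lit 0xe00007800008000000000000000000000000000000000000000000000000000000000) (nat_lit 0x100000c00003000000000000000000000000000000000000000000000000000000000000000000000) (nat_lit 3)
theorem c101610 : QOK q101610 := cut [q101609] ⟨c101609, trivial⟩ (nd (nat_lit 276) (nat_lit 0) (cs (lf (nat_lit 5) (nat_lit 251)) (rf (nat_lit 0)))) q101610 (by decide +kernel)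
def q101631 : Q := Q.p (nat_lit 0x200000e000000000000000000000000000000000000000000000000000000000) (nat_lit 0x800004000001800070000040000100000000000000000000000000000000000000000) (nat_lit 5)
theorem c101631 : QOK q101631 := cut [q1382] ⟨c1382, trivial⟩ (nd (nat_lit 228) (nat_lit 0) (cs (lf (nat_lit 5) (nat_lit 228)) (nd (nat_lit 209) (nat_lit 0) (cs (lf (nat_lit 17) (nat_lit 206)) (nd (nat_lit 208) (nat_lit 0) (cs (lf (nat_lit 12) (nat_lit 205)) (rf (nat_lit 0)))))))) q101631 (by decide +kernel)
def q101640 : Q := Q.p (nat_lit 0xe0000200000c000000000000000000000000000000000000000000000000000000000) (nat_lit 0xc000100000d800003000030000040000100000000000000000000000000000000000000000) (nat_lit 6)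
theorem c101640 : QOK q101640 := cut [q3985] ⟨c3985, trivial⟩ (nd (nat_lit 208) (nat_lit 0) (cs (rf (nat_lit 0)) (nd (nat_lit 295) (nat_lit 0) (cs (lf (nat_lit 38) (nat_lit 207)) (nd (nat_lit 229) (nat_lit 0) (cs (lf (nat_lit 32) (nat_lit 207)) (nd (nat_lit 276) (nat_lit 0) (cs (lf (nat_lit 11) (nat_lit 272)) (nd (nat_lit 254) (nat_lit 0) (cs (lf (nat_lit 0) (nat_lit 228)) (lf (nat_lit 17) (nat_lit 251)))))))))))) q101640 (by decide +kernel)
def q101662 : Q := Q.p (nat_lit 0x200001e000000000000000000000000000000000000000000000000000000000) (nat_lit 0x10000040000300000dc00020000020000000000000000000000000000000000000000000000000000) (nat_lit 6)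
theorem c101662 : QOK q101662 := cut [q79894] ⟨c79894, trivial⟩ (nd (nat_lit 254) (nat_lit 0) (cs (lf (nat_lit 5) (nat_lit 229)) (nd (nat_lit 251) (nat_lit 0) (cs (lf (nat_lit 11) (nat_lit 228)) (nd (nat_lit 252) (nat_lit 0) (cs (lf (nat_lit 17) (nat_lit 229)) (nd (nat_lit 276) (nat_lit 0) (cs (lf (nat_lit 5) (nat_lit 251)) (rf (nat_lit 0)))))))))) q101662 (by decide +kernel)
def q101704 : Q := Q.p (nat_lit 0x600000c000000000000000000000000000000000000000000000000000000000) (nat_lit 0x18000013000000000000000000000000000000000000000000000000000000000) (nat_lit 3)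
theorem c101704 : QOK q101704 := cut [q80765] ⟨c80765, trivial⟩ (nd (nat_lit 255) (nat_lit 0) (cs (lf (nat_lit 18) (nat_lit 230)) (rf (nat_lit 0)))) q101704 (by decide +kernel)
def q101724 : Q := Q.p (nat_lit 0x1c00002000008000000000000000000000000000000000000000000000000000000000) (nat_lit 0x400000000005000000000020000080000000000000000000000000000000000000000000000) (nat_lit 3)
theorem c101724 : QOK q101724 := cut [q100389] ⟨c100389, trivial⟩ (nd (nat_lit 209) (nat_lit 0) (cs (lf (nat_lit 29) (nat_lit 209)) (rf (nat_lit 0)))) q101724 (by decide +kernel)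
def q101728 : Q := Q.p (nat_lit 0x3c00000000000000000000000000000000000000000000000000000000000000000000) (nat_lit 0x20000180000020001c000010000040000000000000000000000000000000000000000000000000000) (nat_lit 5)
theorem c101728 : QOK q101728 := cut [q101725] ⟨c101725, trivial⟩ (nd (nat_lit 299) (nat_lit 0) (cs (lf (nat_lit 5) (nat_lit 274)) (nd (nat_lit 255) (nat_lit 0) (cs (lf (nat_lit 17) (nat_lit 252)) (nd (nat_lit 254) (nat_lit 0) (cs (lf (nat_lit 12) (nat_lit 251)) (rf (nat_lit 0)))))))) q101728 (by decide +kernel)
def q101734 : Q := Q.p (nat_lit 0x80000200001800006000000000000000000000000000000000000000000000000000000000000000) (nat_lit 0x2000001c00004000000000000000000000000000000000000000000000000000000000) (nat_lit 3)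
theorem c101734 : QOK q101734 := cut [q79170] ⟨c79170, trivial⟩ (nd (nat_lit 252) (nat_lit 0) (cs (lf (nat_lit 47) (nat_lit 230)) (rf (nat_lit 0)))) q101734 (by decide +kernel)
def q101761 : Q := Q.p (nat_lit 0x800002000018000000000000000000000000000000000000000000000000000000000) (nat_lit 0x300001f0001f00001700001c00064000040000000000000000000000000000000000000000000000000000) (nat_lit 12)
theorem c101761 : QOK q101761 := cut [q11530] ⟨c11530, trivial⟩ (nd (nat_lit 297) (nat_lit 0) (cs (lf (nat_lit 35) (nat_lit 209)) (nd (nat_lit 298) (nat_lit 0) (cs (lf (nat_lit 29) (nat_lit 231)) (nd (nat_lit 318) (nat_lit 0) (cs (lf (nat_lit 40) (nat_lit 230)) (nd (nat_lit 319) (nat_lit 0) (cs (lf (nat_lit 41) (nat_lit 252)) (nd (nat_lit 316) (nat_lit 0) (cs (lf (nat_lit 13) (nat_lit 294)) (nd (nat_lit 299) (nat_lit 0) (cs (lf (nat_lit 6) (nat_lit 296)) (nd (nat_lit 252) (nat_lit 0) (cs (lf (nat_lit 47) (nat_lit 230)) (nd (nat_lit 233) (nat_lit 0) (cs (lf (nat_lit 6) (nat_lit 230)) (nd (nat_lit 250) (nat_lit 0) (cs (lf (nat_lit 13) (nat_lit 228)) (nd (nat_lit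 274) (nat_lit 0) (cs (lf (nat_lit 42) (nat_lit 252)) (rf (nat_lit 0)))))))))))))))))))))) q101761 (by decide +kernel)
def q101768 : Q := Q.p (nat_lit 0x2000038000000000000000000000000000000000000000000000000000000000) (nat_lit 0x710003c40003c0000000000000000000000000000000000000000000000000000) (nat_lit 7)
theorem c101768 : QOK q101768 := cut [q101763] ⟨c101763, trivial⟩ (nd (nat_lit 234) (nat_lit 0) (cs (lf (nat_lit 11) (nat_lit 230)) (nd (nat_lit 212) (nat_lit 0) (cs (lf (nat_lit 17) (nat_lit 209)) (nd (nat_lit 211) (nat_lit 0) (cs (lf (nat_lit 12) (nat_lit 208)) (nd (nat_lit 257) (nat_lit 0) (cs (lf (nat_lit 4) (nat_lit 231)) (nd (nat_lit 235) (nat_lit 0) (cs (lf (nat_lit 5) (nat_lit 232)) (rf (nat_lit 0)))))))))))) q101768 (by decide +kernel)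
def q101787 : Q := Q.p (nat_lit 0x38000080000000000000000000000000000000000000000000000000000) (nat_lit 0x4000740000000000000000000000000000000000000000000000000000) (nat_lit 3)
theorem c101787 : QOK q101787 := cut [q101786] ⟨c101786, trivial⟩ (nd (nat_lit 212) (nat_lit 0) (cs (lf (nat_lit 12) (nat_lit 208)) (rf (nat_lit 0)))) q101787 (by decide +kernel)
def q101799 : Q := Q.p (nat_lit 0x78000000000000000000000000000000000000000000000000000000000) (nat_lit 0x38000004000380000000000000000000000000000000000000000000000000000) (nat_lit 4)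
theorem c101799 : QOK q101799 := cut [q96905] ⟨c96905, trivial⟩ (nd (nat_lit 212) (nat_lit 0) (cs (lf (nat_lit 17) (nat_lit 209)) (nd (nat_lit 230) (nat_lit 0) (cs (lf (nat_lit 16) (nat_lit 208)) (rf (nat_lit 0)))))) q101799 (by decide +kernel)
def q101803 : Q := Q.p (nat_lit 0x2000078000000000000000000000000000000000000000000000000000000000) (nat_lit 0x40003840003c0000000000000000000000000000000000000000000000000000) (nat_lit 5)
theorem c101803 : QOK q101803 := cut [q101763] ⟨c101763, trivial⟩ (nd (nat_lit 212) (nat_lit 0) (cs (lf (nat_lit 17) (nat_lit 209)) (nd (nat_lit 211) (nat_lit 0) (cs (lf (nat_lit 12) (nat_lit 208)) (nd (nat_lit 235) (nat_lit 0) (cs (lf (nat_lit 10) (nat_lit 231)) (rf (nat_lit 0)))))))) q101803 (by decide +kernel)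
def q101882 : Q := Q.p (nat_lit 0xc00006000000000000000000000000000000000000000000000000000000000000000) (nat_lit 0x1300018000000000000000000000000000000000000000000000000000000000000000) (nat_lit 3)
theorem c101882 : QOK q101882 := cut [q101881] ⟨c101881, trivial⟩ (nd (nat_lit 255) (nat_lit 0) (cs (lf (nat_lit 6) (nat_lit 252)) (rf (nat_lit 0)))) q101882 (by decide +kernel)
def q101893 : Q := Q.p (nat_lit 0x4000078000040000000000000000000000000000000000000000000000000000) (nat_lit 0x1000000000004000380000200000800000000000000000000000000000000000000000) (nat_lit 4)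
theorem c101893 : QOK q101893 := cut [q93190] ⟨c93190, trivial⟩ (nd (nat_lit 212) (nat_lit 0) (cs (lf (nat_lit 17) (nat_lit 209)) (nd (nat_lit 211) (nat_lit 0) (cs (lf (nat_lit 12) (nat_lit 208)) (rf (nat_lit 0)))))) q101893 (by decide +kernel)
def q101935 : Q := Q.p (nat_lit 0x180000300000c000000000000000000000000000000000000000000000000000000000) (nat_lit 0x200000cc00003000000000000000000000000000000000000000000000000000000000) (nat_lit 4)
theorem c101935 : QOK q101935 := cut [q92800] ⟨c92800, trivial⟩ (nd (nat_lit 251) (nat_lit 0) (cs (lf (nat_lit 0) (nat_lit 250)) (nd (nat_lit 254) (nat_lit 0) (cs (lf (nat_lit 5) (nat_lit 251)) (rf (nat_lit 0)))))) q101935 (by decide +kernel)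
def q102009 : Q := Q.p (nat_lit 0x600000c000000000000000000000000000000000000000000000000000000000) (nat_lit 0x19000003000000000000000000000000000000000000000000000000000000000) (nat_lit 3)
theorem c102009 : QOK q102009 := cut [q80766] ⟨c80766, trivial⟩ (nd (nat_lit 255) (nat_lit 0) (cs (lf (nat_lit 18) (nat_lit 230)) (rf (nat_lit 0)))) q102009 (by decide +kernel)
def q102036 : Q := Q.p (nat_lit 0x800002000008000020000000000000000000000000000000000000000000000000000) (nat_lit 0x100001c0000700001000001000004000010000000000000000000000000000000000000000000000000000) (nat_lit 6)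
theorem c102036 : QOK q102036 := cut [q102032] ⟨c102032, trivial⟩ (nd (nat_lit 298) (nat_lit 0) (cs (lf (nat_lit 28) (nat_lit 209)) (nd (nat_lit 297) (nat_lit 0) (cs (lf (nat_lit 29) (nat_lit 231)) (nd (nat_lit 318) (nat_lit 0) (cs (lf (nat_lit 40) (nat_lit 230)) (nd (nat_lit 230) (nat_lit 0) (cs (lf (nat_lit 47) (nat_lit 208)) (rf (nat_lit 0)))))))))) q102036 (by decide +kernel)
def q102041 : Q := Q.p (nat_lit 0x1000002000018000030000000000000000000000000000000000000000000000000000) (nat_lit 0x600000800000000004000040000000000000000000000000000000000000000000000000000) (nat_lit 3)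
theorem c102041 : QOK q102041 := cut [q102040] ⟨c102040, trivial⟩ (nd (nat_lit 275) (nat_lit 0) (cs (lf (nat_lit 29) (nat_lit 209)) (rf (nat_lit 0)))) q102041 (by decide +kernel)
def q102046 : Q := Q.p (nat_lit 0x7800018000038000000000000000000000000000000000000000000000000000) (nat_lit 0x3000080000070000c0000030000080000000000000000000000000000000000000000) (nat_lit 6)
theorem c102046 : QOK q102046 := cut [q23510] ⟨c23510, trivial⟩ (nd (nat_lit 272) (nat_lit 0) (cs (lf (nat_lit 10) (nat_lit 250)) (nd (nat_lit 229) (nat_lit 0) (cs (lf (nat_lit 23) (nat_lit 228)) (nd (nat_lit 230) (nat_lit 0) (cs (lf (nat_lit 5) (nat_lit 229)) (nd (nat_lit 210) (nat_lit 0) (cs (lf (nat_lit 17) (nat_lit 207)) (rf (nat_lit 0)))))))))) q102046 (by decide +kernel)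
def q102079 : Q := Q.p (nat_lit 0xc00003c000030000000000000000000000000000000000000000000000000000) (nat_lit 0x1c0000600001800000000000000000000000000000000000000000) (nat_lit 4)
theorem c102079 : QOK q102079 := cut [q86152] ⟨c86152, trivial⟩ (nd (nat_lit 211) (nat_lit 0) (cs (lf (nat_lit 17) (nat_lit 208)) (nd (nat_lit 189) (nat_lit 0) (cs (lf (nat_lit 36) (nat_lit 166)) (rf (nat_lit 0)))))) q102079 (by decide +kernel)
def q102086 : Q := Q.p (nat_lit 0x3c000000000000000000000000000000000000000000000000000000000) (nat_lit 0x1dc00002000000000000000000000000000000000000000000000000000000000) (nat_lit 4)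
theorem c102086 : QOK q102086 := cut [q102059] ⟨c102059, trivial⟩ (nd (nat_lit 255) (nat_lit 0) (cs (lf (nat_lit 5) (nat_lit 230)) (nd (nat_lit 229) (nat_lit 0) (cs (lf (nat_lit 4) (nat_lit 229)) (rf (nat_lit 0)))))) q102086 (by decide +kernel)
def q102155 : Q := Q.p (nat_lit 0x200000c000070000000000000000000000000000000000000000000000000000) (nat_lit 0x80000000000000000e000338000000000000000000000000000000000000000000000) (nat_lit 5)
theorem c102155 : QOK q102155 := cut [q1393] ⟨c1393, trivial⟩ (nd (nat_lit 188) (nat_lit 0) (cs (lf (nat_lit 30) (nat_lit 187)) (nd (nat_lit 207) (nat_lit 0) (cs (lf (nat_lit 17) (nat_lit 185)) (rf (nat_lit 0)))))) q102155 (by decide +kernel)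
def q102206 : Q := Q.p (nat_lit 0x10000300000f000000000000000000000000000000000000000000000000000000000) (nat_lit 0x10000040000080000e0000000000e000000000000000000000000000000000000000000000000000) (nat_lit 5)
theorem c102206 : QOK q102206 := cut [q11016] ⟨c11016, trivial⟩ (nd (nat_lit 250) (nat_lit 0) (cs (lf (nat_lit 11) (nat_lit 227)) (nd (nat_lit 205) (nat_lit 0) (cs (lf (nat_lit 22) (nat_lit 205)) (nd (nat_lit 251) (nat_lit 0) (cs (lf (nat_lit 11) (nat_lit 249)) (rf (nat_lit 0)))))))) q102206 (by decide +kernel)
def q102324 : Q := Q.p (nat_lit 0x2000008000030000000000000000000000000000000000000000000000000000) (nat_lit 0x180001f00001e0001d80007000004c000040000000000000000000000000000000000000000000000) (nat_lit 12)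
theorem c102324 : QOK q102324 := cut [q79079] ⟨c79079, trivial⟩ (nd (nat_lit 275) (nat_lit 0) (cs (lf (nat_lit 47) (nat_lit 186)) (nd (nat_lit 274) (nat_lit 0) (cs (lf (nat_lit 41) (nat_lit 208)) (nd (nat_lit 298) (nat_lit 0) (cs (lf (nat_lit 28) (nat_lit 209)) (nd (nat_lit 297) (nat_lit 0) (cs (lf (nat_lit 29) (nat_lit 231)) (nd (nat_lit 232) (nat_lit 0) (cs (lf (nat_lit 35) (nat_lit 209)) (nd (nat_lit 299) (nat_lit 0) (cs (lf (nat_lit 18) (nat_lit 274)) (nd (nat_lit 206) (nat_lit 0) (cs (lf (nat_lit 1) (nat_lit 206)) (nd (nat_lit 233) (nat_lit 0) (cs (lf (nat_lit 18) (nat_lit 208)) (nd (nat_lit 254) (nat_lit 0) (cs (lf (nat_lit 30) (nat_lit 231)) (nd (nat_lit 252) (nat_lit 0) (cs (rf (nat_lit 0)) (lf (nat_lit 12) (nat_lit 229)))))))))))))))))))))) q102324 (by decide +kernel)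
def q102397 : Q := Q.p (nat_lit 0x800002000018000000000000000000000000000000000000000000000000000000000) (nat_lit 0x180000600000000001800064000050000000000000000000000000000000000000000000000000000) (nat_lit 6)
theorem c102397 : QOK q102397 := cut [q87131] ⟨c87131, trivial⟩ (nd (nat_lit 297) (nat_lit 0) (cs (lf (nat_lit 35) (nat_lit 209)) (nd (nat_lit 298) (nat_lit 0) (cs (lf (nat_lit 29) (nat_lit 231)) (nd (nat_lit 230) (nat_lit 0) (cs (lf (nat_lit 47) (nat_lit 208)) (nd (nat_lit 252) (nat_lit 0) (cs (lf (nat_lit 42) (nat_lit 230)) (rf (nat_lit 0)))))))))) q102397 (by decide +kernel)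
def q102398 : Q := Q.p (nat_lit 0x80000200003c000000000000000000000000000000000000000000000000000000000) (nat_lit 0x1800000000018000040000000000000000000000000000000000000000000000) (nat_lit 3)
theorem c102398 : QOK q102398 := cut [q97298] ⟨c97298, trivial⟩ (nd (nat_lit 208) (nat_lit 0) (cs (lf (nat_lit 23) (nat_lit 207)) (rf (nat_lit 0)))) q102398 (by decide +kernel)
def q102422 : Q := Q.p (nat_lit 0x2000038000060000000000000000000000000000000000000000000000000000) (nat_lit 0x200000800000000000000018000040000000000000000000000000000000000000000000000) (nat_lit 3)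
theorem c102422 : QOK q102422 := cut [q80368] ⟨c80368, trivial⟩ (nd (nat_lit 275) (nat_lit 0) (cs (lf (nat_lit 30) (nat_lit 209)) (rf (nat_lit 0)))) q102422 (by decide +kernel)
def q102459 : Q := Q.p (nat_lit 0x38000020000000000000000000000000000000000000000000000000000) (nat_lit 0x4000005c000000000000000000000000000000000000000000000000000) (nat_lit 3)
theorem c102459 : QOK q102459 := cut [q87059] ⟨c87059, trivial⟩ (nd (nat_lit 208) (nat_lit 0) (cs (lf (nat_lit 18) (nat_lit 208)) (rf (nat_lit 0)))) q102459 (by decide +kernel)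
def q102502 : Q := Q.p (nat_lit 0x3c000040000000000000000000000000000000000000000000000000000) (nat_lit 0x80000200001c000000000000000100000400000000000000000000000000000000000000000) (nat_lit 4)
theorem c102502 : QOK q102502 := cut [q102501] ⟨c102501, trivial⟩ (nd (nat_lit 255) (nat_lit 0) (cs (lf (nat_lit 5) (nat_lit 230)) (rf (nat_lit 0)))) q102502 (by decide +kernel)
def q102505 : Q := Q.p (nat_lit 0x200003c000040000000000000000000000000000000000000000000000000000) (nat_lit 0x400001b8000060000100000000000000000000000000000000000000000) (nat_lit 5)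
theorem c102505 : QOK q102505 := cut [q10546] ⟨c10546, trivial⟩ (nd (nat_lit 211) (nat_lit 0) (cs (lf (nat_lit 17) (nat_lit 208)) (nd (nat_lit 208) (nat_lit 0) (cs (lf (nat_lit 23) (nat_lit 207)) (nd (nat_lit 209) (nat_lit 0) (cs (lf (nat_lit 18) (nat_lit 208)) (rf (nat_lit 0)))))))) q102505 (by decide +kernel)
def q102531 : Q := Q.p (nat_lit 0x2000038000000000000000000000000000000000000000000000000000000000) (nat_lit 0x10000440003b8000000000000000000000000000000000000000000000000000) (nat_lit 5)
theorem c102531 : QOK q102531 := cut [q96996] ⟨c96996, trivial⟩ (nd (nat_lit 234) (nat_lit 0) (cs (lf (nat_lit 11) (nat_lit 230)) (nd (nat_lit 212) (nat_lit 0) (cs (lf (nat_lit 17) (nat_lit 209)) (nd (nat_lit 230) (nat_lit 0) (cs (lf (nat_lit 16) (nat_lit 208)) (rf (nat_lit 0)))))))) q102531 (by decide +kernel)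
def q102534 : Q := Q.p (nat_lit 0x78000000000000000000000000000000000000000000000000000000000) (nat_lit 0x38000004000038000000000000000000000000000000000000000000000000000) (nat_lit 4)
theorem c102534 : QOK q102534 := cut [q96996] ⟨c96996, trivial⟩ (nd (nat_lit 256) (nat_lit 0) (cs (lf (nat_lit 5) (nat_lit 231)) (nd (nat_lit 230) (nat_lit 0) (cs (lf (nat_lit 4) (nat_lit 230)) (rf (nat_lit 0)))))) q102534 (by decide +kernel)
def q102579 : Q := Q.p (nat_lit 0x38000010000000000000000000000000000000000000000000000000000) (nat_lit 0x4000006c000000000000000000000000000000000000000000000000000) (nat_lit 3)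
theorem c102579 : QOK q102579 := cut [q87059] ⟨c87059, trivial⟩ (nd (nat_lit 209) (nat_lit 0) (cs (lf (nat_lit 18) (nat_lit 208)) (rf (nat_lit 0)))) q102579 (by decide +kernel)
def q102583 : Q := Q.p (nat_lit 0x3c000000000000000000000000000000000000000000000000000000000) (nat_lit 0x20001dc000000000000000000000000000000000000000000000000000) (nat_lit 4)
theorem c102583 : QOK q102583 := cut [q102582] ⟨c102582, trivial⟩ (nd (nat_lit 207) (nat_lit 0) (cs (lf (nat_lit 22) (nat_lit 207)) (rf (nat_lit 0)))) q102583 (by decide +kernel)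
def q102605 : Q := Q.p (nat_lit 0x3000008000060000000000000000000000000000000000000000000000000000) (nat_lit 0x400004000010000000000180000600001800000000000000000000000000000000000) (nat_lit 5)
theorem c102605 : QOK q102605 := cut [q102602] ⟨c102602, trivial⟩ (nd (nat_lit 187) (nat_lit 0) (cs (lf (nat_lit 41) (nat_lit 186)) (nd (nat_lit 166) (nat_lit 0) (cs (lf (nat_lit 34) (nat_lit 165)) (nd (nat_lit 165) (nat_lit 0) (cs (lf (nat_lit 35) (nat_lit 143)) (rf (nat_lit 0)))))))) q102605 (by decide +kernel)
def q102607 : Q := Q.p (nat_lit 0x3000008000060000000000000000000000000000000000000000000000000000) (nat_lit 0x400004000014000000000080000200000800000000000000000000000000000000000) (nat_lit 4)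
theorem c102607 : QOK q102607 := cut [q102602] ⟨c102602, trivial⟩ (nd (nat_lit 187) (nat_lit 0) (cs (lf (nat_lit 41) (nat_lit 186)) (nd (nat_lit 165) (nat_lit 0) (cs (lf (nat_lit 40) (nat_lit 164)) (rf (nat_lit 0)))))) q102607 (by decide +kernel)
def q102612 : Q := Q.p (nat_lit 0x200003c0000c0000000000000000000000000000000000000000000000000000) (nat_lit 0x2000018000000000000000100000400000000000000000000000000000000000000000) (nat_lit 3)
theorem c102612 : QOK q102612 := cut [q22238] ⟨c22238, trivial⟩ (nd (nat_lit 255) (nat_lit 0) (cs (lf (nat_lit 5) (nat_lit 230)) (rf (nat_lit 0)))) q102612 (by decide +kernel)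
def q102622 : Q := Q.p (nat_lit 0x7800018000060000100000000000000000000000000000000000000000000000) (nat_lit 0x300000000000000098000e80000a00000000000000000000000000000000000000000) (nat_lit 6)
theorem c102622 : QOK q102622 := cut [q42] ⟨c42, trivial⟩ (nd (nat_lit 272) (nat_lit 0) (cs (lf (nat_lit 10) (nat_lit 250)) (nd (nat_lit 165) (nat_lit 0) (cs (lf (nat_lit 25) (nat_lit 165)) (nd (nat_lit 189) (nat_lit 0) (cs (lf (nat_lit 35) (nat_lit 166)) (nd (nat_lit 208) (nat_lit 0) (cs (rf (nat_lit 0)) (lf (nat_lit 12) (nat_lit 185)))))))))) q102622 (by decide +kernel)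
def q102651 : Q := Q.p (nat_lit 0x300000c0000b0000000000000000000000000000000000000000000000000000) (nat_lit 0x40000060000180000000000000000000000000000000000000000) (nat_lit 3)
theorem c102651 : QOK q102651 := cut [q10016] ⟨c10016, trivial⟩ (nd (nat_lit 186) (nat_lit 0) (cs (lf (nat_lit 24) (nat_lit 164)) (rf (nat_lit 0)))) q102651 (by decide +kernel)
def q102678 : Q := Q.p (nat_lit 0x800002000008000020000000000000000000000000000000000000000000000000000000000) (nat_lit 0x140000700001400000000000000000000000000000000000000000000000000000000000000000000000000) (nat_lit 4)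
theorem c102678 : QOK q102678 := cut [q80404] ⟨c80404, trivial⟩ (nd (nat_lit 320) (nat_lit 0) (cs (lf (nat_lit 40) (nat_lit 232)) (nd (nat_lit 322) (nat_lit 0) (cs (lf (nat_lit 28) (nat_lit 233)) (rf (nat_lit 0)))))) q102678 (by decide +kernel)
def q102731 : Q := Q.p (nat_lit 0x3c000000000000000000000000000000000000000000000000000000000) (nat_lit 0x19c0000200001c000000000000000000000000000000000000000000000000000) (nat_lit 5)
theorem c102731 : QOK q102731 := cut [q97368] ⟨c97368, trivial⟩ (nd (nat_lit 207) (nat_lit 0) (cs (lf (nat_lit 22) (nat_lit 207)) (nd (nat_lit 255) (nat_lit 0) (cs (lf (nat_lit 5) (nat_lit 230)) (rf (nat_lit 0)))))) q102731 (by decide +kernel)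
def q102733 : Q := Q.p (nat_lit 0x3c000000000000000000000000000000000000000000000000000000000) (nat_lit 0x180000020001dc000000000000000000000000000000000000000000000000000) (nat_lit 5)
theorem c102733 : QOK q102733 := cut [q102582] ⟨c102582, trivial⟩ (nd (nat_lit 207) (nat_lit 0) (cs (lf (nat_lit 22) (nat_lit 207)) (nd (nat_lit 255) (nat_lit 0) (cs (lf (nat_lit 5) (nat_lit 230)) (rf (nat_lit 0)))))) q102733 (by decide +kernel)
def q102742 : Q := Q.p (nat_lit 0x2000038000000000000000000000000000000000000000000000000000000000) (nat_lit 0x750000c0000300000000000000000000000000000000000000000000000000000) (nat_lit 5)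
theorem c102742 : QOK q102742 := cut [q97095] ⟨c97095, trivial⟩ (nd (nat_lit 234) (nat_lit 0) (cs (lf (nat_lit 11) (nat_lit 230)) (nd (nat_lit 212) (nat_lit 0) (cs (lf (nat_lit 17) (nat_lit 209)) (rf (nat_lit 0)))))) q102742 (by decide +kernel)
def q102746 : Q := Q.p (nat_lit 0x12000078000000000000000000000000000000000000000000000000000000000) (nat_lit 0xc00008700001c000000000000000000000000000000000000000000000000000) (nat_lit 5)
theorem c102746 : QOK q102746 := cut [q80002] ⟨c80002, trivial⟩ (nd (nat_lit 230) (nat_lit 0) (cs (lf (nat_lit 4) (nat_lit 230)) (nd (nat_lit 207) (nat_lit 0) (cs (lf (nat_lit 22) (nat_lit 207)) (nd (nat_lit 254) (nat_lit 0) (cs (lf (nat_lit 6) (nat_lit 231)) (rf (nat_lit 0)))))))) q102746 (by decide +kernel)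
def q102804 : Q := Q.p (nat_lit 0x4000010000040000100000000000000000000000000000000000000000000000) (nat_lit 0x2000008000020000000000200000c00002000000000000000000000000000000000000) (nat_lit 4)
theorem c102804 : QOK q102804 := cut [q102803] ⟨c102803, trivial⟩ (nd (nat_lit 255) (nat_lit 0) (cs (lf (nat_lit 29) (nat_lit 188)) (rf (nat_lit 0)))) q102804 (by decide +kernel)
def q102810 : Q := Q.p (nat_lit 0x1000006000010000040000000000000000000000000000000000000000000000000000) (nat_lit 0x80000e000009800000000000000000000000000000000000000000000000000000000000000) (nat_lit 4)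
theorem c102810 : QOK q102810 := cut [q102808] ⟨c102808, trivial⟩ (nd (nat_lit 277) (nat_lit 0) (cs (lf (nat_lit 29) (nat_lit 210)) (nd (nat_lit 252) (nat_lit 0) (cs (lf (nat_lit 0) (nat_lit 251)) (rf (nat_lit 0)))))) q102810 (by decide +kernel)
def q102814 : Q := Q.p (nat_lit 0x1000006000010000040000000000000000000000000000000000000000000000000000) (nat_lit 0x4000000000098000e0000080000200000000000000000000000000000000000000000000000) (nat_lit 5)
theorem c102814 : QOK q102814 := cut [q102812] ⟨c102812, trivial⟩ (nd (nat_lit 211) (nat_lit 0) (cs (lf (nat_lit 35) (nat_lit 188)) (nd (nat_lit 233) (nat_lit 0) (cs (lf (nat_lit 30) (nat_lit 210)) (rf (nat_lit 0)))))) q102814 (by decide +kernel)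
def q102829 : Q := Q.p (nat_lit 0x6000010000040000000000000000000000000000000000000000000000000000) (nat_lit 0x2800008000020000000000180000600000800000000000000000000000000000000000) (nat_lit 5)
theorem c102829 : QOK q102829 := cut [q102824] ⟨c102824, trivial⟩ (nd (nat_lit 188) (nat_lit 0) (cs (lf (nat_lit 41) (nat_lit 187)) (rf (nat_lit 0)))) q102829 (by decide +kernel)
def q102832 : Q := Q.p (nat_lit 0x1000004000010000040000000000000000000000000000000000000000000000000000) (nat_lit 0x200000c00002000000000020000080000200000000000000000000000000000000000000000000000) (nat_lit 4)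
theorem c102832 : QOK q102832 := cut [q79965] ⟨c79965, trivial⟩ (nd (nat_lit 299) (nat_lit 0) (cs (lf (nat_lit 28) (nat_lit 210)) (nd (nat_lit 211) (nat_lit 0) (cs (lf (nat_lit 35) (nat_lit 188)) (rf (nat_lit 0)))))) q102832 (by decide +kernel)
def q102835 : Q := Q.p (nat_lit 0x1000004000010000040000000000000000000000000000000000000000000000000000) (nat_lit 0x80000600000800000000020000080000200000000000000000000000000000000000000000000000) (nat_lit 4)
theorem c102835 : QOK q102835 := cut [q80333] ⟨c80333, trivial⟩ (nd (nat_lit 211) (nat_lit 0) (cs (lf (nat_lit 35) (nat_lit 188)) (nd (nat_lit 298) (nat_lit 0) (cs (lf (nat_lit 34) (nat_lit 210)) (rf (nat_lit 0)))))) q102835 (by decide +kernel)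
def q102849 : Q := Q.p (nat_lit 0x4000010000040000080000000000000000000000000000000000000000000000) (nat_lit 0x1be001f70007f80002000000000000000000000000000000000000) (nat_lit 10)
theorem c102849 : QOK q102849 := cut [q9232] ⟨c9232, trivial⟩ (nd (nat_lit 188) (nat_lit 0) (cs (lf (nat_lit 47) (nat_lit 165)) (nd (nat_lit 186) (nat_lit 0) (cs (rf (nat_lit 0)) (cs (nd (nat_lit 189) (nat_lit 0) (cs (lf (nat_lit 35) (nat_lit 166)) (nd (nat_lit 211) (nat_lit 0) (cs (lf (nat_lit 5) (nat_lit 186)) (nd (nat_lit 163) (nat_lit 0) (cs (lf (nat_lit 22) (nat_lit 163)) (nd (nat_lit 208) (nat_lit 0) (cs (lf (nat_lit 11) (nat_lit 185)) (nd (nat_lit 190) (nat_lit 0) (cs (lf (nat_lit 10) (nat_lit 186)) (nd (nat_lit 169) (nat_lit 0) (cs (lf (nat_lit 16) (nat_lit 165)) (nd (nat_lit 191) (nat_lit 0) (cs (lf (nat_lit 17) (nat_lit 166)) (lf (nat_lit 6) (nat_lit 188)))))))))))))))) (nd (nat_lit 167) (nat_lit 0) (cs (lf (nat_lit 34) (nat_lit 166)) (nd (nat_lit 166) (nat_lit 0) (cs (lf (nat_lit 12) (nat_lit 163)) (lf (nat_lit 35) (nat_lit 144))))))))))) q102849 (by decide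 +kernel)
def q102853 : Q := Q.p (nat_lit 0xf000010000000000000000000000000000000000000000000000000000000000) (nat_lit 0x200000800006000000000060000040000000000000000000000000000000000000000000000000000) (nat_lit 4)
theorem c102853 : QOK q102853 := cut [q88318] ⟨c88318, trivial⟩ (nd (nat_lit 277) (nat_lit 0) (cs (lf (nat_lit 5) (nat_lit 252)) (nd (nat_lit 299) (nat_lit 0) (cs (lf (nat_lit 42) (nat_lit 232)) (rf (nat_lit 0)))))) q102853 (by decide +kernel)
def q102864 : Q := Q.p (nat_lit 0xf000000000000000000000000000000000000000000000000000000000000000) (nat_lit 0xee00010000000000000000000000000000000000000000000000000000000000000000) (nat_lit 4)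
theorem c102864 : QOK q102864 := cut [q83982] ⟨c83982, trivial⟩ (nd (nat_lit 278) (nat_lit 0) (cs (lf (nat_lit 4) (nat_lit 252)) (nd (nat_lit 274) (nat_lit 0) (cs (lf (nat_lit 11) (nat_lit 251)) (rf (nat_lit 0)))))) q102864 (by decide +kernel)
def q102914 : Q := Q.p (nat_lit 0x1800007800000000000000000000000000000000000000000000000000000000000000) (nat_lit 0x400038000007000000000000000000000000000000000000000000000000000000000) (nat_lit 4)
theorem c102914 : QOK q102914 := cut [q80551] ⟨c80551, trivial⟩ (nd (nat_lit 229) (nat_lit 0) (cs (lf (nat_lit 23) (nat_lit 228)) (nd (nat_lit 255) (nat_lit 0) (cs (lf (nat_lit 22) (nat_lit 229)) (rf (nat_lit 0)))))) q102914 (by decide +kernel)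
def q102927 : Q := Q.p (nat_lit 0x80000400001000004000010000000000000000000000000000000000000000000000000000000000) (nat_lit 0xa0000300000800000000000000000000000000000000000000000000000000000000000000000000000000) (nat_lit 3)
theorem c102927 : QOK q102927 := cut [q81436] ⟨c81436, trivial⟩ (nd (nat_lit 320) (nat_lit 0) (cs (lf (nat_lit 41) (nat_lit 253)) (rf (nat_lit 0)))) q102927 (by decide +kernel)
def q102936 : Q := Q.p (nat_lit 0x800007000004000000000000000000000000000000000000000000000000000000000) (nat_lit 0x600018000002000000000000000000000000000000000000000000000000000000000) (nat_lit 3)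
theorem c102936 : QOK q102936 := cut [q102935] ⟨c102935, trivial⟩ (nd (nat_lit 255) (nat_lit 0) (cs (lf (nat_lit 23) (nat_lit 229)) (rf (nat_lit 0)))) q102936 (by decide +kernel)
def q102954 : Q := Q.p (nat_lit 0x1000007000010000040000000000000000000000000000000000000000000000000000) (nat_lit 0x200006800000800000000000000000000000000000000000000000000000000000000000000) (nat_lit 3)
theorem c102954 : QOK q102954 := cut [q96544] ⟨c96544, trivial⟩ (nd (nat_lit 275) (nat_lit 0) (cs (lf (nat_lit 41) (nat_lit 209)) (rf (nat_lit 0)))) q102954 (by decide +kernel)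
def q102958 : Q := Q.p (nat_lit 0x4000010000040000000000000000000000000000000000000000000000000000) (nat_lit 0x8000030000080000000000a0000380000e00002800000000000000000000000000000000000) (nat_lit 5)
theorem c102958 : QOK q102958 := cut [q79127, q79280, q79882] ⟨c79127, c79280, c79882, trivial⟩ (nd (nat_lit 188) (nat_lit 0) (cs (rf (nat_lit 0)) (cs (rf (nat_lit 1)) (rf (nat_lit 2))))) q102958 (by decide +kernel)
def q102968 : Q := Q.p (nat_lit 0xf000010000040000000000000000000000000000000000000000000000000000) (nat_lit 0x1000004000010000000000600000a0000180000600000000000000000000000000000000000000000) (nat_lit 6)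
theorem c102968 : QOK q102968 := cut [q102964] ⟨c102964, trivial⟩ (nd (nat_lit 233) (nat_lit 0) (cs (lf (nat_lit 17) (nat_lit 230)) (nd (nat_lit 188) (nat_lit 0) (cs (lf (nat_lit 24) (nat_lit 166)) (nd (nat_lit 187) (nat_lit 0) (cs (lf (nat_lit 47) (nat_lit 165)) (nd (nat_lit 276) (nat_lit 0) (cs (lf (nat_lit 46) (nat_lit 187)) (rf (nat_lit 0)))))))))) q102968 (by decide +kernel)
def q103009 : Q := Q.p (nat_lit 0x7800000000000000000000000000000000000000000000000000000000000000) (nat_lit 0x7700008000000000000000000000000000000000000000000000000000000000000000) (nat_lit 4)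
theorem c103009 : QOK q103009 := cut [q103007] ⟨c103007, trivial⟩ (nd (nat_lit 277) (nat_lit 0) (cs (lf (nat_lit 4) (nat_lit 251)) (nd (nat_lit 273) (nat_lit 0) (cs (lf (nat_lit 11) (nat_lit 250)) (rf (nat_lit 0)))))) q103009 (by decide +kernel)
def q103014 : Q := Q.p (nat_lit 0x1000004000030000040000000000000000000000000000000000000000000000000000) (nat_lit 0x80000380000e00000800008000000000000000000000000000000000000000000000000000000000000000) (nat_lit 5)
theorem c103014 : QOK q103014 := cut [q81436] ⟨c81436, trivial⟩ (nd (nat_lit 297) (nat_lit 0) (cs (lf (nat_lit 40) (nat_lit 209)) (nd (nat_lit 298) (nat_lit 0) (cs (lf (nat_lit 41) (nat_lit 231)) (nd (nat_lit 320) (nat_lit 0) (cs (lf (nat_lit 34) (nat_lit 232)) (rf (nat_lit 0)))))))) q103014 (by decide +kernel)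
def q103085 : Q := Q.p (nat_lit 0x100000f000010000000000000000000000000000000000000000000000000000000000) (nat_lit 0x400000000000000060000080000200000000000000000000000000000000000000000000000) (nat_lit 3)
theorem c103085 : QOK q103085 := cut [q96515] ⟨c96515, trivial⟩ (nd (nat_lit 233) (nat_lit 0) (cs (lf (nat_lit 17) (nat_lit 230)) (rf (nat_lit 0)))) q103085 (by decide +kernel)
def q103108 : Q := Q.p (nat_lit 0x2000038000000000000000000000000000000000000000000000000000000000) (nat_lit 0x710000c0000700000000000000000000000000000000000000000000000000000) (nat_lit 5)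
theorem c103108 : QOK q103108 := cut [q103107] ⟨c103107, trivial⟩ (nd (nat_lit 234) (nat_lit 0) (cs (lf (nat_lit 11) (nat_lit 230)) (rf (nat_lit 0)))) q103108 (by decide +kernel)
def q103128 : Q := Q.p (nat_lit 0x38000000000000000000000000000000000000000000000000000000000) (nat_lit 0x8000020000780000440007c0000600001000004000000000000000000000000000000000000) (nat_lit 6)
theorem c103128 : QOK q103128 := cut [q85794, q84825, q86199, q79387, q101786, q103127] ⟨c85794, c84825, c86199, c79387, c101786, c103127, trivial⟩ (nd (nat_lit 212) (nat_lit 0) (cs (nd (nat_lit 255) (nat_lit 0) (cs (nd (nat_lit 230) (nat_lit 0) (cs (lf (nat_lit 5) (nat_lit 230)) (lf (nat_lit 16) (nat_lit 208)))) (cs (nd (nat_lit 256) (nat_lit 0) (cs (lf (nat_lit 0) (nat_lit 230)) (nd (nat_lit 257) (nat_lit 0) (cs (lf (nat_lit 18) (nat_lit 232)) (lf (nat_lit 3) (nat_lit 231)))))) (cs (nd (nat_lit 211) (nat_lit 0) (cs (lf (nat_lit 12) (nat_lit 208)) (rf (nat_lit 0)))) (nd (nat_lit 190) (nat_lit 0) (cs (nd (nat_lit 277) (nat_lit 0) (cs (lf (nat_lit 33) (nat_lit 189)) (nd (nat_lit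 234) (nat_lit 0) (cs (lf (nat_lit 30) (nat_lit 211)) (lf (nat_lit 39) (nat_lit 189)))))) (cs (nd (nat_lit 211) (nat_lit 0) (cs (lf (nat_lit 30) (nat_lit 189)) (rf (nat_lit 1)))) (cs (nd (nat_lit 168) (nat_lit 0) (cs (lf (nat_lit 39) (nat_lit 167)) (nd (nat_lit 211) (nat_lit 0) (cs (lf (nat_lit 33) (nat_lit 167)) (lf (nat_lit 36) (nat_lit 145)))))) (nd (nat_lit 234) (nat_lit 0) (cs (lf (nat_lit 36) (nat_lit 167)) (rf (nat_lit 2)))))))))))) (cs (nd (nat_lit 234) (nat_lit 0) (cs (lf (nat_lit 17) (nat_lit 209)) (nd (nat_lit 256) (nat_lit 0) (cs (lf (nat_lit 5) (nat_lit 231)) (nd (nat_lit 255) (nat_lit 0) (cs (rf (nat_lit 3)) (lf (nat_lit 0) (nat_lit 230)))))))) (cs (nd (nat_lit 211) (nat_lit 0) (cs (lf (nat_lit 12) (nat_lit 208)) (rf (nat_lit 4)))) (rf (nat_lit 5)))))) q103128 (by decide +kernel)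
def q103129 : Q := Q.p (nat_lit 0x2000038000000000000000000000000000000000000000000000000000000000) (nat_lit 0x1c00044000000000000000000000000000000000000000000000000000000000) (nat_lit 3)
theorem c103129 : QOK q103129 := cut [q10759] ⟨c10759, trivial⟩ (nd (nat_lit 252) (nat_lit 0) (cs (lf (nat_lit 6) (nat_lit 230)) (rf (nat_lit 0)))) q103129 (by decide +kernel)
def q103152 : Q := Q.p (nat_lit 0x78000000000000000000000000000000000000000000000000000000000) (nat_lit 0x40003b8000000000000000000000000000000000000000000000000000) (nat_lit 4)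
theorem c103152 : QOK q103152 := cut [q79309] ⟨c79309, trivial⟩ (nd (nat_lit 208) (nat_lit 0) (cs (lf (nat_lit 22) (nat_lit 208)) (nd (nat_lit 230) (nat_lit 0) (cs (lf (nat_lit 23) (nat_lit 207)) (rf (nat_lit 0)))))) q103152 (by decide +kernel)
def q103156 : Q := Q.p (nat_lit 0x200001e000000000000000000000000000000000000000000000000000000000) (nat_lit 0x170000180000e000000000000000000000000000000000000000000000000000) (nat_lit 5)
theorem c103156 : QOK q103156 := cut [q5069] ⟨c5069, trivial⟩ (nd (nat_lit 206) (nat_lit 0) (cs (lf (nat_lit 22) (nat_lit 206)) (nd (nat_lit 228) (nat_lit 0) (cs (lf (nat_lit 23) (nat_lit 205)) (nd (nat_lit 227) (nat_lit 0) (cs (lf (nat_lit 4) (nat_lit 227)) (rf (nat_lit 0)))))))) q103156 (by decide +kernel)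
def q103232 : Q := Q.p (nat_lit 0x38000020000000000000000000000000000000000000000000000000000) (nat_lit 0x4400001c000000000000000000000000000000000000000000000000000) (nat_lit 3)
theorem c103232 : QOK q103232 := cut [q15484] ⟨c15484, trivial⟩ (nd (nat_lit 208) (nat_lit 0) (cs (lf (nat_lit 18) (nat_lit 208)) (rf (nat_lit 0)))) q103232 (by decide +kernel)
def q103279 : Q := Q.p (nat_lit 0x1e000040000000000000000000000000000000000000000000000000000) (nat_lit 0x100002e000000000000000000000000000000000000000000000000000) (nat_lit 3)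
theorem c103279 : QOK q103279 := cut [q98046] ⟨c98046, trivial⟩ (nd (nat_lit 206) (nat_lit 0) (cs (lf (nat_lit 22) (nat_lit 206)) (rf (nat_lit 0)))) q103279 (by decide +kernel)
def q103350 : Q := Q.p (nat_lit 0x600003c000000000000000000000000000000000000000000000000000000000) (nat_lit 0x380000c0000000000000000000000000000000000000000000000000000000000) (nat_lit 3)
theorem c103350 : QOK q103350 := cut [q96905] ⟨c96905, trivial⟩ (nd (nat_lit 234) (nat_lit 0) (cs (lf (nat_lit 6) (nat_lit 231)) (rf (nat_lit 0)))) q103350 (by decide +kernel)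
def q103367 : Q := Q.p (nat_lit 0x1e000038000000000000000000000000000000000000000000000000000000000) (nat_lit 0x1c000070000fc000000000000000a0000200000000000000000000000000000000000000000000000) (nat_lit 8)
theorem c103367 : QOK q103367 := cut [q79368] ⟨c79368, trivial⟩ (nd (nat_lit 278) (nat_lit 0) (cs (lf (nat_lit 5) (nat_lit 253)) (nd (nat_lit 189) (nat_lit 0) (cs (lf (nat_lit 25) (nat_lit 189)) (nd (nat_lit 275) (nat_lit 0) (cs (lf (nat_lit 11) (nat_lit 252)) (nd (nat_lit 297) (nat_lit 0) (cs (lf (nat_lit 30) (nat_lit 231)) (nd (nat_lit 298) (nat_lit 0) (cs (lf (nat_lit 29) (nat_lit 231)) (nd (nat_lit 276) (nat_lit 0) (cs (lf (nat_lit 24) (nat_lit 209)) (rf (nat_lit 0)))))))))))))) q103367 (by decide +kernel)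
def q103397 : Q := Q.p (nat_lit 0x600003c000000000000000000000000000000000000000000000000000000000) (nat_lit 0x1c00003000000000000000000000000000000000000000000000000000000000) (nat_lit 3)
theorem c103397 : QOK q103397 := cut [q102059] ⟨c102059, trivial⟩ (nd (nat_lit 229) (nat_lit 0) (cs (lf (nat_lit 0) (nat_lit 228)) (rf (nat_lit 0)))) q103397 (by decide +kernel)
def q103450 : Q := Q.p (nat_lit 0x800002000008000020000000000000000000000000000000000000000000000) (nat_lit 0x1000004000010000000000100000c0000100000000000000000000000000000000000) (nat_lit 4)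
theorem c103450 : QOK q103450 := cut [q2994] ⟨c2994, trivial⟩ (nd (nat_lit 162) (nat_lit 0) (cs (lf (nat_lit 46) (nat_lit 162)) (nd (nat_lit 163) (nat_lit 0) (cs (lf (nat_lit 47) (nat_lit 140)) (rf (nat_lit 0)))))) q103450 (by decide +kernel)
def q103468 : Q := Q.p (nat_lit 0x1e000040000000000000000000000000000000000000000000000000000000000) (nat_lit 0x80000e000001000000000100000400000000000000000000000000000000000000000000000) (nat_lit 4)
theorem c103468 : QOK q103468 := cut [q103466] ⟨c103466, trivial⟩ (nd (nat_lit 278) (nat_lit 0) (cs (lf (nat_lit 5) (nat_lit 253)) (nd (nat_lit 277) (nat_lit 0) (cs (lf (nat_lit 0) (nat_lit 252)) (rf (nat_lit 0)))))) q103468 (by decide +kernel)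
def q103479 : Q := Q.p (nat_lit 0x700001c000000000000000000000000000000000000000000000000000000000) (nat_lit 0x180000700001c0001800000000003c0000e0000200000000000000000000000000000000000000000) (nat_lit 7)
theorem c103479 : QOK q103479 := cut [q79193, q80169, q103354] ⟨c79193, c80169, c103354, trivial⟩ (nd (nat_lit 209) (nat_lit 0) (cs (rf (nat_lit 0)) (cs (rf (nat_lit 1)) (nd (nat_lit 275) (nat_lit 0) (cs (rf (nat_lit 2)) (nd (nat_lit 255) (nat_lit 0) (cs (lf (nat_lit 18) (nat_lit 230)) (nd (nat_lit 208) (nat_lit 0) (cs (lf (nat_lit 47) (nat_lit 186)) (nd (nat_lit 207) (nat_lit 0) (cs (lf (nat_lit 0) (nat_lit 206)) (nd (nat_lit 274) (nat_lit 0) (cs (lf (nat_lit 41) (nat_lit 208)) (lf (nat_lit 47) (nat_lit 185))))))))))))))) q103479 (by decide +kernel)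
def q103543 : Q := Q.p (nat_lit 0x1e000030000000000000000000000000000000000000000000000000000000000) (nat_lit 0x1c00060000000000000000000000000000000000000000000000000000000000000000) (nat_lit 3)
theorem c103543 : QOK q103543 := cut [q80505] ⟨c80505, trivial⟩ (nd (nat_lit 257) (nat_lit 0) (cs (lf (nat_lit 18) (nat_lit 232)) (rf (nat_lit 0)))) q103543 (by decide +kernel)
def q103601 : Q := Q.p (nat_lit 0x1c000010000000000000000000000000000000000000000000000000000000000) (nat_lit 0x600003a8000000000000000000000000000000000000000000000000000000000) (nat_lit 4)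
theorem c103601 : QOK q103601 := cut [q81090] ⟨c81090, trivial⟩ (nd (nat_lit 257) (nat_lit 0) (cs (lf (nat_lit 23) (nat_lit 231)) (nd (nat_lit 236) (nat_lit 0) (cs (lf (nat_lit 16) (nat_lit 232)) (rf (nat_lit 0)))))) q103601 (by decide +kernel)
def q103661 : Q := Q.p (nat_lit 0xf000010000000000000000000000000000000000000000000000000000000000) (nat_lit 0xe00003000000c000000000000000000000000000000000000000000000000000000000) (nat_lit 4)
theorem c103661 : QOK q103661 := cut [q95737] ⟨c95737, trivial⟩ (nd (nat_lit 278) (nat_lit 0) (cs (lf (nat_lit 4) (nat_lit 252)) (nd (nat_lit 256) (nat_lit 0) (cs (lf (nat_lit 5) (nat_lit 253)) (rf (nat_lit 0)))))) q103661 (by decide +kernel)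
def q103690 : Q := Q.p (nat_lit 0x3000004000010000000000000000000000000000000000000000000000000000) (nat_lit 0x800000000008000000000060000180000200000000000000000000000000000000000) (nat_lit 4)
theorem c103690 : QOK q103690 := cut [q441] ⟨c441, trivial⟩ (nd (nat_lit 186) (nat_lit 0) (cs (lf (nat_lit 29) (nat_lit 186)) (rf (nat_lit 0)))) q103690 (by decide +kernel)
def q103771 : Q := Q.p (nat_lit 0x6000018000060000000000000000000000000000000000000000000000000000) (nat_lit 0x1900000f0000300000000000000000000000000000000000000000) (nat_lit 5)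
theorem c103771 : QOK q103771 := cut [q103770] ⟨c103770, trivial⟩ (nd (nat_lit 187) (nat_lit 0) (cs (lf (nat_lit 24) (nat_lit 165)) (rf (nat_lit 0)))) q103771 (by decide +kernel)
def q103780 : Q := Q.p (nat_lit 0x400001000004000010000000000000000000000000000000000000000000000000000000000) (nat_lit 0x2000008000020000000000200000c0000200000000000000000000000000000000000000000000000) (nat_lit 4)
theorem c103780 : QOK q103780 := cut [q103778] ⟨c103778, trivial⟩ (nd (nat_lit 211) (nat_lit 0) (cs (lf (nat_lit 34) (nat_lit 210)) (nd (nat_lit 210) (nat_lit 0) (cs (lf (nat_lit 35) (nat_lit 188)) (rf (nat_lit 0)))))) q103780 (by decide +kernel)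
def q103782 : Q := Q.p (nat_lit 0x1000006000018000040000000000000000000000000000000000000000000000000000) (nat_lit 0x20000180000600000000000000000000000000000000000000000) (nat_lit 3)
theorem c103782 : QOK q103782 := cut [q85045] ⟨c85045, trivial⟩ (nd (nat_lit 187) (nat_lit 0) (cs (lf (nat_lit 46) (nat_lit 187)) (rf (nat_lit 0)))) q103782 (by decide +kernel)
def q103806 : Q := Q.p (nat_lit 0x400001000006000010000000000000000000000000000000000000000000000000000000000) (nat_lit 0x280000b0000e000000000000000040000000000000000000000000000000000000000000000000000) (nat_lit 5)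
theorem c103806 : QOK q103806 := cut [q103803] ⟨c103803, trivial⟩ (nd (nat_lit 297) (nat_lit 0) (cs (lf (nat_lit 41) (nat_lit 231)) (nd (nat_lit 299) (nat_lit 0) (cs (lf (nat_lit 29) (nat_lit 232)) (nd (nat_lit 277) (nat_lit 0) (cs (lf (nat_lit 24) (nat_lit 210)) (rf (nat_lit 0)))))))) q103806 (by decide +kernel)
def q103928 : Q := Q.p (nat_lit 0x1000006000010000040000000000000000000000000000000000000000000000000000) (nat_lit 0x8000060000380000c000028000080000e8000020000080000000000000000000000000000000000000000000000) (nat_lit 9)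
theorem c103928 : QOK q103928 := cut [q79586] ⟨c79586, trivial⟩ (nd (nat_lit 299) (nat_lit 0) (cs (lf (nat_lit 28) (nat_lit 210)) (nd (nat_lit 187) (nat_lit 0) (cs (lf (nat_lit 46) (nat_lit 187)) (nd (nat_lit 298) (nat_lit 0) (cs (lf (nat_lit 29) (nat_lit 232)) (nd (nat_lit 320) (nat_lit 0) (cs (lf (nat_lit 47) (nat_lit 231)) (nd (nat_lit 233) (nat_lit 0) (cs (lf (nat_lit 34) (nat_lit 232)) (nd (nat_lit 234) (nat_lit 0) (cs (lf (nat_lit 6) (nat_lit 231)) (rf (nat_lit 0)))))))))))))) q103928 (by decide +kernel)
def q103967 : Q := Q.p (nat_lit 0x10000070000000000000000000000000000000000000000000000000000) (nat_lit 0x2b80000c000000000000000000000000000000000000000000000000000) (nat_lit 4)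
theorem c103967 : QOK q103967 := cut [q25064] ⟨c25064, trivial⟩ (nd (nat_lit 207) (nat_lit 0) (cs (lf (nat_lit 5) (nat_lit 207)) (nd (nat_lit 228) (nat_lit 0) (cs (lf (nat_lit 10) (nat_lit 206)) (rf (nat_lit 0)))))) q103967 (by decide +kernel)
def q103990 : Q := Q.p (nat_lit 0x80000200001a000060000000000000000000000000000000000000000000000000000) (nat_lit 0x100001c000040000000000000000000000000000000000000000000000) (nat_lit 3)
theorem c103990 : QOK q103990 := cut [q103989] ⟨c103989, trivial⟩ (nd (nat_lit 208) (nat_lit 0) (cs (lf (nat_lit 47) (nat_lit 186)) (rf (nat_lit 0)))) q103990 (by decide +kernel)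
def q104027 : Q := Q.p (nat_lit 0x7000018000040000000000000000000000000000000000000000000000000000) (nat_lit 0x8c00007000080000000000000000000000000000000000000000000000000000) (nat_lit 4)
theorem c104027 : QOK q104027 := cut [q104025] ⟨c104025, trivial⟩ (nd (nat_lit 251) (nat_lit 0) (cs (lf (nat_lit 12) (nat_lit 228)) (nd (nat_lit 229) (nat_lit 0) (cs (lf (nat_lit 23) (nat_lit 228)) (rf (nat_lit 0)))))) q104027 (by decide +kernel)
def q104046 : Q := Q.p (nat_lit 0x1000006000018000040000000000000000000000000000000000000000000000000000) (nat_lit 0x180000600000800000000000000000000000000000000000000000000000000000000000000000000) (nat_lit 3)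
theorem c104046 : QOK q104046 := cut [q96539] ⟨c96539, trivial⟩ (nd (nat_lit 297) (nat_lit 0) (cs (lf (nat_lit 40) (nat_lit 209)) (rf (nat_lit 0)))) q104046 (by decide +kernel)
def q104047 : Q := Q.p (nat_lit 0x1000006000018000040000000000000000000000000000000000000000000000000000) (nat_lit 0x300000c00002000000000000000000000000000000000000000000000000000000000000000000000) (nat_lit 3)
theorem c104047 : QOK q104047 := cut [q103778] ⟨c103778, trivial⟩ (nd (nat_lit 298) (nat_lit 0) (cs (lf (nat_lit 42) (nat_lit 231)) (rf (nat_lit 0)))) q104047 (by decide +kernel)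
def q104080 : Q := Q.p (nat_lit 0x3800002000010000040000000000000000000000000000000000000000000000000000) (nat_lit 0x800004000005800000000000000000000000000000000000000000000000000000000000000) (nat_lit 3)
theorem c104080 : QOK q104080 := cut [q79958] ⟨c79958, trivial⟩ (nd (nat_lit 254) (nat_lit 0) (cs (lf (nat_lit 29) (nat_lit 210)) (rf (nat_lit 0)))) q104080 (by decide +kernel)
def q104090 : Q := Q.p (nat_lit 0x380000700000c000000000000000000000000000000000000000000000000000000000) (nat_lit 0x40000180000600018000000000000000000000000000000000000000000000000000000000000000) (nat_lit 4)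
theorem c104090 : QOK q104090 := cut [q104088] ⟨c104088, trivial⟩ (nd (nat_lit 255) (nat_lit 0) (cs (lf (nat_lit 18) (nat_lit 230)) (nd (nat_lit 274) (nat_lit 0) (cs (lf (nat_lit 12) (nat_lit 251)) (rf (nat_lit 0)))))) q104090 (by decide +kernel)
def q104099 : Q := Q.p (nat_lit 0x1000004000018000040000000000000000000000000000000000000000000000000000) (nat_lit 0x60003a0000200000000000000000000000000000000000000000000000) (nat_lit 4)
theorem c104099 : QOK q104099 := cut [q104016] ⟨c104016, trivial⟩ (nd (nat_lit 211) (nat_lit 0) (cs (lf (nat_lit 35) (nat_lit 188)) (rf (nat_lit 0)))) q104099 (by decide +kernel)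
def q104107 : Q := Q.p (nat_lit 0x2000018000060000000000000000000000000000000000000000000000000000) (nat_lit 0x40000000001900000f0000300000800000000000000000000000000000000000) (nat_lit 5)
theorem c104107 : QOK q104107 := cut [q94631, q103770] ⟨c94631, c103770, trivial⟩ (nd (nat_lit 187) (nat_lit 0) (cs (rf (nat_lit 0)) (rf (nat_lit 1)))) q104107 (by decide +kernel)
def q104116 : Q := Q.p (nat_lit 0x2000018000060000000000000000000000000000000000000000000000000000) (nat_lit 0x1900001f0000700001800000000000000000000000000000000000) (nat_lit 5)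
theorem c104116 : QOK q104116 := cut [q103770, q3163] ⟨c103770, c3163, trivial⟩ (nd (nat_lit 187) (nat_lit 0) (cs (rf (nat_lit 0)) (nd (nat_lit 166) (nat_lit 0) (cs (lf (nat_lit 37) (nat_lit 165)) (rf (nat_lit 1)))))) q104116 (by decide +kernel)
def q104157 : Q := Q.p (nat_lit 0x3800007000018000000000000000000000000000000000000000000000000000000000) (nat_lit 0x340000d80000600000000000000000000000000000000000000000000000000000000000000000000) (nat_lit 5)
theorem c104157 : QOK q104157 := cut [q104088] ⟨c104088, trivial⟩ (nd (nat_lit 298) (nat_lit 0) (cs (lf (nat_lit 42) (nat_lit 231)) (nd (nat_lit 299) (nat_lit 0) (cs (lf (nat_lit 29) (nat_lit 232)) (nd (nat_lit 274) (nat_lit 0) (cs (lf (nat_lit 0) (nat_lit 273)) (rf (nat_lit 0)))))))) q104157 (by decide +kernel)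
def q104307 : Q := Q.p (nat_lit 0x20000080000300000c0000000000000000000000000000000000000000000000000000) (nat_lit 0x400001000004000000000000000600001800006000000000000000000000000000000000000) (nat_lit 5)
theorem c104307 : QOK q104307 := cut [q84859] ⟨c84859, trivial⟩ (nd (nat_lit 276) (nat_lit 0) (cs (lf (nat_lit 41) (nat_lit 210)) (nd (nat_lit 189) (nat_lit 0) (cs (lf (nat_lit 40) (nat_lit 188)) (nd (nat_lit 167) (nat_lit 0) (cs (lf (nat_lit 36) (nat_lit 144)) (rf (nat_lit 0)))))))) q104307 (by decide +kernel)
def q104323 : Q := Q.p (nat_lit 0x20000380000c0000000000000000000000000000000000000000000000000000) (nat_lit 0x2000018000006000000000100000400000000000000000000000000000000000000000) (nat_lit 4)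
theorem c104323 : QOK q104323 := cut [q10732] ⟨c10732, trivial⟩ (nd (nat_lit 230) (nat_lit 0) (cs (lf (nat_lit 12) (nat_lit 207)) (nd (nat_lit 188) (nat_lit 0) (cs (lf (nat_lit 36) (nat_lit 165)) (rf (nat_lit 0)))))) q104323 (by decide +kernel)
def q104352 : Q := Q.p (nat_lit 0x200001e000038000040000000000000000000000000000000000000000000000000000) (nat_lit 0xc000000000000000380000600000000000000000000000000000000000000000000000) (nat_lit 4)
theorem c104352 : QOK q104352 := cut [q97352] ⟨c97352, trivial⟩ (nd (nat_lit 278) (nat_lit 0) (cs (lf (nat_lit 5) (nat_lit 253)) (nd (nat_lit 211) (nat_lit 0) (cs (lf (nat_lit 24) (nat_lit 189)) (rf (nat_lit 0)))))) q104352 (by decide +kernel)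
def q104371 : Q := Q.p (nat_lit 0x2000078000000000000000000000000000000000000000000000000000000000) (nat_lit 0xc000087000038000000000000000000000000000000000000000000000000000) (nat_lit 5)
theorem c104371 : QOK q104371 := cut [q79307] ⟨c79307, trivial⟩ (nd (nat_lit 208) (nat_lit 0) (cs (lf (nat_lit 22) (nat_lit 208)) (nd (nat_lit 230) (nat_lit 0) (cs (lf (nat_lit 23) (nat_lit 207)) (nd (nat_lit 254) (nat_lit 0) (cs (lf (nat_lit 6) (nat_lit 231)) (rf (nat_lit 0)))))))) q104371 (by decide +kernel)
def q104401 : Q := Q.p (nat_lit 0x2000038000000000000000000000000000000000000000000000000000000000) (nat_lit 0x750000c0000030000000000000000000000000000000000000000000000000000) (nat_lit 5)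
theorem c104401 : QOK q104401 := cut [q97095] ⟨c97095, trivial⟩ (nd (nat_lit 234) (nat_lit 0) (cs (lf (nat_lit 11) (nat_lit 230)) (nd (nat_lit 208) (nat_lit 0) (cs (lf (nat_lit 22) (nat_lit 208)) (rf (nat_lit 0)))))) q104401 (by decide +kernel)
def q104414 : Q := Q.p (nat_lit 0x200001000006000010000000000000000000000000000000000000000000000000000000000) (nat_lit 0x80000380000c00000000000000008000000000000000000000000000000000000000000000000000000000) (nat_lit 4)
theorem c104414 : QOK q104414 := cut [q81436] ⟨c81436, trivial⟩ (nd (nat_lit 298) (nat_lit 0) (cs (lf (nat_lit 41) (nat_lit 231)) (nd (nat_lit 320) (nat_lit 0) (cs (lf (nat_lit 47) (nat_lit 231)) (rf (nat_lit 0)))))) q104414 (by decide +kernel)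
def q104429 : Q := Q.p (nat_lit 0x800007000014000000000000000000000000000000000000000000000000000000000) (nat_lit 0x80000200000000000000008000010000040000000000000000000000000000000000000000000000) (nat_lit 3)
theorem c104429 : QOK q104429 := cut [q88337] ⟨c88337, trivial⟩ (nd (nat_lit 297) (nat_lit 0) (cs (lf (nat_lit 30) (nat_lit 231)) (rf (nat_lit 0)))) q104429 (by decide +kernel)
def q104434 : Q := Q.p (nat_lit 0x7800010000000000000000000000000000000000000000000000000000000000) (nat_lit 0x40000b800000000000000000000000000000000000000000000000000000000) (nat_lit 3)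
theorem c104434 : QOK q104434 := cut [q92602] ⟨c92602, trivial⟩ (nd (nat_lit 228) (nat_lit 0) (cs (lf (nat_lit 22) (nat_lit 228)) (rf (nat_lit 0)))) q104434 (by decide +kernel)
def q104438 : Q := Q.p (nat_lit 0x1000004000030000000000000000000000000000000000000000000000000000000000) (nat_lit 0x400000000008000000000080000200000800000000000000000000000000000000000000000) (nat_lit 3)
theorem c104438 : QOK q104438 := cut [q79342] ⟨c79342, trivial⟩ (nd (nat_lit 211) (nat_lit 0) (cs (lf (nat_lit 30) (nat_lit 210)) (rf (nat_lit 0)))) q104438 (by decide +kernel)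
def q104510 : Q := Q.p (nat_lit 0x1800003000000000000000000000000000000000000000000000000000000000000000) (nat_lit 0x6400000c00000000000000000000000000000000000000000000000000000000000000) (nat_lit 3)
theorem c104510 : QOK q104510 := cut [q235] ⟨c235, trivial⟩ (nd (nat_lit 277) (nat_lit 0) (cs (rf (nat_lit 0)) (lf (nat_lit 18) (nat_lit 252)))) q104510 (by decide +kernel)
def q104525 : Q := Q.p (nat_lit 0x200000800002000018000000000000000000000000000000000000000000000000000000000) (nat_lit 0xc0000100001400004000000000020000080000200000000000000000000000000000000000000000) (nat_lit 5)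
theorem c104525 : QOK q104525 := cut [q79193] ⟨c79193, trivial⟩ (nd (nat_lit 296) (nat_lit 0) (cs (lf (nat_lit 41) (nat_lit 230)) (nd (nat_lit 209) (nat_lit 0) (cs (lf (nat_lit 40) (nat_lit 208)) (nd (nat_lit 254) (nat_lit 0) (cs (lf (nat_lit 30) (nat_lit 231)) (rf (nat_lit 0)))))))) q104525 (by decide +kernel)
def q104548 : Q := Q.p (nat_lit 0x80000f000008000000000000000000000000000000000000000000000000000000000) (nat_lit 0x100000600000000000000020000080000000000000000000000000000000000000000000000) (nat_lit 3)
theorem c104548 : QOK q104548 := cut [q24703] ⟨c24703, trivial⟩ (nd (nat_lit 274) (nat_lit 0) (cs (rf (nat_lit 0)) (lf (nat_lit 11) (nat_lit 251)))) q104548 (by decide +kernel)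
def q104575 : Q := Q.p (nat_lit 0x200003c000000000000000000000000000000000000000000000000000000000) (nat_lit 0x740000c0000380000000000000000000000000000000000000000000000000000) (nat_lit 5)
theorem c104575 : QOK q104575 := cut [q97095] ⟨c97095, trivial⟩ (nd (nat_lit 212) (nat_lit 0) (cs (lf (nat_lit 16) (nat_lit 208)) (nd (nat_lit 234) (nat_lit 0) (cs (lf (nat_lit 17) (nat_lit 209)) (rf (nat_lit 0)))))) q104575 (by decide +kernel)
def q104580 : Q := Q.p (nat_lit 0x3000018000020000000000000000000000000000000000000000000000000000) (nat_lit 0x400004000004000000000080000200000000000000000000000000000000000000000) (nat_lit 3)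
theorem c104580 : QOK q104580 := cut [q87017] ⟨c87017, trivial⟩ (nd (nat_lit 187) (nat_lit 0) (cs (lf (nat_lit 41) (nat_lit 186)) (rf (nat_lit 0)))) q104580 (by decide +kernel)
def q104582 : Q := Q.p (nat_lit 0x800003000018000020000000000000000000000000000000000000000000000000000) (nat_lit 0x180000600001000004000004000000000000000000000000000000000000000000000000000000000) (nat_lit 4)
theorem c104582 : QOK q104582 := cut [q90932] ⟨c90932, trivial⟩ (nd (nat_lit 298) (nat_lit 0) (cs (lf (nat_lit 28) (nat_lit 209)) (nd (nat_lit 297) (nat_lit 0) (cs (lf (nat_lit 29) (nat_lit 231)) (rf (nat_lit 0)))))) q104582 (by decide +kernel)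
def q104595 : Q := Q.p (nat_lit 0x800003000018000020000000000000000000000000000000000000000000000000000) (nat_lit 0x30000040000000000400001c000060000000000000000000000000000000000000000000000) (nat_lit 5)
theorem c104595 : QOK q104595 := cut [q82337] ⟨c82337, trivial⟩ (nd (nat_lit 274) (nat_lit 0) (cs (lf (nat_lit 41) (nat_lit 208)) (nd (nat_lit 208) (nat_lit 0) (cs (lf (nat_lit 47) (nat_lit 186)) (nd (nat_lit 230) (nat_lit 0) (cs (lf (nat_lit 29) (nat_lit 208)) (rf (nat_lit 0)))))))) q104595 (by decide +kernel)
def q104669 : Q := Q.p (nat_lit 0x800007800018000000000000000000000000000000000000000000000000000000000) (nat_lit 0x300000c00003700000000000000000000000000000000000000000000000000000000000000000000) (nat_lit 5)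
theorem c104669 : QOK q104669 := cut [q104667] ⟨c104667, trivial⟩ (nd (nat_lit 276) (nat_lit 0) (cs (lf (nat_lit 5) (nat_lit 251)) (nd (nat_lit 298) (nat_lit 0) (cs (lf (nat_lit 42) (nat_lit 231)) (rf (nat_lit 0)))))) q104669 (by decide +kernel)
def q104685 : Q := Q.p (nat_lit 0x2000018000020000000000000000000000000000000000000000000000000000) (nat_lit 0x180000400000000001c0003c0000700000000000000000000000000000000000000000) (nat_lit 6)
theorem c104685 : QOK q104685 := cut [q97738, q104601] ⟨c97738, c104601, trivial⟩ (nd (nat_lit 187) (nat_lit 0) (cs (rf (nat_lit 0)) (rf (nat_lit 1)))) q104685 (by decide +kernel)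
def q104706 : Q := Q.p (nat_lit 0x6000038000040000100000000000000000000000000000000000000000000000) (nat_lit 0xe000038000000000080000200000800000000000000000000000000000000000000000) (nat_lit 5)
theorem c104706 : QOK q104706 := cut [q104704] ⟨c104704, trivial⟩ (nd (nat_lit 255) (nat_lit 0) (cs (lf (nat_lit 29) (nat_lit 188)) (nd (nat_lit 256) (nat_lit 0) (cs (lf (nat_lit 18) (nat_lit 231)) (rf (nat_lit 0)))))) q104706 (by decide +kernel)
def q104732 : Q := Q.p (nat_lit 0x1800007000010000000000000000000000000000000000000000000000000000000000) (nat_lit 0x800006000000000000000040000100000000000000000000000000000000000000000000000) (nat_lit 3)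
theorem c104732 : QOK q104732 := cut [q99923] ⟨c99923, trivial⟩ (nd (nat_lit 277) (nat_lit 0) (cs (lf (nat_lit 18) (nat_lit 252)) (rf (nat_lit 0)))) q104732 (by decide +kernel)
def q104814 : Q := Q.p (nat_lit 0x340000c0000000000000000000000000000000000000000000000000000) (nat_lit 0x20000188000720001c00001000004000000000000000000000000000000000000) (nat_lit 7)
theorem c104814 : QOK q104814 := cut [q103029] ⟨c103029, trivial⟩ (nd (nat_lit 212) (nat_lit 0) (cs (rf (nat_lit 0)) (lf (nat_lit 13) (nat_lit 208)))) q104814 (by decide +kernel)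
def q104873 : Q := Q.p (nat_lit 0xe000030000040000000000000000000000000000000000000000000000000000) (nat_lit 0x800006000001800000000000000000000000000000000000000000000000000000000000000) (nat_lit 3)
theorem c104873 : QOK q104873 := cut [q104349] ⟨c104349, trivial⟩ (nd (nat_lit 277) (nat_lit 0) (cs (lf (nat_lit 42) (nat_lit 210)) (rf (nat_lit 0)))) q104873 (by decide +kernel)
def q104908 : Q := Q.p (nat_lit 0x6000010000040000000000000000000000000000000000000000000000000000) (nat_lit 0x80000200000800000000008000000000100000000000000000000000000000000000000000000000) (nat_lit 3)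
theorem c104908 : QOK q104908 := cut [q79167] ⟨c79167, trivial⟩ (nd (nat_lit 275) (nat_lit 0) (cs (rf (nat_lit 0)) (lf (nat_lit 36) (nat_lit 187)))) q104908 (by decide +kernel)
def q104935 : Q := Q.p (nat_lit 0xf000010000000000000000000000000000000000000000000000000000000000) (nat_lit 0x360001000006e0000780007e0000f80000000000000000000000000000000000000000) (nat_lit 13)
theorem c104935 : QOK q104935 := cut [q104932] ⟨c104932, trivial⟩ (nd (nat_lit 230) (nat_lit 0) (cs (lf (nat_lit 23) (nat_lit 229)) (nd (nat_lit 273) (nat_lit 0) (cs (lf (nat_lit 10) (nat_lit 251)) (nd (nat_lit 231) (nat_lit 0) (cs (lf (nat_lit 18) (nat_lit 230)) (rf (nat_lit 0)))))))) q104935 (by decide +kernel)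
def q104995 : Q := Q.p (nat_lit 0x1000006000010000040000000000000000000000000000000000000000000000000000) (nat_lit 0x680002b00009c0000f0000bc0002f0000000000000000000000000000000000000000000000) (nat_lit 13)
theorem c104995 : QOK q104995 := cut [q104984] ⟨c104984, trivial⟩ (nd (nat_lit 275) (nat_lit 0) (cs (lf (nat_lit 41) (nat_lit 209)) (nd (nat_lit 189) (nat_lit 0) (cs (lf (nat_lit 34) (nat_lit 188)) (nd (nat_lit 209) (nat_lit 0) (cs (lf (nat_lit 47) (nat_lit 187)) (nd (nat_lit 231) (nat_lit 0) (cs (lf (nat_lit 42) (nat_lit 209)) (nd (nat_lit 208) (nat_lit 0) (cs (lf (nat_lit 47) (nat_lit 186)) (nd (nat_lit 207) (nat_lit 0) (cs (lf (nat_lit 0) (nat_lit 206)) (nd (nat_lit 184) (nat_lit 0) (cs (lf (nat_lit 22) (nat_lit 184)) (nd (nat_lit 229) (nat_lit 0) (cs (lf (nat_lit 11) (nat_lit 206)) (nd (nat_lit 230) (nat_lit 0) (cs (lf (nat_lit 5) (nat_lit 229)) (nd (nat_lit 251) (nat_lit 0) (cs (lf (nat_lit 11) (nat_lit 228)) (nd (nat_lit 273) (nat_lit 0) (cs (lf (nat_lit 30) (nat_lit 207)) (rf (nat_lit 0)))))))))))))))))))))))) q104995 (by decide +kernel)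
def q105048 : Q := Q.p (nat_lit 0x300001800000000000000000000000000000000000000000000000000000000000000000000) (nat_lit 0xc0006400000000000000000000000000000000000000000000000000000000000000000000) (nat_lit 3)
theorem c105048 : QOK q105048 := cut [q81196] ⟨c81196, trivial⟩ (nd (nat_lit 277) (nat_lit 0) (cs (lf (nat_lit 6) (nat_lit 274)) (rf (nat_lit 0)))) q105048 (by decide +kernel)
def q105124 : Q := Q.p (nat_lit 0x600003800004000010000000000000000000000000000000000000000000000000000) (nat_lit 0xe00003800000000008000020000080000000000000000000000000000000000000000000000) (nat_lit 5)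
theorem c105124 : QOK q105124 := cut [q105122] ⟨c105122, trivial⟩ (nd (nat_lit 275) (nat_lit 0) (cs (lf (nat_lit 29) (nat_lit 208)) (nd (nat_lit 276) (nat_lit 0) (cs (lf (nat_lit 18) (nat_lit 251)) (rf (nat_lit 0)))))) q105124 (by decide +kernel)
def q105136 : Q := Q.p (nat_lit 0x1200006800012000008000000000000000000000000000000000000000000000000000) (nat_lit 0x40000000000000000c000024000090000000000000000000000000000000000000000000000) (nat_lit 4)
theorem c105136 : QOK q105136 := cut [q79181] ⟨c79181, trivial⟩ (nd (nat_lit 206) (nat_lit 0) (cs (lf (nat_lit 47) (nat_lit 184)) (nd (nat_lit 231) (nat_lit 0) (cs (rf (nat_lit 0)) (lf (nat_lit 20) (nat_lit 206)))))) q105136 (by decide +kernel)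
def q105153 : Q := Q.p (nat_lit 0x7800002000000000000000000000000000000000000000000000000000000000) (nat_lit 0x7000008000004000000000000000000000000000000000000000000000000000000000) (nat_lit 3)
theorem c105153 : QOK q105153 := cut [q98738] ⟨c98738, trivial⟩ (nd (nat_lit 255) (nat_lit 0) (cs (lf (nat_lit 22) (nat_lit 229)) (rf (nat_lit 0)))) q105153 (by decide +kernel)
def q105164 : Q := Q.p (nat_lit 0x800003800008000020000000000000000000000000000000000000000000000000000) (nat_lit 0x500003400000000000000000000000000000000000000000000000000000000000000000000) (nat_lit 3)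
theorem c105164 : QOK q105164 := cut [q21982] ⟨c21982, trivial⟩ (nd (nat_lit 274) (nat_lit 0) (cs (lf (nat_lit 41) (nat_lit 208)) (rf (nat_lit 0)))) q105164 (by decide +kernel)
def q105189 : Q := Q.p (nat_lit 0x7800010000000000000000000000000000000000000000000000000000000000) (nat_lit 0x3800000400008000000000000000000000000000000000000000000000000000000000) (nat_lit 3)
theorem c105189 : QOK q105189 := cut [q80328] ⟨c80328, trivial⟩ (nd (nat_lit 276) (nat_lit 0) (cs (lf (nat_lit 5) (nat_lit 251)) (rf (nat_lit 0)))) q105189 (by decide +kernel)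
def q105193 : Q := Q.p (nat_lit 0x100000e000014000000000000000000000000000000000000000000000000000000000) (nat_lit 0x400000000010000008000020000080000000000000000000000000000000000000000000000) (nat_lit 3)
theorem c105193 : QOK q105193 := cut [q79181] ⟨c79181, trivial⟩ (nd (nat_lit 231) (nat_lit 0) (cs (lf (nat_lit 18) (nat_lit 230)) (rf (nat_lit 0)))) q105193 (by decide +kernel)
def q105208 : Q := Q.p (nat_lit 0x200000800003000008000000000000000000000000000000000000000000000000000000000) (nat_lit 0x100000400000000010000060000180000000000000000000000000000000000000000000000) (nat_lit 4)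
theorem c105208 : QOK q105208 := cut [q6232] ⟨c6232, trivial⟩ (nd (nat_lit 210) (nat_lit 0) (cs (lf (nat_lit 34) (nat_lit 209)) (nd (nat_lit 209) (nat_lit 0) (cs (lf (nat_lit 35) (nat_lit 187)) (rf (nat_lit 0)))))) q105208 (by decide +kernel)
def q105218 : Q := Q.p (nat_lit 0x70000080000300000c000000000000000000000000000000000000000000000000000000000) (nat_lit 0x180000700001c0000738001cc000000000000000000000000000000000000000000000000000) (nat_lit 10)
theorem c105218 : QOK q105218 := cut [q105211] ⟨c105211, trivial⟩ (nd (nat_lit 232) (nat_lit 0) (cs (lf (nat_lit 35) (nat_lit 209)) (nd (nat_lit 233) (nat_lit 0) (cs (lf (nat_lit 6) (nat_lit 230)) (nd (nat_lit 255) (nat_lit 0) (cs (lf (nat_lit 5) (nat_lit 230)) (nd (nat_lit 229) (nat_lit 0) (cs (lf (nat_lit 19) (nat_lit 229)) (nd (nat_lit 227) (nat_lit 0) (cs (lf (nat_lit 1) (nat_lit 227)) (nd (nat_lit 206) (nat_lit 0) (cs (lf (nat_lit 22) (nat_lit 206)) (nd (nat_lit 211) (nat_lit 0) (cs (lf (nat_lit 17) (nat_lit 208)) (rf (nat_lit 0)))))))))))))))) q105218 (by decide +kernel)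
def q105233 : Q := Q.p (nat_lit 0x3c0000f000000000000000000000000000000000000000000000000000000000000000) (nat_lit 0x80000200001800000000000000070000080000200000000000000000000000000000000000000000000000) (nat_lit 5)
theorem c105233 : QOK q105233 := cut [q81370] ⟨c81370, trivial⟩ (nd (nat_lit 233) (nat_lit 0) (cs (lf (nat_lit 17) (nat_lit 230)) (nd (nat_lit 189) (nat_lit 0) (cs (lf (nat_lit 37) (nat_lit 188)) (rf (nat_lit 0)))))) q105233 (by decide +kernel)
def q105248 : Q := Q.p (nat_lit 0x1e00003000000000000000000000000000000000000000000000000000000000000000) (nat_lit 0x600001c000000000000000000000000000000000000000000000000000000000000000) (nat_lit 3)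
theorem c105248 : QOK q105248 := cut [q105247] ⟨c105247, trivial⟩ (nd (nat_lit 277) (nat_lit 0) (cs (lf (nat_lit 18) (nat_lit 252)) (rf (nat_lit 0)))) q105248 (by decide +kernel)
def q105254 : Q := Q.p (nat_lit 0x300000f000000000000000000000000000000000000000000000000000000000000000) (nat_lit 0x400000000000000060000080000200000000000000000000000000000000000000000000000) (nat_lit 3)
theorem c105254 : QOK q105254 := cut [q96469] ⟨c96469, trivial⟩ (nd (nat_lit 233) (nat_lit 0) (cs (lf (nat_lit 17) (nat_lit 230)) (rf (nat_lit 0)))) q105254 (by decide +kernel)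
def q105259 : Q := Q.p (nat_lit 0x100000f000000000000000000000000000000000000000000000000000000000000000) (nat_lit 0x100000400000000000000070000080000200000000000000000000000000000000000000000000000) (nat_lit 4)
theorem c105259 : QOK q105259 := cut [q81164] ⟨c81164, trivial⟩ (nd (nat_lit 233) (nat_lit 0) (cs (lf (nat_lit 17) (nat_lit 230)) (nd (nat_lit 211) (nat_lit 0) (cs (lf (nat_lit 36) (nat_lit 188)) (rf (nat_lit 0)))))) q105259 (by decide +kernel)
def q105271 : Q := Q.p (nat_lit 0x3c00003000004000000000000000000000000000000000000000000000000000000000) (nat_lit 0x180000020001c000002000000000000000000000000000000000000000000000000000000000) (nat_lit 4)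
theorem c105271 : QOK q105271 := cut [q105270] ⟨c105270, trivial⟩ (nd (nat_lit 299) (nat_lit 0) (cs (lf (nat_lit 5) (nat_lit 274)) (rf (nat_lit 0)))) q105271 (by decide +kernel)
def q105298 : Q := Q.p (nat_lit 0x100000c00003000004000000000000000000000000000000000000000000000000000000000) (nat_lit 0x300000c0000200000000000000000000000000000000000000000000000000000000000000000000000000) (nat_lit 3)
theorem c105298 : QOK q105298 := cut [q14939] ⟨c14939, trivial⟩ (nd (nat_lit 319) (nat_lit 0) (cs (rf (nat_lit 0)) (lf (nat_lit 43) (nat_lit 230)))) q105298 (by decide +kernel)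
def q105312 : Q := Q.p (nat_lit 0x1c00007000004000000000000000000000000000000000000000000000000000000000) (nat_lit 0x60000180000e00000300000000000000000000000000000000000000000000000000000000000000000000) (nat_lit 5)
theorem c105312 : QOK q105312 := cut [q80312] ⟨c80312, trivial⟩ (nd (nat_lit 319) (nat_lit 0) (cs (lf (nat_lit 43) (nat_lit 230)) (nd (nat_lit 273) (nat_lit 0) (cs (lf (nat_lit 12) (nat_lit 250)) (nd (nat_lit 298) (nat_lit 0) (cs (lf (nat_lit 5) (nat_lit 273)) (rf (nat_lit 0)))))))) q105312 (by decide +kernel)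
def q105339 : Q := Q.p (nat_lit 0x80000200000800002000000000000000000000000000000000000000000000000000000000000000) (nat_lit 0x10000040000100000000004000018000040000000000000000000000000000000000000000000000000000) (nat_lit 4)
theorem c105339 : QOK q105339 := cut [q84612] ⟨c84612, trivial⟩ (nd (nat_lit 318) (nat_lit 0) (cs (lf (nat_lit 41) (nat_lit 252)) (nd (nat_lit 231) (nat_lit 0) (cs (lf (nat_lit 40) (nat_lit 230)) (rf (nat_lit 0)))))) q105339 (by decide +kernel)
def q105352 : Q := Q.p (nat_lit 0x200000c00003000008000000000000000000000000000000000000000000000000000000000) (nat_lit 0x300000c0000100000000000000000000000000000000000000000000000000000000000000000000000000) (nat_lit 3)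
theorem c105352 : QOK q105352 := cut [q13474] ⟨c13474, trivial⟩ (nd (nat_lit 318) (nat_lit 0) (cs (lf (nat_lit 40) (nat_lit 230)) (rf (nat_lit 0)))) q105352 (by decide +kernel)
def q105422 : Q := Q.p (nat_lit 0xe00000800002000008000000000000000000000000000000000000000000000000000000000) (nat_lit 0x40001100000600000000004000010000000000000000000000000000000000000000000000000000) (nat_lit 4)
theorem c105422 : QOK q105422 := cut [q22522] ⟨c22522, trivial⟩ (nd (nat_lit 208) (nat_lit 0) (cs (lf (nat_lit 46) (nat_lit 208)) (rf (nat_lit 0)))) q105422 (by decide +kernel)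
def q105566 : Q := Q.p (nat_lit 0x700000c00003000008000000000000000000000000000000000000000000000000000000000) (nat_lit 0x1880007000000800010000040000000000000000000000000000000000000000000000000000) (nat_lit 5)
theorem c105566 : QOK q105566 := cut [q91801] ⟨c91801, trivial⟩ (nd (nat_lit 299) (nat_lit 0) (cs (lf (nat_lit 18) (nat_lit 274)) (nd (nat_lit 210) (nat_lit 0) (cs (lf (nat_lit 34) (nat_lit 209)) (rf (nat_lit 0)))))) q105566 (by decide +kernel)
def q105603 : Q := Q.p (nat_lit 0x1c0000400000000000000000000000000000000000000000000000000000000000000000000) (nat_lit 0x20003a00000000000000000000000000000000000000000000000000000000000000000000) (nat_lit 3)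
theorem c105603 : QOK q105603 := cut [q15886] ⟨c15886, trivial⟩ (nd (nat_lit 275) (nat_lit 0) (cs (lf (nat_lit 12) (nat_lit 271)) (rf (nat_lit 0)))) q105603 (by decide +kernel)
def q105635 : Q := Q.p (nat_lit 0x700000e00001800000000000000000000000000000000000000000000000000000000000000) (nat_lit 0x80000300000c0003000000000000000000000000000000000000000000000000000000000000000000000) (nat_lit 4)
theorem c105635 : QOK q105635 := cut [q14327] ⟨c14327, trivial⟩ (nd (nat_lit 276) (nat_lit 0) (cs (lf (nat_lit 18) (nat_lit 251)) (nd (nat_lit 295) (nat_lit 0) (cs (lf (nat_lit 12) (nat_lit 272)) (rf (nat_lit 0)))))) q105635 (by decide +kernel)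
def q105695 : Q := Q.p (nat_lit 0x40000100000400003000000000000000000000000000000000000000000000000000000000000000) (nat_lit 0x380000e0000380001800002e0000a00000000000000000000000000000000000000000000000000000000000000000000) (nat_lit 9)
theorem c105695 : QOK q105695 := cut [q42282] ⟨c42282, trivial⟩ (nd (nat_lit 319) (nat_lit 0) (cs (lf (nat_lit 29) (nat_lit 252)) (nd (nat_lit 340) (nat_lit 0) (cs (lf (nat_lit 34) (nat_lit 252)) (nd (nat_lit 361) (nat_lit 0) (cs (lf (nat_lit 40) (nat_lit 273)) (nd (nat_lit 362) (nat_lit 0) (cs (lf (nat_lit 41) (nat_lit 295)) (nd (nat_lit 297) (nat_lit 0) (cs (lf (nat_lit 30) (nat_lit 296)) (nd (nat_lit 363) (nat_lit 0) (cs (lf (nat_lit 29) (nat_lit 296)) (rf (nat_lit 0)))))))))))))) q105695 (by decide +kernel)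
def q105701 : Q := Q.p (nat_lit 0x60000100000400002000000000000000000000000000000000000000000000000000000000000000) (nat_lit 0x300000c000030000000000080000a00000000000000000000000000000000000000000000000000000000000000000000) (nat_lit 5)
theorem c105701 : QOK q105701 := cut [q42155] ⟨c42155, trivial⟩ (nd (nat_lit 340) (nat_lit 0) (cs (lf (nat_lit 34) (nat_lit 252)) (nd (nat_lit 363) (nat_lit 0) (cs (lf (nat_lit 28) (nat_lit 274)) (nd (nat_lit 362) (nat_lit 0) (cs (lf (nat_lit 29) (nat_lit 296)) (rf (nat_lit 0)))))))) q105701 (by decide +kernel)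
def q105713 : Q := Q.p (nat_lit 0x40000100000400003000000000000000000000000000000000000000000000000000000000000000) (nat_lit 0x8000030000080000000000800000800006000008000000000000000000000000000000000000000000000000000) (nat_lit 5)
theorem c105713 : QOK q105713 := cut [q42162] ⟨c42162, trivial⟩ (nd (nat_lit 229) (nat_lit 0) (cs (lf (nat_lit 46) (nat_lit 229)) (nd (nat_lit 207) (nat_lit 0) (cs (lf (nat_lit 45) (nat_lit 207)) (rf (nat_lit 0)))))) q105713 (by decide +kernel)
def q105718 : Q := Q.p (nat_lit 0x80000700000800002000000000000000000000000000000000000000000000000000000000000000) (nat_lit 0x400003000000c0000000000000000000000000000000000000000000000000000000000000000000000000) (nat_lit 3)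
theorem c105718 : QOK q105718 := cut [q89150] ⟨c89150, trivial⟩ (nd (nat_lit 320) (nat_lit 0) (cs (lf (nat_lit 29) (nat_lit 253)) (rf (nat_lit 0)))) q105718 (by decide +kernel)
def q105755 : Q := Q.p (nat_lit 0x400001000004000010000000000000000000000000000000000000000000000000000000000) (nat_lit 0xa0000380000a00000000000000000000000000000000000000000000000000000000000000000000000000) (nat_lit 4)
theorem c105755 : QOK q105755 := cut [q99932] ⟨c99932, trivial⟩ (nd (nat_lit 321) (nat_lit 0) (cs (lf (nat_lit 28) (nat_lit 232)) (nd (nat_lit 320) (nat_lit 0) (cs (lf (nat_lit 29) (nat_lit 254)) (rf (nat_lit 0)))))) q105755 (by decide +kernel)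

end Crest.Agent.H3.Snaky.CR
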