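import Crest.Agent.H3.Snaky.Cert
import Crest.Agent.H3.Snaky.CR.CR0
import Crest.Agent.H3.Snaky.CR.CR1
import Crest.Agent.H3.Snaky.CR.CR2
import Crest.Agent.H3.Snaky.CR.CR3
import Crest.Agent.H3.Snaky.CR.CR4
import Crest.Agent.H3.Snaky.CR.CR5
import Crest.Agent.H3.Snaky.CR.CR6
import Crest.Agent.H3.Snaky.CR.CR7
import Crest.Agent.H3.Snaky.CR.CR9
import Crest.Agent.H3.Snaky.CR.CR10
import Crest.Agent.H3.Snaky.CR.CR11
import Crest.Agent.H3.Snaky.CR.CR12
import Crest.Agent.H3.Snaky.CR.CR14
import Crest.Agent.H3.Snaky.CR.CR15
import Crest.Agent.H3.Snaky.CR.CR16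
import Crest.Agent.H3.Snaky.CR.CR17
import Crest.Agent.H3.Snaky.CR.CR18
import Crest.Agent.H3.Snaky.CR.CR19

set_option autoImplicit false
set_option maxRecDepth 100000

namespace Crest.Agent.H3.Snaky.CR

open T

def q105767 : Q := Q.p (nat_lit 0x7800000000000000000000000000000000000000000000000000000000000000) (nat_lit 0x7000008000073000000000000000000000000000000000000000000000000000000000) (nat_lit 5)
theorem c105767 : QOK q105767 := cut [q98864] ⟨c98864, trivial⟩ (nd (nat_lit 233) (nat_lit 0) (cs (lf (nat_lit 16) (nat_lit 229)) (nd (nat_lit 228) (nat_lit 0) (cs (lf (nat_lit 22) (nat_lit 228)) (nd (nat_lit 277) (nat_lit 0) (cs (lf (nat_lit 4) (nat_lit 251)) (rf (nat_lit 0)))))))) q105767 (by decide +kernel)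
def q105778 : Q := Q.p (nat_lit 0x80000f000000000000000000000000000000000000000000000000000000000000000) (nat_lit 0x80000200006600000000006000010000000000000000000000000000000000000000000000000000) (nat_lit 5)
theorem c105778 : QOK q105778 := cut [q105775] ⟨c105775, trivial⟩ (nd (nat_lit 230) (nat_lit 0) (cs (lf (nat_lit 23) (nat_lit 229)) (nd (nat_lit 277) (nat_lit 0) (cs (lf (nat_lit 5) (nat_lit 252)) (nd (nat_lit 297) (nat_lit 0) (cs (lf (nat_lit 42) (nat_lit 230)) (rf (nat_lit 0)))))))) q105778 (by decide +kernel)
def q105803 : Q := Q.p (nat_lit 0xf000000000000000000000000000000000000000000000000000000000000000) (nat_lit 0xe0000100000e6000000000000000000000000000000000000000000000000000000000) (nat_lit 5)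
theorem c105803 : QOK q105803 := cut [q80860] ⟨c80860, trivial⟩ (nd (nat_lit 278) (nat_lit 0) (cs (lf (nat_lit 4) (nat_lit 252)) (nd (nat_lit 229) (nat_lit 0) (cs (lf (nat_lit 22) (nat_lit 229)) (nd (nat_lit 256) (nat_lit 0) (cs (lf (nat_lit 5) (nat_lit 253)) (rf (nat_lit 0)))))))) q105803 (by decide +kernel)
def q105804 : Q := Q.p (nat_lit 0xf000040000000000000000000000000000000000000000000000000000000000) (nat_lit 0xe00010000080000000000000000000000000000000000000000000000000000000000) (nat_lit 3)
theorem c105804 : QOK q105804 := cut [q80426] ⟨c80426, trivial⟩ (nd (nat_lit 256) (nat_lit 0) (cs (lf (nat_lit 17) (nat_lit 231)) (rf (nat_lit 0)))) q105804 (by decide +kernel)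
def q105858 : Q := Q.p (nat_lit 0x7000028000000000000000000000000000000000000000000000000000000000) (nat_lit 0xe000018000044000000000000000000000000000000000000000000000000000000000) (nat_lit 4)
theorem c105858 : QOK q105858 := cut [q105857] ⟨c105857, trivial⟩ (nd (nat_lit 255) (nat_lit 0) (cs (lf (nat_lit 17) (nat_lit 230)) (rf (nat_lit 0)))) q105858 (by decide +kernel)
def q105873 : Q := Q.p (nat_lit 0x300001e000000000000000000000000000000000000000000000000000000000) (nat_lit 0x6000001c000000000000000000000000000000000000000000000000000) (nat_lit 3)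
theorem c105873 : QOK q105873 := cut [q91992] ⟨c91992, trivial⟩ (nd (nat_lit 233) (nat_lit 0) (cs (lf (nat_lit 6) (nat_lit 230)) (rf (nat_lit 0)))) q105873 (by decide +kernel)
def q105900 : Q := Q.p (nat_lit 0x700001e000000000000000000000000000000000000000000000000000000000) (nat_lit 0x10000000000000000fc0003f0000fc0000000000000000000000000000000000000000) (nat_lit 10)
theorem c105900 : QOK q105900 := cut [q87008] ⟨c87008, trivial⟩ (nd (nat_lit 210) (nat_lit 0) (cs (lf (nat_lit 17) (nat_lit 207)) (nd (nat_lit 188) (nat_lit 0) (cs (lf (nat_lit 36) (nat_lit 165)) (nd (nat_lit 206) (nat_lit 0) (cs (lf (nat_lit 22) (nat_lit 206)) (nd (nat_lit 167) (nat_lit 0) (cs (lf (nat_lit 34) (nat_lit 166)) (nd (nat_lit 187) (nat_lit 0) (cs (lf (nat_lit 47) (nat_lit 165)) (nd (nat_lit 209) (nat_lit 0) (cs (lf (nat_lit 29) (nat_lit 187)) (rf (nat_lit 0)))))))))))))) q105900 (by decide +kernel)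
def q105927 : Q := Q.p (nat_lit 0x780000c000000000000000000000000000000000000000000000000000000000) (nat_lit 0x380000600000000000000000000000000000000000000000000000000000000000000) (nat_lit 3)
theorem c105927 : QOK q105927 := cut [q105926] ⟨c105926, trivial⟩ (nd (nat_lit 272) (nat_lit 0) (cs (lf (nat_lit 10) (nat_lit 250)) (rf (nat_lit 0)))) q105927 (by decide +kernel)
def q105986 : Q := Q.p (nat_lit 0x100000f000010000000000000000000000000000000000000000000000000000000000) (nat_lit 0x800006000000000000000040000100000000000000000000000000000000000000000000000) (nat_lit 3)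
theorem c105986 : QOK q105986 := cut [q104969] ⟨c104969, trivial⟩ (nd (nat_lit 277) (nat_lit 0) (cs (lf (nat_lit 5) (nat_lit 252)) (rf (nat_lit 0)))) q105986 (by decide +kernel)
def q105994 : Q := Q.p (nat_lit 0x3c000000000000000000000000000000000000000000000000000000000) (nat_lit 0x1c00000200001c000000000000000000000000000000000000000000000000000) (nat_lit 4)
theorem c105994 : QOK q105994 := cut [q91992] ⟨c91992, trivial⟩ (nd (nat_lit 255) (nat_lit 0) (cs (lf (nat_lit 5) (nat_lit 230)) (nd (nat_lit 229) (nat_lit 0) (cs (lf (nat_lit 4) (nat_lit 229)) (rf (nat_lit 0)))))) q105994 (by decide +kernel)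
def q106079 : Q := Q.p (nat_lit 0x7000010000040000080000000000000000000000000000000000000000000000) (nat_lit 0x800003000000800000000020000000000000000000000000000000000000000000000000000) (nat_lit 3)
theorem c106079 : QOK q106079 := cut [q106078] ⟨c106078, trivial⟩ (nd (nat_lit 276) (nat_lit 0) (cs (lf (nat_lit 46) (nat_lit 187)) (rf (nat_lit 0)))) q106079 (by decide +kernel)
def q106086 : Q := Q.p (nat_lit 0x7000016000040000000000000000000000000000000000000000000000000000) (nat_lit 0x800003000000800008000080000200000000000000000000000000000000000000000000000) (nat_lit 4)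
theorem c106086 : QOK q106086 := cut [q106078] ⟨c106078, trivial⟩ (nd (nat_lit 211) (nat_lit 0) (cs (lf (nat_lit 14) (nat_lit 207)) (nd (nat_lit 276) (nat_lit 0) (cs (lf (nat_lit 35) (nat_lit 188)) (rf (nat_lit 0)))))) q106086 (by decide +kernel)
def q106113 : Q := Q.p (nat_lit 0x1000007000004000000000000000000000000000000000000000000000000000000000) (nat_lit 0x80002300000800033000010000040000000000000000000000000000000000000000000000) (nat_lit 6)
theorem c106113 : QOK q106113 := cut [q106112] ⟨c106112, trivial⟩ (nd (nat_lit 251) (nat_lit 0) (cs (lf (nat_lit 5) (nat_lit 251)) (rf (nat_lit 0)))) q106113 (by decide +kernel)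
def q106114 : Q := Q.p (nat_lit 0x1000007000000000000000000000000000000000000000000000000000000000000000) (nat_lit 0xe800000800000000000000000000000000000000000000000000000000000000000000) (nat_lit 3)
theorem c106114 : QOK q106114 := cut [q80276] ⟨c80276, trivial⟩ (nd (nat_lit 277) (nat_lit 0) (cs (lf (nat_lit 0) (nat_lit 251)) (rf (nat_lit 0)))) q106114 (by decide +kernel)
def q106128 : Q := Q.p (nat_lit 0x1000006000008000000000000000000000000000000000000000000000000000000000) (nat_lit 0x100000400000800000000000000020000080000000000000000000000000000000000000000000000) (nat_lit 3)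
theorem c106128 : QOK q106128 := cut [q80921] ⟨c80921, trivial⟩ (nd (nat_lit 209) (nat_lit 0) (cs (lf (nat_lit 24) (nat_lit 187)) (rf (nat_lit 0)))) q106128 (by decide +kernel)
def q106219 : Q := Q.p (nat_lit 0x400001000004000010000000000000000000000000000000000000000000000000000000000) (nat_lit 0x2000008000020000000000200000c0000200000000000000000000000000000000000000000000000) (nat_lit 4)
theorem c106219 : QOK q106219 := cut [q79436] ⟨c79436, trivial⟩ (nd (nat_lit 299) (nat_lit 0) (cs (lf (nat_lit 29) (nat_lit 232)) (nd (nat_lit 210) (nat_lit 0) (cs (rf (nat_lit 0)) (lf (nat_lit 28) (nat_lit 210)))))) q106219 (by decide +kernel)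
def q106224 : Q := Q.p (nat_lit 0x100000400001800006000000000000000000000000000000000000000000000000000000000000000) (nat_lit 0x800002000008000000000000000300000c0000300000000000000000000000000000000000000000000000) (nat_lit 5)
theorem c106224 : QOK q106224 := cut [q106222] ⟨c106222, trivial⟩ (nd (nat_lit 321) (nat_lit 0) (cs (lf (nat_lit 29) (nat_lit 254)) (nd (nat_lit 232) (nat_lit 0) (cs (lf (nat_lit 28) (nat_lit 232)) (rf (nat_lit 0)))))) q106224 (by decide +kernel)
def q106238 : Q := Q.p (nat_lit 0x80000400001000007000000000000000000000000000000000000000000000000000000000000000) (nat_lit 0x60000100000200000800000000014000000000000000000000000000000000000000000000000000000000) (nat_lit 4)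
theorem c106238 : QOK q106238 := cut [q106236] ⟨c106236, trivial⟩ (nd (nat_lit 320) (nat_lit 0) (cs (lf (nat_lit 41) (nat_lit 253)) (nd (nat_lit 275) (nat_lit 0) (cs (lf (nat_lit 42) (nat_lit 253)) (rf (nat_lit 0)))))) q106238 (by decide +kernel)
def q106278 : Q := Q.p (nat_lit 0x100003400006000008000000000000000000000000000000000000000000000000000000000) (nat_lit 0x100000680000800000000000000000000000000000000000000000000000000000000000000000000) (nat_lit 3)
theorem c106278 : QOK q106278 := cut [q81830] ⟨c81830, trivial⟩ (nd (nat_lit 298) (nat_lit 0) (cs (lf (nat_lit 42) (nat_lit 231)) (rf (nat_lit 0)))) q106278 (by decide +kernel)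
def q106305 : Q := Q.p (nat_lit 0x400007000000000000000000000000000000000000000000000000000000000000000) (nat_lit 0x40000100038a000780003fc000020000080000000000000000000000000000000000000000000000) (nat_lit 11)
theorem c106305 : QOK q106305 := cut [q106296] ⟨c106296, trivial⟩ (nd (nat_lit 255) (nat_lit 0) (cs (lf (nat_lit 11) (nat_lit 251)) (nd (nat_lit 233) (nat_lit 0) (cs (lf (nat_lit 17) (nat_lit 230)) (nd (nat_lit 256) (nat_lit 0) (cs (lf (nat_lit 10) (nat_lit 252)) (nd (nat_lit 231) (nat_lit 0) (cs (lf (nat_lit 23) (nat_lit 230)) (nd (nat_lit 296) (nat_lit 0) (cs (lf (nat_lit 30) (nat_lit 230)) (nd (nat_lit 187) (nat_lit 0) (cs (lf (nat_lit 37) (nat_lit 186)) (nd (nat_lit 257) (nat_lit 0) (cs (lf (nat_lit 22) (nat_lit 231)) (nd (nat_lit 236) (nat_lit 0) (cs (lf (nat_lit 16) (nat_lit 232)) (nd (nat_lit 280) (nat_lit 0) (cs (lf (nat_lit 4) (nat_lit 254)) (rf (nat_lit 0)))))))))))))))))))) q106305 (by decide +kernel)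
def q106308 : Q := Q.p (nat_lit 0x400007000028000000000000000000000000000000000000000000000000000000000) (nat_lit 0x40000100000800018000044000000000000000000000000000000000000000000000000000000000) (nat_lit 4)
theorem c106308 : QOK q106308 := cut [q81834] ⟨c81834, trivial⟩ (nd (nat_lit 296) (nat_lit 0) (cs (lf (nat_lit 30) (nat_lit 230)) (nd (nat_lit 255) (nat_lit 0) (cs (lf (nat_lit 17) (nat_lit 230)) (rf (nat_lit 0)))))) q106308 (by decide +kernel)
def q106333 : Q := Q.p (nat_lit 0xc00007000008000000000000000000000000000000000000000000000000000000000) (nat_lit 0x200000000018800070000040000100000000000000000000000000000000000000000000000) (nat_lit 5)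
theorem c106333 : QOK q106333 := cut [q81878] ⟨c81878, trivial⟩ (nd (nat_lit 255) (nat_lit 0) (cs (lf (nat_lit 6) (nat_lit 252)) (nd (nat_lit 233) (nat_lit 0) (cs (lf (nat_lit 17) (nat_lit 230)) (nd (nat_lit 232) (nat_lit 0) (cs (lf (nat_lit 12) (nat_lit 229)) (rf (nat_lit 0)))))))) q106333 (by decide +kernel)
def q106358 : Q := Q.p (nat_lit 0x400007000010000000000000000000000000000000000000000000000000000000000) (nat_lit 0x1b80000e00020000000000000000000000000000000000000000000000000000000000) (nat_lit 5)
theorem c106358 : QOK q106358 := cut [q17541] ⟨c17541, trivial⟩ (nd (nat_lit 251) (nat_lit 0) (cs (lf (nat_lit 17) (nat_lit 229)) (nd (nat_lit 272) (nat_lit 0) (cs (lf (nat_lit 10) (nat_lit 250)) (nd (nat_lit 250) (nat_lit 0) (cs (lf (nat_lit 11) (nat_lit 249)) (rf (nat_lit 0)))))))) q106358 (by decide +kernel)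
def q106365 : Q := Q.p (nat_lit 0x400003000018000000000000000000000000000000000000000000000000000000000) (nat_lit 0x40000100000800000000064000020000000000000000000000000000000000000000000000000000) (nat_lit 4)
theorem c106365 : QOK q106365 := cut [q84611] ⟨c84611, trivial⟩ (nd (nat_lit 233) (nat_lit 0) (cs (lf (nat_lit 6) (nat_lit 230)) (rf (nat_lit 0)))) q106365 (by decide +kernel)
def q106388 : Q := Q.p (nat_lit 0x400007000000000000000000000000000000000000000000000000000000000000000) (nat_lit 0xa000180000e0000000000000000000000000000000000000000000000000000000000) (nat_lit 4)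
theorem c106388 : QOK q106388 := cut [q79220] ⟨c79220, trivial⟩ (nd (nat_lit 255) (nat_lit 0) (cs (lf (nat_lit 11) (nat_lit 251)) (nd (nat_lit 234) (nat_lit 0) (cs (rf (nat_lit 0)) (lf (nat_lit 16) (nat_lit 230)))))) q106388 (by decide +kernel)
def q106400 : Q := Q.p (nat_lit 0xf000000000000000000000000000000000000000000000000000000000000000) (nat_lit 0xe0003080007c000000000000000000000000000000000000000000000000000000000) (nat_lit 6)
theorem c106400 : QOK q106400 := cut [q104880] ⟨c104880, trivial⟩ (nd (nat_lit 233) (nat_lit 0) (cs (lf (nat_lit 17) (nat_lit 230)) (nd (nat_lit 232) (nat_lit 0) (cs (lf (nat_lit 12) (nat_lit 229)) (rf (nat_lit 0)))))) q106400 (by decide +kernel)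
def q106417 : Q := Q.p (nat_lit 0x3c00000000000000000000000000000000000000000000000000000000000000) (nat_lit 0x3980004000003800000000000000000000000000000000000000000000000000000000) (nat_lit 5)
theorem c106417 : QOK q106417 := cut [q79022] ⟨c79022, trivial⟩ (nd (nat_lit 276) (nat_lit 0) (cs (lf (nat_lit 4) (nat_lit 250)) (nd (nat_lit 271) (nat_lit 0) (cs (lf (nat_lit 10) (nat_lit 249)) (nd (nat_lit 254) (nat_lit 0) (cs (lf (nat_lit 5) (nat_lit 251)) (rf (nat_lit 0)))))))) q106417 (by decide +kernel)
def q106445 : Q := Q.p (nat_lit 0x3800006000000000000000000000000000000000000000000000000000000000) (nat_lit 0x380000c700008000000000000000000000000000000000000000000000000000000000) (nat_lit 5)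
theorem c106445 : QOK q106445 := cut [q1058] ⟨c1058, trivial⟩ (nd (nat_lit 254) (nat_lit 0) (cs (lf (nat_lit 18) (nat_lit 229)) (nd (nat_lit 276) (nat_lit 0) (cs (lf (nat_lit 5) (nat_lit 251)) (nd (nat_lit 250) (nat_lit 0) (cs (rf (nat_lit 0)) (lf (nat_lit 4) (nat_lit 250)))))))) q106445 (by decide +kernel)
def q106447 : Q := Q.p (nat_lit 0x100000400001800006000000000000000000000000000000000000000000000000000000000) (nat_lit 0x2000000000080000300000c0000100000000000000000000000000000000000000000) (nat_lit 4)
theorem c106447 : QOK q106447 := cut [q88848] ⟨c88848, trivial⟩ (nd (nat_lit 209) (nat_lit 0) (cs (lf (nat_lit 34) (nat_lit 208)) (nd (nat_lit 208) (nat_lit 0) (cs (lf (nat_lit 35) (nat_lit 186)) (rf (nat_lit 0)))))) q106447 (by decide +kernel)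
def q106459 : Q := Q.p (nat_lit 0x800003800002000000000000000000000000000000000000000000000000000000000) (nat_lit 0x100000070000dc00000000000000000000000000000000000000000000000000000000) (nat_lit 5)
theorem c106459 : QOK q106459 := cut [q106456] ⟨c106456, trivial⟩ (nd (nat_lit 250) (nat_lit 0) (cs (lf (nat_lit 5) (nat_lit 250)) (nd (nat_lit 227) (nat_lit 0) (cs (lf (nat_lit 22) (nat_lit 227)) (nd (nat_lit 249) (nat_lit 0) (cs (lf (nat_lit 23) (nat_lit 226)) (rf (nat_lit 0)))))))) q106459 (by decide +kernel)
def q106461 : Q := Q.p (nat_lit 0x800003800002000000000000000000000000000000000000000000000000000000000) (nat_lit 0x140000070000c000000000000000000000000000000000000000000000000000000000) (nat_lit 4)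
theorem c106461 : QOK q106461 := cut [q106456] ⟨c106456, trivial⟩ (nd (nat_lit 250) (nat_lit 0) (cs (lf (nat_lit 5) (nat_lit 250)) (nd (nat_lit 249) (nat_lit 0) (cs (lf (nat_lit 4) (nat_lit 249)) (rf (nat_lit 0)))))) q106461 (by decide +kernel)
def q106478 : Q := Q.p (nat_lit 0xc00003800004000000000000000000000000000000000000000000000000000000000) (nat_lit 0xc800032000000000080000380000e0000000000000000000000000000000000000000000000) (nat_lit 7)
theorem c106478 : QOK q106478 := cut [q105122] ⟨c105122, trivial⟩ (nd (nat_lit 208) (nat_lit 0) (cs (lf (nat_lit 24) (nat_lit 186)) (nd (nat_lit 276) (nat_lit 0) (cs (lf (nat_lit 18) (nat_lit 251)) (nd (nat_lit 185) (nat_lit 0) (cs (lf (nat_lit 46) (nat_lit 185)) (nd (nat_lit 273) (nat_lit 0) (cs (lf (nat_lit 41) (nat_lit 207)) (rf (nat_lit 0)))))))))) q106478 (by decide +kernel)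
def q106480 : Q := Q.p (nat_lit 0x800003000004000000000000000000000000000000000000000000000000000000000) (nat_lit 0x80000200000000000000008000010000040000000000000000000000000000000000000000000000) (nat_lit 3)
theorem c106480 : QOK q106480 := cut [q88337] ⟨c88337, trivial⟩ (nd (nat_lit 297) (nat_lit 0) (cs (lf (nat_lit 42) (nat_lit 230)) (rf (nat_lit 0)))) q106480 (by decide +kernel)
def q106493 : Q := Q.p (nat_lit 0x100000000001800007000000000000000000000000000000000000000000000000000000000) (nat_lit 0x60000000000800000f0000700001c0000000000000000000000000000000000000000) (nat_lit 7)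
theorem c106493 : QOK q106493 := cut [q106492] ⟨c106492, trivial⟩ (nd (nat_lit 207) (nat_lit 0) (cs (lf (nat_lit 43) (nat_lit 207)) (rf (nat_lit 0)))) q106493 (by decide +kernel)
def q106507 : Q := Q.p (nat_lit 0x200001c00002000008000000000000000000000000000000000000000000000000000000000) (nat_lit 0x100000c00000300000000000000000000000000000000000000000000000000000000000000000000) (nat_lit 3)
theorem c106507 : QOK q106507 := cut [q11587] ⟨c11587, trivial⟩ (nd (nat_lit 298) (nat_lit 0) (cs (lf (nat_lit 29) (nat_lit 231)) (rf (nat_lit 0)))) q106507 (by decide +kernel)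
def q106528 : Q := Q.p (nat_lit 0x80000c00003000004000000000000000000000000000000000000000000000000000000000) (nat_lit 0x10000060000100000000000000008000000000000000000000000000000000000000000000000000000000) (nat_lit 3)
theorem c106528 : QOK q106528 := cut [q22293] ⟨c22293, trivial⟩ (nd (nat_lit 296) (nat_lit 0) (cs (lf (nat_lit 41) (nat_lit 229)) (rf (nat_lit 0)))) q106528 (by decide +kernel)
def q106532 : Q := Q.p (nat_lit 0xc00003800004000018000000000000000000000000000000000000000000000000000) (nat_lit 0xe0000380000000002000000000000000000000000000000000000000000000000000000000) (nat_lit 4)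
theorem c106532 : QOK q106532 := cut [q23629] ⟨c23629, trivial⟩ (nd (nat_lit 273) (nat_lit 0) (cs (lf (nat_lit 41) (nat_lit 207)) (nd (nat_lit 272) (nat_lit 0) (cs (lf (nat_lit 12) (nat_lit 249)) (rf (nat_lit 0)))))) q106532 (by decide +kernel)
def q106552 : Q := Q.p (nat_lit 0x1000007000010000040000000000000000000000000000000000000000000000000000) (nat_lit 0x80000e800000000000000000000000000000000000000000000000000000000000000000000) (nat_lit 3)
theorem c106552 : QOK q106552 := cut [q80276] ⟨c80276, trivial⟩ (nd (nat_lit 277) (nat_lit 0) (cs (lf (nat_lit 29) (nat_lit 210)) (rf (nat_lit 0)))) q106552 (by decide +kernel)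
def q106581 : Q := Q.p (nat_lit 0x380000600000c000020000000000000000000000000000000000000000000000000000) (nat_lit 0x8000000000000000100001c0000300000000000000000000000000000000000000000000000) (nat_lit 4)
theorem c106581 : QOK q106581 := cut [q93941] ⟨c93941, trivial⟩ (nd (nat_lit 210) (nat_lit 0) (cs (lf (nat_lit 35) (nat_lit 187)) (nd (nat_lit 232) (nat_lit 0) (cs (lf (nat_lit 29) (nat_lit 210)) (rf (nat_lit 0)))))) q106581 (by decide +kernel)
def q106598 : Q := Q.p (nat_lit 0x80000f000010000000000000000000000000000000000000000000000000000000000) (nat_lit 0x200000800007000000000000000040000100000000000000000000000000000000000000000000000) (nat_lit 4)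
theorem c106598 : QOK q106598 := cut [q106596] ⟨c106596, trivial⟩ (nd (nat_lit 277) (nat_lit 0) (cs (lf (nat_lit 5) (nat_lit 252)) (nd (nat_lit 299) (nat_lit 0) (cs (lf (nat_lit 42) (nat_lit 232)) (rf (nat_lit 0)))))) q106598 (by decide +kernel)
def q106606 : Q := Q.p (nat_lit 0x80000f000014000010000000000000000000000000000000000000000000000000000) (nat_lit 0x68000068000100000000000000000000000000000000000000000000000) (nat_lit 4)
theorem c106606 : QOK q106606 := cut [q87537] ⟨c87537, trivial⟩ (nd (nat_lit 233) (nat_lit 0) (cs (lf (nat_lit 17) (nat_lit 230)) (nd (nat_lit 207) (nat_lit 0) (cs (lf (nat_lit 20) (nat_lit 207)) (rf (nat_lit 0)))))) q106606 (by decide +kernel)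
def q106640 : Q := Q.p (nat_lit 0x200001c000020000080000000000000000000000000000000000000000000000) (nat_lit 0x8000000000020001c0000140000500000000000000000000000000000000000000000) (nat_lit 5)
theorem c106640 : QOK q106640 := cut [q87114] ⟨c87114, trivial⟩ (nd (nat_lit 164) (nat_lit 0) (cs (lf (nat_lit 46) (nat_lit 164)) (nd (nat_lit 188) (nat_lit 0) (cs (lf (nat_lit 35) (nat_lit 165)) (nd (nat_lit 210) (nat_lit 0) (cs (lf (nat_lit 30) (nat_lit 187)) (rf (nat_lit 0)))))))) q106640 (by decide +kernel)
def q106646 : Q := Q.p (nat_lit 0x200001800004000000000000000000000000000000000000000000000000000000000) (nat_lit 0x20000080000400000000002000010000000000000000000000000000000000000000000000000000) (nat_lit 3)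
theorem c106646 : QOK q106646 := cut [q88674] ⟨c88674, trivial⟩ (nd (nat_lit 295) (nat_lit 0) (cs (lf (nat_lit 30) (nat_lit 229)) (rf (nat_lit 0)))) q106646 (by decide +kernel)
def q106658 : Q := Q.p (nat_lit 0x20000180001c000020000000000000000000000000000000000000000000000000000) (nat_lit 0x10000040000000000000001c000060000000000000000000000000000000000000000000000) (nat_lit 4)
theorem c106658 : QOK q106658 := cut [q82337] ⟨c82337, trivial⟩ (nd (nat_lit 208) (nat_lit 0) (cs (lf (nat_lit 36) (nat_lit 185)) (nd (nat_lit 274) (nat_lit 0) (cs (lf (nat_lit 30) (nat_lit 208)) (rf (nat_lit 0)))))) q106658 (by decide +kernel)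
def q106703 : Q := Q.p (nat_lit 0xc00003000008000060000000000000000000000000000000000000000000000000000) (nat_lit 0x1c0000700000400003000001c000040000000000000000000000000000000000000000000000) (nat_lit 7)
theorem c106703 : QOK q106703 := cut [q2928] ⟨c2928, trivial⟩ (nd (nat_lit 208) (nat_lit 0) (cs (lf (nat_lit 47) (nat_lit 186)) (nd (nat_lit 276) (nat_lit 0) (cs (lf (nat_lit 29) (nat_lit 209)) (nd (nat_lit 277) (nat_lit 0) (cs (lf (nat_lit 18) (nat_lit 252)) (nd (nat_lit 299) (nat_lit 0) (cs (lf (nat_lit 5) (nat_lit 274)) (nd (nat_lit 232) (nat_lit 0) (cs (rf (nat_lit 0)) (lf (nat_lit 26) (nat_lit 210)))))))))))) q106703 (by decide +kernel)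
def q106756 : Q := Q.p (nat_lit 0x200003800000000000000000000000000000000000000000000000000000000000000) (nat_lit 0x12000048000390001c00007e000020000080000000000000000000000000000000000000000000000) (nat_lit 10)
theorem c106756 : QOK q106756 := cut [q80904] ⟨c80904, trivial⟩ (nd (nat_lit 254) (nat_lit 0) (cs (lf (nat_lit 11) (nat_lit 250)) (nd (nat_lit 276) (nat_lit 0) (cs (lf (nat_lit 5) (nat_lit 251)) (nd (nat_lit 233) (nat_lit 0) (cs (lf (nat_lit 16) (nat_lit 229)) (nd (nat_lit 255) (nat_lit 0) (cs (lf (nat_lit 17) (nat_lit 230)) (nd (nat_lit 230) (nat_lit 0) (cs (lf (nat_lit 23) (nat_lit 229)) (nd (nat_lit 298) (nat_lit 0) (cs (lf (nat_lit 30) (nat_lit 232)) (nd (nat_lit 295) (nat_lit 0) (cs (lf (nat_lit 30) (nat_lit 229)) (nd (nat_lit 231) (nat_lit 0) (cs (lf (nat_lit 18) (nat_lit 230)) (rf (nat_lit 0)))))))))))))))))) q106756 (by decide +kernel)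
def q106758 : Q := Q.p (nat_lit 0x180000200000800000000000000000000000000000000000000000000000000000000000000) (nat_lit 0x50000040000500000000002000008000000000000000000000000000000000000000000000000000) (nat_lit 4)
theorem c106758 : QOK q106758 := cut [q89906] ⟨c89906, trivial⟩ (nd (nat_lit 229) (nat_lit 0) (cs (lf (nat_lit 29) (nat_lit 229)) (nd (nat_lit 294) (nat_lit 0) (cs (lf (nat_lit 41) (nat_lit 228)) (rf (nat_lit 0)))))) q106758 (by decide +kernel)
def q106771 : Q := Q.p (nat_lit 0x180000200000800000000000000000000000000000000000000000000000000000000000000) (nat_lit 0x40000000000400000000006000018000040000000000000000000000000000000000000000000000) (nat_lit 4)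
theorem c106771 : QOK q106771 := cut [q106769] ⟨c106769, trivial⟩ (nd (nat_lit 229) (nat_lit 0) (cs (lf (nat_lit 29) (nat_lit 229)) (nd (nat_lit 208) (nat_lit 0) (cs (lf (nat_lit 34) (nat_lit 207)) (rf (nat_lit 0)))))) q106771 (by decide +kernel)
def q106778 : Q := Q.p (nat_lit 0x40000080000200001800000000000000000000000000000000000000000000000000000000000000) (nat_lit 0x10000140000500000000002000018000060000100000000000000000000000000000000000000000) (nat_lit 6)
theorem c106778 : QOK q106778 := cut [q82634] ⟨c82634, trivial⟩ (nd (nat_lit 229) (nat_lit 0) (cs (lf (nat_lit 28) (nat_lit 229)) (nd (nat_lit 294) (nat_lit 0) (cs (lf (nat_lit 41) (nat_lit 228)) (nd (nat_lit 207) (nat_lit 0) (cs (lf (nat_lit 40) (nat_lit 206)) (rf (nat_lit 0)))))))) q106778 (by decide +kernel)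
def q106779 : Q := Q.p (nat_lit 0x20000080000200003800002000000000000000000000000000000000000000000000000000000000) (nat_lit 0x8000000000040000580000000000000008000020000000000000000000000000000000000000000000000) (nat_lit 4)
theorem c106779 : QOK q106779 := cut [q91468] ⟨c91468, trivial⟩ (nd (nat_lit 274) (nat_lit 0) (cs (lf (nat_lit 30) (nat_lit 251)) (rf (nat_lit 0)))) q106779 (by decide +kernel)
def q106784 : Q := Q.p (nat_lit 0x200000800007800000000000000000000000000000000000000000000000000000000000000) (nat_lit 0x38000040000100000000000000000000000000000000000000000000000) (nat_lit 3)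
theorem c106784 : QOK q106784 := cut [q86322] ⟨c86322, trivial⟩ (nd (nat_lit 232) (nat_lit 0) (cs (lf (nat_lit 17) (nat_lit 229)) (rf (nat_lit 0)))) q106784 (by decide +kernel)
def q106786 : Q := Q.p (nat_lit 0x1e00006000010000000000000000000000000000000000000000000000000000000000) (nat_lit 0x100000c00000000000000008000020000000000000000000000000000000000000000000000000000) (nat_lit 3)
theorem c106786 : QOK q106786 := cut [q80343] ⟨c80343, trivial⟩ (nd (nat_lit 298) (nat_lit 0) (cs (lf (nat_lit 5) (nat_lit 273)) (rf (nat_lit 0)))) q106786 (by decide +kernel)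
def q106807 : Q := Q.p (nat_lit 0x600003800004000010000000000000000000000000000000000000000000000000000) (nat_lit 0x10000300000c00003a00002c0000b0000000000000000000000000000000000000000000000) (nat_lit 8)
theorem c106807 : QOK q106807 := cut [q90195] ⟨c90195, trivial⟩ (nd (nat_lit 254) (nat_lit 0) (cs (lf (nat_lit 6) (nat_lit 251)) (nd (nat_lit 276) (nat_lit 0) (cs (lf (nat_lit 5) (nat_lit 251)) (nd (nat_lit 232) (nat_lit 0) (cs (lf (nat_lit 17) (nat_lit 229)) (nd (nat_lit 187) (nat_lit 0) (cs (lf (nat_lit 34) (nat_lit 186)) (nd (nat_lit 207) (nat_lit 0) (cs (lf (nat_lit 47) (nat_lit 185)) (nd (nat_lit 229) (nat_lit 0) (cs (lf (nat_lit 29) (nat_lit 207)) (rf (nat_lit 0)))))))))))))) q106807 (by decide +kernel)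
def q106815 : Q := Q.p (nat_lit 0xf000000000000000000000000000000000000000000000000000000000000000) (nat_lit 0xe00001000000e000000000000000000000000000000000000000000000000000000000) (nat_lit 4)
theorem c106815 : QOK q106815 := cut [q86765] ⟨c86765, trivial⟩ (nd (nat_lit 278) (nat_lit 0) (cs (lf (nat_lit 4) (nat_lit 252)) (nd (nat_lit 230) (nat_lit 0) (cs (lf (nat_lit 23) (nat_lit 229)) (rf (nat_lit 0)))))) q106815 (by decide +kernel)
def q106833 : Q := Q.p (nat_lit 0x2000007800012000000000000000000000000000000000000000000000000000000000) (nat_lit 0x240000900004e000380001c8000048000120000000000000000000000000000000000000000000000) (nat_lit 10)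
theorem c106833 : QOK q106833 := cut [q106826] ⟨c106826, trivial⟩ (nd (nat_lit 255) (nat_lit 0) (cs (lf (nat_lit 5) (nat_lit 252)) (nd (nat_lit 274) (nat_lit 0) (cs (lf (nat_lit 11) (nat_lit 251)) (nd (nat_lit 299) (nat_lit 0) (cs (lf (nat_lit 42) (nat_lit 232)) (nd (nat_lit 188) (nat_lit 0) (cs (lf (nat_lit 25) (nat_lit 188)) (nd (nat_lit 185) (nat_lit 0) (cs (lf (nat_lit 25) (nat_lit 185)) (nd (nat_lit 296) (nat_lit 0) (cs (lf (nat_lit 42) (nat_lit 229)) (nd (nat_lit 256) (nat_lit 0) (cs (lf (nat_lit 10) (nat_lit 252)) (rf (nat_lit 0)))))))))))))))) q106833 (by decide +kernel)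
def q106844 : Q := Q.p (nat_lit 0x3800006000018000000000000000000000000000000000000000000000000000) (nat_lit 0x700003c000000000098000e0000180000000000000000000000000000000000000000000000) (nat_lit 8)
theorem c106844 : QOK q106844 := cut [q12194] ⟨c12194, trivial⟩ (nd (nat_lit 274) (nat_lit 0) (cs (lf (nat_lit 42) (nat_lit 207)) (nd (nat_lit 275) (nat_lit 0) (cs (lf (nat_lit 29) (nat_lit 208)) (nd (nat_lit 276) (nat_lit 0) (cs (lf (nat_lit 18) (nat_lit 251)) (nd (nat_lit 227) (nat_lit 0) (cs (lf (nat_lit 1) (nat_lit 227)) (nd (nat_lit 209) (nat_lit 0) (cs (lf (nat_lit 35) (nat_lit 186)) (nd (nat_lit 231) (nat_lit 0) (cs (lf (nat_lit 29) (nat_lit 209)) (rf (nat_lit 0)))))))))))))) q106844 (by decide +kernel)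
def q106852 : Q := Q.p (nat_lit 0x3800006000018000000000000000000000000000000000000000000000000000) (nat_lit 0x100000400000000039c000e70000c0000100000000000000000000000000000000000000000) (nat_lit 9)
theorem c106852 : QOK q106852 := cut [q12539] ⟨c12539, trivial⟩ (nd (nat_lit 164) (nat_lit 0) (cs (lf (nat_lit 37) (nat_lit 163)) (nd (nat_lit 274) (nat_lit 0) (cs (lf (nat_lit 42) (nat_lit 207)) (nd (nat_lit 227) (nat_lit 0) (cs (lf (nat_lit 1) (nat_lit 227)) (nd (nat_lit 209) (nat_lit 0) (cs (lf (nat_lit 35) (nat_lit 186)) (nd (nat_lit 210) (nat_lit 0) (cs (lf (nat_lit 6) (nat_lit 207)) (nd (nat_lit 232) (nat_lit 0) (cs (lf (nat_lit 5) (nat_lit 207)) (nd (nat_lit 206) (nat_lit 0) (cs (lf (nat_lit 19) (nat_lit 206)) (rf (nat_lit 0)))))))))))))))) q106852 (by decide +kernel)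
def q106863 : Q := Q.p (nat_lit 0x40000780000a000008000000000000000000000000000000000000000000000000000) (nat_lit 0x8000000000340000e4000180000200000000000000000000000000000000000000000) (nat_lit 6)
theorem c106863 : QOK q106863 := cut [q87334] ⟨c87334, trivial⟩ (nd (nat_lit 187) (nat_lit 0) (cs (lf (nat_lit 37) (nat_lit 186)) (nd (nat_lit 232) (nat_lit 0) (cs (lf (nat_lit 17) (nat_lit 229)) (nd (nat_lit 230) (nat_lit 0) (cs (lf (nat_lit 23) (nat_lit 206)) (rf (nat_lit 0)))))))) q106863 (by decide +kernel)
def q106872 : Q := Q.p (nat_lit 0x100000400003800006000000000000000000000000000000000000000000000000000000000) (nat_lit 0xa000028000380000c000038000060000080000000000000000000000000000000000000000000000) (nat_lit 8)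
theorem c106872 : QOK q106872 := cut [q81427] ⟨c81427, trivial⟩ (nd (nat_lit 297) (nat_lit 0) (cs (lf (nat_lit 29) (nat_lit 230)) (nd (nat_lit 295) (nat_lit 0) (cs (lf (nat_lit 41) (nat_lit 229)) (nd (nat_lit 209) (nat_lit 0) (cs (lf (nat_lit 34) (nat_lit 208)) (nd (nat_lit 254) (nat_lit 0) (cs (lf (nat_lit 18) (nat_lit 229)) (nd (nat_lit 232) (nat_lit 0) (cs (lf (nat_lit 17) (nat_lit 229)) (nd (nat_lit 276) (nat_lit 0) (cs (lf (nat_lit 5) (nat_lit 251)) (rf (nat_lit 0)))))))))))))) q106872 (by decide +kernel)
def q106906 : Q := Q.p (nat_lit 0x600001000004000000000000000000000000000000000000000000000000000000000000000) (nat_lit 0x280000800002000000000018000060000080000000000000000000000000000000000000000000000) (nat_lit 5)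
theorem c106906 : QOK q106906 := cut [q79744] ⟨c79744, trivial⟩ (nd (nat_lit 232) (nat_lit 0) (cs (lf (nat_lit 41) (nat_lit 231)) (rf (nat_lit 0)))) q106906 (by decide +kernel)
def q106920 : Q := Q.p (nat_lit 0x600001800007000000000000000000000000000000000000000000000000000000000000000) (nat_lit 0x20000380000e000000000018000060000000000000000000000000000000000000000000000000000) (nat_lit 6)
theorem c106920 : QOK q106920 := cut [q99363] ⟨c99363, trivial⟩ (nd (nat_lit 209) (nat_lit 0) (cs (lf (nat_lit 25) (nat_lit 209)) (nd (nat_lit 278) (nat_lit 0) (cs (lf (nat_lit 19) (nat_lit 252)) (nd (nat_lit 232) (nat_lit 0) (cs (lf (nat_lit 36) (nat_lit 209)) (nd (nat_lit 299) (nat_lit 0) (cs (lf (nat_lit 29) (nat_lit 232)) (rf (nat_lit 0)))))))))) q106920 (by decide +kernel)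
def q106923 : Q := Q.p (nat_lit 0x600001800003000000000000000000000000000000000000000000000000000000000000000) (nat_lit 0x40000180006000000000008000020000000000000000000000000000000000000000000000000000) (nat_lit 4)
theorem c106923 : QOK q106923 := cut [q106922] ⟨c106922, trivial⟩ (nd (nat_lit 231) (nat_lit 0) (cs (lf (nat_lit 24) (nat_lit 209)) (rf (nat_lit 0)))) q106923 (by decide +kernel)
def q106929 : Q := Q.p (nat_lit 0x600001000004000000000000000000000000000000000000000000000000000000000000000) (nat_lit 0x280000800000800000000018000060000080000000000000000000000000000000000000000000000) (nat_lit 5)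
theorem c106929 : QOK q106929 := cut [q81135] ⟨c81135, trivial⟩ (nd (nat_lit 232) (nat_lit 0) (cs (lf (nat_lit 41) (nat_lit 231)) (nd (nat_lit 299) (nat_lit 0) (cs (lf (nat_lit 29) (nat_lit 232)) (nd (nat_lit 210) (nat_lit 0) (cs (lf (nat_lit 40) (nat_lit 209)) (rf (nat_lit 0)))))))) q106929 (by decide +kernel)
def q107013 : Q := Q.p (nat_lit 0x680001c000000000000000000000000000000000000000000000000000000000) (nat_lit 0x10000e0000380000000000000000000000000000000000000000000000000000) (nat_lit 4)
theorem c107013 : QOK q107013 := cut [q79322] ⟨c79322, trivial⟩ (nd (nat_lit 233) (nat_lit 0) (cs (lf (nat_lit 10) (nat_lit 229)) (rf (nat_lit 0)))) q107013 (by decide +kernel)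
def q107016 : Q := Q.p (nat_lit 0x600000c000000000000000000000000000000000000000000000000000000000) (nat_lit 0x18000013000000000000000000000000000000000000000000000000000000000) (nat_lit 3)
theorem c107016 : QOK q107016 := cut [q96759] ⟨c96759, trivial⟩ (nd (nat_lit 229) (nat_lit 0) (cs (lf (nat_lit 0) (nat_lit 228)) (rf (nat_lit 0)))) q107016 (by decide +kernel)
def q107020 : Q := Q.p (nat_lit 0xe00002000008000000000000000000000000000000000000000000000000000000000) (nat_lit 0x10000140000dc000300000dc00000000000000000000000000000000000000000000000000000000000000) (nat_lit 6)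
theorem c107020 : QOK q107020 := cut [q104121, q15828] ⟨c104121, c15828, trivial⟩ (nd (nat_lit 276) (nat_lit 0) (cs (rf (nat_lit 0)) (nd (nat_lit 295) (nat_lit 0) (cs (lf (nat_lit 11) (nat_lit 272)) (nd (nat_lit 250) (nat_lit 0) (cs (lf (nat_lit 22) (nat_lit 250)) (nd (nat_lit 296) (nat_lit 0) (cs (lf (nat_lit 6) (nat_lit 273)) (rf (nat_lit 1)))))))))) q107020 (by decide +kernel)
def q107056 : Q := Q.p (nat_lit 0x700000800002000008000000000000000000000000000000000000000000000000000000000) (nat_lit 0x20000080000800000700005c00074000040000000000000000000000000000000000000000000000000000) (nat_lit 8)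
theorem c107056 : QOK q107056 := cut [q2560] ⟨c2560, trivial⟩ (nd (nat_lit 232) (nat_lit 0) (cs (lf (nat_lit 35) (nat_lit 209)) (nd (nat_lit 319) (nat_lit 0) (cs (lf (nat_lit 34) (nat_lit 231)) (nd (nat_lit 252) (nat_lit 0) (cs (lf (nat_lit 47) (nat_lit 230)) (nd (nat_lit 250) (nat_lit 0) (cs (lf (nat_lit 13) (nat_lit 228)) (nd (nat_lit 233) (nat_lit 0) (cs (lf (nat_lit 6) (nat_lit 230)) (nd (nat_lit 274) (nat_lit 0) (cs (lf (nat_lit 42) (nat_lit 252)) (rf (nat_lit 0)))))))))))))) q107056 (by decide +kernel)
def q107070 : Q := Q.p (nat_lit 0x7800008000000000000000000000000000000000000000000000000000000000) (nat_lit 0xe700018000004000000000000000000000000000000000000000000000000000000000) (nat_lit 5)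
theorem c107070 : QOK q107070 := cut [q105857] ⟨c105857, trivial⟩ (nd (nat_lit 273) (nat_lit 0) (cs (lf (nat_lit 11) (nat_lit 250)) (nd (nat_lit 255) (nat_lit 0) (cs (lf (nat_lit 10) (nat_lit 251)) (rf (nat_lit 0)))))) q107070 (by decide +kernel)
def q107130 : Q := Q.p (nat_lit 0x700000c000000000000000000000000000000000000000000000000000000000) (nat_lit 0x7700018800000000000000000000000000000000000000000000000000000000000000) (nat_lit 5)
theorem c107130 : QOK q107130 := cut [q98738] ⟨c98738, trivial⟩ (nd (nat_lit 255) (nat_lit 0) (cs (lf (nat_lit 18) (nat_lit 230)) (nd (nat_lit 273) (nat_lit 0) (cs (lf (nat_lit 10) (nat_lit 251)) (nd (nat_lit 251) (nat_lit 0) (cs (lf (nat_lit 11) (nat_lit 250)) (rf (nat_lit 0)))))))) q107130 (by decide +kernel)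
def q107248 : Q := Q.p (nat_lit 0x200000e000004000000000000000000000000000000000000000000000000000) (nat_lit 0x18000700001c8000000000000000000000000000000000000000000000000000) (nat_lit 5)
theorem c107248 : QOK q107248 := cut [q7975] ⟨c7975, trivial⟩ (nd (nat_lit 232) (nat_lit 0) (cs (lf (nat_lit 22) (nat_lit 206)) (nd (nat_lit 211) (nat_lit 0) (cs (lf (nat_lit 16) (nat_lit 207)) (nd (nat_lit 233) (nat_lit 0) (cs (lf (nat_lit 17) (nat_lit 208)) (rf (nat_lit 0)))))))) q107248 (by decide +kernel)
def q107299 : Q := Q.p (nat_lit 0x6000008000020000000000000000000000000000000000000000000000) (nat_lit 0x10000000000000000000001c0000700001400000000000000000000000000000) (nat_lit 5)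
theorem c107299 : QOK q107299 := cut [q1749] ⟨c1749, trivial⟩ (nd (nat_lit 163) (nat_lit 0) (cs (lf (nat_lit 29) (nat_lit 163)) (rf (nat_lit 0)))) q107299 (by decide +kernel)
def q107326 : Q := Q.p (nat_lit 0x1e00002000000000000000000000000000000000000000000000000000000000000000) (nat_lit 0x380000600001d000000000000000000000000000000000000000000000000000000000000000) (nat_lit 5)
theorem c107326 : QOK q107326 := cut [q24566] ⟨c24566, trivial⟩ (nd (nat_lit 255) (nat_lit 0) (cs (lf (nat_lit 16) (nat_lit 251)) (nd (nat_lit 277) (nat_lit 0) (cs (lf (nat_lit 17) (nat_lit 252)) (rf (nat_lit 0)))))) q107326 (by decide +kernel)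
def q107369 : Q := Q.p (nat_lit 0x2000008000020000080000000000000000000000000000000000000000000000) (nat_lit 0x1000004000010000000000040000300000400000000000000000000000000000000000) (nat_lit 4)
theorem c107369 : QOK q107369 := cut [q91185] ⟨c91185, trivial⟩ (nd (nat_lit 164) (nat_lit 0) (cs (lf (nat_lit 46) (nat_lit 164)) (nd (nat_lit 165) (nat_lit 0) (cs (lf (nat_lit 47) (nat_lit 142)) (rf (nat_lit 0)))))) q107369 (by decide +kernel)
def q107453 : Q := Q.p (nat_lit 0x2000038000000000000000000000000000000000000000000000000000000000) (nat_lit 0x90000c40003f0000d00001400004000000000000000000000000000000000000) (nat_lit 9)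
theorem c107453 : QOK q107453 := cut [q85107] ⟨c85107, trivial⟩ (nd (nat_lit 234) (nat_lit 0) (cs (lf (nat_lit 11) (nat_lit 230)) (nd (nat_lit 212) (nat_lit 0) (cs (lf (nat_lit 17) (nat_lit 209)) (nd (nat_lit 211) (nat_lit 0) (cs (lf (nat_lit 12) (nat_lit 208)) (nd (nat_lit 209) (nat_lit 0) (cs (lf (nat_lit 23) (nat_lit 208)) (nd (nat_lit 210) (nat_lit 0) (cs (lf (nat_lit 18) (nat_lit 209)) (nd (nat_lit 166) (nat_lit 0) (cs (lf (nat_lit 37) (nat_lit 165)) (nd (nat_lit 190) (nat_lit 0) (cs (lf (nat_lit 17) (nat_lit 187)) (rf (nat_lit 0)))))))))))))))) q107453 (by decide +kernel)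
def q107511 : Q := Q.p (nat_lit 0x300001c000000000000000000000000000000000000000000000000000000000) (nat_lit 0x700001c0000760001c000062000180000000000000000000000000000000000000000000000000000) (nat_lit 10)
theorem c107511 : QOK q107511 := cut [q107212] ⟨c107212, trivial⟩ (nd (nat_lit 233) (nat_lit 0) (cs (lf (nat_lit 6) (nat_lit 230)) (nd (nat_lit 255) (nat_lit 0) (cs (lf (nat_lit 5) (nat_lit 230)) (nd (nat_lit 254) (nat_lit 0) (cs (lf (nat_lit 0) (nat_lit 229)) (nd (nat_lit 277) (nat_lit 0) (cs (lf (nat_lit 5) (nat_lit 252)) (nd (nat_lit 299) (nat_lit 0) (cs (lf (nat_lit 42) (nat_lit 232)) (nd (nat_lit 273) (nat_lit 0) (cs (lf (nat_lit 10) (nat_lit 251)) (nd (nat_lit 300) (nat_lit 0) (cs (lf (nat_lit 29) (nat_lit 233)) (rf (nat_lit 0)))))))))))))))) q107511 (by decide +kernel)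
def q107518 : Q := Q.p (nat_lit 0x80000f000030000000000000000000000000000000000000000000000000000000000) (nat_lit 0x800006000000000000000040000100000000000000000000000000000000000000000000000) (nat_lit 3)
theorem c107518 : QOK q107518 := cut [q80670] ⟨c80670, trivial⟩ (nd (nat_lit 277) (nat_lit 0) (cs (lf (nat_lit 5) (nat_lit 252)) (rf (nat_lit 0)))) q107518 (by decide +kernel)
def q107534 : Q := Q.p (nat_lit 0x400001800004000010000000000000000000000000000000000000000000000000000000000) (nat_lit 0x200003800002600000000000000000000000000000000000000000000000000000000000000000000) (nat_lit 4)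
theorem c107534 : QOK q107534 := cut [q13456] ⟨c13456, trivial⟩ (nd (nat_lit 299) (nat_lit 0) (cs (lf (nat_lit 29) (nat_lit 232)) (nd (nat_lit 274) (nat_lit 0) (cs (rf (nat_lit 0)) (lf (nat_lit 0) (nat_lit 273)))))) q107534 (by decide +kernel)
def q107809 : Q := Q.p (nat_lit 0x60000280000f000010000000000000000000000000000000000000000000000000000000000) (nat_lit 0x200001800000600000000000000000000000000000000000000000000000000000000000000000000) (nat_lit 3)
theorem c107809 : QOK q107809 := cut [q84469] ⟨c84469, trivial⟩ (nd (nat_lit 274) (nat_lit 0) (cs (lf (nat_lit 11) (nat_lit 251)) (rf (nat_lit 0)))) q107809 (by decide +kernel)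
def q107833 : Q := Q.p (nat_lit 0x80000200000c000000000000000000000000000000000000000000000000000000000) (nat_lit 0x600007c000078000760001c000013000010000000000000000000000000000000000000000000000000000) (nat_lit 12)
theorem c107833 : QOK q107833 := cut [q16001] ⟨c16001, trivial⟩ (nd (nat_lit 297) (nat_lit 0) (cs (lf (nat_lit 47) (nat_lit 208)) (nd (nat_lit 296) (nat_lit 0) (cs (lf (nat_lit 41) (nat_lit 230)) (nd (nat_lit 320) (nat_lit 0) (cs (lf (nat_lit 28) (nat_lit 231)) (nd (nat_lit 319) (nat_lit 0) (cs (lf (nat_lit 29) (nat_lit 253)) (nd (nat_lit 254) (nat_lit 0) (cs (lf (nat_lit 35) (nat_lit 231)) (nd (nat_lit 321) (nat_lit 0) (cs (lf (nat_lit 18) (nat_lit 296)) (nd (nat_lit 228) (nat_lit 0) (cs (lf (nat_lit 1) (nat_lit 228)) (nd (nat_lit 255) (nat_lit 0) (cs (lf (nat_lit 18) (nat_lit 230)) (nd (nat_lit 276) (nat_lit 0) (cs (lf (nat_lit 30) (nat_lit 253)) (nd (nat_lit 274) (nat_lit 0) (cs (rf (nat_lit 0)) (lf (nat_lit 12) (nat_lit 251)))))))))))))))))))))) q107833 (by decide +kernel)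
def q107840 : Q := Q.p (nat_lit 0x700000c00004000000000000000000000000000000000000000000000000000000000000000) (nat_lit 0x80000600001880007000000000000000000000000000000000000000000000000000000000000000000000) (nat_lit 5)
theorem c107840 : QOK q107840 := cut [q107837] ⟨c107837, trivial⟩ (nd (nat_lit 299) (nat_lit 0) (cs (lf (nat_lit 18) (nat_lit 274)) (nd (nat_lit 277) (nat_lit 0) (cs (lf (nat_lit 17) (nat_lit 274)) (nd (nat_lit 276) (nat_lit 0) (cs (lf (nat_lit 12) (nat_lit 273)) (rf (nat_lit 0)))))))) q107840 (by decide +kernel)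
def q107872 : Q := Q.p (nat_lit 0x20000080000200000c000000000000000000000000000000000000000000000000000000000) (nat_lit 0x100000c0000100000000001000000000000000000000000000000000000000000000000000000000000000) (nat_lit 3)
theorem c107872 : QOK q107872 := cut [q102032] ⟨c102032, trivial⟩ (nd (nat_lit 318) (nat_lit 0) (cs (lf (nat_lit 40) (nat_lit 230)) (rf (nat_lit 0)))) q107872 (by decide +kernel)
def q107993 : Q := Q.p (nat_lit 0xc000038000040000000000000000000000000000000000000000000000) (nat_lit 0x1000001800046000038000080000200000000000000000000000000000000000) (nat_lit 6)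
theorem c107993 : QOK q107993 := cut [q1158] ⟨c1158, trivial⟩ (nd (nat_lit 206) (nat_lit 0) (cs (lf (nat_lit 0) (nat_lit 205)) (nd (nat_lit 227) (nat_lit 0) (cs (lf (nat_lit 10) (nat_lit 205)) (nd (nat_lit 184) (nat_lit 0) (cs (lf (nat_lit 23) (nat_lit 183)) (nd (nat_lit 185) (nat_lit 0) (cs (lf (nat_lit 18) (nat_lit 184)) (rf (nat_lit 0)))))))))) q107993 (by decide +kernel)
def q108135 : Q := Q.p (nat_lit 0x800006800008000040000000000000000000000000000000000000000000000000000) (nat_lit 0x200000000001400030000000000000000000000000000000000000000000000000000000000) (nat_lit 3)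
theorem c108135 : QOK q108135 := cut [q97321] ⟨c97321, trivial⟩ (nd (nat_lit 232) (nat_lit 0) (cs (lf (nat_lit 30) (nat_lit 209)) (rf (nat_lit 0)))) q108135 (by decide +kernel)
def q108152 : Q := Q.p (nat_lit 0xc00007000008000000000000000000000000000000000000000000000000000000000) (nat_lit 0x200000000000800070000060000180000000000000000000000000000000000000000000000) (nat_lit 5)
theorem c108152 : QOK q108152 := cut [q80089] ⟨c80089, trivial⟩ (nd (nat_lit 209) (nat_lit 0) (cs (lf (nat_lit 36) (nat_lit 186)) (nd (nat_lit 210) (nat_lit 0) (cs (lf (nat_lit 35) (nat_lit 187)) (nd (nat_lit 232) (nat_lit 0) (cs (lf (nat_lit 30) (nat_lit 209)) (rf (nat_lit 0)))))))) q108152 (by decide +kernel)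
def q108160 : Q := Q.p (nat_lit 0xc00007000008000000000000000000000000000000000000000000000000000000000) (nat_lit 0x800002000070000180000760001c0000700001000000000000000000000000000000000000000000) (nat_lit 10)
theorem c108160 : QOK q108160 := cut [q13821] ⟨c13821, trivial⟩ (nd (nat_lit 255) (nat_lit 0) (cs (lf (nat_lit 6) (nat_lit 252)) (nd (nat_lit 277) (nat_lit 0) (cs (lf (nat_lit 5) (nat_lit 252)) (nd (nat_lit 230) (nat_lit 0) (cs (lf (nat_lit 23) (nat_lit 229)) (nd (nat_lit 297) (nat_lit 0) (cs (lf (nat_lit 42) (nat_lit 230)) (nd (nat_lit 210) (nat_lit 0) (cs (lf (nat_lit 34) (nat_lit 209)) (nd (nat_lit 233) (nat_lit 0) (cs (lf (nat_lit 17) (nat_lit 230)) (nd (nat_lit 211) (nat_lit 0) (cs (lf (nat_lit 47) (nat_lit 188)) (nd (nat_lit 189) (nat_lit 0) (cs (rf (nat_lit 0)) (lf (nat_lit 41) (nat_lit 188)))))))))))))))))) q108160 (by decide +kernel)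
def q108173 : Q := Q.p (nat_lit 0x200000c00002000008000000000000000000000000000000000000000000000000000000000) (nat_lit 0x300000c0000100000000001000004000000000000000000000000000000000000000000000000000000000) (nat_lit 4)
theorem c108173 : QOK q108173 := cut [q108171] ⟨c108171, trivial⟩ (nd (nat_lit 318) (nat_lit 0) (cs (lf (nat_lit 40) (nat_lit 230)) (nd (nat_lit 319) (nat_lit 0) (cs (lf (nat_lit 41) (nat_lit 252)) (rf (nat_lit 0)))))) q108173 (by decide +kernel)
def q108186 : Q := Q.p (nat_lit 0x3c00006000000000000000000000000000000000000000000000000000000000000000) (nat_lit 0x380000c000000000000000000000000000000000000000000000000000000000000000000000) (nat_lit 3)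
theorem c108186 : QOK q108186 := cut [q81940] ⟨c81940, trivial⟩ (nd (nat_lit 300) (nat_lit 0) (cs (lf (nat_lit 4) (nat_lit 274)) (rf (nat_lit 0)))) q108186 (by decide +kernel)
def q108259 : Q := Q.p (nat_lit 0x200000800007800000000000000000000000000000000000000000000000000000000000000) (nat_lit 0x3000000000030000040000000000000000000000000000000000000000000000000000) (nat_lit 3)
theorem c108259 : QOK q108259 := cut [q99425] ⟨c99425, trivial⟩ (nd (nat_lit 276) (nat_lit 0) (cs (lf (nat_lit 5) (nat_lit 251)) (rf (nat_lit 0)))) q108259 (by decide +kernel)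
def q108262 : Q := Q.p (nat_lit 0x1a00007000000000000000000000000000000000000000000000000000000000000000) (nat_lit 0x4000380000e0000000000000000000000000000000000000000000000000000000000) (nat_lit 4)
theorem c108262 : QOK q108262 := cut [q108261] ⟨c108261, trivial⟩ (nd (nat_lit 255) (nat_lit 0) (cs (lf (nat_lit 10) (nat_lit 251)) (rf (nat_lit 0)))) q108262 (by decide +kernel)
def q108279 : Q := Q.p (nat_lit 0x80000200000800003000000000000000000000000000000000000000000000000000000000000000) (nat_lit 0x30000040000000003000004c00010000000000000000000000000000000000000000000000000000000000) (nat_lit 5)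
theorem c108279 : QOK q108279 := cut [q79170] ⟨c79170, trivial⟩ (nd (nat_lit 318) (nat_lit 0) (cs (lf (nat_lit 41) (nat_lit 252)) (nd (nat_lit 254) (nat_lit 0) (cs (lf (nat_lit 35) (nat_lit 231)) (nd (nat_lit 276) (nat_lit 0) (cs (rf (nat_lit 0)) (lf (nat_lit 30) (nat_lit 253)))))))) q108279 (by decide +kernel)
def q108282 : Q := Q.p (nat_lit 0x200001800007000000000000000000000000000000000000000000000000000000000000000) (nat_lit 0xc00030000040000000000000000000000000000000000000000000000000000) (nat_lit 3)
theorem c108282 : QOK q108282 := cut [q99425] ⟨c99425, trivial⟩ (nd (nat_lit 251) (nat_lit 0) (cs (lf (nat_lit 0) (nat_lit 250)) (rf (nat_lit 0)))) q108282 (by decide +kernel)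
def q108286 : Q := Q.p (nat_lit 0x380000800002000000000000000000000000000000000000000000000000000000000000000) (nat_lit 0x4000050000370000c00003700000000000000000000000000000000000000000000000000000000000000000000) (nat_lit 6)
theorem c108286 : QOK q108286 := cut [q47931, q45028] ⟨c47931, c45028, trivial⟩ (nd (nat_lit 298) (nat_lit 0) (cs (rf (nat_lit 0)) (nd (nat_lit 317) (nat_lit 0) (cs (lf (nat_lit 11) (nat_lit 294)) (nd (nat_lit 272) (nat_lit 0) (cs (lf (nat_lit 22) (nat_lit 272)) (nd (nat_lit 318) (nat_lit 0) (cs (lf (nat_lit 6) (nat_lit 295)) (rf (nat_lit 1)))))))))) q108286 (by decide +kernel)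
def q108291 : Q := Q.p (nat_lit 0x380000900002000000000000000000000000000000000000000000000000000000000000000) (nat_lit 0x10000778001c60000480000000000000000000000000000000000000000000000000000000000000000000) (nat_lit 8)
theorem c108291 : QOK q108291 := cut [q99163] ⟨c99163, trivial⟩ (nd (nat_lit 294) (nat_lit 0) (cs (lf (nat_lit 23) (nat_lit 271)) (nd (nat_lit 274) (nat_lit 0) (cs (lf (nat_lit 12) (nat_lit 271)) (nd (nat_lit 318) (nat_lit 0) (cs (lf (nat_lit 30) (nat_lit 252)) (nd (nat_lit 316) (nat_lit 0) (cs (lf (nat_lit 11) (nat_lit 293)) (nd (nat_lit 298) (nat_lit 0) (cs (lf (nat_lit 10) (nat_lit 294)) (rf (nat_lit 0)))))))))))) q108291 (by decide +kernel)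
def q108293 : Q := Q.p (nat_lit 0x380000900002000000000000000000000000000000000000000000000000000000000000000) (nat_lit 0x400000680004000000000000000000000000000000000000000000000000000000000000000) (nat_lit 3)
theorem c108293 : QOK q108293 := cut [q108292] ⟨c108292, trivial⟩ (nd (nat_lit 273) (nat_lit 0) (cs (lf (nat_lit 18) (nat_lit 272)) (rf (nat_lit 0)))) q108293 (by decide +kernel)
def q108302 : Q := Q.p (nat_lit 0x300001800000000000000000000000000000000000000000000000000000000000000000000) (nat_lit 0x4c0006000000000000000000000000000000000000000000000000000000000000000000000) (nat_lit 3)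
theorem c108302 : QOK q108302 := cut [q108301] ⟨c108301, trivial⟩ (nd (nat_lit 277) (nat_lit 0) (cs (lf (nat_lit 6) (nat_lit 274)) (rf (nat_lit 0)))) q108302 (by decide +kernel)
def q108306 : Q := Q.p (nat_lit 0x300003c00000000000000000000000000000000000000000000000000000000000000000000) (nat_lit 0x1c00000200001c00000000000000000000000000000000000000000000000000000000000000) (nat_lit 4)
theorem c108306 : QOK q108306 := cut [q13423] ⟨c13423, trivial⟩ (nd (nat_lit 299) (nat_lit 0) (cs (lf (nat_lit 5) (nat_lit 274)) (nd (nat_lit 273) (nat_lit 0) (cs (rf (nat_lit 0)) (lf (nat_lit 19) (nat_lit 273)))))) q108306 (by decide +kernel)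
def q108318 : Q := Q.p (nat_lit 0xc0000200000800002000000000000000000000000000000000000000000000000000000000000000) (nat_lit 0x10000000000100000c000010000000000000000000000000000000000000000000000000000) (nat_lit 3)
theorem c108318 : QOK q108318 := cut [q99233] ⟨c99233, trivial⟩ (nd (nat_lit 230) (nat_lit 0) (cs (lf (nat_lit 46) (nat_lit 230)) (rf (nat_lit 0)))) q108318 (by decide +kernel)
def q108321 : Q := Q.p (nat_lit 0x80000200000800002000000000000000000000000000000000000000000000000000000000000000) (nat_lit 0x10000040000100000000004000018000040000000000000000000000000000000000000000000000000000) (nat_lit 4)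
theorem c108321 : QOK q108321 := cut [q15793] ⟨c15793, trivial⟩ (nd (nat_lit 232) (nat_lit 0) (cs (lf (nat_lit 34) (nat_lit 231)) (nd (nat_lit 231) (nat_lit 0) (cs (lf (nat_lit 35) (nat_lit 209)) (rf (nat_lit 0)))))) q108321 (by decide +kernel)
def q108324 : Q := Q.p (nat_lit 0x80000200000800002000000000000000000000000000000000000000000000000000000000000000) (nat_lit 0x500001c000050000000000000000000000000000000000000000000000000000) (nat_lit 4)
theorem c108324 : QOK q108324 := cut [q99297] ⟨c99297, trivial⟩ (nd (nat_lit 232) (nat_lit 0) (cs (lf (nat_lit 34) (nat_lit 231)) (nd (nat_lit 231) (nat_lit 0) (cs (lf (nat_lit 35) (nat_lit 209)) (rf (nat_lit 0)))))) q108324 (by decide +kernel)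
def q108332 : Q := Q.p (nat_lit 0x80000200000800002000000000000000000000000000000000000000000000000000000000000000) (nat_lit 0x4000010000040000000000100000c000010000000000000000000000000000000000000000000000000000) (nat_lit 4)
theorem c108332 : QOK q108332 := cut [q99297] ⟨c99297, trivial⟩ (nd (nat_lit 320) (nat_lit 0) (cs (lf (nat_lit 29) (nat_lit 253)) (nd (nat_lit 231) (nat_lit 0) (cs (lf (nat_lit 28) (nat_lit 231)) (rf (nat_lit 0)))))) q108332 (by decide +kernel)
def q108361 : Q := Q.p (nat_lit 0x1e00002000000000000000000000000000000000000000000000000000000000000000) (nat_lit 0x39c0006000001000000000000000000000000000000000000000000000000000000000000000) (nat_lit 5)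
theorem c108361 : QOK q108361 := cut [q24566] ⟨c24566, trivial⟩ (nd (nat_lit 295) (nat_lit 0) (cs (lf (nat_lit 11) (nat_lit 272)) (nd (nat_lit 277) (nat_lit 0) (cs (lf (nat_lit 10) (nat_lit 273)) (rf (nat_lit 0)))))) q108361 (by decide +kernel)
def q108366 : Q := Q.p (nat_lit 0xc00007800000000000000000000000000000000000000000000000000000000000000) (nat_lit 0x18000070000000000000000000000000000000000000000000000000000000000) (nat_lit 3)
theorem c108366 : QOK q108366 := cut [q81052] ⟨c81052, trivial⟩ (nd (nat_lit 255) (nat_lit 0) (cs (lf (nat_lit 6) (nat_lit 252)) (rf (nat_lit 0)))) q108366 (by decide +kernel)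
def q108383 : Q := Q.p (nat_lit 0x100000c00003000004000000000000000000000000000000000000000000000000000000000) (nat_lit 0x300000c0000200000000000000000000000000000000000000000000000000000000000000000000000000) (nat_lit 3)
theorem c108383 : QOK q108383 := cut [q10904] ⟨c10904, trivial⟩ (nd (nat_lit 318) (nat_lit 0) (cs (rf (nat_lit 0)) (lf (nat_lit 30) (nat_lit 252)))) q108383 (by decide +kernel)
def q108395 : Q := Q.p (nat_lit 0xc00007800000000000000000000000000000000000000000000000000000000000000) (nat_lit 0x380000600000000000000000000000000000000000000000000000000000000000000) (nat_lit 3)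
theorem c108395 : QOK q108395 := cut [q14355] ⟨c14355, trivial⟩ (nd (nat_lit 272) (nat_lit 0) (cs (rf (nat_lit 0)) (lf (nat_lit 13) (nat_lit 250)))) q108395 (by decide +kernel)
def q108410 : Q := Q.p (nat_lit 0xe00007800000000000000000000000000000000000000000000000000000000000000) (nat_lit 0x80000200000000000000037000058000160000000000000000000000000000000000000000000000) (nat_lit 7)
theorem c108410 : QOK q108410 := cut [q90801] ⟨c90801, trivial⟩ (nd (nat_lit 232) (nat_lit 0) (cs (lf (nat_lit 17) (nat_lit 229)) (nd (nat_lit 188) (nat_lit 0) (cs (lf (nat_lit 37) (nat_lit 187)) (nd (nat_lit 297) (nat_lit 0) (cs (lf (nat_lit 30) (nat_lit 231)) (nd (nat_lit 208) (nat_lit 0) (cs (lf (nat_lit 25) (nat_lit 208)) (nd (nat_lit 229) (nat_lit 0) (cs (lf (nat_lit 23) (nat_lit 228)) (rf (nat_lit 0)))))))))))) q108410 (by decide +kernel)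
def q108446 : Q := Q.p (nat_lit 0x80000600001800000000000000000000000000000000000000000000000000000000000000) (nat_lit 0x1800006000010000000000000000300000c000030000000000000000000000000000000000000000000000) (nat_lit 6)
theorem c108446 : QOK q108446 := cut [q12654] ⟨c12654, trivial⟩ (nd (nat_lit 317) (nat_lit 0) (cs (lf (nat_lit 30) (nat_lit 251)) (nd (nat_lit 318) (nat_lit 0) (cs (lf (nat_lit 29) (nat_lit 251)) (nd (nat_lit 229) (nat_lit 0) (cs (lf (nat_lit 43) (nat_lit 229)) (nd (nat_lit 207) (nat_lit 0) (cs (lf (nat_lit 24) (nat_lit 185)) (rf (nat_lit 0)))))))))) q108446 (by decide +kernel)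
def q108469 : Q := Q.p (nat_lit 0x100000680000600001800000000000000000000000000000000000000000000000000000000000000) (nat_lit 0x240000100000000000000002000008000000000000000000000000000000000000000000000000000) (nat_lit 3)
theorem c108469 : QOK q108469 := cut [q82666] ⟨c82666, trivial⟩ (nd (nat_lit 296) (nat_lit 0) (cs (lf (nat_lit 5) (nat_lit 295)) (rf (nat_lit 0)))) q108469 (by decide +kernel)
def q108484 : Q := Q.p (nat_lit 0x1e00000800000000000000000000000000000000000000000000000000000000000000) (nat_lit 0x1c00002000001000000000000000000000000000000000000000000000000000000000000000) (nat_lit 3)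
theorem c108484 : QOK q108484 := cut [q12684] ⟨c12684, trivial⟩ (nd (nat_lit 277) (nat_lit 0) (cs (rf (nat_lit 0)) (lf (nat_lit 22) (nat_lit 251)))) q108484 (by decide +kernel)
def q108493 : Q := Q.p (nat_lit 0xc0000f000000000000000000000000000000000000000000000000000000000000000) (nat_lit 0x80000200000000000800076000050000100000000000000000000000000000000000000000000000) (nat_lit 6)
theorem c108493 : QOK q108493 := cut [q108309] ⟨c108309, trivial⟩ (nd (nat_lit 233) (nat_lit 0) (cs (lf (nat_lit 17) (nat_lit 230)) (nd (nat_lit 232) (nat_lit 0) (cs (lf (nat_lit 12) (nat_lit 229)) (nd (nat_lit 188) (nat_lit 0) (cs (lf (nat_lit 37) (nat_lit 187)) (nd (nat_lit 297) (nat_lit 0) (cs (lf (nat_lit 30) (nat_lit 231)) (rf (nat_lit 0)))))))))) q108493 (by decide +kernel)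
def q108498 : Q := Q.p (nat_lit 0x3c0000c000000000000000000000000000000000000000000000000000000000000000) (nat_lit 0x200001800000000000000010000040000000000000000000000000000000000000000000000000000) (nat_lit 3)
theorem c108498 : QOK q108498 := cut [q101725] ⟨c101725, trivial⟩ (nd (nat_lit 299) (nat_lit 0) (cs (lf (nat_lit 5) (nat_lit 274)) (rf (nat_lit 0)))) q108498 (by decide +kernel)
def q108505 : Q := Q.p (nat_lit 0x10000080000300000c000000000000000000000000000000000000000000000000000000000000000) (nat_lit 0x400000000000000060000180000600000000000000000000000000000000000000000000000) (nat_lit 4)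
theorem c108505 : QOK q108505 := cut [q66783] ⟨c66783, trivial⟩ (nd (nat_lit 233) (nat_lit 0) (cs (lf (nat_lit 40) (nat_lit 232)) (nd (nat_lit 211) (nat_lit 0) (cs (rf (nat_lit 0)) (lf (nat_lit 36) (nat_lit 188)))))) q108505 (by decide +kernel)
def q108526 : Q := Q.p (nat_lit 0xe00001800006000000000000000000000000000000000000000000000000000000000000000) (nat_lit 0xc0000700000180000000000000000000000000000000000000000000000000000000000000000000000000) (nat_lit 4)
theorem c108526 : QOK q108526 := cut [q108525] ⟨c108525, trivial⟩ (nd (nat_lit 320) (nat_lit 0) (cs (lf (nat_lit 42) (nat_lit 253)) (rf (nat_lit 0)))) q108526 (by decide +kernel)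
def q108596 : Q := Q.p (nat_lit 0x80000e00002000000000000000000000000000000000000000000000000000000000000000) (nat_lit 0x40000120000c40003000001c00004000010000000000000000000000000000000000000000000000000000) (nat_lit 7)
theorem c108596 : QOK q108596 := cut [q81450] ⟨c81450, trivial⟩ (nd (nat_lit 276) (nat_lit 0) (cs (lf (nat_lit 11) (nat_lit 272)) (nd (nat_lit 251) (nat_lit 0) (cs (lf (nat_lit 23) (nat_lit 250)) (nd (nat_lit 298) (nat_lit 0) (cs (lf (nat_lit 5) (nat_lit 273)) (nd (nat_lit 320) (nat_lit 0) (cs (lf (nat_lit 42) (nat_lit 253)) (nd (nat_lit 252) (nat_lit 0) (cs (lf (nat_lit 18) (nat_lit 251)) (rf (nat_lit 0)))))))))))) q108596 (by decide +kernel)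
def q108597 : Q := Q.p (nat_lit 0x40000580001800002000000000000000000000000000000000000000000000000000000000000000) (nat_lit 0x40000380000200000000000000000000000000000000000000000000000000000000000000000000000000) (nat_lit 3)
theorem c108597 : QOK q108597 := cut [q23262] ⟨c23262, trivial⟩ (nd (nat_lit 320) (nat_lit 0) (cs (lf (nat_lit 42) (nat_lit 253)) (rf (nat_lit 0)))) q108597 (by decide +kernel)
def q108605 : Q := Q.p (nat_lit 0x20000080000e00000800000000000000000000000000000000000000000000000000000000000000) (nat_lit 0x1600005000000000000000000000000000000000000000000000000000000000) (nat_lit 3)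
theorem c108605 : QOK q108605 := cut [q14481] ⟨c14481, trivial⟩ (nd (nat_lit 252) (nat_lit 0) (cs (rf (nat_lit 0)) (lf (nat_lit 35) (nat_lit 229)))) q108605 (by decide +kernel)
def q108641 : Q := Q.p (nat_lit 0x180001e00000000000000000000000000000000000000000000000000000000000000000000) (nat_lit 0x40000000000000000c00002000008000000000000000000000000000000000000000000000000000) (nat_lit 3)
theorem c108641 : QOK q108641 := cut [q22720] ⟨c22720, trivial⟩ (nd (nat_lit 251) (nat_lit 0) (cs (lf (nat_lit 23) (nat_lit 250)) (rf (nat_lit 0)))) q108641 (by decide +kernel)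
def q108648 : Q := Q.p (nat_lit 0x100000400001800006000000000000000000000000000000000000000000000000000000000000000) (nat_lit 0xa00002800002000000000000000300000c0000300000000000000000000000000000000000000000000000) (nat_lit 6)
theorem c108648 : QOK q108648 := cut [q106222] ⟨c106222, trivial⟩ (nd (nat_lit 321) (nat_lit 0) (cs (lf (nat_lit 29) (nat_lit 254)) (nd (nat_lit 319) (nat_lit 0) (cs (lf (nat_lit 41) (nat_lit 253)) (nd (nat_lit 232) (nat_lit 0) (cs (lf (nat_lit 31) (nat_lit 231)) (rf (nat_lit 0)))))))) q108648 (by decide +kernel)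
def q108662 : Q := Q.p (nat_lit 0x80000600001000000000000000000000000000000000000000000000000000000000000000) (nat_lit 0x8000020000000000000000800004000010000000000000000000000000000000000000000000000000000) (nat_lit 3)
theorem c108662 : QOK q108662 := cut [q84040] ⟨c84040, trivial⟩ (nd (nat_lit 317) (nat_lit 0) (cs (lf (nat_lit 30) (nat_lit 251)) (rf (nat_lit 0)))) q108662 (by decide +kernel)
def q108727 : Q := Q.p (nat_lit 0x1c00007000000000000000000000000000000000000000000000000000000000000000) (nat_lit 0x10000040000000001800006e0000b00002c0000000000000000000000000000000000000000000000) (nat_lit 8)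
theorem c108727 : QOK q108727 := cut [q98636] ⟨c98636, trivial⟩ (nd (nat_lit 255) (nat_lit 0) (cs (lf (nat_lit 6) (nat_lit 252)) (nd (nat_lit 233) (nat_lit 0) (cs (lf (nat_lit 17) (nat_lit 230)) (nd (nat_lit 189) (nat_lit 0) (cs (lf (nat_lit 37) (nat_lit 188)) (nd (nat_lit 298) (nat_lit 0) (cs (lf (nat_lit 30) (nat_lit 232)) (nd (nat_lit 209) (nat_lit 0) (cs (lf (nat_lit 25) (nat_lit 209)) (nd (nat_lit 230) (nat_lit 0) (cs (lf (nat_lit 23) (nat_lit 229)) (rf (nat_lit 0)))))))))))))) q108727 (by decide +kernel)
def q108736 : Q := Q.p (nat_lit 0x1c00007000000000000000000000000000000000000000000000000000000000000000) (nat_lit 0x80000200001800006000018000010000000000000000000000000000000000000000000000000000000000) (nat_lit 5)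
theorem c108736 : QOK q108736 := cut [q108735] ⟨c108735, trivial⟩ (nd (nat_lit 277) (nat_lit 0) (cs (lf (nat_lit 18) (nat_lit 252)) (rf (nat_lit 0)))) q108736 (by decide +kernel)
def q108769 : Q := Q.p (nat_lit 0x800003800001000000000000000000000000000000000000000000000000000000000) (nat_lit 0x60001c000072000000000000000000000000000000000000000000000000000000000) (nat_lit 5)
theorem c108769 : QOK q108769 := cut [q102935] ⟨c102935, trivial⟩ (nd (nat_lit 254) (nat_lit 0) (cs (lf (nat_lit 22) (nat_lit 228)) (nd (nat_lit 233) (nat_lit 0) (cs (lf (nat_lit 16) (nat_lit 229)) (nd (nat_lit 255) (nat_lit 0) (cs (lf (nat_lit 17) (nat_lit 230)) (rf (nat_lit 0)))))))) q108769 (by decide +kernel)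
def q108809 : Q := Q.p (nat_lit 0xc00007800008000000000000000000000000000000000000000000000000000000000) (nat_lit 0x400001800003000000000370000d0000140000000000000000000000000000000000000000000000) (nat_lit 8)
theorem c108809 : QOK q108809 := cut [q84227] ⟨c84227, trivial⟩ (nd (nat_lit 273) (nat_lit 0) (cs (lf (nat_lit 12) (nat_lit 250)) (nd (nat_lit 232) (nat_lit 0) (cs (lf (nat_lit 17) (nat_lit 229)) (nd (nat_lit 210) (nat_lit 0) (cs (lf (nat_lit 36) (nat_lit 187)) (nd (nat_lit 229) (nat_lit 0) (cs (lf (nat_lit 23) (nat_lit 228)) (nd (nat_lit 296) (nat_lit 0) (cs (lf (nat_lit 30) (nat_lit 230)) (nd (nat_lit 230) (nat_lit 0) (cs (lf (nat_lit 17) (nat_lit 207)) (rf (nat_lit 0)))))))))))))) q108809 (by decide +kernel)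
def q108815 : Q := Q.p (nat_lit 0xe00007800008000000000000000000000000000000000000000000000000000000000) (nat_lit 0x800000000000000770001f00001c0000000000000000000000000000000000000000000000) (nat_lit 8)
theorem c108815 : QOK q108815 := cut [q85509] ⟨c85509, trivial⟩ (nd (nat_lit 228) (nat_lit 0) (cs (lf (nat_lit 22) (nat_lit 228)) (nd (nat_lit 233) (nat_lit 0) (cs (lf (nat_lit 16) (nat_lit 229)) (nd (nat_lit 209) (nat_lit 0) (cs (lf (nat_lit 36) (nat_lit 186)) (nd (nat_lit 210) (nat_lit 0) (cs (lf (nat_lit 35) (nat_lit 187)) (nd (nat_lit 208) (nat_lit 0) (cs (lf (nat_lit 47) (nat_lit 186)) (nd (nat_lit 230) (nat_lit 0) (cs (lf (nat_lit 41) (nat_lit 207)) (rf (nat_lit 0)))))))))))))) q108815 (by decide +kernel)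
def q108916 : Q := Q.p (nat_lit 0x1a00007000000000000000000000000000000000000000000000000000000000000000) (nat_lit 0x4000380000e0000000000000000000000000000000000000000000000000000000000) (nat_lit 4)
theorem c108916 : QOK q108916 := cut [q80860] ⟨c80860, trivial⟩ (nd (nat_lit 255) (nat_lit 0) (cs (lf (nat_lit 13) (nat_lit 251)) (nd (nat_lit 256) (nat_lit 0) (cs (lf (nat_lit 6) (nat_lit 253)) (rf (nat_lit 0)))))) q108916 (by decide +kernel)
def q108939 : Q := Q.p (nat_lit 0x200001800016000000000000000000000000000000000000000000000000000000000) (nat_lit 0x6000018000040000000000800000c000010000000000000000000000000000000000000000000000) (nat_lit 5)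
theorem c108939 : QOK q108939 := cut [q90195] ⟨c90195, trivial⟩ (nd (nat_lit 295) (nat_lit 0) (cs (lf (nat_lit 30) (nat_lit 229)) (nd (nat_lit 296) (nat_lit 0) (cs (lf (nat_lit 29) (nat_lit 229)) (nd (nat_lit 207) (nat_lit 0) (cs (lf (nat_lit 28) (nat_lit 207)) (rf (nat_lit 0)))))))) q108939 (by decide +kernel)
def q109017 : Q := Q.p (nat_lit 0x20000080000200000e000000000000000000000000000000000000000000000000000000000) (nat_lit 0x140001d0000700001dc000700001cc000000000000000000000000000000000000000000000000000) (nat_lit 12)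
theorem c109017 : QOK q109017 := cut [q105211] ⟨c105211, trivial⟩ (nd (nat_lit 232) (nat_lit 0) (cs (lf (nat_lit 35) (nat_lit 209)) (nd (nat_lit 296) (nat_lit 0) (cs (lf (nat_lit 41) (nat_lit 230)) (nd (nat_lit 206) (nat_lit 0) (cs (lf (nat_lit 22) (nat_lit 206)) (nd (nat_lit 250) (nat_lit 0) (cs (lf (nat_lit 10) (nat_lit 228)) (nd (nat_lit 298) (nat_lit 0) (cs (lf (nat_lit 29) (nat_lit 231)) (nd (nat_lit 255) (nat_lit 0) (cs (lf (nat_lit 4) (nat_lit 229)) (nd (nat_lit 233) (nat_lit 0) (cs (lf (nat_lit 5) (nat_lit 230)) (nd (nat_lit 211) (nat_lit 0) (cs (lf (nat_lit 17) (nat_lit 208)) (nd (nat_lit 234) (nat_lit 0) (cs (lf (nat_lit 11) (nat_lit 230)) (rf (nat_lit 0)))))))))))))))))))) q109017 (by decide +kernel)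
def q109035 : Q := Q.p (nat_lit 0x1e000000000000000000000000000000000000000000000000000000000) (nat_lit 0xe0000100000e000000000000000000000000000000000000000000000000000) (nat_lit 4)
theorem c109035 : QOK q109035 := cut [q22541] ⟨c22541, trivial⟩ (nd (nat_lit 250) (nat_lit 0) (cs (lf (nat_lit 10) (nat_lit 228)) (nd (nat_lit 228) (nat_lit 0) (cs (lf (nat_lit 11) (nat_lit 227)) (rf (nat_lit 0)))))) q109035 (by decide +kernel)
def q109042 : Q := Q.p (nat_lit 0x2000038000000000000000000000000000000000000000000000000000000000) (nat_lit 0x750000c0000300000000000000000000000000000000000000000000000000000) (nat_lit 5)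
theorem c109042 : QOK q109042 := cut [q96981] ⟨c96981, trivial⟩ (nd (nat_lit 234) (nat_lit 0) (cs (lf (nat_lit 11) (nat_lit 230)) (nd (nat_lit 212) (nat_lit 0) (cs (lf (nat_lit 17) (nat_lit 209)) (rf (nat_lit 0)))))) q109042 (by decide +kernel)
def q109060 : Q := Q.p (nat_lit 0x80001e000000000000000000000000000000000000000000000000000000000000000) (nat_lit 0x100002000001c000000000000000000000000000000000000000000000000000000000) (nat_lit 3)
theorem c109060 : QOK q109060 := cut [q80640] ⟨c80640, trivial⟩ (nd (nat_lit 257) (nat_lit 0) (cs (lf (nat_lit 10) (nat_lit 253)) (rf (nat_lit 0)))) q109060 (by decide +kernel)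
def q109079 : Q := Q.p (nat_lit 0x80000e000000000000000000000000000000000000000000000000000000000000000) (nat_lit 0x14000710000f8000000000000000000000000000000000000000000000000000000000) (nat_lit 6)
theorem c109079 : QOK q109079 := cut [q81309] ⟨c81309, trivial⟩ (nd (nat_lit 256) (nat_lit 0) (cs (lf (nat_lit 11) (nat_lit 252)) (nd (nat_lit 234) (nat_lit 0) (cs (lf (nat_lit 17) (nat_lit 231)) (nd (nat_lit 233) (nat_lit 0) (cs (lf (nat_lit 12) (nat_lit 230)) (rf (nat_lit 0)))))))) q109079 (by decide +kernel)
def q109083 : Q := Q.p (nat_lit 0x80000e000000000000000000000000000000000000000000000000000000000000000) (nat_lit 0x3400031c0000e000000000000000000000000000000000000000000000000000000000) (nat_lit 6)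
theorem c109083 : QOK q109083 := cut [q79170] ⟨c79170, trivial⟩ (nd (nat_lit 256) (nat_lit 0) (cs (lf (nat_lit 11) (nat_lit 252)) (nd (nat_lit 230) (nat_lit 0) (cs (lf (nat_lit 22) (nat_lit 230)) (nd (nat_lit 252) (nat_lit 0) (cs (lf (nat_lit 23) (nat_lit 229)) (nd (nat_lit 276) (nat_lit 0) (cs (rf (nat_lit 0)) (lf (nat_lit 6) (nat_lit 253)))))))))) q109083 (by decide +kernel)
def q109087 : Q := Q.p (nat_lit 0x780001800004000000000000000000000000000000000000000000000000000000000000000) (nat_lit 0x800000700008000000000000000000000000000000000000000000000000000000000000000) (nat_lit 3)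
theorem c109087 : QOK q109087 := cut [q104779] ⟨c104779, trivial⟩ (nd (nat_lit 273) (nat_lit 0) (cs (lf (nat_lit 23) (nat_lit 272)) (rf (nat_lit 0)))) q109087 (by decide +kernel)
def q109161 : Q := Q.p (nat_lit 0xe00000800004000010000000000000000000000000000000000000000000000000000000000) (nat_lit 0x200001000001600000000000000000000000000000000000000000000000000000000000000000000) (nat_lit 3)
theorem c109161 : QOK q109161 := cut [q79762] ⟨c79762, trivial⟩ (nd (nat_lit 276) (nat_lit 0) (cs (lf (nat_lit 29) (nat_lit 232)) (rf (nat_lit 0)))) q109161 (by decide +kernel)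
def q109162 : Q := Q.p (nat_lit 0x400001000006000010000000000000000000000000000000000000000000000000000000000) (nat_lit 0x18000e8000080000000000000000000000000000000000000000000000000000) (nat_lit 4)
theorem c109162 : QOK q109162 := cut [q104454] ⟨c104454, trivial⟩ (nd (nat_lit 233) (nat_lit 0) (cs (lf (nat_lit 35) (nat_lit 210)) (rf (nat_lit 0)))) q109162 (by decide +kernel)
def q109179 : Q := Q.p (nat_lit 0x40000000000600001c000000000000000000000000000000000000000000000000000000000) (nat_lit 0x1000001c0002300018c000000000000000000000000000000000000000000000000000) (nat_lit 6)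
theorem c109179 : QOK q109179 := cut [q80293] ⟨c80293, trivial⟩ (nd (nat_lit 229) (nat_lit 0) (cs (lf (nat_lit 0) (nat_lit 228)) (nd (nat_lit 206) (nat_lit 0) (cs (lf (nat_lit 22) (nat_lit 206)) (nd (nat_lit 251) (nat_lit 0) (cs (lf (nat_lit 11) (nat_lit 228)) (nd (nat_lit 233) (nat_lit 0) (cs (lf (nat_lit 10) (nat_lit 229)) (rf (nat_lit 0)))))))))) q109179 (by decide +kernel)
def q109236 : Q := Q.p (nat_lit 0x100000400001800006000000000000000000000000000000000000000000000000000000000000000) (nat_lit 0x400038000020000000000000000000000000000000000000000000000000000000000) (nat_lit 3)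
theorem c109236 : QOK q109236 := cut [q80551] ⟨c80551, trivial⟩ (nd (nat_lit 255) (nat_lit 0) (cs (rf (nat_lit 0)) (lf (nat_lit 35) (nat_lit 232)))) q109236 (by decide +kernel)
def q109256 : Q := Q.p (nat_lit 0x3c00000000000000000000000000000000000000000000000000000000000000000000) (nat_lit 0x1c000020001c000000000000000000000000000000000000000000000000000000000000000) (nat_lit 4)
theorem c109256 : QOK q109256 := cut [q2185] ⟨c2185, trivial⟩ (nd (nat_lit 255) (nat_lit 0) (cs (lf (nat_lit 17) (nat_lit 252)) (nd (nat_lit 273) (nat_lit 0) (cs (rf (nat_lit 0)) (lf (nat_lit 16) (nat_lit 251)))))) q109256 (by decide +kernel)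
def q109265 : Q := Q.p (nat_lit 0x800003c00003000000000000000000000000000000000000000000000000000000000000000) (nat_lit 0x1800006000078000000001c000006000018000000000000000000000000000000000000000000000000000) (nat_lit 8)
theorem c109265 : QOK q109265 := cut [q109260] ⟨c109260, trivial⟩ (nd (nat_lit 255) (nat_lit 0) (cs (lf (nat_lit 17) (nat_lit 252)) (nd (nat_lit 296) (nat_lit 0) (cs (lf (nat_lit 11) (nat_lit 273)) (nd (nat_lit 318) (nat_lit 0) (cs (lf (nat_lit 30) (nat_lit 252)) (nd (nat_lit 317) (nat_lit 0) (cs (lf (nat_lit 41) (nat_lit 251)) (nd (nat_lit 297) (nat_lit 0) (cs (lf (nat_lit 7) (nat_lit 295)) (rf (nat_lit 0)))))))))))) q109265 (by decide +kernel)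
def q109278 : Q := Q.p (nat_lit 0x1800006000018000000000000000000000000000000000000000000000000000000000) (nat_lit 0x300000c00002000000000000000040000100000000000000000000000000000000000000000000000) (nat_lit 4)
theorem c109278 : QOK q109278 := cut [q103778] ⟨c103778, trivial⟩ (nd (nat_lit 298) (nat_lit 0) (cs (lf (nat_lit 42) (nat_lit 231)) (nd (nat_lit 210) (nat_lit 0) (cs (lf (nat_lit 36) (nat_lit 187)) (rf (nat_lit 0)))))) q109278 (by decide +kernel)
def q109344 : Q := Q.p (nat_lit 0x200000e000010000000000000000000000000000000000000000000000000000) (nat_lit 0x4380001c0000f000000000000000000000000000000000000000000000000000) (nat_lit 6)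
theorem c109344 : QOK q109344 := cut [q20833] ⟨c20833, trivial⟩ (nd (nat_lit 228) (nat_lit 0) (cs (lf (nat_lit 5) (nat_lit 228)) (nd (nat_lit 205) (nat_lit 0) (cs (lf (nat_lit 22) (nat_lit 205)) (nd (nat_lit 227) (nat_lit 0) (cs (lf (nat_lit 23) (nat_lit 204)) (rf (nat_lit 0)))))))) q109344 (by decide +kernel)
def q109380 : Q := Q.p (nat_lit 0x7800010000000000000000000000000000000000000000000000000000000000000000) (nat_lit 0x200003800000400000000040000100000000000000000000000000000000000000000000000000000) (nat_lit 4)
theorem c109380 : QOK q109380 := cut [q11559] ⟨c11559, trivial⟩ (nd (nat_lit 300) (nat_lit 0) (cs (lf (nat_lit 5) (nat_lit 275)) (nd (nat_lit 299) (nat_lit 0) (cs (rf (nat_lit 0)) (lf (nat_lit 0) (nat_lit 274)))))) q109380 (by decide +kernel)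
def q109422 : Q := Q.p (nat_lit 0x400001800003000018000000000000000000000000000000000000000000000000000000000) (nat_lit 0x200000000004000064000190000040000000000000000000000000000000000000000000000) (nat_lit 5)
theorem c109422 : QOK q109422 := cut [q81477] ⟨c81477, trivial⟩ (nd (nat_lit 233) (nat_lit 0) (cs (lf (nat_lit 6) (nat_lit 230)) (nd (nat_lit 211) (nat_lit 0) (cs (lf (nat_lit 32) (nat_lit 210)) (nd (nat_lit 230) (nat_lit 0) (cs (lf (nat_lit 17) (nat_lit 208)) (rf (nat_lit 0)))))))) q109422 (by decide +kernel)
def q109456 : Q := Q.p (nat_lit 0x200000e00002000008000000000000000000000000000000000000000000000000000000000) (nat_lit 0x8000000000000001d000010000040000000000000000000000000000000000000000000000000000) (nat_lit 4)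
theorem c109456 : QOK q109456 := cut [q97318] ⟨c97318, trivial⟩ (nd (nat_lit 232) (nat_lit 0) (cs (lf (nat_lit 35) (nat_lit 209)) (nd (nat_lit 254) (nat_lit 0) (cs (lf (nat_lit 30) (nat_lit 231)) (rf (nat_lit 0)))))) q109456 (by decide +kernel)
def q109460 : Q := Q.p (nat_lit 0xc00002000008000000000000000000000000000000000000000000000000000000000) (nat_lit 0x1000000000000000000000700001c0000500000000000000000000000000000000000000000) (nat_lit 5)
theorem c109460 : QOK q109460 := cut [q108989] ⟨c108989, trivial⟩ (nd (nat_lit 209) (nat_lit 0) (cs (lf (nat_lit 41) (nat_lit 208)) (rf (nat_lit 0)))) q109460 (by decide +kernel)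
def q109482 : Q := Q.p (nat_lit 0xf00003c00000000000000000000000000000000000000000000000000000000000000000000) (nat_lit 0x2000008000060000000000000001c000020000080000000000000000000000000000000000000000000000000000) (nat_lit 5)
theorem c109482 : QOK q109482 := cut [q100619] ⟨c100619, trivial⟩ (nd (nat_lit 255) (nat_lit 0) (cs (lf (nat_lit 17) (nat_lit 252)) (nd (nat_lit 211) (nat_lit 0) (cs (lf (nat_lit 37) (nat_lit 210)) (rf (nat_lit 0)))))) q109482 (by decide +kernel)
def q109536 : Q := Q.p (nat_lit 0x80000200000800002000000000000000000000000000000000000000000000000000000000000000) (nat_lit 0x10000060000100000000000400001000004000000000000000000000000000000000000000000000000000000000) (nat_lit 4)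
theorem c109536 : QOK q109536 := cut [q41535] ⟨c41535, trivial⟩ (nd (nat_lit 342) (nat_lit 0) (cs (lf (nat_lit 28) (nat_lit 253)) (nd (nat_lit 252) (nat_lit 0) (cs (lf (nat_lit 47) (nat_lit 230)) (rf (nat_lit 0)))))) q109536 (by decide +kernel)
def q109548 : Q := Q.p (nat_lit 0x100000600001a00003000000000000000000000000000000000000000000000000000000000000000) (nat_lit 0xa000068000018000010000cc00023000000000000000000000000000000000000000000000000000000000) (nat_lit 8)
theorem c109548 : QOK q109548 := cut [q99957] ⟨c99957, trivial⟩ (nd (nat_lit 251) (nat_lit 0) (cs (lf (nat_lit 0) (nat_lit 250)) (nd (nat_lit 254) (nat_lit 0) (cs (lf (nat_lit 11) (nat_lit 250)) (nd (nat_lit 233) (nat_lit 0) (cs (lf (nat_lit 34) (nat_lit 232)) (nd (nat_lit 319) (nat_lit 0) (cs (lf (nat_lit 41) (nat_lit 253)) (nd (nat_lit 228) (nat_lit 0) (cs (lf (nat_lit 22) (nat_lit 228)) (rf (nat_lit 0)))))))))))) q109548 (by decide +kernel)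
def q109553 : Q := Q.p (nat_lit 0x100000600001a00003000000000000000000000000000000000000000000000000000000000000000) (nat_lit 0xa0000e800009c000040000c000000000000000000000000000000000000000000000000000000000000000) (nat_lit 7)
theorem c109553 : QOK q109553 := cut [q100211] ⟨c100211, trivial⟩ (nd (nat_lit 274) (nat_lit 0) (cs (lf (nat_lit 5) (nat_lit 273)) (nd (nat_lit 294) (nat_lit 0) (cs (lf (nat_lit 10) (nat_lit 272)) (nd (nat_lit 319) (nat_lit 0) (cs (lf (nat_lit 42) (nat_lit 252)) (nd (nat_lit 254) (nat_lit 0) (cs (lf (nat_lit 6) (nat_lit 251)) (rf (nat_lit 0)))))))))) q109553 (by decide +kernel)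
def q109581 : Q := Q.p (nat_lit 0x80000200000800002000000000000000000000000000000000000000000000000000000000000000) (nat_lit 0x400001c000070000040000400001000004000000000000000000000000000000000000000000000000000000000000000) (nat_lit 6)
theorem c109581 : QOK q109581 := cut [q26069] ⟨c26069, trivial⟩ (nd (nat_lit 340) (nat_lit 0) (cs (lf (nat_lit 40) (nat_lit 252)) (nd (nat_lit 341) (nat_lit 0) (cs (lf (nat_lit 41) (nat_lit 274)) (nd (nat_lit 364) (nat_lit 0) (cs (lf (nat_lit 28) (nat_lit 275)) (nd (nat_lit 276) (nat_lit 0) (cs (rf (nat_lit 0)) (lf (nat_lit 35) (nat_lit 253)))))))))) q109581 (by decide +kernel)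
def q109606 : Q := Q.p (nat_lit 0x80000300001800003800000000000000000000000000000000000000000000000000000000000000) (nat_lit 0x180000780000e0000400000000002000000000000000000000000000000000000000000000000000000000) (nat_lit 6)
theorem c109606 : QOK q109606 := cut [q98922] ⟨c98922, trivial⟩ (nd (nat_lit 294) (nat_lit 0) (cs (lf (nat_lit 13) (nat_lit 272)) (nd (nat_lit 318) (nat_lit 0) (cs (lf (nat_lit 41) (nat_lit 252)) (nd (nat_lit 274) (nat_lit 0) (cs (lf (nat_lit 47) (nat_lit 229)) (rf (nat_lit 0)))))))) q109606 (by decide +kernel)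
def q109625 : Q := Q.p (nat_lit 0x200000800003800008000000000000000000000000000000000000000000000000000000000) (nat_lit 0x34000050000000000000000000000000000000000000000000000000000) (nat_lit 3)
theorem c109625 : QOK q109625 := cut [q91117] ⟨c91117, trivial⟩ (nd (nat_lit 230) (nat_lit 0) (cs (lf (nat_lit 47) (nat_lit 208)) (rf (nat_lit 0)))) q109625 (by decide +kernel)
def q109699 : Q := Q.p (nat_lit 0x3c00002000000000000000000000000000000000000000000000000000000000000000) (nat_lit 0x3800004000001000000000000000000000000000000000000000000000000000000000000000) (nat_lit 3)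
theorem c109699 : QOK q109699 := cut [q15788] ⟨c15788, trivial⟩ (nd (nat_lit 278) (nat_lit 0) (cs (lf (nat_lit 23) (nat_lit 252)) (rf (nat_lit 0)))) q109699 (by decide +kernel)
def q109712 : Q := Q.p (nat_lit 0x180000200000c000000000000000000000000000000000000000000000000000000000) (nat_lit 0x4000004000010000000000300000c0000300000000000000000000000000000000000000000) (nat_lit 5)
theorem c109712 : QOK q109712 := cut [q108115] ⟨c108115, trivial⟩ (nd (nat_lit 209) (nat_lit 0) (cs (lf (nat_lit 29) (nat_lit 209)) (nd (nat_lit 186) (nat_lit 0) (cs (lf (nat_lit 46) (nat_lit 186)) (nd (nat_lit 187) (nat_lit 0) (cs (lf (nat_lit 47) (nat_lit 164)) (rf (nat_lit 0)))))))) q109712 (by decide +kernel)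
def q109714 : Q := Q.p (nat_lit 0x180000200000c000000000000000000000000000000000000000000000000000000000) (nat_lit 0x400000400005000000000020000080000200000000000000000000000000000000000000000) (nat_lit 4)
theorem c109714 : QOK q109714 := cut [q108115] ⟨c108115, trivial⟩ (nd (nat_lit 209) (nat_lit 0) (cs (lf (nat_lit 29) (nat_lit 209)) (nd (nat_lit 187) (nat_lit 0) (cs (lf (nat_lit 28) (nat_lit 187)) (rf (nat_lit 0)))))) q109714 (by decide +kernel)
def q109740 : Q := Q.p (nat_lit 0x300000e000010000000000000000000000000000000000000000000000000000) (nat_lit 0x40000060001180000e000020000080000000000000000000000000000000000000000) (nat_lit 6)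
theorem c109740 : QOK q109740 := cut [q1026] ⟨c1026, trivial⟩ (nd (nat_lit 228) (nat_lit 0) (cs (lf (nat_lit 0) (nat_lit 227)) (nd (nat_lit 249) (nat_lit 0) (cs (lf (nat_lit 10) (nat_lit 227)) (nd (nat_lit 206) (nat_lit 0) (cs (lf (nat_lit 23) (nat_lit 205)) (nd (nat_lit 207) (nat_lit 0) (cs (rf (nat_lit 0)) (lf (nat_lit 18) (nat_lit 206)))))))))) q109740 (by decide +kernel)
def q109810 : Q := Q.p (nat_lit 0x800007000018000000000000000000000000000000000000000000000000000000000) (nat_lit 0xc0000300000600018000000000020000000000000000000000000000000000000000000000000000) (nat_lit 5)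
theorem c109810 : QOK q109810 := cut [q79079] ⟨c79079, trivial⟩ (nd (nat_lit 297) (nat_lit 0) (cs (lf (nat_lit 30) (nat_lit 231)) (nd (nat_lit 296) (nat_lit 0) (cs (lf (nat_lit 41) (nat_lit 230)) (nd (nat_lit 274) (nat_lit 0) (cs (lf (nat_lit 36) (nat_lit 208)) (rf (nat_lit 0)))))))) q109810 (by decide +kernel)
def q109879 : Q := Q.p (nat_lit 0x100001e000010000000000000000000000000000000000000000000000000000000000) (nat_lit 0x4000000000010000e0000080000200000000000000000000000000000000000000000000000) (nat_lit 4)
theorem c109879 : QOK q109879 := cut [q96515] ⟨c96515, trivial⟩ (nd (nat_lit 234) (nat_lit 0) (cs (lf (nat_lit 17) (nat_lit 231)) (nd (nat_lit 233) (nat_lit 0) (cs (lf (nat_lit 12) (nat_lit 230)) (rf (nat_lit 0)))))) q109879 (by decide +kernel)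
def q109917 : Q := Q.p (nat_lit 0x380000600000000000000000000000000000000000000000000000000000000000000000000) (nat_lit 0x8000030000c00000000001000004000000000000000000000000000000000000000000000000000000000) (nat_lit 4)
theorem c109917 : QOK q109917 := cut [q108621] ⟨c108621, trivial⟩ (nd (nat_lit 298) (nat_lit 0) (cs (lf (nat_lit 18) (nat_lit 273)) (rf (nat_lit 0)))) q109917 (by decide +kernel)
def q109922 : Q := Q.p (nat_lit 0x200000800003800008000000000000000000000000000000000000000000000000000000000) (nat_lit 0x4000070000040000000000000000000000000000000000000000000000000000) (nat_lit 3)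
theorem c109922 : QOK q109922 := cut [q82277] ⟨c82277, trivial⟩ (nd (nat_lit 232) (nat_lit 0) (cs (lf (nat_lit 35) (nat_lit 209)) (rf (nat_lit 0)))) q109922 (by decide +kernel)
def q109934 : Q := Q.p (nat_lit 0x300003c00002000000000000000000000000000000000000000000000000000000000000000) (nat_lit 0x1d800006000018000000000000000000000000000000000000000000000000000) (nat_lit 5)
theorem c109934 : QOK q109934 := cut [q109260] ⟨c109260, trivial⟩ (nd (nat_lit 255) (nat_lit 0) (cs (lf (nat_lit 17) (nat_lit 252)) (nd (nat_lit 252) (nat_lit 0) (cs (lf (nat_lit 23) (nat_lit 251)) (rf (nat_lit 0)))))) q109934 (by decide +kernel)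
def q109954 : Q := Q.p (nat_lit 0x200000800002000008000000000000000000000000000000000000000000000000000000000) (nat_lit 0x500001c000070000080000000000400005c00074000040000000000000000000000000000000000000000000000000000) (nat_lit 10)
theorem c109954 : QOK q109954 := cut [q23368] ⟨c23368, trivial⟩ (nd (nat_lit 232) (nat_lit 0) (cs (lf (nat_lit 35) (nat_lit 209)) (nd (nat_lit 319) (nat_lit 0) (cs (lf (nat_lit 34) (nat_lit 231)) (nd (nat_lit 252) (nat_lit 0) (cs (lf (nat_lit 47) (nat_lit 230)) (nd (nat_lit 250) (nat_lit 0) (cs (lf (nat_lit 13) (nat_lit 228)) (nd (nat_lit 233) (nat_lit 0) (cs (lf (nat_lit 6) (nat_lit 230)) (nd (nat_lit 341) (nat_lit 0) (cs (lf (nat_lit 46) (nat_lit 252)) (nd (nat_lit 362) (nat_lit 0) (cs (lf (nat_lit 40) (nat_lit 274)) (nd (nat_lit 364) (nat_lit 0) (cs (lf (nat_lit 28) (nat_lit 275)) (rf (nat_lit 0)))))))))))))))))) q109954 (by decide +kernel)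
def q109957 : Q := Q.p (nat_lit 0x300001800000000000000000000000000000000000000000000000000000000000000000000) (nat_lit 0x4c0006000000000000000000000000000000000000000000000000000000000000000000000) (nat_lit 3)
theorem c109957 : QOK q109957 := cut [q11727] ⟨c11727, trivial⟩ (nd (nat_lit 295) (nat_lit 0) (cs (lf (nat_lit 12) (nat_lit 272)) (rf (nat_lit 0)))) q109957 (by decide +kernel)
def q110012 : Q := Q.p (nat_lit 0xc00003800008000020000000000000000000000000000000000000000000000000000) (nat_lit 0x28000038000000000600005e000178000000000000000000000000000000000000000000000) (nat_lit 9)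
theorem c110012 : QOK q110012 := cut [q89945] ⟨c89945, trivial⟩ (nd (nat_lit 188) (nat_lit 0) (cs (lf (nat_lit 34) (nat_lit 187)) (nd (nat_lit 208) (nat_lit 0) (cs (lf (nat_lit 47) (nat_lit 186)) (nd (nat_lit 230) (nat_lit 0) (cs (lf (nat_lit 29) (nat_lit 208)) (nd (nat_lit 273) (nat_lit 0) (cs (lf (nat_lit 41) (nat_lit 207)) (nd (nat_lit 271) (nat_lit 0) (cs (lf (nat_lit 13) (nat_lit 249)) (rf (nat_lit 0)))))))))))) q110012 (by decide +kernel)
def q110017 : Q := Q.p (nat_lit 0x10000040000380000c000000000000000000000000000000000000000000000000000000000) (nat_lit 0x80000280000a00000000000000010000040000000000000000000000000000000000000000000000) (nat_lit 4)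
theorem c110017 : QOK q110017 := cut [q88725] ⟨c88725, trivial⟩ (nd (nat_lit 297) (nat_lit 0) (cs (lf (nat_lit 29) (nat_lit 230)) (nd (nat_lit 208) (nat_lit 0) (cs (lf (nat_lit 43) (nat_lit 208)) (rf (nat_lit 0)))))) q110017 (by decide +kernel)
def q110037 : Q := Q.p (nat_lit 0x7800000000000000000000000000000000000000000000000000000000000000) (nat_lit 0x3800000400038000000000000000000000000000000000000000000000000000000000) (nat_lit 4)
theorem c110037 : QOK q110037 := cut [q79011] ⟨c79011, trivial⟩ (nd (nat_lit 276) (nat_lit 0) (cs (lf (nat_lit 5) (nat_lit 251)) (nd (nat_lit 250) (nat_lit 0) (cs (lf (nat_lit 4) (nat_lit 250)) (rf (nat_lit 0)))))) q110037 (by decide +kernel)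
def q110042 : Q := Q.p (nat_lit 0x400001000004000010000000000000000000000000000000000000000000000000000) (nat_lit 0x20000180000200000000002000008000020000000000000000000000000000000000000000000000) (nat_lit 4)
theorem c110042 : QOK q110042 := cut [q24771] ⟨c24771, trivial⟩ (nd (nat_lit 207) (nat_lit 0) (cs (lf (nat_lit 47) (nat_lit 185)) (rf (nat_lit 0)))) q110042 (by decide +kernel)
def q110054 : Q := Q.p (nat_lit 0x300001e000000000000000000000000000000000000000000000000000000000) (nat_lit 0x1c000060000000000000000000000000000000000000000000000000000000000) (nat_lit 3)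
theorem c110054 : QOK q110054 := cut [q97223] ⟨c97223, trivial⟩ (nd (nat_lit 233) (nat_lit 0) (cs (lf (nat_lit 6) (nat_lit 230)) (rf (nat_lit 0)))) q110054 (by decide +kernel)
def q110057 : Q := Q.p (nat_lit 0x1c00003000004000000000000000000000000000000000000000000000000000000000) (nat_lit 0x620001c000002000000000000000000000000000000000000000000000000000000000) (nat_lit 4)
theorem c110057 : QOK q110057 := cut [q105270] ⟨c105270, trivial⟩ (nd (nat_lit 277) (nat_lit 0) (cs (lf (nat_lit 18) (nat_lit 252)) (rf (nat_lit 0)))) q110057 (by decide +kernel)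
def q110078 : Q := Q.p (nat_lit 0x300000c000020000000000000000000000000000000000000000000000000000) (nat_lit 0x780001c0000100000400001c0000700000000000000000000000000000000000000000) (nat_lit 8)
theorem c110078 : QOK q110078 := cut [q110074] ⟨c110074, trivial⟩ (nd (nat_lit 187) (nat_lit 0) (cs (lf (nat_lit 36) (nat_lit 164)) (nd (nat_lit 164) (nat_lit 0) (cs (lf (nat_lit 46) (nat_lit 164)) (nd (nat_lit 188) (nat_lit 0) (cs (lf (nat_lit 35) (nat_lit 165)) (nd (nat_lit 254) (nat_lit 0) (cs (lf (nat_lit 29) (nat_lit 187)) (rf (nat_lit 0)))))))))) q110078 (by decide +kernel)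
def q110081 : Q := Q.p (nat_lit 0x200000800003000008000000000000000000000000000000000000000000000000000000000) (nat_lit 0x140000580007000000000000000020000000000000000000000000000000000000000000000000000) (nat_lit 5)
theorem c110081 : QOK q110081 := cut [q106922] ⟨c106922, trivial⟩ (nd (nat_lit 298) (nat_lit 0) (cs (lf (nat_lit 29) (nat_lit 231)) (nd (nat_lit 276) (nat_lit 0) (cs (lf (nat_lit 24) (nat_lit 209)) (rf (nat_lit 0)))))) q110081 (by decide +kernel)
def q110148 : Q := Q.p (nat_lit 0x300001e000010000000000000000000000000000000000000000000000000000) (nat_lit 0x20000180000c0000000000ec0000b0000280000000000000000000000000000000000000000) (nat_lit 8)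
theorem c110148 : QOK q110148 := cut [q96156] ⟨c96156, trivial⟩ (nd (nat_lit 254) (nat_lit 0) (cs (lf (nat_lit 18) (nat_lit 229)) (nd (nat_lit 207) (nat_lit 0) (cs (lf (nat_lit 23) (nat_lit 206)) (nd (nat_lit 210) (nat_lit 0) (cs (lf (nat_lit 17) (nat_lit 207)) (nd (nat_lit 275) (nat_lit 0) (cs (lf (nat_lit 30) (nat_lit 209)) (nd (nat_lit 185) (nat_lit 0) (cs (lf (nat_lit 24) (nat_lit 163)) (nd (nat_lit 209) (nat_lit 0) (cs (lf (nat_lit 23) (nat_lit 184)) (rf (nat_lit 0)))))))))))))) q110148 (by decide +kernel)
def q110180 : Q := Q.p (nat_lit 0x40000300000400001c000000000000000000000000000000000000000000000000000) (nat_lit 0x280000b80000000001c0002200009c000000000000000000000000000000000000000000000) (nat_lit 8)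
theorem c110180 : QOK q110180 := cut [q78656] ⟨c78656, trivial⟩ (nd (nat_lit 275) (nat_lit 0) (cs (lf (nat_lit 29) (nat_lit 208)) (nd (nat_lit 273) (nat_lit 0) (cs (lf (nat_lit 41) (nat_lit 207)) (nd (nat_lit 209) (nat_lit 0) (cs (lf (nat_lit 35) (nat_lit 186)) (nd (nat_lit 271) (nat_lit 0) (cs (lf (nat_lit 13) (nat_lit 249)) (rf (nat_lit 0)))))))))) q110180 (by decide +kernel)
def q110230 : Q := Q.p (nat_lit 0x100000400003000004000000000000000000000000000000000000000000000000000000000) (nat_lit 0x80000380000e0000080000800000000000000000000000000000000000000000000000000000000000000000000) (nat_lit 5)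
theorem c110230 : QOK q110230 := cut [q42102] ⟨c42102, trivial⟩ (nd (nat_lit 317) (nat_lit 0) (cs (lf (nat_lit 40) (nat_lit 229)) (nd (nat_lit 318) (nat_lit 0) (cs (lf (nat_lit 41) (nat_lit 251)) (nd (nat_lit 340) (nat_lit 0) (cs (lf (nat_lit 34) (nat_lit 252)) (rf (nat_lit 0)))))))) q110230 (by decide +kernel)
def q110242 : Q := Q.p (nat_lit 0xe00003000004000000000000000000000000000000000000000000000000000000000) (nat_lit 0x8000020001cc0007000000000000000010000000000000000000000000000000000000000000000000000) (nat_lit 6)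
theorem c110242 : QOK q110242 := cut [q12684] ⟨c12684, trivial⟩ (nd (nat_lit 295) (nat_lit 0) (cs (lf (nat_lit 36) (nat_lit 207)) (nd (nat_lit 317) (nat_lit 0) (cs (lf (nat_lit 30) (nat_lit 251)) (nd (nat_lit 276) (nat_lit 0) (cs (lf (nat_lit 11) (nat_lit 272)) (nd (nat_lit 277) (nat_lit 0) (cs (lf (nat_lit 18) (nat_lit 252)) (rf (nat_lit 0)))))))))) q110242 (by decide +kernel)
def q110262 : Q := Q.p (nat_lit 0x7000004000000000000000000000000000000000000000000000000000000000) (nat_lit 0x80000200006e00018000062000010000000000000000000000000000000000000000000000000000) (nat_lit 7)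
theorem c110262 : QOK q110262 := cut [q98863] ⟨c98863, trivial⟩ (nd (nat_lit 255) (nat_lit 0) (cs (lf (nat_lit 23) (nat_lit 229)) (nd (nat_lit 233) (nat_lit 0) (cs (lf (nat_lit 17) (nat_lit 230)) (nd (nat_lit 277) (nat_lit 0) (cs (lf (nat_lit 5) (nat_lit 252)) (nd (nat_lit 274) (nat_lit 0) (cs (lf (nat_lit 11) (nat_lit 251)) (nd (nat_lit 275) (nat_lit 0) (cs (lf (nat_lit 6) (nat_lit 252)) (rf (nat_lit 0)))))))))))) q110262 (by decide +kernel)
def q110269 : Q := Q.p (nat_lit 0x100000400007000004000000000000000000000000000000000000000000000000000000000) (nat_lit 0xb800008000000000000000000000000000000000000000000000000000) (nat_lit 3)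
theorem c110269 : QOK q110269 := cut [q79026] ⟨c79026, trivial⟩ (nd (nat_lit 229) (nat_lit 0) (cs (lf (nat_lit 47) (nat_lit 207)) (rf (nat_lit 0)))) q110269 (by decide +kernel)
def q110292 : Q := Q.p (nat_lit 0x300000c000030000000000000000000000000000000000000000000000000000) (nat_lit 0x200000800000000000000040000180000600000000000000000000000000000000000000000) (nat_lit 4)
theorem c110292 : QOK q110292 := cut [q90372] ⟨c90372, trivial⟩ (nd (nat_lit 275) (nat_lit 0) (cs (lf (nat_lit 42) (nat_lit 208)) (rf (nat_lit 0)))) q110292 (by decide +kernel)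
def q110474 : Q := Q.p (nat_lit 0xc0000380000c000000000000000000000000000000000000000000000000000000000) (nat_lit 0x600001e000320000000000380000e000000000000000000000000000000000000000000000000000) (nat_lit 8)
theorem c110474 : QOK q110474 := cut [q92131] ⟨c92131, trivial⟩ (nd (nat_lit 296) (nat_lit 0) (cs (lf (nat_lit 30) (nat_lit 230)) (nd (nat_lit 295) (nat_lit 0) (cs (lf (nat_lit 41) (nat_lit 229)) (nd (nat_lit 293) (nat_lit 0) (cs (lf (nat_lit 13) (nat_lit 271)) (nd (nat_lit 276) (nat_lit 0) (cs (lf (nat_lit 6) (nat_lit 273)) (nd (nat_lit 229) (nat_lit 0) (cs (lf (nat_lit 47) (nat_lit 207)) (nd (nat_lit 228) (nat_lit 0) (cs (lf (nat_lit 0) (nat_lit 227)) (rf (nat_lit 0)))))))))))))) q110474 (by decide +kernel)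
def q110560 : Q := Q.p (nat_lit 0x6000010000040000000000000000000000000000000000000000000000000000) (nat_lit 0x800000000008000000000180000600000800000000000000000000000000000000000) (nat_lit 4)
theorem c110560 : QOK q110560 := cut [q103986] ⟨c103986, trivial⟩ (nd (nat_lit 188) (nat_lit 0) (cs (lf (nat_lit 41) (nat_lit 187)) (rf (nat_lit 0)))) q110560 (by decide +kernel)
def q110675 : Q := Q.p (nat_lit 0x380000a00002000000000000000000000000000000000000000000000000000000000000000) (nat_lit 0x400000580004000000000000000000000000000000000000000000000000000000000000000) (nat_lit 3)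
theorem c110675 : QOK q110675 := cut [q108292] ⟨c108292, trivial⟩ (nd (nat_lit 272) (nat_lit 0) (cs (lf (nat_lit 18) (nat_lit 272)) (rf (nat_lit 0)))) q110675 (by decide +kernel)
def q110822 : Q := Q.p (nat_lit 0x80001a00003000004000000000000000000000000000000000000000000000000000000000) (nat_lit 0x80000340000400000000000000000000000000000000000000000000000000000000000000000000) (nat_lit 3)
theorem c110822 : QOK q110822 := cut [q90857] ⟨c90857, trivial⟩ (nd (nat_lit 297) (nat_lit 0) (cs (lf (nat_lit 42) (nat_lit 230)) (rf (nat_lit 0)))) q110822 (by decide +kernel)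
def q110994 : Q := Q.p (nat_lit 0x180000c000030000000000000000000000000000000000000000000000000000) (nat_lit 0x10000040000000003000000c000020000000000000000000000000000000000000000000000) (nat_lit 4)
theorem c110994 : QOK q110994 := cut [q95376] ⟨c95376, trivial⟩ (nd (nat_lit 232) (nat_lit 0) (cs (lf (nat_lit 6) (nat_lit 229)) (nd (nat_lit 207) (nat_lit 0) (cs (lf (nat_lit 0) (nat_lit 206)) (rf (nat_lit 0)))))) q110994 (by decide +kernel)
def q111079 : Q := Q.p (nat_lit 0x200000800007000018000000000000000000000000000000000000000000000000000000000) (nat_lit 0x160000de0001700000c00007000010000000000000000000000000000000000000000000000000000) (nat_lit 10)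
theorem c111079 : QOK q111079 := cut [q56241] ⟨c56241, trivial⟩ (nd (nat_lit 230) (nat_lit 0) (cs (lf (nat_lit 47) (nat_lit 208)) (nd (nat_lit 298) (nat_lit 0) (cs (lf (nat_lit 29) (nat_lit 231)) (nd (nat_lit 228) (nat_lit 0) (cs (lf (nat_lit 1) (nat_lit 228)) (nd (nat_lit 296) (nat_lit 0) (cs (lf (nat_lit 41) (nat_lit 230)) (nd (nat_lit 251) (nat_lit 0) (cs (lf (nat_lit 12) (nat_lit 228)) (nd (nat_lit 273) (nat_lit 0) (cs (lf (nat_lit 11) (nat_lit 250)) (nd (nat_lit 295) (nat_lit 0) (cs (lf (nat_lit 30) (nat_lit 229)) (nd (nat_lit 274) (nat_lit 0) (cs (lf (nat_lit 18) (nat_lit 273)) (rf (nat_lit 0)))))))))))))))))) q111079 (by decide +kernel)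
def q111103 : Q := Q.p (nat_lit 0x80000100000400007000000000000000000000000000000000000000000000000000000000000000) (nat_lit 0x38000070000e00000b00000000010000000000000000000000000000000000000000000000000000000000) (nat_lit 7)
theorem c111103 : QOK q111103 := cut [q23048] ⟨c23048, trivial⟩ (nd (nat_lit 318) (nat_lit 0) (cs (lf (nat_lit 29) (nat_lit 252)) (nd (nat_lit 317) (nat_lit 0) (cs (lf (nat_lit 41) (nat_lit 251)) (nd (nat_lit 275) (nat_lit 0) (cs (lf (nat_lit 30) (nat_lit 252)) (nd (nat_lit 272) (nat_lit 0) (cs (lf (nat_lit 13) (nat_lit 250)) (nd (nat_lit 297) (nat_lit 0) (cs (rf (nat_lit 0)) (lf (nat_lit 35) (nat_lit 231)))))))))))) q111103 (by decide +kernel)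
def q111144 : Q := Q.p (nat_lit 0x200000f000020000000000000000000000000000000000000000000000000000000000) (nat_lit 0x40000900000e0003000001c000040000100000000000000000000000000000000000000000000000) (nat_lit 7)
theorem c111144 : QOK q111144 := cut [q79225] ⟨c79225, trivial⟩ (nd (nat_lit 274) (nat_lit 0) (cs (lf (nat_lit 11) (nat_lit 251)) (nd (nat_lit 256) (nat_lit 0) (cs (lf (nat_lit 10) (nat_lit 252)) (nd (nat_lit 231) (nat_lit 0) (cs (lf (nat_lit 23) (nat_lit 230)) (nd (nat_lit 296) (nat_lit 0) (cs (lf (nat_lit 30) (nat_lit 230)) (nd (nat_lit 232) (nat_lit 0) (cs (rf (nat_lit 0)) (lf (nat_lit 18) (nat_lit 231)))))))))))) q111144 (by decide +kernel)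
def q111149 : Q := Q.p (nat_lit 0x400001000006000010000000000000000000000000000000000000000000000000000000000) (nat_lit 0x2000008000000000200000c0000300000000000000000000000000000000000000000000000) (nat_lit 4)
theorem c111149 : QOK q111149 := cut [q89992] ⟨c89992, trivial⟩ (nd (nat_lit 211) (nat_lit 0) (cs (lf (nat_lit 34) (nat_lit 210)) (nd (nat_lit 210) (nat_lit 0) (cs (lf (nat_lit 35) (nat_lit 188)) (rf (nat_lit 0)))))) q111149 (by decide +kernel)
def q111164 : Q := Q.p (nat_lit 0x400001000004000010000000000000000000000000000000000000000000000000000000000) (nat_lit 0x280000e0000280000000000000000000000000000000000000000000000) (nat_lit 4)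
theorem c111164 : QOK q111164 := cut [q81135] ⟨c81135, trivial⟩ (nd (nat_lit 211) (nat_lit 0) (cs (lf (nat_lit 34) (nat_lit 210)) (nd (nat_lit 210) (nat_lit 0) (cs (lf (nat_lit 35) (nat_lit 188)) (rf (nat_lit 0)))))) q111164 (by decide +kernel)
def q111170 : Q := Q.p (nat_lit 0x400001000006000000000000000000000000000000000000000000000000000000000000000) (nat_lit 0x80000e0000380000000002000008000028000000000000000000000000000000000000000000000000000000000) (nat_lit 6)
theorem c111170 : QOK q111170 := cut [q111168] ⟨c111168, trivial⟩ (nd (nat_lit 320) (nat_lit 0) (cs (lf (nat_lit 47) (nat_lit 231)) (nd (nat_lit 321) (nat_lit 0) (cs (lf (nat_lit 29) (nat_lit 254)) (rf (nat_lit 0)))))) q111170 (by decide +kernel)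
def q111172 : Q := Q.p (nat_lit 0x100000400001000004000000000000000000000000000000000000000000000000000000000000000) (nat_lit 0x80000200000800000000008000030000080000000000000000000000000000000000000000000000000000) (nat_lit 4)
theorem c111172 : QOK q111172 := cut [q79767] ⟨c79767, trivial⟩ (nd (nat_lit 321) (nat_lit 0) (cs (lf (nat_lit 29) (nat_lit 254)) (nd (nat_lit 232) (nat_lit 0) (cs (lf (nat_lit 28) (nat_lit 232)) (rf (nat_lit 0)))))) q111172 (by decide +kernel)
def q111202 : Q := Q.p (nat_lit 0x200001800006000000000000000000000000000000000000000000000000000000000000000) (nat_lit 0x700001c000010000000000000000c0000300000c0000000000000000000000000000000000000000000000) (nat_lit 7)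
theorem c111202 : QOK q111202 := cut [q111198] ⟨c111198, trivial⟩ (nd (nat_lit 319) (nat_lit 0) (cs (lf (nat_lit 30) (nat_lit 253)) (nd (nat_lit 320) (nat_lit 0) (cs (lf (nat_lit 29) (nat_lit 253)) (nd (nat_lit 318) (nat_lit 0) (cs (lf (nat_lit 41) (nat_lit 252)) (nd (nat_lit 231) (nat_lit 0) (cs (lf (nat_lit 40) (nat_lit 230)) (rf (nat_lit 0)))))))))) q111202 (by decide +kernel)
def q111207 : Q := Q.p (nat_lit 0x600001e000000000000000000000000000000000000000000000000000000000000000) (nat_lit 0x8000000000000000c0000100000400000000000000000000000000000000000000000000000) (nat_lit 3)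
theorem c111207 : QOK q111207 := cut [q103466] ⟨c103466, trivial⟩ (nd (nat_lit 234) (nat_lit 0) (cs (lf (nat_lit 17) (nat_lit 231)) (rf (nat_lit 0)))) q111207 (by decide +kernel)
def q111212 : Q := Q.p (nat_lit 0x3800006000000000000000000000000000000000000000000000000000000000000000) (nat_lit 0x3b8000c400030000000000000000000000000000000000000000000000000000000000000000) (nat_lit 6)
theorem c111212 : QOK q111212 := cut [q16964] ⟨c16964, trivial⟩ (nd (nat_lit 278) (nat_lit 0) (cs (lf (nat_lit 18) (nat_lit 253)) (nd (nat_lit 256) (nat_lit 0) (cs (lf (nat_lit 17) (nat_lit 253)) (rf (nat_lit 0)))))) q111212 (by decide +kernel)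
def q111233 : Q := Q.p (nat_lit 0x1800006000018000040000000000000000000000000000000000000000000000000000) (nat_lit 0x380000e400038000004000080000200000000000000000000000000000000000000000000000) (nat_lit 7)
theorem c111233 : QOK q111233 := cut [q104084] ⟨c104084, trivial⟩ (nd (nat_lit 277) (nat_lit 0) (cs (lf (nat_lit 29) (nat_lit 210)) (nd (nat_lit 278) (nat_lit 0) (cs (lf (nat_lit 18) (nat_lit 253)) (nd (nat_lit 189) (nat_lit 0) (cs (lf (nat_lit 34) (nat_lit 188)) (nd (nat_lit 300) (nat_lit 0) (cs (lf (nat_lit 5) (nat_lit 275)) (rf (nat_lit 0)))))))))) q111233 (by decide +kernel)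
def q111253 : Q := Q.p (nat_lit 0x1800006000018000000000000000000000000000000000000000000000000000000000) (nat_lit 0x260003c0000300000000000000000000000000000000000000000000000) (nat_lit 5)
theorem c111253 : QOK q111253 := cut [q109316] ⟨c109316, trivial⟩ (nd (nat_lit 210) (nat_lit 0) (cs (lf (nat_lit 36) (nat_lit 187)) (rf (nat_lit 0)))) q111253 (by decide +kernel)
def q111260 : Q := Q.p (nat_lit 0x200001800006000008000000000000000000000000000000000000000000000000000000000) (nat_lit 0x300000c0000100000000000000000000000000000000000000000000000000000000000000000000000000) (nat_lit 3)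
theorem c111260 : QOK q111260 := cut [q15793] ⟨c15793, trivial⟩ (nd (nat_lit 319) (nat_lit 0) (cs (rf (nat_lit 0)) (lf (nat_lit 30) (nat_lit 253)))) q111260 (by decide +kernel)
def q111308 : Q := Q.p (nat_lit 0x400001800006000020000000000000000000000000000000000000000000000000000000000) (nat_lit 0x2000000000000000100000c0000100000000000000000000000000000000000000000000000) (nat_lit 3)
theorem c111308 : QOK q111308 := cut [q90020] ⟨c90020, trivial⟩ (nd (nat_lit 232) (nat_lit 0) (cs (lf (nat_lit 35) (nat_lit 210)) (rf (nat_lit 0)))) q111308 (by decide +kernel)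
def q111441 : Q := Q.p (nat_lit 0x70000380000c000000000000000000000000000000000000000000000000000000000000000) (nat_lit 0x80000600001800000600000000000000000000000000000000000000000000000000000000000000000000) (nat_lit 4)
theorem c111441 : QOK q111441 := cut [q107837] ⟨c107837, trivial⟩ (nd (nat_lit 274) (nat_lit 0) (cs (lf (nat_lit 12) (nat_lit 251)) (nd (nat_lit 299) (nat_lit 0) (cs (lf (nat_lit 5) (nat_lit 274)) (rf (nat_lit 0)))))) q111441 (by decide +kernel)
def q111457 : Q := Q.p (nat_lit 0x1000006000008000000000000000000000000000000000000000000000000000000000) (nat_lit 0x400000800000000010000020000080000000000000000000000000000000000000000000000) (nat_lit 3)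
theorem c111457 : QOK q111457 := cut [q111456] ⟨c111456, trivial⟩ (nd (nat_lit 209) (nat_lit 0) (cs (lf (nat_lit 24) (nat_lit 187)) (rf (nat_lit 0)))) q111457 (by decide +kernel)
def q111466 : Q := Q.p (nat_lit 0x6000038000000000000000000000000000000000000000000000000000000000) (nat_lit 0x380000c700001c000000000000000000000000000000000000000000000000000) (nat_lit 6)
theorem c111466 : QOK q111466 := cut [q91992] ⟨c91992, trivial⟩ (nd (nat_lit 234) (nat_lit 0) (cs (lf (nat_lit 6) (nat_lit 231)) (nd (nat_lit 256) (nat_lit 0) (cs (lf (nat_lit 5) (nat_lit 231)) (nd (nat_lit 230) (nat_lit 0) (cs (lf (nat_lit 19) (nat_lit 230)) (nd (nat_lit 229) (nat_lit 0) (cs (lf (nat_lit 0) (nat_lit 228)) (rf (nat_lit 0)))))))))) q111466 (by decide +kernel)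
def q111473 : Q := Q.p (nat_lit 0x1000006000018000040000000000000000000000000000000000000000000000000000) (nat_lit 0x20000180000600000000000000000000000000000000000000000) (nat_lit 3)
theorem c111473 : QOK q111473 := cut [q85045] ⟨c85045, trivial⟩ (nd (nat_lit 187) (nat_lit 0) (cs (lf (nat_lit 25) (nat_lit 187)) (rf (nat_lit 0)))) q111473 (by decide +kernel)
def q111487 : Q := Q.p (nat_lit 0x400001000006000010000000000000000000000000000000000000000000000000000000000) (nat_lit 0x680003b0000ec000080000e0000180000000000000000000000000000000000000000000000000000) (nat_lit 8)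
theorem c111487 : QOK q111487 := cut [q103803] ⟨c103803, trivial⟩ (nd (nat_lit 299) (nat_lit 0) (cs (lf (nat_lit 29) (nat_lit 232)) (nd (nat_lit 277) (nat_lit 0) (cs (nd (nat_lit 297) (nat_lit 0) (cs (lf (nat_lit 41) (nat_lit 231)) (rf (nat_lit 0)))) (nd (nat_lit 233) (nat_lit 0) (cs (lf (nat_lit 35) (nat_lit 210)) (nd (nat_lit 234) (nat_lit 0) (cs (lf (nat_lit 6) (nat_lit 231)) (nd (nat_lit 255) (nat_lit 0) (cs (lf (nat_lit 35) (nat_lit 211)) (nd (nat_lit 300) (nat_lit 0) (cs (lf (nat_lit 29) (nat_lit 233)) (nd (nat_lit 275) (nat_lit 0) (cs (lf (nat_lit 18) (nat_lit 275)) (lf (nat_lit 0) (nat_lit 274)))))))))))))))) q111487 (by decide +kernel)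
def q111577 : Q := Q.p (nat_lit 0x200000800006000000000000000000000000000000000000000000000000000000000000000) (nat_lit 0x80000000000000000000018000040000100000000000000000000000000000000000000000000000) (nat_lit 3)
theorem c111577 : QOK q111577 := cut [q86322] ⟨c86322, trivial⟩ (nd (nat_lit 232) (nat_lit 0) (cs (lf (nat_lit 30) (nat_lit 231)) (rf (nat_lit 0)))) q111577 (by decide +kernel)
def q111578 : Q := Q.p (nat_lit 0x80000200000800006000000000000000000000000000000000000000000000000000000000000000) (nat_lit 0x4000030000040000000001000000000000000000000000000000000000000000000000000000000000000000000) (nat_lit 3)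
theorem c111578 : QOK q111578 := cut [q94164] ⟨c94164, trivial⟩ (nd (nat_lit 340) (nat_lit 0) (cs (lf (nat_lit 40) (nat_lit 252)) (rf (nat_lit 0)))) q111578 (by decide +kernel)
def q111623 : Q := Q.p (nat_lit 0x3c00006000000000000000000000000000000000000000000000000000000000000000) (nat_lit 0x300001c00000000000000000000000000000000000000000000000000000000000000) (nat_lit 3)
theorem c111623 : QOK q111623 := cut [q13423] ⟨c13423, trivial⟩ (nd (nat_lit 273) (nat_lit 0) (cs (rf (nat_lit 0)) (lf (nat_lit 12) (nat_lit 250)))) q111623 (by decide +kernel)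
def q111627 : Q := Q.p (nat_lit 0x1000006000010000040000000000000000000000000000000000000000000000000000) (nat_lit 0x4000000000018000e8000080000200000000000000000000000000000000000000000000000) (nat_lit 5)
theorem c111627 : QOK q111627 := cut [q104454] ⟨c104454, trivial⟩ (nd (nat_lit 211) (nat_lit 0) (cs (lf (nat_lit 35) (nat_lit 188)) (nd (nat_lit 233) (nat_lit 0) (cs (lf (nat_lit 30) (nat_lit 210)) (rf (nat_lit 0)))))) q111627 (by decide +kernel)
def q111647 : Q := Q.p (nat_lit 0xe00001800006000010000000000000000000000000000000000000000000000000000000000) (nat_lit 0x310000e000001000020000080000000000000000000000000000000000000000000000000000) (nat_lit 5)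
theorem c111647 : QOK q111647 := cut [q28781] ⟨c28781, trivial⟩ (nd (nat_lit 300) (nat_lit 0) (cs (lf (nat_lit 18) (nat_lit 275)) (nd (nat_lit 211) (nat_lit 0) (cs (rf (nat_lit 0)) (lf (nat_lit 34) (nat_lit 210)))))) q111647 (by decide +kernel)
def q111707 : Q := Q.p (nat_lit 0x200000800002000008000000000000000000000000000000000000000000000000000) (nat_lit 0x40000100000400000000004000030000040000000000000000000000000000000000000000) (nat_lit 4)
theorem c111707 : QOK q111707 := cut [q1238] ⟨c1238, trivial⟩ (nd (nat_lit 184) (nat_lit 0) (cs (lf (nat_lit 46) (nat_lit 184)) (nd (nat_lit 185) (nat_lit 0) (cs (rf (nat_lit 0)) (lf (nat_lit 47) (nat_lit 162)))))) q111707 (by decide +kernel)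
def q111826 : Q := Q.p (nat_lit 0x780000800002000000000000000000000000000000000000000000000000000000000000000) (nat_lit 0x10000040000300000000001000000000000000000000000000000000000000000000000000000000000000000000) (nat_lit 3)
theorem c111826 : QOK q111826 := cut [q25894] ⟨c25894, trivial⟩ (nd (nat_lit 320) (nat_lit 0) (cs (lf (nat_lit 5) (nat_lit 295)) (rf (nat_lit 0)))) q111826 (by decide +kernel)
def q111861 : Q := Q.p (nat_lit 0xc0000200000800004000000000000000000000000000000000000000000000000000000000000000) (nat_lit 0x6000018000060000000000100001400000000000000000000000000000000000000000000000000000000000000000000) (nat_lit 5)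
theorem c111861 : QOK q111861 := cut [q23382] ⟨c23382, trivial⟩ (nd (nat_lit 341) (nat_lit 0) (cs (rf (nat_lit 0)) (lf (nat_lit 34) (nat_lit 253)))) q111861 (by decide +kernel)
def q111868 : Q := Q.p (nat_lit 0x80000200000800006000000000000000000000000000000000000000000000000000000000000000) (nat_lit 0x2000000000040000100000100000c000030000080000000000000000000000000000000000000000000000) (nat_lit 5)
theorem c111868 : QOK q111868 := cut [q88849] ⟨c88849, trivial⟩ (nd (nat_lit 230) (nat_lit 0) (cs (lf (nat_lit 46) (nat_lit 230)) (nd (nat_lit 276) (nat_lit 0) (cs (lf (nat_lit 30) (nat_lit 253)) (nd (nat_lit 231) (nat_lit 0) (cs (lf (nat_lit 47) (nat_lit 208)) (rf (nat_lit 0)))))))) q111868 (by decide +kernel)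
def q111941 : Q := Q.p (nat_lit 0x1e000000000000000000000000000000000000000000000000000000000000000) (nat_lit 0x20000180000ec000000000ec000380000e00003800008000000000000000000000000000000000000) (nat_lit 9)
theorem c111941 : QOK q111941 := cut [q80472, q15775] ⟨c80472, c15775, trivial⟩ (nd (nat_lit 234) (nat_lit 0) (cs (lf (nat_lit 17) (nat_lit 231)) (nd (nat_lit 212) (nat_lit 0) (cs (rf (nat_lit 0)) (cs (nd (nat_lit 230) (nat_lit 0) (cs (lf (nat_lit 22) (nat_lit 230)) (nd (nat_lit 278) (nat_lit 0) (cs (lf (nat_lit 5) (nat_lit 253)) (nd (nat_lit 299) (nat_lit 0) (cs (lf (nat_lit 40) (nat_lit 211)) (nd (nat_lit 274) (nat_lit 0) (cs (lf (nat_lit 10) (nat_lit 252)) (nd (nat_lit 300) (nat_lit 0) (cs (lf (nat_lit 41) (nat_lit 233)) (nd (nat_lit 211) (nat_lit 0) (cs (lf (nat_lit 47) (nat_lit 189)) (lf (nat_lit 46) (nat_lit 211)))))))))))))) (nd (nat_lit 278) (nat_lit 0) (cs (lf (nat_lit 5) (nat_lit 253)) (nd (nat_lit 191) (nat_lit 0) (cs (lf (nat_lit 34) (nat_lit 190)) (nd (nat_lit 190) (nat_lit 0) (cs (lf (nat_lit 35) (nat_lit 168)) (rf (nat_lit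 1))))))))))))) q111941 (by decide +kernel)
def q111992 : Q := Q.p (nat_lit 0xe000020000080000100000000000000000000000000000000000000000000000) (nat_lit 0x1000006000001000000000040000000000000000000000000000000000000000000000000000) (nat_lit 3)
theorem c111992 : QOK q111992 := cut [q80899] ⟨c80899, trivial⟩ (nd (nat_lit 277) (nat_lit 0) (cs (rf (nat_lit 0)) (lf (nat_lit 46) (nat_lit 188)))) q111992 (by decide +kernel)
def q112087 : Q := Q.p (nat_lit 0x100000e000018000060000000000000000000000000000000000000000000000000000) (nat_lit 0x300000e00000000000000000000000000000000000000000000000000000000000000000000) (nat_lit 3)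
theorem c112087 : QOK q112087 := cut [q112086] ⟨c112086, trivial⟩ (nd (nat_lit 275) (nat_lit 0) (cs (lf (nat_lit 30) (nat_lit 209)) (rf (nat_lit 0)))) q112087 (by decide +kernel)
def q112168 : Q := Q.p (nat_lit 0x20000680000c000010000000000000000000000000000000000000000000000000000000000) (nat_lit 0x200000d00001000000000000000000000000000000000000000000000000000000000000000000000) (nat_lit 3)
theorem c112168 : QOK q112168 := cut [q81249] ⟨c81249, trivial⟩ (nd (nat_lit 299) (nat_lit 0) (cs (lf (nat_lit 42) (nat_lit 232)) (rf (nat_lit 0)))) q112168 (by decide +kernel)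
def q112172 : Q := Q.p (nat_lit 0x400001e000010000000000000000000000000000000000000000000000000000000000) (nat_lit 0x10000000000600000e8000080000200000000000000000000000000000000000000000000000) (nat_lit 5)
theorem c112172 : QOK q112172 := cut [q98207] ⟨c98207, trivial⟩ (nd (nat_lit 234) (nat_lit 0) (cs (lf (nat_lit 17) (nat_lit 231)) (nd (nat_lit 257) (nat_lit 0) (cs (lf (nat_lit 23) (nat_lit 231)) (nd (nat_lit 233) (nat_lit 0) (cs (lf (nat_lit 18) (nat_lit 232)) (rf (nat_lit 0)))))))) q112172 (by decide +kernel)
def q112284 : Q := Q.p (nat_lit 0x80000e000000000000000000000000000000000000000000000000000000000000000) (nat_lit 0x800002000384000700001f8000000000000000000000000000000000000000000000000000000000) (nat_lit 8)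
theorem c112284 : QOK q112284 := cut [q80530] ⟨c80530, trivial⟩ (nd (nat_lit 256) (nat_lit 0) (cs (lf (nat_lit 11) (nat_lit 252)) (nd (nat_lit 235) (nat_lit 0) (cs (lf (nat_lit 16) (nat_lit 231)) (nd (nat_lit 257) (nat_lit 0) (cs (lf (nat_lit 17) (nat_lit 232)) (nd (nat_lit 232) (nat_lit 0) (cs (lf (nat_lit 23) (nat_lit 231)) (nd (nat_lit 297) (nat_lit 0) (cs (lf (nat_lit 30) (nat_lit 231)) (nd (nat_lit 258) (nat_lit 0) (cs (rf (nat_lit 0)) (lf (nat_lit 22) (nat_lit 232)))))))))))))) q112284 (by decide +kernel)
def q112286 : Q := Q.p (nat_lit 0x80000e000000000000000000000000000000000000000000000000000000000000000) (nat_lit 0x14000300001c0000000000000000000000000000000000000000000000000000000000) (nat_lit 4)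
theorem c112286 : QOK q112286 := cut [q82006] ⟨c82006, trivial⟩ (nd (nat_lit 256) (nat_lit 0) (cs (lf (nat_lit 11) (nat_lit 252)) (nd (nat_lit 235) (nat_lit 0) (cs (lf (nat_lit 16) (nat_lit 231)) (rf (nat_lit 0)))))) q112286 (by decide +kernel)
def q112327 : Q := Q.p (nat_lit 0x1000006000008000000000000000000000000000000000000000000000000000000000) (nat_lit 0x100000400000800000000010000020000000000000000000000000000000000000000000000000000) (nat_lit 3)
theorem c112327 : QOK q112327 := cut [q112110] ⟨c112110, trivial⟩ (nd (nat_lit 298) (nat_lit 0) (cs (lf (nat_lit 42) (nat_lit 231)) (rf (nat_lit 0)))) q112327 (by decide +kernel)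
def q112341 : Q := Q.p (nat_lit 0x300000e000010000000000000000000000000000000000000000000000000000) (nat_lit 0x40000000001000000e0000e0000380000000000000000000000000000000000000000) (nat_lit 6)
theorem c112341 : QOK q112341 := cut [q5143] ⟨c5143, trivial⟩ (nd (nat_lit 186) (nat_lit 0) (cs (lf (nat_lit 24) (nat_lit 164)) (nd (nat_lit 165) (nat_lit 0) (cs (lf (nat_lit 34) (nat_lit 164)) (nd (nat_lit 185) (nat_lit 0) (cs (lf (nat_lit 47) (nat_lit 163)) (nd (nat_lit 207) (nat_lit 0) (cs (lf (nat_lit 42) (nat_lit 185)) (rf (nat_lit 0)))))))))) q112341 (by decide +kernel)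
def q112405 : Q := Q.p (nat_lit 0xe000018000060000000000000000000000000000000000000000000000000000) (nat_lit 0x1c0000f000000000026000380000600000000000000000000000000000000000000000000000) (nat_lit 8)
theorem c112405 : QOK q112405 := cut [q97352] ⟨c97352, trivial⟩ (nd (nat_lit 276) (nat_lit 0) (cs (lf (nat_lit 42) (nat_lit 209)) (nd (nat_lit 277) (nat_lit 0) (cs (lf (nat_lit 29) (nat_lit 210)) (nd (nat_lit 278) (nat_lit 0) (cs (lf (nat_lit 18) (nat_lit 253)) (nd (nat_lit 229) (nat_lit 0) (cs (lf (nat_lit 1) (nat_lit 229)) (nd (nat_lit 211) (nat_lit 0) (cs (lf (nat_lit 35) (nat_lit 188)) (nd (nat_lit 233) (nat_lit 0) (cs (lf (nat_lit 29) (nat_lit 211)) (rf (nat_lit 0)))))))))))))) q112405 (by decide +kernel)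
def q112464 : Q := Q.p (nat_lit 0x7000034000010000000000000000000000000000000000000000000000000000) (nat_lit 0x80000600008000008000008000020000000000000000000000000000000000000000000000) (nat_lit 4)
theorem c112464 : QOK q112464 := cut [q112462] ⟨c112462, trivial⟩ (nd (nat_lit 207) (nat_lit 0) (cs (lf (nat_lit 20) (nat_lit 207)) (nd (nat_lit 274) (nat_lit 0) (cs (lf (nat_lit 47) (nat_lit 185)) (rf (nat_lit 0)))))) q112464 (by decide +kernel)
def q112708 : Q := Q.p (nat_lit 0x80000700000c0000000000000000000000000000000000000000000000000000) (nat_lit 0x800002000000000008000700000400000000000000000000000000000000000000000000000) (nat_lit 4)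
theorem c112708 : QOK q112708 := cut [q112252] ⟨c112252, trivial⟩ (nd (nat_lit 277) (nat_lit 0) (cs (lf (nat_lit 42) (nat_lit 210)) (nd (nat_lit 212) (nat_lit 0) (cs (lf (nat_lit 35) (nat_lit 189)) (rf (nat_lit 0)))))) q112708 (by decide +kernel)
def q112716 : Q := Q.p (nat_lit 0x60000300000c0000000000000000000000000000000000000000000000000000) (nat_lit 0x4000010000000000c0000030000080000000000000000000000000000000000000000000000) (nat_lit 4)
theorem c112716 : QOK q112716 := cut [q103074] ⟨c103074, trivial⟩ (nd (nat_lit 234) (nat_lit 0) (cs (lf (nat_lit 6) (nat_lit 231)) (rf (nat_lit 0)))) q112716 (by decide +kernel)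
def q112750 : Q := Q.p (nat_lit 0x80000600001c000000000000000000000000000000000000000000000000000000000) (nat_lit 0x30000c0000100000000000000000000000000000000000000000000000) (nat_lit 3)
theorem c112750 : QOK q112750 := cut [q98319] ⟨c98319, trivial⟩ (nd (nat_lit 229) (nat_lit 0) (cs (lf (nat_lit 0) (nat_lit 228)) (rf (nat_lit 0)))) q112750 (by decide +kernel)
def q112779 : Q := Q.p (nat_lit 0x1e00002000008000000000000000000000000000000000000000000000000000000000) (nat_lit 0x40000100000c00000000004000000000000000000000000000000000000000000000000000000000000000) (nat_lit 3)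
theorem c112779 : QOK q112779 := cut [q97350] ⟨c97350, trivial⟩ (nd (nat_lit 298) (nat_lit 0) (cs (lf (nat_lit 5) (nat_lit 273)) (rf (nat_lit 0)))) q112779 (by decide +kernel)
def q112785 : Q := Q.p (nat_lit 0x200000800002000008000000000000000000000000000000000000000000000000000000000) (nat_lit 0x140000500001000000000004000030000040000000000000000000000000000000000000000000000) (nat_lit 5)
theorem c112785 : QOK q112785 := cut [q88935] ⟨c88935, trivial⟩ (nd (nat_lit 208) (nat_lit 0) (cs (lf (nat_lit 46) (nat_lit 208)) (nd (nat_lit 296) (nat_lit 0) (cs (lf (nat_lit 41) (nat_lit 230)) (rf (nat_lit 0)))))) q112785 (by decide +kernel)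
def q112814 : Q := Q.p (nat_lit 0x800006000010000000000000000000000000000000000000000000000000000000000) (nat_lit 0x80000200001000000000000000040000100000000000000000000000000000000000000000000000) (nat_lit 3)
theorem c112814 : QOK q112814 := cut [q79276] ⟨c79276, trivial⟩ (nd (nat_lit 210) (nat_lit 0) (cs (lf (nat_lit 36) (nat_lit 187)) (rf (nat_lit 0)))) q112814 (by decide +kernel)
def q112857 : Q := Q.p (nat_lit 0x100000c00007000000000000000000000000000000000000000000000000000000000000000) (nat_lit 0x300000c0000200000000000000014000000000000000000000000000000000000000000000000000000000) (nat_lit 4)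
theorem c112857 : QOK q112857 := cut [q106236] ⟨c106236, trivial⟩ (nd (nat_lit 318) (nat_lit 0) (cs (lf (nat_lit 30) (nat_lit 252)) (nd (nat_lit 319) (nat_lit 0) (cs (lf (nat_lit 29) (nat_lit 252)) (rf (nat_lit 0)))))) q112857 (by decide +kernel)
def q112906 : Q := Q.p (nat_lit 0x20000080000200000800000000000000000000000000000000000000000000000000000000000000) (nat_lit 0x4000010000040000000001000006000010000000000000000000000000000000000000000000000000000) (nat_lit 4)
theorem c112906 : QOK q112906 := cut [q41526] ⟨c41526, trivial⟩ (nd (nat_lit 230) (nat_lit 0) (cs (lf (nat_lit 34) (nat_lit 229)) (nd (nat_lit 229) (nat_lit 0) (cs (rf (nat_lit 0)) (lf (nat_lit 35) (nat_lit 207)))))) q112906 (by decide +kernel)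
def q112950 : Q := Q.p (nat_lit 0x80000f000000000000000000000000000000000000000000000000000000000000000) (nat_lit 0xe400010000000000000000000000000000000000000000000000000000000000000000) (nat_lit 3)
theorem c112950 : QOK q112950 := cut [q82257] ⟨c82257, trivial⟩ (nd (nat_lit 256) (nat_lit 0) (cs (lf (nat_lit 11) (nat_lit 252)) (rf (nat_lit 0)))) q112950 (by decide +kernel)
def q113066 : Q := Q.p (nat_lit 0x800007800000000000000000000000000000000000000000000000000000000000000) (nat_lit 0x20000080000740003800003c000040000100000000000000000000000000000000000000000000000) (nat_lit 8)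
theorem c113066 : QOK q113066 := cut [q95737] ⟨c95737, trivial⟩ (nd (nat_lit 232) (nat_lit 0) (cs (lf (nat_lit 17) (nat_lit 229)) (nd (nat_lit 188) (nat_lit 0) (cs (lf (nat_lit 37) (nat_lit 187)) (nd (nat_lit 277) (nat_lit 0) (cs (lf (nat_lit 4) (nat_lit 251)) (nd (nat_lit 255) (nat_lit 0) (cs (lf (nat_lit 5) (nat_lit 252)) (nd (nat_lit 299) (nat_lit 0) (cs (lf (nat_lit 42) (nat_lit 232)) (nd (nat_lit 256) (nat_lit 0) (cs (lf (nat_lit 11) (nat_lit 252)) (rf (nat_lit 0)))))))))))))) q113066 (by decide +kernel)
def q113133 : Q := Q.p (nat_lit 0x800002000008000020000000000000000000000000000000000000000000000000000) (nat_lit 0x4000010000040000400001c0000700000400000000000000000000000000000000000) (nat_lit 6)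
theorem c113133 : QOK q113133 := cut [q10395] ⟨c10395, trivial⟩ (nd (nat_lit 188) (nat_lit 0) (cs (lf (nat_lit 34) (nat_lit 187)) (nd (nat_lit 187) (nat_lit 0) (cs (lf (nat_lit 35) (nat_lit 165)) (nd (nat_lit 164) (nat_lit 0) (cs (lf (nat_lit 46) (nat_lit 164)) (nd (nat_lit 165) (nat_lit 0) (cs (lf (nat_lit 47) (nat_lit 142)) (rf (nat_lit 0)))))))))) q113133 (by decide +kernel)
def q113148 : Q := Q.p (nat_lit 0x80000200000800002000000000000000000000000000000000000000000000000000000000000000) (nat_lit 0x4000030000040000000001000004000010000000000000000000000000000000000000000000000000000000000) (nat_lit 4)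
theorem c113148 : QOK q113148 := cut [q113147] ⟨c113147, trivial⟩ (nd (nat_lit 340) (nat_lit 0) (cs (lf (nat_lit 40) (nat_lit 252)) (rf (nat_lit 0)))) q113148 (by decide +kernel)
def q113156 : Q := Q.p (nat_lit 0x80000200000800002000000000000000000000000000000000000000000000000000000000000000) (nat_lit 0x400001c000070000040000400001000004000000000000000000000000000000000000000000000000000000000000000) (nat_lit 6)
theorem c113156 : QOK q113156 := cut [q16998] ⟨c16998, trivial⟩ (nd (nat_lit 340) (nat_lit 0) (cs (lf (nat_lit 40) (nat_lit 252)) (nd (nat_lit 341) (nat_lit 0) (cs (lf (nat_lit 41) (nat_lit 274)) (nd (nat_lit 276) (nat_lit 0) (cs (lf (nat_lit 35) (nat_lit 253)) (nd (nat_lit 363) (nat_lit 0) (cs (lf (nat_lit 34) (nat_lit 275)) (rf (nat_lit 0)))))))))) q113156 (by decide +kernel)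
def q113158 : Q := Q.p (nat_lit 0x80000200000800002000000000000000000000000000000000000000000000000000000000000000) (nat_lit 0x1000004000010000000000100000c000010000000000000000000000000000000000000000000000000000) (nat_lit 4)
theorem c113158 : QOK q113158 := cut [q99297] ⟨c99297, trivial⟩ (nd (nat_lit 318) (nat_lit 0) (cs (lf (nat_lit 41) (nat_lit 252)) (nd (nat_lit 231) (nat_lit 0) (cs (lf (nat_lit 40) (nat_lit 230)) (rf (nat_lit 0)))))) q113158 (by decide +kernel)
def q113188 : Q := Q.p (nat_lit 0x700000c00003000000000000000000000000000000000000000000000000000000000000000) (nat_lit 0x18000078000080000000000000000000000000000000000000000000000000000000000000000000000000) (nat_lit 4)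
theorem c113188 : QOK q113188 := cut [q14315] ⟨c14315, trivial⟩ (nd (nat_lit 318) (nat_lit 0) (cs (lf (nat_lit 30) (nat_lit 252)) (nd (nat_lit 317) (nat_lit 0) (cs (lf (nat_lit 41) (nat_lit 251)) (rf (nat_lit 0)))))) q113188 (by decide +kernel)
def q113222 : Q := Q.p (nat_lit 0x200003800004000000000000000000000000000000000000000000000000000000000) (nat_lit 0x2000008000010000c000003000000000000000000000000000000000000000000000000000000000) (nat_lit 4)
theorem c113222 : QOK q113222 := cut [q98875] ⟨c98875, trivial⟩ (nd (nat_lit 295) (nat_lit 0) (cs (lf (nat_lit 30) (nat_lit 229)) (nd (nat_lit 254) (nat_lit 0) (cs (lf (nat_lit 11) (nat_lit 250)) (rf (nat_lit 0)))))) q113222 (by decide +kernel)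
def q113278 : Q := Q.p (nat_lit 0x3c00002000000000000000000000000000000000000000000000000000000000000000) (nat_lit 0x10000040000380000000001800008000020000000000000000000000000000000000000000000000000000) (nat_lit 5)
theorem c113278 : QOK q113278 := cut [q15996] ⟨c15996, trivial⟩ (nd (nat_lit 296) (nat_lit 0) (cs (lf (nat_lit 11) (nat_lit 273)) (nd (nat_lit 251) (nat_lit 0) (cs (lf (nat_lit 22) (nat_lit 251)) (rf (nat_lit 0)))))) q113278 (by decide +kernel)
def q113288 : Q := Q.p (nat_lit 0x3c00000000000000000000000000000000000000000000000000000000000000000000) (nat_lit 0x1c000020001c000000000000000000000000000000000000000000000000000000000000000) (nat_lit 4)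
theorem c113288 : QOK q113288 := cut [q101204] ⟨c101204, trivial⟩ (nd (nat_lit 295) (nat_lit 0) (cs (lf (nat_lit 10) (nat_lit 273)) (nd (nat_lit 273) (nat_lit 0) (cs (lf (nat_lit 11) (nat_lit 272)) (rf (nat_lit 0)))))) q113288 (by decide +kernel)
def q113295 : Q := Q.p (nat_lit 0x7800002000000000000000000000000000000000000000000000000000000000000000) (nat_lit 0x7000008000004000000000000000000000000000000000000000000000000000000000000000) (nat_lit 3)
theorem c113295 : QOK q113295 := cut [q12823] ⟨c12823, trivial⟩ (nd (nat_lit 279) (nat_lit 0) (cs (rf (nat_lit 0)) (lf (nat_lit 22) (nat_lit 253)))) q113295 (by decide +kernel)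
def q113314 : Q := Q.p (nat_lit 0x3c00000000000000000000000000000000000000000000000000000000000000000000) (nat_lit 0x20001dc00000000000000000000000000000000000000000000000000000000000000) (nat_lit 4)
theorem c113314 : QOK q113314 := cut [q96281] ⟨c96281, trivial⟩ (nd (nat_lit 251) (nat_lit 0) (cs (lf (nat_lit 22) (nat_lit 251)) (nd (nat_lit 255) (nat_lit 0) (cs (lf (nat_lit 17) (nat_lit 252)) (rf (nat_lit 0)))))) q113314 (by decide +kernel)
def q113375 : Q := Q.p (nat_lit 0x40000200000c00006000000000000000000000000000000000000000000000000000000000000000) (nat_lit 0x30000080000000001000019000000000000000000000000000000000000000000000000000000000000000) (nat_lit 4)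
theorem c113375 : QOK q113375 := cut [q113373] ⟨c113373, trivial⟩ (nd (nat_lit 255) (nat_lit 0) (cs (lf (nat_lit 6) (nat_lit 252)) (nd (nat_lit 319) (nat_lit 0) (cs (lf (nat_lit 41) (nat_lit 252)) (rf (nat_lit 0)))))) q113375 (by decide +kernel)
def q113377 : Q := Q.p (nat_lit 0x2c00007000000000000000000000000000000000000000000000000000000000000000) (nat_lit 0x1000000e00003800000000000000000000000000000000000000000000000000000000) (nat_lit 4)
theorem c113377 : QOK q113377 := cut [q79022] ⟨c79022, trivial⟩ (nd (nat_lit 251) (nat_lit 0) (cs (lf (nat_lit 19) (nat_lit 251)) (nd (nat_lit 250) (nat_lit 0) (cs (lf (nat_lit 0) (nat_lit 249)) (rf (nat_lit 0)))))) q113377 (by decide +kernel)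
def q113384 : Q := Q.p (nat_lit 0x40000300003c00001000000000000000000000000000000000000000000000000000000000000000) (nat_lit 0x8000020001c00000000000000000000000000000000000000000000000000000000000000000000000000) (nat_lit 3)
theorem c113384 : QOK q113384 := cut [q81960] ⟨c81960, trivial⟩ (nd (nat_lit 299) (nat_lit 0) (cs (lf (nat_lit 5) (nat_lit 274)) (rf (nat_lit 0)))) q113384 (by decide +kernel)
def q113394 : Q := Q.p (nat_lit 0x200001800006000000000000000000000000000000000000000000000000000000000000000) (nat_lit 0x300000c0000500000000000000008000020000080000000000000000000000000000000000000000000000) (nat_lit 5)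
theorem c113394 : QOK q113394 := cut [q88849] ⟨c88849, trivial⟩ (nd (nat_lit 319) (nat_lit 0) (cs (lf (nat_lit 30) (nat_lit 253)) (nd (nat_lit 318) (nat_lit 0) (cs (lf (nat_lit 41) (nat_lit 252)) (nd (nat_lit 231) (nat_lit 0) (cs (lf (nat_lit 40) (nat_lit 230)) (rf (nat_lit 0)))))))) q113394 (by decide +kernel)
def q113414 : Q := Q.p (nat_lit 0x300000c00006000000000000000000000000000000000000000000000000000000000000000) (nat_lit 0x10000240001880007000019800072000040000000000000000000000000000000000000000000000000000) (nat_lit 7)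
theorem c113414 : QOK q113414 := cut [q15728, q109222] ⟨c15728, c109222, trivial⟩ (nd (nat_lit 277) (nat_lit 0) (cs (rf (nat_lit 0)) (cs (rf (nat_lit 1)) (nd (nat_lit 318) (nat_lit 0) (cs (lf (nat_lit 30) (nat_lit 252)) (nd (nat_lit 255) (nat_lit 0) (cs (lf (nat_lit 6) (nat_lit 252)) (nd (nat_lit 252) (nat_lit 0) (cs (lf (nat_lit 5) (nat_lit 252)) (nd (nat_lit 233) (nat_lit 0) (cs (lf (nat_lit 17) (nat_lit 230)) (nd (nat_lit 251) (nat_lit 0) (cs (lf (nat_lit 47) (nat_lit 229)) (lf (nat_lit 16) (nat_lit 229))))))))))))))) q113414 (by decide +kernel)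
def q113419 : Q := Q.p (nat_lit 0x300001c00006000000000000000000000000000000000000000000000000000000000000000) (nat_lit 0x10000040000cc0000300001c00002000008000000000000000000000000000000000000000000000000000) (nat_lit 7)
theorem c113419 : QOK q113419 := cut [q23267] ⟨c23267, trivial⟩ (nd (nat_lit 273) (nat_lit 0) (cs (lf (nat_lit 12) (nat_lit 250)) (nd (nat_lit 294) (nat_lit 0) (cs (lf (nat_lit 13) (nat_lit 272)) (nd (nat_lit 298) (nat_lit 0) (cs (lf (nat_lit 5) (nat_lit 273)) (nd (nat_lit 251) (nat_lit 0) (cs (lf (nat_lit 23) (nat_lit 250)) (nd (nat_lit 318) (nat_lit 0) (cs (lf (nat_lit 30) (nat_lit 252)) (rf (nat_lit 0)))))))))))) q113419 (by decide +kernel)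
def q113423 : Q := Q.p (nat_lit 0x300001c00006000000000000000000000000000000000000000000000000000000000000000) (nat_lit 0x10000040001c00006300000000000000000000000000000000000000000000000000000000000000000000) (nat_lit 5)
theorem c113423 : QOK q113423 := cut [q113422] ⟨c113422, trivial⟩ (nd (nat_lit 318) (nat_lit 0) (cs (lf (nat_lit 30) (nat_lit 252)) (rf (nat_lit 0)))) q113423 (by decide +kernel)
def q113443 : Q := Q.p (nat_lit 0x300001800000000000000000000000000000000000000000000000000000000000000000000) (nat_lit 0x4c0002400000000000000000000000000000000000000000000000000000000000000000000) (nat_lit 3)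
theorem c113443 : QOK q113443 := cut [q101528] ⟨c101528, trivial⟩ (nd (nat_lit 295) (nat_lit 0) (cs (lf (nat_lit 12) (nat_lit 272)) (rf (nat_lit 0)))) q113443 (by decide +kernel)
def q113461 : Q := Q.p (nat_lit 0x200000800006000000000000000000000000000000000000000000000000000000000000000) (nat_lit 0xc00007c0007c00005c0000700019000010000000000000000000000000000000000000000000000000000000000) (nat_lit 12)
theorem c113461 : QOK q113461 := cut [q11808] ⟨c11808, trivial⟩ (nd (nat_lit 319) (nat_lit 0) (cs (lf (nat_lit 35) (nat_lit 231)) (nd (nat_lit 320) (nat_lit 0) (cs (lf (nat_lit 29) (nat_lit 253)) (nd (nat_lit 340) (nat_lit 0) (cs (lf (nat_lit 40) (nat_lit 252)) (nd (nat_lit 341) (nat_lit 0) (cs (lf (nat_lit 41) (nat_lit 274)) (nd (nat_lit 338) (nat_lit 0) (cs (lf (nat_lit 13) (nat_lit 316)) (nd (nat_lit 321) (nat_lit 0) (cs (lf (nat_lit 6) (nat_lit 318)) (nd (nat_lit 274) (nat_lit 0) (cs (lf (nat_lit 47) (nat_lit 252)) (nd (nat_lit 255) (nat_lit 0) (cs (lf (nat_lit 6) (nat_lit 252)) (nd (nat_lit 272) (nat_lit 0) (cs (lf (nat_lit 13) (nat_lit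 250)) (nd (nat_lit 296) (nat_lit 0) (cs (lf (nat_lit 42) (nat_lit 274)) (rf (nat_lit 0)))))))))))))))))))))) q113461 (by decide +kernel)
def q113466 : Q := Q.p (nat_lit 0x20000080000f000000000000000000000000000000000000000000000000000000000000000) (nat_lit 0x1000000800070000040000100000000000000000000000000000000000000000000000) (nat_lit 4)
theorem c113466 : QOK q113466 := cut [q79198] ⟨c79198, trivial⟩ (nd (nat_lit 233) (nat_lit 0) (cs (lf (nat_lit 17) (nat_lit 230)) (nd (nat_lit 232) (nat_lit 0) (cs (lf (nat_lit 12) (nat_lit 229)) (rf (nat_lit 0)))))) q113466 (by decide +kernel)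
def q113495 : Q := Q.p (nat_lit 0x20000380000e000000000000000000000000000000000000000000000000000000000000000) (nat_lit 0x90000660001d80000600000000010000040000000000000000000000000000000000000000000000000000) (nat_lit 8)
theorem c113495 : QOK q113495 := cut [q107837] ⟨c107837, trivial⟩ (nd (nat_lit 274) (nat_lit 0) (cs (lf (nat_lit 12) (nat_lit 251)) (nd (nat_lit 210) (nat_lit 0) (cs (lf (nat_lit 37) (nat_lit 209)) (nd (nat_lit 296) (nat_lit 0) (cs (lf (nat_lit 11) (nat_lit 273)) (nd (nat_lit 318) (nat_lit 0) (cs (lf (nat_lit 30) (nat_lit 252)) (nd (nat_lit 299) (nat_lit 0) (cs (lf (nat_lit 5) (nat_lit 274)) (nd (nat_lit 298) (nat_lit 0) (cs (lf (nat_lit 11) (nat_lit 295)) (rf (nat_lit 0)))))))))))))) q113495 (by decide +kernel)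
def q113502 : Q := Q.p (nat_lit 0x200000f000000000000000000000000000000000000000000000000000000000000000) (nat_lit 0x1000000800070000000000000000000000000000000000000000000000000000000000) (nat_lit 3)
theorem c113502 : QOK q113502 := cut [q81052] ⟨c81052, trivial⟩ (nd (nat_lit 251) (nat_lit 0) (cs (lf (nat_lit 4) (nat_lit 251)) (rf (nat_lit 0)))) q113502 (by decide +kernel)
def q113519 : Q := Q.p (nat_lit 0x8000060000080000e000000000000000000000000000000000000000000000000000000000000000) (nat_lit 0xc0000700000180001000000000020000000000000000000000000000000000000000000000000000000000) (nat_lit 5)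
theorem c113519 : QOK q113519 := cut [q99957] ⟨c99957, trivial⟩ (nd (nat_lit 320) (nat_lit 0) (cs (lf (nat_lit 29) (nat_lit 253)) (nd (nat_lit 276) (nat_lit 0) (cs (lf (nat_lit 35) (nat_lit 232)) (rf (nat_lit 0)))))) q113519 (by decide +kernel)
def q113525 : Q := Q.p (nat_lit 0x1c0000600001000004000000000000000000000000000000000000000000000000000000000000000) (nat_lit 0x80000e30000100000000000000000000000000000000000000000000000000000000000000000000000000) (nat_lit 4)
theorem c113525 : QOK q113525 := cut [q100211] ⟨c100211, trivial⟩ (nd (nat_lit 316) (nat_lit 0) (cs (lf (nat_lit 13) (nat_lit 294)) (rf (nat_lit 0)))) q113525 (by decide +kernel)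
def q113540 : Q := Q.p (nat_lit 0x10000038000000000000000000000000000000000000000000000000000000000) (nat_lit 0x4000020000044000380000200000800000000000000000000000000000000000000000) (nat_lit 5)
theorem c113540 : QOK q113540 := cut [q97303] ⟨c97303, trivial⟩ (nd (nat_lit 234) (nat_lit 0) (cs (lf (nat_lit 5) (nat_lit 231)) (nd (nat_lit 212) (nat_lit 0) (cs (lf (nat_lit 17) (nat_lit 209)) (nd (nat_lit 211) (nat_lit 0) (cs (lf (nat_lit 12) (nat_lit 208)) (rf (nat_lit 0)))))))) q113540 (by decide +kernel)
def q113593 : Q := Q.p (nat_lit 0x380000a000008000000000000000000000000000000000000000000000000000000000) (nat_lit 0x400034000004000000000000000000000000000000000000000000000000000000000) (nat_lit 3)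
theorem c113593 : QOK q113593 := cut [q113592] ⟨c113592, trivial⟩ (nd (nat_lit 256) (nat_lit 0) (cs (lf (nat_lit 12) (nat_lit 252)) (rf (nat_lit 0)))) q113593 (by decide +kernel)
def q113594 : Q := Q.p (nat_lit 0x3800008000000000000000000000000000000000000000000000000000000000000000) (nat_lit 0x1c00000600011c00000000000000000000000000000000000000000000000000000000000000) (nat_lit 5)
theorem c113594 : QOK q113594 := cut [q22169] ⟨c22169, trivial⟩ (nd (nat_lit 274) (nat_lit 0) (cs (lf (nat_lit 17) (nat_lit 252)) (rf (nat_lit 0)))) q113594 (by decide +kernel)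
def q113828 : Q := Q.p (nat_lit 0x80000e000030000000000000000000000000000000000000000000000000000000000) (nat_lit 0x300000c000076000018000000000c0000300000c00000000000000000000000000000000000000000) (nat_lit 9)
theorem c113828 : QOK q113828 := cut [q86744] ⟨c86744, trivial⟩ (nd (nat_lit 252) (nat_lit 0) (cs (lf (nat_lit 12) (nat_lit 229)) (nd (nat_lit 188) (nat_lit 0) (cs (lf (nat_lit 37) (nat_lit 187)) (nd (nat_lit 273) (nat_lit 0) (cs (lf (nat_lit 10) (nat_lit 251)) (nd (nat_lit 277) (nat_lit 0) (cs (lf (nat_lit 5) (nat_lit 252)) (nd (nat_lit 299) (nat_lit 0) (cs (lf (nat_lit 42) (nat_lit 232)) (nd (nat_lit 298) (nat_lit 0) (cs (lf (nat_lit 41) (nat_lit 232)) (nd (nat_lit 211) (nat_lit 0) (cs (lf (nat_lit 40) (nat_lit 210)) (rf (nat_lit 0)))))))))))))))) q113828 (by decide +kernel)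
def q113839 : Q := Q.p (nat_lit 0x80000e000038000000000000000000000000000000000000000000000000000000000) (nat_lit 0x240001980007600001800000000040000100000000000000000000000000000000000000000000000) (nat_lit 8)
theorem c113839 : QOK q113839 := cut [q101778] ⟨c101778, trivial⟩ (nd (nat_lit 252) (nat_lit 0) (cs (lf (nat_lit 12) (nat_lit 229)) (nd (nat_lit 188) (nat_lit 0) (cs (lf (nat_lit 37) (nat_lit 187)) (nd (nat_lit 274) (nat_lit 0) (cs (lf (nat_lit 11) (nat_lit 251)) (nd (nat_lit 296) (nat_lit 0) (cs (lf (nat_lit 30) (nat_lit 230)) (nd (nat_lit 277) (nat_lit 0) (cs (lf (nat_lit 5) (nat_lit 252)) (nd (nat_lit 276) (nat_lit 0) (cs (lf (nat_lit 11) (nat_lit 273)) (rf (nat_lit 0)))))))))))))) q113839 (by decide +kernel)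
def q113847 : Q := Q.p (nat_lit 0x200001800003000008000000000000000000000000000000000000000000000000000000000) (nat_lit 0x400001c0006400000000000000000000000000000000000000000000000000000000000000000000) (nat_lit 4)
theorem c113847 : QOK q113847 := cut [q81196] ⟨c81196, trivial⟩ (nd (nat_lit 277) (nat_lit 0) (cs (lf (nat_lit 18) (nat_lit 252)) (nd (nat_lit 296) (nat_lit 0) (cs (lf (nat_lit 41) (nat_lit 230)) (rf (nat_lit 0)))))) q113847 (by decide +kernel)
def q113849 : Q := Q.p (nat_lit 0x200001800003000038000000000000000000000000000000000000000000000000000000000) (nat_lit 0x10000040000600000c000000000080000000000000000000000000000000000000000000000000000) (nat_lit 4)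
theorem c113849 : QOK q113849 := cut [q15415] ⟨c15415, trivial⟩ (nd (nat_lit 298) (nat_lit 0) (cs (lf (nat_lit 29) (nat_lit 231)) (nd (nat_lit 211) (nat_lit 0) (cs (rf (nat_lit 0)) (lf (nat_lit 32) (nat_lit 210)))))) q113849 (by decide +kernel)
def q113871 : Q := Q.p (nat_lit 0x200000800002000008000000000000000000000000000000000000000000000000000000000) (nat_lit 0x20000080000100000400001000014000060000180000000000000000000000000000000000000000000000) (nat_lit 6)
theorem c113871 : QOK q113871 := cut [q86873] ⟨c86873, trivial⟩ (nd (nat_lit 210) (nat_lit 0) (cs (lf (nat_lit 34) (nat_lit 209)) (nd (nat_lit 209) (nat_lit 0) (cs (lf (nat_lit 35) (nat_lit 187)) (nd (nat_lit 274) (nat_lit 0) (cs (lf (nat_lit 41) (nat_lit 208)) (nd (nat_lit 252) (nat_lit 0) (cs (lf (nat_lit 36) (nat_lit 186)) (rf (nat_lit 0)))))))))) q113871 (by decide +kernel)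
def q113897 : Q := Q.p (nat_lit 0x80000380000e000000000000000000000000000000000000000000000000000000000) (nat_lit 0x6000018000070000c600000000018000060000180000000000000000000000000000000000000000) (nat_lit 9)
theorem c113897 : QOK q113897 := cut [q88841] ⟨c88841, trivial⟩ (nd (nat_lit 249) (nat_lit 0) (cs (lf (nat_lit 13) (nat_lit 227)) (nd (nat_lit 254) (nat_lit 0) (cs (lf (nat_lit 18) (nat_lit 229)) (nd (nat_lit 186) (nat_lit 0) (cs (lf (nat_lit 25) (nat_lit 186)) (nd (nat_lit 273) (nat_lit 0) (cs (lf (nat_lit 11) (nat_lit 250)) (nd (nat_lit 295) (nat_lit 0) (cs (lf (nat_lit 30) (nat_lit 229)) (nd (nat_lit 296) (nat_lit 0) (cs (lf (nat_lit 29) (nat_lit 229)) (nd (nat_lit 207) (nat_lit 0) (cs (lf (nat_lit 28) (nat_lit 207)) (rf (nat_lit 0)))))))))))))))) q113897 (by decide +kernel)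
def q113974 : Q := Q.p (nat_lit 0x20000080000f000000000000000000000000000000000000000000000000000000000000000) (nat_lit 0x600000000006000010000000000000000000000000000000000000000000000000000) (nat_lit 3)
theorem c113974 : QOK q113974 := cut [q105775] ⟨c105775, trivial⟩ (nd (nat_lit 230) (nat_lit 0) (cs (lf (nat_lit 23) (nat_lit 229)) (rf (nat_lit 0)))) q113974 (by decide +kernel)
def q114050 : Q := Q.p (nat_lit 0x300001c000000000000000000000000000000000000000000000000000000000) (nat_lit 0x40000638001c0000000000000000000000000000000000000000000000000000) (nat_lit 5)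
theorem c114050 : QOK q114050 := cut [q84417] ⟨c84417, trivial⟩ (nd (nat_lit 233) (nat_lit 0) (cs (lf (nat_lit 6) (nat_lit 230)) (nd (nat_lit 211) (nat_lit 0) (cs (lf (nat_lit 17) (nat_lit 208)) (nd (nat_lit 229) (nat_lit 0) (cs (lf (nat_lit 16) (nat_lit 207)) (rf (nat_lit 0)))))))) q114050 (by decide +kernel)
def q114097 : Q := Q.p (nat_lit 0x300000c000020000000000000000000000000000000000000000000000000000) (nat_lit 0x1800006000018000000000000000400001c0000700000000000000000000000000000000000000000) (nat_lit 7)
theorem c114097 : QOK q114097 := cut [q90445] ⟨c90445, trivial⟩ (nd (nat_lit 187) (nat_lit 0) (cs (lf (nat_lit 36) (nat_lit 164)) (nd (nat_lit 164) (nat_lit 0) (cs (lf (nat_lit 46) (nat_lit 164)) (nd (nat_lit 188) (nat_lit 0) (cs (lf (nat_lit 35) (nat_lit 165)) (nd (nat_lit 275) (nat_lit 0) (cs (lf (nat_lit 34) (nat_lit 187)) (rf (nat_lit 0)))))))))) q114097 (by decide +kernel)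
def q114102 : Q := Q.p (nat_lit 0x40000100000f000000000000000000000000000000000000000000000000000000000) (nat_lit 0x80001000000e000020000080000000000000000000000000000000000000000) (nat_lit 4)
theorem c114102 : QOK q114102 := cut [q87227] ⟨c87227, trivial⟩ (nd (nat_lit 206) (nat_lit 0) (cs (lf (nat_lit 23) (nat_lit 205)) (nd (nat_lit 207) (nat_lit 0) (cs (lf (nat_lit 18) (nat_lit 206)) (rf (nat_lit 0)))))) q114102 (by decide +kernel)
def q114318 : Q := Q.p (nat_lit 0x1e00000000000000000000000000000000000000000000000000000000000000) (nat_lit 0xe000010000e000000000000000000000000000000000000000000000000000000000) (nat_lit 4)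
theorem c114318 : QOK q114318 := cut [q88421] ⟨c88421, trivial⟩ (nd (nat_lit 270) (nat_lit 0) (cs (lf (nat_lit 10) (nat_lit 248)) (nd (nat_lit 248) (nat_lit 0) (cs (lf (nat_lit 11) (nat_lit 247)) (rf (nat_lit 0)))))) q114318 (by decide +kernel)
def q114321 : Q := Q.p (nat_lit 0xf000004000000000000000000000000000000000000000000000000000000000) (nat_lit 0x100000e8000000000000000000000000000000000000000000000000000000000) (nat_lit 3)
theorem c114321 : QOK q114321 := cut [q80860] ⟨c80860, trivial⟩ (nd (nat_lit 256) (nat_lit 0) (cs (lf (nat_lit 22) (nat_lit 230)) (rf (nat_lit 0)))) q114321 (by decide +kernel)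
def q114339 : Q := Q.p (nat_lit 0x1000006000008000000000000000000000000000000000000000000000000000000000) (nat_lit 0x100000400000000000000010000020000080000000000000000000000000000000000000000000000) (nat_lit 3)
theorem c114339 : QOK q114339 := cut [q80922] ⟨c80922, trivial⟩ (nd (nat_lit 209) (nat_lit 0) (cs (lf (nat_lit 24) (nat_lit 187)) (rf (nat_lit 0)))) q114339 (by decide +kernel)
def q114478 : Q := Q.p (nat_lit 0x2800007000000000000000000000000000000000000000000000000000000000000000) (nat_lit 0x4600018000000000000000000000000000000000000000000000000000000000000000) (nat_lit 3)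
theorem c114478 : QOK q114478 := cut [q102935] ⟨c102935, trivial⟩ (nd (nat_lit 255) (nat_lit 0) (cs (lf (nat_lit 5) (nat_lit 252)) (rf (nat_lit 0)))) q114478 (by decide +kernel)
def q114563 : Q := Q.p (nat_lit 0x200001800004000000000000000000000000000000000000000000000000000000000) (nat_lit 0x20000080000000000000002000010000040000000000000000000000000000000000000000000000) (nat_lit 3)
theorem c114563 : QOK q114563 := cut [q10061] ⟨c10061, trivial⟩ (nd (nat_lit 208) (nat_lit 0) (cs (lf (nat_lit 36) (nat_lit 185)) (rf (nat_lit 0)))) q114563 (by decide +kernel)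
def q114616 : Q := Q.p (nat_lit 0x40000200000800003800000000000000000000000000000000000000000000000000000000000000) (nat_lit 0x3000008000010000040000000000a000000000000000000000000000000000000000000000000000000000) (nat_lit 4)
theorem c114616 : QOK q114616 := cut [q90723] ⟨c90723, trivial⟩ (nd (nat_lit 319) (nat_lit 0) (cs (lf (nat_lit 41) (nat_lit 252)) (nd (nat_lit 274) (nat_lit 0) (cs (lf (nat_lit 42) (nat_lit 252)) (rf (nat_lit 0)))))) q114616 (by decide +kernel)
def q114842 : Q := Q.p (nat_lit 0x1800007000010000000000000000000000000000000000000000000000000000000000) (nat_lit 0xc0000300000c000000000008000e0000080000000000000000000000000000000000000000000000000000) (nat_lit 6)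
theorem c114842 : QOK q114842 := cut [q81436] ⟨c81436, trivial⟩ (nd (nat_lit 233) (nat_lit 0) (cs (lf (nat_lit 12) (nat_lit 229)) (nd (nat_lit 234) (nat_lit 0) (cs (lf (nat_lit 6) (nat_lit 231)) (nd (nat_lit 298) (nat_lit 0) (cs (lf (nat_lit 35) (nat_lit 210)) (nd (nat_lit 320) (nat_lit 0) (cs (lf (nat_lit 42) (nat_lit 253)) (rf (nat_lit 0)))))))))) q114842 (by decide +kernel)
def q114880 : Q := Q.p (nat_lit 0x200001800007000000000000000000000000000000000000000000000000000000000000000) (nat_lit 0x4000006000180000700000c0000200000000000000000000000000000000000000000000000) (nat_lit 5)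
theorem c114880 : QOK q114880 := cut [q102935, q114857] ⟨c102935, c114857, trivial⟩ (nd (nat_lit 255) (nat_lit 0) (cs (rf (nat_lit 0)) (rf (nat_lit 1)))) q114880 (by decide +kernel)
def q114931 : Q := Q.p (nat_lit 0xe00002000000000000000000000000000000000000000000000000000000000000000) (nat_lit 0x70000180004700000000000000000000000000000000000000000000000000000000000000) (nat_lit 5)
theorem c114931 : QOK q114931 := cut [q12673] ⟨c12673, trivial⟩ (nd (nat_lit 272) (nat_lit 0) (cs (rf (nat_lit 0)) (lf (nat_lit 17) (nat_lit 250)))) q114931 (by decide +kernel)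
def q114948 : Q := Q.p (nat_lit 0x100000c00003000004000000000000000000000000000000000000000000000000000000000) (nat_lit 0x80000300000c0000000000000000000000000000000000000000000000) (nat_lit 3)
theorem c114948 : QOK q114948 := cut [q98636] ⟨c98636, trivial⟩ (nd (nat_lit 209) (nat_lit 0) (cs (lf (nat_lit 37) (nat_lit 208)) (rf (nat_lit 0)))) q114948 (by decide +kernel)
def q114954 : Q := Q.p (nat_lit 0x1c00006000010000040000000000000000000000000000000000000000000000000000) (nat_lit 0x5000000000000000080000a0000280000000000000000000000000000000000000000000000) (nat_lit 4)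
theorem c114954 : QOK q114954 := cut [q22898] ⟨c22898, trivial⟩ (nd (nat_lit 189) (nat_lit 0) (cs (lf (nat_lit 34) (nat_lit 188)) (nd (nat_lit 209) (nat_lit 0) (cs (rf (nat_lit 0)) (lf (nat_lit 47) (nat_lit 187)))))) q114954 (by decide +kernel)
def q114984 : Q := Q.p (nat_lit 0x100000c0000f000020000000000000000000000000000000000000000000000000000000000) (nat_lit 0x480007000000000000000080000200000000000000000000000000000000000000000000000) (nat_lit 4)
theorem c114984 : QOK q114984 := cut [q96469] ⟨c96469, trivial⟩ (nd (nat_lit 277) (nat_lit 0) (cs (lf (nat_lit 5) (nat_lit 252)) (nd (nat_lit 276) (nat_lit 0) (cs (lf (nat_lit 11) (nat_lit 273)) (rf (nat_lit 0)))))) q114984 (by decide +kernel)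
def q115027 : Q := Q.p (nat_lit 0x1c00006000008000000000000000000000000000000000000000000000000000000000) (nat_lit 0x100000c00000300000000000000000000000000000000000000000000000000000000000000000000) (nat_lit 3)
theorem c115027 : QOK q115027 := cut [q111743] ⟨c111743, trivial⟩ (nd (nat_lit 298) (nat_lit 0) (cs (lf (nat_lit 42) (nat_lit 231)) (rf (nat_lit 0)))) q115027 (by decide +kernel)
def q115048 : Q := Q.p (nat_lit 0x400003c00004000000000000000000000000000000000000000000000000000000000000000) (nat_lit 0x200001800000000000000010000040000000000000000000000000000000000000000000000000000) (nat_lit 3)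
theorem c115048 : QOK q115048 := cut [q99091] ⟨c99091, trivial⟩ (nd (nat_lit 299) (nat_lit 0) (cs (lf (nat_lit 5) (nat_lit 274)) (rf (nat_lit 0)))) q115048 (by decide +kernel)
def q115055 : Q := Q.p (nat_lit 0x1c00006000000000000000000000000000000000000000000000000000000000000000) (nat_lit 0x1c0006300001800000000000000000000000000000000000000000000000000000000000000) (nat_lit 5)
theorem c115055 : QOK q115055 := cut [q79958] ⟨c79958, trivial⟩ (nd (nat_lit 273) (nat_lit 0) (cs (lf (nat_lit 12) (nat_lit 250)) (nd (nat_lit 295) (nat_lit 0) (cs (lf (nat_lit 11) (nat_lit 272)) (nd (nat_lit 277) (nat_lit 0) (cs (lf (nat_lit 10) (nat_lit 273)) (rf (nat_lit 0)))))))) q115055 (by decide +kernel)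
def q115331 : Q := Q.p (nat_lit 0x80000e000000000000000000000000000000000000000000000000000000000000000) (nat_lit 0x14000f10000f0000000000000000000000000000000000000000000000000000000000) (nat_lit 6)
theorem c115331 : QOK q115331 := cut [q109122] ⟨c109122, trivial⟩ (nd (nat_lit 256) (nat_lit 0) (cs (lf (nat_lit 11) (nat_lit 252)) (rf (nat_lit 0)))) q115331 (by decide +kernel)
def q115790 : Q := Q.p (nat_lit 0x40000f000000000000000000000000000000000000000000000000000000000000000) (nat_lit 0x4000010003880007000039c000020000080000000000000000000000000000000000000000000000) (nat_lit 9)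
theorem c115790 : QOK q115790 := cut [q106296] ⟨c106296, trivial⟩ (nd (nat_lit 256) (nat_lit 0) (cs (lf (nat_lit 10) (nat_lit 252)) (nd (nat_lit 231) (nat_lit 0) (cs (lf (nat_lit 23) (nat_lit 230)) (nd (nat_lit 296) (nat_lit 0) (cs (lf (nat_lit 30) (nat_lit 230)) (nd (nat_lit 187) (nat_lit 0) (cs (lf (nat_lit 37) (nat_lit 186)) (nd (nat_lit 257) (nat_lit 0) (cs (lf (nat_lit 22) (nat_lit 231)) (nd (nat_lit 280) (nat_lit 0) (cs (lf (nat_lit 4) (nat_lit 254)) (nd (nat_lit 236) (nat_lit 0) (cs (lf (nat_lit 16) (nat_lit 232)) (rf (nat_lit 0)))))))))))))))) q115790 (by decide +kernel)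
def q115821 : Q := Q.p (nat_lit 0x300000c00001800000000000000000000000000000000000000000000000000000000000000) (nat_lit 0x200000c0003000000000004000010000000000000000000000000000000000000000000000000000) (nat_lit 4)
theorem c115821 : QOK q115821 := cut [q100694] ⟨c100694, trivial⟩ (nd (nat_lit 230) (nat_lit 0) (cs (lf (nat_lit 24) (nat_lit 208)) (rf (nat_lit 0)))) q115821 (by decide +kernel)

end Crest.Agent.H3.Snaky.CR
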