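import Crest.Agent.H3.Snaky.Cert
import Crest.Agent.H3.Snaky.CR.CR0
import Crest.Agent.H3.Snaky.CR.CR1
import Crest.Agent.H3.Snaky.CR.CR20
import Crest.Agent.H3.Snaky.CR.CR21

set_option autoImplicit false
set_option maxRecDepth 100000

namespace Crest.Agent.H3.Snaky.CR

open T

def q8 : Q := Q.p (nat_lit 0x2000004000010000040000000000000000000000000000000000000000000000) (nat_lit 0x80000a000008000000000300000c00002000000000000000000000000000000) (nat_lit 5)
theorem c8 : QOK q8 := cut [q6] ⟨c6, trivial⟩ (nd (nat_lit 164) (nat_lit 0) (cs (rf (nat_lit 0)) (lf (nat_lit 28) (nat_lit 164)))) q8 (by decide +kernel)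
def q17 : Q := Q.p (nat_lit 0x1000004000010000040000000000000000000000000000000000000000000000) (nat_lit 0x4000000000000000600000b8000280000000000000000000000000000000000000000) (nat_lit 5)
theorem c17 : QOK q17 := cut [q13] ⟨c13, trivial⟩ (nd (nat_lit 187) (nat_lit 0) (cs (nd (nat_lit 209) (nat_lit 0) (cs (rf (nat_lit 0)) (lf (nat_lit 30) (nat_lit 186)))) (lf (nat_lit 35) (nat_lit 164)))) q17 (by decide +kernel)
def q57 : Q := Q.p (nat_lit 0x70000240000000000000000000000000000000000000000000000) (nat_lit 0x7380018e000480000000000000000000000000000000000000000000000) (nat_lit 7)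
theorem c57 : QOK q57 := cut [q55] ⟨c55, trivial⟩ (nd (nat_lit 211) (nat_lit 0) (cs (rf (nat_lit 0)) (lf (nat_lit 17) (nat_lit 186)))) q57 (by decide +kernel)
def q82 : Q := Q.p (nat_lit 0x78000000000000000000000000000000000000000000000000000) (nat_lit 0x33800004000038000000000000000000000000000000000000000000000) (nat_lit 5)
theorem c82 : QOK q82 := cut [q78] ⟨c78, trivial⟩ (nd (nat_lit 184) (nat_lit 0) (cs (nd (nat_lit 232) (nat_lit 0) (cs (rf (nat_lit 0)) (lf (nat_lit 5) (nat_lit 207)))) (lf (nat_lit 22) (nat_lit 184)))) q82 (by decide +kernel)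
def q99 : Q := Q.p (nat_lit 0x70000040000000000000000000000000000000000000000000000) (nat_lit 0x80003380000c0003b8000100000400000000000000000000000000000000000) (nat_lit 6)
theorem c99 : QOK q99 := cut [q87, q94, q98] ⟨c87, c94, c98, trivial⟩ (nd (nat_lit 207) (nat_lit 0) (cs (rf (nat_lit 0)) (cs (rf (nat_lit 1)) (rf (nat_lit 2))))) q99 (by decide +kernel)
def q102 : Q := Q.p (nat_lit 0xf0000000000000000000000000000000000000000000000000000) (nat_lit 0x70000008000700000000000000000000000000000000000000000000000) (nat_lit 4)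
theorem c102 : QOK q102 := cut [q101] ⟨c101, trivial⟩ (nd (nat_lit 233) (nat_lit 0) (cs (lf (nat_lit 5) (nat_lit 208)) (rf (nat_lit 0)))) q102 (by decide +kernel)
def q109 : Q := Q.p (nat_lit 0x2000000000078000040000000000000000000000000000000000000000000000) (nat_lit 0x800000000038000000000300000400000000000000000000000000000000000000000) (nat_lit 4)
theorem c109 : QOK q109 := cut [q108] ⟨c108, trivial⟩ (nd (nat_lit 231) (nat_lit 0) (cs (lf (nat_lit 42) (nat_lit 186)) (rf (nat_lit 0)))) q109 (by decide +kernel)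
def q119 : Q := Q.p (nat_lit 0x8000038000000000000000000000000000000000000000000000000000) (nat_lit 0x11c0000600001c000000000000000000000000000000000000000000000) (nat_lit 5)
theorem c119 : QOK q119 := cut [q117] ⟨c117, trivial⟩ (nd (nat_lit 206) (nat_lit 0) (cs (rf (nat_lit 0)) (lf (nat_lit 5) (nat_lit 206)))) q119 (by decide +kernel)
def q130 : Q := Q.p (nat_lit 0x3c000040000000000000000000000000000000000000000000000) (nat_lit 0x1c0000300002e000000000000000000000000000000000000000000000) (nat_lit 5)
theorem c130 : QOK q130 := cut [q128] ⟨c128, trivial⟩ (nd (nat_lit 227) (nat_lit 0) (cs (lf (nat_lit 10) (nat_lit 205)) (nd (nat_lit 205) (nat_lit 0) (cs (lf (nat_lit 11) (nat_lit 204)) (rf (nat_lit 0)))))) q130 (by decide +kernel)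
def q140 : Q := Q.p (nat_lit 0x1000038000000000000000000000000000000000000000000000000000) (nat_lit 0x720000c0000700000000000000000000000000000000000000000000000) (nat_lit 5)
theorem c140 : QOK q140 := cut [q139] ⟨c139, trivial⟩ (nd (nat_lit 210) (nat_lit 0) (cs (lf (nat_lit 10) (nat_lit 206)) (rf (nat_lit 0)))) q140 (by decide +kernel)
def q155 : Q := Q.p (nat_lit 0x1c000048000000000000000000000000000000000000000000000) (nat_lit 0xe00003000024000000000000000000000000000000000000000000000) (nat_lit 4)
theorem c155 : QOK q155 := cut [q154] ⟨c154, trivial⟩ (nd (nat_lit 205) (nat_lit 0) (cs (lf (nat_lit 23) (nat_lit 182)) (rf (nat_lit 0)))) q155 (by decide +kernel)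
def q165 : Q := Q.p (nat_lit 0x800003c000040000000000000000000000000000000000000000000000) (nat_lit 0x8000030000c300003c000100000400000000000000000000000000000000000) (nat_lit 7)
theorem c165 : QOK q165 := cut [q160] ⟨c160, trivial⟩ (nd (nat_lit 164) (nat_lit 0) (cs (lf (nat_lit 24) (nat_lit 142)) (nd (nat_lit 183) (nat_lit 0) (cs (lf (nat_lit 22) (nat_lit 183)) (nd (nat_lit 205) (nat_lit 0) (cs (lf (nat_lit 23) (nat_lit 182)) (nd (nat_lit 185) (nat_lit 0) (cs (rf (nat_lit 0)) (lf (nat_lit 12) (nat_lit 182)))))))))) q165 (by decide +kernel)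
def q170 : Q := Q.p (nat_lit 0x3c000040000000000000000000000000000000000000000000000) (nat_lit 0x1c000c3000030000000000000000000000000000000000000000000000) (nat_lit 5)
theorem c170 : QOK q170 := cut [q168] ⟨c168, trivial⟩ (nd (nat_lit 227) (nat_lit 0) (cs (lf (nat_lit 10) (nat_lit 205)) (nd (nat_lit 205) (nat_lit 0) (cs (lf (nat_lit 11) (nat_lit 204)) (rf (nat_lit 0)))))) q170 (by decide +kernel)
def q175 : Q := Q.p (nat_lit 0x900003c000040000000000000000000000000000000000000000000000) (nat_lit 0x2000040000038000100000400000000000000000000000000000000000) (nat_lit 4)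
theorem c175 : QOK q175 := cut [q174] ⟨c174, trivial⟩ (nd (nat_lit 142) (nat_lit 0) (cs (lf (nat_lit 25) (nat_lit 142)) (rf (nat_lit 0)))) q175 (by decide +kernel)
def q187 : Q := Q.p (nat_lit 0x2000000000078000040000000000000000000000000000000000000000000000) (nat_lit 0x80000000000b800004000038000000000000000000000000000000000000000000000) (nat_lit 5)
theorem c187 : QOK q187 := cut [q186] ⟨c186, trivial⟩ (nd (nat_lit 231) (nat_lit 0) (cs (lf (nat_lit 42) (nat_lit 186)) (rf (nat_lit 0)))) q187 (by decide +kernel)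
def q203 : Q := Q.p (nat_lit 0x8000070000040000000000000000000000000000000000000000000000) (nat_lit 0x40000100000f0000780003f20000000000000000000000000000000000000000000000) (nat_lit 9)
theorem c203 : QOK q203 := cut [q202] ⟨c202, trivial⟩ (nd (nat_lit 211) (nat_lit 0) (cs (lf (nat_lit 23) (nat_lit 185)) (rf (nat_lit 0)))) q203 (by decide +kernel)
def q210 : Q := Q.p (nat_lit 0x20000000000f0000040000000000000000000000000000000000000000000000) (nat_lit 0x800000000018000008000700000400001000000000000000000000000000000000000) (nat_lit 5)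
theorem c210 : QOK q210 := cut [q209] ⟨c209, trivial⟩ (nd (nat_lit 231) (nat_lit 0) (cs (lf (nat_lit 42) (nat_lit 186)) (rf (nat_lit 0)))) q210 (by decide +kernel)
def q224 : Q := Q.p (nat_lit 0x30000080000f0000040000000000000000000000000000000000000000000000) (nat_lit 0x200000c000f300030c000d00000400000000000000000000000000000000000000000) (nat_lit 9)
theorem c224 : QOK q224 := cut [q214] ⟨c214, trivial⟩ (nd (nat_lit 234) (nat_lit 0) (cs (lf (nat_lit 4) (nat_lit 208)) (nd (nat_lit 212) (nat_lit 0) (cs (lf (nat_lit 5) (nat_lit 209)) (nd (nat_lit 190) (nat_lit 0) (cs (nd (nat_lit 232) (nat_lit 0) (cs (nd (nat_lit 251) (nat_lit 0) (cs (nd (nat_lit 166) (nat_lit 0) (cs (rf (nat_lit 0)) (lf (nat_lit 37) (nat_lit 165)))) (lf (nat_lit 12) (nat_lit 228)))) (lf (nat_lit 6) (nat_lit 209)))) (lf (nat_lit 17) (nat_lit 187)))))))) q224 (by decide +kernel)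
def q231 : Q := Q.p (nat_lit 0xf0000000000000000000000000000000000000000000000000000) (nat_lit 0x8000060000008000700000400001000000000000000000000000000000000000) (nat_lit 5)
theorem c231 : QOK q231 := cut [q230] ⟨c230, trivial⟩ (nd (nat_lit 233) (nat_lit 0) (cs (lf (nat_lit 5) (nat_lit 208)) (rf (nat_lit 0)))) q231 (by decide +kernel)
def q259 : Q := Q.p (nat_lit 0x30000000000f0000040000000000000000000000000000000000000000000000) (nat_lit 0x4a00010c000fb00030c000600000800002000000000000000000000000000000000000) (nat_lit 11)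
theorem c259 : QOK q259 := cut [q214] ⟨c214, trivial⟩ (nd (nat_lit 189) (nat_lit 0) (cs (lf (nat_lit 17) (nat_lit 186)) (nd (nat_lit 231) (nat_lit 0) (cs (lf (nat_lit 42) (nat_lit 186)) (nd (nat_lit 234) (nat_lit 0) (cs (lf (nat_lit 4) (nat_lit 208)) (nd (nat_lit 212) (nat_lit 0) (cs (lf (nat_lit 5) (nat_lit 209)) (nd (nat_lit 256) (nat_lit 0) (cs (lf (nat_lit 42) (nat_lit 189)) (nd (nat_lit 232) (nat_lit 0) (cs (lf (nat_lit 6) (nat_lit 209)) (nd (nat_lit 145) (nat_lit 0) (cs (nd (nat_lit 251) (nat_lit 0) (cs (rf (nat_lit 0)) (lf (nat_lit 12) (nat_lit 228)))) (lf (nat_lit 25) (nat_lit 145)))))))))))))))) q259 (by decide +kernel)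
def q277 : Q := Q.p (nat_lit 0x20000080000300000c0000000000000000000000000000000000000000000000) (nat_lit 0x100000c0000130001e00001c00003000000000000000000000000000000) (nat_lit 8)
theorem c277 : QOK q277 := cut [q267] ⟨c267, trivial⟩ (nd (nat_lit 166) (nat_lit 0) (cs (nd (nat_lit 165) (nat_lit 0) (cs (nd (nat_lit 143) (nat_lit 0) (cs (nd (nat_lit 167) (nat_lit 0) (cs (nd (nat_lit 120) (nat_lit 0) (cs (rf (nat_lit 0)) (lf (nat_lit 46) (nat_lit 120)))) (lf (nat_lit 6) (nat_lit 164)))) (lf (nat_lit 36) (nat_lit 120)))) (lf (nat_lit 35) (nat_lit 143)))) (lf (nat_lit 34) (nat_lit 165)))) q277 (by decide +kernel)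
def q284 : Q := Q.p (nat_lit 0x1000000000078000040000000000000000000000000000000000000000000000) (nat_lit 0x600000800003000000000030000000000000000000000000000000000000000000000) (nat_lit 4)
theorem c284 : QOK q284 := cut [q283] ⟨c283, trivial⟩ (nd (nat_lit 185) (nat_lit 0) (cs (lf (nat_lit 23) (nat_lit 184)) (rf (nat_lit 0)))) q284 (by decide +kernel)
def q290 : Q := Q.p (nat_lit 0x3000000000038000040000000000000000000000000000000000000000000000) (nat_lit 0xc00000000018000006000080000000000000000000000000000000000000000000000) (nat_lit 4)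
theorem c290 : QOK q290 := cut [q289] ⟨c289, trivial⟩ (nd (nat_lit 231) (nat_lit 0) (cs (lf (nat_lit 42) (nat_lit 186)) (rf (nat_lit 0)))) q290 (by decide +kernel)
def q295 : Q := Q.p (nat_lit 0x3000008000078000040000000000000000000000000000000000000000000000) (nat_lit 0x600000c00033000000000080000200000800000000000000000000000000000000000) (nat_lit 6)
theorem c295 : QOK q295 := cut [q294] ⟨c294, trivial⟩ (nd (nat_lit 187) (nat_lit 0) (cs (lf (nat_lit 41) (nat_lit 186)) (rf (nat_lit 0)))) q295 (by decide +kernel)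
def q318 : Q := Q.p (nat_lit 0x3c0000c0000000000000000000000000000000000000000000000) (nat_lit 0x738001c0000000000000000000000000000000000000000000000000000) (nat_lit 5)
theorem c318 : QOK q318 := cut [q317] ⟨c317, trivial⟩ (nd (nat_lit 228) (nat_lit 0) (cs (lf (nat_lit 11) (nat_lit 205)) (rf (nat_lit 0)))) q318 (by decide +kernel)
def q329 : Q := Q.p (nat_lit 0x3c0000c0000000000000000000000000000000000000000000000) (nat_lit 0x38001c0000038000000000000000000000000000000000000000000000) (nat_lit 5)
theorem c329 : QOK q329 := cut [q328] ⟨c328, trivial⟩ (nd (nat_lit 183) (nat_lit 0) (cs (lf (nat_lit 22) (nat_lit 183)) (rf (nat_lit 0)))) q329 (by decide +kernel)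
def q339 : Q := Q.p (nat_lit 0x3c0000c0000000000000000000000000000000000000000000000) (nat_lit 0x2000040000038000060000100000400000000000000000000000000000) (nat_lit 5)
theorem c339 : QOK q339 := cut [q337] ⟨c337, trivial⟩ (nd (nat_lit 184) (nat_lit 0) (cs (lf (nat_lit 23) (nat_lit 183)) (nd (nat_lit 185) (nat_lit 0) (cs (lf (nat_lit 18) (nat_lit 184)) (rf (nat_lit 0)))))) q339 (by decide +kernel)
def q353 : Q := Q.p (nat_lit 0x3000000000030000040000000000000000000000000000000000000000000000) (nat_lit 0xc000000000180001c00001a0001e00001c00003000000000000000000000000000000) (nat_lit 10)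
theorem c353 : QOK q353 := cut [q351] ⟨c351, trivial⟩ (nd (nat_lit 231) (nat_lit 0) (cs (lf (nat_lit 42) (nat_lit 186)) (nd (nat_lit 187) (nat_lit 0) (cs (lf (nat_lit 41) (nat_lit 186)) (rf (nat_lit 0)))))) q353 (by decide +kernel)
def q360 : Q := Q.p (nat_lit 0x3000000000030000040000000000000000000000000000000000000000000000) (nat_lit 0xc00000000008000008000780000400000000000000000000000000000000000000000) (nat_lit 5)
theorem c360 : QOK q360 := cut [q358] ⟨c358, trivial⟩ (nd (nat_lit 231) (nat_lit 0) (cs (lf (nat_lit 42) (nat_lit 186)) (nd (nat_lit 187) (nat_lit 0) (cs (lf (nat_lit 41) (nat_lit 186)) (rf (nat_lit 0)))))) q360 (by decide +kernel)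
def q387 : Q := Q.p (nat_lit 0x10000040000100001c0000000000000000000000000000000000000000000000) (nat_lit 0x2000008000120001e8000600001800002000008000000000000000000000000000000) (nat_lit 8)
theorem c387 : QOK q387 := cut [q381] ⟨c381, trivial⟩ (nd (nat_lit 189) (nat_lit 0) (cs (lf (nat_lit 11) (nat_lit 185)) (nd (nat_lit 167) (nat_lit 0) (cs (lf (nat_lit 17) (nat_lit 164)) (nd (nat_lit 211) (nat_lit 0) (cs (nd (nat_lit 209) (nat_lit 0) (cs (lf (nat_lit 6) (nat_lit 186)) (nd (nat_lit 251) (nat_lit 0) (cs (lf (nat_lit 41) (nat_lit 185)) (rf (nat_lit 0)))))) (lf (nat_lit 5) (nat_lit 186)))))))) q387 (by decide +kernel)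
def q396 : Q := Q.p (nat_lit 0x30000040000100001c0000000000000000000000000000000000000000000000) (nat_lit 0x2000008000080000e0000030000c80000000000000000000000000000000000000000) (nat_lit 6)
theorem c396 : QOK q396 := cut [q395] ⟨c395, trivial⟩ (nd (nat_lit 251) (nat_lit 0) (cs (lf (nat_lit 41) (nat_lit 185)) (rf (nat_lit 0)))) q396 (by decide +kernel)
def q423 : Q := Q.p (nat_lit 0x1000004000010000040000000000000000000000000000000000000000000000) (nat_lit 0x40000000000000000c0003a0000280000000000000000000000000000000000000000) (nat_lit 5)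
theorem c423 : QOK q423 := cut [q420] ⟨c420, trivial⟩ (nd (nat_lit 185) (nat_lit 0) (cs (lf (nat_lit 47) (nat_lit 163)) (nd (nat_lit 207) (nat_lit 0) (cs (rf (nat_lit 0)) (lf (nat_lit 42) (nat_lit 185)))))) q423 (by decide +kernel)
def q434 : Q := Q.p (nat_lit 0x1000004000010000040000000000000000000000000000000000000000000000) (nat_lit 0x200000800002000000000080000300000800000000000000000000000000000000000) (nat_lit 4)
theorem c434 : QOK q434 := cut [q433] ⟨c433, trivial⟩ (nd (nat_lit 251) (nat_lit 0) (cs (lf (nat_lit 41) (nat_lit 185)) (rf (nat_lit 0)))) q434 (by decide +kernel)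
def q450 : Q := Q.p (nat_lit 0x2000004000010000040000000000000000000000000000000000000000000000) (nat_lit 0x80000a000000000000000380000e00002800000000000000000000000000000) (nat_lit 6)
theorem c450 : QOK q450 := cut [q449] ⟨c449, trivial⟩ (nd (nat_lit 164) (nat_lit 0) (cs (lf (nat_lit 28) (nat_lit 164)) (rf (nat_lit 0)))) q450 (by decide +kernel)
def q462 : Q := Q.p (nat_lit 0x4000010000050000300000000000000000000000000000000000000000) (nat_lit 0x1880000e0000200000000000000000000000000000000000) (nat_lit 4)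
theorem c462 : QOK q462 := cut [q461] ⟨c461, trivial⟩ (nd (nat_lit 163) (nat_lit 0) (cs (lf (nat_lit 47) (nat_lit 141)) (rf (nat_lit 0)))) q462 (by decide +kernel)
def q472 : Q := Q.p (nat_lit 0x6000010000010000060000080000000000000000000000000000000000) (nat_lit 0x18000ec000000000000000000000200000800000000000000000000000) (nat_lit 5)
theorem c472 : QOK q472 := cut [q468] ⟨c468, trivial⟩ (nd (nat_lit 95) (nat_lit 0) (cs (nd (nat_lit 228) (nat_lit 0) (cs (rf (nat_lit 0)) (lf (nat_lit 43) (nat_lit 139)))) (lf (nat_lit 25) (nat_lit 95)))) q472 (by decide +kernel)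
def q500 : Q := Q.p (nat_lit 0x2000004000010000040000000000000000000000000000000000000000000000) (nat_lit 0x8000010000000000000000a0000380000a00000000000000000000000000000000000) (nat_lit 5)
theorem c500 : QOK q500 := cut [q499] ⟨c499, trivial⟩ (nd (nat_lit 252) (nat_lit 0) (cs (lf (nat_lit 29) (nat_lit 186)) (rf (nat_lit 0)))) q500 (by decide +kernel)
def q516 : Q := Q.p (nat_lit 0x2000000000010000040000000000000000000000000000000000000000000000) (nat_lit 0x20000080000100000c000020000080000100000400000000000000000000000000000000000) (nat_lit 4)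
theorem c516 : QOK q516 := cut [q507, q512, q513, q515] ⟨c507, c512, c513, c515, trivial⟩ (nd (nat_lit 231) (nat_lit 0) (cs (nd (nat_lit 230) (nat_lit 0) (cs (rf (nat_lit 0)) (lf (nat_lit 24) (nat_lit 164)))) (cs (rf (nat_lit 1)) (cs (nd (nat_lit 164) (nat_lit 0) (cs (lf (nat_lit 27) (nat_lit 164)) (rf (nat_lit 2)))) (rf (nat_lit 3)))))) q516 (by decide +kernel)
def q517 : Q := Q.p (nat_lit 0x2000000000010000040000100000000000000000000000000000000000000000) (nat_lit 0x80000e000008000000000200000c00002000000000000000000000000000000) (nat_lit 5)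
theorem c517 : QOK q517 := cut [q6] ⟨c6, trivial⟩ (nd (nat_lit 230) (nat_lit 0) (cs (rf (nat_lit 0)) (lf (nat_lit 28) (nat_lit 164)))) q517 (by decide +kernel)
def q524 : Q := Q.p (nat_lit 0x18000040000100000000000000000000000000000000000000000) (nat_lit 0x2000000000020000000000c00003000008000000000000000000000000) (nat_lit 4)
theorem c524 : QOK q524 := cut [q522] ⟨c522, trivial⟩ (nd (nat_lit 142) (nat_lit 0) (cs (rf (nat_lit 0)) (lf (nat_lit 41) (nat_lit 141)))) q524 (by decide +kernel)
def q559 : Q := Q.p (nat_lit 0x18000040000100000000000000000000000000000000000000000) (nat_lit 0x2000000000000000000000e0000380000a000000000000000000000000) (nat_lit 5)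
theorem c559 : QOK q559 := cut [q558] ⟨c558, trivial⟩ (nd (nat_lit 142) (nat_lit 0) (cs (lf (nat_lit 41) (nat_lit 141)) (rf (nat_lit 0)))) q559 (by decide +kernel)
def q584 : Q := Q.p (nat_lit 0x100001e0000000000000000000000000000000000000000000000) (nat_lit 0x100000c0000010000e00000800002000000000000000000000000000000) (nat_lit 5)
theorem c584 : QOK q584 := cut [q582] ⟨c582, trivial⟩ (nd (nat_lit 210) (nat_lit 0) (cs (lf (nat_lit 5) (nat_lit 185)) (nd (nat_lit 166) (nat_lit 0) (cs (lf (nat_lit 17) (nat_lit 163)) (rf (nat_lit 0)))))) q584 (by decide +kernel)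
def q613 : Q := Q.p (nat_lit 0x4000010000040000100000000000000000000000000000000000000000) (nat_lit 0x800002000008000000000080000600000800000000000000000000000000000) (nat_lit 4)
theorem c613 : QOK q613 := cut [q612] ⟨c612, trivial⟩ (nd (nat_lit 229) (nat_lit 0) (cs (lf (nat_lit 41) (nat_lit 163)) (rf (nat_lit 0)))) q613 (by decide +kernel)
def q617 : Q := Q.p (nat_lit 0x10000040000100000400000000000000000000000000000000000) (nat_lit 0x2000008000020000000000800003000008000000000000000000000000) (nat_lit 4)
theorem c617 : QOK q617 := cut [q616] ⟨c616, trivial⟩ (nd (nat_lit 207) (nat_lit 0) (cs (lf (nat_lit 41) (nat_lit 141)) (rf (nat_lit 0)))) q617 (by decide +kernel)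
def q619 : Q := Q.p (nat_lit 0x10000040000100000400000000000000000000000000000000000) (nat_lit 0x2000008000020000000000200001800002000000000000000000000000) (nat_lit 4)
theorem c619 : QOK q619 := cut [q618] ⟨c618, trivial⟩ (nd (nat_lit 207) (nat_lit 0) (cs (lf (nat_lit 41) (nat_lit 141)) (rf (nat_lit 0)))) q619 (by decide +kernel)
def q626 : Q := Q.p (nat_lit 0x10000040000100000400000000000000000000000000000000000) (nat_lit 0x4000000000000000600000b80002800000000000000000000000000000) (nat_lit 5)
theorem c626 : QOK q626 := cut [q623] ⟨c623, trivial⟩ (nd (nat_lit 143) (nat_lit 0) (cs (lf (nat_lit 35) (nat_lit 120)) (nd (nat_lit 165) (nat_lit 0) (cs (rf (nat_lit 0)) (lf (nat_lit 30) (nat_lit 142)))))) q626 (by decide +kernel)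
def q631 : Q := Q.p (nat_lit 0x2000000000010000040000100000000000000000000000000000000000000000) (nat_lit 0xc000000000000000280000e00002800000000000000000000000000000) (nat_lit 5)
theorem c631 : QOK q631 := cut [q630] ⟨c630, trivial⟩ (nd (nat_lit 230) (nat_lit 0) (cs (lf (nat_lit 28) (nat_lit 164)) (rf (nat_lit 0)))) q631 (by decide +kernel)
def q668 : Q := Q.p (nat_lit 0x3c000000000000000000000000000000000000000000000000000) (nat_lit 0xee0000300001c000000000000000000000000000000000000000000000) (nat_lit 6)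
theorem c668 : QOK q668 := cut [q666] ⟨c666, trivial⟩ (nd (nat_lit 183) (nat_lit 0) (cs (lf (nat_lit 22) (nat_lit 183)) (nd (nat_lit 205) (nat_lit 0) (cs (lf (nat_lit 23) (nat_lit 182)) (rf (nat_lit 0)))))) q668 (by decide +kernel)
def q673 : Q := Q.p (nat_lit 0x3c000000000000000000000000000000000000000000000000000) (nat_lit 0xfc0000300000e000000000000000000000000000000000000000000000) (nat_lit 6)
theorem c673 : QOK q673 := cut [q671] ⟨c671, trivial⟩ (nd (nat_lit 227) (nat_lit 0) (cs (lf (nat_lit 10) (nat_lit 205)) (nd (nat_lit 205) (nat_lit 0) (cs (lf (nat_lit 11) (nat_lit 204)) (rf (nat_lit 0)))))) q673 (by decide +kernel)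
def q690 : Q := Q.p (nat_lit 0x2000000000078000000000000000000000000000000000000000000000000000) (nat_lit 0x800000000008000000000380000400001000000000000000000000000000000000000) (nat_lit 4)
theorem c690 : QOK q690 := cut [q689] ⟨c689, trivial⟩ (nd (nat_lit 188) (nat_lit 0) (cs (lf (nat_lit 17) (nat_lit 185)) (rf (nat_lit 0)))) q690 (by decide +kernel)
def q696 : Q := Q.p (nat_lit 0x2000070000000000000000000000000000000000000000000000000000) (nat_lit 0xe4000180000e00000000000000000000000000000000000000000000000) (nat_lit 5)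
theorem c696 : QOK q696 := cut [q694] ⟨c694, trivial⟩ (nd (nat_lit 211) (nat_lit 0) (cs (rf (nat_lit 0)) (lf (nat_lit 10) (nat_lit 207)))) q696 (by decide +kernel)
def q717 : Q := Q.p (nat_lit 0x800002000008000020000000000000000000000000000000000000000000000000000) (nat_lit 0x140000700001400000000000000000000000000000000000000000000000000000000000000000000) (nat_lit 4)
theorem c717 : QOK q717 := cut [q715] ⟨c715, trivial⟩ (nd (nat_lit 296) (nat_lit 0) (cs (rf (nat_lit 0)) (lf (nat_lit 40) (nat_lit 208)))) q717 (by decide +kernel)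
def q724 : Q := Q.p (nat_lit 0xc0000300000c000030000000000000000000000000000000000000000000000000000) (nat_lit 0x480003380000c00000000000000000000000000000000000000000000000000000000000000) (nat_lit 5)
theorem c724 : QOK q724 := cut [q721] ⟨c721, trivial⟩ (nd (nat_lit 273) (nat_lit 0) (cs (lf (nat_lit 41) (nat_lit 207)) (nd (nat_lit 271) (nat_lit 0) (cs (rf (nat_lit 0)) (lf (nat_lit 13) (nat_lit 249)))))) q724 (by decide +kernel)
def q738 : Q := Q.p (nat_lit 0x78000000000000000000000000000000000000000000000000000) (nat_lit 0x1000007000080000030000080000200000000000000000000000000000000000) (nat_lit 5)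
theorem c738 : QOK q738 := cut [q737] ⟨c737, trivial⟩ (nd (nat_lit 185) (nat_lit 0) (cs (lf (nat_lit 23) (nat_lit 184)) (rf (nat_lit 0)))) q738 (by decide +kernel)
def q765 : Q := Q.p (nat_lit 0x400002000008000030000000000000000000000000000000000000000000000000000) (nat_lit 0x100000700001800000000004000000000000000000000000000000000000000000000000000000000) (nat_lit 4)
theorem c765 : QOK q765 := cut [q732] ⟨c732, trivial⟩ (nd (nat_lit 275) (nat_lit 0) (cs (lf (nat_lit 41) (nat_lit 208)) (rf (nat_lit 0)))) q765 (by decide +kernel)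
def q789 : Q := Q.p (nat_lit 0x2000000000038000000000000000000000000000000000000000000000000000) (nat_lit 0x80000000000dc000460003bc000000000000000000000000000000000000000000000) (nat_lit 7)
theorem c789 : QOK q789 := cut [q117, q781] ⟨c117, c781, trivial⟩ (nd (nat_lit 206) (nat_lit 0) (cs (rf (nat_lit 0)) (cs (nd (nat_lit 227) (nat_lit 0) (cs (lf (nat_lit 10) (nat_lit 205)) (nd (nat_lit 205) (nat_lit 0) (cs (lf (nat_lit 11) (nat_lit 204)) (nd (nat_lit 231) (nat_lit 0) (cs (lf (nat_lit 4) (nat_lit 205)) (nd (nat_lit 188) (nat_lit 0) (cs (lf (nat_lit 16) (nat_lit 184)) (nd (nat_lit 210) (nat_lit 0) (cs (lf (nat_lit 17) (nat_lit 185)) (lf (nat_lit 30) (nat_lit 187)))))))))))) (cs (nd (nat_lit 188) (nat_lit 0) (cs (lf (nat_lit 16) (nat_lit 184)) (nd (nat_lit 227) (nat_lit 0) (cs (lf (nat_lit 10) (nat_lit 205)) (rf (nat_lit 1)))))) (nd (nat_lit 188) (nat_lit 0) (cs (lf (nat_lit 16) (nat_lit 184)) (nd (nat_lit 183) (nat_lit 0) (cs (lf (nat_lit 22) (nat_lit 183)) (nd (nat_lit 210) (nat_lit 0) (cs (lf (nat_lit 17) (nat_lit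 185)) (nd (nat_lit 205) (nat_lit 0) (cs (lf (nat_lit 23) (nat_lit 182)) (nd (nat_lit 231) (nat_lit 0) (cs (lf (nat_lit 30) (nat_lit 187)) (lf (nat_lit 4) (nat_lit 205)))))))))))))))) q789 (by decide +kernel)
def q792 : Q := Q.p (nat_lit 0x38000000000000000000000000000000000000000000000000000) (nat_lit 0x3c000460003bc000000000000000000000000000000000000000000000) (nat_lit 5)
theorem c792 : QOK q792 := cut [q117, q684, q791] ⟨c117, c684, c791, trivial⟩ (nd (nat_lit 206) (nat_lit 0) (cs (rf (nat_lit 0)) (cs (rf (nat_lit 1)) (rf (nat_lit 2))))) q792 (by decide +kernel)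
def q799 : Q := Q.p (nat_lit 0x400003c000000000000000000000000000000000000000000000000000) (nat_lit 0x400001000008000000000180000200000800000000000000000000000000000000000) (nat_lit 4)
theorem c799 : QOK q799 := cut [q798] ⟨c798, trivial⟩ (nd (nat_lit 187) (nat_lit 0) (cs (lf (nat_lit 17) (nat_lit 184)) (rf (nat_lit 0)))) q799 (by decide +kernel)
def q805 : Q := Q.p (nat_lit 0xc000010000040000000000000000000000000000000000000000) (nat_lit 0x2000000000020000000000300000c00002000000000000000000000000) (nat_lit 4)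
theorem c805 : QOK q805 := cut [q804] ⟨c804, trivial⟩ (nd (nat_lit 140) (nat_lit 0) (cs (lf (nat_lit 29) (nat_lit 140)) (rf (nat_lit 0)))) q805 (by decide +kernel)
def q864 : Q := Q.p (nat_lit 0xc000010000040000000000000000000000000000000000000000) (nat_lit 0x2000000000020000000000180000600000800000000000000000000000) (nat_lit 4)
theorem c864 : QOK q864 := cut [q863] ⟨c863, trivial⟩ (nd (nat_lit 140) (nat_lit 0) (cs (lf (nat_lit 29) (nat_lit 140)) (rf (nat_lit 0)))) q864 (by decide +kernel)
def q1015 : Q := Q.p (nat_lit 0x2000006000038000000000000000000000000000000000000000000000000000) (nat_lit 0xc0001f8000fe0001f80000e000c78003ae0003f8000ba0000000000000000000000000000000000) (nat_lit 14)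
theorem c1015 : QOK q1015 := cut [q937, q943, q735, q979, q986, q933, q1014] ⟨c937, c943, c735, c979, c986, c933, c1014, trivial⟩ (nd (nat_lit 251) (nat_lit 0) (cs (rf (nat_lit 0)) (cs (nd (nat_lit 273) (nat_lit 0) (cs (lf (nat_lit 30) (nat_lit 207)) (nd (nat_lit 274) (nat_lit 0) (cs (nd (nat_lit 210) (nat_lit 0) (cs (lf (nat_lit 6) (nat_lit 207)) (nd (nat_lit 188) (nat_lit 0) (cs (lf (nat_lit 17) (nat_lit 185)) (nd (nat_lit 187) (nat_lit 0) (cs (lf (nat_lit 12) (nat_lit 184)) (nd (nat_lit 143) (nat_lit 0) (cs (lf (nat_lit 37) (nat_lit 142)) (rf (nat_lit 1)))))))))) (lf (nat_lit 29) (nat_lit 207)))))) (cs (nd (nat_lit 185) (nat_lit 0) (cs (rf (nat_lit 2)) (cs (nd (nat_lit 210) (nat_lit 0) (cs (lf (nat_lit 6) (nat_lit 207)) (nd (nat_lit 188) (nat_lit 0) (cs (lf (nat_lit 17) (nat_lit 185)) (nd (nat_lit 187) (nat_lit 0) (cs (lf (nat_lit 12) (nat_lit 184)) (nd (nat_lit 165) (nat_lit 0) (cs (lf (nat_lit 36) (nat_lit 142)) (nd (nat_lit 163) (nat_lit 0) (cs (lf (nat_lit 24) (nat_lit 141)) (nd (nat_lit 162) (nat_lit 0)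 (cs (lf (nat_lit 2) (nat_lit 162)) (lf (nat_lit 47) (nat_lit 140)))))))))))))) (nd (nat_lit 250) (nat_lit 0) (cs (lf (nat_lit 41) (nat_lit 184)) (nd (nat_lit 226) (nat_lit 0) (cs (nd (nat_lit 248) (nat_lit 0) (cs (lf (nat_lit 13) (nat_lit 226)) (nd (nat_lit 204) (nat_lit 0) (cs (nd (nat_lit 210) (nat_lit 0) (cs (lf (nat_lit 6) (nat_lit 207)) (nd (nat_lit 188) (nat_lit 0) (cs (lf (nat_lit 17) (nat_lit 185)) (nd (nat_lit 206) (nat_lit 0) (cs (lf (nat_lit 16) (nat_lit 184)) (lf (nat_lit 1) (nat_lit 204)))))))) (nd (nat_lit 270) (nat_lit 0) (cs (nd (nat_lit 293) (nat_lit 0) (cs (nd (nat_lit 203) (nat_lit 0) (cs (nd (nat_lit 292) (nat_lit 0) (cs (lf (nat_lit 46) (nat_lit 203)) (lf (nat_lit 29) (nat_lit 226)))) (lf (nat_lit 47) (nat_lit 181)))) (lf (nat_lit 28) (nat_lit 204)))) (cs (nd (nat_lit 269) (nat_lit 0) (cs (nd (nat_lit 182) (nat_lit 0) (cs (rf (nat_lit 3)) (lf (nat_lit 40) (nat_lit 181)))) (lf (nat_lit 41) (nat_lit 203)))) (nd (nat_lit 269) (nat_lit 0) (cs (lf (nat_lit 41) (nat_lit 203)) (nd (nat_lit 247) (nat_lit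 0) (cs (nd (nat_lit 293) (nat_lit 0) (cs (lf (nat_lit 28) (nat_lit 204)) (nd (nat_lit 252) (nat_lit 0) (cs (lf (nat_lit 42) (nat_lit 185)) (nd (nat_lit 292) (nat_lit 0) (cs (lf (nat_lit 29) (nat_lit 226)) (rf (nat_lit 4)))))))) (lf (nat_lit 36) (nat_lit 181))))))))))))) (cs (nd (nat_lit 210) (nat_lit 0) (cs (lf (nat_lit 6) (nat_lit 207)) (nd (nat_lit 188) (nat_lit 0) (cs (lf (nat_lit 17) (nat_lit 185)) (nd (nat_lit 206) (nat_lit 0) (cs (lf (nat_lit 16) (nat_lit 184)) (nd (nat_lit 205) (nat_lit 0) (cs (lf (nat_lit 10) (nat_lit 204)) (lf (nat_lit 0) (nat_lit 204)))))))))) (nd (nat_lit 249) (nat_lit 0) (cs (lf (nat_lit 12) (nat_lit 226)) (nd (nat_lit 252) (nat_lit 0) (cs (lf (nat_lit 29) (nat_lit 185)) (lf (nat_lit 22) (nat_lit 226)))))))))))))) (cs (nd (nat_lit 210) (nat_lit 0) (cs (lf (nat_lit 6) (nat_lit 207)) (nd (nat_lit 188) (nat_lit 0) (cs (lf (nat_lit 17) (nat_lit 185)) (nd (nat_lit 187) (nat_lit 0) (cs (lf (nat_lit 12) (nat_lit 184)) (nd (nat_lit 143) (nat_lit 0) (cs (lf (nat_lit 37) (nat_lit 142)) (nd (nat_lit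 252) (nat_lit 0) (cs (lf (nat_lit 30) (nat_lit 186)) (rf (nat_lit 5)))))))))))) (rf (nat_lit 6))))))) q1015 (by decide +kernel)
def q1050 : Q := Q.p (nat_lit 0x200000800006000008000000000000000000000000000000000000000000000000000) (nat_lit 0x140000d00000700000000000000020000000000000000000000000000000000000000000000) (nat_lit 5)
theorem c1050 : QOK q1050 := cut [q943] ⟨c943, trivial⟩ (nd (nat_lit 274) (nat_lit 0) (cs (rf (nat_lit 0)) (lf (nat_lit 29) (nat_lit 207)))) q1050 (by decide +kernel)
def q1074 : Q := Q.p (nat_lit 0x600003c000000000000000000000000000000000000000000000000000) (nat_lit 0x100000f80009800000000020000080000000000000000000000000000000000000000) (nat_lit 5)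
theorem c1074 : QOK q1074 := cut [q1073] ⟨c1073, trivial⟩ (nd (nat_lit 228) (nat_lit 0) (cs (lf (nat_lit 11) (nat_lit 205)) (rf (nat_lit 0)))) q1074 (by decide +kernel)
def q1111 : Q := Q.p (nat_lit 0x3000006000018000000000000000000000000000000000000000000000000000) (nat_lit 0x3e0000f80000800000000000000000000000000000000000000000000000000000000000000) (nat_lit 6)
theorem c1111 : QOK q1111 := cut [q1110] ⟨c1110, trivial⟩ (nd (nat_lit 274) (nat_lit 0) (cs (lf (nat_lit 42) (nat_lit 207)) (rf (nat_lit 0)))) q1111 (by decide +kernel)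
def q1123 : Q := Q.p (nat_lit 0x3c000000000000000000000000000000000000000000000000000) (nat_lit 0xf0000c300001c000000000000000000000000000000000000000000000) (nat_lit 6)
theorem c1123 : QOK q1123 := cut [q676] ⟨c676, trivial⟩ (nd (nat_lit 183) (nat_lit 0) (cs (lf (nat_lit 22) (nat_lit 183)) (nd (nat_lit 205) (nat_lit 0) (cs (lf (nat_lit 23) (nat_lit 182)) (nd (nat_lit 230) (nat_lit 0) (cs (lf (nat_lit 5) (nat_lit 205)) (rf (nat_lit 0)))))))) q1123 (by decide +kernel)
def q1125 : Q := Q.p (nat_lit 0x6000038000000000000000000000000000000000000000000000000000) (nat_lit 0x10000000000c0000030000080000200000000000000000000000000000000000) (nat_lit 4)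
theorem c1125 : QOK q1125 := cut [q1124] ⟨c1124, trivial⟩ (nd (nat_lit 210) (nat_lit 0) (cs (lf (nat_lit 6) (nat_lit 207)) (rf (nat_lit 0)))) q1125 (by decide +kernel)
def q1135 : Q := Q.p (nat_lit 0x3c000000000000000000000000000000000000000000000000000) (nat_lit 0x400001800040000038000080000200000000000000000000000000000000000) (nat_lit 5)
theorem c1135 : QOK q1135 := cut [q1133] ⟨c1133, trivial⟩ (nd (nat_lit 184) (nat_lit 0) (cs (lf (nat_lit 23) (nat_lit 183)) (nd (nat_lit 185) (nat_lit 0) (cs (lf (nat_lit 18) (nat_lit 184)) (rf (nat_lit 0)))))) q1135 (by decide +kernel)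
def q1175 : Q := Q.p (nat_lit 0x4000030000040000000000000000000000000000000000000000000000) (nat_lit 0x10000000000c8000038000180000200000800000000000000000000000000000) (nat_lit 4)
theorem c1175 : QOK q1175 := cut [q1170, q1174] ⟨c1170, c1174, trivial⟩ (nd (nat_lit 185) (nat_lit 0) (cs (rf (nat_lit 0)) (rf (nat_lit 1)))) q1175 (by decide +kernel)
def q1181 : Q := Q.p (nat_lit 0xc00003000006000018000000000000000000000000000000000000000000000000000) (nat_lit 0xe0000380000800000000000000000000000000000000000000000000000000000000000000) (nat_lit 4)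
theorem c1181 : QOK q1181 := cut [q1180] ⟨c1180, trivial⟩ (nd (nat_lit 273) (nat_lit 0) (cs (lf (nat_lit 41) (nat_lit 207)) (rf (nat_lit 0)))) q1181 (by decide +kernel)
def q1197 : Q := Q.p (nat_lit 0xf00000000000000000000000000000000000000000000000000000000000000000000) (nat_lit 0x770000080000000000000000000000000000000000000000000000000000000000000000000) (nat_lit 4)
theorem c1197 : QOK q1197 := cut [q1195] ⟨c1195, trivial⟩ (nd (nat_lit 297) (nat_lit 0) (cs (rf (nat_lit 0)) (lf (nat_lit 5) (nat_lit 272)))) q1197 (by decide +kernel)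
def q1246 : Q := Q.p (nat_lit 0x6000018000020000000000000000000000000000000000000000000000) (nat_lit 0x1c0000700001f00008000000000010000040000000000000000000000000000000000000000) (nat_lit 6)
theorem c1246 : QOK q1246 := cut [q1239, q1059, q1245] ⟨c1239, c1059, c1245, trivial⟩ (nd (nat_lit 251) (nat_lit 0) (cs (rf (nat_lit 0)) (cs (nd (nat_lit 252) (nat_lit 0) (cs (lf (nat_lit 42) (nat_lit 185)) (nd (nat_lit 162) (nat_lit 0) (cs (rf (nat_lit 1)) (lf (nat_lit 46) (nat_lit 162)))))) (rf (nat_lit 2))))) q1246 (by decide +kernel)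
def q1274 : Q := Q.p (nat_lit 0x3000004000010000000000000000000000000000000000000000000000) (nat_lit 0x8000000000000000000000e0000380000a00000000000000000000000000000) (nat_lit 5)
theorem c1274 : QOK q1274 := cut [q1273] ⟨c1273, trivial⟩ (nd (nat_lit 162) (nat_lit 0) (cs (lf (nat_lit 29) (nat_lit 162)) (rf (nat_lit 0)))) q1274 (by decide +kernel)
def q1281 : Q := Q.p (nat_lit 0x1000034000010000000000000000000000000000000000000000000000) (nat_lit 0x40000000000a000008000020000080000200000000000000000000000000000) (nat_lit 4)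
theorem c1281 : QOK q1281 := cut [q1279] ⟨c1279, trivial⟩ (nd (nat_lit 183) (nat_lit 0) (cs (rf (nat_lit 0)) (lf (nat_lit 20) (nat_lit 183)))) q1281 (by decide +kernel)
def q1283 : Q := Q.p (nat_lit 0x300000f000030000000000000000000000000000000000000000000000000000) (nat_lit 0x600001800000e00000000000000000000000000000000000000000000000000000000000000) (nat_lit 4)
theorem c1283 : QOK q1283 := cut [q1100] ⟨c1100, trivial⟩ (nd (nat_lit 250) (nat_lit 0) (cs (lf (nat_lit 11) (nat_lit 227)) (rf (nat_lit 0)))) q1283 (by decide +kernel)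
def q1299 : Q := Q.p (nat_lit 0xc00003000000000020000000000000000000000000000000000000000000000000000) (nat_lit 0x500003000000c00008000000000000000000000000000000000000000000000000000000000) (nat_lit 4)
theorem c1299 : QOK q1299 := cut [q721] ⟨c721, trivial⟩ (nd (nat_lit 231) (nat_lit 0) (cs (lf (nat_lit 41) (nat_lit 208)) (rf (nat_lit 0)))) q1299 (by decide +kernel)
def q1312 : Q := Q.p (nat_lit 0xe00003400000000000000000000000000000000000000000000000000000000000000) (nat_lit 0x1c00007000000800000000000000000000000000000000000000000000000000000000000000) (nat_lit 4)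
theorem c1312 : QOK q1312 := cut [q1310] ⟨c1310, trivial⟩ (nd (nat_lit 276) (nat_lit 0) (cs (rf (nat_lit 0)) (lf (nat_lit 22) (nat_lit 250)))) q1312 (by decide +kernel)
def q1331 : Q := Q.p (nat_lit 0x3000006000018000000000000000000000000000000000000000000000000000) (nat_lit 0x1c0000780000800008000007000010000000000000000000000000000000000000000000000) (nat_lit 7)
theorem c1331 : QOK q1331 := cut [q1327] ⟨c1327, trivial⟩ (nd (nat_lit 274) (nat_lit 0) (cs (lf (nat_lit 42) (nat_lit 207)) (nd (nat_lit 273) (nat_lit 0) (cs (lf (nat_lit 41) (nat_lit 207)) (nd (nat_lit 272) (nat_lit 0) (cs (lf (nat_lit 12) (nat_lit 249)) (nd (nat_lit 251) (nat_lit 0) (cs (lf (nat_lit 41) (nat_lit 206)) (rf (nat_lit 0)))))))))) q1331 (by decide +kernel)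
def q1405 : Q := Q.p (nat_lit 0x200000c000030000000000000000000000000000000000000000000000000000) (nat_lit 0x700001c000000000020001c0000100000000000000000000000000000000000000000000000) (nat_lit 6)
theorem c1405 : QOK q1405 := cut [q1402] ⟨c1402, trivial⟩ (nd (nat_lit 275) (nat_lit 0) (cs (lf (nat_lit 42) (nat_lit 208)) (nd (nat_lit 276) (nat_lit 0) (cs (lf (nat_lit 29) (nat_lit 209)) (nd (nat_lit 274) (nat_lit 0) (cs (lf (nat_lit 41) (nat_lit 208)) (rf (nat_lit 0)))))))) q1405 (by decide +kernel)
def q1409 : Q := Q.p (nat_lit 0x3000004000010000000000000000000000000000000000000000000000000000) (nat_lit 0xa00000800002000000000060000180000200000000000000000000000000000000000) (nat_lit 5)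
theorem c1409 : QOK q1409 := cut [q1408] ⟨c1408, trivial⟩ (nd (nat_lit 186) (nat_lit 0) (cs (lf (nat_lit 29) (nat_lit 186)) (rf (nat_lit 0)))) q1409 (by decide +kernel)
def q1413 : Q := Q.p (nat_lit 0x1000004000038000000000000000000000000000000000000000000000000000) (nat_lit 0x40000000000000004400003c000000000000000000000000000000000000000000000) (nat_lit 4)
theorem c1413 : QOK q1413 := cut [q1412] ⟨c1412, trivial⟩ (nd (nat_lit 185) (nat_lit 0) (cs (lf (nat_lit 42) (nat_lit 185)) (rf (nat_lit 0)))) q1413 (by decide +kernel)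
def q1416 : Q := Q.p (nat_lit 0x400003c000000000000000000000000000000000000000000000000000) (nat_lit 0x2e0000300001c000000000000000000000000000000000000000000000) (nat_lit 5)
theorem c1416 : QOK q1416 := cut [q1414] ⟨c1414, trivial⟩ (nd (nat_lit 183) (nat_lit 0) (cs (lf (nat_lit 22) (nat_lit 183)) (nd (nat_lit 205) (nat_lit 0) (cs (lf (nat_lit 23) (nat_lit 182)) (rf (nat_lit 0)))))) q1416 (by decide +kernel)
def q1418 : Q := Q.p (nat_lit 0x480001c000000000000000000000000000000000000000000000000000) (nat_lit 0x240000300000e000000000000000000000000000000000000000000000) (nat_lit 4)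
theorem c1418 : QOK q1418 := cut [q1417] ⟨c1417, trivial⟩ (nd (nat_lit 205) (nat_lit 0) (cs (lf (nat_lit 11) (nat_lit 204)) (rf (nat_lit 0)))) q1418 (by decide +kernel)
def q1431 : Q := Q.p (nat_lit 0x400001000004000030000000000000000000000000000000000000000000000000000) (nat_lit 0x1000000000000000030000c8000020000000000000000000000000000000000000000000000) (nat_lit 4)
theorem c1431 : QOK q1431 := cut [q1430] ⟨c1430, trivial⟩ (nd (nat_lit 207) (nat_lit 0) (cs (lf (nat_lit 47) (nat_lit 185)) (rf (nat_lit 0)))) q1431 (by decide +kernel)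
def q1435 : Q := Q.p (nat_lit 0x1000004000030000040000000000000000000000000000000000000000000000) (nat_lit 0xc8000038000080000000000000000000000000000000000000000) (nat_lit 4)
theorem c1435 : QOK q1435 := cut [q1434] ⟨c1434, trivial⟩ (nd (nat_lit 185) (nat_lit 0) (cs (lf (nat_lit 47) (nat_lit 163)) (rf (nat_lit 0)))) q1435 (by decide +kernel)
def q1448 : Q := Q.p (nat_lit 0x1000004000010000040000000000000000000000000000000000000000000000) (nat_lit 0x200000800002000000000000000380000e00002800000000000000000000000000000) (nat_lit 6)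
theorem c1448 : QOK q1448 := cut [q630] ⟨c630, trivial⟩ (nd (nat_lit 251) (nat_lit 0) (cs (lf (nat_lit 41) (nat_lit 185)) (nd (nat_lit 164) (nat_lit 0) (cs (lf (nat_lit 40) (nat_lit 163)) (rf (nat_lit 0)))))) q1448 (by decide +kernel)
def q1458 : Q := Q.p (nat_lit 0x2000078000000000000000000000000000000000000000000000000000) (nat_lit 0x800000000080000070000100000400000000000000000000000000000000000) (nat_lit 4)
theorem c1458 : QOK q1458 := cut [q1457] ⟨c1457, trivial⟩ (nd (nat_lit 185) (nat_lit 0) (cs (lf (nat_lit 23) (nat_lit 184)) (rf (nat_lit 0)))) q1458 (by decide +kernel)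
def q1465 : Q := Q.p (nat_lit 0x38000000000000000000000000000000000000000000000000000) (nat_lit 0x3c000460003dc000000000000000000000000000000000000000000000) (nat_lit 5)
theorem c1465 : QOK q1465 := cut [q117, q684, q1464] ⟨c117, c684, c1464, trivial⟩ (nd (nat_lit 206) (nat_lit 0) (cs (rf (nat_lit 0)) (cs (rf (nat_lit 1)) (rf (nat_lit 2))))) q1465 (by decide +kernel)
def q1469 : Q := Q.p (nat_lit 0x380000c0000000000000000000000000000000000000000000000) (nat_lit 0x38001c6000020000000000000000000000000000000000000000000000) (nat_lit 5)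
theorem c1469 : QOK q1469 := cut [q328] ⟨c328, trivial⟩ (nd (nat_lit 206) (nat_lit 0) (cs (lf (nat_lit 12) (nat_lit 183)) (rf (nat_lit 0)))) q1469 (by decide +kernel)
def q1486 : Q := Q.p (nat_lit 0x100003c000000000000000000000000000000000000000000000000000) (nat_lit 0x400000000040000038000080000200000000000000000000000000000000000) (nat_lit 4)
theorem c1486 : QOK q1486 := cut [q1485] ⟨c1485, trivial⟩ (nd (nat_lit 184) (nat_lit 0) (cs (lf (nat_lit 23) (nat_lit 183)) (rf (nat_lit 0)))) q1486 (by decide +kernel)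
def q1506 : Q := Q.p (nat_lit 0x1e000000000000000000000000000000000000000000000000000) (nat_lit 0x10000ee000000000000000000000000000000000000000000000) (nat_lit 4)
theorem c1506 : QOK q1506 := cut [q128] ⟨c128, trivial⟩ (nd (nat_lit 186) (nat_lit 0) (cs (rf (nat_lit 0)) (lf (nat_lit 17) (nat_lit 183)))) q1506 (by decide +kernel)
def q1511 : Q := Q.p (nat_lit 0x3c000000000000000000000000000000000000000000000000000) (nat_lit 0x1c000c30000f0000000000000000000000000000000000000000000000) (nat_lit 6)
theorem c1511 : QOK q1511 := cut [q168] ⟨c168, trivial⟩ (nd (nat_lit 227) (nat_lit 0) (cs (lf (nat_lit 10) (nat_lit 205)) (nd (nat_lit 205) (nat_lit 0) (cs (lf (nat_lit 11) (nat_lit 204)) (nd (nat_lit 186) (nat_lit 0) (cs (rf (nat_lit 0)) (lf (nat_lit 17) (nat_lit 183)))))))) q1511 (by decide +kernel)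
def q1520 : Q := Q.p (nat_lit 0x1e000000000000000000000000000000000000000000000000000) (nat_lit 0xe000010000e0000000000000000000000000000000000000000000000) (nat_lit 4)
theorem c1520 : QOK q1520 := cut [q154] ⟨c154, trivial⟩ (nd (nat_lit 186) (nat_lit 0) (cs (rf (nat_lit 0)) (lf (nat_lit 17) (nat_lit 183)))) q1520 (by decide +kernel)
def q1525 : Q := Q.p (nat_lit 0x800001000004000010000000000000000000000000000000000000000000000) (nat_lit 0x20000000000000000e0000380000a00000000000000000000000000000) (nat_lit 5)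
theorem c1525 : QOK q1525 := cut [q1273] ⟨c1273, trivial⟩ (nd (nat_lit 162) (nat_lit 0) (cs (rf (nat_lit 0)) (lf (nat_lit 28) (nat_lit 162)))) q1525 (by decide +kernel)
def q1560 : Q := Q.p (nat_lit 0x2000000000038000000000000000000000000000000000000000000000000000) (nat_lit 0x8000000000080000460003fc000500000000000000000000000000000000000000000) (nat_lit 6)
theorem c1560 : QOK q1560 := cut [q1555, q917, q1559] ⟨c1555, c917, c1559, trivial⟩ (nd (nat_lit 184) (nat_lit 0) (cs (nd (nat_lit 206) (nat_lit 0) (cs (lf (nat_lit 23) (nat_lit 183)) (rf (nat_lit 0)))) (cs (nd (nat_lit 210) (nat_lit 0) (cs (lf (nat_lit 22) (nat_lit 184)) (rf (nat_lit 1)))) (rf (nat_lit 2))))) q1560 (by decide +kernel)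
def q1577 : Q := Q.p (nat_lit 0x2000008000030000080000000000000000000000000000000000000000000000) (nat_lit 0x4000010000040001c00007600005c0000400000000000000000000000000000000000) (nat_lit 8)
theorem c1577 : QOK q1577 := cut [q33, q1576] ⟨c33, c1576, trivial⟩ (nd (nat_lit 186) (nat_lit 0) (cs (rf (nat_lit 0)) (rf (nat_lit 1)))) q1577 (by decide +kernel)
def q1590 : Q := Q.p (nat_lit 0x800002000008000020000000000000000000000000000000000000000000000000000) (nat_lit 0x500001400001000000000040000180000400000000000000000000000000000000000000000) (nat_lit 5)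
theorem c1590 : QOK q1590 := cut [q1587] ⟨c1587, trivial⟩ (nd (nat_lit 188) (nat_lit 0) (cs (nd (nat_lit 276) (nat_lit 0) (cs (lf (nat_lit 29) (nat_lit 209)) (rf (nat_lit 0)))) (lf (nat_lit 34) (nat_lit 187)))) q1590 (by decide +kernel)
def q1593 : Q := Q.p (nat_lit 0x800002000008000020000000000000000000000000000000000000000000000000000) (nat_lit 0x100000400001000000000040000180000400000000000000000000000000000000000000000) (nat_lit 4)
theorem c1593 : QOK q1593 := cut [q1592] ⟨c1592, trivial⟩ (nd (nat_lit 274) (nat_lit 0) (cs (lf (nat_lit 41) (nat_lit 208)) (rf (nat_lit 0)))) q1593 (by decide +kernel)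
def q1608 : Q := Q.p (nat_lit 0x38000020000000000000000000000000000000000000000000000) (nat_lit 0xe70003c0001f90000000000000000000000000000000000000000000000) (nat_lit 9)
theorem c1608 : QOK q1608 := cut [q1604] ⟨c1604, trivial⟩ (nd (nat_lit 210) (nat_lit 0) (cs (lf (nat_lit 23) (nat_lit 184)) (nd (nat_lit 188) (nat_lit 0) (cs (lf (nat_lit 17) (nat_lit 185)) (nd (nat_lit 229) (nat_lit 0) (cs (lf (nat_lit 11) (nat_lit 206)) (nd (nat_lit 211) (nat_lit 0) (cs (lf (nat_lit 10) (nat_lit 207)) (rf (nat_lit 0)))))))))) q1608 (by decide +kernel)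
def q1621 : Q := Q.p (nat_lit 0x18000020000080000000000000000000000000000000000000000) (nat_lit 0x4000000000000000000000700001c00005000000000000000000000000) (nat_lit 5)
theorem c1621 : QOK q1621 := cut [q1620] ⟨c1620, trivial⟩ (nd (nat_lit 141) (nat_lit 0) (cs (lf (nat_lit 29) (nat_lit 141)) (rf (nat_lit 0)))) q1621 (by decide +kernel)
def q1641 : Q := Q.p (nat_lit 0x18000020000080000400000000000000000000000000000000000) (nat_lit 0x40000000000300001c00001000000000000000000000000) (nat_lit 4)
theorem c1641 : QOK q1641 := cut [q1639] ⟨c1639, trivial⟩ (nd (nat_lit 141) (nat_lit 0) (cs (rf (nat_lit 0)) (lf (nat_lit 35) (nat_lit 119)))) q1641 (by decide +kernel)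
def q1658 : Q := Q.p (nat_lit 0x18000020000080000000000000000000000000000000000000000) (nat_lit 0x4000000000040000000000300000c00001000000000000000000000000) (nat_lit 4)
theorem c1658 : QOK q1658 := cut [q1639] ⟨c1639, trivial⟩ (nd (nat_lit 141) (nat_lit 0) (cs (lf (nat_lit 29) (nat_lit 141)) (rf (nat_lit 0)))) q1658 (by decide +kernel)
def q1661 : Q := Q.p (nat_lit 0x2000038000020000000000000000000000000000000000000000000000) (nat_lit 0x8000010000c0000340000100000400000000000000000000000000000000000) (nat_lit 5)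
theorem c1661 : QOK q1661 := cut [q1457] ⟨c1457, trivial⟩ (nd (nat_lit 210) (nat_lit 0) (cs (lf (nat_lit 11) (nat_lit 206)) (nd (nat_lit 188) (nat_lit 0) (cs (lf (nat_lit 17) (nat_lit 185)) (rf (nat_lit 0)))))) q1661 (by decide +kernel)
def q1667 : Q := Q.p (nat_lit 0x2000018000060000000000000000000000000000000000000000000000) (nat_lit 0x6000018000040000000000000000c0000300000c00000000000000000000000000000) (nat_lit 6)
theorem c1667 : QOK q1667 := cut [q1663] ⟨c1663, trivial⟩ (nd (nat_lit 251) (nat_lit 0) (cs (lf (nat_lit 30) (nat_lit 185)) (nd (nat_lit 252) (nat_lit 0) (cs (lf (nat_lit 29) (nat_lit 185)) (nd (nat_lit 163) (nat_lit 0) (cs (rf (nat_lit 0)) (lf (nat_lit 28) (nat_lit 163)))))))) q1667 (by decide +kernel)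
def q1695 : Q := Q.p (nat_lit 0x2000000000038000000000000000000000000000000000000000000000000000) (nat_lit 0x2a0003c60003fc000500003c0000f000000000000000000000000000000) (nat_lit 11)
theorem c1695 : QOK q1695 := cut [q1559, q1678, q1680, q1683] ⟨c1559, c1678, c1680, c1683, trivial⟩ (nd (nat_lit 184) (nat_lit 0) (cs (rf (nat_lit 0)) (cs (nd (nat_lit 206) (nat_lit 0) (cs (lf (nat_lit 23) (nat_lit 183)) (rf (nat_lit 1)))) (cs (nd (nat_lit 183) (nat_lit 0) (cs (lf (nat_lit 21) (nat_lit 183)) (rf (nat_lit 2)))) (nd (nat_lit 210) (nat_lit 0) (cs (lf (nat_lit 22) (nat_lit 184)) (nd (nat_lit 188) (nat_lit 0) (cs (lf (nat_lit 17) (nat_lit 185)) (nd (nat_lit 187) (nat_lit 0) (cs (lf (nat_lit 12) (nat_lit 184)) (nd (nat_lit 166) (nat_lit 0) (cs (lf (nat_lit 31) (nat_lit 165)) (nd (nat_lit 144) (nat_lit 0) (cs (lf (nat_lit 36) (nat_lit 121)) (nd (nat_lit 121) (nat_lit 0) (cs (nd (nat_lit 123) (nat_lit 0) (cs (nd (nat_lit 211) (nat_lit 0) (cs (rf (nat_lit 3)) (lf (nat_lit 29) (nat_lit 144)))) (lf (nat_lit 34) (nat_lit 122))))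 (lf (nat_lit 46) (nat_lit 121)))))))))))))))))) q1695 (by decide +kernel)
def q1703 : Q := Q.p (nat_lit 0x300000c0000100000000000000000000000000000000000000000) (nat_lit 0x4000000000000000280007e00007800000000000000000000000000000) (nat_lit 7)
theorem c1703 : QOK q1703 := cut [q1699] ⟨c1699, trivial⟩ (nd (nat_lit 142) (nat_lit 0) (cs (lf (nat_lit 24) (nat_lit 120)) (nd (nat_lit 119) (nat_lit 0) (cs (lf (nat_lit 46) (nat_lit 119)) (nd (nat_lit 143) (nat_lit 0) (cs (lf (nat_lit 35) (nat_lit 120)) (nd (nat_lit 165) (nat_lit 0) (cs (lf (nat_lit 30) (nat_lit 142)) (rf (nat_lit 0)))))))))) q1703 (by decide +kernel)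
def q1723 : Q := Q.p (nat_lit 0x2000018000020000080000000000000000000000000000000000000000) (nat_lit 0x100000700001c00001000000000040000100000400000000000000000000000000000000000) (nat_lit 6)
theorem c1723 : QOK q1723 := cut [q1719] ⟨c1719, trivial⟩ (nd (nat_lit 250) (nat_lit 0) (cs (nd (nat_lit 142) (nat_lit 0) (cs (lf (nat_lit 34) (nat_lit 141)) (nd (nat_lit 251) (nat_lit 0) (cs (lf (nat_lit 41) (nat_lit 184)) (rf (nat_lit 0)))))) (lf (nat_lit 40) (nat_lit 162)))) q1723 (by decide +kernel)
def q1745 : Q := Q.p (nat_lit 0x18000020000080000000000000000000000000000000000000000) (nat_lit 0x100000700001c00003000000000050000170000700001c00005000000000000000000000000) (nat_lit 11)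
theorem c1745 : QOK q1745 := cut [q1613, q1620, q1639, q1719] ⟨c1613, c1620, c1639, c1719, trivial⟩ (nd (nat_lit 141) (nat_lit 0) (cs (rf (nat_lit 0)) (cs (rf (nat_lit 1)) (cs (rf (nat_lit 2)) (nd (nat_lit 118) (nat_lit 0) (cs (lf (nat_lit 46) (nat_lit 118)) (nd (nat_lit 142) (nat_lit 0) (cs (lf (nat_lit 35) (nat_lit 119)) (nd (nat_lit 229) (nat_lit 0) (cs (lf (nat_lit 34) (nat_lit 141)) (nd (nat_lit 250) (nat_lit 0) (cs (lf (nat_lit 40) (nat_lit 162)) (nd (nat_lit 251) (nat_lit 0) (cs (lf (nat_lit 41) (nat_lit 184)) (nd (nat_lit 162) (nat_lit 0) (cs (lf (nat_lit 46) (nat_lit 162)) (nd (nat_lit 160) (nat_lit 0) (cs (rf (nat_lit 3)) (lf (nat_lit 13) (nat_lit 138)))))))))))))))))))) q1745 (by decide +kernel)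
def q1801 : Q := Q.p (nat_lit 0x38000160000000000000000000000000000000000000000000000) (nat_lit 0x40000040000800000c0000200000800000000000000000000000000000) (nat_lit 4)
theorem c1801 : QOK q1801 := cut [q1800] ⟨c1800, trivial⟩ (nd (nat_lit 187) (nat_lit 0) (cs (lf (nat_lit 12) (nat_lit 184)) (rf (nat_lit 0)))) q1801 (by decide +kernel)
def q1850 : Q := Q.p (nat_lit 0x200000800002000018000000000000000000000000000000000000000000000000000) (nat_lit 0xc0000100001400004000000000020000080000200000000000000000000000000000000000) (nat_lit 5)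
theorem c1850 : QOK q1850 := cut [q1848] ⟨c1848, trivial⟩ (nd (nat_lit 272) (nat_lit 0) (cs (lf (nat_lit 41) (nat_lit 206)) (nd (nat_lit 185) (nat_lit 0) (cs (lf (nat_lit 40) (nat_lit 184)) (rf (nat_lit 0)))))) q1850 (by decide +kernel)
def q1865 : Q := Q.p (nat_lit 0x2000038000000000000000000000000000000000000000000000000000) (nat_lit 0x2000008000e10001c00007e0000000000000000000000000000000000000000000000) (nat_lit 8)
theorem c1865 : QOK q1865 := cut [q1860] ⟨c1860, trivial⟩ (nd (nat_lit 210) (nat_lit 0) (cs (lf (nat_lit 11) (nat_lit 206)) (nd (nat_lit 189) (nat_lit 0) (cs (lf (nat_lit 16) (nat_lit 185)) (nd (nat_lit 211) (nat_lit 0) (cs (lf (nat_lit 17) (nat_lit 186)) (nd (nat_lit 186) (nat_lit 0) (cs (lf (nat_lit 23) (nat_lit 185)) (nd (nat_lit 251) (nat_lit 0) (cs (lf (nat_lit 30) (nat_lit 185)) (rf (nat_lit 0)))))))))))) q1865 (by decide +kernel)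
def q1929 : Q := Q.p (nat_lit 0x18000060000080000200000000000000000000000000000000000) (nat_lit 0x2000000000000000140003c00003000000000000000000000000000000) (nat_lit 5)
theorem c1929 : QOK q1929 := cut [q1927] ⟨c1927, trivial⟩ (nd (nat_lit 142) (nat_lit 0) (cs (lf (nat_lit 35) (nat_lit 119)) (nd (nat_lit 164) (nat_lit 0) (cs (lf (nat_lit 30) (nat_lit 141)) (rf (nat_lit 0)))))) q1929 (by decide +kernel)
def q1939 : Q := Q.p (nat_lit 0x18000020000080000000000000000000000000000000000000000) (nat_lit 0x2000000000040000060001f00001c00005000000000000000000000000) (nat_lit 6)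
theorem c1939 : QOK q1939 := cut [q1613, q1639, q1935] ⟨c1613, c1639, c1935, trivial⟩ (nd (nat_lit 141) (nat_lit 0) (cs (rf (nat_lit 0)) (cs (rf (nat_lit 1)) (nd (nat_lit 140) (nat_lit 0) (cs (lf (nat_lit 47) (nat_lit 118)) (nd (nat_lit 162) (nat_lit 0) (cs (rf (nat_lit 2)) (lf (nat_lit 42) (nat_lit 140))))))))) q1939 (by decide +kernel)
def q1948 : Q := Q.p (nat_lit 0x30000080000200000000000000000000000000000000000000000) (nat_lit 0x4000000000000000000001c00007000014000000000000000000000000) (nat_lit 5)
theorem c1948 : QOK q1948 := cut [q1946] ⟨c1946, trivial⟩ (nd (nat_lit 143) (nat_lit 0) (cs (rf (nat_lit 0)) (lf (nat_lit 41) (nat_lit 142)))) q1948 (by decide +kernel)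
def q1982 : Q := Q.p (nat_lit 0x38000060000000000000000000000000000000000000000000000) (nat_lit 0x8000030000c0000000000100000400000000000000000000000000000000000) (nat_lit 4)
theorem c1982 : QOK q1982 := cut [q1981] ⟨c1981, trivial⟩ (nd (nat_lit 210) (nat_lit 0) (cs (lf (nat_lit 18) (nat_lit 185)) (rf (nat_lit 0)))) q1982 (by decide +kernel)
def q1999 : Q := Q.p (nat_lit 0x800003800000000000000000000000000000000000000000000000000000000000000) (nat_lit 0x15c0000600000000000000000000000000000000000000000000000000000000000000) (nat_lit 4)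
theorem c1999 : QOK q1999 := cut [q1998] ⟨c1998, trivial⟩ (nd (nat_lit 250) (nat_lit 0) (cs (lf (nat_lit 5) (nat_lit 250)) (rf (nat_lit 0)))) q1999 (by decide +kernel)
def q2025 : Q := Q.p (nat_lit 0x400001800000000038000000000000000000000000000000000000000000000000000) (nat_lit 0x200004400003c000000000000000000000000000000000000000000000) (nat_lit 4)
theorem c2025 : QOK q2025 := cut [q1412] ⟨c1412, trivial⟩ (nd (nat_lit 185) (nat_lit 0) (cs (lf (nat_lit 26) (nat_lit 185)) (rf (nat_lit 0)))) q2025 (by decide +kernel)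
def q2034 : Q := Q.p (nat_lit 0x480000600001800000000000000000000000000000000000000000000000000000000000000) (nat_lit 0x1c0000f0000300000000000000000000000000000000000000000000000000000000000000000000000000) (nat_lit 5)
theorem c2034 : QOK q2034 := cut [q2032] ⟨c2032, trivial⟩ (nd (nat_lit 317) (nat_lit 0) (cs (rf (nat_lit 0)) (lf (nat_lit 30) (nat_lit 251)))) q2034 (by decide +kernel)
def q2050 : Q := Q.p (nat_lit 0x40000f00003000000000000000000000000000000000000000000000000000000000000000) (nat_lit 0x700001e0000780000000000000000000000000000000000000000000000000000000000000000000000000) (nat_lit 6)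
theorem c2050 : QOK q2050 := cut [q2049] ⟨c2049, trivial⟩ (nd (nat_lit 297) (nat_lit 0) (cs (lf (nat_lit 5) (nat_lit 272)) (rf (nat_lit 0)))) q2050 (by decide +kernel)
def q2065 : Q := Q.p (nat_lit 0x3c00000000000000000000000000000000000000000000000000000000000000) (nat_lit 0x1c0000200001c00000000000000000000000000000000000000000000000000000000) (nat_lit 4)
theorem c2065 : QOK q2065 := cut [q2064] ⟨c2064, trivial⟩ (nd (nat_lit 271) (nat_lit 0) (cs (lf (nat_lit 10) (nat_lit 249)) (rf (nat_lit 0)))) q2065 (by decide +kernel)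
def q2086 : Q := Q.p (nat_lit 0x3c00001000004000000000000000000000000000000000000000000000000000) (nat_lit 0x18000000000000000a0000380000a0000000000000000000000000000000000000000) (nat_lit 5)
theorem c2086 : QOK q2086 := cut [q2085] ⟨c2085, trivial⟩ (nd (nat_lit 272) (nat_lit 0) (cs (lf (nat_lit 11) (nat_lit 249)) (rf (nat_lit 0)))) q2086 (by decide +kernel)
def q2091 : Q := Q.p (nat_lit 0x800003800000000000000000000000000000000000000000000000000000000000000) (nat_lit 0x1400000600001c00000000000000000000000000000000000000000000000000000000) (nat_lit 4)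
theorem c2091 : QOK q2091 := cut [q2090] ⟨c2090, trivial⟩ (nd (nat_lit 250) (nat_lit 0) (cs (lf (nat_lit 5) (nat_lit 250)) (rf (nat_lit 0)))) q2091 (by decide +kernel)
def q2104 : Q := Q.p (nat_lit 0x3c000020000000000000000000000000000000000000000000000) (nat_lit 0x100000400003800000000000000080000200000000000000000000000000000000000) (nat_lit 4)
theorem c2104 : QOK q2104 := cut [q2103] ⟨c2103, trivial⟩ (nd (nat_lit 228) (nat_lit 0) (cs (lf (nat_lit 11) (nat_lit 205)) (rf (nat_lit 0)))) q2104 (by decide +kernel)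
def q2128 : Q := Q.p (nat_lit 0x38000060000000000000000000000000000000000000000000000) (nat_lit 0xc4000380000ec0001f00007c00000000000000000000000000000) (nat_lit 10)
theorem c2128 : QOK q2128 := cut [q1796, q1797, q2107, q2116, q2122] ⟨c1796, c1797, c2107, c2116, c2122, trivial⟩ (nd (nat_lit 188) (nat_lit 0) (cs (rf (nat_lit 0)) (cs (rf (nat_lit 1)) (nd (nat_lit 187) (nat_lit 0) (cs (lf (nat_lit 11) (nat_lit 184)) (nd (nat_lit 143) (nat_lit 0) (cs (nd (nat_lit 210) (nat_lit 0) (cs (lf (nat_lit 18) (nat_lit 185)) (nd (nat_lit 121) (nat_lit 0) (cs (lf (nat_lit 38) (nat_lit 120)) (rf (nat_lit 2)))))) (cs (nd (nat_lit 163) (nat_lit 0) (cs (lf (nat_lit 23) (nat_lit 162)) (nd (nat_lit 166) (nat_lit 0) (cs (lf (nat_lit 17) (nat_lit 163)) (nd (nat_lit 122) (nat_lit 0) (cs (lf (nat_lit 37) (nat_lit 121)) (nd (nat_lit 141) (nat_lit 0) (cs (lf (nat_lit 24) (nat_lit 119)) (nd (nat_lit 142) (nat_lit 0) (cs (lf (nat_lit 35) (nat_lit 119)) (nd (nat_lit 140) (nat_lit 0) (cs (lf (nat_lit 47) (nat_lit 118)) (lf (nat_lit 4) (nat_lit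 140)))))))))))))) (cs (nd (nat_lit 162) (nat_lit 0) (cs (lf (nat_lit 22) (nat_lit 162)) (nd (nat_lit 210) (nat_lit 0) (cs (lf (nat_lit 5) (nat_lit 185)) (rf (nat_lit 3)))))) (nd (nat_lit 121) (nat_lit 0) (cs (lf (nat_lit 38) (nat_lit 120)) (nd (nat_lit 163) (nat_lit 0) (cs (lf (nat_lit 23) (nat_lit 162)) (nd (nat_lit 210) (nat_lit 0) (cs (lf (nat_lit 5) (nat_lit 185)) (rf (nat_lit 4))))))))))))))))) q2128 (by decide +kernel)
def q2132 : Q := Q.p (nat_lit 0x300000f0000000000000000000000000000000000000000000000) (nat_lit 0x40000180000e000100000080000200000000000000000000000000000000000) (nat_lit 5)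
theorem c2132 : QOK q2132 := cut [q1133] ⟨c1133, trivial⟩ (nd (nat_lit 206) (nat_lit 0) (cs (nd (nat_lit 207) (nat_lit 0) (cs (lf (nat_lit 17) (nat_lit 184)) (rf (nat_lit 0)))) (lf (nat_lit 11) (nat_lit 183)))) q2132 (by decide +kernel)
def q2135 : Q := Q.p (nat_lit 0x300000f0000000000000000000000000000000000000000000000) (nat_lit 0x80007000000e0000000000000000000000000000000000000000) (nat_lit 4)
theorem c2135 : QOK q2135 := cut [q2134] ⟨c2134, trivial⟩ (nd (nat_lit 162) (nat_lit 0) (cs (lf (nat_lit 23) (nat_lit 161)) (rf (nat_lit 0)))) q2135 (by decide +kernel)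
def q2147 : Q := Q.p (nat_lit 0x80000f0000000000000000000000000000000000000000000000) (nat_lit 0x8000020000000000000000e0000100000400000000000000000000000000000) (nat_lit 4)
theorem c2147 : QOK q2147 := cut [q2146] ⟨c2146, trivial⟩ (nd (nat_lit 162) (nat_lit 0) (cs (lf (nat_lit 23) (nat_lit 161)) (rf (nat_lit 0)))) q2147 (by decide +kernel)
def q2161 : Q := Q.p (nat_lit 0x40000f0000000000000000000000000000000000000000000000) (nat_lit 0x10000000001000000e0000200000800000000000000000000000000000) (nat_lit 4)
theorem c2161 : QOK q2161 := cut [q2160] ⟨c2160, trivial⟩ (nd (nat_lit 162) (nat_lit 0) (cs (lf (nat_lit 23) (nat_lit 161)) (rf (nat_lit 0)))) q2161 (by decide +kernel)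
def q2189 : Q := Q.p (nat_lit 0x3c00000000000000000000000000000000000000000000000000000000000000000000) (nat_lit 0x1dc0000200018000000000000000000000000000000000000000000000000000000000000000) (nat_lit 5)
theorem c2189 : QOK q2189 := cut [q2187] ⟨c2187, trivial⟩ (nd (nat_lit 255) (nat_lit 0) (cs (rf (nat_lit 0)) (lf (nat_lit 17) (nat_lit 252)))) q2189 (by decide +kernel)
def q2202 : Q := Q.p (nat_lit 0x800002000008000030000000000000000000000000000000000000000000000000000) (nat_lit 0x100000700001400000000004000040000100000000000000000000000000000000000000000000000) (nat_lit 5)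
theorem c2202 : QOK q2202 := cut [q732] ⟨c732, trivial⟩ (nd (nat_lit 188) (nat_lit 0) (cs (lf (nat_lit 34) (nat_lit 187)) (nd (nat_lit 274) (nat_lit 0) (cs (lf (nat_lit 41) (nat_lit 208)) (rf (nat_lit 0)))))) q2202 (by decide +kernel)
def q2206 : Q := Q.p (nat_lit 0x1800002000008000020000000000000000000000000000000000000000000000000000) (nat_lit 0x100002400001c00000000000000080000000000000000000000000000000000000000000000) (nat_lit 4)
theorem c2206 : QOK q2206 := cut [q2205] ⟨c2205, trivial⟩ (nd (nat_lit 274) (nat_lit 0) (cs (lf (nat_lit 41) (nat_lit 208)) (rf (nat_lit 0)))) q2206 (by decide +kernel)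
def q2215 : Q := Q.p (nat_lit 0x2000008000030000000000000000000000000000000000000000000000000000) (nat_lit 0x40000100000400004c0007c0000700001c00000000000000000000000000000000000) (nat_lit 7)
theorem c2215 : QOK q2215 := cut [q1568, q1580, q1584, q2212] ⟨c1568, c1580, c1584, c2212, trivial⟩ (nd (nat_lit 187) (nat_lit 0) (cs (rf (nat_lit 0)) (cs (rf (nat_lit 1)) (cs (rf (nat_lit 2)) (nd (nat_lit 252) (nat_lit 0) (cs (lf (nat_lit 41) (nat_lit 186)) (nd (nat_lit 164) (nat_lit 0) (cs (lf (nat_lit 46) (nat_lit 164)) (rf (nat_lit 3)))))))))) q2215 (by decide +kernel)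
def q2226 : Q := Q.p (nat_lit 0x300000e0000000000000000000000000000000000000000000000) (nat_lit 0x4000000000018000600000800002000000000000000000000000000000) (nat_lit 4)
theorem c2226 : QOK q2226 := cut [q2225] ⟨c2225, trivial⟩ (nd (nat_lit 184) (nat_lit 0) (cs (lf (nat_lit 0) (nat_lit 183)) (rf (nat_lit 0)))) q2226 (by decide +kernel)
def q2246 : Q := Q.p (nat_lit 0x400001c0000000000000000000000000000000000000000) (nat_lit 0xae000030000000000000000000000000000000000000000) (nat_lit 4)
theorem c2246 : QOK q2246 := cut [q2244] ⟨c2244, trivial⟩ (nd (nat_lit 161) (nat_lit 0) (cs (rf (nat_lit 0)) (lf (nat_lit 5) (nat_lit 161)))) q2246 (by decide +kernel)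
def q2270 : Q := Q.p (nat_lit 0x400001c0000000000000000000000000000000000000000) (nat_lit 0xa00000300000e0000000000000000000000000000000000) (nat_lit 4)
theorem c2270 : QOK q2270 := cut [q2269] ⟨c2269, trivial⟩ (nd (nat_lit 161) (nat_lit 0) (cs (lf (nat_lit 5) (nat_lit 161)) (rf (nat_lit 0)))) q2270 (by decide +kernel)
def q2279 : Q := Q.p (nat_lit 0x800003400000000000000000000000000000000000000000000000000000000000000) (nat_lit 0x15c0000a00000000000000000000000000000000000000000000000000000000000000) (nat_lit 4)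
theorem c2279 : QOK q2279 := cut [q1998] ⟨c1998, trivial⟩ (nd (nat_lit 251) (nat_lit 0) (cs (lf (nat_lit 5) (nat_lit 250)) (rf (nat_lit 0)))) q2279 (by decide +kernel)
def q2281 : Q := Q.p (nat_lit 0x800003400000000000000000000000000000000000000000000000000000000000000) (nat_lit 0x1400000a00001c00000000000000000000000000000000000000000000000000000000) (nat_lit 4)
theorem c2281 : QOK q2281 := cut [q2090] ⟨c2090, trivial⟩ (nd (nat_lit 251) (nat_lit 0) (cs (lf (nat_lit 5) (nat_lit 250)) (rf (nat_lit 0)))) q2281 (by decide +kernel)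
def q2307 : Q := Q.p (nat_lit 0x34000070000000000000000000000000000000000000000000000) (nat_lit 0x4000002000080000600000800002000000000000000000000000000000) (nat_lit 4)
theorem c2307 : QOK q2307 := cut [q2225] ⟨c2225, trivial⟩ (nd (nat_lit 187) (nat_lit 0) (cs (lf (nat_lit 11) (nat_lit 183)) (rf (nat_lit 0)))) q2307 (by decide +kernel)
def q2322 : Q := Q.p (nat_lit 0x4000030000040000100000000000000000000000000000000000000000) (nat_lit 0x8000038000c8000000000000000000000000000000000000000000000000000) (nat_lit 4)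
theorem c2322 : QOK q2322 := cut [q1178] ⟨c1178, trivial⟩ (nd (nat_lit 229) (nat_lit 0) (cs (lf (nat_lit 41) (nat_lit 163)) (rf (nat_lit 0)))) q2322 (by decide +kernel)
def q2328 : Q := Q.p (nat_lit 0x20000080000300000c0000000000000000000000000000000000000000000000) (nat_lit 0x400001000000000008000700000400000000000000000000000000000000000000000) (nat_lit 4)
theorem c2328 : QOK q2328 := cut [q358] ⟨c358, trivial⟩ (nd (nat_lit 252) (nat_lit 0) (cs (lf (nat_lit 41) (nat_lit 186)) (rf (nat_lit 0)))) q2328 (by decide +kernel)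
def q2337 : Q := Q.p (nat_lit 0x2000008000030000080000000000000000000000000000000000000000000000) (nat_lit 0x400001000004000000000040000700001800006000000000000000000000000000000) (nat_lit 6)
theorem c2337 : QOK q2337 := cut [q2336] ⟨c2336, trivial⟩ (nd (nat_lit 186) (nat_lit 0) (cs (lf (nat_lit 47) (nat_lit 164)) (rf (nat_lit 0)))) q2337 (by decide +kernel)
def q2344 : Q := Q.p (nat_lit 0x2000008000030000080000000000000000000000000000000000000000000000) (nat_lit 0x600001e00004000040000078000380000000000000000000000000000000000000000) (nat_lit 8)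
theorem c2344 : QOK q2344 := cut [q13] ⟨c13, trivial⟩ (nd (nat_lit 252) (nat_lit 0) (cs (lf (nat_lit 41) (nat_lit 186)) (nd (nat_lit 230) (nat_lit 0) (cs (nd (nat_lit 186) (nat_lit 0) (cs (lf (nat_lit 47) (nat_lit 164)) (nd (nat_lit 251) (nat_lit 0) (cs (lf (nat_lit 41) (nat_lit 185)) (nd (nat_lit 249) (nat_lit 0) (cs (rf (nat_lit 0)) (lf (nat_lit 13) (nat_lit 227)))))))) (lf (nat_lit 36) (nat_lit 164)))))) q2344 (by decide +kernel)
def q2348 : Q := Q.p (nat_lit 0x2000008000030000000000000000000000000000000000000000000000000000) (nat_lit 0x40000100000400004c0007c0000700000400000000000000000000000000000000000) (nat_lit 5)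
theorem c2348 : QOK q2348 := cut [q1568, q2212] ⟨c1568, c2212, trivial⟩ (nd (nat_lit 187) (nat_lit 0) (cs (rf (nat_lit 0)) (rf (nat_lit 1)))) q2348 (by decide +kernel)
def q2384 : Q := Q.p (nat_lit 0x8000070000040000000000000000000000000000000000000000000000) (nat_lit 0xe7000188000780000000000000000000000000000000000000000000000) (nat_lit 6)
theorem c2384 : QOK q2384 := cut [q1860, q2219, q2382] ⟨c1860, c2219, c2382, trivial⟩ (nd (nat_lit 211) (nat_lit 0) (cs (rf (nat_lit 0)) (cs (rf (nat_lit 1)) (nd (nat_lit 233) (nat_lit 0) (cs (lf (nat_lit 5) (nat_lit 208)) (rf (nat_lit 2))))))) q2384 (by decide +kernel)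
def q2396 : Q := Q.p (nat_lit 0x200000800002000008000000000000000000000000000000000000000000000000000000000) (nat_lit 0x500001c0000500000000000000010000040000000000000000000000000000000000000000000000000000) (nat_lit 5)
theorem c2396 : QOK q2396 := cut [q2394] ⟨c2394, trivial⟩ (nd (nat_lit 210) (nat_lit 0) (cs (rf (nat_lit 0)) (lf (nat_lit 34) (nat_lit 209)))) q2396 (by decide +kernel)
def q2404 : Q := Q.p (nat_lit 0x800002000000000078000040000000000000000000000000000000000000000000000) (nat_lit 0x1700001c00033000000000338000000000000000000000000000000000000000000000) (nat_lit 8)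
theorem c2404 : QOK q2404 := cut [q37, q2399] ⟨c37, c2399, trivial⟩ (nd (nat_lit 185) (nat_lit 0) (cs (rf (nat_lit 0)) (nd (nat_lit 232) (nat_lit 0) (cs (lf (nat_lit 5) (nat_lit 207)) (nd (nat_lit 229) (nat_lit 0) (cs (lf (nat_lit 11) (nat_lit 206)) (nd (nat_lit 188) (nat_lit 0) (cs (lf (nat_lit 17) (nat_lit 185)) (nd (nat_lit 251) (nat_lit 0) (cs (lf (nat_lit 30) (nat_lit 185)) (rf (nat_lit 1)))))))))))) q2404 (by decide +kernel)
def q2450 : Q := Q.p (nat_lit 0x1e000000000000000000000000000000000000000000000000000) (nat_lit 0x1c0002000001c000000000000000000000000000000000000000000000) (nat_lit 4)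
theorem c2450 : QOK q2450 := cut [q2449] ⟨c2449, trivial⟩ (nd (nat_lit 227) (nat_lit 0) (cs (lf (nat_lit 11) (nat_lit 204)) (rf (nat_lit 0)))) q2450 (by decide +kernel)
def q2456 : Q := Q.p (nat_lit 0x78000040000000000000000000000000000000000000000000000) (nat_lit 0x70000180000e80000000000000000000000000000000000000000000000) (nat_lit 5)
theorem c2456 : QOK q2456 := cut [q2454] ⟨c2454, trivial⟩ (nd (nat_lit 233) (nat_lit 0) (cs (lf (nat_lit 4) (nat_lit 207)) (nd (nat_lit 211) (nat_lit 0) (cs (lf (nat_lit 5) (nat_lit 208)) (rf (nat_lit 0)))))) q2456 (by decide +kernel)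
def q2477 : Q := Q.p (nat_lit 0x3c000010000040000000000000000000000000000000000000000) (nat_lit 0x18000000000000000a0000380000a00000000000000000000000000000) (nat_lit 5)
theorem c2477 : QOK q2477 := cut [q1273] ⟨c1273, trivial⟩ (nd (nat_lit 228) (nat_lit 0) (cs (lf (nat_lit 11) (nat_lit 205)) (rf (nat_lit 0)))) q2477 (by decide +kernel)
def q2485 : Q := Q.p (nat_lit 0xc000010000040000200000000000000000000000000000000000) (nat_lit 0x20000000000180000e00000800000000000000000000000) (nat_lit 4)
theorem c2485 : QOK q2485 := cut [q863] ⟨c863, trivial⟩ (nd (nat_lit 140) (nat_lit 0) (cs (lf (nat_lit 35) (nat_lit 118)) (rf (nat_lit 0)))) q2485 (by decide +kernel)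
def q2513 : Q := Q.p (nat_lit 0xc00001000004000000000000000000000000000000000000000000000000000) (nat_lit 0x200000000002000000000018000060000080000000000000000000000000000000000) (nat_lit 4)
theorem c2513 : QOK q2513 := cut [q2512] ⟨c2512, trivial⟩ (nd (nat_lit 184) (nat_lit 0) (cs (lf (nat_lit 29) (nat_lit 184)) (rf (nat_lit 0)))) q2513 (by decide +kernel)
def q2532 : Q := Q.p (nat_lit 0x80000200000800002000000000000000000000000000000000000000000000000000000000000000) (nat_lit 0x100001c000070000100000100000400001000000000000000000000000000000000000000000000000000000000000000) (nat_lit 6)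
theorem c2532 : QOK q2532 := cut [q2528] ⟨c2528, trivial⟩ (nd (nat_lit 342) (nat_lit 0) (cs (nd (nat_lit 341) (nat_lit 0) (cs (rf (nat_lit 0)) (lf (nat_lit 29) (nat_lit 275)))) (lf (nat_lit 28) (nat_lit 253)))) q2532 (by decide +kernel)
def q2547 : Q := Q.p (nat_lit 0x180000200000800002000000000000000000000000000000000000000000000000000000000000000) (nat_lit 0x10000060001c00000000000000008000000000000000000000000000000000000000000000000000000000) (nat_lit 4)
theorem c2547 : QOK q2547 := cut [q2545] ⟨c2545, trivial⟩ (nd (nat_lit 298) (nat_lit 0) (cs (rf (nat_lit 0)) (lf (nat_lit 24) (nat_lit 231)))) q2547 (by decide +kernel)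
def q2553 : Q := Q.p (nat_lit 0x80000200000c00000000000000000000000000000000000000000000000000000000000000000000) (nat_lit 0x4000018000060000000000100000000001000000000000000000000000000000000000000000000000000000000000000) (nat_lit 4)
theorem c2553 : QOK q2553 := cut [q2552] ⟨c2552, trivial⟩ (nd (nat_lit 341) (nat_lit 0) (cs (lf (nat_lit 47) (nat_lit 252)) (rf (nat_lit 0)))) q2553 (by decide +kernel)
def q2558 : Q := Q.p (nat_lit 0x80000200000c00002000000000000000000000000000000000000000000000000000000000000000) (nat_lit 0x40000100001c00001300000000008000000000000000000000000000000000000000000000000000000000) (nat_lit 5)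
theorem c2558 : QOK q2558 := cut [q2556] ⟨c2556, trivial⟩ (nd (nat_lit 320) (nat_lit 0) (cs (lf (nat_lit 29) (nat_lit 253)) (nd (nat_lit 298) (nat_lit 0) (cs (lf (nat_lit 24) (nat_lit 231)) (rf (nat_lit 0)))))) q2558 (by decide +kernel)
def q2562 : Q := Q.p (nat_lit 0x300000c00002000008000000000000000000000000000000000000000000000000000000000) (nat_lit 0x100000c00000300000000010000040000000000000000000000000000000000000000000000000000) (nat_lit 4)
theorem c2562 : QOK q2562 := cut [q2561] ⟨c2561, trivial⟩ (nd (nat_lit 210) (nat_lit 0) (cs (lf (nat_lit 34) (nat_lit 209)) (rf (nat_lit 0)))) q2562 (by decide +kernel)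
def q2579 : Q := Q.p (nat_lit 0x80000200000800002000000000000000000000000000000000000000000000000000000000000000) (nat_lit 0x14000070000140000000000000000000000000000000000000000000000000000000000000000000000000000000) (nat_lit 4)
theorem c2579 : QOK q2579 := cut [q2578] ⟨c2578, trivial⟩ (nd (nat_lit 340) (nat_lit 0) (cs (lf (nat_lit 40) (nat_lit 252)) (rf (nat_lit 0)))) q2579 (by decide +kernel)
def q2591 : Q := Q.p (nat_lit 0xe0000200000800002000000000000000000000000000000000000000000000000000000000000000) (nat_lit 0x4e0001100000e0000000000000000000000000000000000000000000000000000000000000000000000000) (nat_lit 5)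
theorem c2591 : QOK q2591 := cut [q2590] ⟨c2590, trivial⟩ (nd (nat_lit 320) (nat_lit 0) (cs (lf (nat_lit 29) (nat_lit 253)) (rf (nat_lit 0)))) q2591 (by decide +kernel)
def q2605 : Q := Q.p (nat_lit 0xe0000200000800002000000000000000000000000000000000000000000000000000000000000000) (nat_lit 0x3cc000700001dc0000000000000000000000000000000000000000000000000000000000000000000000000) (nat_lit 8)
theorem c2605 : QOK q2605 := cut [q2600] ⟨c2600, trivial⟩ (nd (nat_lit 320) (nat_lit 0) (cs (lf (nat_lit 29) (nat_lit 253)) (nd (nat_lit 294) (nat_lit 0) (cs (lf (nat_lit 22) (nat_lit 294)) (nd (nat_lit 338) (nat_lit 0) (cs (lf (nat_lit 10) (nat_lit 316)) (nd (nat_lit 299) (nat_lit 0) (cs (rf (nat_lit 0)) (lf (nat_lit 16) (nat_lit 295)))))))))) q2605 (by decide +kernel)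
def q2613 : Q := Q.p (nat_lit 0x80000200000800002000000000000000000000000000000000000000000000000000000000000000) (nat_lit 0x10000060000100000000000400001000004000000000000000000000000000000000000000000000000000000000) (nat_lit 4)
theorem c2613 : QOK q2613 := cut [q2611] ⟨c2611, trivial⟩ (nd (nat_lit 252) (nat_lit 0) (cs (rf (nat_lit 0)) (lf (nat_lit 47) (nat_lit 230)))) q2613 (by decide +kernel)
def q2616 : Q := Q.p (nat_lit 0x80000200000800002000000000000000000000000000000000000000000000000000000000000000) (nat_lit 0x4000030000040000000000400001000004000000000000000000000000000000000000000000000000000000000) (nat_lit 4)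
theorem c2616 : QOK q2616 := cut [q2615] ⟨c2615, trivial⟩ (nd (nat_lit 252) (nat_lit 0) (cs (lf (nat_lit 47) (nat_lit 230)) (rf (nat_lit 0)))) q2616 (by decide +kernel)
def q2624 : Q := Q.p (nat_lit 0x3800008000000000000000000000000000000000000000000000000000000000) (nat_lit 0x1c0000600011c00000000000000000000000000000000000000000000000000000000) (nat_lit 5)
theorem c2624 : QOK q2624 := cut [q2623] ⟨c2623, trivial⟩ (nd (nat_lit 250) (nat_lit 0) (cs (lf (nat_lit 17) (nat_lit 228)) (rf (nat_lit 0)))) q2624 (by decide +kernel)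
def q2648 : Q := Q.p (nat_lit 0x20000000000200001c0000000000000000000000000000000000000000000000) (nat_lit 0x8000000000020003e00000000000000000000000000000000000000000) (nat_lit 4)
theorem c2648 : QOK q2648 := cut [q2647] ⟨c2647, trivial⟩ (nd (nat_lit 166) (nat_lit 0) (cs (lf (nat_lit 31) (nat_lit 165)) (rf (nat_lit 0)))) q2648 (by decide +kernel)
def q2660 : Q := Q.p (nat_lit 0x1000034000010000000000000000000000000000000000000000000000) (nat_lit 0x20000080000a0000000000c0000300000800000000000000000000000000000) (nat_lit 5)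
theorem c2660 : QOK q2660 := cut [q2659] ⟨c2659, trivial⟩ (nd (nat_lit 227) (nat_lit 0) (cs (lf (nat_lit 8) (nat_lit 205)) (rf (nat_lit 0)))) q2660 (by decide +kernel)
def q2684 : Q := Q.p (nat_lit 0x2000008000078000040000000000000000000000000000000000000000000000) (nat_lit 0x10000000000300000500001400000000000000000000000000000000000) (nat_lit 4)
theorem c2684 : QOK q2684 := cut [q2683] ⟨c2683, trivial⟩ (nd (nat_lit 142) (nat_lit 0) (cs (lf (nat_lit 25) (nat_lit 142)) (rf (nat_lit 0)))) q2684 (by decide +kernel)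
def q2714 : Q := Q.p (nat_lit 0x300000e0000100000000000000000000000000000000000000000) (nat_lit 0x60000180006e0001800006000000000000000000000000000000) (nat_lit 7)
theorem c2714 : QOK q2714 := cut [q2712] ⟨c2712, trivial⟩ (nd (nat_lit 184) (nat_lit 0) (cs (lf (nat_lit 0) (nat_lit 183)) (nd (nat_lit 205) (nat_lit 0) (cs (lf (nat_lit 10) (nat_lit 183)) (rf (nat_lit 0)))))) q2714 (by decide +kernel)
def q2736 : Q := Q.p (nat_lit 0xf0000000000000000000000000000000000000000000000) (nat_lit 0x200000e000100000060000100000400000000000000000000000000000) (nat_lit 5)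
theorem c2736 : QOK q2736 := cut [q2735] ⟨c2735, trivial⟩ (nd (nat_lit 162) (nat_lit 0) (cs (lf (nat_lit 23) (nat_lit 161)) (rf (nat_lit 0)))) q2736 (by decide +kernel)
def q2802 : Q := Q.p (nat_lit 0x8000040000100000400000000000000000000000000000000000) (nat_lit 0x200000a000020000000000300000c000020000000000000000000) (nat_lit 5)
theorem c2802 : QOK q2802 := cut [q2801] ⟨c2801, trivial⟩ (nd (nat_lit 120) (nat_lit 0) (cs (lf (nat_lit 40) (nat_lit 119)) (rf (nat_lit 0)))) q2802 (by decide +kernel)
def q2831 : Q := Q.p (nat_lit 0x10000040000100000400000000000000000000000000000000000) (nat_lit 0x20000280000a0000200000000001800006000008000000000000000000) (nat_lit 6)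
theorem c2831 : QOK q2831 := cut [q2829] ⟨c2829, trivial⟩ (nd (nat_lit 207) (nat_lit 0) (cs (lf (nat_lit 41) (nat_lit 141)) (nd (nat_lit 120) (nat_lit 0) (cs (lf (nat_lit 40) (nat_lit 119)) (rf (nat_lit 0)))))) q2831 (by decide +kernel)
def q2918 : Q := Q.p (nat_lit 0x78000000000000000000000000000000000000000000000000000) (nat_lit 0x338001860001e0000000000000000000000000000000000000000000000) (nat_lit 7)
theorem c2918 : QOK q2918 := cut [q2917] ⟨c2917, trivial⟩ (nd (nat_lit 232) (nat_lit 0) (cs (lf (nat_lit 5) (nat_lit 207)) (rf (nat_lit 0)))) q2918 (by decide +kernel)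
def q2922 : Q := Q.p (nat_lit 0x20000000000700000c0000000000000000000000000000000000000000000000) (nat_lit 0xc00001000006000180000000000000000000000000000000000000000000000000000) (nat_lit 4)
theorem c2922 : QOK q2922 := cut [q2921] ⟨c2921, trivial⟩ (nd (nat_lit 211) (nat_lit 0) (cs (lf (nat_lit 18) (nat_lit 186)) (rf (nat_lit 0)))) q2922 (by decide +kernel)
def q2925 : Q := Q.p (nat_lit 0x78000000000000000000000000000000000000000000000000000) (nat_lit 0x70000080000070000000000000000000000000000000000000000000000) (nat_lit 4)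
theorem c2925 : QOK q2925 := cut [q2924] ⟨c2924, trivial⟩ (nd (nat_lit 233) (nat_lit 0) (cs (lf (nat_lit 4) (nat_lit 207)) (rf (nat_lit 0)))) q2925 (by decide +kernel)
def q2935 : Q := Q.p (nat_lit 0x8000038000000000000000000000000000000000000000000000000000) (nat_lit 0x1400000600001c000000000000000000000000000000000000000000000) (nat_lit 4)
theorem c2935 : QOK q2935 := cut [q2934] ⟨c2934, trivial⟩ (nd (nat_lit 206) (nat_lit 0) (cs (lf (nat_lit 5) (nat_lit 206)) (rf (nat_lit 0)))) q2935 (by decide +kernel)
def q2955 : Q := Q.p (nat_lit 0x40000300000c000030000000000000000000000000000000000000000000000000000) (nat_lit 0x8000038000000001000000e000020000000000000000000000000000000000000000000000) (nat_lit 5)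
theorem c2955 : QOK q2955 := cut [q2953] ⟨c2953, trivial⟩ (nd (nat_lit 273) (nat_lit 0) (cs (lf (nat_lit 41) (nat_lit 207)) (nd (nat_lit 271) (nat_lit 0) (cs (lf (nat_lit 13) (nat_lit 249)) (rf (nat_lit 0)))))) q2955 (by decide +kernel)
def q2974 : Q := Q.p (nat_lit 0x20000080000300000c0000000000000000000000000000000000000000000000) (nat_lit 0x1c00007380004e0000000000000000000000000000000000000000) (nat_lit 7)
theorem c2974 : QOK q2974 := cut [q2973] ⟨c2973, trivial⟩ (nd (nat_lit 188) (nat_lit 0) (cs (lf (nat_lit 35) (nat_lit 165)) (rf (nat_lit 0)))) q2974 (by decide +kernel)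
def q2976 : Q := Q.p (nat_lit 0x300000c000010000040000000000000000000000000000000000000000000000) (nat_lit 0x200000c00030000000000020000080000000000000000000000000000000000000000) (nat_lit 4)
theorem c2976 : QOK q2976 := cut [q2975] ⟨c2975, trivial⟩ (nd (nat_lit 163) (nat_lit 0) (cs (lf (nat_lit 46) (nat_lit 163)) (rf (nat_lit 0)))) q2976 (by decide +kernel)
def q2980 : Q := Q.p (nat_lit 0x20000080000300000c0000000000000000000000000000000000000000000000) (nat_lit 0x600001c00034000000000000000200000000000000000000000000000000000000000) (nat_lit 5)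
theorem c2980 : QOK q2980 := cut [q2975] ⟨c2975, trivial⟩ (nd (nat_lit 252) (nat_lit 0) (cs (lf (nat_lit 41) (nat_lit 186)) (nd (nat_lit 230) (nat_lit 0) (cs (lf (nat_lit 35) (nat_lit 164)) (rf (nat_lit 0)))))) q2980 (by decide +kernel)
def q2988 : Q := Q.p (nat_lit 0x800002000008000030000000000000000000000000000000000000000000000000000) (nat_lit 0x30000040000000003000004c000100000000000000000000000000000000000000000000000) (nat_lit 5)
theorem c2988 : QOK q2988 := cut [q2931] ⟨c2931, trivial⟩ (nd (nat_lit 274) (nat_lit 0) (cs (lf (nat_lit 41) (nat_lit 208)) (rf (nat_lit 0)))) q2988 (by decide +kernel)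
def q3019 : Q := Q.p (nat_lit 0x8000038000000000000000000000000000000000000000000000000000) (nat_lit 0x11c000060001c0000000000000000000000000000000000000000000000) (nat_lit 5)
theorem c3019 : QOK q3019 := cut [q1550] ⟨c1550, trivial⟩ (nd (nat_lit 206) (nat_lit 0) (cs (lf (nat_lit 5) (nat_lit 206)) (rf (nat_lit 0)))) q3019 (by decide +kernel)
def q3033 : Q := Q.p (nat_lit 0x4000010000040000700000000000000000000000000000000000000000) (nat_lit 0x8000020000480007a0001800006000008000020000000000000000000000000) (nat_lit 8)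
theorem c3033 : QOK q3033 := cut [q3027] ⟨c3027, trivial⟩ (nd (nat_lit 167) (nat_lit 0) (cs (lf (nat_lit 11) (nat_lit 163)) (nd (nat_lit 145) (nat_lit 0) (cs (lf (nat_lit 17) (nat_lit 142)) (nd (nat_lit 189) (nat_lit 0) (cs (nd (nat_lit 229) (nat_lit 0) (cs (lf (nat_lit 41) (nat_lit 163)) (nd (nat_lit 187) (nat_lit 0) (cs (lf (nat_lit 6) (nat_lit 164)) (rf (nat_lit 0)))))) (lf (nat_lit 5) (nat_lit 164)))))))) q3033 (by decide +kernel)
def q3051 : Q := Q.p (nat_lit 0x4000010000040000700000000000000000000000000000000000000000) (nat_lit 0xea0001880000200000000000000000000000000000000000) (nat_lit 5)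
theorem c3051 : QOK q3051 := cut [q3049] ⟨c3049, trivial⟩ (nd (nat_lit 167) (nat_lit 0) (cs (lf (nat_lit 11) (nat_lit 163)) (nd (nat_lit 141) (nat_lit 0) (cs (lf (nat_lit 46) (nat_lit 141)) (rf (nat_lit 0)))))) q3051 (by decide +kernel)
def q3126 : Q := Q.p (nat_lit 0x2000002000018000060000000000000000000000000000000000000000000000) (nat_lit 0x700001c00001800000000000000080000000000000000000000000000000000000000) (nat_lit 5)
theorem c3126 : QOK q3126 := cut [q3125] ⟨c3125, trivial⟩ (nd (nat_lit 251) (nat_lit 0) (cs (lf (nat_lit 30) (nat_lit 185)) (rf (nat_lit 0)))) q3126 (by decide +kernel)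
def q3169 : Q := Q.p (nat_lit 0x2000008000078000040000000000000000000000000000000000000000000000) (nat_lit 0x600001c00033000000000180000600001800000000000000000000000000000000000) (nat_lit 8)
theorem c3169 : QOK q3169 := cut [q3164] ⟨c3164, trivial⟩ (nd (nat_lit 232) (nat_lit 0) (cs (lf (nat_lit 5) (nat_lit 207)) (nd (nat_lit 166) (nat_lit 0) (cs (lf (nat_lit 37) (nat_lit 165)) (nd (nat_lit 229) (nat_lit 0) (cs (lf (nat_lit 11) (nat_lit 206)) (nd (nat_lit 251) (nat_lit 0) (cs (lf (nat_lit 30) (nat_lit 185)) (nd (nat_lit 252) (nat_lit 0) (cs (lf (nat_lit 12) (nat_lit 228)) (rf (nat_lit 0)))))))))))) q3169 (by decide +kernel)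
def q3173 : Q := Q.p (nat_lit 0x3800000000018000040000000000000000000000000000000000000000000000) (nat_lit 0x700000400003800000000020000080000000000000000000000000000000000000000) (nat_lit 5)
theorem c3173 : QOK q3173 := cut [q1836] ⟨c1836, trivial⟩ (nd (nat_lit 229) (nat_lit 0) (cs (lf (nat_lit 30) (nat_lit 185)) (rf (nat_lit 0)))) q3173 (by decide +kernel)
def q3178 : Q := Q.p (nat_lit 0x1800000000018000040000000000000000000000000000000000000000000000) (nat_lit 0x60000000000200002000003c000040000000000000000000000000000000000000000) (nat_lit 5)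
theorem c3178 : QOK q3178 := cut [q3176] ⟨c3176, trivial⟩ (nd (nat_lit 229) (nat_lit 0) (cs (lf (nat_lit 30) (nat_lit 185)) (nd (nat_lit 185) (nat_lit 0) (cs (lf (nat_lit 29) (nat_lit 185)) (rf (nat_lit 0)))))) q3178 (by decide +kernel)
def q3191 : Q := Q.p (nat_lit 0x3000000000018000040000000000000000000000000000000000000000000000) (nat_lit 0xb80000e0001e000000000020000080000000000000000000000000000000000000000) (nat_lit 6)
theorem c3191 : QOK q3191 := cut [q3189] ⟨c3189, trivial⟩ (nd (nat_lit 230) (nat_lit 0) (cs (lf (nat_lit 29) (nat_lit 186)) (rf (nat_lit 0)))) q3191 (by decide +kernel)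
def q3201 : Q := Q.p (nat_lit 0x4000010000050000300000000000000000000000000000000000000000) (nat_lit 0x1a0001ce0007200000000000000000000000000000000000) (nat_lit 7)
theorem c3201 : QOK q3201 := cut [q3199] ⟨c3199, trivial⟩ (nd (nat_lit 163) (nat_lit 0) (cs (lf (nat_lit 47) (nat_lit 141)) (nd (nat_lit 166) (nat_lit 0) (cs (lf (nat_lit 10) (nat_lit 162)) (rf (nat_lit 0)))))) q3201 (by decide +kernel)
def q3213 : Q := Q.p (nat_lit 0x200000000001e000040000000000000000000000000000000000000000000000) (nat_lit 0x800000000019c00020000000000000000000000000000000000000000000000000000) (nat_lit 4)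
theorem c3213 : QOK q3213 := cut [q3212] ⟨c3212, trivial⟩ (nd (nat_lit 227) (nat_lit 0) (cs (lf (nat_lit 11) (nat_lit 204)) (rf (nat_lit 0)))) q3213 (by decide +kernel)
def q3258 : Q := Q.p (nat_lit 0x200000000001e000000000000000000000000000000000000000000000000000) (nat_lit 0x8000000000180000200000dc000000000000000000000000000000000000000000000) (nat_lit 5)
theorem c3258 : QOK q3258 := cut [q3256] ⟨c3256, trivial⟩ (nd (nat_lit 186) (nat_lit 0) (cs (lf (nat_lit 17) (nat_lit 183)) (nd (nat_lit 183) (nat_lit 0) (cs (lf (nat_lit 23) (nat_lit 182)) (rf (nat_lit 0)))))) q3258 (by decide +kernel)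
def q3273 : Q := Q.p (nat_lit 0x200000800003e000000000000000000000000000000000000000000000000000) (nat_lit 0x8000000000000000c1000070000000000000000000000000000000000000000000000) (nat_lit 4)
theorem c3273 : QOK q3273 := cut [q168] ⟨c168, trivial⟩ (nd (nat_lit 186) (nat_lit 0) (cs (lf (nat_lit 42) (nat_lit 186)) (rf (nat_lit 0)))) q3273 (by decide +kernel)
def q3282 : Q := Q.p (nat_lit 0x80001c000000000000000000000000000000000000000000000000000) (nat_lit 0x20000040002200001c000040000100000000000000000000000000000000000) (nat_lit 5)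
theorem c3282 : QOK q3282 := cut [q3281] ⟨c3281, trivial⟩ (nd (nat_lit 205) (nat_lit 0) (cs (lf (nat_lit 11) (nat_lit 204)) (rf (nat_lit 0)))) q3282 (by decide +kernel)
def q3297 : Q := Q.p (nat_lit 0x200000000001c000000000000000000000000000000000000000000000000000) (nat_lit 0x8000000000380000620001fc000100000000000000000000000000000000000000000) (nat_lit 5)
theorem c3297 : QOK q3297 := cut [q1464, q1555, q3286] ⟨c1464, c1555, c3286, trivial⟩ (nd (nat_lit 209) (nat_lit 0) (cs (rf (nat_lit 0)) (cs (rf (nat_lit 1)) (rf (nat_lit 2))))) q3297 (by decide +kernel)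
def q3298 : Q := Q.p (nat_lit 0xf000000000000000000000000000000000000000000000000000) (nat_lit 0x800077000000000000000000000000000000000000000000000) (nat_lit 4)
theorem c3298 : QOK q3298 := cut [q900] ⟨c900, trivial⟩ (nd (nat_lit 185) (nat_lit 0) (cs (rf (nat_lit 0)) (lf (nat_lit 17) (nat_lit 182)))) q3298 (by decide +kernel)
def q3313 : Q := Q.p (nat_lit 0x1c000030000000000000000000000000000000000000000000000) (nat_lit 0x400001800060000000000080000200000000000000000000000000000000000) (nat_lit 4)
theorem c3313 : QOK q3313 := cut [q1133] ⟨c1133, trivial⟩ (nd (nat_lit 209) (nat_lit 0) (cs (lf (nat_lit 18) (nat_lit 184)) (rf (nat_lit 0)))) q3313 (by decide +kernel)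
def q3323 : Q := Q.p (nat_lit 0x3c000010000000000000000000000000000000000000000000000) (nat_lit 0x800003800040000180000040000100000000000000000000000000000000000) (nat_lit 5)
theorem c3323 : QOK q3323 := cut [q3321] ⟨c3321, trivial⟩ (nd (nat_lit 187) (nat_lit 0) (cs (lf (nat_lit 17) (nat_lit 184)) (nd (nat_lit 228) (nat_lit 0) (cs (lf (nat_lit 11) (nat_lit 205)) (rf (nat_lit 0)))))) q3323 (by decide +kernel)
def q3325 : Q := Q.p (nat_lit 0x200000000003c000000000000000000000000000000000000000000000000000) (nat_lit 0x80000000001c000000000040000100000400000000000000000000000000000000000) (nat_lit 4)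
theorem c3325 : QOK q3325 := cut [q1563] ⟨c1563, trivial⟩ (nd (nat_lit 231) (nat_lit 0) (cs (lf (nat_lit 5) (nat_lit 206)) (rf (nat_lit 0)))) q3325 (by decide +kernel)
def q3341 : Q := Q.p (nat_lit 0x1e000000000000000000000000000000000000000000000000000) (nat_lit 0x770000180000e000000000000000000000000000000000000000000000) (nat_lit 6)
theorem c3341 : QOK q3341 := cut [q3339] ⟨c3339, trivial⟩ (nd (nat_lit 182) (nat_lit 0) (cs (lf (nat_lit 22) (nat_lit 182)) (nd (nat_lit 204) (nat_lit 0) (cs (lf (nat_lit 23) (nat_lit 181)) (rf (nat_lit 0)))))) q3341 (by decide +kernel)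
def q3348 : Q := Q.p (nat_lit 0x1e000040000000000000000000000000000000000000000000000) (nat_lit 0x20000080000780006180000e000000000000000000000000000000000000000000000) (nat_lit 7)
theorem c3348 : QOK q3348 := cut [q3344] ⟨c3344, trivial⟩ (nd (nat_lit 182) (nat_lit 0) (cs (lf (nat_lit 22) (nat_lit 182)) (nd (nat_lit 204) (nat_lit 0) (cs (lf (nat_lit 23) (nat_lit 181)) (nd (nat_lit 229) (nat_lit 0) (cs (lf (nat_lit 5) (nat_lit 204)) (nd (nat_lit 251) (nat_lit 0) (cs (lf (nat_lit 30) (nat_lit 185)) (rf (nat_lit 0)))))))))) q3348 (by decide +kernel)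
def q3376 : Q := Q.p (nat_lit 0x200000000001c000000000000000000000000000000000000000000000000000) (nat_lit 0x80000000003e0000220001dc000100000000000000000000000000000000000000000) (nat_lit 6)
theorem c3376 : QOK q3376 := cut [q3369, q3375] ⟨c3369, c3375, trivial⟩ (nd (nat_lit 231) (nat_lit 0) (cs (rf (nat_lit 0)) (cs (nd (nat_lit 205) (nat_lit 0) (cs (lf (nat_lit 4) (nat_lit 205)) (nd (nat_lit 186) (nat_lit 0) (cs (lf (nat_lit 17) (nat_lit 183)) (nd (nat_lit 183) (nat_lit 0) (cs (lf (nat_lit 23) (nat_lit 182)) (nd (nat_lit 209) (nat_lit 0) (cs (lf (nat_lit 42) (nat_lit 186)) (lf (nat_lit 22) (nat_lit 183)))))))))) (rf (nat_lit 1))))) q3376 (by decide +kernel)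
def q3381 : Q := Q.p (nat_lit 0x200000000001c000000000000000000000000000000000000000000000000000) (nat_lit 0x80000000003fc000220001c0000100000000000000000000000000000000000000000) (nat_lit 6)
theorem c3381 : QOK q3381 := cut [q3369, q3375] ⟨c3369, c3375, trivial⟩ (nd (nat_lit 231) (nat_lit 0) (cs (rf (nat_lit 0)) (cs (rf (nat_lit 1)) (nd (nat_lit 205) (nat_lit 0) (cs (lf (nat_lit 4) (nat_lit 205)) (nd (nat_lit 186) (nat_lit 0) (cs (lf (nat_lit 17) (nat_lit 183)) (nd (nat_lit 227) (nat_lit 0) (cs (lf (nat_lit 11) (nat_lit 204)) (nd (nat_lit 209) (nat_lit 0) (cs (lf (nat_lit 42) (nat_lit 186)) (lf (nat_lit 10) (nat_lit 205))))))))))))) q3381 (by decide +kernel)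
def q3386 : Q := Q.p (nat_lit 0x400001000004000010000000000000000000000000000000000000000000000) (nat_lit 0x800002000008000000000200000c0000200000000000000000000000000000000000) (nat_lit 4)
theorem c3386 : QOK q3386 := cut [q3385] ⟨c3385, trivial⟩ (nd (nat_lit 249) (nat_lit 0) (cs (lf (nat_lit 41) (nat_lit 183)) (rf (nat_lit 0)))) q3386 (by decide +kernel)
def q3414 : Q := Q.p (nat_lit 0x100001c000010000000000000000000000000000000000000000000000) (nat_lit 0x40000000002000000e000060000080000200000000000000000000000000000) (nat_lit 5)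
theorem c3414 : QOK q3414 := cut [q1288] ⟨c1288, trivial⟩ (nd (nat_lit 183) (nat_lit 0) (cs (lf (nat_lit 18) (nat_lit 183)) (nd (nat_lit 181) (nat_lit 0) (cs (rf (nat_lit 0)) (lf (nat_lit 1) (nat_lit 181)))))) q3414 (by decide +kernel)
def q3436 : Q := Q.p (nat_lit 0x400000800002000008000000000000000000000000000000000000000000000) (nat_lit 0x10000000000000000700001c0000500000000000000000000000000000) (nat_lit 5)
theorem c3436 : QOK q3436 := cut [q3435] ⟨c3435, trivial⟩ (nd (nat_lit 161) (nat_lit 0) (cs (lf (nat_lit 28) (nat_lit 161)) (rf (nat_lit 0)))) q3436 (by decide +kernel)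
def q3445 : Q := Q.p (nat_lit 0x200000800003c000000000000000000000000000000000000000000000000000) (nat_lit 0x140000700001c00000000000000040000180000000000000000000000000000000000000000000000) (nat_lit 6)
theorem c3445 : QOK q3445 := cut [q3443] ⟨c3443, trivial⟩ (nd (nat_lit 188) (nat_lit 0) (cs (lf (nat_lit 16) (nat_lit 184)) (nd (nat_lit 275) (nat_lit 0) (cs (lf (nat_lit 34) (nat_lit 187)) (rf (nat_lit 0)))))) q3445 (by decide +kernel)
def q3463 : Q := Q.p (nat_lit 0x1e000000000000000000000000000000000000000000000000000) (nat_lit 0x780006180000e000000000000000000000000000000000000000000000) (nat_lit 6)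
theorem c3463 : QOK q3463 := cut [q3344] ⟨c3344, trivial⟩ (nd (nat_lit 182) (nat_lit 0) (cs (lf (nat_lit 22) (nat_lit 182)) (nd (nat_lit 204) (nat_lit 0) (cs (lf (nat_lit 23) (nat_lit 181)) (nd (nat_lit 229) (nat_lit 0) (cs (lf (nat_lit 5) (nat_lit 204)) (rf (nat_lit 0)))))))) q3463 (by decide +kernel)
def q3480 : Q := Q.p (nat_lit 0x3000004000018000040000000000000000000000000000000000000000000000) (nat_lit 0x200000c000038000078000080000a000000000080000200000000000000000000000000000000000000000) (nat_lit 8)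
theorem c3480 : QOK q3480 := cut [q3478] ⟨c3478, trivial⟩ (nd (nat_lit 273) (nat_lit 0) (cs (lf (nat_lit 40) (nat_lit 185)) (nd (nat_lit 165) (nat_lit 0) (cs (lf (nat_lit 34) (nat_lit 164)) (rf (nat_lit 0)))))) q3480 (by decide +kernel)
def q3486 : Q := Q.p (nat_lit 0x2000008000060000080000000000000000000000000000000000000000) (nat_lit 0x190000070000100000000000000000000000000000000000) (nat_lit 4)
theorem c3486 : QOK q3486 := cut [q3485] ⟨c3485, trivial⟩ (nd (nat_lit 162) (nat_lit 0) (cs (lf (nat_lit 47) (nat_lit 140)) (rf (nat_lit 0)))) q3486 (by decide +kernel)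
def q3500 : Q := Q.p (nat_lit 0x18000070000000000000000000000000000000000000000000000) (nat_lit 0x200000000000c000300000400001000000000000000000000000000000) (nat_lit 4)
theorem c3500 : QOK q3500 := cut [q3499] ⟨c3499, trivial⟩ (nd (nat_lit 183) (nat_lit 0) (cs (lf (nat_lit 0) (nat_lit 182)) (rf (nat_lit 0)))) q3500 (by decide +kernel)
def q3502 : Q := Q.p (nat_lit 0x1c0000f0000000000000000000000000000000000000000000000) (nat_lit 0x2000000000000000660000900002400000000000000000000000000000) (nat_lit 5)
theorem c3502 : QOK q3502 := cut [q337] ⟨c337, trivial⟩ (nd (nat_lit 165) (nat_lit 0) (cs (lf (nat_lit 17) (nat_lit 162)) (nd (nat_lit 121) (nat_lit 0) (cs (rf (nat_lit 0)) (lf (nat_lit 37) (nat_lit 120)))))) q3502 (by decide +kernel)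
def q3506 : Q := Q.p (nat_lit 0x1e000010000000000000000000000000000000000000000000000) (nat_lit 0x80000200001c00000000000000040000100000000000000000000000000000000000) (nat_lit 4)
theorem c3506 : QOK q3506 := cut [q3505] ⟨c3505, trivial⟩ (nd (nat_lit 227) (nat_lit 0) (cs (lf (nat_lit 11) (nat_lit 204)) (rf (nat_lit 0)))) q3506 (by decide +kernel)
def q3512 : Q := Q.p (nat_lit 0x18000078000000000000000000000000000000000000000000000) (nat_lit 0x200000c00007000080000040000100000000000000000000000000000000000) (nat_lit 5)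
theorem c3512 : QOK q3512 := cut [q3509] ⟨c3509, trivial⟩ (nd (nat_lit 205) (nat_lit 0) (cs (nd (nat_lit 206) (nat_lit 0) (cs (lf (nat_lit 17) (nat_lit 183)) (rf (nat_lit 0)))) (lf (nat_lit 11) (nat_lit 182)))) q3512 (by decide +kernel)
def q3532 : Q := Q.p (nat_lit 0x200000000001e000038000000000000000000000000000000000000000000000) (nat_lit 0x380001e00001c00000000000000080000000000000000000000000000000000000000) (nat_lit 6)
theorem c3532 : QOK q3532 := cut [q3529] ⟨c3529, trivial⟩ (nd (nat_lit 227) (nat_lit 0) (cs (lf (nat_lit 11) (nat_lit 204)) (nd (nat_lit 249) (nat_lit 0) (cs (lf (nat_lit 30) (nat_lit 183)) (nd (nat_lit 250) (nat_lit 0) (cs (lf (nat_lit 29) (nat_lit 183)) (rf (nat_lit 0)))))))) q3532 (by decide +kernel)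
def q3542 : Q := Q.p (nat_lit 0x18000070000000000000000000000000000000000000000000000) (nat_lit 0x80000200000400008c000070000100000400000000000000000000000000000) (nat_lit 6)
theorem c3542 : QOK q3542 := cut [q3539] ⟨c3539, trivial⟩ (nd (nat_lit 183) (nat_lit 0) (cs (lf (nat_lit 0) (nat_lit 182)) (nd (nat_lit 161) (nat_lit 0) (cs (lf (nat_lit 23) (nat_lit 160)) (nd (nat_lit 162) (nat_lit 0) (cs (lf (nat_lit 18) (nat_lit 161)) (rf (nat_lit 0)))))))) q3542 (by decide +kernel)
def q3571 : Q := Q.p (nat_lit 0x200000000000c000030000040000100000000000000000000000000000000000) (nat_lit 0x300001e00001800000000000000080000280000a00000000000000000000000000000) (nat_lit 7)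
theorem c3571 : QOK q3571 := cut [q3568] ⟨c3568, trivial⟩ (nd (nat_lit 117) (nat_lit 0) (cs (lf (nat_lit 46) (nat_lit 117)) (nd (nat_lit 141) (nat_lit 0) (cs (lf (nat_lit 35) (nat_lit 118)) (nd (nat_lit 228) (nat_lit 0) (cs (lf (nat_lit 37) (nat_lit 140)) (rf (nat_lit 0)))))))) q3571 (by decide +kernel)
def q3581 : Q := Q.p (nat_lit 0x78000000000000000000000000000000000000000000000) (nat_lit 0x800003000080000070000100000400000000000000000000000000000) (nat_lit 5)
theorem c3581 : QOK q3581 := cut [q3580] ⟨c3580, trivial⟩ (nd (nat_lit 205) (nat_lit 0) (cs (lf (nat_lit 11) (nat_lit 182)) (rf (nat_lit 0)))) q3581 (by decide +kernel)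
def q3643 : Q := Q.p (nat_lit 0x200000800002000008000000000000000000000000000000000000000000000) (nat_lit 0x100000c0000100000000001000004000010000000000000000000000000000000000000000) (nat_lit 4)
theorem c3643 : QOK q3643 := cut [q3641] ⟨c3641, trivial⟩ (nd (nat_lit 182) (nat_lit 0) (cs (rf (nat_lit 0)) (lf (nat_lit 47) (nat_lit 160)))) q3643 (by decide +kernel)
def q3725 : Q := Q.p (nat_lit 0x600001c0000000000000000000000000000000000000000) (nat_lit 0x1c000e300038c0000000000000000000000000000000000) (nat_lit 7)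
theorem c3725 : QOK q3725 := cut [q3723] ⟨c3723, trivial⟩ (nd (nat_lit 161) (nat_lit 0) (cs (lf (nat_lit 0) (nat_lit 160)) (nd (nat_lit 138) (nat_lit 0) (cs (lf (nat_lit 22) (nat_lit 138)) (rf (nat_lit 0)))))) q3725 (by decide +kernel)
def q3735 : Q := Q.p (nat_lit 0x8000070000000000000000000000000000000000000000000000) (nat_lit 0x8000020000040000800000f8000100000400000000000000000000000000000) (nat_lit 4)
theorem c3735 : QOK q3735 := cut [q3539, q3734] ⟨c3539, c3734, trivial⟩ (nd (nat_lit 162) (nat_lit 0) (cs (rf (nat_lit 0)) (rf (nat_lit 1)))) q3735 (by decide +kernel)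
def q3744 : Q := Q.p (nat_lit 0x8000060000080000000000000000000000000000000000000000) (nat_lit 0x2000000000190000170000100000400001000000000000000000000000) (nat_lit 4)
theorem c3744 : QOK q3744 := cut [q3739, q3743] ⟨c3739, c3743, trivial⟩ (nd (nat_lit 162) (nat_lit 0) (cs (rf (nat_lit 0)) (rf (nat_lit 1)))) q3744 (by decide +kernel)
def q3754 : Q := Q.p (nat_lit 0x18000060000080000000000000000000000000000000000000000) (nat_lit 0x200000800003000007000000000140000300000c00000000000000000000000000000) (nat_lit 7)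
theorem c3754 : QOK q3754 := cut [q3750] ⟨c3750, trivial⟩ (nd (nat_lit 141) (nat_lit 0) (cs (lf (nat_lit 24) (nat_lit 119)) (nd (nat_lit 206) (nat_lit 0) (cs (lf (nat_lit 41) (nat_lit 140)) (nd (nat_lit 140) (nat_lit 0) (cs (lf (nat_lit 47) (nat_lit 118)) (nd (nat_lit 204) (nat_lit 0) (cs (lf (nat_lit 13) (nat_lit 182)) (rf (nat_lit 0)))))))))) q3754 (by decide +kernel)
def q3764 : Q := Q.p (nat_lit 0x3c00000000000000000000000000000000000000000000000000000000000000) (nat_lit 0x1dc0000200000000000000000000000000000000000000000000000000000000000000) (nat_lit 4)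
theorem c3764 : QOK q3764 := cut [q3763] ⟨c3763, trivial⟩ (nd (nat_lit 275) (nat_lit 0) (cs (lf (nat_lit 5) (nat_lit 250)) (rf (nat_lit 0)))) q3764 (by decide +kernel)
def q3765 : Q := Q.p (nat_lit 0x3c00000000000000000000000000000000000000000000000000000000000000) (nat_lit 0x1c00000200001c00000000000000000000000000000000000000000000000000000000) (nat_lit 4)
theorem c3765 : QOK q3765 := cut [q2090] ⟨c2090, trivial⟩ (nd (nat_lit 275) (nat_lit 0) (cs (lf (nat_lit 5) (nat_lit 250)) (rf (nat_lit 0)))) q3765 (by decide +kernel)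
def q3768 : Q := Q.p (nat_lit 0xc00001000004000000000000000000000000000000000000000000000000000) (nat_lit 0x2000000000000000000000380000e0000280000000000000000000000000000000000) (nat_lit 5)
theorem c3768 : QOK q3768 := cut [q3767] ⟨c3767, trivial⟩ (nd (nat_lit 184) (nat_lit 0) (cs (lf (nat_lit 29) (nat_lit 184)) (rf (nat_lit 0)))) q3768 (by decide +kernel)
def q3795 : Q := Q.p (nat_lit 0x1c000040000000000000000000000000000000000000000000000) (nat_lit 0x30000ae000000000000000000000000000000000000000000000) (nat_lit 4)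
theorem c3795 : QOK q3795 := cut [q128] ⟨c128, trivial⟩ (nd (nat_lit 205) (nat_lit 0) (cs (rf (nat_lit 0)) (lf (nat_lit 17) (nat_lit 183)))) q3795 (by decide +kernel)
def q3797 : Q := Q.p (nat_lit 0x2000004000010000040000000000000000000000000000000000000000000000) (nat_lit 0x8000000000000000380000e00002800000000000000000000000000000) (nat_lit 5)
theorem c3797 : QOK q3797 := cut [q630] ⟨c630, trivial⟩ (nd (nat_lit 164) (nat_lit 0) (cs (lf (nat_lit 28) (nat_lit 164)) (rf (nat_lit 0)))) q3797 (by decide +kernel)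
def q3803 : Q := Q.p (nat_lit 0x400001c0000000000000000000000000000000000000000) (nat_lit 0x8e0000300000e0000000000000000000000000000000000) (nat_lit 5)
theorem c3803 : QOK q3803 := cut [q3802] ⟨c3802, trivial⟩ (nd (nat_lit 161) (nat_lit 0) (cs (lf (nat_lit 5) (nat_lit 161)) (rf (nat_lit 0)))) q3803 (by decide +kernel)
def q3819 : Q := Q.p (nat_lit 0x2000000000018000040000000000000000000000000000000000000000000000) (nat_lit 0x80000e0000180000e000000000020000180000600000000000000000000000000000000000) (nat_lit 6)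
theorem c3819 : QOK q3819 := cut [q438, q442, q3818] ⟨c438, c442, c3818, trivial⟩ (nd (nat_lit 230) (nat_lit 0) (cs (rf (nat_lit 0)) (cs (rf (nat_lit 1)) (rf (nat_lit 2))))) q3819 (by decide +kernel)
def q3823 : Q := Q.p (nat_lit 0x3c000000000000000000000000000000000000000000000000000) (nat_lit 0x1dc00002000000000000000000000000000000000000000000000000000) (nat_lit 4)
theorem c3823 : QOK q3823 := cut [q3822] ⟨c3822, trivial⟩ (nd (nat_lit 231) (nat_lit 0) (cs (lf (nat_lit 5) (nat_lit 206)) (rf (nat_lit 0)))) q3823 (by decide +kernel)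
def q3851 : Q := Q.p (nat_lit 0xc000010000040000000000000000000000000000000000000000) (nat_lit 0x2000000000000000000000380000e00002800000000000000000000000) (nat_lit 5)
theorem c3851 : QOK q3851 := cut [q2497] ⟨c2497, trivial⟩ (nd (nat_lit 140) (nat_lit 0) (cs (lf (nat_lit 29) (nat_lit 140)) (rf (nat_lit 0)))) q3851 (by decide +kernel)
def q3891 : Q := Q.p (nat_lit 0x1c000048000000000000000000000000000000000000000000000) (nat_lit 0x7700003800024000000000000000000000000000000000000000000000) (nat_lit 6)
theorem c3891 : QOK q3891 := cut [q3339] ⟨c3339, trivial⟩ (nd (nat_lit 205) (nat_lit 0) (cs (lf (nat_lit 23) (nat_lit 182)) (nd (nat_lit 204) (nat_lit 0) (cs (lf (nat_lit 16) (nat_lit 182)) (rf (nat_lit 0)))))) q3891 (by decide +kernel)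
def q3910 : Q := Q.p (nat_lit 0x3c0000c0000000000000000000000000000000000000000000000) (nat_lit 0x738001c0000000000000000000000000000000000000000000000000000) (nat_lit 5)
theorem c3910 : QOK q3910 := cut [q3908] ⟨c3908, trivial⟩ (nd (nat_lit 228) (nat_lit 0) (cs (lf (nat_lit 11) (nat_lit 205)) (nd (nat_lit 210) (nat_lit 0) (cs (lf (nat_lit 10) (nat_lit 206)) (rf (nat_lit 0)))))) q3910 (by decide +kernel)
def q3927 : Q := Q.p (nat_lit 0x1c000060000000000000000000000000000000000000000000000) (nat_lit 0x1c000e3000010000000000000000000000000000000000000000000000) (nat_lit 5)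
theorem c3927 : QOK q3927 := cut [q3926] ⟨c3926, trivial⟩ (nd (nat_lit 205) (nat_lit 0) (cs (lf (nat_lit 12) (nat_lit 182)) (rf (nat_lit 0)))) q3927 (by decide +kernel)
def q3947 : Q := Q.p (nat_lit 0x2000003800004000000000000000000000000000000000000000000000000000) (nat_lit 0x20000080001700004000000000010000040000000000000000000000000000000000000000) (nat_lit 5)
theorem c3947 : QOK q3947 := cut [q3946] ⟨c3946, trivial⟩ (nd (nat_lit 230) (nat_lit 0) (cs (lf (nat_lit 4) (nat_lit 227)) (rf (nat_lit 0)))) q3947 (by decide +kernel)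
def q3951 : Q := Q.p (nat_lit 0x1800006800008000020000000000000000000000000000000000000000000000) (nat_lit 0x100000700000400000000010000040000000000000000000000000000000000000000) (nat_lit 4)
theorem c3951 : QOK q3951 := cut [q1082] ⟨c1082, trivial⟩ (nd (nat_lit 162) (nat_lit 0) (cs (rf (nat_lit 0)) (lf (nat_lit 46) (nat_lit 162)))) q3951 (by decide +kernel)
def q3957 : Q := Q.p (nat_lit 0x3000002000018000040000000000000000000000000000000000000000000000) (nat_lit 0x700000c00001800000000020000080000000000000000000000000000000000000000) (nat_lit 5)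
theorem c3957 : QOK q3957 := cut [q1836] ⟨c1836, trivial⟩ (nd (nat_lit 251) (nat_lit 0) (cs (lf (nat_lit 30) (nat_lit 185)) (rf (nat_lit 0)))) q3957 (by decide +kernel)
def q3960 : Q := Q.p (nat_lit 0x1c000040000000000000000000000000000000000000000000000) (nat_lit 0xe000030000a0000000000000000000000000000000000000000000000) (nat_lit 4)
theorem c3960 : QOK q3960 := cut [q154] ⟨c154, trivial⟩ (nd (nat_lit 205) (nat_lit 0) (cs (rf (nat_lit 0)) (lf (nat_lit 17) (nat_lit 183)))) q3960 (by decide +kernel)
def q3969 : Q := Q.p (nat_lit 0x2000007000000000000000000000000000000000000000000000000000) (nat_lit 0x1380000c00003800000000000000000000000000000000000000000000) (nat_lit 5)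
theorem c3969 : QOK q3969 := cut [q3968] ⟨c3968, trivial⟩ (nd (nat_lit 203) (nat_lit 0) (cs (lf (nat_lit 4) (nat_lit 203)) (rf (nat_lit 0)))) q3969 (by decide +kernel)
def q3989 : Q := Q.p (nat_lit 0x2000004000018000000000000000000000000000000000000000000000000000) (nat_lit 0x20000080000000003a000026000040000100000000000000000000000000000000000000000) (nat_lit 4)
theorem c3989 : QOK q3989 := cut [q3986, q3988] ⟨c3986, c3988, trivial⟩ (nd (nat_lit 231) (nat_lit 0) (cs (rf (nat_lit 0)) (rf (nat_lit 1)))) q3989 (by decide +kernel)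
def q3996 : Q := Q.p (nat_lit 0x2000004000018000000000000000000000000000000000000000000000000000) (nat_lit 0x200000800001000038000026000040000100000000000000000000000000000000000000000) (nat_lit 4)
theorem c3996 : QOK q3996 := cut [q3984, q3995] ⟨c3984, c3995, trivial⟩ (nd (nat_lit 231) (nat_lit 0) (cs (rf (nat_lit 0)) (rf (nat_lit 1)))) q3996 (by decide +kernel)
def q4003 : Q := Q.p (nat_lit 0x300000080001c000000000000000000000000000000000000000000000000000) (nat_lit 0x40000100000c0000140002300002e000000000000000000000000000000000000000000000) (nat_lit 7)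
theorem c4003 : QOK q4003 := cut [q4000] ⟨c4000, trivial⟩ (nd (nat_lit 205) (nat_lit 0) (cs (lf (nat_lit 11) (nat_lit 204)) (nd (nat_lit 182) (nat_lit 0) (cs (lf (nat_lit 22) (nat_lit 182)) (nd (nat_lit 181) (nat_lit 0) (cs (lf (nat_lit 21) (nat_lit 181)) (rf (nat_lit 0)))))))) q4003 (by decide +kernel)
def q4007 : Q := Q.p (nat_lit 0x400001c000000000000000000000000000000000000000000000000000) (nat_lit 0x8e0000300000e000000000000000000000000000000000000000000000) (nat_lit 5)
theorem c4007 : QOK q4007 := cut [q3211] ⟨c3211, trivial⟩ (nd (nat_lit 205) (nat_lit 0) (cs (lf (nat_lit 5) (nat_lit 205)) (rf (nat_lit 0)))) q4007 (by decide +kernel)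
def q4015 : Q := Q.p (nat_lit 0x300000500001c000000000000000000000000000000000000000000000000000) (nat_lit 0x200001900000e0003a000020000020000080000200000000000000000000000000000000000) (nat_lit 5)
theorem c4015 : QOK q4015 := cut [q4011, q1496, q4013] ⟨c4011, c1496, c4013, trivial⟩ (nd (nat_lit 231) (nat_lit 0) (cs (rf (nat_lit 0)) (nd (nat_lit 250) (nat_lit 0) (cs (rf (nat_lit 1)) (rf (nat_lit 2)))))) q4015 (by decide +kernel)
def q4032 : Q := Q.p (nat_lit 0x400001c000000000000000000000000000000000000000000000000000) (nat_lit 0xa00000300000e000000000000000000000000000000000000000000000) (nat_lit 4)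
theorem c4032 : QOK q4032 := cut [q1417] ⟨c1417, trivial⟩ (nd (nat_lit 205) (nat_lit 0) (cs (lf (nat_lit 5) (nat_lit 205)) (rf (nat_lit 0)))) q4032 (by decide +kernel)
def q4040 : Q := Q.p (nat_lit 0x3000004000018000000000000000000000000000000000000000000000000000) (nat_lit 0x380000f800000000380000240000a0000000000000000000000000000000000000000000000) (nat_lit 8)
theorem c4040 : QOK q4040 := cut [q4037] ⟨c4037, trivial⟩ (nd (nat_lit 274) (nat_lit 0) (cs (lf (nat_lit 47) (nat_lit 185)) (nd (nat_lit 275) (nat_lit 0) (cs (lf (nat_lit 29) (nat_lit 208)) (nd (nat_lit 273) (nat_lit 0) (cs (lf (nat_lit 41) (nat_lit 207)) (rf (nat_lit 0)))))))) q4040 (by decide +kernel)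
def q4051 : Q := Q.p (nat_lit 0x600003000004000008000000000000000000000000000000000000000000000000000) (nat_lit 0x1000004000010000080000080000a000000000000000000000000000000000000000000000000000000000) (nat_lit 4)
theorem c4051 : QOK q4051 := cut [q4050] ⟨c4050, trivial⟩ (nd (nat_lit 296) (nat_lit 0) (cs (lf (nat_lit 46) (nat_lit 207)) (rf (nat_lit 0)))) q4051 (by decide +kernel)
def q4078 : Q := Q.p (nat_lit 0x38000040000000000000000000000000000000000000000000000) (nat_lit 0x700001c60001b8000000000000000000000000000000000000000000000) (nat_lit 7)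
theorem c4078 : QOK q4078 := cut [q149, q4071, q4074] ⟨c149, c4071, c4074, trivial⟩ (nd (nat_lit 184) (nat_lit 0) (cs (rf (nat_lit 0)) (cs (nd (nat_lit 206) (nat_lit 0) (cs (lf (nat_lit 23) (nat_lit 183)) (rf (nat_lit 1)))) (nd (nat_lit 210) (nat_lit 0) (cs (lf (nat_lit 22) (nat_lit 184)) (nd (nat_lit 233) (nat_lit 0) (cs (lf (nat_lit 4) (nat_lit 207)) (nd (nat_lit 211) (nat_lit 0) (cs (lf (nat_lit 5) (nat_lit 208)) (rf (nat_lit 2))))))))))) q4078 (by decide +kernel)
def q4083 : Q := Q.p (nat_lit 0x20000000000300000c0000000000000000000000000000000000000000000000) (nat_lit 0x80000000000c000000000100000600001800002000000000000000000000000000000) (nat_lit 5)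
theorem c4083 : QOK q4083 := cut [q4082] ⟨c4082, trivial⟩ (nd (nat_lit 231) (nat_lit 0) (cs (lf (nat_lit 42) (nat_lit 186)) (rf (nat_lit 0)))) q4083 (by decide +kernel)
def q4084 : Q := Q.p (nat_lit 0x20000000000300000c0000000000000000000000000000000000000000000000) (nat_lit 0xc0000100000c000000000000000600001800006000000000000000000000000000000) (nat_lit 6)
theorem c4084 : QOK q4084 := cut [q2336] ⟨c2336, trivial⟩ (nd (nat_lit 231) (nat_lit 0) (cs (lf (nat_lit 42) (nat_lit 186)) (rf (nat_lit 0)))) q4084 (by decide +kernel)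
def q4101 : Q := Q.p (nat_lit 0x8000038000040000000000000000000000000000000000000000000000) (nat_lit 0x70000044000000000100000400000000000000000000000000000000000) (nat_lit 4)
theorem c4101 : QOK q4101 := cut [q4100] ⟨c4100, trivial⟩ (nd (nat_lit 142) (nat_lit 0) (cs (lf (nat_lit 25) (nat_lit 142)) (rf (nat_lit 0)))) q4101 (by decide +kernel)
def q4108 : Q := Q.p (nat_lit 0x100000c000010000040000000000000000000000000000000000000000) (nat_lit 0x20000020000380000e00002000000000000000000000000) (nat_lit 5)
theorem c4108 : QOK q4108 := cut [q804] ⟨c804, trivial⟩ (nd (nat_lit 139) (nat_lit 0) (cs (lf (nat_lit 46) (nat_lit 139)) (nd (nat_lit 140) (nat_lit 0) (cs (lf (nat_lit 47) (nat_lit 117)) (rf (nat_lit 0)))))) q4108 (by decide +kernel)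
def q4127 : Q := Q.p (nat_lit 0xc00005000004000010000000000000000000000000000000000000000000000) (nat_lit 0xf0000380002700000000020000080000000000000000000000000000000000000000) (nat_lit 7)
theorem c4127 : QOK q4127 := cut [q4123] ⟨c4123, trivial⟩ (nd (nat_lit 163) (nat_lit 0) (cs (lf (nat_lit 34) (nat_lit 162)) (nd (nat_lit 249) (nat_lit 0) (cs (lf (nat_lit 41) (nat_lit 183)) (nd (nat_lit 248) (nat_lit 0) (cs (rf (nat_lit 0)) (lf (nat_lit 16) (nat_lit 226)))))))) q4127 (by decide +kernel)
def q4167 : Q := Q.p (nat_lit 0x300000400001c000000000000000000000000000000000000000000000000000) (nat_lit 0x40000100000c00009c00022000020000000000000000000000000000000000000000000000) (nat_lit 6)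
theorem c4167 : QOK q4167 := cut [q4000] ⟨c4000, trivial⟩ (nd (nat_lit 205) (nat_lit 0) (cs (lf (nat_lit 5) (nat_lit 205)) (nd (nat_lit 227) (nat_lit 0) (cs (lf (nat_lit 11) (nat_lit 204)) (rf (nat_lit 0)))))) q4167 (by decide +kernel)
def q4170 : Q := Q.p (nat_lit 0x400000e000000000000000000000000000000000000000000000000000) (nat_lit 0x2700001800007000000000000000000000000000000000000000000000) (nat_lit 5)
theorem c4170 : QOK q4170 := cut [q4169] ⟨c4169, trivial⟩ (nd (nat_lit 204) (nat_lit 0) (cs (lf (nat_lit 4) (nat_lit 204)) (rf (nat_lit 0)))) q4170 (by decide +kernel)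
def q4189 : Q := Q.p (nat_lit 0x80000300000900002c000000000000000000000000000000000000000000000000000) (nat_lit 0x280004e0007380000c00000000000000020000000000000000000000000000000000000000000000) (nat_lit 8)
theorem c4189 : QOK q4189 := cut [q4186] ⟨c4186, trivial⟩ (nd (nat_lit 276) (nat_lit 0) (cs (lf (nat_lit 29) (nat_lit 209)) (nd (nat_lit 277) (nat_lit 0) (cs (lf (nat_lit 18) (nat_lit 252)) (nd (nat_lit 250) (nat_lit 0) (cs (lf (nat_lit 1) (nat_lit 250)) (rf (nat_lit 0)))))))) q4189 (by decide +kernel)
def q4207 : Q := Q.p (nat_lit 0x3000004000018000000000000000000000000000000000000000000000000000) (nat_lit 0x400003e0001f80000e00019800020000020000000000000000000000000000000000000000000000) (nat_lit 11)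
theorem c4207 : QOK q4207 := cut [q4204] ⟨c4204, trivial⟩ (nd (nat_lit 274) (nat_lit 0) (cs (lf (nat_lit 47) (nat_lit 185)) (nd (nat_lit 273) (nat_lit 0) (cs (lf (nat_lit 41) (nat_lit 207)) (nd (nat_lit 275) (nat_lit 0) (cs (lf (nat_lit 29) (nat_lit 208)) (rf (nat_lit 0)))))))) q4207 (by decide +kernel)
def q4259 : Q := Q.p (nat_lit 0x800002000018000060000000000000000000000000000000000000000000000) (nat_lit 0x10000040000000002000001c000040000000000000000000000000000000000000000) (nat_lit 4)
theorem c4259 : QOK q4259 := cut [q3176] ⟨c3176, trivial⟩ (nd (nat_lit 250) (nat_lit 0) (cs (lf (nat_lit 41) (nat_lit 184)) (rf (nat_lit 0)))) q4259 (by decide +kernel)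
def q4267 : Q := Q.p (nat_lit 0x6000018000020000000000000000000000000000000000000000000000) (nat_lit 0x400001c00020000000000080000200000000000000000000000000000000000) (nat_lit 4)
theorem c4267 : QOK q4267 := cut [q4266] ⟨c4266, trivial⟩ (nd (nat_lit 163) (nat_lit 0) (cs (lf (nat_lit 24) (nat_lit 141)) (rf (nat_lit 0)))) q4267 (by decide +kernel)
def q4295 : Q := Q.p (nat_lit 0x38000000000000000000000000000000000000000000000000000) (nat_lit 0x7f8000c4000038000000000000000000000000000000000000000000000) (nat_lit 5)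
theorem c4295 : QOK q4295 := cut [q186, q4286, q4294] ⟨c186, c4286, c4294, trivial⟩ (nd (nat_lit 210) (nat_lit 0) (cs (rf (nat_lit 0)) (cs (rf (nat_lit 1)) (rf (nat_lit 2))))) q4295 (by decide +kernel)
def q4299 : Q := Q.p (nat_lit 0x1000008000020000080000000000000000000000000000000000000000000000) (nat_lit 0x4000000000000000700001c00005000000000000000000000000000000) (nat_lit 5)
theorem c4299 : QOK q4299 := cut [q4298] ⟨c4298, trivial⟩ (nd (nat_lit 165) (nat_lit 0) (cs (lf (nat_lit 40) (nat_lit 164)) (rf (nat_lit 0)))) q4299 (by decide +kernel)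
def q4318 : Q := Q.p (nat_lit 0x3c000000000000000000000000000000000000000000000000000) (nat_lit 0x3800040000038000000000000000000000000000000000000000000000) (nat_lit 4)
theorem c4318 : QOK q4318 := cut [q174] ⟨c174, trivial⟩ (nd (nat_lit 228) (nat_lit 0) (cs (lf (nat_lit 11) (nat_lit 205)) (rf (nat_lit 0)))) q4318 (by decide +kernel)
def q4332 : Q := Q.p (nat_lit 0x2000004000018000000000000000000000000000000000000000000000000000) (nat_lit 0x20000080000000003b0000e6000140000000000000000000000000000000000000000000000) (nat_lit 7)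
theorem c4332 : QOK q4332 := cut [q3988, q3995, q4327] ⟨c3988, c3995, c4327, trivial⟩ (nd (nat_lit 231) (nat_lit 0) (cs (rf (nat_lit 0)) (cs (rf (nat_lit 1)) (cs (nd (nat_lit 232) (nat_lit 0) (cs (lf (nat_lit 18) (nat_lit 207)) (nd (nat_lit 275) (nat_lit 0) (cs (lf (nat_lit 42) (nat_lit 208)) (nd (nat_lit 209) (nat_lit 0) (cs (lf (nat_lit 47) (nat_lit 186)) (nd (nat_lit 210) (nat_lit 0) (cs (lf (nat_lit 35) (nat_lit 187)) (nd (nat_lit 229) (nat_lit 0) (cs (lf (nat_lit 11) (nat_lit 206)) (lf (nat_lit 17) (nat_lit 207)))))))))))) (nd (nat_lit 205) (nat_lit 0) (cs (lf (nat_lit 1) (nat_lit 205)) (nd (nat_lit 275) (nat_lit 0) (cs (lf (nat_lit 42) (nat_lit 208)) (nd (nat_lit 209) (nat_lit 0) (cs (lf (nat_lit 47) (nat_lit 186)) (nd (nat_lit 210) (nat_lit 0) (cs (lf (nat_lit 35) (nat_lit 187)) (rf (nat_lit 2)))))))))))))) q4332 (by decide +kernel)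
def q4334 : Q := Q.p (nat_lit 0x2000004000018000000000000000000000000000000000000000000000000000) (nat_lit 0x80000200000c0000100000a000000000060000080000200000000000000000000000000000000000) (nat_lit 4)
theorem c4334 : QOK q4334 := cut [q1411, q4333] ⟨c1411, c4333, trivial⟩ (nd (nat_lit 252) (nat_lit 0) (cs (rf (nat_lit 0)) (rf (nat_lit 1)))) q4334 (by decide +kernel)
def q4378 : Q := Q.p (nat_lit 0x80000f0000040000000000000000000000000000000000000000000000) (nat_lit 0xf0000300001c00000100000400000000000000000000000000000000000) (nat_lit 6)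
theorem c4378 : QOK q4378 := cut [q4377] ⟨c4377, trivial⟩ (nd (nat_lit 142) (nat_lit 0) (cs (lf (nat_lit 25) (nat_lit 142)) (rf (nat_lit 0)))) q4378 (by decide +kernel)
def q4381 : Q := Q.p (nat_lit 0x20000080001f0000000000000000000000000000000000000000000000000000) (nat_lit 0x1000020c000300000400000000000000000000000000000000000000000) (nat_lit 4)
theorem c4381 : QOK q4381 := cut [q4380] ⟨c4380, trivial⟩ (nd (nat_lit 232) (nat_lit 0) (cs (lf (nat_lit 6) (nat_lit 209)) (rf (nat_lit 0)))) q4381 (by decide +kernel)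
def q4389 : Q := Q.p (nat_lit 0x30000040000100000000000000000000000000000000000000000) (nat_lit 0x8000000000000000000000e0000380000a000000000000000000000000) (nat_lit 5)
theorem c4389 : QOK q4389 := cut [q558] ⟨c558, trivial⟩ (nd (nat_lit 142) (nat_lit 0) (cs (rf (nat_lit 0)) (lf (nat_lit 29) (nat_lit 142)))) q4389 (by decide +kernel)
def q4417 : Q := Q.p (nat_lit 0x2000004000018000040000000000000000000000000000000000000000000000) (nat_lit 0x20000080000000003a000026000000000000000000000000000000000000000000000000000) (nat_lit 4)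
theorem c4417 : QOK q4417 := cut [q638, q3988] ⟨c638, c3988, trivial⟩ (nd (nat_lit 231) (nat_lit 0) (cs (rf (nat_lit 0)) (rf (nat_lit 1)))) q4417 (by decide +kernel)
def q4423 : Q := Q.p (nat_lit 0x3000004000018000040000000000000000000000000000000000000000000000) (nat_lit 0x4000018000078000080000a000020000000000000000000000000000000000000000000000000000) (nat_lit 6)
theorem c4423 : QOK q4423 := cut [q4421] ⟨c4421, trivial⟩ (nd (nat_lit 273) (nat_lit 0) (cs (lf (nat_lit 40) (nat_lit 185)) (nd (nat_lit 274) (nat_lit 0) (cs (lf (nat_lit 41) (nat_lit 207)) (rf (nat_lit 0)))))) q4423 (by decide +kernel)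
def q4448 : Q := Q.p (nat_lit 0x38000040000000000000000000000000000000000000000000000) (nat_lit 0x200000800003c00044000020000100000400000000000000000000000000000000000) (nat_lit 4)
theorem c4448 : QOK q4448 := cut [q1828, q4446] ⟨c1828, c4446, trivial⟩ (nd (nat_lit 229) (nat_lit 0) (cs (rf (nat_lit 0)) (rf (nat_lit 1)))) q4448 (by decide +kernel)
def q4471 : Q := Q.p (nat_lit 0x3c000060000180000000000000000000000000000000000000000) (nat_lit 0x40000380000e60003800002000008000000000000000000000000) (nat_lit 7)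
theorem c4471 : QOK q4471 := cut [q4457, q4466] ⟨c4457, c4466, trivial⟩ (nd (nat_lit 165) (nat_lit 0) (cs (nd (nat_lit 166) (nat_lit 0) (cs (lf (nat_lit 6) (nat_lit 163)) (rf (nat_lit 0)))) (cs (nd (nat_lit 166) (nat_lit 0) (cs (lf (nat_lit 6) (nat_lit 163)) (nd (nat_lit 188) (nat_lit 0) (cs (lf (nat_lit 5) (nat_lit 163)) (nd (nat_lit 144) (nat_lit 0) (cs (lf (nat_lit 17) (nat_lit 141)) (nd (nat_lit 143) (nat_lit 0) (cs (lf (nat_lit 12) (nat_lit 140)) (nd (nat_lit 121) (nat_lit 0) (cs (lf (nat_lit 36) (nat_lit 98)) (lf (nat_lit 42) (nat_lit 121)))))))))))) (cs (nd (nat_lit 187) (nat_lit 0) (cs (lf (nat_lit 6) (nat_lit 184)) (rf (nat_lit 1)))) (nd (nat_lit 188) (nat_lit 0) (cs (lf (nat_lit 16) (nat_lit 184)) (nd (nat_lit 189) (nat_lit 0) (cs (lf (nat_lit 15) (nat_lit 185)) (lf (nat_lit 3) (nat_lit 163)))))))))) q4471 (by decide +kernel)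
def q4508 : Q := Q.p (nat_lit 0x18000060000180000000000000000000000000000000000000000) (nat_lit 0x200000fc0003c00000000000000000000000000000) (nat_lit 6)
theorem c4508 : QOK q4508 := cut [q4505] ⟨c4505, trivial⟩ (nd (nat_lit 142) (nat_lit 0) (cs (lf (nat_lit 36) (nat_lit 119)) (nd (nat_lit 121) (nat_lit 0) (cs (lf (nat_lit 34) (nat_lit 120)) (nd (nat_lit 141) (nat_lit 0) (cs (lf (nat_lit 47) (nat_lit 119)) (rf (nat_lit 0)))))))) q4508 (by decide +kernel)
def q4519 : Q := Q.p (nat_lit 0x180000e0000180000000000000000000000000000000000000000) (nat_lit 0x2600003c0000c00000000000000000000000000000) (nat_lit 5)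
theorem c4519 : QOK q4519 := cut [q4517] ⟨c4517, trivial⟩ (nd (nat_lit 162) (nat_lit 0) (cs (lf (nat_lit 0) (nat_lit 161)) (nd (nat_lit 141) (nat_lit 0) (cs (lf (nat_lit 24) (nat_lit 119)) (rf (nat_lit 0)))))) q4519 (by decide +kernel)
def q4534 : Q := Q.p (nat_lit 0x180000600001c0000000000000000000000000000000000000000) (nat_lit 0x200003c00003000000000000000000000000000000) (nat_lit 4)
theorem c4534 : QOK q4534 := cut [q4533] ⟨c4533, trivial⟩ (nd (nat_lit 142) (nat_lit 0) (cs (lf (nat_lit 36) (nat_lit 119)) (rf (nat_lit 0)))) q4534 (by decide +kernel)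
def q4580 : Q := Q.p (nat_lit 0x100000600001e0000000000000000000000000000000000000000000000) (nat_lit 0xe00001800006000000000000000000000000000000) (nat_lit 4)
theorem c4580 : QOK q4580 := cut [q2116] ⟨c2116, trivial⟩ (nd (nat_lit 143) (nat_lit 0) (cs (lf (nat_lit 25) (nat_lit 143)) (rf (nat_lit 0)))) q4580 (by decide +kernel)
def q4623 : Q := Q.p (nat_lit 0x2000000000070000040000000000000000000000000000000000000000000000) (nat_lit 0x800000000018000088000f00000400001000000000000000000000000000000000000) (nat_lit 4)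
theorem c4623 : QOK q4623 := cut [q4621, q4622] ⟨c4621, c4622, trivial⟩ (nd (nat_lit 188) (nat_lit 0) (cs (rf (nat_lit 0)) (rf (nat_lit 1)))) q4623 (by decide +kernel)
def q4628 : Q := Q.p (nat_lit 0x78000100000400000000000000000000000000000000000000000) (nat_lit 0x30000000000000000a0000380000a000000000000000000000000000000) (nat_lit 5)
theorem c4628 : QOK q4628 := cut [q4627] ⟨c4627, trivial⟩ (nd (nat_lit 232) (nat_lit 0) (cs (lf (nat_lit 5) (nat_lit 207)) (rf (nat_lit 0)))) q4628 (by decide +kernel)
def q4639 : Q := Q.p (nat_lit 0x60000100000400000800000000000000000000000000000000000) (nat_lit 0x8000000000300000e000020000000000000000000000000) (nat_lit 4)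
theorem c4639 : QOK q4639 := cut [q4638] ⟨c4638, trivial⟩ (nd (nat_lit 144) (nat_lit 0) (cs (lf (nat_lit 47) (nat_lit 121)) (rf (nat_lit 0)))) q4639 (by decide +kernel)
def q4660 : Q := Q.p (nat_lit 0x78000140000400000000000000000000000000000000000000000) (nat_lit 0xb0003a00003e0000e000028000000000000000000000000) (nat_lit 8)
theorem c4660 : QOK q4660 := cut [q4638, q4656, q4659] ⟨c4638, c4656, c4659, trivial⟩ (nd (nat_lit 144) (nat_lit 0) (cs (rf (nat_lit 0)) (cs (nd (nat_lit 143) (nat_lit 0) (cs (lf (nat_lit 47) (nat_lit 121)) (nd (nat_lit 185) (nat_lit 0) (cs (lf (nat_lit 23) (nat_lit 184)) (nd (nat_lit 123) (nat_lit 0) (cs (lf (nat_lit 34) (nat_lit 122)) (nd (nat_lit 167) (nat_lit 0) (cs (nd (nat_lit 168) (nat_lit 0) (cs (nd (nat_lit 142) (nat_lit 0) (cs (lf (nat_lit 0) (nat_lit 141)) (lf (nat_lit 21) (nat_lit 142)))) (lf (nat_lit 18) (nat_lit 143)))) (lf (nat_lit 14) (nat_lit 163)))))))))) (cs (nd (nat_lit 184) (nat_lit 0) (cs (lf (nat_lit 22) (nat_lit 184)) (rf (nat_lit 1)))) (rf (nat_lit 2)))))) q4660 (by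 decide +kernel)
def q4699 : Q := Q.p (nat_lit 0x20000000000000001c0000000000000000000000000000000000000000000000) (nat_lit 0x180000ee000030000ce0000000000000000000000000000000000000000) (nat_lit 7)
theorem c4699 : QOK q4699 := cut [q394, q4691, q4698] ⟨c394, c4691, c4698, trivial⟩ (nd (nat_lit 185) (nat_lit 0) (cs (rf (nat_lit 0)) (cs (nd (nat_lit 162) (nat_lit 0) (cs (lf (nat_lit 22) (nat_lit 162)) (nd (nat_lit 206) (nat_lit 0) (cs (lf (nat_lit 10) (nat_lit 184)) (nd (nat_lit 210) (nat_lit 0) (cs (lf (nat_lit 5) (nat_lit 185)) (nd (nat_lit 166) (nat_lit 0) (cs (lf (nat_lit 17) (nat_lit 163)) (rf (nat_lit 1)))))))))) (rf (nat_lit 2))))) q4699 (by decide +kernel)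
def q4705 : Q := Q.p (nat_lit 0x3c0000000000000000000000000000000000000000000000) (nat_lit 0x20000180000020001c00001000004000000000000000000000000000000) (nat_lit 5)
theorem c4705 : QOK q4705 := cut [q4703] ⟨c4703, trivial⟩ (nd (nat_lit 167) (nat_lit 0) (cs (lf (nat_lit 17) (nat_lit 164)) (nd (nat_lit 166) (nat_lit 0) (cs (lf (nat_lit 12) (nat_lit 163)) (rf (nat_lit 0)))))) q4705 (by decide +kernel)
def q4714 : Q := Q.p (nat_lit 0x300001c0000400000000000000000000000000000000000000000) (nat_lit 0x180000600001c0000600001800001000004000000000000000000000000000000) (nat_lit 7)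
theorem c4714 : QOK q4714 := cut [q4710] ⟨c4710, trivial⟩ (nd (nat_lit 122) (nat_lit 0) (cs (lf (nat_lit 37) (nat_lit 121)) (nd (nat_lit 189) (nat_lit 0) (cs (lf (nat_lit 6) (nat_lit 186)) (nd (nat_lit 167) (nat_lit 0) (cs (lf (nat_lit 17) (nat_lit 164)) (nd (nat_lit 211) (nat_lit 0) (cs (lf (nat_lit 5) (nat_lit 186)) (rf (nat_lit 0)))))))))) q4714 (by decide +kernel)
def q4772 : Q := Q.p (nat_lit 0x10000070000000000000000000000000000000000000000000000) (nat_lit 0x2380000c000038000000000000000000000000000000000000000) (nat_lit 5)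
theorem c4772 : QOK q4772 := cut [q4771] ⟨c4771, trivial⟩ (nd (nat_lit 183) (nat_lit 0) (cs (lf (nat_lit 5) (nat_lit 183)) (rf (nat_lit 0)))) q4772 (by decide +kernel)
def q4774 : Q := Q.p (nat_lit 0x10000070000000000000000000000000000000000000000000000) (nat_lit 0x2800000c000038000000000000000000000000000000000000000) (nat_lit 4)
theorem c4774 : QOK q4774 := cut [q4773] ⟨c4773, trivial⟩ (nd (nat_lit 183) (nat_lit 0) (cs (lf (nat_lit 5) (nat_lit 183)) (rf (nat_lit 0)))) q4774 (by decide +kernel)
def q4800 : Q := Q.p (nat_lit 0x10000040000100000400000000000000000000000000000000000) (nat_lit 0x2000008000020000020000380000e000020000000000000000000) (nat_lit 6)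
theorem c4800 : QOK q4800 := cut [q2801] ⟨c2801, trivial⟩ (nd (nat_lit 119) (nat_lit 0) (cs (lf (nat_lit 46) (nat_lit 119)) (nd (nat_lit 120) (nat_lit 0) (cs (lf (nat_lit 47) (nat_lit 97)) (rf (nat_lit 0)))))) q4800 (by decide +kernel)
def q4803 : Q := Q.p (nat_lit 0x18000040000100000400000000000000000000000000000000000) (nat_lit 0x1000004000026000380000200000a00001800006000000000000000000000000) (nat_lit 8)
theorem c4803 : QOK q4803 := cut [q2808] ⟨c2808, trivial⟩ (nd (nat_lit 119) (nat_lit 0) (cs (lf (nat_lit 46) (nat_lit 119)) (nd (nat_lit 120) (nat_lit 0) (cs (lf (nat_lit 47) (nat_lit 97)) (nd (nat_lit 187) (nat_lit 0) (cs (lf (nat_lit 29) (nat_lit 120)) (nd (nat_lit 205) (nat_lit 0) (cs (nd (nat_lit 188) (nat_lit 0) (cs (lf (nat_lit 6) (nat_lit 185)) (rf (nat_lit 0)))) (lf (nat_lit 13) (nat_lit 183)))))))))) q4803 (by decide +kernel)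

end Crest.Agent.H3.Snaky.CR
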