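import Crest.Agent.H3.Snaky.Cert
import Crest.Agent.H3.Snaky.CR.CR0
import Crest.Agent.H3.Snaky.CR.CR1
import Crest.Agent.H3.Snaky.CR.CR2
import Crest.Agent.H3.Snaky.CR.CR3
import Crest.Agent.H3.Snaky.CR.CR20
import Crest.Agent.H3.Snaky.CR.CR21
import Crest.Agent.H3.Snaky.CR.CR22
import Crest.Agent.H3.Snaky.CR.CR23

set_option autoImplicit false
set_option maxRecDepth 100000

namespace Crest.Agent.H3.Snaky.CR

open T

def q4812 : Q := Q.p (nat_lit 0x40000380001000000000000000000000000000000000000) (nat_lit 0x720000c00002000000000000000000000000000000000000) (nat_lit 4)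
theorem c4812 : QOK q4812 := cut [q4811] ⟨c4811, trivial⟩ (nd (nat_lit 166) (nat_lit 0) (cs (lf (nat_lit 17) (nat_lit 141)) (rf (nat_lit 0)))) q4812 (by decide +kernel)
def q4880 : Q := Q.p (nat_lit 0x18000040000100000000000000000000000000000000000000000) (nat_lit 0x2000000000020000000000600001800002000000000000000000000000) (nat_lit 4)
theorem c4880 : QOK q4880 := cut [q618] ⟨c618, trivial⟩ (nd (nat_lit 142) (nat_lit 0) (cs (lf (nat_lit 41) (nat_lit 141)) (rf (nat_lit 0)))) q4880 (by decide +kernel)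
def q4904 : Q := Q.p (nat_lit 0x10000040000100000400000000000000000000000000000000000) (nat_lit 0x1000004000020000080000200000a00001800006000000000000000000000000) (nat_lit 6)
theorem c4904 : QOK q4904 := cut [q2808] ⟨c2808, trivial⟩ (nd (nat_lit 119) (nat_lit 0) (cs (lf (nat_lit 46) (nat_lit 119)) (nd (nat_lit 120) (nat_lit 0) (cs (lf (nat_lit 47) (nat_lit 97)) (nd (nat_lit 187) (nat_lit 0) (cs (lf (nat_lit 29) (nat_lit 120)) (rf (nat_lit 0)))))))) q4904 (by decide +kernel)
def q4912 : Q := Q.p (nat_lit 0x80000100000400001000000000000000000000000000000) (nat_lit 0x20000000000000000e0000380000a0000000000000) (nat_lit 5)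
theorem c4912 : QOK q4912 := cut [q4911] ⟨c4911, trivial⟩ (nd (nat_lit 98) (nat_lit 0) (cs (lf (nat_lit 28) (nat_lit 98)) (rf (nat_lit 0)))) q4912 (by decide +kernel)
def q4919 : Q := Q.p (nat_lit 0x2000000000010000040000100000400000000000000000000000000000000000) (nat_lit 0x800001000004000000000080000280000a00000800000000000000000000000000000) (nat_lit 5)
theorem c4919 : QOK q4919 := cut [q4807] ⟨c4807, trivial⟩ (nd (nat_lit 141) (nat_lit 0) (cs (lf (nat_lit 47) (nat_lit 119)) (nd (nat_lit 230) (nat_lit 0) (cs (lf (nat_lit 46) (nat_lit 141)) (rf (nat_lit 0)))))) q4919 (by decide +kernel)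
def q4951 : Q := Q.p (nat_lit 0x40000100000c0000100000000000000000000000000000000000000000) (nat_lit 0x3200000e0000200000000000000000000000000000000000) (nat_lit 4)
theorem c4951 : QOK q4951 := cut [q4950] ⟨c4950, trivial⟩ (nd (nat_lit 163) (nat_lit 0) (cs (lf (nat_lit 47) (nat_lit 141)) (rf (nat_lit 0)))) q4951 (by decide +kernel)
def q5013 : Q := Q.p (nat_lit 0x2000018000040000080000000000000000000000000000000000000000) (nat_lit 0x4000000000020000100000600000800002000000000000000000000000) (nat_lit 4)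
theorem c5013 : QOK q5013 := cut [q4806] ⟨c4806, trivial⟩ (nd (nat_lit 164) (nat_lit 0) (cs (lf (nat_lit 36) (nat_lit 141)) (rf (nat_lit 0)))) q5013 (by decide +kernel)
def q5040 : Q := Q.p (nat_lit 0x4000018000040000100000000000000000000000000000000000000000) (nat_lit 0x20000080000e00003800008000000000000000000000000) (nat_lit 5)
theorem c5040 : QOK q5040 := cut [q616] ⟨c616, trivial⟩ (nd (nat_lit 141) (nat_lit 0) (cs (lf (nat_lit 46) (nat_lit 141)) (nd (nat_lit 142) (nat_lit 0) (cs (lf (nat_lit 47) (nat_lit 119)) (rf (nat_lit 0)))))) q5040 (by decide +kernel)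
def q5054 : Q := Q.p (nat_lit 0x3000004000018000000000000000000000000000000000000000000000000000) (nat_lit 0x20000180000e0000f80000f80000800008000000000020000000000000000000000000000000000000000000000) (nat_lit 10)
theorem c5054 : QOK q5054 := cut [q5049] ⟨c5049, trivial⟩ (nd (nat_lit 274) (nat_lit 0) (cs (lf (nat_lit 47) (nat_lit 185)) (nd (nat_lit 273) (nat_lit 0) (cs (lf (nat_lit 41) (nat_lit 207)) (nd (nat_lit 271) (nat_lit 0) (cs (lf (nat_lit 13) (nat_lit 249)) (nd (nat_lit 297) (nat_lit 0) (cs (lf (nat_lit 28) (nat_lit 208)) (nd (nat_lit 296) (nat_lit 0) (cs (lf (nat_lit 29) (nat_lit 230)) (rf (nat_lit 0)))))))))))) q5054 (by decide +kernel)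
def q5130 : Q := Q.p (nat_lit 0x2000006000018000020000000000000000000000000000000000000000000000) (nat_lit 0x200000880000a00019c0000700001e0001f8000780000200000000000000000000000000000) (nat_lit 11)
theorem c5130 : QOK q5130 := cut [q1079, q5105, q5111, q5115, q3222] ⟨c1079, c5105, c5111, c5115, c3222, trivial⟩ (nd (nat_lit 206) (nat_lit 0) (cs (rf (nat_lit 0)) (cs (nd (nat_lit 162) (nat_lit 0) (cs (rf (nat_lit 1)) (cs (nd (nat_lit 184) (nat_lit 0) (cs (lf (nat_lit 42) (nat_lit 162)) (lf (nat_lit 24) (nat_lit 140)))) (nd (nat_lit 184) (nat_lit 0) (cs (lf (nat_lit 42) (nat_lit 162)) (nd (nat_lit 161) (nat_lit 0) (cs (nd (nat_lit 139) (nat_lit 0) (cs (nd (nat_lit 183) (nat_lit 0) (cs (lf (nat_lit 0) (nat_lit 182)) (lf (nat_lit 24) (nat_lit 117)))) (lf (nat_lit 42) (nat_lit 139)))) (cs (nd (nat_lit 163) (nat_lit 0) (cs (lf (nat_lit 24) (nat_lit 141)) (rf (nat_lit 2)))) (nd (nat_lit 159) (nat_lit 0) (cs (lf (nat_lit 1) (nat_lit 159)) (nd (nat_lit 231) (nat_lit 0) (cs (lf (nat_lit 18) (nat_lit 206))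 (nd (nat_lit 275) (nat_lit 0) (cs (lf (nat_lit 42) (nat_lit 208)) (nd (nat_lit 141) (nat_lit 0) (cs (lf (nat_lit 25) (nat_lit 141)) (rf (nat_lit 3)))))))))))))))))) (nd (nat_lit 205) (nat_lit 0) (cs (lf (nat_lit 0) (nat_lit 204)) (nd (nat_lit 163) (nat_lit 0) (cs (lf (nat_lit 24) (nat_lit 141)) (nd (nat_lit 227) (nat_lit 0) (cs (lf (nat_lit 11) (nat_lit 204)) (nd (nat_lit 142) (nat_lit 0) (cs (lf (nat_lit 34) (nat_lit 141)) (nd (nat_lit 182) (nat_lit 0) (cs (lf (nat_lit 22) (nat_lit 182)) (nd (nat_lit 162) (nat_lit 0) (cs (lf (nat_lit 47) (nat_lit 140)) (nd (nat_lit 184) (nat_lit 0) (cs (lf (nat_lit 42) (nat_lit 162)) (rf (nat_lit 4))))))))))))))))))) q5130 (by decide +kernel)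
def q5171 : Q := Q.p (nat_lit 0x700001c000000000000000000000000000000000000000000000000000) (nat_lit 0x1000004000000000030000dc000120000480000000000000000000000000000000000) (nat_lit 7)
theorem c5171 : QOK q5171 := cut [q5168] ⟨c5168, trivial⟩ (nd (nat_lit 205) (nat_lit 0) (cs (lf (nat_lit 0) (nat_lit 204)) (nd (nat_lit 186) (nat_lit 0) (cs (lf (nat_lit 17) (nat_lit 183)) (nd (nat_lit 142) (nat_lit 0) (cs (lf (nat_lit 37) (nat_lit 141)) (rf (nat_lit 0)))))))) q5171 (by decide +kernel)
def q5173 : Q := Q.p (nat_lit 0x700001c000000000000000000000000000000000000000000000000000) (nat_lit 0x20000080000700000c00000000010000040000000000000000000000000000000000000000) (nat_lit 5)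
theorem c5173 : QOK q5173 := cut [q3946] ⟨c3946, trivial⟩ (nd (nat_lit 227) (nat_lit 0) (cs (lf (nat_lit 12) (nat_lit 204)) (rf (nat_lit 0)))) q5173 (by decide +kernel)
def q5185 : Q := Q.p (nat_lit 0x700001c000000000000000000000000000000000000000000000000000) (nat_lit 0x80000300000c0000300001c000040000000000000000000000000000000000000000) (nat_lit 6)
theorem c5185 : QOK q5185 := cut [q5182] ⟨c5182, trivial⟩ (nd (nat_lit 205) (nat_lit 0) (cs (lf (nat_lit 0) (nat_lit 204)) (nd (nat_lit 227) (nat_lit 0) (cs (lf (nat_lit 12) (nat_lit 204)) (nd (nat_lit 182) (nat_lit 0) (cs (lf (nat_lit 22) (nat_lit 182)) (rf (nat_lit 0)))))))) q5185 (by decide +kernel)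
def q5205 : Q := Q.p (nat_lit 0x700001c000000000000000000000000000000000000000000000000000) (nat_lit 0x10000040000000000300001c000020000080000000000000000000000000000000000) (nat_lit 5)
theorem c5205 : QOK q5205 := cut [q5168] ⟨c5168, trivial⟩ (nd (nat_lit 205) (nat_lit 0) (cs (lf (nat_lit 0) (nat_lit 204)) (rf (nat_lit 0)))) q5205 (by decide +kernel)
def q5241 : Q := Q.p (nat_lit 0x2000004000018000000000000000000000000000000000000000000000000000) (nat_lit 0x20000080000100003a000006000040000100000000000000000000000000000000000000000) (nat_lit 4)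
theorem c5241 : QOK q5241 := cut [q3984, q3988] ⟨c3984, c3988, trivial⟩ (nd (nat_lit 231) (nat_lit 0) (cs (rf (nat_lit 0)) (rf (nat_lit 1)))) q5241 (by decide +kernel)
def q5294 : Q := Q.p (nat_lit 0x200000700001c000000000000000000000000000000000000000000000000000) (nat_lit 0x2c0000b00000e00018000000000018000060000180000000000000000000000000000000000) (nat_lit 9)
theorem c5294 : QOK q5294 := cut [q5291] ⟨c5291, trivial⟩ (nd (nat_lit 231) (nat_lit 0) (cs (lf (nat_lit 18) (nat_lit 206)) (nd (nat_lit 250) (nat_lit 0) (cs (lf (nat_lit 11) (nat_lit 227)) (nd (nat_lit 275) (nat_lit 0) (cs (lf (nat_lit 42) (nat_lit 208)) (rf (nat_lit 0)))))))) q5294 (by decide +kernel)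
def q5363 : Q := Q.p (nat_lit 0x2000004000018000000000000000000000000000000000000000000000000000) (nat_lit 0x80000e0000180000a000000000060000180000600000000000000000000000000000000000) (nat_lit 6)
theorem c5363 : QOK q5363 := cut [q438, q442, q3818] ⟨c438, c442, c3818, trivial⟩ (nd (nat_lit 186) (nat_lit 0) (cs (rf (nat_lit 0)) (cs (rf (nat_lit 1)) (rf (nat_lit 2))))) q5363 (by decide +kernel)
def q5370 : Q := Q.p (nat_lit 0x3c000000000000000000000000000000000000000000000000000) (nat_lit 0x1c00000200001c000000000000000000000000000000000000000000000) (nat_lit 4)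
theorem c5370 : QOK q5370 := cut [q2934] ⟨c2934, trivial⟩ (nd (nat_lit 231) (nat_lit 0) (cs (lf (nat_lit 5) (nat_lit 206)) (rf (nat_lit 0)))) q5370 (by decide +kernel)
def q5374 : Q := Q.p (nat_lit 0x38000000000000000000000000000000000000000000000000000) (nat_lit 0x778000c4000780000000000000000000000000000000000000000000000) (nat_lit 5)
theorem c5374 : QOK q5374 := cut [q87, q139, q4286] ⟨c87, c139, c4286, trivial⟩ (nd (nat_lit 210) (nat_lit 0) (cs (rf (nat_lit 0)) (cs (rf (nat_lit 1)) (rf (nat_lit 2))))) q5374 (by decide +kernel)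
def q5403 : Q := Q.p (nat_lit 0x300001c000000000000000000000000000000000000000000000000000) (nat_lit 0x10000040000400000380001c000020000080000000000000000000000000000000000) (nat_lit 5)
theorem c5403 : QOK q5403 := cut [q5168, q5402] ⟨c5168, c5402, trivial⟩ (nd (nat_lit 205) (nat_lit 0) (cs (rf (nat_lit 0)) (rf (nat_lit 1)))) q5403 (by decide +kernel)
def q5406 : Q := Q.p (nat_lit 0x300001c000000000000000000000000000000000000000000000000000) (nat_lit 0x800000000060000198000040000100000000000000000000000000000000000) (nat_lit 5)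
theorem c5406 : QOK q5406 := cut [q5404] ⟨c5404, trivial⟩ (nd (nat_lit 209) (nat_lit 0) (cs (lf (nat_lit 6) (nat_lit 206)) (nd (nat_lit 187) (nat_lit 0) (cs (lf (nat_lit 17) (nat_lit 184)) (rf (nat_lit 0)))))) q5406 (by decide +kernel)
def q5419 : Q := Q.p (nat_lit 0x300000c000010000040000000000000000000000000000000000000000) (nat_lit 0x60000180000600000000000000020000080000200000000000000000000000000000000000) (nat_lit 5)
theorem c5419 : QOK q5419 := cut [q5418] ⟨c5418, trivial⟩ (nd (nat_lit 163) (nat_lit 0) (cs (lf (nat_lit 35) (nat_lit 140)) (rf (nat_lit 0)))) q5419 (by decide +kernel)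
def q5429 : Q := Q.p (nat_lit 0x800002000008000020000000000000000000000000000000000000000000000) (nat_lit 0x400001000004000000000040000180000400000000000000000000000000000000000) (nat_lit 4)
theorem c5429 : QOK q5429 := cut [q5428] ⟨c5428, trivial⟩ (nd (nat_lit 252) (nat_lit 0) (cs (lf (nat_lit 29) (nat_lit 185)) (rf (nat_lit 0)))) q5429 (by decide +kernel)
def q5441 : Q := Q.p (nat_lit 0x400003800004000010000000000000000000000000000000000000000000000000000) (nat_lit 0x200001800000600000000020000080000000000000000000000000000000000000000000000) (nat_lit 4)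
theorem c5441 : QOK q5441 := cut [q5305] ⟨c5305, trivial⟩ (nd (nat_lit 187) (nat_lit 0) (cs (lf (nat_lit 34) (nat_lit 186)) (rf (nat_lit 0)))) q5441 (by decide +kernel)
def q5460 : Q := Q.p (nat_lit 0x2000002000018000000000000000000000000000000000000000000000000000) (nat_lit 0x1c0000700001c00005c0006400003c0001c0000700001400000000000000000000000000000) (nat_lit 10)
theorem c5460 : QOK q5460 := cut [q5376, q5389, q5391, q5380, q5431, q1238, q1749, q1233] ⟨c5376, c5389, c5391, c5380, c5431, c1238, c1749, c1233, trivial⟩ (nd (nat_lit 228) (nat_lit 0) (cs (rf (nat_lit 0)) (cs (rf (nat_lit 1)) (cs (nd (nat_lit 227) (nat_lit 0) (cs (lf (nat_lit 12) (nat_lit 204)) (nd (nat_lit 252) (nat_lit 0) (cs (nd (nat_lit 250) (nat_lit 0) (cs (lf (nat_lit 20) (nat_lit 227)) (rf (nat_lit 2)))) (lf (nat_lit 3) (nat_lit 227)))))) (nd (nat_lit 185) (nat_lit 0) (cs (nd (nat_lit 163) (nat_lit 0) (cs (lf (nat_lit 41) (nat_lit 162)) (rf (nat_lit 3)))) (cs (nd (nat_lit 163) (nat_lit 0) (cs (lf (nat_lit 41) (nat_lit 162))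 (nd (nat_lit 142) (nat_lit 0) (cs (lf (nat_lit 34) (nat_lit 141)) (nd (nat_lit 141) (nat_lit 0) (cs (lf (nat_lit 35) (nat_lit 119)) (lf (nat_lit 40) (nat_lit 140)))))))) (cs (nd (nat_lit 251) (nat_lit 0) (cs (rf (nat_lit 4)) (cs (nd (nat_lit 274) (nat_lit 0) (cs (lf (nat_lit 28) (nat_lit 185)) (nd (nat_lit 273) (nat_lit 0) (cs (lf (nat_lit 29) (nat_lit 207)) (nd (nat_lit 295) (nat_lit 0) (cs (lf (nat_lit 34) (nat_lit 207)) (lf (nat_lit 47) (nat_lit 206)))))))) (nd (nat_lit 274) (nat_lit 0) (cs (lf (nat_lit 28) (nat_lit 185)) (nd (nat_lit 209) (nat_lit 0) (cs (lf (nat_lit 6) (nat_lit 206)) (nd (nat_lit 273) (nat_lit 0) (cs (lf (nat_lit 29) (nat_lit 207)) (rf (nat_lit 5))))))))))) (nd (nat_lit 163) (nat_lit 0) (cs (rf (nat_lit 6)) (cs (nd (nat_lit 141) (nat_lit 0) (cs (lf (nat_lit 29) (nat_lit 141)) (lf (nat_lit 40) (nat_lit 140)))) (nd (nat_lit 209) (nat_lit 0) (cs (lf (nat_lit 6) (nat_lit 206)) (nd (nat_lit 230) (nat_lit 0) (cs (lf (nat_lit 29) (nat_lit 163)) (nd (nat_lit 162) (nat_lit 0) (cs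 (lf (nat_lit 47) (nat_lit 140)) (nd (nat_lit 142) (nat_lit 0) (cs (rf (nat_lit 7)) (lf (nat_lit 34) (nat_lit 141))))))))))))))))))))) q5460 (by decide +kernel)
def q5461 : Q := Q.p (nat_lit 0x2800002000018000000000000000000000000000000000000000000000000000) (nat_lit 0x50000140000180006400003c0000c0000000000000000000000000000000000000000) (nat_lit 5)
theorem c5461 : QOK q5461 := cut [q3125, q5431] ⟨c3125, c5431, trivial⟩ (nd (nat_lit 185) (nat_lit 0) (cs (rf (nat_lit 0)) (rf (nat_lit 1)))) q5461 (by decide +kernel)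
def q5470 : Q := Q.p (nat_lit 0x700002000000000000000000000000000000000000000000000000000000000000000) (nat_lit 0x380000c0001380000000000000000000000000000000000000000000000000000000000000) (nat_lit 5)
theorem c5470 : QOK q5470 := cut [q5468] ⟨c5468, trivial⟩ (nd (nat_lit 271) (nat_lit 0) (cs (rf (nat_lit 0)) (lf (nat_lit 16) (nat_lit 249)))) q5470 (by decide +kernel)
def q5479 : Q := Q.p (nat_lit 0x3800002000018000000000000000000000000000000000000000000000000000) (nat_lit 0x40001980000400005800000000060000100000400000000000000000000000000000000000) (nat_lit 5)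
theorem c5479 : QOK q5479 := cut [q3782, q1827] ⟨c3782, c1827, trivial⟩ (nd (nat_lit 250) (nat_lit 0) (cs (rf (nat_lit 0)) (nd (nat_lit 275) (nat_lit 0) (cs (lf (nat_lit 5) (nat_lit 250)) (nd (nat_lit 186) (nat_lit 0) (cs (lf (nat_lit 26) (nat_lit 186)) (rf (nat_lit 1)))))))) q5479 (by decide +kernel)
def q5498 : Q := Q.p (nat_lit 0x800002000018000000000000000000000000000000000000000000000000000) (nat_lit 0x140000700001400000000000000060000000000000000000000000000000000000000000000) (nat_lit 5)
theorem c5498 : QOK q5498 := cut [q1845] ⟨c1845, trivial⟩ (nd (nat_lit 273) (nat_lit 0) (cs (lf (nat_lit 35) (nat_lit 185)) (rf (nat_lit 0)))) q5498 (by decide +kernel)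
def q5508 : Q := Q.p (nat_lit 0x180000600000c0000000000000000000000000000000000000000) (nat_lit 0x1000006000180000000000200000800000000000000000000000000000) (nat_lit 4)
theorem c5508 : QOK q5508 := cut [q5507] ⟨c5507, trivial⟩ (nd (nat_lit 187) (nat_lit 0) (cs (lf (nat_lit 18) (nat_lit 162)) (rf (nat_lit 0)))) q5508 (by decide +kernel)
def q5513 : Q := Q.p (nat_lit 0x3800006000018000060000000000000000000000000000000000000000000000) (nat_lit 0x180002000001c000040000000000000000000000000000000000000000) (nat_lit 4)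
theorem c5513 : QOK q5513 := cut [q3176] ⟨c3176, trivial⟩ (nd (nat_lit 227) (nat_lit 0) (cs (lf (nat_lit 1) (nat_lit 227)) (rf (nat_lit 0)))) q5513 (by decide +kernel)
def q5518 : Q := Q.p (nat_lit 0x2000002000018000060000000000000000000000000000000000000000000000) (nat_lit 0xe00001800004000000000000000080000000000000000000000000000000000000000) (nat_lit 4)
theorem c5518 : QOK q5518 := cut [q5517] ⟨c5517, trivial⟩ (nd (nat_lit 251) (nat_lit 0) (cs (lf (nat_lit 30) (nat_lit 185)) (rf (nat_lit 0)))) q5518 (by decide +kernel)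
def q5552 : Q := Q.p (nat_lit 0x180000600001e0000000000000000000000000000000000000000) (nat_lit 0x80002300001c0000000001c0000400000000000000000000000000000) (nat_lit 6)
theorem c5552 : QOK q5552 := cut [q5551] ⟨c5551, trivial⟩ (nd (nat_lit 138) (nat_lit 0) (cs (lf (nat_lit 22) (nat_lit 138)) (rf (nat_lit 0)))) q5552 (by decide +kernel)
def q5648 : Q := Q.p (nat_lit 0xc0000d0000040000000000000000000000000000000000000000) (nat_lit 0x20000038000780000e00002800000000000000000000000) (nat_lit 6)
theorem c5648 : QOK q5648 := cut [q804, q863, q2497, q2493] ⟨c804, c863, c2497, c2493, trivial⟩ (nd (nat_lit 140) (nat_lit 0) (cs (rf (nat_lit 0)) (cs (rf (nat_lit 1)) (cs (rf (nat_lit 2)) (nd (nat_lit 141) (nat_lit 0) (cs (lf (nat_lit 35) (nat_lit 118)) (rf (nat_lit 3)))))))) q5648 (by decide +kernel)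
def q5653 : Q := Q.p (nat_lit 0x7c000040000000000000000000000000000000000000000000000) (nat_lit 0x70000180000180000000000000000000000000000000000000000000000) (nat_lit 4)
theorem c5653 : QOK q5653 := cut [q3908] ⟨c3908, trivial⟩ (nd (nat_lit 187) (nat_lit 0) (cs (lf (nat_lit 17) (nat_lit 184)) (rf (nat_lit 0)))) q5653 (by decide +kernel)
def q5675 : Q := Q.p (nat_lit 0x40000100000400001c0000000000000000000000000000000000000000) (nat_lit 0x80000200000000001c0002200009c0000000000000000000000000000000000) (nat_lit 6)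
theorem c5675 : QOK q5675 := cut [q5673] ⟨c5673, trivial⟩ (nd (nat_lit 165) (nat_lit 0) (cs (lf (nat_lit 35) (nat_lit 142)) (nd (nat_lit 229) (nat_lit 0) (cs (lf (nat_lit 41) (nat_lit 163)) (rf (nat_lit 0)))))) q5675 (by decide +kernel)
def q5683 : Q := Q.p (nat_lit 0x70000040000000000000000000000000000000000000000000000) (nat_lit 0xe0000180000e20000000000000000000000000000000000000000000000) (nat_lit 5)
theorem c5683 : QOK q5683 := cut [q694] ⟨c694, trivial⟩ (nd (nat_lit 211) (nat_lit 0) (cs (lf (nat_lit 23) (nat_lit 185)) (rf (nat_lit 0)))) q5683 (by decide +kernel)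
def q5695 : Q := Q.p (nat_lit 0x800002800002000078000000000000000000000000000000000000000000000000000) (nat_lit 0x1500001400030000000000030000000000000000000000000000000000000000000000) (nat_lit 5)
theorem c5695 : QOK q5695 := cut [q2399] ⟨c2399, trivial⟩ (nd (nat_lit 185) (nat_lit 0) (cs (lf (nat_lit 23) (nat_lit 184)) (nd (nat_lit 232) (nat_lit 0) (cs (lf (nat_lit 5) (nat_lit 207)) (rf (nat_lit 0)))))) q5695 (by decide +kernel)
def q5714 : Q := Q.p (nat_lit 0x200000e00000000000000000000000000000000000) (nat_lit 0x470000180000700000000000000000000000000000) (nat_lit 5)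
theorem c5714 : QOK q5714 := cut [q5713] ⟨c5713, trivial⟩ (nd (nat_lit 140) (nat_lit 0) (cs (lf (nat_lit 5) (nat_lit 140)) (rf (nat_lit 0)))) q5714 (by decide +kernel)
def q5728 : Q := Q.p (nat_lit 0x3c000000000000001e00000000000000000000000000000000000) (nat_lit 0x1800000000000001c00002000001c00000000000000000000000000000) (nat_lit 5)
theorem c5728 : QOK q5728 := cut [q5725] ⟨c5725, trivial⟩ (nd (nat_lit 167) (nat_lit 0) (cs (nd (nat_lit 227) (nat_lit 0) (cs (lf (nat_lit 10) (nat_lit 205)) (rf (nat_lit 0)))) (lf (nat_lit 4) (nat_lit 141)))) q5728 (by decide +kernel)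
def q5835 : Q := Q.p (nat_lit 0x18000060000180000000000000000000000000000000000000000) (nat_lit 0x260003c00003000000000000000000000000000000) (nat_lit 5)
theorem c5835 : QOK q5835 := cut [q1650] ⟨c1650, trivial⟩ (nd (nat_lit 142) (nat_lit 0) (cs (rf (nat_lit 0)) (lf (nat_lit 36) (nat_lit 119)))) q5835 (by decide +kernel)
def q5842 : Q := Q.p (nat_lit 0x38000060000180000000000000000000000000000000000000000) (nat_lit 0x300000c0000000000040003f00003c00000000000000000000000000000) (nat_lit 8)
theorem c5842 : QOK q5842 := cut [q1927] ⟨c1927, trivial⟩ (nd (nat_lit 142) (nat_lit 0) (cs (lf (nat_lit 36) (nat_lit 119)) (nd (nat_lit 141) (nat_lit 0) (cs (lf (nat_lit 24) (nat_lit 119)) (nd (nat_lit 118) (nat_lit 0) (cs (lf (nat_lit 46) (nat_lit 118)) (nd (nat_lit 210) (nat_lit 0) (cs (lf (nat_lit 18) (nat_lit 185)) (nd (nat_lit 232) (nat_lit 0) (cs (lf (nat_lit 5) (nat_lit 207)) (rf (nat_lit 0)))))))))))) q5842 (by decide +kernel)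
def q5856 : Q := Q.p (nat_lit 0x4000070000040000000000000000000000000000000000000000) (nat_lit 0x1000000000080000038000180000200000800000000000000000000000) (nat_lit 5)
theorem c5856 : QOK q5856 := cut [q5854] ⟨c5854, trivial⟩ (nd (nat_lit 161) (nat_lit 0) (cs (lf (nat_lit 18) (nat_lit 161)) (nd (nat_lit 159) (nat_lit 0) (cs (lf (nat_lit 1) (nat_lit 159)) (rf (nat_lit 0)))))) q5856 (by decide +kernel)
def q5875 : Q := Q.p (nat_lit 0x10000070000040000100000000000000000000000000000000000) (nat_lit 0x4000000000080000200000e0000380000a000000000000000000) (nat_lit 5)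
theorem c5875 : QOK q5875 := cut [q5865, q5869, q5874] ⟨c5865, c5869, c5874, trivial⟩ (nd (nat_lit 119) (nat_lit 0) (cs (rf (nat_lit 0)) (cs (nd (nat_lit 118) (nat_lit 0) (cs (lf (nat_lit 35) (nat_lit 96)) (rf (nat_lit 1)))) (rf (nat_lit 2))))) q5875 (by decide +kernel)
def q5879 : Q := Q.p (nat_lit 0x30000040000100000000000000000000000000000000000) (nat_lit 0x8000000000000000000000e0000380000a000000000000000000) (nat_lit 5)
theorem c5879 : QOK q5879 := cut [q5878] ⟨c5878, trivial⟩ (nd (nat_lit 118) (nat_lit 0) (cs (lf (nat_lit 29) (nat_lit 118)) (rf (nat_lit 0)))) q5879 (by decide +kernel)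
def q5882 : Q := Q.p (nat_lit 0x2800001000004000010000000000000000000000000000000000000000000000) (nat_lit 0x20000380001600000000000000000000000000000000000000000000000000000000000000) (nat_lit 4)
theorem c5882 : QOK q5882 := cut [q5881] ⟨c5881, trivial⟩ (nd (nat_lit 250) (nat_lit 0) (cs (lf (nat_lit 29) (nat_lit 184)) (rf (nat_lit 0)))) q5882 (by decide +kernel)
def q5888 : Q := Q.p (nat_lit 0x30000040000100000000000000000000000000000000000) (nat_lit 0x8000000000080000000000600001800002000000000000000000) (nat_lit 4)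
theorem c5888 : QOK q5888 := cut [q5869] ⟨c5869, trivial⟩ (nd (nat_lit 118) (nat_lit 0) (cs (lf (nat_lit 29) (nat_lit 118)) (rf (nat_lit 0)))) q5888 (by decide +kernel)
def q5947 : Q := Q.p (nat_lit 0x3800006000008000020000000000000000000000000000000000000000000000) (nat_lit 0x100000700001c00000000000000000000000000000000000000000000000000000000) (nat_lit 4)
theorem c5947 : QOK q5947 := cut [q1082] ⟨c1082, trivial⟩ (nd (nat_lit 227) (nat_lit 0) (cs (rf (nat_lit 0)) (lf (nat_lit 1) (nat_lit 227)))) q5947 (by decide +kernel)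
def q6045 : Q := Q.p (nat_lit 0x70000040000000000000000000000000000000000000000000000) (nat_lit 0x180000ea0000000000000000000000000000000000000000000000) (nat_lit 4)
theorem c6045 : QOK q6045 := cut [q6044] ⟨c6044, trivial⟩ (nd (nat_lit 211) (nat_lit 0) (cs (lf (nat_lit 23) (nat_lit 185)) (rf (nat_lit 0)))) q6045 (by decide +kernel)
def q6125 : Q := Q.p (nat_lit 0x40000780000000000000000000000000000000000000000) (nat_lit 0xe80001800007000000000000000000000000000000000000) (nat_lit 5)
theorem c6125 : QOK q6125 := cut [q3049] ⟨c3049, trivial⟩ (nd (nat_lit 145) (nat_lit 0) (cs (lf (nat_lit 16) (nat_lit 141)) (nd (nat_lit 167) (nat_lit 0) (cs (lf (nat_lit 17) (nat_lit 142)) (rf (nat_lit 0)))))) q6125 (by decide +kernel)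
def q6176 : Q := Q.p (nat_lit 0x2000000000010000060000180000000000000000000000000000000000000000) (nat_lit 0xc000000000010000e00000800000000000000000000000000000000000) (nat_lit 4)
theorem c6176 : QOK q6176 := cut [q6175] ⟨c6175, trivial⟩ (nd (nat_lit 230) (nat_lit 0) (cs (lf (nat_lit 28) (nat_lit 164)) (rf (nat_lit 0)))) q6176 (by decide +kernel)
def q6181 : Q := Q.p (nat_lit 0x2000008000020000080000000000000000000000000000000000000000) (nat_lit 0x800000000000000018000740000500000000000000000000000000000000000) (nat_lit 5)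
theorem c6181 : QOK q6181 := cut [q6180] ⟨c6180, trivial⟩ (nd (nat_lit 164) (nat_lit 0) (cs (lf (nat_lit 35) (nat_lit 141)) (rf (nat_lit 0)))) q6181 (by decide +kernel)
def q6201 : Q := Q.p (nat_lit 0x8000020000080000000000000000000000000000000000000000) (nat_lit 0x100000c00003000000000010000170001f00001c00007000018000040000000000000) (nat_lit 9)
theorem c6201 : QOK q6201 := cut [q1638, q6185, q6188, q3871, q1934] ⟨c1638, c6185, c6188, c3871, c1934, trivial⟩ (nd (nat_lit 142) (nat_lit 0) (cs (rf (nat_lit 0)) (cs (nd (nat_lit 229) (nat_lit 0) (cs (lf (nat_lit 34) (nat_lit 141)) (rf (nat_lit 1)))) (cs (nd (nat_lit 141) (nat_lit 0) (cs (lf (nat_lit 35) (nat_lit 119)) (rf (nat_lit 2)))) (nd (nat_lit 141) (nat_lit 0) (cs (lf (nat_lit 35) (nat_lit 119)) (nd (nat_lit 162) (nat_lit 0) (cs (rf (nat_lit 3)) (cs (nd (nat_lit 118) (nat_lit 0) (cs (lf (nat_lit 46) (nat_lit 118)) (nd (nat_lit 119) (nat_lit 0) (cs (lf (nat_lit 47) (nat_lit 96)) (nd (nat_lit 97) (nat_lit 0) (cs (nd (nat_lit 76) (nat_lit 0)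 (cs (nd (nat_lit 75) (nat_lit 0) (cs (lf (nat_lit 35) (nat_lit 53)) (lf (nat_lit 29) (nat_lit 75)))) (lf (nat_lit 34) (nat_lit 75)))) (lf (nat_lit 41) (nat_lit 96)))))))) (nd (nat_lit 140) (nat_lit 0) (cs (lf (nat_lit 47) (nat_lit 118)) (rf (nat_lit 4))))))))))))) q6201 (by decide +kernel)
def q6264 : Q := Q.p (nat_lit 0x3c00000000000000000000000000000000000000000000000000000000000000) (nat_lit 0x20001dc00000000000000000000000000000000000000000000000000000000) (nat_lit 4)
theorem c6264 : QOK q6264 := cut [q6263] ⟨c6263, trivial⟩ (nd (nat_lit 227) (nat_lit 0) (cs (lf (nat_lit 22) (nat_lit 227)) (rf (nat_lit 0)))) q6264 (by decide +kernel)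
def q6304 : Q := Q.p (nat_lit 0x200000e0000000000000000000000000000000000000000) (nat_lit 0x50000018000070000000000000000000000000000000000) (nat_lit 4)
theorem c6304 : QOK q6304 := cut [q6303] ⟨c6303, trivial⟩ (nd (nat_lit 160) (nat_lit 0) (cs (lf (nat_lit 5) (nat_lit 160)) (rf (nat_lit 0)))) q6304 (by decide +kernel)
def q6336 : Q := Q.p (nat_lit 0x180000200000e0000000000000000000000000000000000000000) (nat_lit 0x1e0001180000f0000000000000000000000000000000000) (nat_lit 5)
theorem c6336 : QOK q6336 := cut [q6303, q6296] ⟨c6303, c6296, trivial⟩ (nd (nat_lit 182) (nat_lit 0) (cs (nd (nat_lit 183) (nat_lit 0) (cs (lf (nat_lit 2) (nat_lit 182)) (lf (nat_lit 6) (nat_lit 160)))) (cs (nd (nat_lit 160) (nat_lit 0) (cs (lf (nat_lit 11) (nat_lit 159)) (rf (nat_lit 0)))) (nd (nat_lit 164) (nat_lit 0) (cs (lf (nat_lit 10) (nat_lit 160)) (nd (nat_lit 138) (nat_lit 0) (cs (lf (nat_lit 22) (nat_lit 138)) (rf (nat_lit 1))))))))) q6336 (by decide +kernel)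
def q6339 : Q := Q.p (nat_lit 0x200000e0000000000000000000000000000000000000000) (nat_lit 0x47000018000070000000000000000000000000000000000) (nat_lit 5)
theorem c6339 : QOK q6339 := cut [q6338] ⟨c6338, trivial⟩ (nd (nat_lit 160) (nat_lit 0) (cs (lf (nat_lit 5) (nat_lit 160)) (rf (nat_lit 0)))) q6339 (by decide +kernel)
def q6495 : Q := Q.p (nat_lit 0x18000020000080000000000000000000000000000000000000000) (nat_lit 0x4000037c000fe0007fc0005000000000000000000000000) (nat_lit 10)
theorem c6495 : QOK q6495 := cut [q1613, q1620, q1639, q6479, q6489] ⟨c1613, c1620, c1639, c6479, c6489, trivial⟩ (nd (nat_lit 141) (nat_lit 0) (cs (rf (nat_lit 0)) (cs (rf (nat_lit 1)) (cs (rf (nat_lit 2)) (nd (nat_lit 140) (nat_lit 0) (cs (lf (nat_lit 47) (nat_lit 118)) (nd (nat_lit 139) (nat_lit 0) (cs (nd (nat_lit 138) (nat_lit 0) (cs (nd (nat_lit 159) (nat_lit 0) (cs (nd (nat_lit 137) (nat_lit 0) (cs (lf (nat_lit 4) (nat_lit 137)) (lf (nat_lit 11) (nat_lit 136)))) (lf (nat_lit 10) (nat_lit 137)))) (lf (nat_lit 5) (nat_lit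 138)))) (cs (nd (nat_lit 142) (nat_lit 0) (cs (lf (nat_lit 35) (nat_lit 119)) (rf (nat_lit 3)))) (cs (nd (nat_lit 142) (nat_lit 0) (cs (lf (nat_lit 35) (nat_lit 119)) (nd (nat_lit 164) (nat_lit 0) (cs (lf (nat_lit 5) (nat_lit 139)) (nd (nat_lit 116) (nat_lit 0) (cs (lf (nat_lit 22) (nat_lit 116)) (nd (nat_lit 161) (nat_lit 0) (cs (lf (nat_lit 11) (nat_lit 138)) (nd (nat_lit 143) (nat_lit 0) (cs (lf (nat_lit 10) (nat_lit 139)) (nd (nat_lit 121) (nat_lit 0) (cs (lf (nat_lit 17) (nat_lit 118)) (lf (nat_lit 31) (nat_lit 120)))))))))))))) (nd (nat_lit 120) (nat_lit 0) (cs (lf (nat_lit 34) (nat_lit 119)) (nd (nat_lit 138) (nat_lit 0) (cs (lf (nat_lit 5) (nat_lit 138)) (nd (nat_lit 137) (nat_lit 0) (cs (lf (nat_lit 4) (nat_lit 137)) (rf (nat_lit 4)))))))))))))))))) q6495 (by decide +kernel)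
def q6498 : Q := Q.p (nat_lit 0x2000002000018000020000080000000000000000000000000000000000000000) (nat_lit 0x80000080000c0000200000c0000100000400000000000000000000000000000000000) (nat_lit 5)
theorem c6498 : QOK q6498 := cut [q3194] ⟨c3194, trivial⟩ (nd (nat_lit 164) (nat_lit 0) (cs (lf (nat_lit 35) (nat_lit 141)) (nd (nat_lit 186) (nat_lit 0) (cs (lf (nat_lit 30) (nat_lit 163)) (rf (nat_lit 0)))))) q6498 (by decide +kernel)
def q6509 : Q := Q.p (nat_lit 0x18000020000080000000000000000000000000000000000000000) (nat_lit 0x100001c00007c000200000dc000070000100000000000000000000000000000000000) (nat_lit 8)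
theorem c6509 : QOK q6509 := cut [q6173, q6185, q3130] ⟨c6173, c6185, c3130, trivial⟩ (nd (nat_lit 229) (nat_lit 0) (cs (rf (nat_lit 0)) (cs (rf (nat_lit 1)) (nd (nat_lit 162) (nat_lit 0) (cs (lf (nat_lit 47) (nat_lit 140)) (nd (nat_lit 230) (nat_lit 0) (cs (lf (nat_lit 29) (nat_lit 163)) (nd (nat_lit 184) (nat_lit 0) (cs (lf (nat_lit 42) (nat_lit 162)) (nd (nat_lit 183) (nat_lit 0) (cs (lf (nat_lit 0) (nat_lit 182)) (nd (nat_lit 186) (nat_lit 0) (cs (rf (nat_lit 2)) (lf (nat_lit 5) (nat_lit 183))))))))))))))) q6509 (by decide +kernel)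
def q6556 : Q := Q.p (nat_lit 0x6000018000020000080000000000000000000000000000000000000000) (nat_lit 0x400001c00020000000000040000100000000000000000000000000000000000) (nat_lit 4)
theorem c6556 : QOK q6556 := cut [q4266] ⟨c4266, trivial⟩ (nd (nat_lit 140) (nat_lit 0) (cs (lf (nat_lit 46) (nat_lit 140)) (rf (nat_lit 0)))) q6556 (by decide +kernel)
def q6562 : Q := Q.p (nat_lit 0x2000004000018000020000000000000000000000000000000000000000000000) (nat_lit 0xe0000180000a000000000040000100000000000000000000000000000000000000000) (nat_lit 5)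
theorem c6562 : QOK q6562 := cut [q6561] ⟨c6561, trivial⟩ (nd (nat_lit 252) (nat_lit 0) (cs (lf (nat_lit 42) (nat_lit 185)) (rf (nat_lit 0)))) q6562 (by decide +kernel)
def q6592 : Q := Q.p (nat_lit 0x2400001800004000000000000000000000000000000000000000000000000000) (nat_lit 0x280001a00000000000000010000040000000000000000000000000000000000000000) (nat_lit 4)
theorem c6592 : QOK q6592 := cut [q6591] ⟨c6591, trivial⟩ (nd (nat_lit 251) (nat_lit 0) (cs (lf (nat_lit 19) (nat_lit 227)) (rf (nat_lit 0)))) q6592 (by decide +kernel)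
def q6601 : Q := Q.p (nat_lit 0x1c000000000000000000000000000000000000000000000000000) (nat_lit 0x1ee0002300001e000000000000000000000000000000000000000000000) (nat_lit 6)
theorem c6601 : QOK q6601 := cut [q666, q671, q3211, q6598] ⟨c666, c671, c3211, c6598, trivial⟩ (nd (nat_lit 205) (nat_lit 0) (cs (rf (nat_lit 0)) (cs (rf (nat_lit 1)) (cs (rf (nat_lit 2)) (nd (nat_lit 231) (nat_lit 0) (cs (lf (nat_lit 4) (nat_lit 205)) (nd (nat_lit 226) (nat_lit 0) (cs (lf (nat_lit 10) (nat_lit 204)) (rf (nat_lit 3)))))))))) q6601 (by decide +kernel)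
def q6619 : Q := Q.p (nat_lit 0x2400001000004000010000000000000000000000000000000000000000000000) (nat_lit 0x20000380001a00000000000000000000000000000000000000000000000000000000000000) (nat_lit 4)
theorem c6619 : QOK q6619 := cut [q5881] ⟨c5881, trivial⟩ (nd (nat_lit 251) (nat_lit 0) (cs (lf (nat_lit 29) (nat_lit 184)) (rf (nat_lit 0)))) q6619 (by decide +kernel)
def q6634 : Q := Q.p (nat_lit 0x1c000010000040000100000000000000000000000000000000000) (nat_lit 0x50000000000200000a0001e80001a00000000000000000000000000000) (nat_lit 7)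
theorem c6634 : QOK q6634 := cut [q1935] ⟨c1935, trivial⟩ (nd (nat_lit 117) (nat_lit 0) (cs (lf (nat_lit 46) (nat_lit 117)) (nd (nat_lit 141) (nat_lit 0) (cs (lf (nat_lit 35) (nat_lit 118)) (nd (nat_lit 163) (nat_lit 0) (cs (lf (nat_lit 30) (nat_lit 140)) (nd (nat_lit 185) (nat_lit 0) (cs (lf (nat_lit 29) (nat_lit 141)) (rf (nat_lit 0)))))))))) q6634 (by decide +kernel)
def q6664 : Q := Q.p (nat_lit 0x200000000001c000000000000000000000000000000000000000000000000000) (nat_lit 0x3e0000f80001f0000fe0002300002e000000000000000000000000000000000000000000000) (nat_lit 14)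
theorem c6664 : QOK q6664 := cut [q666, q671, q3211, q5226] ⟨c666, c671, c3211, c5226, trivial⟩ (nd (nat_lit 205) (nat_lit 0) (cs (rf (nat_lit 0)) (cs (rf (nat_lit 1)) (cs (rf (nat_lit 2)) (nd (nat_lit 182) (nat_lit 0) (cs (lf (nat_lit 22) (nat_lit 182)) (nd (nat_lit 230) (nat_lit 0) (cs (lf (nat_lit 5) (nat_lit 205)) (nd (nat_lit 227) (nat_lit 0) (cs (lf (nat_lit 11) (nat_lit 204)) (nd (nat_lit 228) (nat_lit 0) (cs (lf (nat_lit 6) (nat_lit 205)) (nd (nat_lit 229) (nat_lit 0) (cs (lf (nat_lit 4) (nat_lit 227)) (rf (nat_lit 3)))))))))))))))) q6664 (by decide +kernel)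
def q6673 : Q := Q.p (nat_lit 0x300000400001c000000000000000000000000000000000000000000000000000) (nat_lit 0x2e0001f80000e000018000200000b0000000000000000000000000000000000000000000000) (nat_lit 10)
theorem c6673 : QOK q6673 := cut [q6671] ⟨c6671, trivial⟩ (nd (nat_lit 274) (nat_lit 0) (cs (lf (nat_lit 47) (nat_lit 185)) (nd (nat_lit 187) (nat_lit 0) (cs (lf (nat_lit 34) (nat_lit 186)) (rf (nat_lit 0)))))) q6673 (by decide +kernel)
def q6698 : Q := Q.p (nat_lit 0x200000880003e000008000000000000000000000000000000000000000000000) (nat_lit 0x100000750001fc0001700000000000000180000000000000000000000000000000000000000000000) (nat_lit 10)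
theorem c6698 : QOK q6698 := cut [q6688] ⟨c6688, trivial⟩ (nd (nat_lit 187) (nat_lit 0) (cs (lf (nat_lit 17) (nat_lit 184)) (nd (nat_lit 274) (nat_lit 0) (cs (lf (nat_lit 40) (nat_lit 186)) (rf (nat_lit 0)))))) q6698 (by decide +kernel)
def q6705 : Q := Q.p (nat_lit 0x2000008000030000000000000000000000000000000000000000000000000000) (nat_lit 0x140000700001c00000000000000000000040000000000000000000000000000000000000000000000) (nat_lit 5)
theorem c6705 : QOK q6705 := cut [q3443] ⟨c3443, trivial⟩ (nd (nat_lit 275) (nat_lit 0) (cs (lf (nat_lit 47) (nat_lit 186)) (rf (nat_lit 0)))) q6705 (by decide +kernel)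
def q6771 : Q := Q.p (nat_lit 0x400000e0000000000000000000000000000000000000000) (nat_lit 0x27000018000070000000000000000000000000000000000) (nat_lit 5)
theorem c6771 : QOK q6771 := cut [q6338] ⟨c6338, trivial⟩ (nd (nat_lit 160) (nat_lit 0) (cs (lf (nat_lit 4) (nat_lit 160)) (rf (nat_lit 0)))) q6771 (by decide +kernel)
def q6817 : Q := Q.p (nat_lit 0x1c000040000000000000000000000000000000000000000000000) (nat_lit 0xe0000300008e000000000000000000000000000000000000000000000) (nat_lit 5)
theorem c6817 : QOK q6817 := cut [q3211] ⟨c3211, trivial⟩ (nd (nat_lit 205) (nat_lit 0) (cs (lf (nat_lit 17) (nat_lit 183)) (rf (nat_lit 0)))) q6817 (by decide +kernel)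
def q6854 : Q := Q.p (nat_lit 0x10000040000100000400000000000000000000000000000000000) (nat_lit 0x2000008000020000080000380000e000008000000000000000000) (nat_lit 6)
theorem c6854 : QOK q6854 := cut [q2829] ⟨c2829, trivial⟩ (nd (nat_lit 121) (nat_lit 0) (cs (lf (nat_lit 34) (nat_lit 120)) (nd (nat_lit 120) (nat_lit 0) (cs (lf (nat_lit 35) (nat_lit 98)) (rf (nat_lit 0)))))) q6854 (by decide +kernel)
def q6873 : Q := Q.p (nat_lit 0x300000180000c000000000000000000000000000000000000000000000000000) (nat_lit 0x100000c00000000000000030000080000200000000000000000000000000000000000) (nat_lit 4)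
theorem c6873 : QOK q6873 := cut [q3392] ⟨c3392, trivial⟩ (nd (nat_lit 250) (nat_lit 0) (cs (rf (nat_lit 0)) (lf (nat_lit 20) (nat_lit 227)))) q6873 (by decide +kernel)
def q6887 : Q := Q.p (nat_lit 0x3000004000018000000000000000000000000000000000000000000000000000) (nat_lit 0x1800007800000000180000260000a0000000000000000000000000000000000000000000000) (nat_lit 7)
theorem c6887 : QOK q6887 := cut [q6884] ⟨c6884, trivial⟩ (nd (nat_lit 274) (nat_lit 0) (cs (lf (nat_lit 47) (nat_lit 185)) (nd (nat_lit 273) (nat_lit 0) (cs (lf (nat_lit 41) (nat_lit 207)) (nd (nat_lit 271) (nat_lit 0) (cs (lf (nat_lit 13) (nat_lit 249)) (rf (nat_lit 0)))))))) q6887 (by decide +kernel)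
def q6894 : Q := Q.p (nat_lit 0x4000018000040000100000000000000000000000000000000000000000) (nat_lit 0x20000200000e00003800002000000000000000000000000) (nat_lit 5)
theorem c6894 : QOK q6894 := cut [q618] ⟨c618, trivial⟩ (nd (nat_lit 143) (nat_lit 0) (cs (lf (nat_lit 34) (nat_lit 142)) (nd (nat_lit 142) (nat_lit 0) (cs (lf (nat_lit 35) (nat_lit 120)) (rf (nat_lit 0)))))) q6894 (by decide +kernel)
def q6906 : Q := Q.p (nat_lit 0x1000004000018000040000000000000000000000000000000000000000000000) (nat_lit 0x26000380000200000000000000000000000000000000000000000) (nat_lit 4)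
theorem c6906 : QOK q6906 := cut [q6859] ⟨c6859, trivial⟩ (nd (nat_lit 187) (nat_lit 0) (cs (lf (nat_lit 35) (nat_lit 164)) (rf (nat_lit 0)))) q6906 (by decide +kernel)
def q6913 : Q := Q.p (nat_lit 0x4000018000040000000000000000000000000000000000000000000000) (nat_lit 0x10000000000260003a0000200000800002000000000000000000000000000000) (nat_lit 4)
theorem c6913 : QOK q6913 := cut [q579, q6912] ⟨c579, c6912, trivial⟩ (nd (nat_lit 187) (nat_lit 0) (cs (rf (nat_lit 0)) (rf (nat_lit 1)))) q6913 (by decide +kernel)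
def q6993 : Q := Q.p (nat_lit 0x380000e0000000000000000000000000000000000000000000000) (nat_lit 0x800002000004000018000660000900002400000000000000000000000000000) (nat_lit 7)
theorem c6993 : QOK q6993 := cut [q6989] ⟨c6989, trivial⟩ (nd (nat_lit 184) (nat_lit 0) (cs (lf (nat_lit 0) (nat_lit 183)) (nd (nat_lit 165) (nat_lit 0) (cs (lf (nat_lit 17) (nat_lit 162)) (nd (nat_lit 121) (nat_lit 0) (cs (lf (nat_lit 37) (nat_lit 120)) (nd (nat_lit 162) (nat_lit 0) (cs (lf (nat_lit 23) (nat_lit 161)) (rf (nat_lit 0)))))))))) q6993 (by decide +kernel)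
def q7088 : Q := Q.p (nat_lit 0x1000004000018000060000000000000000000000000000000000000000000000) (nat_lit 0x200000800000000006000180000200000000000000000000000000000000000000000) (nat_lit 4)
theorem c7088 : QOK q7088 := cut [q7087] ⟨c7087, trivial⟩ (nd (nat_lit 251) (nat_lit 0) (cs (lf (nat_lit 41) (nat_lit 185)) (rf (nat_lit 0)))) q7088 (by decide +kernel)
def q7110 : Q := Q.p (nat_lit 0x18000030000000000000000000000000000000000000000000000) (nat_lit 0x200002300004c000300000400001000000000000000000000000000000) (nat_lit 6)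
theorem c7110 : QOK q7110 := cut [q3499] ⟨c3499, trivial⟩ (nd (nat_lit 183) (nat_lit 0) (cs (lf (nat_lit 0) (nat_lit 182)) (nd (nat_lit 186) (nat_lit 0) (cs (lf (nat_lit 5) (nat_lit 183)) (nd (nat_lit 204) (nat_lit 0) (cs (rf (nat_lit 0)) (lf (nat_lit 10) (nat_lit 182)))))))) q7110 (by decide +kernel)
def q7129 : Q := Q.p (nat_lit 0x1c000030000080000000000000000000000000000000000000000) (nat_lit 0x400001e00022000000000000000000000000000000000000000000000000000) (nat_lit 4)
theorem c7129 : QOK q7129 := cut [q4164] ⟨c4164, trivial⟩ (nd (nat_lit 228) (nat_lit 0) (cs (lf (nat_lit 30) (nat_lit 162)) (rf (nat_lit 0)))) q7129 (by decide +kernel)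
def q7195 : Q := Q.p (nat_lit 0x100000f0000000000000000000000000000000000000000000000) (nat_lit 0x1000004000000000000000700000800002000000000000000000000000000000) (nat_lit 4)
theorem c7195 : QOK q7195 := cut [q7194] ⟨c7194, trivial⟩ (nd (nat_lit 165) (nat_lit 0) (cs (lf (nat_lit 17) (nat_lit 162)) (rf (nat_lit 0)))) q7195 (by decide +kernel)
def q7252 : Q := Q.p (nat_lit 0x18000020000080000000000000000000000000000000000000000) (nat_lit 0x400003000004000040000100000700001c00005000000000000000000000000) (nat_lit 6)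
theorem c7252 : QOK q7252 := cut [q1613, q1639] ⟨c1613, c1639, trivial⟩ (nd (nat_lit 141) (nat_lit 0) (cs (rf (nat_lit 0)) (cs (rf (nat_lit 1)) (nd (nat_lit 118) (nat_lit 0) (cs (lf (nat_lit 46) (nat_lit 118)) (nd (nat_lit 228) (nat_lit 0) (cs (lf (nat_lit 40) (nat_lit 140)) (nd (nat_lit 142) (nat_lit 0) (cs (lf (nat_lit 35) (nat_lit 119)) (nd (nat_lit 229) (nat_lit 0) (cs (lf (nat_lit 41) (nat_lit 162)) (lf (nat_lit 34) (nat_lit 141))))))))))))) q7252 (by decide +kernel)
def q7340 : Q := Q.p (nat_lit 0x4000018000040000200000000000000000000000000000000000000000) (nat_lit 0x10000000000060003a0000000000000000000000000000000000000000000000) (nat_lit 4)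
theorem c7340 : QOK q7340 := cut [q7339] ⟨c7339, trivial⟩ (nd (nat_lit 187) (nat_lit 0) (cs (lf (nat_lit 30) (nat_lit 164)) (rf (nat_lit 0)))) q7340 (by decide +kernel)
def q7421 : Q := Q.p (nat_lit 0x2000000000070000000000000000000000000000000000000000000000000000) (nat_lit 0xc000010000e6000180000ee0000200000000000000000000000000000000000000000) (nat_lit 8)
theorem c7421 : QOK q7421 := cut [q694, q1820, q7420] ⟨c694, c1820, c7420, trivial⟩ (nd (nat_lit 211) (nat_lit 0) (cs (rf (nat_lit 0)) (cs (nd (nat_lit 186) (nat_lit 0) (cs (lf (nat_lit 23) (nat_lit 185)) (nd (nat_lit 233) (nat_lit 0) (cs (lf (nat_lit 5) (nat_lit 208)) (nd (nat_lit 230) (nat_lit 0) (cs (lf (nat_lit 11) (nat_lit 207)) (nd (nat_lit 189) (nat_lit 0) (cs (lf (nat_lit 17) (nat_lit 186)) (rf (nat_lit 1)))))))))) (rf (nat_lit 2))))) q7421 (by decide +kernel)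
def q7430 : Q := Q.p (nat_lit 0x800002000018000020000000000000000000000000000000000000000000000) (nat_lit 0xc0000700001400004000000000000000080000000000000000000000000000000000000000) (nat_lit 5)
theorem c7430 : QOK q7430 := cut [q1239] ⟨c1239, trivial⟩ (nd (nat_lit 252) (nat_lit 0) (cs (lf (nat_lit 29) (nat_lit 185)) (nd (nat_lit 230) (nat_lit 0) (cs (lf (nat_lit 24) (nat_lit 163)) (rf (nat_lit 0)))))) q7430 (by decide +kernel)
def q7440 : Q := Q.p (nat_lit 0x70000000000000000000000000000000000000000000000000000) (nat_lit 0xf7000188000f00000000000000000000000000000000000000000000000) (nat_lit 5)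
theorem c7440 : QOK q7440 := cut [q694, q2382, q7439] ⟨c694, c2382, c7439, trivial⟩ (nd (nat_lit 211) (nat_lit 0) (cs (rf (nat_lit 0)) (cs (rf (nat_lit 1)) (rf (nat_lit 2))))) q7440 (by decide +kernel)
def q7452 : Q := Q.p (nat_lit 0x70000000000000000000000000000000000000000000000000000) (nat_lit 0x380008c0007f8000000000000000000000000000000000000000000000) (nat_lit 5)
theorem c7452 : QOK q7452 := cut [q87, q186, q1483] ⟨c87, c186, c1483, trivial⟩ (nd (nat_lit 207) (nat_lit 0) (cs (rf (nat_lit 0)) (cs (rf (nat_lit 1)) (rf (nat_lit 2))))) q7452 (by decide +kernel)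
def q7459 : Q := Q.p (nat_lit 0x8000020000080000200000000000000000000000000000000000000000) (nat_lit 0x10000040000100000100001c00007000010000000000000000000000000) (nat_lit 6)
theorem c7459 : QOK q7459 := cut [q7457] ⟨c7457, trivial⟩ (nd (nat_lit 142) (nat_lit 0) (cs (lf (nat_lit 46) (nat_lit 142)) (nd (nat_lit 143) (nat_lit 0) (cs (lf (nat_lit 47) (nat_lit 120)) (rf (nat_lit 0)))))) q7459 (by decide +kernel)
def q7463 : Q := Q.p (nat_lit 0x2000008000070000000000000000000000000000000000000000000000000000) (nat_lit 0x800000000000000088000f00000000000000000000000000000000000000000000000) (nat_lit 4)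
theorem c7463 : QOK q7463 := cut [q4622] ⟨c4622, trivial⟩ (nd (nat_lit 188) (nat_lit 0) (cs (lf (nat_lit 30) (nat_lit 187)) (rf (nat_lit 0)))) q7463 (by decide +kernel)
def q7499 : Q := Q.p (nat_lit 0x700001c0000000000000000000000000000000000000000000000) (nat_lit 0x10000000000600001f8001fc0007f000000000000000000000000000000) (nat_lit 12)
theorem c7499 : QOK q7499 := cut [q7495] ⟨c7495, trivial⟩ (nd (nat_lit 189) (nat_lit 0) (cs (lf (nat_lit 6) (nat_lit 186)) (nd (nat_lit 164) (nat_lit 0) (cs (nd (nat_lit 120) (nat_lit 0) (cs (lf (nat_lit 25) (nat_lit 120)) (rf (nat_lit 0)))) (lf (nat_lit 23) (nat_lit 163)))))) q7499 (by decide +kernel)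
def q7503 : Q := Q.p (nat_lit 0x70000180000400001000000000000000000000000000000000000) (nat_lit 0x1400000000000000020000280000a000000000000000000000000000000) (nat_lit 4)
theorem c7503 : QOK q7503 := cut [q7502] ⟨c7502, trivial⟩ (nd (nat_lit 123) (nat_lit 0) (cs (lf (nat_lit 34) (nat_lit 122)) (rf (nat_lit 0)))) q7503 (by decide +kernel)
def q7509 : Q := Q.p (nat_lit 0x700001c0000000000000000000000000000000000000000000000) (nat_lit 0x630001c00000000000000000000000000000000000000000) (nat_lit 4)
theorem c7509 : QOK q7509 := cut [q7508] ⟨c7508, trivial⟩ (nd (nat_lit 185) (nat_lit 0) (cs (lf (nat_lit 0) (nat_lit 184)) (rf (nat_lit 0)))) q7509 (by decide +kernel)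
def q7517 : Q := Q.p (nat_lit 0x700000c0000100000400000000000000000000000000000000000) (nat_lit 0x10000000000000000280007800006000000000000000000000000000000) (nat_lit 5)
theorem c7517 : QOK q7517 := cut [q1699] ⟨c1699, trivial⟩ (nd (nat_lit 143) (nat_lit 0) (cs (lf (nat_lit 35) (nat_lit 120)) (nd (nat_lit 165) (nat_lit 0) (cs (lf (nat_lit 29) (nat_lit 143)) (rf (nat_lit 0)))))) q7517 (by decide +kernel)
def q7535 : Q := Q.p (nat_lit 0x2000000000070000040000000000000000000000000000000000000000000000) (nat_lit 0xee000180000f80000f00003c00003e00002000000000000000000000000) (nat_lit 13)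
theorem c7535 : QOK q7535 := cut [q694, q1860, q2454, q7523] ⟨c694, c1860, c2454, c7523, trivial⟩ (nd (nat_lit 211) (nat_lit 0) (cs (rf (nat_lit 0)) (cs (rf (nat_lit 1)) (cs (rf (nat_lit 2)) (nd (nat_lit 233) (nat_lit 0) (cs (lf (nat_lit 5) (nat_lit 208)) (nd (nat_lit 189) (nat_lit 0) (cs (lf (nat_lit 17) (nat_lit 186)) (nd (nat_lit 230) (nat_lit 0) (cs (lf (nat_lit 11) (nat_lit 207)) (nd (nat_lit 164) (nat_lit 0) (cs (lf (nat_lit 28) (nat_lit 164)) (nd (nat_lit 143) (nat_lit 0) (cs (lf (nat_lit 34) (nat_lit 142)) (nd (nat_lit 142) (nat_lit 0) (cs (lf (nat_lit 35) (nat_lit 120)) (nd (nat_lit 120) (nat_lit 0) (cs (lf (nat_lit 28) (nat_lit 120)) (nd (nat_lit 119) (nat_lit 0) (cs (lf (nat_lit 47) (nat_lit 97)) (nd (nat_lit 117) (nat_lit 0) (cs (nd (nat_lit 144) (nat_lit 0) (cs (lf (nat_lit 18) (nat_lit 119)) (rf (nat_lit 3)))) (lf (nat_lit 1) (nat_lit 117)))))))))))))))))))))))) q7535 (by decide +kernel)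
def q7552 : Q := Q.p (nat_lit 0x2000010000040000100000000000000000000000000000000000000000000000) (nat_lit 0x8000000000000000e0000380000a000000000000000000000000000000) (nat_lit 5)
theorem c7552 : QOK q7552 := cut [q4627] ⟨c4627, trivial⟩ (nd (nat_lit 166) (nat_lit 0) (cs (rf (nat_lit 0)) (lf (nat_lit 40) (nat_lit 165)))) q7552 (by decide +kernel)
def q7589 : Q := Q.p (nat_lit 0x8000030000080000200000000000000000000000000000000000000000) (nat_lit 0x40000400001c00007000004000000000000000000000000) (nat_lit 5)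
theorem c7589 : QOK q7589 := cut [q7587] ⟨c7587, trivial⟩ (nd (nat_lit 144) (nat_lit 0) (cs (lf (nat_lit 34) (nat_lit 143)) (nd (nat_lit 143) (nat_lit 0) (cs (lf (nat_lit 35) (nat_lit 121)) (rf (nat_lit 0)))))) q7589 (by decide +kernel)
def q7637 : Q := Q.p (nat_lit 0x20000000000700000c0000000000000000000000000000000000000000000000) (nat_lit 0x40000100001c000000000100000600001800002000000000000000000000000000000) (nat_lit 5)
theorem c7637 : QOK q7637 := cut [q7481, q7622] ⟨c7481, c7622, trivial⟩ (nd (nat_lit 165) (nat_lit 0) (cs (rf (nat_lit 0)) (rf (nat_lit 1)))) q7637 (by decide +kernel)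
def q7685 : Q := Q.p (nat_lit 0x2000008000078000080000000000000000000000000000000000000000000000) (nat_lit 0x600001c00033000000000040000300000800000000000000000000000000000000000) (nat_lit 7)
theorem c7685 : QOK q7685 := cut [q294] ⟨c294, trivial⟩ (nd (nat_lit 252) (nat_lit 0) (cs (lf (nat_lit 41) (nat_lit 186)) (nd (nat_lit 186) (nat_lit 0) (cs (rf (nat_lit 0)) (lf (nat_lit 47) (nat_lit 164)))))) q7685 (by decide +kernel)
def q7736 : Q := Q.p (nat_lit 0x38000000000000000000000000000000000000000000000000000) (nat_lit 0x738000c4000738000000000000000000000000000000000000000000000) (nat_lit 5)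
theorem c7736 : QOK q7736 := cut [q139, q186] ⟨c139, c186, trivial⟩ (nd (nat_lit 210) (nat_lit 0) (cs (rf (nat_lit 0)) (rf (nat_lit 1)))) q7736 (by decide +kernel)
def q7749 : Q := Q.p (nat_lit 0x300001c0000000000000000000000000000000000000000000000) (nat_lit 0x60000180000760001c0000620001800002000008000000000000000000000000000000) (nat_lit 10)
theorem c7749 : QOK q7749 := cut [q7444] ⟨c7444, trivial⟩ (nd (nat_lit 189) (nat_lit 0) (cs (lf (nat_lit 6) (nat_lit 186)) (nd (nat_lit 211) (nat_lit 0) (cs (lf (nat_lit 5) (nat_lit 186)) (nd (nat_lit 210) (nat_lit 0) (cs (lf (nat_lit 0) (nat_lit 185)) (nd (nat_lit 233) (nat_lit 0) (cs (lf (nat_lit 5) (nat_lit 208)) (nd (nat_lit 255) (nat_lit 0) (cs (nd (nat_lit 229) (nat_lit 0) (cs (lf (nat_lit 10) (nat_lit 207)) (nd (nat_lit 256) (nat_lit 0) (cs (rf (nat_lit 0)) (lf (nat_lit 29) (nat_lit 189)))))) (lf (nat_lit 42) (nat_lit 188)))))))))))) q7749 (by decide +kernel)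
def q7776 : Q := Q.p (nat_lit 0x30000040000100000800000000000000000000000000000000000) (nat_lit 0x80000000000600003800002000000000000000000000000) (nat_lit 4)
theorem c7776 : QOK q7776 := cut [q7775] ⟨c7775, trivial⟩ (nd (nat_lit 142) (nat_lit 0) (cs (lf (nat_lit 35) (nat_lit 120)) (rf (nat_lit 0)))) q7776 (by decide +kernel)
def q7777 : Q := Q.p (nat_lit 0x300000c0000300000800000000000000000000000000000000000) (nat_lit 0x400000780001800000000000000000000000000000) (nat_lit 4)
theorem c7777 : QOK q7777 := cut [q623] ⟨c623, trivial⟩ (nd (nat_lit 142) (nat_lit 0) (cs (rf (nat_lit 0)) (lf (nat_lit 47) (nat_lit 120)))) q7777 (by decide +kernel)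
def q7964 : Q := Q.p (nat_lit 0x200001c000000000100000000000000000000000000000000000000000000000) (nat_lit 0x220003c0000000000400000000000000000000000000000000000000000) (nat_lit 4)
theorem c7964 : QOK q7964 := cut [q7963] ⟨c7963, trivial⟩ (nd (nat_lit 210) (nat_lit 0) (cs (lf (nat_lit 36) (nat_lit 165)) (rf (nat_lit 0)))) q7964 (by decide +kernel)
def q7990 : Q := Q.p (nat_lit 0x100001c0000000000000000000000000000000000000000000000) (nat_lit 0x388000600003800000000000000000000000000000000000000000) (nat_lit 5)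
theorem c7990 : QOK q7990 := cut [q7989] ⟨c7989, trivial⟩ (nd (nat_lit 189) (nat_lit 0) (cs (lf (nat_lit 11) (nat_lit 185)) (rf (nat_lit 0)))) q7990 (by decide +kernel)
def q7994 : Q := Q.p (nat_lit 0x100001e0000000000000000000000000000000000000000000000) (nat_lit 0x100000400000c000000000cc0000200000000000000000000000000000000000) (nat_lit 5)
theorem c7994 : QOK q7994 := cut [q7992] ⟨c7992, trivial⟩ (nd (nat_lit 163) (nat_lit 0) (cs (lf (nat_lit 23) (nat_lit 162)) (nd (nat_lit 166) (nat_lit 0) (cs (lf (nat_lit 17) (nat_lit 163)) (rf (nat_lit 0)))))) q7994 (by decide +kernel)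
def q8020 : Q := Q.p (nat_lit 0x1c0000000000000000000000000000000000000000000000) (nat_lit 0x8000020000fc0001e30003ee0005000014000000000000000000000000000000) (nat_lit 10)
theorem c8020 : QOK q8020 := cut [q7997, q8001, q8002, q8005, q8009] ⟨c7997, c8001, c8002, c8005, c8009, trivial⟩ (nd (nat_lit 211) (nat_lit 0) (cs (nd (nat_lit 185) (nat_lit 0) (cs (lf (nat_lit 4) (nat_lit 185)) (rf (nat_lit 0)))) (cs (rf (nat_lit 1)) (cs (nd (nat_lit 189) (nat_lit 0) (cs (lf (nat_lit 5) (nat_lit 186)) (nd (nat_lit 167) (nat_lit 0) (cs (lf (nat_lit 17) (nat_lit 164)) (rf (nat_lit 2)))))) (nd (nat_lit 189) (nat_lit 0) (cs (lf (nat_lit 5) (nat_lit 186)) (nd (nat_lit 166) (nat_lit 0) (cs (nd (nat_lit 167) (nat_lit 0) (cs (lf (nat_lit 17) (nat_lit 164)) (rf (nat_lit 3)))) (cs (rf (nat_lit 4)) (nd (nat_lit 168) (nat_lit 0) (cs (lf (nat_lit 16) (nat_lit 164)) (nd (nat_lit 190) (nat_lit 0) (cs (lf (nat_lit 17) (nat_lit 165)) (nd (nat_lit 124) (nat_lit 0) (cs (nd (nat_lit 191) (nat_lit 0) (cs (nd (nat_lit 214) (nat_lit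 0) (cs (lf (nat_lit 4) (nat_lit 188)) (nd (nat_lit 192) (nat_lit 0) (cs (lf (nat_lit 5) (nat_lit 189)) (lf (nat_lit 11) (nat_lit 188)))))) (lf (nat_lit 23) (nat_lit 165)))) (lf (nat_lit 37) (nat_lit 123))))))))))))))))) q8020 (by decide +kernel)
def q8047 : Q := Q.p (nat_lit 0x700001c0000400000000000000000000000000000000000000000) (nat_lit 0x4000000000000001a00003e0000f000000000000000000000000000000) (nat_lit 7)
theorem c8047 : QOK q8047 := cut [q8043] ⟨c8043, trivial⟩ (nd (nat_lit 144) (nat_lit 0) (cs (lf (nat_lit 36) (nat_lit 121)) (nd (nat_lit 123) (nat_lit 0) (cs (lf (nat_lit 34) (nat_lit 122)) (nd (nat_lit 143) (nat_lit 0) (cs (lf (nat_lit 47) (nat_lit 121)) (nd (nat_lit 165) (nat_lit 0) (cs (lf (nat_lit 41) (nat_lit 142)) (rf (nat_lit 0)))))))))) q8047 (by decide +kernel)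
def q8054 : Q := Q.p (nat_lit 0x70000180000400000000000000000000000000000000000000000) (nat_lit 0x1000000c000000001800003e0000e000000000000000000000000000000) (nat_lit 7)
theorem c8054 : QOK q8054 := cut [q8052] ⟨c8052, trivial⟩ (nd (nat_lit 144) (nat_lit 0) (cs (lf (nat_lit 36) (nat_lit 121)) (nd (nat_lit 206) (nat_lit 0) (cs (lf (nat_lit 13) (nat_lit 184)) (rf (nat_lit 0)))))) q8054 (by decide +kernel)
def q8055 : Q := Q.p (nat_lit 0x70000180000400000000000000000000000000000000000000000) (nat_lit 0x14000000000000000200001800006000000000000000000000000000000) (nat_lit 4)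
theorem c8055 : QOK q8055 := cut [q7502] ⟨c7502, trivial⟩ (nd (nat_lit 144) (nat_lit 0) (cs (lf (nat_lit 36) (nat_lit 121)) (rf (nat_lit 0)))) q8055 (by decide +kernel)
def q8061 : Q := Q.p (nat_lit 0xf0000100000000000000000000000000000000000000000000000) (nat_lit 0x2000008000070000000000000000400001000000000000000000000000000000000000) (nat_lit 4)
theorem c8061 : QOK q8061 := cut [q8060] ⟨c8060, trivial⟩ (nd (nat_lit 233) (nat_lit 0) (cs (lf (nat_lit 5) (nat_lit 208)) (rf (nat_lit 0)))) q8061 (by decide +kernel)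
def q8092 : Q := Q.p (nat_lit 0x20000000000100001c0000000000000000000000000000000000000000000000) (nat_lit 0x800000000008000028000600001c00000000000000000000000000000000000000000) (nat_lit 5)
theorem c8092 : QOK q8092 := cut [q8088] ⟨c8088, trivial⟩ (nd (nat_lit 189) (nat_lit 0) (cs (lf (nat_lit 11) (nat_lit 185)) (nd (nat_lit 167) (nat_lit 0) (cs (lf (nat_lit 17) (nat_lit 164)) (rf (nat_lit 0)))))) q8092 (by decide +kernel)
def q8158 : Q := Q.p (nat_lit 0x100001e0000000000000000000000000000000000000000000000) (nat_lit 0x400000c0000000000c0000200000800000000000000000000000000000) (nat_lit 4)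
theorem c8158 : QOK q8158 := cut [q1800] ⟨c1800, trivial⟩ (nd (nat_lit 207) (nat_lit 0) (cs (lf (nat_lit 11) (nat_lit 184)) (rf (nat_lit 0)))) q8158 (by decide +kernel)
def q8172 : Q := Q.p (nat_lit 0x18000060000080000200000000000000000000000000000000000) (nat_lit 0x200000800002000000000000000140000100000400000000000000000000000000000) (nat_lit 4)
theorem c8172 : QOK q8172 := cut [q3750] ⟨c3750, trivial⟩ (nd (nat_lit 140) (nat_lit 0) (cs (lf (nat_lit 47) (nat_lit 118)) (rf (nat_lit 0)))) q8172 (by decide +kernel)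
def q8244 : Q := Q.p (nat_lit 0x8000078000040000000000200000000000000000000000000000000000) (nat_lit 0x2800006000338000770001d8000ff00000000000000000000000000000) (nat_lit 11)
theorem c8244 : QOK q8244 := cut [q7046, q5770, q8228, q8235] ⟨c7046, c5770, c8228, c8235, trivial⟩ (nd (nat_lit 140) (nat_lit 0) (cs (nd (nat_lit 184) (nat_lit 0) (cs (lf (nat_lit 22) (nat_lit 184)) (nd (nat_lit 206) (nat_lit 0) (cs (lf (nat_lit 23) (nat_lit 183)) (nd (nat_lit 162) (nat_lit 0) (cs (lf (nat_lit 29) (nat_lit 140)) (lf (nat_lit 35) (nat_lit 118)))))))) (cs (nd (nat_lit 142) (nat_lit 0) (cs (rf (nat_lit 0)) (nd (nat_lit 188) (nat_lit 0) (cs (lf (nat_lit 17) (nat_lit 185)) (nd (nat_lit 166) (nat_lit 0) (cs (lf (nat_lit 36) (nat_lit 143)) (nd (nat_lit 143) (nat_lit 0) (cs (lf (nat_lit 4) (nat_lit 140)) (rf (nat_lit 1)))))))))) (cs (nd (nat_lit 188) (nat_lit 0) (cs (lf (nat_lit 17) (nat_lit 185)) (nd (nat_lit 144) (nat_lit 0) (cs (lf (nat_lit 37) (nat_lit 143)) (nd (nat_lit 142) (nat_lit 0) (cs (lf (nat_lit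 25) (nat_lit 142)) (nd (nat_lit 184) (nat_lit 0) (cs (lf (nat_lit 22) (nat_lit 184)) (nd (nat_lit 206) (nat_lit 0) (cs (lf (nat_lit 23) (nat_lit 183)) (nd (nat_lit 162) (nat_lit 0) (cs (lf (nat_lit 29) (nat_lit 140)) (nd (nat_lit 205) (nat_lit 0) (cs (lf (nat_lit 41) (nat_lit 139)) (nd (nat_lit 143) (nat_lit 0) (cs (lf (nat_lit 11) (nat_lit 139)) (nd (nat_lit 117) (nat_lit 0) (cs (lf (nat_lit 46) (nat_lit 117)) (lf (nat_lit 22) (nat_lit 117)))))))))))))))))))) (cs (nd (nat_lit 142) (nat_lit 0) (cs (rf (nat_lit 0)) (nd (nat_lit 184) (nat_lit 0) (cs (lf (nat_lit 22) (nat_lit 184)) (nd (nat_lit 183) (nat_lit 0) (cs (lf (nat_lit 21) (nat_lit 183)) (nd (nat_lit 188) (nat_lit 0) (cs (lf (nat_lit 17) (nat_lit 185)) (nd (nat_lit 166) (nat_lit 0) (cs (lf (nat_lit 36) (nat_lit 143)) (nd (nat_lit 143) (nat_lit 0) (cs (lf (nat_lit 4) (nat_lit 140)) (rf (nat_lit 2)))))))))))))) (nd (nat_lit 188) (nat_lit 0) (cs (lf (nat_lit 17) (nat_lit 185)) (nd (nat_lit 144) (nat_lit 0) (cs (lf (nat_lit 37) (nat_lit 143))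 (nd (nat_lit 142) (nat_lit 0) (cs (lf (nat_lit 25) (nat_lit 142)) (nd (nat_lit 184) (nat_lit 0) (cs (lf (nat_lit 22) (nat_lit 184)) (nd (nat_lit 206) (nat_lit 0) (cs (lf (nat_lit 23) (nat_lit 183)) (nd (nat_lit 119) (nat_lit 0) (cs (nd (nat_lit 143) (nat_lit 0) (cs (lf (nat_lit 23) (nat_lit 118)) (rf (nat_lit 3)))) (lf (nat_lit 32) (nat_lit 118))))))))))))))))))) q8244 (by decide +kernel)
def q8251 : Q := Q.p (nat_lit 0x300000c0000100000400000000000000000000000000000000000) (nat_lit 0x200000c000300000000000800002000000000000000000000000000000) (nat_lit 4)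
theorem c8251 : QOK q8251 := cut [q8250] ⟨c8250, trivial⟩ (nd (nat_lit 121) (nat_lit 0) (cs (lf (nat_lit 34) (nat_lit 120)) (rf (nat_lit 0)))) q8251 (by decide +kernel)
def q8302 : Q := Q.p (nat_lit 0x300000c0000100000000000000000000000000000000000000000) (nat_lit 0x200000e000100000000000e00003800000000000000000000000000000) (nat_lit 6)
theorem c8302 : QOK q8302 := cut [q8299] ⟨c8299, trivial⟩ (nd (nat_lit 142) (nat_lit 0) (cs (lf (nat_lit 24) (nat_lit 120)) (nd (nat_lit 119) (nat_lit 0) (cs (lf (nat_lit 46) (nat_lit 119)) (nd (nat_lit 121) (nat_lit 0) (cs (lf (nat_lit 34) (nat_lit 120)) (rf (nat_lit 0)))))))) q8302 (by decide +kernel)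
def q8322 : Q := Q.p (nat_lit 0x300000c0000300000000000000000000000000000000000000000) (nat_lit 0xc80000780001800000000000000000000000000000) (nat_lit 5)
theorem c8322 : QOK q8322 := cut [q8320] ⟨c8320, trivial⟩ (nd (nat_lit 142) (nat_lit 0) (cs (lf (nat_lit 24) (nat_lit 120)) (nd (nat_lit 141) (nat_lit 0) (cs (lf (nat_lit 47) (nat_lit 119)) (rf (nat_lit 0)))))) q8322 (by decide +kernel)
def q8336 : Q := Q.p (nat_lit 0x300000c0000300000000000000000000000000000000000000000) (nat_lit 0x720001ce000600000080007e00007800000000000000000000000000000) (nat_lit 12)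
theorem c8336 : QOK q8336 := cut [q1699] ⟨c1699, trivial⟩ (nd (nat_lit 142) (nat_lit 0) (cs (lf (nat_lit 24) (nat_lit 120)) (nd (nat_lit 119) (nat_lit 0) (cs (lf (nat_lit 46) (nat_lit 119)) (nd (nat_lit 207) (nat_lit 0) (cs (lf (nat_lit 41) (nat_lit 141)) (nd (nat_lit 205) (nat_lit 0) (cs (lf (nat_lit 13) (nat_lit 183)) (nd (nat_lit 143) (nat_lit 0) (cs (lf (nat_lit 35) (nat_lit 120)) (nd (nat_lit 210) (nat_lit 0) (cs (lf (nat_lit 29) (nat_lit 143)) (nd (nat_lit 211) (nat_lit 0) (cs (lf (nat_lit 18) (nat_lit 186)) (nd (nat_lit 233) (nat_lit 0) (cs (lf (nat_lit 5) (nat_lit 208)) (nd (nat_lit 189) (nat_lit 0) (cs (lf (nat_lit 17) (nat_lit 186)) (rf (nat_lit 0)))))))))))))))))))) q8336 (by decide +kernel)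
def q8338 : Q := Q.p (nat_lit 0x300000c0000100000400000000000000000000000000000000000) (nat_lit 0x200000c000300000000000200000800000000000000000000000000000) (nat_lit 4)
theorem c8338 : QOK q8338 := cut [q8250] ⟨c8250, trivial⟩ (nd (nat_lit 119) (nat_lit 0) (cs (lf (nat_lit 46) (nat_lit 119)) (rf (nat_lit 0)))) q8338 (by decide +kernel)
def q8360 : Q := Q.p (nat_lit 0x100000c0000300000000000000000000000000000000000000000) (nat_lit 0x80000638001ce0007380004800010000000000000000000000000) (nat_lit 7)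
theorem c8360 : QOK q8360 := cut [q8348, q8351, q8352, q8355] ⟨c8348, c8351, c8352, c8355, trivial⟩ (nd (nat_lit 166) (nat_lit 0) (cs (rf (nat_lit 0)) (cs (nd (nat_lit 185) (nat_lit 0) (cs (lf (nat_lit 12) (nat_lit 162)) (lf (nat_lit 6) (nat_lit 163)))) (nd (nat_lit 163) (nat_lit 0) (cs (rf (nat_lit 1)) (cs (nd (nat_lit 162) (nat_lit 0) (cs (lf (nat_lit 0) (nat_lit 161)) (rf (nat_lit 2)))) (nd (nat_lit 144) (nat_lit 0) (cs (lf (nat_lit 17) (nat_lit 141)) (nd (nat_lit 100) (nat_lit 0) (cs (rf (nat_lit 3)) (lf (nat_lit 37) (nat_lit 99)))))))))))) q8360 (by decide +kernel)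
def q8366 : Q := Q.p (nat_lit 0x300000c0000300000000000000000000000000000000000000000) (nat_lit 0x200004e0000380000e0000780001e00000000000000000000000000000) (nat_lit 10)
theorem c8366 : QOK q8366 := cut [q567] ⟨c567, trivial⟩ (nd (nat_lit 142) (nat_lit 0) (cs (lf (nat_lit 24) (nat_lit 120)) (nd (nat_lit 119) (nat_lit 0) (cs (lf (nat_lit 46) (nat_lit 119)) (nd (nat_lit 207) (nat_lit 0) (cs (lf (nat_lit 41) (nat_lit 141)) (nd (nat_lit 206) (nat_lit 0) (cs (lf (nat_lit 12) (nat_lit 183)) (nd (nat_lit 184) (nat_lit 0) (cs (lf (nat_lit 23) (nat_lit 183)) (nd (nat_lit 185) (nat_lit 0) (cs (lf (nat_lit 18) (nat_lit 184)) (rf (nat_lit 0)))))))))))))) q8366 (by decide +kernel)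
def q8373 : Q := Q.p (nat_lit 0x300000c0000300000c00000000000000000000000000000000000) (nat_lit 0x80007200004800000000000000000000000000000) (nat_lit 4)
theorem c8373 : QOK q8373 := cut [q1699] ⟨c1699, trivial⟩ (nd (nat_lit 119) (nat_lit 0) (cs (lf (nat_lit 46) (nat_lit 119)) (rf (nat_lit 0)))) q8373 (by decide +kernel)
def q8384 : Q := Q.p (nat_lit 0x300000c0000200000800000000000000000000000000000000000) (nat_lit 0x100000c0000030000000001000004000000000000000000000000000000) (nat_lit 4)
theorem c8384 : QOK q8384 := cut [q2772] ⟨c2772, trivial⟩ (nd (nat_lit 122) (nat_lit 0) (cs (lf (nat_lit 34) (nat_lit 121)) (rf (nat_lit 0)))) q8384 (by decide +kernel)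
def q8386 : Q := Q.p (nat_lit 0x300000c0000200000800000000000000000000000000000000000) (nat_lit 0x100000c0000030000000000400001000000000000000000000000000000) (nat_lit 4)
theorem c8386 : QOK q8386 := cut [q2772] ⟨c2772, trivial⟩ (nd (nat_lit 120) (nat_lit 0) (cs (lf (nat_lit 46) (nat_lit 120)) (rf (nat_lit 0)))) q8386 (by decide +kernel)
def q8407 : Q := Q.p (nat_lit 0x700001e0000000000000000000000000000000000000000000000) (nat_lit 0x10000000000000000fc0003f0000fc00000000000000000000000000000) (nat_lit 10)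
theorem c8407 : QOK q8407 := cut [q8404] ⟨c8404, trivial⟩ (nd (nat_lit 166) (nat_lit 0) (cs (lf (nat_lit 17) (nat_lit 163)) (nd (nat_lit 144) (nat_lit 0) (cs (lf (nat_lit 36) (nat_lit 121)) (nd (nat_lit 162) (nat_lit 0) (cs (lf (nat_lit 22) (nat_lit 162)) (rf (nat_lit 0)))))))) q8407 (by decide +kernel)
def q8426 : Q := Q.p (nat_lit 0x340000e0000000000000000000000000000000000000000000000) (nat_lit 0x8000700001c00000000000000000000000000000000000000000) (nat_lit 4)
theorem c8426 : QOK q8426 := cut [q8425] ⟨c8425, trivial⟩ (nd (nat_lit 188) (nat_lit 0) (cs (lf (nat_lit 10) (nat_lit 184)) (rf (nat_lit 0)))) q8426 (by decide +kernel)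
def q8474 : Q := Q.p (nat_lit 0x700001c0000400000000000000000000000000000000000000000) (nat_lit 0x10000000000000000300003f0000fc00000000000000000000000000000) (nat_lit 8)
theorem c8474 : QOK q8474 := cut [q8404] ⟨c8404, trivial⟩ (nd (nat_lit 144) (nat_lit 0) (cs (lf (nat_lit 36) (nat_lit 121)) (rf (nat_lit 0)))) q8474 (by decide +kernel)
def q8507 : Q := Q.p (nat_lit 0x2000008000030000040000000000000000000000000000000000000000000000) (nat_lit 0x100000c8000fb8000400001000000000000000000000000000000000000) (nat_lit 5)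
theorem c8507 : QOK q8507 := cut [q39, q75, q207, q7537] ⟨c39, c75, c207, c7537, trivial⟩ (nd (nat_lit 210) (nat_lit 0) (cs (rf (nat_lit 0)) (cs (rf (nat_lit 1)) (nd (nat_lit 188) (nat_lit 0) (cs (rf (nat_lit 2)) (rf (nat_lit 3))))))) q8507 (by decide +kernel)
def q8522 : Q := Q.p (nat_lit 0x10000080000300000c0000000000000000000000000000000000000000000000) (nat_lit 0x1400000e0001380002e0000000000000000000000000000000000000000) (nat_lit 7)
theorem c8522 : QOK q8522 := cut [q8520] ⟨c8520, trivial⟩ (nd (nat_lit 230) (nat_lit 0) (cs (lf (nat_lit 35) (nat_lit 164)) (nd (nat_lit 185) (nat_lit 0) (cs (lf (nat_lit 47) (nat_lit 163)) (rf (nat_lit 0)))))) q8522 (by decide +kernel)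
def q8578 : Q := Q.p (nat_lit 0x4000030000040000000000000000000000000000000000000000000000) (nat_lit 0x10000000000c80000b8000080000200000800000000000000000000000000000) (nat_lit 4)
theorem c8578 : QOK q8578 := cut [q2175, q8577] ⟨c2175, c8577, trivial⟩ (nd (nat_lit 185) (nat_lit 0) (cs (rf (nat_lit 0)) (rf (nat_lit 1)))) q8578 (by decide +kernel)
def q8595 : Q := Q.p (nat_lit 0x400000e00000000000000000000000000000000000) (nat_lit 0x270000180000700000000000000000000000000000) (nat_lit 5)
theorem c8595 : QOK q8595 := cut [q5713] ⟨c5713, trivial⟩ (nd (nat_lit 140) (nat_lit 0) (cs (lf (nat_lit 4) (nat_lit 140)) (rf (nat_lit 0)))) q8595 (by decide +kernel)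
def q8628 : Q := Q.p (nat_lit 0x2000004000010000060000000000000000000000000000000000000000000000) (nat_lit 0xc00001000002000008000080000300000c00001000000000000000000000000000000) (nat_lit 6)
theorem c8628 : QOK q8628 := cut [q7101] ⟨c7101, trivial⟩ (nd (nat_lit 252) (nat_lit 0) (cs (lf (nat_lit 29) (nat_lit 186)) (nd (nat_lit 165) (nat_lit 0) (cs (lf (nat_lit 34) (nat_lit 164)) (nd (nat_lit 207) (nat_lit 0) (cs (lf (nat_lit 42) (nat_lit 185)) (rf (nat_lit 0)))))))) q8628 (by decide +kernel)
def q8654 : Q := Q.p (nat_lit 0x1a000060000180000400000000000000000000000000000000000) (nat_lit 0x1000005c000e5000010000000000800002000000000000000000000000000000) (nat_lit 7)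
theorem c8654 : QOK q8654 := cut [q3926] ⟨c3926, trivial⟩ (nd (nat_lit 230) (nat_lit 0) (cs (lf (nat_lit 42) (nat_lit 163)) (nd (nat_lit 121) (nat_lit 0) (cs (lf (nat_lit 34) (nat_lit 120)) (nd (nat_lit 206) (nat_lit 0) (cs (lf (nat_lit 12) (nat_lit 182)) (rf (nat_lit 0)))))))) q8654 (by decide +kernel)
def q8660 : Q := Q.p (nat_lit 0x6000008000020000000000000000000000000000000000000000) (nat_lit 0x10000000000000000000001c0000700001400000000000000000000000) (nat_lit 5)
theorem c8660 : QOK q8660 := cut [q8658] ⟨c8658, trivial⟩ (nd (nat_lit 139) (nat_lit 0) (cs (rf (nat_lit 0)) (lf (nat_lit 29) (nat_lit 139)))) q8660 (by decide +kernel)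
def q8679 : Q := Q.p (nat_lit 0x120000680000a0000000000000000000000000000000000000000) (nat_lit 0x100001c0001700005c000010000040000100001c0000700001400000000000000000000000) (nat_lit 10)
theorem c8679 : QOK q8679 := cut [q8658, q8669, q3639] ⟨c8658, c8669, c3639, trivial⟩ (nd (nat_lit 139) (nat_lit 0) (cs (rf (nat_lit 0)) (cs (nd (nat_lit 230) (nat_lit 0) (cs (lf (nat_lit 42) (nat_lit 163)) (rf (nat_lit 1)))) (nd (nat_lit 204) (nat_lit 0) (cs (lf (nat_lit 41) (nat_lit 138)) (nd (nat_lit 230) (nat_lit 0) (cs (lf (nat_lit 42) (nat_lit 163)) (nd (nat_lit 138) (nat_lit 0) (cs (lf (nat_lit 47) (nat_lit 116)) (nd (nat_lit 227) (nat_lit 0) (cs (lf (nat_lit 46) (nat_lit 138)) (nd (nat_lit 250) (nat_lit 0) (cs (lf (nat_lit 28) (nat_lit 161)) (nd (nat_lit 249) (nat_lit 0) (cs (lf (nat_lit 29) (nat_lit 183)) (nd (nat_lit 271) (nat_lit 0) (cs (rf (nat_lit 2)) (lf (nat_lit 47) (nat_lit 182))))))))))))))))))) q8679 (by decide +kernel)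
def q8701 : Q := Q.p (nat_lit 0x1e0000000000000000000000000000000000000000) (nat_lit 0x200000c0002000001c0000400001000000000000000000000000) (nat_lit 5)
theorem c8701 : QOK q8701 := cut [q8700] ⟨c8700, trivial⟩ (nd (nat_lit 183) (nat_lit 0) (cs (lf (nat_lit 11) (nat_lit 160)) (rf (nat_lit 0)))) q8701 (by decide +kernel)
def q8724 : Q := Q.p (nat_lit 0x10000060000180000000000000000000000000000000000000000) (nat_lit 0x1000004000000000010000e00000800000000000000000000000000000000000) (nat_lit 4)
theorem c8724 : QOK q8724 := cut [q6175] ⟨c6175, trivial⟩ (nd (nat_lit 230) (nat_lit 0) (cs (lf (nat_lit 42) (nat_lit 163)) (rf (nat_lit 0)))) q8724 (by decide +kernel)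
def q8751 : Q := Q.p (nat_lit 0x10000070000000000000000000000000000000000000000000000) (nat_lit 0x400002000000c000380000200000800000000000000000000000000000) (nat_lit 5)
theorem c8751 : QOK q8751 := cut [q8750] ⟨c8750, trivial⟩ (nd (nat_lit 183) (nat_lit 0) (cs (lf (nat_lit 5) (nat_lit 183)) (rf (nat_lit 0)))) q8751 (by decide +kernel)
def q8792 : Q := Q.p (nat_lit 0x100000f0000040000000000000000000000000000000000000000) (nat_lit 0x66000000000780001e00007000000000000000000000000000000) (nat_lit 8)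
theorem c8792 : QOK q8792 := cut [q8790] ⟨c8790, trivial⟩ (nd (nat_lit 209) (nat_lit 0) (cs (lf (nat_lit 5) (nat_lit 184)) (nd (nat_lit 205) (nat_lit 0) (cs (lf (nat_lit 10) (nat_lit 183)) (rf (nat_lit 0)))))) q8792 (by decide +kernel)
def q8817 : Q := Q.p (nat_lit 0x4000010000040000100000000000000000000000000000000000000000) (nat_lit 0x10000000000000001800002e0000a00000000000000000000000000000000000) (nat_lit 5)
theorem c8817 : QOK q8817 := cut [q4986] ⟨c4986, trivial⟩ (nd (nat_lit 165) (nat_lit 0) (cs (lf (nat_lit 35) (nat_lit 142)) (nd (nat_lit 187) (nat_lit 0) (cs (lf (nat_lit 30) (nat_lit 164)) (rf (nat_lit 0)))))) q8817 (by decide +kernel)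
def q8836 : Q := Q.p (nat_lit 0x8000078000000000000000000000000000000000000000000000000000) (nat_lit 0x5c00006000038000000000000000000000000000000000000000000000) (nat_lit 5)
theorem c8836 : QOK q8836 := cut [q3822] ⟨c3822, trivial⟩ (nd (nat_lit 184) (nat_lit 0) (cs (lf (nat_lit 22) (nat_lit 184)) (nd (nat_lit 206) (nat_lit 0) (cs (lf (nat_lit 23) (nat_lit 183)) (rf (nat_lit 0)))))) q8836 (by decide +kernel)
def q8854 : Q := Q.p (nat_lit 0x78000000000000000000000000000000000000000000000000000) (nat_lit 0x1c0000600039c000000000000000000000000000000000000000000000) (nat_lit 6)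
theorem c8854 : QOK q8854 := cut [q117] ⟨c117, trivial⟩ (nd (nat_lit 188) (nat_lit 0) (cs (lf (nat_lit 17) (nat_lit 185)) (nd (nat_lit 206) (nat_lit 0) (cs (lf (nat_lit 16) (nat_lit 184)) (rf (nat_lit 0)))))) q8854 (by decide +kernel)
def q8874 : Q := Q.p (nat_lit 0x3400008000000000000000000000000000000000000000000000000000000000) (nat_lit 0x1c0000a00011c00000000000000000000000000000000000000000000000000000000) (nat_lit 5)
theorem c8874 : QOK q8874 := cut [q2623] ⟨c2623, trivial⟩ (nd (nat_lit 251) (nat_lit 0) (cs (lf (nat_lit 17) (nat_lit 228)) (rf (nat_lit 0)))) q8874 (by decide +kernel)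
def q8890 : Q := Q.p (nat_lit 0x80000300000c0000060000300000000000000000000000000000000000) (nat_lit 0x618001c00006000000000000000000000000000000) (nat_lit 5)
theorem c8890 : QOK q8890 := cut [q8886] ⟨c8886, trivial⟩ (nd (nat_lit 159) (nat_lit 0) (cs (nd (nat_lit 143) (nat_lit 0) (cs (rf (nat_lit 0)) (lf (nat_lit 7) (nat_lit 139)))) (lf (nat_lit 13) (nat_lit 137)))) q8890 (by decide +kernel)
def q8901 : Q := Q.p (nat_lit 0x2000090000340000d0000000000000000000000000000000000000000000000) (nat_lit 0x8000000000000006c0001f80006e00000800000000000000000000000) (nat_lit 9)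
theorem c8901 : QOK q8901 := cut [q8886] ⟨c8886, trivial⟩ (nd (nat_lit 162) (nat_lit 0) (cs (lf (nat_lit 40) (nat_lit 161)) (nd (nat_lit 141) (nat_lit 0) (cs (lf (nat_lit 34) (nat_lit 140)) (nd (nat_lit 140) (nat_lit 0) (cs (lf (nat_lit 35) (nat_lit 118)) (nd (nat_lit 117) (nat_lit 0) (cs (lf (nat_lit 46) (nat_lit 117)) (nd (nat_lit 118) (nat_lit 0) (cs (lf (nat_lit 47) (nat_lit 95)) (nd (nat_lit 143) (nat_lit 0) (cs (lf (nat_lit 19) (nat_lit 117)) (rf (nat_lit 0)))))))))))))) q8901 (by decide +kernel)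
def q8950 : Q := Q.p (nat_lit 0x100000c0000000000c00000000000000000000000000000000000) (nat_lit 0x20000000000100000200003800002000000000000000000000000) (nat_lit 4)
theorem c8950 : QOK q8950 := cut [q8949] ⟨c8949, trivial⟩ (nd (nat_lit 164) (nat_lit 0) (cs (lf (nat_lit 35) (nat_lit 120)) (rf (nat_lit 0)))) q8950 (by decide +kernel)
def q8959 : Q := Q.p (nat_lit 0xe00000000000000000000000000000000000) (nat_lit 0x1ce000310001ce00000000000000000000000000000) (nat_lit 5)
theorem c8959 : QOK q8959 := cut [q5749, q8182] ⟨c5749, c8182, trivial⟩ (nd (nat_lit 144) (nat_lit 0) (cs (rf (nat_lit 0)) (rf (nat_lit 1)))) q8959 (by decide +kernel)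
def q8963 : Q := Q.p (nat_lit 0x10000140000000001c00000000000000000000000000000000000) (nat_lit 0x40000000000500000000006000008000020000000000000000000) (nat_lit 4)
theorem c8963 : QOK q8963 := cut [q8961] ⟨c8961, trivial⟩ (nd (nat_lit 121) (nat_lit 0) (cs (rf (nat_lit 0)) (lf (nat_lit 32) (nat_lit 120)))) q8963 (by decide +kernel)
def q8975 : Q := Q.p (nat_lit 0x100000000003c00000000000000000000000000000000000) (nat_lit 0x40000000001c00004000007800008000020000000000000000000) (nat_lit 6)
theorem c8975 : QOK q8975 := cut [q8961] ⟨c8961, trivial⟩ (nd (nat_lit 120) (nat_lit 0) (cs (lf (nat_lit 23) (nat_lit 119)) (nd (nat_lit 167) (nat_lit 0) (cs (lf (nat_lit 5) (nat_lit 142)) (nd (nat_lit 121) (nat_lit 0) (cs (rf (nat_lit 0)) (lf (nat_lit 18) (nat_lit 120)))))))) q8975 (by decide +kernel)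
def q9017 : Q := Q.p (nat_lit 0x1e00000000000000000000000000000000000) (nat_lit 0x380000e00007fc00000000000000000000000000000) (nat_lit 8)
theorem c9017 : QOK q9017 := cut [q8189] ⟨c8189, trivial⟩ (nd (nat_lit 119) (nat_lit 0) (cs (lf (nat_lit 23) (nat_lit 118)) (rf (nat_lit 0)))) q9017 (by decide +kernel)
def q9039 : Q := Q.p (nat_lit 0x100001c00000000000000000000000000000000000) (nat_lit 0x3880006000038000000000000000000000000000000) (nat_lit 5)
theorem c9039 : QOK q9039 := cut [q9038] ⟨c9038, trivial⟩ (nd (nat_lit 145) (nat_lit 0) (cs (lf (nat_lit 11) (nat_lit 141)) (rf (nat_lit 0)))) q9039 (by decide +kernel)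
def q9075 : Q := Q.p (nat_lit 0x10000040000200000e00000000000000000000000000000000000) (nat_lit 0x40000100005e0000100000800002000008000000000000000000) (nat_lit 6)
theorem c9075 : QOK q9075 := cut [q9072] ⟨c9072, trivial⟩ (nd (nat_lit 119) (nat_lit 0) (cs (lf (nat_lit 44) (nat_lit 119)) (nd (nat_lit 140) (nat_lit 0) (cs (lf (nat_lit 5) (nat_lit 140)) (nd (nat_lit 162) (nat_lit 0) (cs (lf (nat_lit 11) (nat_lit 139)) (rf (nat_lit 0)))))))) q9075 (by decide +kernel)
def q9094 : Q := Q.p (nat_lit 0x40000e00002000000000000000000000000000000) (nat_lit 0x1c80007000039000000000000000000000000000000) (nat_lit 6)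
theorem c9094 : QOK q9094 := cut [q9093] ⟨c9093, trivial⟩ (nd (nat_lit 144) (nat_lit 0) (cs (lf (nat_lit 10) (nat_lit 140)) (rf (nat_lit 0)))) q9094 (by decide +kernel)
def q9099 : Q := Q.p (nat_lit 0x1e00000000000000000000000000000000000) (nat_lit 0x1c00002000001c00000000000000000000000000000) (nat_lit 4)
theorem c9099 : QOK q9099 := cut [q5725] ⟨c5725, trivial⟩ (nd (nat_lit 167) (nat_lit 0) (cs (rf (nat_lit 0)) (lf (nat_lit 4) (nat_lit 141)))) q9099 (by decide +kernel)
def q9147 : Q := Q.p (nat_lit 0xf00000000000000000000000000000000000) (nat_lit 0x380000c0003f00000000000000000000000000000) (nat_lit 6)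
theorem c9147 : QOK q9147 := cut [q9145] ⟨c9145, trivial⟩ (nd (nat_lit 117) (nat_lit 0) (cs (lf (nat_lit 22) (nat_lit 117)) (nd (nat_lit 139) (nat_lit 0) (cs (lf (nat_lit 23) (nat_lit 116)) (rf (nat_lit 0)))))) q9147 (by decide +kernel)
def q9166 : Q := Q.p (nat_lit 0xf00000000000000000000000000000000000) (nat_lit 0x1ce000700003be00000000000000000000000000000) (nat_lit 9)
theorem c9166 : QOK q9166 := cut [q9161] ⟨c9161, trivial⟩ (nd (nat_lit 162) (nat_lit 0) (cs (lf (nat_lit 11) (nat_lit 139)) (nd (nat_lit 117) (nat_lit 0) (cs (lf (nat_lit 22) (nat_lit 117)) (nd (nat_lit 144) (nat_lit 0) (cs (lf (nat_lit 10) (nat_lit 140)) (nd (nat_lit 167) (nat_lit 0) (cs (lf (nat_lit 4) (nat_lit 141)) (nd (nat_lit 145) (nat_lit 0) (cs (lf (nat_lit 5) (nat_lit 142)) (rf (nat_lit 0)))))))))))) q9166 (by decide +kernel)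
def q9172 : Q := Q.p (nat_lit 0xc0000100000400000000000000000000000000000000000) (nat_lit 0x2800002000008000000000100000e0000380000a0000000000000) (nat_lit 7)
theorem c9172 : QOK q9172 := cut [q4911] ⟨c4911, trivial⟩ (nd (nat_lit 120) (nat_lit 0) (cs (lf (nat_lit 29) (nat_lit 120)) (nd (nat_lit 185) (nat_lit 0) (cs (lf (nat_lit 41) (nat_lit 119)) (nd (nat_lit 98) (nat_lit 0) (cs (rf (nat_lit 0)) (lf (nat_lit 40) (nat_lit 97)))))))) q9172 (by decide +kernel)
def q9222 : Q := Q.p (nat_lit 0x100001c0000400001000000000000000000000000000000000000) (nat_lit 0x4000000000020000080000e0000380000a0000000000000000000) (nat_lit 5)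
theorem c9222 : QOK q9222 := cut [q9219] ⟨c9219, trivial⟩ (nd (nat_lit 121) (nat_lit 0) (cs (nd (nat_lit 143) (nat_lit 0) (cs (lf (nat_lit 38) (nat_lit 120)) (lf (nat_lit 42) (nat_lit 121)))) (cs (rf (nat_lit 0)) (nd (nat_lit 99) (nat_lit 0) (cs (lf (nat_lit 45) (nat_lit 99)) (nd (nat_lit 143) (nat_lit 0) (cs (lf (nat_lit 42) (nat_lit 121)) (lf (nat_lit 24) (nat_lit 77))))))))) q9222 (by decide +kernel)
def q9242 : Q := Q.p (nat_lit 0x500001c0000400001000000000000000000000000000000000000) (nat_lit 0x14000020000000000300000800002000000000000000000000000000000) (nat_lit 4)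
theorem c9242 : QOK q9242 := cut [q9234] ⟨c9234, trivial⟩ (nd (nat_lit 143) (nat_lit 0) (cs (lf (nat_lit 47) (nat_lit 121)) (rf (nat_lit 0)))) q9242 (by decide +kernel)
def q9249 : Q := Q.p (nat_lit 0x100001c0000400000000000000000000000000000000000000000) (nat_lit 0x10000040000cc0000200008c0000200000000000000000000000000000000000) (nat_lit 6)
theorem c9249 : QOK q9249 := cut [q7992] ⟨c7992, trivial⟩ (nd (nat_lit 185) (nat_lit 0) (cs (lf (nat_lit 17) (nat_lit 163)) (nd (nat_lit 163) (nat_lit 0) (cs (lf (nat_lit 23) (nat_lit 162)) (nd (nat_lit 210) (nat_lit 0) (cs (lf (nat_lit 5) (nat_lit 185)) (rf (nat_lit 0)))))))) q9249 (by decide +kernel)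
def q9270 : Q := Q.p (nat_lit 0x100001c0000000000000000000000000000000000000000000000) (nat_lit 0x10000040001e00006380007e0000a00000800002000000000000000000000000) (nat_lit 10)
theorem c9270 : QOK q9270 := cut [q9258, q9266, q4806] ⟨c9258, c9266, c4806, trivial⟩ (nd (nat_lit 163) (nat_lit 0) (cs (nd (nat_lit 185) (nat_lit 0) (cs (lf (nat_lit 23) (nat_lit 162)) (nd (nat_lit 119) (nat_lit 0) (cs (lf (nat_lit 25) (nat_lit 119)) (nd (nat_lit 230) (nat_lit 0) (cs (lf (nat_lit 42) (nat_lit 163)) (nd (nat_lit 211) (nat_lit 0) (cs (lf (nat_lit 4) (nat_lit 185)) (nd (nat_lit 189) (nat_lit 0) (cs (lf (nat_lit 5) (nat_lit 186)) (nd (nat_lit 209) (nat_lit 0) (cs (lf (nat_lit 6) (nat_lit 186)) (nd (nat_lit 184) (nat_lit 0) (cs (lf (nat_lit 0) (nat_lit 183)) (rf (nat_lit 0)))))))))))))))) (cs (rf (nat_lit 1)) (cs (nd (nat_lit 164) (nat_lit 0) (cs (lf (nat_lit 18) (nat_lit 163)) (rf (nat_lit 2)))) (nd (nat_lit 162) (nat_lit 0) (cs (lf (nat_lit 21) (nat_lit 162)) (nd (nat_lit 164) (nat_lit 0) (cs (lf (nat_lit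 0) (nat_lit 161)) (lf (nat_lit 3) (nat_lit 162)))))))))) q9270 (by decide +kernel)
def q9282 : Q := Q.p (nat_lit 0x100001e0000200000000000000000000000000000000000000000) (nat_lit 0x1e0000600000100000000000000000000000000000000000000000) (nat_lit 4)
theorem c9282 : QOK q9282 := cut [q9281] ⟨c9281, trivial⟩ (nd (nat_lit 211) (nat_lit 0) (cs (lf (nat_lit 4) (nat_lit 185)) (rf (nat_lit 0)))) q9282 (by decide +kernel)
def q9364 : Q := Q.p (nat_lit 0x2000000000070000000000000000000000000000000000000000000000000000) (nat_lit 0xa000098000e6000180000fe0000f80001f80000800000000000000000000000000000) (nat_lit 15)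
theorem c9364 : QOK q9364 := cut [q694, q7420, q9350] ⟨c694, c7420, c9350, trivial⟩ (nd (nat_lit 211) (nat_lit 0) (cs (rf (nat_lit 0)) (cs (rf (nat_lit 1)) (nd (nat_lit 233) (nat_lit 0) (cs (lf (nat_lit 5) (nat_lit 208)) (nd (nat_lit 186) (nat_lit 0) (cs (lf (nat_lit 23) (nat_lit 185)) (nd (nat_lit 230) (nat_lit 0) (cs (lf (nat_lit 11) (nat_lit 207)) (nd (nat_lit 189) (nat_lit 0) (cs (lf (nat_lit 17) (nat_lit 186)) (nd (nat_lit 252) (nat_lit 0) (cs (lf (nat_lit 29) (nat_lit 186)) (nd (nat_lit 251) (nat_lit 0) (cs (lf (nat_lit 41) (nat_lit 185)) (nd (nat_lit 165) (nat_lit 0) (cs (lf (nat_lit 34) (nat_lit 164)) (nd (nat_lit 164) (nat_lit 0) (cs (lf (nat_lit 35) (nat_lit 142)) (nd (nat_lit 141) (nat_lit 0) (cs (lf (nat_lit 46) (nat_lit 141)) (nd (nat_lit 142) (nat_lit 0) (cs (lf (nat_lit 47) (nat_lit 119)) (nd (nat_lit 139) (nat_lit 0) (cs (nd (nat_lit 166) (nat_lit 0) (cs (lf (nat_lit 18) (nat_lit 141)) (rf (nat_lit 2)))) (lf (nat_lit 1) (nat_lit 139))))))))))))))))))))))))))) q9364 (by decide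 +kernel)
def q9390 : Q := Q.p (nat_lit 0x8000020000000000700000000000000000000000000000000000000000) (nat_lit 0x80000880000780000000000000000000000000000000000) (nat_lit 4)
theorem c9390 : QOK q9390 := cut [q9388] ⟨c9388, trivial⟩ (nd (nat_lit 142) (nat_lit 0) (cs (rf (nat_lit 0)) (lf (nat_lit 44) (nat_lit 142)))) q9390 (by decide +kernel)
def q9472 : Q := Q.p (nat_lit 0x2000000000070000000000000000000000000000000000000000000000000000) (nat_lit 0x2000008000000000ee000180000f60000100000000000000000000000000000000000000000) (nat_lit 7)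
theorem c9472 : QOK q9472 := cut [q694, q9468] ⟨c694, c9468, trivial⟩ (nd (nat_lit 211) (nat_lit 0) (cs (rf (nat_lit 0)) (cs (nd (nat_lit 230) (nat_lit 0) (cs (lf (nat_lit 11) (nat_lit 207)) (nd (nat_lit 189) (nat_lit 0) (cs (lf (nat_lit 17) (nat_lit 186)) (nd (nat_lit 186) (nat_lit 0) (cs (lf (nat_lit 23) (nat_lit 185)) (nd (nat_lit 231) (nat_lit 0) (cs (lf (nat_lit 42) (nat_lit 186)) (lf (nat_lit 24) (nat_lit 164)))))))))) (nd (nat_lit 185) (nat_lit 0) (cs (lf (nat_lit 22) (nat_lit 185)) (nd (nat_lit 230) (nat_lit 0) (cs (lf (nat_lit 11) (nat_lit 207)) (nd (nat_lit 233) (nat_lit 0) (cs (lf (nat_lit 5) (nat_lit 208)) (rf (nat_lit 1))))))))))) q9472 (by decide +kernel)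
def q9473 : Q := Q.p (nat_lit 0x20000000000f0000000000000000000000000000000000000000000000000000) (nat_lit 0x8000000000080000000000e0000100000400000000000000000000000000000000000) (nat_lit 4)
theorem c9473 : QOK q9473 := cut [q35] ⟨c35, trivial⟩ (nd (nat_lit 186) (nat_lit 0) (cs (rf (nat_lit 0)) (lf (nat_lit 23) (nat_lit 185)))) q9473 (by decide +kernel)
def q9483 : Q := Q.p (nat_lit 0xf00001c0000000000000000000000000000000000000000000000) (nat_lit 0x2000008000070000000000600001800002000008000000000000000000000000000000) (nat_lit 6)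
theorem c9483 : QOK q9483 := cut [q7444] ⟨c7444, trivial⟩ (nd (nat_lit 233) (nat_lit 0) (cs (lf (nat_lit 5) (nat_lit 208)) (nd (nat_lit 255) (nat_lit 0) (cs (lf (nat_lit 42) (nat_lit 188)) (nd (nat_lit 189) (nat_lit 0) (cs (lf (nat_lit 17) (nat_lit 186)) (rf (nat_lit 0)))))))) q9483 (by decide +kernel)
def q9493 : Q := Q.p (nat_lit 0x2000000000070000000000000000000000000000000000000000000000000000) (nat_lit 0x80000000000c0000800000f8000100000400000000000000000000000000000000000) (nat_lit 4)
theorem c9493 : QOK q9493 := cut [q75, q2238] ⟨c75, c2238, trivial⟩ (nd (nat_lit 186) (nat_lit 0) (cs (rf (nat_lit 0)) (rf (nat_lit 1)))) q9493 (by decide +kernel)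
def q9508 : Q := Q.p (nat_lit 0xc0000300000c0000000000000000000000000000000000000000000000) (nat_lit 0x18000160001380000e0000380000e0000200000800000000000000000000000000000) (nat_lit 9)
theorem c9508 : QOK q9508 := cut [q8577, q9496, q9507] ⟨c8577, c9496, c9507, trivial⟩ (nd (nat_lit 185) (nat_lit 0) (cs (rf (nat_lit 0)) (cs (nd (nat_lit 163) (nat_lit 0) (cs (lf (nat_lit 42) (nat_lit 163)) (nd (nat_lit 119) (nat_lit 0) (cs (lf (nat_lit 25) (nat_lit 119)) (nd (nat_lit 184) (nat_lit 0) (cs (lf (nat_lit 0) (nat_lit 183)) (nd (nat_lit 162) (nat_lit 0) (cs (lf (nat_lit 23) (nat_lit 161)) (nd (nat_lit 206) (nat_lit 0) (cs (lf (nat_lit 11) (nat_lit 183)) (rf (nat_lit 1)))))))))))) (rf (nat_lit 2))))) q9508 (by decide +kernel)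
def q9512 : Q := Q.p (nat_lit 0xf000030000000000000000000000000000000000000000000000000000) (nat_lit 0xe00070000008000000000000000000000000000000000000000000000000000) (nat_lit 4)
theorem c9512 : QOK q9512 := cut [q9511] ⟨c9511, trivial⟩ (nd (nat_lit 250) (nat_lit 0) (cs (lf (nat_lit 11) (nat_lit 227)) (rf (nat_lit 0)))) q9512 (by decide +kernel)
def q9554 : Q := Q.p (nat_lit 0x300000c0000100000000000000000000000000000000000000000) (nat_lit 0x1000004000000000718001ee0007b80004000000000000000000000000000000) (nat_lit 9)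
theorem c9554 : QOK q9554 := cut [q2806, q8266] ⟨c2806, c8266, trivial⟩ (nd (nat_lit 165) (nat_lit 0) (cs (rf (nat_lit 0)) (rf (nat_lit 1)))) q9554 (by decide +kernel)
def q9557 : Q := Q.p (nat_lit 0x100000c0000100000400000000000000000000000000000000000) (nat_lit 0x40000000003200000e0000200000800000000000000000000000000000) (nat_lit 5)
theorem c9557 : QOK q9557 := cut [q4950] ⟨c4950, trivial⟩ (nd (nat_lit 141) (nat_lit 0) (cs (lf (nat_lit 47) (nat_lit 119)) (nd (nat_lit 163) (nat_lit 0) (cs (lf (nat_lit 42) (nat_lit 141)) (rf (nat_lit 0)))))) q9557 (by decide +kernel)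
def q9567 : Q := Q.p (nat_lit 0x300000c0000100000000000000000000000000000000000000000) (nat_lit 0x4000000000120001e00007e0001f800020000080000000000000000000) (nat_lit 11)
theorem c9567 : QOK q9567 := cut [q9566] ⟨c9566, trivial⟩ (nd (nat_lit 142) (nat_lit 0) (cs (lf (nat_lit 24) (nat_lit 120)) (rf (nat_lit 0)))) q9567 (by decide +kernel)
def q9572 : Q := Q.p (nat_lit 0x300000c0000100000000000000000000000000000000000000000) (nat_lit 0x718001ee0007f80007800000000000000000000000000000) (nat_lit 9)
theorem c9572 : QOK q9572 := cut [q8266, q8327, q8380, q1699] ⟨c8266, c8327, c8380, c1699, trivial⟩ (nd (nat_lit 165) (nat_lit 0) (cs (rf (nat_lit 0)) (cs (rf (nat_lit 1)) (cs (rf (nat_lit 2)) (nd (nat_lit 142) (nat_lit 0) (cs (lf (nat_lit 24) (nat_lit 120)) (nd (nat_lit 119) (nat_lit 0) (cs (lf (nat_lit 46) (nat_lit 119)) (nd (nat_lit 143) (nat_lit 0) (cs (lf (nat_lit 35) (nat_lit 120)) (rf (nat_lit 3)))))))))))) q9572 (by decide +kernel)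
def q9575 : Q := Q.p (nat_lit 0x300000c0000100000000000000000000000000000000000000000) (nat_lit 0x4000000000000000280007c00007000000000000000000000000000000) (nat_lit 6)
theorem c9575 : QOK q9575 := cut [q1699] ⟨c1699, trivial⟩ (nd (nat_lit 142) (nat_lit 0) (cs (lf (nat_lit 24) (nat_lit 120)) (nd (nat_lit 143) (nat_lit 0) (cs (lf (nat_lit 35) (nat_lit 120)) (nd (nat_lit 165) (nat_lit 0) (cs (rf (nat_lit 0)) (lf (nat_lit 41) (nat_lit 142)))))))) q9575 (by decide +kernel)
def q9612 : Q := Q.p (nat_lit 0x300001c0000000000c00000000000000000000000000000000000) (nat_lit 0xc000020003c0000720003fc00000000000000000000000000000) (nat_lit 6)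
theorem c9612 : QOK q9612 := cut [q9026, q9013, q9038, q9161, q8984, q9015] ⟨c9026, c9013, c9038, c9161, c8984, c9015, trivial⟩ (nd (nat_lit 144) (nat_lit 0) (cs (nd (nat_lit 206) (nat_lit 0) (cs (lf (nat_lit 13) (nat_lit 184)) (nd (nat_lit 122) (nat_lit 0) (cs (rf (nat_lit 0)) (lf (nat_lit 38) (nat_lit 121)))))) (cs (nd (nat_lit 145) (nat_lit 0) (cs (rf (nat_lit 1)) (cs (rf (nat_lit 2)) (rf (nat_lit 3))))) (cs (nd (nat_lit 145) (nat_lit 0) (cs (rf (nat_lit 4)) (cs (rf (nat_lit 5)) (rf (nat_lit 2))))) (nd (nat_lit 206) (nat_lit 0) (cs (lf (nat_lit 13) (nat_lit 184)) (nd (nat_lit 166) (nat_lit 0) (cs (lf (nat_lit 36) (nat_lit 121)) (nd (nat_lit 167) (nat_lit 0) (cs (lf (nat_lit 12) (nat_lit 163)) (nd (nat_lit 168) (nat_lit 0) (cs (lf (nat_lit 6) (nat_lit 165)) (lf (nat_lit 3) (nat_lit 142)))))))))))))) q9612 (by decide +kernel)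
def q9616 : Q := Q.p (nat_lit 0x300000c0000000000400000000000000000000000000000000000) (nat_lit 0x4000000000120001f00007a0001f800020000080000000000000000000) (nat_lit 11)
theorem c9616 : QOK q9616 := cut [q9566] ⟨c9566, trivial⟩ (nd (nat_lit 164) (nat_lit 0) (cs (lf (nat_lit 24) (nat_lit 120)) (rf (nat_lit 0)))) q9616 (by decide +kernel)
def q9644 : Q := Q.p (nat_lit 0x800002000008000030000000000000000000000000000000000000000000000000000) (nat_lit 0x60000100000000003000004c000100000000000000000000000000000000000000000000000) (nat_lit 5)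
theorem c9644 : QOK q9644 := cut [q2931] ⟨c2931, trivial⟩ (nd (nat_lit 276) (nat_lit 0) (cs (lf (nat_lit 29) (nat_lit 209)) (rf (nat_lit 0)))) q9644 (by decide +kernel)
def q9647 : Q := Q.p (nat_lit 0x2000008000030000000000000000000000000000000000000000000000000000) (nat_lit 0x100000600001800000000004000000000040000000000000000000000000000000000000000000000) (nat_lit 4)
theorem c9647 : QOK q9647 := cut [q732] ⟨c732, trivial⟩ (nd (nat_lit 275) (nat_lit 0) (cs (rf (nat_lit 0)) (lf (nat_lit 47) (nat_lit 186)))) q9647 (by decide +kernel)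
def q9650 : Q := Q.p (nat_lit 0x8000070000000000000000000000000000000000000000000000000000) (nat_lit 0xf7000188000e00000000000000000000000000000000000000000000000) (nat_lit 5)
theorem c9650 : QOK q9650 := cut [q694, q7439, q8148] ⟨c694, c7439, c8148, trivial⟩ (nd (nat_lit 211) (nat_lit 0) (cs (rf (nat_lit 0)) (cs (rf (nat_lit 1)) (rf (nat_lit 2))))) q9650 (by decide +kernel)
def q9654 : Q := Q.p (nat_lit 0x2000008000030000000000000000000000000000000000000000000000000000) (nat_lit 0x100000400004c0007c0000700000c00000000000000000000000000000000000) (nat_lit 5)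
theorem c9654 : QOK q9654 := cut [q2212, q9653] ⟨c2212, c9653, trivial⟩ (nd (nat_lit 187) (nat_lit 0) (cs (rf (nat_lit 0)) (rf (nat_lit 1)))) q9654 (by decide +kernel)
def q9664 : Q := Q.p (nat_lit 0x2000008000030000000000000000000000000000000000000000000000000000) (nat_lit 0x800000000075c001ce000fb8000400000000000000000000000000000000000000000) (nat_lit 8)
theorem c9664 : QOK q9664 := cut [q2961, q2964, q9657, q9659, q2937] ⟨c2961, c2964, c9657, c9659, c2937, trivial⟩ (nd (nat_lit 210) (nat_lit 0) (cs (rf (nat_lit 0)) (cs (rf (nat_lit 1)) (nd (nat_lit 233) (nat_lit 0) (cs (rf (nat_lit 2)) (cs (rf (nat_lit 3)) (nd (nat_lit 207) (nat_lit 0) (cs (lf (nat_lit 4) (nat_lit 207)) (nd (nat_lit 184) (nat_lit 0) (cs (lf (nat_lit 22) (nat_lit 184)) (nd (nat_lit 206) (nat_lit 0) (cs (lf (nat_lit 23) (nat_lit 183)) (rf (nat_lit 4)))))))))))))) q9664 (by decide +kernel)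
def q9703 : Q := Q.p (nat_lit 0x2000008000030000040000000000000000000000000000000000000000000000) (nat_lit 0x4000010000100000c00001b0001f00001800002000000000000000000000000000000) (nat_lit 9)
theorem c9703 : QOK q9703 := cut [q267] ⟨c267, trivial⟩ (nd (nat_lit 187) (nat_lit 0) (cs (lf (nat_lit 47) (nat_lit 164)) (nd (nat_lit 252) (nat_lit 0) (cs (lf (nat_lit 41) (nat_lit 186)) (nd (nat_lit 166) (nat_lit 0) (cs (lf (nat_lit 34) (nat_lit 165)) (nd (nat_lit 165) (nat_lit 0) (cs (lf (nat_lit 35) (nat_lit 143)) (nd (nat_lit 143) (nat_lit 0) (cs (lf (nat_lit 36) (nat_lit 120)) (nd (nat_lit 167) (nat_lit 0) (cs (rf (nat_lit 0)) (lf (nat_lit 6) (nat_lit 164)))))))))))))) q9703 (by decide +kernel)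
def q9723 : Q := Q.p (nat_lit 0x100000f0000000000000000000000000000000000000000000000) (nat_lit 0x10000040000080001000000e0000200000800000000000000000000000000000) (nat_lit 5)
theorem c9723 : QOK q9723 := cut [q9722] ⟨c9722, trivial⟩ (nd (nat_lit 162) (nat_lit 0) (cs (lf (nat_lit 23) (nat_lit 161)) (rf (nat_lit 0)))) q9723 (by decide +kernel)
def q9773 : Q := Q.p (nat_lit 0x400003c00000000000000000000000000000000000000000000000000000000000000) (nat_lit 0x3c0000300000e00000000000000000000000000000000000000000000000000000000) (nat_lit 5)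
theorem c9773 : QOK q9773 := cut [q9771] ⟨c9771, trivial⟩ (nd (nat_lit 271) (nat_lit 0) (cs (lf (nat_lit 10) (nat_lit 249)) (nd (nat_lit 249) (nat_lit 0) (cs (lf (nat_lit 11) (nat_lit 248)) (rf (nat_lit 0)))))) q9773 (by decide +kernel)
def q9890 : Q := Q.p (nat_lit 0x30000080000200000000000000000000000000000000000000000) (nat_lit 0x4000000000040000000000c00003000004000000000000000000000000) (nat_lit 4)
theorem c9890 : QOK q9890 := cut [q7587] ⟨c7587, trivial⟩ (nd (nat_lit 143) (nat_lit 0) (cs (lf (nat_lit 41) (nat_lit 142)) (rf (nat_lit 0)))) q9890 (by decide +kernel)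
def q9949 : Q := Q.p (nat_lit 0x2000008000070000080000000000000000000000000000000000000000000000) (nat_lit 0x4000010000f0000180000e60007e0003fc0003f800000000000000000000000000000) (nat_lit 15)
theorem c9949 : QOK q9949 := cut [q694, q9902, q9908, q9913, q9934, q9941, q9948] ⟨c694, c9902, c9908, c9913, c9934, c9941, c9948, trivial⟩ (nd (nat_lit 211) (nat_lit 0) (cs (rf (nat_lit 0)) (cs (nd (nat_lit 233) (nat_lit 0) (cs (lf (nat_lit 5) (nat_lit 208)) (nd (nat_lit 189) (nat_lit 0) (cs (lf (nat_lit 17) (nat_lit 186)) (nd (nat_lit 144) (nat_lit 0) (cs (nd (nat_lit 166) (nat_lit 0) (cs (lf (nat_lit 45) (nat_lit 144)) (lf (nat_lit 33) (nat_lit 143)))) (cs (nd (nat_lit 252) (nat_lit 0) (cs (lf (nat_lit 41) (nat_lit 186)) (nd (nat_lit 165) (nat_lit 0) (cs (lf (nat_lit 34) (nat_lit 143)) (nd (nat_lit 143) (nat_lit 0) (cs (lf (nat_lit 29) (nat_lit 143)) (lf (nat_lit 35) (nat_lit 121)))))))) (cs (nd (nat_lit 143) (nat_lit 0) (cs (nd (nat_lit 165) (nat_lit 0) (cs (lf (nat_lit 29) (nat_lit 143)) (lf (nat_lit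 35) (nat_lit 121)))) (cs (nd (nat_lit 252) (nat_lit 0) (cs (lf (nat_lit 41) (nat_lit 186)) (nd (nat_lit 165) (nat_lit 0) (cs (lf (nat_lit 29) (nat_lit 143)) (rf (nat_lit 1)))))) (cs (nd (nat_lit 145) (nat_lit 0) (cs (nd (nat_lit 167) (nat_lit 0) (cs (lf (nat_lit 41) (nat_lit 144)) (lf (nat_lit 47) (nat_lit 122)))) (cs (nd (nat_lit 146) (nat_lit 0) (cs (nd (nat_lit 124) (nat_lit 0) (cs (lf (nat_lit 17) (nat_lit 121)) (nd (nat_lit 168) (nat_lit 0) (cs (lf (nat_lit 5) (nat_lit 143)) (rf (nat_lit 2)))))) (cs (nd (nat_lit 252) (nat_lit 0) (cs (lf (nat_lit 41) (nat_lit 186)) (nd (nat_lit 121) (nat_lit 0) (cs (lf (nat_lit 23) (nat_lit 120)) (nd (nat_lit 169) (nat_lit 0) (cs (rf (nat_lit 3)) (lf (nat_lit 4) (nat_lit 143)))))))) (cs (nd (nat_lit 185) (nat_lit 0) (cs (lf (nat_lit 22) (nat_lit 185)) (nd (nat_lit 124) (nat_lit 0) (cs (lf (nat_lit 17) (nat_lit 121)) (nd (nat_lit 123) (nat_lit 0) (cs (nd (nat_lit 252) (nat_lit 0) (cs (lf (nat_lit 41) (nat_lit 186)) (nd (nat_lit 169) (nat_lit 0) (cs (lf (nat_lit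 4) (nat_lit 143)) (nd (nat_lit 147) (nat_lit 0) (cs (lf (nat_lit 5) (nat_lit 144)) (nd (nat_lit 148) (nat_lit 0) (cs (lf (nat_lit 18) (nat_lit 123)) (lf (nat_lit 23) (nat_lit 122)))))))))) (lf (nat_lit 12) (nat_lit 120)))))))) (nd (nat_lit 185) (nat_lit 0) (cs (lf (nat_lit 22) (nat_lit 185)) (nd (nat_lit 252) (nat_lit 0) (cs (lf (nat_lit 41) (nat_lit 186)) (nd (nat_lit 124) (nat_lit 0) (cs (lf (nat_lit 17) (nat_lit 121)) (rf (nat_lit 2)))))))))))) (nd (nat_lit 252) (nat_lit 0) (cs (lf (nat_lit 41) (nat_lit 186)) (nd (nat_lit 167) (nat_lit 0) (cs (lf (nat_lit 41) (nat_lit 144)) (rf (nat_lit 4))))))))) (nd (nat_lit 252) (nat_lit 0) (cs (lf (nat_lit 41) (nat_lit 186)) (nd (nat_lit 165) (nat_lit 0) (cs (lf (nat_lit 35) (nat_lit 121)) (rf (nat_lit 1)))))))))) (nd (nat_lit 185) (nat_lit 0) (cs (lf (nat_lit 22) (nat_lit 185)) (nd (nat_lit 167) (nat_lit 0) (cs (rf (nat_lit 5)) (lf (nat_lit 46) (nat_lit 144)))))))))))))) (rf (nat_lit 6))))) q9949 (by decide +kernel)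
def q9962 : Q := Q.p (nat_lit 0xc0000200000800000000000000000000000000000000000000000) (nat_lit 0x1000000000000000000000700001c000050000000000000000000000000) (nat_lit 5)
theorem c9962 : QOK q9962 := cut [q9961] ⟨c9961, trivial⟩ (nd (nat_lit 145) (nat_lit 0) (cs (lf (nat_lit 41) (nat_lit 144)) (rf (nat_lit 0)))) q9962 (by decide +kernel)
def q9991 : Q := Q.p (nat_lit 0xf00003c0000000000000000000000000000000000000000000000) (nat_lit 0x2000008000070000000000000001800002000008000000000000000000000000000000) (nat_lit 5)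
theorem c9991 : QOK q9991 := cut [q7444] ⟨c7444, trivial⟩ (nd (nat_lit 233) (nat_lit 0) (cs (lf (nat_lit 5) (nat_lit 208)) (nd (nat_lit 255) (nat_lit 0) (cs (rf (nat_lit 0)) (lf (nat_lit 42) (nat_lit 188)))))) q9991 (by decide +kernel)
def q9998 : Q := Q.p (nat_lit 0x2000008000070000080000000000000000000000000000000000000000000000) (nat_lit 0x10000000000140000600001c00003000004000000000000000000000000) (nat_lit 6)
theorem c9998 : QOK q9998 := cut [q9895] ⟨c9895, trivial⟩ (nd (nat_lit 166) (nat_lit 0) (cs (lf (nat_lit 34) (nat_lit 165)) (nd (nat_lit 165) (nat_lit 0) (cs (lf (nat_lit 35) (nat_lit 143)) (rf (nat_lit 0)))))) q9998 (by decide +kernel)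
def q10096 : Q := Q.p (nat_lit 0x2000000000070000000000000000000000000000000000000000000000000000) (nat_lit 0x3800000c000fb8001c00003e0000e000028000000000000000000000000) (nat_lit 8)
theorem c10096 : QOK q10096 := cut [q7537, q7550, q7538, q7539, q7548, q4638, q4656, q8052] ⟨c7537, c7550, c7538, c7539, c7548, c4638, c4656, c8052, trivial⟩ (nd (nat_lit 188) (nat_lit 0) (cs (rf (nat_lit 0)) (cs (rf (nat_lit 1)) (nd (nat_lit 166) (nat_lit 0) (cs (rf (nat_lit 2)) (cs (rf (nat_lit 3)) (cs (rf (nat_lit 4)) (nd (nat_lit 144) (nat_lit 0) (cs (rf (nat_lit 5)) (cs (rf (nat_lit 6)) (rf (nat_lit 7)))))))))))) q10096 (by decide +kernel)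
def q10106 : Q := Q.p (nat_lit 0x1a000070000000000000000000000000000000000000000000000000000) (nat_lit 0x4000380000e00000000000000000000000000000000000000000000000) (nat_lit 4)
theorem c10106 : QOK q10106 := cut [q10105] ⟨c10105, trivial⟩ (nd (nat_lit 211) (nat_lit 0) (cs (lf (nat_lit 10) (nat_lit 207)) (rf (nat_lit 0)))) q10106 (by decide +kernel)
def q10130 : Q := Q.p (nat_lit 0x2000008000030000080000000000000000000000000000000000000000000000) (nat_lit 0x20000080000600001c0003600004c000740000200000000000000000000000000000000000000000) (nat_lit 8)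
theorem c10130 : QOK q10130 := cut [q1475, q10062] ⟨c1475, c10062, trivial⟩ (nd (nat_lit 207) (nat_lit 0) (cs (rf (nat_lit 0)) (nd (nat_lit 252) (nat_lit 0) (cs (lf (nat_lit 41) (nat_lit 186)) (nd (nat_lit 230) (nat_lit 0) (cs (lf (nat_lit 36) (nat_lit 164)) (nd (nat_lit 232) (nat_lit 0) (cs (lf (nat_lit 18) (nat_lit 207)) (nd (nat_lit 251) (nat_lit 0) (cs (lf (nat_lit 12) (nat_lit 228)) (rf (nat_lit 1)))))))))))) q10130 (by decide +kernel)
def q10154 : Q := Q.p (nat_lit 0x200000f0000000000400000000000000000000000000000000000000000) (nat_lit 0x10000000000600001800007000010000000000000000000000000000000) (nat_lit 5)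
theorem c10154 : QOK q10154 := cut [q10152] ⟨c10152, trivial⟩ (nd (nat_lit 189) (nat_lit 0) (cs (lf (nat_lit 17) (nat_lit 186)) (nd (nat_lit 167) (nat_lit 0) (cs (lf (nat_lit 47) (nat_lit 144)) (rf (nat_lit 0)))))) q10154 (by decide +kernel)
def q10250 : Q := Q.p (nat_lit 0x400001000004000010000000000000000000000000000000000000000000000) (nat_lit 0x80000300000800000000002000008000020000000000000000000000000000000000000000) (nat_lit 4)
theorem c10250 : QOK q10250 := cut [q10249] ⟨c10249, trivial⟩ (nd (nat_lit 273) (nat_lit 0) (cs (lf (nat_lit 28) (nat_lit 184)) (rf (nat_lit 0)))) q10250 (by decide +kernel)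
def q10284 : Q := Q.p (nat_lit 0x180000e0000000000000000000000000000000000000000000000) (nat_lit 0x40000000003000000c0000200000800000000000000000000000000000) (nat_lit 4)
theorem c10284 : QOK q10284 := cut [q1800] ⟨c1800, trivial⟩ (nd (nat_lit 188) (nat_lit 0) (cs (lf (nat_lit 6) (nat_lit 185)) (rf (nat_lit 0)))) q10284 (by decide +kernel)
def q10296 : Q := Q.p (nat_lit 0x100000c0000100000000000000000000000000000000000000000) (nat_lit 0x40000000003200002e0000200000800002000000000000000000000000) (nat_lit 4)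
theorem c10296 : QOK q10296 := cut [q4806, q10295] ⟨c4806, c10295, trivial⟩ (nd (nat_lit 163) (nat_lit 0) (cs (rf (nat_lit 0)) (rf (nat_lit 1)))) q10296 (by decide +kernel)
def q10341 : Q := Q.p (nat_lit 0x8000078000040000000000000000000000000000000000000000000000) (nat_lit 0x300000c00037000000000038000000000000000000000000000000000000000000000) (nat_lit 6)
theorem c10341 : QOK q10341 := cut [q37, q3007] ⟨c37, c3007, trivial⟩ (nd (nat_lit 185) (nat_lit 0) (cs (rf (nat_lit 0)) (rf (nat_lit 1)))) q10341 (by decide +kernel)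
def q10372 : Q := Q.p (nat_lit 0x30000080000200000000000000000000000000000000000000000) (nat_lit 0x14000040000100000000001800006000010000000000000000000000000) (nat_lit 5)
theorem c10372 : QOK q10372 := cut [q7457] ⟨c7457, trivial⟩ (nd (nat_lit 143) (nat_lit 0) (cs (lf (nat_lit 41) (nat_lit 142)) (rf (nat_lit 0)))) q10372 (by decide +kernel)
def q10386 : Q := Q.p (nat_lit 0x8000078000000000000000000000000000000000000000000000000000) (nat_lit 0x1d7000380000e00000000000000000000000000000000000000000000000) (nat_lit 7)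
theorem c10386 : QOK q10386 := cut [q10384] ⟨c10384, trivial⟩ (nd (nat_lit 229) (nat_lit 0) (cs (lf (nat_lit 11) (nat_lit 206)) (nd (nat_lit 211) (nat_lit 0) (cs (lf (nat_lit 10) (nat_lit 207)) (rf (nat_lit 0)))))) q10386 (by decide +kernel)
def q10421 : Q := Q.p (nat_lit 0x20000000000300000c0000000000000000000000000000000000000000000000) (nat_lit 0x60000180000e000000000000000180000e00003800000000000000000000000000000) (nat_lit 8)
theorem c10421 : QOK q10421 := cut [q10420] ⟨c10420, trivial⟩ (nd (nat_lit 164) (nat_lit 0) (cs (lf (nat_lit 43) (nat_lit 164)) (rf (nat_lit 0)))) q10421 (by decide +kernel)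
def q10424 : Q := Q.p (nat_lit 0x40000300000c0000000000000000000000000000000000000000000000) (nat_lit 0x600001800002000000000020000180000200000000000000000000000000000000000) (nat_lit 5)
theorem c10424 : QOK q10424 := cut [q1408] ⟨c1408, trivial⟩ (nd (nat_lit 252) (nat_lit 0) (cs (lf (nat_lit 30) (nat_lit 186)) (rf (nat_lit 0)))) q10424 (by decide +kernel)
def q10512 : Q := Q.p (nat_lit 0x300001c0000000000000000000000000000000000000000000000) (nat_lit 0x1c00006380000e0000000000000000000000000000000000000000) (nat_lit 6)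
theorem c10512 : QOK q10512 := cut [q10509] ⟨c10509, trivial⟩ (nd (nat_lit 189) (nat_lit 0) (cs (lf (nat_lit 6) (nat_lit 186)) (nd (nat_lit 211) (nat_lit 0) (cs (lf (nat_lit 5) (nat_lit 186)) (nd (nat_lit 185) (nat_lit 0) (cs (lf (nat_lit 19) (nat_lit 185)) (rf (nat_lit 0)))))))) q10512 (by decide +kernel)
def q10519 : Q := Q.p (nat_lit 0x2000008000020000080000000000000000000000000000000000000000000000) (nat_lit 0x400001000004000000000100000600001000000000000000000000000000000000000) (nat_lit 4)
theorem c10519 : QOK q10519 := cut [q10518] ⟨c10518, trivial⟩ (nd (nat_lit 252) (nat_lit 0) (cs (lf (nat_lit 41) (nat_lit 186)) (rf (nat_lit 0)))) q10519 (by decide +kernel)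
def q10539 : Q := Q.p (nat_lit 0x70000000000000000000000000000000000000000000000000000) (nat_lit 0xf0000188000f70000000000000000000000000000000000000000000000) (nat_lit 5)
theorem c10539 : QOK q10539 := cut [q694, q7443, q9887] ⟨c694, c7443, c9887, trivial⟩ (nd (nat_lit 211) (nat_lit 0) (cs (rf (nat_lit 0)) (cs (rf (nat_lit 1)) (rf (nat_lit 2))))) q10539 (by decide +kernel)
def q10647 : Q := Q.p (nat_lit 0x38000000000000000000000000000000000000000000000000000) (nat_lit 0x3b8000440007c0000000000000000000000000000000000000000000000) (nat_lit 6)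
theorem c10647 : QOK q10647 := cut [q2016, q10640, q10643, q10646] ⟨c2016, c10640, c10643, c10646, trivial⟩ (nd (nat_lit 188) (nat_lit 0) (cs (rf (nat_lit 0)) (cs (nd (nat_lit 210) (nat_lit 0) (cs (lf (nat_lit 17) (nat_lit 185)) (rf (nat_lit 1)))) (cs (nd (nat_lit 206) (nat_lit 0) (cs (lf (nat_lit 16) (nat_lit 184)) (rf (nat_lit 2)))) (rf (nat_lit 3)))))) q10647 (by decide +kernel)
def q10665 : Q := Q.p (nat_lit 0x2000008000078000080000000000000000000000000000000000000000000000) (nat_lit 0x400001000003000180000740000100000000000000000000000000000000000000000) (nat_lit 6)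
theorem c10665 : QOK q10665 := cut [q10663] ⟨c10663, trivial⟩ (nd (nat_lit 252) (nat_lit 0) (cs (lf (nat_lit 41) (nat_lit 186)) (nd (nat_lit 228) (nat_lit 0) (cs (lf (nat_lit 10) (nat_lit 206)) (rf (nat_lit 0)))))) q10665 (by decide +kernel)
def q10671 : Q := Q.p (nat_lit 0x8000070000200000000000000000000000000000000000000000000000) (nat_lit 0xe4000180000400000000000000000000000000000000000000000000000) (nat_lit 4)
theorem c10671 : QOK q10671 := cut [q10670] ⟨c10670, trivial⟩ (nd (nat_lit 211) (nat_lit 0) (cs (lf (nat_lit 17) (nat_lit 186)) (rf (nat_lit 0)))) q10671 (by decide +kernel)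
def q10724 : Q := Q.p (nat_lit 0x20000080000b0000080000000000000000000000000000000000000000000000) (nat_lit 0x380000e0006780019e00077800046000740000d00003400000000000000000000000000000000000) (nat_lit 13)
theorem c10724 : QOK q10724 := cut [q10678, q9419, q10593, q2975, q10692, q33, q10704, q10708] ⟨c10678, c9419, c10593, c2975, c10692, c33, c10704, c10708, trivial⟩ (nd (nat_lit 230) (nat_lit 0) (cs (nd (nat_lit 252) (nat_lit 0) (cs (lf (nat_lit 30) (nat_lit 186)) (nd (nat_lit 166) (nat_lit 0) (cs (lf (nat_lit 34) (nat_lit 165)) (nd (nat_lit 210) (nat_lit 0) (cs (lf (nat_lit 11) (nat_lit 207)) (nd (nat_lit 189) (nat_lit 0) (cs (lf (nat_lit 17) (nat_lit 186)) (nd (nat_lit 233) (nat_lit 0) (cs (lf (nat_lit 5) (nat_lit 208)) (nd (nat_lit 232) (nat_lit 0) (cs (lf (nat_lit 11) (nat_lit 229)) (rf (nat_lit 0)))))))))))))) (cs (nd (nat_lit 210) (nat_lit 0) (cs (lf (nat_lit 11) (nat_lit 207)) (nd (nat_lit 188) (nat_lit 0) (cs (lf (nat_lit 35) (nat_lit 165)) (nd (nat_lit 189) (nat_lit 0) (cs (lf (nat_lit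 6) (nat_lit 186)) (nd (nat_lit 164) (nat_lit 0) (cs (lf (nat_lit 46) (nat_lit 164)) (rf (nat_lit 1)))))))))) (cs (nd (nat_lit 252) (nat_lit 0) (cs (rf (nat_lit 2)) (nd (nat_lit 186) (nat_lit 0) (cs (lf (nat_lit 24) (nat_lit 164)) (nd (nat_lit 166) (nat_lit 0) (cs (lf (nat_lit 34) (nat_lit 165)) (rf (nat_lit 3)))))))) (cs (nd (nat_lit 164) (nat_lit 0) (cs (lf (nat_lit 46) (nat_lit 164)) (nd (nat_lit 252) (nat_lit 0) (cs (lf (nat_lit 41) (nat_lit 186)) (nd (nat_lit 229) (nat_lit 0) (cs (nd (nat_lit 228) (nat_lit 0) (cs (lf (nat_lit 12) (nat_lit 205)) (nd (nat_lit 205) (nat_lit 0) (cs (lf (nat_lit 22) (nat_lit 205)) (nd (nat_lit 250) (nat_lit 0) (cs (lf (nat_lit 11) (nat_lit 227)) (nd (nat_lit 251) (nat_lit 0) (cs (lf (nat_lit 6) (nat_lit 228)) (nd (nat_lit 272) (nat_lit 0) (cs (lf (nat_lit 11) (nat_lit 249)) (nd (nat_lit 295) (nat_lit 0) (cs (rf (nat_lit 4)) (lf (nat_lit 31) (nat_lit 207)))))))))))))) (lf (nat_lit 7) (nat_lit 207)))))))) (nd (nat_lit 229) (nat_lit 0) (cs (lf (nat_lit 7) (nat_lit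 207)) (nd (nat_lit 252) (nat_lit 0) (cs (rf (nat_lit 2)) (nd (nat_lit 186) (nat_lit 0) (cs (rf (nat_lit 5)) (nd (nat_lit 250) (nat_lit 0) (cs (rf (nat_lit 6)) (cs (nd (nat_lit 251) (nat_lit 0) (cs (lf (nat_lit 41) (nat_lit 185)) (lf (nat_lit 12) (nat_lit 227)))) (nd (nat_lit 272) (nat_lit 0) (cs (nd (nat_lit 251) (nat_lit 0) (cs (lf (nat_lit 41) (nat_lit 185)) (lf (nat_lit 11) (nat_lit 249)))) (cs (nd (nat_lit 166) (nat_lit 0) (cs (lf (nat_lit 34) (nat_lit 165)) (nd (nat_lit 228) (nat_lit 0) (cs (lf (nat_lit 12) (nat_lit 205)) (nd (nat_lit 206) (nat_lit 0) (cs (lf (nat_lit 23) (nat_lit 205)) (rf (nat_lit 7)))))))) (cs (nd (nat_lit 228) (nat_lit 0) (cs (lf (nat_lit 12) (nat_lit 205)) (nd (nat_lit 271) (nat_lit 0) (cs (lf (nat_lit 8) (nat_lit 249)) (nd (nat_lit 206) (nat_lit 0) (cs (lf (nat_lit 23) (nat_lit 205)) (lf (nat_lit 41) (nat_lit 205)))))))) (nd (nat_lit 166) (nat_lit 0) (cs (lf (nat_lit 34) (nat_lit 165)) (nd (nat_lit 228) (nat_lit 0) (cs (lf (nat_lit 12) (nat_lit 205)) (nd (nat_lit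 273) (nat_lit 0) (cs (lf (nat_lit 40) (nat_lit 185)) (nd (nat_lit 206) (nat_lit 0) (cs (lf (nat_lit 23) (nat_lit 205)) (lf (nat_lit 29) (nat_lit 206)))))))))))))))))))))))))))) q10724 (by decide +kernel)
def q10792 : Q := Q.p (nat_lit 0x16000038000000000000000000000000000000000000000000000000000) (nat_lit 0x800000700001c000000000000000000000000000000000000000000000) (nat_lit 4)
theorem c10792 : QOK q10792 := cut [q10791] ⟨c10791, trivial⟩ (nd (nat_lit 206) (nat_lit 0) (cs (lf (nat_lit 19) (nat_lit 206)) (rf (nat_lit 0)))) q10792 (by decide +kernel)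
def q10807 : Q := Q.p (nat_lit 0x100000600003c000000000000000000000000000000000000000000000000000) (nat_lit 0x8000180000000000b80002c0000100000000000000000000000000000000000) (nat_lit 6)
theorem c10807 : QOK q10807 := cut [q4254] ⟨c4254, trivial⟩ (nd (nat_lit 185) (nat_lit 0) (cs (lf (nat_lit 24) (nat_lit 163)) (nd (nat_lit 231) (nat_lit 0) (cs (lf (nat_lit 5) (nat_lit 206)) (nd (nat_lit 165) (nat_lit 0) (cs (rf (nat_lit 0)) (lf (nat_lit 37) (nat_lit 164)))))))) q10807 (by decide +kernel)
def q10851 : Q := Q.p (nat_lit 0x2000004000030000040000000000000000000000000000000000000000000000) (nat_lit 0x80000b8000c0000080000180000e00003800008000000000000000000000000) (nat_lit 9)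
theorem c10851 : QOK q10851 := cut [q10845] ⟨c10845, trivial⟩ (nd (nat_lit 164) (nat_lit 0) (cs (lf (nat_lit 28) (nat_lit 164)) (rf (nat_lit 0)))) q10851 (by decide +kernel)
def q10852 : Q := Q.p (nat_lit 0x2000004000030000040000000000000000000000000000000000000000000000) (nat_lit 0x60000180000a000000000080000380000600000800000000000000000000000000000) (nat_lit 7)
theorem c10852 : QOK q10852 := cut [q10849] ⟨c10849, trivial⟩ (nd (nat_lit 164) (nat_lit 0) (cs (lf (nat_lit 28) (nat_lit 164)) (rf (nat_lit 0)))) q10852 (by decide +kernel)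
def q10925 : Q := Q.p (nat_lit 0x4000070000000000000000000000000000000000000000000000000000) (nat_lit 0xea000180000600000000000000000000000000000000000000000000000) (nat_lit 5)
theorem c10925 : QOK q10925 := cut [q1163] ⟨c1163, trivial⟩ (nd (nat_lit 211) (nat_lit 0) (cs (lf (nat_lit 11) (nat_lit 207)) (nd (nat_lit 189) (nat_lit 0) (cs (lf (nat_lit 17) (nat_lit 186)) (rf (nat_lit 0)))))) q10925 (by decide +kernel)
def q11007 : Q := Q.p (nat_lit 0x300000c000030000000000000000000000000000000000000000000000000000) (nat_lit 0x10000040000000001000000e000060000100000000000000000000000000000000000000000) (nat_lit 5)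
theorem c11007 : QOK q11007 := cut [q2953] ⟨c2953, trivial⟩ (nd (nat_lit 274) (nat_lit 0) (cs (lf (nat_lit 30) (nat_lit 208)) (nd (nat_lit 164) (nat_lit 0) (cs (lf (nat_lit 25) (nat_lit 164)) (rf (nat_lit 0)))))) q11007 (by decide +kernel)
def q11053 : Q := Q.p (nat_lit 0x300000c000010000000000000000000000000000000000000000000000000000) (nat_lit 0x200000c00030000000000040000100000000000000000000000000000000000000000) (nat_lit 4)
theorem c11053 : QOK q11053 := cut [q2975] ⟨c2975, trivial⟩ (nd (nat_lit 186) (nat_lit 0) (cs (lf (nat_lit 24) (nat_lit 164)) (rf (nat_lit 0)))) q11053 (by decide +kernel)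
def q11057 : Q := Q.p (nat_lit 0x18000000000300000c0000000000000000000000000000000000000000000000) (nat_lit 0x200000000004000040000038000080000000000000000000000000000000000000000) (nat_lit 4)
theorem c11057 : QOK q11057 := cut [q13] ⟨c13, trivial⟩ (nd (nat_lit 230) (nat_lit 0) (cs (rf (nat_lit 0)) (lf (nat_lit 41) (nat_lit 185)))) q11057 (by decide +kernel)
def q11075 : Q := Q.p (nat_lit 0x2000008000038000000000000000000000000000000000000000000000000000) (nat_lit 0x100000400007c0000500001000000000000000000000000000000000000) (nat_lit 4)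
theorem c11075 : QOK q11075 := cut [q4406, q4411, q10646] ⟨c4406, c4411, c10646, trivial⟩ (nd (nat_lit 188) (nat_lit 0) (cs (rf (nat_lit 0)) (cs (rf (nat_lit 1)) (cs (rf (nat_lit 2)) (nd (nat_lit 187) (nat_lit 0) (cs (lf (nat_lit 35) (nat_lit 165)) (nd (nat_lit 186) (nat_lit 0) (cs (lf (nat_lit 6) (nat_lit 185)) (lf (nat_lit 47) (nat_lit 164)))))))))) q11075 (by decide +kernel)
def q11077 : Q := Q.p (nat_lit 0x3000018000060000000000000000000000000000000000000000000000) (nat_lit 0x4000000000000000000000c0000300000c00000000000000000000000000000) (nat_lit 4)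
theorem c11077 : QOK q11077 := cut [q1663] ⟨c1663, trivial⟩ (nd (nat_lit 163) (nat_lit 0) (cs (lf (nat_lit 41) (nat_lit 162)) (rf (nat_lit 0)))) q11077 (by decide +kernel)
def q11133 : Q := Q.p (nat_lit 0x10000038000000000000000000000000000000000000000000000000000) (nat_lit 0x9c0000600001c000000000000000000000000000000000000000000000) (nat_lit 5)
theorem c11133 : QOK q11133 := cut [q117] ⟨c117, trivial⟩ (nd (nat_lit 206) (nat_lit 0) (cs (rf (nat_lit 0)) (lf (nat_lit 4) (nat_lit 206)))) q11133 (by decide +kernel)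
def q11144 : Q := Q.p (nat_lit 0x1c00008000000000000000000000000000000000000000000000000000000000) (nat_lit 0xe0000300004e00000000000000000000000000000000000000000000000000000000) (nat_lit 5)
theorem c11144 : QOK q11144 := cut [q11143] ⟨c11143, trivial⟩ (nd (nat_lit 249) (nat_lit 0) (cs (lf (nat_lit 16) (nat_lit 227)) (rf (nat_lit 0)))) q11144 (by decide +kernel)
def q11247 : Q := Q.p (nat_lit 0x20000000000300000c0000000000000000000000000000000000000000000000) (nat_lit 0x40000100000c000000000130001e00001c00007000000000000000000000000000000) (nat_lit 8)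
theorem c11247 : QOK q11247 := cut [q653, q2224, q7481] ⟨c653, c2224, c7481, trivial⟩ (nd (nat_lit 165) (nat_lit 0) (cs (rf (nat_lit 0)) (cs (rf (nat_lit 1)) (rf (nat_lit 2))))) q11247 (by decide +kernel)
def q11444 : Q := Q.p (nat_lit 0x6000008000020000000000000000000000000000000000000000) (nat_lit 0x10000000000100000000000c0000300000400000000000000000000000) (nat_lit 4)
theorem c11444 : QOK q11444 := cut [q11443] ⟨c11443, trivial⟩ (nd (nat_lit 139) (nat_lit 0) (cs (lf (nat_lit 29) (nat_lit 139)) (rf (nat_lit 0)))) q11444 (by decide +kernel)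
def q11457 : Q := Q.p (nat_lit 0x2000008000030000000000000000000000000000000000000000000000000000) (nat_lit 0x140000700001c00000000000000040000140000000000000000000000000000000000000000000000) (nat_lit 6)
theorem c11457 : QOK q11457 := cut [q3443] ⟨c3443, trivial⟩ (nd (nat_lit 275) (nat_lit 0) (cs (lf (nat_lit 47) (nat_lit 186)) (nd (nat_lit 188) (nat_lit 0) (cs (lf (nat_lit 34) (nat_lit 187)) (rf (nat_lit 0)))))) q11457 (by decide +kernel)
def q11463 : Q := Q.p (nat_lit 0x1e000000000000000000000000000000000000000000000000000) (nat_lit 0x1c00002000001c000000000000000000000000000000000000000000000) (nat_lit 4)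
theorem c11463 : QOK q11463 := cut [q6598] ⟨c6598, trivial⟩ (nd (nat_lit 231) (nat_lit 0) (cs (lf (nat_lit 4) (nat_lit 205)) (rf (nat_lit 0)))) q11463 (by decide +kernel)
def q11484 : Q := Q.p (nat_lit 0x1800002000008000000000000000000000000000000000000000000000000000) (nat_lit 0x4000000000000000000000700001c0000500000000000000000000000000000000000) (nat_lit 5)
theorem c11484 : QOK q11484 := cut [q11483] ⟨c11483, trivial⟩ (nd (nat_lit 185) (nat_lit 0) (cs (lf (nat_lit 29) (nat_lit 185)) (rf (nat_lit 0)))) q11484 (by decide +kernel)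
def q11504 : Q := Q.p (nat_lit 0xc00003000004000010000000000000000000000000000000000000000000000000000) (nat_lit 0x400001e0001380000e00019800020000000000000000000000000000000000000000000000000000) (nat_lit 9)
theorem c11504 : QOK q11504 := cut [q4204] ⟨c4204, trivial⟩ (nd (nat_lit 273) (nat_lit 0) (cs (lf (nat_lit 41) (nat_lit 207)) (rf (nat_lit 0)))) q11504 (by decide +kernel)
def q11564 : Q := Q.p (nat_lit 0x1e00000800002000000000000000000000000000000000000000000000000000000000000000) (nat_lit 0x20000200000f000031000040000100000000000000000000000000000000000000000000000000000) (nat_lit 6)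
theorem c11564 : QOK q11564 := cut [q11561] ⟨c11561, trivial⟩ (nd (nat_lit 278) (nat_lit 0) (cs (lf (nat_lit 17) (nat_lit 275)) (nd (nat_lit 276) (nat_lit 0) (cs (lf (nat_lit 18) (nat_lit 275)) (nd (nat_lit 277) (nat_lit 0) (cs (lf (nat_lit 23) (nat_lit 252)) (rf (nat_lit 0)))))))) q11564 (by decide +kernel)
def q11593 : Q := Q.p (nat_lit 0x80000600000800002000000000000000000000000000000000000000000000000000000000000000) (nat_lit 0x1c000070000040000800001700001000000000000000000000000000000000000000000000000000000000000000) (nat_lit 7)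
theorem c11593 : QOK q11593 := cut [q11588] ⟨c11588, trivial⟩ (nd (nat_lit 340) (nat_lit 0) (cs (lf (nat_lit 40) (nat_lit 252)) (nd (nat_lit 341) (nat_lit 0) (cs (lf (nat_lit 41) (nat_lit 274)) (nd (nat_lit 276) (nat_lit 0) (cs (nd (nat_lit 342) (nat_lit 0) (cs (lf (nat_lit 29) (nat_lit 275)) (rf (nat_lit 0)))) (lf (nat_lit 30) (nat_lit 275)))))))) q11593 (by decide +kernel)
def q11600 : Q := Q.p (nat_lit 0x80000600000800002000000000000000000000000000000000000000000000000000000000000000) (nat_lit 0x18000060000100000800001700001000000000000000000000000000000000000000000000000000000000000000) (nat_lit 6)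
theorem c11600 : QOK q11600 := cut [q11588] ⟨c11588, trivial⟩ (nd (nat_lit 342) (nat_lit 0) (cs (lf (nat_lit 28) (nat_lit 253)) (nd (nat_lit 341) (nat_lit 0) (cs (lf (nat_lit 29) (nat_lit 275)) (nd (nat_lit 276) (nat_lit 0) (cs (rf (nat_lit 0)) (lf (nat_lit 30) (nat_lit 275)))))))) q11600 (by decide +kernel)
def q11607 : Q := Q.p (nat_lit 0x80000200000800002000000000000000000000000000000000000000000000000000000000000000) (nat_lit 0x18000060000140000100000400001000008000020000000000000000000000000000000000000000000000000000) (nat_lit 6)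
theorem c11607 : QOK q11607 := cut [q11604] ⟨c11604, trivial⟩ (nd (nat_lit 342) (nat_lit 0) (cs (lf (nat_lit 28) (nat_lit 253)) (nd (nat_lit 341) (nat_lit 0) (cs (lf (nat_lit 29) (nat_lit 275)) (nd (nat_lit 274) (nat_lit 0) (cs (lf (nat_lit 47) (nat_lit 252)) (rf (nat_lit 0)))))))) q11607 (by decide +kernel)
def q11632 : Q := Q.p (nat_lit 0xf00000000000000000000000000000000000000000000000000000000000000000000000000) (nat_lit 0x80007700000000000000000000000000000000000000000000000000000000000000000000) (nat_lit 4)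
theorem c11632 : QOK q11632 := cut [q11631] ⟨c11631, trivial⟩ (nd (nat_lit 273) (nat_lit 0) (cs (lf (nat_lit 22) (nat_lit 273)) (rf (nat_lit 0)))) q11632 (by decide +kernel)
def q11708 : Q := Q.p (nat_lit 0x780000800000000000000000000000000000000000000000000000000000000000000000000) (nat_lit 0xe00001800007400000000000000000000000000000000000000000000000000000000000000000000) (nat_lit 5)
theorem c11708 : QOK q11708 := cut [q11707] ⟨c11707, trivial⟩ (nd (nat_lit 277) (nat_lit 0) (cs (lf (nat_lit 16) (nat_lit 273)) (rf (nat_lit 0)))) q11708 (by decide +kernel)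
def q11757 : Q := Q.p (nat_lit 0x20000780000800000000000000000000000000000000000000000000000000000000000000000000) (nat_lit 0xe40003800003000000000000000000000000000000000000000000000000000000000000000000000) (nat_lit 5)
theorem c11757 : QOK q11757 := cut [q11756] ⟨c11756, trivial⟩ (nd (nat_lit 276) (nat_lit 0) (cs (lf (nat_lit 17) (nat_lit 273)) (rf (nat_lit 0)))) q11757 (by decide +kernel)
def q11779 : Q := Q.p (nat_lit 0x780000000000000000000000000000000000000000000000000000000000000000000000000) (nat_lit 0xe3000180000e700000000000000000000000000000000000000000000000000000000000000000000) (nat_lit 7)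
theorem c11779 : QOK q11779 := cut [q11778] ⟨c11778, trivial⟩ (nd (nat_lit 316) (nat_lit 0) (cs (lf (nat_lit 10) (nat_lit 294)) (rf (nat_lit 0)))) q11779 (by decide +kernel)
def q11785 : Q := Q.p (nat_lit 0x380000800000000000000000000000000000000000000000000000000000000000000000000) (nat_lit 0x3c0004600007c0000000000000000000000000000000000000000000000000000000000000000000) (nat_lit 5)
theorem c11785 : QOK q11785 := cut [q11733, q11737, q11781] ⟨c11733, c11737, c11781, trivial⟩ (nd (nat_lit 294) (nat_lit 0) (cs (rf (nat_lit 0)) (cs (rf (nat_lit 1)) (nd (nat_lit 316) (nat_lit 0) (cs (nd (nat_lit 298) (nat_lit 0) (cs (lf (nat_lit 10) (nat_lit 294)) (rf (nat_lit 2)))) (lf (nat_lit 11) (nat_lit 293))))))) q11785 (by decide +kernel)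
def q11797 : Q := Q.p (nat_lit 0x380000200000800002000000000000000000000000000000000000000000000000000000000000000) (nat_lit 0x390000c60001c00000000000000000000000000000000000000000000000000000000000000000000000000) (nat_lit 6)
theorem c11797 : QOK q11797 := cut [q11794] ⟨c11794, trivial⟩ (nd (nat_lit 318) (nat_lit 0) (cs (lf (nat_lit 41) (nat_lit 252)) (nd (nat_lit 299) (nat_lit 0) (cs (lf (nat_lit 17) (nat_lit 296)) (nd (nat_lit 298) (nat_lit 0) (cs (lf (nat_lit 12) (nat_lit 295)) (rf (nat_lit 0)))))))) q11797 (by decide +kernel)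
def q11870 : Q := Q.p (nat_lit 0x200000800002000000000010000000000000000000000000000000000000000000000000000) (nat_lit 0x10000040000100000000001c000060000100000000000000000000000000000000000000000000000) (nat_lit 5)
theorem c11870 : QOK q11870 := cut [q11869] ⟨c11869, trivial⟩ (nd (nat_lit 231) (nat_lit 0) (cs (lf (nat_lit 46) (nat_lit 208)) (rf (nat_lit 0)))) q11870 (by decide +kernel)
def q11891 : Q := Q.p (nat_lit 0x300001c000000000000000000000000000000000000000000000000000) (nat_lit 0x800000000060000018000040000100000000000000000000000000000000000) (nat_lit 4)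
theorem c11891 : QOK q11891 := cut [q5404] ⟨c5404, trivial⟩ (nd (nat_lit 209) (nat_lit 0) (cs (lf (nat_lit 6) (nat_lit 206)) (rf (nat_lit 0)))) q11891 (by decide +kernel)
def q11945 : Q := Q.p (nat_lit 0x3c0000000000000000000000000000000000000000000000000000000000000000000) (nat_lit 0x1c0000200001c0000000000000000000000000000000000000000000000000000000000000) (nat_lit 4)
theorem c11945 : QOK q11945 := cut [q11944] ⟨c11944, trivial⟩ (nd (nat_lit 247) (nat_lit 0) (cs (lf (nat_lit 22) (nat_lit 247)) (rf (nat_lit 0)))) q11945 (by decide +kernel)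
def q11981 : Q := Q.p (nat_lit 0x100002400001000004000000000000000000000000000000000000000000000000000) (nat_lit 0xa0000680001800000000000000000000000000000000000000000000000000000000000000) (nat_lit 4)
theorem c11981 : QOK q11981 := cut [q11980] ⟨c11980, trivial⟩ (nd (nat_lit 271) (nat_lit 0) (cs (lf (nat_lit 41) (nat_lit 205)) (rf (nat_lit 0)))) q11981 (by decide +kernel)
def q12117 : Q := Q.p (nat_lit 0x80001a000008000000000000000000000000000000000000000000000) (nat_lit 0x800002000004000010000360001f00001c0000700001400000000000000000000000) (nat_lit 8)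
theorem c12117 : QOK q12117 := cut [q3435, q12091, q12114] ⟨c3435, c12091, c12114, trivial⟩ (nd (nat_lit 161) (nat_lit 0) (cs (rf (nat_lit 0)) (cs (nd (nat_lit 140) (nat_lit 0) (cs (lf (nat_lit 34) (nat_lit 139)) (nd (nat_lit 139) (nat_lit 0) (cs (lf (nat_lit 35) (nat_lit 117)) (rf (nat_lit 1)))))) (cs (nd (nat_lit 138) (nat_lit 0) (cs (lf (nat_lit 46) (nat_lit 138)) (nd (nat_lit 139) (nat_lit 0) (cs (lf (nat_lit 47) (nat_lit 116)) (nd (nat_lit 118) (nat_lit 0) (cs (lf (nat_lit 34) (nat_lit 117)) (nd (nat_lit 204) (nat_lit 0) (cs (lf (nat_lit 41) (nat_lit 138)) (nd (nat_lit 117) (nat_lit 0) (cs (lf (nat_lit 35) (nat_lit 95)) (lf (nat_lit 40) (nat_lit 116)))))))))))) (cs (nd (nat_lit 140) (nat_lit 0) (cs (lf (nat_lit 34) (nat_lit 139)) (nd (nat_lit 139) (nat_lit 0) (cs (lf (nat_lit 35) (nat_lit 117)) (nd (nat_lit 204) (nat_lit 0) (cs (lf (nat_lit 41) (nat_lit 138)) (nd (nat_lit 182) (nat_lit 0) (cs (lf (nat_lit 36) (nat_lit 116)) (nd (nat_lit 249) (nat_lit 0) (cs (lf (nat_lit 47) (nat_lit 160))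 (lf (nat_lit 42) (nat_lit 182)))))))))))) (cs (nd (nat_lit 138) (nat_lit 0) (cs (lf (nat_lit 46) (nat_lit 138)) (nd (nat_lit 139) (nat_lit 0) (cs (lf (nat_lit 47) (nat_lit 116)) (nd (nat_lit 204) (nat_lit 0) (cs (lf (nat_lit 41) (nat_lit 138)) (nd (nat_lit 182) (nat_lit 0) (cs (lf (nat_lit 36) (nat_lit 116)) (nd (nat_lit 184) (nat_lit 0) (cs (lf (nat_lit 3) (nat_lit 182)) (nd (nat_lit 249) (nat_lit 0) (cs (lf (nat_lit 35) (nat_lit 161)) (lf (nat_lit 42) (nat_lit 182)))))))))))))) (nd (nat_lit 162) (nat_lit 0) (cs (lf (nat_lit 35) (nat_lit 139)) (nd (nat_lit 138) (nat_lit 0) (cs (lf (nat_lit 46) (nat_lit 138)) (rf (nat_lit 2)))))))))))) q12117 (by decide +kernel)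
def q12164 : Q := Q.p (nat_lit 0x2000003800018000000000000000000000000000000000000000000000000000) (nat_lit 0x4000010000170000400000700003c0000a0000000000000000000000000000000000000000) (nat_lit 8)
theorem c12164 : QOK q12164 := cut [q5391, q12154] ⟨c5391, c12154, trivial⟩ (nd (nat_lit 250) (nat_lit 0) (cs (rf (nat_lit 0)) (cs (nd (nat_lit 230) (nat_lit 0) (cs (lf (nat_lit 4) (nat_lit 227)) (nd (nat_lit 248) (nat_lit 0) (cs (lf (nat_lit 10) (nat_lit 226)) (nd (nat_lit 185) (nat_lit 0) (cs (lf (nat_lit 36) (nat_lit 162)) (nd (nat_lit 205) (nat_lit 0) (cs (lf (nat_lit 23) (nat_lit 204)) (nd (nat_lit 183) (nat_lit 0) (cs (lf (nat_lit 24) (nat_lit 161)) (nd (nat_lit 182) (nat_lit 0) (cs (lf (nat_lit 2) (nat_lit 182)) (lf (nat_lit 20) (nat_lit 182)))))))))))))) (cs (nd (nat_lit 230) (nat_lit 0) (cs (lf (nat_lit 4) (nat_lit 227)) (nd (nat_lit 248) (nat_lit 0) (cs (lf (nat_lit 10) (nat_lit 226)) (nd (nat_lit 205) (nat_lit 0) (cs (lf (nat_lit 23) (nat_lit 204)) (nd (nat_lit 272) (nat_lit 0) (cs (lf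 (nat_lit 30) (nat_lit 206)) (rf (nat_lit 1)))))))))) (nd (nat_lit 272) (nat_lit 0) (cs (lf (nat_lit 30) (nat_lit 206)) (nd (nat_lit 163) (nat_lit 0) (cs (lf (nat_lit 37) (nat_lit 162)) (nd (nat_lit 230) (nat_lit 0) (cs (lf (nat_lit 4) (nat_lit 227)) (nd (nat_lit 249) (nat_lit 0) (cs (lf (nat_lit 11) (nat_lit 226)) (nd (nat_lit 205) (nat_lit 0) (cs (lf (nat_lit 23) (nat_lit 204)) (lf (nat_lit 24) (nat_lit 183)))))))))))))))) q12164 (by decide +kernel)
def q12179 : Q := Q.p (nat_lit 0x2000018000000000000000000000000000000000000000000000000000) (nat_lit 0x400001c0000700000c0000500006400007c0001c0000400000000000000000000000000000000000) (nat_lit 7)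
theorem c12179 : QOK q12179 := cut [q1832, q5431, q2994, q5439, q9858, q5436] ⟨c1832, c5431, c2994, c5439, c9858, c5436, trivial⟩ (nd (nat_lit 251) (nat_lit 0) (cs (rf (nat_lit 0)) (cs (nd (nat_lit 185) (nat_lit 0) (cs (rf (nat_lit 1)) (nd (nat_lit 164) (nat_lit 0) (cs (lf (nat_lit 34) (nat_lit 163)) (nd (nat_lit 163) (nat_lit 0) (cs (lf (nat_lit 35) (nat_lit 141)) (rf (nat_lit 2)))))))) (nd (nat_lit 273) (nat_lit 0) (cs (rf (nat_lit 3)) (cs (rf (nat_lit 4)) (nd (nat_lit 184) (nat_lit 0) (cs (lf (nat_lit 46) (nat_lit 184)) (nd (nat_lit 274) (nat_lit 0) (cs (lf (nat_lit 29) (nat_lit 207)) (nd (nat_lit 272) (nat_lit 0) (cs (lf (nat_lit 41) (nat_lit 206)) (rf (nat_lit 5)))))))))))))) q12179 (by decide +kernel)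
def q12210 : Q := Q.p (nat_lit 0x200000c000050000000000000000000000000000000000000000000000000000) (nat_lit 0x2000008000000000020001a0000100000000000000000000000000000000000000000000000) (nat_lit 4)
theorem c12210 : QOK q12210 := cut [q12209] ⟨c12209, trivial⟩ (nd (nat_lit 275) (nat_lit 0) (cs (lf (nat_lit 42) (nat_lit 208)) (rf (nat_lit 0)))) q12210 (by decide +kernel)
def q12214 : Q := Q.p (nat_lit 0x800006000018000000000000000000000000000000000000000000000000000) (nat_lit 0x1800006000010000000000000000300000c0000300000000000000000000000000000000000) (nat_lit 6)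
theorem c12214 : QOK q12214 := cut [q12211] ⟨c12211, trivial⟩ (nd (nat_lit 273) (nat_lit 0) (cs (lf (nat_lit 30) (nat_lit 207)) (nd (nat_lit 274) (nat_lit 0) (cs (lf (nat_lit 29) (nat_lit 207)) (nd (nat_lit 185) (nat_lit 0) (cs (lf (nat_lit 28) (nat_lit 185)) (rf (nat_lit 0)))))))) q12214 (by decide +kernel)
def q12222 : Q := Q.p (nat_lit 0x200001c000040000000000000000000000000000000000000000000000000000) (nat_lit 0x2000008000000000020003a0000000000000000000000000000000000000000000000000000) (nat_lit 4)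
theorem c12222 : QOK q12222 := cut [q12221] ⟨c12221, trivial⟩ (nd (nat_lit 275) (nat_lit 0) (cs (lf (nat_lit 30) (nat_lit 209)) (rf (nat_lit 0)))) q12222 (by decide +kernel)
def q12247 : Q := Q.p (nat_lit 0x3c00000000000000000000000000000000000000000000000000000000000000) (nat_lit 0x20001dc00000000000000000000000000000000000000000000000000000000) (nat_lit 4)
theorem c12247 : QOK q12247 := cut [q12246] ⟨c12246, trivial⟩ (nd (nat_lit 231) (nat_lit 0) (cs (lf (nat_lit 17) (nat_lit 228)) (rf (nat_lit 0)))) q12247 (by decide +kernel)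
def q12312 : Q := Q.p (nat_lit 0x1e0000000000000000000000000000000000000000) (nat_lit 0x200001dc0000000000000000000000000000000000) (nat_lit 4)
theorem c12312 : QOK q12312 := cut [q12296] ⟨c12296, trivial⟩ (nd (nat_lit 139) (nat_lit 0) (cs (lf (nat_lit 23) (nat_lit 138)) (rf (nat_lit 0)))) q12312 (by decide +kernel)
def q12346 : Q := Q.p (nat_lit 0x2000008000000000180000000000000000000000000000000000000000) (nat_lit 0x800000000000000038000640000500000000000000000000000000000000000) (nat_lit 5)
theorem c12346 : QOK q12346 := cut [q6180] ⟨c6180, trivial⟩ (nd (nat_lit 185) (nat_lit 0) (cs (lf (nat_lit 35) (nat_lit 141)) (rf (nat_lit 0)))) q12346 (by decide +kernel)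
def q12526 : Q := Q.p (nat_lit 0x200000800003c000000000000000000000000000000000000000000000000000) (nat_lit 0x800000000003800040000300000000000000000000000000000000000000000000000) (nat_lit 4)
theorem c12526 : QOK q12526 := cut [q12509] ⟨c12509, trivial⟩ (nd (nat_lit 228) (nat_lit 0) (cs (lf (nat_lit 11) (nat_lit 205)) (rf (nat_lit 0)))) q12526 (by decide +kernel)
def q12651 : Q := Q.p (nat_lit 0x800002000008000010000000000000000000000000000000000000000000000000000) (nat_lit 0x100000600001000000000014000060000100000000000000000000000000000000000000000000000) (nat_lit 5)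
theorem c12651 : QOK q12651 := cut [q12650] ⟨c12650, trivial⟩ (nd (nat_lit 297) (nat_lit 0) (cs (lf (nat_lit 46) (nat_lit 208)) (rf (nat_lit 0)))) q12651 (by decide +kernel)
def q12657 : Q := Q.p (nat_lit 0x40000080000600001800000000010000000000000000000000000000000000000000000000000000) (nat_lit 0x10000000000000000300000c000050000000000000000000000000000000000000000000000) (nat_lit 4)
theorem c12657 : QOK q12657 := cut [q12655] ⟨c12655, trivial⟩ (nd (nat_lit 229) (nat_lit 0) (cs (rf (nat_lit 0)) (lf (nat_lit 43) (nat_lit 229)))) q12657 (by decide +kernel)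
def q12681 : Q := Q.p (nat_lit 0xf00000000000000000000000000000000000000000000000000000000000000000000) (nat_lit 0x10000060001000000e00002000008000000000000000000000000000000000000000000000000000) (nat_lit 5)
theorem c12681 : QOK q12681 := cut [q12679] ⟨c12679, trivial⟩ (nd (nat_lit 250) (nat_lit 0) (cs (lf (nat_lit 23) (nat_lit 249)) (nd (nat_lit 251) (nat_lit 0) (cs (lf (nat_lit 18) (nat_lit 250)) (rf (nat_lit 0)))))) q12681 (by decide +kernel)
def q12784 : Q := Q.p (nat_lit 0xf0000200000400000000000000000000000000000000000000000000000000000000000000000000) (nat_lit 0x140000700001c000060000000000160000000000000000000000000000000000000000000000000000000000000000000000000) (nat_lit 7)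
theorem c12784 : QOK q12784 := cut [q12780] ⟨c12780, trivial⟩ (nd (nat_lit 293) (nat_lit 0) (cs (nd (nat_lit 341) (nat_lit 0) (cs (lf (nat_lit 5) (nat_lit 316)) (nd (nat_lit 363) (nat_lit 0) (cs (lf (nat_lit 46) (nat_lit 274)) (rf (nat_lit 0)))))) (lf (nat_lit 22) (nat_lit 293)))) q12784 (by decide +kernel)
def q12808 : Q := Q.p (nat_lit 0x20000080000200000800000000000000000000000000000000000000000000000000000000000000) (nat_lit 0x500001c000050000000000000000000000000000000000000000000000000000000000000000000000000000000) (nat_lit 4)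
theorem c12808 : QOK q12808 := cut [q12807] ⟨c12807, trivial⟩ (nd (nat_lit 340) (nat_lit 0) (cs (lf (nat_lit 28) (nat_lit 251)) (rf (nat_lit 0)))) q12808 (by decide +kernel)
def q12819 : Q := Q.p (nat_lit 0x80000e00000800000000000000000000000000000000000000000000000000000000000000) (nat_lit 0x500001c000070000000001000000700001000000000000000000000000000000000000000000000000000000000) (nat_lit 7)
theorem c12819 : QOK q12819 := cut [q12815] ⟨c12815, trivial⟩ (nd (nat_lit 250) (nat_lit 0) (cs (lf (nat_lit 18) (nat_lit 250)) (nd (nat_lit 248) (nat_lit 0) (cs (nd (nat_lit 317) (nat_lit 0) (cs (lf (nat_lit 47) (nat_lit 228)) (rf (nat_lit 0)))) (lf (nat_lit 1) (nat_lit 248)))))) q12819 (by decide +kernel)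
def q12832 : Q := Q.p (nat_lit 0x80000e00002000000000000000000000000000000000000000000000000000000000000000) (nat_lit 0x40000100007f4000f000038000000000000000000000000000000000000000000000000000000000000000) (nat_lit 9)
theorem c12832 : QOK q12832 := cut [q12828] ⟨c12828, trivial⟩ (nd (nat_lit 276) (nat_lit 0) (cs (lf (nat_lit 11) (nat_lit 272)) (nd (nat_lit 298) (nat_lit 0) (cs (lf (nat_lit 5) (nat_lit 273)) (nd (nat_lit 277) (nat_lit 0) (cs (lf (nat_lit 10) (nat_lit 273)) (nd (nat_lit 320) (nat_lit 0) (cs (lf (nat_lit 42) (nat_lit 253)) (rf (nat_lit 0)))))))))) q12832 (by decide +kernel)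
def q12834 : Q := Q.p (nat_lit 0x200000e00000000000000000000000000000000000000000000000000000000000000000000) (nat_lit 0x500000180000700000000000000000000000000000000000000000000000000000000000000) (nat_lit 4)
theorem c12834 : QOK q12834 := cut [q1203] ⟨c1203, trivial⟩ (nd (nat_lit 272) (nat_lit 0) (cs (lf (nat_lit 5) (nat_lit 272)) (rf (nat_lit 0)))) q12834 (by decide +kernel)
def q12870 : Q := Q.p (nat_lit 0x300004e00000000000000000000000000000000000000000000000000000000000000000000) (nat_lit 0x3180000e00000000000000000000000000000000000000000000000000000000000000) (nat_lit 4)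
theorem c12870 : QOK q12870 := cut [q12868] ⟨c12868, trivial⟩ (nd (nat_lit 276) (nat_lit 0) (cs (rf (nat_lit 0)) (lf (nat_lit 7) (nat_lit 274)))) q12870 (by decide +kernel)
def q12906 : Q := Q.p (nat_lit 0x300000c00002000000000000000000000000000000000000000000000000000000000000000) (nat_lit 0x1c0000700007c0000080000000000000000000000000000000000000000000000000000000000000000000000000) (nat_lit 5)
theorem c12906 : QOK q12906 := cut [q12839, q12841, q12843] ⟨c12839, c12841, c12843, trivial⟩ (nd (nat_lit 319) (nat_lit 0) (cs (rf (nat_lit 0)) (cs (rf (nat_lit 1)) (nd (nat_lit 318) (nat_lit 0) (cs (lf (nat_lit 30) (nat_lit 252)) (rf (nat_lit 2))))))) q12906 (by decide +kernel)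
def q12923 : Q := Q.p (nat_lit 0x80000200000e00002000000000000000000000000000000000000000000000000000000000000000) (nat_lit 0x18000060000100001d00001000000000000000000000000000000000000000000000000000000000000000000000) (nat_lit 5)
theorem c12923 : QOK q12923 := cut [q2555, q12921, q12922] ⟨c2555, c12921, c12922, trivial⟩ (nd (nat_lit 298) (nat_lit 0) (cs (rf (nat_lit 0)) (cs (rf (nat_lit 1)) (rf (nat_lit 2))))) q12923 (by decide +kernel)
def q12932 : Q := Q.p (nat_lit 0x80000200000c00002000000000000000000000000000000000000000000000000000000000000000) (nat_lit 0x400001c000070000040000100000000000000000000000000000000000000000000000000000000000000000000000000) (nat_lit 5)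
theorem c12932 : QOK q12932 := cut [q2552] ⟨c2552, trivial⟩ (nd (nat_lit 340) (nat_lit 0) (cs (lf (nat_lit 40) (nat_lit 252)) (nd (nat_lit 341) (nat_lit 0) (cs (lf (nat_lit 41) (nat_lit 274)) (rf (nat_lit 0)))))) q12932 (by decide +kernel)
def q12945 : Q := Q.p (nat_lit 0xe00000000000000000000000000000000000000000000000000000000000000000000) (nat_lit 0xef0001180000f00000000000000000000000000000000000000000000000000000000000000) (nat_lit 5)
theorem c12945 : QOK q12945 := cut [q12673, q12941, q12944] ⟨c12673, c12941, c12944, trivial⟩ (nd (nat_lit 272) (nat_lit 0) (cs (rf (nat_lit 0)) (cs (rf (nat_lit 1)) (rf (nat_lit 2))))) q12945 (by decide +kernel)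
def q12956 : Q := Q.p (nat_lit 0xe00000000000000010000000000000000000000000000000000000000000000000000) (nat_lit 0x500001e0001100000f0000700000c000040000100000000000000000000000000000000000000000) (nat_lit 7)
theorem c12956 : QOK q12956 := cut [q12947, q12811, q12950, q12953] ⟨c12947, c12811, c12950, c12953, trivial⟩ (nd (nat_lit 251) (nat_lit 0) (cs (rf (nat_lit 0)) (nd (nat_lit 229) (nat_lit 0) (cs (rf (nat_lit 1)) (cs (nd (nat_lit 295) (nat_lit 0) (cs (lf (nat_lit 34) (nat_lit 207)) (nd (nat_lit 206) (nat_lit 0) (cs (lf (nat_lit 46) (nat_lit 206)) (rf (nat_lit 2)))))) (nd (nat_lit 230) (nat_lit 0) (cs (lf (nat_lit 30) (nat_lit 207)) (rf (nat_lit 3))))))))) q12956 (by decide +kernel)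
def q13005 : Q := Q.p (nat_lit 0x3c00000000000000000000000000000000000000000000000000000000000000000000) (nat_lit 0x3800004000038000000000000000000000000000000000000000000000000000000000000000) (nat_lit 4)
theorem c13005 : QOK q13005 := cut [q13001] ⟨c13001, trivial⟩ (nd (nat_lit 256) (nat_lit 0) (cs (lf (nat_lit 16) (nat_lit 252)) (rf (nat_lit 0)))) q13005 (by decide +kernel)
def q13014 : Q := Q.p (nat_lit 0x300000f00000000000000000000000000000000000000000000000000000000000000000000) (nat_lit 0x40000180000e0001000000800002000000000000000000000000000000000000000000000000000000000) (nat_lit 5)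
theorem c13014 : QOK q13014 := cut [q13011] ⟨c13011, trivial⟩ (nd (nat_lit 294) (nat_lit 0) (cs (lf (nat_lit 11) (nat_lit 271)) (nd (nat_lit 295) (nat_lit 0) (cs (rf (nat_lit 0)) (lf (nat_lit 17) (nat_lit 272)))))) q13014 (by decide +kernel)
def q13026 : Q := Q.p (nat_lit 0x180000280000800002000000000000000000000000000000000000000000000000000000000000000) (nat_lit 0x390000640003900000000000000000000000000000000000000000000000000000000000000000000000000) (nat_lit 6)
theorem c13026 : QOK q13026 := cut [q13024] ⟨c13024, trivial⟩ (nd (nat_lit 318) (nat_lit 0) (cs (lf (nat_lit 41) (nat_lit 252)) (nd (nat_lit 321) (nat_lit 0) (cs (lf (nat_lit 22) (nat_lit 295)) (rf (nat_lit 0)))))) q13026 (by decide +kernel)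
def q13058 : Q := Q.p (nat_lit 0x1c0000000000000000000000000000000000000000000000000000000000000000000000000000000) (nat_lit 0x3dc000620003c00000000000000000000000000000000000000000000000000000000000000000000000000) (nat_lit 5)
theorem c13058 : QOK q13058 := cut [q13024, q13053, q13057] ⟨c13024, c13053, c13057, trivial⟩ (nd (nat_lit 321) (nat_lit 0) (cs (rf (nat_lit 0)) (cs (rf (nat_lit 1)) (rf (nat_lit 2))))) q13058 (by decide +kernel)
def q13062 : Q := Q.p (nat_lit 0x3c0000000000000000000000000000000000000000000000000000000000000000000000000000000) (nat_lit 0x3b8000400000000000000000000000000000000000000000000000000000000000000000000000000000000) (nat_lit 4)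
theorem c13062 : QOK q13062 := cut [q13060] ⟨c13060, trivial⟩ (nd (nat_lit 340) (nat_lit 0) (cs (rf (nat_lit 0)) (lf (nat_lit 11) (nat_lit 317)))) q13062 (by decide +kernel)
def q13073 : Q := Q.p (nat_lit 0x1c0000000000800002000000000000000000000000000000000000000000000000000000000000000) (nat_lit 0xee000030000ce0001000000000000000000000000000000000000000000000000000000000000000000000) (nat_lit 5)
theorem c13073 : QOK q13073 := cut [q13066, q13069, q13071] ⟨c13066, c13069, c13071, trivial⟩ (nd (nat_lit 317) (nat_lit 0) (cs (rf (nat_lit 0)) (cs (rf (nat_lit 1)) (nd (nat_lit 338) (nat_lit 0) (cs (lf (nat_lit 10) (nat_lit 316)) (rf (nat_lit 2))))))) q13073 (by decide +kernel)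
def q13106 : Q := Q.p (nat_lit 0x1c0000000000800002000000000000000000000000000000000000000000000000000000000000000) (nat_lit 0x7e000230001ce0001000000000000000000000000000000000000000000000000000000000000000000000) (nat_lit 6)
theorem c13106 : QOK q13106 := cut [q13069, q13102, q13105] ⟨c13069, c13102, c13105, trivial⟩ (nd (nat_lit 317) (nat_lit 0) (cs (rf (nat_lit 0)) (cs (rf (nat_lit 1)) (rf (nat_lit 2))))) q13106 (by decide +kernel)
def q13126 : Q := Q.p (nat_lit 0x1c0000000000800002000000000000000000000000000000000000000000000000000000000000000) (nat_lit 0x100003f0000e30007c00003000008000000000000000000000000000000000000000000000000000000000000000) (nat_lit 8)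
theorem c13126 : QOK q13126 := cut [q13024, q13110, q13118, q13125] ⟨c13024, c13110, c13118, c13125, trivial⟩ (nd (nat_lit 321) (nat_lit 0) (cs (rf (nat_lit 0)) (cs (rf (nat_lit 1)) (cs (rf (nat_lit 2)) (rf (nat_lit 3)))))) q13126 (by decide +kernel)
def q13128 : Q := Q.p (nat_lit 0x1e0000000000000000000000000000000000000000000000000000000000000000000000000000000) (nat_lit 0x1dc000200000000000000000000000000000000000000000000000000000000000000000000000000000000) (nat_lit 4)
theorem c13128 : QOK q13128 := cut [q13127] ⟨c13127, trivial⟩ (nd (nat_lit 343) (nat_lit 0) (cs (lf (nat_lit 4) (nat_lit 317)) (rf (nat_lit 0)))) q13128 (by decide +kernel)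
def q13147 : Q := Q.p (nat_lit 0x3e0000200000000000000000000000000000000000000000000000000000000000000000000000000) (nat_lit 0x380000c00000c00000000000000000000000000000000000000000000000000000000000000000000000000) (nat_lit 4)
theorem c13147 : QOK q13147 := cut [q11794] ⟨c11794, trivial⟩ (nd (nat_lit 298) (nat_lit 0) (cs (rf (nat_lit 0)) (lf (nat_lit 17) (nat_lit 295)))) q13147 (by decide +kernel)
def q13153 : Q := Q.p (nat_lit 0xe0000200000000000000000000000000000000000000000000000000000000000000000000000000) (nat_lit 0x7000018000470000000000000000000000000000000000000000000000000000000000000000000000000) (nat_lit 5)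
theorem c13153 : QOK q13153 := cut [q13152] ⟨c13152, trivial⟩ (nd (nat_lit 316) (nat_lit 0) (cs (lf (nat_lit 17) (nat_lit 294)) (rf (nat_lit 0)))) q13153 (by decide +kernel)
def q13222 : Q := Q.p (nat_lit 0x100001c0000000000000000000000000000000000000000000000000000000000000000000000000000000) (nat_lit 0x3a8000600001800000000000000000000000000000000000000000000000000000000000000000000000000) (nat_lit 5)
theorem c13222 : QOK q13222 := cut [q13220] ⟨c13220, trivial⟩ (nd (nat_lit 321) (nat_lit 0) (cs (lf (nat_lit 11) (nat_lit 317)) (nd (nat_lit 299) (nat_lit 0) (cs (lf (nat_lit 17) (nat_lit 296)) (rf (nat_lit 0)))))) q13222 (by decide +kernel)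
def q13231 : Q := Q.p (nat_lit 0x40000100000c00003000000000000000000000000000000000000000000000000000000000000000) (nat_lit 0x8000020000000001000000e00002000000000000000000000000000000000000000000000000000000000) (nat_lit 4)
theorem c13231 : QOK q13231 := cut [q13045] ⟨c13045, trivial⟩ (nd (nat_lit 317) (nat_lit 0) (cs (rf (nat_lit 0)) (lf (nat_lit 41) (nat_lit 251)))) q13231 (by decide +kernel)
def q13234 : Q := Q.p (nat_lit 0x40000100000c00003000000000000000000000000000000000000000000000000000000000000000) (nat_lit 0x20000080000000001000000e00002000000000000000000000000000000000000000000000000000000000) (nat_lit 4)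
theorem c13234 : QOK q13234 := cut [q13045] ⟨c13045, trivial⟩ (nd (nat_lit 319) (nat_lit 0) (cs (lf (nat_lit 29) (nat_lit 252)) (rf (nat_lit 0)))) q13234 (by decide +kernel)
def q13240 : Q := Q.p (nat_lit 0x1e00002000000000000000000000000000000000000000000000000000000000000000) (nat_lit 0x70000180001e00000000000000000000000000000000000000000000000000000000000000) (nat_lit 5)
theorem c13240 : QOK q13240 := cut [q13238] ⟨c13238, trivial⟩ (nd (nat_lit 250) (nat_lit 0) (cs (lf (nat_lit 22) (nat_lit 250)) (nd (nat_lit 272) (nat_lit 0) (cs (lf (nat_lit 23) (nat_lit 249)) (rf (nat_lit 0)))))) q13240 (by decide +kernel)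
def q13257 : Q := Q.p (nat_lit 0x40000e00002000000000000000000000000000000000000000000000000000000000000000) (nat_lit 0x20000180001700000000000000000000000000000000000000000000000000000000000000) (nat_lit 4)
theorem c13257 : QOK q13257 := cut [q13256] ⟨c13256, trivial⟩ (nd (nat_lit 272) (nat_lit 0) (cs (lf (nat_lit 11) (nat_lit 271)) (rf (nat_lit 0)))) q13257 (by decide +kernel)

end Crest.Agent.H3.Snaky.CR
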