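import Crest.Agent.H3.Snaky.Cert
import Crest.Agent.H3.Snaky.CR.CR0
import Crest.Agent.H3.Snaky.CR.CR1
import Crest.Agent.H3.Snaky.CR.CR2
import Crest.Agent.H3.Snaky.CR.CR3
import Crest.Agent.H3.Snaky.CR.CR4
import Crest.Agent.H3.Snaky.CR.CR5
import Crest.Agent.H3.Snaky.CR.CR20
import Crest.Agent.H3.Snaky.CR.CR21
import Crest.Agent.H3.Snaky.CR.CR22
import Crest.Agent.H3.Snaky.CR.CR23
import Crest.Agent.H3.Snaky.CR.CR24

set_option autoImplicit false
set_option maxRecDepth 100000

namespace Crest.Agent.H3.Snaky.CR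

open T

def q13312 : Q := Q.p (nat_lit 0x78000040000000000000000000000000000000000000000000000000000000000000000000000000000000) (nat_lit 0x700003c0003f000000000030000000000000000000000000000000000000000000000000000000000000000000000000000000) (nat_lit 8)
theorem c13312 : QOK q13312 := cut [q13289] ⟨c13289, trivial⟩ (nd (nat_lit 361) (nat_lit 0) (cs (lf (nat_lit 11) (nat_lit 338)) (nd (nat_lit 383) (nat_lit 0) (cs (lf (nat_lit 30) (nat_lit 317)) (nd (nat_lit 364) (nat_lit 0) (cs (lf (nat_lit 5) (nat_lit 339)) (rf (nat_lit 0)))))))) q13312 (by decide +kernel)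
def q13353 : Q := Q.p (nat_lit 0x78000000000000000000000000000000000000000000000000000) (nat_lit 0x700003840003c0000000000000000000000000000000000000000000000) (nat_lit 6)
theorem c13353 : QOK q13353 := cut [q13350] ⟨c13350, trivial⟩ (nd (nat_lit 233) (nat_lit 0) (cs (lf (nat_lit 4) (nat_lit 207)) (nd (nat_lit 188) (nat_lit 0) (cs (lf (nat_lit 17) (nat_lit 185)) (nd (nat_lit 187) (nat_lit 0) (cs (lf (nat_lit 12) (nat_lit 184)) (rf (nat_lit 0)))))))) q13353 (by decide +kernel)
def q13362 : Q := Q.p (nat_lit 0x2000038000000000000000000000000000000000000000000000000000) (nat_lit 0x750000c0000300000000000000000000000000000000000000000000000) (nat_lit 5)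
theorem c13362 : QOK q13362 := cut [q13356] ⟨c13356, trivial⟩ (nd (nat_lit 210) (nat_lit 0) (cs (lf (nat_lit 11) (nat_lit 206)) (nd (nat_lit 188) (nat_lit 0) (cs (lf (nat_lit 17) (nat_lit 185)) (rf (nat_lit 0)))))) q13362 (by decide +kernel)
def q13425 : Q := Q.p (nat_lit 0x3c00000000000000000000000000000000000000000000000000000000000000000000) (nat_lit 0x1c00000200001c00000000000000000000000000000000000000000000000000000000000000) (nat_lit 4)
theorem c13425 : QOK q13425 := cut [q13424] ⟨c13424, trivial⟩ (nd (nat_lit 299) (nat_lit 0) (cs (lf (nat_lit 5) (nat_lit 274)) (rf (nat_lit 0)))) q13425 (by decide +kernel)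
def q13431 : Q := Q.p (nat_lit 0xc00003400004000010000000000000000000000000000000000000000000000000000) (nat_lit 0x80000380000200000000020000080000000000000000000000000000000000000000000000) (nat_lit 4)
theorem c13431 : QOK q13431 := cut [q13430] ⟨c13430, trivial⟩ (nd (nat_lit 187) (nat_lit 0) (cs (lf (nat_lit 34) (nat_lit 186)) (rf (nat_lit 0)))) q13431 (by decide +kernel)
def q13449 : Q := Q.p (nat_lit 0x3c00003000000000000000000000000000000000000000000000000000000000000000) (nat_lit 0x1ce0000380000000000000000000000000000000000000000000000000000000000000000000) (nat_lit 5)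
theorem c13449 : QOK q13449 := cut [q12665] ⟨c12665, trivial⟩ (nd (nat_lit 299) (nat_lit 0) (cs (lf (nat_lit 5) (nat_lit 274)) (nd (nat_lit 273) (nat_lit 0) (cs (lf (nat_lit 4) (nat_lit 273)) (rf (nat_lit 0)))))) q13449 (by decide +kernel)
def q13470 : Q := Q.p (nat_lit 0xe00003000000000000000000000000000000000000000000000000000000000000000) (nat_lit 0x10000060001180000e00002000008000000000000000000000000000000000000000000000000000) (nat_lit 6)
theorem c13470 : QOK q13470 := cut [q13467] ⟨c13467, trivial⟩ (nd (nat_lit 272) (nat_lit 0) (cs (lf (nat_lit 12) (nat_lit 249)) (nd (nat_lit 250) (nat_lit 0) (cs (lf (nat_lit 23) (nat_lit 249)) (nd (nat_lit 294) (nat_lit 0) (cs (lf (nat_lit 11) (nat_lit 271)) (rf (nat_lit 0)))))))) q13470 (by decide +kernel)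
def q13479 : Q := Q.p (nat_lit 0x200000e00000000000000000000000000000000000000000000000000000000000000000000) (nat_lit 0x470000180000700000000000000000000000000000000000000000000000000000000000000) (nat_lit 5)
theorem c13479 : QOK q13479 := cut [q1206] ⟨c1206, trivial⟩ (nd (nat_lit 272) (nat_lit 0) (cs (lf (nat_lit 5) (nat_lit 272)) (rf (nat_lit 0)))) q13479 (by decide +kernel)
def q13519 : Q := Q.p (nat_lit 0x80000200000800000c00001800000000000000000000000000000000000000000000000000000000000000) (nat_lit 0x40000100000400000000007000018000040000000000000000000000000000000000000000000000000000000000) (nat_lit 5)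
theorem c13519 : QOK q13519 := cut [q13518] ⟨c13518, trivial⟩ (nd (nat_lit 277) (nat_lit 0) (cs (lf (nat_lit 19) (nat_lit 251)) (rf (nat_lit 0)))) q13519 (by decide +kernel)
def q13551 : Q := Q.p (nat_lit 0x240000800000c00001800000000010000000000000000000000000000000000000000000000000000) (nat_lit 0xc0000700001c00004000011000070000180000720001e0000100000000000000000000000000000000000000000000000) (nat_lit 11)
theorem c13551 : QOK q13551 := cut [q13518, q13527, q13539, q13543] ⟨c13518, c13527, c13539, c13543, trivial⟩ (nd (nat_lit 277) (nat_lit 0) (cs (lf (nat_lit 19) (nat_lit 251)) (nd (nat_lit 343) (nat_lit 0) (cs (rf (nat_lit 0)) (cs (nd (nat_lit 229) (nat_lit 0) (cs (lf (nat_lit 43) (nat_lit 229)) (rf (nat_lit 1)))) (cs (nd (nat_lit 229) (nat_lit 0) (cs (lf (nat_lit 43) (nat_lit 229)) (rf (nat_lit 2)))) (nd (nat_lit 344) (nat_lit 0) (cs (lf (nat_lit 29) (nat_lit 277)) (nd (nat_lit 322) (nat_lit 0) (cs (nd (nat_lit 229) (nat_lit 0) (cs (lf (nat_lit 43) (nat_lit 229)) (nd (nat_lit 364) (nat_lit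 0) (cs (lf (nat_lit 40) (nat_lit 276)) (nd (nat_lit 365) (nat_lit 0) (cs (lf (nat_lit 41) (nat_lit 298)) (rf (nat_lit 3)))))))) (lf (nat_lit 24) (nat_lit 255)))))))))))) q13551 (by decide +kernel)
def q13574 : Q := Q.p (nat_lit 0x3c0000000000000000000000000000000000000000000000000000000000000000000000000000000) (nat_lit 0x1dc000020000000000000000000000000000000000000000000000000000000000000000000000000000000) (nat_lit 4)
theorem c13574 : QOK q13574 := cut [q13573] ⟨c13573, trivial⟩ (nd (nat_lit 343) (nat_lit 0) (cs (lf (nat_lit 5) (nat_lit 318)) (rf (nat_lit 0)))) q13574 (by decide +kernel)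
def q13677 : Q := Q.p (nat_lit 0x200000800002c00003000004000010000000000000000000000000000000000000000000000000000) (nat_lit 0xf78001dc000f1000040000188000738001e8000180000000000000000000000000000000000000000000000) (nat_lit 12)
theorem c13677 : QOK q13677 := cut [q13630, q13637, q13642, q13646, q13650, q466] ⟨c13630, c13637, c13642, c13646, c13650, c466, trivial⟩ (nd (nat_lit 255) (nat_lit 0) (cs (nd (nat_lit 322) (nat_lit 0) (cs (lf (nat_lit 29) (nat_lit 255)) (nd (nat_lit 233) (nat_lit 0) (cs (rf (nat_lit 0)) (lf (nat_lit 28) (nat_lit 233)))))) (cs (nd (nat_lit 209) (nat_lit 0) (cs (lf (nat_lit 35) (nat_lit 186)) (rf (nat_lit 1)))) (cs (nd (nat_lit 209) (nat_lit 0) (cs (lf (nat_lit 35) (nat_lit 186)) (nd (nat_lit 320) (nat_lit 0) (cs (lf (nat_lit 41) (nat_lit 254)) (rf (nat_lit 2)))))) (nd (nat_lit 229) (nat_lit 0) (cs (rf (nat_lit 3)) (cs (nd (nat_lit 256) (nat_lit 0) (cs (lf (nat_lit 35) (nat_lit 233)) (nd (nat_lit 227) (nat_lit 0) (cs (lf (nat_lit 1) (nat_lit 227)) (nd (nat_lit 322)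 (nat_lit 0) (cs (lf (nat_lit 29) (nat_lit 255)) (nd (nat_lit 320) (nat_lit 0) (cs (lf (nat_lit 41) (nat_lit 254)) (nd (nat_lit 323) (nat_lit 0) (cs (nd (nat_lit 345) (nat_lit 0) (cs (lf (nat_lit 5) (nat_lit 320)) (nd (nat_lit 300) (nat_lit 0) (cs (lf (nat_lit 25) (nat_lit 256)) (nd (nat_lit 318) (nat_lit 0) (cs (rf (nat_lit 4)) (lf (nat_lit 13) (nat_lit 296)))))))) (cs (nd (nat_lit 301) (nat_lit 0) (cs (lf (nat_lit 17) (nat_lit 298)) (nd (nat_lit 319) (nat_lit 0) (cs (lf (nat_lit 16) (nat_lit 297)) (nd (nat_lit 340) (nat_lit 0) (cs (lf (nat_lit 10) (nat_lit 318)) (nd (nat_lit 318) (nat_lit 0) (cs (lf (nat_lit 11) (nat_lit 317)) (lf (nat_lit 32) (nat_lit 252)))))))))) (nd (nat_lit 346) (nat_lit 0) (cs (nd (nat_lit 302) (nat_lit 0) (cs (nd (nat_lit 324) (nat_lit 0) (cs (lf (nat_lit 17) (nat_lit 299)) (lf (nat_lit 5) (nat_lit 321)))) (lf (nat_lit 16) (nat_lit 298)))) (lf (nat_lit 4) (nat_lit 320))))))))))))))) (nd (nat_lit 234) (nat_lit 0) (cs (lf (nat_lit 34) (nat_lit 233)) (nd (nat_lit 228)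 (nat_lit 0) (cs (lf (nat_lit 0) (nat_lit 227)) (nd (nat_lit 322) (nat_lit 0) (cs (lf (nat_lit 29) (nat_lit 255)) (nd (nat_lit 320) (nat_lit 0) (cs (lf (nat_lit 41) (nat_lit 254)) (nd (nat_lit 209) (nat_lit 0) (cs (lf (nat_lit 35) (nat_lit 186)) (rf (nat_lit 5))))))))))))))))))) q13677 (by decide +kernel)
def q13703 : Q := Q.p (nat_lit 0x200000800002c00003000004000010000000000000000000000000000000000000000000000000000) (nat_lit 0x500001c0000700000d00001e00011000040000188000638000e8000080000000000000000000000000000000000000000000000) (nat_lit 12)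
theorem c13703 : QOK q13703 := cut [q1178, q13646, q13650, q13688, q13697] ⟨c1178, c13646, c13650, c13688, c13697, trivial⟩ (nd (nat_lit 209) (nat_lit 0) (cs (lf (nat_lit 35) (nat_lit 186)) (nd (nat_lit 229) (nat_lit 0) (cs (rf (nat_lit 0)) (cs (rf (nat_lit 1)) (nd (nat_lit 211) (nat_lit 0) (cs (lf (nat_lit 7) (nat_lit 207)) (nd (nat_lit 228) (nat_lit 0) (cs (lf (nat_lit 12) (nat_lit 205)) (nd (nat_lit 318) (nat_lit 0) (cs (rf (nat_lit 2)) (nd (nat_lit 343) (nat_lit 0) (cs (nd (nat_lit 278) (nat_lit 0) (cs (lf (nat_lit 35) (nat_lit 255)) (nd (nat_lit 365) (nat_lit 0) (cs (lf (nat_lit 34) (nat_lit 277)) (nd (nat_lit 388) (nat_lit 0) (cs (nd (nat_lit 386) (nat_lit 0) (cs (nd (nat_lit 387) (nat_lit 0) (cs (lf (nat_lit 41) (nat_lit 320)) (lf (nat_lit 29) (nat_lit 321)))) (lf (nat_lit 40) (nat_lit 298)))) (lf (nat_lit 28) (nat_lit 299)))))))) (cs (rf (nat_lit 3)) (cs (nd (nat_lit 278) (nat_lit 0) (cs (lf (nat_lit 35) (nat_lit 255)) (nd (nat_lit 300) (nat_lit 0) (cs (nd (nat_lit 255) (nat_lit 0)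 (cs (nd (nat_lit 320) (nat_lit 0) (cs (lf (nat_lit 41) (nat_lit 254)) (lf (nat_lit 13) (nat_lit 296)))) (lf (nat_lit 25) (nat_lit 211)))) (lf (nat_lit 30) (nat_lit 277)))))) (rf (nat_lit 4))))))))))))))))) q13703 (by decide +kernel)
def q13837 : Q := Q.p (nat_lit 0x200000800002400011000004000010000000000000000000000000000000000000000000000000000) (nat_lit 0x100005c0001f0001f80003d0001f00003c0000e80001b00001e0000780001000000000000000000000000000000000000000000) (nat_lit 11)
theorem c13837 : QOK q13837 := cut [q13725, q13728, q13793, q13821, q13828] ⟨c13725, c13728, c13793, c13821, c13828, trivial⟩ (nd (nat_lit 322) (nat_lit 0) (cs (nd (nat_lit 278) (nat_lit 0) (cs (lf (nat_lit 30) (nat_lit 255)) (nd (nat_lit 323) (nat_lit 0) (cs (nd (nat_lit 302) (nat_lit 0) (cs (rf (nat_lit 0)) (cs (nd (nat_lit 187) (nat_lit 0) (cs (lf (nat_lit 34) (nat_lit 186)) (nd (nat_lit 301) (nat_lit 0) (cs (lf (nat_lit 12) (nat_lit 298)) (nd (nat_lit 303) (nat_lit 0) (cs (lf (nat_lit 6) (nat_lit 300)) (rf (nat_lit 1))))))))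 (cs (nd (nat_lit 187) (nat_lit 0) (cs (lf (nat_lit 34) (nat_lit 186)) (nd (nat_lit 301) (nat_lit 0) (cs (lf (nat_lit 12) (nat_lit 298)) (nd (nat_lit 345) (nat_lit 0) (cs (nd (nat_lit 280) (nat_lit 0) (cs (nd (nat_lit 258) (nat_lit 0) (cs (lf (nat_lit 36) (nat_lit 235)) (lf (nat_lit 39) (nat_lit 257)))) (lf (nat_lit 30) (nat_lit 279)))) (lf (nat_lit 45) (nat_lit 256)))))))) (cs (nd (nat_lit 187) (nat_lit 0) (cs (lf (nat_lit 34) (nat_lit 186)) (nd (nat_lit 324) (nat_lit 0) (cs (lf (nat_lit 17) (nat_lit 299)) (nd (nat_lit 346) (nat_lit 0) (cs (lf (nat_lit 5) (nat_lit 321)) (nd (nat_lit 345) (nat_lit 0) (cs (nd (nat_lit 280) (nat_lit 0) (cs (lf (nat_lit 41) (nat_lit 279)) (lf (nat_lit 36) (nat_lit 257)))) (lf (nat_lit 0) (nat_lit 320)))))))))) (nd (nat_lit 303) (nat_lit 0) (cs (lf (nat_lit 15) (nat_lit 299)) (nd (nat_lit 301) (nat_lit 0) (cs (lf (nat_lit 6) (nat_lit 300)) (rf (nat_lit 1))))))))))) (cs (nd (nat_lit 345) (nat_lit 0) (cs (lf (nat_lit 26) (nat_lit 256)) (nd (nat_lit 320) (nat_lit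 0) (cs (lf (nat_lit 5) (nat_lit 320)) (nd (nat_lit 301) (nat_lit 0) (cs (lf (nat_lit 17) (nat_lit 298)) (lf (nat_lit 45) (nat_lit 256)))))))) (cs (rf (nat_lit 2)) (cs (nd (nat_lit 187) (nat_lit 0) (cs (lf (nat_lit 34) (nat_lit 186)) (nd (nat_lit 345) (nat_lit 0) (cs (lf (nat_lit 26) (nat_lit 256)) (nd (nat_lit 301) (nat_lit 0) (cs (lf (nat_lit 45) (nat_lit 256)) (nd (nat_lit 302) (nat_lit 0) (cs (lf (nat_lit 12) (nat_lit 298)) (nd (nat_lit 303) (nat_lit 0) (cs (lf (nat_lit 6) (nat_lit 300)) (lf (nat_lit 15) (nat_lit 299)))))))))))) (cs (nd (nat_lit 300) (nat_lit 0) (cs (lf (nat_lit 29) (nat_lit 256)) (nd (nat_lit 257) (nat_lit 0) (cs (lf (nat_lit 35) (nat_lit 234)) (nd (nat_lit 233) (nat_lit 0) (cs (lf (nat_lit 25) (nat_lit 233)) (nd (nat_lit 324) (nat_lit 0) (cs (lf (nat_lit 18) (nat_lit 299)) (nd (nat_lit 302) (nat_lit 0) (cs (lf (nat_lit 17) (nat_lit 299)) (nd (nat_lit 346) (nat_lit 0) (cs (lf (nat_lit 5) (nat_lit 321)) (nd (nat_lit 279) (nat_lit 0) (cs (lf (nat_lit 45) (nat_lit 257)) (lf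 (nat_lit 26) (nat_lit 257)))))))))))))))) (nd (nat_lit 187) (nat_lit 0) (cs (lf (nat_lit 34) (nat_lit 186)) (nd (nat_lit 345) (nat_lit 0) (cs (lf (nat_lit 26) (nat_lit 256)) (nd (nat_lit 346) (nat_lit 0) (cs (lf (nat_lit 0) (nat_lit 320)) (nd (nat_lit 347) (nat_lit 0) (cs (lf (nat_lit 18) (nat_lit 322)) (lf (nat_lit 3) (nat_lit 321)))))))))))))))))) (cs (nd (nat_lit 187) (nat_lit 0) (cs (lf (nat_lit 34) (nat_lit 186)) (nd (nat_lit 344) (nat_lit 0) (cs (lf (nat_lit 24) (nat_lit 255)) (nd (nat_lit 366) (nat_lit 0) (cs (lf (nat_lit 27) (nat_lit 277)) (lf (nat_lit 45) (nat_lit 277)))))))) (cs (nd (nat_lit 187) (nat_lit 0) (cs (lf (nat_lit 34) (nat_lit 186)) (nd (nat_lit 255) (nat_lit 0) (cs (lf (nat_lit 29) (nat_lit 255)) (nd (nat_lit 233) (nat_lit 0) (cs (lf (nat_lit 28) (nat_lit 233)) (nd (nat_lit 210) (nat_lit 0) (cs (lf (nat_lit 46) (nat_lit 210)) (nd (nat_lit 211) (nat_lit 0) (cs (lf (nat_lit 47) (nat_lit 188)) (nd (nat_lit 189) (nat_lit 0) (cs (lf (nat_lit 29) (nat_lit 189)) (rf (nat_lit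 3)))))))))))))) (cs (nd (nat_lit 187) (nat_lit 0) (cs (lf (nat_lit 34) (nat_lit 186)) (nd (nat_lit 343) (nat_lit 0) (cs (lf (nat_lit 34) (nat_lit 255)) (nd (nat_lit 366) (nat_lit 0) (cs (lf (nat_lit 28) (nat_lit 277)) (nd (nat_lit 365) (nat_lit 0) (cs (lf (nat_lit 29) (nat_lit 299)) (nd (nat_lit 387) (nat_lit 0) (cs (rf (nat_lit 4)) (lf (nat_lit 35) (nat_lit 299)))))))))))) (nd (nat_lit 343) (nat_lit 0) (cs (lf (nat_lit 34) (nat_lit 255)) (nd (nat_lit 344) (nat_lit 0) (cs (lf (nat_lit 29) (nat_lit 277)) (lf (nat_lit 24) (nat_lit 255))))))))))) q13837 (by decide +kernel)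
def q13867 : Q := Q.p (nat_lit 0x80000200000800002000000000000000000000000000000000000000000000000000000000000000000000) (nat_lit 0x100001400005000010000000000080000700001c0000500000000000000000000000000000000000000000000000) (nat_lit 8)
theorem c13867 : QOK q13867 := cut [q13863] ⟨c13863, trivial⟩ (nd (nat_lit 342) (nat_lit 0) (cs (lf (nat_lit 41) (nat_lit 276)) (nd (nat_lit 255) (nat_lit 0) (cs (lf (nat_lit 40) (nat_lit 254)) (nd (nat_lit 322) (nat_lit 0) (cs (lf (nat_lit 29) (nat_lit 255)) (nd (nat_lit 233) (nat_lit 0) (cs (lf (nat_lit 28) (nat_lit 233)) (rf (nat_lit 0)))))))))) q13867 (by decide +kernel)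
def q13881 : Q := Q.p (nat_lit 0x80000200000800002c00003000004000000000000000000000000000000000000000000000000000000000) (nat_lit 0x400001500005c0000100000000008800002000008000000000000000000000000000000000000000000000000000) (nat_lit 7)
theorem c13881 : QOK q13881 := cut [q13877] ⟨c13877, trivial⟩ (nd (nat_lit 344) (nat_lit 0) (cs (lf (nat_lit 29) (nat_lit 277)) (nd (nat_lit 255) (nat_lit 0) (cs (lf (nat_lit 28) (nat_lit 255)) (nd (nat_lit 320) (nat_lit 0) (cs (lf (nat_lit 41) (nat_lit 254)) (nd (nat_lit 318) (nat_lit 0) (cs (lf (nat_lit 1) (nat_lit 318)) (rf (nat_lit 0)))))))))) q13881 (by decide +kernel)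
def q13905 : Q := Q.p (nat_lit 0x80000200000800002400001000004000010000000000000000000000000000000000000000000000000000) (nat_lit 0x10000060000100000000001000004000010000000000020000080000000000000000000000000000000000000000000000) (nat_lit 5)
theorem c13905 : QOK q13905 := cut [q13903] ⟨c13903, trivial⟩ (nd (nat_lit 366) (nat_lit 0) (cs (lf (nat_lit 28) (nat_lit 277)) (nd (nat_lit 187) (nat_lit 0) (cs (lf (nat_lit 34) (nat_lit 186)) (rf (nat_lit 0)))))) q13905 (by decide +kernel)
def q13919 : Q := Q.p (nat_lit 0x80000a00000c00002000000000010000000000000000000000000000000000000000000000000000) (nat_lit 0x3d0000740001100000000001000004000000000000000000000000000000000000000000000000000000000) (nat_lit 7)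
theorem c13919 : QOK q13919 := cut [q2600] ⟨c2600, trivial⟩ (nd (nat_lit 318) (nat_lit 0) (cs (lf (nat_lit 41) (nat_lit 252)) (nd (nat_lit 230) (nat_lit 0) (cs (lf (nat_lit 26) (nat_lit 208)) (nd (nat_lit 320) (nat_lit 0) (cs (lf (nat_lit 29) (nat_lit 253)) (rf (nat_lit 0)))))))) q13919 (by decide +kernel)
def q13927 : Q := Q.p (nat_lit 0xc0000a00000c00002000000000000000000000000000000000000000000000000000000000000000) (nat_lit 0x40000120000500000300000000000000000000000000000000000000000000000000000000000000000000) (nat_lit 4)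
theorem c13927 : QOK q13927 := cut [q13926] ⟨c13926, trivial⟩ (nd (nat_lit 320) (nat_lit 0) (cs (lf (nat_lit 29) (nat_lit 253)) (rf (nat_lit 0)))) q13927 (by decide +kernel)
def q13935 : Q := Q.p (nat_lit 0xe00000c00002000000000010000000000000000000000000000000000000000000000000000) (nat_lit 0x700001e0000000000000001000004000000000000000000000000000000000000000000000000000000000) (nat_lit 5)
theorem c13935 : QOK q13935 := cut [q13934] ⟨c13934, trivial⟩ (nd (nat_lit 252) (nat_lit 0) (cs (lf (nat_lit 25) (nat_lit 208)) (rf (nat_lit 0)))) q13935 (by decide +kernel)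
def q13992 : Q := Q.p (nat_lit 0x600001800002000000000000000000000000000000000000000000000000000000000000000000000) (nat_lit 0x300002f000390000e00003c0000f00003c0000000000000000000000000000000000000000000000000000000000) (nat_lit 11)
theorem c13992 : QOK q13992 := cut [q13973, q13978] ⟨c13973, c13978, trivial⟩ (nd (nat_lit 278) (nat_lit 0) (cs (rf (nat_lit 0)) (cs (nd (nat_lit 343) (nat_lit 0) (cs (lf (nat_lit 30) (nat_lit 277)) (nd (nat_lit 342) (nat_lit 0) (cs (lf (nat_lit 41) (nat_lit 276)) (rf (nat_lit 1)))))) (nd (nat_lit 256) (nat_lit 0) (cs (lf (nat_lit 36) (nat_lit 233)) (nd (nat_lit 235) (nat_lit 0) (cs (lf (nat_lit 34) (nat_lit 234)) (nd (nat_lit 323) (nat_lit 0) (cs (lf (nat_lit 29) (nat_lit 256)) (nd (nat_lit 324) (nat_lit 0) (cs (lf (nat_lit 18) (nat_lit 299)) (nd (nat_lit 302) (nat_lit 0) (cs (lf (nat_lit 17) (nat_lit 299)) (nd (nat_lit 301) (nat_lit 0) (cs (lf (nat_lit 12) (nat_lit 298)) (nd (nat_lit 280) (nat_lit 0) (cs (lf (nat_lit 17) (nat_lit 277)) (nd (nat_lit 258) (nat_lit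 0) (cs (lf (nat_lit 36) (nat_lit 235)) (nd (nat_lit 259) (nat_lit 0) (cs (lf (nat_lit 35) (nat_lit 236)) (lf (nat_lit 14) (nat_lit 255))))))))))))))))))))))) q13992 (by decide +kernel)
def q14017 : Q := Q.p (nat_lit 0x400001800002000000000000000000000000000000000000000000000000000000000000000000000) (nat_lit 0xe0000380001a0000e00003c0000f00000c0000100000000000000000000000000000000000000000000000000000) (nat_lit 10)
theorem c14017 : QOK q14017 := cut [q13999, q14011] ⟨c13999, c14011, trivial⟩ (nd (nat_lit 344) (nat_lit 0) (cs (lf (nat_lit 42) (nat_lit 277)) (nd (nat_lit 278) (nat_lit 0) (cs (rf (nat_lit 0)) (cs (rf (nat_lit 1)) (nd (nat_lit 345) (nat_lit 0) (cs (lf (nat_lit 29) (nat_lit 278)) (nd (nat_lit 256) (nat_lit 0) (cs (lf (nat_lit 28) (nat_lit 256)) (nd (nat_lit 343) (nat_lit 0) (cs (lf (nat_lit 41) (nat_lit 277)) (lf (nat_lit 40) (nat_lit 255))))))))))))) q14017 (by decide +kernel)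
def q14124 : Q := Q.p (nat_lit 0x10000040000100000400000000000000000000000000000000000000000000000000000000000000) (nat_lit 0x2000008000020000000000200001800002000000000000000000000000000000000000000000000000000) (nat_lit 4)
theorem c14124 : QOK q14124 := cut [q14123] ⟨c14123, trivial⟩ (nd (nat_lit 227) (nat_lit 0) (cs (lf (nat_lit 46) (nat_lit 227)) (rf (nat_lit 0)))) q14124 (by decide +kernel)
def q14128 : Q := Q.p (nat_lit 0x10000040000100000400000000000000000000000000000000000000000000000000000000000000) (nat_lit 0x800006000008000000000080000200000800000000000000000000000000000000000000000000000000000000) (nat_lit 4)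
theorem c14128 : QOK q14128 := cut [q14127] ⟨c14127, trivial⟩ (nd (nat_lit 249) (nat_lit 0) (cs (lf (nat_lit 47) (nat_lit 227)) (rf (nat_lit 0)))) q14128 (by decide +kernel)
def q14145 : Q := Q.p (nat_lit 0x400001000004000010000000000000000000000000000000000000000000000) (nat_lit 0x80000200000800000000008000060000080000000000000000000000000000000000) (nat_lit 4)
theorem c14145 : QOK q14145 := cut [q14144] ⟨c14144, trivial⟩ (nd (nat_lit 249) (nat_lit 0) (cs (lf (nat_lit 41) (nat_lit 183)) (rf (nat_lit 0)))) q14145 (by decide +kernel)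
def q14179 : Q := Q.p (nat_lit 0x1c000040000100000400000000000000000000000000000000000000000000000000000000000000) (nat_lit 0x9c0002200001c000000000000000000000000000000000000000000000000000000000000000000000000) (nat_lit 5)
theorem c14179 : QOK q14179 := cut [q14178] ⟨c14178, trivial⟩ (nd (nat_lit 317) (nat_lit 0) (cs (lf (nat_lit 29) (nat_lit 250)) (rf (nat_lit 0)))) q14179 (by decide +kernel)
def q14184 : Q := Q.p (nat_lit 0x10000040000100000400000000000000000000000000000000000000000000000000000000000000) (nat_lit 0x280000e000028000000000000000000000000000000000000000000000000000000000000000000000000000000) (nat_lit 4)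
theorem c14184 : QOK q14184 := cut [q14183] ⟨c14183, trivial⟩ (nd (nat_lit 337) (nat_lit 0) (cs (lf (nat_lit 40) (nat_lit 249)) (rf (nat_lit 0)))) q14184 (by decide +kernel)
def q14249 : Q := Q.p (nat_lit 0x40000100000400001000000000000000000000000000000000000000000000000000000000) (nat_lit 0x2000018000020000000000200000800002000000000000000000000000000000000000000000000000000) (nat_lit 4)
theorem c14249 : QOK q14249 := cut [q14248] ⟨c14248, trivial⟩ (nd (nat_lit 315) (nat_lit 0) (cs (lf (nat_lit 40) (nat_lit 227)) (rf (nat_lit 0)))) q14249 (by decide +kernel)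
def q14318 : Q := Q.p (nat_lit 0x40000300000400001000000000000000000000000000000000000000000000000000000000000000) (nat_lit 0x8000038000c80000000000000000000000000000000000000000000000000000000000000000000000000) (nat_lit 4)
theorem c14318 : QOK q14318 := cut [q14317] ⟨c14317, trivial⟩ (nd (nat_lit 317) (nat_lit 0) (cs (lf (nat_lit 41) (nat_lit 251)) (rf (nat_lit 0)))) q14318 (by decide +kernel)
def q14357 : Q := Q.p (nat_lit 0x40000700000c00003000000000000000000000000000000000000000000000000000000000000000) (nat_lit 0x380000e00002000000000000000000000000000000000000000000000000000000000) (nat_lit 4)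
theorem c14357 : QOK q14357 := cut [q14356] ⟨c14356, trivial⟩ (nd (nat_lit 272) (nat_lit 0) (cs (lf (nat_lit 1) (nat_lit 272)) (rf (nat_lit 0)))) q14357 (by decide +kernel)
def q14366 : Q := Q.p (nat_lit 0x80000200000c00002000000000000000000000000000000000000000000000000000000000000000) (nat_lit 0x100001c000070000100000100000000000000000000000000000000000000000000000000000000000000000000000000) (nat_lit 5)
theorem c14366 : QOK q14366 := cut [q14364] ⟨c14364, trivial⟩ (nd (nat_lit 342) (nat_lit 0) (cs (lf (nat_lit 28) (nat_lit 253)) (nd (nat_lit 341) (nat_lit 0) (cs (lf (nat_lit 29) (nat_lit 275)) (rf (nat_lit 0)))))) q14366 (by decide +kernel)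
def q14396 : Q := Q.p (nat_lit 0x80000200000e00002000000000000000000000000000000000000000000000000000000000000000) (nat_lit 0x200003ce000f70007dc0004000010800000000000000000000000000000000000000000000000000000000000000) (nat_lit 10)
theorem c14396 : QOK q14396 := cut [q14368, q14369, q14367, q14393, q14394] ⟨c14368, c14369, c14367, c14393, c14394, trivial⟩ (nd (nat_lit 320) (nat_lit 0) (cs (lf (nat_lit 29) (nat_lit 253)) (nd (nat_lit 321) (nat_lit 0) (cs (rf (nat_lit 0)) (cs (nd (nat_lit 299) (nat_lit 0) (cs (rf (nat_lit 1)) (cs (nd (nat_lit 318) (nat_lit 0) (cs (lf (nat_lit 17) (nat_lit 296)) (nd (nat_lit 343) (nat_lit 0) (cs (lf (nat_lit 5) (nat_lit 318)) (nd (nat_lit 295) (nat_lit 0) (cs (lf (nat_lit 22) (nat_lit 295)) (nd (nat_lit 317) (nat_lit 0) (cs (lf (nat_lit 23) (nat_lit 294)) (nd (nat_lit 338) (nat_lit 0) (cs (lf (nat_lit 10) (nat_lit 316)) (nd (nat_lit 316) (nat_lit 0) (cs (lf (nat_lit 11) (nat_lit 315)) (lf (nat_lit 36) (nat_lit 250)))))))))))))) (cs (nd (nat_lit 296) (nat_lit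 0) (cs (lf (nat_lit 19) (nat_lit 273)) (rf (nat_lit 2)))) (nd (nat_lit 300) (nat_lit 0) (cs (lf (nat_lit 12) (nat_lit 296)) (lf (nat_lit 20) (nat_lit 274)))))))) (cs (rf (nat_lit 3)) (rf (nat_lit 4)))))))) q14396 (by decide +kernel)
def q14399 : Q := Q.p (nat_lit 0x1e0000200000000000000000000000000000000000000000000000000000000000000000000000000) (nat_lit 0x380000600001d00000000000000000000000000000000000000000000000000000000000000000000000000) (nat_lit 5)
theorem c14399 : QOK q14399 := cut [q14398] ⟨c14398, trivial⟩ (nd (nat_lit 299) (nat_lit 0) (cs (lf (nat_lit 16) (nat_lit 295)) (rf (nat_lit 0)))) q14399 (by decide +kernel)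
def q14415 : Q := Q.p (nat_lit 0x1c0000080000000000000000000000000000000000000000000000000000000000000000000000000) (nat_lit 0x380000600003900000000000000000000000000000000000000000000000000000000000000000000000000) (nat_lit 5)
theorem c14415 : QOK q14415 := cut [q14414] ⟨c14414, trivial⟩ (nd (nat_lit 321) (nat_lit 0) (cs (lf (nat_lit 22) (nat_lit 295)) (rf (nat_lit 0)))) q14415 (by decide +kernel)
def q14434 : Q := Q.p (nat_lit 0x300000400001000000000000000000000000000000000000000000000000000000000) (nat_lit 0x80000000000800000000006000018000020000000000000000000000000000000000000000) (nat_lit 4)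
theorem c14434 : QOK q14434 := cut [q14433] ⟨c14433, trivial⟩ (nd (nat_lit 206) (nat_lit 0) (cs (lf (nat_lit 29) (nat_lit 206)) (rf (nat_lit 0)))) q14434 (by decide +kernel)
def q14485 : Q := Q.p (nat_lit 0x80000280000e00002000000000010000000000000000000000000000000000000000000000000000) (nat_lit 0x48000120000000000000001f0000700000c000050000000000000000000000000000000000000000000000) (nat_lit 6)
theorem c14485 : QOK q14485 := cut [q12687, q13404, q11767, q14478, q14483] ⟨c12687, c13404, c11767, c14478, c14483, trivial⟩ (nd (nat_lit 251) (nat_lit 0) (cs (rf (nat_lit 0)) (cs (rf (nat_lit 1)) (cs (nd (nat_lit 250) (nat_lit 0) (cs (rf (nat_lit 2)) (nd (nat_lit 320) (nat_lit 0) (cs (lf (nat_lit 29) (nat_lit 253)) (rf (nat_lit 3)))))) (nd (nat_lit 320) (nat_lit 0) (cs (lf (nat_lit 29) (nat_lit 253)) (rf (nat_lit 4)))))))) q14485 (by decide +kernel)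
def q14503 : Q := Q.p (nat_lit 0x3c0000000000000000000000000000000000000000000000000000000000000000000000000) (nat_lit 0x8000038000400000180000400001000000000000000000000000000000000000000000000000000000000) (nat_lit 5)
theorem c14503 : QOK q14503 := cut [q14502] ⟨c14502, trivial⟩ (nd (nat_lit 272) (nat_lit 0) (cs (lf (nat_lit 23) (nat_lit 271)) (rf (nat_lit 0)))) q14503 (by decide +kernel)
def q14518 : Q := Q.p (nat_lit 0x2c0000d00000000000000000000000000000000000000000000000000000000000000000000) (nat_lit 0x20000400000200000600001000004000000000000000000000000000000000000000000000000000) (nat_lit 4)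
theorem c14518 : QOK q14518 := cut [q14517] ⟨c14517, trivial⟩ (nd (nat_lit 273) (nat_lit 0) (cs (lf (nat_lit 5) (nat_lit 272)) (rf (nat_lit 0)))) q14518 (by decide +kernel)
def q14640 : Q := Q.p (nat_lit 0x100001c00002000000000000000000000000000000000000000000000000000000000000000) (nat_lit 0x380001e0001e00006000001e00002000000000000000000000000000000000000000000000000000000000) (nat_lit 7)
theorem c14640 : QOK q14640 := cut [q13045, q1308, q14637] ⟨c13045, c1308, c14637, trivial⟩ (nd (nat_lit 318) (nat_lit 0) (cs (lf (nat_lit 30) (nat_lit 252)) (nd (nat_lit 252) (nat_lit 0) (cs (rf (nat_lit 0)) (nd (nat_lit 299) (nat_lit 0) (cs (rf (nat_lit 1)) (rf (nat_lit 2)))))))) q14640 (by decide +kernel)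
def q14655 : Q := Q.p (nat_lit 0x1e00002000000000000000000000000000000000000000000000000000000000000000) (nat_lit 0x1c0006000039000000000000000000000000000000000000000000000000000000000000000) (nat_lit 5)
theorem c14655 : QOK q14655 := cut [q14654] ⟨c14654, trivial⟩ (nd (nat_lit 295) (nat_lit 0) (cs (lf (nat_lit 11) (nat_lit 272)) (rf (nat_lit 0)))) q14655 (by decide +kernel)
def q14659 : Q := Q.p (nat_lit 0x1e00002000000000000000000000000000000000000000000000000000000000000000) (nat_lit 0x700000180001e00000000000000000000000000000000000000000000000000000000000000) (nat_lit 5)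
theorem c14659 : QOK q14659 := cut [q14658] ⟨c14658, trivial⟩ (nd (nat_lit 250) (nat_lit 0) (cs (lf (nat_lit 22) (nat_lit 250)) (rf (nat_lit 0)))) q14659 (by decide +kernel)
def q14661 : Q := Q.p (nat_lit 0x1c00002000000000000000000000000000000000000000000000000000000000000000) (nat_lit 0x1dc0006200039000000000000000000000000000000000000000000000000000000000000000) (nat_lit 5)
theorem c14661 : QOK q14661 := cut [q2187, q14653] ⟨c2187, c14653, trivial⟩ (nd (nat_lit 277) (nat_lit 0) (cs (rf (nat_lit 0)) (rf (nat_lit 1)))) q14661 (by decide +kernel)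
def q14689 : Q := Q.p (nat_lit 0x1c00003000000000000000000000000000000000000000000000000000000000000000) (nat_lit 0x100001c00006200018000020000080000000000000000000000000000000000000000000000000000) (nat_lit 6)
theorem c14689 : QOK q14689 := cut [q14688] ⟨c14688, trivial⟩ (nd (nat_lit 277) (nat_lit 0) (cs (lf (nat_lit 18) (nat_lit 252)) (rf (nat_lit 0)))) q14689 (by decide +kernel)
def q14707 : Q := Q.p (nat_lit 0xf00000000000000000000000000000000000000000000000000000000000000000000) (nat_lit 0x200000e0001000000600001000004000000000000000000000000000000000000000000000000000) (nat_lit 5)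
theorem c14707 : QOK q14707 := cut [q14706] ⟨c14706, trivial⟩ (nd (nat_lit 250) (nat_lit 0) (cs (lf (nat_lit 23) (nat_lit 249)) (rf (nat_lit 0)))) q14707 (by decide +kernel)
def q14713 : Q := Q.p (nat_lit 0x180000280000c00002000000000000000000000000000000000000000000000000000000000000000) (nat_lit 0x10000060000070001300000000000000000000000000000000000000000000000000000000000000000000) (nat_lit 5)
theorem c14713 : QOK q14713 := cut [q14711] ⟨c14711, trivial⟩ (nd (nat_lit 318) (nat_lit 0) (cs (lf (nat_lit 41) (nat_lit 252)) (nd (nat_lit 294) (nat_lit 0) (cs (lf (nat_lit 21) (nat_lit 294)) (rf (nat_lit 0)))))) q14713 (by decide +kernel)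
def q14715 : Q := Q.p (nat_lit 0x180000280000c00000000000000000000000000000000000000000000000000000000000000000000) (nat_lit 0x170001300000000000000000000000000000000000000000000000000000000000000000000) (nat_lit 4)
theorem c14715 : QOK q14715 := cut [q14711] ⟨c14711, trivial⟩ (nd (nat_lit 294) (nat_lit 0) (cs (lf (nat_lit 2) (nat_lit 294)) (rf (nat_lit 0)))) q14715 (by decide +kernel)
def q14745 : Q := Q.p (nat_lit 0x200000c00002000000000010000000000000000000000000000000000000000000000000000) (nat_lit 0x380001f0001d80001300001000004000000000000000000000000000000000000000000000000000000000) (nat_lit 8)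
theorem c14745 : QOK q14745 := cut [q2556, q14739, q14744] ⟨c2556, c14739, c14744, trivial⟩ (nd (nat_lit 298) (nat_lit 0) (cs (rf (nat_lit 0)) (cs (rf (nat_lit 1)) (rf (nat_lit 2))))) q14745 (by decide +kernel)
def q14754 : Q := Q.p (nat_lit 0x380000200000800002000000000000000000000000000000000000000000000000000000000000000) (nat_lit 0x4000005c0000000001000004000000000000000000000000000000000000000000000000000000000) (nat_lit 4)
theorem c14754 : QOK q14754 := cut [q11809] ⟨c11809, trivial⟩ (nd (nat_lit 230) (nat_lit 0) (cs (lf (nat_lit 46) (nat_lit 230)) (rf (nat_lit 0)))) q14754 (by decide +kernel)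
def q14768 : Q := Q.p (nat_lit 0x200003c00000000000000000000000000000000000000000000000000000000000000) (nat_lit 0x20000080000000000000003800004000010000000000000000000000000000000000000000000000) (nat_lit 4)
theorem c14768 : QOK q14768 := cut [q14767] ⟨c14767, trivial⟩ (nd (nat_lit 228) (nat_lit 0) (cs (lf (nat_lit 23) (nat_lit 227)) (rf (nat_lit 0)))) q14768 (by decide +kernel)
def q14772 : Q := Q.p (nat_lit 0xc0000300000c00003000000000000000000000000000000000000000000000000000000000000000) (nat_lit 0x48000738000080000000000000000000000000000000000000000000000000000000000000000000000000) (nat_lit 5)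
theorem c14772 : QOK q14772 := cut [q12843] ⟨c12843, trivial⟩ (nd (nat_lit 317) (nat_lit 0) (cs (lf (nat_lit 41) (nat_lit 251)) (nd (nat_lit 315) (nat_lit 0) (cs (rf (nat_lit 0)) (lf (nat_lit 13) (nat_lit 293)))))) q14772 (by decide +kernel)
def q14785 : Q := Q.p (nat_lit 0x40000100000e00003000000000000000000000000000000000000000000000000000000000000000) (nat_lit 0x8000020000080000000000e00003800000000000000000000000000000000000000000000000000000000) (nat_lit 5)
theorem c14785 : QOK q14785 := cut [q14783] ⟨c14783, trivial⟩ (nd (nat_lit 317) (nat_lit 0) (cs (lf (nat_lit 41) (nat_lit 251)) (nd (nat_lit 251) (nat_lit 0) (cs (lf (nat_lit 47) (nat_lit 229)) (rf (nat_lit 0)))))) q14785 (by decide +kernel)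
def q14792 : Q := Q.p (nat_lit 0x100000f00003000000000000000000000000000000000000000000000000000000000000000) (nat_lit 0x600001800006e0000000000000000000000000000000000000000000000000000000000000000000000000) (nat_lit 5)
theorem c14792 : QOK q14792 := cut [q14790] ⟨c14790, trivial⟩ (nd (nat_lit 294) (nat_lit 0) (cs (lf (nat_lit 11) (nat_lit 271)) (nd (nat_lit 297) (nat_lit 0) (cs (lf (nat_lit 5) (nat_lit 272)) (rf (nat_lit 0)))))) q14792 (by decide +kernel)
def q14835 : Q := Q.p (nat_lit 0x20000180000e00002000000000000000000000000000000000000000000000000000000000000000) (nat_lit 0x40000310000e00003000000000000000000000000000000000000000000000000000000000000000000000) (nat_lit 5)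
theorem c14835 : QOK q14835 := cut [q14833] ⟨c14833, trivial⟩ (nd (nat_lit 276) (nat_lit 0) (cs (lf (nat_lit 6) (nat_lit 273)) (nd (nat_lit 298) (nat_lit 0) (cs (lf (nat_lit 5) (nat_lit 273)) (rf (nat_lit 0)))))) q14835 (by decide +kernel)
def q14849 : Q := Q.p (nat_lit 0x60000180000c00003000000000000000000000000000000000000000000000000000000000000000) (nat_lit 0xe0000380000200000000000000000000000000000000000000000000000000000000000000000000000000) (nat_lit 4)
theorem c14849 : QOK q14849 := cut [q14848] ⟨c14848, trivial⟩ (nd (nat_lit 319) (nat_lit 0) (cs (lf (nat_lit 29) (nat_lit 252)) (rf (nat_lit 0)))) q14849 (by decide +kernel)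
def q14865 : Q := Q.p (nat_lit 0xf00003000000000000000000000000000000000000000000000000000000000000000) (nat_lit 0xe0007000000800000000000000000000000000000000000000000000000000000000000000) (nat_lit 4)
theorem c14865 : QOK q14865 := cut [q14864] ⟨c14864, trivial⟩ (nd (nat_lit 294) (nat_lit 0) (cs (lf (nat_lit 11) (nat_lit 271)) (rf (nat_lit 0)))) q14865 (by decide +kernel)
def q14893 : Q := Q.p (nat_lit 0xc00003000000000010000000000000000000000000000000000000000000000000000) (nat_lit 0x100000600001800002000008000060000280000c0000000000000000000000000000000000000000000000) (nat_lit 7)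
theorem c14893 : QOK q14893 := cut [q14892] ⟨c14892, trivial⟩ (nd (nat_lit 230) (nat_lit 0) (cs (lf (nat_lit 24) (nat_lit 186)) (rf (nat_lit 0)))) q14893 (by decide +kernel)
def q14898 : Q := Q.p (nat_lit 0xb00003400000000000000000000000000000000000000000000000000000000000000) (nat_lit 0x80001000000800001800004000010000000000000000000000000000000000000000000000) (nat_lit 4)
theorem c14898 : QOK q14898 := cut [q14897] ⟨c14897, trivial⟩ (nd (nat_lit 251) (nat_lit 0) (cs (lf (nat_lit 5) (nat_lit 250)) (rf (nat_lit 0)))) q14898 (by decide +kernel)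
def q14913 : Q := Q.p (nat_lit 0x80000300000800002000000000000000000000000000000000000000000000000000000000000000) (nat_lit 0x400007000004c0000000000000000000000000000000000000000000000000000000000000000000000000) (nat_lit 4)
theorem c14913 : QOK q14913 := cut [q14912] ⟨c14912, trivial⟩ (nd (nat_lit 320) (nat_lit 0) (cs (lf (nat_lit 29) (nat_lit 253)) (rf (nat_lit 0)))) q14913 (by decide +kernel)
def q15057 : Q := Q.p (nat_lit 0x300000c00003000000000000000000000000000000000000000000000000000000000000000) (nat_lit 0x100000fe0003f0001f90001c60007380018e00042000008000000000000000000000000000000000000000000000000000) (nat_lit 12)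
theorem c15057 : QOK q15057 := cut [q14310, q14923, q13624, q14985, q14992, q13518, q15010, q15014, q15027, q15034, q15042, q14956] ⟨c14310, c14923, c13624, c14985, c14992, c13518, c15010, c15014, c15027, c15034, c15042, c14956, trivial⟩ (nd (nat_lit 272) (nat_lit 0) (cs (rf (nat_lit 0)) (cs (nd (nat_lit 342) (nat_lit 0) (cs (rf (nat_lit 1)) (cs (nd (nat_lit 277) (nat_lit 0) (cs (rf (nat_lit 2)) (cs (nd (nat_lit 319) (nat_lit 0) (cs (lf (nat_lit 42) (nat_lit 252)) (rf (nat_lit 3)))) (nd (nat_lit 299) (nat_lit 0) (cs (nd (nat_lit 298) (nat_lit 0) (cs (lf (nat_lit 18) (nat_lit 274)) (lf (nat_lit 17) (nat_lit 274)))) (cs (nd (nat_lit 341) (nat_lit 0) (cs (lf (nat_lit 43) (nat_lit 252)) (nd (nat_lit 298) (nat_lit 0) (cs (lf (nat_lit 17) (nat_lit 274)) (rf (nat_lit 4)))))) (cs (nd (nat_lit 341) (nat_lit 0) (cs (lf (nat_lit 43) (nat_lit 252)) (nd (nat_lit 298) (nat_lit 0) (cs (lf (nat_lit 18) (nat_lit 274)) (rf (nat_lit 4)))))) (nd (nat_lit 343) (nat_lit 0) (cs (nd (nat_lit 321) (nat_lit 0) (cs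 (lf (nat_lit 41) (nat_lit 276)) (rf (nat_lit 5)))) (cs (nd (nat_lit 321) (nat_lit 0) (cs (lf (nat_lit 41) (nat_lit 276)) (nd (nat_lit 278) (nat_lit 0) (cs (lf (nat_lit 35) (nat_lit 255)) (nd (nat_lit 365) (nat_lit 0) (cs (lf (nat_lit 34) (nat_lit 277)) (nd (nat_lit 366) (nat_lit 0) (cs (lf (nat_lit 29) (nat_lit 299)) (nd (nat_lit 341) (nat_lit 0) (cs (lf (nat_lit 43) (nat_lit 252)) (lf (nat_lit 0) (nat_lit 340)))))))))))) (cs (nd (nat_lit 344) (nat_lit 0) (cs (nd (nat_lit 321) (nat_lit 0) (cs (lf (nat_lit 29) (nat_lit 277)) (nd (nat_lit 256) (nat_lit 0) (cs (lf (nat_lit 34) (nat_lit 255)) (nd (nat_lit 255) (nat_lit 0) (cs (lf (nat_lit 35) (nat_lit 233)) (lf (nat_lit 28) (nat_lit 255)))))))) (cs (nd (nat_lit 341) (nat_lit 0) (cs (lf (nat_lit 43) (nat_lit 252)) (rf (nat_lit 6)))) (cs (nd (nat_lit 341) (nat_lit 0) (cs (lf (nat_lit 43) (nat_lit 252)) (rf (nat_lit 7)))) (nd (nat_lit 366) (nat_lit 0) (cs (nd (nat_lit 341) (nat_lit 0) (cs (lf (nat_lit 43) (nat_lit 252)) (lf (nat_lit 5) (nat_lit 341))))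 (lf (nat_lit 26) (nat_lit 277)))))))) (cs (nd (nat_lit 341) (nat_lit 0) (cs (lf (nat_lit 43) (nat_lit 252)) (nd (nat_lit 344) (nat_lit 0) (cs (rf (nat_lit 7)) (cs (nd (nat_lit 363) (nat_lit 0) (cs (nd (nat_lit 323) (nat_lit 0) (cs (nd (nat_lit 345) (nat_lit 0) (cs (lf (nat_lit 17) (nat_lit 320)) (lf (nat_lit 10) (nat_lit 341)))) (lf (nat_lit 16) (nat_lit 319)))) (lf (nat_lit 11) (nat_lit 340)))) (nd (nat_lit 366) (nat_lit 0) (cs (lf (nat_lit 5) (nat_lit 341)) (nd (nat_lit 340) (nat_lit 0) (cs (lf (nat_lit 4) (nat_lit 340)) (rf (nat_lit 8))))))))))) (nd (nat_lit 321) (nat_lit 0) (cs (lf (nat_lit 41) (nat_lit 276)) (nd (nat_lit 256) (nat_lit 0) (cs (lf (nat_lit 34) (nat_lit 255)) (nd (nat_lit 234) (nat_lit 0) (cs (lf (nat_lit 33) (nat_lit 233)) (nd (nat_lit 341) (nat_lit 0) (cs (lf (nat_lit 43) (nat_lit 252)) (rf (nat_lit 9)))))))))))))))))))))) (nd (nat_lit 298) (nat_lit 0) (cs (rf (nat_lit 10)) (cs (nd (nat_lit 320) (nat_lit 0) (cs (lf (nat_lit 42) (nat_lit 275)) (nd (nat_lit 299) (nat_lit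 0) (cs (lf (nat_lit 18) (nat_lit 274)) (nd (nat_lit 277) (nat_lit 0) (cs (lf (nat_lit 17) (nat_lit 274)) (nd (nat_lit 321) (nat_lit 0) (cs (lf (nat_lit 5) (nat_lit 296)) (lf (nat_lit 36) (nat_lit 254)))))))))) (nd (nat_lit 299) (nat_lit 0) (cs (lf (nat_lit 18) (nat_lit 274)) (nd (nat_lit 277) (nat_lit 0) (cs (lf (nat_lit 17) (nat_lit 274)) (rf (nat_lit 3)))))))))))) (cs (nd (nat_lit 319) (nat_lit 0) (cs (lf (nat_lit 42) (nat_lit 252)) (nd (nat_lit 273) (nat_lit 0) (cs (lf (nat_lit 5) (nat_lit 272)) (nd (nat_lit 294) (nat_lit 0) (cs (lf (nat_lit 11) (nat_lit 271)) (nd (nat_lit 250) (nat_lit 0) (cs (lf (nat_lit 23) (nat_lit 249)) (nd (nat_lit 320) (nat_lit 0) (cs (lf (nat_lit 29) (nat_lit 253)) (rf (nat_lit 11)))))))))))) (nd (nat_lit 273) (nat_lit 0) (cs (lf (nat_lit 5) (nat_lit 272)) (lf (nat_lit 0) (nat_lit 271)))))))) q15057 (by decide +kernel)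
def q15065 : Q := Q.p (nat_lit 0x40000f00000000000000000000000000000000000000000000000000000000000000000000) (nat_lit 0x10000000001000000e00002000008000000000000000000000000000000000000000000000000000) (nat_lit 4)
theorem c15065 : QOK q15065 := cut [q13467] ⟨c13467, trivial⟩ (nd (nat_lit 250) (nat_lit 0) (cs (lf (nat_lit 23) (nat_lit 249)) (rf (nat_lit 0)))) q15065 (by decide +kernel)
def q15076 : Q := Q.p (nat_lit 0x2c0000d00003000000000000000000000000000000000000000000000000000000000000000) (nat_lit 0x400000200000e00001800006000000000000000000000000000000000000000000000000000) (nat_lit 5)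
theorem c15076 : QOK q15076 := cut [q15075] ⟨c15075, trivial⟩ (nd (nat_lit 273) (nat_lit 0) (cs (lf (nat_lit 5) (nat_lit 272)) (rf (nat_lit 0)))) q15076 (by decide +kernel)
def q15109 : Q := Q.p (nat_lit 0x100000000001c00003000000000000000000000000000000000000000000000000000000000000000) (nat_lit 0x40000000003e00000200000c00000000000000000000000000000000000000000000000000000000000000) (nat_lit 5)
theorem c15109 : QOK q15109 := cut [q15108] ⟨c15108, trivial⟩ (nd (nat_lit 250) (nat_lit 0) (cs (lf (nat_lit 1) (nat_lit 250)) (rf (nat_lit 0)))) q15109 (by decide +kernel)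
def q15139 : Q := Q.p (nat_lit 0xf0000000000000000000000000000000000000000000000000000) (nat_lit 0x8000060000008000700000400001000000000000000000000000000000000000) (nat_lit 5)
theorem c15139 : QOK q15139 := cut [q15137] ⟨c15137, trivial⟩ (nd (nat_lit 189) (nat_lit 0) (cs (lf (nat_lit 17) (nat_lit 186)) (nd (nat_lit 188) (nat_lit 0) (cs (lf (nat_lit 12) (nat_lit 185)) (rf (nat_lit 0)))))) q15139 (by decide +kernel)
def q15215 : Q := Q.p (nat_lit 0x800002c00000000000000000000000000000000000000000000000000000000000000) (nat_lit 0x15c0001200000000000000000000000000000000000000000000000000000000000000) (nat_lit 4)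
theorem c15215 : QOK q15215 := cut [q1998] ⟨c1998, trivial⟩ (nd (nat_lit 252) (nat_lit 0) (cs (lf (nat_lit 5) (nat_lit 250)) (rf (nat_lit 0)))) q15215 (by decide +kernel)
def q15232 : Q := Q.p (nat_lit 0x10000040000100000400078000000000000000000000000000000000000000000000000000) (nat_lit 0x280000e000028000000000000000000000000300000000000000000000000000000000000000000000000) (nat_lit 5)
theorem c15232 : QOK q15232 := cut [q15229] ⟨c15229, trivial⟩ (nd (nat_lit 313) (nat_lit 0) (cs (nd (nat_lit 188) (nat_lit 0) (cs (lf (nat_lit 17) (nat_lit 185)) (rf (nat_lit 0)))) (lf (nat_lit 40) (nat_lit 225)))) q15232 (by decide +kernel)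
def q15332 : Q := Q.p (nat_lit 0x800002c00000000000000000000000000000000000000000000000000000000000000) (nat_lit 0x1400001200001c00000000000000000000000000000000000000000000000000000000) (nat_lit 4)
theorem c15332 : QOK q15332 := cut [q2090] ⟨c2090, trivial⟩ (nd (nat_lit 252) (nat_lit 0) (cs (lf (nat_lit 5) (nat_lit 250)) (rf (nat_lit 0)))) q15332 (by decide +kernel)
def q15363 : Q := Q.p (nat_lit 0x200003800002000008000000000000000000000000000000000000000000000000000) (nat_lit 0x400005c0000000000000004000010000000000000000000000000000000000000000000000) (nat_lit 4)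
theorem c15363 : QOK q15363 := cut [q11856] ⟨c11856, trivial⟩ (nd (nat_lit 184) (nat_lit 0) (cs (lf (nat_lit 46) (nat_lit 184)) (rf (nat_lit 0)))) q15363 (by decide +kernel)
def q15396 : Q := Q.p (nat_lit 0x800002800001000004000010000000000000000000000000000000000000000000000) (nat_lit 0x1680001600000000000000000000000000000000000000000000000000000000000000) (nat_lit 4)
theorem c15396 : QOK q15396 := cut [q15395] ⟨c15395, trivial⟩ (nd (nat_lit 250) (nat_lit 0) (cs (lf (nat_lit 29) (nat_lit 184)) (rf (nat_lit 0)))) q15396 (by decide +kernel)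
def q15426 : Q := Q.p (nat_lit 0xf0000000000000000000000000000000000000000000000000000) (nat_lit 0xe6000100000e00000000000000000000000000000000000000000000000) (nat_lit 5)
theorem c15426 : QOK q15426 := cut [q694] ⟨c694, trivial⟩ (nd (nat_lit 229) (nat_lit 0) (cs (rf (nat_lit 0)) (lf (nat_lit 10) (nat_lit 207)))) q15426 (by decide +kernel)
def q15487 : Q := Q.p (nat_lit 0x800002000028000030000000000000000000000000000000000000000000000000000) (nat_lit 0x460001c0000100000000000000000000000000000000000000000000000) (nat_lit 4)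
theorem c15487 : QOK q15487 := cut [q15486] ⟨c15486, trivial⟩ (nd (nat_lit 210) (nat_lit 0) (cs (lf (nat_lit 35) (nat_lit 187)) (rf (nat_lit 0)))) q15487 (by decide +kernel)
def q15490 : Q := Q.p (nat_lit 0x9000038000000000000000000000000000000000000000000000000000) (nat_lit 0x480000600001c000000000000000000000000000000000000000000000) (nat_lit 4)
theorem c15490 : QOK q15490 := cut [q2934] ⟨c2934, trivial⟩ (nd (nat_lit 206) (nat_lit 0) (cs (lf (nat_lit 11) (nat_lit 205)) (rf (nat_lit 0)))) q15490 (by decide +kernel)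
def q15515 : Q := Q.p (nat_lit 0x40001e00002000000000000000000000000000000000000000000000000000000000000000) (nat_lit 0x20006180001800000000000000000000000000000000000000000000000000000000000000) (nat_lit 4)
theorem c15515 : QOK q15515 := cut [q15514] ⟨c15514, trivial⟩ (nd (nat_lit 272) (nat_lit 0) (cs (lf (nat_lit 11) (nat_lit 271)) (rf (nat_lit 0)))) q15515 (by decide +kernel)
def q15526 : Q := Q.p (nat_lit 0x200000800003000008000000000000000000000000000000000000000000000000000000000000000) (nat_lit 0x60000180000500000400000000000000020000080000000000000000000000000000000000000000000000000000) (nat_lit 5)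
theorem c15526 : QOK q15526 := cut [q15524] ⟨c15524, trivial⟩ (nd (nat_lit 344) (nat_lit 0) (cs (lf (nat_lit 28) (nat_lit 255)) (nd (nat_lit 343) (nat_lit 0) (cs (lf (nat_lit 29) (nat_lit 277)) (rf (nat_lit 0)))))) q15526 (by decide +kernel)
def q15529 : Q := Q.p (nat_lit 0x200000800002000008000000000000000000000000000000000000000000000000000000000000000) (nat_lit 0x400001000004000000000000000700001c0000500000000000000000000000000000000000000000000000) (nat_lit 6)
theorem c15529 : QOK q15529 := cut [q13863] ⟨c13863, trivial⟩ (nd (nat_lit 320) (nat_lit 0) (cs (lf (nat_lit 41) (nat_lit 254)) (nd (nat_lit 233) (nat_lit 0) (cs (rf (nat_lit 0)) (lf (nat_lit 40) (nat_lit 232)))))) q15529 (by decide +kernel)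
def q15531 : Q := Q.p (nat_lit 0x200000800003c00008000000000000000000000000000000000000000000000000000000000000000) (nat_lit 0x500001c0000500000000000000001800000000000000000000000000000000000000000000000000000000000000) (nat_lit 5)
theorem c15531 : QOK q15531 := cut [q14283] ⟨c14283, trivial⟩ (nd (nat_lit 344) (nat_lit 0) (cs (lf (nat_lit 28) (nat_lit 255)) (nd (nat_lit 251) (nat_lit 0) (cs (lf (nat_lit 22) (nat_lit 251)) (rf (nat_lit 0)))))) q15531 (by decide +kernel)
def q15537 : Q := Q.p (nat_lit 0xc00002000000000030000000000000000000000000000000000000000000000000000) (nat_lit 0x10000080000400001c0000400000000000000000000000000000000000000000) (nat_lit 4)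
theorem c15537 : QOK q15537 := cut [q15536] ⟨c15536, trivial⟩ (nd (nat_lit 231) (nat_lit 0) (cs (lf (nat_lit 47) (nat_lit 186)) (rf (nat_lit 0)))) q15537 (by decide +kernel)
def q15551 : Q := Q.p (nat_lit 0x10000000000000001c00002800000000000000000000000000000000000000000000000000000000000000) (nat_lit 0x140002600009c000760000e000039000040000100000000000000000000000000000000000000000000000000000) (nat_lit 12)
theorem c15551 : QOK q15551 := cut [q2578] ⟨c2578, trivial⟩ (nd (nat_lit 277) (nat_lit 0) (cs (lf (nat_lit 22) (nat_lit 251)) (nd (nat_lit 256) (nat_lit 0) (cs (lf (nat_lit 16) (nat_lit 252)) (nd (nat_lit 278) (nat_lit 0) (cs (lf (nat_lit 17) (nat_lit 253)) (nd (nat_lit 301) (nat_lit 0) (cs (lf (nat_lit 4) (nat_lit 275)) (nd (nat_lit 279) (nat_lit 0) (cs (lf (nat_lit 5) (nat_lit 276)) (nd (nat_lit 323) (nat_lit 0) (cs (lf (nat_lit 42) (nat_lit 256)) (nd (nat_lit 212) (nat_lit 0) (cs (nd (nat_lit 297) (nat_lit 0) (cs (nd (nat_lit 319) (nat_lit 0) (cs (lf (nat_lit 40) (nat_lit 252)) (rf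 (nat_lit 0)))) (lf (nat_lit 10) (nat_lit 275)))) (lf (nat_lit 25) (nat_lit 212)))))))))))))))) q15551 (by decide +kernel)
def q15555 : Q := Q.p (nat_lit 0x58000100000000000000000000000000000000000000000000000000000000000000000000000000000000) (nat_lit 0x3b800024000200000000000000000000000000000000000000000000000000000000000000000000000000000000) (nat_lit 5)
theorem c15555 : QOK q15555 := cut [q13293] ⟨c13293, trivial⟩ (nd (nat_lit 341) (nat_lit 0) (cs (rf (nat_lit 0)) (lf (nat_lit 17) (nat_lit 317)))) q15555 (by decide +kernel)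
def q15564 : Q := Q.p (nat_lit 0x40000000000000001c00002800000000000000000000000000000000000000000000000000000000000000) (nat_lit 0x10000760000e000039000008000020000000000000000000000000000000000000000000000000000) (nat_lit 8)
theorem c15564 : QOK q15564 := cut [q15561] ⟨c15561, trivial⟩ (nd (nat_lit 298) (nat_lit 0) (cs (lf (nat_lit 43) (nat_lit 253)) (nd (nat_lit 209) (nat_lit 0) (cs (lf (nat_lit 25) (nat_lit 209)) (nd (nat_lit 277) (nat_lit 0) (cs (lf (nat_lit 22) (nat_lit 251)) (rf (nat_lit 0)))))))) q15564 (by decide +kernel)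
def q15570 : Q := Q.p (nat_lit 0x78000000000000001c00000800000000000000000000000000000000000000000000000000000000000000) (nat_lit 0xe7000180000e80000200002000001000000000000000000000000000000000000000000000000000000000000000) (nat_lit 8)
theorem c15570 : QOK q15570 := cut [q15565] ⟨c15565, trivial⟩ (nd (nat_lit 361) (nat_lit 0) (cs (lf (nat_lit 11) (nat_lit 338)) (nd (nat_lit 252) (nat_lit 0) (cs (lf (nat_lit 18) (nat_lit 251)) (nd (nat_lit 343) (nat_lit 0) (cs (lf (nat_lit 10) (nat_lit 339)) (nd (nat_lit 366) (nat_lit 0) (cs (lf (nat_lit 4) (nat_lit 340)) (nd (nat_lit 297) (nat_lit 0) (cs (lf (nat_lit 43) (nat_lit 252)) (rf (nat_lit 0)))))))))))) q15570 (by decide +kernel)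
def q15588 : Q := Q.p (nat_lit 0x78000000000000000000000000000000000000000000000000000000000000000000000000000000000000) (nat_lit 0x1f80000600001c000000000000000000000000000000000000000000000000000000000000000000000000000000) (nat_lit 6)
theorem c15588 : QOK q15588 := cut [q15586] ⟨c15586, trivial⟩ (nd (nat_lit 360) (nat_lit 0) (cs (lf (nat_lit 10) (nat_lit 338)) (nd (nat_lit 338) (nat_lit 0) (cs (lf (nat_lit 11) (nat_lit 337)) (rf (nat_lit 0)))))) q15588 (by decide +kernel)
def q15620 : Q := Q.p (nat_lit 0x1e00002000000000000000000000000000000000000000000000000000000000000000) (nat_lit 0x6180001f00000000000000000000000000000000000000000000000000000000000000) (nat_lit 4)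
theorem c15620 : QOK q15620 := cut [q13256, q15514, q15619] ⟨c13256, c15514, c15619, trivial⟩ (nd (nat_lit 272) (nat_lit 0) (cs (rf (nat_lit 0)) (cs (rf (nat_lit 1)) (rf (nat_lit 2))))) q15620 (by decide +kernel)
def q15626 : Q := Q.p (nat_lit 0x400001c00000000000000000000000000000000000000000000000000000000000000000000) (nat_lit 0x8e0000300000e00000000000000000000000000000000000000000000000000000000000000) (nat_lit 5)
theorem c15626 : QOK q15626 := cut [q15625] ⟨c15625, trivial⟩ (nd (nat_lit 273) (nat_lit 0) (cs (lf (nat_lit 5) (nat_lit 273)) (rf (nat_lit 0)))) q15626 (by decide +kernel)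
def q15634 : Q := Q.p (nat_lit 0x1e00002000000000000000000000000000000000000000000000000000000000000000) (nat_lit 0x1c00006000001800000000000000000000000000000000000000000000000000000000000000) (nat_lit 4)
theorem c15634 : QOK q15634 := cut [q13505] ⟨c13505, trivial⟩ (nd (nat_lit 299) (nat_lit 0) (cs (lf (nat_lit 4) (nat_lit 273)) (rf (nat_lit 0)))) q15634 (by decide +kernel)
def q15652 : Q := Q.p (nat_lit 0xc00002000000000020000000000000000000000000000000000000000000000000000) (nat_lit 0x100000000001000008000040000180000400000000000000000000000000000000000000000) (nat_lit 4)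
theorem c15652 : QOK q15652 := cut [q15536] ⟨c15536, trivial⟩ (nd (nat_lit 231) (nat_lit 0) (cs (lf (nat_lit 41) (nat_lit 208)) (rf (nat_lit 0)))) q15652 (by decide +kernel)
def q15655 : Q := Q.p (nat_lit 0x20000000000f00000400000000000000000000000000000000000000000000000000000000000000) (nat_lit 0xc000010000060000000000800002000000000000000000000000000000000000000000000000000000000) (nat_lit 4)
theorem c15655 : QOK q15655 := cut [q12964] ⟨c12964, trivial⟩ (nd (nat_lit 294) (nat_lit 0) (cs (lf (nat_lit 11) (nat_lit 271)) (rf (nat_lit 0)))) q15655 (by decide +kernel)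
def q15711 : Q := Q.p (nat_lit 0x200000c00002000008000000000000000000000000000000000000000000000000000000000) (nat_lit 0x40000700001c0000400000000001000000000000000000000000000000000000000000000000000000000000000) (nat_lit 5)
theorem c15711 : QOK q15711 := cut [q15709] ⟨c15709, trivial⟩ (nd (nat_lit 320) (nat_lit 0) (cs (lf (nat_lit 28) (nat_lit 231)) (nd (nat_lit 319) (nat_lit 0) (cs (lf (nat_lit 29) (nat_lit 253)) (rf (nat_lit 0)))))) q15711 (by decide +kernel)
def q15715 : Q := Q.p (nat_lit 0x100000200000c00002000000000000000000000000000000000000000000000000000000000000000) (nat_lit 0x100000c000070000080000100000000001000000000000000000000000000000000000000000000000000000000000000) (nat_lit 5)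
theorem c15715 : QOK q15715 := cut [q15714] ⟨c15714, trivial⟩ (nd (nat_lit 319) (nat_lit 0) (cs (lf (nat_lit 29) (nat_lit 253)) (rf (nat_lit 0)))) q15715 (by decide +kernel)
def q15792 : Q := Q.p (nat_lit 0x200002c00002000008000000000000000000000000000000000000000000000000000000000) (nat_lit 0x1e0000fc0001d0000f90000f00003c0000e00003800000000000000000000000000000000000000000) (nat_lit 11)
theorem c15792 : QOK q15792 := cut [q15730, q15742, q15776, q15788] ⟨c15730, c15742, c15776, c15788, trivial⟩ (nd (nat_lit 278) (nat_lit 0) (cs (nd (nat_lit 210) (nat_lit 0) (cs (lf (nat_lit 34) (nat_lit 209)) (nd (nat_lit 276) (nat_lit 0) (cs (lf (nat_lit 23) (nat_lit 252)) (rf (nat_lit 0)))))) (cs (nd (nat_lit 234) (nat_lit 0) (cs (nd (nat_lit 232) (nat_lit 0) (cs (nd (nat_lit 233) (nat_lit 0) (cs (lf (nat_lit 11) (nat_lit 230)) (nd (nat_lit 212) (nat_lit 0) (cs (nd (nat_lit 256) (nat_lit 0) (cs (lf (nat_lit 5) (nat_lit 231)) (lf (nat_lit 41) (nat_lit 211)))) (lf (nat_lit 17) (nat_lit 209)))))) (lf (nat_lit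 35) (nat_lit 209)))) (cs (nd (nat_lit 232) (nat_lit 0) (cs (lf (nat_lit 35) (nat_lit 209)) (nd (nat_lit 233) (nat_lit 0) (cs (lf (nat_lit 11) (nat_lit 230)) (nd (nat_lit 212) (nat_lit 0) (cs (lf (nat_lit 17) (nat_lit 209)) (nd (nat_lit 255) (nat_lit 0) (cs (rf (nat_lit 1)) (lf (nat_lit 30) (nat_lit 211)))))))))) (cs (nd (nat_lit 232) (nat_lit 0) (cs (lf (nat_lit 35) (nat_lit 209)) (nd (nat_lit 233) (nat_lit 0) (cs (lf (nat_lit 11) (nat_lit 230)) (nd (nat_lit 256) (nat_lit 0) (cs (lf (nat_lit 5) (nat_lit 231)) (nd (nat_lit 211) (nat_lit 0) (cs (nd (nat_lit 189) (nat_lit 0) (cs (lf (nat_lit 24) (nat_lit 167)) (lf (nat_lit 27) (nat_lit 189)))) (lf (nat_lit 42) (nat_lit 211)))))))))) (nd (nat_lit 256) (nat_lit 0) (cs (nd (nat_lit 212) (nat_lit 0) (cs (lf (nat_lit 41) (nat_lit 211)) (rf (nat_lit 2)))) (cs (nd (nat_lit 300) (nat_lit 0) (cs (nd (nat_lit 299) (nat_lit 0) (cs (lf (nat_lit 41) (nat_lit 233)) (lf (nat_lit 20) (nat_lit 274)))) (nd (nat_lit 301) (nat_lit 0) (cs (nd (nat_lit 302) (nat_lit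 0) (cs (nd (nat_lit 235) (nat_lit 0) (cs (lf (nat_lit 35) (nat_lit 212)) (nd (nat_lit 257) (nat_lit 0) (cs (nd (nat_lit 258) (nat_lit 0) (cs (lf (nat_lit 6) (nat_lit 255)) (nd (nat_lit 324) (nat_lit 0) (cs (lf (nat_lit 26) (nat_lit 235)) (lf (nat_lit 44) (nat_lit 235)))))) (lf (nat_lit 30) (nat_lit 234)))))) (lf (nat_lit 18) (nat_lit 277)))) (lf (nat_lit 29) (nat_lit 234)))))) (nd (nat_lit 212) (nat_lit 0) (cs (nd (nat_lit 191) (nat_lit 0) (cs (nd (nat_lit 190) (nat_lit 0) (cs (lf (nat_lit 40) (nat_lit 189)) (lf (nat_lit 35) (nat_lit 168)))) (lf (nat_lit 34) (nat_lit 190)))) (cs (rf (nat_lit 2)) (nd (nat_lit 189) (nat_lit 0) (cs (lf (nat_lit 46) (nat_lit 189)) (nd (nat_lit 301) (nat_lit 0) (cs (nd (nat_lit 213) (nat_lit 0) (cs (lf (nat_lit 35) (nat_lit 190)) (nd (nat_lit 300) (nat_lit 0) (cs (lf (nat_lit 29) (nat_lit 234)) (lf (nat_lit 34) (nat_lit 212)))))) (lf (nat_lit 28) (nat_lit 212)))))))))))))))) (cs (nd (nat_lit 210) (nat_lit 0) (cs (lf (nat_lit 34) (nat_lit 209)) (nd (nat_lit 276)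 (nat_lit 0) (cs (lf (nat_lit 23) (nat_lit 252)) (rf (nat_lit 3)))))) (nd (nat_lit 276) (nat_lit 0) (cs (rf (nat_lit 0)) (rf (nat_lit 3)))))))) q15792 (by decide +kernel)
def q15794 : Q := Q.p (nat_lit 0x200000c00002000008000000000000000000000000000000000000000000000000000000000) (nat_lit 0x140000700001c0000300000c0000100000000001000000000000000000000000000000000000000000000000000000000000000) (nat_lit 7)
theorem c15794 : QOK q15794 := cut [q14536, q15709, q15793] ⟨c14536, c15709, c15793, trivial⟩ (nd (nat_lit 319) (nat_lit 0) (cs (rf (nat_lit 0)) (cs (rf (nat_lit 1)) (rf (nat_lit 2))))) q15794 (by decide +kernel)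
def q15797 : Q := Q.p (nat_lit 0xc00002000008000010000000000000000000000000000000000000000000000000000) (nat_lit 0x10000000000600001c0000400000000000000000000000000000000000000000) (nat_lit 4)
theorem c15797 : QOK q15797 := cut [q1592] ⟨c1592, trivial⟩ (nd (nat_lit 209) (nat_lit 0) (cs (lf (nat_lit 47) (nat_lit 186)) (rf (nat_lit 0)))) q15797 (by decide +kernel)
def q15806 : Q := Q.p (nat_lit 0x40000100000400001000000000000000000000000000000000000000000000000000000000) (nat_lit 0x8000020000080000000000800006000008000000000000000000000000000000000000000000000) (nat_lit 4)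
theorem c15806 : QOK q15806 := cut [q14152] ⟨c14152, trivial⟩ (nd (nat_lit 205) (nat_lit 0) (cs (lf (nat_lit 46) (nat_lit 205)) (rf (nat_lit 0)))) q15806 (by decide +kernel)
def q15835 : Q := Q.p (nat_lit 0xe0000100000c00002000000000000000000000000000000000000000000000000000000000000000) (nat_lit 0x8000020000cc000100000200000000001000000000000000000000000000000000000000000000000000000000000000) (nat_lit 5)
theorem c15835 : QOK q15835 := cut [q15832] ⟨c15832, trivial⟩ (nd (nat_lit 339) (nat_lit 0) (cs (lf (nat_lit 36) (nat_lit 251)) (nd (nat_lit 361) (nat_lit 0) (cs (rf (nat_lit 0)) (lf (nat_lit 30) (nat_lit 295)))))) q15835 (by decide +kernel)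
def q15836 : Q := Q.p (nat_lit 0xe0000100000c00002000000000000000000000000000000000000000000000000000000000000000) (nat_lit 0x18000060000118000600000000000000000000000000000000000000000000000000000000000000000000000000) (nat_lit 4)
theorem c15836 : QOK q15836 := cut [q12841] ⟨c12841, trivial⟩ (nd (nat_lit 297) (nat_lit 0) (cs (rf (nat_lit 0)) (nd (nat_lit 316) (nat_lit 0) (cs (lf (nat_lit 17) (nat_lit 294)) (lf (nat_lit 12) (nat_lit 293)))))) q15836 (by decide +kernel)
def q15842 : Q := Q.p (nat_lit 0xe0000100000c00002000000000000000000000000000000000000000000000000000000000000000) (nat_lit 0xc00001180006e0000000000000000000000000000000000000000000000000000000000000000000000000) (nat_lit 4)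
theorem c15842 : QOK q15842 := cut [q15838, q15839, q15841] ⟨c15838, c15839, c15841, trivial⟩ (nd (nat_lit 294) (nat_lit 0) (cs (rf (nat_lit 0)) (cs (rf (nat_lit 1)) (rf (nat_lit 2))))) q15842 (by decide +kernel)
def q15882 : Q := Q.p (nat_lit 0x60000100000c00000000000000000000000000000000000000000000000000000000000000000000) (nat_lit 0x200000a0000ef00039c001ef8000000000000000000000000000000000000000000000000000000000000000000000000) (nat_lit 10)
theorem c15882 : QOK q15882 := cut [q15852, q15854, q15857, q15862, q15868] ⟨c15852, c15854, c15857, c15862, c15868, trivial⟩ (nd (nat_lit 316) (nat_lit 0) (cs (rf (nat_lit 0)) (cs (rf (nat_lit 1)) (cs (nd (nat_lit 319) (nat_lit 0) (cs (nd (nat_lit 338) (nat_lit 0) (cs (lf (nat_lit 11) (nat_lit 315)) (nd (nat_lit 293) (nat_lit 0) (cs (lf (nat_lit 22) (nat_lit 293)) (rf (nat_lit 2)))))) (nd (nat_lit 341) (nat_lit 0) (cs (lf (nat_lit 5) (nat_lit 316)) (rf (nat_lit 3)))))) (nd (nat_lit 293) (nat_lit 0) (cs (nd (nat_lit 294) (nat_lit 0) (cs (lf (nat_lit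 14) (nat_lit 271)) (lf (nat_lit 18) (nat_lit 293)))) (cs (nd (nat_lit 315) (nat_lit 0) (cs (lf (nat_lit 23) (nat_lit 292)) (nd (nat_lit 295) (nat_lit 0) (cs (lf (nat_lit 12) (nat_lit 292)) (nd (nat_lit 339) (nat_lit 0) (cs (lf (nat_lit 30) (nat_lit 273)) (nd (nat_lit 337) (nat_lit 0) (cs (lf (nat_lit 11) (nat_lit 314)) (nd (nat_lit 319) (nat_lit 0) (cs (lf (nat_lit 10) (nat_lit 315)) (rf (nat_lit 4)))))))))))) (cs (nd (nat_lit 292) (nat_lit 0) (cs (nd (nat_lit 294) (nat_lit 0) (cs (lf (nat_lit 18) (nat_lit 293)) (lf (nat_lit 0) (nat_lit 291)))) (lf (nat_lit 21) (nat_lit 292)))) (nd (nat_lit 292) (nat_lit 0) (cs (lf (nat_lit 21) (nat_lit 292)) (nd (nat_lit 294) (nat_lit 0) (cs (lf (nat_lit 0) (nat_lit 291)) (lf (nat_lit 3) (nat_lit 292)))))))))))))) q15882 (by decide +kernel)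
def q15883 : Q := Q.p (nat_lit 0x60000100000c00002000000000000000000000000000000000000000000000000000000000000000) (nat_lit 0x80000000000c0000380001e00003800000000000000000000000000000000000000000000000000000000) (nat_lit 7)
theorem c15883 : QOK q15883 := cut [q15848] ⟨c15848, trivial⟩ (nd (nat_lit 252) (nat_lit 0) (cs (lf (nat_lit 41) (nat_lit 251)) (rf (nat_lit 0)))) q15883 (by decide +kernel)
def q15909 : Q := Q.p (nat_lit 0x140000d00002400000000010000000000000000000000000000000000000000000000000000) (nat_lit 0x10000000000080001a0000b80002e000008000000000000000000000000000000000000000000000) (nat_lit 6)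
theorem c15909 : QOK q15909 := cut [q14159, q15903, q15907] ⟨c14159, c15903, c15907, trivial⟩ (nd (nat_lit 227) (nat_lit 0) (cs (rf (nat_lit 0)) (cs (nd (nat_lit 209) (nat_lit 0) (cs (lf (nat_lit 37) (nat_lit 208)) (rf (nat_lit 1)))) (nd (nat_lit 209) (nat_lit 0) (cs (lf (nat_lit 37) (nat_lit 208)) (rf (nat_lit 2))))))) q15909 (by decide +kernel)
def q15922 : Q := Q.p (nat_lit 0x1c0000d00000000000000000000000000000000000000000000000000000000000000000000) (nat_lit 0x8000020000198000200000080001000000000000000000000000000000000000000000000000000000000000000) (nat_lit 5)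
theorem c15922 : QOK q15922 := cut [q15920] ⟨c15920, trivial⟩ (nd (nat_lit 297) (nat_lit 0) (cs (lf (nat_lit 23) (nat_lit 271)) (nd (nat_lit 315) (nat_lit 0) (cs (lf (nat_lit 10) (nat_lit 293)) (rf (nat_lit 0)))))) q15922 (by decide +kernel)
def q15937 : Q := Q.p (nat_lit 0x140000c00002000000000000000000000000000000000000000000000000000000000000000) (nat_lit 0x2a0003000000000008000020000000000000000000000000000000000000000000000000000) (nat_lit 4)
theorem c15937 : QOK q15937 := cut [q15936] ⟨c15936, trivial⟩ (nd (nat_lit 209) (nat_lit 0) (cs (lf (nat_lit 37) (nat_lit 208)) (rf (nat_lit 0)))) q15937 (by decide +kernel)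
def q15991 : Q := Q.p (nat_lit 0x200000c00002000008000000000000000000000000000000000000000000000000000000000) (nat_lit 0x140000d00000300000000000000000000000000000000000000000000000000000000000000000000) (nat_lit 4)
theorem c15991 : QOK q15991 := cut [q2561] ⟨c2561, trivial⟩ (nd (nat_lit 296) (nat_lit 0) (cs (lf (nat_lit 41) (nat_lit 230)) (rf (nat_lit 0)))) q15991 (by decide +kernel)
def q16036 : Q := Q.p (nat_lit 0x200000800002000000000010000000000000000000000000000000000000000000000000000) (nat_lit 0x10000040000100000000001c000060000100000000000000000000000000000000000000000000000) (nat_lit 5)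
theorem c16036 : QOK q16036 := cut [q12650] ⟨c12650, trivial⟩ (nd (nat_lit 231) (nat_lit 0) (cs (lf (nat_lit 46) (nat_lit 208)) (rf (nat_lit 0)))) q16036 (by decide +kernel)
def q16040 : Q := Q.p (nat_lit 0x800002000000000010000000000000000000000000000000000000000000000000000) (nat_lit 0x8000020000040000100000c000020000040000100000000000000000000000000000000000000000) (nat_lit 4)
theorem c16040 : QOK q16040 := cut [q1142, q1225, q11474, q16038] ⟨c1142, c1225, c11474, c16038, trivial⟩ (nd (nat_lit 230) (nat_lit 0) (cs (rf (nat_lit 0)) (cs (rf (nat_lit 1)) (cs (rf (nat_lit 2)) (nd (nat_lit 186) (nat_lit 0) (cs (lf (nat_lit 27) (nat_lit 186)) (rf (nat_lit 3)))))))) q16040 (by decide +kernel)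
def q16100 : Q := Q.p (nat_lit 0x38000000000000000000000000000000000000000000000000000) (nat_lit 0x3c000460003bc000000000000000000000000000000000000000000000) (nat_lit 5)
theorem c16100 : QOK q16100 := cut [q117, q791, q16099] ⟨c117, c791, c16099, trivial⟩ (nd (nat_lit 206) (nat_lit 0) (cs (rf (nat_lit 0)) (cs (rf (nat_lit 1)) (rf (nat_lit 2))))) q16100 (by decide +kernel)
def q16138 : Q := Q.p (nat_lit 0x2000008000060000000000000000000000000000000000000000000000000000) (nat_lit 0x100000700001c00001000010000000000180000000000000000000000000000000000000000000000) (nat_lit 6)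
theorem c16138 : QOK q16138 := cut [q16135] ⟨c16135, trivial⟩ (nd (nat_lit 275) (nat_lit 0) (cs (lf (nat_lit 35) (nat_lit 187)) (nd (nat_lit 274) (nat_lit 0) (cs (lf (nat_lit 41) (nat_lit 208)) (nd (nat_lit 187) (nat_lit 0) (cs (lf (nat_lit 40) (nat_lit 186)) (rf (nat_lit 0)))))))) q16138 (by decide +kernel)
def q16145 : Q := Q.p (nat_lit 0x78000000000000000000000000000000000000000000000000000) (nat_lit 0x3800004000038000000000000000000000000000000000000000000000) (nat_lit 4)
theorem c16145 : QOK q16145 := cut [q78] ⟨c78, trivial⟩ (nd (nat_lit 184) (nat_lit 0) (cs (rf (nat_lit 0)) (lf (nat_lit 22) (nat_lit 184)))) q16145 (by decide +kernel)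
def q16226 : Q := Q.p (nat_lit 0x38000000000000000000000000000000000000000000000000000) (nat_lit 0x700000c40007f8000000000000000000000000000000000000000000000) (nat_lit 6)
theorem c16226 : QOK q16226 := cut [q98, q139, q1483, q16117] ⟨c98, c139, c1483, c16117, trivial⟩ (nd (nat_lit 210) (nat_lit 0) (cs (rf (nat_lit 0)) (cs (rf (nat_lit 1)) (cs (rf (nat_lit 2)) (rf (nat_lit 3)))))) q16226 (by decide +kernel)
def q16249 : Q := Q.p (nat_lit 0x8000020000080000200000000000000000000000000000000000) (nat_lit 0x2000000000000000060001d00001400000000000000000000000000000) (nat_lit 5)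
theorem c16249 : QOK q16249 := cut [q6188] ⟨c6188, trivial⟩ (nd (nat_lit 142) (nat_lit 0) (cs (lf (nat_lit 35) (nat_lit 119)) (rf (nat_lit 0)))) q16249 (by decide +kernel)
def q16260 : Q := Q.p (nat_lit 0x18000060000180000200000000000000000000000000000000000) (nat_lit 0x40003c00003000000000000000000000000000000) (nat_lit 4)
theorem c16260 : QOK q16260 := cut [q1927] ⟨c1927, trivial⟩ (nd (nat_lit 142) (nat_lit 0) (cs (lf (nat_lit 35) (nat_lit 119)) (rf (nat_lit 0)))) q16260 (by decide +kernel)
def q16276 : Q := Q.p (nat_lit 0x2000000000004000010000040000100000000000000000000000000000000000) (nat_lit 0x200001e00003800002000000000000000000000000000000000000000000000000000) (nat_lit 5)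
theorem c16276 : QOK q16276 := cut [q16275] ⟨c16275, trivial⟩ (nd (nat_lit 227) (nat_lit 0) (cs (lf (nat_lit 40) (nat_lit 139)) (rf (nat_lit 0)))) q16276 (by decide +kernel)
def q16363 : Q := Q.p (nat_lit 0x8000030000000000700000000000000000000000000000000000000000) (nat_lit 0x40000880000780000000000000000000000000000000000) (nat_lit 4)
theorem c16363 : QOK q16363 := cut [q9388] ⟨c9388, trivial⟩ (nd (nat_lit 142) (nat_lit 0) (cs (rf (nat_lit 0)) (lf (nat_lit 26) (nat_lit 142)))) q16363 (by decide +kernel)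
def q16425 : Q := Q.p (nat_lit 0xf0000000000000000000000000000000000000000000000000000) (nat_lit 0xe00001000000e0000000000000000000000000000000000000000000000) (nat_lit 4)
theorem c16425 : QOK q16425 := cut [q10178] ⟨c10178, trivial⟩ (nd (nat_lit 234) (nat_lit 0) (cs (lf (nat_lit 4) (nat_lit 208)) (rf (nat_lit 0)))) q16425 (by decide +kernel)
def q16477 : Q := Q.p (nat_lit 0x80000200000c00003000000000000000000000000000000000000) (nat_lit 0x4000010000000000020001c000010000000000000000000000000000000) (nat_lit 4)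
theorem c16477 : QOK q16477 := cut [q15448] ⟨c15448, trivial⟩ (nd (nat_lit 212) (nat_lit 0) (cs (rf (nat_lit 0)) (lf (nat_lit 29) (nat_lit 145)))) q16477 (by decide +kernel)
def q16609 : Q := Q.p (nat_lit 0xc00000c00000000000000000000000000000000000) (nat_lit 0x270001380007000000000000000000000000000000) (nat_lit 6)
theorem c16609 : QOK q16609 := cut [q5770] ⟨c5770, trivial⟩ (nd (nat_lit 141) (nat_lit 0) (cs (lf (nat_lit 3) (nat_lit 141)) (nd (nat_lit 140) (nat_lit 0) (cs (lf (nat_lit 4) (nat_lit 140)) (rf (nat_lit 0)))))) q16609 (by decide +kernel)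
def q16673 : Q := Q.p (nat_lit 0x400001c00000000000000000000000000000000000) (nat_lit 0x8e000030000e000000000000000000000000000000) (nat_lit 5)
theorem c16673 : QOK q16673 := cut [q16672] ⟨c16672, trivial⟩ (nd (nat_lit 141) (nat_lit 0) (cs (lf (nat_lit 5) (nat_lit 141)) (rf (nat_lit 0)))) q16673 (by decide +kernel)
def q16685 : Q := Q.p (nat_lit 0xf0000000000000000000000000000000000000000000000000000) (nat_lit 0xe0000100000e00000000000000000000000000000000000000000000000) (nat_lit 4)
theorem c16685 : QOK q16685 := cut [q16684] ⟨c16684, trivial⟩ (nd (nat_lit 234) (nat_lit 0) (cs (lf (nat_lit 4) (nat_lit 208)) (rf (nat_lit 0)))) q16685 (by decide +kernel)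
def q16708 : Q := Q.p (nat_lit 0x3800002000000000000000000000000000000000000000000000000000000000000000) (nat_lit 0x700000c000071000000000000000000000000000000000000000000000000000000000000000) (nat_lit 5)
theorem c16708 : QOK q16708 := cut [q16707] ⟨c16707, trivial⟩ (nd (nat_lit 278) (nat_lit 0) (cs (lf (nat_lit 23) (nat_lit 252)) (rf (nat_lit 0)))) q16708 (by decide +kernel)
def q16841 : Q := Q.p (nat_lit 0x80000200000800002000000000078000000000000000000000000000000000000000000000000000) (nat_lit 0x200001e000178001df000f300009c00073800180000e30000000000000000000000000000000000000000000000) (nat_lit 13)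
theorem c16841 : QOK q16841 := cut [q2583, q2581, q13131, q15320, q16795, q16805, q16814, q16830, q13132] ⟨c2583, c2581, c13131, c15320, c16795, c16805, c16814, c16830, c13132, trivial⟩ (nd (nat_lit 318) (nat_lit 0) (cs (lf (nat_lit 41) (nat_lit 252)) (nd (nat_lit 317) (nat_lit 0) (cs (nd (nat_lit 228) (nat_lit 0) (cs (lf (nat_lit 10) (nat_lit 206)) (rf (nat_lit 0)))) (cs (nd (nat_lit 233) (nat_lit 0) (cs (lf (nat_lit 4) (nat_lit 207)) (nd (nat_lit 298) (nat_lit 0) (cs (rf (nat_lit 1)) (cs (rf (nat_lit 2)) (nd (nat_lit 295) (nat_lit 0) (cs (nd (nat_lit 228) (nat_lit 0) (cs (lf (nat_lit 10) (nat_lit 206)) (nd (nat_lit 211) (nat_lit 0) (cs (lf (nat_lit 5) (nat_lit 208)) (nd (nat_lit 189) (nat_lit 0) (cs (lf (nat_lit 17) (nat_lit 186)) (nd (nat_lit 294) (nat_lit 0) (cs (lf (nat_lit 18) (nat_lit 294)) (nd (nat_lit 250) (nat_lit 0) (cs (nd (nat_lit 251) (nat_lit 0) (cs (rf (nat_lit 3)) (lf (nat_lit 44) (nat_lit 228)))) (lf (nat_lit 26) (nat_lit 228)))))))))))) (cs (nd (nat_lit 184) (nat_lit 0)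 (cs (lf (nat_lit 22) (nat_lit 184)) (nd (nat_lit 211) (nat_lit 0) (cs (lf (nat_lit 5) (nat_lit 208)) (nd (nat_lit 190) (nat_lit 0) (cs (lf (nat_lit 16) (nat_lit 186)) (nd (nat_lit 212) (nat_lit 0) (cs (lf (nat_lit 17) (nat_lit 187)) (nd (nat_lit 277) (nat_lit 0) (cs (lf (nat_lit 31) (nat_lit 189)) (nd (nat_lit 276) (nat_lit 0) (cs (rf (nat_lit 4)) (lf (nat_lit 13) (nat_lit 273)))))))))))))) (nd (nat_lit 228) (nat_lit 0) (cs (lf (nat_lit 10) (nat_lit 206)) (nd (nat_lit 294) (nat_lit 0) (cs (lf (nat_lit 18) (nat_lit 294)) (rf (nat_lit 5)))))))))))))) (cs (nd (nat_lit 294) (nat_lit 0) (cs (nd (nat_lit 295) (nat_lit 0) (cs (lf (nat_lit 18) (nat_lit 294)) (nd (nat_lit 296) (nat_lit 0) (cs (lf (nat_lit 17) (nat_lit 272)) (lf (nat_lit 0) (nat_lit 293)))))) (cs (nd (nat_lit 228) (nat_lit 0) (cs (lf (nat_lit 10) (nat_lit 206)) (nd (nat_lit 232) (nat_lit 0) (cs (lf (nat_lit 5) (nat_lit 207)) (nd (nat_lit 184) (nat_lit 0) (cs (lf (nat_lit 22) (nat_lit 184)) (nd (nat_lit 316) (nat_lit 0) (cs (lf (nat_lit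 23) (nat_lit 293)) (nd (nat_lit 296) (nat_lit 0) (cs (lf (nat_lit 12) (nat_lit 293)) (nd (nat_lit 338) (nat_lit 0) (cs (lf (nat_lit 11) (nat_lit 315)) (nd (nat_lit 339) (nat_lit 0) (cs (rf (nat_lit 6)) (lf (nat_lit 6) (nat_lit 316)))))))))))))))) (cs (nd (nat_lit 295) (nat_lit 0) (cs (lf (nat_lit 18) (nat_lit 294)) (nd (nat_lit 276) (nat_lit 0) (cs (nd (nat_lit 228) (nat_lit 0) (cs (lf (nat_lit 10) (nat_lit 206)) (nd (nat_lit 232) (nat_lit 0) (cs (lf (nat_lit 5) (nat_lit 207)) (nd (nat_lit 250) (nat_lit 0) (cs (lf (nat_lit 26) (nat_lit 228)) (nd (nat_lit 251) (nat_lit 0) (cs (lf (nat_lit 2) (nat_lit 250)) (lf (nat_lit 44) (nat_lit 228)))))))))) (lf (nat_lit 14) (nat_lit 272)))))) (cs (nd (nat_lit 232) (nat_lit 0) (cs (lf (nat_lit 5) (nat_lit 207)) (nd (nat_lit 295) (nat_lit 0) (cs (lf (nat_lit 18) (nat_lit 294)) (rf (nat_lit 7)))))) (nd (nat_lit 232) (nat_lit 0) (cs (lf (nat_lit 5) (nat_lit 207)) (nd (nat_lit 228) (nat_lit 0) (cs (lf (nat_lit 10) (nat_lit 206)) (nd (nat_lit 184) (nat_lit 0)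 (cs (lf (nat_lit 22) (nat_lit 184)) (nd (nat_lit 293) (nat_lit 0) (cs (lf (nat_lit 21) (nat_lit 293)) (nd (nat_lit 295) (nat_lit 0) (cs (lf (nat_lit 0) (nat_lit 292)) (lf (nat_lit 3) (nat_lit 293))))))))))))))))) (nd (nat_lit 232) (nat_lit 0) (cs (lf (nat_lit 5) (nat_lit 207)) (rf (nat_lit 8)))))))))) q16841 (by decide +kernel)
def q16876 : Q := Q.p (nat_lit 0x80000200000800002000000000078000000000000000000000000000000000000000000000000000) (nat_lit 0x14000070000140000000000000000000003000000000000000000000000000000000000000000000000000000000) (nat_lit 5)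
theorem c16876 : QOK q16876 := cut [q2578] ⟨c2578, trivial⟩ (nd (nat_lit 340) (nat_lit 0) (cs (lf (nat_lit 40) (nat_lit 252)) (nd (nat_lit 228) (nat_lit 0) (cs (lf (nat_lit 10) (nat_lit 206)) (rf (nat_lit 0)))))) q16876 (by decide +kernel)
def q17064 : Q := Q.p (nat_lit 0x180000c00002000000000000000000000000000000000000000000000000000000000000000) (nat_lit 0x20000080000300003e0000260000000001000000000000000000000000000000000000000000000000000000000000000) (nat_lit 5)
theorem c17064 : QOK q17064 := cut [q15986, q17059] ⟨c15986, c17059, trivial⟩ (nd (nat_lit 318) (nat_lit 0) (cs (lf (nat_lit 30) (nat_lit 252)) (nd (nat_lit 319) (nat_lit 0) (cs (rf (nat_lit 0)) (rf (nat_lit 1)))))) q17064 (by decide +kernel)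
def q17112 : Q := Q.p (nat_lit 0x10000070000000000000000000000000000000000000000000000000000) (nat_lit 0x2380000c000038000000000000000000000000000000000000000000000) (nat_lit 5)
theorem c17112 : QOK q17112 := cut [q186] ⟨c186, trivial⟩ (nd (nat_lit 207) (nat_lit 0) (cs (lf (nat_lit 5) (nat_lit 207)) (rf (nat_lit 0)))) q17112 (by decide +kernel)
def q17122 : Q := Q.p (nat_lit 0x100002400001000004000000000000000000000000000000000000000000000000000) (nat_lit 0xa0000680001800000000002000008000000000000000000000000000000000000000000000) (nat_lit 5)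
theorem c17122 : QOK q17122 := cut [q17120] ⟨c17120, trivial⟩ (nd (nat_lit 273) (nat_lit 0) (cs (lf (nat_lit 29) (nat_lit 206)) (nd (nat_lit 183) (nat_lit 0) (cs (lf (nat_lit 46) (nat_lit 183)) (rf (nat_lit 0)))))) q17122 (by decide +kernel)
def q17127 : Q := Q.p (nat_lit 0x100000400001000004000000000000000000000000000000000000000000000000000) (nat_lit 0x20000080000200000000002000018000020000000000000000000000000000000000000000) (nat_lit 4)
theorem c17127 : QOK q17127 := cut [q17126] ⟨c17126, trivial⟩ (nd (nat_lit 271) (nat_lit 0) (cs (lf (nat_lit 41) (nat_lit 205)) (rf (nat_lit 0)))) q17127 (by decide +kernel)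
def q17154 : Q := Q.p (nat_lit 0x2400011000004000000000000000000000000000000000000000000000000000) (nat_lit 0x2000018000088000000000380000e0000280000000000000000000000000000000000) (nat_lit 5)
theorem c17154 : QOK q17154 := cut [q3767, q17133] ⟨c3767, c17133, trivial⟩ (nd (nat_lit 184) (nat_lit 0) (cs (rf (nat_lit 0)) (rf (nat_lit 1)))) q17154 (by decide +kernel)
def q17155 : Q := Q.p (nat_lit 0x80000400001000004000000000000000000000000000000000000000000000000000) (nat_lit 0x2000000000000000380000e0000280000000000000000000000000000000000) (nat_lit 5)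
theorem c17155 : QOK q17155 := cut [q3767] ⟨c3767, trivial⟩ (nd (nat_lit 184) (nat_lit 0) (cs (rf (nat_lit 0)) (lf (nat_lit 40) (nat_lit 183)))) q17155 (by decide +kernel)
def q17164 : Q := Q.p (nat_lit 0x400001000004000010000000000000000000000000000000000000000000000) (nat_lit 0x200001800002000000000020000280000a0000000000000000000000000000000000000000) (nat_lit 5)
theorem c17164 : QOK q17164 := cut [q17162] ⟨c17162, trivial⟩ (nd (nat_lit 271) (nat_lit 0) (cs (lf (nat_lit 40) (nat_lit 183)) (nd (nat_lit 163) (nat_lit 0) (cs (lf (nat_lit 34) (nat_lit 162)) (rf (nat_lit 0)))))) q17164 (by decide +kernel)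
def q17172 : Q := Q.p (nat_lit 0x80002400001000004000000000000000000000000000000000000000000000000000) (nat_lit 0xa0000700001800000000000000000000000000000000000000000000000000000000000000) (nat_lit 4)
theorem c17172 : QOK q17172 := cut [q11980] ⟨c11980, trivial⟩ (nd (nat_lit 272) (nat_lit 0) (cs (lf (nat_lit 41) (nat_lit 205)) (rf (nat_lit 0)))) q17172 (by decide +kernel)
def q17184 : Q := Q.p (nat_lit 0x2400001000004000010000000000000000000000000000000000000000000000) (nat_lit 0x1e80001a00000800000000020000080000000000000000000000000000000000000000) (nat_lit 6)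
theorem c17184 : QOK q17184 := cut [q17182] ⟨c17182, trivial⟩ (nd (nat_lit 249) (nat_lit 0) (cs (lf (nat_lit 41) (nat_lit 183)) (nd (nat_lit 163) (nat_lit 0) (cs (lf (nat_lit 34) (nat_lit 162)) (rf (nat_lit 0)))))) q17184 (by decide +kernel)
def q17192 : Q := Q.p (nat_lit 0xc00001000004000008000000000000000000000000000000000000000000000) (nat_lit 0x20000000000300000e0000200000000000000000000000000000000000) (nat_lit 4)
theorem c17192 : QOK q17192 := cut [q17191] ⟨c17191, trivial⟩ (nd (nat_lit 184) (nat_lit 0) (cs (lf (nat_lit 47) (nat_lit 161)) (rf (nat_lit 0)))) q17192 (by decide +kernel)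
def q17205 : Q := Q.p (nat_lit 0x80000400001000004000000000000000000000000000000000000000000000000000) (nat_lit 0x200000a000020000000000300000c0000200000000000000000000000000000000000) (nat_lit 5)
theorem c17205 : QOK q17205 := cut [q17204] ⟨c17204, trivial⟩ (nd (nat_lit 184) (nat_lit 0) (cs (lf (nat_lit 40) (nat_lit 183)) (rf (nat_lit 0)))) q17205 (by decide +kernel)
def q17242 : Q := Q.p (nat_lit 0x400001c000008000000000000000000000000000000000000000) (nat_lit 0x2e00003000004000000000000000000000000000000000000000) (nat_lit 4)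
theorem c17242 : QOK q17242 := cut [q17241] ⟨c17241, trivial⟩ (nd (nat_lit 181) (nat_lit 0) (cs (lf (nat_lit 23) (nat_lit 158)) (rf (nat_lit 0)))) q17242 (by decide +kernel)
def q17292 : Q := Q.p (nat_lit 0x180000200000800000000000000000000000000000000000000000000000000) (nat_lit 0x4000000000040000000000300000c000010000000000000000000000000000000000) (nat_lit 4)
theorem c17292 : QOK q17292 := cut [q17291] ⟨c17291, trivial⟩ (nd (nat_lit 181) (nat_lit 0) (cs (lf (nat_lit 29) (nat_lit 181)) (rf (nat_lit 0)))) q17292 (by decide +kernel)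
def q17314 : Q := Q.p (nat_lit 0x1000004000010000040000000000000000000000000000000000000000) (nat_lit 0x200000800002000000000020000180000200000000000000000000000000000) (nat_lit 4)
theorem c17314 : QOK q17314 := cut [q17313] ⟨c17313, trivial⟩ (nd (nat_lit 227) (nat_lit 0) (cs (lf (nat_lit 41) (nat_lit 161)) (rf (nat_lit 0)))) q17314 (by decide +kernel)
def q17376 : Q := Q.p (nat_lit 0x2400001000004000000000000000000000000000000000000000000000000000) (nat_lit 0x280000f80007c0001380002e0000380000a000000000000000000000000000000000000000000000) (nat_lit 12)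
theorem c17376 : QOK q17376 := cut [q17152, q17369, q17375] ⟨c17152, c17369, c17375, trivial⟩ (nd (nat_lit 272) (nat_lit 0) (cs (rf (nat_lit 0)) (cs (nd (nat_lit 271) (nat_lit 0) (cs (lf (nat_lit 41) (nat_lit 205)) (nd (nat_lit 205) (nat_lit 0) (cs (lf (nat_lit 47) (nat_lit 183)) (nd (nat_lit 273) (nat_lit 0) (cs (lf (nat_lit 29) (nat_lit 206)) (nd (nat_lit 274) (nat_lit 0) (cs (lf (nat_lit 16) (nat_lit 249)) (nd (nat_lit 248) (nat_lit 0) (cs (lf (nat_lit 22) (nat_lit 248)) (nd (nat_lit 270) (nat_lit 0) (cs (lf (nat_lit 23) (nat_lit 247)) (nd (nat_lit 292) (nat_lit 0) (cs (lf (nat_lit 11) (nat_lit 269)) (nd (nat_lit 226) (nat_lit 0) (cs (nd (nat_lit 203) (nat_lit 0) (cs (lf (nat_lit 46) (nat_lit 203)) (nd (nat_lit 204) (nat_lit 0) (cs (lf (nat_lit 47) (nat_lit 181)) (lf (nat_lit 5) (nat_lit 203)))))) (lf (nat_lit 34) (nat_lit 204)))))))))))))))))) (cs (rf (nat_lit 1)) (rf (nat_lit 2)))))) q17376 (by decide +kernel)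
def q17404 : Q := Q.p (nat_lit 0x40000100000400001000000000000000000000000000000000000000000000000000000000) (nat_lit 0x2000018000020000000000200000800002000000000000000000000000000000000000000000000000000) (nat_lit 4)
theorem c17404 : QOK q17404 := cut [q17403] ⟨c17403, trivial⟩ (nd (nat_lit 227) (nat_lit 0) (cs (lf (nat_lit 47) (nat_lit 205)) (rf (nat_lit 0)))) q17404 (by decide +kernel)
def q17426 : Q := Q.p (nat_lit 0x100000400001000004000000000000000000000000000000000000000000000000000) (nat_lit 0x80000380000e0000080000200000800002000000000000000000000000000000000000000000000000000) (nat_lit 6)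
theorem c17426 : QOK q17426 := cut [q17424] ⟨c17424, trivial⟩ (nd (nat_lit 293) (nat_lit 0) (cs (lf (nat_lit 40) (nat_lit 205)) (nd (nat_lit 294) (nat_lit 0) (cs (lf (nat_lit 41) (nat_lit 227)) (rf (nat_lit 0)))))) q17426 (by decide +kernel)
def q17523 : Q := Q.p (nat_lit 0x2000000000030000018000000000000000000000000000000000000000000000) (nat_lit 0x8000000000080000000000e0000100000400000000000000000000000000000000000) (nat_lit 4)
theorem c17523 : QOK q17523 := cut [q35] ⟨c35, trivial⟩ (nd (nat_lit 186) (nat_lit 0) (cs (rf (nat_lit 0)) (lf (nat_lit 2) (nat_lit 183)))) q17523 (by decide +kernel)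
def q17561 : Q := Q.p (nat_lit 0x2400001000024000018000000000000000000000000000000000000000000000) (nat_lit 0x100001f00001800018800002000080000000000000000000000000000000000000000000000) (nat_lit 7)
theorem c17561 : QOK q17561 := cut [q17559] ⟨c17559, trivial⟩ (nd (nat_lit 251) (nat_lit 0) (cs (lf (nat_lit 29) (nat_lit 184)) (nd (nat_lit 205) (nat_lit 0) (cs (lf (nat_lit 42) (nat_lit 183)) (rf (nat_lit 0)))))) q17561 (by decide +kernel)
def q17567 : Q := Q.p (nat_lit 0x2400001000004000010000000000000000000000000000000000000000000000) (nat_lit 0x1e80001a00000800000000000000000000000000000000000000000000000000000000) (nat_lit 5)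
theorem c17567 : QOK q17567 := cut [q17182] ⟨c17182, trivial⟩ (nd (nat_lit 249) (nat_lit 0) (cs (lf (nat_lit 41) (nat_lit 183)) (rf (nat_lit 0)))) q17567 (by decide +kernel)
def q17608 : Q := Q.p (nat_lit 0x10000070000000000000000000000000000000000000000) (nat_lit 0x2380000c000038000000000000000000000000000000000) (nat_lit 5)
theorem c17608 : QOK q17608 := cut [q11414] ⟨c11414, trivial⟩ (nd (nat_lit 159) (nat_lit 0) (cs (lf (nat_lit 5) (nat_lit 159)) (rf (nat_lit 0)))) q17608 (by decide +kernel)
def q17634 : Q := Q.p (nat_lit 0x2000001000034000010000000000000000000000000000000000000000000000) (nat_lit 0x1a00001c0001a8000000000600000e0000380000a00000000000000000000000000000) (nat_lit 9)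
theorem c17634 : QOK q17634 := cut [q1273, q17553, q17633] ⟨c1273, c17553, c17633, trivial⟩ (nd (nat_lit 162) (nat_lit 0) (cs (rf (nat_lit 0)) (cs (nd (nat_lit 251) (nat_lit 0) (cs (lf (nat_lit 28) (nat_lit 162)) (nd (nat_lit 250) (nat_lit 0) (cs (lf (nat_lit 29) (nat_lit 184)) (nd (nat_lit 163) (nat_lit 0) (cs (lf (nat_lit 34) (nat_lit 162)) (rf (nat_lit 1)))))))) (rf (nat_lit 2))))) q17634 (by decide +kernel)
def q17643 : Q := Q.p (nat_lit 0x1000004000010000040000000000000000000000000000000000000000) (nat_lit 0x80000600000800000000020000080000200000000000000000000000000000000000) (nat_lit 4)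
theorem c17643 : QOK q17643 := cut [q17642] ⟨c17642, trivial⟩ (nd (nat_lit 163) (nat_lit 0) (cs (lf (nat_lit 35) (nat_lit 140)) (rf (nat_lit 0)))) q17643 (by decide +kernel)
def q17662 : Q := Q.p (nat_lit 0x800004000010000040000000000000000000000000000000000000000) (nat_lit 0x2000000000000000380000e00002800000000000000000000000) (nat_lit 5)
theorem c17662 : QOK q17662 := cut [q2497] ⟨c2497, trivial⟩ (nd (nat_lit 140) (nat_lit 0) (cs (rf (nat_lit 0)) (lf (nat_lit 40) (nat_lit 139)))) q17662 (by decide +kernel)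
def q17675 : Q := Q.p (nat_lit 0x2400001000004000010000000000000000000000000000000000000000000000) (nat_lit 0x20000180001a000020000000000200000c0000200000000000000000000000000000000000) (nat_lit 6)
theorem c17675 : QOK q17675 := cut [q5881] ⟨c5881, trivial⟩ (nd (nat_lit 163) (nat_lit 0) (cs (lf (nat_lit 34) (nat_lit 162)) (nd (nat_lit 162) (nat_lit 0) (cs (lf (nat_lit 35) (nat_lit 140)) (nd (nat_lit 251) (nat_lit 0) (cs (lf (nat_lit 28) (nat_lit 162)) (rf (nat_lit 0)))))))) q17675 (by decide +kernel)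
def q17691 : Q := Q.p (nat_lit 0x400001000004000010000000000000000000000000000000000000000000000) (nat_lit 0x280000a00002800000000000000040000000000000000000000000000000000000000) (nat_lit 4)
theorem c17691 : QOK q17691 := cut [q17690] ⟨c17690, trivial⟩ (nd (nat_lit 249) (nat_lit 0) (cs (lf (nat_lit 41) (nat_lit 183)) (rf (nat_lit 0)))) q17691 (by decide +kernel)
def q17747 : Q := Q.p (nat_lit 0x2000000000034000010000000000000000000000000000000000000000000000) (nat_lit 0x800000000008800002c001ef0007fc001ff0007fe0002800000000000000000000000) (nat_lit 14)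
theorem c17747 : QOK q17747 := cut [q35, q17697, q17609, q17698, q541, q2497, q17700, q17716, q17722, q17733, q17746] ⟨c35, c17697, c17609, c17698, c541, c2497, c17700, c17716, c17722, c17733, c17746, trivial⟩ (nd (nat_lit 186) (nat_lit 0) (cs (rf (nat_lit 0)) (cs (rf (nat_lit 1)) (cs (nd (nat_lit 164) (nat_lit 0) (cs (rf (nat_lit 2)) (nd (nat_lit 183) (nat_lit 0) (cs (lf (nat_lit 2) (nat_lit 183)) (nd (nat_lit 162) (nat_lit 0) (cs (rf (nat_lit 3)) (cs (nd (nat_lit 140) (nat_lit 0) (cs (rf (nat_lit 4)) (cs (rf (nat_lit 5)) (nd (nat_lit 163) (nat_lit 0) (cs (lf (nat_lit 6) (nat_lit 161)) (nd (nat_lit 181) (nat_lit 0) (cs (nd (nat_lit 205) (nat_lit 0) (cs (lf (nat_lit 41) (nat_lit 139)) (rf (nat_lit 6)))) (lf (nat_lit 13) (nat_lit 159))))))))) (cs (nd (nat_lit 140) (nat_lit 0) (cs (rf (nat_lit 4)) (cs (rf (nat_lit 5)) (nd (nat_lit 139) (nat_lit 0) (cs (lf (nat_lit 47) (nat_lit 117)) (nd (nat_lit 138) (nat_lit 0) (cs (nd (nat_lit 205) (nat_lit 0) (cs (lf (nat_lit 41) (nat_lit 139)) (nd (nat_lit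 116) (nat_lit 0) (cs (nd (nat_lit 182) (nat_lit 0) (cs (nd (nat_lit 181) (nat_lit 0) (cs (lf (nat_lit 0) (nat_lit 180)) (nd (nat_lit 159) (nat_lit 0) (cs (lf (nat_lit 23) (nat_lit 158)) (nd (nat_lit 203) (nat_lit 0) (cs (lf (nat_lit 11) (nat_lit 180)) (lf (nat_lit 33) (nat_lit 115)))))))) (lf (nat_lit 26) (nat_lit 116)))) (lf (nat_lit 44) (nat_lit 116)))))) (cs (nd (nat_lit 141) (nat_lit 0) (cs (lf (nat_lit 35) (nat_lit 118)) (rf (nat_lit 7)))) (cs (nd (nat_lit 141) (nat_lit 0) (cs (lf (nat_lit 35) (nat_lit 118)) (nd (nat_lit 205) (nat_lit 0) (cs (lf (nat_lit 41) (nat_lit 139)) (nd (nat_lit 159) (nat_lit 0) (cs (lf (nat_lit 10) (nat_lit 137)) (nd (nat_lit 137) (nat_lit 0) (cs (lf (nat_lit 11) (nat_lit 136)) (rf (nat_lit 8)))))))))) (nd (nat_lit 205) (nat_lit 0) (cs (lf (nat_lit 41) (nat_lit 139)) (nd (nat_lit 116) (nat_lit 0) (cs (lf (nat_lit 44) (nat_lit 116)) (nd (nat_lit 141) (nat_lit 0) (cs (lf (nat_lit 35) (nat_lit 118)) (lf (nat_lit 23) (nat_lit 115))))))))))))))))) (nd (nat_lit 140)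 (nat_lit 0) (cs (rf (nat_lit 4)) (cs (rf (nat_lit 5)) (nd (nat_lit 163) (nat_lit 0) (cs (lf (nat_lit 6) (nat_lit 161)) (nd (nat_lit 205) (nat_lit 0) (cs (lf (nat_lit 41) (nat_lit 139)) (nd (nat_lit 119) (nat_lit 0) (cs (lf (nat_lit 34) (nat_lit 118)) (rf (nat_lit 9))))))))))))))))))) (rf (nat_lit 10)))))) q17747 (by decide +kernel)
def q17769 : Q := Q.p (nat_lit 0x1000004000010000040000000000000000000000000000000000000000) (nat_lit 0xa000028000000003ae0007b8001ef0000000000000000000000000000000000) (nat_lit 11)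
theorem c17769 : QOK q17769 := cut [q17749, q17752, q17757] ⟨c17749, c17752, c17757, trivial⟩ (nd (nat_lit 163) (nat_lit 0) (cs (lf (nat_lit 35) (nat_lit 140)) (nd (nat_lit 182) (nat_lit 0) (cs (nd (nat_lit 183) (nat_lit 0) (cs (lf (nat_lit 12) (nat_lit 159)) (rf (nat_lit 0)))) (cs (nd (nat_lit 227) (nat_lit 0) (cs (lf (nat_lit 41) (nat_lit 161)) (nd (nat_lit 229) (nat_lit 0) (cs (lf (nat_lit 29) (nat_lit 162)) (nd (nat_lit 161) (nat_lit 0) (cs (lf (nat_lit 47) (nat_lit 139)) (rf (nat_lit 1)))))))) (cs (nd (nat_lit 227) (nat_lit 0) (cs (lf (nat_lit 41) (nat_lit 161)) (nd (nat_lit 229) (nat_lit 0) (cs (lf (nat_lit 29) (nat_lit 162)) (nd (nat_lit 161) (nat_lit 0) (cs (lf (nat_lit 47) (nat_lit 139)) (nd (nat_lit 164) (nat_lit 0) (cs (lf (nat_lit 10) (nat_lit 160)) (nd (nat_lit 143) (nat_lit 0) (cs (lf (nat_lit 16) (nat_lit 139)) (nd (nat_lit 165) (nat_lit 0) (cs (lf (nat_lit 17) (nat_lit 140)) (rf (nat_lit 2)))))))))))))) (nd (nat_lit 181) (nat_lit 0) (cs (nd (nat_lit 161) (nat_lit 0) (cs (lf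 (nat_lit 47) (nat_lit 139)) (lf (nat_lit 9) (nat_lit 159)))) (lf (nat_lit 14) (nat_lit 159)))))))))) q17769 (by decide +kernel)
def q17796 : Q := Q.p (nat_lit 0x2000000000004000010000040000200000000000000000000000000000000000) (nat_lit 0x200001e000038000000000000000a0000180000200000000000000000000000000000) (nat_lit 7)
theorem c17796 : QOK q17796 := cut [q17588] ⟨c17588, trivial⟩ (nd (nat_lit 228) (nat_lit 0) (cs (lf (nat_lit 34) (nat_lit 140)) (nd (nat_lit 139) (nat_lit 0) (cs (lf (nat_lit 46) (nat_lit 139)) (nd (nat_lit 117) (nat_lit 0) (cs (lf (nat_lit 45) (nat_lit 117)) (rf (nat_lit 0)))))))) q17796 (by decide +kernel)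
def q17798 : Q := Q.p (nat_lit 0x4000010000040000200000000000000000000000000000000000) (nat_lit 0x1000000000000000030000d80000a00000000000000000000000000000) (nat_lit 5)
theorem c17798 : QOK q17798 := cut [q12622] ⟨c12622, trivial⟩ (nd (nat_lit 140) (nat_lit 0) (cs (lf (nat_lit 35) (nat_lit 118)) (rf (nat_lit 0)))) q17798 (by decide +kernel)
def q17805 : Q := Q.p (nat_lit 0x2000000000030000058000040000000000000000000000000000000000000000) (nat_lit 0x8000000000080000000000060003a0000400000000000000000000000000000000000) (nat_lit 5)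
theorem c17805 : QOK q17805 := cut [q17698] ⟨c17698, trivial⟩ (nd (nat_lit 231) (nat_lit 0) (cs (lf (nat_lit 42) (nat_lit 186)) (nd (nat_lit 164) (nat_lit 0) (cs (lf (nat_lit 24) (nat_lit 142)) (rf (nat_lit 0)))))) q17805 (by decide +kernel)
def q17809 : Q := Q.p (nat_lit 0x2000000000034000058000040000000000000000000000000000000000000000) (nat_lit 0x800000000009000000000000000380000700000800002000000000000000000000000) (nat_lit 6)
theorem c17809 : QOK q17809 := cut [q17806] ⟨c17806, trivial⟩ (nd (nat_lit 231) (nat_lit 0) (cs (lf (nat_lit 42) (nat_lit 186)) (nd (nat_lit 164) (nat_lit 0) (cs (lf (nat_lit 24) (nat_lit 142)) (nd (nat_lit 163) (nat_lit 0) (cs (lf (nat_lit 6) (nat_lit 161)) (rf (nat_lit 0)))))))) q17809 (by decide +kernel)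
def q17813 : Q := Q.p (nat_lit 0x4000018000040000100000000000000000000000000000000000) (nat_lit 0x20000200000e00003800002000000000000000000) (nat_lit 5)
theorem c17813 : QOK q17813 := cut [q17811] ⟨c17811, trivial⟩ (nd (nat_lit 119) (nat_lit 0) (cs (lf (nat_lit 34) (nat_lit 118)) (nd (nat_lit 118) (nat_lit 0) (cs (lf (nat_lit 35) (nat_lit 96)) (rf (nat_lit 0)))))) q17813 (by decide +kernel)
def q17819 : Q := Q.p (nat_lit 0x4000018000040000100000000000000000000000000000000000) (nat_lit 0x400001000000000000000020000280000c00003000000000000000000000000) (nat_lit 5)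
theorem c17819 : QOK q17819 := cut [q17817] ⟨c17817, trivial⟩ (nd (nat_lit 119) (nat_lit 0) (cs (lf (nat_lit 34) (nat_lit 118)) (nd (nat_lit 118) (nat_lit 0) (cs (lf (nat_lit 35) (nat_lit 96)) (rf (nat_lit 0)))))) q17819 (by decide +kernel)
def q17822 : Q := Q.p (nat_lit 0x2000000000004000010000040000080000000000000000000000000000000000) (nat_lit 0x200001e00003800000000000000020000000000000000000000000000000000000000) (nat_lit 5)
theorem c17822 : QOK q17822 := cut [q17588] ⟨c17588, trivial⟩ (nd (nat_lit 228) (nat_lit 0) (cs (lf (nat_lit 46) (nat_lit 139)) (rf (nat_lit 0)))) q17822 (by decide +kernel)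
def q17896 : Q := Q.p (nat_lit 0x3c00000000000000000000000000000000000000000000000000000000) (nat_lit 0x1c0000200001c00000000000000000000000000000000000000000000000000) (nat_lit 4)
theorem c17896 : QOK q17896 := cut [q17894] ⟨c17894, trivial⟩ (nd (nat_lit 247) (nat_lit 0) (cs (rf (nat_lit 0)) (lf (nat_lit 10) (nat_lit 225)))) q17896 (by decide +kernel)
def q17913 : Q := Q.p (nat_lit 0x1000004000018000040000000000000000000000000000000000000000) (nat_lit 0x2000000000020000380000e00002000000000000000000000000) (nat_lit 5)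
theorem c17913 : QOK q17913 := cut [q17912] ⟨c17912, trivial⟩ (nd (nat_lit 139) (nat_lit 0) (cs (lf (nat_lit 46) (nat_lit 139)) (rf (nat_lit 0)))) q17913 (by decide +kernel)
def q17998 : Q := Q.p (nat_lit 0x34000018000020000000000000000000000000000000000000000) (nat_lit 0xf40003f00003e0006700005e000370000dc0003700001400000000000000000) (nat_lit 12)
theorem c17998 : QOK q17998 := cut [q17226, q17933, q17886, q17947, q17273, q17967, q17985, q17990] ⟨c17226, c17933, c17886, c17947, c17273, c17967, c17985, c17990, trivial⟩ (nd (nat_lit 182) (nat_lit 0) (cs (nd (nat_lit 228) (nat_lit 0) (cs (lf (nat_lit 42) (nat_lit 161)) (nd (nat_lit 185) (nat_lit 0) (cs (lf (nat_lit 3) (nat_lit 183)) (rf (nat_lit 0)))))) (cs (nd (nat_lit 185) (nat_lit 0) (cs (lf (nat_lit 3) (nat_lit 183)) (nd (nat_lit 203) (nat_lit 0) (cs (lf (nat_lit 10) (nat_lit 181)) (nd (nat_lit 181) (nat_lit 0) (cs (lf (nat_lit 11) (nat_lit 180)) (rf (nat_lit 1)))))))) (cs (nd (nat_lit 227) (nat_lit 0) (cs (nd (nat_lit 228) (nat_lit 0) (cs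 (lf (nat_lit 42) (nat_lit 161)) (nd (nat_lit 162) (nat_lit 0) (cs (lf (nat_lit 41) (nat_lit 161)) (nd (nat_lit 229) (nat_lit 0) (cs (lf (nat_lit 29) (nat_lit 162)) (nd (nat_lit 140) (nat_lit 0) (cs (lf (nat_lit 40) (nat_lit 139)) (rf (nat_lit 2)))))))))) (cs (nd (nat_lit 185) (nat_lit 0) (cs (lf (nat_lit 3) (nat_lit 183)) (nd (nat_lit 204) (nat_lit 0) (cs (lf (nat_lit 11) (nat_lit 181)) (nd (nat_lit 160) (nat_lit 0) (cs (lf (nat_lit 23) (nat_lit 159)) (nd (nat_lit 226) (nat_lit 0) (cs (lf (nat_lit 30) (nat_lit 160)) (lf (nat_lit 29) (nat_lit 160)))))))))) (nd (nat_lit 185) (nat_lit 0) (cs (lf (nat_lit 3) (nat_lit 183)) (nd (nat_lit 203) (nat_lit 0) (cs (lf (nat_lit 10) (nat_lit 181)) (nd (nat_lit 160) (nat_lit 0) (cs (lf (nat_lit 23) (nat_lit 159)) (nd (nat_lit 228) (nat_lit 0) (cs (lf (nat_lit 42) (nat_lit 161)) (nd (nat_lit 205) (nat_lit 0) (cs (lf (nat_lit 47) (nat_lit 138)) (nd (nat_lit 140) (nat_lit 0) (cs (nd (nat_lit 226) (nat_lit 0) (cs (lf (nat_lit 41) (nat_lit 160)) (rf (nat_lit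 3)))) (lf (nat_lit 37) (nat_lit 139))))))))))))))))) (cs (nd (nat_lit 228) (nat_lit 0) (cs (lf (nat_lit 42) (nat_lit 161)) (nd (nat_lit 185) (nat_lit 0) (cs (lf (nat_lit 3) (nat_lit 183)) (nd (nat_lit 159) (nat_lit 0) (cs (lf (nat_lit 22) (nat_lit 159)) (nd (nat_lit 181) (nat_lit 0) (cs (lf (nat_lit 23) (nat_lit 158)) (rf (nat_lit 1)))))))))) (nd (nat_lit 250) (nat_lit 0) (cs (nd (nat_lit 181) (nat_lit 0) (cs (rf (nat_lit 4)) (cs (rf (nat_lit 1)) (nd (nat_lit 159) (nat_lit 0) (cs (lf (nat_lit 23) (nat_lit 158)) (nd (nat_lit 137) (nat_lit 0) (cs (rf (nat_lit 5)) (cs (nd (nat_lit 203) (nat_lit 0) (cs (lf (nat_lit 11) (nat_lit 180)) (nd (nat_lit 204) (nat_lit 0) (cs (nd (nat_lit 114) (nat_lit 0) (cs (nd (nat_lit 138) (nat_lit 0) (cs (nd (nat_lit 225) (nat_lit 0) (cs (nd (nat_lit 224) (nat_lit 0) (cs (lf (nat_lit 7) (nat_lit 202)) (lf (nat_lit 41) (nat_lit 158)))) (lf (nat_lit 37) (nat_lit 137)))) (lf (nat_lit 35) (nat_lit 115)))) (lf (nat_lit 46) (nat_lit 114)))) (lf (nat_lit 29) (nat_lit 137))))))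 (cs (nd (nat_lit 203) (nat_lit 0) (cs (lf (nat_lit 11) (nat_lit 180)) (rf (nat_lit 6)))) (nd (nat_lit 202) (nat_lit 0) (cs (lf (nat_lit 10) (nat_lit 180)) (nd (nat_lit 115) (nat_lit 0) (cs (lf (nat_lit 29) (nat_lit 115)) (rf (nat_lit 7))))))))))))))) (lf (nat_lit 43) (nat_lit 161))))))))) q17998 (by decide +kernel)
def q18133 : Q := Q.p (nat_lit 0x200000000003c000000000000000000000000000000000000000000000000000) (nat_lit 0x100001f00001f00001f0001b0000000001b8000070000f80000e00002800000000000000000000000) (nat_lit 13)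
theorem c18133 : QOK q18133 := cut [q18105, q11767, q12946, q18118, q18104, q863, q18007] ⟨c18105, c11767, c12946, c18118, c18104, c863, c18007, trivial⟩ (nd (nat_lit 231) (nat_lit 0) (cs (lf (nat_lit 5) (nat_lit 206)) (nd (nat_lit 184) (nat_lit 0) (cs (lf (nat_lit 23) (nat_lit 183)) (nd (nat_lit 162) (nat_lit 0) (cs (rf (nat_lit 0)) (cs (nd (nat_lit 274) (nat_lit 0) (cs (nd (nat_lit 275) (nat_lit 0) (cs (lf (nat_lit 41) (nat_lit 208)) (nd (nat_lit 298) (nat_lit 0) (cs (lf (nat_lit 28) (nat_lit 209)) (nd (nat_lit 297) (nat_lit 0) (cs (lf (nat_lit 29) (nat_lit 231)) (nd (nat_lit 299) (nat_lit 0) (cs (lf (nat_lit 18) (nat_lit 274)) (nd (nat_lit 273) (nat_lit 0) (cs (lf (nat_lit 0) (nat_lit 272)) (nd (nat_lit 251) (nat_lit 0) (cs (lf (nat_lit 44) (nat_lit 184)) (nd (nat_lit 250) (nat_lit 0) (cs (rf (nat_lit 1)) (lf (nat_lit 26) (nat_lit 184)))))))))))))))) (cs (nd (nat_lit 275) (nat_lit 0) (cs (lf (nat_lit 41) (nat_lit 208)) (nd (nat_lit 273) (nat_lit 0) (cs (nd (nat_lit 187) (nat_lit 0) (cs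 (lf (nat_lit 17) (nat_lit 184)) (nd (nat_lit 251) (nat_lit 0) (cs (lf (nat_lit 44) (nat_lit 184)) (nd (nat_lit 250) (nat_lit 0) (cs (rf (nat_lit 2)) (lf (nat_lit 26) (nat_lit 184)))))))) (cs (nd (nat_lit 251) (nat_lit 0) (cs (lf (nat_lit 44) (nat_lit 184)) (nd (nat_lit 250) (nat_lit 0) (cs (lf (nat_lit 18) (nat_lit 250)) (lf (nat_lit 26) (nat_lit 184)))))) (nd (nat_lit 298) (nat_lit 0) (cs (lf (nat_lit 28) (nat_lit 209)) (rf (nat_lit 3))))))))) (nd (nat_lit 187) (nat_lit 0) (cs (lf (nat_lit 17) (nat_lit 184)) (lf (nat_lit 40) (nat_lit 186))))))) (nd (nat_lit 140) (nat_lit 0) (cs (rf (nat_lit 4)) (cs (nd (nat_lit 187) (nat_lit 0) (cs (lf (nat_lit 17) (nat_lit 184)) (nd (nat_lit 252) (nat_lit 0) (cs (lf (nat_lit 41) (nat_lit 186)) (rf (nat_lit 5)))))) (nd (nat_lit 187) (nat_lit 0) (cs (lf (nat_lit 17) (nat_lit 184)) (nd (nat_lit 252) (nat_lit 0) (cs (lf (nat_lit 41) (nat_lit 186)) (nd (nat_lit 139) (nat_lit 0) (cs (lf (nat_lit 47) (nat_lit 117)) (nd (nat_lit 161) (nat_lit 0) (cs (lf (nat_lit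 42) (nat_lit 139)) (rf (nat_lit 6)))))))))))))))))))) q18133 (by decide +kernel)
def q18160 : Q := Q.p (nat_lit 0x2000004000010000040000000000000000000000000000000000000000000000) (nat_lit 0xa00001800002000000000020000180000200000000000000000000000000000000000) (nat_lit 5)
theorem c18160 : QOK q18160 := cut [q1408] ⟨c1408, trivial⟩ (nd (nat_lit 252) (nat_lit 0) (cs (lf (nat_lit 29) (nat_lit 186)) (rf (nat_lit 0)))) q18160 (by decide +kernel)
def q18170 : Q := Q.p (nat_lit 0x6000010000100000700002000000000000000000000000000000000000) (nat_lit 0x118000e8000000000800004000008000020000000000000000000000000) (nat_lit 6)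
theorem c18170 : QOK q18170 := cut [q3101] ⟨c3101, trivial⟩ (nd (nat_lit 167) (nat_lit 0) (cs (lf (nat_lit 17) (nat_lit 142)) (nd (nat_lit 101) (nat_lit 0) (cs (lf (nat_lit 37) (nat_lit 100)) (nd (nat_lit 210) (nat_lit 0) (cs (rf (nat_lit 0)) (lf (nat_lit 30) (nat_lit 144)))))))) q18170 (by decide +kernel)
def q18184 : Q := Q.p (nat_lit 0x2000004000010000040000000000000000000000000000000000000000000000) (nat_lit 0x80000e00001800000000020000080000200000000000000000000000000000000000000000) (nat_lit 5)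
theorem c18184 : QOK q18184 := cut [q18182] ⟨c18182, trivial⟩ (nd (nat_lit 252) (nat_lit 0) (cs (lf (nat_lit 29) (nat_lit 186)) (nd (nat_lit 187) (nat_lit 0) (cs (lf (nat_lit 35) (nat_lit 164)) (rf (nat_lit 0)))))) q18184 (by decide +kernel)
def q18188 : Q := Q.p (nat_lit 0x2000000000010000040000100000000000000000000000000000000000000000) (nat_lit 0xe00001800006000028000080000280000600001800000000000000000000000000000) (nat_lit 7)
theorem c18188 : QOK q18188 := cut [q495, q5534] ⟨c495, c5534, trivial⟩ (nd (nat_lit 230) (nat_lit 0) (cs (rf (nat_lit 0)) (cs (rf (nat_lit 1)) (nd (nat_lit 141) (nat_lit 0) (cs (lf (nat_lit 46) (nat_lit 141)) (nd (nat_lit 252) (nat_lit 0) (cs (lf (nat_lit 29) (nat_lit 186)) (nd (nat_lit 142) (nat_lit 0) (cs (lf (nat_lit 47) (nat_lit 119)) (nd (nat_lit 187) (nat_lit 0) (cs (lf (nat_lit 35) (nat_lit 164)) (nd (nat_lit 209) (nat_lit 0) (cs (lf (nat_lit 30) (nat_lit 186)) (lf (nat_lit 24) (nat_lit 120))))))))))))))) q18188 (by decide +kernel)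
def q18189 : Q := Q.p (nat_lit 0x2000010000040000100000000000000000000000000000000000000000) (nat_lit 0x8000000000000000e0000380000a000000000000000000000000) (nat_lit 5)
theorem c18189 : QOK q18189 := cut [q558] ⟨c558, trivial⟩ (nd (nat_lit 142) (nat_lit 0) (cs (lf (nat_lit 40) (nat_lit 141)) (rf (nat_lit 0)))) q18189 (by decide +kernel)
def q18223 : Q := Q.p (nat_lit 0x10000040000300000c00000000000000000000000000000000000000000000000000000000000000) (nat_lit 0x180000e00000b0000000000000001000000000000000000000000000000000000000000000000000000000) (nat_lit 5)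
theorem c18223 : QOK q18223 := cut [q18221] ⟨c18221, trivial⟩ (nd (nat_lit 317) (nat_lit 0) (cs (lf (nat_lit 29) (nat_lit 250)) (nd (nat_lit 295) (nat_lit 0) (cs (lf (nat_lit 47) (nat_lit 228)) (rf (nat_lit 0)))))) q18223 (by decide +kernel)
def q18241 : Q := Q.p (nat_lit 0x100000c0000300000c00000000000000000000000000000000000000000000000000000000000000) (nat_lit 0x180000e0000030000000000000000000000000000000000000000000000000000000000000000000000000) (nat_lit 4)
theorem c18241 : QOK q18241 := cut [q18221] ⟨c18221, trivial⟩ (nd (nat_lit 317) (nat_lit 0) (cs (lf (nat_lit 29) (nat_lit 250)) (rf (nat_lit 0)))) q18241 (by decide +kernel)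
def q18294 : Q := Q.p (nat_lit 0x280000300001c000000000000000000000000000000000000000000000000000) (nat_lit 0x60000180001600000c00000000010000040000000000000000000000000000000000000000) (nat_lit 6)
theorem c18294 : QOK q18294 := cut [q18292] ⟨c18292, trivial⟩ (nd (nat_lit 227) (nat_lit 0) (cs (lf (nat_lit 12) (nat_lit 204)) (nd (nat_lit 184) (nat_lit 0) (cs (lf (nat_lit 24) (nat_lit 162)) (rf (nat_lit 0)))))) q18294 (by decide +kernel)
def q18297 : Q := Q.p (nat_lit 0x100001c000040000000000000000000000000000000000000000000000) (nat_lit 0x728001e0000180000000000000000000000000000000000000000000000) (nat_lit 6)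
theorem c18297 : QOK q18297 := cut [q317] ⟨c317, trivial⟩ (nd (nat_lit 209) (nat_lit 0) (cs (lf (nat_lit 11) (nat_lit 205)) (nd (nat_lit 187) (nat_lit 0) (cs (rf (nat_lit 0)) (lf (nat_lit 17) (nat_lit 184)))))) q18297 (by decide +kernel)
def q18337 : Q := Q.p (nat_lit 0x2800001800004000000000000000000000000000000000000000000000000000) (nat_lit 0x280001600000000000000010000040000000000000000000000000000000000000000) (nat_lit 4)
theorem c18337 : QOK q18337 := cut [q6591] ⟨c6591, trivial⟩ (nd (nat_lit 250) (nat_lit 0) (cs (lf (nat_lit 19) (nat_lit 227)) (rf (nat_lit 0)))) q18337 (by decide +kernel)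
def q18355 : Q := Q.p (nat_lit 0x1c000040000000000000000000000000000000000000000000000) (nat_lit 0xe0000300008e000000000000000000000000000000000000000000000) (nat_lit 5)
theorem c18355 : QOK q18355 := cut [q18354] ⟨c18354, trivial⟩ (nd (nat_lit 205) (nat_lit 0) (cs (lf (nat_lit 17) (nat_lit 183)) (rf (nat_lit 0)))) q18355 (by decide +kernel)
def q18378 : Q := Q.p (nat_lit 0x10000040000100000700000000000000000000000000000000000) (nat_lit 0x2800008c0002380000000000000000000000000000) (nat_lit 5)
theorem c18378 : QOK q18378 := cut [q18377] ⟨c18377, trivial⟩ (nd (nat_lit 121) (nat_lit 0) (cs (lf (nat_lit 34) (nat_lit 120)) (rf (nat_lit 0)))) q18378 (by decide +kernel)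
def q18447 : Q := Q.p (nat_lit 0x2000000000010000040000100000000000000000000000000000000000000000) (nat_lit 0xa00001800006000008000080000200000c00002000000000000000000000000000000) (nat_lit 5)
theorem c18447 : QOK q18447 := cut [q4807, q5534, q18159] ⟨c4807, c5534, c18159, trivial⟩ (nd (nat_lit 230) (nat_lit 0) (cs (rf (nat_lit 0)) (cs (rf (nat_lit 1)) (rf (nat_lit 2))))) q18447 (by decide +kernel)
def q18451 : Q := Q.p (nat_lit 0x10000040000100000000000000000000000000000000000000000) (nat_lit 0x800006000008000000000280000e0000380000a000000000000000000000000) (nat_lit 5)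
theorem c18451 : QOK q18451 := cut [q18163, q18166, q18450] ⟨c18163, c18166, c18450, trivial⟩ (nd (nat_lit 142) (nat_lit 0) (cs (rf (nat_lit 0)) (cs (rf (nat_lit 1)) (rf (nat_lit 2))))) q18451 (by decide +kernel)
def q18463 : Q := Q.p (nat_lit 0x100000f0000000000000000000000000000000000000000000000) (nat_lit 0x4000066000000000600000800002000000000000000000000000000000) (nat_lit 5)
theorem c18463 : QOK q18463 := cut [q2225] ⟨c2225, trivial⟩ (nd (nat_lit 209) (nat_lit 0) (cs (lf (nat_lit 5) (nat_lit 184)) (nd (nat_lit 205) (nat_lit 0) (cs (lf (nat_lit 10) (nat_lit 183)) (rf (nat_lit 0)))))) q18463 (by decide +kernel)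
def q18473 : Q := Q.p (nat_lit 0x10000070000000000000000000000000000000000000000000000) (nat_lit 0x1cf80038c000ef8000100000400000000000000000000000000000) (nat_lit 11)
theorem c18473 : QOK q18473 := cut [q4752, q4767, q4771, q18464] ⟨c4752, c4767, c4771, c18464, trivial⟩ (nd (nat_lit 183) (nat_lit 0) (cs (rf (nat_lit 0)) (cs (rf (nat_lit 1)) (cs (rf (nat_lit 2)) (nd (nat_lit 160) (nat_lit 0) (cs (lf (nat_lit 22) (nat_lit 160)) (nd (nat_lit 205) (nat_lit 0) (cs (lf (nat_lit 11) (nat_lit 182)) (nd (nat_lit 187) (nat_lit 0) (cs (lf (nat_lit 10) (nat_lit 183)) (nd (nat_lit 166) (nat_lit 0) (cs (lf (nat_lit 16) (nat_lit 162)) (nd (nat_lit 188) (nat_lit 0) (cs (lf (nat_lit 17) (nat_lit 163)) (nd (nat_lit 162) (nat_lit 0) (cs (lf (nat_lit 22) (nat_lit 162)) (nd (nat_lit 118) (nat_lit 0) (cs (rf (nat_lit 3)) (lf (nat_lit 37) (nat_lit 117)))))))))))))))))))) q18473 (by decide +kernel)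
def q18531 : Q := Q.p (nat_lit 0x6000010000040000000000000000000000000000000000000000) (nat_lit 0x800000000008000000000180000600000800000000000000000000000) (nat_lit 4)
theorem c18531 : QOK q18531 := cut [q18530] ⟨c18530, trivial⟩ (nd (nat_lit 140) (nat_lit 0) (cs (lf (nat_lit 41) (nat_lit 139)) (rf (nat_lit 0)))) q18531 (by decide +kernel)
def q18543 : Q := Q.p (nat_lit 0x200000000001c000050000000000000000000000000000000000000000000000) (nat_lit 0xe000018000760001e0000f88000240000900000000000000000000000000000000000) (nat_lit 10)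
theorem c18543 : QOK q18543 := cut [q85, q139, q6044, q2921] ⟨c85, c139, c6044, c2921, trivial⟩ (nd (nat_lit 209) (nat_lit 0) (cs (lf (nat_lit 23) (nat_lit 183)) (nd (nat_lit 210) (nat_lit 0) (cs (rf (nat_lit 0)) (cs (rf (nat_lit 1)) (cs (nd (nat_lit 233) (nat_lit 0) (cs (lf (nat_lit 4) (nat_lit 207)) (nd (nat_lit 211) (nat_lit 0) (cs (lf (nat_lit 5) (nat_lit 208)) (nd (nat_lit 229) (nat_lit 0) (cs (lf (nat_lit 10) (nat_lit 207)) (nd (nat_lit 251) (nat_lit 0) (cs (lf (nat_lit 30) (nat_lit 185)) (nd (nat_lit 140) (nat_lit 0) (cs (lf (nat_lit 25) (nat_lit 140)) (rf (nat_lit 2)))))))))))) (nd (nat_lit 232) (nat_lit 0) (cs (lf (nat_lit 5) (nat_lit 207)) (nd (nat_lit 187) (nat_lit 0) (cs (lf (nat_lit 17) (nat_lit 184)) (nd (nat_lit 211) (nat_lit 0) (cs (lf (nat_lit 18) (nat_lit 186)) (nd (nat_lit 143) (nat_lit 0) (cs (lf (nat_lit 25) (nat_lit 143)) (rf (nat_lit 3)))))))))))))))) q18543 (by decide +kernel)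
def q18585 : Q := Q.p (nat_lit 0x1000014000010000000000000000000000000000000000000000000000) (nat_lit 0x200002e000280000000000e0000380000a00000000000000000000000000000) (nat_lit 5)
theorem c18585 : QOK q18585 := cut [q889, q18583] ⟨c889, c18583, trivial⟩ (nd (nat_lit 162) (nat_lit 0) (cs (rf (nat_lit 0)) (nd (nat_lit 227) (nat_lit 0) (cs (lf (nat_lit 41) (nat_lit 161)) (rf (nat_lit 1)))))) q18585 (by decide +kernel)
def q18600 : Q := Q.p (nat_lit 0x2000001000014000010000000000000000000000000000000000000000000000) (nat_lit 0x200000e0000380001e0000200002800000e0000e0000380000800000000000000000000000000000) (nat_lit 9)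
theorem c18600 : QOK q18600 := cut [q18547, q18570, q18590, q18596] ⟨c18547, c18570, c18590, c18596, trivial⟩ (nd (nat_lit 250) (nat_lit 0) (cs (rf (nat_lit 0)) (cs (rf (nat_lit 1)) (cs (nd (nat_lit 161) (nat_lit 0) (cs (lf (nat_lit 46) (nat_lit 161)) (nd (nat_lit 249) (nat_lit 0) (cs (lf (nat_lit 41) (nat_lit 183)) (rf (nat_lit 2)))))) (nd (nat_lit 183) (nat_lit 0) (cs (lf (nat_lit 47) (nat_lit 161)) (nd (nat_lit 207) (nat_lit 0) (cs (lf (nat_lit 18) (nat_lit 183)) (nd (nat_lit 181) (nat_lit 0) (cs (lf (nat_lit 1) (nat_lit 181)) (rf (nat_lit 3)))))))))))) q18600 (by decide +kernel)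
def q18606 : Q := Q.p (nat_lit 0x2000001000014000050000000000000000000000000000000000000000000000) (nat_lit 0x20001b80001e00004800000000008000060000080000000000000000000000000000000000) (nat_lit 7)
theorem c18606 : QOK q18606 := cut [q17131, q18570, q18602] ⟨c17131, c18570, c18602, trivial⟩ (nd (nat_lit 250) (nat_lit 0) (cs (rf (nat_lit 0)) (cs (rf (nat_lit 1)) (nd (nat_lit 251) (nat_lit 0) (cs (lf (nat_lit 29) (nat_lit 184)) (nd (nat_lit 161) (nat_lit 0) (cs (lf (nat_lit 46) (nat_lit 161)) (nd (nat_lit 139) (nat_lit 0) (cs (lf (nat_lit 45) (nat_lit 139)) (rf (nat_lit 2))))))))))) q18606 (by decide +kernel)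
def q18654 : Q := Q.p (nat_lit 0x100001c000010000000000000000000000000000000000000000000000) (nat_lit 0x200000e000200000000000e0000380000a00000000000000000000000000000) (nat_lit 7)
theorem c18654 : QOK q18654 := cut [q1273] ⟨c1273, trivial⟩ (nd (nat_lit 227) (nat_lit 0) (cs (lf (nat_lit 6) (nat_lit 205)) (nd (nat_lit 225) (nat_lit 0) (cs (lf (nat_lit 13) (nat_lit 203)) (nd (nat_lit 162) (nat_lit 0) (cs (rf (nat_lit 0)) (lf (nat_lit 41) (nat_lit 161)))))))) q18654 (by decide +kernel)
def q18661 : Q := Q.p (nat_lit 0x1c000050000000000000000000000000000000000000000000000) (nat_lit 0x200000800007e00003800087000040000100000000000000000000000000000000000) (nat_lit 9)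
theorem c18661 : QOK q18661 := cut [q12505] ⟨c12505, trivial⟩ (nd (nat_lit 205) (nat_lit 0) (cs (lf (nat_lit 17) (nat_lit 183)) (nd (nat_lit 226) (nat_lit 0) (cs (lf (nat_lit 10) (nat_lit 204)) (nd (nat_lit 204) (nat_lit 0) (cs (lf (nat_lit 11) (nat_lit 203)) (nd (nat_lit 181) (nat_lit 0) (cs (lf (nat_lit 22) (nat_lit 181)) (nd (nat_lit 180) (nat_lit 0) (cs (lf (nat_lit 21) (nat_lit 180)) (nd (nat_lit 229) (nat_lit 0) (cs (lf (nat_lit 5) (nat_lit 204)) (rf (nat_lit 0)))))))))))))) q18661 (by decide +kernel)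
def q18674 : Q := Q.p (nat_lit 0x4000010000040000100000000000000000000000000000000000) (nat_lit 0x10000000000000000b8001ee0007b80000000000000000000000000000) (nat_lit 10)
theorem c18674 : QOK q18674 := cut [q18669] ⟨c18669, trivial⟩ (nd (nat_lit 141) (nat_lit 0) (cs (lf (nat_lit 35) (nat_lit 118)) (nd (nat_lit 163) (nat_lit 0) (cs (lf (nat_lit 30) (nat_lit 140)) (nd (nat_lit 139) (nat_lit 0) (cs (lf (nat_lit 47) (nat_lit 117)) (nd (nat_lit 138) (nat_lit 0) (cs (lf (nat_lit 0) (nat_lit 137)) (nd (nat_lit 115) (nat_lit 0) (cs (lf (nat_lit 22) (nat_lit 115)) (rf (nat_lit 0)))))))))))) q18674 (by decide +kernel)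
def q18682 : Q := Q.p (nat_lit 0x2000001000014000050000040000000000000000000000000000000000000000) (nat_lit 0x20001b80001e00004800000000000000000000000000000000000000000000000000000000) (nat_lit 5)
theorem c18682 : QOK q18682 := cut [q17165, q18570, q18632] ⟨c17165, c18570, c18632, trivial⟩ (nd (nat_lit 250) (nat_lit 0) (cs (rf (nat_lit 0)) (cs (rf (nat_lit 1)) (rf (nat_lit 2))))) q18682 (by decide +kernel)
def q18690 : Q := Q.p (nat_lit 0x100000f0000000000000000000000000000000000000000) (nat_lit 0xf00000c000038000000000000000000000000000000000) (nat_lit 5)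
theorem c18690 : QOK q18690 := cut [q18688] ⟨c18688, trivial⟩ (nd (nat_lit 181) (nat_lit 0) (cs (lf (nat_lit 10) (nat_lit 159)) (nd (nat_lit 159) (nat_lit 0) (cs (lf (nat_lit 11) (nat_lit 158)) (rf (nat_lit 0)))))) q18690 (by decide +kernel)
def q18707 : Q := Q.p (nat_lit 0x16000040000000000000000000000000000000000000000000000) (nat_lit 0xe0000900008e000000000000000000000000000000000000000000000) (nat_lit 5)
theorem c18707 : QOK q18707 := cut [q3211] ⟨c3211, trivial⟩ (nd (nat_lit 207) (nat_lit 0) (cs (lf (nat_lit 17) (nat_lit 183)) (rf (nat_lit 0)))) q18707 (by decide +kernel)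
def q18714 : Q := Q.p (nat_lit 0x100000f0000000000000000000000000000000000000000000000) (nat_lit 0x1000004000020000000000600000800002000000000000000000000000000000) (nat_lit 4)
theorem c18714 : QOK q18714 := cut [q18713] ⟨c18713, trivial⟩ (nd (nat_lit 165) (nat_lit 0) (cs (lf (nat_lit 17) (nat_lit 162)) (rf (nat_lit 0)))) q18714 (by decide +kernel)
def q18719 : Q := Q.p (nat_lit 0x100000f0000000000000000000000000000000000000000000000) (nat_lit 0x68000700000e00000000000000000000000000000000000000000) (nat_lit 5)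
theorem c18719 : QOK q18719 := cut [q8433] ⟨c8433, trivial⟩ (nd (nat_lit 166) (nat_lit 0) (cs (lf (nat_lit 16) (nat_lit 162)) (nd (nat_lit 209) (nat_lit 0) (cs (lf (nat_lit 5) (nat_lit 184)) (rf (nat_lit 0)))))) q18719 (by decide +kernel)
def q18727 : Q := Q.p (nat_lit 0x100000f0000000000000000000000000000000000000000000000) (nat_lit 0x1c8000300000e00000000000000000000000000000000000000000) (nat_lit 5)
theorem c18727 : QOK q18727 := cut [q18464] ⟨c18464, trivial⟩ (nd (nat_lit 166) (nat_lit 0) (cs (lf (nat_lit 16) (nat_lit 162)) (nd (nat_lit 188) (nat_lit 0) (cs (lf (nat_lit 17) (nat_lit 163)) (rf (nat_lit 0)))))) q18727 (by decide +kernel)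
def q18741 : Q := Q.p (nat_lit 0x1e00002000018000040000000000000000000000000000000000000000000000) (nat_lit 0x100000400000100004000020000080000200000000000000000000000000000000000000000) (nat_lit 4)
theorem c18741 : QOK q18741 := cut [q18740] ⟨c18740, trivial⟩ (nd (nat_lit 230) (nat_lit 0) (cs (lf (nat_lit 12) (nat_lit 226)) (rf (nat_lit 0)))) q18741 (by decide +kernel)
def q18748 : Q := Q.p (nat_lit 0x3000006000018000040000000000000000000000000000000000000000000000) (nat_lit 0x100000400000000001800020000080000200000000000000000000000000000000000000000) (nat_lit 4)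
theorem c18748 : QOK q18748 := cut [q18740] ⟨c18740, trivial⟩ (nd (nat_lit 227) (nat_lit 0) (cs (lf (nat_lit 1) (nat_lit 227)) (rf (nat_lit 0)))) q18748 (by decide +kernel)
def q18828 : Q := Q.p (nat_lit 0x38000010000000000000000000000000000000000000000000000) (nat_lit 0x700000c0000720000000000000000000000000000000000000000000000) (nat_lit 5)
theorem c18828 : QOK q18828 := cut [q18827] ⟨c18827, trivial⟩ (nd (nat_lit 210) (nat_lit 0) (cs (lf (nat_lit 22) (nat_lit 184)) (rf (nat_lit 0)))) q18828 (by decide +kernel)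
def q18853 : Q := Q.p (nat_lit 0x100000f0000000000000000000000000000000000000000000000) (nat_lit 0x4000060000000000600000800002000000000000000000000000000000) (nat_lit 4)
theorem c18853 : QOK q18853 := cut [q2225] ⟨c2225, trivial⟩ (nd (nat_lit 209) (nat_lit 0) (cs (lf (nat_lit 5) (nat_lit 184)) (rf (nat_lit 0)))) q18853 (by decide +kernel)
def q18900 : Q := Q.p (nat_lit 0x100000f0000040000000000000000000000000000000000000000) (nat_lit 0x60000700001c80000000000000000000000000000000000000000) (nat_lit 5)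
theorem c18900 : QOK q18900 := cut [q8425] ⟨c8425, trivial⟩ (nd (nat_lit 209) (nat_lit 0) (cs (lf (nat_lit 5) (nat_lit 184)) (nd (nat_lit 188) (nat_lit 0) (cs (lf (nat_lit 22) (nat_lit 162)) (rf (nat_lit 0)))))) q18900 (by decide +kernel)
def q18915 : Q := Q.p (nat_lit 0xf0000000000000000000000000000000000000000000000) (nat_lit 0x100000ee0000000000000000000000000000000000000000) (nat_lit 4)
theorem c18915 : QOK q18915 := cut [q18914] ⟨c18914, trivial⟩ (nd (nat_lit 162) (nat_lit 0) (cs (lf (nat_lit 23) (nat_lit 161)) (rf (nat_lit 0)))) q18915 (by decide +kernel)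
def q18963 : Q := Q.p (nat_lit 0x800016000018000000000000000000000000000000000000000000000) (nat_lit 0x100000400008000000000060000180000600000000000000000000000000000) (nat_lit 5)
theorem c18963 : QOK q18963 := cut [q18960] ⟨c18960, trivial⟩ (nd (nat_lit 140) (nat_lit 0) (cs (lf (nat_lit 37) (nat_lit 139)) (nd (nat_lit 226) (nat_lit 0) (cs (rf (nat_lit 0)) (lf (nat_lit 7) (nat_lit 204)))))) q18963 (by decide +kernel)
def q18979 : Q := Q.p (nat_lit 0x16000018000000000000000000000000000000000000000000000) (nat_lit 0x8000080000070000c0000100000400000000000000000000000000000) (nat_lit 5)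
theorem c18979 : QOK q18979 := cut [q18978] ⟨c18978, trivial⟩ (nd (nat_lit 182) (nat_lit 0) (cs (lf (nat_lit 19) (nat_lit 182)) (rf (nat_lit 0)))) q18979 (by decide +kernel)
def q19003 : Q := Q.p (nat_lit 0x18000020000080000000000000000000000000000000000) (nat_lit 0x4000000000040000000000300000c00001000000000000000000) (nat_lit 4)
theorem c19003 : QOK q19003 := cut [q19002] ⟨c19002, trivial⟩ (nd (nat_lit 117) (nat_lit 0) (cs (lf (nat_lit 29) (nat_lit 117)) (rf (nat_lit 0)))) q19003 (by decide +kernel)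
def q19050 : Q := Q.p (nat_lit 0x18000060000040000300000000000000000000000000000000000) (nat_lit 0x40000000000000000b0000c00001000000000000000000000000000000) (nat_lit 4)
theorem c19050 : QOK q19050 := cut [q2434] ⟨c2434, trivial⟩ (nd (nat_lit 163) (nat_lit 0) (cs (lf (nat_lit 29) (nat_lit 141)) (rf (nat_lit 0)))) q19050 (by decide +kernel)
def q19067 : Q := Q.p (nat_lit 0x30000040000100000000000000000000000000000000000) (nat_lit 0x8000000000000000000000e0000380000a000000000000000000) (nat_lit 5)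
theorem c19067 : QOK q19067 := cut [q19066] ⟨c19066, trivial⟩ (nd (nat_lit 118) (nat_lit 0) (cs (lf (nat_lit 29) (nat_lit 118)) (rf (nat_lit 0)))) q19067 (by decide +kernel)
def q19070 : Q := Q.p (nat_lit 0x10000070000040000100000000000000000000000000000000000) (nat_lit 0x4000000000080000200000e0000380000a000000000000000000) (nat_lit 5)
theorem c19070 : QOK q19070 := cut [q5869, q17783, q19066, q19068] ⟨c5869, c17783, c19066, c19068, trivial⟩ (nd (nat_lit 118) (nat_lit 0) (cs (rf (nat_lit 0)) (cs (rf (nat_lit 1)) (cs (rf (nat_lit 2)) (nd (nat_lit 95) (nat_lit 0) (cs (lf (nat_lit 46) (nat_lit 95)) (rf (nat_lit 3)))))))) q19070 (by decide +kernel)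
def q19098 : Q := Q.p (nat_lit 0x30000040000100000200000000000000000000000000000) (nat_lit 0x80000000000c00003800008000000000000000000) (nat_lit 4)
theorem c19098 : QOK q19098 := cut [q16288] ⟨c16288, trivial⟩ (nd (nat_lit 118) (nat_lit 0) (cs (lf (nat_lit 47) (nat_lit 95)) (rf (nat_lit 0)))) q19098 (by decide +kernel)
def q19107 : Q := Q.p (nat_lit 0x2000004000010000040000000000000000000000000000000000000000) (nat_lit 0x8000000000000000380000e00002800000000000000000000000) (nat_lit 5)
theorem c19107 : QOK q19107 := cut [q2497] ⟨c2497, trivial⟩ (nd (nat_lit 140) (nat_lit 0) (cs (rf (nat_lit 0)) (lf (nat_lit 28) (nat_lit 140)))) q19107 (by decide +kernel)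
def q19158 : Q := Q.p (nat_lit 0x100001e0000000000000000000000000000000000000000000000) (nat_lit 0x10000040000c00000000001c0000200000800000000000000000000000000000) (nat_lit 5)
theorem c19158 : QOK q19158 := cut [q8623] ⟨c8623, trivial⟩ (nd (nat_lit 163) (nat_lit 0) (cs (lf (nat_lit 23) (nat_lit 162)) (nd (nat_lit 210) (nat_lit 0) (cs (lf (nat_lit 5) (nat_lit 185)) (rf (nat_lit 0)))))) q19158 (by decide +kernel)
def q19168 : Q := Q.p (nat_lit 0x100001e0000000000000000000000000000000000000000000000) (nat_lit 0x60000618001c00000000000000000000000000000000000000000) (nat_lit 5)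
theorem c19168 : QOK q19168 := cut [q19166] ⟨c19166, trivial⟩ (nd (nat_lit 167) (nat_lit 0) (cs (lf (nat_lit 16) (nat_lit 163)) (nd (nat_lit 189) (nat_lit 0) (cs (lf (nat_lit 17) (nat_lit 164)) (rf (nat_lit 0)))))) q19168 (by decide +kernel)
def q19169 : Q := Q.p (nat_lit 0x400000e0000000000000000000000000000000000000000000000) (nat_lit 0x27000018000070000000000000000000000000000000000000000) (nat_lit 5)
theorem c19169 : QOK q19169 := cut [q19155] ⟨c19155, trivial⟩ (nd (nat_lit 184) (nat_lit 0) (cs (lf (nat_lit 4) (nat_lit 184)) (rf (nat_lit 0)))) q19169 (by decide +kernel)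
def q19172 : Q := Q.p (nat_lit 0x100001e0000000000000000000000000000000000000000000000) (nat_lit 0x3a0000600001c00000000000000000000000000000000000000000) (nat_lit 5)
theorem c19172 : QOK q19172 := cut [q19171] ⟨c19171, trivial⟩ (nd (nat_lit 167) (nat_lit 0) (cs (lf (nat_lit 16) (nat_lit 163)) (rf (nat_lit 0)))) q19172 (by decide +kernel)
def q19265 : Q := Q.p (nat_lit 0x500001e0000400000000002000000000000000000000000000000) (nat_lit 0x2700001c0001b800378000dc0007f800000000000000000000000) (nat_lit 12)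
theorem c19265 : QOK q19265 := cut [q19219, q19231, q19216, q19252, q4637] ⟨c19219, c19231, c19216, c19252, c4637, trivial⟩ (nd (nat_lit 122) (nat_lit 0) (cs (nd (nat_lit 209) (nat_lit 0) (cs (lf (nat_lit 0) (nat_lit 184)) (lf (nat_lit 37) (nat_lit 121)))) (cs (nd (nat_lit 119) (nat_lit 0) (cs (nd (nat_lit 141) (nat_lit 0) (cs (lf (nat_lit 26) (nat_lit 119)) (nd (nat_lit 142) (nat_lit 0) (cs (lf (nat_lit 44) (nat_lit 119)) (nd (nat_lit 120) (nat_lit 0) (cs (lf (nat_lit 6) (nat_lit 119)) (lf (nat_lit 11) (nat_lit 118)))))))) (cs (nd (nat_lit 184) (nat_lit 0) (cs (lf (nat_lit 4) (nat_lit 184)) (nd (nat_lit 205) (nat_lit 0) (cs (lf (nat_lit 10) (nat_lit 183)) (nd (nat_lit 183) (nat_lit 0) (cs (lf (nat_lit 11) (nat_lit 182)) (nd (nat_lit 160) (nat_lit 0) (cs (lf (nat_lit 22) (nat_lit 160)) (nd (nat_lit 182) (nat_lit 0) (cs (lf (nat_lit 23) (nat_lit 159)) (nd (nat_lit 163) (nat_lit 0) (cs (lf (nat_lit 25) (nat_lit 119)) (lf (nat_lit 17) (nat_lit 160)))))))))))))) (cs (nd (nat_lit 120) (nat_lit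 0) (cs (rf (nat_lit 0)) (cs (nd (nat_lit 184) (nat_lit 0) (cs (lf (nat_lit 4) (nat_lit 184)) (nd (nat_lit 205) (nat_lit 0) (cs (lf (nat_lit 10) (nat_lit 183)) (nd (nat_lit 183) (nat_lit 0) (cs (lf (nat_lit 11) (nat_lit 182)) (nd (nat_lit 160) (nat_lit 0) (cs (lf (nat_lit 22) (nat_lit 160)) (nd (nat_lit 182) (nat_lit 0) (cs (lf (nat_lit 23) (nat_lit 159)) (nd (nat_lit 164) (nat_lit 0) (cs (lf (nat_lit 16) (nat_lit 160)) (nd (nat_lit 100) (nat_lit 0) (cs (lf (nat_lit 17) (nat_lit 97)) (nd (nat_lit 99) (nat_lit 0) (cs (lf (nat_lit 32) (nat_lit 98)) (lf (nat_lit 12) (nat_lit 96)))))))))))))))))) (nd (nat_lit 184) (nat_lit 0) (cs (lf (nat_lit 4) (nat_lit 184)) (nd (nat_lit 205) (nat_lit 0) (cs (lf (nat_lit 10) (nat_lit 183)) (nd (nat_lit 183) (nat_lit 0) (cs (lf (nat_lit 11) (nat_lit 182)) (nd (nat_lit 160) (nat_lit 0) (cs (lf (nat_lit 22) (nat_lit 160)) (nd (nat_lit 182) (nat_lit 0) (cs (lf (nat_lit 23) (nat_lit 159)) (nd (nat_lit 164) (nat_lit 0) (cs (lf (nat_lit 16) (nat_lit 160)) (rf (nat_lit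 1))))))))))))))))) (nd (nat_lit 120) (nat_lit 0) (cs (rf (nat_lit 0)) (cs (nd (nat_lit 184) (nat_lit 0) (cs (lf (nat_lit 4) (nat_lit 184)) (nd (nat_lit 205) (nat_lit 0) (cs (lf (nat_lit 10) (nat_lit 183)) (nd (nat_lit 183) (nat_lit 0) (cs (lf (nat_lit 11) (nat_lit 182)) (nd (nat_lit 160) (nat_lit 0) (cs (lf (nat_lit 22) (nat_lit 160)) (nd (nat_lit 159) (nat_lit 0) (cs (lf (nat_lit 21) (nat_lit 159)) (nd (nat_lit 100) (nat_lit 0) (cs (lf (nat_lit 17) (nat_lit 97)) (nd (nat_lit 118) (nat_lit 0) (cs (lf (nat_lit 16) (nat_lit 96)) (nd (nat_lit 140) (nat_lit 0) (cs (lf (nat_lit 11) (nat_lit 117)) (lf (nat_lit 10) (nat_lit 118)))))))))))))))))) (cs (nd (nat_lit 140) (nat_lit 0) (cs (lf (nat_lit 10) (nat_lit 118)) (nd (nat_lit 118) (nat_lit 0) (cs (rf (nat_lit 2)) (lf (nat_lit 11) (nat_lit 117)))))) (nd (nat_lit 140) (nat_lit 0) (cs (lf (nat_lit 10) (nat_lit 118)) (nd (nat_lit 184) (nat_lit 0) (cs (lf (nat_lit 4) (nat_lit 184)) (nd (nat_lit 205) (nat_lit 0) (cs (lf (nat_lit 10) (nat_lit 183)) (nd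 (nat_lit 183) (nat_lit 0) (cs (lf (nat_lit 11) (nat_lit 182)) (nd (nat_lit 160) (nat_lit 0) (cs (lf (nat_lit 22) (nat_lit 160)) (nd (nat_lit 101) (nat_lit 0) (cs (nd (nat_lit 123) (nat_lit 0) (cs (rf (nat_lit 3)) (lf (nat_lit 17) (nat_lit 98)))) (lf (nat_lit 16) (nat_lit 97)))))))))))))))))))))) (nd (nat_lit 144) (nat_lit 0) (cs (rf (nat_lit 4)) (lf (nat_lit 47) (nat_lit 99))))))) q19265 (by decide +kernel)
def q19269 : Q := Q.p (nat_lit 0x100001e0000000000000000000000000000000000000000000000) (nat_lit 0x3e0000618000000000000000000000000000000000000000000000) (nat_lit 4)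
theorem c19269 : QOK q19269 := cut [q8028, q9253, q19166] ⟨c8028, c9253, c19166, trivial⟩ (nd (nat_lit 189) (nat_lit 0) (cs (rf (nat_lit 0)) (cs (rf (nat_lit 1)) (rf (nat_lit 2))))) q19269 (by decide +kernel)
def q19273 : Q := Q.p (nat_lit 0x100000e0000000000000000000000000000000000000000000000) (nat_lit 0x10000040000000001100001f0000200000800000000000000000000000000000) (nat_lit 4)
theorem c19273 : QOK q19273 := cut [q8623, q19272] ⟨c8623, c19272, trivial⟩ (nd (nat_lit 163) (nat_lit 0) (cs (rf (nat_lit 0)) (rf (nat_lit 1)))) q19273 (by decide +kernel)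
def q19282 : Q := Q.p (nat_lit 0x40000180000400000800000000000000000000000000000000000) (nat_lit 0x2000000000000000300000e000020000000000000000000000000) (nat_lit 4)
theorem c19282 : QOK q19282 := cut [q19281] ⟨c19281, trivial⟩ (nd (nat_lit 144) (nat_lit 0) (cs (lf (nat_lit 47) (nat_lit 121)) (rf (nat_lit 0)))) q19282 (by decide +kernel)
def q19291 : Q := Q.p (nat_lit 0x1e0000000000000000000000000000000000000000000000) (nat_lit 0xe0000010000e00000000000000000000000000000000000000000) (nat_lit 4)
theorem c19291 : QOK q19291 := cut [q19290] ⟨c19290, trivial⟩ (nd (nat_lit 210) (nat_lit 0) (cs (lf (nat_lit 5) (nat_lit 185)) (rf (nat_lit 0)))) q19291 (by decide +kernel)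
def q19306 : Q := Q.p (nat_lit 0x100001c0000000000000000000000000000000000000000000000) (nat_lit 0x180000700003e0000600003c0000300000c000000000000000000000000000000) (nat_lit 9)
theorem c19306 : QOK q19306 := cut [q7989, q8028, q9055, q19294, q19297, q19299, q19303] ⟨c7989, c8028, c9055, c19294, c19297, c19299, c19303, trivial⟩ (nd (nat_lit 189) (nat_lit 0) (cs (rf (nat_lit 0)) (cs (rf (nat_lit 1)) (cs (rf (nat_lit 2)) (nd (nat_lit 211) (nat_lit 0) (cs (lf (nat_lit 5) (nat_lit 186)) (nd (nat_lit 144) (nat_lit 0) (cs (rf (nat_lit 3)) (cs (rf (nat_lit 4)) (cs (nd (nat_lit 167) (nat_lit 0) (cs (lf (nat_lit 17) (nat_lit 164)) (nd (nat_lit 233) (nat_lit 0) (cs (lf (nat_lit 46) (nat_lit 144)) (rf (nat_lit 5)))))) (rf (nat_lit 6)))))))))))) q19306 (by decide +kernel)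
def q19315 : Q := Q.p (nat_lit 0x100001e0000400001800000000000000000000000000000000000) (nat_lit 0x400000000000c0006600003c00008000020000000000000000000) (nat_lit 7)
theorem c19315 : QOK q19315 := cut [q19312] ⟨c19312, trivial⟩ (nd (nat_lit 121) (nat_lit 0) (cs (lf (nat_lit 42) (nat_lit 121)) (nd (nat_lit 77) (nat_lit 0) (cs (rf (nat_lit 0)) (lf (nat_lit 25) (nat_lit 77)))))) q19315 (by decide +kernel)
def q19440 : Q := Q.p (nat_lit 0x2000000000010000160000880002800000000000000000000000000000000000) (nat_lit 0x80000100000400014000060000000001d70007f80007e0003f0003fe0000000000000) (nat_lit 11)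
theorem c19440 : QOK q19440 := cut [q19339, q19353, q4748, q19403, q19338, q19426, q19436] ⟨c19339, c19353, c4748, c19403, c19338, c19426, c19436, trivial⟩ (nd (nat_lit 141) (nat_lit 0) (cs (lf (nat_lit 24) (nat_lit 119)) (nd (nat_lit 123) (nat_lit 0) (cs (nd (nat_lit 189) (nat_lit 0) (cs (lf (nat_lit 41) (nat_lit 122)) (nd (nat_lit 102) (nat_lit 0) (cs (nd (nat_lit 80) (nat_lit 0) (cs (nd (nat_lit 190) (nat_lit 0) (cs (lf (nat_lit 29) (nat_lit 123)) (rf (nat_lit 0)))) (lf (nat_lit 33) (nat_lit 79)))) (lf (nat_lit 34) (nat_lit 101)))))) (cs (nd (nat_lit 189) (nat_lit 0) (cs (lf (nat_lit 41) (nat_lit 122)) (nd (nat_lit 190) (nat_lit 0) (cs (lf (nat_lit 29) (nat_lit 123)) (nd (nat_lit 230) (nat_lit 0) (cs (lf (nat_lit 42) (nat_lit 163)) (rf (nat_lit 0)))))))) (cs (nd (nat_lit 189) (nat_lit 0) (cs (lf (nat_lit 41) (nat_lit 122)) (nd (nat_lit 190) (nat_lit 0) (cs (lf (nat_lit 29) (nat_lit 123)) (nd (nat_lit 230) (nat_lit 0) (cs (lf (nat_lit 42) (nat_lit 163)) (rf (nat_lit 1)))))))) (cs (nd (nat_lit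 252) (nat_lit 0) (cs (rf (nat_lit 2)) (nd (nat_lit 78) (nat_lit 0) (cs (nd (nat_lit 101) (nat_lit 0) (cs (nd (nat_lit 80) (nat_lit 0) (cs (lf (nat_lit 34) (nat_lit 79)) (nd (nat_lit 79) (nat_lit 0) (cs (lf (nat_lit 47) (nat_lit 56)) (lf (nat_lit 35) (nat_lit 57)))))) (lf (nat_lit 46) (nat_lit 78)))) (cs (nd (nat_lit 80) (nat_lit 0) (cs (nd (nat_lit 79) (nat_lit 0) (cs (nd (nat_lit 101) (nat_lit 0) (cs (lf (nat_lit 47) (nat_lit 56)) (lf (nat_lit 35) (nat_lit 57)))) (cs (nd (nat_lit 58) (nat_lit 0) (cs (nd (nat_lit 59) (nat_lit 0) (cs (nd (nat_lit 60) (nat_lit 0) (cs (lf (nat_lit 9) (nat_lit 56)) (lf (nat_lit 6) (nat_lit 57)))) (lf (nat_lit 12) (nat_lit 55)))) (lf (nat_lit 32) (nat_lit 57)))) (cs (nd (nat_lit 56) (nat_lit 0) (cs (nd (nat_lit 55) (nat_lit 0) (cs (nd (nat_lit 54) (nat_lit 0) (cs (lf (nat_lit 0) (nat_lit 53)) (lf (nat_lit 21) (nat_lit 54)))) (lf (nat_lit 18) (nat_lit 55)))) (lf (nat_lit 44) (nat_lit 56)))) (nd (nat_lit 77) (nat_lit 0) (cs (nd (nat_lit 98) (nat_lit 0) (cs (nd (nat_lit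 76) (nat_lit 0) (cs (nd (nat_lit 58) (nat_lit 0) (cs (lf (nat_lit 17) (nat_lit 55)) (lf (nat_lit 16) (nat_lit 54)))) (lf (nat_lit 11) (nat_lit 75)))) (lf (nat_lit 10) (nat_lit 76)))) (cs (nd (nat_lit 99) (nat_lit 0) (cs (nd (nat_lit 55) (nat_lit 0) (cs (nd (nat_lit 56) (nat_lit 0) (cs (lf (nat_lit 18) (nat_lit 55)) (lf (nat_lit 31) (nat_lit 55)))) (lf (nat_lit 23) (nat_lit 54)))) (lf (nat_lit 11) (nat_lit 76)))) (nd (nat_lit 58) (nat_lit 0) (cs (lf (nat_lit 17) (nat_lit 55)) (nd (nat_lit 76) (nat_lit 0) (cs (lf (nat_lit 16) (nat_lit 54)) (nd (nat_lit 54) (nat_lit 0) (cs (lf (nat_lit 23) (nat_lit 53)) (lf (nat_lit 22) (nat_lit 54))))))))))))))) (cs (nd (nat_lit 102) (nat_lit 0) (cs (lf (nat_lit 33) (nat_lit 79)) (nd (nat_lit 124) (nat_lit 0) (cs (rf (nat_lit 3)) (lf (nat_lit 39) (nat_lit 79)))))) (nd (nat_lit 124) (nat_lit 0) (cs (rf (nat_lit 3)) (nd (nat_lit 102) (nat_lit 0) (cs (lf (nat_lit 39) (nat_lit 79)) (lf (nat_lit 36) (nat_lit 57))))))))) (cs (nd (nat_lit 122) (nat_lit 0) (cs (rf (nat_lit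 4)) (cs (nd (nat_lit 121) (nat_lit 0) (cs (nd (nat_lit 120) (nat_lit 0) (cs (lf (nat_lit 5) (nat_lit 120)) (lf (nat_lit 10) (nat_lit 119)))) (cs (nd (nat_lit 56) (nat_lit 0) (cs (nd (nat_lit 77) (nat_lit 0) (cs (nd (nat_lit 146) (nat_lit 0) (cs (nd (nat_lit 147) (nat_lit 0) (cs (lf (nat_lit 18) (nat_lit 122)) (lf (nat_lit 3) (nat_lit 121)))) (lf (nat_lit 0) (nat_lit 120)))) (lf (nat_lit 32) (nat_lit 55)))) (lf (nat_lit 26) (nat_lit 56)))) (nd (nat_lit 142) (nat_lit 0) (cs (lf (nat_lit 12) (nat_lit 118)) (lf (nat_lit 6) (nat_lit 120))))))) (nd (nat_lit 100) (nat_lit 0) (cs (lf (nat_lit 27) (nat_lit 78)) (lf (nat_lit 24) (nat_lit 56))))))) (nd (nat_lit 100) (nat_lit 0) (cs (lf (nat_lit 45) (nat_lit 78)) (nd (nat_lit 144) (nat_lit 0) (cs (rf (nat_lit 5)) (lf (nat_lit 26) (nat_lit 78)))))))))))) (nd (nat_lit 230) (nat_lit 0) (cs (lf (nat_lit 42) (nat_lit 163)) (nd (nat_lit 189) (nat_lit 0) (cs (lf (nat_lit 41) (nat_lit 122)) (rf (nat_lit 6))))))))))))) q19440 (by decide +kernel)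
def q19441 : Q := Q.p (nat_lit 0x300000800002000000000000000000000000000000000000) (nat_lit 0x4000000000000000000001c000070000140000000000000000000) (nat_lit 5)
theorem c19441 : QOK q19441 := cut [q19436] ⟨c19436, trivial⟩ (nd (nat_lit 123) (nat_lit 0) (cs (lf (nat_lit 41) (nat_lit 122)) (rf (nat_lit 0)))) q19441 (by decide +kernel)
def q19493 : Q := Q.p (nat_lit 0x100000e0000040000000000000000000000000000000000000000) (nat_lit 0x27000018000020000000000000000000000000000000000000000) (nat_lit 4)
theorem c19493 : QOK q19493 := cut [q19492] ⟨c19492, trivial⟩ (nd (nat_lit 184) (nat_lit 0) (cs (lf (nat_lit 23) (nat_lit 161)) (rf (nat_lit 0)))) q19493 (by decide +kernel)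
def q19499 : Q := Q.p (nat_lit 0x100001c0000800000000000000000000000000000000000000000) (nat_lit 0x600000380004e0000000000000000000000000000000000000000) (nat_lit 5)
theorem c19499 : QOK q19499 := cut [q19329] ⟨c19329, trivial⟩ (nd (nat_lit 185) (nat_lit 0) (cs (lf (nat_lit 16) (nat_lit 163)) (rf (nat_lit 0)))) q19499 (by decide +kernel)
def q19517 : Q := Q.p (nat_lit 0x1e0000000001800000000000000000000000000000000000) (nat_lit 0xe000000000040000200000e000020000000000000000000000000) (nat_lit 5)
theorem c19517 : QOK q19517 := cut [q19281] ⟨c19281, trivial⟩ (nd (nat_lit 210) (nat_lit 0) (cs (lf (nat_lit 5) (nat_lit 185)) (nd (nat_lit 166) (nat_lit 0) (cs (lf (nat_lit 47) (nat_lit 121)) (rf (nat_lit 0)))))) q19517 (by decide +kernel)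
def q19518 : Q := Q.p (nat_lit 0x100001e0000000001800000000000000000000000000000000000) (nat_lit 0x400000000004c0006600007c00008000020000000000000000000) (nat_lit 6)
theorem c19518 : QOK q19518 := cut [q8961, q19312] ⟨c8961, c19312, trivial⟩ (nd (nat_lit 121) (nat_lit 0) (cs (rf (nat_lit 0)) (rf (nat_lit 1)))) q19518 (by decide +kernel)
def q19537 : Q := Q.p (nat_lit 0x100001e0000000001800004000000000000000000000000000000) (nat_lit 0x200000000004c0006600003c00008000000000000000000000000) (nat_lit 6)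
theorem c19537 : QOK q19537 := cut [q19312] ⟨c19312, trivial⟩ (nd (nat_lit 121) (nat_lit 0) (cs (rf (nat_lit 0)) (nd (nat_lit 166) (nat_lit 0) (cs (lf (nat_lit 41) (nat_lit 121)) (lf (nat_lit 47) (nat_lit 99)))))) q19537 (by decide +kernel)
def q19544 : Q := Q.p (nat_lit 0x100001e0000000001800004000000000000000000000000000000) (nat_lit 0xe000070000ae00000000000000000000000000000) (nat_lit 5)
theorem c19544 : QOK q19544 := cut [q19539, q19542] ⟨c19539, c19542, trivial⟩ (nd (nat_lit 141) (nat_lit 0) (cs (nd (nat_lit 163) (nat_lit 0) (cs (lf (nat_lit 24) (nat_lit 119)) (lf (nat_lit 23) (nat_lit 162)))) (cs (nd (nat_lit 162) (nat_lit 0) (cs (lf (nat_lit 22) (nat_lit 162)) (nd (nat_lit 142) (nat_lit 0) (cs (lf (nat_lit 17) (nat_lit 119)) (rf (nat_lit 0)))))) (nd (nat_lit 142) (nat_lit 0) (cs (lf (nat_lit 17) (nat_lit 119)) (rf (nat_lit 1))))))) q19544 (by decide +kernel)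
def q19545 : Q := Q.p (nat_lit 0x180000000001000004000000000000000000000000000000) (nat_lit 0x2000000000040000000000a0000380000a0000000000000000000) (nat_lit 5)
theorem c19545 : QOK q19545 := cut [q1756] ⟨c1756, trivial⟩ (nd (nat_lit 166) (nat_lit 0) (cs (rf (nat_lit 0)) (lf (nat_lit 41) (nat_lit 121)))) q19545 (by decide +kernel)
def q19597 : Q := Q.p (nat_lit 0x1e0000000001800001800000000000000000000000000000) (nat_lit 0xc00000000000000004e000270000e000000000000000000000000) (nat_lit 7)
theorem c19597 : QOK q19597 := cut [q19596] ⟨c19596, trivial⟩ (nd (nat_lit 210) (nat_lit 0) (cs (lf (nat_lit 5) (nat_lit 185)) (rf (nat_lit 0)))) q19597 (by decide +kernel)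
def q19609 : Q := Q.p (nat_lit 0x1e0000000001800000800000000000000000000000000000) (nat_lit 0xc00000000000000066e000770000e000000000000000000000000) (nat_lit 7)
theorem c19609 : QOK q19609 := cut [q19596, q19599, q19604] ⟨c19596, c19599, c19604, trivial⟩ (nd (nat_lit 120) (nat_lit 0) (cs (rf (nat_lit 0)) (cs (rf (nat_lit 1)) (cs (nd (nat_lit 210) (nat_lit 0) (cs (lf (nat_lit 5) (nat_lit 185)) (nd (nat_lit 142) (nat_lit 0) (cs (lf (nat_lit 18) (nat_lit 119)) (rf (nat_lit 2)))))) (nd (nat_lit 145) (nat_lit 0) (cs (lf (nat_lit 21) (nat_lit 119)) (nd (nat_lit 121) (nat_lit 0) (cs (lf (nat_lit 18) (nat_lit 120)) (lf (nat_lit 3) (nat_lit 119)))))))))) q19609 (by decide +kernel)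
def q19718 : Q := Q.p (nat_lit 0x1c0000800000000000000000000000000000000000000000) (nat_lit 0x100001c0000220001000002000008000000000000000000000000000000) (nat_lit 5)
theorem c19718 : QOK q19718 := cut [q19717] ⟨c19717, trivial⟩ (nd (nat_lit 189) (nat_lit 0) (cs (lf (nat_lit 17) (nat_lit 164)) (rf (nat_lit 0)))) q19718 (by decide +kernel)
def q19729 : Q := Q.p (nat_lit 0x100000e0000000000000000000000000000000000000000000000) (nat_lit 0xe7000118000f00000000000000000000000000000000000000000) (nat_lit 6)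
theorem c19729 : QOK q19729 := cut [q18911, q19725, q19728] ⟨c18911, c19725, c19728, trivial⟩ (nd (nat_lit 184) (nat_lit 0) (cs (rf (nat_lit 0)) (cs (nd (nat_lit 205) (nat_lit 0) (cs (lf (nat_lit 10) (nat_lit 183)) (rf (nat_lit 1)))) (rf (nat_lit 2))))) q19729 (by decide +kernel)
def q19738 : Q := Q.p (nat_lit 0x40000100000c0000100000000000000000000000000000000000000000) (nat_lit 0x2000000000028000060000380000c000020000000000000000000) (nat_lit 6)
theorem c19738 : QOK q19738 := cut [q19736] ⟨c19736, trivial⟩ (nd (nat_lit 141) (nat_lit 0) (cs (lf (nat_lit 46) (nat_lit 141)) (nd (nat_lit 142) (nat_lit 0) (cs (lf (nat_lit 47) (nat_lit 119)) (rf (nat_lit 0)))))) q19738 (by decide +kernel)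
def q19741 : Q := Q.p (nat_lit 0x40000100000c0000100000000000000000000000000000000000000000) (nat_lit 0x8000020000000001000002e0000a00000000000000000000000000000000000) (nat_lit 5)
theorem c19741 : QOK q19741 := cut [q4986] ⟨c4986, trivial⟩ (nd (nat_lit 165) (nat_lit 0) (cs (lf (nat_lit 35) (nat_lit 142)) (nd (nat_lit 229) (nat_lit 0) (cs (lf (nat_lit 41) (nat_lit 163)) (rf (nat_lit 0)))))) q19741 (by decide +kernel)
def q19776 : Q := Q.p (nat_lit 0x100001e0000400000000000000000000000000000000000000000) (nat_lit 0xe00000000003c0003e0000e800038000080000000000000000000) (nat_lit 8)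
theorem c19776 : QOK q19776 := cut [q9208, q19775] ⟨c9208, c19775, trivial⟩ (nd (nat_lit 144) (nat_lit 0) (cs (rf (nat_lit 0)) (cs (nd (nat_lit 163) (nat_lit 0) (cs (lf (nat_lit 23) (nat_lit 162)) (nd (nat_lit 210) (nat_lit 0) (cs (lf (nat_lit 5) (nat_lit 185)) (nd (nat_lit 145) (nat_lit 0) (cs (lf (nat_lit 35) (nat_lit 122)) (nd (nat_lit 119) (nat_lit 0) (cs (lf (nat_lit 25) (nat_lit 119)) (nd (nat_lit 164) (nat_lit 0) (cs (lf (nat_lit 14) (nat_lit 141)) (nd (nat_lit 143) (nat_lit 0) (cs (lf (nat_lit 47) (nat_lit 121)) (lf (nat_lit 9) (nat_lit 141)))))))))))))) (rf (nat_lit 1))))) q19776 (by decide +kernel)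
def q19829 : Q := Q.p (nat_lit 0x20000040000100000c0000000000000000000000000000000000000000000000) (nat_lit 0x80000e00001800000000020000000000000000000000000000000000000000000000000000) (nat_lit 4)
theorem c19829 : QOK q19829 := cut [q18182] ⟨c18182, trivial⟩ (nd (nat_lit 252) (nat_lit 0) (cs (lf (nat_lit 29) (nat_lit 186)) (rf (nat_lit 0)))) q19829 (by decide +kernel)
def q19882 : Q := Q.p (nat_lit 0x100002c0000800002000000000000000000000000000000000000) (nat_lit 0x500001e0000420000000004000018000040000000000000000000000000) (nat_lit 5)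
theorem c19882 : QOK q19882 := cut [q19861, q19870] ⟨c19861, c19870, trivial⟩ (nd (nat_lit 211) (nat_lit 0) (cs (rf (nat_lit 0)) (cs (rf (nat_lit 1)) (nd (nat_lit 124) (nat_lit 0) (cs (lf (nat_lit 34) (nat_lit 123)) (nd (nat_lit 123) (nat_lit 0) (cs (lf (nat_lit 35) (nat_lit 101)) (nd (nat_lit 212) (nat_lit 0) (cs (lf (nat_lit 29) (nat_lit 145)) (lf (nat_lit 28) (nat_lit 123))))))))))) q19882 (by decide +kernel)
def q19884 : Q := Q.p (nat_lit 0x2c0000800003000000000000000000000000000000000000) (nat_lit 0x500001e0000000000000004000014000000000000000000000000000000) (nat_lit 5)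
theorem c19884 : QOK q19884 := cut [q19861] ⟨c19861, trivial⟩ (nd (nat_lit 211) (nat_lit 0) (cs (lf (nat_lit 47) (nat_lit 122)) (nd (nat_lit 124) (nat_lit 0) (cs (lf (nat_lit 34) (nat_lit 123)) (rf (nat_lit 0)))))) q19884 (by decide +kernel)
def q19957 : Q := Q.p (nat_lit 0x80000780000000000000000000000000000000000000000) (nat_lit 0x20000300000000003000004000010000000000000000000000000) (nat_lit 4)
theorem c19957 : QOK q19957 := cut [q19956] ⟨c19956, trivial⟩ (nd (nat_lit 188) (nat_lit 0) (cs (lf (nat_lit 5) (nat_lit 163)) (rf (nat_lit 0)))) q19957 (by decide +kernel)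
def q19971 : Q := Q.p (nat_lit 0x1c0000700000000000000000000000000000000000000000) (nat_lit 0x80000200001c0000600000000001000004000000000000000000000000000000) (nat_lit 5)
theorem c19971 : QOK q19971 := cut [q8009] ⟨c8009, trivial⟩ (nd (nat_lit 189) (nat_lit 0) (cs (nd (nat_lit 211) (nat_lit 0) (cs (lf (nat_lit 5) (nat_lit 186)) (rf (nat_lit 0)))) (lf (nat_lit 18) (nat_lit 164)))) q19971 (by decide +kernel)
def q19993 : Q := Q.p (nat_lit 0xf0000100000000000000000000000000000000000000000) (nat_lit 0x700000c0000b8000000000000000000000000000000000000000) (nat_lit 5)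
theorem c19993 : QOK q19993 := cut [q19991] ⟨c19991, trivial⟩ (nd (nat_lit 205) (nat_lit 0) (cs (lf (nat_lit 10) (nat_lit 183)) (nd (nat_lit 183) (nat_lit 0) (cs (lf (nat_lit 11) (nat_lit 182)) (rf (nat_lit 0)))))) q19993 (by decide +kernel)
def q20007 : Q := Q.p (nat_lit 0x180000400001000000000000000000000000000000000000) (nat_lit 0x2000000000000000000000e0000380000a0000000000000000000) (nat_lit 5)
theorem c20007 : QOK q20007 := cut [q1756] ⟨c1756, trivial⟩ (nd (nat_lit 122) (nat_lit 0) (cs (rf (nat_lit 0)) (lf (nat_lit 41) (nat_lit 121)))) q20007 (by decide +kernel)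
def q20045 : Q := Q.p (nat_lit 0x180000700000000000000000000000000000000000000000) (nat_lit 0x200000000000c0003000004000010000000000000000000000000) (nat_lit 4)
theorem c20045 : QOK q20045 := cut [q19956] ⟨c19956, trivial⟩ (nd (nat_lit 163) (nat_lit 0) (cs (lf (nat_lit 0) (nat_lit 162)) (rf (nat_lit 0)))) q20045 (by decide +kernel)
def q20049 : Q := Q.p (nat_lit 0x100001c0000600000000000000000000000000000000000000000) (nat_lit 0x100000c0000030000000000800002000000000000000000000000000000) (nat_lit 4)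
theorem c20049 : QOK q20049 := cut [q20048] ⟨c20048, trivial⟩ (nd (nat_lit 185) (nat_lit 0) (cs (lf (nat_lit 12) (nat_lit 162)) (rf (nat_lit 0)))) q20049 (by decide +kernel)
def q20058 : Q := Q.p (nat_lit 0x100000c0000100000000000000000000000000000000000000000) (nat_lit 0x40000000003200000e0000600000800002000000000000000000000000) (nat_lit 5)
theorem c20058 : QOK q20058 := cut [q4806, q20054, q20056] ⟨c4806, c20054, c20056, trivial⟩ (nd (nat_lit 163) (nat_lit 0) (cs (rf (nat_lit 0)) (cs (rf (nat_lit 1)) (nd (nat_lit 188) (nat_lit 0) (cs (lf (nat_lit 18) (nat_lit 163)) (rf (nat_lit 2))))))) q20058 (by decide +kernel)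
def q20062 : Q := Q.p (nat_lit 0x100000c0000100000400000000000000000000000000000000000) (nat_lit 0x20000020000380000e000020000000000000000000) (nat_lit 5)
theorem c20062 : QOK q20062 := cut [q20060] ⟨c20060, trivial⟩ (nd (nat_lit 119) (nat_lit 0) (cs (lf (nat_lit 46) (nat_lit 119)) (nd (nat_lit 120) (nat_lit 0) (cs (lf (nat_lit 47) (nat_lit 97)) (rf (nat_lit 0)))))) q20062 (by decide +kernel)
def q20094 : Q := Q.p (nat_lit 0x4000010000040000700000000000000000000000000000000000000000) (nat_lit 0x800002000000000e2000180000e000000000000000000000000000000000000) (nat_lit 6)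
theorem c20094 : QOK q20094 := cut [q20091] ⟨c20091, trivial⟩ (nd (nat_lit 167) (nat_lit 0) (cs (lf (nat_lit 11) (nat_lit 163)) (nd (nat_lit 146) (nat_lit 0) (cs (lf (nat_lit 16) (nat_lit 142)) (nd (nat_lit 229) (nat_lit 0) (cs (lf (nat_lit 41) (nat_lit 163)) (rf (nat_lit 0)))))))) q20094 (by decide +kernel)
def q20107 : Q := Q.p (nat_lit 0xf00000000000000000000000000000000000000000) (nat_lit 0xe0000100000e000000000000000000000000000000000000) (nat_lit 4)
theorem c20107 : QOK q20107 := cut [q20091] ⟨c20091, trivial⟩ (nd (nat_lit 146) (nat_lit 0) (cs (lf (nat_lit 16) (nat_lit 142)) (rf (nat_lit 0)))) q20107 (by decide +kernel)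
def q20127 : Q := Q.p (nat_lit 0x10000040000100000200000000000000000000000000000000000) (nat_lit 0x4000000000000000600000d80002800000000000000000000000000000) (nat_lit 5)
theorem c20127 : QOK q20127 := cut [q2875] ⟨c2875, trivial⟩ (nd (nat_lit 142) (nat_lit 0) (cs (lf (nat_lit 47) (nat_lit 119)) (rf (nat_lit 0)))) q20127 (by decide +kernel)
def q20149 : Q := Q.p (nat_lit 0x2000004000010000040000000000000000000000000000000000000000000000) (nat_lit 0x80000e00001800000000008000020000080000000000000000000000000000000000000000) (nat_lit 5)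
theorem c20149 : QOK q20149 := cut [q20148] ⟨c20148, trivial⟩ (nd (nat_lit 252) (nat_lit 0) (cs (lf (nat_lit 29) (nat_lit 186)) (rf (nat_lit 0)))) q20149 (by decide +kernel)
def q20164 : Q := Q.p (nat_lit 0x2000018000020000080000000000000000000000000000000000000000) (nat_lit 0x1400005800060000000000000000000000000000000000000000000000000000) (nat_lit 4)
theorem c20164 : QOK q20164 := cut [q5023] ⟨c5023, trivial⟩ (nd (nat_lit 230) (nat_lit 0) (cs (lf (nat_lit 29) (nat_lit 163)) (rf (nat_lit 0)))) q20164 (by decide +kernel)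
def q20165 : Q := Q.p (nat_lit 0x2000018000060000180000000000000000000000000000000000000000) (nat_lit 0x2000001c0002700001c0000000000000000000000000000000000) (nat_lit 6)
theorem c20165 : QOK q20165 := cut [q8695] ⟨c8695, trivial⟩ (nd (nat_lit 162) (nat_lit 0) (cs (lf (nat_lit 47) (nat_lit 140)) (rf (nat_lit 0)))) q20165 (by decide +kernel)
def q20178 : Q := Q.p (nat_lit 0x10000040000180000400000000000000000000000000000000000) (nat_lit 0x2000000000020000380000e000020000000000000000000) (nat_lit 5)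
theorem c20178 : QOK q20178 := cut [q20177] ⟨c20177, trivial⟩ (nd (nat_lit 119) (nat_lit 0) (cs (lf (nat_lit 46) (nat_lit 119)) (rf (nat_lit 0)))) q20178 (by decide +kernel)
def q20183 : Q := Q.p (nat_lit 0x10000040000100000000000000000000000000000000000000000) (nat_lit 0x800006000008000020000080000e0000380000a000000000000000000000000) (nat_lit 5)
theorem c20183 : QOK q20183 := cut [q18163, q18450, q20131] ⟨c18163, c18450, c20131, trivial⟩ (nd (nat_lit 142) (nat_lit 0) (cs (rf (nat_lit 0)) (cs (rf (nat_lit 1)) (rf (nat_lit 2))))) q20183 (by decide +kernel)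
def q20194 : Q := Q.p (nat_lit 0x40000100000400001000000000000000000000000000000000000000000000000000000000) (nat_lit 0xa0000380000a0000000000000000000000000000000000000000000000000000000000000000000000000) (nat_lit 4)
theorem c20194 : QOK q20194 := cut [q18266] ⟨c18266, trivial⟩ (nd (nat_lit 315) (nat_lit 0) (cs (lf (nat_lit 40) (nat_lit 227)) (rf (nat_lit 0)))) q20194 (by decide +kernel)
def q20262 : Q := Q.p (nat_lit 0x3c000000000000000000000000000000000000000000000000000) (nat_lit 0x700000c0000738000000000000000000000000000000000000000000000) (nat_lit 6)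
theorem c20262 : QOK q20262 := cut [q139] ⟨c139, trivial⟩ (nd (nat_lit 184) (nat_lit 0) (cs (lf (nat_lit 23) (nat_lit 183)) (nd (nat_lit 210) (nat_lit 0) (cs (lf (nat_lit 22) (nat_lit 184)) (rf (nat_lit 0)))))) q20262 (by decide +kernel)
def q20276 : Q := Q.p (nat_lit 0x3c0000c0000000000000000000000000000000000000000000000) (nat_lit 0x4000040000038000660000800002000000000000000000000000000000) (nat_lit 6)
theorem c20276 : QOK q20276 := cut [q2225] ⟨c2225, trivial⟩ (nd (nat_lit 184) (nat_lit 0) (cs (lf (nat_lit 23) (nat_lit 183)) (nd (nat_lit 185) (nat_lit 0) (cs (lf (nat_lit 18) (nat_lit 184)) (nd (nat_lit 161) (nat_lit 0) (cs (lf (nat_lit 22) (nat_lit 161)) (rf (nat_lit 0)))))))) q20276 (by decide +kernel)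
def q20284 : Q := Q.p (nat_lit 0x10000040000100000400000000000000000000000000000000000) (nat_lit 0x4000000000000000600000b80002800000000000000000000000000000) (nat_lit 5)
theorem c20284 : QOK q20284 := cut [q2875] ⟨c2875, trivial⟩ (nd (nat_lit 141) (nat_lit 0) (cs (lf (nat_lit 47) (nat_lit 119)) (rf (nat_lit 0)))) q20284 (by decide +kernel)
def q20314 : Q := Q.p (nat_lit 0x2000018000020000080000000000000000000000000000000000000000) (nat_lit 0x400001c00064000000000000000000000000000000000000000000000000000) (nat_lit 4)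
theorem c20314 : QOK q20314 := cut [q5376] ⟨c5376, trivial⟩ (nd (nat_lit 228) (nat_lit 0) (cs (lf (nat_lit 41) (nat_lit 162)) (rf (nat_lit 0)))) q20314 (by decide +kernel)
def q20373 : Q := Q.p (nat_lit 0x2800002000008000020000000000000000000000000000000000000000000000) (nat_lit 0x5e0001780001f00000000000000000000000000000000000000000000000000000000) (nat_lit 8)
theorem c20373 : QOK q20373 := cut [q2063, q11143, q20365] ⟨c2063, c11143, c20365, trivial⟩ (nd (nat_lit 250) (nat_lit 0) (cs (lf (nat_lit 41) (nat_lit 184)) (nd (nat_lit 252) (nat_lit 0) (cs (lf (nat_lit 29) (nat_lit 185)) (nd (nat_lit 249) (nat_lit 0) (cs (rf (nat_lit 0)) (cs (rf (nat_lit 1)) (cs (nd (nat_lit 270) (nat_lit 0) (cs (lf (nat_lit 10) (nat_lit 248)) (nd (nat_lit 248) (nat_lit 0) (cs (lf (nat_lit 11) (nat_lit 247)) (rf (nat_lit 2)))))) (nd (nat_lit 270) (nat_lit 0) (cs (lf (nat_lit 10) (nat_lit 248)) (nd (nat_lit 248) (nat_lit 0) (cs (lf (nat_lit 11) (nat_lit 247)) (nd (nat_lit 228) (nat_lit 0) (cs (lf (nat_lit 12) (nat_lit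 225)) (lf (nat_lit 23) (nat_lit 227)))))))))))))))) q20373 (by decide +kernel)
def q20387 : Q := Q.p (nat_lit 0x1c000060000000000000000000000000000000000000000000000) (nat_lit 0x400001c0002300000c000020000080000000000000000000000000000000000) (nat_lit 6)
theorem c20387 : QOK q20387 := cut [q20386] ⟨c20386, trivial⟩ (nd (nat_lit 205) (nat_lit 0) (cs (lf (nat_lit 12) (nat_lit 182)) (rf (nat_lit 0)))) q20387 (by decide +kernel)
def q20437 : Q := Q.p (nat_lit 0x100001c000160000000000000000000000000000000000000000000000) (nat_lit 0x1000004000008000e0000200000000000000000000000000000000000000000000000) (nat_lit 4)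
theorem c20437 : QOK q20437 := cut [q20317] ⟨c20317, trivial⟩ (nd (nat_lit 250) (nat_lit 0) (cs (lf (nat_lit 30) (nat_lit 184)) (rf (nat_lit 0)))) q20437 (by decide +kernel)
def q20466 : Q := Q.p (nat_lit 0x100000c000070000000000000000000000000000000000000000000000) (nat_lit 0x300000c00002000000000000000140000000000000000000000000000000000000000) (nat_lit 4)
theorem c20466 : QOK q20466 := cut [q20465] ⟨c20465, trivial⟩ (nd (nat_lit 250) (nat_lit 0) (cs (lf (nat_lit 30) (nat_lit 184)) (rf (nat_lit 0)))) q20466 (by decide +kernel)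
def q20528 : Q := Q.p (nat_lit 0x18000060000080000000000000000000000000000000000000000) (nat_lit 0x1c0002700001c0003700003c0000f00000000000000000000000000000) (nat_lit 12)
theorem c20528 : QOK q20528 := cut [q8741] ⟨c8741, trivial⟩ (nd (nat_lit 141) (nat_lit 0) (cs (lf (nat_lit 24) (nat_lit 119)) (nd (nat_lit 118) (nat_lit 0) (cs (lf (nat_lit 46) (nat_lit 118)) (nd (nat_lit 206) (nat_lit 0) (cs (lf (nat_lit 41) (nat_lit 140)) (rf (nat_lit 0)))))))) q20528 (by decide +kernel)
def q20538 : Q := Q.p (nat_lit 0x18000060000180000000000000000000000000000000000000000) (nat_lit 0x200002000001c0002700001c0000400001000000000000000000000000) (nat_lit 6)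
theorem c20538 : QOK q20538 := cut [q3743, q8695, q8730] ⟨c3743, c8695, c8730, trivial⟩ (nd (nat_lit 162) (nat_lit 0) (cs (rf (nat_lit 0)) (cs (rf (nat_lit 1)) (rf (nat_lit 2))))) q20538 (by decide +kernel)
def q20663 : Q := Q.p (nat_lit 0xc000070000000000000000000000000000000000000000000000) (nat_lit 0x2000000000180000060000100000400000000000000000000000000000) (nat_lit 4)
theorem c20663 : QOK q20663 := cut [q337] ⟨c337, trivial⟩ (nd (nat_lit 187) (nat_lit 0) (cs (rf (nat_lit 0)) (lf (nat_lit 6) (nat_lit 184)))) q20663 (by decide +kernel)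
def q20671 : Q := Q.p (nat_lit 0x10000070000000000000000000000000000000000000000000000) (nat_lit 0xf80008c000078000000000000000000000000000000000000000) (nat_lit 5)
theorem c20671 : QOK q20671 := cut [q4752, q4767, q20670] ⟨c4752, c4767, c20670, trivial⟩ (nd (nat_lit 183) (nat_lit 0) (cs (rf (nat_lit 0)) (cs (rf (nat_lit 1)) (rf (nat_lit 2))))) q20671 (by decide +kernel)
def q20686 : Q := Q.p (nat_lit 0x1e00000000000000000000000000000000000) (nat_lit 0x10000ee00000000000000000000000000000) (nat_lit 4)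
theorem c20686 : QOK q20686 := cut [q19542] ⟨c19542, trivial⟩ (nd (nat_lit 122) (nat_lit 0) (cs (lf (nat_lit 17) (nat_lit 119)) (rf (nat_lit 0)))) q20686 (by decide +kernel)
def q20720 : Q := Q.p (nat_lit 0x100000f0000040000000000000000000000000000000000000000) (nat_lit 0x200000e000100000600000900002400000000000000000000000000000) (nat_lit 6)
theorem c20720 : QOK q20720 := cut [q2735] ⟨c2735, trivial⟩ (nd (nat_lit 165) (nat_lit 0) (cs (lf (nat_lit 17) (nat_lit 162)) (nd (nat_lit 121) (nat_lit 0) (cs (lf (nat_lit 37) (nat_lit 120)) (rf (nat_lit 0)))))) q20720 (by decide +kernel)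
def q20778 : Q := Q.p (nat_lit 0x140000380000000000000000000000000000000000000000) (nat_lit 0x220000c00007000000000000000000000000000000000000) (nat_lit 4)
theorem c20778 : QOK q20778 := cut [q20777] ⟨c20777, trivial⟩ (nd (nat_lit 166) (nat_lit 0) (cs (lf (nat_lit 5) (nat_lit 163)) (rf (nat_lit 0)))) q20778 (by decide +kernel)
def q20782 : Q := Q.p (nat_lit 0x400003c0000000000000000000000000000000000000000) (nat_lit 0x2e0000300001c0000000000000000000000000000000000) (nat_lit 5)
theorem c20782 : QOK q20782 := cut [q2244] ⟨c2244, trivial⟩ (nd (nat_lit 139) (nat_lit 0) (cs (lf (nat_lit 22) (nat_lit 139)) (nd (nat_lit 161) (nat_lit 0) (cs (lf (nat_lit 23) (nat_lit 138)) (rf (nat_lit 0)))))) q20782 (by decide +kernel)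
def q20798 : Q := Q.p (nat_lit 0x100000c0000f00002000000000000000000000000000000000000) (nat_lit 0x48000700000000000000008000020000000000000000000000000) (nat_lit 4)
theorem c20798 : QOK q20798 := cut [q3027] ⟨c3027, trivial⟩ (nd (nat_lit 189) (nat_lit 0) (cs (rf (nat_lit 0)) (lf (nat_lit 5) (nat_lit 164)))) q20798 (by decide +kernel)
def q20808 : Q := Q.p (nat_lit 0x40000100000c0000100000000000000000000000000000000000000000) (nat_lit 0x80000200002800000000020000040000300000c000020000000000000000000) (nat_lit 6)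
theorem c20808 : QOK q20808 := cut [q19736] ⟨c19736, trivial⟩ (nd (nat_lit 229) (nat_lit 0) (cs (lf (nat_lit 41) (nat_lit 163)) (nd (nat_lit 142) (nat_lit 0) (cs (lf (nat_lit 40) (nat_lit 141)) (rf (nat_lit 0)))))) q20808 (by decide +kernel)
def q20854 : Q := Q.p (nat_lit 0x1e0000000000000000000000000000000000000000000000) (nat_lit 0xce0000100000e0000000000000000000000000000000000000000) (nat_lit 5)
theorem c20854 : QOK q20854 := cut [q20853] ⟨c20853, trivial⟩ (nd (nat_lit 210) (nat_lit 0) (cs (lf (nat_lit 5) (nat_lit 185)) (rf (nat_lit 0)))) q20854 (by decide +kernel)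
def q20911 : Q := Q.p (nat_lit 0x100001e0000100000000000000000000000000000000000000000) (nat_lit 0x20000cc000000000000000400001000000000000000000000000000000) (nat_lit 4)
theorem c20911 : QOK q20911 := cut [q20910] ⟨c20910, trivial⟩ (nd (nat_lit 210) (nat_lit 0) (cs (lf (nat_lit 5) (nat_lit 185)) (rf (nat_lit 0)))) q20911 (by decide +kernel)
def q20918 : Q := Q.p (nat_lit 0x100001c0000000000000000000000000000000000000000000000) (nat_lit 0x4000188000600001b80000800002000000000000000000000000000000) (nat_lit 7)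
theorem c20918 : QOK q20918 := cut [q20915] ⟨c20915, trivial⟩ (nd (nat_lit 189) (nat_lit 0) (cs (lf (nat_lit 11) (nat_lit 185)) (nd (nat_lit 167) (nat_lit 0) (cs (lf (nat_lit 17) (nat_lit 164)) (nd (nat_lit 211) (nat_lit 0) (cs (lf (nat_lit 5) (nat_lit 186)) (rf (nat_lit 0)))))))) q20918 (by decide +kernel)
def q20921 : Q := Q.p (nat_lit 0x100001c0000000000000000000000000000000000000000000000) (nat_lit 0x1c80002200001c0000000000000000000000000000000000000000) (nat_lit 5)
theorem c20921 : QOK q20921 := cut [q20919] ⟨c20919, trivial⟩ (nd (nat_lit 189) (nat_lit 0) (cs (lf (nat_lit 11) (nat_lit 185)) (nd (nat_lit 211) (nat_lit 0) (cs (lf (nat_lit 5) (nat_lit 186)) (rf (nat_lit 0)))))) q20921 (by decide +kernel)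
def q20924 : Q := Q.p (nat_lit 0x100001c0000000000000000000000000000000000000000000000) (nat_lit 0x4000008000620001f80000800002000000000000000000000000000000) (nat_lit 7)
theorem c20924 : QOK q20924 := cut [q20915] ⟨c20915, trivial⟩ (nd (nat_lit 189) (nat_lit 0) (cs (lf (nat_lit 11) (nat_lit 185)) (nd (nat_lit 167) (nat_lit 0) (cs (lf (nat_lit 17) (nat_lit 164)) (nd (nat_lit 166) (nat_lit 0) (cs (lf (nat_lit 12) (nat_lit 163)) (rf (nat_lit 0)))))))) q20924 (by decide +kernel)
def q21056 : Q := Q.p (nat_lit 0x780000000000000000000000000000000000000000) (nat_lit 0x39c0000600001c0000000000000000000000000000000000) (nat_lit 6)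
theorem c21056 : QOK q21056 := cut [q2762] ⟨c2762, trivial⟩ (nd (nat_lit 188) (nat_lit 0) (cs (lf (nat_lit 5) (nat_lit 163)) (nd (nat_lit 162) (nat_lit 0) (cs (lf (nat_lit 4) (nat_lit 162)) (rf (nat_lit 0)))))) q21056 (by decide +kernel)
def q21073 : Q := Q.p (nat_lit 0x6000010000040000780000000000000000000000000000000000000000) (nat_lit 0x40000100000780001c000ef8003b8000020003000004000000000000000000000000000000) (nat_lit 11)
theorem c21073 : QOK q21073 := cut [q468, q3065, q21067, q3075, q3090, q21070] ⟨c468, c3065, c21067, c3075, c3090, c21070, trivial⟩ (nd (nat_lit 228) (nat_lit 0) (cs (rf (nat_lit 0)) (cs (nd (nat_lit 144) (nat_lit 0) (cs (lf (nat_lit 17) (nat_lit 141)) (nd (nat_lit 188) (nat_lit 0) (cs (lf (nat_lit 5) (nat_lit 163)) (rf (nat_lit 1)))))) (cs (nd (nat_lit 184) (nat_lit 0) (cs (lf (nat_lit 10) (nat_lit 162)) (rf (nat_lit 2)))) (nd (nat_lit 227) (nat_lit 0) (cs (rf (nat_lit 3)) (cs (nd (nat_lit 205) (nat_lit 0) (cs (lf (nat_lit 23) (nat_lit 204)) (rf (nat_lit 4)))) (nd (nat_lit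 207) (nat_lit 0) (cs (lf (nat_lit 12) (nat_lit 204)) (rf (nat_lit 5))))))))))) q21073 (by decide +kernel)
def q21134 : Q := Q.p (nat_lit 0x340000100000c000000000000000000000000000000000000000000000000000) (nat_lit 0xa0000780000000000000000000020000000000000000000000000000000000000000000000) (nat_lit 4)
theorem c21134 : QOK q21134 := cut [q21133] ⟨c21133, trivial⟩ (nd (nat_lit 272) (nat_lit 0) (cs (lf (nat_lit 35) (nat_lit 184)) (rf (nat_lit 0)))) q21134 (by decide +kernel)
def q21206 : Q := Q.p (nat_lit 0x18000060000080000000000000000000000000000000000000000) (nat_lit 0x600001f00007c0000300001c000170000500000000000000000000000000000000000) (nat_lit 11)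
theorem c21206 : QOK q21206 := cut [q90, q18873] ⟨c90, c18873, trivial⟩ (nd (nat_lit 229) (nat_lit 0) (cs (rf (nat_lit 0)) (cs (rf (nat_lit 1)) (nd (nat_lit 230) (nat_lit 0) (cs (lf (nat_lit 42) (nat_lit 163)) (nd (nat_lit 142) (nat_lit 0) (cs (lf (nat_lit 37) (nat_lit 141)) (nd (nat_lit 162) (nat_lit 0) (cs (lf (nat_lit 47) (nat_lit 140)) (nd (nat_lit 160) (nat_lit 0) (cs (lf (nat_lit 1) (nat_lit 160)) (nd (nat_lit 228) (nat_lit 0) (cs (lf (nat_lit 41) (nat_lit 162)) (nd (nat_lit 227) (nat_lit 0) (cs (lf (nat_lit 12) (nat_lit 204)) (nd (nat_lit 205) (nat_lit 0) (cs (lf (nat_lit 23) (nat_lit 204)) (nd (nat_lit 249) (nat_lit 0) (cs (lf (nat_lit 11) (nat_lit 226)) (nd (nat_lit 183) (nat_lit 0) (cs (lf (nat_lit 34) (nat_lit 161)) (lf (nat_lit 46) (nat_lit 160))))))))))))))))))))))) q21206 (by decide +kernel)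
def q21242 : Q := Q.p (nat_lit 0xd0000380000000000000000000000000000000000000000) (nat_lit 0x20001c00007000000000000000000000000000000000000) (nat_lit 4)
theorem c21242 : QOK q21242 := cut [q21241] ⟨c21241, trivial⟩ (nd (nat_lit 166) (nat_lit 0) (cs (lf (nat_lit 13) (nat_lit 162)) (rf (nat_lit 0)))) q21242 (by decide +kernel)
def q21331 : Q := Q.p (nat_lit 0x10000040000300000000000000000000000000000000000000000) (nat_lit 0x4000000000330000cc0007b80000800002000000000000000000000000) (nat_lit 7)
theorem c21331 : QOK q21331 := cut [q4806, q4854, q2890] ⟨c4806, c4854, c2890, trivial⟩ (nd (nat_lit 163) (nat_lit 0) (cs (rf (nat_lit 0)) (cs (rf (nat_lit 1)) (nd (nat_lit 166) (nat_lit 0) (cs (rf (nat_lit 2)) (nd (nat_lit 140) (nat_lit 0) (cs (lf (nat_lit 22) (nat_lit 140)) (nd (nat_lit 188) (nat_lit 0) (cs (lf (nat_lit 5) (nat_lit 163)) (nd (nat_lit 144) (nat_lit 0) (cs (lf (nat_lit 17) (nat_lit 141)) (nd (nat_lit 162) (nat_lit 0) (cs (lf (nat_lit 16) (nat_lit 140)) (lf (nat_lit 23) (nat_lit 139)))))))))))))))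 q21331 (by decide +kernel)
def q21395 : Q := Q.p (nat_lit 0xf0000080000000000000000000000000000000000000000) (nat_lit 0xe0000300001d00000000000000000000000000000000000000000) (nat_lit 5)
theorem c21395 : QOK q21395 := cut [q21393] ⟨c21393, trivial⟩ (nd (nat_lit 210) (nat_lit 0) (cs (lf (nat_lit 4) (nat_lit 184)) (nd (nat_lit 188) (nat_lit 0) (cs (lf (nat_lit 5) (nat_lit 185)) (rf (nat_lit 0)))))) q21395 (by decide +kernel)
def q21491 : Q := Q.p (nat_lit 0x40000e0000000000000000000000000000000000000000000000) (nat_lit 0x1c8000300001c00000000000000000000000000000000000000000) (nat_lit 5)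
theorem c21491 : QOK q21491 := cut [q21490] ⟨c21490, trivial⟩ (nd (nat_lit 188) (nat_lit 0) (cs (lf (nat_lit 10) (nat_lit 184)) (rf (nat_lit 0)))) q21491 (by decide +kernel)
def q21503 : Q := Q.p (nat_lit 0x1800004000010000000000000000000000000000000000000000000000) (nat_lit 0x200000000002000000000060000180000200000000000000000000000000000) (nat_lit 4)
theorem c21503 : QOK q21503 := cut [q17313] ⟨c17313, trivial⟩ (nd (nat_lit 162) (nat_lit 0) (cs (lf (nat_lit 41) (nat_lit 161)) (rf (nat_lit 0)))) q21503 (by decide +kernel)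
def q21530 : Q := Q.p (nat_lit 0x60000100000200000c0000000000000000000000000000000000000000) (nat_lit 0x400001800068000000000000000100000000000000000000000000000000000) (nat_lit 4)
theorem c21530 : QOK q21530 := cut [q5023] ⟨c5023, trivial⟩ (nd (nat_lit 207) (nat_lit 0) (cs (lf (nat_lit 47) (nat_lit 140)) (rf (nat_lit 0)))) q21530 (by decide +kernel)
def q21538 : Q := Q.p (nat_lit 0x4000010000060000100000000000000000000000000000000000000000) (nat_lit 0x800002000008000000000080000c0000380000e000008000000000000000000) (nat_lit 7)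
theorem c21538 : QOK q21538 := cut [q21536] ⟨c21536, trivial⟩ (nd (nat_lit 229) (nat_lit 0) (cs (lf (nat_lit 41) (nat_lit 163)) (nd (nat_lit 142) (nat_lit 0) (cs (lf (nat_lit 40) (nat_lit 141)) (rf (nat_lit 0)))))) q21538 (by decide +kernel)

end Crest.Agent.H3.Snaky.CR
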