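import Crest.Agent.H3.Snaky.Cert
import Crest.Agent.H3.Snaky.CR.CR0
import Crest.Agent.H3.Snaky.CR.CR1
import Crest.Agent.H3.Snaky.CR.CR2
import Crest.Agent.H3.Snaky.CR.CR3
import Crest.Agent.H3.Snaky.CR.CR4
import Crest.Agent.H3.Snaky.CR.CR5
import Crest.Agent.H3.Snaky.CR.CR6
import Crest.Agent.H3.Snaky.CR.CR7
import Crest.Agent.H3.Snaky.CR.CR20
import Crest.Agent.H3.Snaky.CR.CR21
import Crest.Agent.H3.Snaky.CR.CR22
import Crest.Agent.H3.Snaky.CR.CR23
import Crest.Agent.H3.Snaky.CR.CR24
import Crest.Agent.H3.Snaky.CR.CR25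
import Crest.Agent.H3.Snaky.CR.CR26

set_option autoImplicit false
set_option maxRecDepth 100000

namespace Crest.Agent.H3.Snaky.CR

open T

def q21541 : Q := Q.p (nat_lit 0x4000010000060000100000000000000000000000000000000000000000) (nat_lit 0x80000e0000380000e000008000000000000000000) (nat_lit 6)
theorem c21541 : QOK q21541 := cut [q611, q18163, q21536, q21540] ⟨c611, c18163, c21536, c21540, trivial⟩ (nd (nat_lit 142) (nat_lit 0) (cs (rf (nat_lit 0)) (cs (rf (nat_lit 1)) (cs (rf (nat_lit 2)) (rf (nat_lit 3)))))) q21541 (by decide +kernel)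
def q21550 : Q := Q.p (nat_lit 0x1000014000010000040000000000000000000000000000000000000000) (nat_lit 0x200000e0002a000000000000000000000000000000000000000000000000000) (nat_lit 4)
theorem c21550 : QOK q21550 := cut [q21548] ⟨c21548, trivial⟩ (nd (nat_lit 227) (nat_lit 0) (cs (lf (nat_lit 41) (nat_lit 161)) (rf (nat_lit 0)))) q21550 (by decide +kernel)
def q21576 : Q := Q.p (nat_lit 0x2000004000010000060000000000000000000000000000000000000000000000) (nat_lit 0xf00001f00003c00008000000000100000000000000000000000000000000000000000) (nat_lit 8)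
theorem c21576 : QOK q21576 := cut [q1082] ⟨c1082, trivial⟩ (nd (nat_lit 252) (nat_lit 0) (cs (lf (nat_lit 29) (nat_lit 186)) (nd (nat_lit 251) (nat_lit 0) (cs (lf (nat_lit 41) (nat_lit 185)) (nd (nat_lit 229) (nat_lit 0) (cs (lf (nat_lit 36) (nat_lit 163)) (nd (nat_lit 227) (nat_lit 0) (cs (lf (nat_lit 1) (nat_lit 227)) (nd (nat_lit 207) (nat_lit 0) (cs (lf (nat_lit 29) (nat_lit 185)) (rf (nat_lit 0)))))))))))) q21576 (by decide +kernel)
def q21579 : Q := Q.p (nat_lit 0x6000010000060000080000000000000000000000000000000000000000) (nat_lit 0x800000000008000000000100000c0000300000c000000000000000000000000) (nat_lit 5)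
theorem c21579 : QOK q21579 := cut [q19986] ⟨c19986, trivial⟩ (nd (nat_lit 164) (nat_lit 0) (cs (lf (nat_lit 41) (nat_lit 163)) (nd (nat_lit 142) (nat_lit 0) (cs (lf (nat_lit 40) (nat_lit 141)) (rf (nat_lit 0)))))) q21579 (by decide +kernel)
def q21809 : Q := Q.p (nat_lit 0x1e00000000000000000000000000000000000) (nat_lit 0x1cc000200001c000000000000000000000000000000) (nat_lit 5)
theorem c21809 : QOK q21809 := cut [q21807] ⟨c21807, trivial⟩ (nd (nat_lit 167) (nat_lit 0) (cs (lf (nat_lit 4) (nat_lit 141)) (nd (nat_lit 162) (nat_lit 0) (cs (lf (nat_lit 10) (nat_lit 140)) (rf (nat_lit 0)))))) q21809 (by decide +kernel)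
def q21909 : Q := Q.p (nat_lit 0x80000200000800002000000000000000000000000000000000000000000000000000000000000000) (nat_lit 0x4000030000040000000000400001000004000000000000000000000000000000000000000000000000000000000) (nat_lit 4)
theorem c21909 : QOK q21909 := cut [q21908] ⟨c21908, trivial⟩ (nd (nat_lit 252) (nat_lit 0) (cs (lf (nat_lit 47) (nat_lit 230)) (rf (nat_lit 0)))) q21909 (by decide +kernel)
def q21924 : Q := Q.p (nat_lit 0x180000280000800002000000000000000000000000000000000000000000000000000000000000000) (nat_lit 0x8000020000190000260001d00001000001000004000000000000000000000000000000000000000000000000000000000) (nat_lit 8)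
theorem c21924 : QOK q21924 := cut [q21921] ⟨c21921, trivial⟩ (nd (nat_lit 230) (nat_lit 0) (cs (lf (nat_lit 46) (nat_lit 230)) (nd (nat_lit 318) (nat_lit 0) (cs (lf (nat_lit 41) (nat_lit 252)) (nd (nat_lit 321) (nat_lit 0) (cs (lf (nat_lit 22) (nat_lit 295)) (rf (nat_lit 0)))))))) q21924 (by decide +kernel)
def q21939 : Q := Q.p (nat_lit 0x40000200000800002000000000000000000000000000000000000000000000000000000000000000) (nat_lit 0x100000500001000000000018000060000100000000000000000000000000000000000000000000000) (nat_lit 5)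
theorem c21939 : QOK q21939 := cut [q11869] ⟨c11869, trivial⟩ (nd (nat_lit 231) (nat_lit 0) (cs (lf (nat_lit 40) (nat_lit 230)) (rf (nat_lit 0)))) q21939 (by decide +kernel)
def q21954 : Q := Q.p (nat_lit 0x200000800002000000000010000000000000000000000000000000000000000000000000000) (nat_lit 0x14000050000140000000000c000020000000000000000000000000000000000000000000000000000) (nat_lit 5)
theorem c21954 : QOK q21954 := cut [q21953] ⟨c21953, trivial⟩ (nd (nat_lit 231) (nat_lit 0) (cs (lf (nat_lit 46) (nat_lit 208)) (rf (nat_lit 0)))) q21954 (by decide +kernel)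
def q21972 : Q := Q.p (nat_lit 0x80000200000800002000000000000000000000000000000000000000000000000000000000000000) (nat_lit 0x50000140000500000000000000008000000000000000000000000000000000000000000000000000000000) (nat_lit 4)
theorem c21972 : QOK q21972 := cut [q21971] ⟨c21971, trivial⟩ (nd (nat_lit 318) (nat_lit 0) (cs (lf (nat_lit 41) (nat_lit 252)) (rf (nat_lit 0)))) q21972 (by decide +kernel)
def q21979 : Q := Q.p (nat_lit 0x800002000008000030000000000000000000000000000000000000000000000000000) (nat_lit 0x100000400001000004000000000180000700001c00001000000000000000000000000000000) (nat_lit 7)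
theorem c21979 : QOK q21979 := cut [q21978] ⟨c21978, trivial⟩ (nd (nat_lit 274) (nat_lit 0) (cs (lf (nat_lit 41) (nat_lit 208)) (rf (nat_lit 0)))) q21979 (by decide +kernel)
def q22009 : Q := Q.p (nat_lit 0x380000200000800002000000000000000000000000000000000000000000000000000000000000000) (nat_lit 0x190000060001dc0000000000000000000000000000000000000000000000000000000000000000000000000) (nat_lit 6)
theorem c22009 : QOK q22009 := cut [q11800] ⟨c11800, trivial⟩ (nd (nat_lit 318) (nat_lit 0) (cs (lf (nat_lit 41) (nat_lit 252)) (nd (nat_lit 343) (nat_lit 0) (cs (lf (nat_lit 5) (nat_lit 318)) (nd (nat_lit 295) (nat_lit 0) (cs (rf (nat_lit 0)) (lf (nat_lit 22) (nat_lit 295)))))))) q22009 (by decide +kernel)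
def q22017 : Q := Q.p (nat_lit 0x200000800002000000000010000000000000000000000000000000000000000000000000000) (nat_lit 0x4000010000040000000001c000060000100000000000000000000000000000000000000000000000) (nat_lit 5)
theorem c22017 : QOK q22017 := cut [q22016] ⟨c22016, trivial⟩ (nd (nat_lit 231) (nat_lit 0) (cs (lf (nat_lit 46) (nat_lit 208)) (rf (nat_lit 0)))) q22017 (by decide +kernel)
def q22031 : Q := Q.p (nat_lit 0x380000200000800002000000000000000000000000000000000000000000000000000000000000000) (nat_lit 0x390000440003800000000000000000000000000000000000000000000000000000000000000000000000000) (nat_lit 5)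
theorem c22031 : QOK q22031 := cut [q13024] ⟨c13024, trivial⟩ (nd (nat_lit 318) (nat_lit 0) (cs (lf (nat_lit 41) (nat_lit 252)) (rf (nat_lit 0)))) q22031 (by decide +kernel)
def q22054 : Q := Q.p (nat_lit 0x80000200000c00002000000000000000000000000000000000000000000000000000000000000000) (nat_lit 0x30000040000100000000001000018000060000180000000000000000000000000000000000000000000000) (nat_lit 6)
theorem c22054 : QOK q22054 := cut [q22052] ⟨c22052, trivial⟩ (nd (nat_lit 318) (nat_lit 0) (cs (lf (nat_lit 41) (nat_lit 252)) (nd (nat_lit 231) (nat_lit 0) (cs (lf (nat_lit 40) (nat_lit 230)) (rf (nat_lit 0)))))) q22054 (by decide +kernel)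
def q22056 : Q := Q.p (nat_lit 0x60000100000c00002000000000000000000000000000000000000000000000000000000000000000) (nat_lit 0x8000000000000001000001e00002000000000000000000000000000000000000000000000000000000000) (nat_lit 4)
theorem c22056 : QOK q22056 := cut [q13045] ⟨c13045, trivial⟩ (nd (nat_lit 252) (nat_lit 0) (cs (rf (nat_lit 0)) (lf (nat_lit 41) (nat_lit 251)))) q22056 (by decide +kernel)
def q22078 : Q := Q.p (nat_lit 0x100000e00000000000000008000000000000000000000000000000000000000000000000000) (nat_lit 0xc0003000000c00002000000000000000000000000000000000000000000000000000000000) (nat_lit 4)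
theorem c22078 : QOK q22078 := cut [q22077] ⟨c22077, trivial⟩ (nd (nat_lit 251) (nat_lit 0) (cs (lf (nat_lit 25) (nat_lit 207)) (rf (nat_lit 0)))) q22078 (by decide +kernel)
def q22085 : Q := Q.p (nat_lit 0x300000c00000000000000038000000000000000000000000000000000000000000000000000) (nat_lit 0x80007000008000071c000c600039c000000000000000000000000000000000000000000000) (nat_lit 8)
theorem c22085 : QOK q22085 := cut [q117, q15728] ⟨c117, c15728, trivial⟩ (nd (nat_lit 206) (nat_lit 0) (cs (rf (nat_lit 0)) (nd (nat_lit 188) (nat_lit 0) (cs (lf (nat_lit 16) (nat_lit 184)) (nd (nat_lit 210) (nat_lit 0) (cs (lf (nat_lit 17) (nat_lit 185)) (nd (nat_lit 233) (nat_lit 0) (cs (lf (nat_lit 4) (nat_lit 207)) (nd (nat_lit 211) (nat_lit 0) (cs (lf (nat_lit 5) (nat_lit 208)) (nd (nat_lit 277) (nat_lit 0) (cs (lf (nat_lit 43) (nat_lit 188)) (rf (nat_lit 1)))))))))))))) q22085 (by decide +kernel)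
def q22089 : Q := Q.p (nat_lit 0x100000600000000000000038000000000000000000000000000000000000000000000000000) (nat_lit 0x8000030000440003b8000000000000000000000000000000000000000000000) (nat_lit 6)
theorem c22089 : QOK q22089 := cut [q22087] ⟨c22087, trivial⟩ (nd (nat_lit 229) (nat_lit 0) (cs (lf (nat_lit 26) (nat_lit 207)) (nd (nat_lit 210) (nat_lit 0) (cs (lf (nat_lit 11) (nat_lit 206)) (rf (nat_lit 0)))))) q22089 (by decide +kernel)
def q22118 : Q := Q.p (nat_lit 0x1e00000000000000000000000000000000000000000000000000000000000000000000) (nat_lit 0x1dc0002000000000000000000000000000000000000000000000000000000000000000000000) (nat_lit 4)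
theorem c22118 : QOK q22118 := cut [q22117] ⟨c22117, trivial⟩ (nd (nat_lit 295) (nat_lit 0) (cs (lf (nat_lit 11) (nat_lit 272)) (rf (nat_lit 0)))) q22118 (by decide +kernel)
def q22120 : Q := Q.p (nat_lit 0xe00000400000000000000000000000000000000000000000000000000000000000000) (nat_lit 0x200000e0001100000200001000004000000000000000000000000000000000000000000000000000) (nat_lit 5)
theorem c22120 : QOK q22120 := cut [q14706] ⟨c14706, trivial⟩ (nd (nat_lit 272) (nat_lit 0) (cs (lf (nat_lit 23) (nat_lit 249)) (rf (nat_lit 0)))) q22120 (by decide +kernel)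
def q22127 : Q := Q.p (nat_lit 0x80000f00000400000000000000000000000000000000000000000000000000000000000000) (nat_lit 0x1700000e00009c0000000000000000000000000000000000000000000000000000000000000) (nat_lit 6)
theorem c22127 : QOK q22127 := cut [q22124] ⟨c22124, trivial⟩ (nd (nat_lit 293) (nat_lit 0) (cs (lf (nat_lit 10) (nat_lit 271)) (nd (nat_lit 271) (nat_lit 0) (cs (lf (nat_lit 11) (nat_lit 270)) (nd (nat_lit 270) (nat_lit 0) (cs (lf (nat_lit 5) (nat_lit 270)) (rf (nat_lit 0)))))))) q22127 (by decide +kernel)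
def q22133 : Q := Q.p (nat_lit 0x80000e00000000000000000000000000000000000000000000000000000000000000000000) (nat_lit 0x1d40003000000000000000000000000000000000000000000000000000000000000000000000) (nat_lit 4)
theorem c22133 : QOK q22133 := cut [q22117] ⟨c22117, trivial⟩ (nd (nat_lit 276) (nat_lit 0) (cs (lf (nat_lit 11) (nat_lit 272)) (rf (nat_lit 0)))) q22133 (by decide +kernel)
def q22145 : Q := Q.p (nat_lit 0xe00002000008000010000000000000000000000000000000000000000000000000000) (nat_lit 0x670000180000700014000040000000000000000000000000000000000000000000000000000) (nat_lit 7)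
theorem c22145 : QOK q22145 := cut [q22143] ⟨c22143, trivial⟩ (nd (nat_lit 297) (nat_lit 0) (cs (lf (nat_lit 46) (nat_lit 208)) (nd (nat_lit 210) (nat_lit 0) (cs (lf (nat_lit 34) (nat_lit 209)) (rf (nat_lit 0)))))) q22145 (by decide +kernel)
def q22155 : Q := Q.p (nat_lit 0x20000070000000000000000000000000000000000000000000000000000) (nat_lit 0x1380000c000038000000000000000000000000000000000000000000000) (nat_lit 5)
theorem c22155 : QOK q22155 := cut [q186] ⟨c186, trivial⟩ (nd (nat_lit 207) (nat_lit 0) (cs (lf (nat_lit 4) (nat_lit 207)) (rf (nat_lit 0)))) q22155 (by decide +kernel)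
def q22171 : Q := Q.p (nat_lit 0x3c00000000000000000000000000000000000000000000000000000000000000000000) (nat_lit 0x1ce0000300000e00000000000000000000000000000000000000000000000000000000000000) (nat_lit 6)
theorem c22171 : QOK q22171 := cut [q15625] ⟨c15625, trivial⟩ (nd (nat_lit 299) (nat_lit 0) (cs (lf (nat_lit 5) (nat_lit 274)) (nd (nat_lit 273) (nat_lit 0) (cs (lf (nat_lit 4) (nat_lit 273)) (rf (nat_lit 0)))))) q22171 (by decide +kernel)
def q22191 : Q := Q.p (nat_lit 0x40000100000c000010000000000000000000000000000000000000000000000000000) (nat_lit 0x3200000e000020000000000000000000000000000000000000000000000) (nat_lit 4)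
theorem c22191 : QOK q22191 := cut [q6938] ⟨c6938, trivial⟩ (nd (nat_lit 207) (nat_lit 0) (cs (lf (nat_lit 47) (nat_lit 185)) (rf (nat_lit 0)))) q22191 (by decide +kernel)
def q22222 : Q := Q.p (nat_lit 0xe0000300000c000000000000000000000000000000000000000000000000000000000) (nat_lit 0x60001180000e00003800006000018000000000000000000000000000000000000000000000) (nat_lit 8)
theorem c22222 : QOK q22222 := cut [q22218] ⟨c22218, trivial⟩ (nd (nat_lit 272) (nat_lit 0) (cs (lf (nat_lit 12) (nat_lit 249)) (nd (nat_lit 293) (nat_lit 0) (cs (lf (nat_lit 10) (nat_lit 271)) (nd (nat_lit 250) (nat_lit 0) (cs (lf (nat_lit 23) (nat_lit 249)) (nd (nat_lit 251) (nat_lit 0) (cs (lf (nat_lit 18) (nat_lit 250)) (rf (nat_lit 0)))))))))) q22222 (by decide +kernel)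
def q22236 : Q := Q.p (nat_lit 0xc00003000008000020000000000000000000000000000000000000000000000000000) (nat_lit 0x400007000000800000000040000100000000000000000000000000000000000000000000000) (nat_lit 4)
theorem c22236 : QOK q22236 := cut [q1258] ⟨c1258, trivial⟩ (nd (nat_lit 188) (nat_lit 0) (cs (rf (nat_lit 0)) (lf (nat_lit 34) (nat_lit 187)))) q22236 (by decide +kernel)
def q22241 : Q := Q.p (nat_lit 0x200003c000000000000000000000000000000000000000000000000000000000) (nat_lit 0x20000180000020001c0000100000400000000000000000000000000000000000000000) (nat_lit 5)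
theorem c22241 : QOK q22241 := cut [q22240] ⟨c22240, trivial⟩ (nd (nat_lit 255) (nat_lit 0) (cs (lf (nat_lit 5) (nat_lit 230)) (rf (nat_lit 0)))) q22241 (by decide +kernel)
def q22242 : Q := Q.p (nat_lit 0xe0000300000c000030000000000000000000000000000000000000000000000000000) (nat_lit 0x1800000000020001c0000100000000000000000000000000000000000000000000000) (nat_lit 4)
theorem c22242 : QOK q22242 := cut [q1402] ⟨c1402, trivial⟩ (nd (nat_lit 271) (nat_lit 0) (cs (lf (nat_lit 13) (nat_lit 249)) (rf (nat_lit 0)))) q22242 (by decide +kernel)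
def q22270 : Q := Q.p (nat_lit 0xc00003000008000000000000000000000000000000000000000000000000000000000) (nat_lit 0x400003000000c00000000020000080000000000000000000000000000000000000000000000) (nat_lit 4)
theorem c22270 : QOK q22270 := cut [q721] ⟨c721, trivial⟩ (nd (nat_lit 209) (nat_lit 0) (cs (lf (nat_lit 36) (nat_lit 186)) (rf (nat_lit 0)))) q22270 (by decide +kernel)
def q22271 : Q := Q.p (nat_lit 0x40000100000c000010000000000000000000000000000000000000000000000000000) (nat_lit 0x3200000e000020000000000000000000000000000000000000000000000) (nat_lit 4)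
theorem c22271 : QOK q22271 := cut [q3988] ⟨c3988, trivial⟩ (nd (nat_lit 207) (nat_lit 0) (cs (lf (nat_lit 47) (nat_lit 185)) (rf (nat_lit 0)))) q22271 (by decide +kernel)
def q22279 : Q := Q.p (nat_lit 0x200000c00002000008000000000000000000000000000000000000000000000000000000000) (nat_lit 0x400003000001c00010000060000180000000000000000000000000000000000000000000000) (nat_lit 6)
theorem c22279 : QOK q22279 := cut [q2205] ⟨c2205, trivial⟩ (nd (nat_lit 210) (nat_lit 0) (cs (lf (nat_lit 34) (nat_lit 209)) (nd (nat_lit 209) (nat_lit 0) (cs (lf (nat_lit 35) (nat_lit 187)) (nd (nat_lit 276) (nat_lit 0) (cs (lf (nat_lit 29) (nat_lit 209)) (rf (nat_lit 0)))))))) q22279 (by decide +kernel)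
def q22284 : Q := Q.p (nat_lit 0xc00003000008000020000000000000000000000000000000000000000000000000000) (nat_lit 0x400003000000c00000000040000100000000000000000000000000000000000000000000000) (nat_lit 4)
theorem c22284 : QOK q22284 := cut [q721] ⟨c721, trivial⟩ (nd (nat_lit 188) (nat_lit 0) (cs (rf (nat_lit 0)) (lf (nat_lit 34) (nat_lit 187)))) q22284 (by decide +kernel)
def q22295 : Q := Q.p (nat_lit 0xc00003000004000010000000000000000000000000000000000000000000000000000) (nat_lit 0x1000004000010000000000000000a000008000020000000000000000000000000000000000000000000000) (nat_lit 4)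
theorem c22295 : QOK q22295 := cut [q22294] ⟨c22294, trivial⟩ (nd (nat_lit 207) (nat_lit 0) (cs (lf (nat_lit 47) (nat_lit 185)) (rf (nat_lit 0)))) q22295 (by decide +kernel)
def q22299 : Q := Q.p (nat_lit 0x400001e00003000000000000000000000000000000000000000000000000000000000000000) (nat_lit 0xe0000180000000008000020000000000000000000000000000000000000000000000000000) (nat_lit 4)
theorem c22299 : QOK q22299 := cut [q2182] ⟨c2182, trivial⟩ (nd (nat_lit 209) (nat_lit 0) (cs (lf (nat_lit 25) (nat_lit 209)) (rf (nat_lit 0)))) q22299 (by decide +kernel)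
def q22305 : Q := Q.p (nat_lit 0x80000600001800000000000000000000000000000000000000000000000000000000000000) (nat_lit 0x1800006000010000000000000000300000c000030000000000000000000000000000000000000000000000) (nat_lit 6)
theorem c22305 : QOK q22305 := cut [q22302] ⟨c22302, trivial⟩ (nd (nat_lit 317) (nat_lit 0) (cs (lf (nat_lit 30) (nat_lit 251)) (nd (nat_lit 318) (nat_lit 0) (cs (lf (nat_lit 29) (nat_lit 251)) (nd (nat_lit 229) (nat_lit 0) (cs (lf (nat_lit 28) (nat_lit 229)) (rf (nat_lit 0)))))))) q22305 (by decide +kernel)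
def q22319 : Q := Q.p (nat_lit 0xe00003000000000010000000000000000000000000000000000000000000000000000) (nat_lit 0x1cc0007180000000004000000000000000000000000000000000000000000000000000000000) (nat_lit 6)
theorem c22319 : QOK q22319 := cut [q1310] ⟨c1310, trivial⟩ (nd (nat_lit 295) (nat_lit 0) (cs (lf (nat_lit 37) (nat_lit 207)) (nd (nat_lit 271) (nat_lit 0) (cs (lf (nat_lit 13) (nat_lit 249)) (nd (nat_lit 276) (nat_lit 0) (cs (rf (nat_lit 0)) (lf (nat_lit 11) (nat_lit 272)))))))) q22319 (by decide +kernel)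
def q22352 : Q := Q.p (nat_lit 0xc00003000004000008000000000000000000000000000000000000000000000000000) (nat_lit 0x18000060000180000000000000002000000000000000000000000000000000000000000000000000000000) (nat_lit 4)
theorem c22352 : QOK q22352 := cut [q22351] ⟨c22351, trivial⟩ (nd (nat_lit 296) (nat_lit 0) (cs (lf (nat_lit 46) (nat_lit 207)) (rf (nat_lit 0)))) q22352 (by decide +kernel)
def q22377 : Q := Q.p (nat_lit 0x1c00002000000000000000000000000000000000000000000000000000000000000000) (nat_lit 0x3c00006200039c00000000000000000000000000000000000000000000000000000000000000) (nat_lit 5)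
theorem c22377 : QOK q22377 := cut [q13254, q22169, q22188] ⟨c13254, c22169, c22188, trivial⟩ (nd (nat_lit 277) (nat_lit 0) (cs (rf (nat_lit 0)) (cs (rf (nat_lit 1)) (rf (nat_lit 2))))) q22377 (by decide +kernel)
def q22386 : Q := Q.p (nat_lit 0x100001c00002000000000000000000000000000000000000000000000000000000000000000) (nat_lit 0x1e80006380018e00008000020000000000000000000000000000000000000000000000000000) (nat_lit 9)
theorem c22386 : QOK q22386 := cut [q12868] ⟨c12868, trivial⟩ (nd (nat_lit 277) (nat_lit 0) (cs (lf (nat_lit 11) (nat_lit 273)) (nd (nat_lit 255) (nat_lit 0) (cs (lf (nat_lit 17) (nat_lit 252)) (nd (nat_lit 299) (nat_lit 0) (cs (lf (nat_lit 5) (nat_lit 274)) (nd (nat_lit 273) (nat_lit 0) (cs (lf (nat_lit 4) (nat_lit 273)) (nd (nat_lit 209) (nat_lit 0) (cs (lf (nat_lit 37) (nat_lit 208)) (nd (nat_lit 297) (nat_lit 0) (cs (lf (nat_lit 6) (nat_lit 274)) (rf (nat_lit 0)))))))))))))) q22386 (by decide +kernel)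
def q22404 : Q := Q.p (nat_lit 0xc00003000000000010000000000000000000000000000000000000000000000000000) (nat_lit 0x400003e0001380000e0001f800006000018000000000000000000000000000000000000000000000) (nat_lit 12)
theorem c22404 : QOK q22404 := cut [q22218] ⟨c22218, trivial⟩ (nd (nat_lit 230) (nat_lit 0) (cs (lf (nat_lit 29) (nat_lit 208)) (nd (nat_lit 273) (nat_lit 0) (cs (lf (nat_lit 41) (nat_lit 207)) (nd (nat_lit 272) (nat_lit 0) (cs (lf (nat_lit 12) (nat_lit 249)) (nd (nat_lit 250) (nat_lit 0) (cs (lf (nat_lit 23) (nat_lit 249)) (nd (nat_lit 293) (nat_lit 0) (cs (lf (nat_lit 10) (nat_lit 271)) (nd (nat_lit 251) (nat_lit 0) (cs (lf (nat_lit 5) (nat_lit 250)) (nd (nat_lit 231) (nat_lit 0) (cs (lf (nat_lit 17) (nat_lit 228)) (nd (nat_lit 296) (nat_lit 0) (cs (lf (nat_lit 30) (nat_lit 230)) (rf (nat_lit 0)))))))))))))))))) q22404 (by decide +kernel)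
def q22458 : Q := Q.p (nat_lit 0x800002000010000040000000000000000000000000000000000000000000000000000000000) (nat_lit 0x4000008000000000100000e0000380000a000000000000000000000000000000000000) (nat_lit 6)
theorem c22458 : QOK q22458 := cut [q22455] ⟨c22455, trivial⟩ (nd (nat_lit 212) (nat_lit 0) (cs (nd (nat_lit 190) (nat_lit 0) (cs (lf (nat_lit 40) (nat_lit 189)) (rf (nat_lit 0)))) (lf (nat_lit 39) (nat_lit 211)))) q22458 (by decide +kernel)
def q22486 : Q := Q.p (nat_lit 0xc00002000004000030000000000000000000000000000000000000000000000000000) (nat_lit 0x10000000000000000a0001c0000100000000000000000000000000000000000000000000000) (nat_lit 4)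
theorem c22486 : QOK q22486 := cut [q1402] ⟨c1402, trivial⟩ (nd (nat_lit 231) (nat_lit 0) (cs (lf (nat_lit 41) (nat_lit 208)) (rf (nat_lit 0)))) q22486 (by decide +kernel)
def q22499 : Q := Q.p (nat_lit 0x480000600001800000000000000000000000000000000000000000000000000000000000000) (nat_lit 0x1c0000f0000300000000000000000000000000000000000000000000000000000000000000000000000000) (nat_lit 5)
theorem c22499 : QOK q22499 := cut [q22498] ⟨c22498, trivial⟩ (nd (nat_lit 317) (nat_lit 0) (cs (lf (nat_lit 30) (nat_lit 251)) (rf (nat_lit 0)))) q22499 (by decide +kernel)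
def q22507 : Q := Q.p (nat_lit 0xc00003000004000010000000000000000000000000000000000000000000000000000) (nat_lit 0x500003000000c00008000020000080000000000000000000000000000000000000000000000) (nat_lit 5)
theorem c22507 : QOK q22507 := cut [q721] ⟨c721, trivial⟩ (nd (nat_lit 209) (nat_lit 0) (cs (lf (nat_lit 35) (nat_lit 186)) (nd (nat_lit 231) (nat_lit 0) (cs (lf (nat_lit 30) (nat_lit 208)) (rf (nat_lit 0)))))) q22507 (by decide +kernel)
def q22510 : Q := Q.p (nat_lit 0xc00003000004000010000000000000000000000000000000000000000000000000000) (nat_lit 0x10000000000000000a0001e0000180000000000000000000000000000000000000000000000) (nat_lit 5)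
theorem c22510 : QOK q22510 := cut [q1402] ⟨c1402, trivial⟩ (nd (nat_lit 209) (nat_lit 0) (cs (lf (nat_lit 35) (nat_lit 186)) (nd (nat_lit 231) (nat_lit 0) (cs (lf (nat_lit 30) (nat_lit 208)) (rf (nat_lit 0)))))) q22510 (by decide +kernel)
def q22523 : Q := Q.p (nat_lit 0xe00000800002000008000000000000000000000000000000000000000000000000000000000) (nat_lit 0x1000001700000000010000040000000000000000000000000000000000000000000000000000) (nat_lit 4)
theorem c22523 : QOK q22523 := cut [q11531] ⟨c11531, trivial⟩ (nd (nat_lit 210) (nat_lit 0) (cs (lf (nat_lit 34) (nat_lit 209)) (rf (nat_lit 0)))) q22523 (by decide +kernel)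
def q22525 : Q := Q.p (nat_lit 0xf00000000000000000000000000000000000000000000000000000000000000000000000000) (nat_lit 0x600000080007700000000000000000000000000000000000000000000000000000000000000000000) (nat_lit 5)
theorem c22525 : QOK q22525 := cut [q11631] ⟨c11631, trivial⟩ (nd (nat_lit 273) (nat_lit 0) (cs (lf (nat_lit 22) (nat_lit 273)) (nd (nat_lit 321) (nat_lit 0) (cs (lf (nat_lit 5) (nat_lit 296)) (rf (nat_lit 0)))))) q22525 (by decide +kernel)
def q22531 : Q := Q.p (nat_lit 0xf00000800000000000000000000000000000000000000000000000000000000000000000000) (nat_lit 0xe00003080007000000000000000000000000000000000000000000000000000000000000000000000) (nat_lit 5)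
theorem c22531 : QOK q22531 := cut [q22529] ⟨c22529, trivial⟩ (nd (nat_lit 277) (nat_lit 0) (cs (lf (nat_lit 17) (nat_lit 274)) (nd (nat_lit 276) (nat_lit 0) (cs (lf (nat_lit 12) (nat_lit 273)) (rf (nat_lit 0)))))) q22531 (by decide +kernel)
def q22545 : Q := Q.p (nat_lit 0x200001e000010000000000000000000000000000000000000000000000000000) (nat_lit 0x1380001c0000f000000000000000000000000000000000000000000000000000) (nat_lit 5)
theorem c22545 : QOK q22545 := cut [q22541, q3095, q22544] ⟨c22541, c3095, c22544, trivial⟩ (nd (nat_lit 228) (nat_lit 0) (cs (rf (nat_lit 0)) (cs (nd (nat_lit 227) (nat_lit 0) (cs (rf (nat_lit 1)) (lf (nat_lit 4) (nat_lit 227)))) (rf (nat_lit 2))))) q22545 (by decide +kernel)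
def q22546 : Q := Q.p (nat_lit 0x240000e000000000000000000000000000000000000000000000000000000000) (nat_lit 0x1200001800007000000000000000000000000000000000000000000000000000) (nat_lit 4)
theorem c22546 : QOK q22546 := cut [q22544] ⟨c22544, trivial⟩ (nd (nat_lit 228) (nat_lit 0) (cs (lf (nat_lit 11) (nat_lit 227)) (rf (nat_lit 0)))) q22546 (by decide +kernel)
def q22555 : Q := Q.p (nat_lit 0x200001e000010000000000000000000000000000000000000000000000000000) (nat_lit 0x1e00001c0000b800000000000000000000000000000000000000000000000000) (nat_lit 6)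
theorem c22555 : QOK q22555 := cut [q22552] ⟨c22552, trivial⟩ (nd (nat_lit 250) (nat_lit 0) (cs (lf (nat_lit 10) (nat_lit 228)) (nd (nat_lit 228) (nat_lit 0) (cs (lf (nat_lit 11) (nat_lit 227)) (nd (nat_lit 227) (nat_lit 0) (cs (lf (nat_lit 4) (nat_lit 227)) (rf (nat_lit 0)))))))) q22555 (by decide +kernel)
def q22627 : Q := Q.p (nat_lit 0x78000000000000000000000000000000000000000000000000000) (nat_lit 0x70000080000700000000000000000000000000000000000000000000000) (nat_lit 4)
theorem c22627 : QOK q22627 := cut [q143] ⟨c143, trivial⟩ (nd (nat_lit 233) (nat_lit 0) (cs (lf (nat_lit 4) (nat_lit 207)) (rf (nat_lit 0)))) q22627 (by decide +kernel)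
def q22657 : Q := Q.p (nat_lit 0x1c00002000000000000000000000000000000000000000000000000000000000000000) (nat_lit 0x100003c00006200039800020000080000000000000000000000000000000000000000000000000000) (nat_lit 7)
theorem c22657 : QOK q22657 := cut [q13254, q22188, q14688] ⟨c13254, c22188, c14688, trivial⟩ (nd (nat_lit 277) (nat_lit 0) (cs (rf (nat_lit 0)) (cs (rf (nat_lit 1)) (nd (nat_lit 251) (nat_lit 0) (cs (lf (nat_lit 22) (nat_lit 251)) (rf (nat_lit 2))))))) q22657 (by decide +kernel)
def q22710 : Q := Q.p (nat_lit 0x1e00002000000000000000000000000000000000000000000000000000000000000000) (nat_lit 0x1c0006000039c00000000000000000000000000000000000000000000000000000000000000) (nat_lit 6)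
theorem c22710 : QOK q22710 := cut [q14654] ⟨c14654, trivial⟩ (nd (nat_lit 295) (nat_lit 0) (cs (lf (nat_lit 11) (nat_lit 272)) (nd (nat_lit 250) (nat_lit 0) (cs (lf (nat_lit 22) (nat_lit 250)) (rf (nat_lit 0)))))) q22710 (by decide +kernel)
def q22729 : Q := Q.p (nat_lit 0x18000020000180000e00002000000000000000000000000000000000000000000000000000000000000000) (nat_lit 0x1000064000198000c00003000000800000000000000000000000000000000000000000000000000000000000000) (nat_lit 7)
theorem c22729 : QOK q22729 := cut [q22726] ⟨c22726, trivial⟩ (nd (nat_lit 276) (nat_lit 0) (cs (lf (nat_lit 6) (nat_lit 273)) (nd (nat_lit 298) (nat_lit 0) (cs (lf (nat_lit 5) (nat_lit 273)) (nd (nat_lit 320) (nat_lit 0) (cs (lf (nat_lit 42) (nat_lit 253)) (rf (nat_lit 0)))))))) q22729 (by decide +kernel)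
def q22744 : Q := Q.p (nat_lit 0x78000000000000000000000000000000000000000000000000000000000000000000000000000000000000) (nat_lit 0xe7000180000e00000000000000000000000000000000000000000000000000000000000000000000000000000000) (nat_lit 6)
theorem c22744 : QOK q22744 := cut [q15565] ⟨c15565, trivial⟩ (nd (nat_lit 361) (nat_lit 0) (cs (lf (nat_lit 11) (nat_lit 338)) (nd (nat_lit 343) (nat_lit 0) (cs (lf (nat_lit 10) (nat_lit 339)) (nd (nat_lit 366) (nat_lit 0) (cs (lf (nat_lit 4) (nat_lit 340)) (rf (nat_lit 0)))))))) q22744 (by decide +kernel)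
def q22752 : Q := Q.p (nat_lit 0x78000000000000000000000000000000000000000000000000000000000000000000000000000000000000) (nat_lit 0x39c0000600001c000000000000000000000000000000000000000000000000000000000000000000000000000000) (nat_lit 6)
theorem c22752 : QOK q22752 := cut [q22750] ⟨c22750, trivial⟩ (nd (nat_lit 364) (nat_lit 0) (cs (lf (nat_lit 5) (nat_lit 339)) (nd (nat_lit 338) (nat_lit 0) (cs (lf (nat_lit 4) (nat_lit 338)) (rf (nat_lit 0)))))) q22752 (by decide +kernel)
def q22793 : Q := Q.p (nat_lit 0x100001e00002000000000000000000000000000000000000000000000000000000000000000) (nat_lit 0xf00001c0001380000000000000000000000000000000000000000000000000000000000000) (nat_lit 5)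
theorem c22793 : QOK q22793 := cut [q1208, q22195, q22714] ⟨c1208, c22195, c22714, trivial⟩ (nd (nat_lit 272) (nat_lit 0) (cs (rf (nat_lit 0)) (cs (rf (nat_lit 1)) (rf (nat_lit 2))))) q22793 (by decide +kernel)
def q22802 : Q := Q.p (nat_lit 0xe00002000000000000000000000000000000000000000000000000000000000000000) (nat_lit 0x1cf0007180039700000000000000000000000000000000000000000000000000000000000000) (nat_lit 9)
theorem c22802 : QOK q22802 := cut [q12673, q13256, q22195, q22798] ⟨c12673, c13256, c22195, c22798, trivial⟩ (nd (nat_lit 272) (nat_lit 0) (cs (rf (nat_lit 0)) (cs (rf (nat_lit 1)) (cs (rf (nat_lit 2)) (nd (nat_lit 249) (nat_lit 0) (cs (lf (nat_lit 22) (nat_lit 249)) (nd (nat_lit 294) (nat_lit 0) (cs (lf (nat_lit 11) (nat_lit 271)) (nd (nat_lit 276) (nat_lit 0) (cs (lf (nat_lit 10) (nat_lit 272)) (rf (nat_lit 3)))))))))))) q22802 (by decide +kernel)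
def q22817 : Q := Q.p (nat_lit 0xf00000400001000000000000000000000000000000000000000000000000000000000) (nat_lit 0x6000000000000000280000e000028000000000000000000000000000000000000000000000) (nat_lit 5)
theorem c22817 : QOK q22817 := cut [q22816] ⟨c22816, trivial⟩ (nd (nat_lit 294) (nat_lit 0) (cs (lf (nat_lit 11) (nat_lit 271)) (rf (nat_lit 0)))) q22817 (by decide +kernel)
def q22912 : Q := Q.p (nat_lit 0x200000c00002000000000000000000000000000000000000000000000000000000000000000) (nat_lit 0x40000700001e0001c00000000001000018000060000180000000000000000000000000000000000000000000000) (nat_lit 7)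
theorem c22912 : QOK q22912 := cut [q15709, q22906, q22910] ⟨c15709, c22906, c22910, trivial⟩ (nd (nat_lit 319) (nat_lit 0) (cs (rf (nat_lit 0)) (cs (rf (nat_lit 1)) (nd (nat_lit 252) (nat_lit 0) (cs (lf (nat_lit 42) (nat_lit 252)) (rf (nat_lit 2))))))) q22912 (by decide +kernel)
def q22940 : Q := Q.p (nat_lit 0x340000d00002400000000000000000000000000000000000000000000000000000000000000) (nat_lit 0x1000000000000000180001b000068000020000000000000000000000000000000000000000000000) (nat_lit 6)
theorem c22940 : QOK q22940 := cut [q22937] ⟨c22937, trivial⟩ (nd (nat_lit 231) (nat_lit 0) (cs (lf (nat_lit 36) (nat_lit 208)) (nd (nat_lit 232) (nat_lit 0) (cs (lf (nat_lit 35) (nat_lit 209)) (nd (nat_lit 251) (nat_lit 0) (cs (lf (nat_lit 14) (nat_lit 228)) (rf (nat_lit 0)))))))) q22940 (by decide +kernel)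
def q22945 : Q := Q.p (nat_lit 0x40000100000400001000030000000000000000000000000000000000000000000000000000) (nat_lit 0x80000200000000000000720000cc000730000000000000000000000000000000000000000000000) (nat_lit 8)
theorem c22945 : QOK q22945 := cut [q139] ⟨c139, trivial⟩ (nd (nat_lit 207) (nat_lit 0) (cs (lf (nat_lit 34) (nat_lit 206)) (nd (nat_lit 185) (nat_lit 0) (cs (lf (nat_lit 33) (nat_lit 184)) (nd (nat_lit 293) (nat_lit 0) (cs (lf (nat_lit 41) (nat_lit 227)) (nd (nat_lit 210) (nat_lit 0) (cs (lf (nat_lit 23) (nat_lit 184)) (rf (nat_lit 0)))))))))) q22945 (by decide +kernel)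
def q22948 : Q := Q.p (nat_lit 0x40000100000400001000000000000000000000000000000000000000000000000000000000) (nat_lit 0x8000020000080000000000800006000008000000000000000000000000000000000000000000000) (nat_lit 4)
theorem c22948 : QOK q22948 := cut [q22947] ⟨c22947, trivial⟩ (nd (nat_lit 293) (nat_lit 0) (cs (lf (nat_lit 41) (nat_lit 227)) (rf (nat_lit 0)))) q22948 (by decide +kernel)
def q22961 : Q := Q.p (nat_lit 0x40000d00000400000000000000000000000000000000000000000000000000000000000000) (nat_lit 0xa000038000020000000001a0000380000a000000000000000000000000000000000000000000000000000) (nat_lit 6)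
theorem c22961 : QOK q22961 := cut [q22951, q22953, q22956, q14123] ⟨c22951, c22953, c22956, c14123, trivial⟩ (nd (nat_lit 316) (nat_lit 0) (cs (rf (nat_lit 0)) (cs (nd (nat_lit 317) (nat_lit 0) (cs (lf (nat_lit 29) (nat_lit 250)) (rf (nat_lit 1)))) (cs (nd (nat_lit 315) (nat_lit 0) (cs (lf (nat_lit 41) (nat_lit 249)) (nd (nat_lit 317) (nat_lit 0) (cs (lf (nat_lit 29) (nat_lit 250)) (rf (nat_lit 2)))))) (nd (nat_lit 227) (nat_lit 0) (cs (lf (nat_lit 46) (nat_lit 227)) (nd (nat_lit 317) (nat_lit 0) (cs (lf (nat_lit 29) (nat_lit 250)) (rf (nat_lit 3)))))))))) q22961 (by decide +kernel)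
def q22971 : Q := Q.p (nat_lit 0x40000100000400001000000000000000000000000000000000000000000000000000000000) (nat_lit 0x20000380000e000038000020000080000200000800002000000000000000000000000000000000000000000000000000) (nat_lit 8)
theorem c22971 : QOK q22971 := cut [q22967] ⟨c22967, trivial⟩ (nd (nat_lit 293) (nat_lit 0) (cs (lf (nat_lit 41) (nat_lit 227)) (nd (nat_lit 227) (nat_lit 0) (cs (lf (nat_lit 47) (nat_lit 205)) (nd (nat_lit 316) (nat_lit 0) (cs (lf (nat_lit 46) (nat_lit 227)) (nd (nat_lit 339) (nat_lit 0) (cs (lf (nat_lit 28) (nat_lit 250)) (rf (nat_lit 0)))))))))) q22971 (by decide +kernel)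
def q23013 : Q := Q.p (nat_lit 0x380000600000000000000000000000000000000000000000000000000000000000000000000) (nat_lit 0x2000008000030000c00000000001000000000000000000000000000000000000000000000000000000000000000) (nat_lit 4)
theorem c23013 : QOK q23013 := cut [q11701] ⟨c11701, trivial⟩ (nd (nat_lit 298) (nat_lit 0) (cs (lf (nat_lit 18) (nat_lit 273)) (rf (nat_lit 0)))) q23013 (by decide +kernel)
def q23015 : Q := Q.p (nat_lit 0x380000e00000000000000000000000000000000000000000000000000000000000000000000) (nat_lit 0x8000020000000000180000e00001000004000000000000000000000000000000000000000000000000000) (nat_lit 5)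
theorem c23015 : QOK q23015 := cut [q22121] ⟨c22121, trivial⟩ (nd (nat_lit 272) (nat_lit 0) (cs (lf (nat_lit 0) (nat_lit 271)) (nd (nat_lit 250) (nat_lit 0) (cs (lf (nat_lit 23) (nat_lit 249)) (rf (nat_lit 0)))))) q23015 (by decide +kernel)
def q23100 : Q := Q.p (nat_lit 0x10000040000100000400000000000000000000000000000000000000000000000000000000000000) (nat_lit 0x40000300000e000028000020000080000000001000000000000000000000000000000000000000000000000000000000) (nat_lit 6)
theorem c23100 : QOK q23100 := cut [q23098] ⟨c23098, trivial⟩ (nd (nat_lit 315) (nat_lit 0) (cs (lf (nat_lit 41) (nat_lit 249)) (nd (nat_lit 293) (nat_lit 0) (cs (lf (nat_lit 36) (nat_lit 227)) (rf (nat_lit 0)))))) q23100 (by decide +kernel)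
def q23168 : Q := Q.p (nat_lit 0x100001e00002000000000000000000000000000000000000000000000000000000000000000) (nat_lit 0xb80001c0001e00000000000000000000000000000000000000000000000000000000000000) (nat_lit 6)
theorem c23168 : QOK q23168 := cut [q11959] ⟨c11959, trivial⟩ (nd (nat_lit 250) (nat_lit 0) (cs (lf (nat_lit 22) (nat_lit 250)) (nd (nat_lit 272) (nat_lit 0) (cs (lf (nat_lit 23) (nat_lit 249)) (nd (nat_lit 271) (nat_lit 0) (cs (lf (nat_lit 16) (nat_lit 249)) (rf (nat_lit 0)))))))) q23168 (by decide +kernel)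
def q23173 : Q := Q.p (nat_lit 0x1e00002000000000000000000000000000000000000000000000000000000000000000) (nat_lit 0xe00000180001700000000000000000000000000000000000000000000000000000000000000) (nat_lit 5)
theorem c23173 : QOK q23173 := cut [q13256] ⟨c13256, trivial⟩ (nd (nat_lit 298) (nat_lit 0) (cs (lf (nat_lit 5) (nat_lit 273)) (nd (nat_lit 272) (nat_lit 0) (cs (lf (nat_lit 4) (nat_lit 272)) (rf (nat_lit 0)))))) q23173 (by decide +kernel)
def q23283 : Q := Q.p (nat_lit 0xf00000000000000000000000000000000000000000000000000000000000000000000) (nat_lit 0xee0001000000000000000000000000000000000000000000000000000000000000000000000) (nat_lit 4)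
theorem c23283 : QOK q23283 := cut [q23282] ⟨c23282, trivial⟩ (nd (nat_lit 294) (nat_lit 0) (cs (lf (nat_lit 11) (nat_lit 271)) (rf (nat_lit 0)))) q23283 (by decide +kernel)
def q23286 : Q := Q.p (nat_lit 0x1e00000000000000000000000000000000000000000000000000000000000000000000) (nat_lit 0x39c0006000038000000000000000000000000000000000000000000000000000000000000000) (nat_lit 6)
theorem c23286 : QOK q23286 := cut [q22188] ⟨c22188, trivial⟩ (nd (nat_lit 295) (nat_lit 0) (cs (lf (nat_lit 11) (nat_lit 272)) (nd (nat_lit 277) (nat_lit 0) (cs (lf (nat_lit 10) (nat_lit 273)) (rf (nat_lit 0)))))) q23286 (by decide +kernel)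
def q23328 : Q := Q.p (nat_lit 0x80000200000c00002000000000000000000000000000000000000000000000000000000000000000) (nat_lit 0x18000060000140000100000000000000008000020000000000000000000000000000000000000000000000000000) (nat_lit 5)
theorem c23328 : QOK q23328 := cut [q11604] ⟨c11604, trivial⟩ (nd (nat_lit 342) (nat_lit 0) (cs (lf (nat_lit 28) (nat_lit 253)) (nd (nat_lit 341) (nat_lit 0) (cs (lf (nat_lit 29) (nat_lit 275)) (rf (nat_lit 0)))))) q23328 (by decide +kernel)
def q23372 : Q := Q.p (nat_lit 0x80000200000800002000000000000000000000000000000000000000000000000000000000000000) (nat_lit 0x100000700001c000070000100000500001400000000000000000000000000000000000000000000000000000000000000000000) (nat_lit 8)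
theorem c23372 : QOK q23372 := cut [q2609, q23362, q23370, q21912] ⟨c2609, c23362, c23370, c21912, trivial⟩ (nd (nat_lit 341) (nat_lit 0) (cs (rf (nat_lit 0)) (cs (nd (nat_lit 362) (nat_lit 0) (cs (lf (nat_lit 40) (nat_lit 274)) (nd (nat_lit 363) (nat_lit 0) (cs (lf (nat_lit 41) (nat_lit 296)) (nd (nat_lit 386) (nat_lit 0) (cs (lf (nat_lit 28) (nat_lit 297)) (nd (nat_lit 274) (nat_lit 0) (cs (lf (nat_lit 46) (nat_lit 274)) (nd (nat_lit 385) (nat_lit 0) (cs (lf (nat_lit 29) (nat_lit 319)) (rf (nat_lit 1)))))))))))) (cs (rf (nat_lit 2)) (nd (nat_lit 320) (nat_lit 0) (cs (lf (nat_lit 29) (nat_lit 253)) (rf (nat_lit 3)))))))) q23372 (by decide +kernel)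
def q23384 : Q := Q.p (nat_lit 0x80000200000800002000000000000000000000000000000000000000000000000000000000000000) (nat_lit 0x40000700001c000070000040000500001400000000000000000000000000000000000000000000000000000000000000000000) (nat_lit 8)
theorem c23384 : QOK q23384 := cut [q2614, q23370, q23382] ⟨c2614, c23370, c23382, trivial⟩ (nd (nat_lit 341) (nat_lit 0) (cs (rf (nat_lit 0)) (cs (rf (nat_lit 1)) (cs (nd (nat_lit 364) (nat_lit 0) (cs (lf (nat_lit 28) (nat_lit 275)) (nd (nat_lit 363) (nat_lit 0) (cs (lf (nat_lit 29) (nat_lit 297)) (nd (nat_lit 384) (nat_lit 0) (cs (lf (nat_lit 40) (nat_lit 296)) (nd (nat_lit 276) (nat_lit 0) (cs (lf (nat_lit 34) (nat_lit 275)) (nd (nat_lit 385) (nat_lit 0) (cs (lf (nat_lit 41) (nat_lit 318)) (nd (nat_lit 296) (nat_lit 0) (cs (lf (nat_lit 46) (nat_lit 296)) (lf (nat_lit 47) (nat_lit 274)))))))))))))) (nd (nat_lit 318) (nat_lit 0) (cs (lf (nat_lit 41) (nat_lit 252)) (rf (nat_lit 2)))))))) q23384 (by decide +kernel)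
def q23400 : Q := Q.p (nat_lit 0x780000800000000000000000000000000000000000000000000000000000000000000000000) (nat_lit 0x67000380001d400000000000000000000000000000000000000000000000000000000000000000000) (nat_lit 7)
theorem c23400 : QOK q23400 := cut [q23397] ⟨c23397, trivial⟩ (nd (nat_lit 317) (nat_lit 0) (cs (lf (nat_lit 11) (nat_lit 294)) (nd (nat_lit 299) (nat_lit 0) (cs (lf (nat_lit 10) (nat_lit 295)) (nd (nat_lit 321) (nat_lit 0) (cs (lf (nat_lit 5) (nat_lit 296)) (rf (nat_lit 0)))))))) q23400 (by decide +kernel)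
def q23404 : Q := Q.p (nat_lit 0x80000780000000000000000000000000000000000000000000000000000000000000000000000000) (nat_lit 0x4000180000e700000000000000000000000000000000000000000000000000000000000000000000) (nat_lit 5)
theorem c23404 : QOK q23404 := cut [q23403] ⟨c23403, trivial⟩ (nd (nat_lit 273) (nat_lit 0) (cs (lf (nat_lit 23) (nat_lit 272)) (rf (nat_lit 0)))) q23404 (by decide +kernel)
def q23438 : Q := Q.p (nat_lit 0x80000600000800002000000000000000000000000000000000000000000000000000000000000000) (nat_lit 0x10000070001900000000000000000000000000000000000000000000000000000000000000000000000000) (nat_lit 4)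
theorem c23438 : QOK q23438 := cut [q16759] ⟨c16759, trivial⟩ (nd (nat_lit 318) (nat_lit 0) (cs (lf (nat_lit 41) (nat_lit 252)) (rf (nat_lit 0)))) q23438 (by decide +kernel)
def q23464 : Q := Q.p (nat_lit 0x80000e00000800000000000000000000000000000000000000000000000000000000000000000000) (nat_lit 0xf0000310000f000000000000000000000000000000000000000000000000000000000000000000000) (nat_lit 5)
theorem c23464 : QOK q23464 := cut [q11626] ⟨c11626, trivial⟩ (nd (nat_lit 300) (nat_lit 0) (cs (rf (nat_lit 0)) (nd (nat_lit 301) (nat_lit 0) (cs (lf (nat_lit 22) (nat_lit 275)) (lf (nat_lit 10) (nat_lit 297)))))) q23464 (by decide +kernel)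
def q23502 : Q := Q.p (nat_lit 0x800002000000000038000000000000000000000000000000000000000000000000000) (nat_lit 0x100000400001000019c0000600019c000000000000000000000000000000000000000000000) (nat_lit 5)
theorem c23502 : QOK q23502 := cut [q117, q23501] ⟨c117, c23501, trivial⟩ (nd (nat_lit 206) (nat_lit 0) (cs (rf (nat_lit 0)) (rf (nat_lit 1)))) q23502 (by decide +kernel)
def q23523 : Q := Q.p (nat_lit 0x1e000000000000000000000000000000000000000000000000000) (nat_lit 0xee00001000000000000000000000000000000000000000000000000000) (nat_lit 4)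
theorem c23523 : QOK q23523 := cut [q1414] ⟨c1414, trivial⟩ (nd (nat_lit 230) (nat_lit 0) (cs (lf (nat_lit 5) (nat_lit 205)) (rf (nat_lit 0)))) q23523 (by decide +kernel)
def q23526 : Q := Q.p (nat_lit 0x40000000001e000008000000000000000000000000000000000000000000000) (nat_lit 0x180000200000c00000000010000040000000000000000000000000000000000000000) (nat_lit 4)
theorem c23526 : QOK q23526 := cut [q3428] ⟨c3428, trivial⟩ (nd (nat_lit 227) (nat_lit 0) (cs (lf (nat_lit 11) (nat_lit 204)) (rf (nat_lit 0)))) q23526 (by decide +kernel)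
def q23534 : Q := Q.p (nat_lit 0x800002c00001000004000000000000000000000000000000000000000000000000000) (nat_lit 0x1680001200000000000000010000000000000000000000000000000000000000000000) (nat_lit 4)
theorem c23534 : QOK q23534 := cut [q15395] ⟨c15395, trivial⟩ (nd (nat_lit 184) (nat_lit 0) (cs (lf (nat_lit 29) (nat_lit 184)) (rf (nat_lit 0)))) q23534 (by decide +kernel)
def q23540 : Q := Q.p (nat_lit 0x800000c0000000000c000000000000000000000000000000000000000000000000000) (nat_lit 0x140001700000300002000000000030000000000000000000000000000000000000000000000) (nat_lit 4)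
theorem c23540 : QOK q23540 := cut [q15267, q23538] ⟨c15267, c23538, trivial⟩ (nd (nat_lit 273) (nat_lit 0) (cs (rf (nat_lit 0)) (cs (nd (nat_lit 274) (nat_lit 0) (cs (lf (nat_lit 18) (nat_lit 250)) (nd (nat_lit 229) (nat_lit 0) (cs (lf (nat_lit 29) (nat_lit 207)) (lf (nat_lit 47) (nat_lit 184)))))) (nd (nat_lit 229) (nat_lit 0) (cs (lf (nat_lit 47) (nat_lit 184)) (rf (nat_lit 1))))))) q23540 (by decide +kernel)
def q23544 : Q := Q.p (nat_lit 0x800002c00000000000000000000000000000000000000000000000000000000000000) (nat_lit 0x11c000120001c000000000000000000000000000000000000000000000000000000000) (nat_lit 5)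
theorem c23544 : QOK q23544 := cut [q23543] ⟨c23543, trivial⟩ (nd (nat_lit 252) (nat_lit 0) (cs (lf (nat_lit 5) (nat_lit 250)) (rf (nat_lit 0)))) q23544 (by decide +kernel)
def q23551 : Q := Q.p (nat_lit 0x800002c00000000000000000000000000000000000000000000000000000000000000) (nat_lit 0x140000120001c000000000000000000000000000000000000000000000000000000000) (nat_lit 4)
theorem c23551 : QOK q23551 := cut [q23550] ⟨c23550, trivial⟩ (nd (nat_lit 252) (nat_lit 0) (cs (lf (nat_lit 5) (nat_lit 250)) (rf (nat_lit 0)))) q23551 (by decide +kernel)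
def q23594 : Q := Q.p (nat_lit 0x3c00000000004000000000000000000000000000000000000000000000000000) (nat_lit 0x2000000000038000000000300000c0000200000000000000000000000000000000000) (nat_lit 5)
theorem c23594 : QOK q23594 := cut [q2074] ⟨c2074, trivial⟩ (nd (nat_lit 228) (nat_lit 0) (cs (lf (nat_lit 23) (nat_lit 227)) (rf (nat_lit 0)))) q23594 (by decide +kernel)
def q23598 : Q := Q.p (nat_lit 0x100002400001000004000000000000000000000000000000000000000000000000000) (nat_lit 0xa0000680001800000000000000000000000000000000000000000000000000000000000000) (nat_lit 4)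
theorem c23598 : QOK q23598 := cut [q17120] ⟨c17120, trivial⟩ (nd (nat_lit 273) (nat_lit 0) (cs (lf (nat_lit 29) (nat_lit 206)) (rf (nat_lit 0)))) q23598 (by decide +kernel)
def q23647 : Q := Q.p (nat_lit 0x90000040000100001c000000000000000000000000000000000000000000000000000) (nat_lit 0xc0000600000b8000ec00000000000000000000000000000000000000000000000000000000) (nat_lit 7)
theorem c23647 : QOK q23647 := cut [q23634] ⟨c23634, trivial⟩ (nd (nat_lit 229) (nat_lit 0) (cs (lf (nat_lit 30) (nat_lit 206)) (nd (nat_lit 226) (nat_lit 0) (cs (lf (nat_lit 13) (nat_lit 204)) (nd (nat_lit 273) (nat_lit 0) (cs (lf (nat_lit 29) (nat_lit 206)) (rf (nat_lit 0)))))))) q23647 (by decide +kernel)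
def q23698 : Q := Q.p (nat_lit 0x80000020000080001e000000000000000000000000000000000000000000000000000) (nat_lit 0x740001d0000e00000000000c000000000000000000000000000000000000000000000) (nat_lit 7)
theorem c23698 : QOK q23698 := cut [q23696] ⟨c23696, trivial⟩ (nd (nat_lit 183) (nat_lit 0) (cs (lf (nat_lit 23) (nat_lit 182)) (nd (nat_lit 230) (nat_lit 0) (cs (lf (nat_lit 5) (nat_lit 205)) (rf (nat_lit 0)))))) q23698 (by decide +kernel)
def q23721 : Q := Q.p (nat_lit 0x200000000001e000000000000000000000000000000000000000000000000000) (nat_lit 0x700007c0001b0000fc0000000001c0000700001c0000100000000000000000000000000000) (nat_lit 13)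
theorem c23721 : QOK q23721 := cut [q3224, q3431, q23708] ⟨c3224, c3431, c23708, trivial⟩ (nd (nat_lit 227) (nat_lit 0) (cs (lf (nat_lit 11) (nat_lit 204)) (nd (nat_lit 162) (nat_lit 0) (cs (rf (nat_lit 0)) (cs (nd (nat_lit 183) (nat_lit 0) (cs (lf (nat_lit 23) (nat_lit 182)) (nd (nat_lit 230) (nat_lit 0) (cs (lf (nat_lit 5) (nat_lit 205)) (nd (nat_lit 161) (nat_lit 0) (cs (lf (nat_lit 35) (nat_lit 139)) (nd (nat_lit 139) (nat_lit 0) (cs (rf (nat_lit 1)) (lf (nat_lit 29) (nat_lit 139)))))))))) (cs (nd (nat_lit 230) (nat_lit 0) (cs (lf (nat_lit 5) (nat_lit 205)) (nd (nat_lit 183) (nat_lit 0) (cs (lf (nat_lit 23) (nat_lit 182)) (nd (nat_lit 249) (nat_lit 0) (cs (lf (nat_lit 34) (nat_lit 161)) (nd (nat_lit 270) (nat_lit 0) (cs (lf (nat_lit 40) (nat_lit 182)) (nd (nat_lit 271) (nat_lit 0) (cs (lf (nat_lit 41) (nat_lit 204)) (nd (nat_lit 272) (nat_lit 0) (cs (lf (nat_lit 29) (nat_lit 205)) (nd (nat_lit 228) (nat_lit 0) (cs (lf (nat_lit 30) (nat_lit 205)) (nd (nat_lit 139) (nat_lit 0) (cs (lf (nat_lit 25)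 (nat_lit 139)) (rf (nat_lit 2)))))))))))))))))) (nd (nat_lit 140) (nat_lit 0) (cs (nd (nat_lit 183) (nat_lit 0) (cs (lf (nat_lit 23) (nat_lit 182)) (lf (nat_lit 33) (nat_lit 139)))) (lf (nat_lit 38) (nat_lit 139)))))))))) q23721 (by decide +kernel)
def q23725 : Q := Q.p (nat_lit 0x800002400001000004000010000000000000000000000000000000000000000000000) (nat_lit 0x1680001a00000000000000000000000000000000000000000000000000000000000000) (nat_lit 4)
theorem c23725 : QOK q23725 := cut [q23724] ⟨c23724, trivial⟩ (nd (nat_lit 249) (nat_lit 0) (cs (lf (nat_lit 41) (nat_lit 183)) (rf (nat_lit 0)))) q23725 (by decide +kernel)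
def q23742 : Q := Q.p (nat_lit 0x200002400001000004000000000000000000000000000000000000000000000000000) (nat_lit 0xa0000580001800000000000000000000000000000000000000000000000000000000000000) (nat_lit 4)
theorem c23742 : QOK q23742 := cut [q17120] ⟨c17120, trivial⟩ (nd (nat_lit 272) (nat_lit 0) (cs (lf (nat_lit 29) (nat_lit 206)) (rf (nat_lit 0)))) q23742 (by decide +kernel)
def q23757 : Q := Q.p (nat_lit 0x1f000000000000000000000000000000000000000000000000000) (nat_lit 0xc700000800007000000000000000000000000000000000000000000000) (nat_lit 5)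
theorem c23757 : QOK q23757 := cut [q4169] ⟨c4169, trivial⟩ (nd (nat_lit 230) (nat_lit 0) (cs (lf (nat_lit 5) (nat_lit 205)) (rf (nat_lit 0)))) q23757 (by decide +kernel)
def q23808 : Q := Q.p (nat_lit 0x80000200000000001e000000000000000000000000000000000000000000000000000) (nat_lit 0x100000f00017c0001fc000dc00000000038000060000180000000000000000000000000000000000) (nat_lit 10)
theorem c23808 : QOK q23808 := cut [q23759, q23761, q15394, q11374, q15307, q3997, q23781, q4939, q23794, q23799, q23805] ⟨c23759, c23761, c15394, c11374, c15307, c3997, c23781, c4939, c23794, c23799, c23805, trivial⟩ (nd (nat_lit 227) (nat_lit 0) (cs (lf (nat_lit 11) (nat_lit 204)) (nd (nat_lit 249) (nat_lit 0) (cs (rf (nat_lit 0)) (cs (nd (nat_lit 250) (nat_lit 0) (cs (nd (nat_lit 183) (nat_lit 0) (cs (lf (nat_lit 29) (nat_lit 183)) (nd (nat_lit 248) (nat_lit 0) (cs (lf (nat_lit 41) (nat_lit 182)) (rf (nat_lit 1)))))) (cs (nd (nat_lit 230) (nat_lit 0) (cs (lf (nat_lit 5) (nat_lit 205)) (nd (nat_lit 272) (nat_lit 0) (cs (lf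 (nat_lit 24) (nat_lit 183)) (nd (nat_lit 294) (nat_lit 0) (cs (lf (nat_lit 42) (nat_lit 227)) (nd (nat_lit 274) (nat_lit 0) (cs (lf (nat_lit 20) (nat_lit 249)) (nd (nat_lit 252) (nat_lit 0) (cs (lf (nat_lit 47) (nat_lit 185)) (lf (nat_lit 2) (nat_lit 249)))))))))))) (cs (nd (nat_lit 251) (nat_lit 0) (cs (rf (nat_lit 2)) (cs (nd (nat_lit 184) (nat_lit 0) (cs (rf (nat_lit 3)) (nd (nat_lit 230) (nat_lit 0) (cs (lf (nat_lit 5) (nat_lit 205)) (nd (nat_lit 273) (nat_lit 0) (cs (lf (nat_lit 26) (nat_lit 184)) (rf (nat_lit 4)))))))) (cs (nd (nat_lit 252) (nat_lit 0) (cs (lf (nat_lit 22) (nat_lit 227)) (lf (nat_lit 5) (nat_lit 250)))) (nd (nat_lit 252) (nat_lit 0) (cs (lf (nat_lit 22) (nat_lit 227)) (lf (nat_lit 4) (nat_lit 249)))))))) (nd (nat_lit 228) (nat_lit 0) (cs (rf (nat_lit 5)) (nd (nat_lit 230) (nat_lit 0) (cs (lf (nat_lit 5) (nat_lit 205)) (nd (nat_lit 251) (nat_lit 0) (cs (lf (nat_lit 19) (nat_lit 227)) (nd (nat_lit 184) (nat_lit 0) (cs (lf (nat_lit 29) (nat_lit 184)) (lf (nat_lit 36) (nat_lit 161))))))))))))))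 (cs (nd (nat_lit 271) (nat_lit 0) (cs (nd (nat_lit 230) (nat_lit 0) (cs (lf (nat_lit 5) (nat_lit 205)) (rf (nat_lit 6)))) (cs (nd (nat_lit 272) (nat_lit 0) (cs (lf (nat_lit 29) (nat_lit 205)) (nd (nat_lit 250) (nat_lit 0) (cs (lf (nat_lit 24) (nat_lit 183)) (nd (nat_lit 228) (nat_lit 0) (cs (lf (nat_lit 35) (nat_lit 184)) (lf (nat_lit 30) (nat_lit 205)))))))) (cs (nd (nat_lit 230) (nat_lit 0) (cs (lf (nat_lit 5) (nat_lit 205)) (nd (nat_lit 270) (nat_lit 0) (cs (lf (nat_lit 41) (nat_lit 204)) (nd (nat_lit 183) (nat_lit 0) (cs (lf (nat_lit 40) (nat_lit 182)) (nd (nat_lit 228) (nat_lit 0) (cs (lf (nat_lit 30) (nat_lit 205)) (rf (nat_lit 7)))))))))) (cs (nd (nat_lit 272) (nat_lit 0) (cs (lf (nat_lit 29) (nat_lit 205)) (nd (nat_lit 228) (nat_lit 0) (cs (lf (nat_lit 30) (nat_lit 205)) (nd (nat_lit 230) (nat_lit 0) (cs (lf (nat_lit 5) (nat_lit 205)) (rf (nat_lit 8)))))))) (nd (nat_lit 270) (nat_lit 0) (cs (lf (nat_lit 41) (nat_lit 204)) (nd (nat_lit 272) (nat_lit 0) (cs (lf (nat_lit 29) (nat_lit 205)) (nd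 (nat_lit 230) (nat_lit 0) (cs (lf (nat_lit 5) (nat_lit 205)) (nd (nat_lit 228) (nat_lit 0) (cs (lf (nat_lit 30) (nat_lit 205)) (rf (nat_lit 9))))))))))))))) (nd (nat_lit 230) (nat_lit 0) (cs (lf (nat_lit 5) (nat_lit 205)) (rf (nat_lit 10)))))))))) q23808 (by decide +kernel)
def q23811 : Q := Q.p (nat_lit 0x7800000000000000000000000000000000000000000000000000) (nat_lit 0x40003b800000000000000000000000000000000000000000000) (nat_lit 4)
theorem c23811 : QOK q23811 := cut [q23810] ⟨c23810, trivial⟩ (nd (nat_lit 184) (nat_lit 0) (cs (lf (nat_lit 17) (nat_lit 181)) (rf (nat_lit 0)))) q23811 (by decide +kernel)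
def q23835 : Q := Q.p (nat_lit 0x1e000008000020000000000000000000000000000000000000000) (nat_lit 0xc8000000000100000180007c0000700001400000000000000000000000) (nat_lit 7)
theorem c23835 : QOK q23835 := cut [q11439, q11443, q23833] ⟨c11439, c11443, c23833, trivial⟩ (nd (nat_lit 139) (nat_lit 0) (cs (rf (nat_lit 0)) (cs (nd (nat_lit 230) (nat_lit 0) (cs (lf (nat_lit 5) (nat_lit 205)) (rf (nat_lit 1)))) (nd (nat_lit 230) (nat_lit 0) (cs (lf (nat_lit 5) (nat_lit 205)) (rf (nat_lit 2))))))) q23835 (by decide +kernel)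
def q23909 : Q := Q.p (nat_lit 0x100000c000018000060000000000000000000000000000000000000000) (nat_lit 0x800002000000000020000380000e00000000000000000000000000000000000) (nat_lit 5)
theorem c23909 : QOK q23909 := cut [q23907] ⟨c23907, trivial⟩ (nd (nat_lit 229) (nat_lit 0) (cs (lf (nat_lit 29) (nat_lit 162)) (nd (nat_lit 163) (nat_lit 0) (cs (lf (nat_lit 35) (nat_lit 140)) (rf (nat_lit 0)))))) q23909 (by decide +kernel)
def q23922 : Q := Q.p (nat_lit 0x1c000010000040000000000000000000000000000000000000000) (nat_lit 0x500000000002c0000a0001f80001e00002800000000000000000000000) (nat_lit 9)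
theorem c23922 : QOK q23922 := cut [q863, q2497, q18104, q1935] ⟨c863, c2497, c18104, c1935, trivial⟩ (nd (nat_lit 140) (nat_lit 0) (cs (rf (nat_lit 0)) (cs (rf (nat_lit 1)) (cs (rf (nat_lit 2)) (nd (nat_lit 117) (nat_lit 0) (cs (lf (nat_lit 46) (nat_lit 117)) (nd (nat_lit 141) (nat_lit 0) (cs (lf (nat_lit 35) (nat_lit 118)) (nd (nat_lit 163) (nat_lit 0) (cs (lf (nat_lit 30) (nat_lit 140)) (nd (nat_lit 185) (nat_lit 0) (cs (lf (nat_lit 29) (nat_lit 141)) (nd (nat_lit 182) (nat_lit 0) (cs (rf (nat_lit 3)) (lf (nat_lit 1) (nat_lit 182)))))))))))))))) q23922 (by decide +kernel)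
def q24047 : Q := Q.p (nat_lit 0xc000010000040000100000000000000000000000000000000000) (nat_lit 0x40000100000200000e000020000280000c00003000000000000000000000000) (nat_lit 7)
theorem c24047 : QOK q24047 := cut [q17817] ⟨c17817, trivial⟩ (nd (nat_lit 119) (nat_lit 0) (cs (lf (nat_lit 34) (nat_lit 118)) (nd (nat_lit 118) (nat_lit 0) (cs (lf (nat_lit 35) (nat_lit 96)) (nd (nat_lit 183) (nat_lit 0) (cs (lf (nat_lit 41) (nat_lit 117)) (nd (nat_lit 181) (nat_lit 0) (cs (lf (nat_lit 1) (nat_lit 181)) (rf (nat_lit 0)))))))))) q24047 (by decide +kernel)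
def q24057 : Q := Q.p (nat_lit 0x4000010000040000100000000000000000000000000000000000) (nat_lit 0x10000000000000001800002e0000a00000000000000000000000000000) (nat_lit 5)
theorem c24057 : QOK q24057 := cut [q24055] ⟨c24055, trivial⟩ (nd (nat_lit 141) (nat_lit 0) (cs (lf (nat_lit 35) (nat_lit 118)) (nd (nat_lit 163) (nat_lit 0) (cs (lf (nat_lit 30) (nat_lit 140)) (rf (nat_lit 0)))))) q24057 (by decide +kernel)
def q24125 : Q := Q.p (nat_lit 0x8000040000100000400000000000000000000000000000) (nat_lit 0x2000000000000000380000e000028000000000000) (nat_lit 5)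
theorem c24125 : QOK q24125 := cut [q24124] ⟨c24124, trivial⟩ (nd (nat_lit 96) (nat_lit 0) (cs (lf (nat_lit 40) (nat_lit 95)) (rf (nat_lit 0)))) q24125 (by decide +kernel)
def q24137 : Q := Q.p (nat_lit 0xc0000300000c0000300000000000000000000000000000000000) (nat_lit 0x20001c80001200000000000000000000000000000) (nat_lit 4)
theorem c24137 : QOK q24137 := cut [q1935] ⟨c1935, trivial⟩ (nd (nat_lit 117) (nat_lit 0) (cs (lf (nat_lit 46) (nat_lit 117)) (rf (nat_lit 0)))) q24137 (by decide +kernel)
def q24198 : Q := Q.p (nat_lit 0x100000000001c000030000000000000000000000000000000000000000000000) (nat_lit 0x40000000000c00000380000e000000000000000000000000000000000000000000000) (nat_lit 5)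
theorem c24198 : QOK q24198 := cut [q24196] ⟨c24196, trivial⟩ (nd (nat_lit 182) (nat_lit 0) (cs (lf (nat_lit 1) (nat_lit 182)) (nd (nat_lit 230) (nat_lit 0) (cs (lf (nat_lit 42) (nat_lit 185)) (rf (nat_lit 0)))))) q24198 (by decide +kernel)
def q24204 : Q := Q.p (nat_lit 0x80000200000000000c000030000080000000000000000000000000000000000000000) (nat_lit 0x1700001c00002000000000000000100000700001c00000000000000000000000000000) (nat_lit 8)
theorem c24204 : QOK q24204 := cut [q2399] ⟨c2399, trivial⟩ (nd (nat_lit 141) (nat_lit 0) (cs (lf (nat_lit 36) (nat_lit 118)) (nd (nat_lit 118) (nat_lit 0) (cs (lf (nat_lit 46) (nat_lit 118)) (nd (nat_lit 142) (nat_lit 0) (cs (lf (nat_lit 35) (nat_lit 119)) (nd (nat_lit 229) (nat_lit 0) (cs (lf (nat_lit 34) (nat_lit 141)) (nd (nat_lit 251) (nat_lit 0) (cs (lf (nat_lit 42) (nat_lit 184)) (rf (nat_lit 0)))))))))))) q24204 (by decide +kernel)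
def q24207 : Q := Q.p (nat_lit 0x800003800000000000000000000000000000000000000000000000000000000000000) (nat_lit 0x11c000060001c000000000000000000000000000000000000000000000000000000000) (nat_lit 5)
theorem c24207 : QOK q24207 := cut [q23543] ⟨c23543, trivial⟩ (nd (nat_lit 250) (nat_lit 0) (cs (lf (nat_lit 5) (nat_lit 250)) (rf (nat_lit 0)))) q24207 (by decide +kernel)
def q24264 : Q := Q.p (nat_lit 0x1c000030000000000000000000000000000000000000000000000) (nat_lit 0x40000100000c40000380000e0007fc001fe000ffc0001000004000000000000000000) (nat_lit 12)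
theorem c24264 : QOK q24264 := cut [q24223, q17716, q24229, q8235, q6489, q9139, q2411, q5768, q24196] ⟨c24223, c17716, c24229, c8235, c6489, c9139, c2411, c5768, c24196, trivial⟩ (nd (nat_lit 141) (nat_lit 0) (cs (nd (nat_lit 163) (nat_lit 0) (cs (lf (nat_lit 29) (nat_lit 141)) (lf (nat_lit 36) (nat_lit 118)))) (cs (nd (nat_lit 140) (nat_lit 0) (cs (nd (nat_lit 162) (nat_lit 0) (cs (lf (nat_lit 24) (nat_lit 118)) (lf (nat_lit 35) (nat_lit 118)))) (cs (nd (nat_lit 139) (nat_lit 0) (cs (nd (nat_lit 162) (nat_lit 0) (cs (lf (nat_lit 47) (nat_lit 117)) (lf (nat_lit 35) (nat_lit 118)))) (cs (nd (nat_lit 182) (nat_lit 0) (cs (lf (nat_lit 1) (nat_lit 182)) (nd (nat_lit 119) (nat_lit 0) (cs (lf (nat_lit 32) (nat_lit 118)) (nd (nat_lit 120) (nat_lit 0) (cs (lf (nat_lit 12) (nat_lit 116)) (nd (nat_lit 121) (nat_lit 0) (cs (lf (nat_lit 15) (nat_lit 117)) (lf (nat_lit 6) (nat_lit 118)))))))))) (rf (nat_lit 0))))) (cs (nd (nat_lit 139) (nat_lit 0) (cs (rf (nat_lit 0)) (cs (nd (nat_lit 138) (nat_lit 0) (cs (rf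 (nat_lit 1)) (cs (rf (nat_lit 2)) (nd (nat_lit 119) (nat_lit 0) (cs (lf (nat_lit 17) (nat_lit 116)) (nd (nat_lit 116) (nat_lit 0) (cs (lf (nat_lit 23) (nat_lit 115)) (nd (nat_lit 142) (nat_lit 0) (cs (lf (nat_lit 22) (nat_lit 116)) (nd (nat_lit 165) (nat_lit 0) (cs (lf (nat_lit 4) (nat_lit 139)) (nd (nat_lit 143) (nat_lit 0) (cs (lf (nat_lit 5) (nat_lit 140)) (nd (nat_lit 144) (nat_lit 0) (cs (lf (nat_lit 23) (nat_lit 118)) (rf (nat_lit 3))))))))))))))))) (cs (nd (nat_lit 138) (nat_lit 0) (cs (rf (nat_lit 1)) (cs (rf (nat_lit 2)) (cs (nd (nat_lit 182) (nat_lit 0) (cs (lf (nat_lit 1) (nat_lit 182)) (nd (nat_lit 119) (nat_lit 0) (cs (lf (nat_lit 17) (nat_lit 116)) (nd (nat_lit 137) (nat_lit 0) (cs (rf (nat_lit 4)) (lf (nat_lit 16) (nat_lit 115)))))))) (nd (nat_lit 115) (nat_lit 0) (cs (lf (nat_lit 22) (nat_lit 115)) (nd (nat_lit 160) (nat_lit 0) (cs (lf (nat_lit 11) (nat_lit 137)) (nd (nat_lit 182) (nat_lit 0) (cs (lf (nat_lit 1) (nat_lit 182)) (nd (nat_lit 142) (nat_lit 0) (cs (lf (nat_lit 10) (nat_lit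 138)) (rf (nat_lit 5)))))))))))))) (nd (nat_lit 183) (nat_lit 0) (cs (lf (nat_lit 0) (nat_lit 182)) (nd (nat_lit 161) (nat_lit 0) (cs (lf (nat_lit 24) (nat_lit 117)) (nd (nat_lit 205) (nat_lit 0) (cs (lf (nat_lit 35) (nat_lit 117)) (nd (nat_lit 204) (nat_lit 0) (cs (lf (nat_lit 12) (nat_lit 181)) (lf (nat_lit 41) (nat_lit 138)))))))))))))) (nd (nat_lit 139) (nat_lit 0) (cs (rf (nat_lit 0)) (cs (nd (nat_lit 183) (nat_lit 0) (cs (rf (nat_lit 6)) (nd (nat_lit 118) (nat_lit 0) (cs (lf (nat_lit 26) (nat_lit 118)) (nd (nat_lit 161) (nat_lit 0) (cs (lf (nat_lit 30) (nat_lit 117)) (nd (nat_lit 74) (nat_lit 0) (cs (nd (nat_lit 142) (nat_lit 0) (cs (lf (nat_lit 11) (nat_lit 138)) (nd (nat_lit 165) (nat_lit 0) (cs (lf (nat_lit 4) (nat_lit 139)) (nd (nat_lit 143) (nat_lit 0) (cs (lf (nat_lit 5) (nat_lit 140)) (rf (nat_lit 7)))))))) (lf (nat_lit 37) (nat_lit 73)))))))))) (nd (nat_lit 162) (nat_lit 0) (cs (lf (nat_lit 24) (nat_lit 118)) (lf (nat_lit 47) (nat_lit 117))))))))))) (nd (nat_lit 182) (nat_lit 0) (cs (lf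 (nat_lit 1) (nat_lit 182)) (nd (nat_lit 230) (nat_lit 0) (cs (lf (nat_lit 25) (nat_lit 141)) (nd (nat_lit 252) (nat_lit 0) (cs (lf (nat_lit 42) (nat_lit 185)) (rf (nat_lit 8))))))))))) q24264 (by decide +kernel)
def q24295 : Q := Q.p (nat_lit 0xc0000300000c0000000000000000000000000000000000000000) (nat_lit 0x130001e00001800000000000000000000000000000) (nat_lit 5)
theorem c24295 : QOK q24295 := cut [q24112] ⟨c24112, trivial⟩ (nd (nat_lit 141) (nat_lit 0) (cs (lf (nat_lit 36) (nat_lit 118)) (rf (nat_lit 0)))) q24295 (by decide +kernel)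
def q24358 : Q := Q.p (nat_lit 0x1e000010000000000000000000000000000000000000000000000) (nat_lit 0xe00001c0002b800000000000000000000000000000000000000000000) (nat_lit 6)
theorem c24358 : QOK q24358 := cut [q23810] ⟨c23810, trivial⟩ (nd (nat_lit 226) (nat_lit 0) (cs (lf (nat_lit 10) (nat_lit 204)) (nd (nat_lit 204) (nat_lit 0) (cs (lf (nat_lit 11) (nat_lit 203)) (nd (nat_lit 203) (nat_lit 0) (cs (lf (nat_lit 17) (nat_lit 181)) (rf (nat_lit 0)))))))) q24358 (by decide +kernel)
def q24375 : Q := Q.p (nat_lit 0x100001e000000000000000000000000000000000000000000000000000) (nat_lit 0x2b80001c0000e000000000000000000000000000000000000000000000) (nat_lit 6)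
theorem c24375 : QOK q24375 := cut [q24373] ⟨c24373, trivial⟩ (nd (nat_lit 182) (nat_lit 0) (cs (lf (nat_lit 22) (nat_lit 182)) (nd (nat_lit 204) (nat_lit 0) (cs (lf (nat_lit 23) (nat_lit 181)) (rf (nat_lit 0)))))) q24375 (by decide +kernel)
def q24393 : Q := Q.p (nat_lit 0x2000004800006000008000020000000000000000000000000000000000000000) (nat_lit 0x1c000030000000000300000dc000340000000000000000000000000000000000) (nat_lit 8)
theorem c24393 : QOK q24393 := cut [q24388] ⟨c24388, trivial⟩ (nd (nat_lit 162) (nat_lit 0) (cs (lf (nat_lit 35) (nat_lit 139)) (nd (nat_lit 228) (nat_lit 0) (cs (lf (nat_lit 29) (nat_lit 161)) (nd (nat_lit 229) (nat_lit 0) (cs (lf (nat_lit 4) (nat_lit 227)) (nd (nat_lit 184) (nat_lit 0) (cs (lf (nat_lit 29) (nat_lit 162)) (nd (nat_lit 141) (nat_lit 0) (cs (lf (nat_lit 34) (nat_lit 140)) (rf (nat_lit 0)))))))))))) q24393 (by decide +kernel)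
def q24425 : Q := Q.p (nat_lit 0x80000020000180000e000000000000000000000000000000000000000000000000000) (nat_lit 0xe0000780000400000000000000020000000000000000000000000000000000000000000000) (nat_lit 5)
theorem c24425 : QOK q24425 := cut [q23799] ⟨c23799, trivial⟩ (nd (nat_lit 271) (nat_lit 0) (cs (lf (nat_lit 30) (nat_lit 205)) (nd (nat_lit 272) (nat_lit 0) (cs (lf (nat_lit 29) (nat_lit 205)) (rf (nat_lit 0)))))) q24425 (by decide +kernel)
def q24438 : Q := Q.p (nat_lit 0x1e000000000000000000000000000000000000000000000000000) (nat_lit 0x200003f80001c00037000040000100000000000000000000000000000000000) (nat_lit 8)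
theorem c24438 : QOK q24438 := cut [q153, q4169, q23755, q24434] ⟨c153, c4169, c23755, c24434, trivial⟩ (nd (nat_lit 204) (nat_lit 0) (cs (rf (nat_lit 0)) (cs (rf (nat_lit 1)) (cs (rf (nat_lit 2)) (nd (nat_lit 181) (nat_lit 0) (cs (lf (nat_lit 22) (nat_lit 181)) (nd (nat_lit 203) (nat_lit 0) (cs (lf (nat_lit 23) (nat_lit 180)) (nd (nat_lit 184) (nat_lit 0) (cs (lf (nat_lit 17) (nat_lit 181)) (rf (nat_lit 3)))))))))))) q24438 (by decide +kernel)
def q24524 : Q := Q.p (nat_lit 0xc00003000000000020000000000000000000000000000000000000000000000000000) (nat_lit 0x400003000000c00008000000000080000000000000000000000000000000000000000000000) (nat_lit 4)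
theorem c24524 : QOK q24524 := cut [q721] ⟨c721, trivial⟩ (nd (nat_lit 231) (nat_lit 0) (cs (lf (nat_lit 36) (nat_lit 186)) (rf (nat_lit 0)))) q24524 (by decide +kernel)
def q24527 : Q := Q.p (nat_lit 0xc00003000004000018000000000000000000000000000000000000000000000000000) (nat_lit 0x1e0000380000800002000000000000000000000000000000000000000000000000000000000) (nat_lit 5)
theorem c24527 : QOK q24527 := cut [q1180] ⟨c1180, trivial⟩ (nd (nat_lit 273) (nat_lit 0) (cs (lf (nat_lit 41) (nat_lit 207)) (nd (nat_lit 229) (nat_lit 0) (cs (lf (nat_lit 42) (nat_lit 207)) (rf (nat_lit 0)))))) q24527 (by decide +kernel)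
def q24538 : Q := Q.p (nat_lit 0x78000000000000000000000000000000000000000000000000000) (nat_lit 0x77000080000000000000000000000000000000000000000000000000000) (nat_lit 4)
theorem c24538 : QOK q24538 := cut [q13356] ⟨c13356, trivial⟩ (nd (nat_lit 229) (nat_lit 0) (cs (lf (nat_lit 11) (nat_lit 206)) (rf (nat_lit 0)))) q24538 (by decide +kernel)
def q24668 : Q := Q.p (nat_lit 0x20000080001e000000000000000000000000000000000000000000000000000) (nat_lit 0x40000100000000001c000060000180000000000000000000000000000000000) (nat_lit 5)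
theorem c24668 : QOK q24668 := cut [q3229] ⟨c3229, trivial⟩ (nd (nat_lit 183) (nat_lit 0) (cs (lf (nat_lit 23) (nat_lit 182)) (nd (nat_lit 162) (nat_lit 0) (cs (rf (nat_lit 0)) (lf (nat_lit 34) (nat_lit 161)))))) q24668 (by decide +kernel)
def q24693 : Q := Q.p (nat_lit 0x38000000000000000000000000000000000000000000000000000) (nat_lit 0x3fc0004600001c000000000000000000000000000000000000000000000) (nat_lit 6)
theorem c24693 : QOK q24693 := cut [q117, q24659, q24675, q10643] ⟨c117, c24659, c24675, c10643, trivial⟩ (nd (nat_lit 206) (nat_lit 0) (cs (rf (nat_lit 0)) (cs (rf (nat_lit 1)) (cs (rf (nat_lit 2)) (nd (nat_lit 183) (nat_lit 0) (cs (lf (nat_lit 22) (nat_lit 183)) (rf (nat_lit 3)))))))) q24693 (by decide +kernel)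
def q24694 : Q := Q.p (nat_lit 0x38000000000000000000000000000000000000000000000000000) (nat_lit 0x1dc000460003b8000000000000000000000000000000000000000000000) (nat_lit 5)
theorem c24694 : QOK q24694 := cut [q22368, q24659] ⟨c22368, c24659, trivial⟩ (nd (nat_lit 206) (nat_lit 0) (cs (rf (nat_lit 0)) (rf (nat_lit 1)))) q24694 (by decide +kernel)
def q24705 : Q := Q.p (nat_lit 0xc00003800000000000000000000000000000000000000000000000000000000000000) (nat_lit 0x100000000000600018000020000080000000000000000000000000000000000000000000000) (nat_lit 4)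
theorem c24705 : QOK q24705 := cut [q24704] ⟨c24704, trivial⟩ (nd (nat_lit 250) (nat_lit 0) (cs (lf (nat_lit 0) (nat_lit 249)) (rf (nat_lit 0)))) q24705 (by decide +kernel)
def q24709 : Q := Q.p (nat_lit 0xe00000000000000078000000000000000000000000000000000000000000000000000) (nat_lit 0x1100000f00002000004000038000000000000000000000000000000000000000000000) (nat_lit 6)
theorem c24709 : QOK q24709 := cut [q12947] ⟨c12947, trivial⟩ (nd (nat_lit 184) (nat_lit 0) (cs (lf (nat_lit 22) (nat_lit 184)) (nd (nat_lit 206) (nat_lit 0) (cs (lf (nat_lit 23) (nat_lit 183)) (nd (nat_lit 251) (nat_lit 0) (cs (lf (nat_lit 44) (nat_lit 184)) (rf (nat_lit 0)))))))) q24709 (by decide +kernel)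
def q24738 : Q := Q.p (nat_lit 0xc00002000000000038000000000000000000000000000000000000000000000000000) (nat_lit 0x50000100000000007e0001c0000130000000000000000000000000000000000000000000000) (nat_lit 8)
theorem c24738 : QOK q24738 := cut [q15486] ⟨c15486, trivial⟩ (nd (nat_lit 231) (nat_lit 0) (cs (lf (nat_lit 41) (nat_lit 208)) (nd (nat_lit 210) (nat_lit 0) (cs (lf (nat_lit 35) (nat_lit 187)) (nd (nat_lit 276) (nat_lit 0) (cs (lf (nat_lit 29) (nat_lit 209)) (nd (nat_lit 184) (nat_lit 0) (cs (lf (nat_lit 22) (nat_lit 184)) (nd (nat_lit 233) (nat_lit 0) (cs (lf (nat_lit 4) (nat_lit 207)) (rf (nat_lit 0)))))))))))) q24738 (by decide +kernel)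
def q24763 : Q := Q.p (nat_lit 0x400003000000000018000000000000000000000000000000000000000000000000000) (nat_lit 0xc0000640007bc000000000000000000000000000000000000000000000) (nat_lit 5)
theorem c24763 : QOK q24763 := cut [q24529, q1412, q1475] ⟨c24529, c1412, c1475, trivial⟩ (nd (nat_lit 209) (nat_lit 0) (cs (rf (nat_lit 0)) (cs (nd (nat_lit 185) (nat_lit 0) (cs (lf (nat_lit 44) (nat_lit 185)) (rf (nat_lit 1)))) (nd (nat_lit 187) (nat_lit 0) (cs (rf (nat_lit 2)) (lf (nat_lit 38) (nat_lit 186))))))) q24763 (by decide +kernel)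
def q24850 : Q := Q.p (nat_lit 0x40000e00003000000000000000000000000000000000000000000000000000000000000000) (nat_lit 0x1c80007000000000000000000000000000000000000000000000000000000000000000000000) (nat_lit 4)
theorem c24850 : QOK q24850 := cut [q1310] ⟨c1310, trivial⟩ (nd (nat_lit 276) (nat_lit 0) (cs (lf (nat_lit 10) (nat_lit 272)) (rf (nat_lit 0)))) q24850 (by decide +kernel)
def q24932 : Q := Q.p (nat_lit 0x1e000000000000000000000000000000000000000000000000000) (nat_lit 0xa00006e000618003b8000040000100000000000000000000000000000000000) (nat_lit 8)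
theorem c24932 : QOK q24932 := cut [q24921, q24929, q3509] ⟨c24921, c24929, c3509, trivial⟩ (nd (nat_lit 184) (nat_lit 0) (cs (nd (nat_lit 209) (nat_lit 0) (cs (lf (nat_lit 23) (nat_lit 183)) (nd (nat_lit 187) (nat_lit 0) (cs (lf (nat_lit 17) (nat_lit 184)) (nd (nat_lit 185) (nat_lit 0) (cs (lf (nat_lit 18) (nat_lit 184)) (nd (nat_lit 204) (nat_lit 0) (cs (lf (nat_lit 12) (nat_lit 181)) (rf (nat_lit 0)))))))))) (cs (nd (nat_lit 226) (nat_lit 0) (cs (lf (nat_lit 10) (nat_lit 204)) (nd (nat_lit 204) (nat_lit 0) (cs (lf (nat_lit 11) (nat_lit 203)) (nd (nat_lit 185) (nat_lit 0) (cs (lf (nat_lit 12) (nat_lit 181)) (rf (nat_lit 0)))))))) (cs (nd (nat_lit 226) (nat_lit 0) (cs (lf (nat_lit 10) (nat_lit 204)) (rf (nat_lit 1)))) (nd (nat_lit 183) (nat_lit 0) (cs (lf (nat_lit 18) (nat_lit 183)) (rf (nat_lit 2)))))))) q24932 (by decide +kernel)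
def q24933 : Q := Q.p (nat_lit 0x1e000000000000000000000000000000000000000000000000000) (nat_lit 0x200000c0002000001c000040000100000000000000000000000000000000000) (nat_lit 5)
theorem c24933 : QOK q24933 := cut [q3281] ⟨c3281, trivial⟩ (nd (nat_lit 227) (nat_lit 0) (cs (lf (nat_lit 11) (nat_lit 204)) (rf (nat_lit 0)))) q24933 (by decide +kernel)
def q24947 : Q := Q.p (nat_lit 0xe000018000020000080000000000000000000000000000000000) (nat_lit 0x2000000000000000050000f40000d00000000000000000000000000000) (nat_lit 6)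
theorem c24947 : QOK q24947 := cut [q18007] ⟨c18007, trivial⟩ (nd (nat_lit 116) (nat_lit 0) (cs (lf (nat_lit 46) (nat_lit 116)) (nd (nat_lit 140) (nat_lit 0) (cs (lf (nat_lit 35) (nat_lit 117)) (nd (nat_lit 162) (nat_lit 0) (cs (lf (nat_lit 29) (nat_lit 140)) (rf (nat_lit 0)))))))) q24947 (by decide +kernel)
def q24961 : Q := Q.p (nat_lit 0x280001c000000000000000000000000000000000000000000000000000) (nat_lit 0x750000e0000380000000000000000000000000000000000000000000000) (nat_lit 6)
theorem c24961 : QOK q24961 := cut [q13356] ⟨c13356, trivial⟩ (nd (nat_lit 209) (nat_lit 0) (cs (lf (nat_lit 10) (nat_lit 205)) (nd (nat_lit 188) (nat_lit 0) (cs (lf (nat_lit 16) (nat_lit 184)) (nd (nat_lit 210) (nat_lit 0) (cs (lf (nat_lit 17) (nat_lit 185)) (rf (nat_lit 0)))))))) q24961 (by decide +kernel)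
def q24998 : Q := Q.p (nat_lit 0x800002000001000004000010000040000000000000000000000000000000000000000) (nat_lit 0x1380001e00002000000000000000000000000000000000000000000000000000000000) (nat_lit 5)
theorem c24998 : QOK q24998 := cut [q23932] ⟨c23932, trivial⟩ (nd (nat_lit 251) (nat_lit 0) (cs (lf (nat_lit 28) (nat_lit 162)) (nd (nat_lit 250) (nat_lit 0) (cs (lf (nat_lit 29) (nat_lit 184)) (rf (nat_lit 0)))))) q24998 (by decide +kernel)
def q25186 : Q := Q.p (nat_lit 0x20000080000e00002000000000000000000000000000000000000000000000000000000000000000) (nat_lit 0x1e0000780007f8001de000278001040000100000000000000000000000000000000000000000000000000000000000000) (nat_lit 10)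
theorem c25186 : QOK q25186 := cut [q25138, q25141, q25147, q25134, q25135, q25159, q12743] ⟨c25138, c25141, c25147, c25134, c25135, c25159, c12743, trivial⟩ (nd (nat_lit 294) (nat_lit 0) (cs (lf (nat_lit 6) (nat_lit 272)) (nd (nat_lit 316) (nat_lit 0) (cs (nd (nat_lit 315) (nat_lit 0) (cs (rf (nat_lit 0)) (cs (nd (nat_lit 314) (nat_lit 0) (cs (lf (nat_lit 12) (nat_lit 291)) (nd (nat_lit 339) (nat_lit 0) (cs (rf (nat_lit 1)) (lf (nat_lit 5) (nat_lit 314)))))) (cs (nd (nat_lit 293) (nat_lit 0) (cs (lf (nat_lit 12) (nat_lit 270)) (nd (nat_lit 318) (nat_lit 0) (cs (lf (nat_lit 18) (nat_lit 293)) (nd (nat_lit 340) (nat_lit 0) (cs (lf (nat_lit 5) (nat_lit 315)) (rf (nat_lit 2)))))))) (nd (nat_lit 314) (nat_lit 0) (cs (lf (nat_lit 12) (nat_lit 291)) (nd (nat_lit 291) (nat_lit 0) (cs (lf (nat_lit 22) (nat_lit 291)) (nd (nat_lit 335) (nat_lit 0) (cs (lf (nat_lit 10) (nat_lit 313)) (nd (nat_lit 340) (nat_lit 0) (cs (nd (nat_lit 318) (nat_lit 0) (cs (lf (nat_lit 5) (nat_lit 315)) (nd (nat_lit 319) (nat_lit 0)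 (cs (lf (nat_lit 18) (nat_lit 294)) (lf (nat_lit 38) (nat_lit 252)))))) (lf (nat_lit 4) (nat_lit 314)))))))))))))) (cs (nd (nat_lit 339) (nat_lit 0) (cs (rf (nat_lit 3)) (cs (rf (nat_lit 4)) (nd (nat_lit 338) (nat_lit 0) (cs (lf (nat_lit 30) (nat_lit 272)) (nd (nat_lit 340) (nat_lit 0) (cs (lf (nat_lit 29) (nat_lit 273)) (rf (nat_lit 5))))))))) (cs (nd (nat_lit 339) (nat_lit 0) (cs (rf (nat_lit 3)) (cs (rf (nat_lit 4)) (nd (nat_lit 338) (nat_lit 0) (cs (lf (nat_lit 30) (nat_lit 272)) (nd (nat_lit 292) (nat_lit 0) (cs (lf (nat_lit 13) (nat_lit 270)) (nd (nat_lit 340) (nat_lit 0) (cs (lf (nat_lit 29) (nat_lit 273)) (nd (nat_lit 341) (nat_lit 0) (cs (lf (nat_lit 18) (nat_lit 316)) (nd (nat_lit 319) (nat_lit 0) (cs (nd (nat_lit 318) (nat_lit 0) (cs (lf (nat_lit 38) (nat_lit 252)) (lf (nat_lit 12) (nat_lit 315)))) (lf (nat_lit 17) (nat_lit 316))))))))))))))) (nd (nat_lit 315) (nat_lit 0) (cs (rf (nat_lit 0)) (cs (nd (nat_lit 338) (nat_lit 0) (cs (lf (nat_lit 30) (nat_lit 272)) (nd (nat_lit 314) (nat_lit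 0) (cs (lf (nat_lit 12) (nat_lit 291)) (rf (nat_lit 1)))))) (cs (nd (nat_lit 338) (nat_lit 0) (cs (lf (nat_lit 30) (nat_lit 272)) (nd (nat_lit 314) (nat_lit 0) (cs (lf (nat_lit 12) (nat_lit 291)) (nd (nat_lit 292) (nat_lit 0) (cs (rf (nat_lit 6)) (lf (nat_lit 23) (nat_lit 291)))))))) (nd (nat_lit 360) (nat_lit 0) (cs (lf (nat_lit 31) (nat_lit 272)) (nd (nat_lit 293) (nat_lit 0) (cs (lf (nat_lit 12) (nat_lit 270)) (nd (nat_lit 318) (nat_lit 0) (cs (lf (nat_lit 18) (nat_lit 293)) (nd (nat_lit 337) (nat_lit 0) (cs (lf (nat_lit 11) (nat_lit 314)) (nd (nat_lit 359) (nat_lit 0) (cs (lf (nat_lit 29) (nat_lit 293)) (lf (nat_lit 30) (nat_lit 293)))))))))))))))))))))) q25186 (by decide +kernel)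
def q25189 : Q := Q.p (nat_lit 0x4000020000080000200000000000000010000000000000000000000000000000000000000000000000000) (nat_lit 0x10000000000000000c00007000004000000000000000000000000000000000000000000000000000) (nat_lit 4)
theorem c25189 : QOK q25189 := cut [q25188] ⟨c25188, trivial⟩ (nd (nat_lit 251) (nat_lit 0) (cs (lf (nat_lit 40) (nat_lit 250)) (rf (nat_lit 0)))) q25189 (by decide +kernel)
def q25191 : Q := Q.p (nat_lit 0x8000020000080000200000000000000010000000000000000000000000000000000000000000000000000) (nat_lit 0x4000010000040000000000000000c00007000004000000000000000000000000000000000000000000000000000) (nat_lit 5)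
theorem c25191 : QOK q25191 := cut [q25188] ⟨c25188, trivial⟩ (nd (nat_lit 340) (nat_lit 0) (cs (lf (nat_lit 29) (nat_lit 273)) (nd (nat_lit 251) (nat_lit 0) (cs (lf (nat_lit 28) (nat_lit 251)) (rf (nat_lit 0)))))) q25191 (by decide +kernel)
def q25247 : Q := Q.p (nat_lit 0x20000080000e00000000000000010000000000000000000000000000000000000000000000000000) (nat_lit 0x1b80006f0001dc00077c0000c0000f0000740000c000000000000000000000000000000000000000000000000000) (nat_lit 13)
theorem c25247 : QOK q25247 := cut [q12695, q25207, q23412, q25188, q12772] ⟨c12695, c25207, c23412, c25188, c12772, trivial⟩ (nd (nat_lit 316) (nat_lit 0) (cs (nd (nat_lit 296) (nat_lit 0) (cs (rf (nat_lit 0)) (cs (rf (nat_lit 1)) (cs (nd (nat_lit 294) (nat_lit 0) (cs (lf (nat_lit 12) (nat_lit 271)) (nd (nat_lit 229) (nat_lit 0) (cs (lf (nat_lit 37) (nat_lit 228)) (nd (nat_lit 339) (nat_lit 0) (cs (lf (nat_lit 30) (nat_lit 273)) (nd (nat_lit 297) (nat_lit 0) (cs (lf (nat_lit 6) (nat_lit 294)) (nd (nat_lit 319) (nat_lit 0) (cs (lf (nat_lit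 5) (nat_lit 294)) (nd (nat_lit 341) (nat_lit 0) (cs (lf (nat_lit 42) (nat_lit 274)) (nd (nat_lit 342) (nat_lit 0) (cs (lf (nat_lit 29) (nat_lit 275)) (lf (nat_lit 2) (nat_lit 316)))))))))))))))) (nd (nat_lit 315) (nat_lit 0) (cs (lf (nat_lit 12) (nat_lit 292)) (nd (nat_lit 251) (nat_lit 0) (cs (rf (nat_lit 2)) (nd (nat_lit 293) (nat_lit 0) (cs (lf (nat_lit 13) (nat_lit 271)) (nd (nat_lit 292) (nat_lit 0) (cs (lf (nat_lit 18) (nat_lit 292)) (nd (nat_lit 290) (nat_lit 0) (cs (nd (nat_lit 339) (nat_lit 0) (cs (lf (nat_lit 30) (nat_lit 273)) (nd (nat_lit 250) (nat_lit 0) (cs (lf (nat_lit 47) (nat_lit 228)) (nd (nat_lit 248) (nat_lit 0) (cs (lf (nat_lit 1) (nat_lit 248)) (nd (nat_lit 270) (nat_lit 0) (cs (nd (nat_lit 337) (nat_lit 0) (cs (lf (nat_lit 42) (nat_lit 270)) (lf (nat_lit 45) (nat_lit 248)))) (lf (nat_lit 24) (nat_lit 226)))))))))) (lf (nat_lit 1) (nat_lit 290)))))))))))))))) (cs (nd (nat_lit 251) (nat_lit 0) (cs (lf (nat_lit 41) (nat_lit 250)) (rf (nat_lit 3)))) (nd (nat_lit 296) (nat_lit 0)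 (cs (rf (nat_lit 0)) (cs (rf (nat_lit 1)) (cs (nd (nat_lit 294) (nat_lit 0) (cs (lf (nat_lit 12) (nat_lit 271)) (nd (nat_lit 338) (nat_lit 0) (cs (lf (nat_lit 30) (nat_lit 272)) (nd (nat_lit 297) (nat_lit 0) (cs (lf (nat_lit 6) (nat_lit 294)) (nd (nat_lit 319) (nat_lit 0) (cs (lf (nat_lit 5) (nat_lit 294)) (nd (nat_lit 318) (nat_lit 0) (cs (lf (nat_lit 11) (nat_lit 315)) (rf (nat_lit 4)))))))))))) (nd (nat_lit 293) (nat_lit 0) (cs (lf (nat_lit 13) (nat_lit 271)) (nd (nat_lit 339) (nat_lit 0) (cs (lf (nat_lit 30) (nat_lit 273)) (nd (nat_lit 338) (nat_lit 0) (cs (lf (nat_lit 41) (nat_lit 272)) (nd (nat_lit 315) (nat_lit 0) (cs (lf (nat_lit 12) (nat_lit 292)) (nd (nat_lit 249) (nat_lit 0) (cs (nd (nat_lit 318) (nat_lit 0) (cs (lf (nat_lit 23) (nat_lit 292)) (nd (nat_lit 337) (nat_lit 0) (cs (lf (nat_lit 11) (nat_lit 314)) (lf (nat_lit 6) (nat_lit 315)))))) (lf (nat_lit 25) (nat_lit 249))))))))))))))))))) q25247 (by decide +kernel)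
def q25255 : Q := Q.p (nat_lit 0x38000080000200000800000000000000000000000000000000000000000000000000000000000000) (nat_lit 0x13800044000038000000000000000000000000000000000000000000000000000000000000000000000000) (nat_lit 5)
theorem c25255 : QOK q25255 := cut [q25254] ⟨c25254, trivial⟩ (nd (nat_lit 318) (nat_lit 0) (cs (lf (nat_lit 29) (nat_lit 251)) (rf (nat_lit 0)))) q25255 (by decide +kernel)
def q25357 : Q := Q.p (nat_lit 0x18000000000280000e00002000000000000000000000000000000000000000000000000000000000000000) (nat_lit 0x760000e00007b0000100003180000000000000000000000000000000000000000000000000000000000000000000) (nat_lit 10)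
theorem c25357 : QOK q25357 := cut [q25349, q25352] ⟨c25349, c25352, trivial⟩ (nd (nat_lit 341) (nat_lit 0) (cs (nd (nat_lit 362) (nat_lit 0) (cs (lf (nat_lit 38) (nat_lit 274)) (lf (nat_lit 26) (nat_lit 273)))) (cs (rf (nat_lit 0)) (nd (nat_lit 317) (nat_lit 0) (cs (lf (nat_lit 29) (nat_lit 273)) (nd (nat_lit 296) (nat_lit 0) (cs (lf (nat_lit 30) (nat_lit 273)) (nd (nat_lit 276) (nat_lit 0) (cs (lf (nat_lit 6) (nat_lit 273)) (nd (nat_lit 271) (nat_lit 0) (cs (lf (nat_lit 1) (nat_lit 271)) (rf (nat_lit 1))))))))))))) q25357 (by decide +kernel)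
def q25371 : Q := Q.p (nat_lit 0x9000038000000000000000000000000000000000000000000000000000000000000000000000000000000000000) (nat_lit 0xe60001c0000700000000000000000000000000000000000000000000000000000000000000000000000000000000) (nat_lit 6)
theorem c25371 : QOK q25371 := cut [q25370] ⟨c25370, trivial⟩ (nd (nat_lit 342) (nat_lit 0) (cs (lf (nat_lit 10) (nat_lit 338)) (rf (nat_lit 0)))) q25371 (by decide +kernel)
def q25385 : Q := Q.p (nat_lit 0x18000000000080000600000000000000000000000000000000000000000000000000000000000000000000) (nat_lit 0x400007000004000020000100000000000000000000000000000000000000000000000000000000000000000000000000) (nat_lit 4)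
theorem c25385 : QOK q25385 := cut [q12762] ⟨c12762, trivial⟩ (nd (nat_lit 317) (nat_lit 0) (cs (lf (nat_lit 29) (nat_lit 273)) (rf (nat_lit 0)))) q25385 (by decide +kernel)
def q25388 : Q := Q.p (nat_lit 0x18000000000080000200000000000000000000000000000000000000000000000000000000000000000000) (nat_lit 0x500002400003c000000000000000800000000000000000000000000000000000000000000000000000000000000) (nat_lit 5)
theorem c25388 : QOK q25388 := cut [q25387] ⟨c25387, trivial⟩ (nd (nat_lit 317) (nat_lit 0) (cs (lf (nat_lit 29) (nat_lit 273)) (rf (nat_lit 0)))) q25388 (by decide +kernel)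
def q25410 : Q := Q.p (nat_lit 0x40000100000400001000000000000000000000000000000000000000000000000000000000000000) (nat_lit 0x8000020000080000000000800006000008000000000000000000000000000000000000000000000000000) (nat_lit 4)
theorem c25410 : QOK q25410 := cut [q25409] ⟨c25409, trivial⟩ (nd (nat_lit 317) (nat_lit 0) (cs (lf (nat_lit 41) (nat_lit 251)) (rf (nat_lit 0)))) q25410 (by decide +kernel)
def q25415 : Q := Q.p (nat_lit 0x1c0000000000800002000000000000000000000000000000000000000000000000000000000000000) (nat_lit 0x80000300003f0000e30007c00003000008000000000000000000000000000000000000000000000000000000000000000) (nat_lit 8)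
theorem c25415 : QOK q25415 := cut [q13110, q13118, q13125, q21921] ⟨c13110, c13118, c13125, c21921, trivial⟩ (nd (nat_lit 321) (nat_lit 0) (cs (rf (nat_lit 0)) (cs (rf (nat_lit 1)) (cs (rf (nat_lit 2)) (rf (nat_lit 3)))))) q25415 (by decide +kernel)
def q25426 : Q := Q.p (nat_lit 0x40000100000c00001000000000000000000000000000000000000000000000000000000000000000) (nat_lit 0x280001a00000e0000000000000004000000000000000000000000000000000000000000000000000000000) (nat_lit 5)
theorem c25426 : QOK q25426 := cut [q25425] ⟨c25425, trivial⟩ (nd (nat_lit 319) (nat_lit 0) (cs (lf (nat_lit 29) (nat_lit 252)) (rf (nat_lit 0)))) q25426 (by decide +kernel)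
def q25549 : Q := Q.p (nat_lit 0xe00003000000000010000000000000000000000000000000000000000000000000000) (nat_lit 0x100001180000e0000780006e0001b8000000000000000000000000000000000000000000000) (nat_lit 11)
theorem c25549 : QOK q25549 := cut [q25541] ⟨c25541, trivial⟩ (nd (nat_lit 272) (nat_lit 0) (cs (lf (nat_lit 12) (nat_lit 249)) (nd (nat_lit 250) (nat_lit 0) (cs (lf (nat_lit 23) (nat_lit 249)) (nd (nat_lit 251) (nat_lit 0) (cs (lf (nat_lit 18) (nat_lit 250)) (nd (nat_lit 228) (nat_lit 0) (cs (lf (nat_lit 23) (nat_lit 227)) (nd (nat_lit 206) (nat_lit 0) (cs (lf (nat_lit 24) (nat_lit 184)) (nd (nat_lit 183) (nat_lit 0) (cs (lf (nat_lit 46) (nat_lit 183)) (nd (nat_lit 207) (nat_lit 0) (cs (lf (nat_lit 35) (nat_lit 184)) (nd (nat_lit 229) (nat_lit 0) (cs (lf (nat_lit 29) (nat_lit 207)) (rf (nat_lit 0)))))))))))))))))) q25549 (by decide +kernel)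
def q25551 : Q := Q.p (nat_lit 0xf00003000000000000000000000000000000000000000000000000000000000000000) (nat_lit 0x80001000000e00001800004000010000000000000000000000000000000000000000000000) (nat_lit 5)
theorem c25551 : QOK q25551 := cut [q14897] ⟨c14897, trivial⟩ (nd (nat_lit 250) (nat_lit 0) (cs (lf (nat_lit 23) (nat_lit 249)) (nd (nat_lit 251) (nat_lit 0) (cs (lf (nat_lit 18) (nat_lit 250)) (rf (nat_lit 0)))))) q25551 (by decide +kernel)
def q25564 : Q := Q.p (nat_lit 0x1e00003800000000000000000000000000000000000000000000000000000000000000) (nat_lit 0x7c0001f0000ec0000000000000000000000000000000000000000000000000000000000000000000000000) (nat_lit 8)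
theorem c25564 : QOK q25564 := cut [q13439] ⟨c13439, trivial⟩ (nd (nat_lit 298) (nat_lit 0) (cs (lf (nat_lit 5) (nat_lit 273)) (nd (nat_lit 295) (nat_lit 0) (cs (lf (nat_lit 11) (nat_lit 272)) (nd (nat_lit 342) (nat_lit 0) (cs (lf (nat_lit 43) (nat_lit 253)) (nd (nat_lit 317) (nat_lit 0) (cs (lf (nat_lit 30) (nat_lit 251)) (rf (nat_lit 0)))))))))) q25564 (by decide +kernel)
def q25570 : Q := Q.p (nat_lit 0xe00003800000000000000000000000000000000000000000000000000000000000000) (nat_lit 0x20000080000000000600003800004000010000000000000000000000000000000000000000000000) (nat_lit 5)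
theorem c25570 : QOK q25570 := cut [q25568] ⟨c25568, trivial⟩ (nd (nat_lit 250) (nat_lit 0) (cs (lf (nat_lit 0) (nat_lit 249)) (nd (nat_lit 228) (nat_lit 0) (cs (lf (nat_lit 23) (nat_lit 227)) (rf (nat_lit 0)))))) q25570 (by decide +kernel)
def q25581 : Q := Q.p (nat_lit 0xf00003c00000000000000000000000000000000000000000000000000000000000000) (nat_lit 0xe0000000000000001800004000010000000000000000000000000000000000000000000000) (nat_lit 4)
theorem c25581 : QOK q25581 := cut [q14897] ⟨c14897, trivial⟩ (nd (nat_lit 293) (nat_lit 0) (cs (lf (nat_lit 10) (nat_lit 271)) (rf (nat_lit 0)))) q25581 (by decide +kernel)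
def q25587 : Q := Q.p (nat_lit 0xe00003800000000000000000000000000000000000000000000000000000000000000) (nat_lit 0x10000060000180000600003800008000000000000000000000000000000000000000000000000000) (nat_lit 6)
theorem c25587 : QOK q25587 := cut [q12679] ⟨c12679, trivial⟩ (nd (nat_lit 250) (nat_lit 0) (cs (lf (nat_lit 0) (nat_lit 249)) (nd (nat_lit 272) (nat_lit 0) (cs (lf (nat_lit 12) (nat_lit 249)) (nd (nat_lit 227) (nat_lit 0) (cs (lf (nat_lit 22) (nat_lit 227)) (rf (nat_lit 0)))))))) q25587 (by decide +kernel)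
def q25603 : Q := Q.p (nat_lit 0x1c0000200001c00003000000000000000000000000000000000000000000000000000000000000000) (nat_lit 0x380000e20007c00000300000e00000000000000000000000000000000000000000000000000000000000000) (nat_lit 7)
theorem c25603 : QOK q25603 := cut [q5304, q13024, q13144, q15118, q11587] ⟨c5304, c13024, c13144, c15118, c11587, trivial⟩ (nd (nat_lit 251) (nat_lit 0) (cs (rf (nat_lit 0)) (nd (nat_lit 321) (nat_lit 0) (cs (rf (nat_lit 1)) (cs (rf (nat_lit 2)) (cs (rf (nat_lit 3)) (nd (nat_lit 344) (nat_lit 0) (cs (lf (nat_lit 4) (nat_lit 318)) (nd (nat_lit 322) (nat_lit 0) (cs (lf (nat_lit 5) (nat_lit 319)) (nd (nat_lit 298) (nat_lit 0) (cs (rf (nat_lit 4)) (lf (nat_lit 18) (nat_lit 297)))))))))))))) q25603 (by decide +kernel)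
def q25613 : Q := Q.p (nat_lit 0x400001000004000018000000000000000000000000000000000000000000000000000) (nat_lit 0x1000000000000000030000e0000080000000000000000000000000000000000000000000000) (nat_lit 4)
theorem c25613 : QOK q25613 := cut [q1430] ⟨c1430, trivial⟩ (nd (nat_lit 209) (nat_lit 0) (cs (lf (nat_lit 35) (nat_lit 186)) (rf (nat_lit 0)))) q25613 (by decide +kernel)
def q25639 : Q := Q.p (nat_lit 0xc0000100000000001e000000000000000000000000000000000000000000000000000) (nat_lit 0x40000380000e00004c00000000038000040000100000000000000000000000000000000000) (nat_lit 7)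
theorem c25639 : QOK q25639 := cut [q23805, q25634] ⟨c23805, c25634, trivial⟩ (nd (nat_lit 227) (nat_lit 0) (cs (lf (nat_lit 11) (nat_lit 204)) (nd (nat_lit 249) (nat_lit 0) (cs (rf (nat_lit 0)) (cs (nd (nat_lit 185) (nat_lit 0) (cs (lf (nat_lit 44) (nat_lit 185)) (nd (nat_lit 250) (nat_lit 0) (cs (lf (nat_lit 2) (nat_lit 249)) (nd (nat_lit 272) (nat_lit 0) (cs (lf (nat_lit 24) (nat_lit 183)) (lf (nat_lit 20) (nat_lit 249)))))))) (nd (nat_lit 250) (nat_lit 0) (cs (lf (nat_lit 2) (nat_lit 249)) (nd (nat_lit 185) (nat_lit 0) (cs (lf (nat_lit 44) (nat_lit 185)) (nd (nat_lit 272) (nat_lit 0) (cs (lf (nat_lit 20) (nat_lit 249)) (rf (nat_lit 1))))))))))))) q25639 (by decide +kernel)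
def q25645 : Q := Q.p (nat_lit 0x40000100000000001c000000000000000000000000000000000000000000000000000) (nat_lit 0x5c000220000bc000000000000000000000000000000000000000000000) (nat_lit 6)
theorem c25645 : QOK q25645 := cut [q117] ⟨c117, trivial⟩ (nd (nat_lit 230) (nat_lit 0) (cs (lf (nat_lit 47) (nat_lit 185)) (nd (nat_lit 209) (nat_lit 0) (cs (rf (nat_lit 0)) (lf (nat_lit 35) (nat_lit 186)))))) q25645 (by decide +kernel)
def q25756 : Q := Q.p (nat_lit 0x10000040000100000400000000000000000000000000000000000000000000000000000000000000) (nat_lit 0x280000e000028000000000000000000000000000000000000000000000000000000000000000000000000000000) (nat_lit 4)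
theorem c25756 : QOK q25756 := cut [q25755] ⟨c25755, trivial⟩ (nd (nat_lit 337) (nat_lit 0) (cs (lf (nat_lit 40) (nat_lit 249)) (rf (nat_lit 0)))) q25756 (by decide +kernel)
def q25762 : Q := Q.p (nat_lit 0x140000d00000400000000010000000000000000000000000000000000000000000000000000) (nat_lit 0x80000a000000000000000300002e000038000020000000000000000000000000000000000000000) (nat_lit 7)
theorem c25762 : QOK q25762 := cut [q25760] ⟨c25760, trivial⟩ (nd (nat_lit 293) (nat_lit 0) (cs (lf (nat_lit 14) (nat_lit 271)) (nd (nat_lit 228) (nat_lit 0) (cs (lf (nat_lit 41) (nat_lit 227)) (rf (nat_lit 0)))))) q25762 (by decide +kernel)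
def q25764 : Q := Q.p (nat_lit 0x40000d00001400000000000000000000000000000000000000000000000000000000000000) (nat_lit 0x10000000000000000a00001800002000008000000000000000000000000000000000000000000000) (nat_lit 4)
theorem c25764 : QOK q25764 := cut [q25763] ⟨c25763, trivial⟩ (nd (nat_lit 249) (nat_lit 0) (cs (lf (nat_lit 2) (nat_lit 249)) (rf (nat_lit 0)))) q25764 (by decide +kernel)
def q25778 : Q := Q.p (nat_lit 0xc0000100000400000000000000000000000000000000000000000000000000000000000000) (nat_lit 0x2000000000000000000000380000e000028000000000000000000000000000000000000000000000) (nat_lit 5)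
theorem c25778 : QOK q25778 := cut [q22816] ⟨c22816, trivial⟩ (nd (nat_lit 228) (nat_lit 0) (cs (lf (nat_lit 29) (nat_lit 228)) (rf (nat_lit 0)))) q25778 (by decide +kernel)
def q25839 : Q := Q.p (nat_lit 0x40000100000d00003000000000000000000000000000000000000000000000000000000000000000) (nat_lit 0x8000020000000000080000e00002000000000000000000000000000000000000000000000000000000000) (nat_lit 4)
theorem c25839 : QOK q25839 := cut [q14356] ⟨c14356, trivial⟩ (nd (nat_lit 317) (nat_lit 0) (cs (lf (nat_lit 41) (nat_lit 251)) (rf (nat_lit 0)))) q25839 (by decide +kernel)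
def q25851 : Q := Q.p (nat_lit 0x300000c00003000000000000000000000000000000000000000000000000000000000000000) (nat_lit 0x780007e0001c00000000000000000000000000000000000000000000000000000000000000000000000000) (nat_lit 7)
theorem c25851 : QOK q25851 := cut [q25850] ⟨c25850, trivial⟩ (nd (nat_lit 319) (nat_lit 0) (cs (lf (nat_lit 42) (nat_lit 252)) (rf (nat_lit 0)))) q25851 (by decide +kernel)
def q25925 : Q := Q.p (nat_lit 0x200000c00002000000000010000000000000000000000000000000000000000000000000000) (nat_lit 0x380001f0001d80001300001000004000000000000000000000000000000000000000000000000000000000) (nat_lit 8)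
theorem c25925 : QOK q25925 := cut [q14739, q14744, q22569] ⟨c14739, c14744, c22569, trivial⟩ (nd (nat_lit 298) (nat_lit 0) (cs (rf (nat_lit 0)) (cs (rf (nat_lit 1)) (rf (nat_lit 2))))) q25925 (by decide +kernel)
def q25939 : Q := Q.p (nat_lit 0x280000e00000000000000000000000000000000000000000000000000000000000000000000) (nat_lit 0x754000f000038000000000000000000000000000000000000000000000000000000000000000) (nat_lit 7)
theorem c25939 : QOK q25939 := cut [q25938] ⟨c25938, trivial⟩ (nd (nat_lit 276) (nat_lit 0) (cs (lf (nat_lit 11) (nat_lit 272)) (rf (nat_lit 0)))) q25939 (by decide +kernel)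
def q26001 : Q := Q.p (nat_lit 0x3c000000000000000000000000000000000000000000000000000000000000000000000000000000000000) (nat_lit 0x1dc00002000000000000000000000000000000000000000000000000000000000000000000000000000000000000) (nat_lit 4)
theorem c26001 : QOK q26001 := cut [q26000] ⟨c26000, trivial⟩ (nd (nat_lit 363) (nat_lit 0) (cs (lf (nat_lit 5) (nat_lit 338)) (rf (nat_lit 0)))) q26001 (by decide +kernel)
def q26053 : Q := Q.p (nat_lit 0x800002000008000020000000000000000000000000000000000000000000000000000) (nat_lit 0x100000600001000000000010000040000100000000000000000000000000000000000000000000000) (nat_lit 4)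
theorem c26053 : QOK q26053 := cut [q26052] ⟨c26052, trivial⟩ (nd (nat_lit 298) (nat_lit 0) (cs (lf (nat_lit 28) (nat_lit 209)) (rf (nat_lit 0)))) q26053 (by decide +kernel)
def q26066 : Q := Q.p (nat_lit 0x800002c00000000004000000000000000000000000000000000000000000000000000) (nat_lit 0x60000120001f8000000000300000c0000200000000000000000000000000000000000) (nat_lit 5)
theorem c26066 : QOK q26066 := cut [q2074, q26064] ⟨c2074, c26064, trivial⟩ (nd (nat_lit 228) (nat_lit 0) (cs (rf (nat_lit 0)) (nd (nat_lit 252) (nat_lit 0) (cs (lf (nat_lit 23) (nat_lit 227)) (rf (nat_lit 1)))))) q26066 (by decide +kernel)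
def q26180 : Q := Q.p (nat_lit 0x800000400001000004000010000000000000000000000000000000000000000000000) (nat_lit 0x80000780000a000000000000000280000a0000000000000000000000000000000000000000) (nat_lit 6)
theorem c26180 : QOK q26180 := cut [q26177] ⟨c26177, trivial⟩ (nd (nat_lit 249) (nat_lit 0) (cs (lf (nat_lit 41) (nat_lit 183)) (nd (nat_lit 161) (nat_lit 0) (cs (lf (nat_lit 46) (nat_lit 161)) (nd (nat_lit 163) (nat_lit 0) (cs (lf (nat_lit 34) (nat_lit 162)) (rf (nat_lit 0)))))))) q26180 (by decide +kernel)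
def q26194 : Q := Q.p (nat_lit 0x800000400001000004000000000000000000000000000000000000000000000000000) (nat_lit 0x8000ee0001780000a00000800002000008000000000000000000000000000000000000000000000) (nat_lit 6)
theorem c26194 : QOK q26194 := cut [q17375, q26193] ⟨c17375, c26193, trivial⟩ (nd (nat_lit 272) (nat_lit 0) (cs (rf (nat_lit 0)) (rf (nat_lit 1)))) q26194 (by decide +kernel)
def q26197 : Q := Q.p (nat_lit 0x600001000004000000000000000000000000000000000000000000000000000) (nat_lit 0x800000000008000000000300000c0000200000000000000000000000000000000000) (nat_lit 4)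
theorem c26197 : QOK q26197 := cut [q26196] ⟨c26196, trivial⟩ (nd (nat_lit 184) (nat_lit 0) (cs (lf (nat_lit 41) (nat_lit 183)) (rf (nat_lit 0)))) q26197 (by decide +kernel)
def q26212 : Q := Q.p (nat_lit 0xc0000300000400001000000000000000000000000000000000000000000000000000) (nat_lit 0x180000600001800000000000000080000280000a000000000000000000000000000000000000000000000) (nat_lit 6)
theorem c26212 : QOK q26212 := cut [q26211] ⟨c26211, trivial⟩ (nd (nat_lit 181) (nat_lit 0) (cs (lf (nat_lit 46) (nat_lit 181)) (rf (nat_lit 0)))) q26212 (by decide +kernel)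
def q26247 : Q := Q.p (nat_lit 0x700001000000000000000000000000000000000000000000000000000000000) (nat_lit 0x780008c0000f80000000000000000000000000000000000000000000000000000000) (nat_lit 5)
theorem c26247 : QOK q26247 := cut [q26241, q26243] ⟨c26241, c26243, trivial⟩ (nd (nat_lit 247) (nat_lit 0) (cs (rf (nat_lit 0)) (cs (rf (nat_lit 1)) (nd (nat_lit 269) (nat_lit 0) (cs (lf (nat_lit 11) (nat_lit 246)) (nd (nat_lit 225) (nat_lit 0) (cs (lf (nat_lit 23) (nat_lit 224)) (nd (nat_lit 251) (nat_lit 0) (cs (lf (nat_lit 22) (nat_lit 225)) (lf (nat_lit 10) (nat_lit 247))))))))))) q26247 (by decide +kernel)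
def q26269 : Q := Q.p (nat_lit 0x400001000004000000000000000000000000000000000000000000000000000) (nat_lit 0x800003000008000020000020000380000e0000280000000000000000000000000000000000) (nat_lit 6)
theorem c26269 : QOK q26269 := cut [q3767, q17204, q10249, q2512] ⟨c3767, c17204, c10249, c2512, trivial⟩ (nd (nat_lit 184) (nat_lit 0) (cs (rf (nat_lit 0)) (cs (rf (nat_lit 1)) (cs (nd (nat_lit 273) (nat_lit 0) (cs (lf (nat_lit 28) (nat_lit 184)) (nd (nat_lit 163) (nat_lit 0) (cs (lf (nat_lit 34) (nat_lit 162)) (rf (nat_lit 2)))))) (nd (nat_lit 251) (nat_lit 0) (cs (lf (nat_lit 29) (nat_lit 184)) (rf (nat_lit 3)))))))) q26269 (by decide +kernel)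
def q26274 : Q := Q.p (nat_lit 0x100000400001000004000000000000000000000000000000000000000000000000000) (nat_lit 0x80000380000e0000080000200000800002000000000000000000000000000000000000000000000000000) (nat_lit 6)
theorem c26274 : QOK q26274 := cut [q26272] ⟨c26272, trivial⟩ (nd (nat_lit 293) (nat_lit 0) (cs (lf (nat_lit 40) (nat_lit 205)) (nd (nat_lit 294) (nat_lit 0) (cs (lf (nat_lit 41) (nat_lit 227)) (rf (nat_lit 0)))))) q26274 (by decide +kernel)
def q26316 : Q := Q.p (nat_lit 0x800003000018000000000000000000000000000000000000000000000000000000000) (nat_lit 0x200000000000000060000060000100000400000000000000000000000000000000000000000) (nat_lit 4)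
theorem c26316 : QOK q26316 := cut [q26315] ⟨c26315, trivial⟩ (nd (nat_lit 233) (nat_lit 0) (cs (lf (nat_lit 6) (nat_lit 230)) (rf (nat_lit 0)))) q26316 (by decide +kernel)
def q26319 : Q := Q.p (nat_lit 0x200000800003000008000000000000000000000000000000000000000000000000000000000) (nat_lit 0x40000700001c0000400000400000000000000000000000000000000000000000000000000000000000000000000) (nat_lit 5)
theorem c26319 : QOK q26319 := cut [q21908] ⟨c21908, trivial⟩ (nd (nat_lit 320) (nat_lit 0) (cs (lf (nat_lit 28) (nat_lit 231)) (nd (nat_lit 319) (nat_lit 0) (cs (lf (nat_lit 29) (nat_lit 253)) (rf (nat_lit 0)))))) q26319 (by decide +kernel)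
def q26370 : Q := Q.p (nat_lit 0x800001c000000000000000000000000000000000000000000000000000) (nat_lit 0x4e0000300000e000000000000000000000000000000000000000000000) (nat_lit 5)
theorem c26370 : QOK q26370 := cut [q18354] ⟨c18354, trivial⟩ (nd (nat_lit 205) (nat_lit 0) (cs (lf (nat_lit 4) (nat_lit 205)) (rf (nat_lit 0)))) q26370 (by decide +kernel)
def q26462 : Q := Q.p (nat_lit 0x700001800000000000000000000000000000000000000000000000000000000) (nat_lit 0x100000700008c0000300000800002000000000000000000000000000000000000000000000) (nat_lit 6)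
theorem c26462 : QOK q26462 := cut [q26461] ⟨c26461, trivial⟩ (nd (nat_lit 247) (nat_lit 0) (cs (lf (nat_lit 12) (nat_lit 224)) (rf (nat_lit 0)))) q26462 (by decide +kernel)
def q26468 : Q := Q.p (nat_lit 0x2000005800006000000000000000000000000000000000000000000000000000) (nat_lit 0x80001300002000000000010000040000000000000000000000000000000000000000) (nat_lit 4)
theorem c26468 : QOK q26468 := cut [q5182] ⟨c5182, trivial⟩ (nd (nat_lit 229) (nat_lit 0) (cs (lf (nat_lit 4) (nat_lit 227)) (rf (nat_lit 0)))) q26468 (by decide +kernel)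
def q26526 : Q := Q.p (nat_lit 0x200001800006000000000000000000000000000000000000000000000000000) (nat_lit 0x700001c000010000000000000000c0000300000c0000000000000000000000000000000000) (nat_lit 7)
theorem c26526 : QOK q26526 := cut [q26524] ⟨c26524, trivial⟩ (nd (nat_lit 271) (nat_lit 0) (cs (lf (nat_lit 30) (nat_lit 205)) (nd (nat_lit 272) (nat_lit 0) (cs (lf (nat_lit 29) (nat_lit 205)) (rf (nat_lit 0)))))) q26526 (by decide +kernel)
def q26555 : Q := Q.p (nat_lit 0x900002400001000004000000000000000000000000000000000000000000000000000) (nat_lit 0xa0000680001200000000000000000000000000000000000000000000000000000000000000) (nat_lit 4)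
theorem c26555 : QOK q26555 := cut [q23640] ⟨c23640, trivial⟩ (nd (nat_lit 271) (nat_lit 0) (cs (lf (nat_lit 41) (nat_lit 205)) (rf (nat_lit 0)))) q26555 (by decide +kernel)
def q26561 : Q := Q.p (nat_lit 0x900002400001000004000000000000000000000000000000000000000000000000000) (nat_lit 0xa0001680001a00000000000000000000000000000000000000000000000000000000000000) (nat_lit 5)
theorem c26561 : QOK q26561 := cut [q26559] ⟨c26559, trivial⟩ (nd (nat_lit 271) (nat_lit 0) (cs (lf (nat_lit 41) (nat_lit 205)) (nd (nat_lit 251) (nat_lit 0) (cs (lf (nat_lit 7) (nat_lit 249)) (rf (nat_lit 0)))))) q26561 (by decide +kernel)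
def q26583 : Q := Q.p (nat_lit 0x800002000001800006000000000000000000000000000000000000000000000000000) (nat_lit 0xe00017e0001e000006000000000300000c0000300000000000000000000000000000000000) (nat_lit 9)
theorem c26583 : QOK q26583 := cut [q26449, q4159, q26577, q26559] ⟨c26449, c4159, c26577, c26559, trivial⟩ (nd (nat_lit 250) (nat_lit 0) (cs (rf (nat_lit 0)) (cs (nd (nat_lit 272) (nat_lit 0) (cs (lf (nat_lit 42) (nat_lit 205)) (nd (nat_lit 251) (nat_lit 0) (cs (lf (nat_lit 19) (nat_lit 227)) (rf (nat_lit 1)))))) (cs (rf (nat_lit 2)) (nd (nat_lit 251) (nat_lit 0) (cs (lf (nat_lit 19) (nat_lit 227)) (nd (nat_lit 225) (nat_lit 0) (cs (lf (nat_lit 1) (nat_lit 225)) (nd (nat_lit 272) (nat_lit 0) (cs (lf (nat_lit 42) (nat_lit 205)) (nd (nat_lit 271) (nat_lit 0) (cs (lf (nat_lit 41) (nat_lit 205)) (nd (nat_lit 269) (nat_lit 0) (cs (lf (nat_lit 13) (nat_lit 247)) (rf (nat_lit 3)))))))))))))))) q26583 (by decide +kernel)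
def q26650 : Q := Q.p (nat_lit 0x800002000001800013000000000000000000000000000000000000000000000000000) (nat_lit 0x8000020000040000100000e000000000000000000000000000000000000000000000000000000000) (nat_lit 4)
theorem c26650 : QOK q26650 := cut [q1225] ⟨c1225, trivial⟩ (nd (nat_lit 230) (nat_lit 0) (cs (rf (nat_lit 0)) (lf (nat_lit 19) (nat_lit 204)))) q26650 (by decide +kernel)
def q26655 : Q := Q.p (nat_lit 0x1000007000000000000000000000000000000000000000000000000000) (nat_lit 0x2380000c00038000000000000000000000000000000000000000000000) (nat_lit 5)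
theorem c26655 : QOK q26655 := cut [q26654] ⟨c26654, trivial⟩ (nd (nat_lit 203) (nat_lit 0) (cs (lf (nat_lit 5) (nat_lit 203)) (rf (nat_lit 0)))) q26655 (by decide +kernel)
def q26769 : Q := Q.p (nat_lit 0x800002000001000006000000000000000000000000000000000000000000000000000) (nat_lit 0x1300001c000028000000000380000e0000280000000000000000000000000000000000) (nat_lit 6)
theorem c26769 : QOK q26769 := cut [q24332, q26626, q2074, q15320] ⟨c24332, c26626, c2074, c15320, trivial⟩ (nd (nat_lit 250) (nat_lit 0) (cs (rf (nat_lit 0)) (cs (rf (nat_lit 1)) (nd (nat_lit 251) (nat_lit 0) (cs (rf (nat_lit 2)) (rf (nat_lit 3))))))) q26769 (by decide +kernel)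
def q26853 : Q := Q.p (nat_lit 0x800002000000000016000000000000000000000000000000000000000000000000000) (nat_lit 0x800002b00017c0001f0000fe00009800038000060000180000000000000000000000000000000000) (nat_lit 13)
theorem c26853 : QOK q26853 := cut [q1225, q1140, q24332, q1266, q26834, q26597, q1155] ⟨c1225, c1140, c24332, c1266, c26834, c26597, c1155, trivial⟩ (nd (nat_lit 230) (nat_lit 0) (cs (rf (nat_lit 0)) (cs (nd (nat_lit 252) (nat_lit 0) (cs (rf (nat_lit 1)) (cs (nd (nat_lit 250) (nat_lit 0) (cs (nd (nat_lit 251) (nat_lit 0) (cs (lf (nat_lit 5) (nat_lit 250)) (nd (nat_lit 271) (nat_lit 0) (cs (lf (nat_lit 10) (nat_lit 249)) (nd (nat_lit 249) (nat_lit 0) (cs (lf (nat_lit 11) (nat_lit 248)) (nd (nat_lit 227) (nat_lit 0) (cs (lf (nat_lit 23) (nat_lit 226)) (lf (nat_lit 35) (nat_lit 183)))))))))) (cs (nd (nat_lit 297) (nat_lit 0) (cs (lf (nat_lit 42) (nat_lit 230)) (nd (nat_lit 251) (nat_lit 0) (cs (lf (nat_lit 5) (nat_lit 250)) (nd (nat_lit 271) (nat_lit 0) (cs (lf (nat_lit 10) (nat_lit 249)) (nd (nat_lit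 249) (nat_lit 0) (cs (lf (nat_lit 11) (nat_lit 248)) (nd (nat_lit 229) (nat_lit 0) (cs (lf (nat_lit 12) (nat_lit 226)) (nd (nat_lit 273) (nat_lit 0) (cs (lf (nat_lit 30) (nat_lit 207)) (nd (nat_lit 184) (nat_lit 0) (cs (lf (nat_lit 26) (nat_lit 184)) (lf (nat_lit 45) (nat_lit 184)))))))))))))))) (cs (nd (nat_lit 228) (nat_lit 0) (cs (rf (nat_lit 2)) (nd (nat_lit 297) (nat_lit 0) (cs (lf (nat_lit 42) (nat_lit 230)) (nd (nat_lit 229) (nat_lit 0) (cs (lf (nat_lit 0) (nat_lit 227)) (rf (nat_lit 3)))))))) (nd (nat_lit 297) (nat_lit 0) (cs (lf (nat_lit 42) (nat_lit 230)) (nd (nat_lit 251) (nat_lit 0) (cs (lf (nat_lit 5) (nat_lit 250)) (nd (nat_lit 227) (nat_lit 0) (cs (lf (nat_lit 22) (nat_lit 227)) (nd (nat_lit 226) (nat_lit 0) (cs (lf (nat_lit 7) (nat_lit 204)) (lf (nat_lit 21) (nat_lit 226)))))))))))))) (nd (nat_lit 227) (nat_lit 0) (cs (nd (nat_lit 207) (nat_lit 0) (cs (lf (nat_lit 11) (nat_lit 204)) (nd (nat_lit 229) (nat_lit 0) (cs (lf (nat_lit 0) (nat_lit 204)) (lf (nat_lit 1) (nat_lit 227)))))) (cs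 (nd (nat_lit 207) (nat_lit 0) (cs (lf (nat_lit 11) (nat_lit 204)) (nd (nat_lit 204) (nat_lit 0) (cs (lf (nat_lit 4) (nat_lit 204)) (nd (nat_lit 185) (nat_lit 0) (cs (lf (nat_lit 42) (nat_lit 185)) (nd (nat_lit 184) (nat_lit 0) (cs (lf (nat_lit 12) (nat_lit 181)) (rf (nat_lit 4)))))))))) (cs (nd (nat_lit 228) (nat_lit 0) (cs (lf (nat_lit 2) (nat_lit 227)) (nd (nat_lit 250) (nat_lit 0) (cs (lf (nat_lit 20) (nat_lit 227)) (rf (nat_lit 5)))))) (nd (nat_lit 207) (nat_lit 0) (cs (lf (nat_lit 11) (nat_lit 204)) (nd (nat_lit 274) (nat_lit 0) (cs (lf (nat_lit 47) (nat_lit 185)) (nd (nat_lit 273) (nat_lit 0) (cs (lf (nat_lit 41) (nat_lit 207)) (nd (nat_lit 271) (nat_lit 0) (cs (lf (nat_lit 13) (nat_lit 249)) (nd (nat_lit 249) (nat_lit 0) (cs (lf (nat_lit 35) (nat_lit 183)) (nd (nat_lit 270) (nat_lit 0) (cs (lf (nat_lit 41) (nat_lit 204)) (nd (nat_lit 183) (nat_lit 0) (cs (lf (nat_lit 40) (nat_lit 182)) (nd (nat_lit 250) (nat_lit 0) (cs (lf (nat_lit 2) (nat_lit 249)) (nd (nat_lit 228) (nat_lit 0) (cs (lf (nat_lit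 24) (nat_lit 161)) (lf (nat_lit 30) (nat_lit 205))))))))))))))))))))))))))) (nd (nat_lit 207) (nat_lit 0) (cs (lf (nat_lit 5) (nat_lit 205)) (rf (nat_lit 6))))))) q26853 (by decide +kernel)
def q26940 : Q := Q.p (nat_lit 0x800002000000000016000000000000000000000000000000000000000000000000000) (nat_lit 0x8100029c0007f00017c000ff80009e0000f800018000060000100000000000000000000000000000) (nat_lit 16)
theorem c26940 : QOK q26940 := cut [q1225, q26622, q26854, q26857, q3968, q24434, q26739, q26933] ⟨c1225, c26622, c26854, c26857, c3968, c24434, c26739, c26933, trivial⟩ (nd (nat_lit 230) (nat_lit 0) (cs (rf (nat_lit 0)) (cs (rf (nat_lit 1)) (nd (nat_lit 204) (nat_lit 0) (cs (rf (nat_lit 2)) (cs (rf (nat_lit 3)) (cs (nd (nat_lit 203) (nat_lit 0) (cs (rf (nat_lit 4)) (cs (rf (nat_lit 5)) (cs (nd (nat_lit 180) (nat_lit 0) (cs (lf (nat_lit 22) (nat_lit 180)) (nd (nat_lit 228) (nat_lit 0) (cs (lf (nat_lit 5) (nat_lit 203)) (nd (nat_lit 202) (nat_lit 0) (cs (lf (nat_lit 23) (nat_lit 179)) (lf (nat_lit 4) (nat_lit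 202)))))))) (nd (nat_lit 225) (nat_lit 0) (cs (lf (nat_lit 11) (nat_lit 202)) (nd (nat_lit 247) (nat_lit 0) (cs (rf (nat_lit 6)) (cs (nd (nat_lit 228) (nat_lit 0) (cs (lf (nat_lit 5) (nat_lit 203)) (nd (nat_lit 181) (nat_lit 0) (cs (lf (nat_lit 23) (nat_lit 180)) (nd (nat_lit 248) (nat_lit 0) (cs (lf (nat_lit 29) (nat_lit 181)) (nd (nat_lit 159) (nat_lit 0) (cs (lf (nat_lit 28) (nat_lit 159)) (nd (nat_lit 138) (nat_lit 0) (cs (lf (nat_lit 34) (nat_lit 137)) (nd (nat_lit 116) (nat_lit 0) (cs (lf (nat_lit 33) (nat_lit 115)) (nd (nat_lit 246) (nat_lit 0) (cs (lf (nat_lit 41) (nat_lit 180)) (nd (nat_lit 249) (nat_lit 0) (cs (lf (nat_lit 16) (nat_lit 224)) (nd (nat_lit 272) (nat_lit 0) (cs (nd (nat_lit 250) (nat_lit 0) (cs (lf (nat_lit 47) (nat_lit 183)) (lf (nat_lit 5) (nat_lit 247)))) (lf (nat_lit 4) (nat_lit 246)))))))))))))))))))) (nd (nat_lit 180) (nat_lit 0) (cs (lf (nat_lit 22) (nat_lit 180)) (nd (nat_lit 228) (nat_lit 0) (cs (lf (nat_lit 5) (nat_lit 203)) (nd (nat_lit 269) (nat_lit 0) (cs (lf (nat_lit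 35) (nat_lit 181)) (nd (nat_lit 290) (nat_lit 0) (cs (lf (nat_lit 40) (nat_lit 202)) (nd (nat_lit 270) (nat_lit 0) (cs (lf (nat_lit 29) (nat_lit 203)) (nd (nat_lit 291) (nat_lit 0) (cs (lf (nat_lit 41) (nat_lit 224)) (nd (nat_lit 272) (nat_lit 0) (cs (nd (nat_lit 250) (nat_lit 0) (cs (lf (nat_lit 47) (nat_lit 183)) (nd (nat_lit 273) (nat_lit 0) (cs (lf (nat_lit 29) (nat_lit 206)) (nd (nat_lit 249) (nat_lit 0) (cs (lf (nat_lit 19) (nat_lit 249)) (lf (nat_lit 1) (nat_lit 247)))))))) (lf (nat_lit 7) (nat_lit 268))))))))))))))))))))))))) (nd (nat_lit 203) (nat_lit 0) (cs (rf (nat_lit 4)) (cs (nd (nat_lit 181) (nat_lit 0) (cs (lf (nat_lit 23) (nat_lit 180)) (nd (nat_lit 225) (nat_lit 0) (cs (lf (nat_lit 11) (nat_lit 202)) (nd (nat_lit 207) (nat_lit 0) (cs (lf (nat_lit 22) (nat_lit 181)) (lf (nat_lit 10) (nat_lit 203)))))))) (cs (nd (nat_lit 224) (nat_lit 0) (cs (lf (nat_lit 10) (nat_lit 202)) (nd (nat_lit 202) (nat_lit 0) (cs (lf (nat_lit 11) (nat_lit 201)) (rf (nat_lit 7)))))) (nd (nat_lit 180) (nat_lit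 0) (cs (lf (nat_lit 22) (nat_lit 180)) (nd (nat_lit 202) (nat_lit 0) (cs (lf (nat_lit 23) (nat_lit 179)) (rf (nat_lit 7))))))))))))))))) q26940 (by decide +kernel)
def q26958 : Q := Q.p (nat_lit 0x200000800006000000000000000000000000000000000000000000000000000) (nat_lit 0x40000700001c000050000100000100000c000010000000000000000000000000000000000000000) (nat_lit 6)
theorem c26958 : QOK q26958 := cut [q23781, q26953, q26956] ⟨c23781, c26953, c26956, trivial⟩ (nd (nat_lit 271) (nat_lit 0) (cs (rf (nat_lit 0)) (cs (rf (nat_lit 1)) (nd (nat_lit 228) (nat_lit 0) (cs (lf (nat_lit 30) (nat_lit 205)) (rf (nat_lit 2))))))) q26958 (by decide +kernel)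
def q27030 : Q := Q.p (nat_lit 0x3000004000010000000000000000000000000000000000000000) (nat_lit 0x8000000000000000000000e0000380000a00000000000000000000000) (nat_lit 5)
theorem c27030 : QOK q27030 := cut [q27029] ⟨c27029, trivial⟩ (nd (nat_lit 138) (nat_lit 0) (cs (lf (nat_lit 29) (nat_lit 138)) (rf (nat_lit 0)))) q27030 (by decide +kernel)
def q27066 : Q := Q.p (nat_lit 0x7000004000010000000000000000000000000000000000000000) (nat_lit 0x140000000000b00006c0007e0000780000a00000000000000000000000) (nat_lit 9)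
theorem c27066 : QOK q27066 := cut [q27052, q27055] ⟨c27052, c27055, trivial⟩ (nd (nat_lit 139) (nat_lit 0) (cs (nd (nat_lit 117) (nat_lit 0) (cs (lf (nat_lit 33) (nat_lit 116)) (nd (nat_lit 161) (nat_lit 0) (cs (lf (nat_lit 36) (nat_lit 94)) (lf (nat_lit 30) (nat_lit 138)))))) (cs (nd (nat_lit 138) (nat_lit 0) (cs (lf (nat_lit 35) (nat_lit 116)) (rf (nat_lit 0)))) (cs (nd (nat_lit 161) (nat_lit 0) (cs (lf (nat_lit 30) (nat_lit 138)) (rf (nat_lit 1)))) (nd (nat_lit 161) (nat_lit 0) (cs (lf (nat_lit 30) (nat_lit 138)) (nd (nat_lit 183) (nat_lit 0) (cs (lf (nat_lit 29) (nat_lit 139)) (nd (nat_lit 180) (nat_lit 0) (cs (lf (nat_lit 1) (nat_lit 180)) (nd (nat_lit 116) (nat_lit 0) (cs (lf (nat_lit 25) (nat_lit 116)) (nd (nat_lit 140) (nat_lit 0) (cs (lf (nat_lit 35) (nat_lit 117)) (nd (nat_lit 141) (nat_lit 0) (cs (lf (nat_lit 6) (nat_lit 138)) (nd (nat_lit 159) (nat_lit 0) (cs (lf (nat_lit 15) (nat_lit 137)) (lf (nat_lit 12) (nat_lit 136)))))))))))))))))))) q27066 (by decide +kernel)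
def q27067 : Q := Q.p (nat_lit 0x3000004000010000000000000000000000000000000000000000) (nat_lit 0x800000000008000000000060000180000200000000000000000000000) (nat_lit 4)
theorem c27067 : QOK q27067 := cut [q27052] ⟨c27052, trivial⟩ (nd (nat_lit 138) (nat_lit 0) (cs (lf (nat_lit 29) (nat_lit 138)) (rf (nat_lit 0)))) q27067 (by decide +kernel)
def q27091 : Q := Q.p (nat_lit 0x6000010000040000000000000000000000000000000000000000) (nat_lit 0x800000000000000000000380000e00002800000000000000000000000) (nat_lit 5)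
theorem c27091 : QOK q27091 := cut [q2497] ⟨c2497, trivial⟩ (nd (nat_lit 140) (nat_lit 0) (cs (lf (nat_lit 41) (nat_lit 139)) (rf (nat_lit 0)))) q27091 (by decide +kernel)
def q27171 : Q := Q.p (nat_lit 0x600001c000000000000000000000000000000000000000000000) (nat_lit 0x80000300001c0002300001c000040000000000000000000000000000000000) (nat_lit 7)
theorem c27171 : QOK q27171 := cut [q27169] ⟨c27169, trivial⟩ (nd (nat_lit 181) (nat_lit 0) (cs (lf (nat_lit 0) (nat_lit 180)) (nd (nat_lit 158) (nat_lit 0) (cs (lf (nat_lit 22) (nat_lit 158)) (rf (nat_lit 0)))))) q27171 (by decide +kernel)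
def q27198 : Q := Q.p (nat_lit 0x600001c000000000000000000000000000000000000000000000) (nat_lit 0x80000300001c00023000010000040000000000000000000000000000000000) (nat_lit 6)
theorem c27198 : QOK q27198 := cut [q27169] ⟨c27169, trivial⟩ (nd (nat_lit 181) (nat_lit 0) (cs (lf (nat_lit 0) (nat_lit 180)) (rf (nat_lit 0)))) q27198 (by decide +kernel)
def q27199 : Q := Q.p (nat_lit 0x700001c000000000000000000000000000000000000000000000) (nat_lit 0x20000080000700000c00000000010000040000000000000000000000000000000000) (nat_lit 5)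
theorem c27199 : QOK q27199 := cut [q27084] ⟨c27084, trivial⟩ (nd (nat_lit 203) (nat_lit 0) (cs (lf (nat_lit 12) (nat_lit 180)) (rf (nat_lit 0)))) q27199 (by decide +kernel)
def q27291 : Q := Q.p (nat_lit 0x80000200000800002000000000000000000000000000000000000000000000) (nat_lit 0x1000004000010000000000100000c000010000000000000000000000000000000000) (nat_lit 4)
theorem c27291 : QOK q27291 := cut [q27290] ⟨c27290, trivial⟩ (nd (nat_lit 246) (nat_lit 0) (cs (lf (nat_lit 41) (nat_lit 180)) (rf (nat_lit 0)))) q27291 (by decide +kernel)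
def q27340 : Q := Q.p (nat_lit 0x6000018000000000000000000000000000000000000000000000) (nat_lit 0x1c0000700000f000000000070003fc000ff0000700000000000000000000000000000) (nat_lit 13)
theorem c27340 : QOK q27340 := cut [q20529, q27154, q27150, q27160, q18976, q27320] ⟨c20529, c27154, c27150, c27160, c18976, c27320, trivial⟩ (nd (nat_lit 227) (nat_lit 0) (cs (rf (nat_lit 0)) (cs (rf (nat_lit 1)) (nd (nat_lit 161) (nat_lit 0) (cs (rf (nat_lit 2)) (cs (rf (nat_lit 3)) (nd (nat_lit 162) (nat_lit 0) (cs (rf (nat_lit 4)) (nd (nat_lit 226) (nat_lit 0) (cs (lf (nat_lit 41) (nat_lit 160)) (nd (nat_lit 224) (nat_lit 0) (cs (lf (nat_lit 13) (nat_lit 202)) (nd (nat_lit 160) (nat_lit 0) (cs (lf (nat_lit 47) (nat_lit 138)) (nd (nat_lit 159) (nat_lit 0) (cs (lf (nat_lit 0) (nat_lit 158)) (nd (nat_lit 136) (nat_lit 0) (cs (lf (nat_lit 22) (nat_lit 136)) (nd (nat_lit 181) (nat_lit 0) (cs (lf (nat_lit 11) (nat_lit 158)) (nd (nat_lit 163) (nat_lit 0) (cs (lf (nat_lit 13) (nat_lit 159)) (rf (nat_lit 5))))))))))))))))))))))))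 q27340 (by decide +kernel)
def q27346 : Q := Q.p (nat_lit 0x4000010000040000100000000000000000000000000000000000) (nat_lit 0x800002000008000000000200000c00002000000000000000000000000) (nat_lit 4)
theorem c27346 : QOK q27346 := cut [q18482] ⟨c18482, trivial⟩ (nd (nat_lit 205) (nat_lit 0) (cs (lf (nat_lit 41) (nat_lit 139)) (rf (nat_lit 0)))) q27346 (by decide +kernel)
def q27347 : Q := Q.p (nat_lit 0x4000010000040000100000000000000000000000000000000000) (nat_lit 0x800002000008000000000080000600000800000000000000000000000) (nat_lit 4)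
theorem c27347 : QOK q27347 := cut [q18530] ⟨c18530, trivial⟩ (nd (nat_lit 205) (nat_lit 0) (cs (lf (nat_lit 41) (nat_lit 139)) (rf (nat_lit 0)))) q27347 (by decide +kernel)
def q27351 : Q := Q.p (nat_lit 0x2000001000014000010000040000000000000000000000000000000000000000) (nat_lit 0x1a000068000200000000000a0000280000000000000000000000000000000000) (nat_lit 6)
theorem c27351 : QOK q27351 := cut [q18627] ⟨c18627, trivial⟩ (nd (nat_lit 227) (nat_lit 0) (cs (lf (nat_lit 41) (nat_lit 161)) (nd (nat_lit 139) (nat_lit 0) (cs (lf (nat_lit 46) (nat_lit 139)) (nd (nat_lit 141) (nat_lit 0) (cs (lf (nat_lit 34) (nat_lit 140)) (rf (nat_lit 0)))))))) q27351 (by decide +kernel)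
def q27366 : Q := Q.p (nat_lit 0x4000010000050000300000000000000000000000000000000000) (nat_lit 0x8000020000000001880000e0000200000000000000000000000000000) (nat_lit 5)
theorem c27366 : QOK q27366 := cut [q27364] ⟨c27364, trivial⟩ (nd (nat_lit 205) (nat_lit 0) (cs (lf (nat_lit 41) (nat_lit 139)) (nd (nat_lit 139) (nat_lit 0) (cs (lf (nat_lit 47) (nat_lit 117)) (rf (nat_lit 0)))))) q27366 (by decide +kernel)
def q27460 : Q := Q.p (nat_lit 0x800002000000000004000010000040000080000000000000000000000000000000000) (nat_lit 0x1680001e00001800000000000000020000000000000000000000000000000000000000) (nat_lit 6)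
theorem c27460 : QOK q27460 := cut [q23724] ⟨c23724, trivial⟩ (nd (nat_lit 228) (nat_lit 0) (cs (lf (nat_lit 46) (nat_lit 139)) (nd (nat_lit 249) (nat_lit 0) (cs (lf (nat_lit 40) (nat_lit 161)) (nd (nat_lit 250) (nat_lit 0) (cs (lf (nat_lit 41) (nat_lit 183)) (rf (nat_lit 0)))))))) q27460 (by decide +kernel)
def q27501 : Q := Q.p (nat_lit 0x100000c000010000080000000000000000000000000000000000000000) (nat_lit 0x200000e0000380000600002000000000020000000000000000000000000000000000000000000000) (nat_lit 6)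
theorem c27501 : QOK q27501 := cut [q18596] ⟨c18596, trivial⟩ (nd (nat_lit 250) (nat_lit 0) (cs (lf (nat_lit 34) (nat_lit 162)) (rf (nat_lit 0)))) q27501 (by decide +kernel)
def q27570 : Q := Q.p (nat_lit 0x1400019000004000000000000000000000000000000000000000000000) (nat_lit 0x2000028000000000000000380000e0000280000000000000000000000000000) (nat_lit 6)
theorem c27570 : QOK q27570 := cut [q27568] ⟨c27568, trivial⟩ (nd (nat_lit 227) (nat_lit 0) (cs (lf (nat_lit 15) (nat_lit 204)) (nd (nat_lit 160) (nat_lit 0) (cs (lf (nat_lit 29) (nat_lit 160)) (rf (nat_lit 0)))))) q27570 (by decide +kernel)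
def q27607 : Q := Q.p (nat_lit 0xc000070000000000000000000000000000000000000000) (nat_lit 0x2000000000180000060000100000400000000000000000000000) (nat_lit 4)
theorem c27607 : QOK q27607 := cut [q27606] ⟨c27606, trivial⟩ (nd (nat_lit 163) (nat_lit 0) (cs (lf (nat_lit 6) (nat_lit 160)) (rf (nat_lit 0)))) q27607 (by decide +kernel)
def q27702 : Q := Q.p (nat_lit 0x100001c000000000000000000000000000000000000000000000000000) (nat_lit 0x28000600001b8000000000000000000000000000000000000000000000) (nat_lit 5)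
theorem c27702 : QOK q27702 := cut [q174] ⟨c174, trivial⟩ (nd (nat_lit 209) (nat_lit 0) (cs (lf (nat_lit 11) (nat_lit 205)) (nd (nat_lit 187) (nat_lit 0) (cs (rf (nat_lit 0)) (lf (nat_lit 17) (nat_lit 184)))))) q27702 (by decide +kernel)
def q27790 : Q := Q.p (nat_lit 0x800002400009000014000000000000000000000000000000000000000000000000000) (nat_lit 0x20000010000000000400000a000030000080000200000000000000000000000000000000000) (nat_lit 5)
theorem c27790 : QOK q27790 := cut [q3392] ⟨c3392, trivial⟩ (nd (nat_lit 230) (nat_lit 0) (cs (lf (nat_lit 42) (nat_lit 208)) (nd (nat_lit 207) (nat_lit 0) (cs (lf (nat_lit 0) (nat_lit 205)) (rf (nat_lit 0)))))) q27790 (by decide +kernel)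
def q27833 : Q := Q.p (nat_lit 0x800002400008000014000000000000000000000000000000000000000000000000000) (nat_lit 0x580007e0001d80006e000178000120001580004a0000380000e0000380000200000000000000000000000000000) (nat_lit 15)
theorem c27833 : QOK q27833 := cut [q5181, q14126, q4155, q3383, q2085, q17375, q23587] ⟨c5181, c14126, c4155, c3383, c2085, c17375, c23587, trivial⟩ (nd (nat_lit 272) (nat_lit 0) (cs (nd (nat_lit 230) (nat_lit 0) (cs (lf (nat_lit 42) (nat_lit 208)) (nd (nat_lit 205) (nat_lit 0) (cs (lf (nat_lit 2) (nat_lit 205)) (nd (nat_lit 228) (nat_lit 0) (cs (lf (nat_lit 47) (nat_lit 183)) (nd (nat_lit 273) (nat_lit 0) (cs (lf (nat_lit 29) (nat_lit 206)) (nd (nat_lit 227) (nat_lit 0) (cs (lf (nat_lit 42) (nat_lit 205)) (nd (nat_lit 249) (nat_lit 0) (cs (rf (nat_lit 0)) (lf (nat_lit 19) (nat_lit 249)))))))))))))) (cs (nd (nat_lit 297) (nat_lit 0) (cs (lf (nat_lit 46) (nat_lit 208)) (nd (nat_lit 210) (nat_lit 0) (cs (lf (nat_lit 34) (nat_lit 209)) (nd (nat_lit 320) (nat_lit 0) (cs (lf (nat_lit 28)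 (nat_lit 231)) (nd (nat_lit 319) (nat_lit 0) (cs (lf (nat_lit 29) (nat_lit 253)) (nd (nat_lit 340) (nat_lit 0) (cs (lf (nat_lit 40) (nat_lit 252)) (nd (nat_lit 341) (nat_lit 0) (cs (lf (nat_lit 41) (nat_lit 274)) (nd (nat_lit 338) (nat_lit 0) (cs (lf (nat_lit 13) (nat_lit 316)) (nd (nat_lit 274) (nat_lit 0) (cs (lf (nat_lit 47) (nat_lit 252)) (nd (nat_lit 273) (nat_lit 0) (cs (lf (nat_lit 23) (nat_lit 249)) (nd (nat_lit 294) (nat_lit 0) (cs (lf (nat_lit 11) (nat_lit 271)) (nd (nat_lit 295) (nat_lit 0) (cs (lf (nat_lit 6) (nat_lit 272)) (nd (nat_lit 316) (nat_lit 0) (cs (rf (nat_lit 1)) (lf (nat_lit 30) (nat_lit 272)))))))))))))))))))))))))) (cs (nd (nat_lit 230) (nat_lit 0) (cs (lf (nat_lit 42) (nat_lit 208)) (nd (nat_lit 205) (nat_lit 0) (cs (lf (nat_lit 2) (nat_lit 205)) (nd (nat_lit 228) (nat_lit 0) (cs (lf (nat_lit 47) (nat_lit 183)) (nd (nat_lit 273) (nat_lit 0) (cs (lf (nat_lit 29) (nat_lit 206)) (nd (nat_lit 294) (nat_lit 0) (cs (rf (nat_lit 2)) (lf (nat_lit 46) (nat_lit 205)))))))))))) (cs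 (nd (nat_lit 230) (nat_lit 0) (cs (lf (nat_lit 42) (nat_lit 208)) (nd (nat_lit 205) (nat_lit 0) (cs (lf (nat_lit 2) (nat_lit 205)) (nd (nat_lit 228) (nat_lit 0) (cs (lf (nat_lit 47) (nat_lit 183)) (nd (nat_lit 271) (nat_lit 0) (cs (lf (nat_lit 41) (nat_lit 205)) (nd (nat_lit 184) (nat_lit 0) (cs (lf (nat_lit 40) (nat_lit 183)) (nd (nat_lit 163) (nat_lit 0) (cs (lf (nat_lit 34) (nat_lit 162)) (nd (nat_lit 162) (nat_lit 0) (cs (lf (nat_lit 35) (nat_lit 140)) (nd (nat_lit 273) (nat_lit 0) (cs (lf (nat_lit 29) (nat_lit 206)) (nd (nat_lit 139) (nat_lit 0) (cs (lf (nat_lit 46) (nat_lit 139)) (nd (nat_lit 140) (nat_lit 0) (cs (lf (nat_lit 41) (nat_lit 139)) (lf (nat_lit 47) (nat_lit 117)))))))))))))))))))))) (cs (nd (nat_lit 230) (nat_lit 0) (cs (lf (nat_lit 42) (nat_lit 208)) (nd (nat_lit 205) (nat_lit 0) (cs (lf (nat_lit 2) (nat_lit 205)) (nd (nat_lit 228) (nat_lit 0) (cs (lf (nat_lit 47) (nat_lit 183)) (nd (nat_lit 271) (nat_lit 0) (cs (lf (nat_lit 41) (nat_lit 205)) (nd (nat_lit 227) (nat_lit 0) (cs (lf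 (nat_lit 42) (nat_lit 205)) (nd (nat_lit 184) (nat_lit 0) (cs (lf (nat_lit 40) (nat_lit 183)) (nd (nat_lit 162) (nat_lit 0) (cs (lf (nat_lit 36) (nat_lit 139)) (rf (nat_lit 3)))))))))))))))) (nd (nat_lit 228) (nat_lit 0) (cs (rf (nat_lit 4)) (cs (rf (nat_lit 5)) (rf (nat_lit 6))))))))))) q27833 (by decide +kernel)
def q27864 : Q := Q.p (nat_lit 0x40000d000014000000000000000000000000000000000000000000000000000) (nat_lit 0x10000000000080000a000008000020000080000000000000000000000000000000000) (nat_lit 4)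
theorem c27864 : QOK q27864 := cut [q26626] ⟨c26626, trivial⟩ (nd (nat_lit 205) (nat_lit 0) (cs (lf (nat_lit 2) (nat_lit 205)) (rf (nat_lit 0)))) q27864 (by decide +kernel)
def q27955 : Q := Q.p (nat_lit 0x3c0000000000000000000000000000000000000000000000000000000000000000000000000000000000000) (nat_lit 0x20000180000020001c00001000004000000000000000000000000000000000000000000000000000000000000000000000) (nat_lit 5)
theorem c27955 : QOK q27955 := cut [q27952] ⟨c27952, trivial⟩ (nd (nat_lit 323) (nat_lit 0) (cs (lf (nat_lit 17) (nat_lit 320)) (nd (nat_lit 322) (nat_lit 0) (cs (rf (nat_lit 0)) (lf (nat_lit 12) (nat_lit 319)))))) q27955 (by decide +kernel)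
def q27996 : Q := Q.p (nat_lit 0x1c0000400000200000800000000000000000000000000000000000000000000000000000000000000000000) (nat_lit 0xe000030000860000100000000000000000000000000000000000000000000000000000000000000000000000000) (nat_lit 5)
theorem c27996 : QOK q27996 := cut [q27995] ⟨c27995, trivial⟩ (nd (nat_lit 341) (nat_lit 0) (cs (lf (nat_lit 17) (nat_lit 319)) (rf (nat_lit 0)))) q27996 (by decide +kernel)
def q28038 : Q := Q.p (nat_lit 0x800001c0000000000200000800000000000000000000000000000000000000000000000000000000000000000000) (nat_lit 0x4e000030000060000100000000000000000000000000000000000000000000000000000000000000000000000000) (nat_lit 5)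
theorem c28038 : QOK q28038 := cut [q27995] ⟨c27995, trivial⟩ (nd (nat_lit 341) (nat_lit 0) (cs (lf (nat_lit 4) (nat_lit 341)) (rf (nat_lit 0)))) q28038 (by decide +kernel)
def q28042 : Q := Q.p (nat_lit 0x1c0000800000200000800000000000000000000000000000000000000000000000000000000000000000000) (nat_lit 0xe000030000460000100000000000000000000000000000000000000000000000000000000000000000000000000) (nat_lit 5)
theorem c28042 : QOK q28042 := cut [q27995] ⟨c27995, trivial⟩ (nd (nat_lit 341) (nat_lit 0) (cs (lf (nat_lit 16) (nat_lit 319)) (rf (nat_lit 0)))) q28042 (by decide +kernel)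
def q28067 : Q := Q.p (nat_lit 0x1c0000800000200000800000000000000000000000000000000000000000000000000000000000000000000) (nat_lit 0x38000600001300000400000000000000000000000000000000000000000000000000000000000000000000000000) (nat_lit 5)
theorem c28067 : QOK q28067 := cut [q27966] ⟨c27966, trivial⟩ (nd (nat_lit 345) (nat_lit 0) (cs (lf (nat_lit 17) (nat_lit 320)) (rf (nat_lit 0)))) q28067 (by decide +kernel)
def q28111 : Q := Q.p (nat_lit 0xc0000000000e00000000000000000000000000000000000000000000000000000000000000000000000000) (nat_lit 0x5000010000060000110001e000018000040000000000000000000000000000000000000000000000000000000000) (nat_lit 6)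
theorem c28111 : QOK q28111 := cut [q28104, q28107, q28110] ⟨c28104, c28107, c28110, trivial⟩ (nd (nat_lit 277) (nat_lit 0) (cs (rf (nat_lit 0)) (cs (rf (nat_lit 1)) (rf (nat_lit 2))))) q28111 (by decide +kernel)
def q28119 : Q := Q.p (nat_lit 0xf00000800000000000000000000000000000000000000000000000000000000000000000000) (nat_lit 0x700000c0001380000000000000000000000000000000000000000000000000000000000000000000) (nat_lit 5)
theorem c28119 : QOK q28119 := cut [q28117] ⟨c28117, trivial⟩ (nd (nat_lit 317) (nat_lit 0) (cs (lf (nat_lit 10) (nat_lit 295)) (nd (nat_lit 295) (nat_lit 0) (cs (lf (nat_lit 11) (nat_lit 294)) (rf (nat_lit 0)))))) q28119 (by decide +kernel)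
def q28164 : Q := Q.p (nat_lit 0xc0000000000f00000800000000000000000000000000000000000000000000000000000000000000000000) (nat_lit 0xa0001f80003e0002580000c0007380000000000000000000000000000000000000000000000000000000000000000000) (nat_lit 10)
theorem c28164 : QOK q28164 := cut [q28117, q28147, q28150] ⟨c28117, c28147, c28150, trivial⟩ (nd (nat_lit 295) (nat_lit 0) (cs (rf (nat_lit 0)) (cs (rf (nat_lit 1)) (nd (nat_lit 272) (nat_lit 0) (cs (lf (nat_lit 22) (nat_lit 272)) (nd (nat_lit 294) (nat_lit 0) (cs (lf (nat_lit 23) (nat_lit 271)) (nd (nat_lit 316) (nat_lit 0) (cs (lf (nat_lit 11) (nat_lit 293)) (nd (nat_lit 361) (nat_lit 0) (cs (nd (nat_lit 338) (nat_lit 0) (cs (rf (nat_lit 2)) (lf (nat_lit 28) (nat_lit 272)))) (nd (nat_lit 277) (nat_lit 0) (cs (lf (nat_lit 17) (nat_lit 274)) (nd (nat_lit 364) (nat_lit 0) (cs (lf (nat_lit 38) (nat_lit 276)) (nd (nat_lit 362) (nat_lit 0) (cs (nd (nat_lit 340) (nat_lit 0) (cs (lf (nat_lit 32) (nat_lit 274)) (lf (nat_lit 8) (nat_lit 339)))) (lf (nat_lit 14) (nat_lit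 339))))))))))))))))))) q28164 (by decide +kernel)
def q28279 : Q := Q.p (nat_lit 0x700002000000000000000000000000000000000000000000000000000000000000000000000) (nat_lit 0x380000c0001380000000000000000000000000000000000000000000000000000000000000000000) (nat_lit 5)
theorem c28279 : QOK q28279 := cut [q28278] ⟨c28278, trivial⟩ (nd (nat_lit 295) (nat_lit 0) (cs (lf (nat_lit 16) (nat_lit 273)) (rf (nat_lit 0)))) q28279 (by decide +kernel)
def q28302 : Q := Q.p (nat_lit 0xe00004800000000000000000000000000000000000000000000000000000000000000000000) (nat_lit 0x1c00003000009000000000000000000000000000000000000000000000000000000000000000000000) (nat_lit 4)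
theorem c28302 : QOK q28302 := cut [q28301] ⟨c28301, trivial⟩ (nd (nat_lit 300) (nat_lit 0) (cs (lf (nat_lit 17) (nat_lit 275)) (rf (nat_lit 0)))) q28302 (by decide +kernel)
def q28307 : Q := Q.p (nat_lit 0x780001800000000000000000000000000000000000000000000000000000000000000000000) (nat_lit 0xe70003800000000000000000000000000000000000000000000000000000000000000000000000000) (nat_lit 5)
theorem c28307 : QOK q28307 := cut [q11756] ⟨c11756, trivial⟩ (nd (nat_lit 317) (nat_lit 0) (cs (lf (nat_lit 11) (nat_lit 294)) (rf (nat_lit 0)))) q28307 (by decide +kernel)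
def q28335 : Q := Q.p (nat_lit 0x100001c0000000000000000000000000000000000000000000000000000000000000000000000000000000000000) (nat_lit 0x388000600003800000000000000000000000000000000000000000000000000000000000000000000000000000000) (nat_lit 5)
theorem c28335 : QOK q28335 := cut [q28334] ⟨c28334, trivial⟩ (nd (nat_lit 345) (nat_lit 0) (cs (lf (nat_lit 11) (nat_lit 341)) (rf (nat_lit 0)))) q28335 (by decide +kernel)
def q28387 : Q := Q.p (nat_lit 0x7c0000000000200004800002000000000000000000000000000000000000000000000000000000000000000) (nat_lit 0x300000500003000001000000000000000000000000000000000000000000000000000000000000000) (nat_lit 4)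
theorem c28387 : QOK q28387 := cut [q28386] ⟨c28386, trivial⟩ (nd (nat_lit 320) (nat_lit 0) (cs (lf (nat_lit 22) (nat_lit 320)) (rf (nat_lit 0)))) q28387 (by decide +kernel)
def q28471 : Q := Q.p (nat_lit 0x380000800000000000000000000000000000000000000000000000000000000000000000000) (nat_lit 0x1c0000600011c0000000000000000000000000000000000000000000000000000000000000000000) (nat_lit 5)
theorem c28471 : QOK q28471 := cut [q11750] ⟨c11750, trivial⟩ (nd (nat_lit 294) (nat_lit 0) (cs (rf (nat_lit 0)) (lf (nat_lit 17) (nat_lit 272)))) q28471 (by decide +kernel)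
def q28528 : Q := Q.p (nat_lit 0x400001c0000000000200000000000000000000000000000000000000000000000000000000000000000000000000) (nat_lit 0x20000380000f80003e0003a0000200000600003c0000e000020000000000000000000000000000000000000000000000000000000000000000) (nat_lit 9)
theorem c28528 : QOK q28528 := cut [q28411, q28514, q28515, q28311, q28419, q28517] ⟨c28411, c28514, c28515, c28311, c28419, c28517, trivial⟩ (nd (nat_lit 388) (nat_lit 0) (cs (rf (nat_lit 0)) (cs (rf (nat_lit 1)) (cs (rf (nat_lit 2)) (nd (nat_lit 367) (nat_lit 0) (cs (rf (nat_lit 3)) (nd (nat_lit 322) (nat_lit 0) (cs (rf (nat_lit 4)) (cs (nd (nat_lit 389) (nat_lit 0) (cs (lf (nat_lit 29) (nat_lit 322)) (nd (nat_lit 321) (nat_lit 0) (cs (nd (nat_lit 387) (nat_lit 0) (cs (lf (nat_lit 41) (nat_lit 321)) (nd (nat_lit 386) (nat_lit 0) (cs (rf (nat_lit 5)) (lf (nat_lit 12) (nat_lit 363)))))) (lf (nat_lit 47) (nat_lit 299)))))) (nd (nat_lit 389) (nat_lit 0) (cs (lf (nat_lit 29) (nat_lit 322)) (lf (nat_lit 24) (nat_lit 300))))))))))))) q28528 (by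 decide +kernel)
def q28547 : Q := Q.p (nat_lit 0x1c0000400001200000000000000000000000000000000000000000000000000000000000000000000000000) (nat_lit 0x300003e0000000000a00000d00002000000000000000000000000000000000000000000000000000000000000000000000) (nat_lit 5)
theorem c28547 : QOK q28547 := cut [q28542, q28546] ⟨c28542, c28546, trivial⟩ (nd (nat_lit 366) (nat_lit 0) (cs (nd (nat_lit 367) (nat_lit 0) (cs (lf (nat_lit 29) (nat_lit 300)) (rf (nat_lit 0)))) (rf (nat_lit 1)))) q28547 (by decide +kernel)
def q28562 : Q := Q.p (nat_lit 0x100000400001200004800002000000000000000000000000000000000000000000000000000000000000000) (nat_lit 0x10000b000039000080000000000000000000000000000000000000000000000000000000000) (nat_lit 5)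
theorem c28562 : QOK q28562 := cut [q28559] ⟨c28559, trivial⟩ (nd (nat_lit 257) (nat_lit 0) (cs (lf (nat_lit 34) (nat_lit 256)) (nd (nat_lit 235) (nat_lit 0) (cs (rf (nat_lit 0)) (lf (nat_lit 33) (nat_lit 234)))))) q28562 (by decide +kernel)
def q28656 : Q := Q.p (nat_lit 0x3c0000000000200000800002000000000000000000000000000000000000000000000000000000000000000) (nat_lit 0x80000300001c0000000001f00003c0000d000000000000000000000000000000000000000000000000000000000000000000000) (nat_lit 7)
theorem c28656 : QOK q28656 := cut [q28070, q28651, q28654] ⟨c28070, c28651, c28654, trivial⟩ (nd (nat_lit 367) (nat_lit 0) (cs (lf (nat_lit 5) (nat_lit 342)) (nd (nat_lit 300) (nat_lit 0) (cs (nd (nat_lit 323) (nat_lit 0) (cs (lf (nat_lit 17) (nat_lit 320)) (nd (nat_lit 301) (nat_lit 0) (cs (rf (nat_lit 0)) (lf (nat_lit 47) (nat_lit 278)))))) (cs (rf (nat_lit 1)) (rf (nat_lit 2))))))) q28656 (by decide +kernel)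
def q28714 : Q := Q.p (nat_lit 0x1c0000000000000000000000000000000000000000000000000000000000000000000000000000000000000) (nat_lit 0x100001ee000230003e00002000008000000000000000000000000000000000000000000000000000000000000000000000) (nat_lit 6)
theorem c28714 : QOK q28714 := cut [q28044, q28357, q28712] ⟨c28044, c28357, c28712, trivial⟩ (nd (nat_lit 323) (nat_lit 0) (cs (rf (nat_lit 0)) (cs (nd (nat_lit 345) (nat_lit 0) (cs (lf (nat_lit 17) (nat_lit 320)) (rf (nat_lit 1)))) (nd (nat_lit 341) (nat_lit 0) (cs (lf (nat_lit 16) (nat_lit 319)) (rf (nat_lit 2))))))) q28714 (by decide +kernel)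
def q28727 : Q := Q.p (nat_lit 0xc0000000000e00000800000000000000000000000000000000000000000000000000000000000000000000) (nat_lit 0x4000030000000001e00003100003000000000000000000000000000000000000000000000000000000000000000000000) (nat_lit 5)
theorem c28727 : QOK q28727 := cut [q28716, q28719, q28725] ⟨c28716, c28719, c28725, trivial⟩ (nd (nat_lit 321) (nat_lit 0) (cs (nd (nat_lit 276) (nat_lit 0) (cs (lf (nat_lit 42) (nat_lit 276)) (nd (nat_lit 300) (nat_lit 0) (cs (lf (nat_lit 18) (nat_lit 275)) (rf (nat_lit 0)))))) (cs (nd (nat_lit 364) (nat_lit 0) (cs (lf (nat_lit 36) (nat_lit 276)) (rf (nat_lit 1)))) (nd (nat_lit 277) (nat_lit 0) (cs (lf (nat_lit 41) (nat_lit 276)) (rf (nat_lit 2))))))) q28727 (by decide +kernel)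
def q28743 : Q := Q.p (nat_lit 0x80000000000e00000800000000000000000000000000000000000000000000000000000000000000000000) (nat_lit 0x20000000001e0000300001d000010000000000000000000000000000000000000000000000000000000000000000) (nat_lit 5)
theorem c28743 : QOK q28743 := cut [q23396, q28301] ⟨c23396, c28301, trivial⟩ (nd (nat_lit 300) (nat_lit 0) (cs (rf (nat_lit 0)) (cs (rf (nat_lit 1)) (nd (nat_lit 322) (nat_lit 0) (cs (lf (nat_lit 5) (nat_lit 297)) (nd (nat_lit 278) (nat_lit 0) (cs (lf (nat_lit 17) (nat_lit 275)) (nd (nat_lit 321) (nat_lit 0) (cs (lf (nat_lit 30) (nat_lit 277)) (lf (nat_lit 36) (nat_lit 255))))))))))) q28743 (by decide +kernel)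
def q28791 : Q := Q.p (nat_lit 0x200000700000000000000000000000000000000000000000000000000000000000000000000000000) (nat_lit 0x1380000c0000380000000000000000000000000000000000000000000000000000000000000000000) (nat_lit 5)
theorem c28791 : QOK q28791 := cut [q28278] ⟨c28278, trivial⟩ (nd (nat_lit 295) (nat_lit 0) (cs (lf (nat_lit 4) (nat_lit 295)) (rf (nat_lit 0)))) q28791 (by decide +kernel)
def q28897 : Q := Q.p (nat_lit 0x40000d0000200000200000800000000000000000000000000000000000000000000000000000000000000000000) (nat_lit 0x20000380003f8003fe0007b800008000060000180000000000000000000000000000000000000000000000000000000000000000000000000) (nat_lit 11)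
theorem c28897 : QOK q28897 := cut [q28616, q28622, q28817, q28832] ⟨c28616, c28622, c28817, c28832, trivial⟩ (nd (nat_lit 384) (nat_lit 0) (cs (rf (nat_lit 0)) (cs (rf (nat_lit 1)) (cs (nd (nat_lit 386) (nat_lit 0) (cs (rf (nat_lit 2)) (cs (nd (nat_lit 364) (nat_lit 0) (cs (lf (nat_lit 30) (nat_lit 320)) (nd (nat_lit 361) (nat_lit 0) (cs (lf (nat_lit 14) (nat_lit 339)) (nd (nat_lit 385) (nat_lit 0) (cs (lf (nat_lit 18) (nat_lit 361)) (nd (nat_lit 318) (nat_lit 0) (cs (lf (nat_lit 33) (nat_lit 274)) (lf (nat_lit 29) (nat_lit 318)))))))))) (cs (nd (nat_lit 364) (nat_lit 0) (cs (lf (nat_lit 30) (nat_lit 320)) (nd (nat_lit 318) (nat_lit 0) (cs (lf (nat_lit 33) (nat_lit 274)) (nd (nat_lit 295) (nat_lit 0) (cs (nd (nat_lit 385) (nat_lit 0) (cs (lf (nat_lit 29) (nat_lit 318)) (nd (nat_lit 383) (nat_lit 0) (cs (lf (nat_lit 17) (nat_lit 361)) (lf (nat_lit 41) (nat_lit 317)))))) (lf (nat_lit 46) (nat_lit 295)))))))) (nd (nat_lit 318) (nat_lit 0) (cs (lf (nat_lit 33) (nat_lit 274)) (nd (nat_lit 295) (nat_lit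 0) (cs (lf (nat_lit 46) (nat_lit 295)) (nd (nat_lit 383) (nat_lit 0) (cs (lf (nat_lit 41) (nat_lit 317)) (nd (nat_lit 385) (nat_lit 0) (cs (lf (nat_lit 29) (nat_lit 318)) (rf (nat_lit 3)))))))))))))) (cs (nd (nat_lit 406) (nat_lit 0) (cs (nd (nat_lit 339) (nat_lit 0) (cs (lf (nat_lit 47) (nat_lit 317)) (nd (nat_lit 361) (nat_lit 0) (cs (lf (nat_lit 42) (nat_lit 339)) (nd (nat_lit 364) (nat_lit 0) (cs (lf (nat_lit 14) (nat_lit 339)) (nd (nat_lit 386) (nat_lit 0) (cs (lf (nat_lit 30) (nat_lit 320)) (nd (nat_lit 385) (nat_lit 0) (cs (lf (nat_lit 18) (nat_lit 361)) (nd (nat_lit 360) (nat_lit 0) (cs (lf (nat_lit 0) (nat_lit 359)) (lf (nat_lit 21) (nat_lit 360)))))))))))))) (cs (nd (nat_lit 427) (nat_lit 0) (cs (nd (nat_lit 407) (nat_lit 0) (cs (lf (nat_lit 29) (nat_lit 340)) (nd (nat_lit 428) (nat_lit 0) (cs (nd (nat_lit 408) (nat_lit 0) (cs (nd (nat_lit 386) (nat_lit 0) (cs (nd (nat_lit 387) (nat_lit 0) (cs (lf (nat_lit 38) (nat_lit 320)) (nd (nat_lit 388) (nat_lit 0) (cs (lf (nat_lit 6) (nat_lit 385))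 (lf (nat_lit 9) (nat_lit 384)))))) (lf (nat_lit 32) (nat_lit 320)))) (lf (nat_lit 6) (nat_lit 405)))) (lf (nat_lit 41) (nat_lit 361)))))) (lf (nat_lit 40) (nat_lit 339)))) (cs (nd (nat_lit 386) (nat_lit 0) (cs (rf (nat_lit 2)) (nd (nat_lit 407) (nat_lit 0) (cs (lf (nat_lit 29) (nat_lit 340)) (nd (nat_lit 405) (nat_lit 0) (cs (lf (nat_lit 41) (nat_lit 339)) (nd (nat_lit 385) (nat_lit 0) (cs (lf (nat_lit 12) (nat_lit 382)) (lf (nat_lit 6) (nat_lit 383)))))))))) (nd (nat_lit 407) (nat_lit 0) (cs (lf (nat_lit 29) (nat_lit 340)) (nd (nat_lit 427) (nat_lit 0) (cs (lf (nat_lit 40) (nat_lit 339)) (nd (nat_lit 339) (nat_lit 0) (cs (lf (nat_lit 47) (nat_lit 317)) (nd (nat_lit 428) (nat_lit 0) (cs (lf (nat_lit 41) (nat_lit 361)) (lf (nat_lit 46) (nat_lit 339)))))))))))))) (cs (nd (nat_lit 318) (nat_lit 0) (cs (lf (nat_lit 33) (nat_lit 274)) (nd (nat_lit 295) (nat_lit 0) (cs (lf (nat_lit 46) (nat_lit 295)) (nd (nat_lit 383) (nat_lit 0) (cs (lf (nat_lit 41) (nat_lit 317)) (nd (nat_lit 407) (nat_lit 0) (cs (lf (nat_lit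 28) (nat_lit 318)) (nd (nat_lit 406) (nat_lit 0) (cs (lf (nat_lit 29) (nat_lit 340)) (nd (nat_lit 381) (nat_lit 0) (cs (nd (nat_lit 408) (nat_lit 0) (cs (nd (nat_lit 364) (nat_lit 0) (cs (nd (nat_lit 363) (nat_lit 0) (cs (lf (nat_lit 12) (nat_lit 339)) (lf (nat_lit 6) (nat_lit 361)))) (lf (nat_lit 31) (nat_lit 320)))) (lf (nat_lit 18) (nat_lit 383)))) (lf (nat_lit 1) (nat_lit 381)))))))))))))) (nd (nat_lit 318) (nat_lit 0) (cs (lf (nat_lit 33) (nat_lit 274)) (nd (nat_lit 385) (nat_lit 0) (cs (lf (nat_lit 29) (nat_lit 318)) (nd (nat_lit 405) (nat_lit 0) (cs (lf (nat_lit 40) (nat_lit 317)) (nd (nat_lit 406) (nat_lit 0) (cs (lf (nat_lit 41) (nat_lit 339)) (nd (nat_lit 403) (nat_lit 0) (cs (nd (nat_lit 386) (nat_lit 0) (cs (lf (nat_lit 6) (nat_lit 383)) (nd (nat_lit 364) (nat_lit 0) (cs (lf (nat_lit 30) (nat_lit 320)) (nd (nat_lit 363) (nat_lit 0) (cs (lf (nat_lit 12) (nat_lit 339)) (nd (nat_lit 365) (nat_lit 0) (cs (lf (nat_lit 23) (nat_lit 339)) (lf (nat_lit 6) (nat_lit 362)))))))))) (lf (nat_lit 13)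 (nat_lit 381)))))))))))))))))) q28897 (by decide +kernel)
def q28961 : Q := Q.p (nat_lit 0x300000c0000000000200000800000000000000000000000000000000000000000000000000000000000000000000) (nat_lit 0xe0000380000f800040000000000100000400000000000000000000000000000000000000000000000000000000000000000000000000) (nat_lit 6)
theorem c28961 : QOK q28961 := cut [q28960] ⟨c28960, trivial⟩ (nd (nat_lit 320) (nat_lit 0) (cs (lf (nat_lit 45) (nat_lit 275)) (rf (nat_lit 0)))) q28961 (by decide +kernel)
def q28980 : Q := Q.p (nat_lit 0x1c0000800000200000800002000000000000000000000000000000000000000000000000000000000000000) (nat_lit 0x738001e00007500001d00007000019000000000000000000000000000000000000000000000000000000000000000) (nat_lit 13)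
theorem c28980 : QOK q28980 := cut [q28559] ⟨c28559, trivial⟩ (nd (nat_lit 345) (nat_lit 0) (cs (lf (nat_lit 17) (nat_lit 320)) (nd (nat_lit 364) (nat_lit 0) (cs (lf (nat_lit 11) (nat_lit 341)) (nd (nat_lit 298) (nat_lit 0) (cs (lf (nat_lit 44) (nat_lit 275)) (nd (nat_lit 346) (nat_lit 0) (cs (lf (nat_lit 10) (nat_lit 342)) (nd (nat_lit 369) (nat_lit 0) (cs (lf (nat_lit 4) (nat_lit 343)) (nd (nat_lit 347) (nat_lit 0) (cs (lf (nat_lit 5) (nat_lit 344)) (nd (nat_lit 322) (nat_lit 0) (cs (lf (nat_lit 18) (nat_lit 322)) (nd (nat_lit 300) (nat_lit 0) (cs (lf (nat_lit 2) (nat_lit 297)) (nd (nat_lit 325) (nat_lit 0) (cs (lf (nat_lit 17) (nat_lit 322)) (nd (nat_lit 278) (nat_lit 0) (cs (lf (nat_lit 24) (nat_lit 256)) (rf (nat_lit 0)))))))))))))))))))))) q28980 (by decide +kernel)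
def q28996 : Q := Q.p (nat_lit 0x400000e0000000000000000000000000000000000000000000000000000000000000000000000000000000000000) (nat_lit 0x27000018000070000000000000000000000000000000000000000000000000000000000000000000000000000000) (nat_lit 5)
theorem c28996 : QOK q28996 := cut [q28995] ⟨c28995, trivial⟩ (nd (nat_lit 340) (nat_lit 0) (cs (lf (nat_lit 4) (nat_lit 340)) (rf (nat_lit 0)))) q28996 (by decide +kernel)
def q29001 : Q := Q.p (nat_lit 0x600001c0000000000000000000000000000000000000000000000000000000000000000000000000000000000000) (nat_lit 0x8000000000030000c00001000004000000000000000000000000000000000000000000000000000000000000000000000) (nat_lit 4)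
theorem c29001 : QOK q29001 := cut [q29000] ⟨c29000, trivial⟩ (nd (nat_lit 341) (nat_lit 0) (cs (lf (nat_lit 0) (nat_lit 340)) (rf (nat_lit 0)))) q29001 (by decide +kernel)
def q29092 : Q := Q.p (nat_lit 0x3c0000000000000000000000000000000000000000000000000000000000000000000000000000000000000) (nat_lit 0x38000400003800000000000000000000000000000000000000000000000000000000000000000000000000000000) (nat_lit 4)
theorem c29092 : QOK q29092 := cut [q29091] ⟨c29091, trivial⟩ (nd (nat_lit 364) (nat_lit 0) (cs (lf (nat_lit 11) (nat_lit 341)) (rf (nat_lit 0)))) q29092 (by decide +kernel)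
def q29144 : Q := Q.p (nat_lit 0xc0000300000a00000800002000000000000000000000000000000000000000000000000000000000000000) (nat_lit 0x100007000019000000000000000000000000000000000000000000000000000000000000000) (nat_lit 4)
theorem c29144 : QOK q29144 := cut [q28594] ⟨c28594, trivial⟩ (nd (nat_lit 277) (nat_lit 0) (cs (lf (nat_lit 36) (nat_lit 254)) (rf (nat_lit 0)))) q29144 (by decide +kernel)
def q29184 : Q := Q.p (nat_lit 0xc0000600000200000000000000000000000000000000000000000000000000000000000000000000000000) (nat_lit 0x1900001d00000000000000000000000000000000000000000000000000000000000000000000000000) (nat_lit 4)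
theorem c29184 : QOK q29184 := cut [q29183] ⟨c29183, trivial⟩ (nd (nat_lit 323) (nat_lit 0) (cs (lf (nat_lit 6) (nat_lit 320)) (rf (nat_lit 0)))) q29184 (by decide +kernel)
def q29233 : Q := Q.p (nat_lit 0x100000c0000200000200000800002000000000000000000000000000000000000000000000000000000000000000) (nat_lit 0xf80003e00002e000320000100000400001000000000000000000000000000000000000000000000000000000000000000000000) (nat_lit 8)
theorem c29233 : QOK q29233 := cut [q11848, q29231] ⟨c11848, c29231, trivial⟩ (nd (nat_lit 320) (nat_lit 0) (cs (rf (nat_lit 0)) (nd (nat_lit 363) (nat_lit 0) (cs (nd (nat_lit 386) (nat_lit 0) (cs (lf (nat_lit 30) (nat_lit 320)) (nd (nat_lit 387) (nat_lit 0) (cs (lf (nat_lit 29) (nat_lit 320)) (nd (nat_lit 388) (nat_lit 0) (cs (lf (nat_lit 18) (nat_lit 363)) (nd (nat_lit 410) (nat_lit 0) (cs (nd (nat_lit 385) (nat_lit 0) (cs (lf (nat_lit 41) (nat_lit 319)) (lf (nat_lit 5) (nat_lit 385)))) (lf (nat_lit 26) (nat_lit 321)))))))))) (rf (nat_lit 1)))))) q29233 (by decide +kernel)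
def q29235 : Q := Q.p (nat_lit 0xc0000200000a00000800002000000000000000000000000000000000000000000000000000000000000000) (nat_lit 0x10000000000000000100007000011000000000000000000000000000000000000000000000000000000000000000) (nat_lit 4)
theorem c29235 : QOK q29235 := cut [q28594] ⟨c28594, trivial⟩ (nd (nat_lit 277) (nat_lit 0) (cs (lf (nat_lit 41) (nat_lit 276)) (rf (nat_lit 0)))) q29235 (by decide +kernel)
def q29309 : Q := Q.p (nat_lit 0xc0000200000200000800002000000000000000000000000000000000000000000000000000000000000000) (nat_lit 0x80000280007e0003f8001be000f38001d60007980007000011000000000000000000000000000000000000000000000000000000000000000) (nat_lit 12)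
theorem c29309 : QOK q29309 := cut [q13978, q29182, q29248, q28909, q29142, q29250, q29257, q28616, q29216, q28622, q29274, q29279, q29285, q29289, q29292, q27952] ⟨c13978, c29182, c29248, c28909, c29142, c29250, c29257, c28616, c29216, c28622, c29274, c29279, c29285, c29289, c29292, c27952, trivial⟩ (nd (nat_lit 322) (nat_lit 0) (cs (rf (nat_lit 0)) (cs (rf (nat_lit 1)) (cs (nd (nat_lit 365) (nat_lit 0) (cs (rf (nat_lit 2)) (cs (nd (nat_lit 364) (nat_lit 0) (cs (rf (nat_lit 3)) (cs (nd (nat_lit 278) (nat_lit 0) (cs (rf (nat_lit 4)) (nd (nat_lit 340) (nat_lit 0) (cs (lf (nat_lit 13) (nat_lit 318)) (rf (nat_lit 5)))))) (nd (nat_lit 340) (nat_lit 0) (cs (lf (nat_lit 13) (nat_lit 318)) (nd (nat_lit 386) (nat_lit 0) (cs (lf (nat_lit 30) (nat_lit 320)) (nd (nat_lit 384) (nat_lit 0) (cs (nd (nat_lit 385) (nat_lit 0) (cs (lf (nat_lit 12) (nat_lit 361)) (rf (nat_lit 6)))) (cs (nd (nat_lit 362) (nat_lit 0) (cs (rf (nat_lit 7)) (rf (nat_lit 8)))) (cs (nd (nat_lit 362) (nat_lit 0) (cs (rf (nat_lit 9)) (rf (nat_lit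 8)))) (nd (nat_lit 385) (nat_lit 0) (cs (lf (nat_lit 12) (nat_lit 361)) (nd (nat_lit 407) (nat_lit 0) (cs (lf (nat_lit 36) (nat_lit 319)) (nd (nat_lit 362) (nat_lit 0) (cs (nd (nat_lit 429) (nat_lit 0) (cs (lf (nat_lit 30) (nat_lit 363)) (lf (nat_lit 27) (nat_lit 340)))) (lf (nat_lit 24) (nat_lit 318))))))))))))))))))) (cs (nd (nat_lit 386) (nat_lit 0) (cs (nd (nat_lit 364) (nat_lit 0) (cs (lf (nat_lit 30) (nat_lit 320)) (lf (nat_lit 36) (nat_lit 298)))) (cs (nd (nat_lit 340) (nat_lit 0) (cs (lf (nat_lit 13) (nat_lit 318)) (nd (nat_lit 387) (nat_lit 0) (cs (lf (nat_lit 41) (nat_lit 320)) (rf (nat_lit 10)))))) (nd (nat_lit 364) (nat_lit 0) (cs (lf (nat_lit 36) (nat_lit 298)) (nd (nat_lit 387) (nat_lit 0) (cs (rf (nat_lit 10)) (nd (nat_lit 340) (nat_lit 0) (cs (lf (nat_lit 13) (nat_lit 318)) (rf (nat_lit 11))))))))))) (nd (nat_lit 340) (nat_lit 0) (cs (lf (nat_lit 13) (nat_lit 318)) (rf (nat_lit 12)))))))) (nd (nat_lit 323) (nat_lit 0) (cs (lf (nat_lit 6) (nat_lit 320)) (nd (nat_lit 364) (nat_lit 0)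 (cs (nd (nat_lit 278) (nat_lit 0) (cs (rf (nat_lit 5)) (rf (nat_lit 13)))) (cs (nd (nat_lit 299) (nat_lit 0) (cs (lf (nat_lit 36) (nat_lit 276)) (rf (nat_lit 14)))) (nd (nat_lit 345) (nat_lit 0) (cs (nd (nat_lit 344) (nat_lit 0) (cs (lf (nat_lit 11) (nat_lit 341)) (nd (nat_lit 346) (nat_lit 0) (cs (lf (nat_lit 0) (nat_lit 320)) (lf (nat_lit 18) (nat_lit 321)))))) (cs (nd (nat_lit 386) (nat_lit 0) (cs (lf (nat_lit 30) (nat_lit 320)) (nd (nat_lit 320) (nat_lit 0) (cs (lf (nat_lit 5) (nat_lit 320)) (nd (nat_lit 301) (nat_lit 0) (cs (lf (nat_lit 17) (nat_lit 298)) (nd (nat_lit 387) (nat_lit 0) (cs (lf (nat_lit 29) (nat_lit 320)) (nd (nat_lit 300) (nat_lit 0) (cs (nd (nat_lit 278) (nat_lit 0) (cs (lf (nat_lit 36) (nat_lit 255)) (lf (nat_lit 42) (nat_lit 278)))) (lf (nat_lit 31) (nat_lit 299)))))))))))) (nd (nat_lit 386) (nat_lit 0) (cs (lf (nat_lit 30) (nat_lit 320)) (nd (nat_lit 344) (nat_lit 0) (cs (rf (nat_lit 15)) (lf (nat_lit 11) (nat_lit 341)))))))))))))))))) q29309 (by decide +kernel)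
def q29426 : Q := Q.p (nat_lit 0xc0000300000200000800002000000000000000000000000000000000000000000000000000000000000000) (nat_lit 0x3f0001fc0009f800738000c60001900007000019000000000000000000000000000000000000000000000000000000000000000) (nat_lit 12)
theorem c29426 : QOK q29426 := cut [q29132, q29136, q29221, q28377, q29413] ⟨c29132, c29136, c29221, c28377, c29413, trivial⟩ (nd (nat_lit 341) (nat_lit 0) (cs (rf (nat_lit 0)) (cs (rf (nat_lit 1)) (nd (nat_lit 364) (nat_lit 0) (cs (rf (nat_lit 2)) (cs (nd (nat_lit 277) (nat_lit 0) (cs (lf (nat_lit 37) (nat_lit 276)) (nd (nat_lit 278) (nat_lit 0) (cs (rf (nat_lit 3)) (nd (nat_lit 322) (nat_lit 0) (cs (lf (nat_lit 6) (nat_lit 319)) (nd (nat_lit 300) (nat_lit 0) (cs (lf (nat_lit 36) (nat_lit 255)) (nd (nat_lit 344) (nat_lit 0) (cs (lf (nat_lit 47) (nat_lit 255)) (nd (nat_lit 345) (nat_lit 0) (cs (lf (nat_lit 29) (nat_lit 278)) (lf (nat_lit 18) (nat_lit 320)))))))))))))) (nd (nat_lit 386) (nat_lit 0) (cs (lf (nat_lit 30) (nat_lit 320)) (nd (nat_lit 385) (nat_lit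 0) (cs (lf (nat_lit 41) (nat_lit 319)) (nd (nat_lit 387) (nat_lit 0) (cs (lf (nat_lit 29) (nat_lit 320)) (nd (nat_lit 323) (nat_lit 0) (cs (lf (nat_lit 7) (nat_lit 319)) (nd (nat_lit 384) (nat_lit 0) (cs (nd (nat_lit 361) (nat_lit 0) (cs (nd (nat_lit 405) (nat_lit 0) (cs (lf (nat_lit 10) (nat_lit 383)) (nd (nat_lit 383) (nat_lit 0) (cs (lf (nat_lit 23) (nat_lit 360)) (lf (nat_lit 11) (nat_lit 382)))))) (lf (nat_lit 22) (nat_lit 361)))) (cs (nd (nat_lit 405) (nat_lit 0) (cs (lf (nat_lit 10) (nat_lit 383)) (nd (nat_lit 383) (nat_lit 0) (cs (lf (nat_lit 11) (nat_lit 382)) (nd (nat_lit 363) (nat_lit 0) (cs (nd (nat_lit 362) (nat_lit 0) (cs (lf (nat_lit 18) (nat_lit 362)) (lf (nat_lit 6) (nat_lit 340)))) (lf (nat_lit 12) (nat_lit 360)))))))) (cs (nd (nat_lit 405) (nat_lit 0) (cs (lf (nat_lit 10) (nat_lit 383)) (nd (nat_lit 383) (nat_lit 0) (cs (lf (nat_lit 11) (nat_lit 382)) (nd (nat_lit 382) (nat_lit 0) (cs (rf (nat_lit 4)) (lf (nat_lit 16) (nat_lit 360)))))))) (nd (nat_lit 362) (nat_lit 0) (cs (lf (nat_lit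 23) (nat_lit 361)) (nd (nat_lit 363) (nat_lit 0) (cs (lf (nat_lit 18) (nat_lit 362)) (lf (nat_lit 6) (nat_lit 340)))))))))))))))))))))))) q29426 (by decide +kernel)
def q29427 : Q := Q.p (nat_lit 0x40000300000200000800002000000000000000000000000000000000000000000000000000000000000000) (nat_lit 0xc00000d80001000000000000000000000000000000000000000000000000000000000000000000000) (nat_lit 4)
theorem c29427 : QOK q29427 := cut [q28787] ⟨c28787, trivial⟩ (nd (nat_lit 298) (nat_lit 0) (cs (lf (nat_lit 45) (nat_lit 253)) (rf (nat_lit 0)))) q29427 (by decide +kernel)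
def q29470 : Q := Q.p (nat_lit 0xc0000600000a00000000000000000000000000000000000000000000000000000000000000000000000000) (nat_lit 0x10000100000100000500002000008000000000000000000000000000000000000000000000000000000000000000) (nat_lit 4)
theorem c29470 : QOK q29470 := cut [q29468] ⟨c29468, trivial⟩ (nd (nat_lit 296) (nat_lit 0) (cs (rf (nat_lit 0)) (lf (nat_lit 2) (nat_lit 296)))) q29470 (by decide +kernel)
def q29480 : Q := Q.p (nat_lit 0xc0000200000200000800000000000000000000000000000000000000000000000000000000000000000000) (nat_lit 0x100006c0001b0000730001d00007c0003f000038000080000200000000000000000000000000000000000000000000000000000) (nat_lit 9)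
theorem c29480 : QOK q29480 := cut [q13978, q29182, q29393, q29175, q29245, q29468, q29248, q29476] ⟨c13978, c29182, c29393, c29175, c29245, c29468, c29248, c29476, trivial⟩ (nd (nat_lit 322) (nat_lit 0) (cs (rf (nat_lit 0)) (cs (rf (nat_lit 1)) (cs (rf (nat_lit 2)) (nd (nat_lit 299) (nat_lit 0) (cs (rf (nat_lit 3)) (cs (rf (nat_lit 4)) (cs (rf (nat_lit 5)) (nd (nat_lit 365) (nat_lit 0) (cs (rf (nat_lit 6)) (nd (nat_lit 340) (nat_lit 0) (cs (lf (nat_lit 13) (nat_lit 318)) (rf (nat_lit 7)))))))))))))) q29480 (by decide +kernel)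
def q29492 : Q := Q.p (nat_lit 0x80000200000e00000800000000000000000000000000000000000000000000000000000000000000000000) (nat_lit 0x200000000004700001c0001000000000000000000000000000000000000000000000000000000000000000000000) (nat_lit 5)
theorem c29492 : QOK q29492 := cut [q29491] ⟨c29491, trivial⟩ (nd (nat_lit 276) (nat_lit 0) (cs (lf (nat_lit 42) (nat_lit 276)) (rf (nat_lit 0)))) q29492 (by decide +kernel)
def q29506 : Q := Q.p (nat_lit 0x40000100000c0000100000000000000000000000000000000000000000000000000000000000000000000000000000000) (nat_lit 0x680003b80006c000000000200000800000000000000000000000000000000000000000000000000000000000000000000000000) (nat_lit 6)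
theorem c29506 : QOK q29506 := cut [q28954, q29279] ⟨c28954, c29279, trivial⟩ (nd (nat_lit 387) (nat_lit 0) (cs (lf (nat_lit 29) (nat_lit 320)) (nd (nat_lit 365) (nat_lit 0) (cs (rf (nat_lit 0)) (nd (nat_lit 321) (nat_lit 0) (cs (rf (nat_lit 1)) (lf (nat_lit 35) (nat_lit 298)))))))) q29506 (by decide +kernel)
def q29559 : Q := Q.p (nat_lit 0x60000500000c0000100000000000000000000000000000000000000000000000000000000000000000000000000000000) (nat_lit 0x2000018000380000320000000000000000000000000000000000000000000000000000000000000000000000000000000000000) (nat_lit 5)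
theorem c29559 : QOK q29559 := cut [q29556] ⟨c29556, trivial⟩ (nd (nat_lit 387) (nat_lit 0) (cs (lf (nat_lit 29) (nat_lit 320)) (nd (nat_lit 367) (nat_lit 0) (cs (rf (nat_lit 0)) (lf (nat_lit 15) (nat_lit 363)))))) q29559 (by decide +kernel)
def q29569 : Q := Q.p (nat_lit 0x60000500000c0000100000000000000000000000000000000000000000000000000000000000000000000000000000000) (nat_lit 0x3a0000320000200000800000000000000000000000000000000000000000000000000000000000000000000000000) (nat_lit 5)
theorem c29569 : QOK q29569 := cut [q29556] ⟨c29556, trivial⟩ (nd (nat_lit 299) (nat_lit 0) (cs (lf (nat_lit 34) (nat_lit 298)) (nd (nat_lit 367) (nat_lit 0) (cs (rf (nat_lit 0)) (lf (nat_lit 8) (nat_lit 363)))))) q29569 (by decide +kernel)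
def q29590 : Q := Q.p (nat_lit 0x100001c0000100000200000800000000000000000000000000000000000000000000000000000000000000000000) (nat_lit 0x100003e6000638001a6000290000a000000000000000000000000000000000000000000000000000000000000000000000) (nat_lit 10)
theorem c29590 : QOK q29590 := cut [q28542, q27962, q29579, q29582] ⟨c28542, c27962, c29579, c29582, trivial⟩ (nd (nat_lit 367) (nat_lit 0) (cs (nd (nat_lit 366) (nat_lit 0) (cs (lf (nat_lit 0) (nat_lit 341)) (rf (nat_lit 0)))) (cs (nd (nat_lit 366) (nat_lit 0) (cs (lf (nat_lit 0) (nat_lit 341)) (nd (nat_lit 345) (nat_lit 0) (cs (rf (nat_lit 1)) (rf (nat_lit 2)))))) (cs (nd (nat_lit 341) (nat_lit 0) (cs (lf (nat_lit 4) (nat_lit 341)) (nd (nat_lit 345) (nat_lit 0) (cs (lf (nat_lit 5) (nat_lit 342)) (nd (nat_lit 323) (nat_lit 0) (cs (lf (nat_lit 17) (nat_lit 320)) (nd (nat_lit 321) (nat_lit 0) (cs (lf (nat_lit 18) (nat_lit 320)) (nd (nat_lit 340) (nat_lit 0) (cs (lf (nat_lit 12) (nat_lit 317)) (nd (nat_lit 277) (nat_lit 0) (cs (lf (nat_lit 37) (nat_lit 276))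 (rf (nat_lit 3)))))))))))))) (nd (nat_lit 345) (nat_lit 0) (cs (lf (nat_lit 5) (nat_lit 342)) (rf (nat_lit 1)))))))) q29590 (by decide +kernel)
def q29648 : Q := Q.p (nat_lit 0x40000180000c0000000000000000000000000000000000000000000000000000000000000000000000000000000000000) (nat_lit 0xfc000fe0003bc00020000320000000000000000000000000000000000000000000000000000000000000000000000000000000000000) (nat_lit 10)
theorem c29648 : QOK q29648 := cut [q29644, q29646] ⟨c29644, c29646, trivial⟩ (nd (nat_lit 345) (nat_lit 0) (cs (lf (nat_lit 7) (nat_lit 341)) (nd (nat_lit 408) (nat_lit 0) (cs (rf (nat_lit 0)) (rf (nat_lit 1)))))) q29648 (by decide +kernel)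
def q29852 : Q := Q.p (nat_lit 0x40000c0000000000f00000000000000000000000000000000000000000000000000000000000000000000000000) (nat_lit 0x3b000330000000000000006000000000000000000000000000000000000000000000000000000000000000000000) (nat_lit 5)
theorem c29852 : QOK q29852 := cut [q29844, q29215] ⟨c29844, c29215, trivial⟩ (nd (nat_lit 363) (nat_lit 0) (cs (nd (nat_lit 277) (nat_lit 0) (cs (lf (nat_lit 17) (nat_lit 274)) (rf (nat_lit 0)))) (cs (nd (nat_lit 277) (nat_lit 0) (cs (lf (nat_lit 17) (nat_lit 274)) (nd (nat_lit 344) (nat_lit 0) (cs (lf (nat_lit 9) (nat_lit 340)) (nd (nat_lit 364) (nat_lit 0) (cs (lf (nat_lit 6) (nat_lit 341)) (lf (nat_lit 15) (nat_lit 340)))))))) (cs (nd (nat_lit 361) (nat_lit 0) (cs (lf (nat_lit 15) (nat_lit 339)) (nd (nat_lit 341) (nat_lit 0) (cs (lf (nat_lit 12) (nat_lit 338)) (lf (nat_lit 9) (nat_lit 339)))))) (nd (nat_lit 364) (nat_lit 0) (cs (lf (nat_lit 12) (nat_lit 339)) (rf (nat_lit 1)))))))) q29852 (by decide +kernel)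
def q29923 : Q := Q.p (nat_lit 0x180000400001200000800002000000000000000000000000000000000000000000000000000000000000000) (nat_lit 0x20000010000f000039000080000000000000000000000000000000000000000000000000000000000) (nat_lit 4)
theorem c29923 : QOK q29923 := cut [q28000, q28559] ⟨c28000, c28559, trivial⟩ (nd (nat_lit 278) (nat_lit 0) (cs (rf (nat_lit 0)) (rf (nat_lit 1)))) q29923 (by decide +kernel)
def q29924 : Q := Q.p (nat_lit 0x180000400001000000000000000000000000000000000000000000000000000000000000000000000000000) (nat_lit 0x20000000000200000000006000018000020000000000000000000000000000000000000000000000000000000000) (nat_lit 4)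
theorem c29924 : QOK q29924 := cut [q28490] ⟨c28490, trivial⟩ (nd (nat_lit 278) (nat_lit 0) (cs (lf (nat_lit 41) (nat_lit 277)) (rf (nat_lit 0)))) q29924 (by decide +kernel)
def q29927 : Q := Q.p (nat_lit 0x100000c00001200000000000000000000000000000000000000000000000000000000000000000000000000) (nat_lit 0x40000000000200000c00002000008000020000000000000000000000000000000000000000000000000000000000) (nat_lit 4)
theorem c29927 : QOK q29927 := cut [q29926] ⟨c29926, trivial⟩ (nd (nat_lit 299) (nat_lit 0) (cs (lf (nat_lit 1) (nat_lit 297)) (rf (nat_lit 0)))) q29927 (by decide +kernel)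
def q29937 : Q := Q.p (nat_lit 0x10000040000100000400000000000000000000000000000000000000000000000000000000000000000000000000000000) (nat_lit 0x200000800002000000000000000380000e000028000000000000000000000000000000000000000000000000000000000000000) (nat_lit 6)
theorem c29937 : QOK q29937 := cut [q28485] ⟨c28485, trivial⟩ (nd (nat_lit 387) (nat_lit 0) (cs (lf (nat_lit 41) (nat_lit 321)) (rf (nat_lit 0)))) q29937 (by decide +kernel)
def q29988 : Q := Q.p (nat_lit 0x100001c0000000000000000000000000000000000000000000000000000000000000000000000000000000000000) (nat_lit 0x28000600003800000000000000000000000000000000000000000000000000000000000000000000000000000000) (nat_lit 4)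
theorem c29988 : QOK q29988 := cut [q29091] ⟨c29091, trivial⟩ (nd (nat_lit 345) (nat_lit 0) (cs (lf (nat_lit 11) (nat_lit 341)) (rf (nat_lit 0)))) q29988 (by decide +kernel)
def q30121 : Q := Q.p (nat_lit 0x200000e0000000000000000000000000000000000000000000000000000000000000000000000000000000000000) (nat_lit 0x47000018000700000000000000000000000000000000000000000000000000000000000000000000000000000000) (nat_lit 5)
theorem c30121 : QOK q30121 := cut [q30120] ⟨c30120, trivial⟩ (nd (nat_lit 340) (nat_lit 0) (cs (lf (nat_lit 5) (nat_lit 340)) (rf (nat_lit 0)))) q30121 (by decide +kernel)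
def q30123 : Q := Q.p (nat_lit 0x200000e0000000000200000800000000000000000000000000000000000000000000000000000000000000000000) (nat_lit 0x17000018000070000100000000000000000000000000000000000000000000000000000000000000000000000000) (nat_lit 4)
theorem c30123 : QOK q30123 := cut [q28763, q29134, q28900] ⟨c28763, c29134, c28900, trivial⟩ (nd (nat_lit 340) (nat_lit 0) (cs (rf (nat_lit 0)) (cs (rf (nat_lit 1)) (nd (nat_lit 317) (nat_lit 0) (cs (rf (nat_lit 2)) (lf (nat_lit 22) (nat_lit 317))))))) q30123 (by decide +kernel)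
def q30185 : Q := Q.p (nat_lit 0x80000200000c0000200000000000000000000000000000000000000000000000000000000000000000000000000000000) (nat_lit 0x20001d00001400000000000000000000000000000000000000000000000000000000000000000000000000) (nat_lit 4)
theorem c30185 : QOK q30185 := cut [q30184] ⟨c30184, trivial⟩ (nd (nat_lit 320) (nat_lit 0) (cs (lf (nat_lit 47) (nat_lit 298)) (rf (nat_lit 0)))) q30185 (by decide +kernel)
def q30307 : Q := Q.p (nat_lit 0x180000700000c0000000000200000800000000000000000000000000000000000000000000000000000000000000000000) (nat_lit 0x120000cc0000700000c000300000100000400000000000000000000000000000000000000000000000000000000000000000000000000) (nat_lit 8)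
theorem c30307 : QOK q30307 := cut [q30302] ⟨c30302, trivial⟩ (nd (nat_lit 363) (nat_lit 0) (cs (lf (nat_lit 0) (nat_lit 362)) (nd (nat_lit 298) (nat_lit 0) (cs (lf (nat_lit 44) (nat_lit 275)) (nd (nat_lit 385) (nat_lit 0) (cs (lf (nat_lit 11) (nat_lit 362)) (nd (nat_lit 407) (nat_lit 0) (cs (lf (nat_lit 30) (nat_lit 341)) (nd (nat_lit 344) (nat_lit 0) (cs (lf (nat_lit 17) (nat_lit 341)) (rf (nat_lit 0)))))))))))) q30307 (by decide +kernel)
def q30337 : Q := Q.p (nat_lit 0xf00000c0000000000000000000000000000000000000000000000000000000000000000000000000000000000000) (nat_lit 0x10000008000700001800002000008000000000000000000000000000000000000000000000000000000000000000000000) (nat_lit 5)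
theorem c30337 : QOK q30337 := cut [q29579] ⟨c29579, trivial⟩ (nd (nat_lit 345) (nat_lit 0) (cs (lf (nat_lit 17) (nat_lit 342)) (nd (nat_lit 344) (nat_lit 0) (cs (rf (nat_lit 0)) (lf (nat_lit 12) (nat_lit 341)))))) q30337 (by decide +kernel)
def q30449 : Q := Q.p (nat_lit 0x1c0000300000200000800000000000000000000000000000000000000000000000000000000000000000000) (nat_lit 0x1c6000638001860000100000000000000000000000000000000000000000000000000000000000000000000000000) (nat_lit 8)
theorem c30449 : QOK q30449 := cut [q29136] ⟨c29136, trivial⟩ (nd (nat_lit 345) (nat_lit 0) (cs (lf (nat_lit 18) (nat_lit 320)) (nd (nat_lit 323) (nat_lit 0) (cs (lf (nat_lit 17) (nat_lit 320)) (nd (nat_lit 367) (nat_lit 0) (cs (lf (nat_lit 5) (nat_lit 342)) (nd (nat_lit 341) (nat_lit 0) (cs (lf (nat_lit 4) (nat_lit 341)) (rf (nat_lit 0)))))))))) q30449 (by decide +kernel)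
def q30456 : Q := Q.p (nat_lit 0x1c0000600000000000000000000000000000000000000000000000000000000000000000000000000000000) (nat_lit 0x60000180000e000003000000000300000c000030000000000000000000000000000000000000000000000000000000000000000) (nat_lit 8)
theorem c30456 : QOK q30456 := cut [q30455] ⟨c30455, trivial⟩ (nd (nat_lit 341) (nat_lit 0) (cs (lf (nat_lit 12) (nat_lit 318)) (rf (nat_lit 0)))) q30456 (by decide +kernel)
def q30505 : Q := Q.p (nat_lit 0xc0000200000200000800002000000000000000000000000000000000000000000000000000000000000000) (nat_lit 0x700001c0001f0000130001d00001900007000011000000000000000000000000000000000000000000000000000000000000000) (nat_lit 7)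
theorem c30505 : QOK q30505 := cut [q13978, q29248, q29285, q30022, q30494, q29142, q28377, q28023, q29274] ⟨c13978, c29248, c29285, c30022, c30494, c29142, c28377, c28023, c29274, trivial⟩ (nd (nat_lit 322) (nat_lit 0) (cs (rf (nat_lit 0)) (cs (nd (nat_lit 365) (nat_lit 0) (cs (rf (nat_lit 1)) (cs (rf (nat_lit 2)) (nd (nat_lit 366) (nat_lit 0) (cs (rf (nat_lit 3)) (nd (nat_lit 299) (nat_lit 0) (cs (lf (nat_lit 29) (nat_lit 299)) (rf (nat_lit 4))))))))) (nd (nat_lit 365) (nat_lit 0) (cs (rf (nat_lit 1)) (cs (rf (nat_lit 2)) (cs (nd (nat_lit 323) (nat_lit 0) (cs (lf (nat_lit 6) (nat_lit 320)) (nd (nat_lit 278) (nat_lit 0) (cs (rf (nat_lit 5)) (cs (nd (nat_lit 277) (nat_lit 0) (cs (rf (nat_lit 6)) (nd (nat_lit 299) (nat_lit 0) (cs (lf (nat_lit 41) (nat_lit 276)) (lf (nat_lit 35) (nat_lit 255)))))) (nd (nat_lit 300) (nat_lit 0) (cs (lf (nat_lit 33) (nat_lit 277)) (lf (nat_lit 39) (nat_lit 277))))))))) (nd (nat_lit 387) (nat_lit 0) (cs (rf (nat_lit 7)) (rf (nat_lit 8))))))))))) q30505 (by decide +kernel)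
def q30509 : Q := Q.p (nat_lit 0x1c0000200000000000000000000000000000000000000000000000000000000000000000000000000000000) (nat_lit 0x40000100003e0000020000400000800002000000000000000000000000000000000000000000000000000000000000000000000) (nat_lit 4)
theorem c30509 : QOK q30509 := cut [q30006, q30508] ⟨c30006, c30508, trivial⟩ (nd (nat_lit 366) (nat_lit 0) (cs (rf (nat_lit 0)) (rf (nat_lit 1)))) q30509 (by decide +kernel)
def q30572 : Q := Q.p (nat_lit 0x1c0000000000200000800002000000000000000000000000000000000000000000000000000000000000000) (nat_lit 0x80000200003f8000e00003f00007c0001d000040000000000000000000000000000000000000000000000000000000000000000) (nat_lit 10)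
theorem c30572 : QOK q30572 := cut [q27966, q27974, q28054, q28651, q28654, q30565] ⟨c27966, c27974, c28054, c28651, c28654, c30565, trivial⟩ (nd (nat_lit 345) (nat_lit 0) (cs (rf (nat_lit 0)) (cs (nd (nat_lit 324) (nat_lit 0) (cs (nd (nat_lit 367) (nat_lit 0) (cs (lf (nat_lit 5) (nat_lit 342)) (nd (nat_lit 346) (nat_lit 0) (cs (nd (nat_lit 389) (nat_lit 0) (cs (nd (nat_lit 280) (nat_lit 0) (cs (nd (nat_lit 321) (nat_lit 0) (cs (nd (nat_lit 322) (nat_lit 0) (cs (rf (nat_lit 1)) (lf (nat_lit 18) (nat_lit 321)))) (lf (nat_lit 23) (nat_lit 320)))) (lf (nat_lit 37) (nat_lit 279)))) (lf (nat_lit 30) (nat_lit 323)))) (lf (nat_lit 17) (nat_lit 321)))))) (lf (nat_lit 16) (nat_lit 320)))) (cs (rf (nat_lit 2)) (nd (nat_lit 367) (nat_lit 0) (cs (lf (nat_lit 5) (nat_lit 342)) (nd (nat_lit 300) (nat_lit 0) (cs (rf (nat_lit 3)) (cs (rf (nat_lit 4)) (nd (nat_lit 363) (nat_lit 0) (cs (lf (nat_lit 10) (nat_lit 341)) (nd (nat_lit 323) (nat_lit 0) (cs (lf (nat_lit 17) (nat_lit 320)) (nd (nat_lit 301) (nat_lit 0) (cs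 (lf (nat_lit 47) (nat_lit 278)) (nd (nat_lit 279) (nat_lit 0) (cs (lf (nat_lit 41) (nat_lit 278)) (rf (nat_lit 5))))))))))))))))))) q30572 (by decide +kernel)
def q30590 : Q := Q.p (nat_lit 0x1e0000200000000000000000000000000000000000000000000000000000000000000000000000000000000) (nat_lit 0x40000100000e0000000000000000800002000000000000000000000000000000000000000000000000000000000000000000000) (nat_lit 4)
theorem c30590 : QOK q30590 := cut [q30589] ⟨c30589, trivial⟩ (nd (nat_lit 366) (nat_lit 0) (cs (lf (nat_lit 5) (nat_lit 341)) (rf (nat_lit 0)))) q30590 (by decide +kernel)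
def q30617 : Q := Q.p (nat_lit 0x1c0000300000000000800002000000000000000000000000000000000000000000000000000000000000000) (nat_lit 0xe000638001c00000400001000000000000000000000000000000000000000000000000000000000000000000000) (nat_lit 7)
theorem c30617 : QOK q30617 := cut [q30615] ⟨c30615, trivial⟩ (nd (nat_lit 345) (nat_lit 0) (cs (lf (nat_lit 18) (nat_lit 320)) (nd (nat_lit 276) (nat_lit 0) (cs (lf (nat_lit 44) (nat_lit 253)) (rf (nat_lit 0)))))) q30617 (by decide +kernel)
def q30670 : Q := Q.p (nat_lit 0x180000600001200000800002000000000000000000000000000000000000000000000000000000000000000) (nat_lit 0x100007000019000000000000000000000000000000000000000000000000000000000000000) (nat_lit 4)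
theorem c30670 : QOK q30670 := cut [q28559] ⟨c28559, trivial⟩ (nd (nat_lit 278) (nat_lit 0) (cs (lf (nat_lit 36) (nat_lit 255)) (rf (nat_lit 0)))) q30670 (by decide +kernel)
def q30699 : Q := Q.p (nat_lit 0x400001c0000000000000000000000000000000000000000000000000000000000000000000000000000000000000) (nat_lit 0x8e000030000e00000000000000000000000000000000000000000000000000000000000000000000000000000000) (nat_lit 5)
theorem c30699 : QOK q30699 := cut [q15010] ⟨c15010, trivial⟩ (nd (nat_lit 341) (nat_lit 0) (cs (rf (nat_lit 0)) (lf (nat_lit 5) (nat_lit 341)))) q30699 (by decide +kernel)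
def q30711 : Q := Q.p (nat_lit 0x1c0000000000200000800000000000000000000000000000000000000000000000000000000000000000000) (nat_lit 0x3fc000620003b00000400000000000000000000000000000000000000000000000000000000000000000000000000) (nat_lit 5)
theorem c30711 : QOK q30711 := cut [q27959, q27966, q28334] ⟨c27959, c27966, c28334, trivial⟩ (nd (nat_lit 345) (nat_lit 0) (cs (rf (nat_lit 0)) (cs (rf (nat_lit 1)) (rf (nat_lit 2))))) q30711 (by decide +kernel)
def q30790 : Q := Q.p (nat_lit 0x300000c0000300000000000000000000000000000000000000000000000000000000000000000000000000000000) (nat_lit 0x600007800004c000000000400001000000000000000000000000000000000000000000000000000000000000000000000000000) (nat_lit 6)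
theorem c30790 : QOK q30790 := cut [q30788] ⟨c30788, trivial⟩ (nd (nat_lit 387) (nat_lit 0) (cs (lf (nat_lit 42) (nat_lit 320)) (nd (nat_lit 300) (nat_lit 0) (cs (lf (nat_lit 34) (nat_lit 299)) (rf (nat_lit 0)))))) q30790 (by decide +kernel)
def q30853 : Q := Q.p (nat_lit 0x8000020000180000600000200000800002000000000000000000000000000000000000000000000000000000000000000) (nat_lit 0x4000010000040000000000000000900007000019000000000000000000000000000000000000000000000000000000000000000) (nat_lit 6)
theorem c30853 : QOK q30853 := cut [q28594] ⟨c28594, trivial⟩ (nd (nat_lit 388) (nat_lit 0) (cs (lf (nat_lit 29) (nat_lit 321)) (nd (nat_lit 299) (nat_lit 0) (cs (lf (nat_lit 28) (nat_lit 299)) (nd (nat_lit 277) (nat_lit 0) (cs (lf (nat_lit 24) (nat_lit 255)) (rf (nat_lit 0)))))))) q30853 (by decide +kernel)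
def q30882 : Q := Q.p (nat_lit 0x80000200000a00002000000000000000000000000000000000000000000000000000000000000000000000) (nat_lit 0x150001c000010000000000000000000000000000000000000000000000000000000000000000) (nat_lit 4)
theorem c30882 : QOK q30882 := cut [q28378] ⟨c28378, trivial⟩ (nd (nat_lit 278) (nat_lit 0) (cs (lf (nat_lit 35) (nat_lit 255)) (rf (nat_lit 0)))) q30882 (by decide +kernel)
def q31016 : Q := Q.p (nat_lit 0x400001c0000000000200000800000000000000000000000000000000000000000000000000000000000000000000) (nat_lit 0x8e000030000060000100000000000000000000000000000000000000000000000000000000000000000000000000) (nat_lit 5)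
theorem c31016 : QOK q31016 := cut [q27995] ⟨c27995, trivial⟩ (nd (nat_lit 341) (nat_lit 0) (cs (lf (nat_lit 5) (nat_lit 341)) (rf (nat_lit 0)))) q31016 (by decide +kernel)
def q31039 : Q := Q.p (nat_lit 0xc0000200000800000000000000000000000000000000000000000000000000000000000000000000000000) (nat_lit 0x10000000000100000000006000018000040000000000000000000000000000000000000000000000000000000000) (nat_lit 4)
theorem c31039 : QOK q31039 := cut [q31038] ⟨c31038, trivial⟩ (nd (nat_lit 277) (nat_lit 0) (cs (lf (nat_lit 41) (nat_lit 276)) (rf (nat_lit 0)))) q31039 (by decide +kernel)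
def q31110 : Q := Q.p (nat_lit 0xc0000200001a00000000000000000000000000000000000000000000000000000000000000000000000000) (nat_lit 0x40000700005e0001e000063000fd0003e500038000060000180000000000000000000000000000000000000000000000000000000000) (nat_lit 11)
theorem c31110 : QOK q31110 := cut [q30989, q13976, q14062, q31098, q31103] ⟨c30989, c13976, c14062, c31098, c31103, trivial⟩ (nd (nat_lit 365) (nat_lit 0) (cs (rf (nat_lit 0)) (cs (nd (nat_lit 301) (nat_lit 0) (cs (nd (nat_lit 323) (nat_lit 0) (cs (nd (nat_lit 298) (nat_lit 0) (cs (lf (nat_lit 5) (nat_lit 298)) (lf (nat_lit 4) (nat_lit 297)))) (cs (nd (nat_lit 324) (nat_lit 0) (cs (nd (nat_lit 325) (nat_lit 0) (cs (nd (nat_lit 366) (nat_lit 0) (cs (lf (nat_lit 29) (nat_lit 299)) (nd (nat_lit 340) (nat_lit 0) (cs (lf (nat_lit 1) (nat_lit 340)) (nd (nat_lit 368) (nat_lit 0) (cs (nd (nat_lit 346) (nat_lit 0) (cs (lf (nat_lit 42) (nat_lit 301)) (nd (nat_lit 279) (nat_lit 0) (cs (lf (nat_lit 24) (nat_lit 257)) (lf (nat_lit 27) (nat_lit 279)))))) (lf (nat_lit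 19) (nat_lit 342)))))))) (lf (nat_lit 18) (nat_lit 300)))) (lf (nat_lit 0) (nat_lit 298)))) (cs (nd (nat_lit 366) (nat_lit 0) (cs (lf (nat_lit 29) (nat_lit 299)) (nd (nat_lit 322) (nat_lit 0) (cs (rf (nat_lit 1)) (lf (nat_lit 1) (nat_lit 297)))))) (nd (nat_lit 322) (nat_lit 0) (cs (rf (nat_lit 1)) (lf (nat_lit 6) (nat_lit 320)))))))) (cs (nd (nat_lit 366) (nat_lit 0) (cs (lf (nat_lit 29) (nat_lit 299)) (nd (nat_lit 302) (nat_lit 0) (cs (lf (nat_lit 11) (nat_lit 298)) (nd (nat_lit 280) (nat_lit 0) (cs (lf (nat_lit 17) (nat_lit 277)) (nd (nat_lit 279) (nat_lit 0) (cs (lf (nat_lit 12) (nat_lit 276)) (nd (nat_lit 324) (nat_lit 0) (cs (lf (nat_lit 5) (nat_lit 299)) (nd (nat_lit 368) (nat_lit 0) (cs (lf (nat_lit 19) (nat_lit 342)) (lf (nat_lit 43) (nat_lit 279)))))))))))))) (cs (nd (nat_lit 324) (nat_lit 0) (cs (nd (nat_lit 323) (nat_lit 0) (cs (lf (nat_lit 0) (nat_lit 298)) (lf (nat_lit 8) (nat_lit 320)))) (cs (nd (nat_lit 366) (nat_lit 0) (cs (lf (nat_lit 29) (nat_lit 299)) (nd (nat_lit 302) (nat_lit 0)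 (cs (lf (nat_lit 5) (nat_lit 299)) (nd (nat_lit 280) (nat_lit 0) (cs (lf (nat_lit 17) (nat_lit 277)) (nd (nat_lit 279) (nat_lit 0) (cs (lf (nat_lit 12) (nat_lit 276)) (rf (nat_lit 2)))))))))) (nd (nat_lit 302) (nat_lit 0) (cs (lf (nat_lit 5) (nat_lit 299)) (nd (nat_lit 322) (nat_lit 0) (cs (lf (nat_lit 6) (nat_lit 299)) (lf (nat_lit 7) (nat_lit 320))))))))) (cs (nd (nat_lit 366) (nat_lit 0) (cs (lf (nat_lit 29) (nat_lit 299)) (nd (nat_lit 302) (nat_lit 0) (cs (lf (nat_lit 11) (nat_lit 298)) (nd (nat_lit 280) (nat_lit 0) (cs (lf (nat_lit 17) (nat_lit 277)) (nd (nat_lit 279) (nat_lit 0) (cs (lf (nat_lit 12) (nat_lit 276)) (nd (nat_lit 303) (nat_lit 0) (cs (lf (nat_lit 10) (nat_lit 299)) (nd (nat_lit 326) (nat_lit 0) (cs (nd (nat_lit 304) (nat_lit 0) (cs (lf (nat_lit 5) (nat_lit 301)) (lf (nat_lit 18) (nat_lit 279)))) (lf (nat_lit 4) (nat_lit 300)))))))))))))) (cs (nd (nat_lit 302) (nat_lit 0) (cs (lf (nat_lit 11) (nat_lit 298)) (nd (nat_lit 280) (nat_lit 0) (cs (lf (nat_lit 17) (nat_lit 277)) (nd (nat_lit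 279) (nat_lit 0) (cs (lf (nat_lit 12) (nat_lit 276)) (nd (nat_lit 322) (nat_lit 0) (cs (lf (nat_lit 6) (nat_lit 299)) (nd (nat_lit 235) (nat_lit 0) (cs (nd (nat_lit 340) (nat_lit 0) (cs (lf (nat_lit 13) (nat_lit 318)) (nd (nat_lit 323) (nat_lit 0) (cs (lf (nat_lit 6) (nat_lit 320)) (nd (nat_lit 258) (nat_lit 0) (cs (lf (nat_lit 36) (nat_lit 235)) (lf (nat_lit 30) (nat_lit 257)))))))) (lf (nat_lit 37) (nat_lit 234)))))))))))) (nd (nat_lit 302) (nat_lit 0) (cs (lf (nat_lit 11) (nat_lit 298)) (nd (nat_lit 280) (nat_lit 0) (cs (lf (nat_lit 17) (nat_lit 277)) (nd (nat_lit 303) (nat_lit 0) (cs (lf (nat_lit 10) (nat_lit 299)) (rf (nat_lit 3)))))))))))))) (cs (rf (nat_lit 4)) (nd (nat_lit 366) (nat_lit 0) (cs (lf (nat_lit 29) (nat_lit 299)) (nd (nat_lit 367) (nat_lit 0) (cs (lf (nat_lit 18) (nat_lit 342)) (nd (nat_lit 340) (nat_lit 0) (cs (lf (nat_lit 1) (nat_lit 340)) (nd (nat_lit 387) (nat_lit 0) (cs (lf (nat_lit 34) (nat_lit 299)) (nd (nat_lit 408) (nat_lit 0) (cs (lf (nat_lit 40) (nat_lit 320)) (nd (nat_lit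 409) (nat_lit 0) (cs (lf (nat_lit 47) (nat_lit 320)) (lf (nat_lit 41) (nat_lit 342)))))))))))))))))) q31110 (by decide +kernel)
def q31136 : Q := Q.p (nat_lit 0xe0000200000200000800000000000000000000000000000000000000000000000000000000000000000000) (nat_lit 0x77000018000170000100000000000000000000000000000000000000000000000000000000000000000000000000) (nat_lit 5)
theorem c31136 : QOK q31136 := cut [q28903, q29134, q30991] ⟨c28903, c29134, c30991, trivial⟩ (nd (nat_lit 340) (nat_lit 0) (cs (rf (nat_lit 0)) (cs (rf (nat_lit 1)) (rf (nat_lit 2))))) q31136 (by decide +kernel)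
def q31138 : Q := Q.p (nat_lit 0x20000080000200000a00000000000000000000000000000000000000000000000000000000000000000000000000) (nat_lit 0x8000000000000000c00001500004000000000000000000000000000000000000000000000000000000000000000000000) (nat_lit 4)
theorem c31138 : QOK q31138 := cut [q31103] ⟨c31103, trivial⟩ (nd (nat_lit 300) (nat_lit 0) (cs (lf (nat_lit 35) (nat_lit 277)) (rf (nat_lit 0)))) q31138 (by decide +kernel)
def q31202 : Q := Q.p (nat_lit 0x10000040000200000800000000000000000000000000000000000000000000000000000000000000000000) (nat_lit 0x280007e0001fc0003f800008000020000180000000000000000000000000000000000000000000000000000000000000000000000000) (nat_lit 11)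
theorem c31202 : QOK q31202 := cut [q28615, q28621, q31179, q31182, q31187, q31194, q31198] ⟨c28615, c28621, c31179, c31182, c31187, c31194, c31198, trivial⟩ (nd (nat_lit 362) (nat_lit 0) (cs (lf (nat_lit 33) (nat_lit 274)) (nd (nat_lit 384) (nat_lit 0) (cs (rf (nat_lit 0)) (cs (rf (nat_lit 1)) (cs (nd (nat_lit 385) (nat_lit 0) (cs (lf (nat_lit 29) (nat_lit 318)) (nd (nat_lit 386) (nat_lit 0) (cs (rf (nat_lit 2)) (cs (nd (nat_lit 295) (nat_lit 0) (cs (lf (nat_lit 46) (nat_lit 295)) (rf (nat_lit 3)))) (cs (nd (nat_lit 295) (nat_lit 0) (cs (lf (nat_lit 46) (nat_lit 295)) (rf (nat_lit 4)))) (nd (nat_lit 295) (nat_lit 0) (cs (lf (nat_lit 46) (nat_lit 295)) (rf (nat_lit 5)))))))))) (nd (nat_lit 407) (nat_lit 0) (cs (lf (nat_lit 28) (nat_lit 318)) (nd (nat_lit 405) (nat_lit 0) (cs (lf (nat_lit 40) (nat_lit 317)) (rf (nat_lit 6)))))))))))) q31202 (by decide +kernel)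
def q31208 : Q := Q.p (nat_lit 0x70000000000200000800002000000000000000000000000000000000000000000000000000000000000000) (nat_lit 0x880000f8000000000000000000000000000000000000000000000000000000000000000000000000000000) (nat_lit 4)
theorem c31208 : QOK q31208 := cut [q31207] ⟨c31207, trivial⟩ (nd (nat_lit 318) (nat_lit 0) (cs (lf (nat_lit 39) (nat_lit 252)) (rf (nat_lit 0)))) q31208 (by decide +kernel)

end Crest.Agent.H3.Snaky.CR
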