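import Crest.Agent.H3.Snaky.Cert
import Crest.Agent.H3.Snaky.CR.CR0
import Crest.Agent.H3.Snaky.CR.CR1
import Crest.Agent.H3.Snaky.CR.CR2
import Crest.Agent.H3.Snaky.CR.CR3
import Crest.Agent.H3.Snaky.CR.CR4
import Crest.Agent.H3.Snaky.CR.CR5
import Crest.Agent.H3.Snaky.CR.CR6
import Crest.Agent.H3.Snaky.CR.CR7
import Crest.Agent.H3.Snaky.CR.CR8
import Crest.Agent.H3.Snaky.CR.CR9
import Crest.Agent.H3.Snaky.CR.CR20
import Crest.Agent.H3.Snaky.CR.CR21
import Crest.Agent.H3.Snaky.CR.CR22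
import Crest.Agent.H3.Snaky.CR.CR23
import Crest.Agent.H3.Snaky.CR.CR24
import Crest.Agent.H3.Snaky.CR.CR25
import Crest.Agent.H3.Snaky.CR.CR26
import Crest.Agent.H3.Snaky.CR.CR27

set_option autoImplicit false
set_option maxRecDepth 100000

namespace Crest.Agent.H3.Snaky.CR

open T

def q31219 : Q := Q.p (nat_lit 0x70000000000000000000000000000000000000000000000000000000000000000000000000000000000000) (nat_lit 0x1fb80038c000e78000000000000000000000000000000000000000000000000000000000000000000000000000000) (nat_lit 10)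
theorem c31219 : QOK q31219 := cut [q13277, q22741, q31209, q31218] ⟨c13277, c22741, c31209, c31218, trivial⟩ (nd (nat_lit 339) (nat_lit 0) (cs (rf (nat_lit 0)) (cs (rf (nat_lit 1)) (cs (nd (nat_lit 317) (nat_lit 0) (cs (lf (nat_lit 23) (nat_lit 316)) (nd (nat_lit 360) (nat_lit 0) (cs (lf (nat_lit 10) (nat_lit 338)) (nd (nat_lit 364) (nat_lit 0) (cs (lf (nat_lit 5) (nat_lit 339)) (nd (nat_lit 343) (nat_lit 0) (cs (lf (nat_lit 22) (nat_lit 317)) (nd (nat_lit 322) (nat_lit 0) (cs (lf (nat_lit 16) (nat_lit 318)) (nd (nat_lit 344) (nat_lit 0) (cs (lf (nat_lit 17) (nat_lit 319)) (nd (nat_lit 345) (nat_lit 0) (cs (lf (nat_lit 11) (nat_lit 341)) (rf (nat_lit 2)))))))))))))))) (rf (nat_lit 3)))))) q31219 (by decide +kernel)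
def q31227 : Q := Q.p (nat_lit 0x4000070000000000000000000000000000000000000000000000000000000000000000000000000000000000000) (nat_lit 0xea000180000600000000000000000000000000000000000000000000000000000000000000000000000000000000) (nat_lit 5)
theorem c31227 : QOK q31227 := cut [q31225] ⟨c31225, trivial⟩ (nd (nat_lit 343) (nat_lit 0) (cs (lf (nat_lit 11) (nat_lit 339)) (nd (nat_lit 321) (nat_lit 0) (cs (lf (nat_lit 17) (nat_lit 318)) (rf (nat_lit 0)))))) q31227 (by decide +kernel)
def q31230 : Q := Q.p (nat_lit 0xf0000000000000000000000000000000000000000000000000000000000000000000000000000000000000) (nat_lit 0xe000100000e00000000000000000000000000000000000000000000000000000000000000000000000000000000) (nat_lit 4)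
theorem c31230 : QOK q31230 := cut [q31229] ⟨c31229, trivial⟩ (nd (nat_lit 362) (nat_lit 0) (cs (lf (nat_lit 11) (nat_lit 339)) (rf (nat_lit 0)))) q31230 (by decide +kernel)
def q31287 : Q := Q.p (nat_lit 0x78000000000000000000000000000000000000000000000000000000000000000000000000000000000000) (nat_lit 0x1dc00006000038000000000000000000000000000000000000000000000000000000000000000000000000000000) (nat_lit 6)
theorem c31287 : QOK q31287 := cut [q31285] ⟨c31285, trivial⟩ (nd (nat_lit 316) (nat_lit 0) (cs (lf (nat_lit 22) (nat_lit 316)) (nd (nat_lit 338) (nat_lit 0) (cs (lf (nat_lit 23) (nat_lit 315)) (rf (nat_lit 0)))))) q31287 (by decide +kernel)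
def q31327 : Q := Q.p (nat_lit 0x40000c00001200000800002000000000000000000000000000000000000000000000000000000000000000) (nat_lit 0x200000100002d000070000310000c0000200000000000000000000000000000000000000000000000000000) (nat_lit 5)
theorem c31327 : QOK q31327 := cut [q28385, q31326] ⟨c28385, c31326, trivial⟩ (nd (nat_lit 278) (nat_lit 0) (cs (nd (nat_lit 298) (nat_lit 0) (cs (lf (nat_lit 2) (nat_lit 297)) (nd (nat_lit 276) (nat_lit 0) (cs (lf (nat_lit 43) (nat_lit 253)) (rf (nat_lit 0)))))) (rf (nat_lit 1)))) q31327 (by decide +kernel)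
def q31330 : Q := Q.p (nat_lit 0x40000c00001200000800002000000000000000000000000000000000000000000000000000000000000000) (nat_lit 0x200003a00000000021000070000390000c0000200000000000000000000000000000000000000000000000000000) (nat_lit 5)
theorem c31330 : QOK q31330 := cut [q31326, q28559] ⟨c31326, c28559, trivial⟩ (nd (nat_lit 278) (nat_lit 0) (cs (rf (nat_lit 0)) (nd (nat_lit 344) (nat_lit 0) (cs (rf (nat_lit 1)) (nd (nat_lit 343) (nat_lit 0) (cs (lf (nat_lit 41) (nat_lit 277)) (lf (nat_lit 12) (nat_lit 319)))))))) q31330 (by decide +kernel)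
def q31332 : Q := Q.p (nat_lit 0x100000c00001200000000000000000000000000000000000000000000000000000000000000000000000000) (nat_lit 0x40000000000000000c00006000008000020000000000000000000000000000000000000000000000000000000000) (nat_lit 4)
theorem c31332 : QOK q31332 := cut [q31331] ⟨c31331, trivial⟩ (nd (nat_lit 299) (nat_lit 0) (cs (lf (nat_lit 1) (nat_lit 297)) (rf (nat_lit 0)))) q31332 (by decide +kernel)
def q31345 : Q := Q.p (nat_lit 0x180000c00001000000000000000000000000000000000000000000000000000000000000000000000000000) (nat_lit 0x2000000000300000200000c0000380000e0000080000000000000000000000000000000000000000000000000000) (nat_lit 7)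
theorem c31345 : QOK q31345 := cut [q31341] ⟨c31341, trivial⟩ (nd (nat_lit 324) (nat_lit 0) (cs (lf (nat_lit 6) (nat_lit 321)) (nd (nat_lit 278) (nat_lit 0) (cs (lf (nat_lit 41) (nat_lit 277)) (nd (nat_lit 257) (nat_lit 0) (cs (lf (nat_lit 34) (nat_lit 256)) (nd (nat_lit 256) (nat_lit 0) (cs (lf (nat_lit 35) (nat_lit 234)) (rf (nat_lit 0)))))))))) q31345 (by decide +kernel)
def q31447 : Q := Q.p (nat_lit 0xc00001200004800002000000000000000000000000000000000000000000000000000000000000000) (nat_lit 0x1c0000f0000030000210001b000069000000000000000000000000000000000000000000000000000000000000000) (nat_lit 8)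
theorem c31447 : QOK q31447 := cut [q28559, q31446] ⟨c28559, c31446, trivial⟩ (nd (nat_lit 344) (nat_lit 0) (cs (rf (nat_lit 0)) (rf (nat_lit 1)))) q31447 (by decide +kernel)
def q31448 : Q := Q.p (nat_lit 0xc00001000004000000000000000000000000000000000000000000000000000000000000000000000) (nat_lit 0x200000000002000000000018000060000080000000000000000000000000000000000000000000000000000) (nat_lit 4)
theorem c31448 : QOK q31448 := cut [q31341] ⟨c31341, trivial⟩ (nd (nat_lit 256) (nat_lit 0) (cs (lf (nat_lit 29) (nat_lit 256)) (rf (nat_lit 0)))) q31448 (by decide +kernel)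
def q31487 : Q := Q.p (nat_lit 0xc00001800004000000000000000000000000000000000000000000000000000000000000000000000) (nat_lit 0x1000004000010000020000200000a0000380000e0000280000000000000000000000000000000000000000000000000000) (nat_lit 7)
theorem c31487 : QOK q31487 := cut [q31325, q31341, q31414] ⟨c31325, c31341, c31414, trivial⟩ (nd (nat_lit 256) (nat_lit 0) (cs (rf (nat_lit 0)) (cs (rf (nat_lit 1)) (cs (rf (nat_lit 2)) (nd (nat_lit 233) (nat_lit 0) (cs (lf (nat_lit 46) (nat_lit 233)) (nd (nat_lit 257) (nat_lit 0) (cs (lf (nat_lit 35) (nat_lit 234)) (nd (nat_lit 344) (nat_lit 0) (cs (lf (nat_lit 34) (nat_lit 256)) (nd (nat_lit 366) (nat_lit 0) (cs (lf (nat_lit 47) (nat_lit 277)) (nd (nat_lit 388) (nat_lit 0) (cs (lf (nat_lit 46) (nat_lit 299)) (lf (nat_lit 35) (nat_lit 300)))))))))))))))) q31487 (by decide +kernel)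
def q31547 : Q := Q.p (nat_lit 0x40000100000400001200000800002000000000000000000000000000000000000000000000000000000000000000) (nat_lit 0x20000080000200000000000100007000009000000000000000000000000000000000000000000000000000000000000000) (nat_lit 5)
theorem c31547 : QOK q31547 := cut [q28559] ⟨c28559, trivial⟩ (nd (nat_lit 367) (nat_lit 0) (cs (lf (nat_lit 29) (nat_lit 300)) (nd (nat_lit 278) (nat_lit 0) (cs (rf (nat_lit 0)) (lf (nat_lit 28) (nat_lit 278)))))) q31547 (by decide +kernel)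
def q31628 : Q := Q.p (nat_lit 0x1c0000400000000000000000000000000000000000000000000000000000000000000000000000000000000) (nat_lit 0xe000038000fe0001e0000fa00006000018000060000000000000000000000000000000000000000000000000000000000000000) (nat_lit 9)
theorem c31628 : QOK q31628 := cut [q31607, q28671, q31616, q31621, q30565] ⟨c31607, c28671, c31616, c31621, c30565, trivial⟩ (nd (nat_lit 345) (nat_lit 0) (cs (rf (nat_lit 0)) (cs (nd (nat_lit 368) (nat_lit 0) (cs (lf (nat_lit 4) (nat_lit 342)) (nd (nat_lit 346) (nat_lit 0) (cs (lf (nat_lit 5) (nat_lit 343)) (nd (nat_lit 347) (nat_lit 0) (cs (lf (nat_lit 23) (nat_lit 321)) (nd (nat_lit 365) (nat_lit 0) (cs (lf (nat_lit 10) (nat_lit 343)) (nd (nat_lit 387) (nat_lit 0) (cs (lf (nat_lit 30) (nat_lit 321)) (rf (nat_lit 1)))))))))))) (cs (rf (nat_lit 2)) (cs (rf (nat_lit 3)) (nd (nat_lit 323) (nat_lit 0) (cs (lf (nat_lit 17) (nat_lit 320)) (nd (nat_lit 367) (nat_lit 0) (cs (lf (nat_lit 5) (nat_lit 342)) (nd (nat_lit 389) (nat_lit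 0) (cs (lf (nat_lit 42) (nat_lit 322)) (nd (nat_lit 388) (nat_lit 0) (cs (lf (nat_lit 41) (nat_lit 322)) (nd (nat_lit 301) (nat_lit 0) (cs (lf (nat_lit 40) (nat_lit 300)) (nd (nat_lit 279) (nat_lit 0) (cs (lf (nat_lit 36) (nat_lit 256)) (rf (nat_lit 4))))))))))))))))))) q31628 (by decide +kernel)
def q31659 : Q := Q.p (nat_lit 0x140000400001000000000000000000000000000000000000000000000000000000000000000000000000000) (nat_lit 0x280001e00002a000000000200000c000020000000000000000000000000000000000000000000000000000000000000000) (nat_lit 6)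
theorem c31659 : QOK q31659 := cut [q31650, q30450, q31655, q31658] ⟨c31650, c30450, c31655, c31658, trivial⟩ (nd (nat_lit 366) (nat_lit 0) (cs (rf (nat_lit 0)) (cs (nd (nat_lit 365) (nat_lit 0) (cs (lf (nat_lit 41) (nat_lit 299)) (nd (nat_lit 278) (nat_lit 0) (cs (lf (nat_lit 40) (nat_lit 277)) (rf (nat_lit 1)))))) (cs (rf (nat_lit 2)) (rf (nat_lit 3)))))) q31659 (by decide +kernel)
def q31665 : Q := Q.p (nat_lit 0x100000400001200004000000000000000000000000000000000000000000000000000000000000000000000) (nat_lit 0x2000018000060000000000200002c00038000020000000000000000000000000000000000000000000000000000000000000000) (nat_lit 7)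
theorem c31665 : QOK q31665 := cut [q31661] ⟨c31661, trivial⟩ (nd (nat_lit 279) (nat_lit 0) (cs (lf (nat_lit 35) (nat_lit 256)) (nd (nat_lit 299) (nat_lit 0) (cs (lf (nat_lit 13) (nat_lit 275)) (nd (nat_lit 280) (nat_lit 0) (cs (lf (nat_lit 6) (nat_lit 277)) (nd (nat_lit 366) (nat_lit 0) (cs (lf (nat_lit 34) (nat_lit 278)) (rf (nat_lit 0)))))))))) q31665 (by decide +kernel)
def q31668 : Q := Q.p (nat_lit 0x100000400001200000800002000000000000000000000000000000000000000000000000000000000000000) (nat_lit 0x2000008000020000010000f000039000080000000000000000000000000000000000000000000000000000000000) (nat_lit 5)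
theorem c31668 : QOK q31668 := cut [q28559, q31632] ⟨c28559, c31632, trivial⟩ (nd (nat_lit 278) (nat_lit 0) (cs (rf (nat_lit 0)) (rf (nat_lit 1)))) q31668 (by decide +kernel)
def q31671 : Q := Q.p (nat_lit 0x100000400001200000800002000000000000000000000000000000000000000000000000000000000000000) (nat_lit 0x280000e0000380000e0000280000200000900007000009000000000000000000000000000000000000000000000000000000000000000) (nat_lit 7)
theorem c31671 : QOK q31671 := cut [q29893, q31658, q28377] ⟨c29893, c31658, c28377, trivial⟩ (nd (nat_lit 366) (nat_lit 0) (cs (rf (nat_lit 0)) (cs (rf (nat_lit 1)) (nd (nat_lit 277) (nat_lit 0) (cs (lf (nat_lit 46) (nat_lit 277)) (nd (nat_lit 278) (nat_lit 0) (cs (rf (nat_lit 2)) (lf (nat_lit 47) (nat_lit 255))))))))) q31671 (by decide +kernel)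
def q31689 : Q := Q.p (nat_lit 0x100000400001200000800002000000000000000000000000000000000000000000000000000000000000000) (nat_lit 0x80000e80000200002d0000f0000390000e0000080000000000000000000000000000000000000000000000000000) (nat_lit 10)
theorem c31689 : QOK q31689 := cut [q28559] ⟨c28559, trivial⟩ (nd (nat_lit 278) (nat_lit 0) (cs (rf (nat_lit 0)) (cs (nd (nat_lit 345) (nat_lit 0) (cs (lf (nat_lit 29) (nat_lit 278)) (nd (nat_lit 257) (nat_lit 0) (cs (lf (nat_lit 34) (nat_lit 256)) (nd (nat_lit 256) (nat_lit 0) (cs (lf (nat_lit 35) (nat_lit 234)) (nd (nat_lit 233) (nat_lit 0) (cs (lf (nat_lit 46) (nat_lit 233)) (nd (nat_lit 321) (nat_lit 0) (cs (nd (nat_lit 234) (nat_lit 0) (cs (lf (nat_lit 47) (nat_lit 211)) (lf (nat_lit 40) (nat_lit 233)))) (lf (nat_lit 41) (nat_lit 255)))))))))))) (nd (nat_lit 345) (nat_lit 0) (cs (lf (nat_lit 29) (nat_lit 278)) (nd (nat_lit 257) (nat_lit 0) (cs (lf (nat_lit 34) (nat_lit 256)) (nd (nat_lit 256) (nat_lit 0) (cs (lf (nat_lit 35)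 (nat_lit 234)) (nd (nat_lit 276) (nat_lit 0) (cs (nd (nat_lit 321) (nat_lit 0) (cs (lf (nat_lit 41) (nat_lit 255)) (nd (nat_lit 346) (nat_lit 0) (cs (lf (nat_lit 18) (nat_lit 321)) (nd (nat_lit 299) (nat_lit 0) (cs (lf (nat_lit 36) (nat_lit 233)) (nd (nat_lit 298) (nat_lit 0) (cs (lf (nat_lit 18) (nat_lit 275)) (lf (nat_lit 0) (nat_lit 296)))))))))) (lf (nat_lit 14) (nat_lit 253))))))))))))) q31689 (by decide +kernel)
def q31725 : Q := Q.p (nat_lit 0x1c0000400000200000800002000000000000000000000000000000000000000000000000000000000000000) (nat_lit 0x2e0000300002e000150000f000031000084000000000000000000000000000000000000000000000000000000000) (nat_lit 7)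
theorem c31725 : QOK q31725 := cut [q27995, q28533, q28000] ⟨c27995, c28533, c28000, trivial⟩ (nd (nat_lit 341) (nat_lit 0) (cs (rf (nat_lit 0)) (cs (rf (nat_lit 1)) (cs (nd (nat_lit 278) (nat_lit 0) (cs (nd (nat_lit 300) (nat_lit 0) (cs (lf (nat_lit 41) (nat_lit 277)) (rf (nat_lit 2)))) (nd (nat_lit 319) (nat_lit 0) (cs (nd (nat_lit 363) (nat_lit 0) (cs (lf (nat_lit 11) (nat_lit 340)) (nd (nat_lit 252) (nat_lit 0) (cs (lf (nat_lit 47) (nat_lit 230)) (nd (nat_lit 276) (nat_lit 0) (cs (lf (nat_lit 34) (nat_lit 275)) (lf (nat_lit 19) (nat_lit 252)))))))) (lf (nat_lit 23) (nat_lit 318)))))) (nd (nat_lit 318) (nat_lit 0) (cs (lf (nat_lit 22) (nat_lit 318)) (nd (nat_lit 340) (nat_lit 0) (cs (lf (nat_lit 16) (nat_lit 318)) (lf (nat_lit 23) (nat_lit 317)))))))))) q31725 (by decide +kernel)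
def q31785 : Q := Q.p (nat_lit 0x100000c00001200000800002000000000000000000000000000000000000000000000000000000000000000) (nat_lit 0x2000000000021000070000390000c0000200000000000000000000000000000000000000000000000000000) (nat_lit 5)
theorem c31785 : QOK q31785 := cut [q28559, q31326] ⟨c28559, c31326, trivial⟩ (nd (nat_lit 278) (nat_lit 0) (cs (rf (nat_lit 0)) (rf (nat_lit 1)))) q31785 (by decide +kernel)
def q31856 : Q := Q.p (nat_lit 0x140000400001200000800002000000000000000000000000000000000000000000000000000000000000000) (nat_lit 0x800002100003c0000d0000f0000390000e4000180000000000000000000000000000000000000000000000000000) (nat_lit 11)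
theorem c31856 : QOK q31856 := cut [q28559, q30001] ⟨c28559, c30001, trivial⟩ (nd (nat_lit 278) (nat_lit 0) (cs (rf (nat_lit 0)) (cs (rf (nat_lit 1)) (cs (nd (nat_lit 319) (nat_lit 0) (cs (lf (nat_lit 28) (nat_lit 253)) (nd (nat_lit 230) (nat_lit 0) (cs (lf (nat_lit 46) (nat_lit 230)) (nd (nat_lit 345) (nat_lit 0) (cs (lf (nat_lit 29) (nat_lit 278)) (nd (nat_lit 257) (nat_lit 0) (cs (lf (nat_lit 34) (nat_lit 256)) (nd (nat_lit 256) (nat_lit 0) (cs (lf (nat_lit 35) (nat_lit 234)) (nd (nat_lit 233) (nat_lit 0) (cs (lf (nat_lit 46) (nat_lit 233)) (nd (nat_lit 318) (nat_lit 0) (cs (lf (nat_lit 41) (nat_lit 252)) (nd (nat_lit 299) (nat_lit 0) (cs (lf (nat_lit 8) (nat_lit 296)) (nd (nat_lit 234) (nat_lit 0) (cs (lf (nat_lit 41) (nat_lit 233)) (lf (nat_lit 47) (nat_lit 211)))))))))))))))))))) (nd (nat_lit 319) (nat_lit 0) (cs (lf (nat_lit 28) (nat_lit 253)) (nd (nat_lit 345) (nat_lit 0) (cs (lf (nat_lit 29) (nat_lit 278)) (nd (nat_lit 318) (nat_lit 0) (cs (lf (nat_lit 41)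 (nat_lit 252)) (nd (nat_lit 257) (nat_lit 0) (cs (lf (nat_lit 34) (nat_lit 256)) (nd (nat_lit 230) (nat_lit 0) (cs (lf (nat_lit 46) (nat_lit 230)) (nd (nat_lit 299) (nat_lit 0) (cs (lf (nat_lit 8) (nat_lit 296)) (nd (nat_lit 256) (nat_lit 0) (cs (lf (nat_lit 35) (nat_lit 234)) (nd (nat_lit 234) (nat_lit 0) (cs (lf (nat_lit 41) (nat_lit 233)) (nd (nat_lit 277) (nat_lit 0) (cs (lf (nat_lit 36) (nat_lit 211)) (lf (nat_lit 13) (nat_lit 253)))))))))))))))))))))))) q31856 (by decide +kernel)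
def q31864 : Q := Q.p (nat_lit 0x140000400001200000800002000000000000000000000000000000000000000000000000000000000000000) (nat_lit 0x400000100003c0000c00002000009000024000000000000000000000000000000000000000000000000000000000) (nat_lit 7)
theorem c31864 : QOK q31864 := cut [q29926] ⟨c29926, trivial⟩ (nd (nat_lit 319) (nat_lit 0) (cs (lf (nat_lit 28) (nat_lit 253)) (nd (nat_lit 230) (nat_lit 0) (cs (lf (nat_lit 46) (nat_lit 230)) (nd (nat_lit 318) (nat_lit 0) (cs (lf (nat_lit 41) (nat_lit 252)) (nd (nat_lit 299) (nat_lit 0) (cs (rf (nat_lit 0)) (lf (nat_lit 8) (nat_lit 296)))))))))) q31864 (by decide +kernel)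
def q31884 : Q := Q.p (nat_lit 0x140000000001200000800002000000000000000000000000000000000000000000000000000000000000000) (nat_lit 0x40000300000c0000b00001f0000d00001000000000000000000000000000000000000000000000000000000000000000000000) (nat_lit 9)
theorem c31884 : QOK q31884 := cut [q16751] ⟨c16751, trivial⟩ (nd (nat_lit 319) (nat_lit 0) (cs (lf (nat_lit 28) (nat_lit 253)) (nd (nat_lit 318) (nat_lit 0) (cs (lf (nat_lit 41) (nat_lit 252)) (nd (nat_lit 298) (nat_lit 0) (cs (lf (nat_lit 7) (nat_lit 296)) (nd (nat_lit 341) (nat_lit 0) (cs (lf (nat_lit 19) (nat_lit 318)) (nd (nat_lit 316) (nat_lit 0) (cs (rf (nat_lit 0)) (lf (nat_lit 1) (nat_lit 316)))))))))))) q31884 (by decide +kernel)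
def q31904 : Q := Q.p (nat_lit 0x100000400000200004800002000000000000000000000000000000000000000000000000000000000000000) (nat_lit 0x200000c000020000000000310000b000029000000000000000000000000000000000000000000000000000000000000000) (nat_lit 5)
theorem c31904 : QOK q31904 := cut [q28559, q31867] ⟨c28559, c31867, trivial⟩ (nd (nat_lit 300) (nat_lit 0) (cs (rf (nat_lit 0)) (rf (nat_lit 1)))) q31904 (by decide +kernel)
def q31989 : Q := Q.p (nat_lit 0x40000400000200004800002000000000000000000000000000000000000000000000000000000000000000) (nat_lit 0x200000ec0003b00039e0003d000090000380000e0000280000000000000000000000000000000000000000000000000000) (nat_lit 12)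
theorem c31989 : QOK q31989 := cut [q27997, q29171, q31326, q31867, q31970] ⟨c27997, c29171, c31326, c31867, c31970, trivial⟩ (nd (nat_lit 300) (nat_lit 0) (cs (nd (nat_lit 320) (nat_lit 0) (cs (lf (nat_lit 27) (nat_lit 253)) (nd (nat_lit 298) (nat_lit 0) (cs (lf (nat_lit 45) (nat_lit 253)) (rf (nat_lit 0)))))) (cs (nd (nat_lit 320) (nat_lit 0) (cs (lf (nat_lit 27) (nat_lit 253)) (nd (nat_lit 298) (nat_lit 0) (cs (lf (nat_lit 45) (nat_lit 253)) (nd (nat_lit 279) (nat_lit 0) (cs (lf (nat_lit 14) (nat_lit 275)) (rf (nat_lit 1)))))))) (cs (nd (nat_lit 320) (nat_lit 0) (cs (lf (nat_lit 27) (nat_lit 253)) (nd (nat_lit 298) (nat_lit 0) (cs (lf (nat_lit 45) (nat_lit 253)) (nd (nat_lit 323) (nat_lit 0) (cs (lf (nat_lit 2) (nat_lit 297)) (rf (nat_lit 2)))))))) (cs (nd (nat_lit 344) (nat_lit 0) (cs (rf (nat_lit 3)) (cs (rf (nat_lit 4)) (nd (nat_lit 343) (nat_lit 0) (cs (lf (nat_lit 41) (nat_lit 277)) (nd (nat_lit 323) (nat_lit 0) (cs (lf (nat_lit 12) (nat_lit 319)) (nd (nat_lit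 298) (nat_lit 0) (cs (lf (nat_lit 2) (nat_lit 297)) (nd (nat_lit 276) (nat_lit 0) (cs (lf (nat_lit 43) (nat_lit 253)) (nd (nat_lit 257) (nat_lit 0) (cs (lf (nat_lit 34) (nat_lit 256)) (nd (nat_lit 256) (nat_lit 0) (cs (lf (nat_lit 35) (nat_lit 234)) (nd (nat_lit 324) (nat_lit 0) (cs (lf (nat_lit 6) (nat_lit 321)) (nd (nat_lit 233) (nat_lit 0) (cs (lf (nat_lit 46) (nat_lit 233)) (nd (nat_lit 234) (nat_lit 0) (cs (lf (nat_lit 47) (nat_lit 211)) (lf (nat_lit 28) (nat_lit 234))))))))))))))))))))))) (nd (nat_lit 344) (nat_lit 0) (cs (rf (nat_lit 3)) (cs (rf (nat_lit 4)) (nd (nat_lit 343) (nat_lit 0) (cs (lf (nat_lit 41) (nat_lit 277)) (nd (nat_lit 257) (nat_lit 0) (cs (lf (nat_lit 34) (nat_lit 256)) (nd (nat_lit 235) (nat_lit 0) (cs (lf (nat_lit 33) (nat_lit 234)) (nd (nat_lit 341) (nat_lit 0) (cs (lf (nat_lit 17) (nat_lit 319)) (nd (nat_lit 318) (nat_lit 0) (cs (lf (nat_lit 22) (nat_lit 318)) (nd (nat_lit 340) (nat_lit 0) (cs (lf (nat_lit 23) (nat_lit 317)) (nd (nat_lit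 362) (nat_lit 0) (cs (lf (nat_lit 10) (nat_lit 340)) (lf (nat_lit 33) (nat_lit 274)))))))))))))))))))))))) q31989 (by decide +kernel)
def q32010 : Q := Q.p (nat_lit 0x140000400000000004000000000000000000000000000000000000000000000000000000000000000000000) (nat_lit 0x200000e00002a000080000300000a0000380000a0000000000000000000000000000000000000000000000000000000000) (nat_lit 5)
theorem c32010 : QOK q32010 := cut [q30001, q31867, q31970] ⟨c30001, c31867, c31970, trivial⟩ (nd (nat_lit 300) (nat_lit 0) (cs (rf (nat_lit 0)) (cs (rf (nat_lit 1)) (rf (nat_lit 2))))) q32010 (by decide +kernel)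
def q32016 : Q := Q.p (nat_lit 0x140000400000200004800002000000000000000000000000000000000000000000000000000000000000000) (nat_lit 0x200000b00001c000100000a0000390000a4000000000000000000000000000000000000000000000000000000000) (nat_lit 9)
theorem c32016 : QOK q32016 := cut [q30001] ⟨c30001, trivial⟩ (nd (nat_lit 319) (nat_lit 0) (cs (lf (nat_lit 28) (nat_lit 253)) (nd (nat_lit 230) (nat_lit 0) (cs (lf (nat_lit 46) (nat_lit 230)) (nd (nat_lit 318) (nat_lit 0) (cs (lf (nat_lit 41) (nat_lit 252)) (nd (nat_lit 343) (nat_lit 0) (cs (lf (nat_lit 21) (nat_lit 318)) (nd (nat_lit 300) (nat_lit 0) (cs (lf (nat_lit 41) (nat_lit 277)) (rf (nat_lit 0)))))))))))) q32016 (by decide +kernel)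
def q32034 : Q := Q.p (nat_lit 0x200000800002000008000000000000000000000000000000000000000000000000000000000) (nat_lit 0x100000400001000000000010000060000100000000000000000000000000000000000000000000000) (nat_lit 4)
theorem c32034 : QOK q32034 := cut [q32033] ⟨c32033, trivial⟩ (nd (nat_lit 298) (nat_lit 0) (cs (lf (nat_lit 29) (nat_lit 231)) (rf (nat_lit 0)))) q32034 (by decide +kernel)
def q32043 : Q := Q.p (nat_lit 0x2000004000010000040000000000000000000000000000000000000000000000) (nat_lit 0x80000e000018000000000080000a0000280000000000000000000000000000000000000000) (nat_lit 6)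
theorem c32043 : QOK q32043 := cut [q32042] ⟨c32042, trivial⟩ (nd (nat_lit 252) (nat_lit 0) (cs (lf (nat_lit 29) (nat_lit 186)) (rf (nat_lit 0)))) q32043 (by decide +kernel)
def q32053 : Q := Q.p (nat_lit 0x2000000000010000040000180000000000000000000000000000000000000000) (nat_lit 0xa00001800006000000000000000200000a00000000000000000000000000000000000) (nat_lit 5)
theorem c32053 : QOK q32053 := cut [q5534] ⟨c5534, trivial⟩ (nd (nat_lit 230) (nat_lit 0) (cs (lf (nat_lit 47) (nat_lit 141)) (nd (nat_lit 143) (nat_lit 0) (cs (lf (nat_lit 34) (nat_lit 142)) (rf (nat_lit 0)))))) q32053 (by decide +kernel)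
def q32070 : Q := Q.p (nat_lit 0x400001c0000000000000000000000000000000000000000) (nat_lit 0x73e000e30003be0000400001000000000000000000000000) (nat_lit 11)
theorem c32070 : QOK q32070 := cut [q3802, q32055, q32062, q4811] ⟨c3802, c32055, c32062, c4811, trivial⟩ (nd (nat_lit 161) (nat_lit 0) (cs (rf (nat_lit 0)) (cs (rf (nat_lit 1)) (cs (rf (nat_lit 2)) (nd (nat_lit 138) (nat_lit 0) (cs (lf (nat_lit 22) (nat_lit 138)) (nd (nat_lit 183) (nat_lit 0) (cs (lf (nat_lit 11) (nat_lit 160)) (nd (nat_lit 165) (nat_lit 0) (cs (lf (nat_lit 10) (nat_lit 161)) (nd (nat_lit 144) (nat_lit 0) (cs (lf (nat_lit 16) (nat_lit 140)) (nd (nat_lit 166) (nat_lit 0) (cs (lf (nat_lit 17) (nat_lit 141)) (nd (nat_lit 140) (nat_lit 0) (cs (lf (nat_lit 22) (nat_lit 140)) (nd (nat_lit 96) (nat_lit 0) (cs (rf (nat_lit 3)) (lf (nat_lit 37) (nat_lit 95)))))))))))))))))))) q32070 (by decide +kernel)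
def q32082 : Q := Q.p (nat_lit 0xf00000000000000000000000000000000000000000) (nat_lit 0x80000600000080007000004000010000000000000000000000000) (nat_lit 5)
theorem c32082 : QOK q32082 := cut [q32080] ⟨c32080, trivial⟩ (nd (nat_lit 145) (nat_lit 0) (cs (lf (nat_lit 17) (nat_lit 142)) (nd (nat_lit 144) (nat_lit 0) (cs (lf (nat_lit 12) (nat_lit 141)) (rf (nat_lit 0)))))) q32082 (by decide +kernel)
def q32197 : Q := Q.p (nat_lit 0x40000700000000000000000000000000000000000000000) (nat_lit 0xea0001800006000000000000000000000000000000000000) (nat_lit 5)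
theorem c32197 : QOK q32197 := cut [q3049] ⟨c3049, trivial⟩ (nd (nat_lit 167) (nat_lit 0) (cs (lf (nat_lit 11) (nat_lit 163)) (nd (nat_lit 145) (nat_lit 0) (cs (lf (nat_lit 17) (nat_lit 142)) (rf (nat_lit 0)))))) q32197 (by decide +kernel)
def q32208 : Q := Q.p (nat_lit 0x10000040000140000c00000000000000000000000000000000000) (nat_lit 0x2000008000000000620000380000800000000000000000000000000000) (nat_lit 5)
theorem c32208 : QOK q32208 := cut [q6151] ⟨c6151, trivial⟩ (nd (nat_lit 207) (nat_lit 0) (cs (lf (nat_lit 41) (nat_lit 141)) (rf (nat_lit 0)))) q32208 (by decide +kernel)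
def q32214 : Q := Q.p (nat_lit 0x18000040000040001e00000000000000000000000000000000000) (nat_lit 0x60003b0000e00000180000700000800002000000000000000000) (nat_lit 9)
theorem c32214 : QOK q32214 := cut [q527] ⟨c527, trivial⟩ (nd (nat_lit 166) (nat_lit 0) (cs (lf (nat_lit 5) (nat_lit 141)) (nd (nat_lit 140) (nat_lit 0) (cs (lf (nat_lit 4) (nat_lit 140)) (nd (nat_lit 117) (nat_lit 0) (cs (lf (nat_lit 22) (nat_lit 117)) (nd (nat_lit 139) (nat_lit 0) (cs (lf (nat_lit 23) (nat_lit 116)) (nd (nat_lit 73) (nat_lit 0) (cs (lf (nat_lit 25) (nat_lit 73)) (nd (nat_lit 206) (nat_lit 0) (cs (rf (nat_lit 0)) (lf (nat_lit 43) (nat_lit 117)))))))))))))) q32214 (by decide +kernel)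
def q32241 : Q := Q.p (nat_lit 0x1000004000010000040000000000000000000000000000000000000000000000) (nat_lit 0x40000000000000000c0003a0000280000000000000000000000000000000000000000) (nat_lit 5)
theorem c32241 : QOK q32241 := cut [q4677] ⟨c4677, trivial⟩ (nd (nat_lit 187) (nat_lit 0) (cs (lf (nat_lit 35) (nat_lit 164)) (rf (nat_lit 0)))) q32241 (by decide +kernel)
def q32273 : Q := Q.p (nat_lit 0x10000040000100000400000000000000000000000000000000000) (nat_lit 0xa000028000080000380000e000038000080000000000000) (nat_lit 8)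
theorem c32273 : QOK q32273 := cut [q615, q11202, q32263, q32272] ⟨c615, c11202, c32263, c32272, trivial⟩ (nd (nat_lit 120) (nat_lit 0) (cs (rf (nat_lit 0)) (cs (rf (nat_lit 1)) (cs (nd (nat_lit 97) (nat_lit 0) (cs (lf (nat_lit 46) (nat_lit 97)) (nd (nat_lit 98) (nat_lit 0) (cs (lf (nat_lit 47) (nat_lit 75)) (nd (nat_lit 77) (nat_lit 0) (cs (lf (nat_lit 34) (nat_lit 76)) (nd (nat_lit 163) (nat_lit 0) (cs (lf (nat_lit 41) (nat_lit 97)) (nd (nat_lit 165) (nat_lit 0) (cs (lf (nat_lit 29) (nat_lit 98)) (rf (nat_lit 2)))))))))))) (rf (nat_lit 3)))))) q32273 (by decide +kernel)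
def q32285 : Q := Q.p (nat_lit 0x10000040000100000400000000000000000000000000000000000) (nat_lit 0xa000028000020000380000e000038000020000000000000) (nat_lit 8)
theorem c32285 : QOK q32285 := cut [q556, q11202, q32275] ⟨c556, c11202, c32275, trivial⟩ (nd (nat_lit 120) (nat_lit 0) (cs (rf (nat_lit 0)) (cs (rf (nat_lit 1)) (cs (nd (nat_lit 99) (nat_lit 0) (cs (lf (nat_lit 34) (nat_lit 98)) (nd (nat_lit 98) (nat_lit 0) (cs (lf (nat_lit 35) (nat_lit 76)) (nd (nat_lit 75) (nat_lit 0) (cs (lf (nat_lit 46) (nat_lit 75)) (nd (nat_lit 165) (nat_lit 0) (cs (lf (nat_lit 29) (nat_lit 98)) (nd (nat_lit 163) (nat_lit 0) (cs (lf (nat_lit 41) (nat_lit 97)) (rf (nat_lit 2)))))))))))) (nd (nat_lit 141) (nat_lit 0) (cs (lf (nat_lit 47) (nat_lit 119)) (nd (nat_lit 99) (nat_lit 0) (cs (lf (nat_lit 34) (nat_lit 98)) (nd (nat_lit 98) (nat_lit 0) (cs (lf (nat_lit 35) (nat_lit 76)) (nd (nat_lit 163) (nat_lit 0) (cs (lf (nat_lit 36) (nat_lit 75)) (lf (nat_lit 41) (nat_lit 97)))))))))))))) q32285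 (by decide +kernel)
def q32287 : Q := Q.p (nat_lit 0x180000400001000000000000000000000000000000) (nat_lit 0x20000000000200000000006000018000020000000000000) (nat_lit 4)
theorem c32287 : QOK q32287 := cut [q32286] ⟨c32286, trivial⟩ (nd (nat_lit 98) (nat_lit 0) (cs (lf (nat_lit 41) (nat_lit 97)) (rf (nat_lit 0)))) q32287 (by decide +kernel)
def q32326 : Q := Q.p (nat_lit 0x400001c0000000000000000000000000000000000000000) (nat_lit 0x3e0002300001e0000000000000000000000000000000000) (nat_lit 5)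
theorem c32326 : QOK q32326 := cut [q32055, q32062, q32324] ⟨c32055, c32062, c32324, trivial⟩ (nd (nat_lit 161) (nat_lit 0) (cs (rf (nat_lit 0)) (cs (rf (nat_lit 1)) (nd (nat_lit 183) (nat_lit 0) (cs (lf (nat_lit 11) (nat_lit 160)) (rf (nat_lit 2))))))) q32326 (by decide +kernel)
def q32345 : Q := Q.p (nat_lit 0x3c0000000000000000000000000000000000000000) (nat_lit 0x380000400003980000000000000000000000000000000000) (nat_lit 5)
theorem c32345 : QOK q32345 := cut [q32343] ⟨c32343, trivial⟩ (nd (nat_lit 144) (nat_lit 0) (cs (lf (nat_lit 16) (nat_lit 140)) (nd (nat_lit 139) (nat_lit 0) (cs (lf (nat_lit 22) (nat_lit 139)) (rf (nat_lit 0)))))) q32345 (by decide +kernel)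
def q32371 : Q := Q.p (nat_lit 0x100000400001c0000400000000000000000000000000000000000) (nat_lit 0x220003a00001800002000000000000000000000000) (nat_lit 5)
theorem c32371 : QOK q32371 := cut [q32368] ⟨c32368, trivial⟩ (nd (nat_lit 119) (nat_lit 0) (cs (lf (nat_lit 46) (nat_lit 119)) (nd (nat_lit 97) (nat_lit 0) (cs (rf (nat_lit 0)) (lf (nat_lit 45) (nat_lit 97)))))) q32371 (by decide +kernel)
def q32409 : Q := Q.p (nat_lit 0x80000780000000000000004000010000000000000000000000000000000000000000000000000000) (nat_lit 0x4000180000e700000800002000000000000000000000000000000000000000000000000000000000) (nat_lit 6)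
theorem c32409 : QOK q32409 := cut [q23403] ⟨c23403, trivial⟩ (nd (nat_lit 273) (nat_lit 0) (cs (lf (nat_lit 23) (nat_lit 272)) (nd (nat_lit 229) (nat_lit 0) (cs (lf (nat_lit 32) (nat_lit 207)) (rf (nat_lit 0)))))) q32409 (by decide +kernel)
def q32453 : Q := Q.p (nat_lit 0x80000200000800002000000000000000000000000000000000000000000000000000000000000000) (nat_lit 0x5e000770001de0000000000000000000000000000000000000000000000000000000000000000000000000) (nat_lit 8)
theorem c32453 : QOK q32453 := cut [q12926, q16758, q2590] ⟨c12926, c16758, c2590, trivial⟩ (nd (nat_lit 318) (nat_lit 0) (cs (lf (nat_lit 41) (nat_lit 252)) (nd (nat_lit 299) (nat_lit 0) (cs (nd (nat_lit 320) (nat_lit 0) (cs (lf (nat_lit 29) (nat_lit 253)) (rf (nat_lit 0)))) (cs (nd (nat_lit 298) (nat_lit 0) (cs (lf (nat_lit 6) (nat_lit 296)) (rf (nat_lit 1)))) (nd (nat_lit 320) (nat_lit 0) (cs (lf (nat_lit 29) (nat_lit 253)) (nd (nat_lit 317) (nat_lit 0) (cs (rf (nat_lit 2)) (lf (nat_lit 16) (nat_lit 295)))))))))))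 q32453 (by decide +kernel)
def q32462 : Q := Q.p (nat_lit 0x400000e0000000000000000000000000000000000000000) (nat_lit 0x27000018000700000000000000000000000000000000000) (nat_lit 5)
theorem c32462 : QOK q32462 := cut [q32461] ⟨c32461, trivial⟩ (nd (nat_lit 160) (nat_lit 0) (cs (lf (nat_lit 4) (nat_lit 160)) (rf (nat_lit 0)))) q32462 (by decide +kernel)
def q32463 : Q := Q.p (nat_lit 0x400000e0000000000000000000000000000000000000000) (nat_lit 0x8e000110000e00000000000000000000000000000000000) (nat_lit 5)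
theorem c32463 : QOK q32463 := cut [q12363] ⟨c12363, trivial⟩ (nd (nat_lit 164) (nat_lit 0) (cs (lf (nat_lit 5) (nat_lit 161)) (rf (nat_lit 0)))) q32463 (by decide +kernel)
def q32470 : Q := Q.p (nat_lit 0x400000e0000000000000000000000000000000000000000) (nat_lit 0xa0000110000e00000000000000000000000000000000000) (nat_lit 4)
theorem c32470 : QOK q32470 := cut [q32469] ⟨c32469, trivial⟩ (nd (nat_lit 164) (nat_lit 0) (cs (lf (nat_lit 5) (nat_lit 161)) (rf (nat_lit 0)))) q32470 (by decide +kernel)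
def q32478 : Q := Q.p (nat_lit 0x180000600000c0000000000000000000000000000000000000000) (nat_lit 0x200000c00003000004000010000000000200000800000000000000000000000000000) (nat_lit 5)
theorem c32478 : QOK q32478 := cut [q32477] ⟨c32477, trivial⟩ (nd (nat_lit 141) (nat_lit 0) (cs (lf (nat_lit 24) (nat_lit 119)) (rf (nat_lit 0)))) q32478 (by decide +kernel)
def q32490 : Q := Q.p (nat_lit 0x400001c0000000000000000000000000000000000000000) (nat_lit 0x8e000030000e00000000000000000000000000000000000) (nat_lit 5)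
theorem c32490 : QOK q32490 := cut [q12363] ⟨c12363, trivial⟩ (nd (nat_lit 161) (nat_lit 0) (cs (lf (nat_lit 5) (nat_lit 161)) (rf (nat_lit 0)))) q32490 (by decide +kernel)
def q32493 : Q := Q.p (nat_lit 0x100000400001c0000000000000000000000000000000000000000) (nat_lit 0x180000600001f80002800002000000000000000000000000) (nat_lit 5)
theorem c32493 : QOK q32493 := cut [q32057, q32492] ⟨c32057, c32492, trivial⟩ (nd (nat_lit 165) (nat_lit 0) (cs (rf (nat_lit 0)) (rf (nat_lit 1)))) q32493 (by decide +kernel)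
def q32511 : Q := Q.p (nat_lit 0x100000400000c0000600000000000000000000000000000000000) (nat_lit 0x10000190001f000000000000000000000000000000) (nat_lit 5)
theorem c32511 : QOK q32511 := cut [q32510] ⟨c32510, trivial⟩ (nd (nat_lit 143) (nat_lit 0) (cs (lf (nat_lit 6) (nat_lit 140)) (rf (nat_lit 0)))) q32511 (by decide +kernel)
def q32527 : Q := Q.p (nat_lit 0x1c000040000000000000000000000000000000000000000000000) (nat_lit 0xe0000300008e000000000000000000000000000000000000000000000) (nat_lit 5)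
theorem c32527 : QOK q32527 := cut [q32526] ⟨c32526, trivial⟩ (nd (nat_lit 205) (nat_lit 0) (cs (lf (nat_lit 17) (nat_lit 183)) (rf (nat_lit 0)))) q32527 (by decide +kernel)
def q32536 : Q := Q.p (nat_lit 0xf00000000000000000000000000000000000) (nat_lit 0x700000080000700000000000000000000000000000) (nat_lit 4)
theorem c32536 : QOK q32536 := cut [q32535] ⟨c32535, trivial⟩ (nd (nat_lit 165) (nat_lit 0) (cs (lf (nat_lit 5) (nat_lit 140)) (rf (nat_lit 0)))) q32536 (by decide +kernel)
def q32538 : Q := Q.p (nat_lit 0x100000400001c0000200000000000000000000000000000000000) (nat_lit 0x180000600001980002000000000000000000000000000000) (nat_lit 4)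
theorem c32538 : QOK q32538 := cut [q10329, q32057] ⟨c10329, c32057, trivial⟩ (nd (nat_lit 165) (nat_lit 0) (cs (rf (nat_lit 0)) (rf (nat_lit 1)))) q32538 (by decide +kernel)
def q32546 : Q := Q.p (nat_lit 0x1e0000080000000000000000000000000000000000) (nat_lit 0x200000c000200000100000400001000000000000000000000000) (nat_lit 4)
theorem c32546 : QOK q32546 := cut [q32545] ⟨c32545, trivial⟩ (nd (nat_lit 140) (nat_lit 0) (cs (lf (nat_lit 18) (nat_lit 139)) (rf (nat_lit 0)))) q32546 (by decide +kernel)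
def q32556 : Q := Q.p (nat_lit 0x400000e0000000000000000000000000000000000000000) (nat_lit 0x8e0001100000e0000000000000000000000000000000000) (nat_lit 5)
theorem c32556 : QOK q32556 := cut [q3802] ⟨c3802, trivial⟩ (nd (nat_lit 164) (nat_lit 0) (cs (lf (nat_lit 5) (nat_lit 161)) (rf (nat_lit 0)))) q32556 (by decide +kernel)
def q32567 : Q := Q.p (nat_lit 0x400000e0000000000000000000000000000000000000000) (nat_lit 0xa00001100000e0000000000000000000000000000000000) (nat_lit 4)
theorem c32567 : QOK q32567 := cut [q2269] ⟨c2269, trivial⟩ (nd (nat_lit 164) (nat_lit 0) (cs (lf (nat_lit 5) (nat_lit 161)) (rf (nat_lit 0)))) q32567 (by decide +kernel)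
def q32608 : Q := Q.p (nat_lit 0x10000040000140000200000000000000000000000000000000000) (nat_lit 0x8000050000080000200001c000070000140000000) (nat_lit 7)
theorem c32608 : QOK q32608 := cut [q32607] ⟨c32607, trivial⟩ (nd (nat_lit 119) (nat_lit 0) (cs (lf (nat_lit 45) (nat_lit 119)) (rf (nat_lit 0)))) q32608 (by decide +kernel)
def q32633 : Q := Q.p (nat_lit 0x16000050000040000000000000000000000000000000000000000) (nat_lit 0x20000080000300000900008e000000000100000000000000000000000000000000000) (nat_lit 6)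
theorem c32633 : QOK q32633 := cut [q32630] ⟨c32630, trivial⟩ (nd (nat_lit 207) (nat_lit 0) (cs (lf (nat_lit 17) (nat_lit 183)) (nd (nat_lit 182) (nat_lit 0) (cs (lf (nat_lit 22) (nat_lit 182)) (nd (nat_lit 181) (nat_lit 0) (cs (lf (nat_lit 21) (nat_lit 181)) (rf (nat_lit 0)))))))) q32633 (by decide +kernel)
def q32637 : Q := Q.p (nat_lit 0x16000050000040000000000000000000000000000000000000000) (nat_lit 0x80000200001c0000900008e000000000000000000000000000000000000000000000) (nat_lit 6)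
theorem c32637 : QOK q32637 := cut [q32634] ⟨c32634, trivial⟩ (nd (nat_lit 207) (nat_lit 0) (cs (lf (nat_lit 17) (nat_lit 183)) (nd (nat_lit 182) (nat_lit 0) (cs (lf (nat_lit 22) (nat_lit 182)) (nd (nat_lit 181) (nat_lit 0) (cs (lf (nat_lit 21) (nat_lit 181)) (rf (nat_lit 0)))))))) q32637 (by decide +kernel)
def q32669 : Q := Q.p (nat_lit 0x10000070000100000000000000000000000000000000000000000) (nat_lit 0xb80000c000200000000000000000000000000000000000000000) (nat_lit 4)
theorem c32669 : QOK q32669 := cut [q32668] ⟨c32668, trivial⟩ (nd (nat_lit 183) (nat_lit 0) (cs (lf (nat_lit 17) (nat_lit 161)) (rf (nat_lit 0)))) q32669 (by decide +kernel)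
def q32671 : Q := Q.p (nat_lit 0x10000050000040000100000000000000000000000000000000000) (nat_lit 0x280000e000080000000000280000e00002800000000000000000000000) (nat_lit 5)
theorem c32671 : QOK q32671 := cut [q2497, q32628] ⟨c2497, c32628, trivial⟩ (nd (nat_lit 206) (nat_lit 0) (cs (rf (nat_lit 0)) (rf (nat_lit 1)))) q32671 (by decide +kernel)
def q32686 : Q := Q.p (nat_lit 0x4000050000040000100000000000000000000000000000000000) (nat_lit 0x8000038000a8000000000000000000000000000000000000000000000) (nat_lit 4)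
theorem c32686 : QOK q32686 := cut [q32685] ⟨c32685, trivial⟩ (nd (nat_lit 205) (nat_lit 0) (cs (lf (nat_lit 41) (nat_lit 139)) (rf (nat_lit 0)))) q32686 (by decide +kernel)
def q32687 : Q := Q.p (nat_lit 0x14000050000040000100000000000000000000000000000000000) (nat_lit 0x200000a0003a0000000000000000000000000000000000000000000000) (nat_lit 4)
theorem c32687 : QOK q32687 := cut [q527] ⟨c527, trivial⟩ (nd (nat_lit 207) (nat_lit 0) (cs (lf (nat_lit 29) (nat_lit 140)) (rf (nat_lit 0)))) q32687 (by decide +kernel)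
def q32710 : Q := Q.p (nat_lit 0x10000040000100000000000000000000000000000000000) (nat_lit 0x180000600002e000080000200000e0000380000e000020000000000000) (nat_lit 9)
theorem c32710 : QOK q32710 := cut [q19066, q32702] ⟨c19066, c32702, trivial⟩ (nd (nat_lit 118) (nat_lit 0) (cs (rf (nat_lit 0)) (cs (nd (nat_lit 95) (nat_lit 0) (cs (lf (nat_lit 46) (nat_lit 95)) (nd (nat_lit 183) (nat_lit 0) (cs (lf (nat_lit 41) (nat_lit 117)) (nd (nat_lit 96) (nat_lit 0) (cs (lf (nat_lit 47) (nat_lit 73)) (nd (nat_lit 75) (nat_lit 0) (cs (lf (nat_lit 34) (nat_lit 74)) (nd (nat_lit 163) (nat_lit 0) (cs (lf (nat_lit 29) (nat_lit 96)) (nd (nat_lit 74) (nat_lit 0) (cs (lf (nat_lit 35) (nat_lit 52)) (lf (nat_lit 28) (nat_lit 74)))))))))))))) (cs (rf (nat_lit 1)) (nd (nat_lit 183) (nat_lit 0) (cs (lf (nat_lit 41) (nat_lit 117)) (nd (nat_lit 95) (nat_lit 0) (cs (lf (nat_lit 46) (nat_lit 95)) (nd (nat_lit 96) (nat_lit 0) (cs (lf (nat_lit 47) (nat_lit 73)) (nd (nat_lit 163) (nat_lit 0) (cs (lf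 (nat_lit 29) (nat_lit 96)) (nd (nat_lit 181) (nat_lit 0) (cs (lf (nat_lit 13) (nat_lit 159)) (nd (nat_lit 141) (nat_lit 0) (cs (lf (nat_lit 24) (nat_lit 74)) (nd (nat_lit 206) (nat_lit 0) (cs (lf (nat_lit 30) (nat_lit 140)) (lf (nat_lit 35) (nat_lit 118)))))))))))))))))))) q32710 (by decide +kernel)
def q32712 : Q := Q.p (nat_lit 0x10000050000040000100000000000000000000000000000000000) (nat_lit 0xc000020000080000200000e0000380000a000000000000000000) (nat_lit 5)
theorem c32712 : QOK q32712 := cut [q19066, q32674, q19068] ⟨c19066, c32674, c19068, trivial⟩ (nd (nat_lit 118) (nat_lit 0) (cs (rf (nat_lit 0)) (cs (rf (nat_lit 1)) (nd (nat_lit 185) (nat_lit 0) (cs (lf (nat_lit 29) (nat_lit 118)) (rf (nat_lit 2))))))) q32712 (by decide +kernel)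
def q32747 : Q := Q.p (nat_lit 0x3c0000000000000000000000000000000000000000) (nat_lit 0x380000400003800000000000000000000000000000000000) (nat_lit 4)
theorem c32747 : QOK q32747 := cut [q32343] ⟨c32343, trivial⟩ (nd (nat_lit 144) (nat_lit 0) (cs (lf (nat_lit 16) (nat_lit 140)) (rf (nat_lit 0)))) q32747 (by decide +kernel)
def q32761 : Q := Q.p (nat_lit 0x10000050000040000100000000000000000000000000000000000) (nat_lit 0x280000e0000a0000000000000000e0000380000a000000000000000000) (nat_lit 5)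
theorem c32761 : QOK q32761 := cut [q19066, q32759] ⟨c19066, c32759, trivial⟩ (nd (nat_lit 118) (nat_lit 0) (cs (rf (nat_lit 0)) (rf (nat_lit 1)))) q32761 (by decide +kernel)
def q32764 : Q := Q.p (nat_lit 0x10000050000140000000000000000000000000000000000000000) (nat_lit 0x40001a8000e80001b80002800002000000000000000000000000) (nat_lit 6)
theorem c32764 : QOK q32764 := cut [q456, q32721, q32057, q32646] ⟨c456, c32721, c32057, c32646, trivial⟩ (nd (nat_lit 165) (nat_lit 0) (cs (rf (nat_lit 0)) (cs (rf (nat_lit 1)) (nd (nat_lit 163) (nat_lit 0) (cs (rf (nat_lit 2)) (rf (nat_lit 3))))))) q32764 (by decide +kernel)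
def q32771 : Q := Q.p (nat_lit 0x4000010000040000100000000000000000000000000000000000) (nat_lit 0x800002000008000000000080000600000800000000000000000000000) (nat_lit 4)
theorem c32771 : QOK q32771 := cut [q32770] ⟨c32770, trivial⟩ (nd (nat_lit 205) (nat_lit 0) (cs (lf (nat_lit 41) (nat_lit 139)) (rf (nat_lit 0)))) q32771 (by decide +kernel)
def q32822 : Q := Q.p (nat_lit 0x10000040000140000000000800000000000000000000000000000) (nat_lit 0x8000070000000000200001c000070000140000000) (nat_lit 7)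
theorem c32822 : QOK q32822 := cut [q32607] ⟨c32607, trivial⟩ (nd (nat_lit 141) (nat_lit 0) (cs (lf (nat_lit 45) (nat_lit 119)) (rf (nat_lit 0)))) q32822 (by decide +kernel)
def q32845 : Q := Q.p (nat_lit 0x40000100000000003800000000000000000000000000000) (nat_lit 0x400004400003c00000000000000000000000) (nat_lit 4)
theorem c32845 : QOK q32845 := cut [q32844] ⟨c32844, trivial⟩ (nd (nat_lit 97) (nat_lit 0) (cs (lf (nat_lit 44) (nat_lit 97)) (rf (nat_lit 0)))) q32845 (by decide +kernel)
def q32858 : Q := Q.p (nat_lit 0x3c00000000000000000000000000000) (nat_lit 0x1c0000200001c00000000000000000000000) (nat_lit 4)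
theorem c32858 : QOK q32858 := cut [q32857] ⟨c32857, trivial⟩ (nd (nat_lit 139) (nat_lit 0) (cs (lf (nat_lit 10) (nat_lit 117)) (rf (nat_lit 0)))) q32858 (by decide +kernel)
def q32935 : Q := Q.p (nat_lit 0x3c00002000000000000000000000000) (nat_lit 0xe0000380019f00000000000000000000000) (nat_lit 7)
theorem c32935 : QOK q32935 := cut [q32856, q32919, q32929] ⟨c32856, c32919, c32929, trivial⟩ (nd (nat_lit 117) (nat_lit 0) (cs (rf (nat_lit 0)) (cs (rf (nat_lit 1)) (cs (nd (nat_lit 99) (nat_lit 0) (cs (lf (nat_lit 17) (nat_lit 96)) (rf (nat_lit 2)))) (nd (nat_lit 138) (nat_lit 0) (cs (lf (nat_lit 10) (nat_lit 116)) (nd (nat_lit 116) (nat_lit 0) (cs (lf (nat_lit 11) (nat_lit 115)) (nd (nat_lit 96) (nat_lit 0) (cs (lf (nat_lit 23) (nat_lit 95)) (lf (nat_lit 12) (nat_lit 93)))))))))))) q32935 (by decide +kernel)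
def q33002 : Q := Q.p (nat_lit 0x400007c0000000000000000000000000000000000000000) (nat_lit 0x180001800007000000000000000000000000000000000000) (nat_lit 4)
theorem c33002 : QOK q33002 := cut [q21241] ⟨c21241, trivial⟩ (nd (nat_lit 187) (nat_lit 0) (cs (lf (nat_lit 5) (nat_lit 162)) (rf (nat_lit 0)))) q33002 (by decide +kernel)
def q33017 : Q := Q.p (nat_lit 0x340000800000000000000000000000000000000000) (nat_lit 0x4000018000480001380000800002000000000000000000000000) (nat_lit 6)
theorem c33017 : QOK q33017 := cut [q33016] ⟨c33016, trivial⟩ (nd (nat_lit 163) (nat_lit 0) (cs (lf (nat_lit 17) (nat_lit 140)) (rf (nat_lit 0)))) q33017 (by decide +kernel)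
def q33025 : Q := Q.p (nat_lit 0x1c000070000040000000000000000000000000000000000000000) (nat_lit 0x80000200001c00003000000000000000000000000000000000000000000000000000) (nat_lit 4)
theorem c33025 : QOK q33025 := cut [q32634] ⟨c32634, trivial⟩ (nd (nat_lit 205) (nat_lit 0) (cs (lf (nat_lit 12) (nat_lit 182)) (rf (nat_lit 0)))) q33025 (by decide +kernel)
def q33045 : Q := Q.p (nat_lit 0x10000040000140000c00000000000000000000000000000000000) (nat_lit 0x2000008000000003e8000720003c000000000000000000000000000000) (nat_lit 7)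
theorem c33045 : QOK q33045 := cut [q9089, q33040, q18432, q33044] ⟨c9089, c33040, c18432, c33044, trivial⟩ (nd (nat_lit 144) (nat_lit 0) (cs (nd (nat_lit 163) (nat_lit 0) (cs (lf (nat_lit 6) (nat_lit 141)) (lf (nat_lit 9) (nat_lit 140)))) (cs (nd (nat_lit 163) (nat_lit 0) (cs (lf (nat_lit 15) (nat_lit 140)) (lf (nat_lit 9) (nat_lit 140)))) (cs (nd (nat_lit 145) (nat_lit 0) (cs (nd (nat_lit 146) (nat_lit 0) (cs (lf (nat_lit 10) (nat_lit 142)) (rf (nat_lit 0)))) (cs (nd (nat_lit 207) (nat_lit 0) (cs (lf (nat_lit 41) (nat_lit 141)) (rf (nat_lit 1)))) (nd (nat_lit 207) (nat_lit 0) (cs (lf (nat_lit 41) (nat_lit 141)) (rf (nat_lit 2))))))) (rf (nat_lit 3)))))) q33045 (by decide +kernel)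
def q33058 : Q := Q.p (nat_lit 0x10000040000300000400000000000000000000000000000000000) (nat_lit 0x8000000000080000300000c000030000080000000000000) (nat_lit 5)
theorem c33058 : QOK q33058 := cut [q615, q33054, q33055] ⟨c615, c33054, c33055, trivial⟩ (nd (nat_lit 120) (nat_lit 0) (cs (rf (nat_lit 0)) (cs (rf (nat_lit 1)) (cs (rf (nat_lit 2)) (nd (nat_lit 98) (nat_lit 0) (cs (lf (nat_lit 29) (nat_lit 98)) (nd (nat_lit 143) (nat_lit 0) (cs (lf (nat_lit 35) (nat_lit 120)) (lf (nat_lit 24) (nat_lit 76)))))))))) q33058 (by decide +kernel)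
def q33082 : Q := Q.p (nat_lit 0xc0000400001c0000200000000000000000000000000000000000) (nat_lit 0x10000000001a00002000005c0001400000000000000000000000000000) (nat_lit 6)
theorem c33082 : QOK q33082 := cut [q4517] ⟨c4517, trivial⟩ (nd (nat_lit 185) (nat_lit 0) (cs (lf (nat_lit 41) (nat_lit 140)) (nd (nat_lit 120) (nat_lit 0) (cs (lf (nat_lit 37) (nat_lit 119)) (nd (nat_lit 187) (nat_lit 0) (cs (lf (nat_lit 6) (nat_lit 184)) (rf (nat_lit 0)))))))) q33082 (by decide +kernel)
def q33094 : Q := Q.p (nat_lit 0x1c000040000040000000000000000000000000000000000000000) (nat_lit 0x80000200001c0000300003e000000000100000000000000000000000000000000000) (nat_lit 5)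
theorem c33094 : QOK q33094 := cut [q20281, q3224] ⟨c20281, c3224, trivial⟩ (nd (nat_lit 205) (nat_lit 0) (cs (rf (nat_lit 0)) (nd (nat_lit 227) (nat_lit 0) (cs (lf (nat_lit 11) (nat_lit 204)) (rf (nat_lit 1)))))) q33094 (by decide +kernel)
def q33130 : Q := Q.p (nat_lit 0x50000380000000000000000000000000000000000000000) (nat_lit 0xea0001c00007000000000000000000000000000000000000) (nat_lit 6)
theorem c33130 : QOK q33130 := cut [q32998] ⟨c32998, trivial⟩ (nd (nat_lit 166) (nat_lit 0) (cs (lf (nat_lit 10) (nat_lit 162)) (rf (nat_lit 0)))) q33130 (by decide +kernel)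
def q33134 : Q := Q.p (nat_lit 0x3c0000000000000000000000000000000000000000) (nat_lit 0x738000c00007000000000000000000000000000000000000) (nat_lit 6)
theorem c33134 : QOK q33134 := cut [q33133] ⟨c33133, trivial⟩ (nd (nat_lit 184) (nat_lit 0) (cs (lf (nat_lit 11) (nat_lit 161)) (rf (nat_lit 0)))) q33134 (by decide +kernel)
def q33164 : Q := Q.p (nat_lit 0x10000040000340000000000000000000000000000000000000000) (nat_lit 0x300001c8000f80001c8000fc0007e000038000080000000000000000000) (nat_lit 9)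
theorem c33164 : QOK q33164 := cut [q4454, q21363, q6419, q32996, q33118, q33139, q32080, q19548, q33149, q33156, q4703] ⟨c4454, c21363, c6419, c32996, c33118, c33139, c32080, c19548, c33149, c33156, c4703, trivial⟩ (nd (nat_lit 143) (nat_lit 0) (cs (rf (nat_lit 0)) (cs (rf (nat_lit 1)) (nd (nat_lit 166) (nat_lit 0) (cs (nd (nat_lit 163) (nat_lit 0) (cs (lf (nat_lit 17) (nat_lit 140)) (rf (nat_lit 2)))) (cs (nd (nat_lit 167) (nat_lit 0) (cs (rf (nat_lit 3)) (cs (rf (nat_lit 4)) (nd (nat_lit 189) (nat_lit 0) (cs (lf (nat_lit 5) (nat_lit 164)) (nd (nat_lit 188) (nat_lit 0) (cs (nd (nat_lit 187) (nat_lit 0) (cs (lf (nat_lit 11) (nat_lit 185)) (rf (nat_lit 5)))) (lf (nat_lit 0) (nat_lit 163))))))))) (cs (nd (nat_lit 167) (nat_lit 0) (cs (rf (nat_lit 3)) (cs (rf (nat_lit 4)) (nd (nat_lit 144) (nat_lit 0) (cs (lf (nat_lit 13) (nat_lit 140)) (nd (nat_lit 145) (nat_lit 0) (cs (lf (nat_lit 6) (nat_lit 142)) (rf (nat_lit 6))))))))) (cs (nd (nat_lit 144) (nat_lit 0) (cs (lf (nat_lit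 13) (nat_lit 140)) (nd (nat_lit 145) (nat_lit 0) (cs (lf (nat_lit 6) (nat_lit 142)) (nd (nat_lit 123) (nat_lit 0) (cs (rf (nat_lit 7)) (nd (nat_lit 188) (nat_lit 0) (cs (lf (nat_lit 30) (nat_lit 122)) (rf (nat_lit 8)))))))))) (nd (nat_lit 167) (nat_lit 0) (cs (rf (nat_lit 3)) (cs (rf (nat_lit 4)) (nd (nat_lit 188) (nat_lit 0) (cs (nd (nat_lit 189) (nat_lit 0) (cs (lf (nat_lit 5) (nat_lit 164)) (rf (nat_lit 5)))) (cs (nd (nat_lit 210) (nat_lit 0) (cs (lf (nat_lit 42) (nat_lit 143)) (nd (nat_lit 145) (nat_lit 0) (cs (lf (nat_lit 17) (nat_lit 142)) (rf (nat_lit 9)))))) (nd (nat_lit 189) (nat_lit 0) (cs (lf (nat_lit 5) (nat_lit 164)) (nd (nat_lit 187) (nat_lit 0) (cs (lf (nat_lit 11) (nat_lit 185)) (rf (nat_lit 10)))))))))))))))))))) q33164 (by decide +kernel)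
def q33210 : Q := Q.p (nat_lit 0x100000400000000007000000000000000000000000000000) (nat_lit 0x7000008800077000000000000000000000000) (nat_lit 5)
theorem c33210 : QOK q33210 := cut [q32825, q33209] ⟨c32825, c33209, trivial⟩ (nd (nat_lit 123) (nat_lit 0) (cs (nd (nat_lit 101) (nat_lit 0) (cs (lf (nat_lit 17) (nat_lit 98)) (lf (nat_lit 32) (nat_lit 100)))) (cs (nd (nat_lit 97) (nat_lit 0) (cs (lf (nat_lit 22) (nat_lit 97)) (nd (nat_lit 119) (nat_lit 0) (cs (lf (nat_lit 23) (nat_lit 96)) (rf (nat_lit 0)))))) (rf (nat_lit 1))))) q33210 (by decide +kernel)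
def q33232 : Q := Q.p (nat_lit 0x7000000000000000000000000000000) (nat_lit 0xe00007880007f000000000000000000000000) (nat_lit 7)
theorem c33232 : QOK q33232 := cut [q33209] ⟨c33209, trivial⟩ (nd (nat_lit 123) (nat_lit 0) (cs (rf (nat_lit 0)) (cs (nd (nat_lit 98) (nat_lit 0) (cs (nd (nat_lit 146) (nat_lit 0) (cs (nd (nat_lit 124) (nat_lit 0) (cs (lf (nat_lit 5) (nat_lit 121)) (lf (nat_lit 22) (nat_lit 98)))) (lf (nat_lit 4) (nat_lit 120)))) (lf (nat_lit 23) (nat_lit 97)))) (nd (nat_lit 101) (nat_lit 0) (cs (lf (nat_lit 17) (nat_lit 98)) (nd (nat_lit 100) (nat_lit 0) (cs (nd (nat_lit 146) (nat_lit 0) (cs (lf (nat_lit 4) (nat_lit 120)) (nd (nat_lit 124) (nat_lit 0) (cs (lf (nat_lit 5) (nat_lit 121)) (nd (nat_lit 125) (nat_lit 0) (cs (lf (nat_lit 18) (nat_lit 100)) (lf (nat_lit 23) (nat_lit 99)))))))) (lf (nat_lit 12) (nat_lit 97))))))))) q33232 (by decide +kernel)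
def q33314 : Q := Q.p (nat_lit 0x18000040000100000000000000000000000000000000000) (nat_lit 0x2000000000000000000000e0000380000a000000000000000000) (nat_lit 5)
theorem c33314 : QOK q33314 := cut [q19066] ⟨c19066, trivial⟩ (nd (nat_lit 118) (nat_lit 0) (cs (lf (nat_lit 41) (nat_lit 117)) (rf (nat_lit 0)))) q33314 (by decide +kernel)
def q33452 : Q := Q.p (nat_lit 0x100000400001c0000000000000000000000000000000000000000) (nat_lit 0x3b8000600001c00002000008000000000000000000000000) (nat_lit 5)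
theorem c33452 : QOK q33452 := cut [q33126, q33310] ⟨c33126, c33310, trivial⟩ (nd (nat_lit 165) (nat_lit 0) (cs (rf (nat_lit 0)) (rf (nat_lit 1)))) q33452 (by decide +kernel)
def q33453 : Q := Q.p (nat_lit 0x100000400001c0000000000000000000000000000000000000000) (nat_lit 0x4000098000600001b8000280000a000000000000000000000000) (nat_lit 6)
theorem c33453 : QOK q33453 := cut [q4816, q33016] ⟨c4816, c33016, trivial⟩ (nd (nat_lit 165) (nat_lit 0) (cs (rf (nat_lit 0)) (rf (nat_lit 1)))) q33453 (by decide +kernel)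
def q33489 : Q := Q.p (nat_lit 0x4000050000040000100000000000000000000000000000000000) (nat_lit 0x10000000000a8000038000080000200000000000000000000000000000) (nat_lit 5)
theorem c33489 : QOK q33489 := cut [q33487] ⟨c33487, trivial⟩ (nd (nat_lit 139) (nat_lit 0) (cs (lf (nat_lit 47) (nat_lit 117)) (nd (nat_lit 161) (nat_lit 0) (cs (lf (nat_lit 42) (nat_lit 139)) (rf (nat_lit 0)))))) q33489 (by decide +kernel)
def q33490 : Q := Q.p (nat_lit 0x10000040000100000400000000000000000000000000000) (nat_lit 0x2000008000020000000000800003000008000000000000000000) (nat_lit 4)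
theorem c33490 : QOK q33490 := cut [q27472] ⟨c27472, trivial⟩ (nd (nat_lit 183) (nat_lit 0) (cs (lf (nat_lit 41) (nat_lit 117)) (rf (nat_lit 0)))) q33490 (by decide +kernel)
def q33491 : Q := Q.p (nat_lit 0x10000040000100000400000000000000000000000000000) (nat_lit 0x2000008000020000000000200001800002000000000000000000) (nat_lit 4)
theorem c33491 : QOK q33491 := cut [q17811] ⟨c17811, trivial⟩ (nd (nat_lit 183) (nat_lit 0) (cs (lf (nat_lit 41) (nat_lit 117)) (rf (nat_lit 0)))) q33491 (by decide +kernel)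
def q33500 : Q := Q.p (nat_lit 0x50000040000100000400000000000000000000000000000) (nat_lit 0x80000a8000038000000000200000800000000000000000000000) (nat_lit 5)
theorem c33500 : QOK q33500 := cut [q19014] ⟨c19014, trivial⟩ (nd (nat_lit 185) (nat_lit 0) (cs (lf (nat_lit 29) (nat_lit 118)) (nd (nat_lit 95) (nat_lit 0) (cs (lf (nat_lit 46) (nat_lit 95)) (rf (nat_lit 0)))))) q33500 (by decide +kernel)
def q33509 : Q := Q.p (nat_lit 0x100000700000000000000000000000000000000000) (nat_lit 0x2380000c0000380000000000000000000000000000) (nat_lit 5)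
theorem c33509 : QOK q33509 := cut [q6479] ⟨c6479, trivial⟩ (nd (nat_lit 139) (nat_lit 0) (cs (lf (nat_lit 5) (nat_lit 139)) (rf (nat_lit 0)))) q33509 (by decide +kernel)
def q33514 : Q := Q.p (nat_lit 0x10000040000040000700000000000000000000000000000000000) (nat_lit 0x80000620000800006000000000000000000000000000000) (nat_lit 4)
theorem c33514 : QOK q33514 := cut [q33513] ⟨c33513, trivial⟩ (nd (nat_lit 143) (nat_lit 0) (cs (lf (nat_lit 11) (nat_lit 139)) (rf (nat_lit 0)))) q33514 (by decide +kernel)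
def q33599 : Q := Q.p (nat_lit 0x1000003800000000000000000000000) (nat_lit 0x9c0000600001c00000000000000000) (nat_lit 5)
theorem c33599 : QOK q33599 := cut [q33598] ⟨c33598, trivial⟩ (nd (nat_lit 94) (nat_lit 0) (cs (lf (nat_lit 4) (nat_lit 94)) (rf (nat_lit 0)))) q33599 (by decide +kernel)
def q33623 : Q := Q.p (nat_lit 0x40000100000000003800000000000000000000000) (nat_lit 0x800003c000460003fc000760000c0000300) (nat_lit 11)
theorem c33623 : QOK q33623 := cut [q33579, q33598, q33616] ⟨c33579, c33598, c33616, trivial⟩ (nd (nat_lit 94) (nat_lit 0) (cs (rf (nat_lit 0)) (cs (rf (nat_lit 1)) (cs (rf (nat_lit 2)) (nd (nat_lit 115) (nat_lit 0) (cs (lf (nat_lit 10) (nat_lit 93)) (nd (nat_lit 76) (nat_lit 0) (cs (nd (nat_lit 72) (nat_lit 0) (cs (lf (nat_lit 23) (nat_lit 71)) (nd (nat_lit 98) (nat_lit 0) (cs (lf (nat_lit 17) (nat_lit 73)) (lf (nat_lit 22) (nat_lit 72)))))) (lf (nat_lit 16) (nat_lit 72)))))))))) q33623 (by decide +kernel)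
def q33666 : Q := Q.p (nat_lit 0x40000500001c00000000000000000000000000000) (nat_lit 0x800000200001c00002000008000000000000) (nat_lit 4)
theorem c33666 : QOK q33666 := cut [q33665] ⟨c33665, trivial⟩ (nd (nat_lit 117) (nat_lit 0) (cs (lf (nat_lit 5) (nat_lit 117)) (rf (nat_lit 0)))) q33666 (by decide +kernel)
def q33691 : Q := Q.p (nat_lit 0x10000040000000000500001c00000000000000000000000000000) (nat_lit 0x8000020000188000200001c0000300000c0000000000000) (nat_lit 7)
theorem c33691 : QOK q33691 := cut [q33690] ⟨c33690, trivial⟩ (nd (nat_lit 121) (nat_lit 0) (cs (lf (nat_lit 11) (nat_lit 117)) (rf (nat_lit 0)))) q33691 (by decide +kernel)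
def q33695 : Q := Q.p (nat_lit 0x400001c00000000000000000000000000000) (nat_lit 0x80000030000ee00000000000000000000000) (nat_lit 5)
theorem c33695 : QOK q33695 := cut [q33694] ⟨c33694, trivial⟩ (nd (nat_lit 117) (nat_lit 0) (cs (lf (nat_lit 5) (nat_lit 117)) (rf (nat_lit 0)))) q33695 (by decide +kernel)
def q33723 : Q := Q.p (nat_lit 0x40000500001c00000000000000000000000000000) (nat_lit 0x80000030000f000008000020000000000000) (nat_lit 5)
theorem c33723 : QOK q33723 := cut [q33716] ⟨c33716, trivial⟩ (nd (nat_lit 117) (nat_lit 0) (cs (lf (nat_lit 5) (nat_lit 117)) (rf (nat_lit 0)))) q33723 (by decide +kernel)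
def q33870 : Q := Q.p (nat_lit 0x30000040000100000000000000000000000000000) (nat_lit 0x8000000000000000000000e0000380000a000000000000) (nat_lit 5)
theorem c33870 : QOK q33870 := cut [q33868] ⟨c33868, trivial⟩ (nd (nat_lit 94) (nat_lit 0) (cs (rf (nat_lit 0)) (lf (nat_lit 29) (nat_lit 94)))) q33870 (by decide +kernel)
def q33980 : Q := Q.p (nat_lit 0x10000040000000000500000c00000000000000000000000000000) (nat_lit 0x20000080000200001000000e0003200002000000000000000000000000) (nat_lit 4)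
theorem c33980 : QOK q33980 := cut [q33670, q33676] ⟨c33670, c33676, trivial⟩ (nd (nat_lit 120) (nat_lit 0) (cs (rf (nat_lit 0)) (rf (nat_lit 1)))) q33980 (by decide +kernel)
def q34007 : Q := Q.p (nat_lit 0x40000500000c00000000000000000000000000000) (nat_lit 0x80000380002e00033c000ee0000b000020000000000000) (nat_lit 10)
theorem c34007 : QOK q34007 := cut [q33985, q34004, q6475, q33796] ⟨c33985, c34004, c6475, c33796, trivial⟩ (nd (nat_lit 139) (nat_lit 0) (cs (rf (nat_lit 0)) (cs (nd (nat_lit 117) (nat_lit 0) (cs (nd (nat_lit 120) (nat_lit 0) (cs (lf (nat_lit 6) (nat_lit 117)) (nd (nat_lit 95) (nat_lit 0) (cs (lf (nat_lit 24) (nat_lit 73)) (lf (nat_lit 23) (nat_lit 94)))))) (cs (nd (nat_lit 116) (nat_lit 0) (cs (nd (nat_lit 114) (nat_lit 0) (cs (nd (nat_lit 94) (nat_lit 0) (cs (lf (nat_lit 23) (nat_lit 93)) (nd (nat_lit 97) (nat_lit 0) (cs (lf (nat_lit 17) (nat_lit 94)) (nd (nat_lit 53) (nat_lit 0) (cs (lf (nat_lit 37) (nat_lit 52)) (nd (nat_lit 161) (nat_lit 0) (cs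 (nd (nat_lit 95) (nat_lit 0) (cs (lf (nat_lit 47) (nat_lit 72)) (lf (nat_lit 24) (nat_lit 73)))) (lf (nat_lit 42) (nat_lit 94)))))))))) (lf (nat_lit 1) (nat_lit 114)))) (lf (nat_lit 19) (nat_lit 116)))) (nd (nat_lit 116) (nat_lit 0) (cs (lf (nat_lit 4) (nat_lit 116)) (nd (nat_lit 98) (nat_lit 0) (cs (lf (nat_lit 16) (nat_lit 94)) (nd (nat_lit 120) (nat_lit 0) (cs (lf (nat_lit 17) (nat_lit 95)) (lf (nat_lit 6) (nat_lit 117))))))))))) (cs (rf (nat_lit 1)) (nd (nat_lit 138) (nat_lit 0) (cs (lf (nat_lit 12) (nat_lit 115)) (nd (nat_lit 141) (nat_lit 0) (cs (rf (nat_lit 2)) (rf (nat_lit 3)))))))))) q34007 (by decide +kernel)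
def q34013 : Q := Q.p (nat_lit 0x10000040000000000400000c00000000000000000000000000000) (nat_lit 0x200000800002000010000020000320000c000020000000000000000000) (nat_lit 6)
theorem c34013 : QOK q34013 := cut [q34011] ⟨c34011, trivial⟩ (nd (nat_lit 164) (nat_lit 0) (cs (lf (nat_lit 46) (nat_lit 119)) (nd (nat_lit 207) (nat_lit 0) (cs (lf (nat_lit 41) (nat_lit 141)) (rf (nat_lit 0)))))) q34013 (by decide +kernel)
def q34071 : Q := Q.p (nat_lit 0x60000100000400000000000000000000000000000) (nat_lit 0x800000000000000000000380000e000028000000000000) (nat_lit 5)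
theorem c34071 : QOK q34071 := cut [q24124] ⟨c24124, trivial⟩ (nd (nat_lit 96) (nat_lit 0) (cs (rf (nat_lit 0)) (lf (nat_lit 41) (nat_lit 95)))) q34071 (by decide +kernel)
def q34100 : Q := Q.p (nat_lit 0x78000020000080000000000000000000000000000) (nat_lit 0x3000000000000000140000700001400000000000000000) (nat_lit 5)
theorem c34100 : QOK q34100 := cut [q34099] ⟨c34099, trivial⟩ (nd (nat_lit 181) (nat_lit 0) (cs (lf (nat_lit 11) (nat_lit 158)) (rf (nat_lit 0)))) q34100 (by decide +kernel)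
def q34113 : Q := Q.p (nat_lit 0x18000020000080000000000000000000000000000) (nat_lit 0x4000000000040000000000300000c00001000000000000) (nat_lit 4)
theorem c34113 : QOK q34113 := cut [q34112] ⟨c34112, trivial⟩ (nd (nat_lit 93) (nat_lit 0) (cs (lf (nat_lit 29) (nat_lit 93)) (rf (nat_lit 0)))) q34113 (by decide +kernel)
def q34126 : Q := Q.p (nat_lit 0x10000040000020000580000000000000000000000000000000000) (nat_lit 0x2000008000020000310000200003000000000000000000000000000000) (nat_lit 5)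
theorem c34126 : QOK q34126 := cut [q34125] ⟨c34125, trivial⟩ (nd (nat_lit 141) (nat_lit 0) (cs (lf (nat_lit 11) (nat_lit 138)) (rf (nat_lit 0)))) q34126 (by decide +kernel)
def q34129 : Q := Q.p (nat_lit 0x10000040000000000580000200000000000000000000000000000) (nat_lit 0x2000008000020000300000200003100000000000000000000000000000) (nat_lit 5)
theorem c34129 : QOK q34129 := cut [q34125] ⟨c34125, trivial⟩ (nd (nat_lit 141) (nat_lit 0) (cs (lf (nat_lit 23) (nat_lit 116)) (rf (nat_lit 0)))) q34129 (by decide +kernel)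
def q34196 : Q := Q.p (nat_lit 0x12000048000000000400000400000000000000000000000000000) (nat_lit 0x200000c0000a4000100000200003a0000c000020000000000000000000) (nat_lit 7)
theorem c34196 : QOK q34196 := cut [q3674, q34011] ⟨c3674, c34011, trivial⟩ (nd (nat_lit 207) (nat_lit 0) (cs (rf (nat_lit 0)) (nd (nat_lit 164) (nat_lit 0) (cs (lf (nat_lit 41) (nat_lit 141)) (nd (nat_lit 119) (nat_lit 0) (cs (lf (nat_lit 46) (nat_lit 119)) (rf (nat_lit 1)))))))) q34196 (by decide +kernel)
def q34258 : Q := Q.p (nat_lit 0x60000100000400000000000000000000000000000) (nat_lit 0x8000000000080000000001800006000008000000000000) (nat_lit 4)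
theorem c34258 : QOK q34258 := cut [q34257] ⟨c34257, trivial⟩ (nd (nat_lit 96) (nat_lit 0) (cs (lf (nat_lit 41) (nat_lit 95)) (rf (nat_lit 0)))) q34258 (by decide +kernel)
def q34322 : Q := Q.p (nat_lit 0x40000500000c00000000000000000000000000000) (nat_lit 0x20000080000300072f001f3800ff0000380000e0000000000000) (nat_lit 12)
theorem c34322 : QOK q34322 := cut [q33670, q32972, q34298, q33669, q34003, q34306] ⟨c33670, c32972, c34298, c33669, c34003, c34306, trivial⟩ (nd (nat_lit 120) (nat_lit 0) (cs (rf (nat_lit 0)) (cs (nd (nat_lit 97) (nat_lit 0) (cs (rf (nat_lit 1)) (cs (nd (nat_lit 99) (nat_lit 0) (cs (nd (nat_lit 98) (nat_lit 0) (cs (lf (nat_lit 6) (nat_lit 96)) (lf (nat_lit 12) (nat_lit 95)))) (cs (nd (nat_lit 121) (nat_lit 0) (cs (lf (nat_lit 17) (nat_lit 96)) (nd (nat_lit 122) (nat_lit 0) (cs (lf (nat_lit 23) (nat_lit 96)) (lf (nat_lit 10) (nat_lit 118)))))) (nd (nat_lit 117) (nat_lit 0) (cs (lf (nat_lit 16) (nat_lit 95)) (nd (nat_lit 116) (nat_lit 0) (cs (lf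 (nat_lit 4) (nat_lit 116)) (nd (nat_lit 137) (nat_lit 0) (cs (nd (nat_lit 115) (nat_lit 0) (cs (lf (nat_lit 16) (nat_lit 93)) (lf (nat_lit 11) (nat_lit 114)))) (lf (nat_lit 10) (nat_lit 115))))))))))) (rf (nat_lit 2))))) (cs (nd (nat_lit 139) (nat_lit 0) (cs (rf (nat_lit 3)) (cs (rf (nat_lit 4)) (nd (nat_lit 161) (nat_lit 0) (cs (nd (nat_lit 141) (nat_lit 0) (cs (lf (nat_lit 11) (nat_lit 138)) (nd (nat_lit 117) (nat_lit 0) (cs (lf (nat_lit 23) (nat_lit 116)) (nd (nat_lit 75) (nat_lit 0) (cs (lf (nat_lit 37) (nat_lit 74)) (nd (nat_lit 98) (nat_lit 0) (cs (lf (nat_lit 17) (nat_lit 95)) (nd (nat_lit 76) (nat_lit 0) (cs (lf (nat_lit 47) (nat_lit 53)) (lf (nat_lit 36) (nat_lit 53)))))))))))) (rf (nat_lit 5))))))) (nd (nat_lit 121) (nat_lit 0) (cs (lf (nat_lit 11) (nat_lit 117)) (nd (nat_lit 99) (nat_lit 0) (cs (lf (nat_lit 17) (nat_lit 96)) (nd (nat_lit 55) (nat_lit 0) (cs (lf (nat_lit 37) (nat_lit 54)) (nd (nat_lit 122) (nat_lit 0) (cs (lf (nat_lit 10) (nat_lit 118)) (nd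 (nat_lit 96) (nat_lit 0) (cs (lf (nat_lit 22) (nat_lit 96)) (nd (nat_lit 161) (nat_lit 0) (cs (lf (nat_lit 41) (nat_lit 95)) (nd (nat_lit 145) (nat_lit 0) (cs (lf (nat_lit 4) (nat_lit 119)) (nd (nat_lit 123) (nat_lit 0) (cs (lf (nat_lit 5) (nat_lit 120)) (nd (nat_lit 102) (nat_lit 0) (cs (lf (nat_lit 16) (nat_lit 98)) (nd (nat_lit 124) (nat_lit 0) (cs (lf (nat_lit 17) (nat_lit 99)) (lf (nat_lit 23) (nat_lit 98)))))))))))))))))))))))))) q34322 (by decide +kernel)
def q34330 : Q := Q.p (nat_lit 0x400007000000000000000000000000) (nat_lit 0xea00018000060000000000000000000) (nat_lit 5)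
theorem c34330 : QOK q34330 := cut [q34327] ⟨c34327, trivial⟩ (nd (nat_lit 99) (nat_lit 0) (cs (nd (nat_lit 77) (nat_lit 0) (cs (lf (nat_lit 17) (nat_lit 74)) (rf (nat_lit 0)))) (lf (nat_lit 11) (nat_lit 95)))) q34330 (by decide +kernel)
def q34426 : Q := Q.p (nat_lit 0x10000040000000000700000000000000000000000000000000000) (nat_lit 0x20000080000200003380000c0003380000000000000000000000000000) (nat_lit 5)
theorem c34426 : QOK q34426 := cut [q6479, q34125] ⟨c6479, c34125, trivial⟩ (nd (nat_lit 139) (nat_lit 0) (cs (rf (nat_lit 0)) (rf (nat_lit 1)))) q34426 (by decide +kernel)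
def q34433 : Q := Q.p (nat_lit 0x10000000000060000180000200000800000000000000000000000) (nat_lit 0x180000f00000c000000000000000400001000004000000000000000000) (nat_lit 6)
theorem c34433 : QOK q34433 := cut [q34430] ⟨c34430, trivial⟩ (nd (nat_lit 96) (nat_lit 0) (cs (lf (nat_lit 35) (nat_lit 73)) (nd (nat_lit 183) (nat_lit 0) (cs (lf (nat_lit 37) (nat_lit 95)) (nd (nat_lit 182) (nat_lit 0) (cs (lf (nat_lit 41) (nat_lit 116)) (rf (nat_lit 0)))))))) q34433 (by decide +kernel)
def q34445 : Q := Q.p (nat_lit 0x10000040000000000700000000000000000000000000000000000) (nat_lit 0x80000e00001880007f00000000000000000000000000000) (nat_lit 5)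
theorem c34445 : QOK q34445 := cut [q32513, q34417, q34444] ⟨c32513, c34417, c34444, trivial⟩ (nd (nat_lit 143) (nat_lit 0) (cs (rf (nat_lit 0)) (cs (rf (nat_lit 1)) (rf (nat_lit 2))))) q34445 (by decide +kernel)
def q34450 : Q := Q.p (nat_lit 0x10000040000000000600000000000000000000000000000000000) (nat_lit 0x2000008000020000100000800003800008000000000000000000000000) (nat_lit 5)
theorem c34450 : QOK q34450 := cut [q32610] ⟨c32610, trivial⟩ (nd (nat_lit 164) (nat_lit 0) (cs (lf (nat_lit 47) (nat_lit 119)) (rf (nat_lit 0)))) q34450 (by decide +kernel)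
def q34462 : Q := Q.p (nat_lit 0x18000040000000000400000000000000000000000000000000000) (nat_lit 0x2000000000020000100000800003000008000000000000000000000000) (nat_lit 4)
theorem c34462 : QOK q34462 := cut [q522] ⟨c522, trivial⟩ (nd (nat_lit 164) (nat_lit 0) (cs (rf (nat_lit 0)) (lf (nat_lit 41) (nat_lit 141)))) q34462 (by decide +kernel)
def q34517 : Q := Q.p (nat_lit 0x6000008000020000000000000000000000000000000000000000) (nat_lit 0x14000010000040000000000c0000300000400000000000000000000000) (nat_lit 5)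
theorem c34517 : QOK q34517 := cut [q34516] ⟨c34516, trivial⟩ (nd (nat_lit 139) (nat_lit 0) (cs (lf (nat_lit 29) (nat_lit 139)) (rf (nat_lit 0)))) q34517 (by decide +kernel)
def q34520 : Q := Q.p (nat_lit 0x16000040000000000000000000000000000000000000000000000) (nat_lit 0xe000090000a0000000000000000000000000000000000000000000000) (nat_lit 4)
theorem c34520 : QOK q34520 := cut [q154] ⟨c154, trivial⟩ (nd (nat_lit 207) (nat_lit 0) (cs (rf (nat_lit 0)) (lf (nat_lit 17) (nat_lit 183)))) q34520 (by decide +kernel)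
def q34521 : Q := Q.p (nat_lit 0x16000040000000000000000000000000000000000000000000000) (nat_lit 0x90000ae000000000000000000000000000000000000000000000) (nat_lit 4)
theorem c34521 : QOK q34521 := cut [q128] ⟨c128, trivial⟩ (nd (nat_lit 207) (nat_lit 0) (cs (rf (nat_lit 0)) (lf (nat_lit 17) (nat_lit 183)))) q34521 (by decide +kernel)
def q34555 : Q := Q.p (nat_lit 0x10000040000000000700000000000000000000000000000000000) (nat_lit 0x20000080000a000070000088000f000008000000000000000000000000) (nat_lit 6)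
theorem c34555 : QOK q34555 := cut [q34546, q34199] ⟨c34546, c34199, trivial⟩ (nd (nat_lit 121) (nat_lit 0) (cs (rf (nat_lit 0)) (cs (nd (nat_lit 120) (nat_lit 0) (cs (lf (nat_lit 12) (nat_lit 117)) (nd (nat_lit 122) (nat_lit 0) (cs (lf (nat_lit 6) (nat_lit 119)) (rf (nat_lit 1)))))) (nd (nat_lit 120) (nat_lit 0) (cs (lf (nat_lit 12) (nat_lit 117)) (nd (nat_lit 164) (nat_lit 0) (cs (lf (nat_lit 35) (nat_lit 98)) (lf (nat_lit 34) (nat_lit 120))))))))) q34555 (by decide +kernel)
def q34573 : Q := Q.p (nat_lit 0x6000040000040000100000000000000000000000000000000000) (nat_lit 0x8000018000b8000000000200000800000000000000000000000000000) (nat_lit 5)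
theorem c34573 : QOK q34573 := cut [q32685] ⟨c32685, trivial⟩ (nd (nat_lit 184) (nat_lit 0) (cs (lf (nat_lit 41) (nat_lit 139)) (nd (nat_lit 119) (nat_lit 0) (cs (lf (nat_lit 34) (nat_lit 118)) (rf (nat_lit 0)))))) q34573 (by decide +kernel)
def q34587 : Q := Q.p (nat_lit 0x14000050000040000100000000000000000000000000000000000) (nat_lit 0x280000b00002e000000000000000000000000000000000000000000000) (nat_lit 5)
theorem c34587 : QOK q34587 := cut [q34574] ⟨c34574, trivial⟩ (nd (nat_lit 205) (nat_lit 0) (cs (lf (nat_lit 41) (nat_lit 139)) (rf (nat_lit 0)))) q34587 (by decide +kernel)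
def q34593 : Q := Q.p (nat_lit 0x4000010000040000100000000000000000000000000000000000) (nat_lit 0x200001800002000000000020000280000a00000000000000000000000000000) (nat_lit 5)
theorem c34593 : QOK q34593 := cut [q34592] ⟨c34592, trivial⟩ (nd (nat_lit 119) (nat_lit 0) (cs (lf (nat_lit 34) (nat_lit 118)) (rf (nat_lit 0)))) q34593 (by decide +kernel)
def q34723 : Q := Q.p (nat_lit 0x10000040000000000300000c00000000000000000000000000000) (nat_lit 0x80000700001c00006000000000000000000000000000000) (nat_lit 5)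
theorem c34723 : QOK q34723 := cut [q33513] ⟨c33513, trivial⟩ (nd (nat_lit 142) (nat_lit 0) (cs (lf (nat_lit 44) (nat_lit 119)) (nd (nat_lit 143) (nat_lit 0) (cs (lf (nat_lit 18) (nat_lit 118)) (rf (nat_lit 0)))))) q34723 (by decide +kernel)
def q34731 : Q := Q.p (nat_lit 0x10000040000100000000000000000000000000000000000) (nat_lit 0x800006000008000000000280000e0000380000a000000000000000000) (nat_lit 5)
theorem c34731 : QOK q34731 := cut [q19066, q32702, q34730] ⟨c19066, c32702, c34730, trivial⟩ (nd (nat_lit 118) (nat_lit 0) (cs (rf (nat_lit 0)) (cs (rf (nat_lit 1)) (rf (nat_lit 2))))) q34731 (by decide +kernel)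
def q34752 : Q := Q.p (nat_lit 0x30000040000100000000000000000000000000000000000) (nat_lit 0x8000008000020000080000c0000380000e000008000000000000) (nat_lit 7)
theorem c34752 : QOK q34752 := cut [q34751] ⟨c34751, trivial⟩ (nd (nat_lit 118) (nat_lit 0) (cs (lf (nat_lit 29) (nat_lit 118)) (rf (nat_lit 0)))) q34752 (by decide +kernel)
def q34758 : Q := Q.p (nat_lit 0x4000010000040000100000000000000000000000000000000000) (nat_lit 0x80000e00003800008000008000020000080000000000000000000000000000000000) (nat_lit 6)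
theorem c34758 : QOK q34758 := cut [q34755] ⟨c34755, trivial⟩ (nd (nat_lit 229) (nat_lit 0) (cs (lf (nat_lit 28) (nat_lit 140)) (nd (nat_lit 228) (nat_lit 0) (cs (lf (nat_lit 29) (nat_lit 162)) (nd (nat_lit 161) (nat_lit 0) (cs (lf (nat_lit 47) (nat_lit 139)) (rf (nat_lit 0)))))))) q34758 (by decide +kernel)
def q34785 : Q := Q.p (nat_lit 0x10000050000040000100000000000000000000000000000000000) (nat_lit 0x200002f0000f80002f000120001e00000c00002000000000000000000000000) (nat_lit 10)
theorem c34785 : QOK q34785 := cut [q34633, q4169, q34780, q34574] ⟨c34633, c4169, c34780, c34574, trivial⟩ (nd (nat_lit 205) (nat_lit 0) (cs (rf (nat_lit 0)) (cs (nd (nat_lit 206) (nat_lit 0) (cs (lf (nat_lit 41) (nat_lit 139)) (nd (nat_lit 119) (nat_lit 0) (cs (lf (nat_lit 34) (nat_lit 118)) (nd (nat_lit 97) (nat_lit 0) (cs (lf (nat_lit 33) (nat_lit 96)) (nd (nat_lit 207) (nat_lit 0) (cs (lf (nat_lit 29) (nat_lit 140)) (nd (nat_lit 204) (nat_lit 0) (cs (lf (nat_lit 16) (nat_lit 182)) (rf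 (nat_lit 1)))))))))))) (cs (nd (nat_lit 118) (nat_lit 0) (cs (lf (nat_lit 40) (nat_lit 117)) (nd (nat_lit 185) (nat_lit 0) (cs (lf (nat_lit 29) (nat_lit 118)) (rf (nat_lit 2)))))) (nd (nat_lit 206) (nat_lit 0) (cs (lf (nat_lit 41) (nat_lit 139)) (nd (nat_lit 119) (nat_lit 0) (cs (lf (nat_lit 34) (nat_lit 118)) (rf (nat_lit 3)))))))))) q34785 (by decide +kernel)
def q34787 : Q := Q.p (nat_lit 0x10000050000040000100000000000000000000000000000000000) (nat_lit 0x20000080000e0000a8000020000000000400000000000000000000000000000) (nat_lit 5)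
theorem c34787 : QOK q34787 := cut [q34631, q34633, q34635] ⟨c34631, c34633, c34635, trivial⟩ (nd (nat_lit 205) (nat_lit 0) (cs (rf (nat_lit 0)) (cs (rf (nat_lit 1)) (nd (nat_lit 118) (nat_lit 0) (cs (lf (nat_lit 40) (nat_lit 117)) (rf (nat_lit 2))))))) q34787 (by decide +kernel)
def q34794 : Q := Q.p (nat_lit 0x40000040000100000400000000000000000000000000000) (nat_lit 0x80000b800002000008000020000380000e000028000000000000) (nat_lit 7)
theorem c34794 : QOK q34794 := cut [q24124, q33653, q33680, q34791] ⟨c24124, c33653, c33680, c34791, trivial⟩ (nd (nat_lit 96) (nat_lit 0) (cs (rf (nat_lit 0)) (cs (rf (nat_lit 1)) (cs (rf (nat_lit 2)) (nd (nat_lit 161) (nat_lit 0) (cs (lf (nat_lit 41) (nat_lit 95)) (nd (nat_lit 75) (nat_lit 0) (cs (lf (nat_lit 34) (nat_lit 74)) (rf (nat_lit 3)))))))))) q34794 (by decide +kernel)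
def q34819 : Q := Q.p (nat_lit 0x40000100000400000000000000000000000000000) (nat_lit 0x8000038000ec0003b8000fe0003fc00028000000000000) (nat_lit 15)
theorem c34819 : QOK q34819 := cut [q24124, q33653, q33680, q34262, q34265, q34279, q34806] ⟨c24124, c33653, c33680, c34262, c34265, c34279, c34806, trivial⟩ (nd (nat_lit 96) (nat_lit 0) (cs (rf (nat_lit 0)) (cs (rf (nat_lit 1)) (cs (rf (nat_lit 2)) (nd (nat_lit 97) (nat_lit 0) (cs (lf (nat_lit 35) (nat_lit 74)) (nd (nat_lit 116) (nat_lit 0) (cs (rf (nat_lit 3)) (cs (rf (nat_lit 4)) (cs (rf (nat_lit 5)) (nd (nat_lit 161) (nat_lit 0) (cs (lf (nat_lit 41) (nat_lit 95)) (nd (nat_lit 95) (nat_lit 0) (cs (lf (nat_lit 47) (nat_lit 73)) (nd (nat_lit 98) (nat_lit 0) (cs (lf (nat_lit 10) (nat_lit 94)) (nd (nat_lit 76) (nat_lit 0) (cs (lf (nat_lit 17) (nat_lit 73)) (nd (nat_lit 120) (nat_lit 0) (cs (lf (nat_lit 5) (nat_lit 95)) (nd (nat_lit 94) (nat_lit 0) (cs (lf (nat_lit 4) (nat_lit 94)) (nd (nat_lit 71) (nat_lit 0) (cs (lf (nat_lit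 22) (nat_lit 71)) (nd (nat_lit 93) (nat_lit 0) (cs (lf (nat_lit 23) (nat_lit 70)) (nd (nat_lit 160) (nat_lit 0) (cs (rf (nat_lit 6)) (lf (nat_lit 43) (nat_lit 71)))))))))))))))))))))))))))))) q34819 (by decide +kernel)
def q34821 : Q := Q.p (nat_lit 0x10000060000180000000000000000000000000000000000) (nat_lit 0x300000c000000000010000e00000800000000000000000000000000000) (nat_lit 5)
theorem c34821 : QOK q34821 := cut [q18007] ⟨c18007, trivial⟩ (nd (nat_lit 206) (nat_lit 0) (cs (lf (nat_lit 42) (nat_lit 139)) (nd (nat_lit 207) (nat_lit 0) (cs (lf (nat_lit 29) (nat_lit 140)) (rf (nat_lit 0)))))) q34821 (by decide +kernel)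
def q34842 : Q := Q.p (nat_lit 0x40000100000400000000000000000000000000000) (nat_lit 0x200000c000030000000000280000b0000f80000a000020000000000000) (nat_lit 6)
theorem c34842 : QOK q34842 := cut [q34837, q34721, q34841] ⟨c34837, c34721, c34841, trivial⟩ (nd (nat_lit 97) (nat_lit 0) (cs (rf (nat_lit 0)) (cs (nd (nat_lit 184) (nat_lit 0) (cs (lf (nat_lit 34) (nat_lit 96)) (rf (nat_lit 1)))) (rf (nat_lit 2))))) q34842 (by decide +kernel)
def q34909 : Q := Q.p (nat_lit 0x10000040000000000100000c00000000000000000000000000000) (nat_lit 0x2000008000020000300003ee000f30001f000020000080000000000000) (nat_lit 9)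
theorem c34909 : QOK q34909 := cut [q33670, q34894, q33676, q19593, q34893, q34906] ⟨c33670, c34894, c33676, c19593, c34893, c34906, trivial⟩ (nd (nat_lit 120) (nat_lit 0) (cs (rf (nat_lit 0)) (cs (rf (nat_lit 1)) (cs (nd (nat_lit 142) (nat_lit 0) (cs (rf (nat_lit 2)) (cs (nd (nat_lit 117) (nat_lit 0) (cs (rf (nat_lit 3)) (lf (nat_lit 5) (nat_lit 117)))) (nd (nat_lit 141) (nat_lit 0) (cs (lf (nat_lit 44) (nat_lit 119)) (nd (nat_lit 117) (nat_lit 0) (cs (lf (nat_lit 0) (nat_lit 116)) (lf (nat_lit 5) (nat_lit 117))))))))) (nd (nat_lit 121) (nat_lit 0) (cs (rf (nat_lit 4)) (cs (nd (nat_lit 99) (nat_lit 0) (cs (lf (nat_lit 17) (nat_lit 96)) (nd (nat_lit 98) (nat_lit 0) (cs (lf (nat_lit 12) (nat_lit 95)) (nd (nat_lit 142) (nat_lit 0) (cs (lf (nat_lit 31) (nat_lit 98)) (nd (nat_lit 55) (nat_lit 0) (cs (lf (nat_lit 37) (nat_lit 54)) (nd (nat_lit 122) (nat_lit 0) (cs (lf (nat_lit 10) (nat_lit 118)) (nd (nat_lit 97) (nat_lit 0) (cs (lf (nat_lit 18) (nat_lit 97)) (lf (nat_lit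 0) (nat_lit 96)))))))))))))) (nd (nat_lit 122) (nat_lit 0) (cs (lf (nat_lit 10) (nat_lit 118)) (rf (nat_lit 5))))))))))) q34909 (by decide +kernel)
def q34982 : Q := Q.p (nat_lit 0x100000700001000000000000000000000000) (nat_lit 0xf00008c0000f00000000000000000000000) (nat_lit 5)
theorem c34982 : QOK q34982 := cut [q34943, q34981] ⟨c34943, c34981, trivial⟩ (nd (nat_lit 115) (nat_lit 0) (cs (rf (nat_lit 0)) (rf (nat_lit 1)))) q34982 (by decide +kernel)
def q35022 : Q := Q.p (nat_lit 0x40000040000100000c00000000000000000000000000000) (nat_lit 0x10000100000ef000338000cf00002000008000000000000) (nat_lit 7)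
theorem c35022 : QOK q35022 := cut [q35014, q35017, q34971, q35020] ⟨c35014, c35017, c34971, c35020, trivial⟩ (nd (nat_lit 117) (nat_lit 0) (cs (rf (nat_lit 0)) (cs (rf (nat_lit 1)) (nd (nat_lit 116) (nat_lit 0) (cs (rf (nat_lit 2)) (rf (nat_lit 3))))))) q35022 (by decide +kernel)
def q35086 : Q := Q.p (nat_lit 0x40000060000100000400000000000000000000000000000) (nat_lit 0x80000b8000000000000000200001800002000000000000000000) (nat_lit 5)
theorem c35086 : QOK q35086 := cut [q34791] ⟨c34791, trivial⟩ (nd (nat_lit 96) (nat_lit 0) (cs (lf (nat_lit 41) (nat_lit 95)) (rf (nat_lit 0)))) q35086 (by decide +kernel)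
def q35092 : Q := Q.p (nat_lit 0x10000040000000000000000f00000000000000000000000000000) (nat_lit 0x800003000018e000300001c000000000000000000000000) (nat_lit 7)
theorem c35092 : QOK q35092 := cut [q35090] ⟨c35090, trivial⟩ (nd (nat_lit 138) (nat_lit 0) (cs (lf (nat_lit 11) (nat_lit 115)) (nd (nat_lit 120) (nat_lit 0) (cs (lf (nat_lit 10) (nat_lit 116)) (rf (nat_lit 0)))))) q35092 (by decide +kernel)
def q35110 : Q := Q.p (nat_lit 0x100000700000000000000000000000000000) (nat_lit 0xf80008c0000780000000000000000000000) (nat_lit 5)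
theorem c35110 : QOK q35110 := cut [q34981, q34984] ⟨c34981, c34984, trivial⟩ (nd (nat_lit 115) (nat_lit 0) (cs (rf (nat_lit 0)) (cs (rf (nat_lit 1)) (nd (nat_lit 92) (nat_lit 0) (cs (lf (nat_lit 22) (nat_lit 92)) (nd (nat_lit 114) (nat_lit 0) (cs (lf (nat_lit 4) (nat_lit 114)) (lf (nat_lit 23) (nat_lit 91))))))))) q35110 (by decide +kernel)
def q35183 : Q := Q.p (nat_lit 0x50000060000100000000000000000000000000000000000) (nat_lit 0x80000200000c0000a0000018000000000400000000000000000000000000000) (nat_lit 5)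
theorem c35183 : QOK q35183 := cut [q35181] ⟨c35181, trivial⟩ (nd (nat_lit 185) (nat_lit 0) (cs (lf (nat_lit 18) (nat_lit 161)) (nd (nat_lit 159) (nat_lit 0) (cs (lf (nat_lit 1) (nat_lit 159)) (rf (nat_lit 0)))))) q35183 (by decide +kernel)
def q35197 : Q := Q.p (nat_lit 0x50000060000100000000000000000000000000000000000) (nat_lit 0x80000200002800001c000200000400001000000000000000000000000) (nat_lit 4)
theorem c35197 : QOK q35197 := cut [q35178] ⟨c35178, trivial⟩ (nd (nat_lit 183) (nat_lit 0) (cs (rf (nat_lit 0)) (nd (nat_lit 160) (nat_lit 0) (cs (nd (nat_lit 159) (nat_lit 0) (cs (lf (nat_lit 0) (nat_lit 158)) (lf (nat_lit 17) (nat_lit 137)))) (lf (nat_lit 19) (nat_lit 160)))))) q35197 (by decide +kernel)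
def q35205 : Q := Q.p (nat_lit 0x10000050000040000100000000000000000000000000000000000) (nat_lit 0xa0000380000e000080000020000280000a00000000000000000000000000000) (nat_lit 6)
theorem c35205 : QOK q35205 := cut [q32628, q34590, q34592] ⟨c32628, c34590, c34592, trivial⟩ (nd (nat_lit 206) (nat_lit 0) (cs (rf (nat_lit 0)) (cs (rf (nat_lit 1)) (rf (nat_lit 2))))) q35205 (by decide +kernel)
def q35240 : Q := Q.p (nat_lit 0x8000030000100000500000000000000000000000000000) (nat_lit 0x278000af0000fc0000000000000000000000) (nat_lit 8)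
theorem c35240 : QOK q35240 := cut [q35114, q35221, q35231] ⟨c35114, c35221, c35231, trivial⟩ (nd (nat_lit 117) (nat_lit 0) (cs (rf (nat_lit 0)) (cs (nd (nat_lit 94) (nat_lit 0) (cs (rf (nat_lit 1)) (lf (nat_lit 26) (nat_lit 94)))) (cs (nd (nat_lit 94) (nat_lit 0) (cs (lf (nat_lit 26) (nat_lit 94)) (rf (nat_lit 2)))) (nd (nat_lit 94) (nat_lit 0) (cs (lf (nat_lit 26) (nat_lit 94)) (nd (nat_lit 93) (nat_lit 0) (cs (lf (nat_lit 18) (nat_lit 93)) (nd (nat_lit 115) (nat_lit 0) (cs (lf (nat_lit 5) (nat_lit 115)) (nd (nat_lit 136) (nat_lit 0) (cs (lf (nat_lit 10) (nat_lit 114)) (nd (nat_lit 114) (nat_lit 0) (cs (lf (nat_lit 11) (nat_lit 113)) (nd (nat_lit 113) (nat_lit 0) (cs (lf (nat_lit 17) (nat_lit 91)) (lf (nat_lit 12) (nat_lit 90)))))))))))))))))) q35240 (by decide +kernel)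
def q35349 : Q := Q.p (nat_lit 0x12000008000078000100000000000000000000000000000000000) (nat_lit 0xc0000300001c00007e000df00007e000060000600007c0001700000400000000000000000) (nat_lit 11)
theorem c35349 : QOK q35349 := cut [q35296, q35305] ⟨c35296, c35305, trivial⟩ (nd (nat_lit 181) (nat_lit 0) (cs (lf (nat_lit 11) (nat_lit 158)) (nd (nat_lit 203) (nat_lit 0) (cs (rf (nat_lit 0)) (cs (nd (nat_lit 137) (nat_lit 0) (cs (nd (nat_lit 118) (nat_lit 0) (cs (lf (nat_lit 36) (nat_lit 95)) (nd (nat_lit 116) (nat_lit 0) (cs (lf (nat_lit 34) (nat_lit 115)) (nd (nat_lit 115) (nat_lit 0) (cs (lf (nat_lit 35) (nat_lit 93)) (nd (nat_lit 92) (nat_lit 0) (cs (lf (nat_lit 46) (nat_lit 92)) (nd (nat_lit 93) (nat_lit 0) (cs (lf (nat_lit 47) (nat_lit 70)) (lf (nat_lit 19) (nat_lit 92)))))))))))) (cs (nd (nat_lit 204) (nat_lit 0) (cs (lf (nat_lit 29) (nat_lit 137)) (nd (nat_lit 116) (nat_lit 0) (cs (lf (nat_lit 34) (nat_lit 115)) (nd (nat_lit 202) (nat_lit 0) (cs (lf (nat_lit 41) (nat_lit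 136)) (nd (nat_lit 201) (nat_lit 0) (cs (rf (nat_lit 1)) (lf (nat_lit 16) (nat_lit 179)))))))))) (nd (nat_lit 202) (nat_lit 0) (cs (lf (nat_lit 41) (nat_lit 136)) (nd (nat_lit 96) (nat_lit 0) (cs (lf (nat_lit 37) (nat_lit 95)) (nd (nat_lit 204) (nat_lit 0) (cs (lf (nat_lit 29) (nat_lit 137)) (nd (nat_lit 182) (nat_lit 0) (cs (lf (nat_lit 24) (nat_lit 115)) (lf (nat_lit 12) (nat_lit 179))))))))))))) (cs (nd (nat_lit 96) (nat_lit 0) (cs (lf (nat_lit 37) (nat_lit 95)) (nd (nat_lit 138) (nat_lit 0) (cs (lf (nat_lit 30) (nat_lit 137)) (nd (nat_lit 116) (nat_lit 0) (cs (lf (nat_lit 33) (nat_lit 115)) (lf (nat_lit 36) (nat_lit 93)))))))) (nd (nat_lit 225) (nat_lit 0) (cs (nd (nat_lit 96) (nat_lit 0) (cs (lf (nat_lit 37) (nat_lit 95)) (nd (nat_lit 182) (nat_lit 0) (cs (lf (nat_lit 30) (nat_lit 159)) (nd (nat_lit 157) (nat_lit 0) (cs (lf (nat_lit 1) (nat_lit 157)) (nd (nat_lit 206) (nat_lit 0) (cs (lf (nat_lit 19) (nat_lit 182)) (nd (nat_lit 224) (nat_lit 0) (cs (lf (nat_lit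 41) (nat_lit 158)) (lf (nat_lit 8) (nat_lit 202)))))))))))) (cs (nd (nat_lit 226) (nat_lit 0) (cs (nd (nat_lit 204) (nat_lit 0) (cs (lf (nat_lit 24) (nat_lit 137)) (nd (nat_lit 96) (nat_lit 0) (cs (lf (nat_lit 37) (nat_lit 95)) (nd (nat_lit 206) (nat_lit 0) (cs (lf (nat_lit 6) (nat_lit 203)) (nd (nat_lit 247) (nat_lit 0) (cs (nd (nat_lit 268) (nat_lit 0) (cs (lf (nat_lit 40) (nat_lit 180)) (nd (nat_lit 269) (nat_lit 0) (cs (lf (nat_lit 30) (nat_lit 203)) (lf (nat_lit 41) (nat_lit 202)))))) (lf (nat_lit 37) (nat_lit 159)))))))))) (lf (nat_lit 29) (nat_lit 159)))) (cs (nd (nat_lit 226) (nat_lit 0) (cs (lf (nat_lit 29) (nat_lit 159)) (nd (nat_lit 246) (nat_lit 0) (cs (lf (nat_lit 40) (nat_lit 158)) (nd (nat_lit 247) (nat_lit 0) (cs (lf (nat_lit 41) (nat_lit 180)) (lf (nat_lit 34) (nat_lit 159)))))))) (nd (nat_lit 226) (nat_lit 0) (cs (lf (nat_lit 29) (nat_lit 159)) (nd (nat_lit 204) (nat_lit 0) (cs (lf (nat_lit 24) (nat_lit 137)) (nd (nat_lit 224) (nat_lit 0) (cs (lf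 (nat_lit 12) (nat_lit 201)) (lf (nat_lit 6) (nat_lit 202)))))))))))))))))) q35349 (by decide +kernel)
def q35400 : Q := Q.p (nat_lit 0x50000060000100000000000000000000000000000000000) (nat_lit 0x8000070000af0000000002800007c0001c00000000000000000000000) (nat_lit 9)
theorem c35400 : QOK q35400 := cut [q35165] ⟨c35165, trivial⟩ (nd (nat_lit 183) (nat_lit 0) (cs (rf (nat_lit 0)) (cs (nd (nat_lit 118) (nat_lit 0) (cs (lf (nat_lit 36) (nat_lit 95)) (nd (nat_lit 117) (nat_lit 0) (cs (lf (nat_lit 47) (nat_lit 95)) (nd (nat_lit 139) (nat_lit 0) (cs (lf (nat_lit 29) (nat_lit 117)) (nd (nat_lit 182) (nat_lit 0) (cs (lf (nat_lit 41) (nat_lit 116)) (nd (nat_lit 180) (nat_lit 0) (cs (lf (nat_lit 13) (nat_lit 158)) (nd (nat_lit 116) (nat_lit 0) (cs (lf (nat_lit 47) (nat_lit 94)) (nd (nat_lit 115) (nat_lit 0) (cs (lf (nat_lit 0) (nat_lit 114)) (lf (nat_lit 5) (nat_lit 115)))))))))))))))) (nd (nat_lit 205) (nat_lit 0) (cs (lf (nat_lit 30) (nat_lit 139)) (nd (nat_lit 185) (nat_lit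 0) (cs (lf (nat_lit 18) (nat_lit 161)) (lf (nat_lit 11) (nat_lit 182))))))))) q35400 (by decide +kernel)
def q35402 : Q := Q.p (nat_lit 0x10000050000060000100000000000000000000000000000000000) (nat_lit 0x1000004000000000118000e80000a00000000000000000000000000000) (nat_lit 4)
theorem c35402 : QOK q35402 := cut [q35207, q35209, q35212] ⟨c35207, c35209, c35212, trivial⟩ (nd (nat_lit 141) (nat_lit 0) (cs (rf (nat_lit 0)) (cs (rf (nat_lit 1)) (rf (nat_lit 2))))) q35402 (by decide +kernel)
def q35420 : Q := Q.p (nat_lit 0x10000040000040000100000600000000000000000000000000000) (nat_lit 0x280000e000098000000000000000000000800000000000000000000000) (nat_lit 5)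
theorem c35420 : QOK q35420 := cut [q35419] ⟨c35419, trivial⟩ (nd (nat_lit 184) (nat_lit 0) (cs (lf (nat_lit 47) (nat_lit 95)) (rf (nat_lit 0)))) q35420 (by decide +kernel)
def q35461 : Q := Q.p (nat_lit 0x40000100000400000000000000000000000000000) (nat_lit 0x200001800002000008000080000380000e000028000000000000) (nat_lit 6)
theorem c35461 : QOK q35461 := cut [q24124, q33653, q33680, q35459] ⟨c24124, c33653, c33680, c35459, trivial⟩ (nd (nat_lit 96) (nat_lit 0) (cs (rf (nat_lit 0)) (cs (rf (nat_lit 1)) (cs (rf (nat_lit 2)) (nd (nat_lit 73) (nat_lit 0) (cs (lf (nat_lit 46) (nat_lit 73)) (rf (nat_lit 3)))))))) q35461 (by decide +kernel)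
def q35466 : Q := Q.p (nat_lit 0x40000100000400000000000000000000000000000) (nat_lit 0x200001800002000008000020000380000e000028000000000000) (nat_lit 6)
theorem c35466 : QOK q35466 := cut [q24124, q33653, q33680, q35463] ⟨c24124, c33653, c33680, c35463, trivial⟩ (nd (nat_lit 96) (nat_lit 0) (cs (rf (nat_lit 0)) (cs (rf (nat_lit 1)) (cs (rf (nat_lit 2)) (nd (nat_lit 183) (nat_lit 0) (cs (lf (nat_lit 40) (nat_lit 95)) (nd (nat_lit 75) (nat_lit 0) (cs (lf (nat_lit 34) (nat_lit 74)) (rf (nat_lit 3)))))))))) q35466 (by decide +kernel)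
def q35467 : Q := Q.p (nat_lit 0x40000100000400001000000000000000000000000) (nat_lit 0x2000018000020000000000200000800002000000000000000000) (nat_lit 4)
theorem c35467 : QOK q35467 := cut [q35463] ⟨c35463, trivial⟩ (nd (nat_lit 183) (nat_lit 0) (cs (lf (nat_lit 40) (nat_lit 95)) (rf (nat_lit 0)))) q35467 (by decide +kernel)
def q35557 : Q := Q.p (nat_lit 0x100000400001c0000000000000000000000000000000000000000) (nat_lit 0x7a0000e00007b8000280000a000000000000000000000000) (nat_lit 7)
theorem c35557 : QOK q35557 := cut [q4816, q33013, q4829] ⟨c4816, c33013, c4829, trivial⟩ (nd (nat_lit 165) (nat_lit 0) (cs (rf (nat_lit 0)) (cs (rf (nat_lit 1)) (nd (nat_lit 140) (nat_lit 0) (cs (lf (nat_lit 23) (nat_lit 139)) (nd (nat_lit 187) (nat_lit 0) (cs (lf (nat_lit 5) (nat_lit 162)) (nd (nat_lit 121) (nat_lit 0) (cs (lf (nat_lit 37) (nat_lit 120)) (rf (nat_lit 2))))))))))) q35557 (by decide +kernel)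
def q35567 : Q := Q.p (nat_lit 0x10000040000100000400000000000000000000000000000000000) (nat_lit 0x200000800002000000000000000380000e000028000000000000000000) (nat_lit 6)
theorem c35567 : QOK q35567 := cut [q11202] ⟨c11202, trivial⟩ (nd (nat_lit 207) (nat_lit 0) (cs (lf (nat_lit 41) (nat_lit 141)) (nd (nat_lit 120) (nat_lit 0) (cs (lf (nat_lit 40) (nat_lit 119)) (rf (nat_lit 0)))))) q35567 (by decide +kernel)
def q35574 : Q := Q.p (nat_lit 0x100000400001c0000500000000000000000000000000000000000) (nat_lit 0x300000e0001a0000000000200000c00000000000000000000000000000) (nat_lit 6)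
theorem c35574 : QOK q35574 := cut [q35571] ⟨c35571, trivial⟩ (nd (nat_lit 141) (nat_lit 0) (cs (lf (nat_lit 47) (nat_lit 119)) (nd (nat_lit 207) (nat_lit 0) (cs (lf (nat_lit 41) (nat_lit 141)) (nd (nat_lit 185) (nat_lit 0) (cs (lf (nat_lit 47) (nat_lit 118)) (rf (nat_lit 0)))))))) q35574 (by decide +kernel)
def q35577 : Q := Q.p (nat_lit 0x40000180000400001000000000000000000000000000000) (nat_lit 0x20000200000e000038000020000000000000) (nat_lit 5)
theorem c35577 : QOK q35577 := cut [q32286] ⟨c32286, trivial⟩ (nd (nat_lit 99) (nat_lit 0) (cs (lf (nat_lit 34) (nat_lit 98)) (nd (nat_lit 98) (nat_lit 0) (cs (lf (nat_lit 35) (nat_lit 76)) (rf (nat_lit 0)))))) q35577 (by decide +kernel)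
def q35597 : Q := Q.p (nat_lit 0x10000040000100000400000000000000000000000000000000000) (nat_lit 0x20000080000a000020000080000180000e000038000080000000000000) (nat_lit 8)
theorem c35597 : QOK q35597 := cut [q35595] ⟨c35595, trivial⟩ (nd (nat_lit 207) (nat_lit 0) (cs (lf (nat_lit 41) (nat_lit 141)) (nd (nat_lit 120) (nat_lit 0) (cs (lf (nat_lit 40) (nat_lit 119)) (rf (nat_lit 0)))))) q35597 (by decide +kernel)
def q35603 : Q := Q.p (nat_lit 0x100000400001c0000400000000000000000000000000000000000) (nat_lit 0x300000e0001a0000200001bc0001400000000000000000000000000000) (nat_lit 9)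
theorem c35603 : QOK q35603 := cut [q4505] ⟨c4505, trivial⟩ (nd (nat_lit 207) (nat_lit 0) (cs (lf (nat_lit 41) (nat_lit 141)) (nd (nat_lit 185) (nat_lit 0) (cs (lf (nat_lit 36) (nat_lit 119)) (nd (nat_lit 187) (nat_lit 0) (cs (lf (nat_lit 18) (nat_lit 162)) (nd (nat_lit 206) (nat_lit 0) (cs (lf (nat_lit 12) (nat_lit 183)) (nd (nat_lit 141) (nat_lit 0) (cs (lf (nat_lit 41) (nat_lit 140)) (nd (nat_lit 143) (nat_lit 0) (cs (lf (nat_lit 6) (nat_lit 140)) (rf (nat_lit 0)))))))))))))) q35603 (by decide +kernel)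
def q35613 : Q := Q.p (nat_lit 0x10000040000140000400000000000000000000000000000000000) (nat_lit 0x2a0003800002000000000000000000000000000000) (nat_lit 4)
theorem c35613 : QOK q35613 := cut [q6148] ⟨c6148, trivial⟩ (nd (nat_lit 143) (nat_lit 0) (cs (lf (nat_lit 35) (nat_lit 120)) (rf (nat_lit 0)))) q35613 (by decide +kernel)
def q35634 : Q := Q.p (nat_lit 0x10000040000140000400000000000000000000000000000000000) (nat_lit 0x20000080000a00000b000020000380000c000030000000000000000000) (nat_lit 8)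
theorem c35634 : QOK q35634 := cut [q35631] ⟨c35631, trivial⟩ (nd (nat_lit 141) (nat_lit 0) (cs (lf (nat_lit 47) (nat_lit 119)) (nd (nat_lit 207) (nat_lit 0) (cs (lf (nat_lit 41) (nat_lit 141)) (nd (nat_lit 120) (nat_lit 0) (cs (lf (nat_lit 40) (nat_lit 119)) (rf (nat_lit 0)))))))) q35634 (by decide +kernel)
def q35639 : Q := Q.p (nat_lit 0x40000e00000000000000000000000000000000000) (nat_lit 0xc8000300001dc00000000000000000000000000000) (nat_lit 6)
theorem c35639 : QOK q35639 := cut [q16668] ⟨c16668, trivial⟩ (nd (nat_lit 144) (nat_lit 0) (cs (lf (nat_lit 10) (nat_lit 140)) (nd (nat_lit 166) (nat_lit 0) (cs (lf (nat_lit 5) (nat_lit 141)) (rf (nat_lit 0)))))) q35639 (by decide +kernel)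
def q35640 : Q := Q.p (nat_lit 0x10000040000040000e00000000000000000000000000000000000) (nat_lit 0x80000620000100006000000000000000000000000000000) (nat_lit 4)
theorem c35640 : QOK q35640 := cut [q33513] ⟨c33513, trivial⟩ (nd (nat_lit 140) (nat_lit 0) (cs (lf (nat_lit 11) (nat_lit 139)) (rf (nat_lit 0)))) q35640 (by decide +kernel)
def q35660 : Q := Q.p (nat_lit 0x10000040000040000c00000000000000000000000000000000000) (nat_lit 0x3a0003000002000000000000000000000000000000) (nat_lit 4)
theorem c35660 : QOK q35660 := cut [q6148] ⟨c6148, trivial⟩ (nd (nat_lit 164) (nat_lit 0) (cs (lf (nat_lit 35) (nat_lit 120)) (rf (nat_lit 0)))) q35660 (by decide +kernel)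
def q35673 : Q := Q.p (nat_lit 0x10000040000040000100000c00000000000000000000000000000) (nat_lit 0x280000e000098000000000000000000002000000000000000000000000) (nat_lit 5)
theorem c35673 : QOK q35673 := cut [q35419] ⟨c35419, trivial⟩ (nd (nat_lit 184) (nat_lit 0) (cs (lf (nat_lit 35) (nat_lit 96)) (rf (nat_lit 0)))) q35673 (by decide +kernel)
def q35683 : Q := Q.p (nat_lit 0x10000040000040000100000400001000000000000000000000000) (nat_lit 0x280000e000098000000000000000800002000008000000000000000000) (nat_lit 6)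
theorem c35683 : QOK q35683 := cut [q35419] ⟨c35419, trivial⟩ (nd (nat_lit 97) (nat_lit 0) (cs (lf (nat_lit 35) (nat_lit 74)) (nd (nat_lit 184) (nat_lit 0) (cs (lf (nat_lit 34) (nat_lit 96)) (rf (nat_lit 0)))))) q35683 (by decide +kernel)
def q35845 : Q := Q.p (nat_lit 0x40000100000400001200000000000000000000000) (nat_lit 0xd00003c0001f0000bc0000f80009c000010000dc00037000094000000) (nat_lit 11)
theorem c35845 : QOK q35845 := cut [q35408, q35757, q35784, q35788, q34111, q35808, q35719] ⟨c35408, c35757, c35784, c35788, c34111, c35808, c35719, trivial⟩ (nd (nat_lit 161) (nat_lit 0) (cs (rf (nat_lit 0)) (nd (nat_lit 137) (nat_lit 0) (cs (nd (nat_lit 139) (nat_lit 0) (cs (lf (nat_lit 36) (nat_lit 73)) (nd (nat_lit 138) (nat_lit 0) (cs (lf (nat_lit 0) (nat_lit 136)) (lf (nat_lit 17) (nat_lit 115)))))) (cs (nd (nat_lit 139) (nat_lit 0) (cs (lf (nat_lit 36) (nat_lit 73)) (rf (nat_lit 1)))) (cs (nd (nat_lit 159) (nat_lit 0) (cs (nd (nat_lit 160) (nat_lit 0) (cs (lf (nat_lit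 23) (nat_lit 136)) (rf (nat_lit 2)))) (cs (nd (nat_lit 139) (nat_lit 0) (cs (lf (nat_lit 36) (nat_lit 73)) (nd (nat_lit 160) (nat_lit 0) (cs (lf (nat_lit 12) (nat_lit 136)) (rf (nat_lit 3)))))) (cs (nd (nat_lit 74) (nat_lit 0) (cs (lf (nat_lit 40) (nat_lit 73)) (nd (nat_lit 53) (nat_lit 0) (cs (lf (nat_lit 34) (nat_lit 52)) (nd (nat_lit 31) (nat_lit 0) (cs (lf (nat_lit 33) (nat_lit 30)) (nd (nat_lit 160) (nat_lit 0) (cs (lf (nat_lit 23) (nat_lit 136)) (rf (nat_lit 3)))))))))) (cs (nd (nat_lit 115) (nat_lit 0) (cs (nd (nat_lit 158) (nat_lit 0) (cs (lf (nat_lit 41) (nat_lit 92)) (nd (nat_lit 71) (nat_lit 0) (cs (rf (nat_lit 4)) (lf (nat_lit 40) (nat_lit 70)))))) (cs (nd (nat_lit 74) (nat_lit 0) (cs (lf (nat_lit 40) (nat_lit 73)) (nd (nat_lit 158) (nat_lit 0) (cs (lf (nat_lit 41) (nat_lit 92)) (nd (nat_lit 71) (nat_lit 0) (cs (lf (nat_lit 40) (nat_lit 70)) (nd (nat_lit 50) (nat_lit 0) (cs (nd (nat_lit 49) (nat_lit 0) (cs (nd (nat_lit 48) (nat_lit 0) (cs (lf (nat_lit 47)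 (nat_lit 26)) (lf (nat_lit 46) (nat_lit 48)))) (lf (nat_lit 35) (nat_lit 27)))) (lf (nat_lit 34) (nat_lit 49)))))))))) (cs (nd (nat_lit 74) (nat_lit 0) (cs (lf (nat_lit 40) (nat_lit 73)) (nd (nat_lit 92) (nat_lit 0) (cs (lf (nat_lit 47) (nat_lit 70)) (nd (nat_lit 181) (nat_lit 0) (cs (lf (nat_lit 46) (nat_lit 92)) (nd (nat_lit 202) (nat_lit 0) (cs (lf (nat_lit 40) (nat_lit 114)) (nd (nat_lit 203) (nat_lit 0) (cs (lf (nat_lit 41) (nat_lit 136)) (rf (nat_lit 5)))))))))))) (cs (nd (nat_lit 74) (nat_lit 0) (cs (lf (nat_lit 40) (nat_lit 73)) (nd (nat_lit 70) (nat_lit 0) (cs (lf (nat_lit 46) (nat_lit 70)) (nd (nat_lit 71) (nat_lit 0) (cs (lf (nat_lit 47) (nat_lit 48)) (nd (nat_lit 50) (nat_lit 0) (cs (lf (nat_lit 34) (nat_lit 49)) (nd (nat_lit 136) (nat_lit 0) (cs (nd (nat_lit 49) (nat_lit 0) (cs (lf (nat_lit 35) (nat_lit 27)) (lf (nat_lit 40) (nat_lit 48)))) (lf (nat_lit 41) (nat_lit 70)))))))))))) (nd (nat_lit 74) (nat_lit 0) (cs (lf (nat_lit 40) (nat_lit 73)) (nd (nat_lit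 180) (nat_lit 0) (cs (lf (nat_lit 40) (nat_lit 92)) (nd (nat_lit 181) (nat_lit 0) (cs (lf (nat_lit 41) (nat_lit 114)) (nd (nat_lit 114) (nat_lit 0) (cs (lf (nat_lit 47) (nat_lit 92)) (nd (nat_lit 203) (nat_lit 0) (cs (lf (nat_lit 46) (nat_lit 114)) (rf (nat_lit 5))))))))))))))))) (nd (nat_lit 139) (nat_lit 0) (cs (lf (nat_lit 36) (nat_lit 73)) (rf (nat_lit 6))))))))) (nd (nat_lit 160) (nat_lit 0) (cs (nd (nat_lit 136) (nat_lit 0) (cs (lf (nat_lit 21) (nat_lit 136)) (nd (nat_lit 138) (nat_lit 0) (cs (lf (nat_lit 18) (nat_lit 137)) (lf (nat_lit 0) (nat_lit 135)))))) (cs (nd (nat_lit 138) (nat_lit 0) (cs (lf (nat_lit 18) (nat_lit 137)) (nd (nat_lit 135) (nat_lit 0) (cs (nd (nat_lit 115) (nat_lit 0) (cs (lf (nat_lit 24) (nat_lit 71)) (nd (nat_lit 182) (nat_lit 0) (cs (lf (nat_lit 42) (nat_lit 115)) (lf (nat_lit 45) (nat_lit 93)))))) (lf (nat_lit 1) (nat_lit 135)))))) (cs (nd (nat_lit 138) (nat_lit 0) (cs (lf (nat_lit 18) (nat_lit 137)) (nd (nat_lit 115) (nat_lit 0) (cs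 (lf (nat_lit 24) (nat_lit 71)) (nd (nat_lit 182) (nat_lit 0) (cs (lf (nat_lit 45) (nat_lit 93)) (lf (nat_lit 27) (nat_lit 93)))))))) (nd (nat_lit 159) (nat_lit 0) (cs (lf (nat_lit 23) (nat_lit 136)) (rf (nat_lit 2)))))))))))))) q35845 (by decide +kernel)
def q35855 : Q := Q.p (nat_lit 0x10000040000040000100000400000800000000000000000000000) (nat_lit 0x280000e000098000000000000000200000000000000000000000000000) (nat_lit 5)
theorem c35855 : QOK q35855 := cut [q35419] ⟨c35419, trivial⟩ (nd (nat_lit 184) (nat_lit 0) (cs (lf (nat_lit 46) (nat_lit 95)) (rf (nat_lit 0)))) q35855 (by decide +kernel)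
def q35867 : Q := Q.p (nat_lit 0x40000780000000000000000000000000000000000) (nat_lit 0x10000030000000000300000800002000000000000000000) (nat_lit 4)
theorem c35867 : QOK q35867 := cut [q35866] ⟨c35866, trivial⟩ (nd (nat_lit 117) (nat_lit 0) (cs (lf (nat_lit 23) (nat_lit 116)) (rf (nat_lit 0)))) q35867 (by decide +kernel)
def q35890 : Q := Q.p (nat_lit 0x40000780000000000000000000000000000000000) (nat_lit 0x4000010000000000000003700000800002000000000000000000) (nat_lit 5)
theorem c35890 : QOK q35890 := cut [q35888] ⟨c35888, trivial⟩ (nd (nat_lit 117) (nat_lit 0) (cs (lf (nat_lit 23) (nat_lit 116)) (nd (nat_lit 120) (nat_lit 0) (cs (lf (nat_lit 17) (nat_lit 117)) (rf (nat_lit 0)))))) q35890 (by decide +kernel)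
def q35896 : Q := Q.p (nat_lit 0x40000700000a00000000000000000000000000000) (nat_lit 0x9c0000e0001100000800002000000000000000000) (nat_lit 6)
theorem c35896 : QOK q35896 := cut [q35894] ⟨c35894, trivial⟩ (nd (nat_lit 139) (nat_lit 0) (cs (lf (nat_lit 23) (nat_lit 116)) (nd (nat_lit 73) (nat_lit 0) (cs (lf (nat_lit 25) (nat_lit 73)) (rf (nat_lit 0)))))) q35896 (by decide +kernel)
def q35964 : Q := Q.p (nat_lit 0x40000780000000000000000000000000000000000) (nat_lit 0xb80000600001c0000000000000000000000000000) (nat_lit 5)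
theorem c35964 : QOK q35964 := cut [q35962] ⟨c35962, trivial⟩ (nd (nat_lit 160) (nat_lit 0) (cs (lf (nat_lit 10) (nat_lit 138)) (nd (nat_lit 138) (nat_lit 0) (cs (lf (nat_lit 11) (nat_lit 137)) (rf (nat_lit 0)))))) q35964 (by decide +kernel)
def q35975 : Q := Q.p (nat_lit 0x400001c0000200000000000000000000000000000) (nat_lit 0x800000300004e0000000000000000000000000000) (nat_lit 4)
theorem c35975 : QOK q35975 := cut [q35974] ⟨c35974, trivial⟩ (nd (nat_lit 137) (nat_lit 0) (cs (lf (nat_lit 5) (nat_lit 137)) (rf (nat_lit 0)))) q35975 (by decide +kernel)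
def q35996 : Q := Q.p (nat_lit 0x40000700000000000000000000000000000000000) (nat_lit 0x60000180000b80000c0003f8000f00001c000050000000000000) (nat_lit 10)
theorem c35996 : QOK q35996 := cut [q6479, q9145, q34441, q34368] ⟨c6479, c9145, c34441, c34368, trivial⟩ (nd (nat_lit 139) (nat_lit 0) (cs (rf (nat_lit 0)) (cs (rf (nat_lit 1)) (cs (rf (nat_lit 2)) (nd (nat_lit 118) (nat_lit 0) (cs (rf (nat_lit 3)) (cs (nd (nat_lit 117) (nat_lit 0) (cs (lf (nat_lit 23) (nat_lit 116)) (nd (nat_lit 120) (nat_lit 0) (cs (lf (nat_lit 17) (nat_lit 117)) (nd (nat_lit 184) (nat_lit 0) (cs (lf (nat_lit 42) (nat_lit 117)) (nd (nat_lit 97) (nat_lit 0) (cs (lf (nat_lit 34) (nat_lit 96)) (nd (nat_lit 96) (nat_lit 0) (cs (lf (nat_lit 35) (nat_lit 74)) (nd (nat_lit 74) (nat_lit 0) (cs (lf (nat_lit 36) (nat_lit 51)) (lf (nat_lit 29) (nat_lit 74)))))))))))))) (nd (nat_lit 117) (nat_lit 0) (cs (lf (nat_lit 23) (nat_lit 116)) (nd (nat_lit 160) (nat_lit 0) (cs (lf (nat_lit 10) (nat_lit 138)) (nd (nat_lit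 184) (nat_lit 0) (cs (lf (nat_lit 42) (nat_lit 117)) (nd (nat_lit 119) (nat_lit 0) (cs (lf (nat_lit 35) (nat_lit 96)) (nd (nat_lit 120) (nat_lit 0) (cs (lf (nat_lit 6) (nat_lit 117)) (nd (nat_lit 98) (nat_lit 0) (cs (lf (nat_lit 17) (nat_lit 95)) (nd (nat_lit 76) (nat_lit 0) (cs (lf (nat_lit 41) (nat_lit 75)) (lf (nat_lit 36) (nat_lit 53))))))))))))))))))))))) q35996 (by decide +kernel)
def q36011 : Q := Q.p (nat_lit 0xe0000400000000000000000000000000000000000) (nat_lit 0x7000018000270000000000000000000000000000000000) (nat_lit 5)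
theorem c36011 : QOK q36011 := cut [q6338] ⟨c6338, trivial⟩ (nd (nat_lit 160) (nat_lit 0) (cs (lf (nat_lit 16) (nat_lit 138)) (rf (nat_lit 0)))) q36011 (by decide +kernel)
def q36068 : Q := Q.p (nat_lit 0x2000040000140000100000000000000000000000000000000000) (nat_lit 0x20000080000400009c0000a000000000040000380000e000028000000000000) (nat_lit 7)
theorem c36068 : QOK q36068 := cut [q36032, q7284] ⟨c36032, c7284, trivial⟩ (nd (nat_lit 183) (nat_lit 0) (cs (rf (nat_lit 0)) (cs (nd (nat_lit 118) (nat_lit 0) (cs (lf (nat_lit 39) (nat_lit 117)) (nd (nat_lit 96) (nat_lit 0) (cs (lf (nat_lit 40) (nat_lit 95)) (nd (nat_lit 73) (nat_lit 0) (cs (lf (nat_lit 46) (nat_lit 73)) (nd (nat_lit 75) (nat_lit 0) (cs (lf (nat_lit 34) (nat_lit 74)) (nd (nat_lit 74) (nat_lit 0) (cs (lf (nat_lit 47) (nat_lit 51)) (lf (nat_lit 35) (nat_lit 52)))))))))))) (nd (nat_lit 184) (nat_lit 0) (cs (lf (nat_lit 36) (nat_lit 117)) (rf (nat_lit 1))))))) q36068 (by decide +kernel)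
def q36078 : Q := Q.p (nat_lit 0x10000040000140000400001000000000000000000000000000000) (nat_lit 0x200000e0003800002a000020000200000e000038000020000000000000) (nat_lit 10)
theorem c36078 : QOK q36078 := cut [q35621] ⟨c35621, trivial⟩ (nd (nat_lit 99) (nat_lit 0) (cs (lf (nat_lit 34) (nat_lit 98)) (nd (nat_lit 98) (nat_lit 0) (cs (lf (nat_lit 35) (nat_lit 76)) (nd (nat_lit 207) (nat_lit 0) (cs (lf (nat_lit 41) (nat_lit 141)) (rf (nat_lit 0)))))))) q36078 (by decide +kernel)
def q36095 : Q := Q.p (nat_lit 0x1a000040000000000000000000000000000000000000000) (nat_lit 0xe000050000a0000000000000000000000000000000000000000) (nat_lit 4)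
theorem c36095 : QOK q36095 := cut [q36094] ⟨c36094, trivial⟩ (nd (nat_lit 182) (nat_lit 0) (cs (lf (nat_lit 17) (nat_lit 159)) (rf (nat_lit 0)))) q36095 (by decide +kernel)
def q36142 : Q := Q.p (nat_lit 0x780000000000000000000000000000000000) (nat_lit 0x39c0000600001c0000000000000000000000000000) (nat_lit 6)
theorem c36142 : QOK q36142 := cut [q17716] ⟨c17716, trivial⟩ (nd (nat_lit 164) (nat_lit 0) (cs (lf (nat_lit 5) (nat_lit 139)) (nd (nat_lit 138) (nat_lit 0) (cs (rf (nat_lit 0)) (lf (nat_lit 4) (nat_lit 138)))))) q36142 (by decide +kernel)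
def q36157 : Q := Q.p (nat_lit 0x780000200000000000000000000000000000) (nat_lit 0x39c0000700004e0000000000000000000000000000) (nat_lit 7)
theorem c36157 : QOK q36157 := cut [q35974] ⟨c35974, trivial⟩ (nd (nat_lit 164) (nat_lit 0) (cs (lf (nat_lit 5) (nat_lit 139)) (nd (nat_lit 138) (nat_lit 0) (cs (lf (nat_lit 4) (nat_lit 138)) (nd (nat_lit 159) (nat_lit 0) (cs (lf (nat_lit 10) (nat_lit 137)) (nd (nat_lit 137) (nat_lit 0) (cs (lf (nat_lit 11) (nat_lit 136)) (rf (nat_lit 0)))))))))) q36157 (by decide +kernel)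
def q36162 : Q := Q.p (nat_lit 0x10000040000040000700000000000000000000000000000000000) (nat_lit 0x4000010000180000000000800002000008000000000000000000) (nat_lit 4)
theorem c36162 : QOK q36162 := cut [q9072] ⟨c9072, trivial⟩ (nd (nat_lit 119) (nat_lit 0) (cs (lf (nat_lit 44) (nat_lit 119)) (rf (nat_lit 0)))) q36162 (by decide +kernel)
def q36163 : Q := Q.p (nat_lit 0x10000040000000000700000000000000000000000000000000000) (nat_lit 0x3800000c0000b80000000000000000000000000000) (nat_lit 5)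
theorem c36163 : QOK q36163 := cut [q18377] ⟨c18377, trivial⟩ (nd (nat_lit 164) (nat_lit 0) (cs (lf (nat_lit 47) (nat_lit 119)) (rf (nat_lit 0)))) q36163 (by decide +kernel)
def q36164 : Q := Q.p (nat_lit 0x10000040000040000700000000000000000000000000000000000) (nat_lit 0x4000010000100000000000c00002000008000000000000000000) (nat_lit 4)
theorem c36164 : QOK q36164 := cut [q35906] ⟨c35906, trivial⟩ (nd (nat_lit 119) (nat_lit 0) (cs (lf (nat_lit 44) (nat_lit 119)) (rf (nat_lit 0)))) q36164 (by decide +kernel)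
def q36168 : Q := Q.p (nat_lit 0x40000780000000000000000000000000000000000) (nat_lit 0x1b8000060000000000000000000000000000000000) (nat_lit 4)
theorem c36168 : QOK q36168 := cut [q27364] ⟨c27364, trivial⟩ (nd (nat_lit 160) (nat_lit 0) (cs (lf (nat_lit 10) (nat_lit 138)) (rf (nat_lit 0)))) q36168 (by decide +kernel)
def q36175 : Q := Q.p (nat_lit 0x580000200000000000000000000000000000) (nat_lit 0x3b8000240003100000000000000000000000000000) (nat_lit 6)
theorem c36175 : QOK q36175 := cut [q36172] ⟨c36172, trivial⟩ (nd (nat_lit 141) (nat_lit 0) (cs (lf (nat_lit 23) (nat_lit 116)) (nd (nat_lit 120) (nat_lit 0) (cs (lf (nat_lit 17) (nat_lit 117)) (nd (nat_lit 164) (nat_lit 0) (cs (lf (nat_lit 5) (nat_lit 139)) (rf (nat_lit 0)))))))) q36175 (by decide +kernel)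
def q36186 : Q := Q.p (nat_lit 0x40000160000180000000000000000000000000000000000) (nat_lit 0x200008c000080000000000400001000000000000000000000000) (nat_lit 4)
theorem c36186 : QOK q36186 := cut [q32545] ⟨c32545, trivial⟩ (nd (nat_lit 163) (nat_lit 0) (cs (lf (nat_lit 5) (nat_lit 161)) (rf (nat_lit 0)))) q36186 (by decide +kernel)
def q36199 : Q := Q.p (nat_lit 0x10000040000040000780000000000000000000000000000000000) (nat_lit 0x20000080000000003ae0000700031c0000000000000000000000000000) (nat_lit 9)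
theorem c36199 : QOK q36199 := cut [q36195] ⟨c36195, trivial⟩ (nd (nat_lit 164) (nat_lit 0) (cs (lf (nat_lit 5) (nat_lit 139)) (nd (nat_lit 207) (nat_lit 0) (cs (lf (nat_lit 41) (nat_lit 141)) (nd (nat_lit 120) (nat_lit 0) (cs (lf (nat_lit 17) (nat_lit 117)) (nd (nat_lit 138) (nat_lit 0) (cs (lf (nat_lit 4) (nat_lit 138)) (rf (nat_lit 0)))))))))) q36199 (by decide +kernel)
def q36212 : Q := Q.p (nat_lit 0x10000040000040000780000000000000000000000000000000000) (nat_lit 0x380000e00009800033e0000700031c0000400001000000000000000000) (nat_lit 12)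
theorem c36212 : QOK q36212 := cut [q17716, q33796, q36195, q36203] ⟨c17716, c33796, c36195, c36203, trivial⟩ (nd (nat_lit 138) (nat_lit 0) (cs (rf (nat_lit 0)) (cs (rf (nat_lit 1)) (cs (rf (nat_lit 2)) (nd (nat_lit 164) (nat_lit 0) (cs (lf (nat_lit 5) (nat_lit 139)) (nd (nat_lit 161) (nat_lit 0) (cs (lf (nat_lit 11) (nat_lit 138)) (nd (nat_lit 207) (nat_lit 0) (cs (lf (nat_lit 41) (nat_lit 141)) (nd (nat_lit 136) (nat_lit 0) (cs (lf (nat_lit 1) (nat_lit 136)) (nd (nat_lit 116) (nat_lit 0) (cs (lf (nat_lit 23) (nat_lit 115)) (nd (nat_lit 120) (nat_lit 0) (cs (lf (nat_lit 17) (nat_lit 117)) (nd (nat_lit 72) (nat_lit 0) (cs (rf (nat_lit 3)) (lf (nat_lit 25) (nat_lit 72)))))))))))))))))))) q36212 (by decide +kernel)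
def q36345 : Q := Q.p (nat_lit 0x400001c0000000000000000000000000000000000) (nat_lit 0xa00000300000e0000000000000000000000000000) (nat_lit 4)
theorem c36345 : QOK q36345 := cut [q17722] ⟨c17722, trivial⟩ (nd (nat_lit 137) (nat_lit 0) (cs (rf (nat_lit 0)) (lf (nat_lit 5) (nat_lit 137)))) q36345 (by decide +kernel)
def q36367 : Q := Q.p (nat_lit 0x10000040000000000700000000000000000000000000000000000) (nat_lit 0x3b80000c0000800000000000000000000000000000) (nat_lit 5)
theorem c36367 : QOK q36367 := cut [q18362] ⟨c18362, trivial⟩ (nd (nat_lit 164) (nat_lit 0) (cs (lf (nat_lit 47) (nat_lit 119)) (rf (nat_lit 0)))) q36367 (by decide +kernel)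
def q36383 : Q := Q.p (nat_lit 0x10000040000040000780000000000000000000000000000000000) (nat_lit 0x200000a00008c0003a0000040003400005000010000000000000000000) (nat_lit 9)
theorem c36383 : QOK q36383 := cut [q32545] ⟨c32545, trivial⟩ (nd (nat_lit 164) (nat_lit 0) (cs (lf (nat_lit 5) (nat_lit 139)) (nd (nat_lit 163) (nat_lit 0) (cs (lf (nat_lit 0) (nat_lit 138)) (nd (nat_lit 207) (nat_lit 0) (cs (lf (nat_lit 41) (nat_lit 141)) (nd (nat_lit 120) (nat_lit 0) (cs (lf (nat_lit 17) (nat_lit 117)) (nd (nat_lit 76) (nat_lit 0) (cs (lf (nat_lit 37) (nat_lit 75)) (nd (nat_lit 161) (nat_lit 0) (cs (lf (nat_lit 5) (nat_lit 161)) (rf (nat_lit 0)))))))))))))) q36383 (by decide +kernel)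
def q36476 : Q := Q.p (nat_lit 0x700000800006000000000000000000000000) (nat_lit 0x100000f7000f98000f70001c0000700001400) (nat_lit 11)
theorem c36476 : QOK q36476 := cut [q36422, q36418] ⟨c36422, c36418, trivial⟩ (nd (nat_lit 99) (nat_lit 0) (cs (rf (nat_lit 0)) (cs (nd (nat_lit 96) (nat_lit 0) (cs (nd (nat_lit 73) (nat_lit 0) (cs (lf (nat_lit 22) (nat_lit 73)) (nd (nat_lit 121) (nat_lit 0) (cs (lf (nat_lit 5) (nat_lit 96)) (nd (nat_lit 95) (nat_lit 0) (cs (lf (nat_lit 23) (nat_lit 72)) (lf (nat_lit 4) (nat_lit 95)))))))) (cs (nd (nat_lit 121) (nat_lit 0) (cs (lf (nat_lit 5) (nat_lit 96)) (nd (nat_lit 117) (nat_lit 0) (cs (lf (nat_lit 10) (nat_lit 95)) (nd (nat_lit 73) (nat_lit 0) (cs (lf (nat_lit 22) (nat_lit 73)) (nd (nat_lit 77) (nat_lit 0) (cs (lf (nat_lit 17) (nat_lit 74)) (nd (nat_lit 55) (nat_lit 0) (cs (nd (nat_lit 34) (nat_lit 0) (cs (nd (nat_lit 33) (nat_lit 0) (cs (nd (nat_lit 32) (nat_lit 0) (cs (lf (nat_lit 47) (nat_lit 10)) (lf (nat_lit 46) (nat_lit 32))))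 (lf (nat_lit 35) (nat_lit 11)))) (lf (nat_lit 34) (nat_lit 33)))) (lf (nat_lit 40) (nat_lit 54)))))))))))) (nd (nat_lit 77) (nat_lit 0) (cs (lf (nat_lit 17) (nat_lit 74)) (nd (nat_lit 117) (nat_lit 0) (cs (lf (nat_lit 10) (nat_lit 95)) (nd (nat_lit 95) (nat_lit 0) (cs (lf (nat_lit 11) (nat_lit 94)) (lf (nat_lit 16) (nat_lit 73))))))))))) (cs (nd (nat_lit 122) (nat_lit 0) (cs (nd (nat_lit 121) (nat_lit 0) (cs (lf (nat_lit 0) (nat_lit 96)) (lf (nat_lit 8) (nat_lit 118)))) (cs (nd (nat_lit 100) (nat_lit 0) (cs (lf (nat_lit 5) (nat_lit 97)) (nd (nat_lit 78) (nat_lit 0) (cs (lf (nat_lit 17) (nat_lit 75)) (nd (nat_lit 77) (nat_lit 0) (cs (lf (nat_lit 12) (nat_lit 74)) (rf (nat_lit 1)))))))) (nd (nat_lit 120) (nat_lit 0) (cs (nd (nat_lit 100) (nat_lit 0) (cs (lf (nat_lit 5) (nat_lit 97)) (lf (nat_lit 6) (nat_lit 97)))) (lf (nat_lit 7) (nat_lit 118))))))) (cs (nd (nat_lit 100) (nat_lit 0) (cs (lf (nat_lit 11) (nat_lit 96)) (nd (nat_lit 78) (nat_lit 0) (cs (lf (nat_lit 17)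 (nat_lit 75)) (nd (nat_lit 77) (nat_lit 0) (cs (lf (nat_lit 12) (nat_lit 74)) (nd (nat_lit 101) (nat_lit 0) (cs (lf (nat_lit 10) (nat_lit 97)) (nd (nat_lit 102) (nat_lit 0) (cs (lf (nat_lit 23) (nat_lit 76)) (lf (nat_lit 18) (nat_lit 77)))))))))))) (nd (nat_lit 100) (nat_lit 0) (cs (lf (nat_lit 11) (nat_lit 96)) (nd (nat_lit 122) (nat_lit 0) (cs (lf (nat_lit 5) (nat_lit 97)) (nd (nat_lit 120) (nat_lit 0) (cs (lf (nat_lit 6) (nat_lit 97)) (lf (nat_lit 7) (nat_lit 118))))))))))))) q36476 (by decide +kernel)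
def q36495 : Q := Q.p (nat_lit 0x10000040000040000780000000000000000000000000000000000) (nat_lit 0x280000f00009c000338000040003600000000000000000000000000000) (nat_lit 10)
theorem c36495 : QOK q36495 := cut [q35941] ⟨c35941, trivial⟩ (nd (nat_lit 205) (nat_lit 0) (cs (rf (nat_lit 0)) (cs (nd (nat_lit 120) (nat_lit 0) (cs (lf (nat_lit 17) (nat_lit 117)) (nd (nat_lit 164) (nat_lit 0) (cs (lf (nat_lit 5) (nat_lit 139)) (nd (nat_lit 207) (nat_lit 0) (cs (lf (nat_lit 41) (nat_lit 141)) (nd (nat_lit 206) (nat_lit 0) (cs (lf (nat_lit 17) (nat_lit 183)) (nd (nat_lit 184) (nat_lit 0) (cs (lf (nat_lit 41) (nat_lit 139)) (lf (nat_lit 47) (nat_lit 117)))))))))))) (nd (nat_lit 164) (nat_lit 0) (cs (lf (nat_lit 5) (nat_lit 139)) (nd (nat_lit 160) (nat_lit 0) (cs (lf (nat_lit 10) (nat_lit 138)) (nd (nat_lit 138) (nat_lit 0) (cs (lf (nat_lit 11) (nat_lit 137)) (nd (nat_lit 120) (nat_lit 0) (cs (lf (nat_lit 17) (nat_lit 117)) (nd (nat_lit 207) (nat_lit 0) (cs (lf (nat_lit 41) (nat_lit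 141)) (nd (nat_lit 206) (nat_lit 0) (cs (lf (nat_lit 17) (nat_lit 183)) (nd (nat_lit 182) (nat_lit 0) (cs (lf (nat_lit 22) (nat_lit 182)) (nd (nat_lit 117) (nat_lit 0) (cs (lf (nat_lit 43) (nat_lit 117)) (lf (nat_lit 30) (nat_lit 116))))))))))))))))))))) q36495 (by decide +kernel)
def q36504 : Q := Q.p (nat_lit 0x1e0000000000000000000000000000000000000000) (nat_lit 0xe0000100000e0000000000000000000000000000000000) (nat_lit 4)
theorem c36504 : QOK q36504 := cut [q6297] ⟨c6297, trivial⟩ (nd (nat_lit 138) (nat_lit 0) (cs (lf (nat_lit 22) (nat_lit 138)) (rf (nat_lit 0)))) q36504 (by decide +kernel)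
def q36514 : Q := Q.p (nat_lit 0x10000040000160000400000000000000000000000000000000000) (nat_lit 0x280000e00039f000280000100000400001000000000000000000000000) (nat_lit 8)
theorem c36514 : QOK q36514 := cut [q36031, q36010, q36506, q35249] ⟨c36031, c36010, c36506, c35249, trivial⟩ (nd (nat_lit 183) (nat_lit 0) (cs (rf (nat_lit 0)) (cs (nd (nat_lit 205) (nat_lit 0) (cs (rf (nat_lit 1)) (rf (nat_lit 2)))) (cs (nd (nat_lit 205) (nat_lit 0) (cs (rf (nat_lit 3)) (rf (nat_lit 2)))) (nd (nat_lit 207) (nat_lit 0) (cs (lf (nat_lit 41) (nat_lit 141)) (nd (nat_lit 182) (nat_lit 0) (cs (nd (nat_lit 180) (nat_lit 0) (cs (lf (nat_lit 13) (nat_lit 158)) (nd (nat_lit 205) (nat_lit 0) (cs (lf (nat_lit 20) (nat_lit 182)) (rf (nat_lit 2)))))) (lf (nat_lit 7) (nat_lit 160)))))))))) q36514 (by decide +kernel)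
def q36561 : Q := Q.p (nat_lit 0x12000040000100000400000000000000000000000000000000000) (nat_lit 0x2e0000d00008e000000000000000000000000000000000000000000000) (nat_lit 6)
theorem c36561 : QOK q36561 := cut [q3211] ⟨c3211, trivial⟩ (nd (nat_lit 207) (nat_lit 0) (cs (lf (nat_lit 41) (nat_lit 141)) (nd (nat_lit 206) (nat_lit 0) (cs (lf (nat_lit 17) (nat_lit 183)) (rf (nat_lit 0)))))) q36561 (by decide +kernel)
def q36563 : Q := Q.p (nat_lit 0x400005000004000060000000000000000000000000000000000000000) (nat_lit 0x1000000000010000010000180000200000800000000000000000000000) (nat_lit 4)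
theorem c36563 : QOK q36563 := cut [q12369] ⟨c12369, trivial⟩ (nd (nat_lit 139) (nat_lit 0) (cs (rf (nat_lit 0)) (lf (nat_lit 33) (nat_lit 138)))) q36563 (by decide +kernel)
def q36585 : Q := Q.p (nat_lit 0x12000048000160000400000000000000000000000000000000000) (nat_lit 0x240000900000600001c0001f00007c0001400000000000000000000000) (nat_lit 10)
theorem c36585 : QOK q36585 := cut [q8669, q34516, q36577, q36584] ⟨c8669, c34516, c36577, c36584, trivial⟩ (nd (nat_lit 139) (nat_lit 0) (cs (rf (nat_lit 0)) (cs (rf (nat_lit 1)) (cs (nd (nat_lit 138) (nat_lit 0) (cs (lf (nat_lit 47) (nat_lit 116)) (nd (nat_lit 137) (nat_lit 0) (cs (lf (nat_lit 0) (nat_lit 136)) (nd (nat_lit 204) (nat_lit 0) (cs (lf (nat_lit 41) (nat_lit 138)) (nd (nat_lit 207) (nat_lit 0) (cs (lf (nat_lit 41) (nat_lit 141)) (rf (nat_lit 2)))))))))) (rf (nat_lit 3)))))) q36585 (by decide +kernel)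
def q36593 : Q := Q.p (nat_lit 0x12000008000060000000000000000000000000000000000000000) (nat_lit 0x700003c000098000140000100000c0000100000000000000000000000000000) (nat_lit 7)
theorem c36593 : QOK q36593 := cut [q5260, q36587] ⟨c5260, c36587, trivial⟩ (nd (nat_lit 227) (nat_lit 0) (cs (rf (nat_lit 0)) (cs (rf (nat_lit 1)) (nd (nat_lit 228) (nat_lit 0) (cs (lf (nat_lit 29) (nat_lit 161)) (nd (nat_lit 184) (nat_lit 0) (cs (lf (nat_lit 30) (nat_lit 161)) (nd (nat_lit 226) (nat_lit 0) (cs (lf (nat_lit 41) (nat_lit 160)) (nd (nat_lit 229) (nat_lit 0) (cs (lf (nat_lit 16) (nat_lit 204)) (nd (nat_lit 204) (nat_lit 0) (cs (lf (nat_lit 36) (nat_lit 138)) (lf (nat_lit 23) (nat_lit 203))))))))))))))) q36593 (by decide +kernel)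
def q36607 : Q := Q.p (nat_lit 0x2000008000060000000000000000000000000000000000000000) (nat_lit 0x40000100000600001c0001f00007c0001400000000000000000000000) (nat_lit 9)
theorem c36607 : QOK q36607 := cut [q8669, q34516, q36584, q36606] ⟨c8669, c34516, c36584, c36606, trivial⟩ (nd (nat_lit 139) (nat_lit 0) (cs (rf (nat_lit 0)) (cs (rf (nat_lit 1)) (cs (rf (nat_lit 2)) (rf (nat_lit 3)))))) q36607 (by decide +kernel)
def q36610 : Q := Q.p (nat_lit 0x2000008000060000000000000000000000000000000000000000) (nat_lit 0x700001c000050000140000100000c0000000000000000000000000000000000) (nat_lit 5)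
theorem c36610 : QOK q36610 := cut [q36587, q36609] ⟨c36587, c36609, trivial⟩ (nd (nat_lit 227) (nat_lit 0) (cs (rf (nat_lit 0)) (rf (nat_lit 1)))) q36610 (by decide +kernel)
def q36626 : Q := Q.p (nat_lit 0x60000080000200000000000000000000000000000) (nat_lit 0x10000000000000000000001c00007000014000000000000) (nat_lit 5)
theorem c36626 : QOK q36626 := cut [q36625] ⟨c36625, trivial⟩ (nd (nat_lit 95) (nat_lit 0) (cs (lf (nat_lit 29) (nat_lit 95)) (rf (nat_lit 0)))) q36626 (by decide +kernel)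
def q36634 : Q := Q.p (nat_lit 0x10000040000160000480000200000000000000000000000000000) (nat_lit 0x2000008000008000000000100000c00001f00007000014000000000000) (nat_lit 7)
theorem c36634 : QOK q36634 := cut [q36535, q36630, q36633] ⟨c36535, c36630, c36633, trivial⟩ (nd (nat_lit 95) (nat_lit 0) (cs (rf (nat_lit 0)) (cs (nd (nat_lit 207) (nat_lit 0) (cs (lf (nat_lit 41) (nat_lit 141)) (rf (nat_lit 1)))) (rf (nat_lit 2))))) q36634 (by decide +kernel)
def q36683 : Q := Q.p (nat_lit 0x8000160000080000000000000000000000000000000000) (nat_lit 0x2000000000090000070000100000400001000000000000000000) (nat_lit 5)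
theorem c36683 : QOK q36683 := cut [q24100] ⟨c24100, trivial⟩ (nd (nat_lit 138) (nat_lit 0) (cs (lf (nat_lit 19) (nat_lit 138)) (nd (nat_lit 136) (nat_lit 0) (cs (lf (nat_lit 1) (nat_lit 136)) (rf (nat_lit 0)))))) q36683 (by decide +kernel)
def q36756 : Q := Q.p (nat_lit 0x10000040000160000480000200000000000000000000000000000) (nat_lit 0x200000900000c000010000100000100001c00007000014000000000000) (nat_lit 7)
theorem c36756 : QOK q36756 := cut [q36535, q36633, q36754] ⟨c36535, c36633, c36754, trivial⟩ (nd (nat_lit 95) (nat_lit 0) (cs (rf (nat_lit 0)) (cs (rf (nat_lit 1)) (nd (nat_lit 207) (nat_lit 0) (cs (lf (nat_lit 41) (nat_lit 141)) (rf (nat_lit 2))))))) q36756 (by decide +kernel)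
def q36787 : Q := Q.p (nat_lit 0x10000040000140000480003800000000000000000000000000000) (nat_lit 0x500001c0000700003c0000f00009e0000bc0001700005c0001000000000000000000000000) (nat_lit 11)
theorem c36787 : QOK q36787 := cut [q36718, q36735, q36717, q36025, q36515, q36725, q36506, q36606] ⟨c36718, c36735, c36717, c36025, c36515, c36725, c36506, c36606, trivial⟩ (nd (nat_lit 205) (nat_lit 0) (cs (nd (nat_lit 207) (nat_lit 0) (cs (lf (nat_lit 41) (nat_lit 141)) (nd (nat_lit 206) (nat_lit 0) (cs (lf (nat_lit 17) (nat_lit 183)) (nd (nat_lit 183) (nat_lit 0) (cs (lf (nat_lit 23) (nat_lit 182)) (rf (nat_lit 0)))))))) (cs (nd (nat_lit 183) (nat_lit 0) (cs (nd (nat_lit 118) (nat_lit 0) (cs (lf (nat_lit 10) (nat_lit 117)) (nd (nat_lit 207) (nat_lit 0) (cs (lf (nat_lit 41) (nat_lit 141)) (nd (nat_lit 206) (nat_lit 0) (cs (lf (nat_lit 23) (nat_lit 182)) (nd (nat_lit 227) (nat_lit 0) (cs (lf (nat_lit 11) (nat_lit 204)) (rf (nat_lit 1)))))))))) (cs (nd (nat_lit 207) (nat_lit 0) (cs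 (lf (nat_lit 41) (nat_lit 141)) (nd (nat_lit 206) (nat_lit 0) (cs (lf (nat_lit 23) (nat_lit 182)) (rf (nat_lit 0)))))) (nd (nat_lit 140) (nat_lit 0) (cs (lf (nat_lit 9) (nat_lit 117)) (nd (nat_lit 161) (nat_lit 0) (cs (lf (nat_lit 30) (nat_lit 139)) (rf (nat_lit 2))))))))) (cs (nd (nat_lit 140) (nat_lit 0) (cs (rf (nat_lit 3)) (lf (nat_lit 9) (nat_lit 117)))) (nd (nat_lit 161) (nat_lit 0) (cs (rf (nat_lit 4)) (cs (nd (nat_lit 118) (nat_lit 0) (cs (lf (nat_lit 10) (nat_lit 117)) (nd (nat_lit 163) (nat_lit 0) (cs (lf (nat_lit 5) (nat_lit 161)) (nd (nat_lit 183) (nat_lit 0) (cs (lf (nat_lit 11) (nat_lit 160)) (rf (nat_lit 5)))))))) (nd (nat_lit 183) (nat_lit 0) (cs (rf (nat_lit 6)) (cs (rf (nat_lit 7)) (rf (nat_lit 5)))))))))))) q36787 (by decide +kernel)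
def q36864 : Q := Q.p (nat_lit 0x10000040000000001c00000000000000000000000000000000000) (nat_lit 0x1c8000f80003e0000e00007f8000760000d0000100000000000000) (nat_lit 12)
theorem c36864 : QOK q36864 := cut [q36813, q9907] ⟨c36813, c9907, trivial⟩ (nd (nat_lit 145) (nat_lit 0) (cs (rf (nat_lit 0)) (cs (nd (nat_lit 168) (nat_lit 0) (cs (lf (nat_lit 4) (nat_lit 142)) (nd (nat_lit 146) (nat_lit 0) (cs (lf (nat_lit 5) (nat_lit 143)) (nd (nat_lit 125) (nat_lit 0) (cs (lf (nat_lit 16) (nat_lit 121)) (nd (nat_lit 147) (nat_lit 0) (cs (lf (nat_lit 17) (nat_lit 122)) (nd (nat_lit 165) (nat_lit 0) (cs (nd (nat_lit 121) (nat_lit 0) (cs (lf (nat_lit 39) (nat_lit 120)) (lf (nat_lit 22) (nat_lit 121)))) (lf (nat_lit 10) (nat_lit 143)))))))))))) (cs (nd (nat_lit 167) (nat_lit 0) (cs (lf (nat_lit 5) (nat_lit 142)) (nd (nat_lit 100) (nat_lit 0) (cs (nd (nat_lit 123) (nat_lit 0) (cs (lf (nat_lit 17) (nat_lit 120)) (nd (nat_lit 122) (nat_lit 0) (cs (lf (nat_lit 24) (nat_lit 78)) (lf (nat_lit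 42) (nat_lit 100)))))) (cs (nd (nat_lit 119) (nat_lit 0) (cs (lf (nat_lit 22) (nat_lit 119)) (nd (nat_lit 123) (nat_lit 0) (cs (lf (nat_lit 17) (nat_lit 120)) (nd (nat_lit 101) (nat_lit 0) (cs (lf (nat_lit 47) (nat_lit 78)) (nd (nat_lit 166) (nat_lit 0) (cs (lf (nat_lit 41) (nat_lit 100)) (lf (nat_lit 36) (nat_lit 78)))))))))) (cs (nd (nat_lit 122) (nat_lit 0) (cs (lf (nat_lit 24) (nat_lit 78)) (nd (nat_lit 189) (nat_lit 0) (cs (lf (nat_lit 42) (nat_lit 122)) (lf (nat_lit 27) (nat_lit 100)))))) (nd (nat_lit 119) (nat_lit 0) (cs (lf (nat_lit 22) (nat_lit 119)) (nd (nat_lit 123) (nat_lit 0) (cs (lf (nat_lit 17) (nat_lit 120)) (nd (nat_lit 189) (nat_lit 0) (cs (lf (nat_lit 46) (nat_lit 100)) (nd (nat_lit 190) (nat_lit 0) (cs (lf (nat_lit 29) (nat_lit 123)) (nd (nat_lit 188) (nat_lit 0) (cs (lf (nat_lit 41) (nat_lit 122)) (nd (nat_lit 187) (nat_lit 0) (cs (lf (nat_lit 11) (nat_lit 185)) (nd (nat_lit 165) (nat_lit 0) (cs (lf (nat_lit 36) (nat_lit 120)) (nd (nat_lit 166)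 (nat_lit 0) (cs (lf (nat_lit 36) (nat_lit 100)) (lf (nat_lit 18) (nat_lit 165)))))))))))))))))))))))) (cs (nd (nat_lit 123) (nat_lit 0) (cs (lf (nat_lit 17) (nat_lit 120)) (nd (nat_lit 120) (nat_lit 0) (cs (lf (nat_lit 23) (nat_lit 119)) (nd (nat_lit 121) (nat_lit 0) (cs (lf (nat_lit 18) (nat_lit 120)) (nd (nat_lit 165) (nat_lit 0) (cs (lf (nat_lit 39) (nat_lit 120)) (nd (nat_lit 98) (nat_lit 0) (cs (lf (nat_lit 24) (nat_lit 76)) (nd (nat_lit 122) (nat_lit 0) (cs (lf (nat_lit 23) (nat_lit 97)) (nd (nat_lit 78) (nat_lit 0) (cs (lf (nat_lit 37) (nat_lit 77)) (nd (nat_lit 101) (nat_lit 0) (cs (lf (nat_lit 17) (nat_lit 98)) (nd (nat_lit 79) (nat_lit 0) (cs (lf (nat_lit 47) (nat_lit 56)) (lf (nat_lit 41) (nat_lit 78)))))))))))))))))))) (nd (nat_lit 168) (nat_lit 0) (cs (lf (nat_lit 4) (nat_lit 142)) (nd (nat_lit 146) (nat_lit 0) (cs (lf (nat_lit 5) (nat_lit 143)) (rf (nat_lit 1))))))))))) q36864 (by decide +kernel)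
def q36901 : Q := Q.p (nat_lit 0x10000040000000000c00000000000000000000000000000000000) (nat_lit 0x180001f0000130000200001c000070000140000000000000) (nat_lit 7)
theorem c36901 : QOK q36901 := cut [q35041] ⟨c35041, trivial⟩ (nd (nat_lit 121) (nat_lit 0) (cs (lf (nat_lit 32) (nat_lit 120)) (nd (nat_lit 165) (nat_lit 0) (cs (lf (nat_lit 39) (nat_lit 120)) (nd (nat_lit 99) (nat_lit 0) (cs (rf (nat_lit 0)) (nd (nat_lit 166) (nat_lit 0) (cs (lf (nat_lit 29) (nat_lit 99)) (nd (nat_lit 141) (nat_lit 0) (cs (lf (nat_lit 0) (nat_lit 140)) (nd (nat_lit 167) (nat_lit 0) (cs (lf (nat_lit 3) (nat_lit 141)) (lf (nat_lit 18) (nat_lit 142)))))))))))))) q36901 (by decide +kernel)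
def q36904 : Q := Q.p (nat_lit 0x40000e00000000000000000000000000000000000) (nat_lit 0x1c8000300001c000000000000000000000000000000) (nat_lit 5)
theorem c36904 : QOK q36904 := cut [q36903] ⟨c36903, trivial⟩ (nd (nat_lit 144) (nat_lit 0) (cs (lf (nat_lit 10) (nat_lit 140)) (rf (nat_lit 0)))) q36904 (by decide +kernel)
def q37093 : Q := Q.p (nat_lit 0x1e0000080000000000000000000000000000000000) (nat_lit 0x400001c000200000000000200000800000000000000000000000) (nat_lit 4)
theorem c37093 : QOK q37093 := cut [q37092] ⟨c37092, trivial⟩ (nd (nat_lit 183) (nat_lit 0) (cs (lf (nat_lit 11) (nat_lit 160)) (rf (nat_lit 0)))) q37093 (by decide +kernel)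
def q37102 : Q := Q.p (nat_lit 0x160000680000000000000000000000000000000000) (nat_lit 0x10000200000100003300000800002000000000000000000) (nat_lit 5)
theorem c37102 : QOK q37102 := cut [q37100] ⟨c37100, trivial⟩ (nd (nat_lit 140) (nat_lit 0) (cs (lf (nat_lit 5) (nat_lit 139)) (nd (nat_lit 120) (nat_lit 0) (cs (lf (nat_lit 17) (nat_lit 117)) (rf (nat_lit 0)))))) q37102 (by decide +kernel)
def q37115 : Q := Q.p (nat_lit 0x8000060000080000200000000000000000000000000000) (nat_lit 0x300000c00007000010000000000040000100000400000000000000000000000) (nat_lit 6)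
theorem c37115 : QOK q37115 := cut [q36670] ⟨c36670, trivial⟩ (nd (nat_lit 184) (nat_lit 0) (cs (lf (nat_lit 29) (nat_lit 117)) (nd (nat_lit 116) (nat_lit 0) (cs (lf (nat_lit 47) (nat_lit 94)) (nd (nat_lit 205) (nat_lit 0) (cs (lf (nat_lit 46) (nat_lit 116)) (rf (nat_lit 0)))))))) q37115 (by decide +kernel)
def q37147 : Q := Q.p (nat_lit 0x60000080000200000000000000000000000000000) (nat_lit 0x14000010000040000000000c00003000004000000000000) (nat_lit 5)
theorem c37147 : QOK q37147 := cut [q37146] ⟨c37146, trivial⟩ (nd (nat_lit 95) (nat_lit 0) (cs (lf (nat_lit 29) (nat_lit 95)) (rf (nat_lit 0)))) q37147 (by decide +kernel)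
def q37149 : Q := Q.p (nat_lit 0x20000080000200000000000000000000000000000) (nat_lit 0x100000c000010000040000100001c00007000014000000000000) (nat_lit 6)
theorem c37149 : QOK q37149 := cut [q36549, q36625, q36754, q37146] ⟨c36549, c36625, c36754, c37146, trivial⟩ (nd (nat_lit 95) (nat_lit 0) (cs (rf (nat_lit 0)) (cs (rf (nat_lit 1)) (cs (rf (nat_lit 2)) (rf (nat_lit 3)))))) q37149 (by decide +kernel)
def q37168 : Q := Q.p (nat_lit 0x100000400001c0000400000000000000000000000000000000000) (nat_lit 0x2000008000380000220000000000000000000000000000000000000000) (nat_lit 4)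
theorem c37168 : QOK q37168 := cut [q37167] ⟨c37167, trivial⟩ (nd (nat_lit 207) (nat_lit 0) (cs (lf (nat_lit 41) (nat_lit 141)) (rf (nat_lit 0)))) q37168 (by decide +kernel)
def q37223 : Q := Q.p (nat_lit 0x12000008000020000000000000000000000000000000000000000) (nat_lit 0x500003c0000d0000000000100000c0000100000000000000000000000000000) (nat_lit 6)
theorem c37223 : QOK q37223 := cut [q5260, q36609, q37220] ⟨c5260, c36609, c37220, trivial⟩ (nd (nat_lit 227) (nat_lit 0) (cs (rf (nat_lit 0)) (cs (rf (nat_lit 1)) (cs (nd (nat_lit 138) (nat_lit 0) (cs (lf (nat_lit 46) (nat_lit 138)) (nd (nat_lit 228) (nat_lit 0) (cs (lf (nat_lit 29) (nat_lit 161)) (nd (nat_lit 139) (nat_lit 0) (cs (lf (nat_lit 47) (nat_lit 116)) (lf (nat_lit 28) (nat_lit 139)))))))) (nd (nat_lit 228) (nat_lit 0) (cs (lf (nat_lit 29) (nat_lit 161)) (nd (nat_lit 138) (nat_lit 0) (cs (lf (nat_lit 46) (nat_lit 138)) (rf (nat_lit 2)))))))))) q37223 (by decide +kernel)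
def q37239 : Q := Q.p (nat_lit 0x12000048000060000000000000000000000000000000000000000) (nat_lit 0x40000180000c0000840000100000f0000100000400000000000000000000000) (nat_lit 6)
theorem c37239 : QOK q37239 := cut [q35179, q35180, q37237] ⟨c35179, c35180, c37237, trivial⟩ (nd (nat_lit 138) (nat_lit 0) (cs (nd (nat_lit 116) (nat_lit 0) (cs (nd (nat_lit 160) (nat_lit 0) (cs (lf (nat_lit 42) (nat_lit 138)) (lf (nat_lit 24) (nat_lit 94)))) (lf (nat_lit 45) (nat_lit 116)))) (cs (nd (nat_lit 227) (nat_lit 0) (cs (lf (nat_lit 46) (nat_lit 138)) (nd (nat_lit 228) (nat_lit 0) (cs (lf (nat_lit 29) (nat_lit 161)) (nd (nat_lit 206) (nat_lit 0) (cs (lf (nat_lit 24) (nat_lit 139)) (rf (nat_lit 0)))))))) (cs (nd (nat_lit 139) (nat_lit 0) (cs (lf (nat_lit 47) (nat_lit 116)) (nd (nat_lit 136) (nat_lit 0) (cs (lf (nat_lit 1) (nat_lit 136)) (rf (nat_lit 1)))))) (nd (nat_lit 160) (nat_lit 0) (cs (lf (nat_lit 42) (nat_lit 138)) (rf (nat_lit 2)))))))) q37239 (by decide +kernel)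
def q37247 : Q := Q.p (nat_lit 0x12000048000020000000000000000000000000000000000000000) (nat_lit 0x500003c0000d000084000000000080000000000000000000000000000000000) (nat_lit 5)
theorem c37247 : QOK q37247 := cut [q35180, q37219] ⟨c35180, c37219, trivial⟩ (nd (nat_lit 226) (nat_lit 0) (cs (nd (nat_lit 139) (nat_lit 0) (cs (lf (nat_lit 40) (nat_lit 138)) (rf (nat_lit 0)))) (cs (nd (nat_lit 227) (nat_lit 0) (cs (lf (nat_lit 41) (nat_lit 160)) (nd (nat_lit 228) (nat_lit 0) (cs (lf (nat_lit 29) (nat_lit 161)) (rf (nat_lit 1)))))) (nd (nat_lit 248) (nat_lit 0) (cs (nd (nat_lit 204) (nat_lit 0) (cs (lf (nat_lit 36) (nat_lit 138)) (lf (nat_lit 33) (nat_lit 160)))) (lf (nat_lit 39) (nat_lit 160))))))) q37247 (by decide +kernel)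
def q37285 : Q := Q.p (nat_lit 0x800002000008000020000000000000000000000000000000000000000) (nat_lit 0x500003400001c00000000000000080000000000000000000000000000000000) (nat_lit 5)
theorem c37285 : QOK q37285 := cut [q37283] ⟨c37283, trivial⟩ (nd (nat_lit 226) (nat_lit 0) (cs (lf (nat_lit 41) (nat_lit 160)) (nd (nat_lit 204) (nat_lit 0) (cs (lf (nat_lit 36) (nat_lit 138)) (rf (nat_lit 0)))))) q37285 (by decide +kernel)
def q37301 : Q := Q.p (nat_lit 0x3000008000020000000000000000000000000000000000000000) (nat_lit 0x400000000004000000000080000700001c00005000000000000000000) (nat_lit 6)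
theorem c37301 : QOK q37301 := cut [q37299] ⟨c37299, trivial⟩ (nd (nat_lit 139) (nat_lit 0) (cs (lf (nat_lit 41) (nat_lit 138)) (nd (nat_lit 117) (nat_lit 0) (cs (lf (nat_lit 40) (nat_lit 116)) (rf (nat_lit 0)))))) q37301 (by decide +kernel)
def q37302 : Q := Q.p (nat_lit 0x1000002000008000020000000000000000000000000000000000) (nat_lit 0x40000000000000001c0000700001400000000000000000) (nat_lit 5)
theorem c37302 : QOK q37302 := cut [q34099] ⟨c34099, trivial⟩ (nd (nat_lit 115) (nat_lit 0) (cs (rf (nat_lit 0)) (lf (nat_lit 28) (nat_lit 115)))) q37302 (by decide +kernel)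
def q37392 : Q := Q.p (nat_lit 0x120000680000a0000000000000000000000000000000000) (nat_lit 0x1100004c000010000040000100001c0000700001400000000000000000) (nat_lit 7)
theorem c37392 : QOK q37392 := cut [q34099, q35727, q37362, q37389] ⟨c34099, c35727, c37362, c37389, trivial⟩ (nd (nat_lit 115) (nat_lit 0) (cs (rf (nat_lit 0)) (cs (rf (nat_lit 1)) (cs (rf (nat_lit 2)) (nd (nat_lit 206) (nat_lit 0) (cs (lf (nat_lit 42) (nat_lit 139)) (nd (nat_lit 94) (nat_lit 0) (cs (lf (nat_lit 34) (nat_lit 93)) (rf (nat_lit 3)))))))))) q37392 (by decide +kernel)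
def q37404 : Q := Q.p (nat_lit 0x1a000068000080000000000000000000000000000000000) (nat_lit 0x140001700005c000000000140000700001c0000700001c00004000000000000) (nat_lit 9)
theorem c37404 : QOK q37404 := cut [q34099, q35276, q34244, q37399] ⟨c34099, c35276, c34244, c37399, trivial⟩ (nd (nat_lit 160) (nat_lit 0) (cs (lf (nat_lit 0) (nat_lit 158)) (nd (nat_lit 137) (nat_lit 0) (cs (lf (nat_lit 23) (nat_lit 136)) (nd (nat_lit 115) (nat_lit 0) (cs (rf (nat_lit 0)) (cs (nd (nat_lit 92) (nat_lit 0) (cs (lf (nat_lit 46) (nat_lit 92)) (nd (nat_lit 93) (nat_lit 0) (cs (lf (nat_lit 47) (nat_lit 70)) (nd (nat_lit 71) (nat_lit 0) (cs (lf (nat_lit 28) (nat_lit 71)) (rf (nat_lit 1)))))))) (cs (nd (nat_lit 206) (nat_lit 0) (cs (lf (nat_lit 42) (nat_lit 139)) (nd (nat_lit 92) (nat_lit 0) (cs (lf (nat_lit 46) (nat_lit 92)) (nd (nat_lit 93) (nat_lit 0) (cs (lf (nat_lit 47) (nat_lit 70)) (nd (nat_lit 138) (nat_lit 0) (cs (lf (nat_lit 24) (nat_lit 71)) (rf (nat_lit 2)))))))))) (nd (nat_lit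 116) (nat_lit 0) (cs (lf (nat_lit 35) (nat_lit 93)) (nd (nat_lit 203) (nat_lit 0) (cs (lf (nat_lit 34) (nat_lit 115)) (rf (nat_lit 3)))))))))))))) q37404 (by decide +kernel)
def q37440 : Q := Q.p (nat_lit 0x1c000070000000000000000000000000000000000000000) (nat_lit 0x200000c0000300000c000040000100000000000000000000000000000) (nat_lit 5)
theorem c37440 : QOK q37440 := cut [q37438] ⟨c37438, trivial⟩ (nd (nat_lit 181) (nat_lit 0) (cs (lf (nat_lit 12) (nat_lit 158)) (nd (nat_lit 159) (nat_lit 0) (cs (lf (nat_lit 0) (nat_lit 158)) (rf (nat_lit 0)))))) q37440 (by decide +kernel)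
def q37473 : Q := Q.p (nat_lit 0x2000018000060000000000000000000000000000000000000000) (nat_lit 0x6000018000040000000000000000c0000300000c00000000000000000000000) (nat_lit 6)
theorem c37473 : QOK q37473 := cut [q37470] ⟨c37470, trivial⟩ (nd (nat_lit 227) (nat_lit 0) (cs (lf (nat_lit 30) (nat_lit 161)) (nd (nat_lit 228) (nat_lit 0) (cs (lf (nat_lit 29) (nat_lit 161)) (nd (nat_lit 139) (nat_lit 0) (cs (lf (nat_lit 28) (nat_lit 139)) (rf (nat_lit 0)))))))) q37473 (by decide +kernel)
def q37483 : Q := Q.p (nat_lit 0x10000058000060000000000000000000000000000000000000000) (nat_lit 0x20000080000a4000300000400001000000000000000000000000000000) (nat_lit 5)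
theorem c37483 : QOK q37483 := cut [q37481] ⟨c37481, trivial⟩ (nd (nat_lit 185) (nat_lit 0) (cs (lf (nat_lit 18) (nat_lit 161)) (nd (nat_lit 164) (nat_lit 0) (cs (lf (nat_lit 17) (nat_lit 161)) (rf (nat_lit 0)))))) q37483 (by decide +kernel)
def q37487 : Q := Q.p (nat_lit 0x12000058000040000000000000000000000000000000000000000) (nat_lit 0x800002000009000024000300000400000000000000000000000000000000000) (nat_lit 5)
theorem c37487 : QOK q37487 := cut [q37486] ⟨c37486, trivial⟩ (nd (nat_lit 185) (nat_lit 0) (cs (lf (nat_lit 11) (nat_lit 182)) (rf (nat_lit 0)))) q37487 (by decide +kernel)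
def q37496 : Q := Q.p (nat_lit 0x18000060000080000000000000000000000000000000000) (nat_lit 0x2000000000000000060001f00001c00000000000000000000000) (nat_lit 6)
theorem c37496 : QOK q37496 := cut [q37495] ⟨c37495, trivial⟩ (nd (nat_lit 117) (nat_lit 0) (cs (lf (nat_lit 24) (nat_lit 95)) (rf (nat_lit 0)))) q37496 (by decide +kernel)
def q37498 : Q := Q.p (nat_lit 0x10000058000060000000000000000000000000000000000000000) (nat_lit 0x800002000008000024000310000400000000000000000000000000000000000) (nat_lit 5)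
theorem c37498 : QOK q37498 := cut [q37486] ⟨c37486, trivial⟩ (nd (nat_lit 185) (nat_lit 0) (cs (lf (nat_lit 23) (nat_lit 160)) (rf (nat_lit 0)))) q37498 (by decide +kernel)
def q37555 : Q := Q.p (nat_lit 0x800012000008000020000000000000000000000000000000000000000) (nat_lit 0x50000340000c000000000000000000000000000000000000000000000000000) (nat_lit 4)
theorem c37555 : QOK q37555 := cut [q37220] ⟨c37220, trivial⟩ (nd (nat_lit 228) (nat_lit 0) (cs (lf (nat_lit 29) (nat_lit 161)) (rf (nat_lit 0)))) q37555 (by decide +kernel)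
def q37608 : Q := Q.p (nat_lit 0x10000048000020000080000000000000000000000000000000000) (nat_lit 0x100001c0000f000084000010000040000100000000000000000000000000000) (nat_lit 5)
theorem c37608 : QOK q37608 := cut [q35180, q36732] ⟨c35180, c36732, trivial⟩ (nd (nat_lit 205) (nat_lit 0) (cs (rf (nat_lit 0)) (rf (nat_lit 1)))) q37608 (by decide +kernel)
def q37654 : Q := Q.p (nat_lit 0x18000070000000000000000000000000000000000000000) (nat_lit 0x700003e00003c000040000000000f0000380000c00000000000000000000000) (nat_lit 8)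
theorem c37654 : QOK q37654 := cut [q37287, q37470, q37642, q8667, q37653] ⟨c37287, c37470, c37642, c8667, c37653, trivial⟩ (nd (nat_lit 205) (nat_lit 0) (cs (rf (nat_lit 0)) (cs (nd (nat_lit 139) (nat_lit 0) (cs (rf (nat_lit 1)) (cs (nd (nat_lit 204) (nat_lit 0) (cs (lf (nat_lit 41) (nat_lit 138)) (nd (nat_lit 203) (nat_lit 0) (cs (lf (nat_lit 12) (nat_lit 180)) (nd (nat_lit 138) (nat_lit 0) (cs (lf (nat_lit 47) (nat_lit 116)) (nd (nat_lit 182) (nat_lit 0) (cs (lf (nat_lit 41) (nat_lit 137)) (rf (nat_lit 2)))))))))) (nd (nat_lit 117) (nat_lit 0) (cs (lf (nat_lit 24) (nat_lit 95)) (rf (nat_lit 3))))))) (rf (nat_lit 4))))) q37654 (by decide +kernel)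
def q37691 : Q := Q.p (nat_lit 0x3000018000060000000000000000000000000000000000000000) (nat_lit 0x4000000000000000000000c0000300000c00000000000000000000000) (nat_lit 4)
theorem c37691 : QOK q37691 := cut [q37470] ⟨c37470, trivial⟩ (nd (nat_lit 139) (nat_lit 0) (cs (lf (nat_lit 41) (nat_lit 138)) (rf (nat_lit 0)))) q37691 (by decide +kernel)
def q37745 : Q := Q.p (nat_lit 0x1300001c000060000000000000000000000000000000000000000) (nat_lit 0x8000030000cc0000300001c000040000000000000000000000000000000000) (nat_lit 7)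
theorem c37745 : QOK q37745 := cut [q27205] ⟨c27205, trivial⟩ (nd (nat_lit 203) (nat_lit 0) (cs (lf (nat_lit 12) (nat_lit 180)) (nd (nat_lit 181) (nat_lit 0) (cs (lf (nat_lit 12) (nat_lit 158)) (nd (nat_lit 206) (nat_lit 0) (cs (lf (nat_lit 19) (nat_lit 182)) (rf (nat_lit 0)))))))) q37745 (by decide +kernel)
def q37791 : Q := Q.p (nat_lit 0x800002000008000020000000000000000000000000000000000000000) (nat_lit 0x1000004000010000000000100000c0000100000000000000000000000000000) (nat_lit 4)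
theorem c37791 : QOK q37791 := cut [q3630] ⟨c3630, trivial⟩ (nd (nat_lit 226) (nat_lit 0) (cs (rf (nat_lit 0)) (lf (nat_lit 41) (nat_lit 160)))) q37791 (by decide +kernel)
def q37820 : Q := Q.p (nat_lit 0x40000160000000000000000000000000000000000000000) (nat_lit 0x9c000280001c00000000000000000000000000000000000) (nat_lit 5)
theorem c37820 : QOK q37820 := cut [q37819] ⟨c37819, trivial⟩ (nd (nat_lit 163) (nat_lit 0) (cs (lf (nat_lit 5) (nat_lit 161)) (rf (nat_lit 0)))) q37820 (by decide +kernel)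
def q37877 : Q := Q.p (nat_lit 0x10000048000060000080000000000000000000000000000000000) (nat_lit 0x1c0000f000090000000000000000700001c00005000000000000000000) (nat_lit 8)
theorem c37877 : QOK q37877 := cut [q36677, q37299, q36616] ⟨c36677, c37299, c36616, trivial⟩ (nd (nat_lit 117) (nat_lit 0) (cs (rf (nat_lit 0)) (cs (rf (nat_lit 1)) (nd (nat_lit 94) (nat_lit 0) (cs (lf (nat_lit 46) (nat_lit 94)) (nd (nat_lit 96) (nat_lit 0) (cs (lf (nat_lit 34) (nat_lit 95)) (nd (nat_lit 206) (nat_lit 0) (cs (lf (nat_lit 28) (nat_lit 117)) (nd (nat_lit 205) (nat_lit 0) (cs (lf (nat_lit 29) (nat_lit 139)) (nd (nat_lit 207) (nat_lit 0) (cs (lf (nat_lit 17) (nat_lit 183)) (rf (nat_lit 2))))))))))))))) q37877 (by decide +kernel)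
def q37882 : Q := Q.p (nat_lit 0x8000060000080000000000000000000000000000000000) (nat_lit 0x2000010000000000060001f00001c00005000000000000000000) (nat_lit 6)
theorem c37882 : QOK q37882 := cut [q37495] ⟨c37495, trivial⟩ (nd (nat_lit 117) (nat_lit 0) (cs (rf (nat_lit 0)) (cs (nd (nat_lit 94) (nat_lit 0) (cs (lf (nat_lit 46) (nat_lit 94)) (nd (nat_lit 95) (nat_lit 0) (cs (lf (nat_lit 47) (nat_lit 72)) (lf (nat_lit 29) (nat_lit 95)))))) (nd (nat_lit 96) (nat_lit 0) (cs (lf (nat_lit 34) (nat_lit 95)) (nd (nat_lit 95) (nat_lit 0) (cs (lf (nat_lit 35) (nat_lit 73)) (lf (nat_lit 29) (nat_lit 95))))))))) q37882 (by decide +kernel)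
def q37913 : Q := Q.p (nat_lit 0x1000000c000020000080000000000000000000000000000000000) (nat_lit 0x100000f000000000000000040000700001c00004000000000000000000) (nat_lit 7)
theorem c37913 : QOK q37913 := cut [q37909] ⟨c37909, trivial⟩ (nd (nat_lit 117) (nat_lit 0) (cs (lf (nat_lit 41) (nat_lit 116)) (nd (nat_lit 96) (nat_lit 0) (cs (lf (nat_lit 34) (nat_lit 95)) (nd (nat_lit 74) (nat_lit 0) (cs (lf (nat_lit 33) (nat_lit 73)) (nd (nat_lit 116) (nat_lit 0) (cs (lf (nat_lit 47) (nat_lit 94)) (rf (nat_lit 0)))))))))) q37913 (by decide +kernel)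
def q37919 : Q := Q.p (nat_lit 0x80000200000c000020000000000000000000000000000000000000000) (nat_lit 0x100001c0000700001000001000000000000000000000000000000000000000000000000000) (nat_lit 5)
theorem c37919 : QOK q37919 := cut [q3641] ⟨c3641, trivial⟩ (nd (nat_lit 250) (nat_lit 0) (cs (lf (nat_lit 28) (nat_lit 161)) (nd (nat_lit 249) (nat_lit 0) (cs (lf (nat_lit 29) (nat_lit 183)) (rf (nat_lit 0)))))) q37919 (by decide +kernel)
def q38071 : Q := Q.p (nat_lit 0x1000000c000030000000000000000000000000000000000000000) (nat_lit 0x380000e0000fe00010000000000070000f80000e00000000000000000000000) (nat_lit 8)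
theorem c38071 : QOK q38071 := cut [q37597, q27571, q38063, q38070] ⟨c37597, c27571, c38063, c38070, trivial⟩ (nd (nat_lit 138) (nat_lit 0) (cs (rf (nat_lit 0)) (cs (nd (nat_lit 204) (nat_lit 0) (cs (nd (nat_lit 226) (nat_lit 0) (cs (lf (nat_lit 30) (nat_lit 160)) (rf (nat_lit 1)))) (cs (nd (nat_lit 205) (nat_lit 0) (cs (lf (nat_lit 42) (nat_lit 138)) (nd (nat_lit 115) (nat_lit 0) (cs (lf (nat_lit 46) (nat_lit 115)) (nd (nat_lit 206) (nat_lit 0) (cs (lf (nat_lit 19) (nat_lit 182)) (rf (nat_lit 2)))))))) (nd (nat_lit 226) (nat_lit 0) (cs (lf (nat_lit 30) (nat_lit 160)) (nd (nat_lit 227) (nat_lit 0) (cs (lf (nat_lit 29) (nat_lit 160)) (lf (nat_lit 43) (nat_lit 138))))))))) (rf (nat_lit 3))))) q38071 (by decide +kernel)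
def q38174 : Q := Q.p (nat_lit 0x40000070000000000000000000000000000000000000000) (nat_lit 0x27000088000070000000000000000000000000000000000) (nat_lit 5)
theorem c38174 : QOK q38174 := cut [q6338] ⟨c6338, trivial⟩ (nd (nat_lit 163) (nat_lit 0) (cs (lf (nat_lit 4) (nat_lit 160)) (rf (nat_lit 0)))) q38174 (by decide +kernel)
def q38215 : Q := Q.p (nat_lit 0x400000e0000000000000000000000000000000000000000) (nat_lit 0x20000110000ee0000000000000000000000000000000000) (nat_lit 5)
theorem c38215 : QOK q38215 := cut [q38214] ⟨c38214, trivial⟩ (nd (nat_lit 160) (nat_lit 0) (cs (lf (nat_lit 4) (nat_lit 160)) (rf (nat_lit 0)))) q38215 (by decide +kernel)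
def q38217 : Q := Q.p (nat_lit 0x40000070000000000000000000000000000000000000000) (nat_lit 0x20000180000ee0000000000000000000000000000000000) (nat_lit 5)
theorem c38217 : QOK q38217 := cut [q38214] ⟨c38214, trivial⟩ (nd (nat_lit 163) (nat_lit 0) (cs (lf (nat_lit 4) (nat_lit 160)) (rf (nat_lit 0)))) q38217 (by decide +kernel)
def q38221 : Q := Q.p (nat_lit 0x40000070000000000000000000000000000000000000000) (nat_lit 0x2e000180000e00000000000000000000000000000000000) (nat_lit 5)
theorem c38221 : QOK q38221 := cut [q38220] ⟨c38220, trivial⟩ (nd (nat_lit 163) (nat_lit 0) (cs (lf (nat_lit 4) (nat_lit 160)) (rf (nat_lit 0)))) q38221 (by decide +kernel)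
def q38223 : Q := Q.p (nat_lit 0x400000e0000000000000000000000000000000000000000) (nat_lit 0x2e000110000e00000000000000000000000000000000000) (nat_lit 5)
theorem c38223 : QOK q38223 := cut [q38220] ⟨c38220, trivial⟩ (nd (nat_lit 160) (nat_lit 0) (cs (lf (nat_lit 4) (nat_lit 160)) (rf (nat_lit 0)))) q38223 (by decide +kernel)
def q38228 : Q := Q.p (nat_lit 0x100000400001e0000000000000000000000000000000000000000) (nat_lit 0x2c000000000ec000380000e000020000000000000000000) (nat_lit 8)
theorem c38228 : QOK q38228 := cut [q20177] ⟨c20177, trivial⟩ (nd (nat_lit 142) (nat_lit 0) (cs (lf (nat_lit 17) (nat_lit 139)) (nd (nat_lit 119) (nat_lit 0) (cs (lf (nat_lit 46) (nat_lit 119)) (nd (nat_lit 182) (nat_lit 0) (cs (lf (nat_lit 10) (nat_lit 160)) (nd (nat_lit 138) (nat_lit 0) (cs (lf (nat_lit 22) (nat_lit 138)) (rf (nat_lit 0)))))))))) q38228 (by decide +kernel)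
def q38235 : Q := Q.p (nat_lit 0x10000070000040000000000000000000000000000000000000000) (nat_lit 0x20000080000f80000c000038000100000400000000000000000000000000000) (nat_lit 6)
theorem c38235 : QOK q38235 := cut [q4773, q32668, q38233] ⟨c4773, c32668, c38233, trivial⟩ (nd (nat_lit 183) (nat_lit 0) (cs (rf (nat_lit 0)) (cs (rf (nat_lit 1)) (nd (nat_lit 160) (nat_lit 0) (cs (lf (nat_lit 22) (nat_lit 160)) (rf (nat_lit 2))))))) q38235 (by decide +kernel)
def q38244 : Q := Q.p (nat_lit 0x2000018000060000080000000000000000000000000000000000) (nat_lit 0x400001c00000000080000170000500000000000000000000000000000) (nat_lit 6)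
theorem c38244 : QOK q38244 := cut [q38243] ⟨c38243, trivial⟩ (nd (nat_lit 140) (nat_lit 0) (cs (lf (nat_lit 36) (nat_lit 117)) (rf (nat_lit 0)))) q38244 (by decide +kernel)
def q38278 : Q := Q.p (nat_lit 0x78000000000000000000000000000000000000000) (nat_lit 0x800003000080000070000100000400000000000000000000000) (nat_lit 5)
theorem c38278 : QOK q38278 := cut [q38277] ⟨c38277, trivial⟩ (nd (nat_lit 181) (nat_lit 0) (cs (lf (nat_lit 11) (nat_lit 158)) (rf (nat_lit 0)))) q38278 (by decide +kernel)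
def q38319 : Q := Q.p (nat_lit 0x200000800002000008000000000000000000000000000000000000000) (nat_lit 0x100000c0000100000000001000004000010000000000000000000000000000000000) (nat_lit 4)
theorem c38319 : QOK q38319 := cut [q38318] ⟨c38318, trivial⟩ (nd (nat_lit 158) (nat_lit 0) (cs (lf (nat_lit 47) (nat_lit 136)) (rf (nat_lit 0)))) q38319 (by decide +kernel)
def q38363 : Q := Q.p (nat_lit 0x8000070000000000000000000000000000000000000000) (nat_lit 0x8000020000040000800000f8000100000400000000000000000000000) (nat_lit 4)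
theorem c38363 : QOK q38363 := cut [q38272, q38362] ⟨c38272, c38362, trivial⟩ (nd (nat_lit 138) (nat_lit 0) (cs (rf (nat_lit 0)) (rf (nat_lit 1)))) q38363 (by decide +kernel)
def q38416 : Q := Q.p (nat_lit 0x10000038000040000000000000000000000000000000000000000) (nat_lit 0x800000600009c000000000000000000000000000000000000000) (nat_lit 4)
theorem c38416 : QOK q38416 := cut [q38415] ⟨c38415, trivial⟩ (nd (nat_lit 182) (nat_lit 0) (cs (lf (nat_lit 4) (nat_lit 182)) (rf (nat_lit 0)))) q38416 (by decide +kernel)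
def q38462 : Q := Q.p (nat_lit 0x6000008000020000000000000000000000000000000000) (nat_lit 0x10000000000000000000001c0000700001400000000000000000) (nat_lit 5)
theorem c38462 : QOK q38462 := cut [q34099] ⟨c34099, trivial⟩ (nd (nat_lit 115) (nat_lit 0) (cs (lf (nat_lit 29) (nat_lit 115)) (rf (nat_lit 0)))) q38462 (by decide +kernel)
def q38535 : Q := Q.p (nat_lit 0x10000060000080000600000000000000000000000000000) (nat_lit 0x100000f000080000000000100001400000000000000000000000) (nat_lit 5)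
theorem c38535 : QOK q38535 := cut [q38372] ⟨c38372, trivial⟩ (nd (nat_lit 183) (nat_lit 0) (cs (lf (nat_lit 35) (nat_lit 95)) (nd (nat_lit 94) (nat_lit 0) (cs (lf (nat_lit 46) (nat_lit 94)) (rf (nat_lit 0)))))) q38535 (by decide +kernel)
def q38634 : Q := Q.p (nat_lit 0x50000160000000000000000000000000000000000000000) (nat_lit 0x8000030000a8000200000100000400000000000000000000000000000) (nat_lit 5)
theorem c38634 : QOK q38634 := cut [q8715] ⟨c8715, trivial⟩ (nd (nat_lit 185) (nat_lit 0) (cs (lf (nat_lit 18) (nat_lit 161)) (nd (nat_lit 183) (nat_lit 0) (cs (lf (nat_lit 17) (nat_lit 161)) (rf (nat_lit 0)))))) q38634 (by decide +kernel)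
def q38669 : Q := Q.p (nat_lit 0x2000068000020000000000000000000000000000000000) (nat_lit 0x140000700001c000000000040000d0000140000000000000000000000000000) (nat_lit 6)
theorem c38669 : QOK q38669 := cut [q37399, q38480, q38485] ⟨c37399, c38480, c38485, trivial⟩ (nd (nat_lit 203) (nat_lit 0) (cs (rf (nat_lit 0)) (cs (rf (nat_lit 1)) (cs (rf (nat_lit 2)) (nd (nat_lit 202) (nat_lit 0) (cs (lf (nat_lit 41) (nat_lit 136)) (nd (nat_lit 204) (nat_lit 0) (cs (lf (nat_lit 29) (nat_lit 137)) (nd (nat_lit 138) (nat_lit 0) (cs (lf (nat_lit 35) (nat_lit 115)) (nd (nat_lit 136) (nat_lit 0) (cs (lf (nat_lit 47) (nat_lit 114)) (lf (nat_lit 3) (nat_lit 136)))))))))))))) q38669 (by decide +kernel)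
def q38730 : Q := Q.p (nat_lit 0x2000068000020000000000000000000000000000000000) (nat_lit 0x2000008000010000040000d80007c0000700001c00005000000000000) (nat_lit 8)
theorem c38730 : QOK q38730 := cut [q34099] ⟨c34099, trivial⟩ (nd (nat_lit 115) (nat_lit 0) (cs (rf (nat_lit 0)) (cs (nd (nat_lit 94) (nat_lit 0) (cs (lf (nat_lit 34) (nat_lit 93)) (nd (nat_lit 93) (nat_lit 0) (cs (lf (nat_lit 35) (nat_lit 71)) (nd (nat_lit 70) (nat_lit 0) (cs (lf (nat_lit 46) (nat_lit 70)) (nd (nat_lit 158) (nat_lit 0) (cs (lf (nat_lit 41) (nat_lit 92)) (nd (nat_lit 71) (nat_lit 0) (cs (lf (nat_lit 47) (nat_lit 48)) (lf (nat_lit 40) (nat_lit 70)))))))))))) (cs (nd (nat_lit 92) (nat_lit 0) (cs (lf (nat_lit 46) (nat_lit 92)) (nd (nat_lit 93) (nat_lit 0) (cs (lf (nat_lit 47) (nat_lit 70)) (nd (nat_lit 72) (nat_lit 0) (cs (lf (nat_lit 34) (nat_lit 71)) (nd (nat_lit 158) (nat_lit 0) (cs (lf (nat_lit 41) (nat_lit 92)) (nd (nat_lit 71) (nat_lit 0) (cs (lf (nat_lit 35) (nat_lit 49)) (lf (nat_lit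 40) (nat_lit 70)))))))))))) (cs (nd (nat_lit 94) (nat_lit 0) (cs (lf (nat_lit 34) (nat_lit 93)) (nd (nat_lit 93) (nat_lit 0) (cs (lf (nat_lit 35) (nat_lit 71)) (nd (nat_lit 158) (nat_lit 0) (cs (lf (nat_lit 41) (nat_lit 92)) (nd (nat_lit 136) (nat_lit 0) (cs (nd (nat_lit 203) (nat_lit 0) (cs (lf (nat_lit 47) (nat_lit 114)) (lf (nat_lit 42) (nat_lit 136)))) (lf (nat_lit 36) (nat_lit 70)))))))))) (cs (nd (nat_lit 92) (nat_lit 0) (cs (lf (nat_lit 46) (nat_lit 92)) (nd (nat_lit 93) (nat_lit 0) (cs (lf (nat_lit 47) (nat_lit 70)) (nd (nat_lit 158) (nat_lit 0) (cs (lf (nat_lit 41) (nat_lit 92)) (nd (nat_lit 136) (nat_lit 0) (cs (lf (nat_lit 36) (nat_lit 70)) (nd (nat_lit 138) (nat_lit 0) (cs (lf (nat_lit 3) (nat_lit 136)) (nd (nat_lit 203) (nat_lit 0) (cs (lf (nat_lit 35) (nat_lit 115)) (lf (nat_lit 42) (nat_lit 136)))))))))))))) (nd (nat_lit 116) (nat_lit 0) (cs (lf (nat_lit 35) (nat_lit 93)) (nd (nat_lit 92) (nat_lit 0) (cs (lf (nat_lit 46) (nat_lit 92)) (nd (nat_lit 138)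 (nat_lit 0) (cs (lf (nat_lit 30) (nat_lit 115)) (nd (nat_lit 136) (nat_lit 0) (cs (lf (nat_lit 3) (nat_lit 136)) (nd (nat_lit 117) (nat_lit 0) (cs (lf (nat_lit 6) (nat_lit 114)) (lf (nat_lit 12) (nat_lit 113)))))))))))))))))) q38730 (by decide +kernel)
def q38828 : Q := Q.p (nat_lit 0x12000008000060000000000000000000000000000000000000000) (nat_lit 0x140000d000017000180000080000200000000000000000000000000000) (nat_lit 5)
theorem c38828 : QOK q38828 := cut [q37901, q38032] ⟨c37901, c38032, trivial⟩ (nd (nat_lit 182) (nat_lit 0) (cs (rf (nat_lit 0)) (rf (nat_lit 1)))) q38828 (by decide +kernel)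
def q38845 : Q := Q.p (nat_lit 0x2000008000060000000000000000000000000000000000000000) (nat_lit 0x2000008000040000100000100001c0000300000800000000000000000000000) (nat_lit 6)
theorem c38845 : QOK q38845 := cut [q37793] ⟨c37793, trivial⟩ (nd (nat_lit 227) (nat_lit 0) (cs (lf (nat_lit 35) (nat_lit 139)) (nd (nat_lit 138) (nat_lit 0) (cs (lf (nat_lit 46) (nat_lit 138)) (nd (nat_lit 184) (nat_lit 0) (cs (lf (nat_lit 30) (nat_lit 161)) (rf (nat_lit 0)))))))) q38845 (by decide +kernel)
def q38853 : Q := Q.p (nat_lit 0x14000050000060000000000000000000000000000000000000000) (nat_lit 0x280000b0003a0000000000100000400000000000000000000000000000) (nat_lit 5)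
theorem c38853 : QOK q38853 := cut [q527, q18880, q38850, q335] ⟨c527, c18880, c38850, c335, trivial⟩ (nd (nat_lit 207) (nat_lit 0) (cs (rf (nat_lit 0)) (cs (rf (nat_lit 1)) (cs (nd (nat_lit 205) (nat_lit 0) (cs (lf (nat_lit 17) (nat_lit 183)) (rf (nat_lit 2)))) (nd (nat_lit 185) (nat_lit 0) (cs (rf (nat_lit 3)) (lf (nat_lit 18) (nat_lit 161)))))))) q38853 (by decide +kernel)
def q38888 : Q := Q.p (nat_lit 0x40000060000000000000000000000000000000000000000) (nat_lit 0x1b8000198000000000000000000000000000000000000000) (nat_lit 4)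
theorem c38888 : QOK q38888 := cut [q38883, q38885, q38886, q38887] ⟨c38883, c38885, c38886, c38887, trivial⟩ (nd (nat_lit 185) (nat_lit 0) (cs (rf (nat_lit 0)) (cs (rf (nat_lit 1)) (cs (rf (nat_lit 2)) (rf (nat_lit 3)))))) q38888 (by decide +kernel)
def q38895 : Q := Q.p (nat_lit 0x100000400001e0000000000000000000000000000000000000000) (nat_lit 0x2000008000020000000000e0000300000e000038000020000000000000) (nat_lit 8)
theorem c38895 : QOK q38895 := cut [q38890] ⟨c38890, trivial⟩ (nd (nat_lit 142) (nat_lit 0) (cs (lf (nat_lit 17) (nat_lit 139)) (nd (nat_lit 207) (nat_lit 0) (cs (lf (nat_lit 41) (nat_lit 141)) (nd (nat_lit 120) (nat_lit 0) (cs (lf (nat_lit 40) (nat_lit 119)) (nd (nat_lit 99) (nat_lit 0) (cs (lf (nat_lit 34) (nat_lit 98)) (nd (nat_lit 98) (nat_lit 0) (cs (lf (nat_lit 35) (nat_lit 76)) (rf (nat_lit 0)))))))))))) q38895 (by decide +kernel)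
def q38948 : Q := Q.p (nat_lit 0x48000060000080000000000000000000000000000000000) (nat_lit 0x100000700001c0000f000030000000000100000600001000000000000000000000000) (nat_lit 7)
theorem c38948 : QOK q38948 := cut [q36725] ⟨c36725, trivial⟩ (nd (nat_lit 205) (nat_lit 0) (cs (rf (nat_lit 0)) (cs (nd (nat_lit 140) (nat_lit 0) (cs (lf (nat_lit 30) (nat_lit 139)) (lf (nat_lit 35) (nat_lit 117)))) (nd (nat_lit 118) (nat_lit 0) (cs (lf (nat_lit 34) (nat_lit 117)) (nd (nat_lit 96) (nat_lit 0) (cs (lf (nat_lit 33) (nat_lit 95)) (nd (nat_lit 206) (nat_lit 0) (cs (lf (nat_lit 29) (nat_lit 139)) (nd (nat_lit 204) (nat_lit 0) (cs (lf (nat_lit 41) (nat_lit 138)) (nd (nat_lit 185) (nat_lit 0) (cs (lf (nat_lit 15) (nat_lit 182)) (lf (nat_lit 8) (nat_lit 182))))))))))))))) q38948 (by decide +kernel)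
def q38963 : Q := Q.p (nat_lit 0x400000e0000000000000000000000000000000000000000) (nat_lit 0x7bc000f00003b00000400001000000000000000000000000) (nat_lit 10)
theorem c38963 : QOK q38963 := cut [q32564] ⟨c32564, trivial⟩ (nd (nat_lit 164) (nat_lit 0) (cs (lf (nat_lit 5) (nat_lit 161)) (rf (nat_lit 0)))) q38963 (by decide +kernel)
def q39009 : Q := Q.p (nat_lit 0x400003c0000000000000000000000000000000000000000) (nat_lit 0x3b0000c00000000000000000000000000000000000000000) (nat_lit 4)
theorem c39009 : QOK q39009 := cut [q2891] ⟨c2891, trivial⟩ (nd (nat_lit 188) (nat_lit 0) (cs (lf (nat_lit 4) (nat_lit 162)) (rf (nat_lit 0)))) q39009 (by decide +kernel)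
def q39033 : Q := Q.p (nat_lit 0x6000010000060000000000000000000000000000000000000000) (nat_lit 0x800000000000000010000f80000a00000000000000000000000000000) (nat_lit 5)
theorem c39033 : QOK q39033 := cut [q18007] ⟨c18007, trivial⟩ (nd (nat_lit 140) (nat_lit 0) (cs (lf (nat_lit 41) (nat_lit 139)) (nd (nat_lit 139) (nat_lit 0) (cs (lf (nat_lit 47) (nat_lit 117)) (rf (nat_lit 0)))))) q39033 (by decide +kernel)
def q39057 : Q := Q.p (nat_lit 0x30000040000100000000000000000000000000000) (nat_lit 0x8000000000080000000000600001800002000000000000) (nat_lit 4)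
theorem c39057 : QOK q39057 := cut [q39056] ⟨c39056, trivial⟩ (nd (nat_lit 94) (nat_lit 0) (cs (lf (nat_lit 29) (nat_lit 94)) (rf (nat_lit 0)))) q39057 (by decide +kernel)
def q39070 : Q := Q.p (nat_lit 0x10000060000040000000000000000000000000000000000000000) (nat_lit 0x1cf0003980007a0000800002000000000000000000000000000000) (nat_lit 7)
theorem c39070 : QOK q39070 := cut [q38418, q39068] ⟨c38418, c39068, trivial⟩ (nd (nat_lit 187) (nat_lit 0) (cs (rf (nat_lit 0)) (nd (nat_lit 184) (nat_lit 0) (cs (lf (nat_lit 23) (nat_lit 161)) (rf (nat_lit 1)))))) q39070 (by decide +kernel)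
def q39082 : Q := Q.p (nat_lit 0x10000070000040000000000000000000000000000000000000000) (nat_lit 0xa00002c0000f00008c000300000500000400000000000000000000000000000) (nat_lit 6)
theorem c39082 : QOK q39082 := cut [q6989, q32618, q39080] ⟨c6989, c32618, c39080, trivial⟩ (nd (nat_lit 207) (nat_lit 0) (cs (rf (nat_lit 0)) (cs (rf (nat_lit 1)) (nd (nat_lit 118) (nat_lit 0) (cs (lf (nat_lit 25) (nat_lit 118)) (rf (nat_lit 2))))))) q39082 (by decide +kernel)
def q39095 : Q := Q.p (nat_lit 0x70000040000000000000000000000000000000000000000) (nat_lit 0x20000080000700000c0003b8000100000400000000000000000000000000000) (nat_lit 5)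
theorem c39095 : QOK q39095 := cut [q38233, q39094] ⟨c38233, c39094, trivial⟩ (nd (nat_lit 183) (nat_lit 0) (cs (rf (nat_lit 0)) (rf (nat_lit 1)))) q39095 (by decide +kernel)
def q39110 : Q := Q.p (nat_lit 0x600001c0000000000000000000000000000000000000000) (nat_lit 0x1c000e30003800000000000000000000000000000000000) (nat_lit 6)
theorem c39110 : QOK q39110 := cut [q3723] ⟨c3723, trivial⟩ (nd (nat_lit 161) (nat_lit 0) (cs (lf (nat_lit 0) (nat_lit 160)) (rf (nat_lit 0)))) q39110 (by decide +kernel)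
def q39300 : Q := Q.p (nat_lit 0x50000140000000000c00000000000000000000000000000) (nat_lit 0x8000060000a8000080000df80033c000cf00000000000000000000000) (nat_lit 13)
theorem c39300 : QOK q39300 := cut [q35016, q39278, q32939, q35020, q32925, q39280, q39297, q32919] ⟨c35016, c39278, c32939, c35020, c32925, c39280, c39297, c32919, trivial⟩ (nd (nat_lit 117) (nat_lit 0) (cs (nd (nat_lit 95) (nat_lit 0) (cs (rf (nat_lit 0)) (lf (nat_lit 44) (nat_lit 95)))) (cs (nd (nat_lit 120) (nat_lit 0) (cs (rf (nat_lit 1)) (cs (nd (nat_lit 116) (nat_lit 0) (cs (rf (nat_lit 2)) (cs (rf (nat_lit 3)) (cs (nd (nat_lit 115) (nat_lit 0) (cs (rf (nat_lit 4)) (nd (nat_lit 142) (nat_lit 0) (cs (lf (nat_lit 5) (nat_lit 117)) (nd (nat_lit 98) (nat_lit 0) (cs (lf (nat_lit 17) (nat_lit 95)) (nd (nat_lit 185) (nat_lit 0) (cs (lf (nat_lit 40) (nat_lit 97)) (nd (nat_lit 136) (nat_lit 0) (cs (lf (nat_lit 10) (nat_lit 114)) (nd (nat_lit 114) (nat_lit 0) (cs (lf (nat_lit 11) (nat_lit 113)) (nd (nat_lit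 140) (nat_lit 0) (cs (lf (nat_lit 4) (nat_lit 114)) (rf (nat_lit 5)))))))))))))))) (nd (nat_lit 93) (nat_lit 0) (cs (lf (nat_lit 22) (nat_lit 93)) (nd (nat_lit 115) (nat_lit 0) (cs (lf (nat_lit 23) (nat_lit 92)) (nd (nat_lit 142) (nat_lit 0) (cs (lf (nat_lit 5) (nat_lit 117)) (nd (nat_lit 139) (nat_lit 0) (cs (lf (nat_lit 11) (nat_lit 116)) (nd (nat_lit 140) (nat_lit 0) (cs (lf (nat_lit 42) (nat_lit 117)) (lf (nat_lit 0) (nat_lit 114)))))))))))))))) (nd (nat_lit 139) (nat_lit 0) (cs (lf (nat_lit 11) (nat_lit 116)) (nd (nat_lit 140) (nat_lit 0) (cs (lf (nat_lit 42) (nat_lit 117)) (lf (nat_lit 6) (nat_lit 117))))))))) (cs (nd (nat_lit 140) (nat_lit 0) (cs (lf (nat_lit 47) (nat_lit 95)) (rf (nat_lit 6)))) (nd (nat_lit 120) (nat_lit 0) (cs (rf (nat_lit 7)) (rf (nat_lit 1)))))))) q39300 (by decide +kernel)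
def q39368 : Q := Q.p (nat_lit 0x10000340000500000000000000000000000000000000000) (nat_lit 0x4000000000000000280000600000800002000000000000000000) (nat_lit 4)
theorem c39368 : QOK q39368 := cut [q32784] ⟨c32784, trivial⟩ (nd (nat_lit 139) (nat_lit 0) (cs (rf (nat_lit 0)) (lf (nat_lit 2) (nat_lit 139)))) q39368 (by decide +kernel)
def q39386 : Q := Q.p (nat_lit 0x10000040000300000400000000000000000000000000000000000) (nat_lit 0x8000000000020000380000e000020000000000000000000) (nat_lit 5)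
theorem c39386 : QOK q39386 := cut [q33055] ⟨c33055, trivial⟩ (nd (nat_lit 119) (nat_lit 0) (cs (lf (nat_lit 46) (nat_lit 119)) (nd (nat_lit 120) (nat_lit 0) (cs (lf (nat_lit 47) (nat_lit 97)) (rf (nat_lit 0)))))) q39386 (by decide +kernel)
def q39388 : Q := Q.p (nat_lit 0x10000040000300000400000000000000000000000000000000000) (nat_lit 0x80000000000a0000180000e000030000080000000000000) (nat_lit 6)
theorem c39388 : QOK q39388 := cut [q33054] ⟨c33054, trivial⟩ (nd (nat_lit 119) (nat_lit 0) (cs (lf (nat_lit 46) (nat_lit 119)) (nd (nat_lit 120) (nat_lit 0) (cs (lf (nat_lit 47) (nat_lit 97)) (rf (nat_lit 0)))))) q39388 (by decide +kernel)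
def q39389 : Q := Q.p (nat_lit 0x10000040000300000400000000000000000000000000000000000) (nat_lit 0x400000b80002800000000000000000000000000000) (nat_lit 4)
theorem c39389 : QOK q39389 := cut [q623] ⟨c623, trivial⟩ (nd (nat_lit 143) (nat_lit 0) (cs (lf (nat_lit 35) (nat_lit 120)) (rf (nat_lit 0)))) q39389 (by decide +kernel)
def q39414 : Q := Q.p (nat_lit 0x10000040000180000400000000000000000000000000000000000) (nat_lit 0x2000000000080000380000e000008000000000000000000) (nat_lit 5)
theorem c39414 : QOK q39414 := cut [q32356] ⟨c32356, trivial⟩ (nd (nat_lit 121) (nat_lit 0) (cs (lf (nat_lit 34) (nat_lit 120)) (nd (nat_lit 120) (nat_lit 0) (cs (lf (nat_lit 35) (nat_lit 98)) (rf (nat_lit 0)))))) q39414 (by decide +kernel)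
def q39418 : Q := Q.p (nat_lit 0x700001c0000000000000000000000000000000000000000) (nat_lit 0x20000080000700000c000000000100000400000000000000000000000000000) (nat_lit 5)
theorem c39418 : QOK q39418 := cut [q38233] ⟨c38233, trivial⟩ (nd (nat_lit 183) (nat_lit 0) (cs (lf (nat_lit 12) (nat_lit 160)) (rf (nat_lit 0)))) q39418 (by decide +kernel)
def q39433 : Q := Q.p (nat_lit 0x100001c0000000000000000000000000000000000000000) (nat_lit 0x728000e00007180000000000000000000000000000000000) (nat_lit 7)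
theorem c39433 : QOK q39433 := cut [q33133] ⟨c33133, trivial⟩ (nd (nat_lit 165) (nat_lit 0) (cs (lf (nat_lit 11) (nat_lit 161)) (nd (nat_lit 139) (nat_lit 0) (cs (lf (nat_lit 22) (nat_lit 139)) (rf (nat_lit 0)))))) q39433 (by decide +kernel)
def q39490 : Q := Q.p (nat_lit 0x100000500001c0000000000000000000000000000000000000000) (nat_lit 0x220003fe0003c00002000000000000000000000000) (nat_lit 7)
theorem c39490 : QOK q39490 := cut [q4533, q32494, q12331] ⟨c4533, c32494, c12331, trivial⟩ (nd (nat_lit 142) (nat_lit 0) (cs (rf (nat_lit 0)) (cs (rf (nat_lit 1)) (nd (nat_lit 119) (nat_lit 0) (cs (lf (nat_lit 46) (nat_lit 119)) (nd (nat_lit 97) (nat_lit 0) (cs (lf (nat_lit 45) (nat_lit 97)) (nd (nat_lit 140) (nat_lit 0) (cs (lf (nat_lit 33) (nat_lit 96)) (rf (nat_lit 2))))))))))) q39490 (by decide +kernel)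
def q39583 : Q := Q.p (nat_lit 0x100000e0000000000000000000000000000000000000000) (nat_lit 0x10000040000080001000001f0000200000800000000000000000000000) (nat_lit 4)
theorem c39583 : QOK q39583 := cut [q36613, q38950] ⟨c36613, c38950, trivial⟩ (nd (nat_lit 139) (nat_lit 0) (cs (rf (nat_lit 0)) (rf (nat_lit 1)))) q39583 (by decide +kernel)
def q39676 : Q := Q.p (nat_lit 0x100000500001c0000000000000000000000000000000000000000) (nat_lit 0x8000200001c00002000008000000000000000000000000) (nat_lit 4)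
theorem c39676 : QOK q39676 := cut [q33126] ⟨c33126, trivial⟩ (nd (nat_lit 165) (nat_lit 0) (cs (lf (nat_lit 11) (nat_lit 161)) (rf (nat_lit 0)))) q39676 (by decide +kernel)

end Crest.Agent.H3.Snaky.CR
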