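import Crest.Agent.H3.Snaky.Cert
import Crest.Agent.H3.Snaky.CR.CR0
import Crest.Agent.H3.Snaky.CR.CR1
import Crest.Agent.H3.Snaky.CR.CR2
import Crest.Agent.H3.Snaky.CR.CR3
import Crest.Agent.H3.Snaky.CR.CR4
import Crest.Agent.H3.Snaky.CR.CR5
import Crest.Agent.H3.Snaky.CR.CR6
import Crest.Agent.H3.Snaky.CR.CR7
import Crest.Agent.H3.Snaky.CR.CR8
import Crest.Agent.H3.Snaky.CR.CR9
import Crest.Agent.H3.Snaky.CR.CR10
import Crest.Agent.H3.Snaky.CR.CR11
import Crest.Agent.H3.Snaky.CR.CR20
import Crest.Agent.H3.Snaky.CR.CR21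
import Crest.Agent.H3.Snaky.CR.CR22
import Crest.Agent.H3.Snaky.CR.CR23
import Crest.Agent.H3.Snaky.CR.CR24
import Crest.Agent.H3.Snaky.CR.CR25
import Crest.Agent.H3.Snaky.CR.CR26
import Crest.Agent.H3.Snaky.CR.CR27
import Crest.Agent.H3.Snaky.CR.CR28
import Crest.Agent.H3.Snaky.CR.CR29

set_option autoImplicit false
set_option maxRecDepth 100000

namespace Crest.Agent.H3.Snaky.CR

open T

def q39738 : Q := Q.p (nat_lit 0x100000e0000040000000000000000000000000000000000000000) (nat_lit 0x300000c0000300000e0000000001b0000300000c00000000000000000000000000000) (nat_lit 6)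
theorem c39738 : QOK q39738 := cut [q3738, q5507, q32473, q32474] ⟨c3738, c5507, c32473, c32474, trivial⟩ (nd (nat_lit 163) (nat_lit 0) (cs (rf (nat_lit 0)) (nd (nat_lit 207) (nat_lit 0) (cs (rf (nat_lit 1)) (cs (rf (nat_lit 2)) (rf (nat_lit 3))))))) q39738 (by decide +kernel)
def q39741 : Q := Q.p (nat_lit 0x60000040000000000000000000000000000000000000000) (nat_lit 0x1980001b8000000000000000000000000000000000000000) (nat_lit 4)
theorem c39741 : QOK q39741 := cut [q38883, q38885, q38886, q38887] ⟨c38883, c38885, c38886, c38887, trivial⟩ (nd (nat_lit 161) (nat_lit 0) (cs (rf (nat_lit 0)) (cs (rf (nat_lit 1)) (cs (rf (nat_lit 2)) (rf (nat_lit 3)))))) q39741 (by decide +kernel)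
def q39824 : Q := Q.p (nat_lit 0x60000080000200000000000000000000000000000) (nat_lit 0x8000000000100000c00001f00007000014000000000000) (nat_lit 6)
theorem c39824 : QOK q39824 := cut [q36535, q36630, q36633] ⟨c36535, c36630, c36633, trivial⟩ (nd (nat_lit 95) (nat_lit 0) (cs (rf (nat_lit 0)) (cs (rf (nat_lit 1)) (rf (nat_lit 2))))) q39824 (by decide +kernel)
def q39833 : Q := Q.p (nat_lit 0x10000008000060000080000200000000000000000000000000000) (nat_lit 0x100000f000007000180000040000100000400000000000000000000000) (nat_lit 7)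
theorem c39833 : QOK q39833 := cut [q37909] ⟨c37909, trivial⟩ (nd (nat_lit 116) (nat_lit 0) (cs (lf (nat_lit 47) (nat_lit 94)) (nd (nat_lit 182) (nat_lit 0) (cs (lf (nat_lit 41) (nat_lit 116)) (nd (nat_lit 180) (nat_lit 0) (cs (lf (nat_lit 13) (nat_lit 158)) (nd (nat_lit 163) (nat_lit 0) (cs (lf (nat_lit 6) (nat_lit 160)) (rf (nat_lit 0)))))))))) q39833 (by decide +kernel)
def q39891 : Q := Q.p (nat_lit 0x8000060000080000200000000000000000000000000000) (nat_lit 0x1000017000180000000000000000000000000000000000000000) (nat_lit 4)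
theorem c39891 : QOK q39891 := cut [q37901] ⟨c37901, trivial⟩ (nd (nat_lit 182) (nat_lit 0) (cs (lf (nat_lit 41) (nat_lit 116)) (rf (nat_lit 0)))) q39891 (by decide +kernel)
def q39943 : Q := Q.p (nat_lit 0x40000070000000000000000000000000000000000000000) (nat_lit 0x27000088000700000000000000000000000000000000000) (nat_lit 5)
theorem c39943 : QOK q39943 := cut [q32461] ⟨c32461, trivial⟩ (nd (nat_lit 163) (nat_lit 0) (cs (lf (nat_lit 4) (nat_lit 160)) (rf (nat_lit 0)))) q39943 (by decide +kernel)
def q39969 : Q := Q.p (nat_lit 0x10000018000060000000000000000000000000000000000000000) (nat_lit 0xe00003c0000c000026000000000380000e00002800000000000000000000000) (nat_lit 7)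
theorem c39969 : QOK q39969 := cut [q5968, q32656, q2497, q34734, q34737, q2411] ⟨c5968, c32656, c2497, c34734, c34737, c2411, trivial⟩ (nd (nat_lit 206) (nat_lit 0) (cs (rf (nat_lit 0)) (cs (nd (nat_lit 228) (nat_lit 0) (cs (lf (nat_lit 42) (nat_lit 161)) (rf (nat_lit 1)))) (nd (nat_lit 140) (nat_lit 0) (cs (rf (nat_lit 2)) (cs (rf (nat_lit 3)) (cs (rf (nat_lit 4)) (nd (nat_lit 119) (nat_lit 0) (cs (lf (nat_lit 34) (nat_lit 118)) (nd (nat_lit 117) (nat_lit 0) (cs (lf (nat_lit 25) (nat_lit 117)) (nd (nat_lit 207) (nat_lit 0) (cs (lf (nat_lit 29) (nat_lit 140)) (rf (nat_lit 5))))))))))))))) q39969 (by decide +kernel)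
def q40013 : Q := Q.p (nat_lit 0x58000060000000000000000000000000000000000000000) (nat_lit 0xc00007000020000000000180000600001800000000000000000000000) (nat_lit 5)
theorem c40013 : QOK q40013 := cut [q36506, q37783] ⟨c36506, c37783, trivial⟩ (nd (nat_lit 205) (nat_lit 0) (cs (rf (nat_lit 0)) (nd (nat_lit 204) (nat_lit 0) (cs (lf (nat_lit 7) (nat_lit 182)) (rf (nat_lit 1)))))) q40013 (by decide +kernel)
def q40032 : Q := Q.p (nat_lit 0x78000000000000000000000000000000000000000) (nat_lit 0x40003b8000000000000000000000000000000000) (nat_lit 4)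
theorem c40032 : QOK q40032 := cut [q38973] ⟨c38973, trivial⟩ (nd (nat_lit 136) (nat_lit 0) (cs (lf (nat_lit 22) (nat_lit 136)) (rf (nat_lit 0)))) q40032 (by decide +kernel)
def q40049 : Q := Q.p (nat_lit 0x70000000000000000000000000000000000000000) (nat_lit 0xc0000300001fc0018e0003b8000080000000000000000000000000000) (nat_lit 9)
theorem c40049 : QOK q40049 := cut [q38181, q38292, q38971, q39951] ⟨c38181, c38292, c38971, c39951, trivial⟩ (nd (nat_lit 159) (nat_lit 0) (cs (rf (nat_lit 0)) (cs (rf (nat_lit 1)) (cs (rf (nat_lit 2)) (rf (nat_lit 3)))))) q40049 (by decide +kernel)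
def q40052 : Q := Q.p (nat_lit 0xf0000040000000000000000000000000000000000) (nat_lit 0x200000e000100000000000100000400000000000000000000000) (nat_lit 4)
theorem c40052 : QOK q40052 := cut [q40051] ⟨c40051, trivial⟩ (nd (nat_lit 182) (nat_lit 0) (cs (lf (nat_lit 11) (nat_lit 159)) (rf (nat_lit 0)))) q40052 (by decide +kernel)
def q40139 : Q := Q.p (nat_lit 0x10000004000070000000000000000000000000000000000000000) (nat_lit 0x1e0000fc000180001880007c0001fc0003e00009800000000000000000) (nat_lit 12)
theorem c40139 : QOK q40139 := cut [q40092, q21823, q40117, q8698, q40124, q24220, q34430] ⟨c40092, c21823, c40117, c8698, c40124, c24220, c34430, trivial⟩ (nd (nat_lit 139) (nat_lit 0) (cs (rf (nat_lit 0)) (cs (nd (nat_lit 141) (nat_lit 0) (cs (nd (nat_lit 140) (nat_lit 0) (cs (lf (nat_lit 6) (nat_lit 138)) (lf (nat_lit 12) (nat_lit 137)))) (cs (nd (nat_lit 204) (nat_lit 0) (cs (lf (nat_lit 30) (nat_lit 138)) (nd (nat_lit 163) (nat_lit 0) (cs (lf (nat_lit 17) (nat_lit 138)) (nd (nat_lit 164) (nat_lit 0) (cs (lf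 (nat_lit 23) (nat_lit 138)) (lf (nat_lit 10) (nat_lit 160)))))))) (nd (nat_lit 138) (nat_lit 0) (cs (nd (nat_lit 140) (nat_lit 0) (cs (lf (nat_lit 12) (nat_lit 137)) (nd (nat_lit 163) (nat_lit 0) (cs (lf (nat_lit 5) (nat_lit 138)) (nd (nat_lit 115) (nat_lit 0) (cs (lf (nat_lit 22) (nat_lit 115)) (nd (nat_lit 119) (nat_lit 0) (cs (rf (nat_lit 1)) (lf (nat_lit 17) (nat_lit 116)))))))))) (cs (nd (nat_lit 163) (nat_lit 0) (cs (lf (nat_lit 18) (nat_lit 138)) (nd (nat_lit 204) (nat_lit 0) (cs (lf (nat_lit 30) (nat_lit 138)) (nd (nat_lit 205) (nat_lit 0) (cs (lf (nat_lit 29) (nat_lit 138)) (nd (nat_lit 116) (nat_lit 0) (cs (lf (nat_lit 28) (nat_lit 116)) (nd (nat_lit 93) (nat_lit 0) (cs (lf (nat_lit 46) (nat_lit 93)) (nd (nat_lit 94) (nat_lit 0) (cs (lf (nat_lit 47) (nat_lit 71)) (lf (nat_lit 24) (nat_lit 72)))))))))))))) (nd (nat_lit 204) (nat_lit 0) (cs (lf (nat_lit 30) (nat_lit 138)) (nd (nat_lit 205) (nat_lit 0) (cs (lf (nat_lit 29) (nat_lit 138)) (nd (nat_lit 203) (nat_lit 0) (cs (lf (nat_lit 41) (nat_lit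 137)) (nd (nat_lit 140) (nat_lit 0) (cs (lf (nat_lit 11) (nat_lit 137)) (nd (nat_lit 119) (nat_lit 0) (cs (lf (nat_lit 17) (nat_lit 116)) (nd (nat_lit 75) (nat_lit 0) (cs (lf (nat_lit 37) (nat_lit 74)) (nd (nat_lit 184) (nat_lit 0) (cs (lf (nat_lit 30) (nat_lit 118)) (nd (nat_lit 183) (nat_lit 0) (cs (lf (nat_lit 36) (nat_lit 117)) (lf (nat_lit 12) (nat_lit 180)))))))))))))))))))))))) (cs (rf (nat_lit 2)) (nd (nat_lit 183) (nat_lit 0) (cs (nd (nat_lit 163) (nat_lit 0) (cs (lf (nat_lit 6) (nat_lit 160)) (nd (nat_lit 141) (nat_lit 0) (cs (lf (nat_lit 17) (nat_lit 138)) (nd (nat_lit 140) (nat_lit 0) (cs (lf (nat_lit 12) (nat_lit 137)) (rf (nat_lit 3)))))))) (cs (nd (nat_lit 117) (nat_lit 0) (cs (lf (nat_lit 36) (nat_lit 94)) (rf (nat_lit 4)))) (cs (nd (nat_lit 163) (nat_lit 0) (cs (lf (nat_lit 6) (nat_lit 160)) (nd (nat_lit 141) (nat_lit 0) (cs (lf (nat_lit 17) (nat_lit 138)) (nd (nat_lit 140) (nat_lit 0) (cs (lf (nat_lit 12) (nat_lit 137)) (nd (nat_lit 96) (nat_lit 0) (cs (lf (nat_lit 37) (nat_lit 95))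 (nd (nat_lit 117) (nat_lit 0) (cs (lf (nat_lit 36) (nat_lit 94)) (nd (nat_lit 184) (nat_lit 0) (cs (lf (nat_lit 42) (nat_lit 117)) (nd (nat_lit 97) (nat_lit 0) (cs (lf (nat_lit 37) (nat_lit 96)) (nd (nat_lit 116) (nat_lit 0) (cs (lf (nat_lit 47) (nat_lit 94)) (rf (nat_lit 5)))))))))))))))))) (nd (nat_lit 95) (nat_lit 0) (cs (lf (nat_lit 37) (nat_lit 94)) (nd (nat_lit 163) (nat_lit 0) (cs (lf (nat_lit 6) (nat_lit 160)) (nd (nat_lit 141) (nat_lit 0) (cs (lf (nat_lit 17) (nat_lit 138)) (nd (nat_lit 140) (nat_lit 0) (cs (lf (nat_lit 12) (nat_lit 137)) (rf (nat_lit 6)))))))))))))))))) q40139 (by decide +kernel)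
def q40184 : Q := Q.p (nat_lit 0x70000140000000000000000000000000000000000) (nat_lit 0x80000700001c000000000080001fc0003e00002000008000000000000) (nat_lit 7)
theorem c40184 : QOK q40184 := cut [q35165, q38362] ⟨c35165, c38362, trivial⟩ (nd (nat_lit 183) (nat_lit 0) (cs (rf (nat_lit 0)) (cs (rf (nat_lit 1)) (nd (nat_lit 117) (nat_lit 0) (cs (nd (nat_lit 118) (nat_lit 0) (cs (lf (nat_lit 36) (nat_lit 95)) (nd (nat_lit 95) (nat_lit 0) (cs (lf (nat_lit 42) (nat_lit 95)) (nd (nat_lit 73) (nat_lit 0) (cs (lf (nat_lit 24) (nat_lit 51)) (lf (nat_lit 39) (nat_lit 72)))))))) (cs (nd (nat_lit 118) (nat_lit 0) (cs (lf (nat_lit 36) (nat_lit 95)) (nd (nat_lit 116) (nat_lit 0) (cs (lf (nat_lit 24) (nat_lit 94)) (nd (nat_lit 95) (nat_lit 0) (cs (lf (nat_lit 42) (nat_lit 95)) (lf (nat_lit 30) (nat_lit 94)))))))) (cs (nd (nat_lit 139) (nat_lit 0) (cs (nd (nat_lit 118) (nat_lit 0) (cs (lf (nat_lit 35) (nat_lit 95)) (nd (nat_lit 184) (nat_lit 0) (cs (lf (nat_lit 42) (nat_lit 117)) (nd (nat_lit 119) (nat_lit 0) (cs (lf (nat_lit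 35) (nat_lit 96)) (lf (nat_lit 6) (nat_lit 116)))))))) (nd (nat_lit 182) (nat_lit 0) (cs (lf (nat_lit 30) (nat_lit 116)) (nd (nat_lit 116) (nat_lit 0) (cs (lf (nat_lit 24) (nat_lit 94)) (nd (nat_lit 115) (nat_lit 0) (cs (lf (nat_lit 0) (nat_lit 114)) (lf (nat_lit 47) (nat_lit 93)))))))))) (nd (nat_lit 116) (nat_lit 0) (cs (lf (nat_lit 24) (nat_lit 94)) (nd (nat_lit 95) (nat_lit 0) (cs (lf (nat_lit 30) (nat_lit 94)) (nd (nat_lit 73) (nat_lit 0) (cs (lf (nat_lit 27) (nat_lit 73)) (lf (nat_lit 36) (nat_lit 50))))))))))))))) q40184 (by decide +kernel)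
def q40208 : Q := Q.p (nat_lit 0x400000e0000000000000000000000000000000000000000) (nat_lit 0x20000018000770000000000000000000000000000000000) (nat_lit 5)
theorem c40208 : QOK q40208 := cut [q39064] ⟨c39064, trivial⟩ (nd (nat_lit 160) (nat_lit 0) (cs (lf (nat_lit 4) (nat_lit 160)) (rf (nat_lit 0)))) q40208 (by decide +kernel)
def q40263 : Q := Q.p (nat_lit 0x100001e0000000000000000000000000000000000000000) (nat_lit 0x10000040000000000000001c0000200000800000000000000000000000) (nat_lit 4)
theorem c40263 : QOK q40263 := cut [q38551] ⟨c38551, trivial⟩ (nd (nat_lit 139) (nat_lit 0) (cs (lf (nat_lit 23) (nat_lit 138)) (rf (nat_lit 0)))) q40263 (by decide +kernel)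
def q40295 : Q := Q.p (nat_lit 0x180000400000c0000600000000000000000000000000000000000) (nat_lit 0x10000060001a0000000000000001000000000000000000000000000000) (nat_lit 4)
theorem c40295 : QOK q40295 := cut [q35571] ⟨c35571, trivial⟩ (nd (nat_lit 185) (nat_lit 0) (cs (lf (nat_lit 35) (nat_lit 119)) (rf (nat_lit 0)))) q40295 (by decide +kernel)
def q40501 : Q := Q.p (nat_lit 0x100000400000c0000000000000000000000000000000000000000) (nat_lit 0x100000e0001b8000238001fe000ff80007c00017000000000000000000) (nat_lit 13)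
theorem c40501 : QOK q40501 := cut [q32472, q32570, q40465, q35571, q38915, q2409, q21701, q39084, q40304, q39191, q39198, q39201, q40461] ⟨c32472, c32570, c40465, c35571, c38915, c2409, c21701, c39084, c40304, c39191, c39198, c39201, c40461, trivial⟩ (nd (nat_lit 185) (nat_lit 0) (cs (rf (nat_lit 0)) (cs (nd (nat_lit 141) (nat_lit 0) (cs (lf (nat_lit 24) (nat_lit 119)) (nd (nat_lit 142) (nat_lit 0) (cs (rf (nat_lit 1)) (cs (nd (nat_lit 187) (nat_lit 0) (cs (lf (nat_lit 18) (nat_lit 162)) (nd (nat_lit 120) (nat_lit 0) (cs (lf (nat_lit 30) (nat_lit 119)) (nd (nat_lit 76) (nat_lit 0) (cs (lf (nat_lit 37) (nat_lit 75)) (nd (nat_lit 143) (nat_lit 0) (cs (lf (nat_lit 6) (nat_lit 140)) (nd (nat_lit 121) (nat_lit 0) (cs (lf (nat_lit 38) (nat_lit 120)) (nd (nat_lit 122) (nat_lit 0) (cs (lf (nat_lit 12) (nat_lit 118)) (lf (nat_lit 6) (nat_lit 119)))))))))))))) (cs (nd (nat_lit 143) (nat_lit 0) (cs (lf (nat_lit 6) (nat_lit 140)) (nd (nat_lit 160) (nat_lit 0) (cs (lf (nat_lit 1) (nat_lit 160)) (nd (nat_lit 187)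 (nat_lit 0) (cs (lf (nat_lit 18) (nat_lit 162)) (nd (nat_lit 121) (nat_lit 0) (cs (lf (nat_lit 38) (nat_lit 120)) (rf (nat_lit 2)))))))))) (nd (nat_lit 207) (nat_lit 0) (cs (lf (nat_lit 35) (nat_lit 119)) (nd (nat_lit 118) (nat_lit 0) (cs (lf (nat_lit 46) (nat_lit 118)) (nd (nat_lit 160) (nat_lit 0) (cs (lf (nat_lit 13) (nat_lit 138)) (rf (nat_lit 3)))))))))))))) (cs (nd (nat_lit 206) (nat_lit 0) (cs (rf (nat_lit 4)) (cs (nd (nat_lit 187) (nat_lit 0) (cs (lf (nat_lit 18) (nat_lit 162)) (nd (nat_lit 207) (nat_lit 0) (cs (lf (nat_lit 12) (nat_lit 183)) (rf (nat_lit 5)))))) (cs (nd (nat_lit 187) (nat_lit 0) (cs (lf (nat_lit 18) (nat_lit 162)) (rf (nat_lit 6)))) (nd (nat_lit 187) (nat_lit 0) (cs (lf (nat_lit 18) (nat_lit 162)) (nd (nat_lit 141) (nat_lit 0) (cs (lf (nat_lit 24) (nat_lit 119)) (nd (nat_lit 184) (nat_lit 0) (cs (lf (nat_lit 30) (nat_lit 140)) (lf (nat_lit 11) (nat_lit 183)))))))))))) (nd (nat_lit 141) (nat_lit 0) (cs (lf (nat_lit 24) (nat_lit 119)) (nd (nat_lit 140) (nat_lit 0) (cs (rf (nat_lit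 7)) (cs (nd (nat_lit 161) (nat_lit 0) (cs (lf (nat_lit 0) (nat_lit 160)) (nd (nat_lit 142) (nat_lit 0) (cs (lf (nat_lit 6) (nat_lit 139)) (nd (nat_lit 120) (nat_lit 0) (cs (lf (nat_lit 30) (nat_lit 119)) (nd (nat_lit 139) (nat_lit 0) (cs (lf (nat_lit 17) (nat_lit 117)) (rf (nat_lit 8)))))))))) (nd (nat_lit 139) (nat_lit 0) (cs (rf (nat_lit 9)) (cs (rf (nat_lit 10)) (cs (rf (nat_lit 11)) (rf (nat_lit 12))))))))))))))) q40501 (by decide +kernel)
def q40506 : Q := Q.p (nat_lit 0x80001c0000000000000000000000000000000000000000) (nat_lit 0x20000040002200001c0000400001000000000000000000000000) (nat_lit 5)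
theorem c40506 : QOK q40506 := cut [q8700] ⟨c8700, trivial⟩ (nd (nat_lit 161) (nat_lit 0) (cs (lf (nat_lit 11) (nat_lit 160)) (rf (nat_lit 0)))) q40506 (by decide +kernel)
def q40536 : Q := Q.p (nat_lit 0x80000000003c00001000000000000000000000000000000000000000000000000000000000) (nat_lit 0xf8000360001d8000000001a000000000000000000000000000000000000000000000000000000000) (nat_lit 9)
theorem c40536 : QOK q40536 := cut [q40534] ⟨c40534, trivial⟩ (nd (nat_lit 275) (nat_lit 0) (cs (lf (nat_lit 5) (nat_lit 250)) (nd (nat_lit 272) (nat_lit 0) (cs (lf (nat_lit 11) (nat_lit 249)) (rf (nat_lit 0)))))) q40536 (by decide +kernel)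
def q40560 : Q := Q.p (nat_lit 0x80000000003c00001000000000000000000000000000000000000000000000000000000000) (nat_lit 0x10000040001b8000000001a00000e000018000060000000000000000000000000000000000000000) (nat_lit 9)
theorem c40560 : QOK q40560 := cut [q40558] ⟨c40558, trivial⟩ (nd (nat_lit 275) (nat_lit 0) (cs (lf (nat_lit 5) (nat_lit 250)) (nd (nat_lit 231) (nat_lit 0) (cs (lf (nat_lit 17) (nat_lit 228)) (rf (nat_lit 0)))))) q40560 (by decide +kernel)
def q40573 : Q := Q.p (nat_lit 0x40000100000400001000000000000000000000000000000000000000000000000000000000) (nat_lit 0xa0000380000a0000000000000000000000000000000000000000000000000000000000000000000000000) (nat_lit 4)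
theorem c40573 : QOK q40573 := cut [q40572] ⟨c40572, trivial⟩ (nd (nat_lit 315) (nat_lit 0) (cs (lf (nat_lit 40) (nat_lit 227)) (rf (nat_lit 0)))) q40573 (by decide +kernel)
def q40586 : Q := Q.p (nat_lit 0x1e00000000000000000000000000000000000000000000000000000000000000) (nat_lit 0x770000180000e00000000000000000000000000000000000000000000000000000000) (nat_lit 6)
theorem c40586 : QOK q40586 := cut [q15253] ⟨c15253, trivial⟩ (nd (nat_lit 226) (nat_lit 0) (cs (lf (nat_lit 22) (nat_lit 226)) (nd (nat_lit 248) (nat_lit 0) (cs (lf (nat_lit 23) (nat_lit 225)) (rf (nat_lit 0)))))) q40586 (by decide +kernel)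
def q40595 : Q := Q.p (nat_lit 0x400001000004000010000000000000000000000000000000000000000000000) (nat_lit 0x800002000000000000000280000e0000280000000000000000000000000000000000) (nat_lit 5)
theorem c40595 : QOK q40595 := cut [q3767] ⟨c3767, trivial⟩ (nd (nat_lit 249) (nat_lit 0) (cs (lf (nat_lit 41) (nat_lit 183)) (rf (nat_lit 0)))) q40595 (by decide +kernel)
def q40600 : Q := Q.p (nat_lit 0x3c0000000000c000000000000000000000000000000000000000000000000000) (nat_lit 0x80000380000000001000000000030000000000000000000000000000000000000000000000) (nat_lit 4)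
theorem c40600 : QOK q40600 := cut [q40599] ⟨c40599, trivial⟩ (nd (nat_lit 272) (nat_lit 0) (cs (lf (nat_lit 11) (nat_lit 249)) (rf (nat_lit 0)))) q40600 (by decide +kernel)
def q40643 : Q := Q.p (nat_lit 0xc0000300000c00000000000000000000000000000000000000000000000000000000000000) (nat_lit 0x180001e0000130000000000000000000000000000000000000000000000000000000000000000000000000) (nat_lit 5)
theorem c40643 : QOK q40643 := cut [q40641] ⟨c40641, trivial⟩ (nd (nat_lit 317) (nat_lit 0) (cs (lf (nat_lit 42) (nat_lit 250)) (nd (nat_lit 318) (nat_lit 0) (cs (lf (nat_lit 29) (nat_lit 251)) (rf (nat_lit 0)))))) q40643 (by decide +kernel)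
def q40731 : Q := Q.p (nat_lit 0x3c00000000000000000000000000000000000000000000000000000000000000) (nat_lit 0xe80003e0001f8000000001980000e0000380000e0000280000000000000000000000000000000000) (nat_lit 13)
theorem c40731 : QOK q40731 := cut [q40708, q27848, q40530, q40729] ⟨c40708, c27848, c40530, c40729, trivial⟩ (nd (nat_lit 228) (nat_lit 0) (cs (lf (nat_lit 23) (nat_lit 227)) (nd (nat_lit 206) (nat_lit 0) (cs (rf (nat_lit 0)) (cs (nd (nat_lit 275) (nat_lit 0) (cs (lf (nat_lit 5) (nat_lit 250)) (rf (nat_lit 1)))) (cs (nd (nat_lit 272) (nat_lit 0) (cs (lf (nat_lit 11) (nat_lit 249)) (nd (nat_lit 275) (nat_lit 0) (cs (lf (nat_lit 5) (nat_lit 250)) (nd (nat_lit 183) (nat_lit 0) (cs (lf (nat_lit 46) (nat_lit 183)) (nd (nat_lit 185) (nat_lit 0) (cs (lf (nat_lit 34) (nat_lit 184)) (nd (nat_lit 231) (nat_lit 0) (cs (lf (nat_lit 17) (nat_lit 228)) (nd (nat_lit 295) (nat_lit 0) (cs (lf (nat_lit 28) (nat_lit 206)) (nd (nat_lit 294) (nat_lit 0) (cs (lf (nat_lit 29) (nat_lit 228)) (nd (nat_lit 293) (nat_lit 0)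 (cs (lf (nat_lit 41) (nat_lit 227)) (rf (nat_lit 2)))))))))))))))))) (rf (nat_lit 3)))))))) q40731 (by decide +kernel)
def q40738 : Q := Q.p (nat_lit 0x3c00000000000000000000000000000000000000000000000000000000000000) (nat_lit 0xee0000300001c00000000000000000000000000000000000000000000000000000000) (nat_lit 6)
theorem c40738 : QOK q40738 := cut [q40736] ⟨c40736, trivial⟩ (nd (nat_lit 227) (nat_lit 0) (cs (lf (nat_lit 22) (nat_lit 227)) (nd (nat_lit 249) (nat_lit 0) (cs (lf (nat_lit 23) (nat_lit 226)) (rf (nat_lit 0)))))) q40738 (by decide +kernel)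
def q40773 : Q := Q.p (nat_lit 0x3c00000000000000000000000000000000000000000000000000000000000000) (nat_lit 0xfc0000300000e00000000000000000000000000000000000000000000000000000000) (nat_lit 6)
theorem c40773 : QOK q40773 := cut [q40771] ⟨c40771, trivial⟩ (nd (nat_lit 271) (nat_lit 0) (cs (lf (nat_lit 10) (nat_lit 249)) (nd (nat_lit 249) (nat_lit 0) (cs (lf (nat_lit 11) (nat_lit 248)) (rf (nat_lit 0)))))) q40773 (by decide +kernel)
def q40776 : Q := Q.p (nat_lit 0x400000e00000000000000000000000000000000000000000000000000000000000000) (nat_lit 0x270000180000700000000000000000000000000000000000000000000000000000000) (nat_lit 5)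
theorem c40776 : QOK q40776 := cut [q4123] ⟨c4123, trivial⟩ (nd (nat_lit 248) (nat_lit 0) (cs (rf (nat_lit 0)) (lf (nat_lit 4) (nat_lit 248)))) q40776 (by decide +kernel)
def q40795 : Q := Q.p (nat_lit 0x80000100000400001000000000000000000000000000000000000000000000000000000000) (nat_lit 0x20000000000000000e0000380000a0000000000000000000000000000000000000000) (nat_lit 5)
theorem c40795 : QOK q40795 := cut [q2085] ⟨c2085, trivial⟩ (nd (nat_lit 206) (nat_lit 0) (cs (rf (nat_lit 0)) (lf (nat_lit 28) (nat_lit 206)))) q40795 (by decide +kernel)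
def q40880 : Q := Q.p (nat_lit 0x40000300000c00000000000000000000000000000000000000000000000000000000) (nat_lit 0xe000038000020000000000000001800006000018000000000000000000000000000000000000000) (nat_lit 7)
theorem c40880 : QOK q40880 := cut [q40878] ⟨c40878, trivial⟩ (nd (nat_lit 292) (nat_lit 0) (cs (lf (nat_lit 30) (nat_lit 226)) (nd (nat_lit 293) (nat_lit 0) (cs (lf (nat_lit 29) (nat_lit 226)) (rf (nat_lit 0)))))) q40880 (by decide +kernel)
def q40965 : Q := Q.p (nat_lit 0x600000800002000000000000000000000000000000000000000000000000000) (nat_lit 0x140000100000400000000018000060000100000000000000000000000000000000000) (nat_lit 5)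
theorem c40965 : QOK q40965 := cut [q12078] ⟨c12078, trivial⟩ (nd (nat_lit 183) (nat_lit 0) (cs (lf (nat_lit 29) (nat_lit 183)) (rf (nat_lit 0)))) q40965 (by decide +kernel)
def q40977 : Q := Q.p (nat_lit 0x80000600000800002000000000000000000000000000000000000000000000000000) (nat_lit 0x600007c00007c0003400001c0000400000000000000000000000000000000000000000000000000000000) (nat_lit 10)
theorem c40977 : QOK q40977 := cut [q40969] ⟨c40969, trivial⟩ (nd (nat_lit 292) (nat_lit 0) (cs (lf (nat_lit 40) (nat_lit 204)) (nd (nat_lit 272) (nat_lit 0) (cs (lf (nat_lit 29) (nat_lit 205)) (nd (nat_lit 293) (nat_lit 0) (cs (lf (nat_lit 41) (nat_lit 226)) (nd (nat_lit 315) (nat_lit 0) (cs (lf (nat_lit 30) (nat_lit 249)) (nd (nat_lit 316) (nat_lit 0) (cs (nd (nat_lit 317) (nat_lit 0) (cs (lf (nat_lit 18) (nat_lit 292)) (nd (nat_lit 290) (nat_lit 0) (cs (lf (nat_lit 1) (nat_lit 290)) (rf (nat_lit 0)))))) (lf (nat_lit 29) (nat_lit 249)))))))))))) q40977 (by decide +kernel)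
def q40987 : Q := Q.p (nat_lit 0x200000800002000040000000000000000000000000000000000000000000000) (nat_lit 0xc00001000004000050000bc000070000040000000000000000000000000000000000) (nat_lit 5)
theorem c40987 : QOK q40987 := cut [q40983, q40986] ⟨c40983, c40986, trivial⟩ (nd (nat_lit 183) (nat_lit 0) (cs (rf (nat_lit 0)) (rf (nat_lit 1)))) q40987 (by decide +kernel)
def q40988 : Q := Q.p (nat_lit 0x600000800002000000000000000000000000000000000000000000000000000) (nat_lit 0x14000010000040000000000c000030000040000000000000000000000000000000000) (nat_lit 5)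
theorem c40988 : QOK q40988 := cut [q40983] ⟨c40983, trivial⟩ (nd (nat_lit 183) (nat_lit 0) (cs (lf (nat_lit 29) (nat_lit 183)) (rf (nat_lit 0)))) q40988 (by decide +kernel)
def q40989 : Q := Q.p (nat_lit 0x600000800002000000000000000000000000000000000000000000000000000) (nat_lit 0x10000000000000000000001c000070000140000000000000000000000000000000000) (nat_lit 5)
theorem c40989 : QOK q40989 := cut [q26947] ⟨c26947, trivial⟩ (nd (nat_lit 183) (nat_lit 0) (cs (lf (nat_lit 29) (nat_lit 183)) (rf (nat_lit 0)))) q40989 (by decide +kernel)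
def q41052 : Q := Q.p (nat_lit 0x80000200000800002000000000000000000000000000000000000000000000) (nat_lit 0x10000040000100000000004000018000040000000000000000000000000000000000) (nat_lit 4)
theorem c41052 : QOK q41052 := cut [q41051] ⟨c41051, trivial⟩ (nd (nat_lit 246) (nat_lit 0) (cs (lf (nat_lit 41) (nat_lit 180)) (rf (nat_lit 0)))) q41052 (by decide +kernel)
def q41171 : Q := Q.p (nat_lit 0x800012000048000000000000000000000000000000000000000000000) (nat_lit 0x10000070000d0000300000f00001c0000500000000000000000000000000000) (nat_lit 8)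
theorem c41171 : QOK q41171 := cut [q3435, q5260, q5267, q40035] ⟨c3435, c5260, c5267, c40035, trivial⟩ (nd (nat_lit 161) (nat_lit 0) (cs (rf (nat_lit 0)) (cs (rf (nat_lit 1)) (cs (rf (nat_lit 2)) (nd (nat_lit 226) (nat_lit 0) (cs (lf (nat_lit 41) (nat_lit 160)) (nd (nat_lit 206) (nat_lit 0) (cs (lf (nat_lit 7) (nat_lit 204)) (nd (nat_lit 224) (nat_lit 0) (cs (lf (nat_lit 13) (nat_lit 202)) (nd (nat_lit 162) (nat_lit 0) (cs (lf (nat_lit 35) (nat_lit 139)) (nd (nat_lit 160) (nat_lit 0) (cs (lf (nat_lit 47) (nat_lit 138)) (rf (nat_lit 3)))))))))))))))) q41171 (by decide +kernel)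
def q41198 : Q := Q.p (nat_lit 0x400000800002000008000000000000000000000000000000000000000000000) (nat_lit 0x100000200001000000000010000060000100000000000000000000000000000000000) (nat_lit 4)
theorem c41198 : QOK q41198 := cut [q41174] ⟨c41174, trivial⟩ (nd (nat_lit 249) (nat_lit 0) (cs (lf (nat_lit 29) (nat_lit 183)) (rf (nat_lit 0)))) q41198 (by decide +kernel)
def q41242 : Q := Q.p (nat_lit 0x400001c00010000000000000000000000000000000000000000000000000000) (nat_lit 0x10000000000200000e000030000080000200000000000000000000000000000000000) (nat_lit 5)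
theorem c41242 : QOK q41242 := cut [q3392] ⟨c3392, trivial⟩ (nd (nat_lit 207) (nat_lit 0) (cs (lf (nat_lit 15) (nat_lit 204)) (nd (nat_lit 206) (nat_lit 0) (cs (lf (nat_lit 9) (nat_lit 204)) (rf (nat_lit 0)))))) q41242 (by decide +kernel)
def q41272 : Q := Q.p (nat_lit 0x1e00000000000000000000000000000000000000000000000000000000) (nat_lit 0x10000040000180002000001c00002000008000000000000000000000000000000000000000) (nat_lit 5)
theorem c41272 : QOK q41272 := cut [q41265, q41270] ⟨c41265, c41270, trivial⟩ (nd (nat_lit 203) (nat_lit 0) (cs (lf (nat_lit 23) (nat_lit 202)) (nd (nat_lit 248) (nat_lit 0) (cs (nd (nat_lit 229) (nat_lit 0) (cs (lf (nat_lit 11) (nat_lit 225)) (lf (nat_lit 22) (nat_lit 203)))) (cs (nd (nat_lit 247) (nat_lit 0) (cs (lf (nat_lit 6) (nat_lit 225)) (rf (nat_lit 0)))) (rf (nat_lit 1))))))) q41272 (by decide +kernel)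
def q41406 : Q := Q.p (nat_lit 0x3c00000000000000000000000000000000000000000000000000000000000000) (nat_lit 0x80000e0000f80003e0001d8000000001b800008000020000000000000000000000000000000000000000000000) (nat_lit 11)
theorem c41406 : QOK q41406 := cut [q22937, q41392, q40530] ⟨c22937, c41392, c40530, trivial⟩ (nd (nat_lit 272) (nat_lit 0) (cs (lf (nat_lit 11) (nat_lit 249)) (nd (nat_lit 294) (nat_lit 0) (cs (rf (nat_lit 0)) (cs (nd (nat_lit 275) (nat_lit 0) (cs (lf (nat_lit 5) (nat_lit 250)) (nd (nat_lit 231) (nat_lit 0) (cs (lf (nat_lit 17) (nat_lit 228)) (nd (nat_lit 316) (nat_lit 0) (cs (lf (nat_lit 35) (nat_lit 228)) (nd (nat_lit 337) (nat_lit 0) (cs (lf (nat_lit 40) (nat_lit 249)) (nd (nat_lit 317) (nat_lit 0) (cs (lf (nat_lit 29) (nat_lit 250)) (nd (nat_lit 338) (nat_lit 0) (cs (lf (nat_lit 41) (nat_lit 271)) (nd (nat_lit 318) (nat_lit 0) (cs (lf (nat_lit 6) (nat_lit 315)) (rf (nat_lit 1)))))))))))))))) (nd (nat_lit 228) (nat_lit 0) (cs (lf (nat_lit 23) (nat_lit 227)) (nd (nat_lit 275) (nat_lit 0)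 (cs (lf (nat_lit 5) (nat_lit 250)) (nd (nat_lit 293) (nat_lit 0) (cs (lf (nat_lit 41) (nat_lit 227)) (nd (nat_lit 231) (nat_lit 0) (cs (lf (nat_lit 17) (nat_lit 228)) (nd (nat_lit 295) (nat_lit 0) (cs (lf (nat_lit 29) (nat_lit 228)) (rf (nat_lit 2))))))))))))))))) q41406 (by decide +kernel)
def q41460 : Q := Q.p (nat_lit 0x200000800003c00000000000000000000000000000000000000000000000000000000000000) (nat_lit 0x500001c0000500000000000000018000000000000000000000000000000000000000000000000000000000) (nat_lit 5)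
theorem c41460 : QOK q41460 := cut [q41459] ⟨c41459, trivial⟩ (nd (nat_lit 231) (nat_lit 0) (cs (lf (nat_lit 17) (nat_lit 228)) (rf (nat_lit 0)))) q41460 (by decide +kernel)
def q41488 : Q := Q.p (nat_lit 0x10000040000100000400000000000000000000000000000000000000000000000000000000000000) (nat_lit 0xa0000280000a0000000000000001000000000000000000000000000000000000000000000000000000000) (nat_lit 4)
theorem c41488 : QOK q41488 := cut [q41487] ⟨c41487, trivial⟩ (nd (nat_lit 315) (nat_lit 0) (cs (lf (nat_lit 41) (nat_lit 249)) (rf (nat_lit 0)))) q41488 (by decide +kernel)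
def q41517 : Q := Q.p (nat_lit 0x80000100001c000040000000000000000000000000000000000000000000000) (nat_lit 0x20000000000200000380008e000000000000000000000000000000000000000000000) (nat_lit 5)
theorem c41517 : QOK q41517 := cut [q32622] ⟨c32622, trivial⟩ (nd (nat_lit 229) (nat_lit 0) (cs (lf (nat_lit 30) (nat_lit 185)) (rf (nat_lit 0)))) q41517 (by decide +kernel)
def q41522 : Q := Q.p (nat_lit 0x3c00001000004000040000000000000000000000000000000000000000000000) (nat_lit 0x1a00000a0001b8000ee0000280000000000000000000000000000000000) (nat_lit 8)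
theorem c41522 : QOK q41522 := cut [q2073, q2512, q19094] ⟨c2073, c2512, c19094, trivial⟩ (nd (nat_lit 184) (nat_lit 0) (cs (rf (nat_lit 0)) (cs (rf (nat_lit 1)) (nd (nat_lit 231) (nat_lit 0) (cs (lf (nat_lit 17) (nat_lit 228)) (nd (nat_lit 161) (nat_lit 0) (cs (lf (nat_lit 46) (nat_lit 161)) (nd (nat_lit 185) (nat_lit 0) (cs (lf (nat_lit 35) (nat_lit 162)) (rf (nat_lit 2))))))))))) q41522 (by decide +kernel)
def q41602 : Q := Q.p (nat_lit 0x1e00000000006000000000000000000000000000000000000000000000000000) (nat_lit 0x80000000000c00000000018000040000100000000000000000000000000000000000) (nat_lit 4)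
theorem c41602 : QOK q41602 := cut [q23805] ⟨c23805, trivial⟩ (nd (nat_lit 227) (nat_lit 0) (cs (lf (nat_lit 23) (nat_lit 226)) (rf (nat_lit 0)))) q41602 (by decide +kernel)
def q41675 : Q := Q.p (nat_lit 0x200001e000000000000000000000000000000000000000000000000000) (nat_lit 0x170000180000e000000000000000000000000000000000000000000000) (nat_lit 5)
theorem c41675 : QOK q41675 := cut [q41673] ⟨c41673, trivial⟩ (nd (nat_lit 182) (nat_lit 0) (cs (lf (nat_lit 22) (nat_lit 182)) (nd (nat_lit 204) (nat_lit 0) (cs (lf (nat_lit 23) (nat_lit 181)) (rf (nat_lit 0)))))) q41675 (by decide +kernel)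
def q41726 : Q := Q.p (nat_lit 0xc0000000000800003c00000000000000000000000000000000000000000000000000000000000000) (nat_lit 0x50000100000600000000000000018000000000000000000000000000000000000000000000000000000000) (nat_lit 4)
theorem c41726 : QOK q41726 := cut [q41725] ⟨c41725, trivial⟩ (nd (nat_lit 231) (nat_lit 0) (cs (lf (nat_lit 17) (nat_lit 228)) (rf (nat_lit 0)))) q41726 (by decide +kernel)
def q41733 : Q := Q.p (nat_lit 0x1e0000000000000000000000000000000000000000000000000000000000000000000000000000000) (nat_lit 0xee000010000000000000000000000000000000000000000000000000000000000000000000000000000000) (nat_lit 4)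
theorem c41733 : QOK q41733 := cut [q41732] ⟨c41732, trivial⟩ (nd (nat_lit 342) (nat_lit 0) (cs (lf (nat_lit 5) (nat_lit 317)) (rf (nat_lit 0)))) q41733 (by decide +kernel)
def q41739 : Q := Q.p (nat_lit 0x1e0000000000000003c00000000000000000000000000000000000000000000000000000000000000) (nat_lit 0xe00000100000e0000000000000018000000000000000000000000000000000000000000000000000000000) (nat_lit 5)
theorem c41739 : QOK q41739 := cut [q41738] ⟨c41738, trivial⟩ (nd (nat_lit 231) (nat_lit 0) (cs (lf (nat_lit 17) (nat_lit 228)) (rf (nat_lit 0)))) q41739 (by decide +kernel)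
def q41751 : Q := Q.p (nat_lit 0x20000070000000000000000000000000000000000000000000000000000000000000000000000000000000) (nat_lit 0x1380000c000038000000000000000000000000000000000000000000000000000000000000000000000000) (nat_lit 5)
theorem c41751 : QOK q41751 := cut [q25254] ⟨c25254, trivial⟩ (nd (nat_lit 315) (nat_lit 0) (cs (rf (nat_lit 0)) (lf (nat_lit 4) (nat_lit 315)))) q41751 (by decide +kernel)
def q41756 : Q := Q.p (nat_lit 0x1e0000000000000003c00000000000000000000000000000000000000000000000000000000000000) (nat_lit 0x1c0000200001c00000000000000018000000000000000000000000000000000000000000000000000000000) (nat_lit 5)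
theorem c41756 : QOK q41756 := cut [q41754] ⟨c41754, trivial⟩ (nd (nat_lit 343) (nat_lit 0) (cs (lf (nat_lit 4) (nat_lit 317)) (nd (nat_lit 231) (nat_lit 0) (cs (lf (nat_lit 17) (nat_lit 228)) (rf (nat_lit 0)))))) q41756 (by decide +kernel)
def q41772 : Q := Q.p (nat_lit 0xf0000000000000000000000000000000000000000000000000000000000000000000000000000000) (nat_lit 0x3f00000c000038000000000000000000000000000000000000000000000000000000000000000000000000) (nat_lit 6)
theorem c41772 : QOK q41772 := cut [q41770] ⟨c41770, trivial⟩ (nd (nat_lit 337) (nat_lit 0) (cs (lf (nat_lit 10) (nat_lit 315)) (nd (nat_lit 315) (nat_lit 0) (cs (lf (nat_lit 11) (nat_lit 314)) (rf (nat_lit 0)))))) q41772 (by decide +kernel)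
def q41783 : Q := Q.p (nat_lit 0x800001c00000000000000000000000000000000000000000000000000000000000000) (nat_lit 0x4e0000300000e00000000000000000000000000000000000000000000000000000000) (nat_lit 5)
theorem c41783 : QOK q41783 := cut [q11143] ⟨c11143, trivial⟩ (nd (nat_lit 249) (nat_lit 0) (cs (lf (nat_lit 4) (nat_lit 249)) (rf (nat_lit 0)))) q41783 (by decide +kernel)
def q41825 : Q := Q.p (nat_lit 0xf0000000000000000000000000000000000000000000000000000000000000000000000000000000) (nat_lit 0x67000008000070000000000000000000000000000000000000000000000000000000000000000000000000) (nat_lit 5)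
theorem c41825 : QOK q41825 := cut [q25666] ⟨c25666, trivial⟩ (nd (nat_lit 341) (nat_lit 0) (cs (lf (nat_lit 5) (nat_lit 316)) (rf (nat_lit 0)))) q41825 (by decide +kernel)
def q41867 : Q := Q.p (nat_lit 0x78000000000000000000000000000000000000000000000000000000000000000000000000000000) (nat_lit 0x39c0000600001c000000000000000000000000000000000000000000000000000000000000000000000000) (nat_lit 6)
theorem c41867 : QOK q41867 := cut [q14178] ⟨c14178, trivial⟩ (nd (nat_lit 340) (nat_lit 0) (cs (lf (nat_lit 5) (nat_lit 315)) (nd (nat_lit 314) (nat_lit 0) (cs (rf (nat_lit 0)) (lf (nat_lit 4) (nat_lit 314)))))) q41867 (by decide +kernel)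
def q41909 : Q := Q.p (nat_lit 0xf0000300000000000000000000000000000000000000000000000000000000000000000000000000) (nat_lit 0x6e000700000080000000000000000000000000000000000000000000000000000000000000000000000000) (nat_lit 5)
theorem c41909 : QOK q41909 := cut [q41908] ⟨c41908, trivial⟩ (nd (nat_lit 341) (nat_lit 0) (cs (lf (nat_lit 5) (nat_lit 316)) (rf (nat_lit 0)))) q41909 (by decide +kernel)
def q41937 : Q := Q.p (nat_lit 0x70000100000000000400000000000000000000000000000000000000000000000000000000000000) (nat_lit 0xf80008c0000f00003800003c0000c00000000000000000000000000000000000000000000000000000000) (nat_lit 9)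
theorem c41937 : QOK q41937 := cut [q40969] ⟨c40969, trivial⟩ (nd (nat_lit 315) (nat_lit 0) (cs (nd (nat_lit 336) (nat_lit 0) (cs (lf (nat_lit 10) (nat_lit 314)) (nd (nat_lit 314) (nat_lit 0) (cs (lf (nat_lit 11) (nat_lit 313)) (lf (nat_lit 16) (nat_lit 292)))))) (nd (nat_lit 293) (nat_lit 0) (cs (lf (nat_lit 23) (nat_lit 292)) (nd (nat_lit 294) (nat_lit 0) (cs (lf (nat_lit 18) (nat_lit 293)) (nd (nat_lit 272) (nat_lit 0) (cs (lf (nat_lit 29) (nat_lit 250)) (nd (nat_lit 249) (nat_lit 0) (cs (lf (nat_lit 47) (nat_lit 227)) (nd (nat_lit 271) (nat_lit 0) (cs (rf (nat_lit 0)) (lf (nat_lit 42) (nat_lit 249)))))))))))))) q41937 (by decide +kernel)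
def q41940 : Q := Q.p (nat_lit 0x60000100000000003000000000000000000000000000000000000000000000000000000000000000) (nat_lit 0x18000e80000c00000000008000000000000000000000000000000000000000000000000000000000) (nat_lit 5)
theorem c41940 : QOK q41940 := cut [q14317] ⟨c14317, trivial⟩ (nd (nat_lit 231) (nat_lit 0) (cs (lf (nat_lit 32) (nat_lit 230)) (nd (nat_lit 297) (nat_lit 0) (cs (rf (nat_lit 0)) (lf (nat_lit 38) (nat_lit 230)))))) q41940 (by decide +kernel)
def q41952 : Q := Q.p (nat_lit 0x40000380000000002000000000000000000000000000000000000000000000000000000000000000) (nat_lit 0x440007800000000008000000000000000000000000000000000000000000000000000000000) (nat_lit 4)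
theorem c41952 : QOK q41952 := cut [q11728] ⟨c11728, trivial⟩ (nd (nat_lit 275) (nat_lit 0) (cs (rf (nat_lit 0)) (lf (nat_lit 36) (nat_lit 230)))) q41952 (by decide +kernel)
def q41956 : Q := Q.p (nat_lit 0x380000800000000000000000000000000000000000000000000000000000000000000000000) (nat_lit 0x1c0000600011c0000000000000000000000000000000000000000000000000000000000000000000) (nat_lit 5)
theorem c41956 : QOK q41956 := cut [q41955] ⟨c41955, trivial⟩ (nd (nat_lit 294) (nat_lit 0) (cs (lf (nat_lit 17) (nat_lit 272)) (rf (nat_lit 0)))) q41956 (by decide +kernel)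
def q41960 : Q := Q.p (nat_lit 0x40000380000000002000000000000000000000000000000000000000000000000000000000000000) (nat_lit 0x40000330000c00003800000000008000000000000000000000000000000000000000000000000000000000) (nat_lit 5)
theorem c41960 : QOK q41960 := cut [q17012, q41959] ⟨c17012, c41959, trivial⟩ (nd (nat_lit 298) (nat_lit 0) (cs (rf (nat_lit 0)) (rf (nat_lit 1)))) q41960 (by decide +kernel)
def q41970 : Q := Q.p (nat_lit 0x10000380000000000000000000000000000000000000000000000000000000000000000000000000) (nat_lit 0x720000c00007000000000000000000000000000000000000000000000000000000000000000000000) (nat_lit 5)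
theorem c41970 : QOK q41970 := cut [q41965] ⟨c41965, trivial⟩ (nd (nat_lit 298) (nat_lit 0) (cs (lf (nat_lit 10) (nat_lit 294)) (rf (nat_lit 0)))) q41970 (by decide +kernel)
def q41974 : Q := Q.p (nat_lit 0x400001c0000080000000000000000000000000000000000000000000000000000000000000000000) (nat_lit 0x2e000030000040000000000000000000000000000000000000000000000000000000000000000000) (nat_lit 4)
theorem c41974 : QOK q41974 := cut [q41973] ⟨c41973, trivial⟩ (nd (nat_lit 293) (nat_lit 0) (cs (lf (nat_lit 23) (nat_lit 270)) (rf (nat_lit 0)))) q41974 (by decide +kernel)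
def q41985 : Q := Q.p (nat_lit 0x480001c0000000000000000000000000000000000000000000000000000000000000000000000000) (nat_lit 0x240000300000e0000000000000000000000000000000000000000000000000000000000000000000) (nat_lit 4)
theorem c41985 : QOK q41985 := cut [q41984] ⟨c41984, trivial⟩ (nd (nat_lit 293) (nat_lit 0) (cs (lf (nat_lit 11) (nat_lit 292)) (rf (nat_lit 0)))) q41985 (by decide +kernel)
def q42024 : Q := Q.p (nat_lit 0x40000700000000000000000000000000000000000000000000000000000000000000000000000000) (nat_lit 0x300000c0000720000880007000018000060000180000000000000000000000000000000000000000000000000000) (nat_lit 10)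
theorem c42024 : QOK q42024 := cut [q42023] ⟨c42023, trivial⟩ (nd (nat_lit 299) (nat_lit 0) (cs (lf (nat_lit 11) (nat_lit 295)) (rf (nat_lit 0)))) q42024 (by decide +kernel)
def q42038 : Q := Q.p (nat_lit 0x40000700000000000000000000000000000000000000000000000000000000000000000000000000) (nat_lit 0x300000c0000f8000188000f000018000060000180000000000000000000000000000000000000000000000000000) (nat_lit 10)
theorem c42038 : QOK q42038 := cut [q42005, q42023, q42037] ⟨c42005, c42023, c42037, trivial⟩ (nd (nat_lit 299) (nat_lit 0) (cs (rf (nat_lit 0)) (cs (rf (nat_lit 1)) (rf (nat_lit 2))))) q42038 (by decide +kernel)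
def q42202 : Q := Q.p (nat_lit 0x100001c0000000000000000000000000000000000000000000000000000000000000000000000000000000) (nat_lit 0x8000220001dc0000000000000000000000000000000000000000000000000000000000000000000000000) (nat_lit 5)
theorem c42202 : QOK q42202 := cut [q42201] ⟨c42201, trivial⟩ (nd (nat_lit 321) (nat_lit 0) (cs (lf (nat_lit 11) (nat_lit 317)) (rf (nat_lit 0)))) q42202 (by decide +kernel)
def q42218 : Q := Q.p (nat_lit 0x100001c0000000000000000000000000000000000000000000000000000000000000000000000000000000) (nat_lit 0x3a80006200001c0000000000000000000000000000000000000000000000000000000000000000000000000) (nat_lit 6)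
theorem c42218 : QOK q42218 := cut [q13060] ⟨c13060, trivial⟩ (nd (nat_lit 321) (nat_lit 0) (cs (lf (nat_lit 11) (nat_lit 317)) (nd (nat_lit 295) (nat_lit 0) (cs (lf (nat_lit 22) (nat_lit 295)) (nd (nat_lit 294) (nat_lit 0) (cs (lf (nat_lit 21) (nat_lit 294)) (rf (nat_lit 0)))))))) q42218 (by decide +kernel)
def q42232 : Q := Q.p (nat_lit 0xc0000100000c0000200000000000000000000000000000000000000000000000000000000000000000000000000) (nat_lit 0xcc0003200002e000000000100000000000000000000000000000000000000000000000000000000000000000000000000) (nat_lit 5)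
theorem c42232 : QOK q42232 := cut [q42221, q42231] ⟨c42221, c42231, trivial⟩ (nd (nat_lit 364) (nat_lit 0) (cs (rf (nat_lit 0)) (cs (nd (nat_lit 386) (nat_lit 0) (cs (nd (nat_lit 361) (nat_lit 0) (cs (nd (nat_lit 383) (nat_lit 0) (cs (lf (nat_lit 36) (nat_lit 295)) (lf (nat_lit 11) (nat_lit 360)))) (lf (nat_lit 5) (nat_lit 361)))) (lf (nat_lit 26) (nat_lit 297)))) (rf (nat_lit 1))))) q42232 (by decide +kernel)
def q42240 : Q := Q.p (nat_lit 0xc0000100000c0000200000000000000000000000000000000000000000000000000000000000000000000000000) (nat_lit 0xee0003300002e000000000000000000000000000000000000000000000000000000000000000000000000000000000000) (nat_lit 6)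
theorem c42240 : QOK q42240 := cut [q42221, q42231] ⟨c42221, c42231, trivial⟩ (nd (nat_lit 364) (nat_lit 0) (cs (rf (nat_lit 0)) (cs (rf (nat_lit 1)) (nd (nat_lit 386) (nat_lit 0) (cs (lf (nat_lit 26) (nat_lit 297)) (nd (nat_lit 361) (nat_lit 0) (cs (lf (nat_lit 5) (nat_lit 361)) (nd (nat_lit 382) (nat_lit 0) (cs (nd (nat_lit 360) (nat_lit 0) (cs (lf (nat_lit 4) (nat_lit 360)) (lf (nat_lit 11) (nat_lit 359)))) (lf (nat_lit 10) (nat_lit 360))))))))))) q42240 (by decide +kernel)
def q42247 : Q := Q.p (nat_lit 0xf0000000000000003400000000000000000000000000000000000000000000000000000000000000) (nat_lit 0x8000000000060000180000800002000000000000000000000000000000000000000000000000000000000) (nat_lit 4)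
theorem c42247 : QOK q42247 := cut [q42246] ⟨c42246, trivial⟩ (nd (nat_lit 294) (nat_lit 0) (cs (lf (nat_lit 23) (nat_lit 293)) (rf (nat_lit 0)))) q42247 (by decide +kernel)
def q42261 : Q := Q.p (nat_lit 0x100001c0000000000000000000000000000000000000000000000000000000000000000000000000000000) (nat_lit 0x388000600003800000000000000000000000000000000000000000000000000000000000000000000000000) (nat_lit 5)
theorem c42261 : QOK q42261 := cut [q14414] ⟨c14414, trivial⟩ (nd (nat_lit 321) (nat_lit 0) (cs (lf (nat_lit 11) (nat_lit 317)) (rf (nat_lit 0)))) q42261 (by decide +kernel)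
def q42320 : Q := Q.p (nat_lit 0x100000c0000000000000002000000000000000000000000000000000000000000000000000000000000000) (nat_lit 0x180001f80007e0001e0000738001fe0007b80000000000000000000000000000000000000000000000000000000000000000000) (nat_lit 12)
theorem c42320 : QOK q42320 := cut [q42285, q42299, q42296, q42307, q16759] ⟨c42285, c42299, c42296, c42307, c16759, trivial⟩ (nd (nat_lit 297) (nat_lit 0) (cs (lf (nat_lit 37) (nat_lit 252)) (nd (nat_lit 362) (nat_lit 0) (cs (lf (nat_lit 30) (nat_lit 296)) (nd (nat_lit 363) (nat_lit 0) (cs (rf (nat_lit 0)) (cs (rf (nat_lit 1)) (cs (nd (nat_lit 341) (nat_lit 0) (cs (rf (nat_lit 2)) (cs (rf (nat_lit 3)) (nd (nat_lit 298) (nat_lit 0) (cs (lf (nat_lit 35) (nat_lit 275)) (rf (nat_lit 4))))))) (nd (nat_lit 296) (nat_lit 0) (cs (lf (nat_lit 29) (nat_lit 296)) (nd (nat_lit 361) (nat_lit 0) (cs (lf (nat_lit 41) (nat_lit 295)) (nd (nat_lit 295) (nat_lit 0) (cs (lf (nat_lit 47) (nat_lit 273)) (nd (nat_lit 294) (nat_lit 0) (cs (lf (nat_lit 0) (nat_lit 293)) (nd (nat_lit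 271) (nat_lit 0) (cs (lf (nat_lit 22) (nat_lit 271)) (nd (nat_lit 316) (nat_lit 0) (cs (lf (nat_lit 11) (nat_lit 293)) (nd (nat_lit 298) (nat_lit 0) (cs (lf (nat_lit 10) (nat_lit 294)) (nd (nat_lit 276) (nat_lit 0) (cs (lf (nat_lit 17) (nat_lit 273)) (lf (nat_lit 31) (nat_lit 275)))))))))))))))))))))))))) q42320 (by decide +kernel)
def q42353 : Q := Q.p (nat_lit 0x180000c0000000000000000400000000000000000000000000000000000000000000000000000000000000) (nat_lit 0x800002000019800066000038000160000100000000000000000000000000000000000000000000000000000000000000000000) (nat_lit 7)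
theorem c42353 : QOK q42353 := cut [q42347, q42350] ⟨c42347, c42350, trivial⟩ (nd (nat_lit 338) (nat_lit 0) (cs (lf (nat_lit 12) (nat_lit 315)) (nd (nat_lit 341) (nat_lit 0) (cs (rf (nat_lit 0)) (nd (nat_lit 359) (nat_lit 0) (cs (lf (nat_lit 10) (nat_lit 337)) (rf (nat_lit 1)))))))) q42353 (by decide +kernel)
def q42396 : Q := Q.p (nat_lit 0x10000070000000000000003c00000000000000000000000000000000000000000000000000000000000000) (nat_lit 0x2b80000c000000000000000000018000000000000000000000000000000000000000000000000000000000) (nat_lit 5)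
theorem c42396 : QOK q42396 := cut [q42395] ⟨c42395, trivial⟩ (nd (nat_lit 231) (nat_lit 0) (cs (lf (nat_lit 17) (nat_lit 228)) (rf (nat_lit 0)))) q42396 (by decide +kernel)
def q42416 : Q := Q.p (nat_lit 0x10000070000000000000000800000000000000000000000000000000000000000000000000000000000000) (nat_lit 0x2380000c000180000200000000000000000000000000000000000000000000000000000000000000000000) (nat_lit 5)
theorem c42416 : QOK q42416 := cut [q42415] ⟨c42415, trivial⟩ (nd (nat_lit 315) (nat_lit 0) (cs (lf (nat_lit 5) (nat_lit 315)) (rf (nat_lit 0)))) q42416 (by decide +kernel)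
def q42419 : Q := Q.p (nat_lit 0x10000070000000000000000000000000000000000000000000000000000000000000000000000000000000) (nat_lit 0x2800000c000038000000000000000000000000000000000000000000000000000000000000000000000000) (nat_lit 4)
theorem c42419 : QOK q42419 := cut [q42418] ⟨c42418, trivial⟩ (nd (nat_lit 315) (nat_lit 0) (cs (lf (nat_lit 5) (nat_lit 315)) (rf (nat_lit 0)))) q42419 (by decide +kernel)
def q42445 : Q := Q.p (nat_lit 0x10000070000000000000000800000000010000040000000000000000000000000000000000000000000000) (nat_lit 0xf80008c0001f8000200000000002000008000000000000000000000000000000000000000000000000000) (nat_lit 7)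
theorem c42445 : QOK q42445 := cut [q25254, q42408, q42412] ⟨c25254, c42408, c42412, trivial⟩ (nd (nat_lit 315) (nat_lit 0) (cs (rf (nat_lit 0)) (cs (rf (nat_lit 1)) (rf (nat_lit 2))))) q42445 (by decide +kernel)
def q42452 : Q := Q.p (nat_lit 0x300000f0000000000000000000000000000000000000000000000000000000000000000000000000000000) (nat_lit 0xe000700001c00000000000000000000000000000000000000000000000000000000000000000000000000) (nat_lit 5)
theorem c42452 : QOK q42452 := cut [q42450] ⟨c42450, trivial⟩ (nd (nat_lit 338) (nat_lit 0) (cs (lf (nat_lit 11) (nat_lit 315)) (nd (nat_lit 320) (nat_lit 0) (cs (lf (nat_lit 13) (nat_lit 316)) (rf (nat_lit 0)))))) q42452 (by decide +kernel)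
def q42493 : Q := Q.p (nat_lit 0xc000010000040000000000000000000000000000000000000000000000000000000000000000000000000000000) (nat_lit 0x280000a0000ef0003380000f000000000100000000000000000000000000000000000000000000000000000000000000000000000000) (nat_lit 8)
theorem c42493 : QOK q42493 := cut [q42482, q42486, q42492] ⟨c42482, c42486, c42492, trivial⟩ (nd (nat_lit 361) (nat_lit 0) (cs (nd (nat_lit 385) (nat_lit 0) (cs (lf (nat_lit 24) (nat_lit 296)) (nd (nat_lit 407) (nat_lit 0) (cs (lf (nat_lit 42) (nat_lit 340)) (rf (nat_lit 0)))))) (cs (nd (nat_lit 364) (nat_lit 0) (cs (rf (nat_lit 1)) (nd (nat_lit 386) (nat_lit 0) (cs (lf (nat_lit 5) (nat_lit 361)) (nd (nat_lit 360) (nat_lit 0) (cs (lf (nat_lit 4) (nat_lit 360)) (nd (nat_lit 382) (nat_lit 0) (cs (lf (nat_lit 11) (nat_lit 359)) (lf (nat_lit 10) (nat_lit 360)))))))))) (rf (nat_lit 2))))) q42493 (by decide +kernel)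
def q42500 : Q := Q.p (nat_lit 0x80000e000010000000000000000000000000000000000000000000000000000000000000000000000000000000000000) (nat_lit 0x1c4000710000e0000000000000000000000000000000000000000000000000000000000000000000000000000000000000) (nat_lit 6)
theorem c42500 : QOK q42500 := cut [q42499] ⟨c42499, trivial⟩ (nd (nat_lit 364) (nat_lit 0) (cs (lf (nat_lit 11) (nat_lit 360)) (rf (nat_lit 0)))) q42500 (by decide +kernel)
def q42521 : Q := Q.p (nat_lit 0x1c000010000040000000000000000000000000000000000000000000000000000000000000000000000000000000) (nat_lit 0x20000ec000030000ec000000000000000000000000000000000000000000000000000000000000000000000000000000000000) (nat_lit 5)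
theorem c42521 : QOK q42521 := cut [q42516, q42520] ⟨c42516, c42520, trivial⟩ (nd (nat_lit 361) (nat_lit 0) (cs (nd (nat_lit 339) (nat_lit 0) (cs (lf (nat_lit 23) (nat_lit 338)) (rf (nat_lit 0)))) (rf (nat_lit 1)))) q42521 (by decide +kernel)
def q42558 : Q := Q.p (nat_lit 0x4000010000040000000000000000000000000000000000000000000000000000000000000000000000000000000) (nat_lit 0x80000e00003c00038000008000020000180000200000000000000000000000000000000000000000000000000000000000000000000) (nat_lit 6)
theorem c42558 : QOK q42558 := cut [q28621, q42463, q42557] ⟨c28621, c42463, c42557, trivial⟩ (nd (nat_lit 384) (nat_lit 0) (cs (rf (nat_lit 0)) (cs (rf (nat_lit 1)) (rf (nat_lit 2))))) q42558 (by decide +kernel)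
def q42563 : Q := Q.p (nat_lit 0x1000004000010000040000000000000000000000000000000000000000000000000000000000000000000000000000000) (nat_lit 0xa00006800003800000000000000100000000000000000000000000000000000000000000000000000000000000000000000000) (nat_lit 5)
theorem c42563 : QOK q42563 := cut [q42561] ⟨c42561, trivial⟩ (nd (nat_lit 383) (nat_lit 0) (cs (lf (nat_lit 41) (nat_lit 317)) (nd (nat_lit 361) (nat_lit 0) (cs (lf (nat_lit 36) (nat_lit 295)) (rf (nat_lit 0)))))) q42563 (by decide +kernel)
def q42568 : Q := Q.p (nat_lit 0x4000010000040000000000000000000000000000000000000000000000000000000000000000000000000000000) (nat_lit 0x280000e0000380000a000000000020000180000200000000000000000000000000000000000000000000000000000000000000000000) (nat_lit 6)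
theorem c42568 : QOK q42568 := cut [q42463, q42466, q42467, q42566] ⟨c42463, c42466, c42467, c42566, trivial⟩ (nd (nat_lit 384) (nat_lit 0) (cs (rf (nat_lit 0)) (cs (rf (nat_lit 1)) (cs (nd (nat_lit 383) (nat_lit 0) (cs (lf (nat_lit 41) (nat_lit 317)) (nd (nat_lit 296) (nat_lit 0) (cs (lf (nat_lit 40) (nat_lit 295)) (rf (nat_lit 2)))))) (nd (nat_lit 295) (nat_lit 0) (cs (lf (nat_lit 46) (nat_lit 295)) (rf (nat_lit 3)))))))) q42568 (by decide +kernel)
def q42583 : Q := Q.p (nat_lit 0xf000010000000000000000000000000000000000000000000000000000000000000000000000000000000000000) (nat_lit 0x700000c0000b800000000000000000000000000000000000000000000000000000000000000000000000000000000000) (nat_lit 5)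
theorem c42583 : QOK q42583 := cut [q42581] ⟨c42581, trivial⟩ (nd (nat_lit 381) (nat_lit 0) (cs (lf (nat_lit 10) (nat_lit 359)) (nd (nat_lit 359) (nat_lit 0) (cs (lf (nat_lit 11) (nat_lit 358)) (rf (nat_lit 0)))))) q42583 (by decide +kernel)
def q42679 : Q := Q.p (nat_lit 0x10000070000000000000000000000000000000000000000000000000000000000000000000000000000000) (nat_lit 0x2380000c000038000000000000000000000000000000000000000000000000000000000000000000000000) (nat_lit 5)
theorem c42679 : QOK q42679 := cut [q25254] ⟨c25254, trivial⟩ (nd (nat_lit 315) (nat_lit 0) (cs (lf (nat_lit 5) (nat_lit 315)) (rf (nat_lit 0)))) q42679 (by decide +kernel)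
def q42788 : Q := Q.p (nat_lit 0x4000010000040000000000000000000000000000000000000000000000000000000000000000000000000000000) (nat_lit 0x280007fc000fe0003bc00008000020000080000000000000000000000000000000000000000000000000000000000000000000000000) (nat_lit 12)
theorem c42788 : QOK q42788 := cut [q28615, q28621, q42566, q42772] ⟨c28615, c28621, c42566, c42772, trivial⟩ (nd (nat_lit 384) (nat_lit 0) (cs (rf (nat_lit 0)) (cs (rf (nat_lit 1)) (cs (rf (nat_lit 2)) (nd (nat_lit 383) (nat_lit 0) (cs (lf (nat_lit 41) (nat_lit 317)) (nd (nat_lit 382) (nat_lit 0) (cs (nd (nat_lit 295) (nat_lit 0) (cs (lf (nat_lit 46) (nat_lit 295)) (nd (nat_lit 363) (nat_lit 0) (cs (lf (nat_lit 12) (nat_lit 359)) (nd (nat_lit 364) (nat_lit 0) (cs (lf (nat_lit 6) (nat_lit 361)) (lf (nat_lit 9) (nat_lit 360)))))))) (cs (nd (nat_lit 385) (nat_lit 0) (cs (lf (nat_lit 29) (nat_lit 318)) (nd (nat_lit 403) (nat_lit 0) (cs (nd (nat_lit 381) (nat_lit 0) (cs (rf (nat_lit 3)) (lf (nat_lit 11) (nat_lit 380)))) (lf (nat_lit 10) (nat_lit 381))))))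 (nd (nat_lit 295) (nat_lit 0) (cs (lf (nat_lit 46) (nat_lit 295)) (nd (nat_lit 385) (nat_lit 0) (cs (lf (nat_lit 29) (nat_lit 318)) (nd (nat_lit 359) (nat_lit 0) (cs (lf (nat_lit 22) (nat_lit 359)) (nd (nat_lit 403) (nat_lit 0) (cs (lf (nat_lit 10) (nat_lit 381)) (nd (nat_lit 364) (nat_lit 0) (cs (lf (nat_lit 16) (nat_lit 360)) (nd (nat_lit 386) (nat_lit 0) (cs (lf (nat_lit 17) (nat_lit 361)) (nd (nat_lit 409) (nat_lit 0) (cs (lf (nat_lit 4) (nat_lit 383)) (nd (nat_lit 387) (nat_lit 0) (cs (lf (nat_lit 23) (nat_lit 361)) (lf (nat_lit 5) (nat_lit 384))))))))))))))))))))))))))) q42788 (by decide +kernel)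
def q42814 : Q := Q.p (nat_lit 0x4000010000040000000000000000000000000000000000000000000000000000000000000000000000000000000) (nat_lit 0xe80003a0000fc0007b0000ee000100000500000000000000000000000000000000000000000000000000000000000000000000000000) (nat_lit 13)
theorem c42814 : QOK q42814 := cut [q42554, q42792, q42473, q42486, q42515, q42551, q30135] ⟨c42554, c42792, c42473, c42486, c42515, c42551, c30135, trivial⟩ (nd (nat_lit 383) (nat_lit 0) (cs (nd (nat_lit 384) (nat_lit 0) (cs (lf (nat_lit 41) (nat_lit 317)) (nd (nat_lit 385) (nat_lit 0) (cs (lf (nat_lit 29) (nat_lit 318)) (nd (nat_lit 363) (nat_lit 0) (cs (lf (nat_lit 24) (nat_lit 296)) (rf (nat_lit 0)))))))) (cs (rf (nat_lit 1)) (cs (nd (nat_lit 363) (nat_lit 0) (cs (rf (nat_lit 2)) (cs (nd (nat_lit 361) (nat_lit 0) (cs (lf (nat_lit 36) (nat_lit 295)) (nd (nat_lit 364) (nat_lit 0) (cs (lf (nat_lit 11) (nat_lit 360)) (rf (nat_lit 3)))))) (nd (nat_lit 364) (nat_lit 0) (cs (rf (nat_lit 4)) (cs (rf (nat_lit 5)) (cs (nd (nat_lit 361) (nat_lit 0) (cs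 (lf (nat_lit 11) (nat_lit 360)) (nd (nat_lit 342) (nat_lit 0) (cs (lf (nat_lit 17) (nat_lit 339)) (nd (nat_lit 341) (nat_lit 0) (cs (lf (nat_lit 12) (nat_lit 338)) (nd (nat_lit 338) (nat_lit 0) (cs (nd (nat_lit 385) (nat_lit 0) (cs (lf (nat_lit 42) (nat_lit 318)) (nd (nat_lit 298) (nat_lit 0) (cs (lf (nat_lit 37) (nat_lit 297)) (nd (nat_lit 386) (nat_lit 0) (cs (lf (nat_lit 5) (nat_lit 361)) (nd (nat_lit 408) (nat_lit 0) (cs (nd (nat_lit 409) (nat_lit 0) (cs (lf (nat_lit 29) (nat_lit 342)) (lf (nat_lit 1) (nat_lit 383)))) (lf (nat_lit 42) (nat_lit 341)))))))))) (lf (nat_lit 1) (nat_lit 338)))))))))) (nd (nat_lit 361) (nat_lit 0) (cs (lf (nat_lit 11) (nat_lit 360)) (nd (nat_lit 342) (nat_lit 0) (cs (lf (nat_lit 17) (nat_lit 339)) (nd (nat_lit 341) (nat_lit 0) (cs (lf (nat_lit 12) (nat_lit 338)) (nd (nat_lit 365) (nat_lit 0) (cs (lf (nat_lit 10) (nat_lit 361)) (lf (nat_lit 18) (nat_lit 340))))))))))))))))) (nd (nat_lit 405) (nat_lit 0) (cs (rf (nat_lit 6)) (lf (nat_lit 39) (nat_lit 317)))))))) q42814 (by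 decide +kernel)
def q42838 : Q := Q.p (nat_lit 0x4000010000040000000000000000000000000000000000000000000000000000000000000000000000000000000) (nat_lit 0x280000e00003c00038000020000080000300000000000000000000000000000000000000000000000000000000000000000000000000) (nat_lit 6)
theorem c42838 : QOK q42838 := cut [q42557, q42830, q42837] ⟨c42557, c42830, c42837, trivial⟩ (nd (nat_lit 384) (nat_lit 0) (cs (rf (nat_lit 0)) (cs (rf (nat_lit 1)) (rf (nat_lit 2))))) q42838 (by decide +kernel)
def q42900 : Q := Q.p (nat_lit 0x6000010000040000000000000003400000000000000000000000000000000000000000000000000000000000000) (nat_lit 0x50001d700079c003ef800398001fe0007b80008800000000000000000000000000000000000000000000000000000000000000) (nat_lit 12)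
theorem c42900 : QOK q42900 := cut [q42839, q42842, q42508, q42847, q42852, q42518, q42845, q42881, q42886, q42891, q42733, q42893] ⟨c42839, c42842, c42508, c42847, c42852, c42518, c42845, c42881, c42886, c42891, c42733, c42893, trivial⟩ (nd (nat_lit 319) (nat_lit 0) (cs (rf (nat_lit 0)) (cs (nd (nat_lit 360) (nat_lit 0) (cs (rf (nat_lit 1)) (cs (nd (nat_lit 363) (nat_lit 0) (cs (rf (nat_lit 2)) (cs (nd (nat_lit 381) (nat_lit 0) (cs (lf (nat_lit 10) (nat_lit 359)) (rf (nat_lit 3)))) (cs (rf (nat_lit 4)) (cs (nd (nat_lit 364) (nat_lit 0) (cs (rf (nat_lit 5)) (cs (rf (nat_lit 6)) (cs (nd (nat_lit 337) (nat_lit 0) (cs (lf (nat_lit 22) (nat_lit 337)) (nd (nat_lit 381) (nat_lit 0) (cs (lf (nat_lit 10) (nat_lit 359)) (nd (nat_lit 387) (nat_lit 0) (cs (lf (nat_lit 4) (nat_lit 361)) (nd (nat_lit 365) (nat_lit 0) (cs (lf (nat_lit 5) (nat_lit 362)) (nd (nat_lit 366) (nat_lit 0) (cs (lf (nat_lit 22) (nat_lit 340)) (nd (nat_lit 344) (nat_lit 0) (cs (lf (nat_lit 17) (nat_lit 341)) (lf (nat_lit 16) (nat_lit 340))))))))))))))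 (nd (nat_lit 387) (nat_lit 0) (cs (lf (nat_lit 4) (nat_lit 361)) (nd (nat_lit 341) (nat_lit 0) (cs (lf (nat_lit 17) (nat_lit 338)) (nd (nat_lit 365) (nat_lit 0) (cs (lf (nat_lit 5) (nat_lit 362)) (lf (nat_lit 18) (nat_lit 340)))))))))))) (nd (nat_lit 341) (nat_lit 0) (cs (lf (nat_lit 17) (nat_lit 338)) (nd (nat_lit 384) (nat_lit 0) (cs (nd (nat_lit 338) (nat_lit 0) (cs (lf (nat_lit 23) (nat_lit 337)) (nd (nat_lit 339) (nat_lit 0) (cs (lf (nat_lit 17) (nat_lit 316)) (nd (nat_lit 316) (nat_lit 0) (cs (lf (nat_lit 23) (nat_lit 315)) (nd (nat_lit 294) (nat_lit 0) (cs (nd (nat_lit 295) (nat_lit 0) (cs (nd (nat_lit 293) (nat_lit 0) (cs (lf (nat_lit 3) (nat_lit 293)) (lf (nat_lit 47) (nat_lit 271)))) (lf (nat_lit 35) (nat_lit 272)))) (lf (nat_lit 24) (nat_lit 272)))))))))) (lf (nat_lit 30) (nat_lit 318))))))))))) (cs (nd (nat_lit 337) (nat_lit 0) (cs (nd (nat_lit 338) (nat_lit 0) (cs (lf (nat_lit 18) (nat_lit 337)) (lf (nat_lit 14) (nat_lit 315)))) (cs (nd (nat_lit 359) (nat_lit 0) (cs (lf (nat_lit 23) (nat_lit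 336)) (nd (nat_lit 339) (nat_lit 0) (cs (lf (nat_lit 12) (nat_lit 336)) (nd (nat_lit 320) (nat_lit 0) (cs (lf (nat_lit 6) (nat_lit 317)) (rf (nat_lit 7)))))))) (cs (nd (nat_lit 338) (nat_lit 0) (cs (lf (nat_lit 18) (nat_lit 337)) (rf (nat_lit 8)))) (nd (nat_lit 338) (nat_lit 0) (cs (lf (nat_lit 14) (nat_lit 315)) (rf (nat_lit 8)))))))) (rf (nat_lit 9)))))) (nd (nat_lit 342) (nat_lit 0) (cs (rf (nat_lit 10)) (nd (nat_lit 275) (nat_lit 0) (cs (lf (nat_lit 38) (nat_lit 252)) (nd (nat_lit 276) (nat_lit 0) (cs (lf (nat_lit 1) (nat_lit 250)) (nd (nat_lit 277) (nat_lit 0) (cs (lf (nat_lit 18) (nat_lit 252)) (nd (nat_lit 320) (nat_lit 0) (cs (lf (nat_lit 44) (nat_lit 253)) (nd (nat_lit 321) (nat_lit 0) (cs (lf (nat_lit 11) (nat_lit 317)) (rf (nat_lit 11))))))))))))))))) q42900 (by decide +kernel)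
def q42925 : Q := Q.p (nat_lit 0x4000010000040000000000000000000000000000000000000000000000000000000000000000000000000000000) (nat_lit 0x280000e0000380000a000000000080000300000800000000000000000000000000000000000000000000000000000000000000000000) (nat_lit 5)
theorem c42925 : QOK q42925 := cut [q42566, q42833, q42924] ⟨c42566, c42833, c42924, trivial⟩ (nd (nat_lit 384) (nat_lit 0) (cs (rf (nat_lit 0)) (cs (rf (nat_lit 1)) (rf (nat_lit 2))))) q42925 (by decide +kernel)
def q42947 : Q := Q.p (nat_lit 0x30000040000100000c0000000000000000000000000000000000000000000000000000000000000000000000000000000) (nat_lit 0x140000c0000330001ec000700001d80002000008000000000000000000000000000000000000000000000000000000000000000) (nat_lit 9)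
theorem c42947 : QOK q42947 := cut [q42930, q42939, q42941] ⟨c42930, c42939, c42941, trivial⟩ (nd (nat_lit 341) (nat_lit 0) (cs (lf (nat_lit 30) (nat_lit 318)) (nd (nat_lit 342) (nat_lit 0) (cs (nd (nat_lit 343) (nat_lit 0) (cs (lf (nat_lit 18) (nat_lit 318)) (lf (nat_lit 11) (nat_lit 339)))) (cs (nd (nat_lit 320) (nat_lit 0) (cs (rf (nat_lit 0)) (cs (nd (nat_lit 339) (nat_lit 0) (cs (lf (nat_lit 12) (nat_lit 316)) (nd (nat_lit 361) (nat_lit 0) (cs (lf (nat_lit 11) (nat_lit 338)) (nd (nat_lit 364) (nat_lit 0) (cs (lf (nat_lit 5) (nat_lit 339)) (nd (nat_lit 386) (nat_lit 0) (cs (lf (nat_lit 42) (nat_lit 319)) (lf (nat_lit 18) (nat_lit 361)))))))))) (rf (nat_lit 1))))) (nd (nat_lit 343) (nat_lit 0) (cs (lf (nat_lit 18) (nat_lit 318)) (nd (nat_lit 321) (nat_lit 0) (cs (lf (nat_lit 17) (nat_lit 318)) (nd (nat_lit 320) (nat_lit 0) (cs (lf (nat_lit 12) (nat_lit 317)) (nd (nat_lit 295) (nat_lit 0) (cs (lf (nat_lit 22) (nat_lit 295)) (rf (nat_lit 2))))))))))))))) q42947 (by decide +kernel)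
def q42971 : Q := Q.p (nat_lit 0x2000004000010000040000000000000002000000000000000000000000000000000000000000000000000000000000000) (nat_lit 0x740001d00007b0001ee000780000f00000800000000000000000000000000000000000000000000000000000000000000000000) (nat_lit 11)
theorem c42971 : QOK q42971 := cut [q42515, q42551, q42651, q42839] ⟨c42515, c42551, c42651, c42839, trivial⟩ (nd (nat_lit 363) (nat_lit 0) (cs (lf (nat_lit 24) (nat_lit 296)) (nd (nat_lit 364) (nat_lit 0) (cs (rf (nat_lit 0)) (cs (rf (nat_lit 1)) (cs (rf (nat_lit 2)) (nd (nat_lit 386) (nat_lit 0) (cs (nd (nat_lit 361) (nat_lit 0) (cs (lf (nat_lit 0) (nat_lit 360)) (lf (nat_lit 5) (nat_lit 361)))) (cs (nd (nat_lit 319) (nat_lit 0) (cs (rf (nat_lit 3)) (cs (nd (nat_lit 387) (nat_lit 0) (cs (lf (nat_lit 18) (nat_lit 362)) (nd (nat_lit 341) (nat_lit 0) (cs (lf (nat_lit 29) (nat_lit 319)) (nd (nat_lit 384) (nat_lit 0) (cs (lf (nat_lit 41) (nat_lit 318)) (nd (nat_lit 409) (nat_lit 0) (cs (lf (nat_lit 5) (nat_lit 384)) (nd (nat_lit 320) (nat_lit 0) (cs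 (lf (nat_lit 25) (nat_lit 320)) (lf (nat_lit 35) (nat_lit 297)))))))))))) (nd (nat_lit 341) (nat_lit 0) (cs (lf (nat_lit 29) (nat_lit 319)) (lf (nat_lit 24) (nat_lit 297))))))) (nd (nat_lit 361) (nat_lit 0) (cs (lf (nat_lit 0) (nat_lit 360)) (nd (nat_lit 342) (nat_lit 0) (cs (lf (nat_lit 17) (nat_lit 339)) (nd (nat_lit 320) (nat_lit 0) (cs (lf (nat_lit 36) (nat_lit 297)) (nd (nat_lit 338) (nat_lit 0) (cs (lf (nat_lit 22) (nat_lit 338)) (nd (nat_lit 321) (nat_lit 0) (cs (lf (nat_lit 35) (nat_lit 298)) (nd (nat_lit 319) (nat_lit 0) (cs (nd (nat_lit 341) (nat_lit 0) (cs (lf (nat_lit 29) (nat_lit 319)) (lf (nat_lit 6) (nat_lit 318)))) (lf (nat_lit 47) (nat_lit 297))))))))))))))))))))))) q42971 (by decide +kernel)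
def q42991 : Q := Q.p (nat_lit 0x4000010000040000000000000000000000000000000000000000000000000000000000000000000000000000000) (nat_lit 0x280007e0001fc0003b800020000080000200000000000000000000000000000000000000000000000000000000000000000000000000) (nat_lit 10)
theorem c42991 : QOK q42991 := cut [q42566, q42830, q42837, q31179, q31182, q31187, q31194] ⟨c42566, c42830, c42837, c31179, c31182, c31187, c31194, trivial⟩ (nd (nat_lit 384) (nat_lit 0) (cs (rf (nat_lit 0)) (cs (rf (nat_lit 1)) (cs (rf (nat_lit 2)) (nd (nat_lit 385) (nat_lit 0) (cs (lf (nat_lit 29) (nat_lit 318)) (nd (nat_lit 386) (nat_lit 0) (cs (rf (nat_lit 3)) (cs (nd (nat_lit 297) (nat_lit 0) (cs (rf (nat_lit 4)) (lf (nat_lit 34) (nat_lit 296)))) (cs (nd (nat_lit 297) (nat_lit 0) (cs (rf (nat_lit 5)) (lf (nat_lit 34) (nat_lit 296)))) (nd (nat_lit 297) (nat_lit 0) (cs (rf (nat_lit 6)) (lf (nat_lit 34) (nat_lit 296)))))))))))))) q42991 (by decide +kernel)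
def q43080 : Q := Q.p (nat_lit 0x10000060000000000000003c00000000000000000000000000000000000000000000000000000000000000) (nat_lit 0x10000040000000001900002f0001a00000000000000000000000000000000000000000000000000000000000000000000) (nat_lit 7)
theorem c43080 : QOK q43080 := cut [q43076] ⟨c43076, trivial⟩ (nd (nat_lit 275) (nat_lit 0) (cs (lf (nat_lit 5) (nat_lit 250)) (nd (nat_lit 319) (nat_lit 0) (cs (lf (nat_lit 38) (nat_lit 252)) (nd (nat_lit 295) (nat_lit 0) (cs (lf (nat_lit 25) (nat_lit 251)) (nd (nat_lit 362) (nat_lit 0) (cs (lf (nat_lit 42) (nat_lit 295)) (rf (nat_lit 0)))))))))) q43080 (by decide +kernel)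
def q43086 : Q := Q.p (nat_lit 0x10000070000000000000003c00000000000000000000000000000000000000000000000000000000000000) (nat_lit 0x7000088000270001800000000000000000000000000000000000000000000000000000000000000000000) (nat_lit 6)
theorem c43086 : QOK q43086 := cut [q13152] ⟨c13152, trivial⟩ (nd (nat_lit 275) (nat_lit 0) (cs (lf (nat_lit 5) (nat_lit 250)) (nd (nat_lit 319) (nat_lit 0) (cs (rf (nat_lit 0)) (lf (nat_lit 38) (nat_lit 252)))))) q43086 (by decide +kernel)
def q43091 : Q := Q.p (nat_lit 0x10000070000000000000003c00000000000000000000000000000000000000000000000000000000000000) (nat_lit 0xf00008c000238001800000000000000000000000000000000000000000000000000000000000000000000) (nat_lit 7)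
theorem c43091 : QOK q43091 := cut [q42418] ⟨c42418, trivial⟩ (nd (nat_lit 275) (nat_lit 0) (cs (lf (nat_lit 5) (nat_lit 250)) (nd (nat_lit 319) (nat_lit 0) (cs (lf (nat_lit 38) (nat_lit 252)) (nd (nat_lit 337) (nat_lit 0) (cs (lf (nat_lit 10) (nat_lit 315)) (nd (nat_lit 315) (nat_lit 0) (cs (lf (nat_lit 11) (nat_lit 314)) (rf (nat_lit 0)))))))))) q43091 (by decide +kernel)
def q43110 : Q := Q.p (nat_lit 0x10000040000000000000003c00000000010000040000000000000000000000000000000000000000000000) (nat_lit 0x220001880003f000038001ae00009000004000000000000000000000000000000000000000000000) (nat_lit 11)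
theorem c43110 : QOK q43110 := cut [q3762, q11143, q43070, q42389] ⟨c3762, c11143, c43070, c42389, trivial⟩ (nd (nat_lit 249) (nat_lit 0) (cs (rf (nat_lit 0)) (cs (rf (nat_lit 1)) (cs (rf (nat_lit 2)) (nd (nat_lit 272) (nat_lit 0) (cs (lf (nat_lit 11) (nat_lit 249)) (rf (nat_lit 3)))))))) q43110 (by decide +kernel)
def q43116 : Q := Q.p (nat_lit 0x10000040000000000000003c00000000010000040000000000000000000000000000000000000000000000) (nat_lit 0x40000040000bc0007f0001bc0000200002c00008000020000000000000000000000000000000000000000000000) (nat_lit 9)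
theorem c43116 : QOK q43116 := cut [q41894, q42449] ⟨c41894, c42449, trivial⟩ (nd (nat_lit 316) (nat_lit 0) (cs (rf (nat_lit 0)) (cs (rf (nat_lit 1)) (nd (nat_lit 275) (nat_lit 0) (cs (lf (nat_lit 5) (nat_lit 250)) (nd (nat_lit 297) (nat_lit 0) (cs (lf (nat_lit 39) (nat_lit 252)) (nd (nat_lit 296) (nat_lit 0) (cs (lf (nat_lit 30) (nat_lit 274)) (nd (nat_lit 317) (nat_lit 0) (cs (lf (nat_lit 12) (nat_lit 293)) (nd (nat_lit 295) (nat_lit 0) (cs (lf (nat_lit 6) (nat_lit 294)) (lf (nat_lit 25) (nat_lit 251))))))))))))))) q43116 (by decide +kernel)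
def q43360 : Q := Q.p (nat_lit 0x4000010000040000000000000000000000000000000000000000000000000000000000000000000000000000000) (nat_lit 0x2000018000060000380000b8000e80000a0000180000200000000000000000000000000000000000000000000000000000000000000000000) (nat_lit 9)
theorem c43360 : QOK q43360 := cut [q42466, q43334, q43331, q43336, q43344, q43355] ⟨c42466, c43334, c43331, c43336, c43344, c43355, trivial⟩ (nd (nat_lit 384) (nat_lit 0) (cs (rf (nat_lit 0)) (cs (rf (nat_lit 1)) (cs (nd (nat_lit 341) (nat_lit 0) (cs (nd (nat_lit 406) (nat_lit 0) (cs (lf (nat_lit 35) (nat_lit 318)) (rf (nat_lit 2)))) (cs (nd (nat_lit 406) (nat_lit 0) (cs (lf (nat_lit 35) (nat_lit 318)) (nd (nat_lit 363) (nat_lit 0) (cs (nd (nat_lit 296) (nat_lit 0) (cs (lf (nat_lit 29) (nat_lit 296)) (nd (nat_lit 273) (nat_lit 0) (cs (lf (nat_lit 46) (nat_lit 273)) (nd (nat_lit 361) (nat_lit 0) (cs (lf (nat_lit 41) (nat_lit 295)) (rf (nat_lit 3)))))))) (lf (nat_lit 30) (nat_lit 340)))))) (nd (nat_lit 383) (nat_lit 0) (cs (lf (nat_lit 41) (nat_lit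 317)) (nd (nat_lit 361) (nat_lit 0) (cs (lf (nat_lit 36) (nat_lit 295)) (rf (nat_lit 4))))))))) (cs (nd (nat_lit 317) (nat_lit 0) (cs (lf (nat_lit 47) (nat_lit 295)) (nd (nat_lit 406) (nat_lit 0) (cs (lf (nat_lit 46) (nat_lit 317)) (nd (nat_lit 341) (nat_lit 0) (cs (lf (nat_lit 35) (nat_lit 318)) (nd (nat_lit 342) (nat_lit 0) (cs (lf (nat_lit 18) (nat_lit 317)) (nd (nat_lit 363) (nat_lit 0) (cs (lf (nat_lit 30) (nat_lit 340)) (nd (nat_lit 361) (nat_lit 0) (cs (lf (nat_lit 12) (nat_lit 338)) (nd (nat_lit 296) (nat_lit 0) (cs (lf (nat_lit 29) (nat_lit 296)) (lf (nat_lit 41) (nat_lit 295)))))))))))))))) (nd (nat_lit 405) (nat_lit 0) (cs (lf (nat_lit 40) (nat_lit 317)) (nd (nat_lit 406) (nat_lit 0) (cs (lf (nat_lit 41) (nat_lit 339)) (nd (nat_lit 339) (nat_lit 0) (cs (lf (nat_lit 47) (nat_lit 317)) (nd (nat_lit 341) (nat_lit 0) (cs (lf (nat_lit 35) (nat_lit 318)) (rf (nat_lit 5))))))))))))))) q43360 (by decide +kernel)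
def q43420 : Q := Q.p (nat_lit 0x40000100000c0000000000000000000000000000000000000000000000000000000000000000000000000000000) (nat_lit 0x6000018000038000e8000000000300000000000000000000000000000000000000000000000000000000000000000000000000) (nat_lit 7)
theorem c43420 : QOK q43420 := cut [q43344] ⟨c43344, trivial⟩ (nd (nat_lit 384) (nat_lit 0) (cs (lf (nat_lit 35) (nat_lit 296)) (nd (nat_lit 383) (nat_lit 0) (cs (lf (nat_lit 41) (nat_lit 317)) (nd (nat_lit 361) (nat_lit 0) (cs (lf (nat_lit 36) (nat_lit 295)) (nd (nat_lit 341) (nat_lit 0) (cs (lf (nat_lit 30) (nat_lit 318)) (rf (nat_lit 0)))))))))) q43420 (by decide +kernel)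
def q43457 : Q := Q.p (nat_lit 0x4000010000040000000000000003400000000000000000000000000000000000000000000000000000000000000) (nat_lit 0x280000e0000380000c0000380003a00002e0003a00003000019c0000a00000c00000000000000000000000000000000000000000000000000000000) (nat_lit 13)
theorem c43457 : QOK q43457 := cut [q42924, q43426, q43355] ⟨c42924, c43426, c43355, trivial⟩ (nd (nat_lit 384) (nat_lit 0) (cs (rf (nat_lit 0)) (cs (nd (nat_lit 339) (nat_lit 0) (cs (nd (nat_lit 406) (nat_lit 0) (cs (lf (nat_lit 47) (nat_lit 317)) (nd (nat_lit 429) (nat_lit 0) (cs (lf (nat_lit 28) (nat_lit 340)) (nd (nat_lit 428) (nat_lit 0) (cs (lf (nat_lit 46) (nat_lit 339)) (lf (nat_lit 29) (nat_lit 362)))))))) (cs (nd (nat_lit 406) (nat_lit 0) (cs (lf (nat_lit 47) (nat_lit 317)) (nd (nat_lit 361) (nat_lit 0) (cs (lf (nat_lit 42) (nat_lit 339)) (nd (nat_lit 296) (nat_lit 0) (cs (lf (nat_lit 41) (nat_lit 295)) (nd (nat_lit 275) (nat_lit 0) (cs (lf (nat_lit 34) (nat_lit 274)) (nd (nat_lit 251) (nat_lit 0) (cs (lf (nat_lit 5) (nat_lit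 250)) (nd (nat_lit 271) (nat_lit 0) (cs (lf (nat_lit 10) (nat_lit 249)) (nd (nat_lit 249) (nat_lit 0) (cs (lf (nat_lit 11) (nat_lit 248)) (nd (nat_lit 226) (nat_lit 0) (cs (lf (nat_lit 22) (nat_lit 226)) (rf (nat_lit 1)))))))))))))))))) (nd (nat_lit 385) (nat_lit 0) (cs (lf (nat_lit 29) (nat_lit 318)) (nd (nat_lit 363) (nat_lit 0) (cs (lf (nat_lit 24) (nat_lit 296)) (nd (nat_lit 338) (nat_lit 0) (cs (lf (nat_lit 0) (nat_lit 337)) (nd (nat_lit 364) (nat_lit 0) (cs (lf (nat_lit 18) (nat_lit 339)) (lf (nat_lit 3) (nat_lit 338))))))))))))) (cs (nd (nat_lit 319) (nat_lit 0) (cs (lf (nat_lit 35) (nat_lit 296)) (nd (nat_lit 406) (nat_lit 0) (cs (lf (nat_lit 34) (nat_lit 318)) (nd (nat_lit 339) (nat_lit 0) (cs (lf (nat_lit 47) (nat_lit 317)) (nd (nat_lit 320) (nat_lit 0) (cs (lf (nat_lit 6) (nat_lit 317)) (nd (nat_lit 337) (nat_lit 0) (cs (lf (nat_lit 13) (nat_lit 315)) (nd (nat_lit 428) (nat_lit 0) (cs (lf (nat_lit 46) (nat_lit 339)) (nd (nat_lit 451) (nat_lit 0) (cs (nd (nat_lit 449) (nat_lit 0) (cs (nd (nat_lit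 450) (nat_lit 0) (cs (lf (nat_lit 41) (nat_lit 383)) (lf (nat_lit 29) (nat_lit 384)))) (lf (nat_lit 40) (nat_lit 361)))) (lf (nat_lit 28) (nat_lit 362)))))))))))))))) (nd (nat_lit 407) (nat_lit 0) (cs (lf (nat_lit 28) (nat_lit 318)) (nd (nat_lit 406) (nat_lit 0) (cs (lf (nat_lit 29) (nat_lit 340)) (nd (nat_lit 341) (nat_lit 0) (cs (lf (nat_lit 35) (nat_lit 318)) (nd (nat_lit 339) (nat_lit 0) (cs (lf (nat_lit 47) (nat_lit 317)) (rf (nat_lit 2)))))))))))))) q43457 (by decide +kernel)
def q43569 : Q := Q.p (nat_lit 0x70000000000600000c0000000000000000000000000000000000000000000000000000000000000000000000000000000) (nat_lit 0x7f80008c00003800004000030000000000000000000000000000000000000000000000000000000000000000000000000000000) (nat_lit 6)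
theorem c43569 : QOK q43569 := cut [q43556, q43560, q43563, q43568] ⟨c43556, c43560, c43563, c43568, trivial⟩ (nd (nat_lit 383) (nat_lit 0) (cs (nd (nat_lit 316) (nat_lit 0) (cs (lf (nat_lit 1) (nat_lit 316)) (rf (nat_lit 0)))) (cs (rf (nat_lit 1)) (cs (rf (nat_lit 2)) (rf (nat_lit 3)))))) q43569 (by decide +kernel)
def q43683 : Q := Q.p (nat_lit 0xf0000000000000000000003000000000000000000000000000000000000000000000000000000000000000) (nat_lit 0x700001c000076000000000700001c00007800018000000000000000000000000000000000000000000000000000000000000000) (nat_lit 11)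
theorem c43683 : QOK q43683 := cut [q43674] ⟨c43674, trivial⟩ (nd (nat_lit 365) (nat_lit 0) (cs (lf (nat_lit 5) (nat_lit 340)) (nd (nat_lit 387) (nat_lit 0) (cs (nd (nat_lit 361) (nat_lit 0) (cs (lf (nat_lit 10) (nat_lit 339)) (nd (nat_lit 320) (nat_lit 0) (cs (lf (nat_lit 42) (nat_lit 320)) (nd (nat_lit 298) (nat_lit 0) (cs (lf (nat_lit 27) (nat_lit 298)) (lf (nat_lit 24) (nat_lit 276)))))))) (cs (nd (nat_lit 361) (nat_lit 0) (cs (lf (nat_lit 10) (nat_lit 339)) (nd (nat_lit 321) (nat_lit 0) (cs (lf (nat_lit 17) (nat_lit 318)) (nd (nat_lit 388) (nat_lit 0) (cs (lf (nat_lit 29) (nat_lit 321)) (nd (nat_lit 386) (nat_lit 0) (cs (lf (nat_lit 41) (nat_lit 320)) (nd (nat_lit 299) (nat_lit 0) (cs (lf (nat_lit 40) (nat_lit 298)) (nd (nat_lit 278) (nat_lit 0) (cs (lf (nat_lit 34) (nat_lit 277)) (nd (nat_lit 277) (nat_lit 0) (cs (lf (nat_lit 35) (nat_lit 255)) (nd (nat_lit 276) (nat_lit 0) (cs (lf (nat_lit 46) (nat_lit 276)) (lf (nat_lit 21) (nat_lit 252)))))))))))))))))) (cs (rf (nat_lit 0)) (nd (nat_lit 321)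 (nat_lit 0) (cs (lf (nat_lit 17) (nat_lit 318)) (nd (nat_lit 388) (nat_lit 0) (cs (lf (nat_lit 29) (nat_lit 321)) (nd (nat_lit 386) (nat_lit 0) (cs (lf (nat_lit 41) (nat_lit 320)) (nd (nat_lit 299) (nat_lit 0) (cs (lf (nat_lit 40) (nat_lit 298)) (nd (nat_lit 278) (nat_lit 0) (cs (lf (nat_lit 34) (nat_lit 277)) (nd (nat_lit 277) (nat_lit 0) (cs (lf (nat_lit 35) (nat_lit 255)) (nd (nat_lit 320) (nat_lit 0) (cs (lf (nat_lit 36) (nat_lit 254)) (lf (nat_lit 42) (nat_lit 320)))))))))))))))))))))) q43683 (by decide +kernel)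
def q43707 : Q := Q.p (nat_lit 0x70000040000000000000000400000000000000000000000000000000000000000000000000000000000000) (nat_lit 0x60000180003f80000c0003380000c0000300000000000000000000000000000000000000000000000000000000000000000000) (nat_lit 10)
theorem c43707 : QOK q43707 := cut [q13277, q13293, q25479, q31206, q43704] ⟨c13277, c13293, c25479, c31206, c43704, trivial⟩ (nd (nat_lit 339) (nat_lit 0) (cs (rf (nat_lit 0)) (cs (rf (nat_lit 1)) (cs (rf (nat_lit 2)) (nd (nat_lit 317) (nat_lit 0) (cs (rf (nat_lit 3)) (nd (nat_lit 364) (nat_lit 0) (cs (lf (nat_lit 5) (nat_lit 339)) (rf (nat_lit 4)))))))))) q43707 (by decide +kernel)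
def q43724 : Q := Q.p (nat_lit 0xf0000040000000000000000000000000000000000000000000000000000000000000000000000000000000) (nat_lit 0x10000108000780001800002000008000000000000000000000000000000000000000000000000000000000000000) (nat_lit 6)
theorem c43724 : QOK q43724 := cut [q42941] ⟨c42941, trivial⟩ (nd (nat_lit 321) (nat_lit 0) (cs (lf (nat_lit 17) (nat_lit 318)) (nd (nat_lit 320) (nat_lit 0) (cs (lf (nat_lit 12) (nat_lit 317)) (nd (nat_lit 319) (nat_lit 0) (cs (lf (nat_lit 5) (nat_lit 318)) (rf (nat_lit 0)))))))) q43724 (by decide +kernel)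
def q43750 : Q := Q.p (nat_lit 0x70000040000000000000002000000000000000000000000000000000000000000000000000000000000000) (nat_lit 0x180000600003b80000c000380000600001800000000000000000000000000000000000000000000000000000000000000000000) (nat_lit 7)
theorem c43750 : QOK q43750 := cut [q13293, q43460, q43749] ⟨c13293, c43460, c43749, trivial⟩ (nd (nat_lit 339) (nat_lit 0) (cs (rf (nat_lit 0)) (cs (rf (nat_lit 1)) (rf (nat_lit 2))))) q43750 (by decide +kernel)
def q43795 : Q := Q.p (nat_lit 0x70000040000000000000003400000000000000000000000000000000000000000000000000000000000000) (nat_lit 0x3e0000f80007f00018e0001800006000019c0000b00000e00000000000000000000000000000000000000000000000000000000) (nat_lit 12)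
theorem c43795 : QOK q43795 := cut [q28762, q43754, q43776, q43788] ⟨c28762, c43754, c43776, c43788, trivial⟩ (nd (nat_lit 319) (nat_lit 0) (cs (nd (nat_lit 343) (nat_lit 0) (cs (lf (nat_lit 18) (nat_lit 318)) (nd (nat_lit 361) (nat_lit 0) (cs (lf (nat_lit 10) (nat_lit 339)) (nd (nat_lit 365) (nat_lit 0) (cs (lf (nat_lit 5) (nat_lit 340)) (rf (nat_lit 0)))))))) (cs (nd (nat_lit 275) (nat_lit 0) (cs (lf (nat_lit 38) (nat_lit 252)) (nd (nat_lit 251) (nat_lit 0) (cs (lf (nat_lit 5) (nat_lit 250)) (nd (nat_lit 271) (nat_lit 0) (cs (lf (nat_lit 10) (nat_lit 249)) (nd (nat_lit 249) (nat_lit 0) (cs (lf (nat_lit 11) (nat_lit 248)) (nd (nat_lit 226) (nat_lit 0) (cs (lf (nat_lit 22) (nat_lit 226)) (nd (nat_lit 225) (nat_lit 0) (cs (lf (nat_lit 21) (nat_lit 225)) (nd (nat_lit 343) (nat_lit 0) (cs (lf (nat_lit 18) (nat_lit 318)) (nd (nat_lit 365) (nat_lit 0) (cs (lf (nat_lit 5) (nat_lit 340)) (nd (nat_lit 339) (nat_lit 0) (cs (lf (nat_lit 4) (nat_lit 339)) (rf (nat_lit 1)))))))))))))))))))) (cs (nd (nat_lit 275)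 (nat_lit 0) (cs (lf (nat_lit 38) (nat_lit 252)) (nd (nat_lit 276) (nat_lit 0) (cs (lf (nat_lit 1) (nat_lit 250)) (nd (nat_lit 320) (nat_lit 0) (cs (lf (nat_lit 44) (nat_lit 253)) (nd (nat_lit 339) (nat_lit 0) (cs (lf (nat_lit 12) (nat_lit 316)) (nd (nat_lit 361) (nat_lit 0) (cs (lf (nat_lit 11) (nat_lit 338)) (nd (nat_lit 364) (nat_lit 0) (cs (lf (nat_lit 5) (nat_lit 339)) (nd (nat_lit 386) (nat_lit 0) (cs (lf (nat_lit 42) (nat_lit 319)) (nd (nat_lit 385) (nat_lit 0) (cs (lf (nat_lit 41) (nat_lit 319)) (nd (nat_lit 387) (nat_lit 0) (cs (lf (nat_lit 29) (nat_lit 320)) (nd (nat_lit 362) (nat_lit 0) (cs (lf (nat_lit 2) (nat_lit 361)) (lf (nat_lit 21) (nat_lit 361)))))))))))))))))))))) (cs (nd (nat_lit 275) (nat_lit 0) (cs (lf (nat_lit 38) (nat_lit 252)) (nd (nat_lit 251) (nat_lit 0) (cs (lf (nat_lit 5) (nat_lit 250)) (nd (nat_lit 271) (nat_lit 0) (cs (lf (nat_lit 10) (nat_lit 249)) (nd (nat_lit 249) (nat_lit 0) (cs (lf (nat_lit 11) (nat_lit 248)) (nd (nat_lit 226) (nat_lit 0) (cs (lf (nat_lit 22) (nat_lit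 226)) (nd (nat_lit 225) (nat_lit 0) (cs (lf (nat_lit 21) (nat_lit 225)) (rf (nat_lit 2)))))))))))))) (nd (nat_lit 275) (nat_lit 0) (cs (lf (nat_lit 38) (nat_lit 252)) (nd (nat_lit 276) (nat_lit 0) (cs (lf (nat_lit 1) (nat_lit 250)) (nd (nat_lit 320) (nat_lit 0) (cs (lf (nat_lit 44) (nat_lit 253)) (nd (nat_lit 343) (nat_lit 0) (cs (lf (nat_lit 18) (nat_lit 318)) (nd (nat_lit 365) (nat_lit 0) (cs (lf (nat_lit 5) (nat_lit 340)) (nd (nat_lit 362) (nat_lit 0) (cs (lf (nat_lit 11) (nat_lit 339)) (rf (nat_lit 3))))))))))))))))))) q43795 (by decide +kernel)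
def q43822 : Q := Q.p (nat_lit 0x70000040000000000000003400000000000000000000000000000000000000000000000000000000000000) (nat_lit 0x700018e000798001e40007980008800018000000000000000000000000000000000000000000000000000000000) (nat_lit 12)
theorem c43822 : QOK q43822 := cut [q43611, q43776] ⟨c43611, c43776, trivial⟩ (nd (nat_lit 319) (nat_lit 0) (cs (rf (nat_lit 0)) (cs (rf (nat_lit 1)) (nd (nat_lit 275) (nat_lit 0) (cs (lf (nat_lit 38) (nat_lit 252)) (nd (nat_lit 251) (nat_lit 0) (cs (lf (nat_lit 5) (nat_lit 250)) (nd (nat_lit 272) (nat_lit 0) (cs (lf (nat_lit 11) (nat_lit 249)) (nd (nat_lit 231) (nat_lit 0) (cs (lf (nat_lit 17) (nat_lit 228)) (nd (nat_lit 343) (nat_lit 0) (cs (lf (nat_lit 18) (nat_lit 318)) (nd (nat_lit 321) (nat_lit 0) (cs (lf (nat_lit 17) (nat_lit 318)) (nd (nat_lit 361) (nat_lit 0) (cs (lf (nat_lit 10) (nat_lit 339)) (nd (nat_lit 339) (nat_lit 0) (cs (lf (nat_lit 11) (nat_lit 338)) (nd (nat_lit 338) (nat_lit 0) (cs (lf (nat_lit 12) (nat_lit 315)) (nd (nat_lit 316) (nat_lit 0) (cs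 (lf (nat_lit 23) (nat_lit 315)) (lf (nat_lit 25) (nat_lit 272))))))))))))))))))))))))) q43822 (by decide +kernel)
def q43875 : Q := Q.p (nat_lit 0x70000040000000000000000000000000000000000000000000000000000000000000000000000000000000) (nat_lit 0x7000088000720000000000000000000000000000000000000000000000000000000000000000000000000000000) (nat_lit 5)
theorem c43875 : QOK q43875 := cut [q30120] ⟨c30120, trivial⟩ (nd (nat_lit 343) (nat_lit 0) (cs (lf (nat_lit 23) (nat_lit 317)) (rf (nat_lit 0)))) q43875 (by decide +kernel)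
def q43919 : Q := Q.p (nat_lit 0x400001c0000000000000000000000000000000000000000000000000000000000000000000000000) (nat_lit 0x8e0000300000e0000000000000000000000000000000000000000000000000000000000000000000) (nat_lit 5)
theorem c43919 : QOK q43919 := cut [q43918] ⟨c43918, trivial⟩ (nd (nat_lit 293) (nat_lit 0) (cs (lf (nat_lit 5) (nat_lit 293)) (rf (nat_lit 0)))) q43919 (by decide +kernel)
def q43927 : Q := Q.p (nat_lit 0x400001c0000000000000000000000000000000000000000000000000000000000000000000000000) (nat_lit 0xa00000300000e0000000000000000000000000000000000000000000000000000000000000000000) (nat_lit 4)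
theorem c43927 : QOK q43927 := cut [q41984] ⟨c41984, trivial⟩ (nd (nat_lit 293) (nat_lit 0) (cs (lf (nat_lit 5) (nat_lit 293)) (rf (nat_lit 0)))) q43927 (by decide +kernel)
def q43949 : Q := Q.p (nat_lit 0x400001c0000000003400000000000000000000000000000000000000000000000000000000000000) (nat_lit 0x780001e0003980006000003e0000a0001a800000000000000000000000000000000000000000000000000000000) (nat_lit 11)
theorem c43949 : QOK q43949 := cut [q15931, q43925, q43926, q43920, q43931, q12962] ⟨c15931, c43925, c43926, c43920, c43931, c12962, trivial⟩ (nd (nat_lit 272) (nat_lit 0) (cs (rf (nat_lit 0)) (cs (rf (nat_lit 1)) (cs (rf (nat_lit 2)) (nd (nat_lit 316) (nat_lit 0) (cs (rf (nat_lit 3)) (cs (nd (nat_lit 227) (nat_lit 0) (cs (lf (nat_lit 46) (nat_lit 227)) (nd (nat_lit 251) (nat_lit 0) (cs (lf (nat_lit 35) (nat_lit 228)) (nd (nat_lit 231) (nat_lit 0) (cs (lf (nat_lit 17) (nat_lit 228)) (nd (nat_lit 338) (nat_lit 0) (cs (lf (nat_lit 34) (nat_lit 250)) (nd (nat_lit 337) (nat_lit 0) (cs (lf (nat_lit 41) (nat_lit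 271)) (nd (nat_lit 339) (nat_lit 0) (cs (lf (nat_lit 29) (nat_lit 272)) (rf (nat_lit 4)))))))))))))) (cs (nd (nat_lit 297) (nat_lit 0) (cs (lf (nat_lit 11) (nat_lit 293)) (nd (nat_lit 273) (nat_lit 0) (cs (lf (nat_lit 18) (nat_lit 272)) (rf (nat_lit 5)))))) (nd (nat_lit 337) (nat_lit 0) (cs (lf (nat_lit 40) (nat_lit 249)) (nd (nat_lit 229) (nat_lit 0) (cs (lf (nat_lit 34) (nat_lit 228)) (nd (nat_lit 227) (nat_lit 0) (cs (lf (nat_lit 46) (nat_lit 227)) (nd (nat_lit 338) (nat_lit 0) (cs (lf (nat_lit 41) (nat_lit 271)) (nd (nat_lit 339) (nat_lit 0) (cs (lf (nat_lit 29) (nat_lit 272)) (nd (nat_lit 273) (nat_lit 0) (cs (lf (nat_lit 30) (nat_lit 272)) (nd (nat_lit 340) (nat_lit 0) (cs (lf (nat_lit 17) (nat_lit 315)) (lf (nat_lit 42) (nat_lit 273)))))))))))))))))))))))) q43949 (by decide +kernel)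
def q43994 : Q := Q.p (nat_lit 0x10000060000180000000000000000000000000000000000000000000000000000000000000000000000000) (nat_lit 0x60000180001ef80039c001e00000000000000000000000000000000000000000000000000000000000000000000000000) (nat_lit 8)
theorem c43994 : QOK q43994 := cut [q15852, q42395, q41913, q41944, q43991] ⟨c15852, c42395, c41913, c41944, c43991, trivial⟩ (nd (nat_lit 316) (nat_lit 0) (cs (rf (nat_lit 0)) (cs (rf (nat_lit 1)) (nd (nat_lit 319) (nat_lit 0) (cs (rf (nat_lit 2)) (cs (rf (nat_lit 3)) (cs (nd (nat_lit 297) (nat_lit 0) (cs (lf (nat_lit 6) (nat_lit 294)) (nd (nat_lit 338) (nat_lit 0) (cs (lf (nat_lit 11) (nat_lit 315)) (nd (nat_lit 341) (nat_lit 0) (cs (lf (nat_lit 5) (nat_lit 316)) (nd (nat_lit 363) (nat_lit 0) (cs (lf (nat_lit 42) (nat_lit 296)) (nd (nat_lit 364) (nat_lit 0) (cs (lf (nat_lit 29) (nat_lit 297)) (lf (nat_lit 1) (nat_lit 338)))))))))))) (nd (nat_lit 337) (nat_lit 0) (cs (lf (nat_lit 10) (nat_lit 315)) (rf (nat_lit 4))))))))))) q43994 (by decide +kernel)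
def q44005 : Q := Q.p (nat_lit 0x10000040000180000000000000000000000000000000000000000000000000000000000000000000000000) (nat_lit 0xc0000f80000f0000ec000380000200000200000000000000000000000000000000000000000000000000000000000000000000) (nat_lit 11)
theorem c44005 : QOK q44005 := cut [q44001] ⟨c44001, trivial⟩ (nd (nat_lit 362) (nat_lit 0) (cs (lf (nat_lit 47) (nat_lit 273)) (nd (nat_lit 361) (nat_lit 0) (cs (lf (nat_lit 41) (nat_lit 295)) (nd (nat_lit 385) (nat_lit 0) (cs (lf (nat_lit 28) (nat_lit 296)) (nd (nat_lit 384) (nat_lit 0) (cs (lf (nat_lit 29) (nat_lit 318)) (rf (nat_lit 0)))))))))) q44005 (by decide +kernel)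
def q44060 : Q := Q.p (nat_lit 0x400001800000c0003400000000000000000000000000000000000000000000000000000000000000) (nat_lit 0x4000010000020000000000200000a0001a000000000000000000000000000000000000000000000000000000000) (nat_lit 5)
theorem c44060 : QOK q44060 := cut [q44058] ⟨c44058, trivial⟩ (nd (nat_lit 251) (nat_lit 0) (cs (rf (nat_lit 0)) (lf (nat_lit 9) (nat_lit 248)))) q44060 (by decide +kernel)
def q44101 : Q := Q.p (nat_lit 0x8000020000080000200000000000000000000000000000000000000000000000000000000000000) (nat_lit 0x1000004000010000000000100000c00001000000000000000000000000000000000000000000000000000) (nat_lit 4)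
theorem c44101 : QOK q44101 := cut [q44100] ⟨c44100, trivial⟩ (nd (nat_lit 314) (nat_lit 0) (cs (lf (nat_lit 41) (nat_lit 248)) (rf (nat_lit 0)))) q44101 (by decide +kernel)
def q44105 : Q := Q.p (nat_lit 0x1a0000080000000000000000000000000000000000000000000000000000000000000000000) (nat_lit 0x400001c000240000040000200000800000000000000000000000000000000000000000000000000000000) (nat_lit 5)
theorem c44105 : QOK q44105 := cut [q43962] ⟨c43962, trivial⟩ (nd (nat_lit 294) (nat_lit 0) (cs (lf (nat_lit 23) (nat_lit 270)) (rf (nat_lit 0)))) q44105 (by decide +kernel)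
def q44114 : Q := Q.p (nat_lit 0x40000180000080003400000000000000000000000000000000000000000000000000000000000000) (nat_lit 0x400001000002000000000030000080001a000000000000000000000000000000000000000000000000000000000) (nat_lit 5)
theorem c44114 : QOK q44114 := cut [q44058] ⟨c44058, trivial⟩ (nd (nat_lit 251) (nat_lit 0) (cs (lf (nat_lit 10) (nat_lit 249)) (rf (nat_lit 0)))) q44114 (by decide +kernel)
def q44141 : Q := Q.p (nat_lit 0x400000e0000000000000000000000000000000000000000000000000000000000000000000000000) (nat_lit 0x27000018000070000000000000000000000000000000000000000000000000000000000000000000) (nat_lit 5)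
theorem c44141 : QOK q44141 := cut [q44140] ⟨c44140, trivial⟩ (nd (nat_lit 292) (nat_lit 0) (cs (lf (nat_lit 4) (nat_lit 292)) (rf (nat_lit 0)))) q44141 (by decide +kernel)
def q44163 : Q := Q.p (nat_lit 0x40000100000c0000000000000000000000000000000000000000000000000000000000000000000000000) (nat_lit 0x280000e00003800000000000000000000200000000000000000000000000000000000000000000000000000000000000000000) (nat_lit 5)
theorem c44163 : QOK q44163 := cut [q44162] ⟨c44162, trivial⟩ (nd (nat_lit 360) (nat_lit 0) (cs (lf (nat_lit 35) (nat_lit 272)) (rf (nat_lit 0)))) q44163 (by decide +kernel)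
def q44230 : Q := Q.p (nat_lit 0x40000780000000000000000000000000000000000000000000000000000000000000000000000000) (nat_lit 0xe80001800007000000000000000000000000000000000000000000000000000000000000000000000) (nat_lit 5)
theorem c44230 : QOK q44230 := cut [q42005] ⟨c42005, trivial⟩ (nd (nat_lit 277) (nat_lit 0) (cs (lf (nat_lit 16) (nat_lit 273)) (nd (nat_lit 299) (nat_lit 0) (cs (lf (nat_lit 17) (nat_lit 274)) (rf (nat_lit 0)))))) q44230 (by decide +kernel)
def q44423 : Q := Q.p (nat_lit 0x400001c00000000000000000000000000000000000000000000000000000000000000) (nat_lit 0xa00000300000e00000000000000000000000000000000000000000000000000000000) (nat_lit 4)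
theorem c44423 : QOK q44423 := cut [q9771] ⟨c9771, trivial⟩ (nd (nat_lit 249) (nat_lit 0) (cs (rf (nat_lit 0)) (lf (nat_lit 5) (nat_lit 249)))) q44423 (by decide +kernel)
def q44435 : Q := Q.p (nat_lit 0x40000000000200000800000000010000040000000000000000000000000000000000000000000000) (nat_lit 0x140000300001c0000000000000002000008000000000000000000000000000000000000000000000000000) (nat_lit 5)
theorem c44435 : QOK q44435 := cut [q44433] ⟨c44433, trivial⟩ (nd (nat_lit 229) (nat_lit 0) (cs (lf (nat_lit 33) (nat_lit 185)) (nd (nat_lit 295) (nat_lit 0) (cs (lf (nat_lit 28) (nat_lit 229)) (rf (nat_lit 0)))))) q44435 (by decide +kernel)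
def q44492 : Q := Q.p (nat_lit 0x40000100000400001000000000000000000000000000000000000000000000000000000000) (nat_lit 0x200001800002000000000020000280000a000000000000000000000000000000000000000000000000000) (nat_lit 5)
theorem c44492 : QOK q44492 := cut [q14248] ⟨c14248, trivial⟩ (nd (nat_lit 315) (nat_lit 0) (cs (lf (nat_lit 40) (nat_lit 227)) (nd (nat_lit 207) (nat_lit 0) (cs (lf (nat_lit 34) (nat_lit 206)) (rf (nat_lit 0)))))) q44492 (by decide +kernel)
def q44504 : Q := Q.p (nat_lit 0x1c0000100003400001000000000000000000000000000000000000000000000000000000000) (nat_lit 0x2000006c0000000002000008000000000000000000000000000000000000000000000000000) (nat_lit 4)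
theorem c44504 : QOK q44504 := cut [q44503] ⟨c44503, trivial⟩ (nd (nat_lit 207) (nat_lit 0) (cs (lf (nat_lit 34) (nat_lit 206)) (rf (nat_lit 0)))) q44504 (by decide +kernel)
def q44508 : Q := Q.p (nat_lit 0x1c0000100003400001000000000000000000000000000000000000000000000000000000000) (nat_lit 0xc8000020000c00000000008000000000000000000000000000000000000000000000000000000000) (nat_lit 4)
theorem c44508 : QOK q44508 := cut [q44507] ⟨c44507, trivial⟩ (nd (nat_lit 293) (nat_lit 0) (cs (lf (nat_lit 41) (nat_lit 227)) (rf (nat_lit 0)))) q44508 (by decide +kernel)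
def q44515 : Q := Q.p (nat_lit 0x40000100000400001000000000000000000000000000000000000000000000000000000000) (nat_lit 0x800003000008000000000020000280000a000000000000000000000000000000000000000000000000000) (nat_lit 5)
theorem c44515 : QOK q44515 := cut [q44513] ⟨c44513, trivial⟩ (nd (nat_lit 317) (nat_lit 0) (cs (lf (nat_lit 28) (nat_lit 228)) (nd (nat_lit 207) (nat_lit 0) (cs (lf (nat_lit 34) (nat_lit 206)) (rf (nat_lit 0)))))) q44515 (by decide +kernel)
def q44517 : Q := Q.p (nat_lit 0x40000100000400001000000000000000000000000000000000000000000000000000000000) (nat_lit 0xa0000380000a0000000000000000000000000000000000000000000000000000000000000000000000000) (nat_lit 4)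
theorem c44517 : QOK q44517 := cut [q44516] ⟨c44516, trivial⟩ (nd (nat_lit 317) (nat_lit 0) (cs (lf (nat_lit 28) (nat_lit 228)) (rf (nat_lit 0)))) q44517 (by decide +kernel)
def q44562 : Q := Q.p (nat_lit 0x7800002000008000000000000000000000000000000000000000) (nat_lit 0x300000000030000014000070000140000000000000000000000000000) (nat_lit 6)
theorem c44562 : QOK q44562 := cut [q41137] ⟨c41137, trivial⟩ (nd (nat_lit 225) (nat_lit 0) (cs (lf (nat_lit 11) (nat_lit 202)) (nd (nat_lit 184) (nat_lit 0) (cs (lf (nat_lit 17) (nat_lit 181)) (rf (nat_lit 0)))))) q44562 (by decide +kernel)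
def q44563 : Q := Q.p (nat_lit 0x1800002000008000000000000000000000000000000000000000) (nat_lit 0x4000000000040000000000300000c0000100000000000000000000000) (nat_lit 4)
theorem c44563 : QOK q44563 := cut [q41626] ⟨c41626, trivial⟩ (nd (nat_lit 137) (nat_lit 0) (cs (lf (nat_lit 29) (nat_lit 137)) (rf (nat_lit 0)))) q44563 (by decide +kernel)
def q44571 : Q := Q.p (nat_lit 0x780000000000000000000000000000000000000000000000000000000000000) (nat_lit 0x38000040000380000000000000000000000000000000000000000000000000000000) (nat_lit 4)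
theorem c44571 : QOK q44571 := cut [q44570] ⟨c44570, trivial⟩ (nd (nat_lit 224) (nat_lit 0) (cs (lf (nat_lit 22) (nat_lit 224)) (rf (nat_lit 0)))) q44571 (by decide +kernel)
def q44575 : Q := Q.p (nat_lit 0x300000400001000000000000000000000000000000000000000000000000000) (nat_lit 0x8000000000000000000000e0000380000a0000000000000000000000000000000000) (nat_lit 5)
theorem c44575 : QOK q44575 := cut [q979] ⟨c979, trivial⟩ (nd (nat_lit 182) (nat_lit 0) (cs (rf (nat_lit 0)) (lf (nat_lit 29) (nat_lit 182)))) q44575 (by decide +kernel)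
def q44585 : Q := Q.p (nat_lit 0x100000700000000000000000000000000000000000000000000000000000000000000) (nat_lit 0x2800000c0000380000000000000000000000000000000000000000000000000000000) (nat_lit 4)
theorem c44585 : QOK q44585 := cut [q44584] ⟨c44584, trivial⟩ (nd (nat_lit 247) (nat_lit 0) (cs (lf (nat_lit 5) (nat_lit 247)) (rf (nat_lit 0)))) q44585 (by decide +kernel)
def q44594 : Q := Q.p (nat_lit 0x180000680000800003000000000000000000000000000000000000000000000000000) (nat_lit 0x30000070000040000700000000000000000000000000000000000000000000000000000000) (nat_lit 5)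
theorem c44594 : QOK q44594 := cut [q44592] ⟨c44592, trivial⟩ (nd (nat_lit 226) (nat_lit 0) (cs (lf (nat_lit 42) (nat_lit 204)) (nd (nat_lit 224) (nat_lit 0) (cs (lf (nat_lit 1) (nat_lit 224)) (rf (nat_lit 0)))))) q44594 (by decide +kernel)
def q44647 : Q := Q.p (nat_lit 0x100003400000000007800000000000000000000000000000000000000000000000000) (nat_lit 0x380006e0000380000dc0000700037e00008000020000000000000000000000000000000000) (nat_lit 11)
theorem c44647 : QOK q44647 := cut [q3964, q44607, q44610, q44614, q44630, q44646] ⟨c3964, c44607, c44610, c44614, c44630, c44646, trivial⟩ (nd (nat_lit 202) (nat_lit 0) (cs (rf (nat_lit 0)) (cs (nd (nat_lit 223) (nat_lit 0) (cs (lf (nat_lit 10) (nat_lit 201)) (nd (nat_lit 201) (nat_lit 0) (cs (lf (nat_lit 11) (nat_lit 200)) (nd (nat_lit 226) (nat_lit 0) (cs (lf (nat_lit 5) (nat_lit 201)) (nd (nat_lit 248) (nat_lit 0) (cs (rf (nat_lit 1)) (cs (nd (nat_lit 178) (nat_lit 0) (cs (lf (nat_lit 22) (nat_lit 178)) (nd (nat_lit 200) (nat_lit 0) (cs (lf (nat_lit 23) (nat_lit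 177)) (nd (nat_lit 182) (nat_lit 0) (cs (lf (nat_lit 16) (nat_lit 178)) (rf (nat_lit 2)))))))) (cs (nd (nat_lit 271) (nat_lit 0) (cs (nd (nat_lit 178) (nat_lit 0) (cs (lf (nat_lit 22) (nat_lit 178)) (nd (nat_lit 177) (nat_lit 0) (cs (lf (nat_lit 21) (nat_lit 177)) (nd (nat_lit 270) (nat_lit 0) (cs (lf (nat_lit 29) (nat_lit 204)) (rf (nat_lit 3)))))))) (cs (nd (nat_lit 178) (nat_lit 0) (cs (lf (nat_lit 22) (nat_lit 178)) (nd (nat_lit 177) (nat_lit 0) (cs (lf (nat_lit 21) (nat_lit 177)) (nd (nat_lit 273) (nat_lit 0) (cs (lf (nat_lit 15) (nat_lit 249)) (nd (nat_lit 249) (nat_lit 0) (cs (lf (nat_lit 24) (nat_lit 182)) (lf (nat_lit 0) (nat_lit 247)))))))))) (cs (nd (nat_lit 270) (nat_lit 0) (cs (lf (nat_lit 29) (nat_lit 204)) (nd (nat_lit 269) (nat_lit 0) (cs (lf (nat_lit 41) (nat_lit 203)) (nd (nat_lit 182) (nat_lit 0) (cs (lf (nat_lit 40) (nat_lit 181)) (lf (nat_lit 28) (nat_lit 182)))))))) (nd (nat_lit 270) (nat_lit 0) (cs (lf (nat_lit 29) (nat_lit 204)) (nd (nat_lit 182) (nat_lit 0) (cs (lf (nat_lit 28)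 (nat_lit 182)) (nd (nat_lit 273) (nat_lit 0) (cs (lf (nat_lit 15) (nat_lit 249)) (nd (nat_lit 291) (nat_lit 0) (cs (lf (nat_lit 10) (nat_lit 269)) (lf (nat_lit 40) (nat_lit 203)))))))))))))) (nd (nat_lit 178) (nat_lit 0) (cs (lf (nat_lit 22) (nat_lit 178)) (nd (nat_lit 177) (nat_lit 0) (cs (lf (nat_lit 21) (nat_lit 177)) (nd (nat_lit 270) (nat_lit 0) (cs (lf (nat_lit 47) (nat_lit 181)) (rf (nat_lit 4)))))))))))))))))) (cs (nd (nat_lit 184) (nat_lit 0) (cs (lf (nat_lit 17) (nat_lit 181)) (nd (nat_lit 181) (nat_lit 0) (cs (lf (nat_lit 23) (nat_lit 180)) (nd (nat_lit 223) (nat_lit 0) (cs (lf (nat_lit 10) (nat_lit 201)) (nd (nat_lit 201) (nat_lit 0) (cs (lf (nat_lit 11) (nat_lit 200)) (nd (nat_lit 182) (nat_lit 0) (cs (lf (nat_lit 12) (nat_lit 178)) (nd (nat_lit 226) (nat_lit 0) (cs (lf (nat_lit 5) (nat_lit 201)) (nd (nat_lit 159) (nat_lit 0) (cs (lf (nat_lit 24) (nat_lit 137)) (lf (nat_lit 42) (nat_lit 159)))))))))))))))) (rf (nat_lit 5)))))) q44647 (by decide +kernel)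
def q44669 : Q := Q.p (nat_lit 0x1800002000008000000000000000000000000000000000000000) (nat_lit 0x4000000000000000000000700001c0000500000000000000000000000) (nat_lit 5)
theorem c44669 : QOK q44669 := cut [q17985] ⟨c17985, trivial⟩ (nd (nat_lit 137) (nat_lit 0) (cs (lf (nat_lit 29) (nat_lit 137)) (rf (nat_lit 0)))) q44669 (by decide +kernel)
def q44738 : Q := Q.p (nat_lit 0x100003400000000007800000000000000000000000000000000000000000000000000) (nat_lit 0x300006e0000380000ee000070000f8000380000e0000000000000000000000000000000000) (nat_lit 7)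
theorem c44738 : QOK q44738 := cut [q26702, q44574, q44610, q44630] ⟨c26702, c44574, c44610, c44630, trivial⟩ (nd (nat_lit 226) (nat_lit 0) (cs (rf (nat_lit 0)) (cs (nd (nat_lit 180) (nat_lit 0) (cs (lf (nat_lit 22) (nat_lit 180)) (nd (nat_lit 202) (nat_lit 0) (cs (lf (nat_lit 23) (nat_lit 179)) (nd (nat_lit 201) (nat_lit 0) (cs (lf (nat_lit 5) (nat_lit 201)) (nd (nat_lit 222) (nat_lit 0) (cs (lf (nat_lit 10) (nat_lit 200)) (nd (nat_lit 200) (nat_lit 0) (cs (lf (nat_lit 11) (nat_lit 199)) (lf (nat_lit 4) (nat_lit 200)))))))))))) (nd (nat_lit 248) (nat_lit 0) (cs (rf (nat_lit 1)) (cs (nd (nat_lit 182) (nat_lit 0) (cs (rf (nat_lit 2)) (nd (nat_lit 161) (nat_lit 0) (cs (lf (nat_lit 34) (nat_lit 160)) (nd (nat_lit 160) (nat_lit 0) (cs (lf (nat_lit 35) (nat_lit 138)) (nd (nat_lit 138) (nat_lit 0) (cs (lf (nat_lit 41) (nat_lit 137)) (lf (nat_lit 29) (nat_lit 138)))))))))) (nd (nat_lit 270) (nat_lit 0) (cs (rf (nat_lit 3)) (nd (nat_lit 292) (nat_lit 0) (cs (lf (nat_lit 46) (nat_lit 203)) (lf (nat_lit 34) (nat_lit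 204)))))))))))) q44738 (by decide +kernel)
def q44745 : Q := Q.p (nat_lit 0x100000400000000007800000000000000000000000000000000000000000000000000) (nat_lit 0x2f80003c0000c0000040003c000020000080000000000000000000000000000000000) (nat_lit 8)
theorem c44745 : QOK q44745 := cut [q44567, q44741] ⟨c44567, c44741, trivial⟩ (nd (nat_lit 184) (nat_lit 0) (cs (lf (nat_lit 17) (nat_lit 181)) (nd (nat_lit 183) (nat_lit 0) (cs (lf (nat_lit 12) (nat_lit 180)) (nd (nat_lit 248) (nat_lit 0) (cs (rf (nat_lit 0)) (nd (nat_lit 249) (nat_lit 0) (cs (lf (nat_lit 26) (nat_lit 183)) (rf (nat_lit 1)))))))))) q44745 (by decide +kernel)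
def q44786 : Q := Q.p (nat_lit 0x100000400000000007800000000000000000000000000000000000000000000000000) (nat_lit 0x2f00003c0000700000000007000018000040000000000000000000000000000000000) (nat_lit 9)
theorem c44786 : QOK q44786 := cut [q26739, q44779, q44784] ⟨c26739, c44779, c44784, trivial⟩ (nd (nat_lit 225) (nat_lit 0) (cs (lf (nat_lit 11) (nat_lit 202)) (nd (nat_lit 247) (nat_lit 0) (cs (rf (nat_lit 0)) (cs (rf (nat_lit 1)) (rf (nat_lit 2))))))) q44786 (by decide +kernel)
def q44798 : Q := Q.p (nat_lit 0x3800010000000000000000000000000000000000000000000000) (nat_lit 0x1c0000600009c00000000000000000000000000000000000000000000) (nat_lit 5)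
theorem c44798 : QOK q44798 := cut [q44646] ⟨c44646, trivial⟩ (nd (nat_lit 202) (nat_lit 0) (cs (lf (nat_lit 16) (nat_lit 180)) (rf (nat_lit 0)))) q44798 (by decide +kernel)
def q44818 : Q := Q.p (nat_lit 0x100000680000000000000000000000000000000000000000000000000000000000000) (nat_lit 0x280000140000380000000000000000000000000000000000000000000000000000000) (nat_lit 4)
theorem c44818 : QOK q44818 := cut [q44584] ⟨c44584, trivial⟩ (nd (nat_lit 248) (nat_lit 0) (cs (lf (nat_lit 5) (nat_lit 247)) (rf (nat_lit 0)))) q44818 (by decide +kernel)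
def q44887 : Q := Q.p (nat_lit 0x100000400001000014000040000000000000000000000000000000000000000000000) (nat_lit 0x2e0000b8000a7000000000000000000000000000000000000000000000) (nat_lit 7)
theorem c44887 : QOK q44887 := cut [q27681] ⟨c27681, trivial⟩ (nd (nat_lit 207) (nat_lit 0) (cs (lf (nat_lit 35) (nat_lit 184)) (nd (nat_lit 205) (nat_lit 0) (cs (lf (nat_lit 17) (nat_lit 183)) (rf (nat_lit 0)))))) q44887 (by decide +kernel)
def q44891 : Q := Q.p (nat_lit 0x100000400001000014000040000000000000000000000000000000000000000000000) (nat_lit 0x80000200000000002e0000b80008f000000000000000000000000000000000000000000000) (nat_lit 8)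
theorem c44891 : QOK q44891 := cut [q27681] ⟨c27681, trivial⟩ (nd (nat_lit 273) (nat_lit 0) (cs (lf (nat_lit 29) (nat_lit 206)) (nd (nat_lit 205) (nat_lit 0) (cs (lf (nat_lit 47) (nat_lit 183)) (nd (nat_lit 207) (nat_lit 0) (cs (lf (nat_lit 17) (nat_lit 183)) (rf (nat_lit 0)))))))) q44891 (by decide +kernel)
def q44911 : Q := Q.p (nat_lit 0x100000400001000006000040000000000000000000000000000000000000000000000) (nat_lit 0x200000800002000000000000000b0000080000000000000000000000000000000000000000) (nat_lit 4)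
theorem c44911 : QOK q44911 := cut [q44910] ⟨c44910, trivial⟩ (nd (nat_lit 271) (nat_lit 0) (cs (lf (nat_lit 41) (nat_lit 205)) (rf (nat_lit 0)))) q44911 (by decide +kernel)
def q44932 : Q := Q.p (nat_lit 0x70000100000000000000000000000000000000000000000000000000000000000000000000) (nat_lit 0x380000c000238000000000000000000000000000000000000000000000000000000000000000000) (nat_lit 5)
theorem c44932 : QOK q44932 := cut [q44930] ⟨c44930, trivial⟩ (nd (nat_lit 291) (nat_lit 0) (cs (rf (nat_lit 0)) (lf (nat_lit 17) (nat_lit 269)))) q44932 (by decide +kernel)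
def q45013 : Q := Q.p (nat_lit 0x400001c0000100000400001000000000000000000000000000000000000000000000000000000000) (nat_lit 0x38000022000000000000000200000c000020000000000000000000000000000000000000000000000) (nat_lit 5)
theorem c45013 : QOK q45013 := cut [q45011] ⟨c45011, trivial⟩ (nd (nat_lit 207) (nat_lit 0) (cs (lf (nat_lit 34) (nat_lit 206)) (nd (nat_lit 185) (nat_lit 0) (cs (lf (nat_lit 33) (nat_lit 184)) (rf (nat_lit 0)))))) q45013 (by decide +kernel)
def q45041 : Q := Q.p (nat_lit 0x40000180000400001000000000000000000000000000000000000000000000000000000000000000) (nat_lit 0x20000380000260000000000000000000000000000000000000000000000000000000000000000000000000) (nat_lit 4)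
theorem c45041 : QOK q45041 := cut [q45040] ⟨c45040, trivial⟩ (nd (nat_lit 319) (nat_lit 0) (cs (lf (nat_lit 29) (nat_lit 252)) (rf (nat_lit 0)))) q45041 (by decide +kernel)
def q45073 : Q := Q.p (nat_lit 0xe000008000020000080000000000000000000000000000000000000000000000000000000000000000000000000) (nat_lit 0xe400031800070000000000000000000000000000000000000000000000000000000000000000000000000000000000000) (nat_lit 6)
theorem c45073 : QOK q45073 := cut [q45072] ⟨c45072, trivial⟩ (nd (nat_lit 360) (nat_lit 0) (cs (lf (nat_lit 41) (nat_lit 294)) (rf (nat_lit 0)))) q45073 (by decide +kernel)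
def q45097 : Q := Q.p (nat_lit 0x100000400001000010000040000000000000000000000000000000000000000000000) (nat_lit 0x4000000000020000280000e0000a8000020000000000000000000000000000000000000000) (nat_lit 5)
theorem c45097 : QOK q45097 := cut [q45092, q45094, q45095] ⟨c45092, c45094, c45095, trivial⟩ (nd (nat_lit 205) (nat_lit 0) (cs (nd (nat_lit 294) (nat_lit 0) (cs (lf (nat_lit 46) (nat_lit 205)) (rf (nat_lit 0)))) (cs (rf (nat_lit 1)) (nd (nat_lit 206) (nat_lit 0) (cs (lf (nat_lit 47) (nat_lit 183)) (rf (nat_lit 2))))))) q45097 (by decide +kernel)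
def q45120 : Q := Q.p (nat_lit 0x1c0000000003000000000000000000000000000000000000000000000000000000000000000) (nat_lit 0xce000030000ce0000000008000000000000000000000000000000000000000000000000000000000) (nat_lit 5)
theorem c45120 : QOK q45120 := cut [q44507, q45119] ⟨c44507, c45119, trivial⟩ (nd (nat_lit 293) (nat_lit 0) (cs (rf (nat_lit 0)) (rf (nat_lit 1)))) q45120 (by decide +kernel)
def q45121 : Q := Q.p (nat_lit 0x1c0000000003000000000000000000000000000000000000000000000000000000000000000) (nat_lit 0x300000c0000380003e0000220000c00000000008000000000000000000000000000000000000000000000000000000000) (nat_lit 7)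
theorem c45121 : QOK q45121 := cut [q45011] ⟨c45011, trivial⟩ (nd (nat_lit 318) (nat_lit 0) (cs (nd (nat_lit 274) (nat_lit 0) (cs (lf (nat_lit 35) (nat_lit 230)) (nd (nat_lit 317) (nat_lit 0) (cs (lf (nat_lit 41) (nat_lit 251)) (nd (nat_lit 340) (nat_lit 0) (cs (lf (nat_lit 34) (nat_lit 252)) (nd (nat_lit 363) (nat_lit 0) (cs (lf (nat_lit 28) (nat_lit 274)) (nd (nat_lit 362) (nat_lit 0) (cs (lf (nat_lit 42) (nat_lit 295)) (lf (nat_lit 29) (nat_lit 296)))))))))))) (rf (nat_lit 0)))) q45121 (by decide +kernel)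
def q45196 : Q := Q.p (nat_lit 0xc0000100000400001000004000000000000000000000000000000000000000000000000000) (nat_lit 0x40000100003200000e0000200000800000000010000000000000000000000000000000000000000000000) (nat_lit 6)
theorem c45196 : QOK q45196 := cut [q45194] ⟨c45194, trivial⟩ (nd (nat_lit 271) (nat_lit 0) (cs (lf (nat_lit 41) (nat_lit 205)) (nd (nat_lit 296) (nat_lit 0) (cs (lf (nat_lit 18) (nat_lit 271)) (rf (nat_lit 0)))))) q45196 (by decide +kernel)
def q45214 : Q := Q.p (nat_lit 0x4000010000040000200000000000000000000000000000000000000000000000000000000000000) (nat_lit 0x280000e00003800000000000000080000000000000000000000000000000000000000000000000000000000000000000) (nat_lit 5)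
theorem c45214 : QOK q45214 := cut [q45213] ⟨c45213, trivial⟩ (nd (nat_lit 336) (nat_lit 0) (cs (lf (nat_lit 34) (nat_lit 248)) (rf (nat_lit 0)))) q45214 (by decide +kernel)
def q45234 : Q := Q.p (nat_lit 0xf0000100000000000000000000000000000000000000000000000000000000000000000000) (nat_lit 0x1c6000700003ae0000000000000000000000000000000000000000000000000000000000000000000) (nat_lit 8)
theorem c45234 : QOK q45234 := cut [q45232] ⟨c45232, trivial⟩ (nd (nat_lit 270) (nat_lit 0) (cs (lf (nat_lit 23) (nat_lit 269)) (nd (nat_lit 313) (nat_lit 0) (cs (lf (nat_lit 10) (nat_lit 291)) (rf (nat_lit 0)))))) q45234 (by decide +kernel)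
def q45241 : Q := Q.p (nat_lit 0xe0000180003000000000000000000000000000000000000000000000000000000000000000) (nat_lit 0xc0000300000c00000000008000000000000000000000000000000000000000000000000000000000) (nat_lit 4)
theorem c45241 : QOK q45241 := cut [q44507] ⟨c44507, trivial⟩ (nd (nat_lit 296) (nat_lit 0) (cs (lf (nat_lit 18) (nat_lit 271)) (rf (nat_lit 0)))) q45241 (by decide +kernel)
def q45262 : Q := Q.p (nat_lit 0x780000000000000000000000000000000000000000000000000000000000000) (nat_lit 0x38000040000380000000000000000000000000000000000000000000000000000000) (nat_lit 4)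
theorem c45262 : QOK q45262 := cut [q45261] ⟨c45261, trivial⟩ (nd (nat_lit 268) (nat_lit 0) (cs (lf (nat_lit 10) (nat_lit 246)) (rf (nat_lit 0)))) q45262 (by decide +kernel)
def q45304 : Q := Q.p (nat_lit 0x100000600001e00000000000000000000000000000000000000000000000000000000) (nat_lit 0x80002300001c0000000001000004000000000000000000000000000000000000000000000) (nat_lit 5)
theorem c45304 : QOK q45304 := cut [q40908] ⟨c40908, trivial⟩ (nd (nat_lit 247) (nat_lit 0) (cs (lf (nat_lit 11) (nat_lit 224)) (nd (nat_lit 248) (nat_lit 0) (cs (lf (nat_lit 5) (nat_lit 247)) (rf (nat_lit 0)))))) q45304 (by decide +kernel)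
def q45338 : Q := Q.p (nat_lit 0x100000600000000012000040000000000000000000000000000000000000000000000) (nat_lit 0x180000c00008c000000000000000000000000000000000000000000000) (nat_lit 4)
theorem c45338 : QOK q45338 := cut [q45337] ⟨c45337, trivial⟩ (nd (nat_lit 183) (nat_lit 0) (cs (lf (nat_lit 26) (nat_lit 183)) (rf (nat_lit 0)))) q45338 (by decide +kernel)
def q45365 : Q := Q.p (nat_lit 0x70000000000100003400000000000000000000000000000000000000000000000000000000000000) (nat_lit 0x33000008000340000c00000000008000000000000000000000000000000000000000000000000000000000) (nat_lit 5)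
theorem c45365 : QOK q45365 := cut [q45362, q45364] ⟨c45362, c45364, trivial⟩ (nd (nat_lit 315) (nat_lit 0) (cs (rf (nat_lit 0)) (rf (nat_lit 1)))) q45365 (by decide +kernel)
def q45369 : Q := Q.p (nat_lit 0xf0000000000100003600000000000000000000000000000000000000000000000000000000000000) (nat_lit 0x60000000000100000e80000000000000000000000000000000000000000000000000000000000000000000) (nat_lit 4)
theorem c45369 : QOK q45369 := cut [q45368] ⟨c45368, trivial⟩ (nd (nat_lit 341) (nat_lit 0) (cs (lf (nat_lit 5) (nat_lit 316)) (rf (nat_lit 0)))) q45369 (by decide +kernel)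
def q45392 : Q := Q.p (nat_lit 0xf0000000000000002000000000000000000000000000000000000000000000000000000000000000) (nat_lit 0x76000100000600000800000000000000000000000000000000000000000000000000000000000000000000) (nat_lit 5)
theorem c45392 : QOK q45392 := cut [q45391] ⟨c45391, trivial⟩ (nd (nat_lit 337) (nat_lit 0) (cs (lf (nat_lit 10) (nat_lit 315)) (rf (nat_lit 0)))) q45392 (by decide +kernel)
def q45401 : Q := Q.p (nat_lit 0x2000070000000000100003600000000000000000000000000000000000000000000000000000000000000) (nat_lit 0xd4000180000f00001e00000000008000000000000000000000000000000000000000000000000000000000) (nat_lit 8)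
theorem c45401 : QOK q45401 := cut [q45380] ⟨c45380, trivial⟩ (nd (nat_lit 319) (nat_lit 0) (cs (lf (nat_lit 10) (nat_lit 315)) (rf (nat_lit 0)))) q45401 (by decide +kernel)
def q45407 : Q := Q.p (nat_lit 0x80000f0000000000000000000000000000000000000000000000000000000000000000000000000000000) (nat_lit 0x1d0000300000e00000000000000000000000000000000000000000000000000000000000000000000000000) (nat_lit 5)
theorem c45407 : QOK q45407 := cut [q45405] ⟨c45405, trivial⟩ (nd (nat_lit 298) (nat_lit 0) (cs (lf (nat_lit 16) (nat_lit 294)) (nd (nat_lit 320) (nat_lit 0) (cs (lf (nat_lit 17) (nat_lit 295)) (rf (nat_lit 0)))))) q45407 (by decide +kernel)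
def q45422 : Q := Q.p (nat_lit 0x70000000000100002600000000000000000000000000000000000000000000000000000000000000) (nat_lit 0xf380018c000718000ae0000180008200000000000000000000000000000000000000000000000000000000) (nat_lit 10)
theorem c45422 : QOK q45422 := cut [q45360, q45416, q45419] ⟨c45360, c45416, c45419, trivial⟩ (nd (nat_lit 319) (nat_lit 0) (cs (rf (nat_lit 0)) (cs (rf (nat_lit 1)) (rf (nat_lit 2))))) q45422 (by decide +kernel)
def q45425 : Q := Q.p (nat_lit 0x8000070000000000000001000000000000000000000000000000000000000000000000000000000000000) (nat_lit 0x800002000000000088000f00000400000000000000000000000000000000000000000000000000000000000000000000) (nat_lit 5)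
theorem c45425 : QOK q45425 := cut [q15854] ⟨c15854, trivial⟩ (nd (nat_lit 296) (nat_lit 0) (cs (nd (nat_lit 361) (nat_lit 0) (cs (lf (nat_lit 30) (nat_lit 295)) (rf (nat_lit 0)))) (lf (nat_lit 37) (nat_lit 251)))) q45425 (by decide +kernel)
def q45463 : Q := Q.p (nat_lit 0x70000000000000003000000000000000000000000000000000000000000000000000000000000000) (nat_lit 0x3b80000c000300000c00000000008000000000000000000000000000000000000000000000000000000000) (nat_lit 5)
theorem c45463 : QOK q45463 := cut [q45364, q45461, q45462] ⟨c45364, c45461, c45462, trivial⟩ (nd (nat_lit 315) (nat_lit 0) (cs (rf (nat_lit 0)) (cs (rf (nat_lit 1)) (rf (nat_lit 2))))) q45463 (by decide +kernel)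
def q45469 : Q := Q.p (nat_lit 0x70000000000000002000000000000000000000000000000000000000000000000000000000000000) (nat_lit 0xf7000188000700000800000000008000000000000000000000000000000000000000000000000000000000) (nat_lit 5)
theorem c45469 : QOK q45469 := cut [q41749, q45360, q45419] ⟨c41749, c45360, c45419, trivial⟩ (nd (nat_lit 319) (nat_lit 0) (cs (rf (nat_lit 0)) (cs (rf (nat_lit 1)) (rf (nat_lit 2))))) q45469 (by decide +kernel)
def q45487 : Q := Q.p (nat_lit 0x70000000000000001000000000000000000000000000000000000000000000000000000000000000) (nat_lit 0x680001a00007f000188000700000400000000000000000000000000000000000000000000000000000000000000000000) (nat_lit 10)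
theorem c45487 : QOK q45487 := cut [q41749, q45357, q45457, q45485] ⟨c41749, c45357, c45457, c45485, trivial⟩ (nd (nat_lit 319) (nat_lit 0) (cs (rf (nat_lit 0)) (cs (rf (nat_lit 1)) (cs (rf (nat_lit 2)) (rf (nat_lit 3)))))) q45487 (by decide +kernel)
def q45500 : Q := Q.p (nat_lit 0x100000780000000000000000000000000000000000000000000000000000000000000) (nat_lit 0x700001c0000f0000000003700001800004000000000000000000000000000000000000000000000) (nat_lit 8)
theorem c45500 : QOK q45500 := cut [q45489, q45497] ⟨c45489, c45497, trivial⟩ (nd (nat_lit 269) (nat_lit 0) (cs (lf (nat_lit 11) (nat_lit 246)) (nd (nat_lit 291) (nat_lit 0) (cs (rf (nat_lit 0)) (cs (nd (nat_lit 225) (nat_lit 0) (cs (lf (nat_lit 23) (nat_lit 224)) (nd (nat_lit 228) (nat_lit 0) (cs (lf (nat_lit 17) (nat_lit 225)) (nd (nat_lit 290) (nat_lit 0) (cs (lf (nat_lit 41) (nat_lit 224)) (nd (nat_lit 292) (nat_lit 0) (cs (lf (nat_lit 29) (nat_lit 225)) (nd (nat_lit 270) (nat_lit 0) (cs (lf (nat_lit 24) (nat_lit 203)) (lf (nat_lit 7) (nat_lit 268))))))))))))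 (nd (nat_lit 228) (nat_lit 0) (cs (lf (nat_lit 17) (nat_lit 225)) (rf (nat_lit 1))))))))) q45500 (by decide +kernel)
def q45541 : Q := Q.p (nat_lit 0x70000000000100003600000000000000000000000000000000000000000000000000000000000000) (nat_lit 0xff000188000600000e00000000000000000000000000000000000000000000000000000000000000000000) (nat_lit 6)
theorem c45541 : QOK q45541 := cut [q41749, q45384, q45419] ⟨c41749, c45384, c45419, trivial⟩ (nd (nat_lit 319) (nat_lit 0) (cs (rf (nat_lit 0)) (cs (rf (nat_lit 1)) (cs (rf (nat_lit 2)) (nd (nat_lit 338) (nat_lit 0) (cs (lf (nat_lit 11) (nat_lit 315)) (nd (nat_lit 297) (nat_lit 0) (cs (lf (nat_lit 17) (nat_lit 294)) (nd (nat_lit 275) (nat_lit 0) (cs (lf (nat_lit 41) (nat_lit 252)) (nd (nat_lit 320) (nat_lit 0) (cs (lf (nat_lit 29) (nat_lit 253)) (lf (nat_lit 10) (nat_lit 316)))))))))))))) q45541 (by decide +kernel)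
def q45542 : Q := Q.p (nat_lit 0x2000070000000000100003600000000000000000000000000000000000000000000000000000000000000) (nat_lit 0xec000180000d00001e00000000008000000000000000000000000000000000000000000000000000000000) (nat_lit 8)
theorem c45542 : QOK q45542 := cut [q45442] ⟨c45442, trivial⟩ (nd (nat_lit 319) (nat_lit 0) (cs (lf (nat_lit 10) (nat_lit 315)) (rf (nat_lit 0)))) q45542 (by decide +kernel)
def q45557 : Q := Q.p (nat_lit 0x70000000000000003000000000000000000000000000000000000000000000000000000000000000) (nat_lit 0x78000088000700000c00000000008000000000000000000000000000000000000000000000000000000000) (nat_lit 5)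
theorem c45557 : QOK q45557 := cut [q45462] ⟨c45462, trivial⟩ (nd (nat_lit 341) (nat_lit 0) (cs (nd (nat_lit 315) (nat_lit 0) (cs (lf (nat_lit 4) (nat_lit 315)) (rf (nat_lit 0)))) (cs (nd (nat_lit 319) (nat_lit 0) (cs (lf (nat_lit 5) (nat_lit 316)) (nd (nat_lit 297) (nat_lit 0) (cs (lf (nat_lit 17) (nat_lit 294)) (nd (nat_lit 274) (nat_lit 0) (cs (lf (nat_lit 26) (nat_lit 252)) (lf (nat_lit 45) (nat_lit 252)))))))) (nd (nat_lit 342) (nat_lit 0) (cs (lf (nat_lit 3) (nat_lit 316)) (nd (nat_lit 340) (nat_lit 0) (cs (lf (nat_lit 0) (nat_lit 315)) (lf (nat_lit 21) (nat_lit 316))))))))) q45557 (by decide +kernel)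
def q45559 : Q := Q.p (nat_lit 0x70000000000100003600000000000000000000000000000000000000000000000000000000000000) (nat_lit 0xef000188000f00001e00000000008000000000000000000000000000000000000000000000000000000000) (nat_lit 8)
theorem c45559 : QOK q45559 := cut [q45419, q45442, q45445, q45485] ⟨c45419, c45442, c45445, c45485, trivial⟩ (nd (nat_lit 319) (nat_lit 0) (cs (rf (nat_lit 0)) (cs (rf (nat_lit 1)) (cs (rf (nat_lit 2)) (rf (nat_lit 3)))))) q45559 (by decide +kernel)
def q45595 : Q := Q.p (nat_lit 0x80000200000800002000000000000000000000000000000000000000000000) (nat_lit 0x500001c000050000000000000000000000000000000000) (nat_lit 4)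
theorem c45595 : QOK q45595 := cut [q45594] ⟨c45594, trivial⟩ (nd (nat_lit 158) (nat_lit 0) (cs (lf (nat_lit 46) (nat_lit 158)) (rf (nat_lit 0)))) q45595 (by decide +kernel)
def q45667 : Q := Q.p (nat_lit 0x1a0003080000000000000000000000000000000000000000000000000000000000000) (nat_lit 0x1c000640000040000000000000000000000000000000000000000000000000000000000000) (nat_lit 4)
theorem c45667 : QOK q45667 := cut [q45666] ⟨c45666, trivial⟩ (nd (nat_lit 270) (nat_lit 0) (cs (lf (nat_lit 23) (nat_lit 246)) (rf (nat_lit 0)))) q45667 (by decide +kernel)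
def q45689 : Q := Q.p (nat_lit 0x20000080000200000800000000000000000000000000000000000000000000000000) (nat_lit 0x4000010000040000000000400003000004000000000000000000000000000000000000000) (nat_lit 4)
theorem c45689 : QOK q45689 := cut [q45688] ⟨c45688, trivial⟩ (nd (nat_lit 268) (nat_lit 0) (cs (lf (nat_lit 41) (nat_lit 202)) (rf (nat_lit 0)))) q45689 (by decide +kernel)
def q45758 : Q := Q.p (nat_lit 0x20000680000a00000000000000000000000000000000000000000000000000000000) (nat_lit 0x8000000000000000500000c00001000004000000000000000000000000000000000000000) (nat_lit 4)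
theorem c45758 : QOK q45758 := cut [q45757] ⟨c45757, trivial⟩ (nd (nat_lit 224) (nat_lit 0) (cs (lf (nat_lit 2) (nat_lit 224)) (rf (nat_lit 0)))) q45758 (by decide +kernel)
def q45761 : Q := Q.p (nat_lit 0x30000080000200000000000000000000000000000000000000000000000000000000) (nat_lit 0x4000000000000000000001c00007000014000000000000000000000000000000000000000) (nat_lit 5)
theorem c45761 : QOK q45761 := cut [q45760] ⟨c45760, trivial⟩ (nd (nat_lit 203) (nat_lit 0) (cs (lf (nat_lit 41) (nat_lit 202)) (rf (nat_lit 0)))) q45761 (by decide +kernel)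
def q45793 : Q := Q.p (nat_lit 0x20000080000200000800000000000000000000000000000000000000000000000000) (nat_lit 0x4000010000040000000001000006000010000000000000000000000000000000000000000) (nat_lit 4)
theorem c45793 : QOK q45793 := cut [q45792] ⟨c45792, trivial⟩ (nd (nat_lit 268) (nat_lit 0) (cs (lf (nat_lit 41) (nat_lit 202)) (rf (nat_lit 0)))) q45793 (by decide +kernel)
def q45794 : Q := Q.p (nat_lit 0x20000680000a00000000000000000000000000000000000000000000000000000000) (nat_lit 0x8000000000040000500000400001000004000000000000000000000000000000000000000) (nat_lit 4)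
theorem c45794 : QOK q45794 := cut [q45697] ⟨c45697, trivial⟩ (nd (nat_lit 224) (nat_lit 0) (cs (lf (nat_lit 2) (nat_lit 224)) (rf (nat_lit 0)))) q45794 (by decide +kernel)
def q45795 : Q := Q.p (nat_lit 0x20000680000a00000000000000000000000000000000000000000000000000000000) (nat_lit 0x8000000000000000500001800004000010000000000000000000000000000000000000000) (nat_lit 4)
theorem c45795 : QOK q45795 := cut [q45782] ⟨c45782, trivial⟩ (nd (nat_lit 226) (nat_lit 0) (cs (lf (nat_lit 0) (nat_lit 224)) (rf (nat_lit 0)))) q45795 (by decide +kernel)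
def q45863 : Q := Q.p (nat_lit 0x40000000000700003400000000000000000000000000000000000000000000000000000000000000) (nat_lit 0x30000080000600000800000200000000000000000000000000000000000000000000000000000000000000) (nat_lit 4)
theorem c45863 : QOK q45863 := cut [q44464] ⟨c44464, trivial⟩ (nd (nat_lit 275) (nat_lit 0) (cs (lf (nat_lit 23) (nat_lit 249)) (rf (nat_lit 0)))) q45863 (by decide +kernel)
def q45927 : Q := Q.p (nat_lit 0x2000008000020000000000100000400000000000000000000000000000000000000000000000000000000000000) (nat_lit 0x100001c0000700001c00001000004000010000080000200000000000000000000000000000000000000000000000000000000000000000000) (nat_lit 8)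
theorem c45927 : QOK q45927 := cut [q45908, q45916, q45926] ⟨c45908, c45916, c45926, trivial⟩ (nd (nat_lit 383) (nat_lit 0) (cs (rf (nat_lit 0)) (cs (nd (nat_lit 406) (nat_lit 0) (cs (lf (nat_lit 28) (nat_lit 317)) (nd (nat_lit 273) (nat_lit 0) (cs (lf (nat_lit 44) (nat_lit 250)) (rf (nat_lit 1)))))) (cs (nd (nat_lit 406) (nat_lit 0) (cs (lf (nat_lit 28) (nat_lit 317)) (nd (nat_lit 405) (nat_lit 0) (cs (lf (nat_lit 29) (nat_lit 339)) (nd (nat_lit 338) (nat_lit 0) (cs (lf (nat_lit 47) (nat_lit 316)) (nd (nat_lit 295) (nat_lit 0) (cs (lf (nat_lit 45) (nat_lit 250)) (nd (nat_lit 360) (nat_lit 0) (cs (lf (nat_lit 41) (nat_lit 294)) (lf (nat_lit 42) (nat_lit 338)))))))))))) (rf (nat_lit 2)))))) q45927 (by decide +kernel)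
def q45985 : Q := Q.p (nat_lit 0x800002000008000020000000000000000000000000000000000000000000000000000000000000000000000000000000) (nat_lit 0x100001c0000700001000001000004000010000000000000000000000000000000000000000000000000000000000000000000000000000000) (nat_lit 6)
theorem c45985 : QOK q45985 := cut [q45916] ⟨c45916, trivial⟩ (nd (nat_lit 406) (nat_lit 0) (cs (lf (nat_lit 28) (nat_lit 317)) (rf (nat_lit 0)))) q45985 (by decide +kernel)
def q46010 : Q := Q.p (nat_lit 0x800002000008000020000000000000000000000000000000000000000000000000000000000000000000000000000000) (nat_lit 0x3de000770001de00000000000000000000000000000000000000000000000000000000000000000000000000000000000000000) (nat_lit 10)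
theorem c46010 : QOK q46010 := cut [q45991, q45999, q46005] ⟨c45991, c45999, c46005, trivial⟩ (nd (nat_lit 382) (nat_lit 0) (cs (lf (nat_lit 41) (nat_lit 316)) (nd (nat_lit 381) (nat_lit 0) (cs (rf (nat_lit 0)) (cs (rf (nat_lit 1)) (nd (nat_lit 384) (nat_lit 0) (cs (lf (nat_lit 29) (nat_lit 317)) (nd (nat_lit 358) (nat_lit 0) (cs (lf (nat_lit 22) (nat_lit 358)) (nd (nat_lit 402) (nat_lit 0) (cs (lf (nat_lit 10) (nat_lit 380)) (rf (nat_lit 2))))))))))))) q46010 (by decide +kernel)
def q46107 : Q := Q.p (nat_lit 0x1000006000008000000000000000000000000000000000000000000000000000000000000000000000000000000000000) (nat_lit 0xe8000398000f7000180000600000000000000000000000000000000000000000000000000000000000000000000000000) (nat_lit 8)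
theorem c46107 : QOK q46107 := cut [q45060, q46093, q46038, q42520] ⟨c45060, c46093, c46038, c42520, trivial⟩ (nd (nat_lit 363) (nat_lit 0) (cs (rf (nat_lit 0)) (cs (rf (nat_lit 1)) (cs (nd (nat_lit 360) (nat_lit 0) (cs (nd (nat_lit 385) (nat_lit 0) (cs (lf (nat_lit 5) (nat_lit 360)) (nd (nat_lit 338) (nat_lit 0) (cs (lf (nat_lit 23) (nat_lit 337)) (rf (nat_lit 2)))))) (cs (nd (nat_lit 341) (nat_lit 0) (cs (lf (nat_lit 17) (nat_lit 338)) (nd (nat_lit 340) (nat_lit 0) (cs (lf (nat_lit 12) (nat_lit 337)) (nd (nat_lit 338) (nat_lit 0) (cs (lf (nat_lit 0) (nat_lit 337)) (nd (nat_lit 319) (nat_lit 0) (cs (lf (nat_lit 17) (nat_lit 316)) (lf (nat_lit 36) (nat_lit 296)))))))))) (nd (nat_lit 385) (nat_lit 0) (cs (lf (nat_lit 0) (nat_lit 359)) (lf (nat_lit 5) (nat_lit 360))))))) (nd (nat_lit 364) (nat_lit 0) (cs (rf (nat_lit 3)) (nd (nat_lit 365) (nat_lit 0) (cs (lf (nat_lit 11) (nat_lit 361)) (lf (nat_lit 22) (nat_lit 339)))))))))) q46107 (by decide +kernel)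
def q46155 : Q := Q.p (nat_lit 0x2000008000020000000000100003400000000000000000000000000000000000000000000000000000000000000) (nat_lit 0x6000018000efc003de001f7c00090000680000e80000200000000000000000000000000000000000000000000000000000000000000) (nat_lit 12)
theorem c46155 : QOK q46155 := cut [q45928, q45983, q45931, q45963, q46121, q45070, q46138, q46143, q45945, q45949, q42579] ⟨c45928, c45983, c45931, c45963, c46121, c45070, c46138, c46143, c45945, c45949, c42579, trivial⟩ (nd (nat_lit 360) (nat_lit 0) (cs (rf (nat_lit 0)) (cs (rf (nat_lit 1)) (nd (nat_lit 359) (nat_lit 0) (cs (rf (nat_lit 2)) (cs (rf (nat_lit 3)) (cs (nd (nat_lit 404) (nat_lit 0) (cs (nd (nat_lit 382) (nat_lit 0) (cs (lf (nat_lit 39) (nat_lit 316)) (lf (nat_lit 33) (nat_lit 316)))) (cs (nd (nat_lit 362) (nat_lit 0) (cs (nd (nat_lit 341) (nat_lit 0) (cs (lf (nat_lit 16) (nat_lit 337)) (nd (nat_lit 363) (nat_lit 0) (cs (lf (nat_lit 17) (nat_lit 338)) (nd (nat_lit 386) (nat_lit 0) (cs (lf (nat_lit 4) (nat_lit 360)) (nd (nat_lit 364)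 (nat_lit 0) (cs (lf (nat_lit 5) (nat_lit 361)) (lf (nat_lit 23) (nat_lit 338)))))))))) (cs (nd (nat_lit 337) (nat_lit 0) (cs (lf (nat_lit 23) (nat_lit 336)) (nd (nat_lit 380) (nat_lit 0) (cs (lf (nat_lit 10) (nat_lit 358)) (nd (nat_lit 363) (nat_lit 0) (cs (lf (nat_lit 22) (nat_lit 337)) (rf (nat_lit 4)))))))) (cs (nd (nat_lit 337) (nat_lit 0) (cs (lf (nat_lit 23) (nat_lit 336)) (nd (nat_lit 340) (nat_lit 0) (cs (lf (nat_lit 17) (nat_lit 337)) (nd (nat_lit 381) (nat_lit 0) (cs (lf (nat_lit 11) (nat_lit 358)) (nd (nat_lit 403) (nat_lit 0) (cs (nd (nat_lit 338) (nat_lit 0) (cs (lf (nat_lit 30) (nat_lit 337)) (lf (nat_lit 35) (nat_lit 315)))) (lf (nat_lit 29) (nat_lit 337)))))))))) (cs (nd (nat_lit 363) (nat_lit 0) (cs (rf (nat_lit 4)) (cs (nd (nat_lit 380) (nat_lit 0) (cs (lf (nat_lit 10) (nat_lit 358)) (nd (nat_lit 336) (nat_lit 0) (cs (lf (nat_lit 22) (nat_lit 336)) (nd (nat_lit 340) (nat_lit 0) (cs (lf (nat_lit 17) (nat_lit 337)) (rf (nat_lit 5)))))))) (cs (nd (nat_lit 380) (nat_lit 0) (cs (lf (nat_lit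 10) (nat_lit 358)) (nd (nat_lit 336) (nat_lit 0) (cs (lf (nat_lit 22) (nat_lit 336)) (rf (nat_lit 6)))))) (nd (nat_lit 341) (nat_lit 0) (cs (lf (nat_lit 17) (nat_lit 338)) (lf (nat_lit 16) (nat_lit 337)))))))) (nd (nat_lit 380) (nat_lit 0) (cs (lf (nat_lit 10) (nat_lit 358)) (nd (nat_lit 337) (nat_lit 0) (cs (lf (nat_lit 23) (nat_lit 336)) (rf (nat_lit 7))))))))))) (nd (nat_lit 382) (nat_lit 0) (cs (lf (nat_lit 39) (nat_lit 316)) (lf (nat_lit 30) (nat_lit 338))))))) (nd (nat_lit 358) (nat_lit 0) (cs (rf (nat_lit 8)) (cs (rf (nat_lit 9)) (nd (nat_lit 380) (nat_lit 0) (cs (nd (nat_lit 362) (nat_lit 0) (cs (rf (nat_lit 10)) (lf (nat_lit 10) (nat_lit 358)))) (lf (nat_lit 11) (nat_lit 357)))))))))))))) q46155 (by decide +kernel)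
def q46217 : Q := Q.p (nat_lit 0x2000008000020000000000000003000000000000000000000000000000000000000000000000000000000000000) (nat_lit 0x140001d0000f7c003de000f7c001de000790000c40000000000000000000000000000000000000000000000000000000000000000000) (nat_lit 12)
theorem c46217 : QOK q46217 := cut [q45976, q45072, q46163, q46166, q46178, q46180, q46181, q45526, q45527] ⟨c45976, c45072, c46163, c46166, c46178, c46180, c46181, c45526, c45527, trivial⟩ (nd (nat_lit 360) (nat_lit 0) (cs (rf (nat_lit 0)) (cs (nd (nat_lit 362) (nat_lit 0) (cs (nd (nat_lit 295) (nat_lit 0) (cs (lf (nat_lit 29) (nat_lit 295)) (lf (nat_lit 41) (nat_lit 294)))) (cs (nd (nat_lit 382) (nat_lit 0) (cs (nd (nat_lit 404) (nat_lit 0) (cs (lf (nat_lit 30) (nat_lit 338)) (nd (nat_lit 363) (nat_lit 0) (cs (lf (nat_lit 11) (nat_lit 359)) (rf (nat_lit 1)))))) (lf (nat_lit 36) (nat_lit 294)))) (cs (rf (nat_lit 2)) (nd (nat_lit 341) (nat_lit 0) (cs (nd (nat_lit 363) (nat_lit 0) (cs (lf (nat_lit 17) (nat_lit 338)) (rf (nat_lit 3)))) (cs (nd (nat_lit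 359) (nat_lit 0) (cs (lf (nat_lit 16) (nat_lit 337)) (nd (nat_lit 384) (nat_lit 0) (cs (lf (nat_lit 5) (nat_lit 359)) (nd (nat_lit 406) (nat_lit 0) (cs (lf (nat_lit 42) (nat_lit 339)) (nd (nat_lit 336) (nat_lit 0) (cs (lf (nat_lit 22) (nat_lit 336)) (nd (nat_lit 380) (nat_lit 0) (cs (lf (nat_lit 10) (nat_lit 358)) (nd (nat_lit 358) (nat_lit 0) (cs (lf (nat_lit 23) (nat_lit 335)) (lf (nat_lit 11) (nat_lit 357)))))))))))))) (nd (nat_lit 342) (nat_lit 0) (cs (lf (nat_lit 15) (nat_lit 338)) (lf (nat_lit 8) (nat_lit 338))))))))))) (cs (rf (nat_lit 4)) (nd (nat_lit 340) (nat_lit 0) (cs (rf (nat_lit 5)) (cs (nd (nat_lit 362) (nat_lit 0) (cs (rf (nat_lit 2)) (nd (nat_lit 359) (nat_lit 0) (cs (lf (nat_lit 12) (nat_lit 336)) (nd (nat_lit 380) (nat_lit 0) (cs (lf (nat_lit 10) (nat_lit 358)) (nd (nat_lit 337) (nat_lit 0) (cs (lf (nat_lit 23) (nat_lit 336)) (nd (nat_lit 338) (nat_lit 0) (cs (lf (nat_lit 18) (nat_lit 337)) (nd (nat_lit 315) (nat_lit 0) (cs (lf (nat_lit 23) (nat_lit 314)) (nd (nat_lit 318) (nat_lit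 0) (cs (lf (nat_lit 17) (nat_lit 315)) (nd (nat_lit 296) (nat_lit 0) (cs (rf (nat_lit 6)) (lf (nat_lit 36) (nat_lit 273)))))))))))))))))) (cs (nd (nat_lit 341) (nat_lit 0) (cs (lf (nat_lit 6) (nat_lit 338)) (nd (nat_lit 338) (nat_lit 0) (cs (nd (nat_lit 315) (nat_lit 0) (cs (lf (nat_lit 22) (nat_lit 315)) (nd (nat_lit 363) (nat_lit 0) (cs (lf (nat_lit 5) (nat_lit 338)) (nd (nat_lit 337) (nat_lit 0) (cs (lf (nat_lit 23) (nat_lit 314)) (lf (nat_lit 19) (nat_lit 337)))))))) (cs (nd (nat_lit 315) (nat_lit 0) (cs (lf (nat_lit 22) (nat_lit 315)) (nd (nat_lit 319) (nat_lit 0) (cs (lf (nat_lit 17) (nat_lit 316)) (nd (nat_lit 337) (nat_lit 0) (cs (lf (nat_lit 23) (nat_lit 314)) (lf (nat_lit 16) (nat_lit 315)))))))) (cs (nd (nat_lit 318) (nat_lit 0) (cs (rf (nat_lit 7)) (cs (nd (nat_lit 315) (nat_lit 0) (cs (lf (nat_lit 1) (nat_lit 315)) (nd (nat_lit 319) (nat_lit 0) (cs (lf (nat_lit 6) (nat_lit 316)) (nd (nat_lit 275) (nat_lit 0) (cs (lf (nat_lit 38) (nat_lit 252)) (nd (nat_lit 363) (nat_lit 0) (cs (lf (nat_lit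 5) (nat_lit 338)) (nd (nat_lit 385) (nat_lit 0) (cs (lf (nat_lit 42) (nat_lit 318)) (nd (nat_lit 386) (nat_lit 0) (cs (lf (nat_lit 29) (nat_lit 319)) (lf (nat_lit 2) (nat_lit 360)))))))))))))) (nd (nat_lit 274) (nat_lit 0) (cs (lf (nat_lit 38) (nat_lit 251)) (nd (nat_lit 316) (nat_lit 0) (cs (lf (nat_lit 23) (nat_lit 315)) (rf (nat_lit 8))))))))) (nd (nat_lit 363) (nat_lit 0) (cs (lf (nat_lit 5) (nat_lit 338)) (nd (nat_lit 337) (nat_lit 0) (cs (lf (nat_lit 19) (nat_lit 337)) (nd (nat_lit 319) (nat_lit 0) (cs (lf (nat_lit 17) (nat_lit 316)) (lf (nat_lit 16) (nat_lit 315)))))))))))))) (nd (nat_lit 341) (nat_lit 0) (cs (lf (nat_lit 6) (nat_lit 338)) (nd (nat_lit 359) (nat_lit 0) (cs (lf (nat_lit 12) (nat_lit 336)) (lf (nat_lit 15) (nat_lit 337)))))))))))))) q46217 (by decide +kernel)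
def q46233 : Q := Q.p (nat_lit 0x800002000008000020000000000000000000000000000000000000000000000000000000000000000000000000000000) (nat_lit 0x40000300000400000000010000040000100000000000000000000000000000000000000000000000000000000000000000000000000) (nat_lit 4)
theorem c46233 : QOK q46233 := cut [q46232] ⟨c46232, trivial⟩ (nd (nat_lit 318) (nat_lit 0) (cs (lf (nat_lit 35) (nat_lit 295)) (rf (nat_lit 0)))) q46233 (by decide +kernel)
def q46284 : Q := Q.p (nat_lit 0x60000100000000002000000000000000000000000000000000000000000000000000000000000000) (nat_lit 0x4000010000098000e80000800000000008000000000000000000000000000000000000000000000000000000000) (nat_lit 4)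
theorem c46284 : QOK q46284 := cut [q41951, q46283] ⟨c41951, c46283, trivial⟩ (nd (nat_lit 297) (nat_lit 0) (cs (rf (nat_lit 0)) (rf (nat_lit 1)))) q46284 (by decide +kernel)
def q46301 : Q := Q.p (nat_lit 0x800002000008000020000000000000000000000000000000000000000000000000000000000000000000000000000000) (nat_lit 0x40000180000600000000001000014000050000100000000000000000000000000000000000000000000000000000000000000000000000000) (nat_lit 6)
theorem c46301 : QOK q46301 := cut [q46300] ⟨c46300, trivial⟩ (nd (nat_lit 318) (nat_lit 0) (cs (lf (nat_lit 35) (nat_lit 295)) (rf (nat_lit 0)))) q46301 (by decide +kernel)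
def q46375 : Q := Q.p (nat_lit 0x3c0000c0000000000000000000000000000000000000000000000000000000000000000000000000000000) (nat_lit 0x1c0000780001f800000000000000000000000000000000000000000000000000000000000000000000000000000000000000000) (nat_lit 7)
theorem c46375 : QOK q46375 := cut [q46374] ⟨c46374, trivial⟩ (nd (nat_lit 360) (nat_lit 0) (cs (lf (nat_lit 11) (nat_lit 337)) (rf (nat_lit 0)))) q46375 (by decide +kernel)
def q46482 : Q := Q.p (nat_lit 0x200000c000020000000000000000000000000000000000000000000000000000000000000000000000000000000) (nat_lit 0x10000040000100001d000013000000000080000000000000000000000000000000000000000000000000000000000000000000000000) (nat_lit 4)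
theorem c46482 : QOK q46482 := cut [q46163, q46092] ⟨c46163, c46092, trivial⟩ (nd (nat_lit 362) (nat_lit 0) (cs (rf (nat_lit 0)) (nd (nat_lit 363) (nat_lit 0) (cs (lf (nat_lit 18) (nat_lit 338)) (rf (nat_lit 1)))))) q46482 (by decide +kernel)
def q46524 : Q := Q.p (nat_lit 0x2000008000020000000000100000400000000000000000000000000000000000000000000000000000000000000) (nat_lit 0x100000c0000700001800005000014000050000180000200000000000000000000000000000000000000000000000000000000000000000000) (nat_lit 9)
theorem c46524 : QOK q46524 := cut [q46294] ⟨c46294, trivial⟩ (nd (nat_lit 295) (nat_lit 0) (cs (lf (nat_lit 45) (nat_lit 250)) (nd (nat_lit 384) (nat_lit 0) (cs (lf (nat_lit 28) (nat_lit 295)) (rf (nat_lit 0)))))) q46524 (by decide +kernel)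
def q46555 : Q := Q.p (nat_lit 0x20000040000100000400000000010000040000000000000000000000000000000000000000000000) (nat_lit 0x8000000000000000300000e0000a8000000000000000000000000000000000000000000000) (nat_lit 5)
theorem c46555 : QOK q46555 := cut [q20189] ⟨c20189, trivial⟩ (nd (nat_lit 228) (nat_lit 0) (cs (lf (nat_lit 28) (nat_lit 228)) (rf (nat_lit 0)))) q46555 (by decide +kernel)
def q46563 : Q := Q.p (nat_lit 0x1e0000600000000000000000000000000000000000000000000000000000000000000) (nat_lit 0x100000c00000000000c0000800002000000000000000000000000000000000000000000000000000) (nat_lit 4)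
theorem c46563 : QOK q46563 := cut [q46562] ⟨c46562, trivial⟩ (nd (nat_lit 246) (nat_lit 0) (cs (lf (nat_lit 22) (nat_lit 246)) (rf (nat_lit 0)))) q46563 (by decide +kernel)
def q46568 : Q := Q.p (nat_lit 0x20000180000600000000000000000000000000000000000000000000000000000000000000) (nat_lit 0x700001c000050000000000000000800000000000000000000000000000000000000000000000000000000) (nat_lit 5)
theorem c46568 : QOK q46568 := cut [q46567] ⟨c46567, trivial⟩ (nd (nat_lit 315) (nat_lit 0) (cs (lf (nat_lit 30) (nat_lit 249)) (rf (nat_lit 0)))) q46568 (by decide +kernel)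
def q46571 : Q := Q.p (nat_lit 0x20000180000600000000000000000000000000000000000000000000000000000000000000) (nat_lit 0x300000c000050000000000000000800002000008000000000000000000000000000000000000000000000) (nat_lit 5)
theorem c46571 : QOK q46571 := cut [q46570] ⟨c46570, trivial⟩ (nd (nat_lit 315) (nat_lit 0) (cs (lf (nat_lit 30) (nat_lit 249)) (rf (nat_lit 0)))) q46571 (by decide +kernel)
def q46577 : Q := Q.p (nat_lit 0x80000200000800012000040000000000000000000000000000000000000000000000) (nat_lit 0x40000d000094000000000000000000000000000000000000000000000) (nat_lit 4)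
theorem c46577 : QOK q46577 := cut [q40980] ⟨c40980, trivial⟩ (nd (nat_lit 182) (nat_lit 0) (cs (lf (nat_lit 46) (nat_lit 182)) (rf (nat_lit 0)))) q46577 (by decide +kernel)
def q46584 : Q := Q.p (nat_lit 0x78000180000600000000000000000000000000000000000000000000000000000000000000) (nat_lit 0x800000700001c0000300000c00000000000000000000000000000000000000000000000000) (nat_lit 6)
theorem c46584 : QOK q46584 := cut [q46582] ⟨c46582, trivial⟩ (nd (nat_lit 269) (nat_lit 0) (cs (lf (nat_lit 23) (nat_lit 268)) (nd (nat_lit 270) (nat_lit 0) (cs (lf (nat_lit 18) (nat_lit 269)) (rf (nat_lit 0)))))) q46584 (by decide +kernel)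
def q46594 : Q := Q.p (nat_lit 0x100000400003000000000000000000000000000000000000000000000000000000000000000) (nat_lit 0x80000380000e0000000000800000000008000000000000000000000000000000000000000000000000000000000) (nat_lit 5)
theorem c46594 : QOK q46594 := cut [q44396] ⟨c44396, trivial⟩ (nd (nat_lit 318) (nat_lit 0) (cs (lf (nat_lit 35) (nat_lit 230)) (rf (nat_lit 0)))) q46594 (by decide +kernel)
def q46599 : Q := Q.p (nat_lit 0x40000780000000000000000000000000000000000000000000000000000000000000) (nat_lit 0x4000010000000000000000700000800002000000000000000000000000000000000000000000000) (nat_lit 4)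
theorem c46599 : QOK q46599 := cut [q46598] ⟨c46598, trivial⟩ (nd (nat_lit 225) (nat_lit 0) (cs (lf (nat_lit 23) (nat_lit 224)) (rf (nat_lit 0)))) q46599 (by decide +kernel)
def q46620 : Q := Q.p (nat_lit 0x1c0000700000000000000000000000000000000000000000000000000000000000000) (nat_lit 0x80000200001c000030000000000400001000000000000000000000000000000000000000000000000000) (nat_lit 5)
theorem c46620 : QOK q46620 := cut [q46619] ⟨c46619, trivial⟩ (nd (nat_lit 269) (nat_lit 0) (cs (lf (nat_lit 12) (nat_lit 246)) (rf (nat_lit 0)))) q46620 (by decide +kernel)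
def q46653 : Q := Q.p (nat_lit 0x70000040000000002000000000000000000000000000000000000000000000000000000000000000) (nat_lit 0x70000180000620000800000000000000000000000000000000000000000000000000000000000000000000) (nat_lit 5)
theorem c46653 : QOK q46653 := cut [q45391] ⟨c45391, trivial⟩ (nd (nat_lit 319) (nat_lit 0) (cs (lf (nat_lit 23) (nat_lit 293)) (rf (nat_lit 0)))) q46653 (by decide +kernel)
def q46677 : Q := Q.p (nat_lit 0x100000180003000000000000000000000000000000000000000000000000000000000000000) (nat_lit 0x80000300000c0000000000e00000000008000000000000000000000000000000000000000000000000000000000) (nat_lit 5)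
theorem c46677 : QOK q46677 := cut [q46633] ⟨c46633, trivial⟩ (nd (nat_lit 274) (nat_lit 0) (cs (lf (nat_lit 14) (nat_lit 249)) (rf (nat_lit 0)))) q46677 (by decide +kernel)
def q46683 : Q := Q.p (nat_lit 0x10000060000100000400000000000000000000000000000000000000000000000000000000000000) (nat_lit 0xa000068000018000000000000000000000000000000000000000000000000000000000000000000000000) (nat_lit 4)
theorem c46683 : QOK q46683 := cut [q45169] ⟨c45169, trivial⟩ (nd (nat_lit 315) (nat_lit 0) (cs (lf (nat_lit 41) (nat_lit 249)) (rf (nat_lit 0)))) q46683 (by decide +kernel)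
def q46734 : Q := Q.p (nat_lit 0x3c0000400000000000000000000000000000000000000000000000000000000000000) (nat_lit 0xa0000f80003e0001d8000000000380000e00003800002000000000000000000000000000000000000000000000) (nat_lit 12)
theorem c46734 : QOK q46734 := cut [q46702, q46712, q46715, q46728] ⟨c46702, c46712, c46715, c46728, trivial⟩ (nd (nat_lit 292) (nat_lit 0) (cs (lf (nat_lit 11) (nat_lit 269)) (nd (nat_lit 314) (nat_lit 0) (cs (rf (nat_lit 0)) (cs (rf (nat_lit 1)) (cs (nd (nat_lit 248) (nat_lit 0) (cs (lf (nat_lit 23) (nat_lit 247)) (nd (nat_lit 226) (nat_lit 0) (cs (rf (nat_lit 2)) (nd (nat_lit 313) (nat_lit 0) (cs (lf (nat_lit 41) (nat_lit 247)) (nd (nat_lit 203) (nat_lit 0) (cs (lf (nat_lit 46) (nat_lit 203)) (nd (nat_lit 181) (nat_lit 0) (cs (lf (nat_lit 45) (nat_lit 181)) (nd (nat_lit 295) (nat_lit 0) (cs (lf (nat_lit 5) (nat_lit 270)) (nd (nat_lit 339) (nat_lit 0) (cs (lf (nat_lit 43) (nat_lit 250)) (nd (nat_lit 315) (nat_lit 0) (cs (lf (nat_lit 29) (nat_lit 248)) (nd (nat_lit 316) (nat_lit 0) (cs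 (lf (nat_lit 16) (nat_lit 291)) (lf (nat_lit 4) (nat_lit 313)))))))))))))))))))) (nd (nat_lit 295) (nat_lit 0) (cs (lf (nat_lit 5) (nat_lit 270)) (nd (nat_lit 317) (nat_lit 0) (cs (lf (nat_lit 42) (nat_lit 250)) (nd (nat_lit 248) (nat_lit 0) (cs (lf (nat_lit 23) (nat_lit 247)) (nd (nat_lit 315) (nat_lit 0) (cs (lf (nat_lit 29) (nat_lit 248)) (rf (nat_lit 3)))))))))))))))) q46734 (by decide +kernel)
def q46744 : Q := Q.p (nat_lit 0xc0000100000400000000000000000000000000000000000000000000000000000000) (nat_lit 0x2000000000000000000000380000e000028000000000000000000000000000000000000000) (nat_lit 5)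
theorem c46744 : QOK q46744 := cut [q46743] ⟨c46743, trivial⟩ (nd (nat_lit 204) (nat_lit 0) (cs (lf (nat_lit 29) (nat_lit 204)) (rf (nat_lit 0)))) q46744 (by decide +kernel)
def q46750 : Q := Q.p (nat_lit 0x3c0000500000400000000000000000000000000000000000000000000000000000000) (nat_lit 0x8000020000198000000000000000a0000380000a000000000000000000000000000000000000000000000) (nat_lit 7)
theorem c46750 : QOK q46750 := cut [q46747] ⟨c46747, trivial⟩ (nd (nat_lit 292) (nat_lit 0) (cs (lf (nat_lit 11) (nat_lit 269)) (nd (nat_lit 295) (nat_lit 0) (cs (lf (nat_lit 5) (nat_lit 270)) (nd (nat_lit 317) (nat_lit 0) (cs (lf (nat_lit 42) (nat_lit 250)) (rf (nat_lit 0)))))))) q46750 (by decide +kernel)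
def q46768 : Q := Q.p (nat_lit 0x80001c0000400000000000000000000000000000000000000000000000000000000000000) (nat_lit 0x40000300002e0000000000000000000000000000000000000000000000000000000000000) (nat_lit 4)
theorem c46768 : QOK q46768 := cut [q46767] ⟨c46767, trivial⟩ (nd (nat_lit 269) (nat_lit 0) (cs (lf (nat_lit 11) (nat_lit 268)) (rf (nat_lit 0)))) q46768 (by decide +kernel)
def q46798 : Q := Q.p (nat_lit 0x60000080000200000000000000000000000000000000000000000000000000000000) (nat_lit 0x10000000000100000000000c00003000004000000000000000000000000000000000000000) (nat_lit 4)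
theorem c46798 : QOK q46798 := cut [q46797] ⟨c46797, trivial⟩ (nd (nat_lit 203) (nat_lit 0) (cs (lf (nat_lit 29) (nat_lit 203)) (rf (nat_lit 0)))) q46798 (by decide +kernel)
def q46857 : Q := Q.p (nat_lit 0x40000100001c0003400000000000000000000000000000000000000000000000000000000000000) (nat_lit 0xe0000f80003b0001a0000600000100000000000000000000000000000000000000000000000000000000000000) (nat_lit 10)
theorem c46857 : QOK q46857 := cut [q46840, q46853, q46856] ⟨c46840, c46853, c46856, trivial⟩ (nd (nat_lit 337) (nat_lit 0) (cs (rf (nat_lit 0)) (cs (nd (nat_lit 273) (nat_lit 0) (cs (lf (nat_lit 15) (nat_lit 249)) (nd (nat_lit 336) (nat_lit 0) (cs (lf (nat_lit 29) (nat_lit 270)) (nd (nat_lit 293) (nat_lit 0) (cs (nd (nat_lit 295) (nat_lit 0) (cs (lf (nat_lit 5) (nat_lit 270)) (nd (nat_lit 317) (nat_lit 0) (cs (lf (nat_lit 42) (nat_lit 250)) (nd (nat_lit 335) (nat_lit 0) (cs (lf (nat_lit 41) (nat_lit 269)) (nd (nat_lit 338) (nat_lit 0) (cs (lf (nat_lit 16) (nat_lit 313)) (nd (nat_lit 313) (nat_lit 0) (cs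 (lf (nat_lit 36) (nat_lit 247)) (lf (nat_lit 23) (nat_lit 312)))))))))))) (lf (nat_lit 30) (nat_lit 270)))))))) (cs (rf (nat_lit 1)) (rf (nat_lit 2)))))) q46857 (by decide +kernel)
def q46861 : Q := Q.p (nat_lit 0x40000100001c0003400000000000000000000000000000000000000000000000000000000000000) (nat_lit 0x90000200001a0000600000200000800002000000000000000000000000000000000000000000000000000) (nat_lit 6)
theorem c46861 : QOK q46861 := cut [q46858] ⟨c46858, trivial⟩ (nd (nat_lit 273) (nat_lit 0) (cs (lf (nat_lit 15) (nat_lit 249)) (nd (nat_lit 295) (nat_lit 0) (cs (lf (nat_lit 5) (nat_lit 270)) (nd (nat_lit 317) (nat_lit 0) (cs (lf (nat_lit 42) (nat_lit 250)) (rf (nat_lit 0)))))))) q46861 (by decide +kernel)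
def q46892 : Q := Q.p (nat_lit 0x40000100001c0000400000000000000000000000000000000000000000000000000000000000000) (nat_lit 0x280000e0000380000a00002c000000000100000400001000000000000000000000000000000000000000000000000000) (nat_lit 7)
theorem c46892 : QOK q46892 := cut [q45213, q46883, q46888, q46891] ⟨c45213, c46883, c46888, c46891, trivial⟩ (nd (nat_lit 336) (nat_lit 0) (cs (rf (nat_lit 0)) (cs (nd (nat_lit 335) (nat_lit 0) (cs (lf (nat_lit 41) (nat_lit 269)) (nd (nat_lit 248) (nat_lit 0) (cs (lf (nat_lit 40) (nat_lit 247)) (rf (nat_lit 1)))))) (cs (nd (nat_lit 293) (nat_lit 0) (cs (lf (nat_lit 30) (nat_lit 270)) (nd (nat_lit 290) (nat_lit 0) (cs (lf (nat_lit 13) (nat_lit 268)) (rf (nat_lit 2)))))) (rf (nat_lit 3)))))) q46892 (by decide +kernel)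
def q46923 : Q := Q.p (nat_lit 0x3c0000500000400000000000000000000000000000000000000000000000000000000) (nat_lit 0x60000b80003e0001b0000000000270000b80002f00000000000000000000000000000000000000000000000000) (nat_lit 10)
theorem c46923 : QOK q46923 := cut [q46756, q46907, q46908, q46919] ⟨c46756, c46907, c46908, c46919, trivial⟩ (nd (nat_lit 292) (nat_lit 0) (cs (rf (nat_lit 0)) (cs (nd (nat_lit 225) (nat_lit 0) (cs (lf (nat_lit 47) (nat_lit 203)) (nd (nat_lit 227) (nat_lit 0) (cs (lf (nat_lit 35) (nat_lit 204)) (nd (nat_lit 249) (nat_lit 0) (cs (lf (nat_lit 30) (nat_lit 226)) (lf (nat_lit 0) (nat_lit 224)))))))) (cs (rf (nat_lit 1)) (cs (nd (nat_lit 295) (nat_lit 0) (cs (lf (nat_lit 5) (nat_lit 270)) (nd (nat_lit 317) (nat_lit 0) (cs (lf (nat_lit 42) (nat_lit 250)) (nd (nat_lit 315) (nat_lit 0) (cs (lf (nat_lit 28) (nat_lit 226)) (nd (nat_lit 203) (nat_lit 0) (cs (lf (nat_lit 46) (nat_lit 203)) (nd (nat_lit 314) (nat_lit 0) (cs (lf (nat_lit 29) (nat_lit 248)) (nd (nat_lit 336) (nat_lit 0) (cs (lf (nat_lit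 35) (nat_lit 248)) (rf (nat_lit 2)))))))))))))) (nd (nat_lit 293) (nat_lit 0) (cs (lf (nat_lit 29) (nat_lit 226)) (nd (nat_lit 295) (nat_lit 0) (cs (lf (nat_lit 5) (nat_lit 270)) (nd (nat_lit 317) (nat_lit 0) (cs (lf (nat_lit 42) (nat_lit 250)) (rf (nat_lit 3))))))))))))) q46923 (by decide +kernel)
def q46937 : Q := Q.p (nat_lit 0xc0000100000400002000000000000000000000000000000000000000000000000000) (nat_lit 0x20000000000180000e000008000000000000000000000000000000000000000) (nat_lit 4)
theorem c46937 : QOK q46937 := cut [q11929] ⟨c11929, trivial⟩ (nd (nat_lit 204) (nat_lit 0) (cs (rf (nat_lit 0)) (lf (nat_lit 35) (nat_lit 182)))) q46937 (by decide +kernel)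
def q46941 : Q := Q.p (nat_lit 0xc0000100000400000000000000000000000000000000000000000000000000000000) (nat_lit 0x20000000000200000000001800006000008000000000000000000000000000000000000000) (nat_lit 4)
theorem c46941 : QOK q46941 := cut [q11929] ⟨c11929, trivial⟩ (nd (nat_lit 204) (nat_lit 0) (cs (lf (nat_lit 29) (nat_lit 204)) (rf (nat_lit 0)))) q46941 (by decide +kernel)
def q46970 : Q := Q.p (nat_lit 0x4000020000180000600000000000000000000000000000000000000000000000000000000000000) (nat_lit 0x10000000000000000c0000300000c000000000000000000000000000000000000000000000) (nat_lit 4)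
theorem c46970 : QOK q46970 := cut [q46969] ⟨c46969, trivial⟩ (nd (nat_lit 227) (nat_lit 0) (cs (lf (nat_lit 40) (nat_lit 226)) (rf (nat_lit 0)))) q46970 (by decide +kernel)
def q46981 : Q := Q.p (nat_lit 0x20000180000600000000010000040000000000000000000000000000000000000000000000) (nat_lit 0x700001c00001000000000000000080000f0000bc000000000000000000000000000000000000000000000) (nat_lit 9)
theorem c46981 : QOK q46981 := cut [q46980] ⟨c46980, trivial⟩ (nd (nat_lit 315) (nat_lit 0) (cs (lf (nat_lit 30) (nat_lit 249)) (rf (nat_lit 0)))) q46981 (by decide +kernel)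
def q46986 : Q := Q.p (nat_lit 0x80000200001c0000600000000000000000000000000000000000000000000000000000000000000) (nat_lit 0x10000040000100000000001c0000700000000000000000000000000000000000000000000000000000000) (nat_lit 5)
theorem c46986 : QOK q46986 := cut [q46984] ⟨c46984, trivial⟩ (nd (nat_lit 314) (nat_lit 0) (cs (lf (nat_lit 41) (nat_lit 248)) (nd (nat_lit 248) (nat_lit 0) (cs (lf (nat_lit 47) (nat_lit 226)) (rf (nat_lit 0)))))) q46986 (by decide +kernel)
def q47038 : Q := Q.p (nat_lit 0x100001e0000600000000000000000000000000000000000000000000000000000000000000) (nat_lit 0xc0000000001c0000300000c00000000000000000000000000000000000000000000000000) (nat_lit 5)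
theorem c47038 : QOK q47038 := cut [q46582] ⟨c46582, trivial⟩ (nd (nat_lit 291) (nat_lit 0) (cs (lf (nat_lit 11) (nat_lit 268)) (rf (nat_lit 0)))) q47038 (by decide +kernel)
def q47043 : Q := Q.p (nat_lit 0x60000080000200000000000000000000000000000000000000000000000000000000) (nat_lit 0x10000000000000000000001c00007000014000000000000000000000000000000000000000) (nat_lit 5)
theorem c47043 : QOK q47043 := cut [q45760] ⟨c45760, trivial⟩ (nd (nat_lit 203) (nat_lit 0) (cs (lf (nat_lit 29) (nat_lit 203)) (rf (nat_lit 0)))) q47043 (by decide +kernel)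
def q47086 : Q := Q.p (nat_lit 0x20000080000200000800000000000000000000000000000000000000000000000000) (nat_lit 0x100000c000010000000000100001400005000000000000000000000000000000000000000000000) (nat_lit 5)
theorem c47086 : QOK q47086 := cut [q47084] ⟨c47084, trivial⟩ (nd (nat_lit 290) (nat_lit 0) (cs (lf (nat_lit 40) (nat_lit 202)) (nd (nat_lit 182) (nat_lit 0) (cs (lf (nat_lit 34) (nat_lit 181)) (rf (nat_lit 0)))))) q47086 (by decide +kernel)
def q47100 : Q := Q.p (nat_lit 0x8000020000080000200000000000000000000000000000000000000000000000000000000) (nat_lit 0x1400007000014000000000000000000000000000000000000000000000000000000000000000000000000) (nat_lit 4)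
theorem c47100 : QOK q47100 := cut [q47098] ⟨c47098, trivial⟩ (nd (nat_lit 314) (nat_lit 0) (cs (rf (nat_lit 0)) (lf (nat_lit 28) (nat_lit 225)))) q47100 (by decide +kernel)
def q47128 : Q := Q.p (nat_lit 0x1c000000000180000600000000000000000000000000000000000000000000000000000000000000) (nat_lit 0xc0000220001c0000000000000000000000000000000000000000000000000000000000000000000000000) (nat_lit 4)
theorem c47128 : QOK q47128 := cut [q47127] ⟨c47127, trivial⟩ (nd (nat_lit 294) (nat_lit 0) (cs (lf (nat_lit 42) (nat_lit 249)) (rf (nat_lit 0)))) q47128 (by decide +kernel)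
def q47203 : Q := Q.p (nat_lit 0x60000180000600000000000000000000000000000000000000000000000000000000000000) (nat_lit 0xf00007f000018000000000000000000000000000000000000000000000000000000000000000000000000) (nat_lit 7)
theorem c47203 : QOK q47203 := cut [q45169] ⟨c45169, trivial⟩ (nd (nat_lit 315) (nat_lit 0) (cs (lf (nat_lit 30) (nat_lit 249)) (nd (nat_lit 314) (nat_lit 0) (cs (lf (nat_lit 41) (nat_lit 248)) (nd (nat_lit 312) (nat_lit 0) (cs (lf (nat_lit 13) (nat_lit 290)) (nd (nat_lit 316) (nat_lit 0) (cs (lf (nat_lit 29) (nat_lit 249)) (rf (nat_lit 0)))))))))) q47203 (by decide +kernel)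
def q47215 : Q := Q.p (nat_lit 0x38000060000000003000000000000000000000000000000000000000000000000000000000000000) (nat_lit 0x300000c0000300000c00000000008000000000000000000000000000000000000000000000000000000000) (nat_lit 5)
theorem c47215 : QOK q47215 := cut [q45364] ⟨c45364, trivial⟩ (nd (nat_lit 318) (nat_lit 0) (cs (lf (nat_lit 18) (nat_lit 293)) (rf (nat_lit 0)))) q47215 (by decide +kernel)
def q47250 : Q := Q.p (nat_lit 0x1c0000700000000000000000000000000000000000000000000000000000000000000) (nat_lit 0x200000c0000300000c0000400001000000000000000000000000000000000000000000000000000) (nat_lit 5)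
theorem c47250 : QOK q47250 := cut [q47248] ⟨c47248, trivial⟩ (nd (nat_lit 269) (nat_lit 0) (cs (lf (nat_lit 12) (nat_lit 246)) (nd (nat_lit 247) (nat_lit 0) (cs (lf (nat_lit 0) (nat_lit 246)) (rf (nat_lit 0)))))) q47250 (by decide +kernel)
def q47267 : Q := Q.p (nat_lit 0x1c0000700000000000000000000000000000000000000000000000000000000000000) (nat_lit 0x40000100000d00000300000c0000300000800002000000000000000000000000000000000000000000000) (nat_lit 7)
theorem c47267 : QOK q47267 := cut [q47263] ⟨c47263, trivial⟩ (nd (nat_lit 269) (nat_lit 0) (cs (lf (nat_lit 12) (nat_lit 246)) (nd (nat_lit 247) (nat_lit 0) (cs (lf (nat_lit 23) (nat_lit 246)) (nd (nat_lit 294) (nat_lit 0) (cs (lf (nat_lit 5) (nat_lit 269)) (nd (nat_lit 316) (nat_lit 0) (cs (lf (nat_lit 42) (nat_lit 249)) (rf (nat_lit 0)))))))))) q47267 (by decide +kernel)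
def q47292 : Q := Q.p (nat_lit 0x8000020000080000400000000000000000000000000000000000000000000000000000000) (nat_lit 0x500001c00007000000000000000100000000000000000000000000000000000000000000000000000000000000) (nat_lit 5)
theorem c47292 : QOK q47292 := cut [q47291] ⟨c47291, trivial⟩ (nd (nat_lit 313) (nat_lit 0) (cs (lf (nat_lit 34) (nat_lit 225)) (rf (nat_lit 0)))) q47292 (by decide +kernel)
def q47324 : Q := Q.p (nat_lit 0x38000000000000003000000000000000000000000000000000000000000000000000000000000000) (nat_lit 0x7f0000c0000300000400000000008000000000000000000000000000000000000000000000000000000000) (nat_lit 5)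
theorem c47324 : QOK q47324 := cut [q45462, q47323] ⟨c45462, c47323, trivial⟩ (nd (nat_lit 318) (nat_lit 0) (cs (rf (nat_lit 0)) (rf (nat_lit 1)))) q47324 (by decide +kernel)
def q47325 : Q := Q.p (nat_lit 0x38000000000000003000000000000000000000000000000000000000000000000000000000000000) (nat_lit 0x778000c4000380000c00000000008000000000000000000000000000000000000000000000000000000000) (nat_lit 5)
theorem c47325 : QOK q47325 := cut [q43036, q45364, q47323] ⟨c43036, c45364, c47323, trivial⟩ (nd (nat_lit 318) (nat_lit 0) (cs (rf (nat_lit 0)) (cs (rf (nat_lit 1)) (rf (nat_lit 2))))) q47325 (by decide +kernel)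
def q47356 : Q := Q.p (nat_lit 0x80000200000800012000040000000000000000000000000000000000000000000000) (nat_lit 0x1000004000000000040000c000090000000000000000000000000000000000000000000000) (nat_lit 4)
theorem c47356 : QOK q47356 := cut [q40980] ⟨c40980, trivial⟩ (nd (nat_lit 270) (nat_lit 0) (cs (lf (nat_lit 41) (nat_lit 204)) (rf (nat_lit 0)))) q47356 (by decide +kernel)
def q47382 : Q := Q.p (nat_lit 0x8000020000180000600000000000000000000000000000000000000000000000000000000000000) (nat_lit 0x40000000000100000c00003000008000000000000000000000000000000000000000000000) (nat_lit 4)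
theorem c47382 : QOK q47382 := cut [q47381] ⟨c47381, trivial⟩ (nd (nat_lit 226) (nat_lit 0) (cs (lf (nat_lit 46) (nat_lit 226)) (rf (nat_lit 0)))) q47382 (by decide +kernel)
def q47470 : Q := Q.p (nat_lit 0x60000180000600000000000000000000000000000000000000000000000000000000000000) (nat_lit 0xc0000f0000098000000000000000000000000000000000000000000000000000000000000000000000000) (nat_lit 5)
theorem c47470 : QOK q47470 := cut [q47469] ⟨c47469, trivial⟩ (nd (nat_lit 316) (nat_lit 0) (cs (lf (nat_lit 42) (nat_lit 249)) (rf (nat_lit 0)))) q47470 (by decide +kernel)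
def q47474 : Q := Q.p (nat_lit 0x8000020000180000600000000010000040000000000000000000000000000000000000000000000) (nat_lit 0x400001000004000000000000000080000f0000bc000000000000000000000000000000000000000000000) (nat_lit 7)
theorem c47474 : QOK q47474 := cut [q47472] ⟨c47472, trivial⟩ (nd (nat_lit 316) (nat_lit 0) (cs (lf (nat_lit 29) (nat_lit 249)) (nd (nat_lit 227) (nat_lit 0) (cs (lf (nat_lit 43) (nat_lit 227)) (rf (nat_lit 0)))))) q47474 (by decide +kernel)
def q47485 : Q := Q.p (nat_lit 0x8000060000080000200000000000000000000000000000000000000000000000000000000000000) (nat_lit 0x1000007000190000000000000000000000000000000000000000000000000000000000000000000000000) (nat_lit 4)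
theorem c47485 : QOK q47485 := cut [q47484] ⟨c47484, trivial⟩ (nd (nat_lit 314) (nat_lit 0) (cs (lf (nat_lit 41) (nat_lit 248)) (rf (nat_lit 0)))) q47485 (by decide +kernel)
def q47565 : Q := Q.p (nat_lit 0x60000180000200000800000000000000000000000000000000000000000000000000000000) (nat_lit 0x400001c000200000000000400001000000000000000000000000000000000000000000000000000) (nat_lit 4)
theorem c47565 : QOK q47565 := cut [q47564] ⟨c47564, trivial⟩ (nd (nat_lit 204) (nat_lit 0) (cs (lf (nat_lit 46) (nat_lit 204)) (rf (nat_lit 0)))) q47565 (by decide +kernel)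
def q47601 : Q := Q.p (nat_lit 0x180003400000000000000000000000000000000000000000000000000000000000000) (nat_lit 0x90000740001fe0006700003c0000f00003800002000000000000000000000000000000000000000000000) (nat_lit 13)
theorem c47601 : QOK q47601 := cut [q46700, q46738, q46776, q46559, q46589, q46953] ⟨c46700, c46738, c46776, c46559, c46589, c46953, trivial⟩ (nd (nat_lit 273) (nat_lit 0) (cs (lf (nat_lit 15) (nat_lit 249)) (nd (nat_lit 270) (nat_lit 0) (cs (rf (nat_lit 0)) (cs (rf (nat_lit 1)) (cs (rf (nat_lit 2)) (nd (nat_lit 292) (nat_lit 0) (cs (lf (nat_lit 11) (nat_lit 269)) (nd (nat_lit 227) (nat_lit 0) (cs (nd (nat_lit 249) (nat_lit 0) (cs (lf (nat_lit 36) (nat_lit 204)) (rf (nat_lit 3)))) (cs (nd (nat_lit 295) (nat_lit 0) (cs (lf (nat_lit 5) (nat_lit 270)) (nd (nat_lit 317) (nat_lit 0) (cs (lf (nat_lit 42) (nat_lit 250)) (nd (nat_lit 248) (nat_lit 0) (cs (lf (nat_lit 23) (nat_lit 247)) (nd (nat_lit 226) (nat_lit 0) (cs (lf (nat_lit 35) (nat_lit 204)) (nd (nat_lit 204) (nat_lit 0) (cs (lf (nat_lit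 29) (nat_lit 204)) (rf (nat_lit 4)))))))))))) (cs (nd (nat_lit 295) (nat_lit 0) (cs (lf (nat_lit 5) (nat_lit 270)) (nd (nat_lit 317) (nat_lit 0) (cs (lf (nat_lit 42) (nat_lit 250)) (nd (nat_lit 248) (nat_lit 0) (cs (lf (nat_lit 23) (nat_lit 247)) (nd (nat_lit 249) (nat_lit 0) (cs (lf (nat_lit 30) (nat_lit 226)) (nd (nat_lit 294) (nat_lit 0) (cs (lf (nat_lit 42) (nat_lit 227)) (nd (nat_lit 293) (nat_lit 0) (cs (lf (nat_lit 5) (nat_lit 292)) (nd (nat_lit 226) (nat_lit 0) (cs (lf (nat_lit 24) (nat_lit 204)) (rf (nat_lit 5)))))))))))))))) (nd (nat_lit 205) (nat_lit 0) (cs (lf (nat_lit 38) (nat_lit 204)) (nd (nat_lit 248) (nat_lit 0) (cs (lf (nat_lit 23) (nat_lit 247)) (lf (nat_lit 33) (nat_lit 204)))))))))))))))))) q47601 (by decide +kernel)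
def q47608 : Q := Q.p (nat_lit 0x4000010000040000100000000000000000000000000000000000000000000000000000000000000) (nat_lit 0x2000008000020000000000000000e0000380000a000000000000000000000000000000000000000000000) (nat_lit 6)
theorem c47608 : QOK q47608 := cut [q47606] ⟨c47606, trivial⟩ (nd (nat_lit 315) (nat_lit 0) (cs (lf (nat_lit 29) (nat_lit 248)) (nd (nat_lit 226) (nat_lit 0) (cs (lf (nat_lit 28) (nat_lit 226)) (rf (nat_lit 0)))))) q47608 (by decide +kernel)
def q47623 : Q := Q.p (nat_lit 0x3c0000400000000000000000000000000000000000000000000000000000000000000) (nat_lit 0xe00000300003c0000000000000000000000000000000000000000000000000000000000000) (nat_lit 5)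
theorem c47623 : QOK q47623 := cut [q47621] ⟨c47621, trivial⟩ (nd (nat_lit 247) (nat_lit 0) (cs (lf (nat_lit 22) (nat_lit 247)) (nd (nat_lit 269) (nat_lit 0) (cs (lf (nat_lit 23) (nat_lit 246)) (rf (nat_lit 0)))))) q47623 (by decide +kernel)
def q47628 : Q := Q.p (nat_lit 0x1c0003400000000000000000000000000000000000000000000000000000000000000) (nat_lit 0x100000dc000630000200000800002000000000000000000000000000000000000000000000000000) (nat_lit 7)
theorem c47628 : QOK q47628 := cut [q46562] ⟨c46562, trivial⟩ (nd (nat_lit 273) (nat_lit 0) (cs (lf (nat_lit 15) (nat_lit 249)) (nd (nat_lit 291) (nat_lit 0) (cs (lf (nat_lit 10) (nat_lit 269)) (nd (nat_lit 269) (nat_lit 0) (cs (lf (nat_lit 11) (nat_lit 268)) (nd (nat_lit 249) (nat_lit 0) (cs (lf (nat_lit 12) (nat_lit 246)) (rf (nat_lit 0)))))))))) q47628 (by decide +kernel)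
def q47697 : Q := Q.p (nat_lit 0x100000e0000400000000000000000000000000000000000000000000000000000000000000) (nat_lit 0x1000004000020000010000200000800002000000000000000000000000000000000000000000000000000) (nat_lit 4)
theorem c47697 : QOK q47697 := cut [q46560] ⟨c46560, trivial⟩ (nd (nat_lit 249) (nat_lit 0) (cs (lf (nat_lit 12) (nat_lit 246)) (rf (nat_lit 0)))) q47697 (by decide +kernel)
def q47777 : Q := Q.p (nat_lit 0xc000030000180000400000000000000000000000000000000000000000000000000000000000000) (nat_lit 0x1c000070000040000000000200000800000000000000000000000000000000000000000000000000000000) (nat_lit 5)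
theorem c47777 : QOK q47777 := cut [q47776] ⟨c47776, trivial⟩ (nd (nat_lit 249) (nat_lit 0) (cs (lf (nat_lit 36) (nat_lit 226)) (rf (nat_lit 0)))) q47777 (by decide +kernel)
def q47871 : Q := Q.p (nat_lit 0x60000100000100003400000000000000000000000000000000000000000000000000000000000000) (nat_lit 0x1e7000398000ea0000680000000008000000000000000000000000000000000000000000000000000000000) (nat_lit 8)
theorem c47871 : QOK q47871 := cut [q47862, q47866, q47870] ⟨c47862, c47866, c47870, trivial⟩ (nd (nat_lit 298) (nat_lit 0) (cs (nd (nat_lit 274) (nat_lit 0) (cs (lf (nat_lit 35) (nat_lit 230)) (rf (nat_lit 0)))) (cs (nd (nat_lit 274) (nat_lit 0) (cs (lf (nat_lit 35) (nat_lit 230)) (nd (nat_lit 271) (nat_lit 0) (cs (lf (nat_lit 14) (nat_lit 249)) (nd (nat_lit 319) (nat_lit 0) (cs (lf (nat_lit 29) (nat_lit 252)) (rf (nat_lit 1)))))))) (rf (nat_lit 2))))) q47871 (by decide +kernel)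
def q47940 : Q := Q.p (nat_lit 0x60000100000100003400000000000000000000000000000000000000000000000000000000000000) (nat_lit 0x1ef000398000ea0000680000000000000000000000000000000000000000000000000000000000000000000) (nat_lit 8)
theorem c47940 : QOK q47940 := cut [q47870, q47862, q47866] ⟨c47870, c47862, c47866, trivial⟩ (nd (nat_lit 298) (nat_lit 0) (cs (rf (nat_lit 0)) (cs (nd (nat_lit 274) (nat_lit 0) (cs (lf (nat_lit 41) (nat_lit 251)) (rf (nat_lit 1)))) (nd (nat_lit 274) (nat_lit 0) (cs (lf (nat_lit 41) (nat_lit 251)) (nd (nat_lit 319) (nat_lit 0) (cs (lf (nat_lit 29) (nat_lit 252)) (nd (nat_lit 271) (nat_lit 0) (cs (lf (nat_lit 14) (nat_lit 249)) (rf (nat_lit 2))))))))))) q47940 (by decide +kernel)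
def q47960 : Q := Q.p (nat_lit 0x60000180001e0000000000000000000000000000000000000000000000000000000000000000000000000000000) (nat_lit 0xc0000f000009800000000000000c00000000000000000000000000000000000000000000000000000000000000000000000000) (nat_lit 6)
theorem c47960 : QOK q47960 := cut [q47959] ⟨c47959, trivial⟩ (nd (nat_lit 298) (nat_lit 0) (cs (lf (nat_lit 17) (nat_lit 295)) (rf (nat_lit 0)))) q47960 (by decide +kernel)
def q47962 : Q := Q.p (nat_lit 0x800006000018000060000000000000000000000000000000000000000000000000000000000000000000000000000000) (nat_lit 0xc00007000001800000000000000000000000000000000000000000000000000000000000000000000000000000000000000000) (nat_lit 4)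
theorem c47962 : QOK q47962 := cut [q42561] ⟨c42561, trivial⟩ (nd (nat_lit 384) (nat_lit 0) (cs (lf (nat_lit 29) (nat_lit 317)) (rf (nat_lit 0)))) q47962 (by decide +kernel)
def q47969 : Q := Q.p (nat_lit 0x2000018000060000000000100000400000000000000000000000000000000000000000000000000000000000000) (nat_lit 0x300000c00001000000000000000080000200000000000000000000000000000000000000000000000000000000000000000000) (nat_lit 4)
theorem c47969 : QOK q47969 := cut [q47968] ⟨c47968, trivial⟩ (nd (nat_lit 295) (nat_lit 0) (cs (lf (nat_lit 45) (nat_lit 250)) (rf (nat_lit 0)))) q47969 (by decide +kernel)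
def q47988 : Q := Q.p (nat_lit 0x80000e0000000000100003400000000000000000000000000000000000000000000000000000000000000) (nat_lit 0x3700001c0000a0000680000000000000000000000000000000000000000000000000000000000000000000) (nat_lit 7)
theorem c47988 : QOK q47988 := cut [q47983] ⟨c47983, trivial⟩ (nd (nat_lit 337) (nat_lit 0) (cs (nd (nat_lit 338) (nat_lit 0) (cs (lf (nat_lit 12) (nat_lit 314)) (lf (nat_lit 9) (nat_lit 315)))) (cs (nd (nat_lit 273) (nat_lit 0) (cs (lf (nat_lit 44) (nat_lit 250)) (nd (nat_lit 271) (nat_lit 0) (cs (lf (nat_lit 15) (nat_lit 249)) (rf (nat_lit 0)))))) (cs (nd (nat_lit 338) (nat_lit 0) (cs (lf (nat_lit 15) (nat_lit 315)) (lf (nat_lit 9) (nat_lit 315)))) (nd (nat_lit 338) (nat_lit 0) (cs (lf (nat_lit 15) (nat_lit 315)) (lf (nat_lit 12) (nat_lit 314)))))))) q47988 (by decide +kernel)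
def q48008 : Q := Q.p (nat_lit 0xe0000000000000002000000000000000000000000000000000000000000000000000000000000000) (nat_lit 0xee000110000e00001800000000000000000000000000000000000000000000000000000000000000000000) (nat_lit 5)
theorem c48008 : QOK q48008 := cut [q44191, q48005, q48007] ⟨c44191, c48005, c48007, trivial⟩ (nd (nat_lit 320) (nat_lit 0) (cs (rf (nat_lit 0)) (cs (rf (nat_lit 1)) (rf (nat_lit 2))))) q48008 (by decide +kernel)
def q48011 : Q := Q.p (nat_lit 0x1e0000000000100000400000000000000000000000000000000000000000000000000000000000000) (nat_lit 0x1dc000200000080000200000000000000000000000000000000000000000000000000000000000000000000) (nat_lit 5)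
theorem c48011 : QOK q48011 := cut [q45405] ⟨c45405, trivial⟩ (nd (nat_lit 339) (nat_lit 0) (cs (lf (nat_lit 11) (nat_lit 316)) (nd (nat_lit 273) (nat_lit 0) (cs (lf (nat_lit 44) (nat_lit 250)) (rf (nat_lit 0)))))) q48011 (by decide +kernel)
def q48054 : Q := Q.p (nat_lit 0x2000008000060000000000100000400000000000000000000000000000000000000000000000000000000000000) (nat_lit 0x40000700001c00004000010000000000080000200000000000000000000000000000000000000000000000000000000000000000000) (nat_lit 6)
theorem c48054 : QOK q48054 := cut [q46232] ⟨c46232, trivial⟩ (nd (nat_lit 295) (nat_lit 0) (cs (lf (nat_lit 45) (nat_lit 250)) (nd (nat_lit 384) (nat_lit 0) (cs (lf (nat_lit 28) (nat_lit 295)) (nd (nat_lit 383) (nat_lit 0) (cs (lf (nat_lit 29) (nat_lit 317)) (rf (nat_lit 0)))))))) q48054 (by decide +kernel)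
def q48122 : Q := Q.p (nat_lit 0x2000008000060000000000000000000000000000000000000000000000000000000000000000000000000000000) (nat_lit 0x100000600001c0003fe0007f0001de00014000010000000000000000000000000000000000000000000000000000000000000000000000000000000) (nat_lit 10)
theorem c48122 : QOK q48122 := cut [q45908, q46081, q46300, q45991, q45999, q46005] ⟨c45908, c46081, c46300, c45991, c45999, c46005, trivial⟩ (nd (nat_lit 383) (nat_lit 0) (cs (rf (nat_lit 0)) (cs (rf (nat_lit 1)) (cs (rf (nat_lit 2)) (nd (nat_lit 382) (nat_lit 0) (cs (lf (nat_lit 41) (nat_lit 316)) (nd (nat_lit 381) (nat_lit 0) (cs (rf (nat_lit 3)) (cs (rf (nat_lit 4)) (nd (nat_lit 384) (nat_lit 0) (cs (lf (nat_lit 29) (nat_lit 317)) (nd (nat_lit 358) (nat_lit 0) (cs (lf (nat_lit 22) (nat_lit 358)) (rf (nat_lit 5))))))))))))))) q48122 (by decide +kernel)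
def q48139 : Q := Q.p (nat_lit 0x2000068000000000100000400000000000000000000000000000000000000000000000000000000000000) (nat_lit 0x8000000000140000300000c0000100000400000000000000000000000000000000000000000000000000000000) (nat_lit 5)
theorem c48139 : QOK q48139 := cut [q48137] ⟨c48137, trivial⟩ (nd (nat_lit 293) (nat_lit 0) (cs (lf (nat_lit 33) (nat_lit 249)) (nd (nat_lit 292) (nat_lit 0) (cs (lf (nat_lit 20) (nat_lit 292)) (rf (nat_lit 0)))))) q48139 (by decide +kernel)
def q48280 : Q := Q.p (nat_lit 0x200000e0000000000100002400000000000000000000000000000000000000000000000000000000000000) (nat_lit 0x80001e0000f80003f0000de000000001f80001a00000000000000000000000000000000000000000000000000000000000000000000) (nat_lit 10)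
theorem c48280 : QOK q48280 := cut [q43497, q42492, q2581, q48242, q48245, q48255, q43498, q48254] ⟨c43497, c42492, c2581, c48242, c48245, c48255, c43498, c48254, trivial⟩ (nd (nat_lit 363) (nat_lit 0) (cs (nd (nat_lit 385) (nat_lit 0) (cs (lf (nat_lit 47) (nat_lit 296)) (nd (nat_lit 340) (nat_lit 0) (cs (lf (nat_lit 42) (nat_lit 318)) (nd (nat_lit 342) (nat_lit 0) (cs (lf (nat_lit 18) (nat_lit 317)) (rf (nat_lit 0)))))))) (cs (nd (nat_lit 297) (nat_lit 0) (cs (nd (nat_lit 364) (nat_lit 0) (cs (lf (nat_lit 29) (nat_lit 297)) (nd (nat_lit 275) (nat_lit 0) (cs (lf (nat_lit 41) (nat_lit 252)) (lf (nat_lit 28) (nat_lit 275)))))) (cs (nd (nat_lit 276) (nat_lit 0) (cs (lf (nat_lit 34) (nat_lit 275)) (nd (nat_lit 362) (nat_lit 0) (cs (lf (nat_lit 41) (nat_lit 296)) (nd (nat_lit 340) (nat_lit 0) (cs (nd (nat_lit 342) (nat_lit 0) (cs (lf (nat_lit 18) (nat_lit 317)) (nd (nat_lit 361) (nat_lit 0) (cs (lf (nat_lit 12) (nat_lit 338)) (rf (nat_lit 1)))))) (lf (nat_lit 36) (nat_lit 274)))))))) (nd (nat_lit 364) (nat_lit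 0) (cs (lf (nat_lit 29) (nat_lit 297)) (nd (nat_lit 362) (nat_lit 0) (cs (lf (nat_lit 41) (nat_lit 296)) (nd (nat_lit 298) (nat_lit 0) (cs (lf (nat_lit 35) (nat_lit 275)) (rf (nat_lit 2))))))))))) (cs (rf (nat_lit 3)) (cs (nd (nat_lit 385) (nat_lit 0) (cs (lf (nat_lit 47) (nat_lit 296)) (nd (nat_lit 386) (nat_lit 0) (cs (lf (nat_lit 29) (nat_lit 319)) (nd (nat_lit 340) (nat_lit 0) (cs (lf (nat_lit 42) (nat_lit 318)) (nd (nat_lit 342) (nat_lit 0) (cs (lf (nat_lit 18) (nat_lit 317)) (nd (nat_lit 275) (nat_lit 0) (cs (lf (nat_lit 38) (nat_lit 252)) (rf (nat_lit 4)))))))))))) (cs (nd (nat_lit 385) (nat_lit 0) (cs (lf (nat_lit 47) (nat_lit 296)) (nd (nat_lit 386) (nat_lit 0) (cs (lf (nat_lit 29) (nat_lit 319)) (nd (nat_lit 340) (nat_lit 0) (cs (lf (nat_lit 42) (nat_lit 318)) (rf (nat_lit 5)))))))) (cs (nd (nat_lit 340) (nat_lit 0) (cs (rf (nat_lit 6)) (cs (nd (nat_lit 385) (nat_lit 0) (cs (lf (nat_lit 42) (nat_lit 318)) (nd (nat_lit 275) (nat_lit 0) (cs (lf (nat_lit 38) (nat_lit 252)) (nd (nat_lit 386) (nat_lit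 0) (cs (lf (nat_lit 29) (nat_lit 319)) (nd (nat_lit 342) (nat_lit 0) (cs (lf (nat_lit 18) (nat_lit 317)) (rf (nat_lit 4)))))))))) (cs (nd (nat_lit 342) (nat_lit 0) (cs (lf (nat_lit 18) (nat_lit 317)) (nd (nat_lit 385) (nat_lit 0) (cs (lf (nat_lit 42) (nat_lit 318)) (nd (nat_lit 386) (nat_lit 0) (cs (lf (nat_lit 29) (nat_lit 319)) (rf (nat_lit 7)))))))) (cs (nd (nat_lit 342) (nat_lit 0) (cs (lf (nat_lit 18) (nat_lit 317)) (nd (nat_lit 297) (nat_lit 0) (cs (lf (nat_lit 37) (nat_lit 252)) (nd (nat_lit 362) (nat_lit 0) (cs (lf (nat_lit 30) (nat_lit 296)) (nd (nat_lit 360) (nat_lit 0) (cs (lf (nat_lit 13) (nat_lit 338)) (nd (nat_lit 276) (nat_lit 0) (cs (lf (nat_lit 34) (nat_lit 275)) (nd (nat_lit 364) (nat_lit 0) (cs (lf (nat_lit 29) (nat_lit 297)) (nd (nat_lit 339) (nat_lit 0) (cs (lf (nat_lit 5) (nat_lit 339)) (lf (nat_lit 0) (nat_lit 338)))))))))))))))) (nd (nat_lit 385) (nat_lit 0) (cs (lf (nat_lit 42) (nat_lit 318)) (nd (nat_lit 275) (nat_lit 0) (cs (lf (nat_lit 38) (nat_lit 252)) (rf (nat_lit 5)))))))))))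 (nd (nat_lit 385) (nat_lit 0) (cs (lf (nat_lit 47) (nat_lit 296)) (nd (nat_lit 340) (nat_lit 0) (cs (lf (nat_lit 42) (nat_lit 318)) (nd (nat_lit 342) (nat_lit 0) (cs (lf (nat_lit 18) (nat_lit 317)) (nd (nat_lit 275) (nat_lit 0) (cs (lf (nat_lit 38) (nat_lit 252)) (rf (nat_lit 7))))))))))))))))) q48280 (by decide +kernel)
def q48318 : Q := Q.p (nat_lit 0xc0000200000000002000000000000000000000000000000000000000000000000000000000000000) (nat_lit 0x50000100000500000800000000008000000000000000000000000000000000000000000000000000000000) (nat_lit 4)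
theorem c48318 : QOK q48318 := cut [q21971] ⟨c21971, trivial⟩ (nd (nat_lit 275) (nat_lit 0) (cs (lf (nat_lit 41) (nat_lit 252)) (rf (nat_lit 0)))) q48318 (by decide +kernel)
def q48329 : Q := Q.p (nat_lit 0x60000100000100002000000000000000000000000000000000000000000000000000000000000000) (nat_lit 0x200000f80003e0000f0000380000e80003a00000000008000000000000000000000000000000000000000000000000000000000) (nat_lit 11)
theorem c48329 : QOK q48329 := cut [q41951, q47934, q42049, q44965, q42054] ⟨c41951, c47934, c42049, c44965, c42054, trivial⟩ (nd (nat_lit 297) (nat_lit 0) (cs (rf (nat_lit 0)) (cs (rf (nat_lit 1)) (nd (nat_lit 298) (nat_lit 0) (cs (lf (nat_lit 6) (nat_lit 295)) (nd (nat_lit 295) (nat_lit 0) (cs (lf (nat_lit 22) (nat_lit 272)) (nd (nat_lit 320) (nat_lit 0) (cs (lf (nat_lit 5) (nat_lit 295)) (nd (nat_lit 342) (nat_lit 0) (cs (rf (nat_lit 2)) (cs (rf (nat_lit 3)) (cs (nd (nat_lit 276) (nat_lit 0) (cs (lf (nat_lit 17) (nat_lit 273)) (nd (nat_lit 363) (nat_lit 0) (cs (lf (nat_lit 40) (nat_lit 275))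 (rf (nat_lit 4)))))) (nd (nat_lit 276) (nat_lit 0) (cs (lf (nat_lit 17) (nat_lit 273)) (nd (nat_lit 343) (nat_lit 0) (cs (lf (nat_lit 2) (nat_lit 317)) (lf (nat_lit 29) (nat_lit 276))))))))))))))))))) q48329 (by decide +kernel)
def q48365 : Q := Q.p (nat_lit 0x40000000000180003000000000000000000000000000000000000000000000000000000000000000) (nat_lit 0x8000030000080000100000e00000000008000000000000000000000000000000000000000000000000000000000) (nat_lit 5)
theorem c48365 : QOK q48365 := cut [q46682] ⟨c46682, trivial⟩ (nd (nat_lit 274) (nat_lit 0) (cs (lf (nat_lit 14) (nat_lit 249)) (rf (nat_lit 0)))) q48365 (by decide +kernel)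
def q48379 : Q := Q.p (nat_lit 0x60000100000100003400001000000000000000000000000000000000000000000000000000000000) (nat_lit 0x100000c0000300000800000c0000e00000000000000000000000000000000000000000000000000000000000000000000) (nat_lit 4)
theorem c48379 : QOK q48379 := cut [q42103] ⟨c42103, trivial⟩ (nd (nat_lit 340) (nat_lit 0) (cs (rf (nat_lit 0)) (nd (nat_lit 295) (nat_lit 0) (cs (lf (nat_lit 27) (nat_lit 228)) (nd (nat_lit 362) (nat_lit 0) (cs (lf (nat_lit 42) (nat_lit 295)) (lf (nat_lit 47) (nat_lit 273)))))))) q48379 (by decide +kernel)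
def q48428 : Q := Q.p (nat_lit 0x38000000000000003000000000000000000000000000000000000000000000000000000000000000) (nat_lit 0x38000044000338000c00000000008000000000000000000000000000000000000000000000000000000000) (nat_lit 5)
theorem c48428 : QOK q48428 := cut [q45364, q45462, q42418] ⟨c45364, c45462, c42418, trivial⟩ (nd (nat_lit 318) (nat_lit 0) (cs (rf (nat_lit 0)) (cs (rf (nat_lit 1)) (nd (nat_lit 340) (nat_lit 0) (cs (lf (nat_lit 5) (nat_lit 315)) (rf (nat_lit 2))))))) q48428 (by decide +kernel)
def q48519 : Q := Q.p (nat_lit 0x38000000000000003000000000000000000000000000000000000000000000000000000000000000) (nat_lit 0x33800044000338000c00000000008000000000000000000000000000000000000000000000000000000000) (nat_lit 5)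
theorem c48519 : QOK q48519 := cut [q45364] ⟨c45364, trivial⟩ (nd (nat_lit 318) (nat_lit 0) (cs (rf (nat_lit 0)) (nd (nat_lit 292) (nat_lit 0) (cs (lf (nat_lit 22) (nat_lit 292)) (nd (nat_lit 336) (nat_lit 0) (cs (lf (nat_lit 10) (nat_lit 314)) (nd (nat_lit 314) (nat_lit 0) (cs (lf (nat_lit 11) (nat_lit 313)) (lf (nat_lit 23) (nat_lit 291)))))))))) q48519 (by decide +kernel)
def q48541 : Q := Q.p (nat_lit 0x100000400001000004000000000000000000000000000000000000000000000000000) (nat_lit 0x8000060000080000000000800002000008000000000000000000000000000000000000000000000) (nat_lit 4)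
theorem c48541 : QOK q48541 := cut [q17370] ⟨c17370, trivial⟩ (nd (nat_lit 293) (nat_lit 0) (cs (lf (nat_lit 40) (nat_lit 205)) (rf (nat_lit 0)))) q48541 (by decide +kernel)
def q48549 : Q := Q.p (nat_lit 0x1c0000100002400001000000000000000000000000000000000000000000000000000000000) (nat_lit 0x1c0000600001880000000008800002000000000000000000000000000000000000000000000000000) (nat_lit 6)
theorem c48549 : QOK q48549 := cut [q48548] ⟨c48548, trivial⟩ (nd (nat_lit 205) (nat_lit 0) (cs (lf (nat_lit 46) (nat_lit 205)) (rf (nat_lit 0)))) q48549 (by decide +kernel)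
def q48566 : Q := Q.p (nat_lit 0x40000100003400000000000000000000000000000000000000000000000000000000000000) (nat_lit 0x20000180001f00007b8001ee0000200009000000000000000000000000000000000000000000000000000000000) (nat_lit 8)
theorem c48566 : QOK q48566 := cut [q14188, q44503, q45190, q48548, q45175, q45178, q45181, q48547] ⟨c14188, c44503, c45190, c48548, c45175, c45178, c45181, c48547, trivial⟩ (nd (nat_lit 295) (nat_lit 0) (cs (rf (nat_lit 0)) (nd (nat_lit 296) (nat_lit 0) (cs (rf (nat_lit 1)) (cs (rf (nat_lit 2)) (cs (rf (nat_lit 3)) (nd (nat_lit 297) (nat_lit 0) (cs (rf (nat_lit 4)) (cs (rf (nat_lit 5)) (cs (rf (nat_lit 6)) (rf (nat_lit 7)))))))))))) q48566 (by decide +kernel)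
def q48636 : Q := Q.p (nat_lit 0x8000040000100000400000000010000040000000000000000000000000000000000000000000000) (nat_lit 0x2000000000000000300000e0000a8000000000000000000000000000000000000000000000) (nat_lit 5)
theorem c48636 : QOK q48636 := cut [q20189] ⟨c20189, trivial⟩ (nd (nat_lit 228) (nat_lit 0) (cs (lf (nat_lit 40) (nat_lit 227)) (rf (nat_lit 0)))) q48636 (by decide +kernel)
def q48676 : Q := Q.p (nat_lit 0x60000100003000000000000000000000000000000000000000000000000000000000000000) (nat_lit 0x80000300000c0000398000ec0000000008000000000000000000000000000000000000000000000000000000000) (nat_lit 6)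
theorem c48676 : QOK q48676 := cut [q46633, q48669, q48673] ⟨c46633, c48669, c48673, trivial⟩ (nd (nat_lit 274) (nat_lit 0) (cs (nd (nat_lit 273) (nat_lit 0) (cs (lf (nat_lit 12) (nat_lit 249)) (lf (nat_lit 6) (nat_lit 271)))) (cs (nd (nat_lit 296) (nat_lit 0) (cs (rf (nat_lit 0)) (cs (rf (nat_lit 1)) (nd (nat_lit 318) (nat_lit 0) (cs (lf (nat_lit 35) (nat_lit 230)) (nd (nat_lit 319) (nat_lit 0) (cs (lf (nat_lit 29) (nat_lit 252)) (lf (nat_lit 2) (nat_lit 293))))))))) (cs (nd (nat_lit 273) (nat_lit 0) (cs (lf (nat_lit 6) (nat_lit 271)) (rf (nat_lit 2)))) (nd (nat_lit 273) (nat_lit 0) (cs (lf (nat_lit 12) (nat_lit 249)) (rf (nat_lit 2)))))))) q48676 (by decide +kernel)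
def q48702 : Q := Q.p (nat_lit 0x80001a0000080000000000000000000000000000000000000000000000000000000000000) (nat_lit 0x1000004000050000000000600001800004000000000000000000000000000000000000000000000) (nat_lit 5)
theorem c48702 : QOK q48702 := cut [q48700] ⟨c48700, trivial⟩ (nd (nat_lit 290) (nat_lit 0) (cs (rf (nat_lit 0)) (lf (nat_lit 8) (nat_lit 268)))) q48702 (by decide +kernel)
def q48708 : Q := Q.p (nat_lit 0x2000008000020000080000000000000000000000000000000000000000000000000000000000000) (nat_lit 0x400001800004000000000010000040000100000000000000000000000000000000000000000000000000000000) (nat_lit 4)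
theorem c48708 : QOK q48708 := cut [q48706] ⟨c48706, trivial⟩ (nd (nat_lit 246) (nat_lit 0) (cs (rf (nat_lit 0)) (lf (nat_lit 47) (nat_lit 224)))) q48708 (by decide +kernel)
def q48716 : Q := Q.p (nat_lit 0x1a0003480000000000000000000000000000000000000000000000000000000000000) (nat_lit 0x1000004000038000650000240000800002000000000000000000000000000000000000000000000000000) (nat_lit 7)
theorem c48716 : QOK q48716 := cut [q48712] ⟨c48712, trivial⟩ (nd (nat_lit 273) (nat_lit 0) (cs (lf (nat_lit 15) (nat_lit 249)) (nd (nat_lit 270) (nat_lit 0) (cs (lf (nat_lit 23) (nat_lit 246)) (nd (nat_lit 249) (nat_lit 0) (cs (lf (nat_lit 12) (nat_lit 246)) (nd (nat_lit 292) (nat_lit 0) (cs (lf (nat_lit 11) (nat_lit 269)) (rf (nat_lit 0)))))))))) q48716 (by decide +kernel)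
def q48718 : Q := Q.p (nat_lit 0x18000020000080000000000000000000000000000000000000000000000000000000000000) (nat_lit 0x4000000000000000000000700001c00005000000000000000000000000000000000000000000000) (nat_lit 5)
theorem c48718 : QOK q48718 := cut [q46785] ⟨c46785, trivial⟩ (nd (nat_lit 225) (nat_lit 0) (cs (lf (nat_lit 29) (nat_lit 225)) (rf (nat_lit 0)))) q48718 (by decide +kernel)
def q48738 : Q := Q.p (nat_lit 0x8000020000080000200000000000000000000000000000000000000000000000000000000) (nat_lit 0x400003000004000000000040000100000400000000000000000000000000000000000000000000000000) (nat_lit 4)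
theorem c48738 : QOK q48738 := cut [q48737] ⟨c48737, trivial⟩ (nd (nat_lit 312) (nat_lit 0) (cs (lf (nat_lit 40) (nat_lit 224)) (rf (nat_lit 0)))) q48738 (by decide +kernel)
def q48764 : Q := Q.p (nat_lit 0x20000080000200000e00000000000000000000000000000000000000000000000000) (nat_lit 0x4000010000000000500000180000700000000000000000000000000000000000000000000) (nat_lit 5)
theorem c48764 : QOK q48764 := cut [q48763] ⟨c48763, trivial⟩ (nd (nat_lit 268) (nat_lit 0) (cs (lf (nat_lit 41) (nat_lit 202)) (rf (nat_lit 0)))) q48764 (by decide +kernel)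
def q48772 : Q := Q.p (nat_lit 0x2000008000020000080000000000000000000000000000000000000000000000000000000000000) (nat_lit 0x100000c00001000000000010000040000100000000000000000000000000000000000000000000000000000000) (nat_lit 4)
theorem c48772 : QOK q48772 := cut [q48771] ⟨c48771, trivial⟩ (nd (nat_lit 246) (nat_lit 0) (cs (lf (nat_lit 47) (nat_lit 224)) (rf (nat_lit 0)))) q48772 (by decide +kernel)
def q48786 : Q := Q.p (nat_lit 0x8000020000080000200000000000000000000000000000000000000000000000000000000) (nat_lit 0x80000600001400001c000040000500001800006000000000000000000000000000000000000000000000) (nat_lit 8)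
theorem c48786 : QOK q48786 := cut [q48780] ⟨c48780, trivial⟩ (nd (nat_lit 204) (nat_lit 0) (cs (lf (nat_lit 34) (nat_lit 203)) (nd (nat_lit 292) (nat_lit 0) (cs (lf (nat_lit 29) (nat_lit 225)) (nd (nat_lit 203) (nat_lit 0) (cs (lf (nat_lit 35) (nat_lit 181)) (nd (nat_lit 268) (nat_lit 0) (cs (lf (nat_lit 41) (nat_lit 202)) (nd (nat_lit 266) (nat_lit 0) (cs (rf (nat_lit 0)) (lf (nat_lit 1) (nat_lit 266)))))))))))) q48786 (by decide +kernel)
def q48800 : Q := Q.p (nat_lit 0x20000080000200000800000000000000000000000000000000000000000000000000) (nat_lit 0x1000004000010000100000700001c000010000000000000000000000000000000000) (nat_lit 6)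
theorem c48800 : QOK q48800 := cut [q48798] ⟨c48798, trivial⟩ (nd (nat_lit 182) (nat_lit 0) (cs (lf (nat_lit 34) (nat_lit 181)) (nd (nat_lit 181) (nat_lit 0) (cs (lf (nat_lit 35) (nat_lit 159)) (rf (nat_lit 0)))))) q48800 (by decide +kernel)
def q48825 : Q := Q.p (nat_lit 0x20000080000200000800000000000000000000000000000000000000000000000000) (nat_lit 0x2000008000010000040000100001400006000018000000000000000000000000000000000000000) (nat_lit 6)
theorem c48825 : QOK q48825 := cut [q48822] ⟨c48822, trivial⟩ (nd (nat_lit 182) (nat_lit 0) (cs (lf (nat_lit 34) (nat_lit 181)) (nd (nat_lit 181) (nat_lit 0) (cs (lf (nat_lit 35) (nat_lit 159)) (nd (nat_lit 246) (nat_lit 0) (cs (lf (nat_lit 41) (nat_lit 180)) (rf (nat_lit 0)))))))) q48825 (by decide +kernel)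
def q48829 : Q := Q.p (nat_lit 0x8000020000080000200000000000000000000000000000000000000000000000000000000) (nat_lit 0x1000004000010000000000100000c00001000000000000000000000000000000000000000000000) (nat_lit 4)
theorem c48829 : QOK q48829 := cut [q48828] ⟨c48828, trivial⟩ (nd (nat_lit 290) (nat_lit 0) (cs (lf (nat_lit 41) (nat_lit 224)) (rf (nat_lit 0)))) q48829 (by decide +kernel)
def q48836 : Q := Q.p (nat_lit 0x80001a0000080000000000000000000000000000000000000000000000000000000000000) (nat_lit 0x2000000000050000040000100000400001000000000000000000000000000000000000000000000) (nat_lit 4)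
theorem c48836 : QOK q48836 := cut [q48835] ⟨c48835, trivial⟩ (nd (nat_lit 246) (nat_lit 0) (cs (lf (nat_lit 20) (nat_lit 246)) (rf (nat_lit 0)))) q48836 (by decide +kernel)

end Crest.Agent.H3.Snaky.CR
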