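import Crest.Agent.H3.Snaky.Cert
import Crest.Agent.H3.Snaky.CR.CR0
import Crest.Agent.H3.Snaky.CR.CR1
import Crest.Agent.H3.Snaky.CR.CR2
import Crest.Agent.H3.Snaky.CR.CR3
import Crest.Agent.H3.Snaky.CR.CR4
import Crest.Agent.H3.Snaky.CR.CR5
import Crest.Agent.H3.Snaky.CR.CR6
import Crest.Agent.H3.Snaky.CR.CR7
import Crest.Agent.H3.Snaky.CR.CR8
import Crest.Agent.H3.Snaky.CR.CR9
import Crest.Agent.H3.Snaky.CR.CR10
import Crest.Agent.H3.Snaky.CR.CR11
import Crest.Agent.H3.Snaky.CR.CR12
import Crest.Agent.H3.Snaky.CR.CR13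
import Crest.Agent.H3.Snaky.CR.CR20
import Crest.Agent.H3.Snaky.CR.CR21
import Crest.Agent.H3.Snaky.CR.CR22
import Crest.Agent.H3.Snaky.CR.CR23
import Crest.Agent.H3.Snaky.CR.CR24
import Crest.Agent.H3.Snaky.CR.CR25
import Crest.Agent.H3.Snaky.CR.CR26
import Crest.Agent.H3.Snaky.CR.CR27
import Crest.Agent.H3.Snaky.CR.CR28
import Crest.Agent.H3.Snaky.CR.CR29
import Crest.Agent.H3.Snaky.CR.CR30

set_option autoImplicit false
set_option maxRecDepth 100000

namespace Crest.Agent.H3.Snaky.CR

open T

def q48844 : Q := Q.p (nat_lit 0xc000180000080000000000000000000000000000000000000000000000000000000000000) (nat_lit 0x1000000000070000000000600001800004000000000000000000000000000000000000000000000) (nat_lit 5)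
theorem c48844 : QOK q48844 := cut [q48700] ⟨c48700, trivial⟩ (nd (nat_lit 269) (nat_lit 0) (cs (rf (nat_lit 0)) (lf (nat_lit 8) (nat_lit 268)))) q48844 (by decide +kernel)
def q49103 : Q := Q.p (nat_lit 0x40000180000400001000000000000000000000000000000000000000000000000000000000) (nat_lit 0x20000380000e000030000020000000000200000800002000000000000000000000000000000000000000000000000000) (nat_lit 7)
theorem c49103 : QOK q49103 := cut [q49101] ⟨c49101, trivial⟩ (nd (nat_lit 227) (nat_lit 0) (cs (lf (nat_lit 47) (nat_lit 205)) (nd (nat_lit 316) (nat_lit 0) (cs (lf (nat_lit 46) (nat_lit 227)) (rf (nat_lit 0)))))) q49103 (by decide +kernel)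
def q49116 : Q := Q.p (nat_lit 0x10000040000180000400001000000000000000000000000000000000000000000000000000000000) (nat_lit 0x300000c000028000020000000000000000000000000000000000000000000000000000000000000000000000000) (nat_lit 4)
theorem c49116 : QOK q49116 := cut [q49115] ⟨c49115, trivial⟩ (nd (nat_lit 293) (nat_lit 0) (cs (lf (nat_lit 41) (nat_lit 227)) (rf (nat_lit 0)))) q49116 (by decide +kernel)
def q49120 : Q := Q.p (nat_lit 0x180000400001000000000000000000000000000000000000000000000000000000000) (nat_lit 0x20000000000200000000006000018000020000000000000000000000000000000000000000) (nat_lit 4)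
theorem c49120 : QOK q49120 := cut [q17126] ⟨c17126, trivial⟩ (nd (nat_lit 206) (nat_lit 0) (cs (lf (nat_lit 41) (nat_lit 205)) (rf (nat_lit 0)))) q49120 (by decide +kernel)
def q49160 : Q := Q.p (nat_lit 0x2000008000020000080000000000000000000000000000000000000000000000000000000000000) (nat_lit 0x400001000004000000000040000300000400000000000000000000000000000000000000000000000000) (nat_lit 4)
theorem c49160 : QOK q49160 := cut [q49159] ⟨c49159, trivial⟩ (nd (nat_lit 312) (nat_lit 0) (cs (lf (nat_lit 41) (nat_lit 246)) (rf (nat_lit 0)))) q49160 (by decide +kernel)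
def q49172 : Q := Q.p (nat_lit 0x80001a0000080000000000000000000000000000000000000000000000000000000000000) (nat_lit 0x2000000000040000040000300000400001000000000000000000000000000000000000000000000) (nat_lit 4)
theorem c49172 : QOK q49172 := cut [q49171] ⟨c49171, trivial⟩ (nd (nat_lit 246) (nat_lit 0) (cs (lf (nat_lit 20) (nat_lit 246)) (rf (nat_lit 0)))) q49172 (by decide +kernel)
def q49193 : Q := Q.p (nat_lit 0x180000400001000000000000000000000000000000000000000000000000000000000) (nat_lit 0x2000000000000000000000e0000380000a0000000000000000000000000000000000000000) (nat_lit 5)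
theorem c49193 : QOK q49193 := cut [q2085] ⟨c2085, trivial⟩ (nd (nat_lit 206) (nat_lit 0) (cs (lf (nat_lit 41) (nat_lit 205)) (rf (nat_lit 0)))) q49193 (by decide +kernel)
def q49200 : Q := Q.p (nat_lit 0xc0000200000800000000000000000000000000000000000000000000000000) (nat_lit 0x10000000000100000000006000018000040000000000000000000000000000000000) (nat_lit 4)
theorem c49200 : QOK q49200 := cut [q49199] ⟨c49199, trivial⟩ (nd (nat_lit 181) (nat_lit 0) (cs (lf (nat_lit 41) (nat_lit 180)) (rf (nat_lit 0)))) q49200 (by decide +kernel)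
def q49203 : Q := Q.p (nat_lit 0x1000000c0000200000800000000000000000000000000000000000000000000000000) (nat_lit 0x100000e0000100000100000000006000018000040000000000000000000000000000000000) (nat_lit 4)
theorem c49203 : QOK q49203 := cut [q41051, q49202] ⟨c41051, c49202, trivial⟩ (nd (nat_lit 181) (nat_lit 0) (cs (rf (nat_lit 0)) (rf (nat_lit 1)))) q49203 (by decide +kernel)
def q49205 : Q := Q.p (nat_lit 0xc0000200000800000000000000000000000000000000000000000000000000) (nat_lit 0x1000000000010000000000300000c000010000000000000000000000000000000000) (nat_lit 4)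
theorem c49205 : QOK q49205 := cut [q49204] ⟨c49204, trivial⟩ (nd (nat_lit 181) (nat_lit 0) (cs (lf (nat_lit 41) (nat_lit 180)) (rf (nat_lit 0)))) q49205 (by decide +kernel)
def q49206 : Q := Q.p (nat_lit 0xc0000200000800000000000000000000000000000000000000000000000000) (nat_lit 0x1000000000000000000000700001c000050000000000000000000000000000000000) (nat_lit 5)
theorem c49206 : QOK q49206 := cut [q41049] ⟨c41049, trivial⟩ (nd (nat_lit 181) (nat_lit 0) (cs (lf (nat_lit 41) (nat_lit 180)) (rf (nat_lit 0)))) q49206 (by decide +kernel)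
def q49224 : Q := Q.p (nat_lit 0x1000004c0000600000000000000000000000000000000000000000000000000000000) (nat_lit 0x280000e000010000180000f00003c0000b0000000000000000000000000000000000000000) (nat_lit 8)
theorem c49224 : QOK q49224 := cut [q49217, q49221] ⟨c49217, c49221, trivial⟩ (nd (nat_lit 269) (nat_lit 0) (cs (rf (nat_lit 0)) (nd (nat_lit 228) (nat_lit 0) (cs (rf (nat_lit 1)) (lf (nat_lit 7) (nat_lit 224)))))) q49224 (by decide +kernel)
def q49237 : Q := Q.p (nat_lit 0x80001200000c0000200000000000000000000000000000000000000000000000000000000) (nat_lit 0x50000340000c0000000000000000000000000000000000000000000000000000000000000000000) (nat_lit 4)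
theorem c49237 : QOK q49237 := cut [q48862] ⟨c48862, trivial⟩ (nd (nat_lit 271) (nat_lit 0) (cs (lf (nat_lit 20) (nat_lit 246)) (rf (nat_lit 0)))) q49237 (by decide +kernel)
def q49286 : Q := Q.p (nat_lit 0x60000680000800000000000000000000000000000000000000000000000000) (nat_lit 0x18000000000100000700001c00007000010000000000000000000000000000000000) (nat_lit 5)
theorem c49286 : QOK q49286 := cut [q49273, q49285] ⟨c49273, c49285, trivial⟩ (nd (nat_lit 201) (nat_lit 0) (cs (rf (nat_lit 0)) (cs (nd (nat_lit 200) (nat_lit 0) (cs (lf (nat_lit 2) (nat_lit 200)) (nd (nat_lit 179) (nat_lit 0) (cs (nd (nat_lit 178) (nat_lit 0) (cs (lf (nat_lit 47) (nat_lit 156)) (lf (nat_lit 42) (nat_lit 178)))) (lf (nat_lit 29) (nat_lit 179)))))) (rf (nat_lit 1))))) q49286 (by decide +kernel)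
def q49302 : Q := Q.p (nat_lit 0x1200000c0000200000000000000000000000000000000000000000000000000000000) (nat_lit 0x100000c0000100000000001800006000010000000000000000000000000000000000000000) (nat_lit 5)
theorem c49302 : QOK q49302 := cut [q46782] ⟨c46782, trivial⟩ (nd (nat_lit 270) (nat_lit 0) (cs (lf (nat_lit 19) (nat_lit 246)) (rf (nat_lit 0)))) q49302 (by decide +kernel)
def q49403 : Q := Q.p (nat_lit 0xc0000200000800000000000000000000000000000000000000000000000000) (nat_lit 0x20000000000100003000007c0001c000050000000000000000000000000000000000) (nat_lit 6)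
theorem c49403 : QOK q49403 := cut [q41051, q49204, q49402] ⟨c41051, c49204, c49402, trivial⟩ (nd (nat_lit 181) (nat_lit 0) (cs (rf (nat_lit 0)) (cs (rf (nat_lit 1)) (rf (nat_lit 2))))) q49403 (by decide +kernel)
def q49436 : Q := Q.p (nat_lit 0x10000040000180003400001000000000000000000000000000000000000000000000000000000000) (nat_lit 0x20000380000e000020000020000600000000002000008000000000000000000000000000000000000000000000000000) (nat_lit 7)
theorem c49436 : QOK q49436 := cut [q49101] ⟨c49101, trivial⟩ (nd (nat_lit 207) (nat_lit 0) (cs (lf (nat_lit 34) (nat_lit 206)) (nd (nat_lit 273) (nat_lit 0) (cs (lf (nat_lit 15) (nat_lit 249)) (rf (nat_lit 0)))))) q49436 (by decide +kernel)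
def q49448 : Q := Q.p (nat_lit 0x1000004c0001200000000000000000000000000000000000000000000000000000000) (nat_lit 0x40000000000000000c00006000008000020000000000000000000000000000000000000000) (nat_lit 4)
theorem c49448 : QOK q49448 := cut [q41236] ⟨c41236, trivial⟩ (nd (nat_lit 227) (nat_lit 0) (cs (rf (nat_lit 0)) (lf (nat_lit 8) (nat_lit 224)))) q49448 (by decide +kernel)
def q49457 : Q := Q.p (nat_lit 0x200000e00000000000000000000000000000000000000000000000000) (nat_lit 0x470000180000700000000000000000000000000000000000000000000) (nat_lit 5)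
theorem c49457 : QOK q49457 := cut [q49456] ⟨c49456, trivial⟩ (nd (nat_lit 200) (nat_lit 0) (cs (lf (nat_lit 5) (nat_lit 200)) (rf (nat_lit 0)))) q49457 (by decide +kernel)
def q49468 : Q := Q.p (nat_lit 0x28000120000400000000000000000000000000000000000000000000000000000000000000) (nat_lit 0x800002000018000050000210000000001000000000000000000000000000000000000000000000000000000000) (nat_lit 4)
theorem c49468 : QOK q49468 := cut [q45203] ⟨c45203, trivial⟩ (nd (nat_lit 294) (nat_lit 0) (cs (rf (nat_lit 0)) (nd (nat_lit 292) (nat_lit 0) (cs (lf (nat_lit 23) (nat_lit 268)) (lf (nat_lit 17) (nat_lit 269)))))) q49468 (by decide +kernel)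
def q49472 : Q := Q.p (nat_lit 0x200001200034c0000000000000000000000000000000000000000000000000000000000000) (nat_lit 0x20000080000400006c0000000001000004000000000000000000000000000000000000000000000000000) (nat_lit 5)
theorem c49472 : QOK q49472 := cut [q49470] ⟨c49470, trivial⟩ (nd (nat_lit 271) (nat_lit 0) (cs (lf (nat_lit 20) (nat_lit 246)) (nd (nat_lit 273) (nat_lit 0) (cs (lf (nat_lit 15) (nat_lit 249)) (rf (nat_lit 0)))))) q49472 (by decide +kernel)
def q49521 : Q := Q.p (nat_lit 0x8000020000080000000000000000000000000000000000000000000000000000000000000) (nat_lit 0x500001c00007000014000000000100000600001000000000000000000000000000000000000000000000000000) (nat_lit 5)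
theorem c49521 : QOK q49521 := cut [q47291, q49518, q49520] ⟨c47291, c49518, c49520, trivial⟩ (nd (nat_lit 313) (nat_lit 0) (cs (rf (nat_lit 0)) (cs (rf (nat_lit 1)) (rf (nat_lit 2))))) q49521 (by decide +kernel)
def q49551 : Q := Q.p (nat_lit 0x80000200000c0000000000000000000000000000000000000000000000000000000000000) (nat_lit 0x100001c00007000010000010000100000600001000000000000000000000000000000000000000000000000000) (nat_lit 5)
theorem c49551 : QOK q49551 := cut [q48771, q49520] ⟨c48771, c49520, trivial⟩ (nd (nat_lit 313) (nat_lit 0) (cs (rf (nat_lit 0)) (rf (nat_lit 1)))) q49551 (by decide +kernel)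
def q49583 : Q := Q.p (nat_lit 0xc000180000400000000000000000000000000000000000000000000000000000000000000) (nat_lit 0x2000008000070000000000000001000004000000000000000000000000000000000000000000000000000) (nat_lit 4)
theorem c49583 : QOK q49583 := cut [q49470] ⟨c49470, trivial⟩ (nd (nat_lit 293) (nat_lit 0) (cs (lf (nat_lit 14) (nat_lit 268)) (rf (nat_lit 0)))) q49583 (by decide +kernel)
def q49594 : Q := Q.p (nat_lit 0x80000200000c0000000000000000000000000000000000000000000000000000000000000) (nat_lit 0x1400007000014000000000000000300000000000000000000000000000000000000000000000000000000) (nat_lit 5)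
theorem c49594 : QOK q49594 := cut [q49593] ⟨c49593, trivial⟩ (nd (nat_lit 313) (nat_lit 0) (cs (lf (nat_lit 47) (nat_lit 224)) (rf (nat_lit 0)))) q49594 (by decide +kernel)
def q49605 : Q := Q.p (nat_lit 0xe0000000000000000000000000000000000000000000000000000000000000) (nat_lit 0xf0001180007f0000000000000000000000000000000000000000000000000000000) (nat_lit 5)
theorem c49605 : QOK q49605 := cut [q49261, q49602, q49604] ⟨c49261, c49602, c49604, trivial⟩ (nd (nat_lit 244) (nat_lit 0) (cs (rf (nat_lit 0)) (cs (rf (nat_lit 1)) (rf (nat_lit 2))))) q49605 (by decide +kernel)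
def q49612 : Q := Q.p (nat_lit 0xe0000000000000000000000000000000000000000000000000000000000000) (nat_lit 0xf000118000f70000000000000000000000000000000000000000000000000000000) (nat_lit 6)
theorem c49612 : QOK q49612 := cut [q49255, q49602, q49604, q49610] ⟨c49255, c49602, c49604, c49610, trivial⟩ (nd (nat_lit 244) (nat_lit 0) (cs (rf (nat_lit 0)) (cs (rf (nat_lit 1)) (cs (rf (nat_lit 2)) (nd (nat_lit 221) (nat_lit 0) (cs (lf (nat_lit 22) (nat_lit 221)) (rf (nat_lit 3)))))))) q49612 (by decide +kernel)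
def q49616 : Q := Q.p (nat_lit 0xe0000000000000000000000000000000000000000000000000000000000000) (nat_lit 0xf000118000ef0000000000000000000000000000000000000000000000000000000) (nat_lit 5)
theorem c49616 : QOK q49616 := cut [q49255, q49610, q49615] ⟨c49255, c49610, c49615, trivial⟩ (nd (nat_lit 244) (nat_lit 0) (cs (rf (nat_lit 0)) (cs (rf (nat_lit 1)) (rf (nat_lit 2))))) q49616 (by decide +kernel)
def q49648 : Q := Q.p (nat_lit 0x80000e0000000000000000000000000000000000000000000000000000000000000) (nat_lit 0x1c000070000040001000001f0000700001c00005000000000000000000000000000000000000000) (nat_lit 7)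
theorem c49648 : QOK q49648 := cut [q49624, q49642, q49647] ⟨c49624, c49642, c49647, trivial⟩ (nd (nat_lit 223) (nat_lit 0) (cs (nd (nat_lit 289) (nat_lit 0) (cs (rf (nat_lit 0)) (nd (nat_lit 200) (nat_lit 0) (cs (nd (nat_lit 290) (nat_lit 0) (cs (nd (nat_lit 288) (nat_lit 0) (cs (nd (nat_lit 201) (nat_lit 0) (cs (lf (nat_lit 47) (nat_lit 178)) (lf (nat_lit 40) (nat_lit 200)))) (lf (nat_lit 41) (nat_lit 222)))) (lf (nat_lit 29) (nat_lit 223)))) (lf (nat_lit 46) (nat_lit 200)))))) (cs (nd (nat_lit 266) (nat_lit 0) (cs (lf (nat_lit 6) (nat_lit 244)) (rf (nat_lit 1)))) (rf (nat_lit 2))))) q49648 (by decide +kernel)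
def q49665 : Q := Q.p (nat_lit 0x1000002000008000020000000000000000000000000000000000000000000000000000000000000) (nat_lit 0x4000050000040000000000c0000300000400000000000000000000000000000000000000000000) (nat_lit 5)
theorem c49665 : QOK q49665 := cut [q49663] ⟨c49663, trivial⟩ (nd (nat_lit 223) (nat_lit 0) (cs (rf (nat_lit 0)) (lf (nat_lit 28) (nat_lit 223)))) q49665 (by decide +kernel)
def q49710 : Q := Q.p (nat_lit 0x80000e0000000000000000000000000000000000000000000000000000000000000) (nat_lit 0x100001c000070000100001000001f0000700001c00005000000000000000000000000000000000000000) (nat_lit 7)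
theorem c49710 : QOK q49710 := cut [q49647, q49703, q49640, q49708] ⟨c49647, c49703, c49640, c49708, trivial⟩ (nd (nat_lit 223) (nat_lit 0) (cs (rf (nat_lit 0)) (cs (rf (nat_lit 1)) (nd (nat_lit 201) (nat_lit 0) (cs (rf (nat_lit 2)) (rf (nat_lit 3))))))) q49710 (by decide +kernel)
def q49712 : Q := Q.p (nat_lit 0xe0000000000000000000000000000000000000000000000000000000000000) (nat_lit 0x7000118000ff0000000000000000000000000000000000000000000000000000000) (nat_lit 5)
theorem c49712 : QOK q49712 := cut [q49255, q49602, q49615] ⟨c49255, c49602, c49615, trivial⟩ (nd (nat_lit 244) (nat_lit 0) (cs (rf (nat_lit 0)) (cs (rf (nat_lit 1)) (rf (nat_lit 2))))) q49712 (by decide +kernel)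
def q49733 : Q := Q.p (nat_lit 0xe0000000000000000000000000000000000000000000000000000000000000) (nat_lit 0x80000200001f0001100001f0000500001400001000000000000000000000000000000000000000) (nat_lit 6)
theorem c49733 : QOK q49733 := cut [q49720, q49621, q49652, q49732] ⟨c49720, c49621, c49652, c49732, trivial⟩ (nd (nat_lit 222) (nat_lit 0) (cs (nd (nat_lit 244) (nat_lit 0) (cs (lf (nat_lit 23) (nat_lit 221)) (nd (nat_lit 266) (nat_lit 0) (cs (lf (nat_lit 11) (nat_lit 243)) (nd (nat_lit 267) (nat_lit 0) (cs (lf (nat_lit 6) (nat_lit 244)) (nd (nat_lit 200) (nat_lit 0) (cs (lf (nat_lit 29) (nat_lit 200)) (lf (nat_lit 24) (nat_lit 178)))))))))) (cs (rf (nat_lit 0)) (cs (nd (nat_lit 267) (nat_lit 0) (cs (rf (nat_lit 1)) (cs (nd (nat_lit 223) (nat_lit 0) (cs (lf (nat_lit 18) (nat_lit 222)) (nd (nat_lit 200) (nat_lit 0) (cs (lf (nat_lit 42) (nat_lit 200)) (nd (nat_lit 178) (nat_lit 0) (cs (lf (nat_lit 24) (nat_lit 156)) (lf (nat_lit 27) (nat_lit 178)))))))) (nd (nat_lit 289) (nat_lit 0) (cs (rf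 (nat_lit 2)) (nd (nat_lit 200) (nat_lit 0) (cs (nd (nat_lit 244) (nat_lit 0) (cs (lf (nat_lit 24) (nat_lit 178)) (lf (nat_lit 27) (nat_lit 200)))) (lf (nat_lit 45) (nat_lit 200))))))))) (rf (nat_lit 3)))))) q49733 (by decide +kernel)
def q49810 : Q := Q.p (nat_lit 0x1e0000200000000000000000000000000000000000000000000000000000000) (nat_lit 0x100000c0000000000c00000800002000000000000000000000000000000000000000000000) (nat_lit 4)
theorem c49810 : QOK q49810 := cut [q49809] ⟨c49809, trivial⟩ (nd (nat_lit 226) (nat_lit 0) (cs (lf (nat_lit 17) (nat_lit 223)) (rf (nat_lit 0)))) q49810 (by decide +kernel)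
def q49850 : Q := Q.p (nat_lit 0xe0000000000000000000000000000000000000000000000000000000000000) (nat_lit 0x18000060000380000f000018001ff0000380000e0000380000a000000000000000000000000000000000) (nat_lit 12)
theorem c49850 : QOK q49850 := cut [q49255, q49602, q49604, q49240, q49848] ⟨c49255, c49602, c49604, c49240, c49848, trivial⟩ (nd (nat_lit 244) (nat_lit 0) (cs (rf (nat_lit 0)) (cs (rf (nat_lit 1)) (cs (rf (nat_lit 2)) (nd (nat_lit 225) (nat_lit 0) (cs (rf (nat_lit 3)) (rf (nat_lit 4)))))))) q49850 (by decide +kernel)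
def q49924 : Q := Q.p (nat_lit 0xe0000000000000000000000000000000000000000000000000000000000000) (nat_lit 0xf70001180000f0000000000000000000000000000000000000000000000000000000) (nat_lit 6)
theorem c49924 : QOK q49924 := cut [q49255, q49911, q49920, q49923] ⟨c49255, c49911, c49920, c49923, trivial⟩ (nd (nat_lit 244) (nat_lit 0) (cs (rf (nat_lit 0)) (cs (nd (nat_lit 270) (nat_lit 0) (cs (nd (nat_lit 265) (nat_lit 0) (cs (lf (nat_lit 10) (nat_lit 243)) (nd (nat_lit 248) (nat_lit 0) (cs (lf (nat_lit 5) (nat_lit 245)) (rf (nat_lit 1)))))) (lf (nat_lit 4) (nat_lit 244)))) (cs (rf (nat_lit 2)) (rf (nat_lit 3)))))) q49924 (by decide +kernel)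
def q49931 : Q := Q.p (nat_lit 0xe0000000000000000000000000000000000000000000000000000000000000) (nat_lit 0xef0001180000f0000000000000000000000000000000000000000000000000000000) (nat_lit 5)
theorem c49931 : QOK q49931 := cut [q49255, q49927] ⟨c49255, c49927, trivial⟩ (nd (nat_lit 244) (nat_lit 0) (cs (rf (nat_lit 0)) (cs (rf (nat_lit 1)) (nd (nat_lit 270) (nat_lit 0) (cs (lf (nat_lit 4) (nat_lit 244)) (nd (nat_lit 222) (nat_lit 0) (cs (lf (nat_lit 23) (nat_lit 221)) (nd (nat_lit 248) (nat_lit 0) (cs (lf (nat_lit 22) (nat_lit 222)) (lf (nat_lit 5) (nat_lit 245))))))))))) q49931 (by decide +kernel)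
def q49932 : Q := Q.p (nat_lit 0xe0000000000000000000000000000000000000000000000000000000000000) (nat_lit 0xff000118000070000000000000000000000000000000000000000000000000000000) (nat_lit 5)
theorem c49932 : QOK q49932 := cut [q49255, q49923, q49927] ⟨c49255, c49923, c49927, trivial⟩ (nd (nat_lit 244) (nat_lit 0) (cs (rf (nat_lit 0)) (cs (rf (nat_lit 1)) (rf (nat_lit 2))))) q49932 (by decide +kernel)
def q49948 : Q := Q.p (nat_lit 0x8000020000080000200000000000000000000000000000000000000000000000000) (nat_lit 0x500001c00007000000000000000100000400001000000000000000000000000000000000000000000000) (nat_lit 6)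
theorem c49948 : QOK q49948 := cut [q49946] ⟨c49946, trivial⟩ (nd (nat_lit 202) (nat_lit 0) (cs (lf (nat_lit 35) (nat_lit 179)) (nd (nat_lit 289) (nat_lit 0) (cs (lf (nat_lit 34) (nat_lit 201)) (rf (nat_lit 0)))))) q49948 (by decide +kernel)
def q49969 : Q := Q.p (nat_lit 0x8000060000080000200000000000000000000000000000000000000000000000000) (nat_lit 0x100000700001c00007000010000000000000000500001400000000000000000000000000000000000000000000) (nat_lit 8)
theorem c49969 : QOK q49969 := cut [q49946, q49960] ⟨c49946, c49960, trivial⟩ (nd (nat_lit 289) (nat_lit 0) (cs (rf (nat_lit 0)) (cs (nd (nat_lit 180) (nat_lit 0) (cs (lf (nat_lit 34) (nat_lit 179)) (nd (nat_lit 178) (nat_lit 0) (cs (lf (nat_lit 46) (nat_lit 178)) (rf (nat_lit 1)))))) (cs (nd (nat_lit 310) (nat_lit 0) (cs (lf (nat_lit 40) (nat_lit 222)) (nd (nat_lit 180) (nat_lit 0) (cs (lf (nat_lit 34) (nat_lit 179)) (nd (nat_lit 311) (nat_lit 0) (cs (lf (nat_lit 41) (nat_lit 244)) (nd (nat_lit 268) (nat_lit 0) (cs (lf (nat_lit 30) (nat_lit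 245)) (lf (nat_lit 29) (nat_lit 201)))))))))) (nd (nat_lit 290) (nat_lit 0) (cs (lf (nat_lit 29) (nat_lit 223)) (lf (nat_lit 28) (nat_lit 201)))))))) q49969 (by decide +kernel)
def q50037 : Q := Q.p (nat_lit 0xe0000100000000000000000000000000000000000000000000000000000000) (nat_lit 0x80000200000f000110000080000400001000000000000000000000000000000000000000000000) (nat_lit 4)
theorem c50037 : QOK q50037 := cut [q49753, q49761] ⟨c49753, c49761, trivial⟩ (nd (nat_lit 267) (nat_lit 0) (cs (rf (nat_lit 0)) (rf (nat_lit 1)))) q50037 (by decide +kernel)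
def q50070 : Q := Q.p (nat_lit 0xe0000000000000000000000000000000000000000000000000000000000000) (nat_lit 0x18000060000380007f0000180000f0000380000e0000380000a000000000000000000000000000000000) (nat_lit 11)
theorem c50070 : QOK q50070 := cut [q49848, q49920, q49923] ⟨c49848, c49920, c49923, trivial⟩ (nd (nat_lit 244) (nat_lit 0) (cs (rf (nat_lit 0)) (cs (rf (nat_lit 1)) (rf (nat_lit 2))))) q50070 (by decide +kernel)
def q50093 : Q := Q.p (nat_lit 0x10000080000200000c0000000000000000000000000000000000000000000000000000000000000) (nat_lit 0x400001c00006000000000010000000000000000000000000000000000000000000000000000000000000000000) (nat_lit 4)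
theorem c50093 : QOK q50093 := cut [q48706] ⟨c48706, trivial⟩ (nd (nat_lit 313) (nat_lit 0) (cs (lf (nat_lit 41) (nat_lit 246)) (rf (nat_lit 0)))) q50093 (by decide +kernel)
def q50132 : Q := Q.p (nat_lit 0x200000c0000200000800000000000000000000000000000000000000000000000000) (nat_lit 0x2000008000000000000000100001400006000018000000000000000000000000000000000000000) (nat_lit 5)
theorem c50132 : QOK q50132 := cut [q48822] ⟨c48822, trivial⟩ (nd (nat_lit 182) (nat_lit 0) (cs (lf (nat_lit 34) (nat_lit 181)) (nd (nat_lit 181) (nat_lit 0) (cs (lf (nat_lit 35) (nat_lit 159)) (rf (nat_lit 0)))))) q50132 (by decide +kernel)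
def q50157 : Q := Q.p (nat_lit 0x1000034c0000600010000040000000000000000000000000000000000000000000000) (nat_lit 0x280006e000000000180000f8000ac000010000000000000000000000000000000000000000) (nat_lit 8)
theorem c50157 : QOK q50157 := cut [q41228, q45782] ⟨c41228, c45782, trivial⟩ (nd (nat_lit 228) (nat_lit 0) (cs (lf (nat_lit 7) (nat_lit 224)) (nd (nat_lit 206) (nat_lit 0) (cs (rf (nat_lit 0)) (nd (nat_lit 271) (nat_lit 0) (cs (lf (nat_lit 41) (nat_lit 205)) (nd (nat_lit 273) (nat_lit 0) (cs (lf (nat_lit 15) (nat_lit 249)) (nd (nat_lit 269) (nat_lit 0) (cs (rf (nat_lit 1)) (lf (nat_lit 20) (nat_lit 246)))))))))))) q50157 (by decide +kernel)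
def q50260 : Q := Q.p (nat_lit 0xe0000680000000000000000000000000000000000000000000000000000000) (nat_lit 0x100000c000100000100003f8000fc0001f000014000000000000000000000000000000000) (nat_lit 9)
theorem c50260 : QOK q50260 := cut [q50226, q49990, q50233, q50239, q49986, q49989] ⟨c50226, c49990, c50233, c50239, c49986, c49989, trivial⟩ (nd (nat_lit 201) (nat_lit 0) (cs (nd (nat_lit 200) (nat_lit 0) (cs (lf (nat_lit 20) (nat_lit 200)) (nd (nat_lit 202) (nat_lit 0) (cs (nd (nat_lit 267) (nat_lit 0) (cs (lf (nat_lit 47) (nat_lit 178)) (lf (nat_lit 35) (nat_lit 179)))) (lf (nat_lit 3) (nat_lit 200)))))) (cs (rf (nat_lit 0)) (cs (nd (nat_lit 180) (nat_lit 0) (cs (rf (nat_lit 1)) (cs (nd (nat_lit 179) (nat_lit 0) (cs (lf (nat_lit 35) (nat_lit 157)) (nd (nat_lit 178) (nat_lit 0) (cs (lf (nat_lit 47) (nat_lit 156)) (nd (nat_lit 200) (nat_lit 0) (cs (lf (nat_lit 42) (nat_lit 178)) (nd (nat_lit 181) (nat_lit 0) (cs (lf (nat_lit 6) (nat_lit 178)) (lf (nat_lit 11) (nat_lit 177)))))))))) (cs (nd (nat_lit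 158) (nat_lit 0) (cs (lf (nat_lit 33) (nat_lit 157)) (nd (nat_lit 202) (nat_lit 0) (cs (lf (nat_lit 36) (nat_lit 135)) (rf (nat_lit 2)))))) (cs (nd (nat_lit 202) (nat_lit 0) (cs (lf (nat_lit 30) (nat_lit 179)) (nd (nat_lit 200) (nat_lit 0) (cs (lf (nat_lit 3) (nat_lit 200)) (rf (nat_lit 3)))))) (nd (nat_lit 202) (nat_lit 0) (cs (lf (nat_lit 30) (nat_lit 179)) (nd (nat_lit 158) (nat_lit 0) (cs (lf (nat_lit 36) (nat_lit 135)) (rf (nat_lit 2))))))))))) (cs (nd (nat_lit 224) (nat_lit 0) (cs (lf (nat_lit 23) (nat_lit 200)) (nd (nat_lit 179) (nat_lit 0) (cs (lf (nat_lit 24) (nat_lit 157)) (nd (nat_lit 204) (nat_lit 0) (cs (lf (nat_lit 17) (nat_lit 201)) (nd (nat_lit 160) (nat_lit 0) (cs (lf (nat_lit 37) (nat_lit 159)) (nd (nat_lit 180) (nat_lit 0) (cs (lf (nat_lit 35) (nat_lit 157)) (nd (nat_lit 178) (nat_lit 0) (cs (lf (nat_lit 47) (nat_lit 156)) (nd (nat_lit 181) (nat_lit 0) (cs (lf (nat_lit 4) (nat_lit 178)) (lf (nat_lit 16) (nat_lit 156)))))))))))))))) (cs (nd (nat_lit 180) (nat_lit 0) (cs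 (rf (nat_lit 4)) (nd (nat_lit 267) (nat_lit 0) (cs (lf (nat_lit 34) (nat_lit 179)) (nd (nat_lit 266) (nat_lit 0) (cs (lf (nat_lit 6) (nat_lit 244)) (lf (nat_lit 41) (nat_lit 200)))))))) (nd (nat_lit 200) (nat_lit 0) (cs (lf (nat_lit 20) (nat_lit 200)) (nd (nat_lit 202) (nat_lit 0) (cs (lf (nat_lit 3) (nat_lit 200)) (nd (nat_lit 180) (nat_lit 0) (cs (lf (nat_lit 30) (nat_lit 179)) (rf (nat_lit 5)))))))))))))) q50260 (by decide +kernel)
def q50349 : Q := Q.p (nat_lit 0x1000004c0000200000800000000000000000000000000000000000000000000000000) (nat_lit 0x800002c000130003df000f70003e000038000080000000000000000000000000000000000) (nat_lit 11)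
theorem c50349 : QOK q50349 := cut [q49216, q49300, q50310, q49900, q49647, q49895, q49346, q50332] ⟨c49216, c49300, c50310, c49900, c49647, c49895, c49346, c50332, trivial⟩ (nd (nat_lit 226) (nat_lit 0) (cs (rf (nat_lit 0)) (cs (nd (nat_lit 245) (nat_lit 0) (cs (lf (nat_lit 12) (nat_lit 222)) (rf (nat_lit 1)))) (cs (rf (nat_lit 2)) (cs (nd (nat_lit 182) (nat_lit 0) (cs (nd (nat_lit 244) (nat_lit 0) (cs (lf (nat_lit 13) (nat_lit 222)) (nd (nat_lit 181) (nat_lit 0) (cs (lf (nat_lit 35) (nat_lit 159)) (nd (nat_lit 159) (nat_lit 0) (cs (lf (nat_lit 40) (nat_lit 158)) (lf (nat_lit 29) (nat_lit 159)))))))) (cs (nd (nat_lit 223) (nat_lit 0) (cs (nd (nat_lit 204) (nat_lit 0) (cs (lf (nat_lit 30) (nat_lit 181)) (nd (nat_lit 224) (nat_lit 0) (cs (lf (nat_lit 17) (nat_lit 201)) (lf (nat_lit 12) (nat_lit 200)))))) (cs (nd (nat_lit 204) (nat_lit 0) (cs (lf (nat_lit 30) (nat_lit 181)) (nd (nat_lit 245) (nat_lit 0) (cs (lf (nat_lit 12) (nat_lit 222)) (nd (nat_lit 248) (nat_lit 0) (cs (lf (nat_lit 23)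 (nat_lit 222)) (nd (nat_lit 266) (nat_lit 0) (cs (lf (nat_lit 10) (nat_lit 244)) (nd (nat_lit 181) (nat_lit 0) (cs (lf (nat_lit 24) (nat_lit 159)) (rf (nat_lit 3)))))))))))) (cs (nd (nat_lit 245) (nat_lit 0) (cs (lf (nat_lit 12) (nat_lit 222)) (rf (nat_lit 4)))) (nd (nat_lit 244) (nat_lit 0) (cs (lf (nat_lit 13) (nat_lit 222)) (nd (nat_lit 204) (nat_lit 0) (cs (lf (nat_lit 30) (nat_lit 181)) (rf (nat_lit 5)))))))))) (nd (nat_lit 204) (nat_lit 0) (cs (lf (nat_lit 30) (nat_lit 181)) (lf (nat_lit 36) (nat_lit 159))))))) (nd (nat_lit 224) (nat_lit 0) (cs (nd (nat_lit 227) (nat_lit 0) (cs (lf (nat_lit 6) (nat_lit 224)) (nd (nat_lit 205) (nat_lit 0) (cs (lf (nat_lit 17) (nat_lit 202)) (nd (nat_lit 201) (nat_lit 0) (cs (lf (nat_lit 22) (nat_lit 201)) (nd (nat_lit 223) (nat_lit 0) (cs (lf (nat_lit 23) (nat_lit 200)) (rf (nat_lit 6)))))))))) (cs (nd (nat_lit 181) (nat_lit 0) (cs (lf (nat_lit 36) (nat_lit 158)) (nd (nat_lit 182) (nat_lit 0) (cs (lf (nat_lit 35) (nat_lit 159)) (nd (nat_lit 204) (nat_lit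 0) (cs (lf (nat_lit 30) (nat_lit 181)) (rf (nat_lit 7)))))))) (cs (nd (nat_lit 159) (nat_lit 0) (cs (lf (nat_lit 37) (nat_lit 158)) (nd (nat_lit 227) (nat_lit 0) (cs (lf (nat_lit 6) (nat_lit 224)) (nd (nat_lit 202) (nat_lit 0) (cs (lf (nat_lit 23) (nat_lit 201)) (nd (nat_lit 269) (nat_lit 0) (cs (lf (nat_lit 42) (nat_lit 202)) (nd (nat_lit 204) (nat_lit 0) (cs (lf (nat_lit 35) (nat_lit 181)) (nd (nat_lit 205) (nat_lit 0) (cs (lf (nat_lit 6) (nat_lit 202)) (nd (nat_lit 183) (nat_lit 0) (cs (lf (nat_lit 17) (nat_lit 180)) (nd (nat_lit 161) (nat_lit 0) (cs (lf (nat_lit 36) (nat_lit 138)) (lf (nat_lit 41) (nat_lit 160)))))))))))))))))) (nd (nat_lit 227) (nat_lit 0) (cs (lf (nat_lit 6) (nat_lit 224)) (nd (nat_lit 201) (nat_lit 0) (cs (lf (nat_lit 22) (nat_lit 201)) (nd (nat_lit 223) (nat_lit 0) (cs (lf (nat_lit 23) (nat_lit 200)) (nd (nat_lit 222) (nat_lit 0) (cs (lf (nat_lit 17) (nat_lit 200)) (lf (nat_lit 0) (nat_lit 221))))))))))))))))))) q50349 (by decide +kernel)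
def q50380 : Q := Q.p (nat_lit 0xc0000200000800000000000000000000000000000000000000000000000000) (nat_lit 0x10000778001fc0001f800050000000000000000000000000000000000) (nat_lit 9)
theorem c50380 : QOK q50380 := cut [q41051, q49204, q50379] ⟨c41051, c49204, c50379, trivial⟩ (nd (nat_lit 181) (nat_lit 0) (cs (rf (nat_lit 0)) (cs (rf (nat_lit 1)) (rf (nat_lit 2))))) q50380 (by decide +kernel)
def q50386 : Q := Q.p (nat_lit 0x1200000c0000200000000000000000000000000000000000000000000000000000000) (nat_lit 0x100000c000000000010000180000700001c000010000000000000000000000000000000000) (nat_lit 7)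
theorem c50386 : QOK q50386 := cut [q27290] ⟨c27290, trivial⟩ (nd (nat_lit 270) (nat_lit 0) (cs (lf (nat_lit 19) (nat_lit 246)) (nd (nat_lit 203) (nat_lit 0) (cs (lf (nat_lit 29) (nat_lit 203)) (nd (nat_lit 182) (nat_lit 0) (cs (lf (nat_lit 34) (nat_lit 181)) (nd (nat_lit 181) (nat_lit 0) (cs (lf (nat_lit 35) (nat_lit 159)) (rf (nat_lit 0)))))))))) q50386 (by decide +kernel)
def q50418 : Q := Q.p (nat_lit 0x400000e0000000000000000000000000000000000000000000000000000000000000) (nat_lit 0x8e0001100000e0000000000000000000000000000000000000000000000000000000) (nat_lit 5)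
theorem c50418 : QOK q50418 := cut [q50417] ⟨c50417, trivial⟩ (nd (nat_lit 248) (nat_lit 0) (cs (lf (nat_lit 5) (nat_lit 245)) (rf (nat_lit 0)))) q50418 (by decide +kernel)
def q50477 : Q := Q.p (nat_lit 0x100000c0000200000000000000000000000000000000000000000000000000000000) (nat_lit 0x1800006000028000038001de0007780001800004000000000000000000000000000000000000000) (nat_lit 11)
theorem c50477 : QOK q50477 := cut [q49334, q50466, q50474] ⟨c49334, c50466, c50474, trivial⟩ (nd (nat_lit 290) (nat_lit 0) (cs (lf (nat_lit 30) (nat_lit 224)) (nd (nat_lit 224) (nat_lit 0) (cs (rf (nat_lit 0)) (cs (rf (nat_lit 1)) (nd (nat_lit 289) (nat_lit 0) (cs (lf (nat_lit 41) (nat_lit 223)) (rf (nat_lit 2))))))))) q50477 (by decide +kernel)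
def q50517 : Q := Q.p (nat_lit 0x200000c0000200000800000000000000000000000000000000000000000000000000) (nat_lit 0x100001c00007000018000010000000000100000400001000000000000000000000000000000000000000000000) (nat_lit 7)
theorem c50517 : QOK q50517 := cut [q48771] ⟨c48771, trivial⟩ (nd (nat_lit 202) (nat_lit 0) (cs (lf (nat_lit 47) (nat_lit 180)) (nd (nat_lit 291) (nat_lit 0) (cs (lf (nat_lit 46) (nat_lit 202)) (nd (nat_lit 314) (nat_lit 0) (cs (lf (nat_lit 28) (nat_lit 225)) (nd (nat_lit 313) (nat_lit 0) (cs (lf (nat_lit 29) (nat_lit 247)) (rf (nat_lit 0)))))))))) q50517 (by decide +kernel)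
def q50580 : Q := Q.p (nat_lit 0x4000010000040000100000000000000000000000000000000000000000000000000000000) (nat_lit 0x800002000008000000000080000600000800000000000000000000000000000000000000000000) (nat_lit 4)
theorem c50580 : QOK q50580 := cut [q50579] ⟨c50579, trivial⟩ (nd (nat_lit 289) (nat_lit 0) (cs (lf (nat_lit 41) (nat_lit 223)) (rf (nat_lit 0)))) q50580 (by decide +kernel)
def q50682 : Q := Q.p (nat_lit 0x200000c0000100000000000000000000000000000000000000000000000000000000) (nat_lit 0x600001e000100000280007e00007800000000000000000000000000000000000000000000) (nat_lit 8)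
theorem c50682 : QOK q50682 := cut [q49322, q49412] ⟨c49322, c49412, trivial⟩ (nd (nat_lit 202) (nat_lit 0) (cs (lf (nat_lit 24) (nat_lit 180)) (nd (nat_lit 268) (nat_lit 0) (cs (rf (nat_lit 0)) (nd (nat_lit 179) (nat_lit 0) (cs (lf (nat_lit 46) (nat_lit 179)) (nd (nat_lit 203) (nat_lit 0) (cs (lf (nat_lit 35) (nat_lit 180)) (nd (nat_lit 225) (nat_lit 0) (cs (rf (nat_lit 1)) (lf (nat_lit 30) (nat_lit 202)))))))))))) q50682 (by decide +kernel)
def q50723 : Q := Q.p (nat_lit 0x200000c0000300000000000000000000000000000000000000000000000000000000) (nat_lit 0x6000018000010000000000400001800006000008000000000000000000000000000000000000000) (nat_lit 6)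
theorem c50723 : QOK q50723 := cut [q50632] ⟨c50632, trivial⟩ (nd (nat_lit 291) (nat_lit 0) (cs (lf (nat_lit 42) (nat_lit 224)) (nd (nat_lit 292) (nat_lit 0) (cs (lf (nat_lit 29) (nat_lit 225)) (rf (nat_lit 0)))))) q50723 (by decide +kernel)
def q50847 : Q := Q.p (nat_lit 0x200000c0000200000800000000000000000000000000000000000000000000000000) (nat_lit 0x4000010000000000580007780005800000000000000000000000000000000000000000000) (nat_lit 6)
theorem c50847 : QOK q50847 := cut [q49412, q50843] ⟨c49412, c50843, trivial⟩ (nd (nat_lit 202) (nat_lit 0) (cs (lf (nat_lit 47) (nat_lit 180)) (nd (nat_lit 224) (nat_lit 0) (cs (rf (nat_lit 0)) (nd (nat_lit 268) (nat_lit 0) (cs (lf (nat_lit 30) (nat_lit 202)) (nd (nat_lit 201) (nat_lit 0) (cs (lf (nat_lit 47) (nat_lit 179)) (rf (nat_lit 1)))))))))) q50847 (by decide +kernel)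
def q50854 : Q := Q.p (nat_lit 0x40000100000c0000100000000000000000000000000000000000000000000000000000000) (nat_lit 0x38001ee0007b80002000000000000000000000000000000000000000000000) (nat_lit 9)
theorem c50854 : QOK q50854 := cut [q50474, q50633] ⟨c50474, c50633, trivial⟩ (nd (nat_lit 225) (nat_lit 0) (cs (rf (nat_lit 0)) (rf (nat_lit 1)))) q50854 (by decide +kernel)
def q50958 : Q := Q.p (nat_lit 0x4000010000040000000000000000000000000000000000000000000000000000000000000) (nat_lit 0x80000e0000380000a000008000020000180000200000000000000000000000000000000000000000000000000) (nat_lit 5)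
theorem c50958 : QOK q50958 := cut [q50866, q50952, q50957] ⟨c50866, c50952, c50957, trivial⟩ (nd (nat_lit 312) (nat_lit 0) (cs (rf (nat_lit 0)) (cs (rf (nat_lit 1)) (rf (nat_lit 2))))) q50958 (by decide +kernel)
def q50987 : Q := Q.p (nat_lit 0x300000c0000200000000000000000000000000000000000000000000000000000000) (nat_lit 0x1800006000018000000000000000400001c00007000000000000000000000000000000000000000000000) (nat_lit 7)
theorem c50987 : QOK q50987 := cut [q50985] ⟨c50985, trivial⟩ (nd (nat_lit 203) (nat_lit 0) (cs (lf (nat_lit 36) (nat_lit 180)) (nd (nat_lit 180) (nat_lit 0) (cs (lf (nat_lit 46) (nat_lit 180)) (rf (nat_lit 0)))))) q50987 (by decide +kernel)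
def q51007 : Q := Q.p (nat_lit 0x20000080000200000800000000000000000000000000000000000000000000000000) (nat_lit 0x8000000000000000c00001700005000000000000000000000000000000000000000000000) (nat_lit 5)
theorem c51007 : QOK q51007 := cut [q50295] ⟨c50295, trivial⟩ (nd (nat_lit 202) (nat_lit 0) (cs (lf (nat_lit 47) (nat_lit 180)) (rf (nat_lit 0)))) q51007 (by decide +kernel)
def q51037 : Q := Q.p (nat_lit 0x1300000c0000000000000000000000000000000000000000000000000000000000000) (nat_lit 0x80000680001e0000f8000ce0000380002e0000b80002a00000000000000000000000000000000000000000000) (nat_lit 11)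
theorem c51037 : QOK q51037 := cut [q50853, q51027, q51030] ⟨c50853, c51027, c51030, trivial⟩ (nd (nat_lit 290) (nat_lit 0) (cs (rf (nat_lit 0)) (cs (nd (nat_lit 270) (nat_lit 0) (cs (lf (nat_lit 19) (nat_lit 246)) (nd (nat_lit 245) (nat_lit 0) (cs (lf (nat_lit 0) (nat_lit 244)) (nd (nat_lit 312) (nat_lit 0) (cs (lf (nat_lit 30) (nat_lit 246)) (lf (nat_lit 47) (nat_lit 223)))))))) (nd (nat_lit 270) (nat_lit 0) (cs (lf (nat_lit 19) (nat_lit 246)) (nd (nat_lit 244) (nat_lit 0) (cs (lf (nat_lit 1) (nat_lit 244)) (nd (nat_lit 203) (nat_lit 0) (cs (lf (nat_lit 37) (nat_lit 202)) (nd (nat_lit 266) (nat_lit 0) (cs (nd (nat_lit 267) (nat_lit 0) (cs (lf (nat_lit 12) (nat_lit 243)) (lf (nat_lit 23) (nat_lit 243)))) (cs (nd (nat_lit 288) (nat_lit 0) (cs (nd (nat_lit 289) (nat_lit 0) (cs (lf (nat_lit 12) (nat_lit 265)) (lf (nat_lit 15) (nat_lit 266)))) (cs (nd (nat_lit 222) (nat_lit 0) (cs (nd (nat_lit 221) (nat_lit 0) (cs (nd (nat_lit 309) (nat_lit 0) (cs (lf (nat_lit 40) (nat_lit 221)) (nd (nat_lit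 310) (nat_lit 0) (cs (lf (nat_lit 41) (nat_lit 243)) (lf (nat_lit 46) (nat_lit 221)))))) (lf (nat_lit 47) (nat_lit 199)))) (cs (nd (nat_lit 287) (nat_lit 0) (cs (lf (nat_lit 41) (nat_lit 221)) (nd (nat_lit 200) (nat_lit 0) (cs (lf (nat_lit 40) (nat_lit 199)) (nd (nat_lit 201) (nat_lit 0) (cs (lf (nat_lit 35) (nat_lit 178)) (lf (nat_lit 34) (nat_lit 200)))))))) (nd (nat_lit 199) (nat_lit 0) (cs (lf (nat_lit 46) (nat_lit 199)) (nd (nat_lit 201) (nat_lit 0) (cs (lf (nat_lit 34) (nat_lit 200)) (nd (nat_lit 200) (nat_lit 0) (cs (lf (nat_lit 35) (nat_lit 178)) (lf (nat_lit 47) (nat_lit 177))))))))))) (nd (nat_lit 289) (nat_lit 0) (cs (lf (nat_lit 15) (nat_lit 266)) (rf (nat_lit 1))))))) (cs (nd (nat_lit 267) (nat_lit 0) (cs (lf (nat_lit 23) (nat_lit 243)) (rf (nat_lit 2)))) (nd (nat_lit 267) (nat_lit 0) (cs (lf (nat_lit 12) (nat_lit 243)) (rf (nat_lit 2))))))))))))))))) q51037 (by decide +kernel)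
def q51052 : Q := Q.p (nat_lit 0x40001100004c0000000000000000000000000000000000000000000000000000000000000) (nat_lit 0x100001e80007b0002ec000000001180000600000800000000000000000000000000000000000000000000) (nat_lit 10)
theorem c51052 : QOK q51052 := cut [q49339, q50557, q50567, q49361, q51048] ⟨c49339, c50557, c50567, c49361, c51048, trivial⟩ (nd (nat_lit 224) (nat_lit 0) (cs (rf (nat_lit 0)) (cs (rf (nat_lit 1)) (cs (rf (nat_lit 2)) (nd (nat_lit 291) (nat_lit 0) (cs (lf (nat_lit 29) (nat_lit 224)) (nd (nat_lit 292) (nat_lit 0) (cs (rf (nat_lit 3)) (cs (nd (nat_lit 201) (nat_lit 0) (cs (lf (nat_lit 46) (nat_lit 201)) (nd (nat_lit 289) (nat_lit 0) (cs (lf (nat_lit 41) (nat_lit 223)) (nd (nat_lit 314) (nat_lit 0) (cs (nd (nat_lit 266) (nat_lit 0) (cs (nd (nat_lit 270) (nat_lit 0) (cs (nd (nat_lit 269) (nat_lit 0) (cs (lf (nat_lit 42) (nat_lit 247)) (lf (nat_lit 12) (nat_lit 266)))) (lf (nat_lit 17) (nat_lit 267)))) (lf (nat_lit 22) (nat_lit 266)))) (lf (nat_lit 5) (nat_lit 289)))))))) (nd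 (nat_lit 289) (nat_lit 0) (cs (lf (nat_lit 41) (nat_lit 223)) (rf (nat_lit 4))))))))))))) q51052 (by decide +kernel)
def q51068 : Q := Q.p (nat_lit 0x40001100000c0000000000000000000000000000000000000000000000000000000000000) (nat_lit 0x1e0001f8000780000e0000030000180000600001800000000000000000000000000000000000000000000) (nat_lit 11)
theorem c51068 : QOK q51068 := cut [q50869, q50957, q51057] ⟨c50869, c50957, c51057, trivial⟩ (nd (nat_lit 312) (nat_lit 0) (cs (rf (nat_lit 0)) (cs (rf (nat_lit 1)) (cs (rf (nat_lit 2)) (nd (nat_lit 269) (nat_lit 0) (cs (lf (nat_lit 30) (nat_lit 246)) (nd (nat_lit 270) (nat_lit 0) (cs (lf (nat_lit 19) (nat_lit 246)) (nd (nat_lit 244) (nat_lit 0) (cs (lf (nat_lit 1) (nat_lit 244)) (nd (nat_lit 313) (nat_lit 0) (cs (lf (nat_lit 29) (nat_lit 246)) (nd (nat_lit 291) (nat_lit 0) (cs (lf (nat_lit 47) (nat_lit 224)) (nd (nat_lit 314) (nat_lit 0) (cs (lf (nat_lit 29) (nat_lit 247)) (nd (nat_lit 315) (nat_lit 0) (cs (lf (nat_lit 18) (nat_lit 290)) (nd (nat_lit 311)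 (nat_lit 0) (cs (lf (nat_lit 41) (nat_lit 245)) (nd (nat_lit 293) (nat_lit 0) (cs (lf (nat_lit 17) (nat_lit 290)) (lf (nat_lit 7) (nat_lit 289)))))))))))))))))))))))) q51068 (by decide +kernel)
def q51093 : Q := Q.p (nat_lit 0x40001100000c0000000000000000000000000000000000000000000000000000000000000) (nat_lit 0x80000fc000fe0003bc000e8000030000080000000000000000000000000000000000000000000000000000000) (nat_lit 10)
theorem c51093 : QOK q51093 := cut [q50869, q50952, q51076, q51083, q51091] ⟨c50869, c50952, c51076, c51083, c51091, trivial⟩ (nd (nat_lit 312) (nat_lit 0) (cs (nd (nat_lit 313) (nat_lit 0) (cs (lf (nat_lit 29) (nat_lit 246)) (rf (nat_lit 0)))) (cs (rf (nat_lit 1)) (cs (nd (nat_lit 311) (nat_lit 0) (cs (lf (nat_lit 41) (nat_lit 245)) (nd (nat_lit 292) (nat_lit 0) (cs (nd (nat_lit 223) (nat_lit 0) (cs (lf (nat_lit 46) (nat_lit 223)) (nd (nat_lit 313) (nat_lit 0) (cs (lf (nat_lit 29) (nat_lit 246)) (nd (nat_lit 314) (nat_lit 0) (cs (lf (nat_lit 17) (nat_lit 289)) (nd (nat_lit 289)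 (nat_lit 0) (cs (lf (nat_lit 23) (nat_lit 288)) (lf (nat_lit 18) (nat_lit 289)))))))))) (cs (rf (nat_lit 2)) (nd (nat_lit 223) (nat_lit 0) (cs (lf (nat_lit 46) (nat_lit 223)) (nd (nat_lit 313) (nat_lit 0) (cs (lf (nat_lit 29) (nat_lit 246)) (nd (nat_lit 310) (nat_lit 0) (cs (rf (nat_lit 3)) (lf (nat_lit 16) (nat_lit 288))))))))))))) (nd (nat_lit 313) (nat_lit 0) (cs (lf (nat_lit 29) (nat_lit 246)) (rf (nat_lit 4)))))))) q51093 (by decide +kernel)
def q51100 : Q := Q.p (nat_lit 0x10000040001100000c0000000000000000000000000000000000000000000000000000000000000) (nat_lit 0xc0000200000a0000ee000038000100000600001800000000000000000000000000000000000000000000) (nat_lit 10)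
theorem c51100 : QOK q51100 := cut [q49407] ⟨c49407, trivial⟩ (nd (nat_lit 269) (nat_lit 0) (cs (lf (nat_lit 30) (nat_lit 246)) (nd (nat_lit 270) (nat_lit 0) (cs (lf (nat_lit 19) (nat_lit 246)) (nd (nat_lit 244) (nat_lit 0) (cs (lf (nat_lit 1) (nat_lit 244)) (nd (nat_lit 313) (nat_lit 0) (cs (lf (nat_lit 29) (nat_lit 246)) (nd (nat_lit 224) (nat_lit 0) (cs (nd (nat_lit 202) (nat_lit 0) (cs (lf (nat_lit 24) (nat_lit 180)) (rf (nat_lit 0)))) (lf (nat_lit 43) (nat_lit 224)))))))))))) q51100 (by decide +kernel)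
def q51309 : Q := Q.p (nat_lit 0x8000040000100000400000000000000000000000000000000000000000000000000000000) (nat_lit 0x2000000000000000380000e000028000000000000000000000000000000000000000) (nat_lit 5)
theorem c51309 : QOK q51309 := cut [q46743] ⟨c46743, trivial⟩ (nd (nat_lit 204) (nat_lit 0) (cs (lf (nat_lit 40) (nat_lit 203)) (rf (nat_lit 0)))) q51309 (by decide +kernel)
def q51372 : Q := Q.p (nat_lit 0x400000e0000000000000000000000000000000000000000000000000000000000000) (nat_lit 0x300001180007e0001980002000008000000000000000000000000000000000000000) (nat_lit 9)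
theorem c51372 : QOK q51372 := cut [q50775] ⟨c50775, trivial⟩ (nd (nat_lit 244) (nat_lit 0) (cs (lf (nat_lit 4) (nat_lit 244)) (nd (nat_lit 225) (nat_lit 0) (cs (lf (nat_lit 17) (nat_lit 222)) (nd (nat_lit 224) (nat_lit 0) (cs (lf (nat_lit 12) (nat_lit 221)) (rf (nat_lit 0)))))))) q51372 (by decide +kernel)
def q51498 : Q := Q.p (nat_lit 0x100000580000000000000000000000000000000000000000000000000000000000000) (nat_lit 0x40000200000240003800002000008000000000000000000000000000000000000000000000) (nat_lit 5)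
theorem c51498 : QOK q51498 := cut [q51497] ⟨c51497, trivial⟩ (nd (nat_lit 249) (nat_lit 0) (cs (lf (nat_lit 5) (nat_lit 247)) (rf (nat_lit 0)))) q51498 (by decide +kernel)
def q51505 : Q := Q.p (nat_lit 0x780000200000800000000000000000000000000000000000000000000000000) (nat_lit 0xc0000300001c000070000000000400001400005000000000000000000000000000000000000000000000) (nat_lit 8)
theorem c51505 : QOK q51505 := cut [q51502] ⟨c51502, trivial⟩ (nd (nat_lit 269) (nat_lit 0) (cs (lf (nat_lit 11) (nat_lit 246)) (nd (nat_lit 270) (nat_lit 0) (cs (lf (nat_lit 29) (nat_lit 203)) (nd (nat_lit 180) (nat_lit 0) (cs (lf (nat_lit 46) (nat_lit 180)) (rf (nat_lit 0)))))))) q51505 (by decide +kernel)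
def q51528 : Q := Q.p (nat_lit 0x180000200000800000000000000000000000000000000000000000000000000) (nat_lit 0x5000004000000000000000700001c000050000000000000000000000000000000000) (nat_lit 6)
theorem c51528 : QOK q51528 := cut [q41049] ⟨c41049, trivial⟩ (nd (nat_lit 181) (nat_lit 0) (cs (lf (nat_lit 29) (nat_lit 181)) (nd (nat_lit 246) (nat_lit 0) (cs (lf (nat_lit 41) (nat_lit 180)) (rf (nat_lit 0)))))) q51528 (by decide +kernel)
def q51531 : Q := Q.p (nat_lit 0x180000200000800000000000000000000000000000000000000000000000000) (nat_lit 0x5000004000040000000000300000c000010000000000000000000000000000000000) (nat_lit 5)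
theorem c51531 : QOK q51531 := cut [q51529] ⟨c51529, trivial⟩ (nd (nat_lit 181) (nat_lit 0) (cs (lf (nat_lit 29) (nat_lit 181)) (nd (nat_lit 246) (nat_lit 0) (cs (lf (nat_lit 41) (nat_lit 180)) (rf (nat_lit 0)))))) q51531 (by decide +kernel)
def q51608 : Q := Q.p (nat_lit 0x280001a0000080000000000000000000000000000000000000000000000000000000) (nat_lit 0x1000014000000000000000700001c00005000000000000000000000000000000000000000) (nat_lit 6)
theorem c51608 : QOK q51608 := cut [q49642] ⟨c49642, trivial⟩ (nd (nat_lit 266) (nat_lit 0) (cs (rf (nat_lit 0)) (lf (nat_lit 14) (nat_lit 244)))) q51608 (by decide +kernel)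
def q51697 : Q := Q.p (nat_lit 0x20000080000200000e00000000000000000000000000000000000000000000000000) (nat_lit 0x140000500000000000e0001100004e00000000000000000000000000000000000000000000) (nat_lit 7)
theorem c51697 : QOK q51697 := cut [q51695] ⟨c51695, trivial⟩ (nd (nat_lit 270) (nat_lit 0) (cs (lf (nat_lit 29) (nat_lit 203)) (nd (nat_lit 268) (nat_lit 0) (cs (lf (nat_lit 41) (nat_lit 202)) (rf (nat_lit 0)))))) q51697 (by decide +kernel)
def q51707 : Q := Q.p (nat_lit 0x100000480000300000000000000000000000000000000000000000000000000000000) (nat_lit 0x10000040000000000300001c00002000008000000000000000000000000000000000000000000000) (nat_lit 5)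
theorem c51707 : QOK q51707 := cut [q45536] ⟨c45536, trivial⟩ (nd (nat_lit 249) (nat_lit 0) (cs (lf (nat_lit 20) (nat_lit 224)) (nd (nat_lit 227) (nat_lit 0) (cs (rf (nat_lit 0)) (lf (nat_lit 2) (nat_lit 224)))))) q51707 (by decide +kernel)
def q51719 : Q := Q.p (nat_lit 0x80000300000800000000000000000000000000000000000000000000000000) (nat_lit 0x1000004000000000778001fc0001f800000000000000000000000000000000000000) (nat_lit 9)
theorem c51719 : QOK q51719 := cut [q45621, q50379] ⟨c45621, c50379, trivial⟩ (nd (nat_lit 181) (nat_lit 0) (cs (rf (nat_lit 0)) (rf (nat_lit 1)))) q51719 (by decide +kernel)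
def q51761 : Q := Q.p (nat_lit 0x100000480000300000000000000000000000000000000000000000000000000000000) (nat_lit 0x44000018000278001cc0007f80005c0001700001c000050000000000000000000000000000) (nat_lit 12)
theorem c51761 : QOK q51761 := cut [q48731, q51725, q51753, q37533] ⟨c48731, c51725, c51753, c37533, trivial⟩ (nd (nat_lit 226) (nat_lit 0) (cs (rf (nat_lit 0)) (cs (nd (nat_lit 223) (nat_lit 0) (cs (nd (nat_lit 200) (nat_lit 0) (cs (lf (nat_lit 22) (nat_lit 200)) (nd (nat_lit 244) (nat_lit 0) (cs (lf (nat_lit 10) (nat_lit 222)) (nd (nat_lit 222) (nat_lit 0) (cs (lf (nat_lit 23) (nat_lit 199)) (lf (nat_lit 11) (nat_lit 221)))))))) (cs (rf (nat_lit 1)) (cs (rf (nat_lit 2)) (nd (nat_lit 200) (nat_lit 0) (cs (lf (nat_lit 22) (nat_lit 200)) (nd (nat_lit 204) (nat_lit 0) (cs (lf (nat_lit 17) (nat_lit 201)) (nd (nat_lit 222) (nat_lit 0) (cs (lf (nat_lit 23) (nat_lit 199)) (lf (nat_lit 16) (nat_lit 200)))))))))))) (nd (nat_lit 227) (nat_lit 0) (cs (lf (nat_lit 4) (nat_lit 224)) (nd (nat_lit 205)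 (nat_lit 0) (cs (lf (nat_lit 17) (nat_lit 202)) (nd (nat_lit 228) (nat_lit 0) (cs (lf (nat_lit 42) (nat_lit 205)) (rf (nat_lit 3))))))))))) q51761 (by decide +kernel)
def q51769 : Q := Q.p (nat_lit 0x780000000000000000000000000000000000000000000000000000000) (nat_lit 0x8000030000800000700001000004000000000000000000000000000000000000000) (nat_lit 5)
theorem c51769 : QOK q51769 := cut [q51653] ⟨c51653, trivial⟩ (nd (nat_lit 245) (nat_lit 0) (cs (lf (nat_lit 11) (nat_lit 222)) (rf (nat_lit 0)))) q51769 (by decide +kernel)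
def q51860 : Q := Q.p (nat_lit 0x180000200000800000000000000000000000000000000000000000000000000) (nat_lit 0x4000000000000000000000700001c000050000000000000000000000000000000000) (nat_lit 5)
theorem c51860 : QOK q51860 := cut [q41049] ⟨c41049, trivial⟩ (nd (nat_lit 181) (nat_lit 0) (cs (lf (nat_lit 29) (nat_lit 181)) (rf (nat_lit 0)))) q51860 (by decide +kernel)
def q51861 : Q := Q.p (nat_lit 0x180000200000800000000000000000000000000000000000000000000000000) (nat_lit 0x20000000000400003000007c0001c000050000000000000000000000000000000000) (nat_lit 6)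
theorem c51861 : QOK q51861 := cut [q44688, q49402, q51529] ⟨c44688, c49402, c51529, trivial⟩ (nd (nat_lit 181) (nat_lit 0) (cs (rf (nat_lit 0)) (cs (rf (nat_lit 1)) (rf (nat_lit 2))))) q51861 (by decide +kernel)
def q51917 : Q := Q.p (nat_lit 0x20000180000200000800000000000000000000000000000000000000000000000000) (nat_lit 0x1800004000000000050000f00000c000000000000000000000000000000000000000000000) (nat_lit 6)
theorem c51917 : QOK q51917 := cut [q50456] ⟨c50456, trivial⟩ (nd (nat_lit 270) (nat_lit 0) (cs (lf (nat_lit 29) (nat_lit 203)) (nd (nat_lit 204) (nat_lit 0) (cs (lf (nat_lit 35) (nat_lit 181)) (nd (nat_lit 226) (nat_lit 0) (cs (lf (nat_lit 30) (nat_lit 203)) (rf (nat_lit 0)))))))) q51917 (by decide +kernel)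
def q52004 : Q := Q.p (nat_lit 0x180003080000000000000000000000000000000000000000000000000000000000000) (nat_lit 0x1c000660000140000000000000000000000000000000000000000000000000000000000000) (nat_lit 5)
theorem c52004 : QOK q52004 := cut [q11944] ⟨c11944, trivial⟩ (nd (nat_lit 273) (nat_lit 0) (cs (lf (nat_lit 15) (nat_lit 249)) (nd (nat_lit 270) (nat_lit 0) (cs (lf (nat_lit 22) (nat_lit 247)) (rf (nat_lit 0)))))) q52004 (by decide +kernel)
def q52054 : Q := Q.p (nat_lit 0x180000680000000000000000000000000000000000000000000000000000000000000) (nat_lit 0x20000000000140003000004000010000000000000000000000000000000000000000000000) (nat_lit 4)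
theorem c52054 : QOK q52054 := cut [q52053] ⟨c52053, trivial⟩ (nd (nat_lit 248) (nat_lit 0) (cs (lf (nat_lit 0) (nat_lit 246)) (rf (nat_lit 0)))) q52054 (by decide +kernel)
def q52107 : Q := Q.p (nat_lit 0x140000180000000000000000000000000000000000000000000000000000000000000) (nat_lit 0xe0000f80000f80007e000280000060000e0000380000a000000000000000000000000000000000000000000000) (nat_lit 12)
theorem c52107 : QOK q52107 := cut [q52083, q46747, q52086, q52090, q52091, q52106] ⟨c52083, c46747, c52086, c52090, c52091, c52106, trivial⟩ (nd (nat_lit 292) (nat_lit 0) (cs (rf (nat_lit 0)) (cs (nd (nat_lit 226) (nat_lit 0) (cs (rf (nat_lit 1)) (nd (nat_lit 271) (nat_lit 0) (cs (lf (nat_lit 18) (nat_lit 247)) (nd (nat_lit 245) (nat_lit 0) (cs (lf (nat_lit 1) (nat_lit 245)) (rf (nat_lit 2)))))))) (cs (nd (nat_lit 291) (nat_lit 0) (cs (rf (nat_lit 3)) (nd (nat_lit 313) (nat_lit 0) (cs (lf (nat_lit 36) (nat_lit 225)) (rf (nat_lit 4)))))) (rf (nat_lit 5)))))) q52107 (by decide +kernel)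
def q52141 : Q := Q.p (nat_lit 0x140000180000000000000000000000000000000000000000000000000000000000000) (nat_lit 0x80000380000f80007c000238000040000e0000380000e000008000000000000000000000000000000000000000) (nat_lit 11)
theorem c52141 : QOK q52141 := cut [q51303, q52108, q51283, q52117, q46747, q51305, q52131, q46881] ⟨c51303, c52108, c51283, c52117, c46747, c51305, c52131, c46881, trivial⟩ (nd (nat_lit 292) (nat_lit 0) (cs (rf (nat_lit 0)) (cs (nd (nat_lit 313) (nat_lit 0) (cs (nd (nat_lit 226) (nat_lit 0) (cs (lf (nat_lit 40) (nat_lit 225)) (nd (nat_lit 293) (nat_lit 0) (cs (lf (nat_lit 29) (nat_lit 226)) (nd (nat_lit 205) (nat_lit 0) (cs (lf (nat_lit 34) (nat_lit 204)) (nd (nat_lit 204) (nat_lit 0) (cs (lf (nat_lit 35) (nat_lit 182)) (rf (nat_lit 1)))))))))) (cs (nd (nat_lit 226) (nat_lit 0) (cs (lf (nat_lit 40) (nat_lit 225)) (nd (nat_lit 205) (nat_lit 0) (cs (lf (nat_lit 34) (nat_lit 204)) (nd (nat_lit 183) (nat_lit 0) (cs (lf (nat_lit 33) (nat_lit 182)) (rf (nat_lit 2)))))))) (cs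 (nd (nat_lit 314) (nat_lit 0) (cs (lf (nat_lit 41) (nat_lit 247)) (rf (nat_lit 3)))) (nd (nat_lit 314) (nat_lit 0) (cs (lf (nat_lit 41) (nat_lit 247)) (nd (nat_lit 269) (nat_lit 0) (cs (lf (nat_lit 42) (nat_lit 247)) (nd (nat_lit 226) (nat_lit 0) (cs (nd (nat_lit 205) (nat_lit 0) (cs (lf (nat_lit 34) (nat_lit 204)) (nd (nat_lit 204) (nat_lit 0) (cs (lf (nat_lit 36) (nat_lit 181)) (lf (nat_lit 35) (nat_lit 182)))))) (lf (nat_lit 31) (nat_lit 225)))))))))))) (cs (nd (nat_lit 226) (nat_lit 0) (cs (rf (nat_lit 4)) (cs (nd (nat_lit 293) (nat_lit 0) (cs (lf (nat_lit 29) (nat_lit 226)) (nd (nat_lit 291) (nat_lit 0) (cs (lf (nat_lit 41) (nat_lit 225)) (nd (nat_lit 273) (nat_lit 0) (cs (lf (nat_lit 15) (nat_lit 269)) (rf (nat_lit 5)))))))) (cs (nd (nat_lit 291) (nat_lit 0) (cs (lf (nat_lit 41) (nat_lit 225)) (nd (nat_lit 225) (nat_lit 0) (cs (lf (nat_lit 47) (nat_lit 203)) (nd (nat_lit 205) (nat_lit 0) (cs (lf (nat_lit 34) (nat_lit 204)) (rf (nat_lit 6)))))))) (nd (nat_lit 293) (nat_lit 0) (cs (lf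 (nat_lit 29) (nat_lit 226)) (nd (nat_lit 205) (nat_lit 0) (cs (lf (nat_lit 34) (nat_lit 204)) (nd (nat_lit 204) (nat_lit 0) (cs (lf (nat_lit 35) (nat_lit 182)) (nd (nat_lit 269) (nat_lit 0) (cs (lf (nat_lit 41) (nat_lit 203)) (lf (nat_lit 36) (nat_lit 181)))))))))))))) (nd (nat_lit 314) (nat_lit 0) (cs (lf (nat_lit 47) (nat_lit 225)) (rf (nat_lit 7)))))))) q52141 (by decide +kernel)
def q52188 : Q := Q.p (nat_lit 0x140000180000000000000000000000000000000000000000000000000000000000000) (nat_lit 0x600003e0002a0000000000e0000380000a000000000000000000000000000000000000000000000) (nat_lit 6)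
theorem c52188 : QOK q52188 := cut [q51303, q52083, q52090] ⟨c51303, c52083, c52090, trivial⟩ (nd (nat_lit 292) (nat_lit 0) (cs (rf (nat_lit 0)) (cs (rf (nat_lit 1)) (nd (nat_lit 291) (nat_lit 0) (cs (rf (nat_lit 2)) (nd (nat_lit 226) (nat_lit 0) (cs (lf (nat_lit 41) (nat_lit 225)) (nd (nat_lit 205) (nat_lit 0) (cs (lf (nat_lit 34) (nat_lit 204)) (nd (nat_lit 204) (nat_lit 0) (cs (lf (nat_lit 35) (nat_lit 182)) (lf (nat_lit 40) (nat_lit 203))))))))))))) q52188 (by decide +kernel)
def q52242 : Q := Q.p (nat_lit 0x400001c0000000000000000000000000000000000000000000000000000000000000) (nat_lit 0x8e0000300000e0000000000000000000000000000000000000000000000000000000) (nat_lit 5)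
theorem c52242 : QOK q52242 := cut [q50417] ⟨c50417, trivial⟩ (nd (nat_lit 245) (nat_lit 0) (cs (lf (nat_lit 5) (nat_lit 245)) (rf (nat_lit 0)))) q52242 (by decide +kernel)
def q52292 : Q := Q.p (nat_lit 0x8000040000100000600000000000000000000000000000000000000000000000000000000000000) (nat_lit 0x200000e000030000000000080000000000000000000000000000000000000000000000000000000000000000000) (nat_lit 4)
theorem c52292 : QOK q52292 := cut [q52291] ⟨c52291, trivial⟩ (nd (nat_lit 316) (nat_lit 0) (cs (lf (nat_lit 41) (nat_lit 249)) (rf (nat_lit 0)))) q52292 (by decide +kernel)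
def q52446 : Q := Q.p (nat_lit 0x60000100000400000000000000000000000000000000000000000000000000000000000000) (nat_lit 0x28000080000200000000001800006000008000000000000000000000000000000000000000000000) (nat_lit 5)
theorem c52446 : QOK q52446 := cut [q52445] ⟨c52445, trivial⟩ (nd (nat_lit 228) (nat_lit 0) (cs (lf (nat_lit 41) (nat_lit 227)) (rf (nat_lit 0)))) q52446 (by decide +kernel)
def q52528 : Q := Q.p (nat_lit 0x800002000008000010000000000000000000000000000000000000000000000000000) (nat_lit 0x100000600001000000000010000060000140000000000000000000000000000000000000000000000) (nat_lit 5)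
theorem c52528 : QOK q52528 := cut [q52527] ⟨c52527, trivial⟩ (nd (nat_lit 209) (nat_lit 0) (cs (lf (nat_lit 47) (nat_lit 186)) (rf (nat_lit 0)))) q52528 (by decide +kernel)
def q52556 : Q := Q.p (nat_lit 0x80000e00000800000000000000000000000000000000000000000000000000000000000000000000) (nat_lit 0x24000310000f000030000040000100000000000000000000000000000000000000000000000000000) (nat_lit 7)
theorem c52556 : QOK q52556 := cut [q11561] ⟨c11561, trivial⟩ (nd (nat_lit 300) (nat_lit 0) (cs (lf (nat_lit 11) (nat_lit 296)) (nd (nat_lit 278) (nat_lit 0) (cs (lf (nat_lit 17) (nat_lit 275)) (nd (nat_lit 277) (nat_lit 0) (cs (lf (nat_lit 12) (nat_lit 274)) (nd (nat_lit 276) (nat_lit 0) (cs (rf (nat_lit 0)) (lf (nat_lit 5) (nat_lit 275)))))))))) q52556 (by decide +kernel)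
def q52661 : Q := Q.p (nat_lit 0x1c0000000000800002000000000000000000000000000000000000000000000000000000000000000) (nat_lit 0xce000030000ce0001000000000000000000000000000000000000000000000000000000000000000000000) (nat_lit 5)
theorem c52661 : QOK q52661 := cut [q2590, q13071] ⟨c2590, c13071, trivial⟩ (nd (nat_lit 317) (nat_lit 0) (cs (rf (nat_lit 0)) (rf (nat_lit 1)))) q52661 (by decide +kernel)
def q52666 : Q := Q.p (nat_lit 0xf00000000000000000000000000000000000000000000000000000000000000000000) (nat_lit 0x4000010000060001000000e00002000000000000000000000000000000000000000000000000000000000) (nat_lit 5)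
theorem c52666 : QOK q52666 := cut [q52664] ⟨c52664, trivial⟩ (nd (nat_lit 250) (nat_lit 0) (cs (lf (nat_lit 23) (nat_lit 249)) (nd (nat_lit 251) (nat_lit 0) (cs (lf (nat_lit 18) (nat_lit 250)) (rf (nat_lit 0)))))) q52666 (by decide +kernel)
def q52714 : Q := Q.p (nat_lit 0x38000000000000000800002000000000000000000000000000000000000000000000000000000000000000) (nat_lit 0x3b800044000380000600000000000000000000000000000000000000000000000000000000000000000000000000) (nat_lit 5)
theorem c52714 : QOK q52714 := cut [q22741, q52710] ⟨c22741, c52710, trivial⟩ (nd (nat_lit 342) (nat_lit 0) (cs (rf (nat_lit 0)) (cs (rf (nat_lit 1)) (nd (nat_lit 364) (nat_lit 0) (cs (lf (nat_lit 5) (nat_lit 339)) (nd (nat_lit 297) (nat_lit 0) (cs (lf (nat_lit 26) (nat_lit 275)) (nd (nat_lit 320) (nat_lit 0) (cs (lf (nat_lit 17) (nat_lit 317)) (lf (nat_lit 45) (nat_lit 275))))))))))) q52714 (by decide +kernel)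
def q52735 : Q := Q.p (nat_lit 0x78000000000000000800002000000000000000000000000000000000000000000000000000000000000000) (nat_lit 0xe7000380000380000200000000000000000000000000000000000000000000000000000000000000000000000000) (nat_lit 7)
theorem c52735 : QOK q52735 := cut [q52732] ⟨c52732, trivial⟩ (nd (nat_lit 361) (nat_lit 0) (cs (lf (nat_lit 11) (nat_lit 338)) (nd (nat_lit 320) (nat_lit 0) (cs (lf (nat_lit 17) (nat_lit 317)) (nd (nat_lit 319) (nat_lit 0) (cs (lf (nat_lit 26) (nat_lit 253)) (rf (nat_lit 0)))))))) q52735 (by decide +kernel)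
def q52767 : Q := Q.p (nat_lit 0x3c000000000080000e00000000000000000000000000000000000000000000000000000000000000000000) (nat_lit 0x40000100000e0000300001c000170000080000000000000000000000000000000000000000000000000000000000000000000) (nat_lit 8)
theorem c52767 : QOK q52767 := cut [q52698] ⟨c52698, trivial⟩ (nd (nat_lit 315) (nat_lit 0) (cs (lf (nat_lit 22) (nat_lit 315)) (rf (nat_lit 0)))) q52767 (by decide +kernel)
def q52784 : Q := Q.p (nat_lit 0x3c00000000000000000000000000000000000000000000000000000000000000000000) (nat_lit 0x3800004000038000000000000000000000000000000000000000000000000000000000000000) (nat_lit 4)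
theorem c52784 : QOK q52784 := cut [q52783] ⟨c52783, trivial⟩ (nd (nat_lit 256) (nat_lit 0) (cs (lf (nat_lit 16) (nat_lit 252)) (rf (nat_lit 0)))) q52784 (by decide +kernel)
def q52803 : Q := Q.p (nat_lit 0xc000000000080000e00000000000000000000000000000000000000000000000000000000000000000000) (nat_lit 0x1000000000030000000001000000c00001000000000000000000000000000000000000000000000000000000000) (nat_lit 4)
theorem c52803 : QOK q52803 := cut [q25198] ⟨c25198, trivial⟩ (nd (nat_lit 317) (nat_lit 0) (cs (lf (nat_lit 41) (nat_lit 272)) (rf (nat_lit 0)))) q52803 (by decide +kernel)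
def q52853 : Q := Q.p (nat_lit 0x38000100000000000000000000000000000000000000000000000000000000000000000000000000000000) (nat_lit 0x1c0000600009c000000000000000000000000000000000000000000000000000000000000000000000000000000) (nat_lit 5)
theorem c52853 : QOK q52853 := cut [q52720] ⟨c52720, trivial⟩ (nd (nat_lit 338) (nat_lit 0) (cs (lf (nat_lit 16) (nat_lit 316)) (rf (nat_lit 0)))) q52853 (by decide +kernel)
def q52856 : Q := Q.p (nat_lit 0x38000000000000000000000000000000000000000000000000000000000000000000000000000000000000) (nat_lit 0x3fc0004600001c000000000000000000000000000000000000000000000000000000000000000000000000000000) (nat_lit 5)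
theorem c52856 : QOK q52856 := cut [q52717, q52720, q52810] ⟨c52717, c52720, c52810, trivial⟩ (nd (nat_lit 338) (nat_lit 0) (cs (rf (nat_lit 0)) (cs (rf (nat_lit 1)) (rf (nat_lit 2))))) q52856 (by decide +kernel)
def q52939 : Q := Q.p (nat_lit 0xf0000000000000000800000000000000000000000000000000000000000000000000000000000000000000) (nat_lit 0x40000100038e000700003980000200000000000000000000000000000000000000000000000000000000000000000000000000) (nat_lit 9)
theorem c52939 : QOK q52939 := cut [q28270] ⟨c28270, trivial⟩ (nd (nat_lit 362) (nat_lit 0) (cs (lf (nat_lit 11) (nat_lit 339)) (nd (nat_lit 319) (nat_lit 0) (cs (lf (nat_lit 37) (nat_lit 274)) (nd (nat_lit 384) (nat_lit 0) (cs (lf (nat_lit 30) (nat_lit 318)) (nd (nat_lit 344) (nat_lit 0) (cs (lf (nat_lit 10) (nat_lit 340)) (nd (nat_lit 345) (nat_lit 0) (cs (lf (nat_lit 22) (nat_lit 319)) (nd (nat_lit 324) (nat_lit 0) (cs (lf (nat_lit 16) (nat_lit 320)) (rf (nat_lit 0)))))))))))))) q52939 (by decide +kernel)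
def q52946 : Q := Q.p (nat_lit 0x78000000000000000800000000000000000000000000000000000000000000000000000000000000000000) (nat_lit 0xdc000060001b8000200000000000000000000000000000000000000000000000000000000000000000000000000) (nat_lit 7)
theorem c52946 : QOK q52946 := cut [q52760] ⟨c52760, trivial⟩ (nd (nat_lit 316) (nat_lit 0) (cs (lf (nat_lit 22) (nat_lit 316)) (nd (nat_lit 338) (nat_lit 0) (cs (lf (nat_lit 23) (nat_lit 315)) (rf (nat_lit 0)))))) q52946 (by decide +kernel)
def q52960 : Q := Q.p (nat_lit 0x70000000000000000000000000000000000000000000000000000000000000000000000000000000000000) (nat_lit 0x7f80008c000700000000000000000000000000000000000000000000000000000000000000000000000000000000) (nat_lit 5)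
theorem c52960 : QOK q52960 := cut [q22741, q25104, q52751] ⟨c22741, c25104, c52751, trivial⟩ (nd (nat_lit 339) (nat_lit 0) (cs (rf (nat_lit 0)) (cs (rf (nat_lit 1)) (rf (nat_lit 2))))) q52960 (by decide +kernel)
def q52961 : Q := Q.p (nat_lit 0xf0000000000000000000000000000000000000000000000000000000000000000000000000000000000000) (nat_lit 0xe000100000e00000000000000000000000000000000000000000000000000000000000000000000000000000000) (nat_lit 4)
theorem c52961 : QOK q52961 := cut [q52875] ⟨c52875, trivial⟩ (nd (nat_lit 362) (nat_lit 0) (cs (lf (nat_lit 11) (nat_lit 339)) (rf (nat_lit 0)))) q52961 (by decide +kernel)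
def q52991 : Q := Q.p (nat_lit 0x10000070000000000000000000000000000000000000000000000000000000000000000000000000000000000000) (nat_lit 0x2800000c000038000000000000000000000000000000000000000000000000000000000000000000000000000000) (nat_lit 4)
theorem c52991 : QOK q52991 := cut [q13294] ⟨c13294, trivial⟩ (nd (nat_lit 339) (nat_lit 0) (cs (lf (nat_lit 5) (nat_lit 339)) (rf (nat_lit 0)))) q52991 (by decide +kernel)
def q53037 : Q := Q.p (nat_lit 0x40000300000400001000000000000000000000000000000000000000000000000000000000) (nat_lit 0xc000030000080000000000800002000000000000000000000000000000000000000000000000000000000) (nat_lit 4)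
theorem c53037 : QOK q53037 := cut [q12964] ⟨c12964, trivial⟩ (nd (nat_lit 317) (nat_lit 0) (cs (rf (nat_lit 0)) (lf (nat_lit 28) (nat_lit 228)))) q53037 (by decide +kernel)
def q53064 : Q := Q.p (nat_lit 0x200000e00000000000000000000000000000000000000000000000000000000000000000000) (nat_lit 0x5380001c0000380000000000000000000000000000000000000000000000000000000000000) (nat_lit 6)
theorem c53064 : QOK q53064 := cut [q5468] ⟨c5468, trivial⟩ (nd (nat_lit 272) (nat_lit 0) (cs (lf (nat_lit 5) (nat_lit 272)) (nd (nat_lit 271) (nat_lit 0) (cs (lf (nat_lit 4) (nat_lit 271)) (rf (nat_lit 0)))))) q53064 (by decide +kernel)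
def q53168 : Q := Q.p (nat_lit 0x58000100000000000800002000000000000000000000000000000000000000000000000000000000000000) (nat_lit 0x3800024000238000400001000000000000000000000000000000000000000000000000000000000000000000000) (nat_lit 6)
theorem c53168 : QOK q53168 := cut [q53167] ⟨c53167, trivial⟩ (nd (nat_lit 341) (nat_lit 0) (cs (lf (nat_lit 17) (nat_lit 317)) (rf (nat_lit 0)))) q53168 (by decide +kernel)
def q53174 : Q := Q.p (nat_lit 0x70000100000000000800002000000000000000000000000000000000000000000000000000000000000000) (nat_lit 0x8000e80000400001000000000000000000000000000000000000000000000000000000000000000000000) (nat_lit 4)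
theorem c53174 : QOK q53174 := cut [q43179] ⟨c43179, trivial⟩ (nd (nat_lit 276) (nat_lit 0) (cs (lf (nat_lit 44) (nat_lit 253)) (rf (nat_lit 0)))) q53174 (by decide +kernel)
def q53175 : Q := Q.p (nat_lit 0x70000100000000000800002000000000000000000000000000000000000000000000000000000000000000) (nat_lit 0x7f80008c000038000400001000000000000000000000000000000000000000000000000000000000000000000000) (nat_lit 6)
theorem c53175 : QOK q53175 := cut [q25479, q52840, q53167] ⟨c25479, c52840, c53167, trivial⟩ (nd (nat_lit 339) (nat_lit 0) (cs (rf (nat_lit 0)) (cs (rf (nat_lit 1)) (rf (nat_lit 2))))) q53175 (by decide +kernel)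
def q53179 : Q := Q.p (nat_lit 0xc00000c00000000000000000000000000000000000000000000000000000000000000000000) (nat_lit 0x270001380000700000000000000000000000000000000000000000000000000000000000000) (nat_lit 6)
theorem c53179 : QOK q53179 := cut [q1206] ⟨c1206, trivial⟩ (nd (nat_lit 273) (nat_lit 0) (cs (lf (nat_lit 3) (nat_lit 273)) (nd (nat_lit 272) (nat_lit 0) (cs (rf (nat_lit 0)) (lf (nat_lit 4) (nat_lit 272)))))) q53179 (by decide +kernel)
def q53243 : Q := Q.p (nat_lit 0x40000000003c00000000000000000000000000000000000000000000000000000000000000000000000000) (nat_lit 0x380000f800038000ee0001c00003e0000380000a0000000000000000000000000000000000000000000000000000000000) (nat_lit 9)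
theorem c53243 : QOK q53243 := cut [q29926, q31331, q28490, q53229, q31658, q53202] ⟨c29926, c31331, c28490, c53229, c31658, c53202, trivial⟩ (nd (nat_lit 322) (nat_lit 0) (cs (nd (nat_lit 279) (nat_lit 0) (cs (lf (nat_lit 17) (nat_lit 276)) (nd (nat_lit 257) (nat_lit 0) (cs (nd (nat_lit 344) (nat_lit 0) (cs (lf (nat_lit 30) (nat_lit 278)) (lf (nat_lit 33) (nat_lit 256)))) (lf (nat_lit 36) (nat_lit 234)))))) (cs (nd (nat_lit 344) (nat_lit 0) (cs (rf (nat_lit 0)) (cs (rf (nat_lit 1)) (cs (nd (nat_lit 278) (nat_lit 0) (cs (nd (nat_lit 255) (nat_lit 0) (cs (lf (nat_lit 46) (nat_lit 255)) (nd (nat_lit 345) (nat_lit 0) (cs (lf (nat_lit 29) (nat_lit 278)) (nd (nat_lit 256) (nat_lit 0) (cs (lf (nat_lit 28) (nat_lit 256)) (lf (nat_lit 47) (nat_lit 233)))))))) (cs (nd (nat_lit 345) (nat_lit 0) (cs (lf (nat_lit 29) (nat_lit 278)) (nd (nat_lit 277) (nat_lit 0) (cs (lf (nat_lit 47) (nat_lit 255)) (nd (nat_lit 343) (nat_lit 0) (cs (lf (nat_lit 41) (nat_lit 277)) (nd (nat_lit 364) (nat_lit 0) (cs (lf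 (nat_lit 11) (nat_lit 341)) (lf (nat_lit 38) (nat_lit 276)))))))))) (cs (nd (nat_lit 343) (nat_lit 0) (cs (lf (nat_lit 41) (nat_lit 277)) (rf (nat_lit 2)))) (rf (nat_lit 3)))))) (nd (nat_lit 366) (nat_lit 0) (cs (rf (nat_lit 4)) (nd (nat_lit 388) (nat_lit 0) (cs (lf (nat_lit 46) (nat_lit 299)) (lf (nat_lit 34) (nat_lit 300)))))))))) (cs (nd (nat_lit 280) (nat_lit 0) (cs (lf (nat_lit 16) (nat_lit 276)) (nd (nat_lit 302) (nat_lit 0) (cs (lf (nat_lit 17) (nat_lit 277)) (nd (nat_lit 303) (nat_lit 0) (cs (lf (nat_lit 11) (nat_lit 299)) (nd (nat_lit 277) (nat_lit 0) (cs (lf (nat_lit 22) (nat_lit 277)) (nd (nat_lit 233) (nat_lit 0) (cs (lf (nat_lit 25) (nat_lit 233)) (rf (nat_lit 5)))))))))))) (nd (nat_lit 279) (nat_lit 0) (cs (lf (nat_lit 17) (nat_lit 276)) (nd (nat_lit 257) (nat_lit 0) (cs (lf (nat_lit 36) (nat_lit 234)) (nd (nat_lit 344) (nat_lit 0) (cs (lf (nat_lit 30) (nat_lit 278)) (lf (nat_lit 39) (nat_lit 256)))))))))))) q53243 (by decide +kernel)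
def q53337 : Q := Q.p (nat_lit 0x100001c0000000000000000000000000000000000000000000000000000000000000000000000000000000) (nat_lit 0x388000600003800000000000000000000000000000000000000000000000000000000000000000000000000) (nat_lit 5)
theorem c53337 : QOK q53337 := cut [q53336] ⟨c53336, trivial⟩ (nd (nat_lit 321) (nat_lit 0) (cs (lf (nat_lit 11) (nat_lit 317)) (rf (nat_lit 0)))) q53337 (by decide +kernel)
def q53409 : Q := Q.p (nat_lit 0x70000000000000000000000000000000000000000000000000000000000000000000000000000000000000) (nat_lit 0xe7000188000e70000000000000000000000000000000000000000000000000000000000000000000000000000000) (nat_lit 5)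
theorem c53409 : QOK q53409 := cut [q28995, q31266] ⟨c28995, c31266, trivial⟩ (nd (nat_lit 343) (nat_lit 0) (cs (rf (nat_lit 0)) (rf (nat_lit 1)))) q53409 (by decide +kernel)
def q53449 : Q := Q.p (nat_lit 0x70000080000000000c00000000000000000000000000000000000000000000000000000000000000000000) (nat_lit 0x140000700001c0000e0000180000f60001c00007000000000000000000000000000000000000000000000000000000000000000000000) (nat_lit 10)
theorem c53449 : QOK q53449 := cut [q31266, q53431, q53435, q53448] ⟨c31266, c53431, c53435, c53448, trivial⟩ (nd (nat_lit 343) (nat_lit 0) (cs (rf (nat_lit 0)) (cs (nd (nat_lit 365) (nat_lit 0) (cs (lf (nat_lit 5) (nat_lit 340)) (nd (nat_lit 321) (nat_lit 0) (cs (lf (nat_lit 17) (nat_lit 318)) (nd (nat_lit 299) (nat_lit 0) (cs (rf (nat_lit 1)) (cs (nd (nat_lit 276) (nat_lit 0) (cs (lf (nat_lit 46) (nat_lit 276)) (nd (nat_lit 300) (nat_lit 0) (cs (lf (nat_lit 3) (nat_lit 274)) (lf (nat_lit 35) (nat_lit 277)))))) (rf (nat_lit 2))))))))) (rf (nat_lit 3))))) q53449 (by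 decide +kernel)
def q53526 : Q := Q.p (nat_lit 0x50000100000000000c00002000000000000000000000000000000000000000000000000000000000000000) (nat_lit 0x40000100007a0001ee000fa00003000008000000000000000000000000000000000000000000000000000000000000000) (nat_lit 8)
theorem c53526 : QOK q53526 := cut [q53513, q53514, q53340, q53510, q53522] ⟨c53513, c53514, c53340, c53510, c53522, trivial⟩ (nd (nat_lit 319) (nat_lit 0) (cs (lf (nat_lit 26) (nat_lit 253)) (nd (nat_lit 321) (nat_lit 0) (cs (rf (nat_lit 0)) (cs (nd (nat_lit 299) (nat_lit 0) (cs (nd (nat_lit 364) (nat_lit 0) (cs (lf (nat_lit 30) (nat_lit 298)) (rf (nat_lit 1)))) (cs (nd (nat_lit 364) (nat_lit 0) (cs (lf (nat_lit 30) (nat_lit 298)) (nd (nat_lit 318) (nat_lit 0) (cs (lf (nat_lit 17) (nat_lit 296)) (rf (nat_lit 2)))))) (nd (nat_lit 300) (nat_lit 0) (cs (lf (nat_lit 12) (nat_lit 296)) (rf (nat_lit 3))))))) (nd (nat_lit 322) (nat_lit 0) (cs (lf (nat_lit 10) (nat_lit 318)) (nd (nat_lit 345) (nat_lit 0) (cs (lf (nat_lit 4) (nat_lit 319))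 (rf (nat_lit 4))))))))))) q53526 (by decide +kernel)
def q53560 : Q := Q.p (nat_lit 0x10000050000100000400000000000000000000000000000000000000000000000000000000000000000000000000) (nat_lit 0x100000400003a00006c0003a0000200000800002000000000000000000000000000000000000000000000000000000000000000000000) (nat_lit 9)
theorem c53560 : QOK q53560 := cut [q53558] ⟨c53558, trivial⟩ (nd (nat_lit 365) (nat_lit 0) (cs (lf (nat_lit 29) (nat_lit 298)) (nd (nat_lit 277) (nat_lit 0) (cs (lf (nat_lit 34) (nat_lit 276)) (rf (nat_lit 0)))))) q53560 (by decide +kernel)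
def q53590 : Q := Q.p (nat_lit 0x10000050000300000000000000000000000000000000000000000000000000000000000000000000000000000000) (nat_lit 0x200001880007a0001c8000f000004000000000000000000000000000000000000000000000000000000000000000000000) (nat_lit 8)
theorem c53590 : QOK q53590 := cut [q53522, q27952] ⟨c53522, c27952, trivial⟩ (nd (nat_lit 322) (nat_lit 0) (cs (nd (nat_lit 341) (nat_lit 0) (cs (lf (nat_lit 6) (nat_lit 319)) (lf (nat_lit 9) (nat_lit 318)))) (cs (nd (nat_lit 341) (nat_lit 0) (cs (lf (nat_lit 15) (nat_lit 318)) (lf (nat_lit 9) (nat_lit 318)))) (cs (nd (nat_lit 341) (nat_lit 0) (cs (lf (nat_lit 6) (nat_lit 319)) (lf (nat_lit 15) (nat_lit 318)))) (nd (nat_lit 345) (nat_lit 0) (cs (rf (nat_lit 0)) (cs (nd (nat_lit 323) (nat_lit 0) (cs (lf (nat_lit 5) (nat_lit 320)) (nd (nat_lit 301) (nat_lit 0) (cs (lf (nat_lit 17) (nat_lit 298)) (nd (nat_lit 319) (nat_lit 0) (cs (lf (nat_lit 16) (nat_lit 297)) (lf (nat_lit 4) (nat_lit 319)))))))) (cs (nd (nat_lit 344) (nat_lit 0) (cs (nd (nat_lit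 343) (nat_lit 0) (cs (lf (nat_lit 11) (nat_lit 341)) (nd (nat_lit 323) (nat_lit 0) (cs (lf (nat_lit 17) (nat_lit 320)) (rf (nat_lit 1)))))) (lf (nat_lit 0) (nat_lit 319)))) (nd (nat_lit 344) (nat_lit 0) (cs (lf (nat_lit 0) (nat_lit 319)) (nd (nat_lit 343) (nat_lit 0) (cs (lf (nat_lit 11) (nat_lit 341)) (lf (nat_lit 18) (nat_lit 320)))))))))))))) q53590 (by decide +kernel)
def q53612 : Q := Q.p (nat_lit 0xf0000100000000000000000000000000000000000000000000000000000000000000000000000000000000) (nat_lit 0x100001000006e0001800002000008000000000000000000000000000000000000000000000000000000000000000) (nat_lit 6)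
theorem c53612 : QOK q53612 := cut [q42941] ⟨c42941, trivial⟩ (nd (nat_lit 321) (nat_lit 0) (cs (lf (nat_lit 17) (nat_lit 318)) (nd (nat_lit 318) (nat_lit 0) (cs (lf (nat_lit 23) (nat_lit 317)) (nd (nat_lit 319) (nat_lit 0) (cs (lf (nat_lit 18) (nat_lit 318)) (rf (nat_lit 0)))))))) q53612 (by decide +kernel)
def q53658 : Q := Q.p (nat_lit 0x70000000000000000000000000000000000000000000000000000000000000000000000000000000000000) (nat_lit 0xf0000188000f70000000000000000000000000000000000000000000000000000000000000000000000000000000) (nat_lit 5)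
theorem c53658 : QOK q53658 := cut [q28903, q31266] ⟨c28903, c31266, trivial⟩ (nd (nat_lit 343) (nat_lit 0) (cs (rf (nat_lit 0)) (cs (rf (nat_lit 1)) (nd (nat_lit 317) (nat_lit 0) (cs (lf (nat_lit 22) (nat_lit 317)) (nd (nat_lit 321) (nat_lit 0) (cs (lf (nat_lit 17) (nat_lit 318)) (nd (nat_lit 339) (nat_lit 0) (cs (lf (nat_lit 23) (nat_lit 316)) (lf (nat_lit 16) (nat_lit 317))))))))))) q53658 (by decide +kernel)
def q53680 : Q := Q.p (nat_lit 0xf0000100000000000800002000000000000000000000000000000000000000000000000000000000000000) (nat_lit 0xe0000380001e0000000006e0001c00003000008000000000000000000000000000000000000000000000000000000000000000) (nat_lit 11)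
theorem c53680 : QOK q53680 := cut [q42941] ⟨c42941, trivial⟩ (nd (nat_lit 362) (nat_lit 0) (cs (lf (nat_lit 11) (nat_lit 339)) (nd (nat_lit 385) (nat_lit 0) (cs (nd (nat_lit 407) (nat_lit 0) (cs (nd (nat_lit 318) (nat_lit 0) (cs (lf (nat_lit 23) (nat_lit 317)) (lf (nat_lit 27) (nat_lit 318)))) (lf (nat_lit 32) (nat_lit 319)))) (cs (nd (nat_lit 298) (nat_lit 0) (cs (lf (nat_lit 45) (nat_lit 253)) (nd (nat_lit 363) (nat_lit 0) (cs (lf (nat_lit 39) (nat_lit 297)) (lf (nat_lit 33) (nat_lit 297)))))) (nd (nat_lit 276) (nat_lit 0) (cs (lf (nat_lit 44) (nat_lit 253)) (nd (nat_lit 321) (nat_lit 0) (cs (lf (nat_lit 17) (nat_lit 318)) (nd (nat_lit 318) (nat_lit 0) (cs (lf (nat_lit 23) (nat_lit 317)) (nd (nat_lit 384) (nat_lit 0) (cs (lf (nat_lit 29) (nat_lit 318)) (nd (nat_lit 383) (nat_lit 0) (cs (lf (nat_lit 41) (nat_lit 317)) (nd (nat_lit 319) (nat_lit 0) (cs (lf (nat_lit 30) (nat_lit 318)) (rf (nat_lit 0))))))))))))))))))) q53680 (by decide +kernel)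
def q53714 : Q := Q.p (nat_lit 0x70000080000000000000000000000000000000000000000000000000000000000000000000000000000000) (nat_lit 0x77000388001d40000000000000000000000000000000000000000000000000000000000000000000000000000000) (nat_lit 5)
theorem c53714 : QOK q53714 := cut [q25486, q53441] ⟨c25486, c53441, trivial⟩ (nd (nat_lit 343) (nat_lit 0) (cs (rf (nat_lit 0)) (rf (nat_lit 1)))) q53714 (by decide +kernel)
def q53864 : Q := Q.p (nat_lit 0x70000100000000000800002000000000000000000000000000000000000000000000000000000000000000) (nat_lit 0xe700038c0000b0000200000000000000000000000000000000000000000000000000000000000000000000000000) (nat_lit 8)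
theorem c53864 : QOK q53864 := cut [q52732] ⟨c52732, trivial⟩ (nd (nat_lit 319) (nat_lit 0) (cs (lf (nat_lit 26) (nat_lit 253)) (nd (nat_lit 339) (nat_lit 0) (cs (lf (nat_lit 12) (nat_lit 316)) (nd (nat_lit 316) (nat_lit 0) (cs (lf (nat_lit 22) (nat_lit 316)) (nd (nat_lit 361) (nat_lit 0) (cs (lf (nat_lit 11) (nat_lit 338)) (rf (nat_lit 0)))))))))) q53864 (by decide +kernel)
def q53926 : Q := Q.p (nat_lit 0x50000000000000000800002000000000000000000000000000000000000000000000000000000000000000) (nat_lit 0x3e0000f8000ff8003ac0003f8000ec0003200000800000000000000000000000000000000000000000000000000000000000000) (nat_lit 12)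
theorem c53926 : QOK q53926 := cut [q53404, q53706, q53707, q53426, q53713, q53848, q53007, q53448, q43787, q52840, q53414] ⟨c53404, c53706, c53707, c53426, c53713, c53848, c53007, c53448, c43787, c52840, c53414, trivial⟩ (nd (nat_lit 319) (nat_lit 0) (cs (rf (nat_lit 0)) (cs (rf (nat_lit 1)) (cs (rf (nat_lit 2)) (nd (nat_lit 341) (nat_lit 0) (cs (rf (nat_lit 3)) (cs (rf (nat_lit 4)) (cs (rf (nat_lit 5)) (cs (nd (nat_lit 343) (nat_lit 0) (cs (rf (nat_lit 6)) (cs (rf (nat_lit 7)) (nd (nat_lit 365) (nat_lit 0) (cs (lf (nat_lit 5) (nat_lit 340)) (nd (nat_lit 362) (nat_lit 0) (cs (lf (nat_lit 11) (nat_lit 339)) (nd (nat_lit 384) (nat_lit 0) (cs (lf (nat_lit 30) (nat_lit 318)) (nd (nat_lit 318) (nat_lit 0) (cs (lf (nat_lit 23) (nat_lit 317)) (rf (nat_lit 8))))))))))))) (nd (nat_lit 339) (nat_lit 0) (cs (rf (nat_lit 9)) (rf (nat_lit 10))))))))))))) q53926 (by decide +kernel)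
def q53961 : Q := Q.p (nat_lit 0x10000000000200000e00002000000000000000000000000000000000000000000000000000000000000000) (nat_lit 0x40000340001dc0007000000000000000000000000000000000000000000000000000000000000000000000) (nat_lit 6)
theorem c53961 : QOK q53961 := cut [q16001, q53956] ⟨c16001, c53956, trivial⟩ (nd (nat_lit 296) (nat_lit 0) (cs (lf (nat_lit 31) (nat_lit 252)) (nd (nat_lit 276) (nat_lit 0) (cs (rf (nat_lit 0)) (cs (nd (nat_lit 295) (nat_lit 0) (cs (lf (nat_lit 12) (nat_lit 272)) (rf (nat_lit 1)))) (nd (nat_lit 299) (nat_lit 0) (cs (lf (nat_lit 4) (nat_lit 273)) (nd (nat_lit 277) (nat_lit 0) (cs (lf (nat_lit 5) (nat_lit 274)) (lf (nat_lit 6) (nat_lit 274))))))))))) q53961 (by decide +kernel)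
def q53987 : Q := Q.p (nat_lit 0x3c000040000000000000000000000000000000000000000000000000000000000000000000000000000000) (nat_lit 0x38001c00001a0000000000000000000000000000000000000000000000000000000000000000000000000000000) (nat_lit 5)
theorem c53987 : QOK q53987 := cut [q53986] ⟨c53986, trivial⟩ (nd (nat_lit 319) (nat_lit 0) (cs (lf (nat_lit 17) (nat_lit 316)) (rf (nat_lit 0)))) q53987 (by decide +kernel)
def q53994 : Q := Q.p (nat_lit 0x1c000040000000000000000000000000000000000000000000000000000000000000000000000000000000) (nat_lit 0x100001ce0002300003e000080000200000000000000000000000000000000000000000000000000000000000000000000) (nat_lit 6)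
theorem c53994 : QOK q53994 := cut [q25509, q53990, q53991] ⟨c25509, c53990, c53991, trivial⟩ (nd (nat_lit 337) (nat_lit 0) (cs (rf (nat_lit 0)) (cs (rf (nat_lit 1)) (nd (nat_lit 317) (nat_lit 0) (cs (lf (nat_lit 12) (nat_lit 314)) (nd (nat_lit 358) (nat_lit 0) (cs (lf (nat_lit 10) (nat_lit 336)) (rf (nat_lit 2))))))))) q53994 (by decide +kernel)
def q54025 : Q := Q.p (nat_lit 0x38000000000000000000000000000000000000000000000000000000000000000000000000000000000000) (nat_lit 0xfe0001c6000738000000000000000000000000000000000000000000000000000000000000000000000000000000) (nat_lit 9)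
theorem c54025 : QOK q54025 := cut [q25104, q25479, q31292, q31225] ⟨c25104, c25479, c31292, c31225, trivial⟩ (nd (nat_lit 342) (nat_lit 0) (cs (rf (nat_lit 0)) (cs (rf (nat_lit 1)) (cs (rf (nat_lit 2)) (nd (nat_lit 316) (nat_lit 0) (cs (lf (nat_lit 22) (nat_lit 316)) (nd (nat_lit 315) (nat_lit 0) (cs (lf (nat_lit 21) (nat_lit 315)) (nd (nat_lit 321) (nat_lit 0) (cs (lf (nat_lit 16) (nat_lit 317)) (nd (nat_lit 343) (nat_lit 0) (cs (lf (nat_lit 17) (nat_lit 318)) (nd (nat_lit 362) (nat_lit 0) (cs (lf (nat_lit 11) (nat_lit 339)) (rf (nat_lit 3)))))))))))))))) q54025 (by decide +kernel)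
def q54041 : Q := Q.p (nat_lit 0x38000000000000000000000000000000000000000000000000000000000000000000000000000000000000) (nat_lit 0x7f8000c4000700000000000000000000000000000000000000000000000000000000000000000000000000000000) (nat_lit 5)
theorem c54041 : QOK q54041 := cut [q22741, q25104, q52751] ⟨c22741, c25104, c52751, trivial⟩ (nd (nat_lit 342) (nat_lit 0) (cs (rf (nat_lit 0)) (cs (rf (nat_lit 1)) (rf (nat_lit 2))))) q54041 (by decide +kernel)
def q54059 : Q := Q.p (nat_lit 0x3c000040000000000c00000000000000000000000000000000000000000000000000000000000000000000) (nat_lit 0x198000000001b80000e0000380000e00000000000000000000000000000000000000000000000000000000000000) (nat_lit 9)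
theorem c54059 : QOK q54059 := cut [q53998, q54056] ⟨c53998, c54056, trivial⟩ (nd (nat_lit 360) (nat_lit 0) (cs (lf (nat_lit 11) (nat_lit 337)) (nd (nat_lit 316) (nat_lit 0) (cs (lf (nat_lit 23) (nat_lit 315)) (nd (nat_lit 294) (nat_lit 0) (cs (rf (nat_lit 0)) (cs (nd (nat_lit 319) (nat_lit 0) (cs (lf (nat_lit 17) (nat_lit 316)) (nd (nat_lit 363) (nat_lit 0) (cs (lf (nat_lit 5) (nat_lit 338)) (nd (nat_lit 273) (nat_lit 0) (cs (lf (nat_lit 34) (nat_lit 272)) (nd (nat_lit 272) (nat_lit 0) (cs (lf (nat_lit 35) (nat_lit 250)) (nd (nat_lit 250) (nat_lit 0) (cs (lf (nat_lit 23) (nat_lit 249)) (lf (nat_lit 28) (nat_lit 250)))))))))))) (rf (nat_lit 1))))))))) q54059 (by decide +kernel)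
def q54065 : Q := Q.p (nat_lit 0x3c000040000000000000000000000000000000000000000000000000000000000000000000000000000000) (nat_lit 0x380001c0000ea0000000000000000000000000000000000000000000000000000000000000000000000000000000) (nat_lit 6)
theorem c54065 : QOK q54065 := cut [q54063] ⟨c54063, trivial⟩ (nd (nat_lit 364) (nat_lit 0) (cs (lf (nat_lit 4) (nat_lit 338)) (nd (nat_lit 342) (nat_lit 0) (cs (lf (nat_lit 5) (nat_lit 339)) (rf (nat_lit 0)))))) q54065 (by decide +kernel)
def q54105 : Q := Q.p (nat_lit 0x18000060000000000c00000000000000000000000000000000000000000000000000000000000000000000) (nat_lit 0x700001c00007c000000001900000f0001300000c00000000000000000000000000000000000000000000000000000000000000) (nat_lit 9)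
theorem c54105 : QOK q54105 := cut [q53418, q47968, q54080, q54095] ⟨c53418, c47968, c54080, c54095, trivial⟩ (nd (nat_lit 295) (nat_lit 0) (cs (rf (nat_lit 0)) (cs (nd (nat_lit 361) (nat_lit 0) (cs (rf (nat_lit 1)) (cs (rf (nat_lit 2)) (nd (nat_lit 362) (nat_lit 0) (cs (lf (nat_lit 42) (nat_lit 295)) (nd (nat_lit 360) (nat_lit 0) (cs (lf (nat_lit 41) (nat_lit 294)) (nd (nat_lit 358) (nat_lit 0) (cs (nd (nat_lit 294) (nat_lit 0) (cs (lf (nat_lit 47) (nat_lit 272)) (rf (nat_lit 3)))) (lf (nat_lit 13) (nat_lit 336))))))))))) (nd (nat_lit 273) (nat_lit 0) (cs (lf (nat_lit 24) (nat_lit 251)) (nd (nat_lit 250) (nat_lit 0) (cs (lf (nat_lit 46) (nat_lit 250)) (nd (nat_lit 294) (nat_lit 0) (cs (lf (nat_lit 6) (nat_lit 272)) (rf (nat_lit 3))))))))))) q54105 (by decide +kernel)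
def q54129 : Q := Q.p (nat_lit 0x3800000000030000040000000000000000000000000000000000000000000000000000000000000000000000000000000) (nat_lit 0x800004400078000000000000000000000000000000000000000000000000000000000000000000000000000000000000000000) (nat_lit 4)
theorem c54129 : QOK q54129 := cut [q54128] ⟨c54128, trivial⟩ (nd (nat_lit 363) (nat_lit 0) (cs (lf (nat_lit 42) (nat_lit 318)) (rf (nat_lit 0)))) q54129 (by decide +kernel)
def q54179 : Q := Q.p (nat_lit 0x18000060000000000c00000000000000000000000000000000000000000000000000000000000000000000) (nat_lit 0x700001c000078000600000000000c0001300000c00000000000000000000000000000000000000000000000000000000000000) (nat_lit 7)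
theorem c54179 : QOK q54179 := cut [q53418, q47968, q54077, q54080, q54178] ⟨c53418, c47968, c54077, c54080, c54178, trivial⟩ (nd (nat_lit 295) (nat_lit 0) (cs (rf (nat_lit 0)) (cs (nd (nat_lit 361) (nat_lit 0) (cs (rf (nat_lit 1)) (cs (nd (nat_lit 362) (nat_lit 0) (cs (lf (nat_lit 42) (nat_lit 295)) (nd (nat_lit 272) (nat_lit 0) (cs (lf (nat_lit 46) (nat_lit 272)) (rf (nat_lit 2)))))) (rf (nat_lit 3))))) (rf (nat_lit 4))))) q54179 (by decide +kernel)
def q54229 : Q := Q.p (nat_lit 0x1c000000000000000c00002000000000000000000000000000000000000000000000000000000000000000) (nat_lit 0x20003e0000100000000000000000000000000000000000000000000000000000000000000000000000000) (nat_lit 4)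
theorem c54229 : QOK q54229 := cut [q53965] ⟨c53965, trivial⟩ (nd (nat_lit 318) (nat_lit 0) (cs (lf (nat_lit 32) (nat_lit 252)) (rf (nat_lit 0)))) q54229 (by decide +kernel)
def q54231 : Q := Q.p (nat_lit 0x2000008000000000100000c00000000000000000000000000000000000000000000000000000000000000000000) (nat_lit 0x200000e0003200000000000000000000000000000000000000000000000000000000000000000000) (nat_lit 4)
theorem c54231 : QOK q54231 := cut [q15957] ⟨c15957, trivial⟩ (nd (nat_lit 295) (nat_lit 0) (cs (rf (nat_lit 0)) (lf (nat_lit 32) (nat_lit 273)))) q54231 (by decide +kernel)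
def q54293 : Q := Q.p (nat_lit 0x200001c000000000000000c00002000000000000000000000000000000000000000000000000000000000000000) (nat_lit 0x400001c0000f8000fe0003dc000000001fc000170000100000000000000000000000000000000000000000000000000000000000000000000) (nat_lit 12)
theorem c54293 : QOK q54293 := cut [q54241, q54250, q54254, q43399, q54240, q42560, q54269, q54277] ⟨c54241, c54250, c54254, c43399, c54240, c42560, c54269, c54277, trivial⟩ (nd (nat_lit 318) (nat_lit 0) (cs (lf (nat_lit 32) (nat_lit 252)) (nd (nat_lit 383) (nat_lit 0) (cs (rf (nat_lit 0)) (cs (rf (nat_lit 1)) (cs (rf (nat_lit 2)) (nd (nat_lit 316) (nat_lit 0) (cs (rf (nat_lit 3)) (cs (rf (nat_lit 4)) (nd (nat_lit 384) (nat_lit 0) (cs (nd (nat_lit 317) (nat_lit 0) (cs (lf (nat_lit 29) (nat_lit 317)) (nd (nat_lit 382) (nat_lit 0) (cs (lf (nat_lit 41) (nat_lit 316)) (nd (nat_lit 319) (nat_lit 0) (cs (lf (nat_lit 6) (nat_lit 316)) (nd (nat_lit 315) (nat_lit 0) (cs (lf (nat_lit 0) (nat_lit 314)) (nd (nat_lit 293) (nat_lit 0) (cs (lf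 (nat_lit 23) (nat_lit 292)) (lf (nat_lit 43) (nat_lit 293)))))))))))) (cs (nd (nat_lit 406) (nat_lit 0) (cs (nd (nat_lit 428) (nat_lit 0) (cs (lf (nat_lit 45) (nat_lit 339)) (lf (nat_lit 42) (nat_lit 361)))) (lf (nat_lit 24) (nat_lit 317)))) (cs (nd (nat_lit 385) (nat_lit 0) (cs (nd (nat_lit 362) (nat_lit 0) (cs (lf (nat_lit 29) (nat_lit 318)) (rf (nat_lit 5)))) (cs (nd (nat_lit 362) (nat_lit 0) (cs (lf (nat_lit 29) (nat_lit 318)) (nd (nat_lit 363) (nat_lit 0) (cs (lf (nat_lit 18) (nat_lit 338)) (nd (nat_lit 386) (nat_lit 0) (cs (lf (nat_lit 18) (nat_lit 361)) (rf (nat_lit 6)))))))) (cs (nd (nat_lit 362) (nat_lit 0) (cs (lf (nat_lit 29) (nat_lit 318)) (nd (nat_lit 359) (nat_lit 0) (cs (lf (nat_lit 1) (nat_lit 359)) (nd (nat_lit 363) (nat_lit 0) (cs (lf (nat_lit 18) (nat_lit 338)) (rf (nat_lit 6)))))))) (rf (nat_lit 7)))))) (nd (nat_lit 385) (nat_lit 0) (cs (rf (nat_lit 7)) (cs (nd (nat_lit 362) (nat_lit 0) (cs (lf (nat_lit 29) (nat_lit 318)) (nd (nat_lit 360) (nat_lit 0) (cs (lf (nat_lit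 0) (nat_lit 359)) (nd (nat_lit 406) (nat_lit 0) (cs (lf (nat_lit 42) (nat_lit 339)) (nd (nat_lit 363) (nat_lit 0) (cs (lf (nat_lit 18) (nat_lit 338)) (nd (nat_lit 382) (nat_lit 0) (cs (lf (nat_lit 12) (nat_lit 359)) (nd (nat_lit 404) (nat_lit 0) (cs (lf (nat_lit 11) (nat_lit 381)) (lf (nat_lit 30) (nat_lit 338)))))))))))))) (nd (nat_lit 362) (nat_lit 0) (cs (lf (nat_lit 29) (nat_lit 318)) (nd (nat_lit 364) (nat_lit 0) (cs (nd (nat_lit 386) (nat_lit 0) (cs (lf (nat_lit 18) (nat_lit 361)) (lf (nat_lit 17) (nat_lit 361)))) (lf (nat_lit 19) (nat_lit 338)))))))))))))))))))))) q54293 (by decide +kernel)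
def q54363 : Q := Q.p (nat_lit 0x1c000000000000000000000000000000000000000000000000000000000000000000000000000000000000) (nat_lit 0xf40001f0000fe0000300003e0000700001c0000700001400000000000000000000000000000000000000000000000000000000) (nat_lit 14)
theorem c54363 : QOK q54363 := cut [q25509, q25514, q54027, q54357] ⟨c25509, c25514, c54027, c54357, trivial⟩ (nd (nat_lit 337) (nat_lit 0) (cs (rf (nat_lit 0)) (cs (rf (nat_lit 1)) (cs (rf (nat_lit 2)) (nd (nat_lit 315) (nat_lit 0) (cs (lf (nat_lit 23) (nat_lit 314)) (nd (nat_lit 293) (nat_lit 0) (cs (nd (nat_lit 271) (nat_lit 0) (cs (nd (nat_lit 250) (nat_lit 0) (cs (nd (nat_lit 249) (nat_lit 0) (cs (lf (nat_lit 28) (nat_lit 249)) (lf (nat_lit 35) (nat_lit 227)))) (lf (nat_lit 34) (nat_lit 249)))) (lf (nat_lit 29) (nat_lit 271)))) (cs (nd (nat_lit 359) (nat_lit 0) (cs (lf (nat_lit 11) (nat_lit 336)) (nd (nat_lit 362) (nat_lit 0) (cs (lf (nat_lit 5) (nat_lit 337)) (nd (nat_lit 270) (nat_lit 0) (cs (lf (nat_lit 46) (nat_lit 270)) (nd (nat_lit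 272) (nat_lit 0) (cs (nd (nat_lit 271) (nat_lit 0) (cs (lf (nat_lit 47) (nat_lit 248)) (lf (nat_lit 35) (nat_lit 249)))) (lf (nat_lit 34) (nat_lit 271)))))))))) (cs (nd (nat_lit 359) (nat_lit 0) (cs (lf (nat_lit 11) (nat_lit 336)) (nd (nat_lit 362) (nat_lit 0) (cs (lf (nat_lit 5) (nat_lit 337)) (nd (nat_lit 272) (nat_lit 0) (cs (lf (nat_lit 34) (nat_lit 271)) (nd (nat_lit 270) (nat_lit 0) (cs (lf (nat_lit 46) (nat_lit 270)) (nd (nat_lit 382) (nat_lit 0) (cs (lf (nat_lit 28) (nat_lit 293)) (nd (nat_lit 381) (nat_lit 0) (cs (lf (nat_lit 29) (nat_lit 315)) (nd (nat_lit 380) (nat_lit 0) (cs (lf (nat_lit 41) (nat_lit 314)) (nd (nat_lit 383) (nat_lit 0) (cs (nd (nat_lit 406) (nat_lit 0) (cs (nd (nat_lit 384) (nat_lit 0) (cs (lf (nat_lit 47) (nat_lit 317)) (lf (nat_lit 5) (nat_lit 381)))) (lf (nat_lit 4) (nat_lit 380)))) (lf (nat_lit 16) (nat_lit 358)))))))))))))))))) (nd (nat_lit 358) (nat_lit 0) (cs (lf (nat_lit 10) (nat_lit 336)) (nd (nat_lit 362) (nat_lit 0) (cs (lf (nat_lit 5) (nat_lit 337))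 (nd (nat_lit 271) (nat_lit 0) (cs (lf (nat_lit 29) (nat_lit 271)) (rf (nat_lit 3)))))))))))))))))) q54363 (by decide +kernel)
def q54392 : Q := Q.p (nat_lit 0x3c000040000000000c00000000000000000000000000000000000000000000000000000000000000000000) (nat_lit 0x1c0000780001f8000000001980000e0000380000a00000000000000000000000000000000000000000000000000000000000000) (nat_lit 12)
theorem c54392 : QOK q54392 := cut [q53967, q54000] ⟨c53967, c54000, trivial⟩ (nd (nat_lit 316) (nat_lit 0) (cs (lf (nat_lit 23) (nat_lit 315)) (nd (nat_lit 294) (nat_lit 0) (cs (rf (nat_lit 0)) (cs (rf (nat_lit 1)) (cs (nd (nat_lit 363) (nat_lit 0) (cs (lf (nat_lit 5) (nat_lit 338)) (nd (nat_lit 385) (nat_lit 0) (cs (lf (nat_lit 42) (nat_lit 318)) (nd (nat_lit 360) (nat_lit 0) (cs (lf (nat_lit 11) (nat_lit 337)) (nd (nat_lit 319) (nat_lit 0) (cs (lf (nat_lit 17) (nat_lit 316)) (nd (nat_lit 384) (nat_lit 0) (cs (lf (nat_lit 41) (nat_lit 318)) (nd (nat_lit 273) (nat_lit 0) (cs (lf (nat_lit 34) (nat_lit 272)) (nd (nat_lit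 271) (nat_lit 0) (cs (lf (nat_lit 46) (nat_lit 271)) (nd (nat_lit 386) (nat_lit 0) (cs (lf (nat_lit 29) (nat_lit 319)) (nd (nat_lit 361) (nat_lit 0) (cs (lf (nat_lit 29) (nat_lit 294)) (lf (nat_lit 2) (nat_lit 360)))))))))))))))))))) (nd (nat_lit 360) (nat_lit 0) (cs (lf (nat_lit 11) (nat_lit 337)) (nd (nat_lit 361) (nat_lit 0) (cs (lf (nat_lit 29) (nat_lit 294)) (lf (nat_lit 24) (nat_lit 272)))))))))))) q54392 (by decide +kernel)
def q54414 : Q := Q.p (nat_lit 0x10000000000080000c00002000000000000000000000000000000000000000000000000000000000000000) (nat_lit 0x40000160003200000000000000000000000000000000000000000000000000000000000000000000) (nat_lit 4)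
theorem c54414 : QOK q54414 := cut [q54413] ⟨c54413, trivial⟩ (nd (nat_lit 296) (nat_lit 0) (cs (lf (nat_lit 31) (nat_lit 252)) (rf (nat_lit 0)))) q54414 (by decide +kernel)
def q54421 : Q := Q.p (nat_lit 0x38000020000000000c00002000000000000000000000000000000000000000000000000000000000000000) (nat_lit 0x4400005c000100000000000000000000000000000000000000000000000000000000000000000000000000) (nat_lit 4)
theorem c54421 : QOK q54421 := cut [q54420] ⟨c54420, trivial⟩ (nd (nat_lit 296) (nat_lit 0) (cs (lf (nat_lit 31) (nat_lit 252)) (rf (nat_lit 0)))) q54421 (by decide +kernel)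
def q54555 : Q := Q.p (nat_lit 0x1c000000000000000800002000000000000000000000000000000000000000000000000000000000000000) (nat_lit 0x7fe000e300038e000400001000000000000000000000000000000000000000000000000000000000000000000000) (nat_lit 10)
theorem c54555 : QOK q54555 := cut [q25509, q25514, q13298] ⟨c25509, c25514, c13298, trivial⟩ (nd (nat_lit 337) (nat_lit 0) (cs (rf (nat_lit 0)) (cs (rf (nat_lit 1)) (nd (nat_lit 362) (nat_lit 0) (cs (lf (nat_lit 5) (nat_lit 337)) (nd (nat_lit 359) (nat_lit 0) (cs (lf (nat_lit 11) (nat_lit 336)) (nd (nat_lit 341) (nat_lit 0) (cs (lf (nat_lit 10) (nat_lit 337)) (nd (nat_lit 320) (nat_lit 0) (cs (lf (nat_lit 16) (nat_lit 316)) (nd (nat_lit 342) (nat_lit 0) (cs (lf (nat_lit 17) (nat_lit 317)) (nd (nat_lit 276) (nat_lit 0) (cs (lf (nat_lit 44) (nat_lit 253)) (nd (nat_lit 343) (nat_lit 0) (cs (rf (nat_lit 2)) (lf (nat_lit 11) (nat_lit 339))))))))))))))))))) q54555 (by decide +kernel)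
def q54575 : Q := Q.p (nat_lit 0x1c000000000000000000000000000000000000000000000000000000000000000000000000000000000000) (nat_lit 0x3fc00062000380000000000000000000000000000000000000000000000000000000000000000000000000000000) (nat_lit 5)
theorem c54575 : QOK q54575 := cut [q31285, q54033, q54395] ⟨c31285, c54033, c54395, trivial⟩ (nd (nat_lit 341) (nat_lit 0) (cs (rf (nat_lit 0)) (cs (rf (nat_lit 1)) (rf (nat_lit 2))))) q54575 (by decide +kernel)
def q54603 : Q := Q.p (nat_lit 0x1c000040000000000000000000000000000000000000000000000000000000000000000000000000000000) (nat_lit 0x100000c0000030000a0000080000200000000000000000000000000000000000000000000000000000000000000000000) (nat_lit 5)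
theorem c54603 : QOK q54603 := cut [q53991] ⟨c53991, trivial⟩ (nd (nat_lit 337) (nat_lit 0) (cs (lf (nat_lit 17) (nat_lit 315)) (nd (nat_lit 317) (nat_lit 0) (cs (lf (nat_lit 12) (nat_lit 314)) (rf (nat_lit 0)))))) q54603 (by decide +kernel)
def q54676 : Q := Q.p (nat_lit 0x18000060000000000c00002000000000000000000000000000000000000000000000000000000000000000) (nat_lit 0x310007ec000e700071c0004f00013c0000f00001400000000000000000000000000000000000000000000000000000000) (nat_lit 11)
theorem c54676 : QOK q54676 := cut [q53418, q54178, q25352, q48099, q48137, q54647, q54356, q54655] ⟨c53418, c54178, c25352, c48099, c48137, c54647, c54356, c54655, trivial⟩ (nd (nat_lit 295) (nat_lit 0) (cs (rf (nat_lit 0)) (cs (rf (nat_lit 1)) (nd (nat_lit 341) (nat_lit 0) (cs (rf (nat_lit 2)) (cs (nd (nat_lit 315) (nat_lit 0) (cs (lf (nat_lit 1) (nat_lit 315)) (nd (nat_lit 337) (nat_lit 0) (cs (rf (nat_lit 3)) (cs (nd (nat_lit 362) (nat_lit 0) (cs (lf (nat_lit 42) (nat_lit 295)) (nd (nat_lit 338) (nat_lit 0)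 (cs (lf (nat_lit 23) (nat_lit 314)) (lf (nat_lit 5) (nat_lit 337)))))) (cs (nd (nat_lit 293) (nat_lit 0) (cs (nd (nat_lit 362) (nat_lit 0) (cs (lf (nat_lit 42) (nat_lit 295)) (nd (nat_lit 292) (nat_lit 0) (cs (rf (nat_lit 4)) (lf (nat_lit 2) (nat_lit 292)))))) (cs (nd (nat_lit 271) (nat_lit 0) (cs (rf (nat_lit 5)) (nd (nat_lit 272) (nat_lit 0) (cs (lf (nat_lit 35) (nat_lit 249)) (nd (nat_lit 294) (nat_lit 0) (cs (lf (nat_lit 42) (nat_lit 272)) (lf (nat_lit 30) (nat_lit 271)))))))) (cs (nd (nat_lit 271) (nat_lit 0) (cs (nd (nat_lit 336) (nat_lit 0) (cs (nd (nat_lit 249) (nat_lit 0) (cs (nd (nat_lit 250) (nat_lit 0) (cs (lf (nat_lit 35) (nat_lit 227)) (lf (nat_lit 34) (nat_lit 249)))) (lf (nat_lit 40) (nat_lit 248)))) (lf (nat_lit 41) (nat_lit 270)))) (cs (nd (nat_lit 362) (nat_lit 0) (cs (lf (nat_lit 42) (nat_lit 295)) (nd (nat_lit 250) (nat_lit 0) (cs (lf (nat_lit 34) (nat_lit 249)) (nd (nat_lit 249) (nat_lit 0) (cs (lf (nat_lit 35) (nat_lit 227)) (rf (nat_lit 6)))))))) (nd (nat_lit 358)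 (nat_lit 0) (cs (nd (nat_lit 362) (nat_lit 0) (cs (lf (nat_lit 42) (nat_lit 295)) (rf (nat_lit 7)))) (lf (nat_lit 40) (nat_lit 270))))))) (nd (nat_lit 362) (nat_lit 0) (cs (lf (nat_lit 42) (nat_lit 295)) (nd (nat_lit 294) (nat_lit 0) (cs (lf (nat_lit 0) (nat_lit 292)) (nd (nat_lit 272) (nat_lit 0) (cs (lf (nat_lit 42) (nat_lit 272)) (nd (nat_lit 250) (nat_lit 0) (cs (lf (nat_lit 36) (nat_lit 227)) (lf (nat_lit 33) (nat_lit 249)))))))))))))) (nd (nat_lit 362) (nat_lit 0) (cs (lf (nat_lit 42) (nat_lit 295)) (nd (nat_lit 338) (nat_lit 0) (cs (lf (nat_lit 5) (nat_lit 337)) (lf (nat_lit 12) (nat_lit 314)))))))))))) (nd (nat_lit 362) (nat_lit 0) (cs (lf (nat_lit 42) (nat_lit 295)) (nd (nat_lit 342) (nat_lit 0) (cs (lf (nat_lit 18) (nat_lit 317)) (nd (nat_lit 320) (nat_lit 0) (cs (lf (nat_lit 17) (nat_lit 317)) (nd (nat_lit 298) (nat_lit 0) (cs (lf (nat_lit 45) (nat_lit 253)) (nd (nat_lit 364) (nat_lit 0) (cs (lf (nat_lit 5) (nat_lit 339)) (nd (nat_lit 363) (nat_lit 0) (cs (lf (nat_lit 0) (nat_lit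 338)) (lf (nat_lit 41) (nat_lit 297)))))))))))))))))))) q54676 (by decide +kernel)
def q54733 : Q := Q.p (nat_lit 0x18000000000000000c00002000000000000000000000000000000000000000000000000000000000000000) (nat_lit 0x63e001e7000ffe000160000380000c00002000000000000000000000000000000000000000000000000000000000) (nat_lit 11)
theorem c54733 : QOK q54733 := cut [q25522, q53965, q22746, q54033, q54044, q53967, q53981, q54056, q13306] ⟨c25522, c53965, c22746, c54033, c54044, c53967, c53981, c54056, c13306, trivial⟩ (nd (nat_lit 318) (nat_lit 0) (cs (lf (nat_lit 32) (nat_lit 252)) (nd (nat_lit 338) (nat_lit 0) (cs (rf (nat_lit 0)) (cs (rf (nat_lit 1)) (cs (nd (nat_lit 337) (nat_lit 0) (cs (nd (nat_lit 358) (nat_lit 0) (cs (lf (nat_lit 10) (nat_lit 336)) (nd (nat_lit 336) (nat_lit 0) (cs (lf (nat_lit 11) (nat_lit 335)) (lf (nat_lit 16) (nat_lit 314)))))) (cs (nd (nat_lit 359) (nat_lit 0) (cs (lf (nat_lit 11) (nat_lit 336)) (nd (nat_lit 341) (nat_lit 0) (cs (rf (nat_lit 2)) (lf (nat_lit 10) (nat_lit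 337)))))) (nd (nat_lit 314) (nat_lit 0) (cs (lf (nat_lit 22) (nat_lit 314)) (nd (nat_lit 336) (nat_lit 0) (cs (lf (nat_lit 23) (nat_lit 313)) (lf (nat_lit 16) (nat_lit 314))))))))) (nd (nat_lit 341) (nat_lit 0) (cs (rf (nat_lit 3)) (cs (rf (nat_lit 4)) (cs (nd (nat_lit 316) (nat_lit 0) (cs (lf (nat_lit 23) (nat_lit 315)) (nd (nat_lit 294) (nat_lit 0) (cs (rf (nat_lit 5)) (cs (rf (nat_lit 6)) (nd (nat_lit 360) (nat_lit 0) (cs (lf (nat_lit 11) (nat_lit 337)) (rf (nat_lit 7))))))))) (cs (nd (nat_lit 315) (nat_lit 0) (cs (lf (nat_lit 22) (nat_lit 315)) (nd (nat_lit 360) (nat_lit 0) (cs (lf (nat_lit 11) (nat_lit 337)) (nd (nat_lit 342) (nat_lit 0) (cs (lf (nat_lit 10) (nat_lit 338)) (nd (nat_lit 343) (nat_lit 0) (cs (lf (nat_lit 23) (nat_lit 317)) (nd (nat_lit 365) (nat_lit 0) (cs (lf (nat_lit 5) (nat_lit 340)) (rf (nat_lit 8)))))))))))) (nd (nat_lit 315) (nat_lit 0) (cs (lf (nat_lit 22) (nat_lit 315)) (nd (nat_lit 360) (nat_lit 0) (cs (lf (nat_lit 11) (nat_lit 337)) (nd (nat_lit 342) (nat_lit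 0) (cs (lf (nat_lit 10) (nat_lit 338)) (nd (nat_lit 321) (nat_lit 0) (cs (lf (nat_lit 16) (nat_lit 317)) (nd (nat_lit 343) (nat_lit 0) (cs (lf (nat_lit 17) (nat_lit 318)) (lf (nat_lit 23) (nat_lit 317))))))))))))))))))))))) q54733 (by decide +kernel)
def q54768 : Q := Q.p (nat_lit 0x100001c0000000000000000000000000000000000000000000000000000000000000000000000000000000) (nat_lit 0x1e7000638003ce0000000000000000000000000000000000000000000000000000000000000000000000000) (nat_lit 8)
theorem c54768 : QOK q54768 := cut [q41746, q52654, q52659, q41754] ⟨c41746, c52654, c52659, c41754, trivial⟩ (nd (nat_lit 343) (nat_lit 0) (cs (nd (nat_lit 317) (nat_lit 0) (cs (lf (nat_lit 4) (nat_lit 317)) (nd (nat_lit 298) (nat_lit 0) (cs (lf (nat_lit 17) (nat_lit 295)) (nd (nat_lit 294) (nat_lit 0) (cs (lf (nat_lit 22) (nat_lit 294)) (nd (nat_lit 316) (nat_lit 0) (cs (lf (nat_lit 23) (nat_lit 293)) (nd (nat_lit 315) (nat_lit 0) (cs (lf (nat_lit 5) (nat_lit 315)) (rf (nat_lit 0)))))))))))) (cs (nd (nat_lit 321)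 (nat_lit 0) (cs (lf (nat_lit 5) (nat_lit 318)) (rf (nat_lit 1)))) (cs (nd (nat_lit 321) (nat_lit 0) (cs (lf (nat_lit 5) (nat_lit 318)) (rf (nat_lit 2)))) (nd (nat_lit 317) (nat_lit 0) (cs (lf (nat_lit 4) (nat_lit 317)) (nd (nat_lit 294) (nat_lit 0) (cs (lf (nat_lit 22) (nat_lit 294)) (nd (nat_lit 293) (nat_lit 0) (cs (lf (nat_lit 21) (nat_lit 293)) (rf (nat_lit 3)))))))))))) q54768 (by decide +kernel)
def q54785 : Q := Q.p (nat_lit 0x100001c0000000000c00002000000000000000000000000000000000000000000000000000000000000000) (nat_lit 0x3e0000620001c00001200000000000000000000000000000000000000000000000000000000000000000000) (nat_lit 5)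
theorem c54785 : QOK q54785 := cut [q13220, q52646] ⟨c13220, c52646, trivial⟩ (nd (nat_lit 321) (nat_lit 0) (cs (rf (nat_lit 0)) (rf (nat_lit 1)))) q54785 (by decide +kernel)
def q54900 : Q := Q.p (nat_lit 0x800001c00002000000000000000000000000000000000000000000000000000000000000000) (nat_lit 0x1000006000039000000000000000000000000000000000000000000000000000000000000000) (nat_lit 4)
theorem c54900 : QOK q54900 := cut [q54899] ⟨c54899, trivial⟩ (nd (nat_lit 277) (nat_lit 0) (cs (lf (nat_lit 5) (nat_lit 274)) (rf (nat_lit 0)))) q54900 (by decide +kernel)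
def q54927 : Q := Q.p (nat_lit 0x8000020000080000200000000000000000000000000000000000000000000000000000000000000) (nat_lit 0x1000004000010000000000000001c00007000014000000000000000000000000000000000000000000000) (nat_lit 6)
theorem c54927 : QOK q54927 := cut [q54925] ⟨c54925, trivial⟩ (nd (nat_lit 314) (nat_lit 0) (cs (lf (nat_lit 41) (nat_lit 248)) (nd (nat_lit 227) (nat_lit 0) (cs (lf (nat_lit 40) (nat_lit 226)) (rf (nat_lit 0)))))) q54927 (by decide +kernel)
def q54930 : Q := Q.p (nat_lit 0xc000020000080000200000000000000000000000000000000000000000000000000000000000000) (nat_lit 0x400003000001c000000000000000800000000000000000000000000000000000000000000000000000000) (nat_lit 4)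
theorem c54930 : QOK q54930 := cut [q54929] ⟨c54929, trivial⟩ (nd (nat_lit 292) (nat_lit 0) (cs (lf (nat_lit 36) (nat_lit 226)) (rf (nat_lit 0)))) q54930 (by decide +kernel)
def q54963 : Q := Q.p (nat_lit 0x80000200000800002000000000000000000000000000000000000000000000000000) (nat_lit 0x1000004000010000000000100000c000010000000000000000000000000000000000000000) (nat_lit 4)
theorem c54963 : QOK q54963 := cut [q54962] ⟨c54962, trivial⟩ (nd (nat_lit 270) (nat_lit 0) (cs (lf (nat_lit 41) (nat_lit 204)) (rf (nat_lit 0)))) q54963 (by decide +kernel)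
def q55010 : Q := Q.p (nat_lit 0x8000020000e80002000000000010000000000000000000000000000000000000000000000000000) (nat_lit 0x500003e0000f7000198000040001300007c00005000040000000000000000000000000000000000000000000000) (nat_lit 12)
theorem c55010 : QOK q55010 := cut [q54981, q54991, q54947, q55000, q55001, q55009] ⟨c54981, c54991, c54947, c55000, c55001, c55009, trivial⟩ (nd (nat_lit 248) (nat_lit 0) (cs (rf (nat_lit 0)) (cs (nd (nat_lit 337) (nat_lit 0) (cs (lf (nat_lit 46) (nat_lit 248)) (nd (nat_lit 338) (nat_lit 0) (cs (lf (nat_lit 29) (nat_lit 271)) (nd (nat_lit 340) (nat_lit 0) (cs (nd (nat_lit 318) (nat_lit 0) (cs (lf (nat_lit 32) (nat_lit 252)) (nd (nat_lit 339) (nat_lit 0) (cs (lf (nat_lit 23) (nat_lit 314)) (lf (nat_lit 17) (nat_lit 315)))))) (cs (nd (nat_lit 318) (nat_lit 0) (cs (lf (nat_lit 32) (nat_lit 252)) (nd (nat_lit 316) (nat_lit 0) (cs (lf (nat_lit 24) (nat_lit 249)) (nd (nat_lit 317) (nat_lit 0) (cs (lf (nat_lit 23) (nat_lit 292)) (lf (nat_lit 5) (nat_lit 315))))))))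 (nd (nat_lit 249) (nat_lit 0) (cs (lf (nat_lit 28) (nat_lit 249)) (nd (nat_lit 314) (nat_lit 0) (cs (lf (nat_lit 19) (nat_lit 314)) (nd (nat_lit 312) (nat_lit 0) (cs (lf (nat_lit 1) (nat_lit 312)) (rf (nat_lit 1))))))))))))))) (cs (nd (nat_lit 249) (nat_lit 0) (cs (lf (nat_lit 47) (nat_lit 226)) (nd (nat_lit 316) (nat_lit 0) (cs (lf (nat_lit 29) (nat_lit 249)) (nd (nat_lit 317) (nat_lit 0) (cs (rf (nat_lit 2)) (cs (nd (nat_lit 314) (nat_lit 0) (cs (nd (nat_lit 339) (nat_lit 0) (cs (lf (nat_lit 5) (nat_lit 314)) (nd (nat_lit 295) (nat_lit 0) (cs (lf (nat_lit 35) (nat_lit 251)) (lf (nat_lit 17) (nat_lit 292)))))) (nd (nat_lit 292) (nat_lit 0) (cs (lf (nat_lit 23) (nat_lit 291)) (lf (nat_lit 36) (nat_lit 226)))))) (cs (nd (nat_lit 340) (nat_lit 0) (cs (rf (nat_lit 3)) (nd (nat_lit 339) (nat_lit 0) (cs (lf (nat_lit 0) (nat_lit 314)) (rf (nat_lit 4)))))) (nd (nat_lit 292) (nat_lit 0) (cs (lf (nat_lit 18) (nat_lit 292)) (nd (nat_lit 314) (nat_lit 0) (cs (lf (nat_lit 23) (nat_lit 291)) (lf (nat_lit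 36) (nat_lit 226)))))))))))))) (rf (nat_lit 5)))))) q55010 (by decide +kernel)
def q55063 : Q := Q.p (nat_lit 0x8000020000680000000000000000000000000000000000000000000000000000000000000000000) (nat_lit 0x500007f8001fc00077800190000040001100000000000000000000000000000000000000000000000000000000000000) (nat_lit 12)
theorem c55063 : QOK q55063 := cut [q54942, q55014, q55062] ⟨c54942, c55014, c55062, trivial⟩ (nd (nat_lit 337) (nat_lit 0) (cs (rf (nat_lit 0)) (cs (rf (nat_lit 1)) (cs (nd (nat_lit 336) (nat_lit 0) (cs (lf (nat_lit 41) (nat_lit 270)) (nd (nat_lit 335) (nat_lit 0) (cs (nd (nat_lit 248) (nat_lit 0) (cs (lf (nat_lit 46) (nat_lit 248)) (nd (nat_lit 316) (nat_lit 0) (cs (lf (nat_lit 12) (nat_lit 312)) (nd (nat_lit 317) (nat_lit 0) (cs (lf (nat_lit 6) (nat_lit 314)) (lf (nat_lit 9) (nat_lit 313)))))))) (cs (nd (nat_lit 338) (nat_lit 0) (cs (lf (nat_lit 29) (nat_lit 271)) (nd (nat_lit 312) (nat_lit 0) (cs (nd (nat_lit 356) (nat_lit 0) (cs (lf (nat_lit 10) (nat_lit 334)) (nd (nat_lit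 317) (nat_lit 0) (cs (lf (nat_lit 16) (nat_lit 313)) (nd (nat_lit 339) (nat_lit 0) (cs (lf (nat_lit 17) (nat_lit 314)) (nd (nat_lit 314) (nat_lit 0) (cs (lf (nat_lit 18) (nat_lit 314)) (nd (nat_lit 361) (nat_lit 0) (cs (lf (nat_lit 5) (nat_lit 336)) (nd (nat_lit 295) (nat_lit 0) (cs (lf (nat_lit 35) (nat_lit 251)) (lf (nat_lit 34) (nat_lit 273)))))))))))))) (lf (nat_lit 22) (nat_lit 312)))))) (nd (nat_lit 248) (nat_lit 0) (cs (lf (nat_lit 46) (nat_lit 248)) (nd (nat_lit 338) (nat_lit 0) (cs (lf (nat_lit 29) (nat_lit 271)) (nd (nat_lit 356) (nat_lit 0) (cs (lf (nat_lit 10) (nat_lit 334)) (nd (nat_lit 334) (nat_lit 0) (cs (lf (nat_lit 11) (nat_lit 333)) (nd (nat_lit 312) (nat_lit 0) (cs (lf (nat_lit 22) (nat_lit 312)) (lf (nat_lit 23) (nat_lit 311))))))))))))))))) (rf (nat_lit 2)))))) q55063 (by decide +kernel)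
def q55209 : Q := Q.p (nat_lit 0x80000200000800002800003000000000010000000000000000000000000000000000000000000000000000) (nat_lit 0x14000070000140000000000000000000000000004000000000040000000000000000000000000000000000000000000000) (nat_lit 5)
theorem c55209 : QOK q55209 := cut [q13705] ⟨c13705, trivial⟩ (nd (nat_lit 364) (nat_lit 0) (cs (lf (nat_lit 40) (nat_lit 276)) (nd (nat_lit 186) (nat_lit 0) (cs (lf (nat_lit 26) (nat_lit 186)) (rf (nat_lit 0)))))) q55209 (by decide +kernel)
def q55232 : Q := Q.p (nat_lit 0x200000800002c00003800000000010000000000000000000000000000000000000000000000000000) (nat_lit 0x100000c0000f90000dc00011000040000180000760001e00005e0000000000000000000000000000000000000000000000) (nat_lit 10)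
theorem c55232 : QOK q55232 := cut [q13842, q55203, q55196, q55219, q31923] ⟨c13842, c55203, c55196, c55219, c31923, trivial⟩ (nd (nat_lit 256) (nat_lit 0) (cs (rf (nat_lit 0)) (cs (rf (nat_lit 1)) (cs (nd (nat_lit 186) (nat_lit 0) (cs (lf (nat_lit 26) (nat_lit 186)) (nd (nat_lit 255) (nat_lit 0) (cs (lf (nat_lit 35) (nat_lit 233)) (nd (nat_lit 322) (nat_lit 0) (cs (lf (nat_lit 29) (nat_lit 255)) (nd (nat_lit 233) (nat_lit 0) (cs (lf (nat_lit 28) (nat_lit 233)) (rf (nat_lit 2)))))))))) (nd (nat_lit 344) (nat_lit 0) (cs (nd (nat_lit 343) (nat_lit 0) (cs (lf (nat_lit 34) (nat_lit 255)) (lf (nat_lit 29) (nat_lit 277)))) (cs (nd (nat_lit 345) (nat_lit 0) (cs (nd (nat_lit 278) (nat_lit 0) (cs (lf (nat_lit 30) (nat_lit 255)) (nd (nat_lit 322) (nat_lit 0) (cs (lf (nat_lit 24) (nat_lit 255)) (nd (nat_lit 300) (nat_lit 0) (cs (lf (nat_lit 29) (nat_lit 278)) (lf (nat_lit 28) (nat_lit 256)))))))) (cs (nd (nat_lit 186) (nat_lit 0) (cs (lf (nat_lit 26) (nat_lit 186)) (nd (nat_lit 343) (nat_lit 0) (cs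 (lf (nat_lit 34) (nat_lit 255)) (nd (nat_lit 320) (nat_lit 0) (cs (lf (nat_lit 18) (nat_lit 320)) (rf (nat_lit 3)))))))) (nd (nat_lit 186) (nat_lit 0) (cs (lf (nat_lit 26) (nat_lit 186)) (nd (nat_lit 322) (nat_lit 0) (cs (lf (nat_lit 24) (nat_lit 255)) (nd (nat_lit 320) (nat_lit 0) (cs (lf (nat_lit 0) (nat_lit 319)) (nd (nat_lit 346) (nat_lit 0) (cs (lf (nat_lit 18) (nat_lit 321)) (lf (nat_lit 3) (nat_lit 320))))))))))))) (nd (nat_lit 186) (nat_lit 0) (cs (lf (nat_lit 26) (nat_lit 186)) (nd (nat_lit 322) (nat_lit 0) (cs (lf (nat_lit 24) (nat_lit 255)) (rf (nat_lit 4))))))))))))) q55232 (by decide +kernel)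
def q55238 : Q := Q.p (nat_lit 0x80000200000800002c00003800000000000000000000000000000000000000000000000000000000000000) (nat_lit 0x400001500005c0000100000000008000002000000000000000000000000000000000000000000000000000000000) (nat_lit 6)
theorem c55238 : QOK q55238 := cut [q55219] ⟨c55219, trivial⟩ (nd (nat_lit 344) (nat_lit 0) (cs (lf (nat_lit 29) (nat_lit 277)) (nd (nat_lit 255) (nat_lit 0) (cs (lf (nat_lit 28) (nat_lit 255)) (nd (nat_lit 320) (nat_lit 0) (cs (lf (nat_lit 41) (nat_lit 254)) (rf (nat_lit 0)))))))) q55238 (by decide +kernel)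
def q55243 : Q := Q.p (nat_lit 0x80000200000800002800003000000000010000000000000000000000000000000000000000000000000000) (nat_lit 0x10000060000100000000001000004000010000004000000000040000000000000000000000000000000000000000000000) (nat_lit 5)
theorem c55243 : QOK q55243 := cut [q13903] ⟨c13903, trivial⟩ (nd (nat_lit 366) (nat_lit 0) (cs (lf (nat_lit 28) (nat_lit 277)) (nd (nat_lit 186) (nat_lit 0) (cs (lf (nat_lit 26) (nat_lit 186)) (rf (nat_lit 0)))))) q55243 (by decide +kernel)
def q55254 : Q := Q.p (nat_lit 0x400001800002000000000000000000000000000000000000000000000000000000000000000000000) (nat_lit 0xe0000380001a0000e00003c0000f00000c0000100000000000000000000000000000000000000000000000000000) (nat_lit 10)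
theorem c55254 : QOK q55254 := cut [q13999, q14011, q53229] ⟨c13999, c14011, c53229, trivial⟩ (nd (nat_lit 344) (nat_lit 0) (cs (lf (nat_lit 42) (nat_lit 277)) (nd (nat_lit 278) (nat_lit 0) (cs (rf (nat_lit 0)) (cs (rf (nat_lit 1)) (rf (nat_lit 2))))))) q55254 (by decide +kernel)
def q55283 : Q := Q.p (nat_lit 0x1c00002000000000000000000000000000000000000000000000000000000000000000) (nat_lit 0x1dc0006200039000000000000000000000000000000000000000000000000000000000000000) (nat_lit 5)
theorem c55283 : QOK q55283 := cut [q2187, q54899] ⟨c2187, c54899, trivial⟩ (nd (nat_lit 277) (nat_lit 0) (cs (rf (nat_lit 0)) (rf (nat_lit 1)))) q55283 (by decide +kernel)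
def q55286 : Q := Q.p (nat_lit 0x1c00002000000000000000000000000000000000000000000000000000000000000000) (nat_lit 0x40000100001fc0006200038000020000000000000000000000000000000000000000000000000000000000) (nat_lit 6)
theorem c55286 : QOK q55286 := cut [q2187, q54814, q54809] ⟨c2187, c54814, c54809, trivial⟩ (nd (nat_lit 277) (nat_lit 0) (cs (rf (nat_lit 0)) (cs (rf (nat_lit 1)) (nd (nat_lit 296) (nat_lit 0) (cs (lf (nat_lit 11) (nat_lit 273)) (rf (nat_lit 2))))))) q55286 (by decide +kernel)
def q55311 : Q := Q.p (nat_lit 0x40000140000400001000000000000000000000000000000000000000000000000000000000000000) (nat_lit 0x280000b8000620000000000800002000000000000000000000000000000000000000000000000000000000) (nat_lit 6)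
theorem c55311 : QOK q55311 := cut [q15841] ⟨c15841, trivial⟩ (nd (nat_lit 319) (nat_lit 0) (cs (lf (nat_lit 29) (nat_lit 252)) (nd (nat_lit 229) (nat_lit 0) (cs (lf (nat_lit 46) (nat_lit 229)) (nd (nat_lit 317) (nat_lit 0) (cs (lf (nat_lit 41) (nat_lit 251)) (rf (nat_lit 0)))))))) q55311 (by decide +kernel)
def q55321 : Q := Q.p (nat_lit 0xc0000140000c00003000000000000000000000000000000000000000000000000000000000000000) (nat_lit 0xc8000120000280000000000800002000000000000000000000000000000000000000000000000000000000) (nat_lit 5)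
theorem c55321 : QOK q55321 := cut [q15839] ⟨c15839, trivial⟩ (nd (nat_lit 229) (nat_lit 0) (cs (lf (nat_lit 46) (nat_lit 229)) (nd (nat_lit 317) (nat_lit 0) (cs (lf (nat_lit 41) (nat_lit 251)) (rf (nat_lit 0)))))) q55321 (by decide +kernel)
def q55330 : Q := Q.p (nat_lit 0x40000d00000400000000000000000000000000000000000000000000000000000000000000) (nat_lit 0x10000000000200000200001800002000008000000000000000000000000000000000000000000000) (nat_lit 4)
theorem c55330 : QOK q55330 := cut [q25763] ⟨c25763, trivial⟩ (nd (nat_lit 249) (nat_lit 0) (cs (lf (nat_lit 20) (nat_lit 249)) (rf (nat_lit 0)))) q55330 (by decide +kernel)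
def q55406 : Q := Q.p (nat_lit 0xf0000000000d00001000000000000000000000000000000000000000000000000000000000000000) (nat_lit 0x1000000e0000000000e00001800000000000000000000000000000000000000000000000000000000) (nat_lit 5)
theorem c55406 : QOK q55406 := cut [q55405] ⟨c55405, trivial⟩ (nd (nat_lit 294) (nat_lit 0) (cs (lf (nat_lit 23) (nat_lit 293)) (rf (nat_lit 0)))) q55406 (by decide +kernel)
def q55425 : Q := Q.p (nat_lit 0x1e0000000000000000000000000000000000000000000000000000000000000000000000000000000) (nat_lit 0x1c0000200001c00000000000000000000000000000000000000000000000000000000000000000000000000) (nat_lit 4)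
theorem c55425 : QOK q55425 := cut [q41754] ⟨c41754, trivial⟩ (nd (nat_lit 343) (nat_lit 0) (cs (lf (nat_lit 4) (nat_lit 317)) (rf (nat_lit 0)))) q55425 (by decide +kernel)
def q55449 : Q := Q.p (nat_lit 0x40000300000c00003000000000000000000000000000000000000000000000000000000000000000) (nat_lit 0x680003b80000c0000000000000000000000000000000000000000000000000000000000000000000000000) (nat_lit 6)
theorem c55449 : QOK q55449 := cut [q55446] ⟨c55446, trivial⟩ (nd (nat_lit 317) (nat_lit 0) (cs (lf (nat_lit 41) (nat_lit 251)) (nd (nat_lit 315) (nat_lit 0) (cs (lf (nat_lit 13) (nat_lit 293)) (nd (nat_lit 319) (nat_lit 0) (cs (lf (nat_lit 29) (nat_lit 252)) (rf (nat_lit 0)))))))) q55449 (by decide +kernel)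
def q55588 : Q := Q.p (nat_lit 0xe0000000000800000000000000000000000000000000000000000000000000000000000000000000000000) (nat_lit 0x100000ee000110000e00000000002000000000000000000000000000000000000000000000000000000000000000000000) (nat_lit 6)
theorem c55588 : QOK q55588 := cut [q15010, q28712, q55583] ⟨c15010, c28712, c55583, trivial⟩ (nd (nat_lit 344) (nat_lit 0) (cs (rf (nat_lit 0)) (cs (rf (nat_lit 1)) (cs (rf (nat_lit 2)) (nd (nat_lit 322) (nat_lit 0) (cs (lf (nat_lit 17) (nat_lit 319)) (nd (nat_lit 362) (nat_lit 0) (cs (lf (nat_lit 10) (nat_lit 340)) (nd (nat_lit 366) (nat_lit 0) (cs (lf (nat_lit 5) (nat_lit 341)) (nd (nat_lit 321) (nat_lit 0) (cs (lf (nat_lit 42) (nat_lit 299)) (lf (nat_lit 24) (nat_lit 277)))))))))))))) q55588 (by decide +kernel)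
def q55715 : Q := Q.p (nat_lit 0x40000300000400001000000000000000000000000000000000000000000000000000000000000000) (nat_lit 0x8000038000c80000000000000000000000000000000000000000000000000000000000000000000000000) (nat_lit 4)
theorem c55715 : QOK q55715 := cut [q46283] ⟨c46283, trivial⟩ (nd (nat_lit 317) (nat_lit 0) (cs (lf (nat_lit 41) (nat_lit 251)) (rf (nat_lit 0)))) q55715 (by decide +kernel)
def q55851 : Q := Q.p (nat_lit 0x40000080001e00002000000000000000000000000000000000000000000000000000000000000000) (nat_lit 0x10000050000fc0001b8000c00000000001800000000000000000000000000000000000000000000000000000000000000) (nat_lit 8)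
theorem c55851 : QOK q55851 := cut [q9863, q55842, q55847] ⟨c9863, c55842, c55847, trivial⟩ (nd (nat_lit 317) (nat_lit 0) (cs (nd (nat_lit 251) (nat_lit 0) (cs (lf (nat_lit 29) (nat_lit 251)) (nd (nat_lit 339) (nat_lit 0) (cs (rf (nat_lit 0)) (lf (nat_lit 35) (nat_lit 251)))))) (cs (nd (nat_lit 298) (nat_lit 0) (cs (lf (nat_lit 5) (nat_lit 273)) (nd (nat_lit 342) (nat_lit 0) (cs (lf (nat_lit 43) (nat_lit 253)) (nd (nat_lit 340) (nat_lit 0) (cs (lf (nat_lit 24) (nat_lit 251)) (nd (nat_lit 362) (nat_lit 0) (cs (lf (nat_lit 42) (nat_lit 295)) (rf (nat_lit 1)))))))))) (nd (nat_lit 298) (nat_lit 0) (cs (lf (nat_lit 5) (nat_lit 273)) (nd (nat_lit 320) (nat_lit 0) (cs (lf (nat_lit 42) (nat_lit 253)) (nd (nat_lit 339) (nat_lit 0) (cs (lf (nat_lit 35) (nat_lit 251)) (rf (nat_lit 2))))))))))) q55851 (by decide +kernel)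
def q55916 : Q := Q.p (nat_lit 0x50000020000000000200000800000000000000000000000000000000000000000000000000000000000000) (nat_lit 0xa00000d8000080000000000000000000000000000000000000000000000000000000000000000000000000) (nat_lit 4)
theorem c55916 : QOK q55916 := cut [q55842] ⟨c55842, trivial⟩ (nd (nat_lit 318) (nat_lit 0) (cs (lf (nat_lit 26) (nat_lit 251)) (rf (nat_lit 0)))) q55916 (by decide +kernel)
def q55928 : Q := Q.p (nat_lit 0x50000020000000000600000000000000000000000000000000000000000000000000000000000000000000) (nat_lit 0x3f80002c000010000080000000001000000000000000000000000000000000000000000000000000000000000000) (nat_lit 6)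
theorem c55928 : QOK q55928 := cut [q55001, q13293] ⟨c55001, c13293, trivial⟩ (nd (nat_lit 339) (nat_lit 0) (cs (rf (nat_lit 0)) (nd (nat_lit 341) (nat_lit 0) (cs (lf (nat_lit 23) (nat_lit 316)) (rf (nat_lit 1)))))) q55928 (by decide +kernel)
def q55960 : Q := Q.p (nat_lit 0x3c000000000000000f0000000000000000000000000000000000000000000000000000) (nat_lit 0x1c0000300000e00000000100000ee0000000000000000000000000000000000000000000000) (nat_lit 8)
theorem c55960 : QOK q55960 := cut [q2454] ⟨c2454, trivial⟩ (nd (nat_lit 186) (nat_lit 0) (cs (lf (nat_lit 23) (nat_lit 185)) (nd (nat_lit 295) (nat_lit 0) (cs (lf (nat_lit 10) (nat_lit 273)) (nd (nat_lit 273) (nat_lit 0) (cs (lf (nat_lit 11) (nat_lit 272)) (nd (nat_lit 250) (nat_lit 0) (cs (lf (nat_lit 22) (nat_lit 250)) (nd (nat_lit 249) (nat_lit 0) (cs (lf (nat_lit 21) (nat_lit 249)) (rf (nat_lit 0)))))))))))) q55960 (by decide +kernel)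
def q56032 : Q := Q.p (nat_lit 0x200000c00002000008000000000000000000000000000000000000000000000000000000000) (nat_lit 0x100001d00000300000000000000000000000000000000000000000000000000000000000000000000) (nat_lit 4)
theorem c56032 : QOK q56032 := cut [q52519] ⟨c52519, trivial⟩ (nd (nat_lit 298) (nat_lit 0) (cs (lf (nat_lit 29) (nat_lit 231)) (rf (nat_lit 0)))) q56032 (by decide +kernel)
def q56072 : Q := Q.p (nat_lit 0x50000060000c00002000000000000000000000000000000000000000000000000000000000000000) (nat_lit 0x100000700001a0000200000000001000000000000000000000000000000000000000000000000000000000000000) (nat_lit 5)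
theorem c56072 : QOK q56072 := cut [q56071] ⟨c56071, trivial⟩ (nd (nat_lit 319) (nat_lit 0) (cs (lf (nat_lit 20) (nat_lit 293)) (rf (nat_lit 0)))) q56072 (by decide +kernel)
def q56099 : Q := Q.p (nat_lit 0x40000f00000000000000000000000000000000000000000000000000000000000000000000) (nat_lit 0x4000010000000001000000e00002000000000000000000000000000000000000000000000000000000000) (nat_lit 4)
theorem c56099 : QOK q56099 := cut [q26031] ⟨c26031, trivial⟩ (nd (nat_lit 250) (nat_lit 0) (cs (lf (nat_lit 23) (nat_lit 249)) (rf (nat_lit 0)))) q56099 (by decide +kernel)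
def q56124 : Q := Q.p (nat_lit 0x10000040000100002000008000000000000000000000000000000000000000000000000000000000) (nat_lit 0x2000008000020000080001e00013800002000000000000000000000000000000000000000000000000000) (nat_lit 5)
theorem c56124 : QOK q56124 := cut [q56104, q56123] ⟨c56104, c56123, trivial⟩ (nd (nat_lit 250) (nat_lit 0) (cs (rf (nat_lit 0)) (rf (nat_lit 1)))) q56124 (by decide +kernel)
def q56130 : Q := Q.p (nat_lit 0xd0000040000100000000000000000000000000000000000000000000000000000000000000000000) (nat_lit 0x280000e000028000000000080000600000800000000000000000000000000000000000000000000000000000000) (nat_lit 5)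
theorem c56130 : QOK q56130 := cut [q13484, q56129] ⟨c13484, c56129, trivial⟩ (nd (nat_lit 338) (nat_lit 0) (cs (rf (nat_lit 0)) (cs (nd (nat_lit 249) (nat_lit 0) (cs (lf (nat_lit 46) (nat_lit 249)) (nd (nat_lit 339) (nat_lit 0) (cs (lf (nat_lit 29) (nat_lit 272)) (nd (nat_lit 250) (nat_lit 0) (cs (lf (nat_lit 47) (nat_lit 227)) (lf (nat_lit 28) (nat_lit 250)))))))) (rf (nat_lit 1))))) q56130 (by decide +kernel)
def q56332 : Q := Q.p (nat_lit 0xf0000000000000000000000000000000000000000000000000000) (nat_lit 0xe6000100000e00000000000000000000000000000000000000000000000) (nat_lit 5)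
theorem c56332 : QOK q56332 := cut [q16684] ⟨c16684, trivial⟩ (nd (nat_lit 234) (nat_lit 0) (cs (lf (nat_lit 4) (nat_lit 208)) (nd (nat_lit 229) (nat_lit 0) (cs (lf (nat_lit 10) (nat_lit 207)) (rf (nat_lit 0)))))) q56332 (by decide +kernel)
def q56375 : Q := Q.p (nat_lit 0xe0000200000800002000000000000000000000000000000000000000000000000000000000) (nat_lit 0x4e0001100000e0000000000000000000000000000000000000000000000000000000000000000000) (nat_lit 5)
theorem c56375 : QOK q56375 := cut [q43918] ⟨c43918, trivial⟩ (nd (nat_lit 296) (nat_lit 0) (cs (lf (nat_lit 29) (nat_lit 229)) (rf (nat_lit 0)))) q56375 (by decide +kernel)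
def q56381 : Q := Q.p (nat_lit 0xe0000200000800002000000000000000000000000000000000000000000000000000000000) (nat_lit 0x470001180001e0000000000000000000000000000000000000000000000000000000000000000000) (nat_lit 6)
theorem c56381 : QOK q56381 := cut [q56379] ⟨c56379, trivial⟩ (nd (nat_lit 296) (nat_lit 0) (cs (lf (nat_lit 29) (nat_lit 229)) (nd (nat_lit 270) (nat_lit 0) (cs (lf (nat_lit 22) (nat_lit 270)) (rf (nat_lit 0)))))) q56381 (by decide +kernel)
def q56438 : Q := Q.p (nat_lit 0x300000400001000000000000000000000000000000000000000000000000000) (nat_lit 0x80000000000800000000006000018000020000000000000000000000000000000000) (nat_lit 4)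
theorem c56438 : QOK q56438 := cut [q56437] ⟨c56437, trivial⟩ (nd (nat_lit 182) (nat_lit 0) (cs (lf (nat_lit 29) (nat_lit 182)) (rf (nat_lit 0)))) q56438 (by decide +kernel)
def q56459 : Q := Q.p (nat_lit 0x200000600001000004000000000000000000000000000000000000000000000000000) (nat_lit 0x8000008000000000300000c0000200000000000000000000000000000000000) (nat_lit 4)
theorem c56459 : QOK q56459 := cut [q26196] ⟨c26196, trivial⟩ (nd (nat_lit 184) (nat_lit 0) (cs (lf (nat_lit 28) (nat_lit 184)) (rf (nat_lit 0)))) q56459 (by decide +kernel)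
def q56523 : Q := Q.p (nat_lit 0x60000380000200000000000000000000000000000000000000000000000000000000000000) (nat_lit 0x400001000004000018000040000000000800000000000000000000000000000000000000000000000000000000) (nat_lit 4)
theorem c56523 : QOK q56523 := cut [q56522] ⟨c56522, trivial⟩ (nd (nat_lit 292) (nat_lit 0) (cs (lf (nat_lit 12) (nat_lit 269)) (rf (nat_lit 0)))) q56523 (by decide +kernel)
def q56766 : Q := Q.p (nat_lit 0x800002000000000010000050000000000000000000000000000000000000000000000) (nat_lit 0x80000e00000a8000000000000000000000000000000000000000000000) (nat_lit 4)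
theorem c56766 : QOK q56766 := cut [q56765] ⟨c56765, trivial⟩ (nd (nat_lit 209) (nat_lit 0) (cs (lf (nat_lit 44) (nat_lit 186)) (rf (nat_lit 0)))) q56766 (by decide +kernel)
def q56839 : Q := Q.p (nat_lit 0xc00002000008000000000000000000000000000000000000000000000000000000000) (nat_lit 0x100000000001000000000060000180000400000000000000000000000000000000000000000) (nat_lit 4)
theorem c56839 : QOK q56839 := cut [q15536] ⟨c15536, trivial⟩ (nd (nat_lit 209) (nat_lit 0) (cs (lf (nat_lit 41) (nat_lit 208)) (rf (nat_lit 0)))) q56839 (by decide +kernel)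
def q56859 : Q := Q.p (nat_lit 0x700001c00000000000000000000000000000000000000000000000000000000) (nat_lit 0x80000300000c0000300001c00004000000000000000000000000000000000000000000000) (nat_lit 6)
theorem c56859 : QOK q56859 := cut [q40908] ⟨c40908, trivial⟩ (nd (nat_lit 225) (nat_lit 0) (cs (lf (nat_lit 0) (nat_lit 224)) (nd (nat_lit 247) (nat_lit 0) (cs (lf (nat_lit 12) (nat_lit 224)) (nd (nat_lit 202) (nat_lit 0) (cs (lf (nat_lit 22) (nat_lit 202)) (rf (nat_lit 0)))))))) q56859 (by decide +kernel)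
def q56924 : Q := Q.p (nat_lit 0x80000600000800002000000000000000000000000000000000000000000000000000) (nat_lit 0x4000018000060000000000000001400001000004000000000000000000000000000000000000000000000) (nat_lit 5)
theorem c56924 : QOK q56924 := cut [q56922] ⟨c56922, trivial⟩ (nd (nat_lit 204) (nat_lit 0) (cs (lf (nat_lit 47) (nat_lit 182)) (nd (nat_lit 293) (nat_lit 0) (cs (lf (nat_lit 46) (nat_lit 204)) (rf (nat_lit 0)))))) q56924 (by decide +kernel)
def q56931 : Q := Q.p (nat_lit 0x20000080000600000000000000000000000000000000000000000000000000000000000000) (nat_lit 0x100000700001c000000000100000000001000000000000000000000000000000000000000000000000000000000) (nat_lit 5)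
theorem c56931 : QOK q56931 := cut [q56930] ⟨c56930, trivial⟩ (nd (nat_lit 315) (nat_lit 0) (cs (lf (nat_lit 35) (nat_lit 227)) (rf (nat_lit 0)))) q56931 (by decide +kernel)
def q56953 : Q := Q.p (nat_lit 0x600000800002000000000000000000000000000000000000000000000000000) (nat_lit 0x10000000000100000000000c000030000040000000000000000000000000000000000) (nat_lit 4)
theorem c56953 : QOK q56953 := cut [q56952] ⟨c56952, trivial⟩ (nd (nat_lit 183) (nat_lit 0) (cs (lf (nat_lit 29) (nat_lit 183)) (rf (nat_lit 0)))) q56953 (by decide +kernel)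
def q56963 : Q := Q.p (nat_lit 0x38000080000200000800000000000000000000000000000000000000000000000000000000) (nat_lit 0x4000740000000000400001000000000000000000000000000000000000000000000000000) (nat_lit 4)
theorem c56963 : QOK q56963 := cut [q56962] ⟨c56962, trivial⟩ (nd (nat_lit 204) (nat_lit 0) (cs (lf (nat_lit 46) (nat_lit 204)) (rf (nat_lit 0)))) q56963 (by decide +kernel)
def q56969 : Q := Q.p (nat_lit 0x38000080000200000800000000000000000000000000000000000000000000000000000000) (nat_lit 0x13800044000038000000000000000000000000000000000000000000000000000000000000000000) (nat_lit 5)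
theorem c56969 : QOK q56969 := cut [q44930] ⟨c44930, trivial⟩ (nd (nat_lit 294) (nat_lit 0) (cs (lf (nat_lit 29) (nat_lit 227)) (rf (nat_lit 0)))) q56969 (by decide +kernel)
def q56985 : Q := Q.p (nat_lit 0x8000020000080000400000000000000000000000000000000000000000000000000000000000000) (nat_lit 0x500001c00007000000000000000100000000000000000000000000000000000000000000000000000000000000000000) (nat_lit 5)
theorem c56985 : QOK q56985 := cut [q56984] ⟨c56984, trivial⟩ (nd (nat_lit 337) (nat_lit 0) (cs (lf (nat_lit 34) (nat_lit 249)) (rf (nat_lit 0)))) q56985 (by decide +kernel)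
def q57004 : Q := Q.p (nat_lit 0x80000200000800002000000000000000000000000000000000000000000000000000) (nat_lit 0x10000040000100000000004000018000040000000000000000000000000000000000000000) (nat_lit 4)
theorem c57004 : QOK q57004 := cut [q57003] ⟨c57003, trivial⟩ (nd (nat_lit 270) (nat_lit 0) (cs (lf (nat_lit 41) (nat_lit 204)) (rf (nat_lit 0)))) q57004 (by decide +kernel)
def q57009 : Q := Q.p (nat_lit 0x40000080000200000800000000000000000000000000000000000000000000000000000000) (nat_lit 0x10000000000000000700001c000050000000000000000000000000000000000000000) (nat_lit 5)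
theorem c57009 : QOK q57009 := cut [q40962] ⟨c40962, trivial⟩ (nd (nat_lit 205) (nat_lit 0) (cs (lf (nat_lit 28) (nat_lit 205)) (rf (nat_lit 0)))) q57009 (by decide +kernel)
def q57346 : Q := Q.p (nat_lit 0x10000080000600000800000000000000000000000000000000000000000000000000000000) (nat_lit 0x100000600001c000020000100000000001000000000000000000000000000000000000000000000000000000000) (nat_lit 5)
theorem c57346 : QOK q57346 := cut [q57345] ⟨c57345, trivial⟩ (nd (nat_lit 293) (nat_lit 0) (cs (lf (nat_lit 41) (nat_lit 226)) (rf (nat_lit 0)))) q57346 (by decide +kernel)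
def q57367 : Q := Q.p (nat_lit 0x20000040000300000c00000000000000000000000000000000000000000000000000000000) (nat_lit 0x80000000000000001800006000018000000000000000000000000000000000000000) (nat_lit 4)
theorem c57367 : QOK q57367 := cut [q57365] ⟨c57365, trivial⟩ (nd (nat_lit 204) (nat_lit 0) (cs (rf (nat_lit 0)) (lf (nat_lit 43) (nat_lit 204)))) q57367 (by decide +kernel)
def q57399 : Q := Q.p (nat_lit 0x780000000000000000000000000000000000000000000000000000000000000) (nat_lit 0x3b8000040000000000000000000000000000000000000000000000000000000000000) (nat_lit 4)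
theorem c57399 : QOK q57399 := cut [q57398] ⟨c57398, trivial⟩ (nd (nat_lit 272) (nat_lit 0) (cs (lf (nat_lit 5) (nat_lit 247)) (rf (nat_lit 0)))) q57399 (by decide +kernel)
def q57432 : Q := Q.p (nat_lit 0x780000800000000000000000000000000000000000000000000000000000000) (nat_lit 0x380000600005c0000000000000000000000000000000000000000000000000000000) (nat_lit 5)
theorem c57432 : QOK q57432 := cut [q57430] ⟨c57430, trivial⟩ (nd (nat_lit 268) (nat_lit 0) (cs (lf (nat_lit 10) (nat_lit 246)) (nd (nat_lit 246) (nat_lit 0) (cs (lf (nat_lit 11) (nat_lit 245)) (rf (nat_lit 0)))))) q57432 (by decide +kernel)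
def q57467 : Q := Q.p (nat_lit 0x780000800000000000000000000000000000000000000000000000000000000) (nat_lit 0x40000300000000003000002000008000000000000000000000000000000000000000000000) (nat_lit 4)
theorem c57467 : QOK q57467 := cut [q57466] ⟨c57466, trivial⟩ (nd (nat_lit 228) (nat_lit 0) (cs (lf (nat_lit 17) (nat_lit 225)) (rf (nat_lit 0)))) q57467 (by decide +kernel)
def q57627 : Q := Q.p (nat_lit 0x20000040000100000400000000000000000000000000000000000000000000000000000000) (nat_lit 0x8000000000000000380000e000028000000000000000000000000000000000000000) (nat_lit 5)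
theorem c57627 : QOK q57627 := cut [q46743] ⟨c46743, trivial⟩ (nd (nat_lit 204) (nat_lit 0) (cs (lf (nat_lit 28) (nat_lit 204)) (rf (nat_lit 0)))) q57627 (by decide +kernel)
def q57646 : Q := Q.p (nat_lit 0x800003c00000000010000000000000000000000000000000000000000000000000000) (nat_lit 0x1c0000200019c00020000040000000000000000000000000000000000000000000000) (nat_lit 6)
theorem c57646 : QOK q57646 := cut [q2623] ⟨c2623, trivial⟩ (nd (nat_lit 231) (nat_lit 0) (cs (lf (nat_lit 17) (nat_lit 228)) (nd (nat_lit 186) (nat_lit 0) (cs (lf (nat_lit 45) (nat_lit 186)) (rf (nat_lit 0)))))) q57646 (by decide +kernel)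
def q57689 : Q := Q.p (nat_lit 0x3c000080000200000000000000000000000000000000000000000000000) (nat_lit 0x18000000000000000500001c00005000000000000000000000000000000000000) (nat_lit 5)
theorem c57689 : QOK q57689 := cut [q57688] ⟨c57688, trivial⟩ (nd (nat_lit 255) (nat_lit 0) (cs (lf (nat_lit 5) (nat_lit 230)) (rf (nat_lit 0)))) q57689 (by decide +kernel)
def q57716 : Q := Q.p (nat_lit 0x800002400000000004000030000000000000000000000000000000000000000000000) (nat_lit 0x1200001800001800000000000000080000000000000000000000000000000000000000) (nat_lit 4)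
theorem c57716 : QOK q57716 := cut [q23603] ⟨c23603, trivial⟩ (nd (nat_lit 228) (nat_lit 0) (cs (lf (nat_lit 35) (nat_lit 162)) (rf (nat_lit 0)))) q57716 (by decide +kernel)
def q57722 : Q := Q.p (nat_lit 0x1c0000000000000000000000000000000000000000000000) (nat_lit 0x3c0000620003bc0000000000000000000000000000000000000000) (nat_lit 5)
theorem c57722 : QOK q57722 := cut [q7989, q9255, q20766] ⟨c7989, c9255, c20766, trivial⟩ (nd (nat_lit 189) (nat_lit 0) (cs (rf (nat_lit 0)) (cs (rf (nat_lit 1)) (rf (nat_lit 2))))) q57722 (by decide +kernel)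
def q57724 : Q := Q.p (nat_lit 0x100001e0000000000000000000000000000000000000000000000) (nat_lit 0x100000c0000010000e00000800002000000000000000000000000000000) (nat_lit 5)
theorem c57724 : QOK q57724 := cut [q20048] ⟨c20048, trivial⟩ (nd (nat_lit 166) (nat_lit 0) (cs (lf (nat_lit 17) (nat_lit 163)) (nd (nat_lit 165) (nat_lit 0) (cs (lf (nat_lit 12) (nat_lit 162)) (rf (nat_lit 0)))))) q57724 (by decide +kernel)
def q57725 : Q := Q.p (nat_lit 0x40000100000480000800000800000000000000000000000000000) (nat_lit 0x10000340000b000000000000000000000000000000) (nat_lit 4)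
theorem c57725 : QOK q57725 := cut [q9823] ⟨c9823, trivial⟩ (nd (nat_lit 144) (nat_lit 0) (cs (lf (nat_lit 47) (nat_lit 121)) (rf (nat_lit 0)))) q57725 (by decide +kernel)
def q57738 : Q := Q.p (nat_lit 0x4000000000000001f0000000000000000000000000000000000000000000000) (nat_lit 0x1000006000000000cc0000000000000000000000000000000000000000) (nat_lit 4)
theorem c57738 : QOK q57738 := cut [q19697] ⟨c19697, trivial⟩ (nd (nat_lit 166) (nat_lit 0) (cs (lf (nat_lit 17) (nat_lit 163)) (rf (nat_lit 0)))) q57738 (by decide +kernel)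
def q57752 : Q := Q.p (nat_lit 0x1c0000100000400001000000000000000000000000000000) (nat_lit 0x1c0000638000600000000000000004000000000000000000000000) (nat_lit 6)
theorem c57752 : QOK q57752 := cut [q57751] ⟨c57751, trivial⟩ (nd (nat_lit 165) (nat_lit 0) (cs (lf (nat_lit 24) (nat_lit 98)) (rf (nat_lit 0)))) q57752 (by decide +kernel)
def q57767 : Q := Q.p (nat_lit 0x10000040000100000700000000000000000000000000000000000) (nat_lit 0x70000880002700000000000000000000000000000) (nat_lit 5)
theorem c57767 : QOK q57767 := cut [q5713] ⟨c5713, trivial⟩ (nd (nat_lit 143) (nat_lit 0) (cs (lf (nat_lit 35) (nat_lit 120)) (rf (nat_lit 0)))) q57767 (by decide +kernel)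
def q57787 : Q := Q.p (nat_lit 0x100000c0000100000400000000000000000000000000000000000) (nat_lit 0x20000280000a0000300000e000018000020000000000000) (nat_lit 7)
theorem c57787 : QOK q57787 := cut [q32286] ⟨c32286, trivial⟩ (nd (nat_lit 121) (nat_lit 0) (cs (lf (nat_lit 34) (nat_lit 120)) (nd (nat_lit 120) (nat_lit 0) (cs (lf (nat_lit 35) (nat_lit 98)) (nd (nat_lit 98) (nat_lit 0) (cs (lf (nat_lit 28) (nat_lit 98)) (nd (nat_lit 163) (nat_lit 0) (cs (lf (nat_lit 41) (nat_lit 97)) (rf (nat_lit 0)))))))))) q57787 (by decide +kernel)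
def q57795 : Q := Q.p (nat_lit 0x1c0000000000000000000000000000000000000000000000) (nat_lit 0x3c0000620003dc0000000000000000000000000000000000000000) (nat_lit 5)
theorem c57795 : QOK q57795 := cut [q7989, q9255, q57794] ⟨c7989, c9255, c57794, trivial⟩ (nd (nat_lit 189) (nat_lit 0) (cs (rf (nat_lit 0)) (cs (rf (nat_lit 1)) (rf (nat_lit 2))))) q57795 (by decide +kernel)
def q57824 : Q := Q.p (nat_lit 0x1c0000000000000000000000000000000000000000000000) (nat_lit 0x60000180000700003c0000600003f8000300000c000000000000000000000000000000) (nat_lit 11)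
theorem c57824 : QOK q57824 := cut [q7989, q20766, q19294, q19297, q19303, q379, q57823] ⟨c7989, c20766, c19294, c19297, c19303, c379, c57823, trivial⟩ (nd (nat_lit 189) (nat_lit 0) (cs (rf (nat_lit 0)) (cs (rf (nat_lit 1)) (cs (nd (nat_lit 211) (nat_lit 0) (cs (lf (nat_lit 5) (nat_lit 186)) (nd (nat_lit 144) (nat_lit 0) (cs (rf (nat_lit 2)) (cs (nd (nat_lit 163) (nat_lit 0) (cs (lf (nat_lit 22) (nat_lit 163)) (rf (nat_lit 3)))) (cs (nd (nat_lit 163) (nat_lit 0) (cs (lf (nat_lit 22) (nat_lit 163)) (rf (nat_lit 4)))) (nd (nat_lit 163) (nat_lit 0) (cs (lf (nat_lit 22) (nat_lit 163)) (nd (nat_lit 167) (nat_lit 0) (cs (lf (nat_lit 17) (nat_lit 164)) (nd (nat_lit 233) (nat_lit 0) (cs (lf (nat_lit 46) (nat_lit 144)) (nd (nat_lit 256) (nat_lit 0) (cs (lf (nat_lit 28) (nat_lit 167)) (nd (nat_lit 255) (nat_lit 0) (cs (lf (nat_lit 29) (nat_lit 189)) (nd (nat_lit 210) (nat_lit 0) (cs (rf (nat_lit 5)) (lf (nat_lit 42) (nat_lit 188)))))))))))))))))))) (rf (nat_lit 6)))))) q57824 (by decide +kernel)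
def q57827 : Q := Q.p (nat_lit 0x4000000000100001c0000480000000000000000000000000000000000000000) (nat_lit 0x1000006000030000240000200000800000000000000000000000000000) (nat_lit 5)
theorem c57827 : QOK q57827 := cut [q57825] ⟨c57825, trivial⟩ (nd (nat_lit 185) (nat_lit 0) (cs (lf (nat_lit 23) (nat_lit 162)) (nd (nat_lit 119) (nat_lit 0) (cs (lf (nat_lit 25) (nat_lit 119)) (rf (nat_lit 0)))))) q57827 (by decide +kernel)
def q57836 : Q := Q.p (nat_lit 0x4000000000100001c0000480000000000000000000000000000000000000000) (nat_lit 0x1000006000230000300003f0000680001a000000000000000000000000) (nat_lit 8)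
theorem c57836 : QOK q57836 := cut [q57829, q57825, q20055] ⟨c57829, c57825, c20055, trivial⟩ (nd (nat_lit 141) (nat_lit 0) (cs (nd (nat_lit 164) (nat_lit 0) (cs (lf (nat_lit 18) (nat_lit 163)) (nd (nat_lit 165) (nat_lit 0) (cs (lf (nat_lit 23) (nat_lit 140)) (nd (nat_lit 121) (nat_lit 0) (cs (lf (nat_lit 37) (nat_lit 120)) (nd (nat_lit 184) (nat_lit 0) (cs (lf (nat_lit 13) (nat_lit 162)) (rf (nat_lit 0)))))))))) (cs (nd (nat_lit 185) (nat_lit 0) (cs (lf (nat_lit 24) (nat_lit 119)) (rf (nat_lit 1)))) (nd (nat_lit 164) (nat_lit 0) (cs (lf (nat_lit 18) (nat_lit 163)) (rf (nat_lit 2))))))) q57836 (by decide +kernel)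
def q57874 : Q := Q.p (nat_lit 0x100001c0000c00002000002000000000000000000000000000000) (nat_lit 0x100000400002000003e0005780005c0007f800040000000000000000000) (nat_lit 8)
theorem c57874 : QOK q57874 := cut [q18440, q32838, q57850, q19231, q19219, q57861] ⟨c18440, c32838, c57850, c19231, c19219, c57861, trivial⟩ (nd (nat_lit 164) (nat_lit 0) (cs (rf (nat_lit 0)) (cs (nd (nat_lit 119) (nat_lit 0) (cs (nd (nat_lit 210) (nat_lit 0) (cs (lf (nat_lit 30) (nat_lit 144)) (nd (nat_lit 141) (nat_lit 0) (cs (lf (nat_lit 45) (nat_lit 119)) (nd (nat_lit 163) (nat_lit 0) (cs (lf (nat_lit 24) (nat_lit 97)) (lf (nat_lit 18) (nat_lit 163)))))))) (cs (nd (nat_lit 120) (nat_lit 0) (cs (rf (nat_lit 1)) (cs (nd (nat_lit 141) (nat_lit 0) (cs (lf (nat_lit 45) (nat_lit 119)) (nd (nat_lit 122) (nat_lit 0) (cs (lf (nat_lit 11) (nat_lit 118)) (lf (nat_lit 4) (nat_lit 119)))))) (nd (nat_lit 122) (nat_lit 0) (cs (lf (nat_lit 4) (nat_lit 119)) (rf (nat_lit 2))))))) (cs (nd (nat_lit 120) (nat_lit 0) (cs (rf (nat_lit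 1)) (cs (nd (nat_lit 210) (nat_lit 0) (cs (lf (nat_lit 30) (nat_lit 144)) (nd (nat_lit 122) (nat_lit 0) (cs (rf (nat_lit 3)) (lf (nat_lit 4) (nat_lit 119)))))) (nd (nat_lit 122) (nat_lit 0) (cs (rf (nat_lit 4)) (lf (nat_lit 4) (nat_lit 119))))))) (nd (nat_lit 122) (nat_lit 0) (cs (nd (nat_lit 120) (nat_lit 0) (cs (rf (nat_lit 4)) (cs (rf (nat_lit 2)) (nd (nat_lit 210) (nat_lit 0) (cs (lf (nat_lit 30) (nat_lit 144)) (nd (nat_lit 141) (nat_lit 0) (cs (lf (nat_lit 11) (nat_lit 118)) (nd (nat_lit 97) (nat_lit 0) (cs (lf (nat_lit 23) (nat_lit 96)) (lf (nat_lit 27) (nat_lit 97))))))))))) (cs (nd (nat_lit 210) (nat_lit 0) (cs (lf (nat_lit 30) (nat_lit 144)) (nd (nat_lit 144) (nat_lit 0) (cs (lf (nat_lit 47) (nat_lit 99)) (rf (nat_lit 5)))))) (nd (nat_lit 163) (nat_lit 0) (cs (lf (nat_lit 18) (nat_lit 163)) (nd (nat_lit 161) (nat_lit 0) (cs (lf (nat_lit 1) (nat_lit 161)) (nd (nat_lit 97) (nat_lit 0) (cs (nd (nat_lit 120) (nat_lit 0) (cs (lf (nat_lit 23) (nat_lit 96)) (lf (nat_lit 4) (nat_lit 119))))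 (lf (nat_lit 26) (nat_lit 97))))))))))))))) (nd (nat_lit 165) (nat_lit 0) (cs (lf (nat_lit 17) (nat_lit 142)) (nd (nat_lit 142) (nat_lit 0) (cs (lf (nat_lit 23) (nat_lit 141)) (nd (nat_lit 120) (nat_lit 0) (cs (lf (nat_lit 35) (nat_lit 98)) (lf (nat_lit 24) (nat_lit 98))))))))))) q57874 (by decide +kernel)
def q57903 : Q := Q.p (nat_lit 0x100001c0000c00002000000000000000000000000000000000000) (nat_lit 0x1000006000003e0005e0001f80007e000000000000000000000000) (nat_lit 9)
theorem c57903 : QOK q57903 := cut [q18440, q19184, q615] ⟨c18440, c19184, c615, trivial⟩ (nd (nat_lit 123) (nat_lit 0) (cs (lf (nat_lit 36) (nat_lit 100)) (nd (nat_lit 164) (nat_lit 0) (cs (rf (nat_lit 0)) (cs (nd (nat_lit 121) (nat_lit 0) (cs (rf (nat_lit 1)) (cs (nd (nat_lit 189) (nat_lit 0) (cs (lf (nat_lit 23) (nat_lit 163)) (nd (nat_lit 190) (nat_lit 0) (cs (lf (nat_lit 29) (nat_lit 123)) (nd (nat_lit 124) (nat_lit 0) (cs (lf (nat_lit 35) (nat_lit 101)) (nd (nat_lit 122) (nat_lit 0) (cs (lf (nat_lit 47) (nat_lit 100))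 (nd (nat_lit 99) (nat_lit 0) (cs (lf (nat_lit 23) (nat_lit 98)) (lf (nat_lit 44) (nat_lit 99)))))))))))) (nd (nat_lit 142) (nat_lit 0) (cs (lf (nat_lit 34) (nat_lit 120)) (nd (nat_lit 119) (nat_lit 0) (cs (lf (nat_lit 46) (nat_lit 119)) (nd (nat_lit 120) (nat_lit 0) (cs (lf (nat_lit 47) (nat_lit 97)) (nd (nat_lit 122) (nat_lit 0) (cs (lf (nat_lit 5) (nat_lit 120)) (lf (nat_lit 4) (nat_lit 119))))))))))))) (cs (nd (nat_lit 165) (nat_lit 0) (cs (lf (nat_lit 17) (nat_lit 142)) (nd (nat_lit 163) (nat_lit 0) (cs (lf (nat_lit 16) (nat_lit 141)) (lf (nat_lit 0) (nat_lit 162)))))) (nd (nat_lit 165) (nat_lit 0) (cs (lf (nat_lit 17) (nat_lit 142)) (nd (nat_lit 142) (nat_lit 0) (cs (lf (nat_lit 23) (nat_lit 141)) (nd (nat_lit 189) (nat_lit 0) (cs (lf (nat_lit 18) (nat_lit 164)) (nd (nat_lit 102) (nat_lit 0) (cs (lf (nat_lit 34) (nat_lit 101)) (nd (nat_lit 120) (nat_lit 0) (cs (rf (nat_lit 2)) (lf (nat_lit 24) (nat_lit 98)))))))))))))))))) q57903 (by decide +kernel)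
def q57907 : Q := Q.p (nat_lit 0x1c0000000000000000000000000000000000000000000000) (nat_lit 0x380000620003fc0000000000000000000000000000000000000000) (nat_lit 5)
theorem c57907 : QOK q57907 := cut [q7989, q57794, q57823] ⟨c7989, c57794, c57823, trivial⟩ (nd (nat_lit 189) (nat_lit 0) (cs (rf (nat_lit 0)) (cs (rf (nat_lit 1)) (rf (nat_lit 2))))) q57907 (by decide +kernel)
def q57939 : Q := Q.p (nat_lit 0x30000060000000000c00000000000000000000000000000000000) (nat_lit 0xc000000000018000130001ef00000000000000000000000000000) (nat_lit 6)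
theorem c57939 : QOK q57939 := cut [q5702, q57935, q57937] ⟨c5702, c57935, c57937, trivial⟩ (nd (nat_lit 141) (nat_lit 0) (cs (rf (nat_lit 0)) (cs (nd (nat_lit 210) (nat_lit 0) (cs (lf (nat_lit 18) (nat_lit 185)) (rf (nat_lit 1)))) (nd (nat_lit 210) (nat_lit 0) (cs (lf (nat_lit 18) (nat_lit 185)) (rf (nat_lit 2))))))) q57939 (by decide +kernel)
def q57952 : Q := Q.p (nat_lit 0x30000060000000000e00000000000000000000000000000000000) (nat_lit 0xc00000000000f0000180007f00001000000000000000000000000) (nat_lit 7)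
theorem c57952 : QOK q57952 := cut [q5713, q5770, q34444, q9115] ⟨c5713, c5770, c34444, c9115, trivial⟩ (nd (nat_lit 140) (nat_lit 0) (cs (rf (nat_lit 0)) (cs (rf (nat_lit 1)) (cs (rf (nat_lit 2)) (nd (nat_lit 118) (nat_lit 0) (cs (lf (nat_lit 23) (nat_lit 117)) (nd (nat_lit 210) (nat_lit 0) (cs (lf (nat_lit 18) (nat_lit 185)) (rf (nat_lit 3)))))))))) q57952 (by decide +kernel)
def q57964 : Q := Q.p (nat_lit 0x100000f00000000000000000000000000000000000) (nat_lit 0xc00030c0000700000000000000000000000000000) (nat_lit 5)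
theorem c57964 : QOK q57964 := cut [q57962] ⟨c57962, trivial⟩ (nd (nat_lit 117) (nat_lit 0) (cs (lf (nat_lit 22) (nat_lit 117)) (nd (nat_lit 139) (nat_lit 0) (cs (lf (nat_lit 23) (nat_lit 116)) (rf (nat_lit 0)))))) q57964 (by decide +kernel)
def q57967 : Q := Q.p (nat_lit 0x100000f00000000000000000000000000000000000) (nat_lit 0xb80000c0000700000000000000000000000000000) (nat_lit 5)
theorem c57967 : QOK q57967 := cut [q36172] ⟨c36172, trivial⟩ (nd (nat_lit 117) (nat_lit 0) (cs (lf (nat_lit 22) (nat_lit 117)) (nd (nat_lit 139) (nat_lit 0) (cs (lf (nat_lit 23) (nat_lit 116)) (rf (nat_lit 0)))))) q57967 (by decide +kernel)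
def q57990 : Q := Q.p (nat_lit 0x300000e0000000000c00000000000000000000000000000000000) (nat_lit 0x100000c00000000007f0001380004f00000000000000000000000000000) (nat_lit 8)
theorem c57990 : QOK q57990 := cut [q5807, q57937] ⟨c5807, c57937, trivial⟩ (nd (nat_lit 141) (nat_lit 0) (cs (rf (nat_lit 0)) (cs (rf (nat_lit 1)) (nd (nat_lit 210) (nat_lit 0) (cs (lf (nat_lit 18) (nat_lit 185)) (nd (nat_lit 165) (nat_lit 0) (cs (lf (nat_lit 29) (nat_lit 143)) (nd (nat_lit 122) (nat_lit 0) (cs (lf (nat_lit 34) (nat_lit 121)) (nd (nat_lit 140) (nat_lit 0) (cs (lf (nat_lit 5) (nat_lit 140)) (nd (nat_lit 161) (nat_lit 0) (cs (lf (nat_lit 10) (nat_lit 139)) (nd (nat_lit 139) (nat_lit 0) (cs (lf (nat_lit 11) (nat_lit 138)) (lf (nat_lit 4) (nat_lit 139))))))))))))))))) q57990 (by decide +kernel)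
def q58001 : Q := Q.p (nat_lit 0xb00001c0000000001000000000000000000000000000000000000) (nat_lit 0x20000000000600001c00000000004000000000000000000000000000000) (nat_lit 4)
theorem c58001 : QOK q58001 := cut [q19294] ⟨c19294, trivial⟩ (nd (nat_lit 189) (nat_lit 0) (cs (lf (nat_lit 6) (nat_lit 186)) (rf (nat_lit 0)))) q58001 (by decide +kernel)
def q58002 : Q := Q.p (nat_lit 0xb00001c0000000001000000000000000000000000000000000000) (nat_lit 0x1000004000060000180000200000c000000000000000000000000000000) (nat_lit 5)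
theorem c58002 : QOK q58002 := cut [q19297] ⟨c19297, trivial⟩ (nd (nat_lit 189) (nat_lit 0) (cs (lf (nat_lit 6) (nat_lit 186)) (rf (nat_lit 0)))) q58002 (by decide +kernel)
def q58043 : Q := Q.p (nat_lit 0x100000e0000000000000000000000000000000000000000000000) (nat_lit 0xe7000118000e70000000000000000000000000000000000000000) (nat_lit 7)
theorem c58043 : QOK q58043 := cut [q9201, q19155, q58040] ⟨c9201, c19155, c58040, trivial⟩ (nd (nat_lit 184) (nat_lit 0) (cs (rf (nat_lit 0)) (cs (rf (nat_lit 1)) (nd (nat_lit 161) (nat_lit 0) (cs (lf (nat_lit 22) (nat_lit 161)) (nd (nat_lit 205) (nat_lit 0) (cs (lf (nat_lit 10) (nat_lit 183)) (rf (nat_lit 2))))))))) q58043 (by decide +kernel)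
def q58055 : Q := Q.p (nat_lit 0x10000040000100000400000000000000000000000000000) (nat_lit 0x800006000008000000000080000200000800000000000000000000000) (nat_lit 4)
theorem c58055 : QOK q58055 := cut [q39297] ⟨c39297, trivial⟩ (nd (nat_lit 117) (nat_lit 0) (cs (lf (nat_lit 47) (nat_lit 95)) (rf (nat_lit 0)))) q58055 (by decide +kernel)
def q58102 : Q := Q.p (nat_lit 0xe0000000000e00000000000000000000000000000000000) (nat_lit 0x1000000e0001180007700000000000000000000000000000) (nat_lit 5)
theorem c58102 : QOK q58102 := cut [q34444, q58100] ⟨c34444, c58100, trivial⟩ (nd (nat_lit 140) (nat_lit 0) (cs (rf (nat_lit 0)) (rf (nat_lit 1)))) q58102 (by decide +kernel)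
def q58176 : Q := Q.p (nat_lit 0x20000180000000001c00000000000000000000000000000000000) (nat_lit 0x40000220003c000000000000000000000000000000) (nat_lit 4)
theorem c58176 : QOK q58176 := cut [q58175] ⟨c58175, trivial⟩ (nd (nat_lit 122) (nat_lit 0) (cs (lf (nat_lit 38) (nat_lit 121)) (rf (nat_lit 0)))) q58176 (by decide +kernel)
def q58182 : Q := Q.p (nat_lit 0x200000c0000000001c00000000000000000000000000000000000) (nat_lit 0x100002200001e00000000000000000000000000000) (nat_lit 4)
theorem c58182 : QOK q58182 := cut [q58181] ⟨c58181, trivial⟩ (nd (nat_lit 120) (nat_lit 0) (cs (lf (nat_lit 26) (nat_lit 120)) (rf (nat_lit 0)))) q58182 (by decide +kernel)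
def q58185 : Q := Q.p (nat_lit 0x20000080000000001c00000000000000000000000000000000000) (nat_lit 0x20000220003c000000000000000000000000000000) (nat_lit 4)
theorem c58185 : QOK q58185 := cut [q58175] ⟨c58175, trivial⟩ (nd (nat_lit 122) (nat_lit 0) (cs (lf (nat_lit 32) (nat_lit 121)) (rf (nat_lit 0)))) q58185 (by decide +kernel)
def q58222 : Q := Q.p (nat_lit 0x100000c0000180000400000000000000000000000000000000000) (nat_lit 0x60001a00002800000000000000000000000000000) (nat_lit 4)
theorem c58222 : QOK q58222 := cut [q39217] ⟨c39217, trivial⟩ (nd (nat_lit 162) (nat_lit 0) (cs (lf (nat_lit 0) (nat_lit 161)) (rf (nat_lit 0)))) q58222 (by decide +kernel)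
def q58237 : Q := Q.p (nat_lit 0xb00003c0000900000000000000000000000000000000000000000) (nat_lit 0x18000060000040000000000600000e00003800000000000000000000000000000) (nat_lit 7)
theorem c58237 : QOK q58237 := cut [q4710] ⟨c4710, trivial⟩ (nd (nat_lit 142) (nat_lit 0) (cs (lf (nat_lit 24) (nat_lit 120)) (nd (nat_lit 121) (nat_lit 0) (cs (lf (nat_lit 34) (nat_lit 120)) (nd (nat_lit 141) (nat_lit 0) (cs (lf (nat_lit 47) (nat_lit 119)) (nd (nat_lit 166) (nat_lit 0) (cs (rf (nat_lit 0)) (lf (nat_lit 20) (nat_lit 141)))))))))) q58237 (by decide +kernel)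
def q58259 : Q := Q.p (nat_lit 0x300001c0000000000000000000000000000000000000000000000) (nat_lit 0x700001c00006000007e0003f0000fe00000000000000000000000000000) (nat_lit 9)
theorem c58259 : QOK q58259 := cut [q57995, q58220, q58187, q58242, q57982, q58181, q8182, q8399, q58258] ⟨c57995, c58220, c58187, c58242, c57982, c58181, c8182, c8399, c58258, trivial⟩ (nd (nat_lit 143) (nat_lit 0) (cs (rf (nat_lit 0)) (cs (rf (nat_lit 1)) (cs (nd (nat_lit 144) (nat_lit 0) (cs (rf (nat_lit 2)) (cs (nd (nat_lit 122) (nat_lit 0) (cs (lf (nat_lit 38) (nat_lit 121)) (nd (nat_lit 189) (nat_lit 0) (cs (lf (nat_lit 6) (nat_lit 186)) (nd (nat_lit 211) (nat_lit 0) (cs (lf (nat_lit 5) (nat_lit 186)) (nd (nat_lit 164) (nat_lit 0) (cs (lf (nat_lit 23) (nat_lit 163)) (nd (nat_lit 142) (nat_lit 0) (cs (lf (nat_lit 24) (nat_lit 120)) (rf (nat_lit 3)))))))))))) (nd (nat_lit 142) (nat_lit 0) (cs (rf (nat_lit 4)) (cs (nd (nat_lit 189) (nat_lit 0) (cs (lf (nat_lit 6) (nat_lit 186)) (nd (nat_lit 211) (nat_lit 0) (cs (lf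 (nat_lit 5) (nat_lit 186)) (nd (nat_lit 120) (nat_lit 0) (cs (lf (nat_lit 44) (nat_lit 120)) (rf (nat_lit 5)))))))) (nd (nat_lit 141) (nat_lit 0) (cs (rf (nat_lit 6)) (cs (rf (nat_lit 7)) (nd (nat_lit 189) (nat_lit 0) (cs (lf (nat_lit 6) (nat_lit 186)) (nd (nat_lit 163) (nat_lit 0) (cs (lf (nat_lit 11) (nat_lit 140)) (lf (nat_lit 22) (nat_lit 163))))))))))))))) (rf (nat_lit 8)))))) q58259 (by decide +kernel)
def q58281 : Q := Q.p (nat_lit 0x300001c0000100000000000000000000000000000000000000000) (nat_lit 0x700001c0000200000680003e00007800000000000000000000000000000) (nat_lit 7)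
theorem c58281 : QOK q58281 := cut [q10427, q58220, q58187] ⟨c10427, c58220, c58187, trivial⟩ (nd (nat_lit 143) (nat_lit 0) (cs (rf (nat_lit 0)) (cs (rf (nat_lit 1)) (nd (nat_lit 142) (nat_lit 0) (cs (lf (nat_lit 24) (nat_lit 120)) (nd (nat_lit 119) (nat_lit 0) (cs (lf (nat_lit 46) (nat_lit 119)) (nd (nat_lit 163) (nat_lit 0) (cs (lf (nat_lit 18) (nat_lit 163)) (nd (nat_lit 144) (nat_lit 0) (cs (lf (nat_lit 6) (nat_lit 141)) (rf (nat_lit 2))))))))))))) q58281 (by decide +kernel)
def q58315 : Q := Q.p (nat_lit 0x8000024000000000100001c0000000000000000000000000000000000000000000000) (nat_lit 0x90001a60006380001c0000200000800000000000000000000000000000) (nat_lit 9)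
theorem c58315 : QOK q58315 := cut [q58309] ⟨c58309, trivial⟩ (nd (nat_lit 209) (nat_lit 0) (cs (lf (nat_lit 44) (nat_lit 186)) (nd (nat_lit 189) (nat_lit 0) (cs (lf (nat_lit 6) (nat_lit 186)) (nd (nat_lit 211) (nat_lit 0) (cs (lf (nat_lit 5) (nat_lit 186)) (nd (nat_lit 163) (nat_lit 0) (cs (lf (nat_lit 22) (nat_lit 163)) (nd (nat_lit 185) (nat_lit 0) (cs (lf (nat_lit 23) (nat_lit 162)) (nd (nat_lit 119) (nat_lit 0) (cs (lf (nat_lit 25) (nat_lit 119)) (rf (nat_lit 0)))))))))))))) q58315 (by decide +kernel)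
def q58319 : Q := Q.p (nat_lit 0x8000020000000000100001c0000000000000000000000000000000000000000000000) (nat_lit 0x80000680001e0000620000400001000000000000000000000000000000000000) (nat_lit 7)
theorem c58319 : QOK q58319 := cut [q15137] ⟨c15137, trivial⟩ (nd (nat_lit 209) (nat_lit 0) (cs (lf (nat_lit 44) (nat_lit 186)) (nd (nat_lit 189) (nat_lit 0) (cs (lf (nat_lit 6) (nat_lit 186)) (nd (nat_lit 211) (nat_lit 0) (cs (lf (nat_lit 5) (nat_lit 186)) (nd (nat_lit 210) (nat_lit 0) (cs (lf (nat_lit 0) (nat_lit 185)) (rf (nat_lit 0)))))))))) q58319 (by decide +kernel)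
def q58342 : Q := Q.p (nat_lit 0x8000020000000000100001c0000000000000000000000000000000000000000000000) (nat_lit 0x80000600006380001c0000000000000000000000000000000000000000) (nat_lit 6)
theorem c58342 : QOK q58342 := cut [q20936] ⟨c20936, trivial⟩ (nd (nat_lit 209) (nat_lit 0) (cs (lf (nat_lit 44) (nat_lit 186)) (nd (nat_lit 189) (nat_lit 0) (cs (lf (nat_lit 6) (nat_lit 186)) (nd (nat_lit 163) (nat_lit 0) (cs (lf (nat_lit 22) (nat_lit 163)) (rf (nat_lit 0)))))))) q58342 (by decide +kernel)
def q58356 : Q := Q.p (nat_lit 0x300000e0000000000000000000000000000000000000000000000) (nat_lit 0x10000040000700001fc000ff0000f800000000000000000000000000000) (nat_lit 10)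
theorem c58356 : QOK q58356 := cut [q7508, q7632, q8489, q8354, q7057] ⟨c7508, c7632, c8489, c8354, c7057, trivial⟩ (nd (nat_lit 188) (nat_lit 0) (cs (rf (nat_lit 0)) (cs (rf (nat_lit 1)) (nd (nat_lit 166) (nat_lit 0) (cs (lf (nat_lit 17) (nat_lit 163)) (nd (nat_lit 165) (nat_lit 0) (cs (nd (nat_lit 143) (nat_lit 0) (cs (lf (nat_lit 36) (nat_lit 120)) (nd (nat_lit 144) (nat_lit 0) (cs (lf (nat_lit 36) (nat_lit 121)) (nd (nat_lit 210) (nat_lit 0) (cs (lf (nat_lit 29) (nat_lit 143)) (nd (nat_lit 120) (nat_lit 0) (cs (lf (nat_lit 46) (nat_lit 120)) (nd (nat_lit 145) (nat_lit 0) (cs (lf (nat_lit 35) (nat_lit 122)) (rf (nat_lit 2)))))))))))) (cs (nd (nat_lit 144) (nat_lit 0) (cs (lf (nat_lit 36) (nat_lit 121)) (nd (nat_lit 163) (nat_lit 0) (cs (lf (nat_lit 23) (nat_lit 162)) (nd (nat_lit 164) (nat_lit 0) (cs (lf (nat_lit 17) (nat_lit 141)) (rf (nat_lit 3)))))))) (nd (nat_lit 143) (nat_lit 0) (cs (lf (nat_lit 36) (nat_lit 120)) (nd (nat_lit 210) (nat_lit 0) (cs (lf (nat_lit 42) (nat_lit 143))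 (rf (nat_lit 4)))))))))))))) q58356 (by decide +kernel)
def q58373 : Q := Q.p (nat_lit 0x8000020000000000100001c0000000000000000000000000000000000000000000000) (nat_lit 0x8000060000638001c00000000000000000000000000000000000000000) (nat_lit 6)
theorem c58373 : QOK q58373 := cut [q8144] ⟨c8144, trivial⟩ (nd (nat_lit 209) (nat_lit 0) (cs (lf (nat_lit 44) (nat_lit 186)) (rf (nat_lit 0)))) q58373 (by decide +kernel)
def q58384 : Q := Q.p (nat_lit 0x3c0000800002000000000000000000000000000000000000) (nat_lit 0x18000000000000000500001c000050000000000000000000000000) (nat_lit 5)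
theorem c58384 : QOK q58384 := cut [q9961] ⟨c9961, trivial⟩ (nd (nat_lit 211) (nat_lit 0) (cs (lf (nat_lit 5) (nat_lit 186)) (rf (nat_lit 0)))) q58384 (by decide +kernel)
def q58398 : Q := Q.p (nat_lit 0x300000c0000300000000000000000000000000000000000000000) (nat_lit 0xc80000780001800000000000000000000000000000) (nat_lit 5)
theorem c58398 : QOK q58398 := cut [q58397] ⟨c58397, trivial⟩ (nd (nat_lit 142) (nat_lit 0) (cs (lf (nat_lit 24) (nat_lit 120)) (rf (nat_lit 0)))) q58398 (by decide +kernel)
def q58437 : Q := Q.p (nat_lit 0xc00003c0000300000000000000000000000000000000000) (nat_lit 0x1800006000038000000000000000000000000000000000000000000000) (nat_lit 4)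
theorem c58437 : QOK q58437 := cut [q33412] ⟨c33412, trivial⟩ (nd (nat_lit 184) (nat_lit 0) (cs (lf (nat_lit 11) (nat_lit 161)) (rf (nat_lit 0)))) q58437 (by decide +kernel)
def q58450 : Q := Q.p (nat_lit 0x300000e0000000000000000000000000000000000000000000000) (nat_lit 0x100001c0000700001fc000f80000e000000000000000000000000000000) (nat_lit 10)
theorem c58450 : QOK q58450 := cut [q7508, q7632, q326, q8495] ⟨c7508, c7632, c326, c8495, trivial⟩ (nd (nat_lit 188) (nat_lit 0) (cs (rf (nat_lit 0)) (cs (rf (nat_lit 1)) (nd (nat_lit 210) (nat_lit 0) (cs (rf (nat_lit 2)) (rf (nat_lit 3))))))) q58450 (by decide +kernel)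
def q58456 : Q := Q.p (nat_lit 0x2000000000010000040000100000000000000000000000000000000000000000) (nat_lit 0x80000e000000000000000280000e00002800000000000000000000000000000) (nat_lit 6)
theorem c58456 : QOK q58456 := cut [q630] ⟨c630, trivial⟩ (nd (nat_lit 230) (nat_lit 0) (cs (lf (nat_lit 28) (nat_lit 164)) (nd (nat_lit 229) (nat_lit 0) (cs (lf (nat_lit 41) (nat_lit 163)) (rf (nat_lit 0)))))) q58456 (by decide +kernel)
def q58475 : Q := Q.p (nat_lit 0x800003c00000000010000000000000000000000000000000000000000000000000000) (nat_lit 0x1000004000000000198000200000c0000000000000000000000000000000000000000000000) (nat_lit 5)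
theorem c58475 : QOK q58475 := cut [q6234] ⟨c6234, trivial⟩ (nd (nat_lit 227) (nat_lit 0) (cs (lf (nat_lit 22) (nat_lit 227)) (rf (nat_lit 0)))) q58475 (by decide +kernel)
def q58479 : Q := Q.p (nat_lit 0x20000a00000c00000000000000000000000000000000000000000000000000000000000000) (nat_lit 0x200001d0001400000000003000004000010000000000000000000000000000000000000000000000) (nat_lit 4)
theorem c58479 : QOK q58479 := cut [q14478, q12717] ⟨c14478, c12717, trivial⟩ (nd (nat_lit 295) (nat_lit 0) (cs (rf (nat_lit 0)) (nd (nat_lit 274) (nat_lit 0) (cs (lf (nat_lit 18) (nat_lit 250)) (rf (nat_lit 1)))))) q58479 (by decide +kernel)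
def q58568 : Q := Q.p (nat_lit 0x20000800002c00001000010000000000000000000000000000000000000000000000000000) (nat_lit 0xff0001d800137000100001a0000260000f80000e0000280000000000000000000000000000000000) (nat_lit 11)
theorem c58568 : QOK q58568 := cut [q40537, q17191, q18545, q58539, q58544, q58551, q58556, q58557, q44140] ⟨c40537, c17191, c18545, c58539, c58544, c58551, c58556, c58557, c44140, trivial⟩ (nd (nat_lit 295) (nat_lit 0) (cs (rf (nat_lit 0)) (cs (nd (nat_lit 206) (nat_lit 0) (cs (nd (nat_lit 273) (nat_lit 0) (cs (lf (nat_lit 24) (nat_lit 184)) (lf (nat_lit 45) (nat_lit 206)))) (cs (nd (nat_lit 273) (nat_lit 0) (cs (lf (nat_lit 45) (nat_lit 206)) (lf (nat_lit 27) (nat_lit 206)))) (cs (nd (nat_lit 184) (nat_lit 0) (cs (rf (nat_lit 1)) (cs (nd (nat_lit 252) (nat_lit 0) (cs (lf (nat_lit 5) (nat_lit 250)) (nd (nat_lit 231) (nat_lit 0) (cs (lf (nat_lit 17) (nat_lit 228)) (nd (nat_lit 186) (nat_lit 0) (cs (lf (nat_lit 45) (nat_lit 186)) (nd (nat_lit 185) (nat_lit 0) (cs (lf (nat_lit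 35) (nat_lit 162)) (nd (nat_lit 183) (nat_lit 0) (cs (lf (nat_lit 47) (nat_lit 161)) (nd (nat_lit 205) (nat_lit 0) (cs (lf (nat_lit 42) (nat_lit 183)) (lf (nat_lit 6) (nat_lit 183)))))))))))))) (nd (nat_lit 161) (nat_lit 0) (cs (lf (nat_lit 46) (nat_lit 161)) (rf (nat_lit 2))))))) (nd (nat_lit 273) (nat_lit 0) (cs (lf (nat_lit 24) (nat_lit 184)) (lf (nat_lit 27) (nat_lit 206)))))))) (nd (nat_lit 294) (nat_lit 0) (cs (nd (nat_lit 272) (nat_lit 0) (cs (lf (nat_lit 29) (nat_lit 228)) (lf (nat_lit 41) (nat_lit 227)))) (cs (nd (nat_lit 252) (nat_lit 0) (cs (lf (nat_lit 5) (nat_lit 250)) (nd (nat_lit 231) (nat_lit 0) (cs (lf (nat_lit 17) (nat_lit 228)) (nd (nat_lit 186) (nat_lit 0) (cs (lf (nat_lit 45) (nat_lit 186)) (nd (nat_lit 317) (nat_lit 0) (cs (lf (nat_lit 26) (nat_lit 228)) (rf (nat_lit 3)))))))))) (cs (nd (nat_lit 252) (nat_lit 0) (cs (lf (nat_lit 5) (nat_lit 250)) (nd (nat_lit 231) (nat_lit 0) (cs (lf (nat_lit 17) (nat_lit 228)) (nd (nat_lit 186) (nat_lit 0) (cs (lf (nat_lit 45) (nat_lit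 186)) (nd (nat_lit 315) (nat_lit 0) (cs (lf (nat_lit 38) (nat_lit 227)) (rf (nat_lit 4)))))))))) (nd (nat_lit 292) (nat_lit 0) (cs (nd (nat_lit 252) (nat_lit 0) (cs (lf (nat_lit 5) (nat_lit 250)) (nd (nat_lit 231) (nat_lit 0) (cs (lf (nat_lit 17) (nat_lit 228)) (nd (nat_lit 186) (nat_lit 0) (cs (lf (nat_lit 45) (nat_lit 186)) (rf (nat_lit 5)))))))) (cs (rf (nat_lit 6)) (cs (nd (nat_lit 318) (nat_lit 0) (cs (lf (nat_lit 4) (nat_lit 292)) (nd (nat_lit 269) (nat_lit 0) (cs (lf (nat_lit 22) (nat_lit 269)) (nd (nat_lit 252) (nat_lit 0) (cs (lf (nat_lit 5) (nat_lit 250)) (nd (nat_lit 231) (nat_lit 0) (cs (lf (nat_lit 17) (nat_lit 228)) (nd (nat_lit 186) (nat_lit 0) (cs (lf (nat_lit 45) (nat_lit 186)) (rf (nat_lit 7)))))))))))) (nd (nat_lit 252) (nat_lit 0) (cs (lf (nat_lit 5) (nat_lit 250)) (nd (nat_lit 231) (nat_lit 0) (cs (lf (nat_lit 17) (nat_lit 228)) (nd (nat_lit 186) (nat_lit 0) (cs (lf (nat_lit 45) (nat_lit 186)) (rf (nat_lit 8))))))))))))))))))) q58568 (by decide +kernel)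
def q58569 : Q := Q.p (nat_lit 0x4000010000040000100000000000000000000000000000000000000000000000000000000000000000000) (nat_lit 0xa0000380000a000000000000000000000000000000000000000000000000000000000000000000000000000000000000) (nat_lit 4)
theorem c58569 : QOK q58569 := cut [q28150] ⟨c28150, trivial⟩ (nd (nat_lit 361) (nat_lit 0) (cs (rf (nat_lit 0)) (lf (nat_lit 28) (nat_lit 272)))) q58569 (by decide +kernel)
def q58631 : Q := Q.p (nat_lit 0xf0000000000c00001000000000000000000000000000000000000000000000000000000000) (nat_lit 0x1b80000c0002780003e0002f80007e0003a000000000000000000000000000000000000000000000) (nat_lit 11)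
theorem c58631 : QOK q58631 := cut [q58572, q58582, q44930, q58606, q58615] ⟨c58572, c58582, c44930, c58606, c58615, trivial⟩ (nd (nat_lit 226) (nat_lit 0) (cs (nd (nat_lit 269) (nat_lit 0) (cs (lf (nat_lit 22) (nat_lit 269)) (nd (nat_lit 291) (nat_lit 0) (cs (lf (nat_lit 23) (nat_lit 268)) (nd (nat_lit 225) (nat_lit 0) (cs (nd (nat_lit 247) (nat_lit 0) (cs (lf (nat_lit 35) (nat_lit 203)) (rf (nat_lit 0)))) (lf (nat_lit 2) (nat_lit 225)))))))) (cs (nd (nat_lit 270) (nat_lit 0) (cs (lf (nat_lit 23) (nat_lit 269)) (nd (nat_lit 248) (nat_lit 0) (cs (lf (nat_lit 29) (nat_lit 226)) (nd (nat_lit 291) (nat_lit 0) (cs (lf (nat_lit 41) (nat_lit 225)) (rf (nat_lit 1)))))))) (cs (nd (nat_lit 269) (nat_lit 0) (cs (lf (nat_lit 22) (nat_lit 269)) (nd (nat_lit 291) (nat_lit 0) (cs (lf (nat_lit 23) (nat_lit 268)) (nd (nat_lit 313) (nat_lit 0) (cs (lf (nat_lit 11) (nat_lit 290)) (nd (nat_lit 247) (nat_lit 0) (cs (lf (nat_lit 34) (nat_lit 225)) (nd (nat_lit 224) (nat_lit 0) (cs (lf (nat_lit 46) (nat_lit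 224)) (nd (nat_lit 225) (nat_lit 0) (cs (lf (nat_lit 47) (nat_lit 202)) (lf (nat_lit 35) (nat_lit 203)))))))))))))) (cs (nd (nat_lit 225) (nat_lit 0) (cs (lf (nat_lit 2) (nat_lit 225)) (nd (nat_lit 248) (nat_lit 0) (cs (lf (nat_lit 20) (nat_lit 225)) (nd (nat_lit 270) (nat_lit 0) (cs (lf (nat_lit 29) (nat_lit 226)) (lf (nat_lit 47) (nat_lit 203)))))))) (nd (nat_lit 291) (nat_lit 0) (cs (rf (nat_lit 2)) (cs (nd (nat_lit 247) (nat_lit 0) (cs (nd (nat_lit 312) (nat_lit 0) (cs (lf (nat_lit 10) (nat_lit 290)) (nd (nat_lit 290) (nat_lit 0) (cs (lf (nat_lit 11) (nat_lit 289)) (nd (nat_lit 316) (nat_lit 0) (cs (nd (nat_lit 229) (nat_lit 0) (cs (nd (nat_lit 248) (nat_lit 0) (cs (lf (nat_lit 8) (nat_lit 225)) (lf (nat_lit 14) (nat_lit 225)))) (lf (nat_lit 38) (nat_lit 228)))) (lf (nat_lit 4) (nat_lit 290)))))))) (cs (nd (nat_lit 313) (nat_lit 0) (cs (lf (nat_lit 11) (nat_lit 290)) (nd (nat_lit 248) (nat_lit 0) (cs (lf (nat_lit 32) (nat_lit 225)) (nd (nat_lit 249) (nat_lit 0) (cs (lf (nat_lit 23)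 (nat_lit 225)) (lf (nat_lit 17) (nat_lit 225)))))))) (cs (nd (nat_lit 227) (nat_lit 0) (cs (lf (nat_lit 0) (nat_lit 225)) (nd (nat_lit 229) (nat_lit 0) (cs (lf (nat_lit 10) (nat_lit 225)) (rf (nat_lit 3)))))) (nd (nat_lit 225) (nat_lit 0) (cs (lf (nat_lit 2) (nat_lit 225)) (nd (nat_lit 269) (nat_lit 0) (cs (lf (nat_lit 35) (nat_lit 203)) (rf (nat_lit 0)))))))))) (cs (nd (nat_lit 312) (nat_lit 0) (cs (lf (nat_lit 10) (nat_lit 290)) (nd (nat_lit 290) (nat_lit 0) (cs (lf (nat_lit 11) (nat_lit 289)) (nd (nat_lit 268) (nat_lit 0) (cs (lf (nat_lit 23) (nat_lit 267)) (nd (nat_lit 315) (nat_lit 0) (cs (lf (nat_lit 5) (nat_lit 290)) (nd (nat_lit 225) (nat_lit 0) (cs (lf (nat_lit 2) (nat_lit 225)) (rf (nat_lit 4)))))))))))) (cs (nd (nat_lit 268) (nat_lit 0) (cs (lf (nat_lit 22) (nat_lit 268)) (nd (nat_lit 225) (nat_lit 0) (cs (lf (nat_lit 2) (nat_lit 225)) (nd (nat_lit 248) (nat_lit 0) (cs (lf (nat_lit 20) (nat_lit 225)) (nd (nat_lit 290) (nat_lit 0) (cs (lf (nat_lit 23) (nat_lit 267)) (nd (nat_lit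 312) (nat_lit 0) (cs (lf (nat_lit 11) (nat_lit 289)) (rf (nat_lit 4)))))))))))) (nd (nat_lit 269) (nat_lit 0) (cs (lf (nat_lit 23) (nat_lit 268)) (nd (nat_lit 225) (nat_lit 0) (cs (lf (nat_lit 2) (nat_lit 225)) (nd (nat_lit 247) (nat_lit 0) (cs (lf (nat_lit 35) (nat_lit 203)) (nd (nat_lit 248) (nat_lit 0) (cs (lf (nat_lit 20) (nat_lit 225)) (lf (nat_lit 30) (nat_lit 225)))))))))))))))))))) q58631 (by decide +kernel)
def q58693 : Q := Q.p (nat_lit 0xf0000000000400001000000000000000000000000000000000000000000000000000000000) (nat_lit 0x780007f8001fe0001e000100000040000380002e00000000000000000000000000000000000000000000000000000000) (nat_lit 11)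
theorem c58693 : QOK q58693 := cut [q58643, q58648, q58663] ⟨c58643, c58648, c58663, trivial⟩ (nd (nat_lit 314) (nat_lit 0) (cs (lf (nat_lit 11) (nat_lit 291)) (nd (nat_lit 315) (nat_lit 0) (cs (lf (nat_lit 6) (nat_lit 292)) (nd (nat_lit 336) (nat_lit 0) (cs (nd (nat_lit 358) (nat_lit 0) (cs (lf (nat_lit 30) (nat_lit 292)) (nd (nat_lit 359) (nat_lit 0) (cs (lf (nat_lit 29) (nat_lit 292)) (nd (nat_lit 357) (nat_lit 0) (cs (lf (nat_lit 41) (nat_lit 291)) (nd (nat_lit 270) (nat_lit 0) (cs (lf (nat_lit 40) (nat_lit 269)) (rf (nat_lit 0)))))))))) (cs (nd (nat_lit 358) (nat_lit 0) (cs (lf (nat_lit 30) (nat_lit 292)) (nd (nat_lit 357) (nat_lit 0) (cs (lf (nat_lit 41) (nat_lit 291)) (nd (nat_lit 270) (nat_lit 0) (cs (lf (nat_lit 40) (nat_lit 269)) (rf (nat_lit 1)))))))) (cs (nd (nat_lit 337) (nat_lit 0) (cs (nd (nat_lit 270) (nat_lit 0) (cs (lf (nat_lit 24) (nat_lit 248)) (lf (nat_lit 42) (nat_lit 270)))) (cs (nd (nat_lit 270) (nat_lit 0) (cs (lf (nat_lit 24) (nat_lit 248)) (nd (nat_lit 335) (nat_lit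 0) (cs (lf (nat_lit 41) (nat_lit 269)) (nd (nat_lit 334) (nat_lit 0) (cs (lf (nat_lit 17) (nat_lit 312)) (lf (nat_lit 12) (nat_lit 311)))))))) (rf (nat_lit 2))))) (cs (nd (nat_lit 358) (nat_lit 0) (cs (lf (nat_lit 30) (nat_lit 292)) (nd (nat_lit 359) (nat_lit 0) (cs (lf (nat_lit 29) (nat_lit 292)) (nd (nat_lit 270) (nat_lit 0) (cs (rf (nat_lit 0)) (lf (nat_lit 43) (nat_lit 270)))))))) (nd (nat_lit 337) (nat_lit 0) (cs (rf (nat_lit 2)) (cs (nd (nat_lit 358) (nat_lit 0) (cs (lf (nat_lit 30) (nat_lit 292)) (nd (nat_lit 357) (nat_lit 0) (cs (lf (nat_lit 41) (nat_lit 291)) (nd (nat_lit 338) (nat_lit 0) (cs (nd (nat_lit 356) (nat_lit 0) (cs (lf (nat_lit 12) (nat_lit 333)) (lf (nat_lit 9) (nat_lit 334)))) (lf (nat_lit 6) (nat_lit 335)))))))) (cs (nd (nat_lit 358) (nat_lit 0) (cs (lf (nat_lit 30) (nat_lit 292)) (nd (nat_lit 359) (nat_lit 0) (cs (lf (nat_lit 29) (nat_lit 292)) (nd (nat_lit 360) (nat_lit 0) (cs (lf (nat_lit 29) (nat_lit 293)) (nd (nat_lit 361) (nat_lit 0) (cs (lf (nat_lit 18) (nat_lit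 336)) (nd (nat_lit 339) (nat_lit 0) (cs (lf (nat_lit 17) (nat_lit 336)) (nd (nat_lit 357) (nat_lit 0) (cs (lf (nat_lit 41) (nat_lit 291)) (lf (nat_lit 16) (nat_lit 335)))))))))))))) (nd (nat_lit 358) (nat_lit 0) (cs (lf (nat_lit 30) (nat_lit 292)) (nd (nat_lit 357) (nat_lit 0) (cs (lf (nat_lit 41) (nat_lit 291)) (nd (nat_lit 355) (nat_lit 0) (cs (nd (nat_lit 359) (nat_lit 0) (cs (lf (nat_lit 29) (nat_lit 292)) (nd (nat_lit 360) (nat_lit 0) (cs (lf (nat_lit 29) (nat_lit 293)) (nd (nat_lit 335) (nat_lit 0) (cs (lf (nat_lit 0) (nat_lit 334)) (lf (nat_lit 18) (nat_lit 335)))))))) (lf (nat_lit 13) (nat_lit 333))))))))))))))))))))) q58693 (by decide +kernel)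
def q58769 : Q := Q.p (nat_lit 0x20000200000c00000000000000000000000000000000000000000000000000000000000000) (nat_lit 0x180001e0000ff8001dc000170000380003e00004800010000000000000000000000000000000000000000000000) (nat_lit 12)
theorem c58769 : QOK q58769 := cut [q14478, q56401, q56378, q58727, q58729, q44140, q58733, q58633, q986, q58755, q58761, q58768] ⟨c14478, c56401, c56378, c58727, c58729, c44140, c58733, c58633, c986, c58755, c58761, c58768, trivial⟩ (nd (nat_lit 295) (nat_lit 0) (cs (rf (nat_lit 0)) (cs (rf (nat_lit 1)) (cs (nd (nat_lit 294) (nat_lit 0) (cs (nd (nat_lit 292) (nat_lit 0) (cs (rf (nat_lit 2)) (cs (rf (nat_lit 3)) (nd (nat_lit 269) (nat_lit 0) (cs (lf (nat_lit 22) (nat_lit 269)) (rf (nat_lit 4))))))) (cs (nd (nat_lit 292) (nat_lit 0) (cs (rf (nat_lit 5)) (cs (rf (nat_lit 4)) (cs (nd (nat_lit 316) (nat_lit 0) (cs (lf (nat_lit 36) (nat_lit 228)) (nd (nat_lit 338) (nat_lit 0) (cs (lf (nat_lit 30) (nat_lit 272)) (nd (nat_lit 269) (nat_lit 0) (cs (lf (nat_lit 22) (nat_lit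 269)) (nd (nat_lit 291) (nat_lit 0) (cs (lf (nat_lit 23) (nat_lit 268)) (rf (nat_lit 6)))))))))) (nd (nat_lit 270) (nat_lit 0) (cs (lf (nat_lit 23) (nat_lit 269)) (nd (nat_lit 248) (nat_lit 0) (cs (rf (nat_lit 7)) (cs (nd (nat_lit 229) (nat_lit 0) (cs (lf (nat_lit 41) (nat_lit 228)) (nd (nat_lit 296) (nat_lit 0) (cs (lf (nat_lit 29) (nat_lit 229)) (nd (nat_lit 228) (nat_lit 0) (cs (lf (nat_lit 47) (nat_lit 206)) (nd (nat_lit 314) (nat_lit 0) (cs (lf (nat_lit 10) (nat_lit 292)) (nd (nat_lit 249) (nat_lit 0) (cs (lf (nat_lit 12) (nat_lit 225)) (lf (nat_lit 35) (nat_lit 226)))))))))))) (cs (nd (nat_lit 229) (nat_lit 0) (cs (lf (nat_lit 41) (nat_lit 228)) (nd (nat_lit 228) (nat_lit 0) (cs (lf (nat_lit 47) (nat_lit 206)) (nd (nat_lit 296) (nat_lit 0) (cs (lf (nat_lit 29) (nat_lit 229)) (nd (nat_lit 247) (nat_lit 0) (cs (lf (nat_lit 14) (nat_lit 225)) (nd (nat_lit 226) (nat_lit 0) (cs (rf (nat_lit 8)) (lf (nat_lit 8) (nat_lit 225)))))))))))) (nd (nat_lit 229) (nat_lit 0) (cs (lf (nat_lit 41)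 (nat_lit 228)) (nd (nat_lit 206) (nat_lit 0) (cs (lf (nat_lit 46) (nat_lit 206)) (nd (nat_lit 296) (nat_lit 0) (cs (lf (nat_lit 29) (nat_lit 229)) (nd (nat_lit 315) (nat_lit 0) (cs (lf (nat_lit 11) (nat_lit 292)) (lf (nat_lit 24) (nat_lit 226)))))))))))))))))))) (cs (nd (nat_lit 292) (nat_lit 0) (cs (rf (nat_lit 5)) (cs (rf (nat_lit 2)) (cs (rf (nat_lit 3)) (nd (nat_lit 269) (nat_lit 0) (cs (lf (nat_lit 22) (nat_lit 269)) (nd (nat_lit 314) (nat_lit 0) (cs (lf (nat_lit 11) (nat_lit 291)) (nd (nat_lit 315) (nat_lit 0) (cs (lf (nat_lit 6) (nat_lit 292)) (rf (nat_lit 9)))))))))))) (rf (nat_lit 10)))))) (rf (nat_lit 11)))))) q58769 (by decide +kernel)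
def q58793 : Q := Q.p (nat_lit 0x800002c00000000010000000000000000000000000000000000000000000000000000) (nat_lit 0x100001400001200018000020000040000000000000000000000000000000000000000000000) (nat_lit 5)
theorem c58793 : QOK q58793 := cut [q15684] ⟨c15684, trivial⟩ (nd (nat_lit 252) (nat_lit 0) (cs (lf (nat_lit 5) (nat_lit 250)) (nd (nat_lit 274) (nat_lit 0) (cs (lf (nat_lit 0) (nat_lit 249)) (rf (nat_lit 0)))))) q58793 (by decide +kernel)
def q58800 : Q := Q.p (nat_lit 0x20000080000e00000000000000000000000000000000000000000000000000000000000000) (nat_lit 0x4000010000040000000001e00007000014000000000000000000000000000000000000000000000) (nat_lit 5)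
theorem c58800 : QOK q58800 := cut [q57492, q58797, q58798] ⟨c57492, c58797, c58798, trivial⟩ (nd (nat_lit 227) (nat_lit 0) (cs (rf (nat_lit 0)) (cs (rf (nat_lit 1)) (nd (nat_lit 228) (nat_lit 0) (cs (lf (nat_lit 35) (nat_lit 205)) (rf (nat_lit 2))))))) q58800 (by decide +kernel)
def q58805 : Q := Q.p (nat_lit 0x4000020000080000600000000000000000000000000000000000000000000000000000000000000) (nat_lit 0x10000100000000000c0000700001c000040000000000000000000000000000000000000000) (nat_lit 6)
theorem c58805 : QOK q58805 := cut [q58804] ⟨c58804, trivial⟩ (nd (nat_lit 227) (nat_lit 0) (cs (lf (nat_lit 40) (nat_lit 226)) (rf (nat_lit 0)))) q58805 (by decide +kernel)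
def q58853 : Q := Q.p (nat_lit 0x60000100000400000000000000000000000000000000000000000000000000000000000000) (nat_lit 0x8000000000080000000001800006000008000000000000000000000000000000000000000000000) (nat_lit 4)
theorem c58853 : QOK q58853 := cut [q22947] ⟨c22947, trivial⟩ (nd (nat_lit 228) (nat_lit 0) (cs (lf (nat_lit 41) (nat_lit 227)) (rf (nat_lit 0)))) q58853 (by decide +kernel)
def q58855 : Q := Q.p (nat_lit 0x60000900000400000000000000000000000000000000000000000000000000000000000000) (nat_lit 0x28000080000600000000001000004000000000000000000000000000000000000000000000000000) (nat_lit 4)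
theorem c58855 : QOK q58855 := cut [q58854] ⟨c58854, trivial⟩ (nd (nat_lit 273) (nat_lit 0) (cs (lf (nat_lit 7) (nat_lit 271)) (rf (nat_lit 0)))) q58855 (by decide +kernel)
def q58856 : Q := Q.p (nat_lit 0x60000c00002000000000000000000000000000000000000000000000000000000000000000) (nat_lit 0x10000040000180000000001000008000020000000000000000000000000000000000000000000000000000) (nat_lit 4)
theorem c58856 : QOK q58856 := cut [q56192] ⟨c56192, trivial⟩ (nd (nat_lit 296) (nat_lit 0) (cs (lf (nat_lit 14) (nat_lit 271)) (rf (nat_lit 0)))) q58856 (by decide +kernel)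
def q58879 : Q := Q.p (nat_lit 0xf0000000000000000000000000000000000000000000000000000000000000000000000000) (nat_lit 0xee000100000000000000000000000000000000000000000000000000000000000000000000000000) (nat_lit 4)
theorem c58879 : QOK q58879 := cut [q58557] ⟨c58557, trivial⟩ (nd (nat_lit 318) (nat_lit 0) (cs (lf (nat_lit 4) (nat_lit 292)) (rf (nat_lit 0)))) q58879 (by decide +kernel)
def q58893 : Q := Q.p (nat_lit 0x60000900000400000000000000000000000000000000000000000000000000000000000000) (nat_lit 0x40000300000e000078000018000680000800002000000000000000000000000000000000000000000000000000000000) (nat_lit 7)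
theorem c58893 : QOK q58893 := cut [q58887, q58889, q56492] ⟨c58887, c58889, c56492, trivial⟩ (nd (nat_lit 316) (nat_lit 0) (cs (rf (nat_lit 0)) (cs (rf (nat_lit 1)) (nd (nat_lit 315) (nat_lit 0) (cs (lf (nat_lit 41) (nat_lit 249)) (nd (nat_lit 229) (nat_lit 0) (cs (lf (nat_lit 34) (nat_lit 228)) (nd (nat_lit 273) (nat_lit 0) (cs (lf (nat_lit 7) (nat_lit 271)) (rf (nat_lit 2))))))))))) q58893 (by decide +kernel)
def q58895 : Q := Q.p (nat_lit 0xe00002400000000000000000000000000000000000000000000000000000000000000) (nat_lit 0x1c00007000039800000000000000000000000000000000000000000000000000000000000000) (nat_lit 6)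
theorem c58895 : QOK q58895 := cut [q22798] ⟨c22798, trivial⟩ (nd (nat_lit 276) (nat_lit 0) (cs (lf (nat_lit 22) (nat_lit 250)) (rf (nat_lit 0)))) q58895 (by decide +kernel)
def q58898 : Q := Q.p (nat_lit 0x60000d00000400000000000000000000000000000000000000000000000000000000000000) (nat_lit 0x20000180000080000000001800006000008000000000000000000000000000000000000000000000) (nat_lit 5)
theorem c58898 : QOK q58898 := cut [q22947] ⟨c22947, trivial⟩ (nd (nat_lit 295) (nat_lit 0) (cs (lf (nat_lit 15) (nat_lit 271)) (nd (nat_lit 228) (nat_lit 0) (cs (lf (nat_lit 29) (nat_lit 228)) (rf (nat_lit 0)))))) q58898 (by decide +kernel)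
def q58908 : Q := Q.p (nat_lit 0x60000900002400000000000000000000000000000000000000000000000000000000000000) (nat_lit 0x80000f0000098001080001800003800006000008000000000000000000000000000000000000000000000) (nat_lit 7)
theorem c58908 : QOK q58908 := cut [q23069, q22947] ⟨c23069, c22947, trivial⟩ (nd (nat_lit 317) (nat_lit 0) (cs (nd (nat_lit 316) (nat_lit 0) (cs (lf (nat_lit 29) (nat_lit 250)) (nd (nat_lit 318) (nat_lit 0) (cs (lf (nat_lit 18) (nat_lit 293)) (nd (nat_lit 295) (nat_lit 0) (cs (lf (nat_lit 24) (nat_lit 228)) (lf (nat_lit 0) (nat_lit 292)))))))) (cs (nd (nat_lit 316) (nat_lit 0) (cs (lf (nat_lit 29) (nat_lit 250)) (nd (nat_lit 318) (nat_lit 0) (cs (lf (nat_lit 18) (nat_lit 293)) (nd (nat_lit 291) (nat_lit 0) (cs (rf (nat_lit 0)) (lf (nat_lit 1) (nat_lit 291)))))))) (nd (nat_lit 228) (nat_lit 0) (cs (lf (nat_lit 28) (nat_lit 228)) (rf (nat_lit 1))))))) q58908 (by decide +kernel)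
def q58926 : Q := Q.p (nat_lit 0x60000900002400000000000000000000000000000000000000000000000000000000000000) (nat_lit 0x40000300000e000038000000001680001800002000000000000000000000000000000000000000000000000000000000) (nat_lit 6)
theorem c58926 : QOK q58926 := cut [q23069, q58887, q58889] ⟨c23069, c58887, c58889, trivial⟩ (nd (nat_lit 316) (nat_lit 0) (cs (rf (nat_lit 0)) (cs (rf (nat_lit 1)) (rf (nat_lit 2))))) q58926 (by decide +kernel)
def q58936 : Q := Q.p (nat_lit 0x8000020000080000600000000000000000000000000000000000000000000000000000000000000) (nat_lit 0x3000004000000000070000900000400000000000000000000000000000000000000000000000000000000) (nat_lit 5)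
theorem c58936 : QOK q58936 := cut [q58935] ⟨c58935, trivial⟩ (nd (nat_lit 314) (nat_lit 0) (cs (lf (nat_lit 41) (nat_lit 248)) (rf (nat_lit 0)))) q58936 (by decide +kernel)
def q58995 : Q := Q.p (nat_lit 0x780000000000000000000000000000000000000000000000000000000000000) (nat_lit 0x38000040003800000000000000000000000000000000000000000000000000000000) (nat_lit 4)
theorem c58995 : QOK q58995 := cut [q17279] ⟨c17279, trivial⟩ (nd (nat_lit 228) (nat_lit 0) (cs (lf (nat_lit 17) (nat_lit 225)) (rf (nat_lit 0)))) q58995 (by decide +kernel)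
def q59005 : Q := Q.p (nat_lit 0x20000080002600000000000000000000000000000000000000000000000000000000000000) (nat_lit 0x14000050000040001800001e00007000014000000000000000000000000000000000000000000000) (nat_lit 7)
theorem c59005 : QOK q59005 := cut [q54925, q57492, q58797, q58798] ⟨c54925, c57492, c58797, c58798, trivial⟩ (nd (nat_lit 227) (nat_lit 0) (cs (rf (nat_lit 0)) (cs (rf (nat_lit 1)) (cs (rf (nat_lit 2)) (nd (nat_lit 294) (nat_lit 0) (cs (lf (nat_lit 29) (nat_lit 227)) (nd (nat_lit 228) (nat_lit 0) (cs (lf (nat_lit 35) (nat_lit 205)) (nd (nat_lit 292) (nat_lit 0) (cs (lf (nat_lit 41) (nat_lit 226)) (nd (nat_lit 251) (nat_lit 0) (cs (lf (nat_lit 19) (nat_lit 227)) (rf (nat_lit 3)))))))))))))) q59005 (by decide +kernel)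
def q59009 : Q := Q.p (nat_lit 0x20000080000600000000000000000000000000000000000000000000000000000000000000) (nat_lit 0x140000700001c000000000000000000001000000000000000000000000000000000000000000000000000000000) (nat_lit 5)
theorem c59009 : QOK q59009 := cut [q59008] ⟨c59008, trivial⟩ (nd (nat_lit 315) (nat_lit 0) (cs (lf (nat_lit 35) (nat_lit 227)) (rf (nat_lit 0)))) q59009 (by decide +kernel)
def q59011 : Q := Q.p (nat_lit 0x20000080000200000800000000000000000000000000000000000000000000000000000000) (nat_lit 0x4000010000040000000000400003000004000000000000000000000000000000000000000000000) (nat_lit 4)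
theorem c59011 : QOK q59011 := cut [q59010] ⟨c59010, trivial⟩ (nd (nat_lit 292) (nat_lit 0) (cs (lf (nat_lit 41) (nat_lit 226)) (rf (nat_lit 0)))) q59011 (by decide +kernel)
def q59056 : Q := Q.p (nat_lit 0x90000380000000000000000000000000000000000000000000000000000000000000) (nat_lit 0x480000600001c0000000000000000000000000000000000000000000000000000000) (nat_lit 4)
theorem c59056 : QOK q59056 := cut [q59055] ⟨c59055, trivial⟩ (nd (nat_lit 246) (nat_lit 0) (cs (lf (nat_lit 11) (nat_lit 245)) (rf (nat_lit 0)))) q59056 (by decide +kernel)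
def q59112 : Q := Q.p (nat_lit 0x8000020000080000200000000000000000000000000000000000000000000000000000000000000) (nat_lit 0x1400007000014000000000000000000000000000000000000000000000000000000000000000000000000000000) (nat_lit 4)
theorem c59112 : QOK q59112 := cut [q59111] ⟨c59111, trivial⟩ (nd (nat_lit 336) (nat_lit 0) (cs (lf (nat_lit 40) (nat_lit 248)) (rf (nat_lit 0)))) q59112 (by decide +kernel)
def q59172 : Q := Q.p (nat_lit 0x80000a0000780000000000000000000000000000000000000000000000000000000000000) (nat_lit 0x5e0001700004e000000003600007c00017000004000000000000000000000000000000000000000) (nat_lit 10)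
theorem c59172 : QOK q59172 := cut [q59148, q59153, q59156] ⟨c59148, c59153, c59156, trivial⟩ (nd (nat_lit 225) (nat_lit 0) (cs (rf (nat_lit 0)) (cs (nd (nat_lit 228) (nat_lit 0) (cs (lf (nat_lit 17) (nat_lit 225)) (nd (nat_lit 206) (nat_lit 0) (cs (lf (nat_lit 36) (nat_lit 183)) (rf (nat_lit 1)))))) (cs (nd (nat_lit 292) (nat_lit 0) (cs (lf (nat_lit 29) (nat_lit 225)) (nd (nat_lit 204) (nat_lit 0) (cs (lf (nat_lit 34) (nat_lit 203)) (nd (nat_lit 228) (nat_lit 0) (cs (lf (nat_lit 17) (nat_lit 225)) (nd (nat_lit 290) (nat_lit 0) (cs (lf (nat_lit 41) (nat_lit 224)) (nd (nat_lit 289) (nat_lit 0) (cs (nd (nat_lit 310) (nat_lit 0) (cs (nd (nat_lit 288) (nat_lit 0) (cs (rf (nat_lit 2)) (lf (nat_lit 11) (nat_lit 287)))) (lf (nat_lit 10) (nat_lit 288)))) (lf (nat_lit 16) (nat_lit 267)))))))))))) (nd (nat_lit 290) (nat_lit 0) (cs (lf (nat_lit 41) (nat_lit 224)) (nd (nat_lit 228) (nat_lit 0) (cs (lf (nat_lit 17) (nat_lit 225)) (nd (nat_lit 184) (nat_lit 0) (cs (lf (nat_lit 37) (nat_lit 183)) (nd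 (nat_lit 292) (nat_lit 0) (cs (lf (nat_lit 29) (nat_lit 225)) (nd (nat_lit 270) (nat_lit 0) (cs (lf (nat_lit 24) (nat_lit 203)) (lf (nat_lit 12) (nat_lit 267)))))))))))))))) q59172 (by decide +kernel)
def q59222 : Q := Q.p (nat_lit 0x800002780000000000000000000000000000000000000000000000000000000000000) (nat_lit 0x1470001800000000000000000000000000000000000000000000000000000000000000) (nat_lit 4)
theorem c59222 : QOK q59222 := cut [q59221] ⟨c59221, trivial⟩ (nd (nat_lit 269) (nat_lit 0) (cs (lf (nat_lit 11) (nat_lit 246)) (rf (nat_lit 0)))) q59222 (by decide +kernel)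
def q59248 : Q := Q.p (nat_lit 0x20000080000600000800000000000000000000000000000000000000000000000000000000) (nat_lit 0x1000004000000000000000100000780007c000070000140000000000000000000000000000000000) (nat_lit 7)
theorem c59248 : QOK q59248 := cut [q52305, q41030, q41174, q57188, q26954] ⟨c52305, c41030, c41174, c57188, c26954, trivial⟩ (nd (nat_lit 205) (nat_lit 0) (cs (rf (nat_lit 0)) (cs (nd (nat_lit 182) (nat_lit 0) (cs (lf (nat_lit 46) (nat_lit 182)) (nd (nat_lit 184) (nat_lit 0) (cs (lf (nat_lit 34) (nat_lit 183)) (nd (nat_lit 183) (nat_lit 0) (cs (lf (nat_lit 35) (nat_lit 161)) (lf (nat_lit 47) (nat_lit 160)))))))) (cs (nd (nat_lit 183) (nat_lit 0) (cs (rf (nat_lit 1)) (cs (rf (nat_lit 2)) (nd (nat_lit 182) (nat_lit 0) (cs (lf (nat_lit 47) (nat_lit 160)) (nd (nat_lit 204) (nat_lit 0) (cs (lf (nat_lit 42) (nat_lit 182)) (nd (nat_lit 184) (nat_lit 0) (cs (lf (nat_lit 35) (nat_lit 161)) (rf (nat_lit 3))))))))))) (nd (nat_lit 228) (nat_lit 0) (cs (lf (nat_lit 35) (nat_lit 205)) (nd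 (nat_lit 294) (nat_lit 0) (cs (lf (nat_lit 29) (nat_lit 227)) (nd (nat_lit 183) (nat_lit 0) (cs (lf (nat_lit 24) (nat_lit 161)) (rf (nat_lit 4)))))))))))) q59248 (by decide +kernel)
def q59258 : Q := Q.p (nat_lit 0x80000600000800002000000000000000000000000000000000000000000000000000) (nat_lit 0x100000100001c000070000100000000000000000000000000000000000) (nat_lit 5)
theorem c59258 : QOK q59258 := cut [q41174] ⟨c41174, trivial⟩ (nd (nat_lit 182) (nat_lit 0) (cs (lf (nat_lit 46) (nat_lit 182)) (nd (nat_lit 183) (nat_lit 0) (cs (lf (nat_lit 47) (nat_lit 160)) (rf (nat_lit 0)))))) q59258 (by decide +kernel)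
def q59262 : Q := Q.p (nat_lit 0x10000080000200000800000000000000000000000000000000000000000000000000000000) (nat_lit 0x4000000000000000700001c000050000000000000000000000000000000000000000) (nat_lit 5)
theorem c59262 : QOK q59262 := cut [q40962] ⟨c40962, trivial⟩ (nd (nat_lit 205) (nat_lit 0) (cs (lf (nat_lit 40) (nat_lit 204)) (rf (nat_lit 0)))) q59262 (by decide +kernel)
def q59268 : Q := Q.p (nat_lit 0x2000008000020000080000000000000000000000000000000000000000000000000000000000000000000) (nat_lit 0x100000c00001000000000010000040000100000000000000000000000000000000000000000000000000000000000000) (nat_lit 4)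
theorem c59268 : QOK q59268 := cut [q54655] ⟨c54655, trivial⟩ (nd (nat_lit 358) (nat_lit 0) (cs (rf (nat_lit 0)) (lf (nat_lit 40) (nat_lit 270)))) q59268 (by decide +kernel)
def q59272 : Q := Q.p (nat_lit 0x8000020000080000200000000000000000000000000000000000000000000000000000000000000) (nat_lit 0x400001c00007000004000010000040000100000000000000000000000000000000000000000000000000000000000000) (nat_lit 6)
theorem c59272 : QOK q59272 := cut [q55062] ⟨c55062, trivial⟩ (nd (nat_lit 336) (nat_lit 0) (cs (lf (nat_lit 40) (nat_lit 248)) (nd (nat_lit 337) (nat_lit 0) (cs (lf (nat_lit 41) (nat_lit 270)) (rf (nat_lit 0)))))) q59272 (by decide +kernel)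
def q59285 : Q := Q.p (nat_lit 0x8000020000080000600000000000000000000000000000000000000000000000000000000000000) (nat_lit 0xc000030000140000d0000070001900000800002000000000000000000000000000000000000000000000000000) (nat_lit 9)
theorem c59285 : QOK q59285 := cut [q59279] ⟨c59279, trivial⟩ (nd (nat_lit 336) (nat_lit 0) (cs (lf (nat_lit 40) (nat_lit 248)) (nd (nat_lit 337) (nat_lit 0) (cs (lf (nat_lit 41) (nat_lit 270)) (nd (nat_lit 270) (nat_lit 0) (cs (lf (nat_lit 47) (nat_lit 248)) (nd (nat_lit 251) (nat_lit 0) (cs (lf (nat_lit 6) (nat_lit 248)) (nd (nat_lit 292) (nat_lit 0) (cs (lf (nat_lit 42) (nat_lit 270)) (nd (nat_lit 227) (nat_lit 0) (cs (lf (nat_lit 36) (nat_lit 204)) (rf (nat_lit 0)))))))))))))) q59285 (by decide +kernel)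
def q59321 : Q := Q.p (nat_lit 0x20000080000600000000000000000000000000000000000000000000000000000000000000) (nat_lit 0x1400005c0000700001e0003f80007c00017000010000000000000000000000000000000000000000) (nat_lit 12)
theorem c59321 : QOK q59321 := cut [q54925, q57492, q58797, q41064, q52044, q47435, q47042, q59315] ⟨c54925, c57492, c58797, c41064, c52044, c47435, c47042, c59315, trivial⟩ (nd (nat_lit 227) (nat_lit 0) (cs (rf (nat_lit 0)) (cs (rf (nat_lit 1)) (cs (rf (nat_lit 2)) (nd (nat_lit 247) (nat_lit 0) (cs (nd (nat_lit 228) (nat_lit 0) (cs (rf (nat_lit 3)) (lf (nat_lit 35) (nat_lit 205)))) (cs (nd (nat_lit 228) (nat_lit 0) (cs (lf (nat_lit 35) (nat_lit 205)) (nd (nat_lit 292) (nat_lit 0) (cs (lf (nat_lit 41) (nat_lit 226)) (nd (nat_lit 294) (nat_lit 0) (cs (lf (nat_lit 29) (nat_lit 227)) (rf (nat_lit 4)))))))) (cs (nd (nat_lit 228) (nat_lit 0) (cs (lf (nat_lit 35) (nat_lit 205)) (nd (nat_lit 292) (nat_lit 0) (cs (lf (nat_lit 41) (nat_lit 226)) (nd (nat_lit 229) (nat_lit 0) (cs (lf (nat_lit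 13) (nat_lit 225)) (nd (nat_lit 294) (nat_lit 0) (cs (lf (nat_lit 29) (nat_lit 227)) (nd (nat_lit 226) (nat_lit 0) (cs (lf (nat_lit 47) (nat_lit 204)) (nd (nat_lit 225) (nat_lit 0) (cs (lf (nat_lit 0) (nat_lit 224)) (nd (nat_lit 203) (nat_lit 0) (cs (lf (nat_lit 23) (nat_lit 202)) (nd (nat_lit 269) (nat_lit 0) (cs (lf (nat_lit 28) (nat_lit 203)) (nd (nat_lit 268) (nat_lit 0) (cs (lf (nat_lit 41) (nat_lit 202)) (lf (nat_lit 21) (nat_lit 268)))))))))))))))))))) (nd (nat_lit 269) (nat_lit 0) (cs (rf (nat_lit 5)) (cs (nd (nat_lit 225) (nat_lit 0) (cs (rf (nat_lit 6)) (cs (nd (nat_lit 204) (nat_lit 0) (cs (lf (nat_lit 46) (nat_lit 204)) (nd (nat_lit 203) (nat_lit 0) (cs (lf (nat_lit 35) (nat_lit 181)) (nd (nat_lit 292) (nat_lit 0) (cs (lf (nat_lit 41) (nat_lit 226)) (lf (nat_lit 28) (nat_lit 203)))))))) (nd (nat_lit 292) (nat_lit 0) (cs (lf (nat_lit 41) (nat_lit 226)) (nd (nat_lit 203) (nat_lit 0) (cs (lf (nat_lit 28) (nat_lit 203)) (nd (nat_lit 182) (nat_lit 0) (cs (lf (nat_lit 34) (nat_lit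 181)) (nd (nat_lit 160) (nat_lit 0) (cs (lf (nat_lit 33) (nat_lit 159)) (nd (nat_lit 202) (nat_lit 0) (cs (lf (nat_lit 47) (nat_lit 180)) (nd (nat_lit 224) (nat_lit 0) (cs (lf (nat_lit 42) (nat_lit 202)) (lf (nat_lit 20) (nat_lit 224))))))))))))))))) (cs (nd (nat_lit 248) (nat_lit 0) (cs (lf (nat_lit 11) (nat_lit 246)) (nd (nat_lit 224) (nat_lit 0) (cs (lf (nat_lit 22) (nat_lit 224)) (nd (nat_lit 246) (nat_lit 0) (cs (lf (nat_lit 23) (nat_lit 223)) (nd (nat_lit 226) (nat_lit 0) (cs (lf (nat_lit 47) (nat_lit 204)) (lf (nat_lit 12) (nat_lit 223)))))))))) (nd (nat_lit 204) (nat_lit 0) (cs (lf (nat_lit 46) (nat_lit 204)) (nd (nat_lit 292) (nat_lit 0) (cs (lf (nat_lit 41) (nat_lit 226)) (nd (nat_lit 268) (nat_lit 0) (cs (lf (nat_lit 14) (nat_lit 246)) (rf (nat_lit 7)))))))))))))))))))) q59321 (by decide +kernel)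
def q59339 : Q := Q.p (nat_lit 0x20000080000200000000000000000000000000000000000000000000000000000000000000) (nat_lit 0x140000700001c000050000000000100000c00001000000000000000000000000000000000000000000000000000) (nat_lit 5)
theorem c59339 : QOK q59339 := cut [q58517, q59008, q59324] ⟨c58517, c59008, c59324, trivial⟩ (nd (nat_lit 315) (nat_lit 0) (cs (rf (nat_lit 0)) (cs (rf (nat_lit 1)) (rf (nat_lit 2))))) q59339 (by decide +kernel)
def q59341 : Q := Q.p (nat_lit 0x20000880002600000000000000000000000000000000000000000000000000000000000000) (nat_lit 0x540001d0001640001900008f00023000004000000000000000000000000000000000000000000000) (nat_lit 8)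
theorem c59341 : QOK q59341 := cut [q58797, q58932, q59334] ⟨c58797, c58932, c59334, trivial⟩ (nd (nat_lit 227) (nat_lit 0) (cs (rf (nat_lit 0)) (cs (rf (nat_lit 1)) (rf (nat_lit 2))))) q59341 (by decide +kernel)
def q59342 : Q := Q.p (nat_lit 0x20000080000600000000000000000000000000000000000000000000000000000000000000) (nat_lit 0x140000700001c000040000070000900000c00001000000000000000000000000000000000000000000000000000) (nat_lit 5)
theorem c59342 : QOK q59342 := cut [q58517, q58935, q59008] ⟨c58517, c58935, c59008, trivial⟩ (nd (nat_lit 315) (nat_lit 0) (cs (rf (nat_lit 0)) (cs (rf (nat_lit 1)) (rf (nat_lit 2))))) q59342 (by decide +kernel)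
def q59361 : Q := Q.p (nat_lit 0xe000020000080000200000000000000000000000000000000000000000000000000000000000000) (nat_lit 0x4e0001100000e000000000000000000000000000000000000000000000000000000000000000000000000) (nat_lit 5)
theorem c59361 : QOK q59361 := cut [q47155] ⟨c47155, trivial⟩ (nd (nat_lit 316) (nat_lit 0) (cs (lf (nat_lit 29) (nat_lit 249)) (rf (nat_lit 0)))) q59361 (by decide +kernel)

end Crest.Agent.H3.Snaky.CR
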