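import Crest.Agent.H3.Snaky.Cert
import Crest.Agent.H3.Snaky.CR.CR0
import Crest.Agent.H3.Snaky.CR.CR1
import Crest.Agent.H3.Snaky.CR.CR2
import Crest.Agent.H3.Snaky.CR.CR3
import Crest.Agent.H3.Snaky.CR.CR4
import Crest.Agent.H3.Snaky.CR.CR5
import Crest.Agent.H3.Snaky.CR.CR6
import Crest.Agent.H3.Snaky.CR.CR9
import Crest.Agent.H3.Snaky.CR.CR10
import Crest.Agent.H3.Snaky.CR.CR11
import Crest.Agent.H3.Snaky.CR.CR12
import Crest.Agent.H3.Snaky.CR.CR13
import Crest.Agent.H3.Snaky.CR.CR14
import Crest.Agent.H3.Snaky.CR.CR20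
import Crest.Agent.H3.Snaky.CR.CR21
import Crest.Agent.H3.Snaky.CR.CR22
import Crest.Agent.H3.Snaky.CR.CR23
import Crest.Agent.H3.Snaky.CR.CR24
import Crest.Agent.H3.Snaky.CR.CR25
import Crest.Agent.H3.Snaky.CR.CR26
import Crest.Agent.H3.Snaky.CR.CR27
import Crest.Agent.H3.Snaky.CR.CR28
import Crest.Agent.H3.Snaky.CR.CR29
import Crest.Agent.H3.Snaky.CR.CR30
import Crest.Agent.H3.Snaky.CR.CR31

set_option autoImplicit false
set_option maxRecDepth 100000

namespace Crest.Agent.H3.Snaky.CR

open T

def q59382 : Q := Q.p (nat_lit 0x300000c0000300000000000000000000000000000000000000000000000000000000000000) (nat_lit 0x18000078000c8000000000000000000000000000000000000000000000000000000000000000000000000) (nat_lit 5)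
theorem c59382 : QOK q59382 := cut [q59381] ⟨c59381, trivial⟩ (nd (nat_lit 314) (nat_lit 0) (cs (lf (nat_lit 30) (nat_lit 248)) (rf (nat_lit 0)))) q59382 (by decide +kernel)
def q59438 : Q := Q.p (nat_lit 0xe0000200000c00000000000000000000000000000000000000000000000000000000000000) (nat_lit 0x570001180000f0000380003e00005800002000008000000000000000000000000000000000000000) (nat_lit 10)
theorem c59438 : QOK q59438 := cut [q59409, q59416] ⟨c59409, c59416, trivial⟩ (nd (nat_lit 270) (nat_lit 0) (cs (nd (nat_lit 229) (nat_lit 0) (cs (lf (nat_lit 41) (nat_lit 228)) (nd (nat_lit 296) (nat_lit 0) (cs (lf (nat_lit 29) (nat_lit 229)) (lf (nat_lit 22) (nat_lit 270)))))) (cs (nd (nat_lit 248) (nat_lit 0) (cs (nd (nat_lit 269) (nat_lit 0) (cs (lf (nat_lit 8) (nat_lit 247)) (lf (nat_lit 21) (nat_lit 269)))) (cs (nd (nat_lit 226) (nat_lit 0) (cs (rf (nat_lit 0)) (cs (nd (nat_lit 229) (nat_lit 0) (cs (lf (nat_lit 41) (nat_lit 228)) (nd (nat_lit 228) (nat_lit 0) (cs (lf (nat_lit 47) (nat_lit 206)) (nd (nat_lit 247) (nat_lit 0) (cs (lf (nat_lit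 8) (nat_lit 225)) (lf (nat_lit 14) (nat_lit 225)))))))) (cs (nd (nat_lit 229) (nat_lit 0) (cs (lf (nat_lit 41) (nat_lit 228)) (nd (nat_lit 228) (nat_lit 0) (cs (lf (nat_lit 47) (nat_lit 206)) (nd (nat_lit 227) (nat_lit 0) (cs (lf (nat_lit 11) (nat_lit 225)) (lf (nat_lit 0) (nat_lit 225)))))))) (nd (nat_lit 229) (nat_lit 0) (cs (lf (nat_lit 41) (nat_lit 228)) (nd (nat_lit 206) (nat_lit 0) (cs (lf (nat_lit 46) (nat_lit 206)) (nd (nat_lit 296) (nat_lit 0) (cs (lf (nat_lit 29) (nat_lit 229)) (nd (nat_lit 225) (nat_lit 0) (cs (lf (nat_lit 20) (nat_lit 225)) (rf (nat_lit 1)))))))))))))) (cs (nd (nat_lit 229) (nat_lit 0) (cs (lf (nat_lit 41) (nat_lit 228)) (nd (nat_lit 228) (nat_lit 0) (cs (lf (nat_lit 47) (nat_lit 206)) (nd (nat_lit 249) (nat_lit 0) (cs (lf (nat_lit 12) (nat_lit 225)) (lf (nat_lit 11) (nat_lit 247)))))))) (nd (nat_lit 229) (nat_lit 0) (cs (lf (nat_lit 41) (nat_lit 228)) (nd (nat_lit 206) (nat_lit 0) (cs (lf (nat_lit 46) (nat_lit 206)) (nd (nat_lit 296) (nat_lit 0) (cs (lf (nat_lit 29) (nat_lit 229)) (nd (nat_lit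 292) (nat_lit 0) (cs (lf (nat_lit 23) (nat_lit 269)) (nd (nat_lit 313) (nat_lit 0) (cs (lf (nat_lit 10) (nat_lit 291)) (nd (nat_lit 291) (nat_lit 0) (cs (lf (nat_lit 11) (nat_lit 290)) (lf (nat_lit 36) (nat_lit 225)))))))))))))))))) (cs (nd (nat_lit 269) (nat_lit 0) (cs (lf (nat_lit 21) (nat_lit 269)) (nd (nat_lit 271) (nat_lit 0) (cs (lf (nat_lit 0) (nat_lit 268)) (nd (nat_lit 249) (nat_lit 0) (cs (lf (nat_lit 9) (nat_lit 247)) (nd (nat_lit 316) (nat_lit 0) (cs (lf (nat_lit 36) (nat_lit 228)) (lf (nat_lit 24) (nat_lit 227)))))))))) (nd (nat_lit 269) (nat_lit 0) (cs (lf (nat_lit 21) (nat_lit 269)) (nd (nat_lit 271) (nat_lit 0) (cs (lf (nat_lit 0) (nat_lit 268)) (lf (nat_lit 18) (nat_lit 270)))))))))) q59438 (by decide +kernel)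
def q59459 : Q := Q.p (nat_lit 0x300003c0000c00000000000000000000000000000000000000000000000000000000000000) (nat_lit 0x380000600001800000000000000000000000000000000000000000000000000) (nat_lit 4)
theorem c59459 : QOK q59459 := cut [q59458] ⟨c59458, trivial⟩ (nd (nat_lit 248) (nat_lit 0) (cs (lf (nat_lit 23) (nat_lit 247)) (rf (nat_lit 0)))) q59459 (by decide +kernel)
def q59494 : Q := Q.p (nat_lit 0x60000180000400000000000000000000000000000000000000000000000000000000000000) (nat_lit 0x20000180000060000000001800006000000000000000000000000000000000000000000000000000) (nat_lit 5)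
theorem c59494 : QOK q59494 := cut [q59492] ⟨c59492, trivial⟩ (nd (nat_lit 228) (nat_lit 0) (cs (lf (nat_lit 36) (nat_lit 205)) (nd (nat_lit 205) (nat_lit 0) (cs (lf (nat_lit 46) (nat_lit 205)) (rf (nat_lit 0)))))) q59494 (by decide +kernel)
def q59495 : Q := Q.p (nat_lit 0x20000380000600001800000000000000000000000000000000000000000000000000000000) (nat_lit 0x1c0000700001000000000000000000000000000000000000000000000000000) (nat_lit 4)
theorem c59495 : QOK q59495 := cut [q52044] ⟨c52044, trivial⟩ (nd (nat_lit 247) (nat_lit 0) (cs (lf (nat_lit 1) (nat_lit 247)) (rf (nat_lit 0)))) q59495 (by decide +kernel)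
def q59503 : Q := Q.p (nat_lit 0x3c0000400000000000000000000000000000000000000000000000000000000000000) (nat_lit 0x800002000019c0000200001c0000000000000000000000000000000000000000000000000000000000000) (nat_lit 6)
theorem c59503 : QOK q59503 := cut [q46736] ⟨c46736, trivial⟩ (nd (nat_lit 295) (nat_lit 0) (cs (lf (nat_lit 5) (nat_lit 270)) (nd (nat_lit 317) (nat_lit 0) (cs (lf (nat_lit 42) (nat_lit 250)) (rf (nat_lit 0)))))) q59503 (by decide +kernel)
def q59523 : Q := Q.p (nat_lit 0x200003c0000400000000000000000000000000000000000000000000000000000000000000) (nat_lit 0x170000380003c0000000000000000000000000000000000000000000000000000000000000) (nat_lit 6)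
theorem c59523 : QOK q59523 := cut [q47829] ⟨c47829, trivial⟩ (nd (nat_lit 247) (nat_lit 0) (cs (lf (nat_lit 22) (nat_lit 247)) (nd (nat_lit 269) (nat_lit 0) (cs (lf (nat_lit 23) (nat_lit 246)) (rf (nat_lit 0)))))) q59523 (by decide +kernel)
def q59534 : Q := Q.p (nat_lit 0x20000980002400000000000000000000000000000000000000000000000000000000000000) (nat_lit 0x80000200001dc0006600011c0001000004000000000000000000000000000000000000000000000000000) (nat_lit 6)
theorem c59534 : QOK q59534 := cut [q59501, q46736, q59530, q59533] ⟨c59501, c46736, c59530, c59533, trivial⟩ (nd (nat_lit 273) (nat_lit 0) (cs (rf (nat_lit 0)) (cs (nd (nat_lit 270) (nat_lit 0) (cs (rf (nat_lit 1)) (nd (nat_lit 295) (nat_lit 0) (cs (lf (nat_lit 5) (nat_lit 270)) (rf (nat_lit 2)))))) (rf (nat_lit 3))))) q59534 (by decide +kernel)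
def q59554 : Q := Q.p (nat_lit 0x60000180000400000000000000000000000000000000000000000000000000000000000000) (nat_lit 0x20000180000060000000001000004000000000000000000000000000000000000000000000000000) (nat_lit 4)
theorem c59554 : QOK q59554 := cut [q59492] ⟨c59492, trivial⟩ (nd (nat_lit 228) (nat_lit 0) (cs (lf (nat_lit 36) (nat_lit 205)) (rf (nat_lit 0)))) q59554 (by decide +kernel)
def q59556 : Q := Q.p (nat_lit 0x60000980000400000000000000000000000000000000000000000000000000000000000000) (nat_lit 0x20000180000440000000001000004000000000000000000000000000000000000000000000000000) (nat_lit 4)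
theorem c59556 : QOK q59556 := cut [q59555] ⟨c59555, trivial⟩ (nd (nat_lit 228) (nat_lit 0) (cs (lf (nat_lit 36) (nat_lit 205)) (rf (nat_lit 0)))) q59556 (by decide +kernel)
def q59580 : Q := Q.p (nat_lit 0x20000180000400000800000000000000000000000000000000000000000000000000000000) (nat_lit 0x40000000000200001000006000008000020000000000000000000000000000000000000000) (nat_lit 4)
theorem c59580 : QOK q59580 := cut [q41224] ⟨c41224, trivial⟩ (nd (nat_lit 228) (nat_lit 0) (cs (lf (nat_lit 36) (nat_lit 205)) (rf (nat_lit 0)))) q59580 (by decide +kernel)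
def q59582 : Q := Q.p (nat_lit 0x600009c0000000000000000000000000000000000000000000000000000000000000000000) (nat_lit 0x1c000630000000000000000000000000000000000000000000000000000000000000000000) (nat_lit 4)
theorem c59582 : QOK q59582 := cut [q59581] ⟨c59581, trivial⟩ (nd (nat_lit 269) (nat_lit 0) (cs (lf (nat_lit 0) (nat_lit 268)) (rf (nat_lit 0)))) q59582 (by decide +kernel)
def q59599 : Q := Q.p (nat_lit 0x280001c0000000000000000000000000000000000000000000000000000000000000000000) (nat_lit 0x440000300000e0000000000000000000000000000000000000000000000000000000000000) (nat_lit 4)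
theorem c59599 : QOK q59599 := cut [q59598] ⟨c59598, trivial⟩ (nd (nat_lit 269) (nat_lit 0) (cs (lf (nat_lit 11) (nat_lit 268)) (rf (nat_lit 0)))) q59599 (by decide +kernel)
def q59633 : Q := Q.p (nat_lit 0x200001c0000400000800000000000000000000000000000000000000000000000000000000) (nat_lit 0x400001f0006380001f0001600007800000000000000000000000000000000000000000000000000) (nat_lit 9)
theorem c59633 : QOK q59633 := cut [q59607, q47828, q59613, q59626] ⟨c59607, c47828, c59613, c59626, trivial⟩ (nd (nat_lit 269) (nat_lit 0) (cs (rf (nat_lit 0)) (cs (nd (nat_lit 206) (nat_lit 0) (cs (lf (nat_lit 37) (nat_lit 205)) (nd (nat_lit 246) (nat_lit 0) (cs (lf (nat_lit 22) (nat_lit 246)) (nd (nat_lit 268) (nat_lit 0) (cs (lf (nat_lit 23) (nat_lit 245)) (rf (nat_lit 1)))))))) (cs (nd (nat_lit 206) (nat_lit 0) (cs (lf (nat_lit 37) (nat_lit 205)) (rf (nat_lit 2)))) (cs (nd (nat_lit 290) (nat_lit 0) (cs (lf (nat_lit 10) (nat_lit 268)) (nd (nat_lit 268) (nat_lit 0) (cs (lf (nat_lit 11) (nat_lit 267)) (nd (nat_lit 292) (nat_lit 0) (cs (lf (nat_lit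 0) (nat_lit 267)) (nd (nat_lit 273) (nat_lit 0) (cs (lf (nat_lit 6) (nat_lit 270)) (nd (nat_lit 248) (nat_lit 0) (cs (lf (nat_lit 23) (nat_lit 247)) (nd (nat_lit 226) (nat_lit 0) (cs (lf (nat_lit 24) (nat_lit 204)) (lf (nat_lit 35) (nat_lit 204)))))))))))))) (cs (nd (nat_lit 206) (nat_lit 0) (cs (lf (nat_lit 37) (nat_lit 205)) (nd (nat_lit 246) (nat_lit 0) (cs (lf (nat_lit 22) (nat_lit 246)) (nd (nat_lit 268) (nat_lit 0) (cs (lf (nat_lit 23) (nat_lit 245)) (nd (nat_lit 292) (nat_lit 0) (cs (lf (nat_lit 0) (nat_lit 267)) (nd (nat_lit 273) (nat_lit 0) (cs (lf (nat_lit 11) (nat_lit 269)) (lf (nat_lit 6) (nat_lit 270)))))))))))) (nd (nat_lit 247) (nat_lit 0) (cs (lf (nat_lit 23) (nat_lit 246)) (nd (nat_lit 206) (nat_lit 0) (cs (lf (nat_lit 37) (nat_lit 205)) (nd (nat_lit 290) (nat_lit 0) (cs (lf (nat_lit 10) (nat_lit 268)) (nd (nat_lit 248) (nat_lit 0) (cs (lf (nat_lit 18) (nat_lit 247)) (nd (nat_lit 226) (nat_lit 0) (cs (lf (nat_lit 24) (nat_lit 204)) (nd (nat_lit 292) (nat_lit 0) (cs (lf (nat_lit 35) (nat_lit 204)) (rf (nat_lit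 3)))))))))))))))))))) q59633 (by decide +kernel)
def q59652 : Q := Q.p (nat_lit 0x600009c0000000000000000000000000000000000000000000000000000000000000000000) (nat_lit 0x6300001c0000000000000000000000000000000000000000000000000000000000000) (nat_lit 4)
theorem c59652 : QOK q59652 := cut [q59651] ⟨c59651, trivial⟩ (nd (nat_lit 269) (nat_lit 0) (cs (lf (nat_lit 0) (nat_lit 268)) (rf (nat_lit 0)))) q59652 (by decide +kernel)
def q59684 : Q := Q.p (nat_lit 0x20000980000600000800000000000000000000000000000000000000000000000000000000) (nat_lit 0x400001c000640000180000000000000000000000000000000000000000000000000000000000000) (nat_lit 5)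
theorem c59684 : QOK q59684 := cut [q59682] ⟨c59682, trivial⟩ (nd (nat_lit 273) (nat_lit 0) (cs (lf (nat_lit 19) (nat_lit 249)) (nd (nat_lit 247) (nat_lit 0) (cs (lf (nat_lit 1) (nat_lit 247)) (rf (nat_lit 0)))))) q59684 (by decide +kernel)
def q59738 : Q := Q.p (nat_lit 0x700001c0000400000000000000000000000000000000000000000000000000000000000000) (nat_lit 0x2000008000060000180000200000000000000000000000000000000000000000000000000000000000000000000) (nat_lit 4)
theorem c59738 : QOK q59738 := cut [q47556] ⟨c47556, trivial⟩ (nd (nat_lit 295) (nat_lit 0) (cs (lf (nat_lit 18) (nat_lit 270)) (rf (nat_lit 0)))) q59738 (by decide +kernel)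
def q59748 : Q := Q.p (nat_lit 0x8000060000880000000000000000000000000000000000000000000000000000000000000000000) (nat_lit 0x600001800077000198000470000100000400000000000000000000000000000000000000000000000000000000) (nat_lit 9)
theorem c59748 : QOK q59748 := cut [q58544, q59254, q44140, q58551, q58556, q59731] ⟨c58544, c59254, c44140, c58551, c58556, c59731, trivial⟩ (nd (nat_lit 295) (nat_lit 0) (cs (rf (nat_lit 0)) (cs (rf (nat_lit 1)) (nd (nat_lit 292) (nat_lit 0) (cs (rf (nat_lit 2)) (cs (rf (nat_lit 3)) (cs (rf (nat_lit 4)) (nd (nat_lit 314) (nat_lit 0) (cs (lf (nat_lit 11) (nat_lit 291)) (nd (nat_lit 270) (nat_lit 0) (cs (lf (nat_lit 23) (nat_lit 269)) (nd (nat_lit 226) (nat_lit 0) (cs (lf (nat_lit 25) (nat_lit 226)) (nd (nat_lit 317) (nat_lit 0) (cs (lf (nat_lit 5) (nat_lit 292)) (nd (nat_lit 336) (nat_lit 0) (cs (lf (nat_lit 30) (nat_lit 270)) (rf (nat_lit 5))))))))))))))))))) q59748 (by decide +kernel)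
def q59822 : Q := Q.p (nat_lit 0x8000020000080000400000000000000000000000000000000000000000000000000000000000000) (nat_lit 0x1000006000010000000000140000300000400000000000000000000000000000000000000000000000000000000) (nat_lit 5)
theorem c59822 : QOK q59822 := cut [q54357] ⟨c54357, trivial⟩ (nd (nat_lit 337) (nat_lit 0) (cs (lf (nat_lit 34) (nat_lit 249)) (nd (nat_lit 338) (nat_lit 0) (cs (lf (nat_lit 29) (nat_lit 271)) (rf (nat_lit 0)))))) q59822 (by decide +kernel)
def q59823 : Q := Q.p (nat_lit 0x8000020000080000400000000000000000000000000000000000000000000000000000000000000) (nat_lit 0x400003000004000000000140000300000400000000000000000000000000000000000000000000000000000000) (nat_lit 5)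
theorem c59823 : QOK q59823 := cut [q54647] ⟨c54647, trivial⟩ (nd (nat_lit 337) (nat_lit 0) (cs (lf (nat_lit 34) (nat_lit 249)) (rf (nat_lit 0)))) q59823 (by decide +kernel)
def q59853 : Q := Q.p (nat_lit 0x200001c0000000000000000000000000000000000000000000000000000000000000000000) (nat_lit 0x20000080000100002200001e0000400001000000000000000000000000000000000000000000000000000) (nat_lit 4)
theorem c59853 : QOK q59853 := cut [q59838, q52081] ⟨c59838, c52081, trivial⟩ (nd (nat_lit 248) (nat_lit 0) (cs (rf (nat_lit 0)) (nd (nat_lit 247) (nat_lit 0) (cs (lf (nat_lit 18) (nat_lit 247)) (rf (nat_lit 1)))))) q59853 (by decide +kernel)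
def q59904 : Q := Q.p (nat_lit 0x1e0000600000000000000000000000000000000000000000000000000000000000000) (nat_lit 0xc0000300000d00002000001c0000300000800002000000000000000000000000000000000000000000000) (nat_lit 8)
theorem c59904 : QOK q59904 := cut [q47263] ⟨c47263, trivial⟩ (nd (nat_lit 294) (nat_lit 0) (cs (lf (nat_lit 5) (nat_lit 269)) (nd (nat_lit 316) (nat_lit 0) (cs (lf (nat_lit 42) (nat_lit 249)) (nd (nat_lit 247) (nat_lit 0) (cs (lf (nat_lit 23) (nat_lit 246)) (nd (nat_lit 317) (nat_lit 0) (cs (lf (nat_lit 29) (nat_lit 250)) (nd (nat_lit 248) (nat_lit 0) (cs (lf (nat_lit 5) (nat_lit 247)) (rf (nat_lit 0)))))))))))) q59904 (by decide +kernel)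
def q59914 : Q := Q.p (nat_lit 0x20000080000600000000000000000000000000000000000000000000000000000000000000) (nat_lit 0x10000040000100001900001f00007000010000000000000000000000000000000000000000000000) (nat_lit 5)
theorem c59914 : QOK q59914 := cut [q58932, q59913] ⟨c58932, c59913, trivial⟩ (nd (nat_lit 227) (nat_lit 0) (cs (rf (nat_lit 0)) (rf (nat_lit 1)))) q59914 (by decide +kernel)
def q59917 : Q := Q.p (nat_lit 0x20000080000600000000000000000000000000000000000000000000000000000000000000) (nat_lit 0x14000050000140001900000f00003000000000000000000000000000000000000000000000000000) (nat_lit 5)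
theorem c59917 : QOK q59917 := cut [q58932, q59916] ⟨c58932, c59916, trivial⟩ (nd (nat_lit 227) (nat_lit 0) (cs (rf (nat_lit 0)) (rf (nat_lit 1)))) q59917 (by decide +kernel)
def q59984 : Q := Q.p (nat_lit 0xe00000400000000000000000000000000000000000000000000000000000000000000) (nat_lit 0x1dc0003000000800000000000000000000000000000000000000000000000000000000000000) (nat_lit 5)
theorem c59984 : QOK q59984 := cut [q59935] ⟨c59935, trivial⟩ (nd (nat_lit 276) (nat_lit 0) (cs (lf (nat_lit 22) (nat_lit 250)) (rf (nat_lit 0)))) q59984 (by decide +kernel)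
def q60011 : Q := Q.p (nat_lit 0xe0000000000000000000000000000000000000000000000000000000000000000000000000) (nat_lit 0x20000380003e0000f80007f0000180006f0000200000800000000000000000000000000000000000000000000000000000000) (nat_lit 13)
theorem c60011 : QOK q60011 := cut [q44140, q58551, q58556, q46705] ⟨c44140, c58551, c58556, c46705, trivial⟩ (nd (nat_lit 292) (nat_lit 0) (cs (rf (nat_lit 0)) (cs (rf (nat_lit 1)) (cs (rf (nat_lit 2)) (nd (nat_lit 314) (nat_lit 0) (cs (lf (nat_lit 11) (nat_lit 291)) (nd (nat_lit 336) (nat_lit 0) (cs (nd (nat_lit 271) (nat_lit 0) (cs (lf (nat_lit 30) (nat_lit 270)) (nd (nat_lit 249) (nat_lit 0) (cs (lf (nat_lit 36) (nat_lit 226)) (lf (nat_lit 39) (nat_lit 248)))))) (cs (nd (nat_lit 317) (nat_lit 0) (cs (lf (nat_lit 5) (nat_lit 292)) (nd (nat_lit 270) (nat_lit 0) (cs (lf (nat_lit 23) (nat_lit 269)) (nd (nat_lit 273) (nat_lit 0) (cs (lf (nat_lit 17) (nat_lit 270)) (nd (nat_lit 335) (nat_lit 0) (cs (lf (nat_lit 41) (nat_lit 269)) (nd (nat_lit 337) (nat_lit 0) (cs (lf (nat_lit 29) (nat_lit 270))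 (rf (nat_lit 3)))))))))))) (nd (nat_lit 269) (nat_lit 0) (cs (lf (nat_lit 22) (nat_lit 269)) (nd (nat_lit 317) (nat_lit 0) (cs (lf (nat_lit 5) (nat_lit 292)) (nd (nat_lit 273) (nat_lit 0) (cs (lf (nat_lit 17) (nat_lit 270)) (nd (nat_lit 358) (nat_lit 0) (cs (lf (nat_lit 35) (nat_lit 270)) (nd (nat_lit 379) (nat_lit 0) (cs (nd (nat_lit 359) (nat_lit 0) (cs (lf (nat_lit 29) (nat_lit 292)) (nd (nat_lit 380) (nat_lit 0) (cs (lf (nat_lit 41) (nat_lit 313)) (nd (nat_lit 360) (nat_lit 0) (cs (nd (nat_lit 338) (nat_lit 0) (cs (lf (nat_lit 39) (nat_lit 272)) (lf (nat_lit 32) (nat_lit 272)))) (lf (nat_lit 6) (nat_lit 357)))))))) (lf (nat_lit 40) (nat_lit 291))))))))))))))))))))) q60011 (by decide +kernel)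
def q60035 : Q := Q.p (nat_lit 0x700000c0000000000000000000000000000000000000000000000000000000000000000000) (nat_lit 0x1000006000180000000000200000800000000000000000000000000000000000000000000000000000000) (nat_lit 4)
theorem c60035 : QOK q60035 := cut [q59572] ⟨c59572, trivial⟩ (nd (nat_lit 295) (nat_lit 0) (cs (lf (nat_lit 18) (nat_lit 270)) (rf (nat_lit 0)))) q60035 (by decide +kernel)
def q60046 : Q := Q.p (nat_lit 0x60000080000200000000000000000000000000000000000000000000000000000000000000) (nat_lit 0x14000010000040000000000c00003000004000000000000000000000000000000000000000000000) (nat_lit 5)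
theorem c60046 : QOK q60046 := cut [q60044] ⟨c60044, trivial⟩ (nd (nat_lit 227) (nat_lit 0) (cs (lf (nat_lit 29) (nat_lit 227)) (nd (nat_lit 292) (nat_lit 0) (cs (lf (nat_lit 41) (nat_lit 226)) (rf (nat_lit 0)))))) q60046 (by decide +kernel)
def q60064 : Q := Q.p (nat_lit 0x10000060000880002400000000000000000000000000000000000000000000000000000000000000) (nat_lit 0x40000300000e000028000000001100001800002000000000000000000000000000000000000000000000000000000000) (nat_lit 6)
theorem c60064 : QOK q60064 := cut [q23069, q58889] ⟨c23069, c58889, trivial⟩ (nd (nat_lit 272) (nat_lit 0x80000000000000000000000000000000000000000000000000000000000000000000) (cs (rf (nat_lit 0)) (rf (nat_lit 1)))) q60064 (by decide +kernel)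
def q60126 : Q := Q.p (nat_lit 0x20000380002400000000000000000000000000000000000000000000000000000000000000) (nat_lit 0x2000008000000000060001b80000400001000000000000000000000000000000000000000000000000000) (nat_lit 6)
theorem c60126 : QOK q60126 := cut [q60123] ⟨c60123, trivial⟩ (nd (nat_lit 315) (nat_lit 0) (cs (lf (nat_lit 30) (nat_lit 249)) (nd (nat_lit 251) (nat_lit 0) (cs (lf (nat_lit 7) (nat_lit 249)) (nd (nat_lit 270) (nat_lit 0) (cs (lf (nat_lit 12) (nat_lit 247)) (rf (nat_lit 0)))))))) q60126 (by decide +kernel)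
def q60130 : Q := Q.p (nat_lit 0x60000980000600000000000000000000000000000000000000000000000000000000000000) (nat_lit 0x2000008000018000600000180000c00002000000000000000000000000000000000000000000000000000) (nat_lit 6)
theorem c60130 : QOK q60130 := cut [q60127] ⟨c60127, trivial⟩ (nd (nat_lit 273) (nat_lit 0) (cs (lf (nat_lit 19) (nat_lit 249)) (nd (nat_lit 291) (nat_lit 0) (cs (lf (nat_lit 13) (nat_lit 269)) (nd (nat_lit 205) (nat_lit 0) (cs (lf (nat_lit 25) (nat_lit 205)) (rf (nat_lit 0)))))))) q60130 (by decide +kernel)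
def q60160 : Q := Q.p (nat_lit 0x8000020000180002600000000000000000000000000000000000000000000000000000000000000) (nat_lit 0x700019c0000400000000000000000000000000000000000000000000000000000000) (nat_lit 5)
theorem c60160 : QOK q60160 := cut [q60149] ⟨c60149, trivial⟩ (nd (nat_lit 251) (nat_lit 0) (cs (lf (nat_lit 7) (nat_lit 249)) (nd (nat_lit 269) (nat_lit 0) (cs (lf (nat_lit 13) (nat_lit 247)) (rf (nat_lit 0)))))) q60160 (by decide +kernel)
def q60168 : Q := Q.p (nat_lit 0xa000068000020000000000000000000000000000000000000000000000000000000000000000000) (nat_lit 0x4000050000040000000000c0000300000400000000000000000000000000000000000000000000000000) (nat_lit 5)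
theorem c60168 : QOK q60168 := cut [q49159] ⟨c49159, trivial⟩ (nd (nat_lit 312) (nat_lit 0) (cs (nd (nat_lit 247) (nat_lit 0) (cs (lf (nat_lit 41) (nat_lit 246)) (rf (nat_lit 0)))) (lf (nat_lit 14) (nat_lit 290)))) q60168 (by decide +kernel)
def q60172 : Q := Q.p (nat_lit 0x8000020000080001a0002400000000000000000000000000000000000000000000000000000000000000) (nat_lit 0x40000300000400000000004000010001840000000000000000000000000000000000000000000000000000000000000) (nat_lit 5)
theorem c60172 : QOK q60172 := cut [q49125] ⟨c49125, trivial⟩ (nd (nat_lit 251) (nat_lit 0) (cs (lf (nat_lit 7) (nat_lit 249)) (rf (nat_lit 0)))) q60172 (by decide +kernel)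
def q60222 : Q := Q.p (nat_lit 0x200003c0000400000000000000000000000000000000000000000000000000000000000000) (nat_lit 0x2000008000000000000000380000400001000000000000000000000000000000000000000000000000000) (nat_lit 4)
theorem c60222 : QOK q60222 := cut [q60123] ⟨c60123, trivial⟩ (nd (nat_lit 315) (nat_lit 0) (cs (lf (nat_lit 30) (nat_lit 249)) (rf (nat_lit 0)))) q60222 (by decide +kernel)
def q60230 : Q := Q.p (nat_lit 0x18000060000300000400000000000000000000000000000000000000000000000000000000000000) (nat_lit 0x4000000000000000080000380000c00000000000000000000000000000000000000000000000000000000) (nat_lit 4)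
theorem c60230 : QOK q60230 := cut [q60229] ⟨c60229, trivial⟩ (nd (nat_lit 249) (nat_lit 0) (cs (lf (nat_lit 47) (nat_lit 227)) (rf (nat_lit 0)))) q60230 (by decide +kernel)
def q60244 : Q := Q.p (nat_lit 0x10000060000900000400000000000000000000000000000000000000000000000000000000000000) (nat_lit 0x200000c000020000018000680000200000800000000000000000000000000000000000000000000000000000000) (nat_lit 6)
theorem c60244 : QOK q60244 := cut [q60242] ⟨c60242, trivial⟩ (nd (nat_lit 273) (nat_lit 0) (cs (lf (nat_lit 7) (nat_lit 271)) (nd (nat_lit 291) (nat_lit 0) (cs (lf (nat_lit 13) (nat_lit 269)) (rf (nat_lit 0)))))) q60244 (by decide +kernel)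
def q60269 : Q := Q.p (nat_lit 0x800002c00000000010000000000000000000000000000000000000000000000000000) (nat_lit 0x1000014000010000180000200000c0000000000000000000000000000000000000000000000) (nat_lit 5)
theorem c60269 : QOK q60269 := cut [q6234] ⟨c6234, trivial⟩ (nd (nat_lit 252) (nat_lit 0) (cs (lf (nat_lit 5) (nat_lit 250)) (rf (nat_lit 0)))) q60269 (by decide +kernel)
def q60298 : Q := Q.p (nat_lit 0x10000040000100000400000000000000000000000000000000000000000000000000000000000000) (nat_lit 0x280000e000028000000000000000200000800000000000000000000000000000000000000000000000000000000) (nat_lit 5)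
theorem c60298 : QOK q60298 := cut [q25755] ⟨c25755, trivial⟩ (nd (nat_lit 337) (nat_lit 0) (cs (lf (nat_lit 40) (nat_lit 249)) (nd (nat_lit 227) (nat_lit 0) (cs (lf (nat_lit 46) (nat_lit 227)) (rf (nat_lit 0)))))) q60298 (by decide +kernel)
def q60338 : Q := Q.p (nat_lit 0x60000900000400000000000000000000000000000000000000000000000000000000000000) (nat_lit 0x800006c0000980006e0000380000e00003800008000000000000000000000000000000000000000000000) (nat_lit 8)
theorem c60338 : QOK q60338 := cut [q60327, q986] ⟨c60327, c986, trivial⟩ (nd (nat_lit 273) (nat_lit 0) (cs (lf (nat_lit 7) (nat_lit 271)) (nd (nat_lit 292) (nat_lit 0) (cs (lf (nat_lit 12) (nat_lit 269)) (nd (nat_lit 270) (nat_lit 0) (cs (rf (nat_lit 0)) (nd (nat_lit 248) (nat_lit 0) (cs (nd (nat_lit 247) (nat_lit 0) (cs (lf (nat_lit 2) (nat_lit 247)) (lf (nat_lit 20) (nat_lit 247)))) (cs (nd (nat_lit 247) (nat_lit 0) (cs (lf (nat_lit 2) (nat_lit 247)) (nd (nat_lit 226) (nat_lit 0) (cs (lf (nat_lit 29) (nat_lit 226)) (rf (nat_lit 1)))))) (nd (nat_lit 226) (nat_lit 0) (cs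 (lf (nat_lit 29) (nat_lit 226)) (nd (nat_lit 205) (nat_lit 0) (cs (lf (nat_lit 34) (nat_lit 204)) (nd (nat_lit 204) (nat_lit 0) (cs (lf (nat_lit 28) (nat_lit 204)) (lf (nat_lit 35) (nat_lit 182))))))))))))))))) q60338 (by decide +kernel)
def q60356 : Q := Q.p (nat_lit 0x20000380000400000000000000000000000000000000000000000000000000000000000000) (nat_lit 0x200000800001c000440000000000000000000000000000000000000000000000000000000000000000000) (nat_lit 4)
theorem c60356 : QOK q60356 := cut [q60355] ⟨c60355, trivial⟩ (nd (nat_lit 315) (nat_lit 0) (cs (lf (nat_lit 30) (nat_lit 249)) (rf (nat_lit 0)))) q60356 (by decide +kernel)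
def q60422 : Q := Q.p (nat_lit 0x20000080000c00001000000000000000000000000000000000000000000000000000000000) (nat_lit 0x3000000000020000040000300000c0000200000000000000000000000000000000000) (nat_lit 5)
theorem c60422 : QOK q60422 := cut [q2074] ⟨c2074, trivial⟩ (nd (nat_lit 206) (nat_lit 0) (cs (rf (nat_lit 0)) (lf (nat_lit 39) (nat_lit 205)))) q60422 (by decide +kernel)
def q60431 : Q := Q.p (nat_lit 0x200000c0000c00000000000000000000000000000000000000000000000000000000000000) (nat_lit 0x57000138000000000000000000000000000000000000000000000000000000000000000000) (nat_lit 5)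
theorem c60431 : QOK q60431 := cut [q60378] ⟨c60378, trivial⟩ (nd (nat_lit 269) (nat_lit 0) (cs (lf (nat_lit 15) (nat_lit 247)) (rf (nat_lit 0)))) q60431 (by decide +kernel)
def q60463 : Q := Q.p (nat_lit 0x20000380002400000000000000000000000000000000000000000000000000000000000000) (nat_lit 0x198000060001b80000600001800000000000000000000000000000000000000000000000000) (nat_lit 8)
theorem c60463 : QOK q60463 := cut [q59458] ⟨c59458, trivial⟩ (nd (nat_lit 251) (nat_lit 0) (cs (lf (nat_lit 7) (nat_lit 249)) (nd (nat_lit 270) (nat_lit 0) (cs (lf (nat_lit 12) (nat_lit 247)) (nd (nat_lit 248) (nat_lit 0) (cs (lf (nat_lit 23) (nat_lit 247)) (nd (nat_lit 292) (nat_lit 0) (cs (lf (nat_lit 11) (nat_lit 269)) (nd (nat_lit 295) (nat_lit 0) (cs (lf (nat_lit 5) (nat_lit 270)) (rf (nat_lit 0)))))))))))) q60463 (by decide +kernel)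
def q60472 : Q := Q.p (nat_lit 0x10000060000100000400000000000000000000000000000000000000000000000000000000000000) (nat_lit 0x80000e0000098000000000000000000000000000000000000000000000000000000000000000000000000) (nat_lit 4)
theorem c60472 : QOK q60472 := cut [q60471] ⟨c60471, trivial⟩ (nd (nat_lit 317) (nat_lit 0) (cs (lf (nat_lit 29) (nat_lit 250)) (rf (nat_lit 0)))) q60472 (by decide +kernel)
def q60493 : Q := Q.p (nat_lit 0x20000100000400000000000000000000000000000000000000000000000000000000000000) (nat_lit 0x800002000018000040000080000200001000004000000000000000000000000000000000000000000000000000) (nat_lit 4)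
theorem c60493 : QOK q60493 := cut [q60489, q48695, q60492] ⟨c60489, c48695, c60492, trivial⟩ (nd (nat_lit 315) (nat_lit 0) (cs (nd (nat_lit 228) (nat_lit 0) (cs (lf (nat_lit 39) (nat_lit 227)) (nd (nat_lit 271) (nat_lit 0) (cs (lf (nat_lit 36) (nat_lit 205)) (lf (nat_lit 33) (nat_lit 227)))))) (cs (rf (nat_lit 0)) (cs (nd (nat_lit 271) (nat_lit 0) (cs (lf (nat_lit 30) (nat_lit 249)) (rf (nat_lit 1)))) (rf (nat_lit 2)))))) q60493 (by decide +kernel)
def q60545 : Q := Q.p (nat_lit 0x78000800000000000000000000000000000000000000000000000000000000000000000000) (nat_lit 0xe7000180000400000000000000000000000000000000000000000000000000000000000000000000) (nat_lit 5)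
theorem c60545 : QOK q60545 := cut [q60543] ⟨c60543, trivial⟩ (nd (nat_lit 313) (nat_lit 0) (cs (lf (nat_lit 11) (nat_lit 290)) (nd (nat_lit 295) (nat_lit 0) (cs (lf (nat_lit 10) (nat_lit 291)) (rf (nat_lit 0)))))) q60545 (by decide +kernel)
def q60561 : Q := Q.p (nat_lit 0xa000068000020000000000000000000000000000000000000000000000000000000000000000000) (nat_lit 0x10000050001800000000001c0000700001400000000000000000000000000000000000000000000000000) (nat_lit 7)
theorem c60561 : QOK q60561 := cut [q60558] ⟨c60558, trivial⟩ (nd (nat_lit 314) (nat_lit 0) (cs (lf (nat_lit 12) (nat_lit 290)) (nd (nat_lit 295) (nat_lit 0) (cs (lf (nat_lit 6) (nat_lit 292)) (nd (nat_lit 247) (nat_lit 0) (cs (lf (nat_lit 29) (nat_lit 247)) (rf (nat_lit 0)))))))) q60561 (by decide +kernel)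
def q60676 : Q := Q.p (nat_lit 0x80000200008a0002600000000000000000000000000000000000000000000000000000000000000) (nat_lit 0x1440001900000400000000000000000000000000000000000000000000000000000000) (nat_lit 4)
theorem c60676 : QOK q60676 := cut [q59221] ⟨c59221, trivial⟩ (nd (nat_lit 248) (nat_lit 0) (cs (lf (nat_lit 47) (nat_lit 226)) (rf (nat_lit 0)))) q60676 (by decide +kernel)
def q60689 : Q := Q.p (nat_lit 0x200001c0000400000000000000000000000000000000000000000000000000000000000000) (nat_lit 0x1e000038000870000000000000000000000000000000000000000000000000000000000000) (nat_lit 6)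
theorem c60689 : QOK q60689 := cut [q59613] ⟨c59613, trivial⟩ (nd (nat_lit 269) (nat_lit 0) (cs (lf (nat_lit 17) (nat_lit 247)) (rf (nat_lit 0)))) q60689 (by decide +kernel)
def q60701 : Q := Q.p (nat_lit 0x200000c0000700000000000000000000000000000000000000000000000000000000000000) (nat_lit 0x800000f80001000000000000000000000000000000000000000000000000000) (nat_lit 4)
theorem c60701 : QOK q60701 := cut [q60700] ⟨c60700, trivial⟩ (nd (nat_lit 226) (nat_lit 0) (cs (lf (nat_lit 24) (nat_lit 204)) (rf (nat_lit 0)))) q60701 (by decide +kernel)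
def q60708 : Q := Q.p (nat_lit 0x20000980000600000000000000000000000000000000000000000000000000000000000000) (nat_lit 0x2000008000000000600000180000400000000000000000000000000000000000000000000000000000000) (nat_lit 4)
theorem c60708 : QOK q60708 := cut [q60127] ⟨c60127, trivial⟩ (nd (nat_lit 273) (nat_lit 0) (cs (lf (nat_lit 19) (nat_lit 249)) (rf (nat_lit 0)))) q60708 (by decide +kernel)
def q60712 : Q := Q.p (nat_lit 0x60000900000400000000000000000000000000000000000000000000000000000000000000) (nat_lit 0x2000008000030000180000600000000001000000000000000000000000000000000000000000000000000000000) (nat_lit 5)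
theorem c60712 : QOK q60712 := cut [q14188] ⟨c14188, trivial⟩ (nd (nat_lit 274) (nat_lit 0) (cs (lf (nat_lit 8) (nat_lit 271)) (nd (nat_lit 295) (nat_lit 0) (cs (lf (nat_lit 15) (nat_lit 271)) (rf (nat_lit 0)))))) q60712 (by decide +kernel)
def q60715 : Q := Q.p (nat_lit 0x20000f00000400000000000000000000000000000000000000000000000000000000000000) (nat_lit 0x200001900010e0000800001000004000000000000000000000000000000000000000000000000000) (nat_lit 6)
theorem c60715 : QOK q60715 := cut [q60694] ⟨c60694, trivial⟩ (nd (nat_lit 271) (nat_lit 0) (cs (lf (nat_lit 11) (nat_lit 270)) (nd (nat_lit 228) (nat_lit 0) (cs (lf (nat_lit 36) (nat_lit 205)) (rf (nat_lit 0)))))) q60715 (by decide +kernel)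
def q60741 : Q := Q.p (nat_lit 0x8000020000300000600000000000000000000000000000000000000000000000000000000000000) (nat_lit 0x80000980000f80000000000000000000000000000000000000000000000000000000) (nat_lit 5)
theorem c60741 : QOK q60741 := cut [q60700] ⟨c60700, trivial⟩ (nd (nat_lit 248) (nat_lit 0) (cs (lf (nat_lit 0) (nat_lit 247)) (nd (nat_lit 226) (nat_lit 0) (cs (lf (nat_lit 44) (nat_lit 226)) (rf (nat_lit 0)))))) q60741 (by decide +kernel)
def q60774 : Q := Q.p (nat_lit 0x8000020000980000600000000000000000000000000000000000000000000000000000000000000) (nat_lit 0x5000014000000000600000180000400000000000000000000000000000000000000000000000000000000) (nat_lit 5)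
theorem c60774 : QOK q60774 := cut [q60772] ⟨c60772, trivial⟩ (nd (nat_lit 316) (nat_lit 0) (cs (lf (nat_lit 29) (nat_lit 249)) (nd (nat_lit 314) (nat_lit 0) (cs (lf (nat_lit 41) (nat_lit 248)) (rf (nat_lit 0)))))) q60774 (by decide +kernel)
def q60881 : Q := Q.p (nat_lit 0x60000900000400000000000000000000000000000000000000000000000000000000000000) (nat_lit 0x2000008000067000198000670000000001000000000000000000000000000000000000000000000000000000000) (nat_lit 9)
theorem c60881 : QOK q60881 := cut [q44140] ⟨c44140, trivial⟩ (nd (nat_lit 274) (nat_lit 0) (cs (lf (nat_lit 8) (nat_lit 271)) (nd (nat_lit 295) (nat_lit 0) (cs (lf (nat_lit 15) (nat_lit 271)) (nd (nat_lit 317) (nat_lit 0) (cs (lf (nat_lit 24) (nat_lit 228)) (nd (nat_lit 339) (nat_lit 0) (cs (lf (nat_lit 42) (nat_lit 272)) (nd (nat_lit 292) (nat_lit 0) (cs (rf (nat_lit 0)) (lf (nat_lit 5) (nat_lit 292)))))))))))) q60881 (by decide +kernel)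
def q60899 : Q := Q.p (nat_lit 0x10000070000000000000000000000000000000000000000000000000000000000000000000000000) (nat_lit 0x2380000c000038000000000000000000000000000000000000000000000000000000000000000000) (nat_lit 5)
theorem c60899 : QOK q60899 := cut [q44930] ⟨c44930, trivial⟩ (nd (nat_lit 291) (nat_lit 0) (cs (rf (nat_lit 0)) (lf (nat_lit 5) (nat_lit 291)))) q60899 (by decide +kernel)
def q60921 : Q := Q.p (nat_lit 0x10000060000100002400000000000000000000000000000000000000000000000000000000000000) (nat_lit 0x700000f0000800000e0001b00000c00000000000000000000000000000000000000000000000000000000) (nat_lit 9)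
theorem c60921 : QOK q60921 := cut [q60915] ⟨c60915, trivial⟩ (nd (nat_lit 315) (nat_lit 0) (cs (lf (nat_lit 41) (nat_lit 249)) (nd (nat_lit 249) (nat_lit 0) (cs (lf (nat_lit 47) (nat_lit 227)) (nd (nat_lit 271) (nat_lit 0) (cs (lf (nat_lit 29) (nat_lit 249)) (nd (nat_lit 251) (nat_lit 0) (cs (lf (nat_lit 7) (nat_lit 249)) (nd (nat_lit 226) (nat_lit 0) (cs (lf (nat_lit 46) (nat_lit 226)) (nd (nat_lit 269) (nat_lit 0) (cs (lf (nat_lit 13) (nat_lit 247)) (rf (nat_lit 0)))))))))))))) q60921 (by decide +kernel)
def q60936 : Q := Q.p (nat_lit 0x280001a0000480000200000000000000000000000000000000000000000000000000000000) (nat_lit 0x400003000004000000000040001100004400000000000000000000000000000000000000000000000000) (nat_lit 5)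
theorem c60936 : QOK q60936 := cut [q60935] ⟨c60935, trivial⟩ (nd (nat_lit 206) (nat_lit 0) (cs (lf (nat_lit 37) (nat_lit 205)) (rf (nat_lit 0)))) q60936 (by decide +kernel)
def q61009 : Q := Q.p (nat_lit 0x8000020000080000400000000000000000000000000000000000000000000000000000000000000) (nat_lit 0x140000700001c00002000000000010000140000100000000000000000000000000000000000000000000000000000000000000) (nat_lit 7)
theorem c61009 : QOK q61009 := cut [q48470] ⟨c48470, trivial⟩ (nd (nat_lit 337) (nat_lit 0) (cs (lf (nat_lit 34) (nat_lit 249)) (nd (nat_lit 270) (nat_lit 0) (cs (lf (nat_lit 47) (nat_lit 248)) (nd (nat_lit 359) (nat_lit 0) (cs (lf (nat_lit 46) (nat_lit 270)) (rf (nat_lit 0)))))))) q61009 (by decide +kernel)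
def q61023 : Q := Q.p (nat_lit 0x100000c0000300000400000000000000000000000000000000000) (nat_lit 0x400000b80002800000000000000000000000000000) (nat_lit 4)
theorem c61023 : QOK q61023 := cut [q623] ⟨c623, trivial⟩ (nd (nat_lit 143) (nat_lit 0) (cs (lf (nat_lit 36) (nat_lit 120)) (rf (nat_lit 0)))) q61023 (by decide +kernel)
def q61123 : Q := Q.p (nat_lit 0x3c0000000000000000000000000000000000000000000000000000000000000) (nat_lit 0x20001dc0000000000000000000000000000000000000000000000000000000) (nat_lit 4)
theorem c61123 : QOK q61123 := cut [q57430] ⟨c57430, trivial⟩ (nd (nat_lit 227) (nat_lit 0) (cs (lf (nat_lit 17) (nat_lit 224)) (rf (nat_lit 0)))) q61123 (by decide +kernel)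
def q61495 : Q := Q.p (nat_lit 0x4000000000300000e0000000000000000000000000000000000000000000000) (nat_lit 0x800002000018000060000180006e0000800002000000000000000000000000000000) (nat_lit 8)
theorem c61495 : QOK q61495 := cut [q61492] ⟨c61492, trivial⟩ (nd (nat_lit 184) (nat_lit 0) (cs (lf (nat_lit 0) (nat_lit 183)) (nd (nat_lit 165) (nat_lit 0) (cs (lf (nat_lit 17) (nat_lit 162)) (nd (nat_lit 121) (nat_lit 0) (cs (lf (nat_lit 37) (nat_lit 120)) (rf (nat_lit 0)))))))) q61495 (by decide +kernel)
def q61500 : Q := Q.p (nat_lit 0x4000000000000000e0000000000000000000000000000000000000000000000) (nat_lit 0x800002000018000070000180007f0000000000000000000000000000000000000000) (nat_lit 6)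
theorem c61500 : QOK q61500 := cut [q39098, q58036, q61492] ⟨c39098, c58036, c61492, trivial⟩ (nd (nat_lit 184) (nat_lit 0) (cs (rf (nat_lit 0)) (cs (rf (nat_lit 1)) (rf (nat_lit 2))))) q61500 (by decide +kernel)
def q61509 : Q := Q.p (nat_lit 0x300000c0000100000000000000000000000000000000000000000) (nat_lit 0x20000180000738001ee0003300004800000000000000000000000000000) (nat_lit 8)
theorem c61509 : QOK q61509 := cut [q8140, q18440, q10509, q58404, q58405] ⟨c8140, c18440, c10509, c58404, c58405, trivial⟩ (nd (nat_lit 188) (nat_lit 0) (cs (rf (nat_lit 0)) (cs (rf (nat_lit 1)) (nd (nat_lit 185) (nat_lit 0) (cs (rf (nat_lit 2)) (cs (rf (nat_lit 3)) (rf (nat_lit 4)))))))) q61509 (by decide +kernel)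
def q61531 : Q := Q.p (nat_lit 0x8000020000880000600000000000000000000000000000000000000000000000000000000000000) (nat_lit 0x2000000000040000700000100000c00003000008000000000000000000000000000000000000000000000) (nat_lit 6)
theorem c61531 : QOK q61531 := cut [q47381] ⟨c47381, trivial⟩ (nd (nat_lit 226) (nat_lit 0) (cs (lf (nat_lit 46) (nat_lit 226)) (nd (nat_lit 272) (nat_lit 0) (cs (lf (nat_lit 30) (nat_lit 249)) (nd (nat_lit 273) (nat_lit 0) (cs (lf (nat_lit 19) (nat_lit 249)) (rf (nat_lit 0)))))))) q61531 (by decide +kernel)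
def q61535 : Q := Q.p (nat_lit 0x20000080000600000800000000000000000000000000000000000000000000000000000000) (nat_lit 0x800001700005000000000000000000000000000000000000000000000000000) (nat_lit 4)
theorem c61535 : QOK q61535 := cut [q56480] ⟨c56480, trivial⟩ (nd (nat_lit 228) (nat_lit 0) (cs (lf (nat_lit 35) (nat_lit 205)) (rf (nat_lit 0)))) q61535 (by decide +kernel)
def q61542 : Q := Q.p (nat_lit 0x8000020000080000600000000000000000000000000000000000000000000000000000000000000) (nat_lit 0x6000010000040000100000000000c0000300000c000000000000000000000000000000000000000000000) (nat_lit 6)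
theorem c61542 : QOK q61542 := cut [q61540] ⟨c61540, trivial⟩ (nd (nat_lit 316) (nat_lit 0) (cs (lf (nat_lit 29) (nat_lit 249)) (nd (nat_lit 227) (nat_lit 0) (cs (lf (nat_lit 28) (nat_lit 227)) (rf (nat_lit 0)))))) q61542 (by decide +kernel)
def q61549 : Q := Q.p (nat_lit 0x8c0000600000000000000000000000000000000000000000000000000000000000000) (nat_lit 0x1c000730000800000000000000000000000000000000000000000000000000000000000000) (nat_lit 5)
theorem c61549 : QOK q61549 := cut [q61547] ⟨c61547, trivial⟩ (nd (nat_lit 269) (nat_lit 0) (cs (lf (nat_lit 12) (nat_lit 246)) (nd (nat_lit 272) (nat_lit 0) (cs (lf (nat_lit 17) (nat_lit 247)) (rf (nat_lit 0)))))) q61549 (by decide +kernel)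
def q61550 : Q := Q.p (nat_lit 0x3c0000400000000000000000000000000000000000000000000000000000000000000) (nat_lit 0x80000200001c0000000000000001000004000000000000000000000000000000000000000000000000000) (nat_lit 4)
theorem c61550 : QOK q61550 := cut [q53059] ⟨c53059, trivial⟩ (nd (nat_lit 295) (nat_lit 0) (cs (lf (nat_lit 5) (nat_lit 270)) (rf (nat_lit 0)))) q61550 (by decide +kernel)
def q61568 : Q := Q.p (nat_lit 0x1c0000700000000000000000000000000000000000000000000000000000000000000) (nat_lit 0x50000000000800000f8000380000e000000000000000000000000000000000000000000000) (nat_lit 6)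
theorem c61568 : QOK q61568 := cut [q60700, q61563, q61564] ⟨c60700, c61563, c61564, trivial⟩ (nd (nat_lit 226) (nat_lit 0) (cs (rf (nat_lit 0)) (cs (rf (nat_lit 1)) (nd (nat_lit 204) (nat_lit 0) (cs (lf (nat_lit 24) (nat_lit 182)) (nd (nat_lit 181) (nat_lit 0) (cs (lf (nat_lit 46) (nat_lit 181)) (nd (nat_lit 205) (nat_lit 0) (cs (lf (nat_lit 35) (nat_lit 182)) (rf (nat_lit 2))))))))))) q61568 (by decide +kernel)
def q61572 : Q := Q.p (nat_lit 0x1c0000700000000000000000000000000000000000000000000000000000000000000) (nat_lit 0x500000000000c0003800006000018000000000000000000000000000000000000000000000) (nat_lit 6)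
theorem c61572 : QOK q61572 := cut [q61569] ⟨c61569, trivial⟩ (nd (nat_lit 247) (nat_lit 0) (cs (lf (nat_lit 0) (nat_lit 246)) (nd (nat_lit 228) (nat_lit 0) (cs (lf (nat_lit 17) (nat_lit 225)) (nd (nat_lit 206) (nat_lit 0) (cs (lf (nat_lit 36) (nat_lit 183)) (rf (nat_lit 0)))))))) q61572 (by decide +kernel)
def q61585 : Q := Q.p (nat_lit 0x3c0000400000000000000000000000000000000000000000000000000000000000000) (nat_lit 0x8000020000180000000000800001000004000000000000000000000000000000000000000000000000000) (nat_lit 4)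
theorem c61585 : QOK q61585 := cut [q22121] ⟨c22121, trivial⟩ (nd (nat_lit 295) (nat_lit 0) (cs (lf (nat_lit 5) (nat_lit 270)) (rf (nat_lit 0)))) q61585 (by decide +kernel)
def q61593 : Q := Q.p (nat_lit 0x9c0000600000000000000000000000000000000000000000000000000000000000000) (nat_lit 0x4000018000600000180000800002000000000000000000000000000000000000000000000000000) (nat_lit 5)
theorem c61593 : QOK q61593 := cut [q61589] ⟨c61589, trivial⟩ (nd (nat_lit 273) (nat_lit 0) (cs (lf (nat_lit 19) (nat_lit 249)) (rf (nat_lit 0)))) q61593 (by decide +kernel)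
def q61594 : Q := Q.p (nat_lit 0xc0000200000800000000000000000000000000000000000000000000000000000000) (nat_lit 0x1000000000000000000000700001c000050000000000000000000000000000000000000000) (nat_lit 5)
theorem c61594 : QOK q61594 := cut [q40962] ⟨c40962, trivial⟩ (nd (nat_lit 205) (nat_lit 0) (cs (lf (nat_lit 41) (nat_lit 204)) (rf (nat_lit 0)))) q61594 (by decide +kernel)
def q61595 : Q := Q.p (nat_lit 0xc0000200000800000000000000000000000000000000000000000000000000000000) (nat_lit 0x1000000000010000000000300000c000010000000000000000000000000000000000000000) (nat_lit 4)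
theorem c61595 : QOK q61595 := cut [q54962] ⟨c54962, trivial⟩ (nd (nat_lit 205) (nat_lit 0) (cs (lf (nat_lit 41) (nat_lit 204)) (rf (nat_lit 0)))) q61595 (by decide +kernel)
def q61598 : Q := Q.p (nat_lit 0x20000080000600000000000000000000000000000000000000000000000000000000000000) (nat_lit 0x700001c000050000070000900000c00000000000000000000000000000000000000000000000000000000) (nat_lit 5)
theorem c61598 : QOK q61598 := cut [q46567, q58935] ⟨c46567, c58935, trivial⟩ (nd (nat_lit 315) (nat_lit 0) (cs (rf (nat_lit 0)) (rf (nat_lit 1)))) q61598 (by decide +kernel)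
def q61612 : Q := Q.p (nat_lit 0x280001e0000600000000000000000000000000000000000000000000000000000000000000) (nat_lit 0xc0000300000d0000000000000000000000000000000000000000000000000000000000000000000000000) (nat_lit 4)
theorem c61612 : QOK q61612 := cut [q61611] ⟨c61611, trivial⟩ (nd (nat_lit 294) (nat_lit 0) (cs (lf (nat_lit 5) (nat_lit 269)) (rf (nat_lit 0)))) q61612 (by decide +kernel)
def q61619 : Q := Q.p (nat_lit 0x9c0000600000000000000000000000000000000000000000000000000000000000000) (nat_lit 0x800002000019c000630000000000000000000000000000000000000000000000000000000000000000000) (nat_lit 6)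
theorem c61619 : QOK q61619 := cut [q57056] ⟨c57056, trivial⟩ (nd (nat_lit 273) (nat_lit 0) (cs (lf (nat_lit 19) (nat_lit 249)) (nd (nat_lit 295) (nat_lit 0) (cs (lf (nat_lit 5) (nat_lit 270)) (nd (nat_lit 317) (nat_lit 0) (cs (lf (nat_lit 42) (nat_lit 250)) (rf (nat_lit 0)))))))) q61619 (by decide +kernel)
def q61620 : Q := Q.p (nat_lit 0x9c0000600000000000000000000000000000000000000000000000000000000000000) (nat_lit 0x1c000630000000000000000000000000000000000000000000000000000000000000000000) (nat_lit 4)
theorem c61620 : QOK q61620 := cut [q57056] ⟨c57056, trivial⟩ (nd (nat_lit 273) (nat_lit 0) (cs (lf (nat_lit 19) (nat_lit 249)) (rf (nat_lit 0)))) q61620 (by decide +kernel)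
def q61642 : Q := Q.p (nat_lit 0x300000c0000600000800000000000000000000000000000000000000000000000000000000) (nat_lit 0x80000700001c8000700000000000000000000000000000000000000000000000000000000000000000000) (nat_lit 6)
theorem c61642 : QOK q61642 := cut [q61641] ⟨c61641, trivial⟩ (nd (nat_lit 294) (nat_lit 0) (cs (lf (nat_lit 29) (nat_lit 227)) (rf (nat_lit 0)))) q61642 (by decide +kernel)
def q61656 : Q := Q.p (nat_lit 0xc0000600000000000000000000000000000000000000000000000000000000000000) (nat_lit 0x4000018000030000980000f80003800004000000000000000000000000000000000000000000000) (nat_lit 7)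
theorem c61656 : QOK q61656 := cut [q61587, q61605] ⟨c61587, c61605, trivial⟩ (nd (nat_lit 269) (nat_lit 0) (cs (lf (nat_lit 12) (nat_lit 246)) (nd (nat_lit 248) (nat_lit 0) (cs (lf (nat_lit 6) (nat_lit 247)) (nd (nat_lit 226) (nat_lit 0) (cs (nd (nat_lit 204) (nat_lit 0) (cs (lf (nat_lit 41) (nat_lit 203)) (lf (nat_lit 24) (nat_lit 182)))) (nd (nat_lit 292) (nat_lit 0) (cs (rf (nat_lit 0)) (rf (nat_lit 1)))))))))) q61656 (by decide +kernel)
def q61661 : Q := Q.p (nat_lit 0x20000080000600001000000000000000000000000000000000000000000000000000000000) (nat_lit 0x4000010000140000800000f00003000008000020000000000000000000000000000000000000000) (nat_lit 5)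
theorem c61661 : QOK q61661 := cut [q56480, q61660] ⟨c56480, c61660, trivial⟩ (nd (nat_lit 227) (nat_lit 0) (cs (rf (nat_lit 0)) (rf (nat_lit 1)))) q61661 (by decide +kernel)
def q61672 : Q := Q.p (nat_lit 0x20000980000600000800000000000000000000000000000000000000000000000000000000) (nat_lit 0x14000058000600000000000000000000000000000000000000000000000000000000000000000000) (nat_lit 4)
theorem c61672 : QOK q61672 := cut [q61671] ⟨c61671, trivial⟩ (nd (nat_lit 294) (nat_lit 0) (cs (lf (nat_lit 42) (nat_lit 227)) (rf (nat_lit 0)))) q61672 (by decide +kernel)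
def q61674 : Q := Q.p (nat_lit 0x20000180000600001800000000000000000000000000000000000000000000000000000000) (nat_lit 0x300001c0000060000000000000000000000000000000000000000000000000000000000000000000) (nat_lit 4)
theorem c61674 : QOK q61674 := cut [q59492] ⟨c59492, trivial⟩ (nd (nat_lit 294) (nat_lit 0) (cs (lf (nat_lit 29) (nat_lit 227)) (rf (nat_lit 0)))) q61674 (by decide +kernel)
def q61687 : Q := Q.p (nat_lit 0x180000680000800002000000000000000000000000000000000000000000000000000) (nat_lit 0x10000070000040000000004000010000000000000000000000000000000000000000000000) (nat_lit 4)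
theorem c61687 : QOK q61687 := cut [q44592] ⟨c44592, trivial⟩ (nd (nat_lit 184) (nat_lit 0) (cs (lf (nat_lit 34) (nat_lit 183)) (rf (nat_lit 0)))) q61687 (by decide +kernel)
def q61733 : Q := Q.p (nat_lit 0x60000900000600000000000000000000000000000000000000000000000000000000000000) (nat_lit 0x4000010000018000600000800002800000000000000000000000000000000000000000000000000000000) (nat_lit 5)
theorem c61733 : QOK q61733 := cut [q61731] ⟨c61731, trivial⟩ (nd (nat_lit 273) (nat_lit 0) (cs (lf (nat_lit 19) (nat_lit 249)) (nd (nat_lit 291) (nat_lit 0) (cs (lf (nat_lit 13) (nat_lit 269)) (rf (nat_lit 0)))))) q61733 (by decide +kernel)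
def q61776 : Q := Q.p (nat_lit 0x70000800000000000000000000000000000000000000000000000000000000000000000000) (nat_lit 0x70000188000670000000000000000000000000000000000000000000000000000000000000000000) (nat_lit 5)
theorem c61776 : QOK q61776 := cut [q61736, q61775] ⟨c61736, c61775, trivial⟩ (nd (nat_lit 295) (nat_lit 0) (cs (rf (nat_lit 0)) (rf (nat_lit 1)))) q61776 (by decide +kernel)
def q61785 : Q := Q.p (nat_lit 0xe0000800000000000000000000000000000000000000000000000000000000000000000000) (nat_lit 0xee000110000400000000000000000000000000000000000000000000000000000000000000000000) (nat_lit 5)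
theorem c61785 : QOK q61785 := cut [q61784] ⟨c61784, trivial⟩ (nd (nat_lit 296) (nat_lit 0) (cs (lf (nat_lit 16) (nat_lit 271)) (rf (nat_lit 0)))) q61785 (by decide +kernel)
def q61788 : Q := Q.p (nat_lit 0xe0000000000400000000000000000000000000000000000000000000000000000000000000) (nat_lit 0x2000008000067000018000370000000001000000000000000000000000000000000000000000000000000000000) (nat_lit 5)
theorem c61788 : QOK q61788 := cut [q14508, q61782] ⟨c14508, c61782, trivial⟩ (nd (nat_lit 292) (nat_lit 0) (cs (rf (nat_lit 0)) (rf (nat_lit 1)))) q61788 (by decide +kernel)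
def q61794 : Q := Q.p (nat_lit 0x60000300000400000000000000000000000000000000000000000000000000000000000000) (nat_lit 0x800002000018000018000000000000001000000000000000000000000000000000000000000000000000000000) (nat_lit 4)
theorem c61794 : QOK q61794 := cut [q45203] ⟨c45203, trivial⟩ (nd (nat_lit 291) (nat_lit 0) (cs (rf (nat_lit 0)) (lf (nat_lit 13) (nat_lit 269)))) q61794 (by decide +kernel)
def q61804 : Q := Q.p (nat_lit 0x4000070000800000000000000000000000000000000000000000000000000000000000000000000) (nat_lit 0xe2000180000400000000000000000000000000000000000000000000000000000000000000000000) (nat_lit 4)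
theorem c61804 : QOK q61804 := cut [q60543] ⟨c60543, trivial⟩ (nd (nat_lit 295) (nat_lit 0) (cs (lf (nat_lit 11) (nat_lit 291)) (rf (nat_lit 0)))) q61804 (by decide +kernel)
def q61860 : Q := Q.p (nat_lit 0x14000070000000000000000000000000000000000000000000000000000000000000000000000000) (nat_lit 0xa0001f80007e0001f8000e8000180000060000080000000000000000000000000000000000000000000000000000000000000) (nat_lit 11)
theorem c61860 : QOK q61860 := cut [q47467, q61805, q61808, q61832, q61859] ⟨c47467, c61805, c61808, c61832, c61859, trivial⟩ (nd (nat_lit 317) (nat_lit 0) (cs (rf (nat_lit 0)) (cs (nd (nat_lit 336) (nat_lit 0) (cs (nd (nat_lit 358) (nat_lit 0) (cs (nd (nat_lit 357) (nat_lit 0) (cs (lf (nat_lit 41) (nat_lit 291)) (nd (nat_lit 270) (nat_lit 0) (cs (lf (nat_lit 40) (nat_lit 269)) (rf (nat_lit 1)))))) (cs (nd (nat_lit 359) (nat_lit 0) (cs (lf (nat_lit 29) (nat_lit 292)) (rf (nat_lit 2)))) (nd (nat_lit 379) (nat_lit 0) (cs (lf (nat_lit 40) (nat_lit 291)) (nd (nat_lit 381) (nat_lit 0) (cs (nd (nat_lit 380) (nat_lit 0) (cs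 (lf (nat_lit 41) (nat_lit 313)) (lf (nat_lit 29) (nat_lit 314)))) (lf (nat_lit 28) (nat_lit 292))))))))) (cs (nd (nat_lit 359) (nat_lit 0) (cs (rf (nat_lit 2)) (cs (nd (nat_lit 358) (nat_lit 0) (cs (lf (nat_lit 29) (nat_lit 292)) (nd (nat_lit 357) (nat_lit 0) (cs (lf (nat_lit 41) (nat_lit 291)) (nd (nat_lit 315) (nat_lit 0) (cs (lf (nat_lit 30) (nat_lit 292)) (nd (nat_lit 295) (nat_lit 0) (cs (lf (nat_lit 6) (nat_lit 292)) (nd (nat_lit 339) (nat_lit 0) (cs (lf (nat_lit 5) (nat_lit 314)) (nd (nat_lit 361) (nat_lit 0) (cs (lf (nat_lit 42) (nat_lit 294)) (nd (nat_lit 360) (nat_lit 0) (cs (lf (nat_lit 41) (nat_lit 294)) (lf (nat_lit 16) (nat_lit 335)))))))))))))))) (nd (nat_lit 358) (nat_lit 0) (cs (lf (nat_lit 29) (nat_lit 292)) (nd (nat_lit 357) (nat_lit 0) (cs (lf (nat_lit 41) (nat_lit 291)) (nd (nat_lit 270) (nat_lit 0) (cs (lf (nat_lit 28) (nat_lit 270)) (nd (nat_lit 315) (nat_lit 0) (cs (lf (nat_lit 30) (nat_lit 292)) (nd (nat_lit 339) (nat_lit 0) (cs (lf (nat_lit 5) (nat_lit 314)) (nd (nat_lit 360) (nat_lit 0) (cs (lf (nat_lit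 16) (nat_lit 335)) (nd (nat_lit 383) (nat_lit 0) (cs (lf (nat_lit 43) (nat_lit 294)) (lf (nat_lit 4) (nat_lit 357))))))))))))))))))) (cs (nd (nat_lit 315) (nat_lit 0) (cs (lf (nat_lit 11) (nat_lit 313)) (nd (nat_lit 295) (nat_lit 0) (cs (lf (nat_lit 17) (nat_lit 292)) (nd (nat_lit 339) (nat_lit 0) (cs (lf (nat_lit 5) (nat_lit 314)) (nd (nat_lit 358) (nat_lit 0) (cs (lf (nat_lit 30) (nat_lit 292)) (nd (nat_lit 359) (nat_lit 0) (cs (lf (nat_lit 29) (nat_lit 292)) (nd (nat_lit 361) (nat_lit 0) (cs (lf (nat_lit 42) (nat_lit 294)) (rf (nat_lit 3)))))))))))))) (cs (nd (nat_lit 335) (nat_lit 0) (cs (lf (nat_lit 8) (nat_lit 313)) (nd (nat_lit 270) (nat_lit 0) (cs (lf (nat_lit 41) (nat_lit 269)) (rf (nat_lit 1)))))) (cs (nd (nat_lit 315) (nat_lit 0) (cs (lf (nat_lit 11) (nat_lit 313)) (nd (nat_lit 295) (nat_lit 0) (cs (lf (nat_lit 17) (nat_lit 292)) (nd (nat_lit 339) (nat_lit 0) (cs (lf (nat_lit 5) (nat_lit 314)) (nd (nat_lit 269) (nat_lit 0) (cs (lf (nat_lit 22) (nat_lit 269)) (nd (nat_lit 361) (nat_lit 0) (cs (lf (nat_lit 42) (nat_lit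 294)) (nd (nat_lit 360) (nat_lit 0) (cs (lf (nat_lit 41) (nat_lit 294)) (nd (nat_lit 362) (nat_lit 0) (cs (lf (nat_lit 29) (nat_lit 295)) (nd (nat_lit 337) (nat_lit 0) (cs (lf (nat_lit 21) (nat_lit 336)) (lf (nat_lit 2) (nat_lit 336)))))))))))))))))) (nd (nat_lit 315) (nat_lit 0) (cs (lf (nat_lit 11) (nat_lit 313)) (nd (nat_lit 358) (nat_lit 0) (cs (lf (nat_lit 30) (nat_lit 292)) (nd (nat_lit 357) (nat_lit 0) (cs (lf (nat_lit 41) (nat_lit 291)) (nd (nat_lit 339) (nat_lit 0) (cs (lf (nat_lit 5) (nat_lit 314)) (nd (nat_lit 361) (nat_lit 0) (cs (lf (nat_lit 42) (nat_lit 294)) (nd (nat_lit 337) (nat_lit 0) (cs (nd (nat_lit 359) (nat_lit 0) (cs (lf (nat_lit 30) (nat_lit 293)) (lf (nat_lit 47) (nat_lit 270)))) (lf (nat_lit 7) (nat_lit 335)))))))))))))))))))) (rf (nat_lit 4))))) q61860 (by decide +kernel)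
def q61904 : Q := Q.p (nat_lit 0x10000070000000000000000000000000000000000000000000000000000000000000000000000000) (nat_lit 0x2800000c000038000000000000000000000000000000000000000000000000000000000000000000) (nat_lit 4)
theorem c61904 : QOK q61904 := cut [q61903] ⟨c61903, trivial⟩ (nd (nat_lit 291) (nat_lit 0) (cs (lf (nat_lit 5) (nat_lit 291)) (rf (nat_lit 0)))) q61904 (by decide +kernel)
def q61905 : Q := Q.p (nat_lit 0x10000070000000000000000000000000000000000000000000000000000000000000000000000000) (nat_lit 0x2b80000c000000000000000000000000000000000000000000000000000000000000000000000000) (nat_lit 4)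
theorem c61905 : QOK q61905 := cut [q61901] ⟨c61901, trivial⟩ (nd (nat_lit 291) (nat_lit 0) (cs (lf (nat_lit 5) (nat_lit 291)) (rf (nat_lit 0)))) q61905 (by decide +kernel)
def q61915 : Q := Q.p (nat_lit 0x60000900000600000000000000000000000000000000000000000000000000000000000000) (nat_lit 0x4000010000000000600000800002800000000000000000000000000000000000000000000000000000000) (nat_lit 4)
theorem c61915 : QOK q61915 := cut [q61731] ⟨c61731, trivial⟩ (nd (nat_lit 273) (nat_lit 0) (cs (lf (nat_lit 7) (nat_lit 271)) (rf (nat_lit 0)))) q61915 (by decide +kernel)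
def q61921 : Q := Q.p (nat_lit 0x20000080000600000800000000000000000000000000000000000000000000000000000000) (nat_lit 0x10000000000040000700001c000040000000000000000000000000000000000000000) (nat_lit 5)
theorem c61921 : QOK q61921 := cut [q61919] ⟨c61919, trivial⟩ (nd (nat_lit 204) (nat_lit 0) (cs (lf (nat_lit 46) (nat_lit 204)) (nd (nat_lit 205) (nat_lit 0) (cs (lf (nat_lit 47) (nat_lit 182)) (rf (nat_lit 0)))))) q61921 (by decide +kernel)
def q61935 : Q := Q.p (nat_lit 0xe0000000000200000000000000000000000000000000000000000000000000000000000000) (nat_lit 0x770001180000f0000000000800002000000000000000000000000000000000000000000000000000) (nat_lit 7)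
theorem c61935 : QOK q61935 := cut [q14508, q58551, q61775] ⟨c14508, c58551, c61775, trivial⟩ (nd (nat_lit 292) (nat_lit 0) (cs (rf (nat_lit 0)) (cs (rf (nat_lit 1)) (cs (rf (nat_lit 2)) (nd (nat_lit 317) (nat_lit 0) (cs (lf (nat_lit 5) (nat_lit 292)) (nd (nat_lit 270) (nat_lit 0) (cs (lf (nat_lit 23) (nat_lit 269)) (nd (nat_lit 313) (nat_lit 0) (cs (lf (nat_lit 10) (nat_lit 291)) (nd (nat_lit 271) (nat_lit 0) (cs (lf (nat_lit 18) (nat_lit 270)) (nd (nat_lit 227) (nat_lit 0) (cs (lf (nat_lit 29) (nat_lit 227)) (lf (nat_lit 36) (nat_lit 204)))))))))))))))) q61935 (by decide +kernel)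
def q61936 : Q := Q.p (nat_lit 0xe0000000000400000000010000000000000000000000000000000000000000000000000000) (nat_lit 0x77000018000670000800007000000000000000000000000000000000000000000000000000000000) (nat_lit 8)
theorem c61936 : QOK q61936 := cut [q14508, q58551, q61771, q61775] ⟨c14508, c58551, c61771, c61775, trivial⟩ (nd (nat_lit 292) (nat_lit 0) (cs (rf (nat_lit 0)) (cs (rf (nat_lit 1)) (cs (rf (nat_lit 2)) (rf (nat_lit 3)))))) q61936 (by decide +kernel)
def q61950 : Q := Q.p (nat_lit 0x60000080000200000000000000000000000000000000000000000000000000000000000000) (nat_lit 0x14000010000040000000000c00003000004000000000000000000000000000000000000000000000) (nat_lit 5)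
theorem c61950 : QOK q61950 := cut [q58797] ⟨c58797, trivial⟩ (nd (nat_lit 227) (nat_lit 0) (cs (lf (nat_lit 29) (nat_lit 227)) (rf (nat_lit 0)))) q61950 (by decide +kernel)
def q61952 : Q := Q.p (nat_lit 0x60000080000200000000000000000000000000000000000000000000000000000000000000) (nat_lit 0x10000000000100000000000c00003000004000000000000000000000000000000000000000000000) (nat_lit 4)
theorem c61952 : QOK q61952 := cut [q61951] ⟨c61951, trivial⟩ (nd (nat_lit 227) (nat_lit 0) (cs (lf (nat_lit 29) (nat_lit 227)) (rf (nat_lit 0)))) q61952 (by decide +kernel)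
def q61962 : Q := Q.p (nat_lit 0xe0000000000400000000000000000000000000000000000000000000000000000000000000) (nat_lit 0x180000700001c000077000018000770000800000000000000000000000000000000000000000000000000000000000000) (nat_lit 11)
theorem c61962 : QOK q61962 := cut [q14508, q58551, q61775] ⟨c14508, c58551, c61775, trivial⟩ (nd (nat_lit 292) (nat_lit 0) (cs (rf (nat_lit 0)) (cs (rf (nat_lit 1)) (cs (rf (nat_lit 2)) (nd (nat_lit 317) (nat_lit 0) (cs (lf (nat_lit 5) (nat_lit 292)) (nd (nat_lit 269) (nat_lit 0) (cs (lf (nat_lit 22) (nat_lit 269)) (nd (nat_lit 313) (nat_lit 0) (cs (lf (nat_lit 10) (nat_lit 291)) (nd (nat_lit 273) (nat_lit 0) (cs (lf (nat_lit 17) (nat_lit 270)) (nd (nat_lit 339) (nat_lit 0) (cs (lf (nat_lit 46) (nat_lit 250)) (nd (nat_lit 362) (nat_lit 0) (cs (lf (nat_lit 28) (nat_lit 273)) (nd (nat_lit 338) (nat_lit 0) (cs (lf (nat_lit 41) (nat_lit 272)) (nd (nat_lit 316) (nat_lit 0) (cs (lf (nat_lit 36) (nat_lit 250)) (nd (nat_lit 361) (nat_lit 0) (cs (lf (nat_lit 29) (nat_lit 295)) (lf (nat_lit 42) (nat_lit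 294)))))))))))))))))))))))) q61962 (by decide +kernel)
def q62056 : Q := Q.p (nat_lit 0x20000080000600000800000000000000000000000000000000000000000000000000000000) (nat_lit 0x4000010000000000040000300000c000000000000000000000000000000000000000000000) (nat_lit 4)
theorem c62056 : QOK q62056 := cut [q62055] ⟨c62055, trivial⟩ (nd (nat_lit 204) (nat_lit 0) (cs (lf (nat_lit 46) (nat_lit 204)) (rf (nat_lit 0)))) q62056 (by decide +kernel)
def q62094 : Q := Q.p (nat_lit 0xf0000080000000000000000000000000000000000000000000000000000000000000000000) (nat_lit 0x6380000e00007c000000000000000000000000000000000000000000000000000000000000000000) (nat_lit 7)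
theorem c62094 : QOK q62094 := cut [q14241, q61764, q62089, q62093] ⟨c14241, c61764, c62089, c62093, trivial⟩ (nd (nat_lit 291) (nat_lit 0) (cs (rf (nat_lit 0)) (cs (rf (nat_lit 1)) (cs (nd (nat_lit 317) (nat_lit 0) (cs (lf (nat_lit 5) (nat_lit 292)) (rf (nat_lit 2)))) (rf (nat_lit 3)))))) q62094 (by decide +kernel)
def q62113 : Q := Q.p (nat_lit 0x20000380000600000800000000000000000000000000000000000000000000000000000000) (nat_lit 0x400001c000040000000001000004000000000000000000000000000000000000000000000000000) (nat_lit 4)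
theorem c62113 : QOK q62113 := cut [q59682] ⟨c59682, trivial⟩ (nd (nat_lit 206) (nat_lit 0) (cs (lf (nat_lit 37) (nat_lit 205)) (rf (nat_lit 0)))) q62113 (by decide +kernel)
def q62120 : Q := Q.p (nat_lit 0x78000800000000000000000000000000000000000000000000000000000000000000000000) (nat_lit 0xe0000180000470000000000000000000000000000000000000000000000000000000000000000000) (nat_lit 5)
theorem c62120 : QOK q62120 := cut [q60543] ⟨c60543, trivial⟩ (nd (nat_lit 269) (nat_lit 0) (cs (lf (nat_lit 23) (nat_lit 268)) (nd (nat_lit 295) (nat_lit 0) (cs (lf (nat_lit 22) (nat_lit 269)) (rf (nat_lit 0)))))) q62120 (by decide +kernel)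
def q62138 : Q := Q.p (nat_lit 0xf00001000000000000000000000000000000000000000000000000000000000) (nat_lit 0x80000600000000006000004000010000000000000000000000000000000000000000000000) (nat_lit 4)
theorem c62138 : QOK q62138 := cut [q62137] ⟨c62137, trivial⟩ (nd (nat_lit 229) (nat_lit 0) (cs (lf (nat_lit 17) (nat_lit 226)) (rf (nat_lit 0)))) q62138 (by decide +kernel)
def q62180 : Q := Q.p (nat_lit 0x10000040000300000400000000000000000000000000000000000) (nat_lit 0x8000000000080000380000e000008000000000000000000) (nat_lit 5)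
theorem c62180 : QOK q62180 := cut [q33305] ⟨c33305, trivial⟩ (nd (nat_lit 121) (nat_lit 0) (cs (lf (nat_lit 34) (nat_lit 120)) (nd (nat_lit 120) (nat_lit 0) (cs (lf (nat_lit 35) (nat_lit 98)) (rf (nat_lit 0)))))) q62180 (by decide +kernel)
def q62241 : Q := Q.p (nat_lit 0x600001000000000018000000000000000000000000000000000000000000000) (nat_lit 0x200000800002800004000000000060000000000000000000000000000000000000000) (nat_lit 4)
theorem c62241 : QOK q62241 := cut [q17690] ⟨c17690, trivial⟩ (nd (nat_lit 206) (nat_lit 0) (cs (lf (nat_lit 47) (nat_lit 161)) (rf (nat_lit 0)))) q62241 (by decide +kernel)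
def q62250 : Q := Q.p (nat_lit 0x2000000000010000050000100000000000000000000000000000000000000000) (nat_lit 0x80000e000000000028000e80000800000000000000000000000000000000000) (nat_lit 6)
theorem c62250 : QOK q62250 := cut [q62247] ⟨c62247, trivial⟩ (nd (nat_lit 230) (nat_lit 0) (cs (lf (nat_lit 28) (nat_lit 164)) (nd (nat_lit 229) (nat_lit 0) (cs (lf (nat_lit 41) (nat_lit 163)) (nd (nat_lit 165) (nat_lit 0) (cs (lf (nat_lit 35) (nat_lit 142)) (rf (nat_lit 0)))))))) q62250 (by decide +kernel)
def q62292 : Q := Q.p (nat_lit 0x4000010000000000400001c0000000000000000000000000000000000000000) (nat_lit 0x10000000000080000600003c0000300000e0000000000000000000000000000000000) (nat_lit 5)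
theorem c62292 : QOK q62292 := cut [q2269, q62203] ⟨c2269, c62203, trivial⟩ (nd (nat_lit 161) (nat_lit 0) (cs (rf (nat_lit 0)) (rf (nat_lit 1)))) q62292 (by decide +kernel)
def q62314 : Q := Q.p (nat_lit 0xd00000600001800000000000000000000000000000000000000000000000000000000) (nat_lit 0x380001e0000000000000000000000000000000000000000000000000000000000000000000000000) (nat_lit 4)
theorem c62314 : QOK q62314 := cut [q55475] ⟨c55475, trivial⟩ (nd (nat_lit 294) (nat_lit 0) (cs (lf (nat_lit 42) (nat_lit 227)) (rf (nat_lit 0)))) q62314 (by decide +kernel)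
def q62345 : Q := Q.p (nat_lit 0x600005000010000040000100000000000000000000000000000000000000000) (nat_lit 0x100000800002800023000008000020000000000000000000000000000000000000000) (nat_lit 5)
theorem c62345 : QOK q62345 := cut [q61412] ⟨c61412, trivial⟩ (nd (nat_lit 229) (nat_lit 0) (cs (lf (nat_lit 41) (nat_lit 163)) (nd (nat_lit 227) (nat_lit 0) (cs (lf (nat_lit 17) (nat_lit 205)) (rf (nat_lit 0)))))) q62345 (by decide +kernel)
def q62364 : Q := Q.p (nat_lit 0x180000400001000000000000000000000000000000) (nat_lit 0x2000000000000000000000e0000380000a0000000000000) (nat_lit 5)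
theorem c62364 : QOK q62364 := cut [q4911] ⟨c4911, trivial⟩ (nd (nat_lit 98) (nat_lit 0) (cs (rf (nat_lit 0)) (lf (nat_lit 41) (nat_lit 97)))) q62364 (by decide +kernel)
def q62407 : Q := Q.p (nat_lit 0x300000600001000000000000000000000000000000000000000000000000000000000) (nat_lit 0x80000200000c0000000000180000000004000000000000000000000000000000000000000000000000000) (nat_lit 4)
theorem c62407 : QOK q62407 := cut [q62406] ⟨c62406, trivial⟩ (nd (nat_lit 247) (nat_lit 0) (cs (lf (nat_lit 1) (nat_lit 247)) (rf (nat_lit 0)))) q62407 (by decide +kernel)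
def q62450 : Q := Q.p (nat_lit 0x700001c00000000000000000000000000000000000000000000000000000000) (nat_lit 0x10000040000000000300001c00002000008000000000000000000000000000000000000000) (nat_lit 5)
theorem c62450 : QOK q62450 := cut [q41270] ⟨c41270, trivial⟩ (nd (nat_lit 225) (nat_lit 0) (cs (lf (nat_lit 0) (nat_lit 224)) (nd (nat_lit 203) (nat_lit 0) (cs (lf (nat_lit 23) (nat_lit 202)) (rf (nat_lit 0)))))) q62450 (by decide +kernel)
def q62463 : Q := Q.p (nat_lit 0x700001800000000000000000000000000000000000000000000000000000000) (nat_lit 0x100000400003400008c0000700000c00002000008000000000000000000000000000000000000000) (nat_lit 8)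
theorem c62463 : QOK q62463 := cut [q51762] ⟨c51762, trivial⟩ (nd (nat_lit 247) (nat_lit 0) (cs (lf (nat_lit 12) (nat_lit 224)) (nd (nat_lit 225) (nat_lit 0) (cs (lf (nat_lit 23) (nat_lit 224)) (nd (nat_lit 272) (nat_lit 0) (cs (lf (nat_lit 5) (nat_lit 247)) (nd (nat_lit 226) (nat_lit 0) (cs (lf (nat_lit 18) (nat_lit 225)) (nd (nat_lit 294) (nat_lit 0) (cs (lf (nat_lit 42) (nat_lit 227)) (rf (nat_lit 0)))))))))))) q62463 (by decide +kernel)
def q62473 : Q := Q.p (nat_lit 0x780001e00000000000000000000000000000000000000000000000000000000) (nat_lit 0x70000000000000000c00002000008000000000000000000000000000000000000000) (nat_lit 4)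
theorem c62473 : QOK q62473 := cut [q51762] ⟨c51762, trivial⟩ (nd (nat_lit 268) (nat_lit 0) (cs (lf (nat_lit 10) (nat_lit 246)) (rf (nat_lit 0)))) q62473 (by decide +kernel)
def q62481 : Q := Q.p (nat_lit 0x20000700000800000000000000000000000000000000000000000000000000000000) (nat_lit 0x4000010000040000800000400002000008000000000000000000000000000000000000000000000) (nat_lit 4)
theorem c62481 : QOK q62481 := cut [q62480] ⟨c62480, trivial⟩ (nd (nat_lit 270) (nat_lit 0) (cs (lf (nat_lit 6) (nat_lit 247)) (rf (nat_lit 0)))) q62481 (by decide +kernel)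
def q62512 : Q := Q.p (nat_lit 0x10000040000100000400000000000000000000000000000000000000000000000000000000) (nat_lit 0x280000e000028000000000000000000000000000000000000000000000000000000000000000000000000) (nat_lit 4)
theorem c62512 : QOK q62512 := cut [q62511] ⟨c62511, trivial⟩ (nd (nat_lit 315) (nat_lit 0) (cs (lf (nat_lit 28) (nat_lit 226)) (rf (nat_lit 0)))) q62512 (by decide +kernel)
def q62516 : Q := Q.p (nat_lit 0x10000040000700001400000000000000000000000000000000000000000000000000000000) (nat_lit 0x80000e80000780000a000000000000000000000000000000000000000000000) (nat_lit 6)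
theorem c62516 : QOK q62516 := cut [q62513] ⟨c62513, trivial⟩ (nd (nat_lit 205) (nat_lit 0) (cs (lf (nat_lit 34) (nat_lit 204)) (nd (nat_lit 204) (nat_lit 0) (cs (lf (nat_lit 35) (nat_lit 182)) (nd (nat_lit 203) (nat_lit 0) (cs (lf (nat_lit 47) (nat_lit 181)) (rf (nat_lit 0)))))))) q62516 (by decide +kernel)
def q62522 : Q := Q.p (nat_lit 0x60000100000400000000000000000000000000000000000000000000000000000000) (nat_lit 0x800000000000000000000380000e000028000000000000000000000000000000000000000) (nat_lit 5)
theorem c62522 : QOK q62522 := cut [q46743] ⟨c46743, trivial⟩ (nd (nat_lit 204) (nat_lit 0) (cs (lf (nat_lit 41) (nat_lit 203)) (rf (nat_lit 0)))) q62522 (by decide +kernel)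
def q62526 : Q := Q.p (nat_lit 0x2300001800010000040000000000000000000000000000000000000000000000) (nat_lit 0xe000000000000000380000e00002800000000000000000000000000000) (nat_lit 6)
theorem c62526 : QOK q62526 := cut [q56732] ⟨c56732, trivial⟩ (nd (nat_lit 230) (nat_lit 0) (cs (lf (nat_lit 7) (nat_lit 226)) (rf (nat_lit 0)))) q62526 (by decide +kernel)
def q62532 : Q := Q.p (nat_lit 0x840002700001800010000040000000000000000000000000000000000000000000000) (nat_lit 0x8000026000038000060000000000000000000000000000000000000000) (nat_lit 5)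
theorem c62532 : QOK q62532 := cut [q62531] ⟨c62531, trivial⟩ (nd (nat_lit 183) (nat_lit 0) (cs (lf (nat_lit 37) (nat_lit 182)) (rf (nat_lit 0)))) q62532 (by decide +kernel)
def q62537 : Q := Q.p (nat_lit 0x600005800010000050000000000000000000000000000000000000000000000) (nat_lit 0x660000a00006c0000800000000000000000000000000000000000) (nat_lit 6)
theorem c62537 : QOK q62537 := cut [q62536] ⟨c62536, trivial⟩ (nd (nat_lit 206) (nat_lit 0) (cs (lf (nat_lit 36) (nat_lit 161)) (rf (nat_lit 0)))) q62537 (by decide +kernel)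
def q62570 : Q := Q.p (nat_lit 0x600001800010000050000000000000000000000000000000000000000000000) (nat_lit 0x240000280000e0000000000000000000000000000000000000000) (nat_lit 4)
theorem c62570 : QOK q62570 := cut [q62540] ⟨c62540, trivial⟩ (nd (nat_lit 206) (nat_lit 0) (cs (lf (nat_lit 36) (nat_lit 161)) (rf (nat_lit 0)))) q62570 (by decide +kernel)
def q62580 : Q := Q.p (nat_lit 0x700001000000000000000000000000000000000000000000000000000000000) (nat_lit 0x100000780008c0000b80000800002000000000000000000000000000000000000000000000) (nat_lit 6)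
theorem c62580 : QOK q62580 := cut [q26241, q26243, q26461] ⟨c26241, c26243, c26461, trivial⟩ (nd (nat_lit 247) (nat_lit 0) (cs (rf (nat_lit 0)) (cs (rf (nat_lit 1)) (rf (nat_lit 2))))) q62580 (by decide +kernel)
def q62672 : Q := Q.p (nat_lit 0x600001c00010000000000000000000000000000000000000000000000000000) (nat_lit 0x1c000e300020c00000000000000000000000000000000000000000000000000) (nat_lit 6)
theorem c62672 : QOK q62672 := cut [q62671] ⟨c62671, trivial⟩ (nd (nat_lit 225) (nat_lit 0) (cs (lf (nat_lit 0) (nat_lit 224)) (rf (nat_lit 0)))) q62672 (by decide +kernel)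
def q62690 : Q := Q.p (nat_lit 0xa00000600001000000000000000000000000000000000000000000000000000000000) (nat_lit 0x80000200000c0000500000000000000004000000000000000000000000000000000000000000000000000) (nat_lit 4)
theorem c62690 : QOK q62690 := cut [q62406] ⟨c62406, trivial⟩ (nd (nat_lit 272) (nat_lit 0) (cs (lf (nat_lit 19) (nat_lit 249)) (rf (nat_lit 0)))) q62690 (by decide +kernel)
def q62717 : Q := Q.p (nat_lit 0x600001c00010000000000000000000000000000000000000000000000000000) (nat_lit 0x1c000e300020000000000000000000000000000000000000000000000000000) (nat_lit 5)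
theorem c62717 : QOK q62717 := cut [q62715] ⟨c62715, trivial⟩ (nd (nat_lit 225) (nat_lit 0) (cs (lf (nat_lit 0) (nat_lit 224)) (nd (nat_lit 247) (nat_lit 0) (cs (lf (nat_lit 11) (nat_lit 224)) (rf (nat_lit 0)))))) q62717 (by decide +kernel)
def q62783 : Q := Q.p (nat_lit 0x40000840000100000400001000000000000000000000000000000000000000000000000000) (nat_lit 0x7a0001b8000620000000000000000000000000000000000000000000000000000000000000000000) (nat_lit 7)
theorem c62783 : QOK q62783 := cut [q62780] ⟨c62780, trivial⟩ (nd (nat_lit 291) (nat_lit 0) (cs (lf (nat_lit 40) (nat_lit 203)) (nd (nat_lit 292) (nat_lit 0) (cs (lf (nat_lit 41) (nat_lit 225)) (nd (nat_lit 293) (nat_lit 0) (cs (lf (nat_lit 29) (nat_lit 226)) (rf (nat_lit 0)))))))) q62783 (by decide +kernel)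
def q62797 : Q := Q.p (nat_lit 0x700009400001000000000000000000000000000000000000000000000000000) (nat_lit 0x6800000e0001e0000380000a0000000000000000000000000000000000) (nat_lit 7)
theorem c62797 : QOK q62797 := cut [q979] ⟨c979, trivial⟩ (nd (nat_lit 182) (nat_lit 0) (cs (rf (nat_lit 0)) (cs (nd (nat_lit 183) (nat_lit 0) (cs (lf (nat_lit 35) (nat_lit 160)) (nd (nat_lit 229) (nat_lit 0) (cs (lf (nat_lit 7) (nat_lit 227)) (nd (nat_lit 203) (nat_lit 0) (cs (lf (nat_lit 20) (nat_lit 203)) (nd (nat_lit 202) (nat_lit 0) (cs (lf (nat_lit 12) (nat_lit 179)) (nd (nat_lit 181) (nat_lit 0) (cs (lf (nat_lit 47) (nat_lit 159)) (lf (nat_lit 6) (nat_lit 180)))))))))))) (nd (nat_lit 229) (nat_lit 0) (cs (lf (nat_lit 7) (nat_lit 227)) (nd (nat_lit 227) (nat_lit 0) (cs (lf (nat_lit 23) (nat_lit 203)) (lf (nat_lit 24) (nat_lit 160))))))))) q62797 (by decide +kernel)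
def q62820 : Q := Q.p (nat_lit 0x40000900000600001000000000000000000000000000000000000000000000000000000000) (nat_lit 0x280001a0000600000000000000000000000000000000000000000000000000000000000000000000) (nat_lit 4)
theorem c62820 : QOK q62820 := cut [q55475] ⟨c55475, trivial⟩ (nd (nat_lit 274) (nat_lit 0) (cs (lf (nat_lit 20) (nat_lit 249)) (rf (nat_lit 0)))) q62820 (by decide +kernel)
def q62860 : Q := Q.p (nat_lit 0x8000000000040000100000400000000000000000000000000000000000000000000000000000000) (nat_lit 0x2800006000038000000000000000000000000000000000000000000000000000000000000000000000000) (nat_lit 4)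
theorem c62860 : QOK q62860 := cut [q62511] ⟨c62511, trivial⟩ (nd (nat_lit 292) (nat_lit 0) (cs (lf (nat_lit 28) (nat_lit 226)) (rf (nat_lit 0)))) q62860 (by decide +kernel)
def q62879 : Q := Q.p (nat_lit 0x40000000000700001400000000000000000000000000000000000000000000000000000000) (nat_lit 0x10000000000100000000006b00003c00008000000000000000000000000000000000000000000000) (nat_lit 5)
theorem c62879 : QOK q62879 := cut [q61940, q62160] ⟨c61940, c62160, trivial⟩ (nd (nat_lit 227) (nat_lit 0) (cs (rf (nat_lit 0)) (rf (nat_lit 1)))) q62879 (by decide +kernel)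
def q62890 : Q := Q.p (nat_lit 0x1c000040000000000000000000000000000000000000000000000000000000000000000000000000) (nat_lit 0xe0000300008e000000000000000000000000000000000000000000000000000000000000000000000000) (nat_lit 5)
theorem c62890 : QOK q62890 := cut [q62888] ⟨c62888, trivial⟩ (nd (nat_lit 313) (nat_lit 0) (cs (lf (nat_lit 17) (nat_lit 291)) (nd (nat_lit 290) (nat_lit 0) (cs (lf (nat_lit 22) (nat_lit 290)) (rf (nat_lit 0)))))) q62890 (by decide +kernel)
def q62974 : Q := Q.p (nat_lit 0x1e000000000000000000000000000000000000000000000000000000000000000000000000000000) (nat_lit 0xe700001800007000000000000000000000000000000000000000000000000000000000000000000000000) (nat_lit 6)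
theorem c62974 : QOK q62974 := cut [q62972] ⟨c62972, trivial⟩ (nd (nat_lit 338) (nat_lit 0) (cs (lf (nat_lit 5) (nat_lit 313)) (nd (nat_lit 312) (nat_lit 0) (cs (lf (nat_lit 4) (nat_lit 312)) (rf (nat_lit 0)))))) q62974 (by decide +kernel)
def q63052 : Q := Q.p (nat_lit 0x800003800000000000000000000000000000000000000000000000000000000000000000000000000000) (nat_lit 0x11c0000600001c00000000000000000000000000000000000000000000000000000000000000000000000) (nat_lit 5)
theorem c63052 : QOK q63052 := cut [q51083] ⟨c51083, trivial⟩ (nd (nat_lit 310) (nat_lit 0) (cs (rf (nat_lit 0)) (lf (nat_lit 5) (nat_lit 310)))) q63052 (by decide +kernel)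
def q63294 : Q := Q.p (nat_lit 0x40000700000400000000000000000000000000000000000000000000000000000000) (nat_lit 0x10000000000800000380001800002000008000000000000000000000000000000000000000) (nat_lit 5)
theorem c63294 : QOK q63294 := cut [q59416] ⟨c59416, trivial⟩ (nd (nat_lit 225) (nat_lit 0) (cs (lf (nat_lit 18) (nat_lit 225)) (nd (nat_lit 223) (nat_lit 0) (cs (rf (nat_lit 0)) (lf (nat_lit 1) (nat_lit 223)))))) q63294 (by decide +kernel)
def q63301 : Q := Q.p (nat_lit 0x10000040000100000400000000000000000000000000000000000000000000000000000000) (nat_lit 0x280000e000028000000000000000000000000000000000000000000000000000000000000000000000000) (nat_lit 4)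
theorem c63301 : QOK q63301 := cut [q15229] ⟨c15229, trivial⟩ (nd (nat_lit 313) (nat_lit 0) (cs (rf (nat_lit 0)) (lf (nat_lit 40) (nat_lit 225)))) q63301 (by decide +kernel)
def q63307 : Q := Q.p (nat_lit 0x10000040000300000400000000000000000000000000000000000000000000000000000000) (nat_lit 0x80000380000e000008000080000000000000000000000000000000000000000000000000000000000000000000) (nat_lit 5)
theorem c63307 : QOK q63307 := cut [q63305] ⟨c63305, trivial⟩ (nd (nat_lit 313) (nat_lit 0) (cs (lf (nat_lit 40) (nat_lit 225)) (nd (nat_lit 314) (nat_lit 0) (cs (lf (nat_lit 41) (nat_lit 247)) (rf (nat_lit 0)))))) q63307 (by decide +kernel)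
def q63322 : Q := Q.p (nat_lit 0x8000010000040000300000000000000000000000000000000000000000000000000000000000000) (nat_lit 0x200003800006000000000080000000000000000000000000000000000000000000000000000000000000000000) (nat_lit 4)
theorem c63322 : QOK q63322 := cut [q63321] ⟨c63321, trivial⟩ (nd (nat_lit 314) (nat_lit 0) (cs (lf (nat_lit 29) (nat_lit 248)) (rf (nat_lit 0)))) q63322 (by decide +kernel)
def q63332 : Q := Q.p (nat_lit 0x10000040000100000400000000000000000000000000000000000000000000000000000000) (nat_lit 0x2000008000020000000000200001800002000000000000000000000000000000000000000000000) (nat_lit 4)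
theorem c63332 : QOK q63332 := cut [q51305] ⟨c51305, trivial⟩ (nd (nat_lit 291) (nat_lit 0) (cs (lf (nat_lit 41) (nat_lit 225)) (rf (nat_lit 0)))) q63332 (by decide +kernel)
def q63343 : Q := Q.p (nat_lit 0x10000040000300000000000000000000000000000000000000000000000000000000000000) (nat_lit 0xa0000380001e00000e000080000000000400000000000000000000000000000000000000000000000000000000) (nat_lit 6)
theorem c63343 : QOK q63343 := cut [q63305, q63321, q63340] ⟨c63305, c63321, c63340, trivial⟩ (nd (nat_lit 314) (nat_lit 0) (cs (rf (nat_lit 0)) (cs (rf (nat_lit 1)) (nd (nat_lit 313) (nat_lit 0) (cs (lf (nat_lit 41) (nat_lit 247)) (nd (nat_lit 291) (nat_lit 0) (cs (lf (nat_lit 36) (nat_lit 225)) (rf (nat_lit 2))))))))) q63343 (by decide +kernel)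
def q63468 : Q := Q.p (nat_lit 0x30000840000700000000000000000000000000000000000000000000000000000000000000) (nat_lit 0xa0000380000e0000f1c001cf0007be000000001000000000000000000000000000000000000000000000000000000000) (nat_lit 10)
theorem c63468 : QOK q63468 := cut [q63439, q44926, q59156, q63452, q63456, q63460, q60543, q61780, q61782] ⟨c63439, c44926, c59156, c63452, c63456, c63460, c60543, c61780, c61782, trivial⟩ (nd (nat_lit 294) (nat_lit 0) (cs (nd (nat_lit 291) (nat_lit 0) (cs (nd (nat_lit 316) (nat_lit 0) (cs (lf (nat_lit 5) (nat_lit 291)) (nd (nat_lit 272) (nat_lit 0) (cs (lf (nat_lit 17) (nat_lit 269)) (rf (nat_lit 0)))))) (cs (nd (nat_lit 290) (nat_lit 0) (cs (rf (nat_lit 1)) (cs (nd (nat_lit 272) (nat_lit 0) (cs (lf (nat_lit 17) (nat_lit 269)) (nd (nat_lit 316) (nat_lit 0) (cs (lf (nat_lit 5) (nat_lit 291)) (nd (nat_lit 311) (nat_lit 0) (cs (lf (nat_lit 10) (nat_lit 289)) (nd (nat_lit 289) (nat_lit 0) (cs (lf (nat_lit 11) (nat_lit 288)) (nd (nat_lit 288) (nat_lit 0) (cs (rf (nat_lit 2)) (lf (nat_lit 16) (nat_lit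 266)))))))))))) (cs (nd (nat_lit 311) (nat_lit 0) (cs (lf (nat_lit 10) (nat_lit 289)) (nd (nat_lit 289) (nat_lit 0) (cs (lf (nat_lit 11) (nat_lit 288)) (nd (nat_lit 269) (nat_lit 0) (cs (lf (nat_lit 23) (nat_lit 268)) (lf (nat_lit 12) (nat_lit 266)))))))) (rf (nat_lit 3)))))) (cs (nd (nat_lit 272) (nat_lit 0) (cs (lf (nat_lit 17) (nat_lit 269)) (nd (nat_lit 268) (nat_lit 0) (cs (lf (nat_lit 22) (nat_lit 268)) (nd (nat_lit 316) (nat_lit 0) (cs (lf (nat_lit 5) (nat_lit 291)) (rf (nat_lit 4)))))))) (nd (nat_lit 268) (nat_lit 0) (cs (lf (nat_lit 22) (nat_lit 268)) (nd (nat_lit 290) (nat_lit 0) (cs (lf (nat_lit 23) (nat_lit 267)) (nd (nat_lit 289) (nat_lit 0) (cs (lf (nat_lit 17) (nat_lit 267)) (rf (nat_lit 5)))))))))))) (cs (nd (nat_lit 295) (nat_lit 0) (cs (rf (nat_lit 6)) (cs (rf (nat_lit 7)) (rf (nat_lit 8))))) (nd (nat_lit 269) (nat_lit 0) (cs (lf (nat_lit 18) (nat_lit 269)) (nd (nat_lit 268) (nat_lit 0) (cs (lf (nat_lit 12) (nat_lit 245)) (lf (nat_lit 21) (nat_lit 268))))))))) q63468 (by decide +kernel)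
def q63490 : Q := Q.p (nat_lit 0x200000700000000000000000000000000000000000000000000000000000000000000) (nat_lit 0x100000880007700000000000000000000000000000000000000000000000000000000) (nat_lit 5)
theorem c63490 : QOK q63490 := cut [q63489] ⟨c63489, trivial⟩ (nd (nat_lit 247) (nat_lit 0) (cs (lf (nat_lit 4) (nat_lit 247)) (rf (nat_lit 0)))) q63490 (by decide +kernel)
def q63513 : Q := Q.p (nat_lit 0x780000000000000000000000000000000000000000000000000000000000000) (nat_lit 0x20000380000040003000004000010000000000000000000000000000000000000000000000) (nat_lit 5)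
theorem c63513 : QOK q63513 := cut [q63511] ⟨c63511, trivial⟩ (nd (nat_lit 228) (nat_lit 0) (cs (lf (nat_lit 17) (nat_lit 225)) (nd (nat_lit 272) (nat_lit 0) (cs (lf (nat_lit 5) (nat_lit 247)) (rf (nat_lit 0)))))) q63513 (by decide +kernel)
def q63537 : Q := Q.p (nat_lit 0x40000300000400000000000000000000000000000000000000000000000000000000) (nat_lit 0xe000078000038000000000800003000000000000000000000000000000000000000000000000000) (nat_lit 6)
theorem c63537 : QOK q63537 := cut [q58809, q62567] ⟨c58809, c62567, trivial⟩ (nd (nat_lit 292) (nat_lit 0) (cs (rf (nat_lit 0)) (rf (nat_lit 1)))) q63537 (by decide +kernel)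
def q63541 : Q := Q.p (nat_lit 0x10000040000700000400000000000000000000000000000000000000000000000000000000) (nat_lit 0x2000008000000000000000b00002800000000000000000000000000000000000000000000000000) (nat_lit 4)
theorem c63541 : QOK q63541 := cut [q63540] ⟨c63540, trivial⟩ (nd (nat_lit 291) (nat_lit 0) (cs (lf (nat_lit 41) (nat_lit 225)) (rf (nat_lit 0)))) q63541 (by decide +kernel)
def q63559 : Q := Q.p (nat_lit 0x10000040000300000400001000000000000000000000000000000000000000000000000000) (nat_lit 0x200000800000000000000080000080000e000038000080000000000000000000000000000000000) (nat_lit 6)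
theorem c63559 : QOK q63559 := cut [q58946] ⟨c58946, trivial⟩ (nd (nat_lit 291) (nat_lit 0) (cs (lf (nat_lit 41) (nat_lit 225)) (rf (nat_lit 0)))) q63559 (by decide +kernel)
def q63575 : Q := Q.p (nat_lit 0x300000c0000600001800000000000000000000000000000000000000000000000000000000) (nat_lit 0x700001c0000600000800000000000000000000000000000000000000000000000000000000000000) (nat_lit 5)
theorem c63575 : QOK q63575 := cut [q63564] ⟨c63564, trivial⟩ (nd (nat_lit 294) (nat_lit 0) (cs (lf (nat_lit 29) (nat_lit 227)) (rf (nat_lit 0)))) q63575 (by decide +kernel)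
def q63596 : Q := Q.p (nat_lit 0x780000000000000000000000000000000000000000000000000000000000000) (nat_lit 0x1c0000600039c0000000000000000000000000000000000000000000000000000000) (nat_lit 6)
theorem c63596 : QOK q63596 := cut [q58969] ⟨c58969, trivial⟩ (nd (nat_lit 228) (nat_lit 0) (cs (lf (nat_lit 17) (nat_lit 225)) (nd (nat_lit 246) (nat_lit 0) (cs (lf (nat_lit 16) (nat_lit 224)) (rf (nat_lit 0)))))) q63596 (by decide +kernel)
def q63626 : Q := Q.p (nat_lit 0x780000000000000000000000000000000000000000000000000000000000000) (nat_lit 0x1c000870000fc0000000000000000000000000000000000000000000000000000000) (nat_lit 6)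
theorem c63626 : QOK q63626 := cut [q44583, q58969, q63625] ⟨c44583, c58969, c63625, trivial⟩ (nd (nat_lit 246) (nat_lit 0) (cs (rf (nat_lit 0)) (cs (rf (nat_lit 1)) (rf (nat_lit 2))))) q63626 (by decide +kernel)
def q63757 : Q := Q.p (nat_lit 0x700000400001000000000000000000000000000000000000000000000000000) (nat_lit 0x140000000000800006c0007e0000780000a0000000000000000000000000000000000) (nat_lit 8)
theorem c63757 : QOK q63757 := cut [q51563, q56437] ⟨c51563, c56437, trivial⟩ (nd (nat_lit 183) (nat_lit 0) (cs (nd (nat_lit 161) (nat_lit 0) (cs (lf (nat_lit 33) (nat_lit 160)) (nd (nat_lit 205) (nat_lit 0) (cs (lf (nat_lit 36) (nat_lit 138)) (lf (nat_lit 30) (nat_lit 182)))))) (cs (nd (nat_lit 205) (nat_lit 0) (cs (lf (nat_lit 30) (nat_lit 182)) (rf (nat_lit 0)))) (cs (nd (nat_lit 182) (nat_lit 0) (cs (lf (nat_lit 35) (nat_lit 160)) (rf (nat_lit 1)))) (nd (nat_lit 205) (nat_lit 0) (cs (lf (nat_lit 30) (nat_lit 182)) (nd (nat_lit 227) (nat_lit 0) (cs (lf (nat_lit 29) (nat_lit 183)) (nd (nat_lit 160) (nat_lit 0) (cs (lf (nat_lit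 25) (nat_lit 160)) (nd (nat_lit 184) (nat_lit 0) (cs (lf (nat_lit 35) (nat_lit 161)) (nd (nat_lit 185) (nat_lit 0) (cs (lf (nat_lit 6) (nat_lit 182)) (nd (nat_lit 203) (nat_lit 0) (cs (lf (nat_lit 12) (nat_lit 180)) (lf (nat_lit 15) (nat_lit 181)))))))))))))))))) q63757 (by decide +kernel)
def q63839 : Q := Q.p (nat_lit 0x10000020000080000200000000000000000000000000000000000000000000000000000000) (nat_lit 0x40000000000000001c00007000014000000000000000000000000000000000000000) (nat_lit 5)
theorem c63839 : QOK q63839 := cut [q45760] ⟨c45760, trivial⟩ (nd (nat_lit 203) (nat_lit 0) (cs (lf (nat_lit 28) (nat_lit 203)) (rf (nat_lit 0)))) q63839 (by decide +kernel)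
def q63850 : Q := Q.p (nat_lit 0x600001000000000010000000000000000000000000000000000000000000000) (nat_lit 0x800000000008000040000200000c0000200000000000000000000000000000000000) (nat_lit 4)
theorem c63850 : QOK q63850 := cut [q26196] ⟨c26196, trivial⟩ (nd (nat_lit 206) (nat_lit 0) (cs (lf (nat_lit 41) (nat_lit 183)) (rf (nat_lit 0)))) q63850 (by decide +kernel)
def q63866 : Q := Q.p (nat_lit 0x40000380000400002000000000000000000000000000000) (nat_lit 0x8000000000020000100000e000018000020000000000000) (nat_lit 5)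
theorem c63866 : QOK q63866 := cut [q38890] ⟨c38890, trivial⟩ (nd (nat_lit 120) (nat_lit 0) (cs (lf (nat_lit 35) (nat_lit 98)) (nd (nat_lit 98) (nat_lit 0) (cs (lf (nat_lit 29) (nat_lit 98)) (rf (nat_lit 0)))))) q63866 (by decide +kernel)
def q63917 : Q := Q.p (nat_lit 0x600001000000000010000000000000000000000000000000000000000000000) (nat_lit 0x80000000000800004000008000060000080000000000000000000000000000000000) (nat_lit 4)
theorem c63917 : QOK q63917 := cut [q14144] ⟨c14144, trivial⟩ (nd (nat_lit 206) (nat_lit 0) (cs (lf (nat_lit 41) (nat_lit 183)) (rf (nat_lit 0)))) q63917 (by decide +kernel)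
def q63926 : Q := Q.p (nat_lit 0x20000080000600001800000000000000000000000000000000000000000000000000000000) (nat_lit 0x400001000004000000000000000300000c000030000000000000000000000000000000000000000) (nat_lit 5)
theorem c63926 : QOK q63926 := cut [q63924] ⟨c63924, trivial⟩ (nd (nat_lit 292) (nat_lit 0) (cs (lf (nat_lit 41) (nat_lit 226)) (nd (nat_lit 205) (nat_lit 0) (cs (lf (nat_lit 40) (nat_lit 204)) (rf (nat_lit 0)))))) q63926 (by decide +kernel)
def q63942 : Q := Q.p (nat_lit 0x60000800000400001800000000000000000000000000000000000000000000000000000000) (nat_lit 0x20000180000700000000000000002000000000000000000000000000000000000000000000000000) (nat_lit 4)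
theorem c63942 : QOK q63942 := cut [q60732] ⟨c60732, trivial⟩ (nd (nat_lit 272) (nat_lit 0) (cs (lf (nat_lit 47) (nat_lit 205)) (rf (nat_lit 0)))) q63942 (by decide +kernel)
def q63973 : Q := Q.p (nat_lit 0x900000600001000000000000000000000000000000000000000000000000000000000) (nat_lit 0xa0000680000000000000004000010000000000000000000000000000000000000000000000) (nat_lit 4)
theorem c63973 : QOK q63973 := cut [q63972] ⟨c63972, trivial⟩ (nd (nat_lit 273) (nat_lit 0) (cs (lf (nat_lit 19) (nat_lit 249)) (rf (nat_lit 0)))) q63973 (by decide +kernel)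
def q63975 : Q := Q.p (nat_lit 0x100000600001000004000000000000000000000000000000000000000000000000000) (nat_lit 0x8000020000380000e0000200000000000000000000000000000000000) (nat_lit 5)
theorem c63975 : QOK q63975 := cut [q3385] ⟨c3385, trivial⟩ (nd (nat_lit 183) (nat_lit 0) (cs (lf (nat_lit 46) (nat_lit 183)) (nd (nat_lit 184) (nat_lit 0) (cs (lf (nat_lit 47) (nat_lit 161)) (rf (nat_lit 0)))))) q63975 (by decide +kernel)
def q63978 : Q := Q.p (nat_lit 0x900000600001000000000000000000000000000000000000000000000000000000000) (nat_lit 0x380001e0000600000000000800002000000000000000000000000000000000000000000000000000) (nat_lit 5)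
theorem c63978 : QOK q63978 := cut [q17589, q62761] ⟨c17589, c62761, trivial⟩ (nd (nat_lit 294) (nat_lit 0) (cs (rf (nat_lit 0)) (rf (nat_lit 1)))) q63978 (by decide +kernel)
def q63985 : Q := Q.p (nat_lit 0x100000600001000000000000000000000000000000000000000000000000000000000) (nat_lit 0xc0000380000e0000080000000000800006000018000000000000000000000000000000000000000000000) (nat_lit 6)
theorem c63985 : QOK q63985 := cut [q17589, q63981, q63982] ⟨c17589, c63981, c63982, trivial⟩ (nd (nat_lit 294) (nat_lit 0) (cs (rf (nat_lit 0)) (cs (rf (nat_lit 1)) (nd (nat_lit 205) (nat_lit 0) (cs (lf (nat_lit 46) (nat_lit 205)) (nd (nat_lit 295) (nat_lit 0) (cs (lf (nat_lit 29) (nat_lit 228)) (rf (nat_lit 2))))))))) q63985 (by decide +kernel)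
def q64024 : Q := Q.p (nat_lit 0x40000700000400001000000000000000000000000000000000000000000000000000) (nat_lit 0x10000000000000000b80000800002000000000000000000000000000000000000000000000) (nat_lit 4)
theorem c64024 : QOK q64024 := cut [q64023] ⟨c64023, trivial⟩ (nd (nat_lit 203) (nat_lit 0) (cs (lf (nat_lit 47) (nat_lit 181)) (rf (nat_lit 0)))) q64024 (by decide +kernel)
def q64039 : Q := Q.p (nat_lit 0x780000000000000000000000000000000000000000000000000000000000000) (nat_lit 0x40000300000040003800002000008000000000000000000000000000000000000000000000) (nat_lit 5)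
theorem c64039 : QOK q64039 := cut [q57466] ⟨c57466, trivial⟩ (nd (nat_lit 228) (nat_lit 0) (cs (lf (nat_lit 17) (nat_lit 225)) (nd (nat_lit 227) (nat_lit 0) (cs (lf (nat_lit 12) (nat_lit 224)) (rf (nat_lit 0)))))) q64039 (by decide +kernel)
def q64079 : Q := Q.p (nat_lit 0x100000600001000004000000000000000000000000000000000000000000000) (nat_lit 0x8000080000380000e0000080000000000000000000000000000) (nat_lit 5)
theorem c64079 : QOK q64079 := cut [q27583] ⟨c27583, trivial⟩ (nd (nat_lit 161) (nat_lit 0) (cs (lf (nat_lit 34) (nat_lit 160)) (nd (nat_lit 160) (nat_lit 0) (cs (lf (nat_lit 35) (nat_lit 138)) (rf (nat_lit 0)))))) q64079 (by decide +kernel)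
def q64218 : Q := Q.p (nat_lit 0x900000700000000000000000000000000000000000000000000000000000000000000) (nat_lit 0x3e0001fc0004c00008c0001f00007e0001e000038000000000000000000000000000000000000000) (nat_lit 12)
theorem c64218 : QOK q64218 := cut [q45536, q56561, q56631, q41270, q64142, q64188, q64143, q64210] ⟨c45536, c56561, c56631, c41270, c64142, c64188, c64143, c64210, trivial⟩ (nd (nat_lit 227) (nat_lit 0) (cs (rf (nat_lit 0)) (cs (rf (nat_lit 1)) (cs (rf (nat_lit 2)) (cs (nd (nat_lit 225) (nat_lit 0) (cs (nd (nat_lit 226) (nat_lit 0) (cs (lf (nat_lit 0) (nat_lit 224)) (lf (nat_lit 18) (nat_lit 225)))) (cs (nd (nat_lit 294) (nat_lit 0) (cs (lf (nat_lit 42) (nat_lit 227)) (nd (nat_lit 247) (nat_lit 0) (cs (lf (nat_lit 23) (nat_lit 224)) (nd (nat_lit 246) (nat_lit 0) (cs (lf (nat_lit 4) (nat_lit 246)) (lf (nat_lit 17) (nat_lit 224)))))))) (nd (nat_lit 293) (nat_lit 0) (cs (nd (nat_lit 226) (nat_lit 0) (cs (lf (nat_lit 18) (nat_lit 225)) (nd (nat_lit 271) (nat_lit 0) (cs (lf (nat_lit 42) (nat_lit 226)) (lf (nat_lit 47) (nat_lit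 204)))))) (cs (nd (nat_lit 226) (nat_lit 0) (cs (lf (nat_lit 18) (nat_lit 225)) (nd (nat_lit 294) (nat_lit 0) (cs (lf (nat_lit 42) (nat_lit 227)) (nd (nat_lit 228) (nat_lit 0) (cs (lf (nat_lit 41) (nat_lit 227)) (nd (nat_lit 246) (nat_lit 0) (cs (lf (nat_lit 13) (nat_lit 224)) (nd (nat_lit 203) (nat_lit 0) (cs (lf (nat_lit 23) (nat_lit 202)) (nd (nat_lit 295) (nat_lit 0) (cs (lf (nat_lit 29) (nat_lit 228)) (rf (nat_lit 3)))))))))))))) (cs (nd (nat_lit 294) (nat_lit 0) (cs (lf (nat_lit 42) (nat_lit 227)) (nd (nat_lit 226) (nat_lit 0) (cs (lf (nat_lit 18) (nat_lit 225)) (nd (nat_lit 204) (nat_lit 0) (cs (lf (nat_lit 43) (nat_lit 204)) (nd (nat_lit 182) (nat_lit 0) (cs (lf (nat_lit 24) (nat_lit 160)) (nd (nat_lit 161) (nat_lit 0) (cs (lf (nat_lit 34) (nat_lit 160)) (nd (nat_lit 181) (nat_lit 0) (cs (lf (nat_lit 47) (nat_lit 159)) (nd (nat_lit 203) (nat_lit 0) (cs (lf (nat_lit 42) (nat_lit 181)) (rf (nat_lit 4)))))))))))))))) (nd (nat_lit 294) (nat_lit 0) (cs (lf (nat_lit 42) (nat_lit 227)) (rf (nat_lit 5))))))))))) (nd (nat_lit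 271) (nat_lit 0) (cs (nd (nat_lit 247) (nat_lit 0) (cs (lf (nat_lit 0) (nat_lit 246)) (nd (nat_lit 225) (nat_lit 0) (cs (lf (nat_lit 23) (nat_lit 224)) (nd (nat_lit 226) (nat_lit 0) (cs (lf (nat_lit 18) (nat_lit 225)) (nd (nat_lit 204) (nat_lit 0) (cs (lf (nat_lit 24) (nat_lit 182)) (lf (nat_lit 42) (nat_lit 204)))))))))) (cs (nd (nat_lit 205) (nat_lit 0) (cs (lf (nat_lit 24) (nat_lit 183)) (nd (nat_lit 292) (nat_lit 0) (cs (lf (nat_lit 40) (nat_lit 204)) (nd (nat_lit 182) (nat_lit 0) (cs (lf (nat_lit 46) (nat_lit 182)) (nd (nat_lit 293) (nat_lit 0) (cs (lf (nat_lit 41) (nat_lit 226)) (nd (nat_lit 206) (nat_lit 0) (cs (lf (nat_lit 35) (nat_lit 183)) (lf (nat_lit 37) (nat_lit 205)))))))))))) (cs (nd (nat_lit 247) (nat_lit 0) (cs (lf (nat_lit 0) (nat_lit 246)) (nd (nat_lit 205) (nat_lit 0) (cs (lf (nat_lit 24) (nat_lit 183)) (nd (nat_lit 184) (nat_lit 0) (cs (lf (nat_lit 34) (nat_lit 183)) (nd (nat_lit 204) (nat_lit 0) (cs (lf (nat_lit 47) (nat_lit 182)) (nd (nat_lit 225) (nat_lit 0) (cs (lf (nat_lit 23) (nat_lit 224)) (nd (nat_lit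 226) (nat_lit 0) (cs (lf (nat_lit 18) (nat_lit 225)) (nd (nat_lit 270) (nat_lit 0) (cs (lf (nat_lit 30) (nat_lit 204)) (rf (nat_lit 6)))))))))))))))) (nd (nat_lit 183) (nat_lit 0) (cs (lf (nat_lit 25) (nat_lit 183)) (nd (nat_lit 247) (nat_lit 0) (cs (lf (nat_lit 0) (nat_lit 246)) (nd (nat_lit 225) (nat_lit 0) (cs (lf (nat_lit 23) (nat_lit 224)) (nd (nat_lit 226) (nat_lit 0) (cs (lf (nat_lit 18) (nat_lit 225)) (nd (nat_lit 293) (nat_lit 0) (cs (lf (nat_lit 42) (nat_lit 226)) (nd (nat_lit 206) (nat_lit 0) (cs (lf (nat_lit 37) (nat_lit 205)) (rf (nat_lit 7))))))))))))))))))))))) q64218 (by decide +kernel)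
def q64234 : Q := Q.p (nat_lit 0x8000040000900000600000000000000000000000000000000000000000000000000000000000000) (nat_lit 0x200000a0000600000000001000004000000000000000000000000000000000000000000000000000) (nat_lit 4)
theorem c64234 : QOK q64234 := cut [q64233] ⟨c64233, trivial⟩ (nd (nat_lit 273) (nat_lit 0) (cs (lf (nat_lit 19) (nat_lit 249)) (rf (nat_lit 0)))) q64234 (by decide +kernel)
def q64268 : Q := Q.p (nat_lit 0x60000800000600001800010000000000000000000000000000000000000000000000000000) (nat_lit 0x77000198001680000800006000000000000000000000000000000000000000000000000000000000) (nat_lit 6)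
theorem c64268 : QOK q64268 := cut [q61925, q64263, q58551, q64266] ⟨c61925, c64263, c58551, c64266, trivial⟩ (nd (nat_lit 295) (nat_lit 0) (cs (rf (nat_lit 0)) (cs (rf (nat_lit 1)) (nd (nat_lit 292) (nat_lit 0) (cs (rf (nat_lit 2)) (cs (nd (nat_lit 316) (nat_lit 0) (cs (lf (nat_lit 26) (nat_lit 227)) (nd (nat_lit 317) (nat_lit 0) (cs (lf (nat_lit 0) (nat_lit 291)) (lf (nat_lit 5) (nat_lit 292)))))) (rf (nat_lit 3)))))))) q64268 (by decide +kernel)
def q64270 : Q := Q.p (nat_lit 0xe0000000000600001000000000000000000000000000000000000000000000000000000000) (nat_lit 0xf000110000080000000000000000000000000000000000000000000000000000000000000000000) (nat_lit 4)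
theorem c64270 : QOK q64270 := cut [q58544] ⟨c58544, trivial⟩ (nd (nat_lit 315) (nat_lit 0) (cs (lf (nat_lit 32) (nat_lit 227)) (rf (nat_lit 0)))) q64270 (by decide +kernel)
def q64282 : Q := Q.p (nat_lit 0xe0000000000400001000000000000000000000000000000000000000000000000000000000) (nat_lit 0x7fc0001e000638000800000000000000000000000000000000000000000000000000000000000000) (nat_lit 9)
theorem c64282 : QOK q64282 := cut [q58551, q63563, q58549, q61764, q58700] ⟨c58551, c63563, c58549, c61764, c58700, trivial⟩ (nd (nat_lit 292) (nat_lit 0) (cs (rf (nat_lit 0)) (cs (rf (nat_lit 1)) (nd (nat_lit 291) (nat_lit 0) (cs (rf (nat_lit 2)) (cs (rf (nat_lit 3)) (cs (nd (nat_lit 273) (nat_lit 0) (cs (lf (nat_lit 17) (nat_lit 270)) (rf (nat_lit 4)))) (nd (nat_lit 268) (nat_lit 0) (cs (lf (nat_lit 22) (nat_lit 268)) (nd (nat_lit 314) (nat_lit 0) (cs (lf (nat_lit 11) (nat_lit 291)) (nd (nat_lit 273) (nat_lit 0) (cs (lf (nat_lit 17) (nat_lit 270)) (nd (nat_lit 290) (nat_lit 0) (cs (lf (nat_lit 23) (nat_lit 267)) (nd (nat_lit 315) (nat_lit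 0) (cs (lf (nat_lit 5) (nat_lit 290)) (lf (nat_lit 0) (nat_lit 289))))))))))))))))))) q64282 (by decide +kernel)
def q64507 : Q := Q.p (nat_lit 0x20000080000200000800000000000000000000000000000000000000000000000000000000) (nat_lit 0x10000040000100000000000400003000004000000000000000000000000000000000000000000000) (nat_lit 4)
theorem c64507 : QOK q64507 := cut [q61951] ⟨c61951, trivial⟩ (nd (nat_lit 294) (nat_lit 0) (cs (lf (nat_lit 29) (nat_lit 227)) (rf (nat_lit 0)))) q64507 (by decide +kernel)
def q64565 : Q := Q.p (nat_lit 0x700000000000000000000000000000000000000000000000000000000000000) (nat_lit 0x80000200001ce0008f0007fe0001000004000000000000000000000000000000000000000000000) (nat_lit 9)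
theorem c64565 : QOK q64565 := cut [q63489, q59055, q51294, q63800, q50417] ⟨c63489, c59055, c51294, c63800, c50417, trivial⟩ (nd (nat_lit 247) (nat_lit 0) (cs (rf (nat_lit 0)) (cs (nd (nat_lit 271) (nat_lit 0) (cs (nd (nat_lit 246) (nat_lit 0) (cs (lf (nat_lit 5) (nat_lit 246)) (rf (nat_lit 1)))) (cs (nd (nat_lit 246) (nat_lit 0) (cs (lf (nat_lit 5) (nat_lit 246)) (nd (nat_lit 245) (nat_lit 0) (cs (rf (nat_lit 2)) (lf (nat_lit 4) (nat_lit 245)))))) (nd (nat_lit 225) (nat_lit 0) (cs (lf (nat_lit 23) (nat_lit 224)) (nd (nat_lit 226) (nat_lit 0) (cs (lf (nat_lit 18) (nat_lit 225)) (rf (nat_lit 3))))))))) (nd (nat_lit 228) (nat_lit 0) (cs (lf (nat_lit 17) (nat_lit 225)) (nd (nat_lit 246) (nat_lit 0) (cs (lf (nat_lit 16) (nat_lit 224)) (nd (nat_lit 271) (nat_lit 0) (cs (lf (nat_lit 5) (nat_lit 246)) (nd (nat_lit 245) (nat_lit 0) (cs (rf (nat_lit 4)) (lf (nat_lit 4) (nat_lit 245))))))))))))) q64565 (by decide +kernel)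
def q64673 : Q := Q.p (nat_lit 0xf0000000000200000000000000000000000000000000000000000000000000000000000000) (nat_lit 0x40000100000e000000000080000000000800000000000000000000000000000000000000000000000000000000) (nat_lit 4)
theorem c64673 : QOK q64673 := cut [q64672] ⟨c64672, trivial⟩ (nd (nat_lit 314) (nat_lit 0) (cs (lf (nat_lit 11) (nat_lit 291)) (rf (nat_lit 0)))) q64673 (by decide +kernel)
def q64751 : Q := Q.p (nat_lit 0x40000b00002400001000010000000000000000000000000000000000000000000000000000) (nat_lit 0x800003800000000080000e8000278000f8000180000000000000000000000000000000000000000) (nat_lit 11)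
theorem c64751 : QOK q64751 := cut [q64748] ⟨c64748, trivial⟩ (nd (nat_lit 205) (nat_lit 0) (cs (lf (nat_lit 46) (nat_lit 205)) (nd (nat_lit 293) (nat_lit 0) (cs (lf (nat_lit 41) (nat_lit 227)) (nd (nat_lit 291) (nat_lit 0) (cs (lf (nat_lit 13) (nat_lit 269)) (rf (nat_lit 0)))))))) q64751 (by decide +kernel)
def q64759 : Q := Q.p (nat_lit 0x10000040000300000600000000000000000000000000000000000000000000000000000000000000) (nat_lit 0xa0000280000a0000000000180001000000000000000000000000000000000000000000000000000000000) (nat_lit 5)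
theorem c64759 : QOK q64759 := cut [q41472] ⟨c41472, trivial⟩ (nd (nat_lit 247) (nat_lit 0) (cs (lf (nat_lit 1) (nat_lit 247)) (rf (nat_lit 0)))) q64759 (by decide +kernel)
def q64790 : Q := Q.p (nat_lit 0x10000040000300000000000000000000000000000000000000000000000000000000000000) (nat_lit 0xa0000380000e000000000000000000000800000000000000000000000000000000000000000000000000000000) (nat_lit 5)
theorem c64790 : QOK q64790 := cut [q64789] ⟨c64789, trivial⟩ (nd (nat_lit 314) (nat_lit 0) (cs (lf (nat_lit 35) (nat_lit 226)) (rf (nat_lit 0)))) q64790 (by decide +kernel)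
def q64814 : Q := Q.p (nat_lit 0x40000300000600000000000000000000000000000000000000000000000000000000000000) (nat_lit 0xa0000380007e0001fe0001b8000080000800002000000000000000000000000000000000000000000000000000000000) (nat_lit 11)
theorem c64814 : QOK q64814 := cut [q63456, q64230, q23853, q47126, q47467] ⟨c63456, c64230, c23853, c47126, c47467, trivial⟩ (nd (nat_lit 316) (nat_lit 0) (cs (rf (nat_lit 0)) (cs (rf (nat_lit 1)) (nd (nat_lit 317) (nat_lit 0) (cs (lf (nat_lit 29) (nat_lit 250)) (nd (nat_lit 292) (nat_lit 0) (cs (nd (nat_lit 315) (nat_lit 0) (cs (lf (nat_lit 41) (nat_lit 249)) (nd (nat_lit 291) (nat_lit 0) (cs (lf (nat_lit 21) (nat_lit 291)) (lf (nat_lit 14) (nat_lit 269)))))) (cs (nd (nat_lit 229) (nat_lit 0) (cs (lf (nat_lit 34) (nat_lit 228)) (nd (nat_lit 315) (nat_lit 0) (cs (lf (nat_lit 41) (nat_lit 249)) (nd (nat_lit 318) (nat_lit 0) (cs (lf (nat_lit 22) (nat_lit 292)) (nd (nat_lit 341) (nat_lit 0) (cs (lf (nat_lit 4) (nat_lit 315)) (nd (nat_lit 319) (nat_lit 0) (cs (lf (nat_lit 5) (nat_lit 316)) (nd (nat_lit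 295) (nat_lit 0) (cs (lf (nat_lit 18) (nat_lit 294)) (rf (nat_lit 2)))))))))))))) (cs (nd (nat_lit 229) (nat_lit 0) (cs (lf (nat_lit 34) (nat_lit 228)) (nd (nat_lit 315) (nat_lit 0) (cs (lf (nat_lit 41) (nat_lit 249)) (nd (nat_lit 314) (nat_lit 0) (cs (lf (nat_lit 23) (nat_lit 291)) (rf (nat_lit 3)))))))) (nd (nat_lit 229) (nat_lit 0) (cs (lf (nat_lit 34) (nat_lit 228)) (nd (nat_lit 293) (nat_lit 0) (cs (lf (nat_lit 0) (nat_lit 291)) (rf (nat_lit 4))))))))))))))) q64814 (by decide +kernel)
def q64824 : Q := Q.p (nat_lit 0x70000880000600000000000000000000000000000000000000000000000000000000000000) (nat_lit 0x10000e6000180000470000000000000000000000000000000000000000000000000000000000000000000) (nat_lit 5)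
theorem c64824 : QOK q64824 := cut [q60543, q61062, q64821] ⟨c60543, c61062, c64821, trivial⟩ (nd (nat_lit 295) (nat_lit 0) (cs (rf (nat_lit 0)) (cs (rf (nat_lit 1)) (nd (nat_lit 317) (nat_lit 0) (cs (lf (nat_lit 5) (nat_lit 292)) (nd (nat_lit 270) (nat_lit 0) (cs (lf (nat_lit 23) (nat_lit 269)) (rf (nat_lit 2))))))))) q64824 (by decide +kernel)
def q64851 : Q := Q.p (nat_lit 0x10000040000100000600000000000000000000000000000000000000000000000000000000000000) (nat_lit 0xc0000200000a000008000098000f000004000010000000000000000000000000000000000000000000000) (nat_lit 8)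
theorem c64851 : QOK q64851 := cut [q64846] ⟨c64846, trivial⟩ (nd (nat_lit 229) (nat_lit 0) (cs (lf (nat_lit 34) (nat_lit 228)) (nd (nat_lit 317) (nat_lit 0) (cs (lf (nat_lit 29) (nat_lit 250)) (nd (nat_lit 228) (nat_lit 0) (cs (lf (nat_lit 28) (nat_lit 228)) (nd (nat_lit 247) (nat_lit 0) (cs (lf (nat_lit 13) (nat_lit 225)) (nd (nat_lit 230) (nat_lit 0) (cs (lf (nat_lit 6) (nat_lit 227)) (rf (nat_lit 0)))))))))))) q64851 (by decide +kernel)
def q64855 : Q := Q.p (nat_lit 0x10000040000100000600000000000000000000000000000000000000000000000000000000000000) (nat_lit 0x700000e0001a0000080000000001000000000000000000000000000000000000000000000000000000000) (nat_lit 6)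
theorem c64855 : QOK q64855 := cut [q60056] ⟨c60056, trivial⟩ (nd (nat_lit 315) (nat_lit 0) (cs (lf (nat_lit 41) (nat_lit 249)) (nd (nat_lit 293) (nat_lit 0) (cs (lf (nat_lit 36) (nat_lit 227)) (nd (nat_lit 271) (nat_lit 0) (cs (lf (nat_lit 29) (nat_lit 249)) (rf (nat_lit 0)))))))) q64855 (by decide +kernel)
def q64906 : Q := Q.p (nat_lit 0x40000300000600000000000000000000000000000000000000000000000000000000000000) (nat_lit 0xa0000380000e0000180000a0000080000980003000004000010000000000000000000000000000000000000000000000) (nat_lit 7)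
theorem c64906 : QOK q64906 := cut [q63456, q64230] ⟨c63456, c64230, trivial⟩ (nd (nat_lit 316) (nat_lit 0) (cs (rf (nat_lit 0)) (cs (rf (nat_lit 1)) (nd (nat_lit 247) (nat_lit 0) (cs (lf (nat_lit 1) (nat_lit 247)) (nd (nat_lit 315) (nat_lit 0) (cs (lf (nat_lit 41) (nat_lit 249)) (nd (nat_lit 228) (nat_lit 0) (cs (lf (nat_lit 40) (nat_lit 227)) (nd (nat_lit 206) (nat_lit 0) (cs (lf (nat_lit 29) (nat_lit 206)) (nd (nat_lit 251) (nat_lit 0) (cs (lf (nat_lit 24) (nat_lit 184)) (lf (nat_lit 35) (nat_lit 228))))))))))))))) q64906 (by decide +kernel)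
def q64913 : Q := Q.p (nat_lit 0x40000a00000600000000000000000000000000000000000000000000000000000000000000) (nat_lit 0x1b0001500000000000000000000000000000000000000000000000000000000000000000000) (nat_lit 4)
theorem c64913 : QOK q64913 := cut [q15704] ⟨c15704, trivial⟩ (nd (nat_lit 274) (nat_lit 0) (cs (lf (nat_lit 21) (nat_lit 249)) (rf (nat_lit 0)))) q64913 (by decide +kernel)
def q64935 : Q := Q.p (nat_lit 0x18000040000100000400000000000000000000000000000000000000000000000000000000000000) (nat_lit 0x8000026000180000000000000001000000000000000000000000000000000000000000000000000000000) (nat_lit 4)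
theorem c64935 : QOK q64935 := cut [q64934] ⟨c64934, trivial⟩ (nd (nat_lit 317) (nat_lit 0) (cs (lf (nat_lit 29) (nat_lit 250)) (rf (nat_lit 0)))) q64935 (by decide +kernel)
def q64958 : Q := Q.p (nat_lit 0x40000900000600000000000000000000000000000000000000000000000000000000000000) (nat_lit 0x4000010000000000600000980002800000000000000000000000000000000000000000000000000000000) (nat_lit 5)
theorem c64958 : QOK q64958 := cut [q61731] ⟨c61731, trivial⟩ (nd (nat_lit 273) (nat_lit 0) (cs (lf (nat_lit 19) (nat_lit 249)) (nd (nat_lit 247) (nat_lit 0) (cs (lf (nat_lit 1) (nat_lit 247)) (rf (nat_lit 0)))))) q64958 (by decide +kernel)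
def q65120 : Q := Q.p (nat_lit 0x40000700001800010000000000000000000000000000000000000000000000000000) (nat_lit 0x8000020000800006700021c00000000000000000000000000000000000000000000000000) (nat_lit 6)
theorem c65120 : QOK q65120 := cut [q56479, q62675, q62701] ⟨c56479, c62675, c62701, trivial⟩ (nd (nat_lit 226) (nat_lit 0) (cs (rf (nat_lit 0)) (cs (rf (nat_lit 1)) (rf (nat_lit 2))))) q65120 (by decide +kernel)
def q65185 : Q := Q.p (nat_lit 0x3c0000200000000000000000000000000000000000000000000000000000000000000) (nat_lit 0x1000004000038000000000180000800002000000000000000000000000000000000000000000000000000) (nat_lit 5)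
theorem c65185 : QOK q65185 := cut [q46560] ⟨c46560, trivial⟩ (nd (nat_lit 292) (nat_lit 0) (cs (lf (nat_lit 11) (nat_lit 269)) (nd (nat_lit 247) (nat_lit 0) (cs (lf (nat_lit 22) (nat_lit 247)) (rf (nat_lit 0)))))) q65185 (by decide +kernel)
def q65197 : Q := Q.p (nat_lit 0x340000600000000000000000000000000000000000000000000000000000000000000) (nat_lit 0xb8000980000000000000000000000000000000000000000000000000000000000000) (nat_lit 4)
theorem c65197 : QOK q65197 := cut [q57373] ⟨c57373, trivial⟩ (nd (nat_lit 248) (nat_lit 0) (cs (lf (nat_lit 0) (nat_lit 247)) (rf (nat_lit 0)))) q65197 (by decide +kernel)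
def q65424 : Q := Q.p (nat_lit 0x8c0000600000000000000000000000000000000000000000000000000000000000000) (nat_lit 0x1c0000730000800000000000000000000000000000000000000000000000000000000000000) (nat_lit 5)
theorem c65424 : QOK q65424 := cut [q65422] ⟨c65422, trivial⟩ (nd (nat_lit 269) (nat_lit 0) (cs (lf (nat_lit 12) (nat_lit 246)) (nd (nat_lit 272) (nat_lit 0) (cs (lf (nat_lit 17) (nat_lit 247)) (rf (nat_lit 0)))))) q65424 (by decide +kernel)
def q65444 : Q := Q.p (nat_lit 0x200000c0000700000000000000000000000000000000000000000000000000000000000000) (nat_lit 0x880000780001000000000000000000000000000000000000000000000000000) (nat_lit 4)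
theorem c65444 : QOK q65444 := cut [q63685] ⟨c63685, trivial⟩ (nd (nat_lit 226) (nat_lit 0) (cs (lf (nat_lit 24) (nat_lit 204)) (rf (nat_lit 0)))) q65444 (by decide +kernel)
def q65452 : Q := Q.p (nat_lit 0x200002c0000500000000000000000000000000000000000000000000000000000000000000) (nat_lit 0x8000020000180000100000880001000004000000000000000000000000000000000000000000000000000) (nat_lit 5)
theorem c65452 : QOK q65452 := cut [q60684] ⟨c60684, trivial⟩ (nd (nat_lit 272) (nat_lit 0) (cs (lf (nat_lit 23) (nat_lit 247)) (nd (nat_lit 228) (nat_lit 0) (cs (lf (nat_lit 36) (nat_lit 205)) (rf (nat_lit 0)))))) q65452 (by decide +kernel)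
def q65472 : Q := Q.p (nat_lit 0x20000080000200000800000000000000000000000000000000000000000000000000000000) (nat_lit 0x500001c000050000000000000000000000000000000000000000000000000000000000000000000000000) (nat_lit 4)
theorem c65472 : QOK q65472 := cut [q65471] ⟨c65471, trivial⟩ (nd (nat_lit 316) (nat_lit 0) (cs (lf (nat_lit 28) (nat_lit 227)) (rf (nat_lit 0)))) q65472 (by decide +kernel)
def q65499 : Q := Q.p (nat_lit 0x8c0000600000800000000000000000000000000000000000000000000000000000000) (nat_lit 0x80000200001e000070000098000070000700001c000050000000000000000000000000000000000000000) (nat_lit 11)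
theorem c65499 : QOK q65499 := cut [q40950, q40962, q54962, q57364] ⟨c40950, c40962, c54962, c57364, trivial⟩ (nd (nat_lit 205) (nat_lit 0) (cs (rf (nat_lit 0)) (cs (rf (nat_lit 1)) (cs (rf (nat_lit 2)) (nd (nat_lit 184) (nat_lit 0) (cs (lf (nat_lit 34) (nat_lit 183)) (nd (nat_lit 272) (nat_lit 0) (cs (lf (nat_lit 29) (nat_lit 205)) (nd (nat_lit 204) (nat_lit 0) (cs (lf (nat_lit 47) (nat_lit 182)) (nd (nat_lit 273) (nat_lit 0) (cs (lf (nat_lit 19) (nat_lit 249)) (nd (nat_lit 295) (nat_lit 0) (cs (lf (nat_lit 5) (nat_lit 270)) (nd (nat_lit 317) (nat_lit 0) (cs (lf (nat_lit 42) (nat_lit 250)) (nd (nat_lit 226) (nat_lit 0) (cs (lf (nat_lit 42) (nat_lit 204)) (nd (nat_lit 248) (nat_lit 0) (cs (lf (nat_lit 0) (nat_lit 247)) (rf (nat_lit 3)))))))))))))))))))))) q65499 (by decide +kernel)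
def q65515 : Q := Q.p (nat_lit 0x20000880000600000000000000000000000000000000000000000000000000000000000000) (nat_lit 0x740001d0001770000000001800006000018000000000000000000000000000000000000000000000) (nat_lit 7)
theorem c65515 : QOK q65515 := cut [q59913, q61527, q61685, q61062, q61787, q60627] ⟨c59913, c61527, c61685, c61062, c61787, c60627, trivial⟩ (nd (nat_lit 227) (nat_lit 0) (cs (rf (nat_lit 0)) (cs (rf (nat_lit 1)) (cs (rf (nat_lit 2)) (nd (nat_lit 294) (nat_lit 0) (cs (lf (nat_lit 29) (nat_lit 227)) (nd (nat_lit 295) (nat_lit 0) (cs (rf (nat_lit 3)) (cs (rf (nat_lit 4)) (nd (nat_lit 228) (nat_lit 0) (cs (lf (nat_lit 35) (nat_lit 205)) (rf (nat_lit 5))))))))))))) q65515 (by decide +kernel)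
def q65561 : Q := Q.p (nat_lit 0x1c0000700000000000000000000000000000000000000000000000000000000000000) (nat_lit 0x40000100000000000c0003700004800012000000000000000000000000000000000000000000000) (nat_lit 7)
theorem c65561 : QOK q65561 := cut [q57077] ⟨c57077, trivial⟩ (nd (nat_lit 247) (nat_lit 0) (cs (lf (nat_lit 0) (nat_lit 246)) (nd (nat_lit 228) (nat_lit 0) (cs (lf (nat_lit 17) (nat_lit 225)) (nd (nat_lit 184) (nat_lit 0) (cs (lf (nat_lit 37) (nat_lit 183)) (nd (nat_lit 225) (nat_lit 0) (cs (lf (nat_lit 23) (nat_lit 224)) (rf (nat_lit 0)))))))))) q65561 (by decide +kernel)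
def q65562 : Q := Q.p (nat_lit 0xc0000780000000000000000000000000000000000000000000000000000000000000) (nat_lit 0x10000030000000000300000800002000000000000000000000000000000000000000000000) (nat_lit 4)
theorem c65562 : QOK q65562 := cut [q47263] ⟨c47263, trivial⟩ (nd (nat_lit 269) (nat_lit 0) (cs (lf (nat_lit 12) (nat_lit 246)) (rf (nat_lit 0)))) q65562 (by decide +kernel)
def q65606 : Q := Q.p (nat_lit 0x180000780000000000000000000000000000000000000000000000000000000000000) (nat_lit 0x50000040000000003c00007c0001f000000000000000000000000000000000000000000000) (nat_lit 9)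
theorem c65606 : QOK q65606 := cut [q65601] ⟨c65601, trivial⟩ (nd (nat_lit 228) (nat_lit 0) (cs (lf (nat_lit 17) (nat_lit 225)) (nd (nat_lit 206) (nat_lit 0) (cs (lf (nat_lit 36) (nat_lit 183)) (nd (nat_lit 205) (nat_lit 0) (cs (lf (nat_lit 47) (nat_lit 183)) (nd (nat_lit 227) (nat_lit 0) (cs (lf (nat_lit 29) (nat_lit 205)) (nd (nat_lit 270) (nat_lit 0) (cs (lf (nat_lit 41) (nat_lit 204)) (rf (nat_lit 0)))))))))))) q65606 (by decide +kernel)
def q65610 : Q := Q.p (nat_lit 0x1e0000380000000000000000000000000000000000000000000000000000000000000) (nat_lit 0x40000120000cc000000000000000400001000000000000000000000000000000000000000000000000000) (nat_lit 5)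
theorem c65610 : QOK q65610 := cut [q47248] ⟨c47248, trivial⟩ (nd (nat_lit 294) (nat_lit 0) (cs (lf (nat_lit 5) (nat_lit 269)) (nd (nat_lit 316) (nat_lit 0) (cs (lf (nat_lit 42) (nat_lit 249)) (rf (nat_lit 0)))))) q65610 (by decide +kernel)
def q65632 : Q := Q.p (nat_lit 0x40000180000600000000000000000000000000000000000000000000000000000000000000) (nat_lit 0xc0000300000a0000000000000001000004000010000000000000000000000000000000000000000000000) (nat_lit 5)
theorem c65632 : QOK q65632 := cut [q65631] ⟨c65631, trivial⟩ (nd (nat_lit 316) (nat_lit 0) (cs (lf (nat_lit 42) (nat_lit 249)) (rf (nat_lit 0)))) q65632 (by decide +kernel)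
def q65639 : Q := Q.p (nat_lit 0x60000980000600000000000000000000000000000000000000000000000000000000000000) (nat_lit 0x2000008000018000600000180000400000000000000000000000000000000000000000000000000000000) (nat_lit 5)
theorem c65639 : QOK q65639 := cut [q60127] ⟨c60127, trivial⟩ (nd (nat_lit 273) (nat_lit 0) (cs (lf (nat_lit 19) (nat_lit 249)) (nd (nat_lit 291) (nat_lit 0) (cs (lf (nat_lit 13) (nat_lit 269)) (rf (nat_lit 0)))))) q65639 (by decide +kernel)
def q65660 : Q := Q.p (nat_lit 0x40000980000600000000000000000000000000000000000000000000000000000000000000) (nat_lit 0x60000180000a0000600000180001000004000010000000000000000000000000000000000000000000000) (nat_lit 7)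
theorem c65660 : QOK q65660 := cut [q65658] ⟨c65658, trivial⟩ (nd (nat_lit 273) (nat_lit 0) (cs (lf (nat_lit 19) (nat_lit 249)) (nd (nat_lit 247) (nat_lit 0) (cs (lf (nat_lit 1) (nat_lit 247)) (rf (nat_lit 0)))))) q65660 (by decide +kernel)
def q65700 : Q := Q.p (nat_lit 0x180000700000000000000000000000000000000000000000000000000000000000000) (nat_lit 0x200000000000c0003000004000010000000000000000000000000000000000000000000000) (nat_lit 4)
theorem c65700 : QOK q65700 := cut [q52053] ⟨c52053, trivial⟩ (nd (nat_lit 247) (nat_lit 0) (cs (lf (nat_lit 0) (nat_lit 246)) (rf (nat_lit 0)))) q65700 (by decide +kernel)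
def q65721 : Q := Q.p (nat_lit 0x1c0000700000000000000000000000000000000000000000000000000000000000000) (nat_lit 0x60000180000e0000030000000001400000000000000000000000000000000000000000000000000000000) (nat_lit 6)
theorem c65721 : QOK q65721 := cut [q65697] ⟨c65697, trivial⟩ (nd (nat_lit 269) (nat_lit 0) (cs (lf (nat_lit 12) (nat_lit 246)) (nd (nat_lit 294) (nat_lit 0) (cs (lf (nat_lit 5) (nat_lit 269)) (rf (nat_lit 0)))))) q65721 (by decide +kernel)
def q65732 : Q := Q.p (nat_lit 0x18000060000180000600000000000000000000000000000000000000000000000000000000000000) (nat_lit 0x80000e0000010000000000100000400000000000000000000000000000000000000000000000000000000) (nat_lit 4)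
theorem c65732 : QOK q65732 := cut [q60108] ⟨c60108, trivial⟩ (nd (nat_lit 226) (nat_lit 0) (cs (lf (nat_lit 46) (nat_lit 226)) (rf (nat_lit 0)))) q65732 (by decide +kernel)
def q65755 : Q := Q.p (nat_lit 0x20000280001a0000480000000000000000000000000000000000000000000000000000000000000) (nat_lit 0x400001800004000000000010000040001100004000000000000000000000000000000000000000000000000000) (nat_lit 5)
theorem c65755 : QOK q65755 := cut [q65753] ⟨c65753, trivial⟩ (nd (nat_lit 336) (nat_lit 0) (cs (lf (nat_lit 28) (nat_lit 247)) (nd (nat_lit 206) (nat_lit 0) (cs (lf (nat_lit 37) (nat_lit 205)) (rf (nat_lit 0)))))) q65755 (by decide +kernel)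
def q65787 : Q := Q.p (nat_lit 0xc0000600000800000000000000000000000000000000000000000000000000000000) (nat_lit 0x90000740001f8000700000100001700005f00014000010000000000000000000000000000000000000000) (nat_lit 11)
theorem c65787 : QOK q65787 := cut [q46559, q61635, q57499, q65776, q65782, q65785] ⟨c46559, c61635, c57499, c65776, c65782, c65785, trivial⟩ (nd (nat_lit 292) (nat_lit 0) (cs (rf (nat_lit 0)) (cs (rf (nat_lit 1)) (nd (nat_lit 226) (nat_lit 0) (cs (rf (nat_lit 2)) (cs (nd (nat_lit 224) (nat_lit 0) (cs (lf (nat_lit 1) (nat_lit 224)) (nd (nat_lit 293) (nat_lit 0) (cs (lf (nat_lit 47) (nat_lit 204)) (nd (nat_lit 206) (nat_lit 0) (cs (lf (nat_lit 34) (nat_lit 205)) (rf (nat_lit 3)))))))) (cs (rf (nat_lit 4)) (rf (nat_lit 5))))))))) q65787 (by decide +kernel)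
def q65838 : Q := Q.p (nat_lit 0x80000200000800002000000000000000000000000000000000000000000000000000) (nat_lit 0x10000060000100000000000400001000004000000000000000000000000000000000000000000000) (nat_lit 4)
theorem c65838 : QOK q65838 := cut [q65837] ⟨c65837, trivial⟩ (nd (nat_lit 294) (nat_lit 0) (cs (lf (nat_lit 28) (nat_lit 205)) (rf (nat_lit 0)))) q65838 (by decide +kernel)
def q65990 : Q := Q.p (nat_lit 0x400000000002000078000000000000000000000000000000000000000000000) (nat_lit 0x140000300001c00000000000000030000000000000000000000000000000000000000) (nat_lit 5)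
theorem c65990 : QOK q65990 := cut [q65981] ⟨c65981, trivial⟩ (nd (nat_lit 161) (nat_lit 0) (cs (lf (nat_lit 23) (nat_lit 160)) (rf (nat_lit 0)))) q65990 (by decide +kernel)
def q66055 : Q := Q.p (nat_lit 0x20000080000200000e00000000000000000000000000000000000) (nat_lit 0x1e0001180004700000000000000000000000000000) (nat_lit 6)
theorem c66055 : QOK q66055 := cut [q32535] ⟨c32535, trivial⟩ (nd (nat_lit 144) (nat_lit 0) (cs (lf (nat_lit 35) (nat_lit 121)) (nd (nat_lit 162) (nat_lit 0) (cs (lf (nat_lit 10) (nat_lit 140)) (nd (nat_lit 140) (nat_lit 0) (cs (lf (nat_lit 11) (nat_lit 139)) (rf (nat_lit 0)))))))) q66055 (by decide +kernel)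
def q66090 : Q := Q.p (nat_lit 0x4000000000000000e0000000000000000000000000000000000000000000000) (nat_lit 0x10000070001180007f0000000000000000000000000000000000000000) (nat_lit 5)
theorem c66090 : QOK q66090 := cut [q19728, q58036, q65976] ⟨c19728, c58036, c65976, trivial⟩ (nd (nat_lit 184) (nat_lit 0) (cs (rf (nat_lit 0)) (cs (rf (nat_lit 1)) (rf (nat_lit 2))))) q66090 (by decide +kernel)
def q66264 : Q := Q.p (nat_lit 0x8000020000000000100001e0000000000000000000000000000000000000000000000) (nat_lit 0x10000040001e0000600003800000000000000000000000000000000000000000) (nat_lit 6)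
theorem c66264 : QOK q66264 := cut [q66262] ⟨c66262, trivial⟩ (nd (nat_lit 211) (nat_lit 0) (cs (lf (nat_lit 4) (nat_lit 185)) (nd (nat_lit 230) (nat_lit 0) (cs (lf (nat_lit 27) (nat_lit 186)) (rf (nat_lit 0)))))) q66264 (by decide +kernel)
def q66331 : Q := Q.p (nat_lit 0x800003800000000000000000000000000000) (nat_lit 0x11c000060001c000000000000000000000000) (nat_lit 5)
theorem c66331 : QOK q66331 := cut [q32852] ⟨c32852, trivial⟩ (nd (nat_lit 118) (nat_lit 0) (cs (rf (nat_lit 0)) (lf (nat_lit 5) (nat_lit 118)))) q66331 (by decide +kernel)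
def q66381 : Q := Q.p (nat_lit 0x800002000000000010000040000100000000000000000000000000000000000000000) (nat_lit 0x1000004000000000000000280000e00002800000000000000000000000000000) (nat_lit 5)
theorem c66381 : QOK q66381 := cut [q630] ⟨c630, trivial⟩ (nd (nat_lit 230) (nat_lit 0) (cs (lf (nat_lit 27) (nat_lit 186)) (rf (nat_lit 0)))) q66381 (by decide +kernel)
def q66385 : Q := Q.p (nat_lit 0x8000020000000000100000c0000100000000000000000000000000000000000000000) (nat_lit 0x1000004000020000000000080000e00003800008000000000000000000000000) (nat_lit 6)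
theorem c66385 : QOK q66385 := cut [q66382] ⟨c66382, trivial⟩ (nd (nat_lit 230) (nat_lit 0) (cs (lf (nat_lit 27) (nat_lit 186)) (nd (nat_lit 141) (nat_lit 0) (cs (lf (nat_lit 46) (nat_lit 141)) (nd (nat_lit 142) (nat_lit 0) (cs (lf (nat_lit 47) (nat_lit 119)) (rf (nat_lit 0)))))))) q66385 (by decide +kernel)
def q66387 : Q := Q.p (nat_lit 0x8000020000000000100000c0000100000000000000000000000000000000000000000) (nat_lit 0x10000040000000001000002e0000a00000000000000000000000000000000000) (nat_lit 5)
theorem c66387 : QOK q66387 := cut [q4986] ⟨c4986, trivial⟩ (nd (nat_lit 230) (nat_lit 0) (cs (lf (nat_lit 27) (nat_lit 186)) (nd (nat_lit 165) (nat_lit 0) (cs (lf (nat_lit 35) (nat_lit 142)) (rf (nat_lit 0)))))) q66387 (by decide +kernel)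
def q66390 : Q := Q.p (nat_lit 0x8000020000000000100000c0000100000000000000000000000000000000000000000) (nat_lit 0x1000004000020000000000200000e00003800002000000000000000000000000) (nat_lit 6)
theorem c66390 : QOK q66390 := cut [q8949] ⟨c8949, trivial⟩ (nd (nat_lit 230) (nat_lit 0) (cs (lf (nat_lit 27) (nat_lit 186)) (nd (nat_lit 143) (nat_lit 0) (cs (lf (nat_lit 34) (nat_lit 142)) (nd (nat_lit 142) (nat_lit 0) (cs (lf (nat_lit 35) (nat_lit 120)) (rf (nat_lit 0)))))))) q66390 (by decide +kernel)
def q66450 : Q := Q.p (nat_lit 0x4000000000000000f0000100000000000000000000000000000000000000000) (nat_lit 0x800002000018000660000000000e0000400001000000000000000000000000000000) (nat_lit 7)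
theorem c66450 : QOK q66450 := cut [q61492] ⟨c61492, trivial⟩ (nd (nat_lit 209) (nat_lit 0) (cs (lf (nat_lit 5) (nat_lit 184)) (nd (nat_lit 120) (nat_lit 0) (cs (lf (nat_lit 25) (nat_lit 120)) (rf (nat_lit 0)))))) q66450 (by decide +kernel)
def q66464 : Q := Q.p (nat_lit 0x8000020000000000100000c0000100000000000000000000000000000000000000000) (nat_lit 0x1000004000020000000000280000e00001800004000000000000000000000000) (nat_lit 6)
theorem c66464 : QOK q66464 := cut [q19762] ⟨c19762, trivial⟩ (nd (nat_lit 230) (nat_lit 0) (cs (lf (nat_lit 27) (nat_lit 186)) (nd (nat_lit 165) (nat_lit 0) (cs (lf (nat_lit 35) (nat_lit 142)) (rf (nat_lit 0)))))) q66464 (by decide +kernel)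
def q66515 : Q := Q.p (nat_lit 0x3c0000000000000000000000000000000000000000000000) (nat_lit 0x100001c0000020001800002000008000000000000000000000000000000) (nat_lit 5)
theorem c66515 : QOK q66515 := cut [q19717] ⟨c19717, trivial⟩ (nd (nat_lit 167) (nat_lit 0) (cs (lf (nat_lit 17) (nat_lit 164)) (rf (nat_lit 0)))) q66515 (by decide +kernel)
def q66522 : Q := Q.p (nat_lit 0x8000020000000000900001c0000000000000000000000000000000000000000000000) (nat_lit 0x9000066000060000620000400001000000000000000000000000000000000000) (nat_lit 7)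
theorem c66522 : QOK q66522 := cut [q15137] ⟨c15137, trivial⟩ (nd (nat_lit 210) (nat_lit 0) (cs (lf (nat_lit 0) (nat_lit 185)) (nd (nat_lit 230) (nat_lit 0) (cs (lf (nat_lit 27) (nat_lit 186)) (nd (nat_lit 209) (nat_lit 0) (cs (lf (nat_lit 11) (nat_lit 207)) (nd (nat_lit 189) (nat_lit 0) (cs (lf (nat_lit 17) (nat_lit 186)) (rf (nat_lit 0)))))))))) q66522 (by decide +kernel)
def q66534 : Q := Q.p (nat_lit 0x8000020000000000100001c0000200000000000000000000000000000000000000000) (nat_lit 0x1000014000060000620003d0001f000008000020000000000000000000000000) (nat_lit 7)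
theorem c66534 : QOK q66534 := cut [q19719, q9296, q57839, q66530] ⟨c19719, c9296, c57839, c66530, trivial⟩ (nd (nat_lit 167) (nat_lit 0) (cs (rf (nat_lit 0)) (cs (nd (nat_lit 230) (nat_lit 0) (cs (lf (nat_lit 27) (nat_lit 186)) (rf (nat_lit 1)))) (nd (nat_lit 166) (nat_lit 0) (cs (lf (nat_lit 12) (nat_lit 163)) (nd (nat_lit 145) (nat_lit 0) (cs (rf (nat_lit 2)) (nd (nat_lit 230) (nat_lit 0) (cs (lf (nat_lit 30) (nat_lit 164)) (rf (nat_lit 3))))))))))) q66534 (by decide +kernel)
def q66587 : Q := Q.p (nat_lit 0x4000000000000001e0000000000000000000000000000000000000000000000) (nat_lit 0x10000e60000100000c0000000000000000000000000000000000000000) (nat_lit 5)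
theorem c66587 : QOK q66587 := cut [q66580] ⟨c66580, trivial⟩ (nd (nat_lit 163) (nat_lit 0) (cs (lf (nat_lit 23) (nat_lit 162)) (rf (nat_lit 0)))) q66587 (by decide +kernel)
def q66660 : Q := Q.p (nat_lit 0xc0000180000c00000000000000000000000000000000000) (nat_lit 0x20000020000000003000001800006000008000000000000000000) (nat_lit 5)
theorem c66660 : QOK q66660 := cut [q32356] ⟨c32356, trivial⟩ (nd (nat_lit 144) (nat_lit 0) (cs (lf (nat_lit 6) (nat_lit 141)) (nd (nat_lit 120) (nat_lit 0) (cs (lf (nat_lit 29) (nat_lit 120)) (rf (nat_lit 0)))))) q66660 (by decide +kernel)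
def q66710 : Q := Q.p (nat_lit 0x1e0000200000000000000000000000000000000000000000) (nat_lit 0xe0000000003dc000300000c000010000000000000000000000000) (nat_lit 6)
theorem c66710 : QOK q66710 := cut [q2647, q3036, q20883] ⟨c2647, c3036, c20883, trivial⟩ (nd (nat_lit 210) (nat_lit 0) (cs (lf (nat_lit 5) (nat_lit 185)) (nd (nat_lit 163) (nat_lit 0) (cs (lf (nat_lit 23) (nat_lit 162)) (nd (nat_lit 166) (nat_lit 0) (cs (rf (nat_lit 0)) (nd (nat_lit 144) (nat_lit 0) (cs (rf (nat_lit 1)) (rf (nat_lit 2)))))))))) q66710 (by decide +kernel)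
def q66729 : Q := Q.p (nat_lit 0x600001000000000010000000000000000000000000000000000000000000000) (nat_lit 0x800000000008000040000200000c0000200000000000000000000000000000000000) (nat_lit 4)
theorem c66729 : QOK q66729 := cut [q3385] ⟨c3385, trivial⟩ (nd (nat_lit 206) (nat_lit 0) (cs (lf (nat_lit 41) (nat_lit 183)) (rf (nat_lit 0)))) q66729 (by decide +kernel)
def q66757 : Q := Q.p (nat_lit 0x20000880002600000000010000040000000000000000000000000000000000000000000000) (nat_lit 0x8000000000100001000005000004000010000000000000000000000000000000000000000000000) (nat_lit 4)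
theorem c66757 : QOK q66757 := cut [q61516] ⟨c61516, trivial⟩ (nd (nat_lit 230) (nat_lit 0) (cs (lf (nat_lit 27) (nat_lit 186)) (rf (nat_lit 0)))) q66757 (by decide +kernel)
def q66758 : Q := Q.p (nat_lit 0x20000880002200000800010000040000000000000000000000000000000000000000000000) (nat_lit 0x14000050000140001000004000002000000000000000000000000000000000000000000000000000) (nat_lit 5)
theorem c66758 : QOK q66758 := cut [q59916] ⟨c59916, trivial⟩ (nd (nat_lit 230) (nat_lit 0) (cs (lf (nat_lit 27) (nat_lit 186)) (rf (nat_lit 0)))) q66758 (by decide +kernel)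
def q66762 : Q := Q.p (nat_lit 0x20000080000200000800030000040000000000000000000000000000000000000000000000) (nat_lit 0x40000100000000000000014000c70000b8000000000000000000000000000000000000000000000) (nat_lit 7)
theorem c66762 : QOK q66762 := cut [q56765] ⟨c56765, trivial⟩ (nd (nat_lit 206) (nat_lit 0) (cs (lf (nat_lit 34) (nat_lit 205)) (nd (nat_lit 184) (nat_lit 0) (cs (lf (nat_lit 33) (nat_lit 183)) (nd (nat_lit 292) (nat_lit 0) (cs (lf (nat_lit 41) (nat_lit 226)) (nd (nat_lit 204) (nat_lit 0) (cs (lf (nat_lit 46) (nat_lit 204)) (rf (nat_lit 0)))))))))) q66762 (by decide +kernel)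
def q66770 : Q := Q.p (nat_lit 0x20000080000200000800030000050000000000000000000000000000000000000000000000) (nat_lit 0x100000400000000000000000000c00000a8000000000000000000000000000000000000000000000) (nat_lit 4)
theorem c66770 : QOK q66770 := cut [q56765] ⟨c56765, trivial⟩ (nd (nat_lit 294) (nat_lit 0) (cs (lf (nat_lit 29) (nat_lit 227)) (rf (nat_lit 0)))) q66770 (by decide +kernel)
def q66774 : Q := Q.p (nat_lit 0x20000880002600000000010000040000000000000000000000000000000000000000000000) (nat_lit 0x8000000000000001000005800004000010000000000000000000000000000000000000000000000) (nat_lit 4)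
theorem c66774 : QOK q66774 := cut [q58513] ⟨c58513, trivial⟩ (nd (nat_lit 230) (nat_lit 0) (cs (lf (nat_lit 27) (nat_lit 186)) (rf (nat_lit 0)))) q66774 (by decide +kernel)
def q66775 : Q := Q.p (nat_lit 0x8000020000880000600000000000000000000000000000000000000000000000000000000000000) (nat_lit 0x2000000000000000700000180000400000000000000000000000000000000000000000000000000000000) (nat_lit 4)
theorem c66775 : QOK q66775 := cut [q60772] ⟨c60772, trivial⟩ (nd (nat_lit 272) (nat_lit 0) (cs (lf (nat_lit 30) (nat_lit 249)) (rf (nat_lit 0)))) q66775 (by decide +kernel)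
def q66777 : Q := Q.p (nat_lit 0x8000020000880002200000000010000040000000000000000000000000000000000000000000000) (nat_lit 0x1000004000010000000001100004c00001000000000000000000000000000000000000000000000000000) (nat_lit 5)
theorem c66777 : QOK q66777 := cut [q59324] ⟨c59324, trivial⟩ (nd (nat_lit 230) (nat_lit 0) (cs (lf (nat_lit 27) (nat_lit 186)) (rf (nat_lit 0)))) q66777 (by decide +kernel)
def q66780 : Q := Q.p (nat_lit 0xe0000800002000000000010000040000000000000000000000000000000000000000000000) (nat_lit 0x110001600000000008000020000000000000000000000000000000000000000000000000000) (nat_lit 4)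
theorem c66780 : QOK q66780 := cut [q61925] ⟨c61925, trivial⟩ (nd (nat_lit 209) (nat_lit 0) (cs (lf (nat_lit 44) (nat_lit 186)) (rf (nat_lit 0)))) q66780 (by decide +kernel)
def q66781 : Q := Q.p (nat_lit 0xf0000040000000000000000000000000000000000000000000000) (nat_lit 0x60000100000e80000000000000000000000000000000000000000000000) (nat_lit 4)
theorem c66781 : QOK q66781 := cut [q6044] ⟨c6044, trivial⟩ (nd (nat_lit 233) (nat_lit 0) (cs (lf (nat_lit 5) (nat_lit 208)) (rf (nat_lit 0)))) q66781 (by decide +kernel)
def q66799 : Q := Q.p (nat_lit 0xf0000800002000000000010000040000000000000000000000000000000000000000000000) (nat_lit 0x77000008000000001000004000000000000000000000000000000000000000000000000000000000) (nat_lit 5)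
theorem c66799 : QOK q66799 := cut [q58551] ⟨c58551, trivial⟩ (nd (nat_lit 230) (nat_lit 0) (cs (lf (nat_lit 27) (nat_lit 186)) (rf (nat_lit 0)))) q66799 (by decide +kernel)
def q66879 : Q := Q.p (nat_lit 0x60000c00002000000000010000040000000000000000000000000000000000000000000000) (nat_lit 0x4000018000000000100000c000020000000000000000000000000000000000000000000000000000) (nat_lit 4)
theorem c66879 : QOK q66879 := cut [q66878] ⟨c66878, trivial⟩ (nd (nat_lit 296) (nat_lit 0) (cs (lf (nat_lit 14) (nat_lit 271)) (rf (nat_lit 0)))) q66879 (by decide +kernel)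
def q66881 : Q := Q.p (nat_lit 0xe0000800002400000000010000040000000000000000000000000000000000000000000000) (nat_lit 0x2000008000067000018000370001000005000000000000000000000000000000000000000000000000000000000) (nat_lit 6)
theorem c66881 : QOK q66881 := cut [q61782, q66815] ⟨c61782, c66815, trivial⟩ (nd (nat_lit 292) (nat_lit 0) (cs (rf (nat_lit 0)) (rf (nat_lit 1)))) q66881 (by decide +kernel)
def q66912 : Q := Q.p (nat_lit 0x3c000030000000000000000000000000000000000000000000000000000000000000000000000000) (nat_lit 0x380001e0001f800000000000000000000000000000000000000000000000000000000000000000000000000000000000) (nat_lit 7)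
theorem c66912 : QOK q66912 := cut [q61832] ⟨c61832, trivial⟩ (nd (nat_lit 336) (nat_lit 0) (cs (lf (nat_lit 11) (nat_lit 313)) (nd (nat_lit 339) (nat_lit 0) (cs (lf (nat_lit 5) (nat_lit 314)) (nd (nat_lit 358) (nat_lit 0) (cs (lf (nat_lit 30) (nat_lit 292)) (nd (nat_lit 359) (nat_lit 0) (cs (lf (nat_lit 29) (nat_lit 292)) (rf (nat_lit 0)))))))))) q66912 (by decide +kernel)
def q66933 : Q := Q.p (nat_lit 0x10000060000000000400000000000000000000000000000000000000000000000000000000000000) (nat_lit 0xa0000e8000098000100000000001000000000000000000000000000000000000000000000000000000000) (nat_lit 4)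
theorem c66933 : QOK q66933 := cut [q60471, q61798] ⟨c60471, c61798, trivial⟩ (nd (nat_lit 317) (nat_lit 0) (cs (rf (nat_lit 0)) (nd (nat_lit 272) (nat_lit 0) (cs (lf (nat_lit 29) (nat_lit 250)) (rf (nat_lit 1)))))) q66933 (by decide +kernel)
def q66938 : Q := Q.p (nat_lit 0x800002600000800012000040000000000000000000000000000000000000000000000) (nat_lit 0x140001100005400000000008000020000000000000000000000000000000000000000) (nat_lit 5)
theorem c66938 : QOK q66938 := cut [q56640] ⟨c56640, trivial⟩ (nd (nat_lit 230) (nat_lit 0) (cs (lf (nat_lit 27) (nat_lit 186)) (rf (nat_lit 0)))) q66938 (by decide +kernel)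
def q66941 : Q := Q.p (nat_lit 0x78000800000000000000000000000000000000000000000000000000000000000000000000) (nat_lit 0x7000180000600000000000000000000000000000000000000000000000000000000000000000000) (nat_lit 4)
theorem c66941 : QOK q66941 := cut [q66940] ⟨c66940, trivial⟩ (nd (nat_lit 313) (nat_lit 0) (cs (lf (nat_lit 11) (nat_lit 290)) (rf (nat_lit 0)))) q66941 (by decide +kernel)
def q66956 : Q := Q.p (nat_lit 0x10000800002700000800010000040000000000000000000000000000000000000000000000) (nat_lit 0x40000000000780010c0005380000800000000000000000000000000000000000000000000000000) (nat_lit 6)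
theorem c66956 : QOK q66956 := cut [q47110, q66952, q66955] ⟨c47110, c66952, c66955, trivial⟩ (nd (nat_lit 247) (nat_lit 0) (cs (nd (nat_lit 230) (nat_lit 0) (cs (lf (nat_lit 27) (nat_lit 186)) (nd (nat_lit 269) (nat_lit 0) (cs (lf (nat_lit 11) (nat_lit 246)) (nd (nat_lit 270) (nat_lit 0) (cs (lf (nat_lit 30) (nat_lit 226)) (rf (nat_lit 0)))))))) (cs (nd (nat_lit 270) (nat_lit 0) (cs (lf (nat_lit 30) (nat_lit 226)) (rf (nat_lit 1)))) (rf (nat_lit 2))))) q66956 (by decide +kernel)
def q66981 : Q := Q.p (nat_lit 0x800002600000800012000040000000000000000000000000000000000000000000000) (nat_lit 0x100001000005000000000018000060000100000000000000000000000000000000000) (nat_lit 5)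
theorem c66981 : QOK q66981 := cut [q66980] ⟨c66980, trivial⟩ (nd (nat_lit 230) (nat_lit 0) (cs (lf (nat_lit 27) (nat_lit 186)) (rf (nat_lit 0)))) q66981 (by decide +kernel)
def q66986 : Q := Q.p (nat_lit 0x800002600000800012000040000000000000000000000000000000000000000000000) (nat_lit 0x100000000008000020000038000040000000000000000000000000000000000000000) (nat_lit 4)
theorem c66986 : QOK q66986 := cut [q66985] ⟨c66985, trivial⟩ (nd (nat_lit 209) (nat_lit 0) (cs (lf (nat_lit 44) (nat_lit 186)) (rf (nat_lit 0)))) q66986 (by decide +kernel)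
def q66998 : Q := Q.p (nat_lit 0x60000880000600000800000000000000000000000000000000000000000000000000000000) (nat_lit 0x780019c000670000080001700005000000000000000000000000000000000000000000000000000) (nat_lit 9)
theorem c66998 : QOK q66998 := cut [q66765] ⟨c66765, trivial⟩ (nd (nat_lit 292) (nat_lit 0) (cs (lf (nat_lit 41) (nat_lit 226)) (nd (nat_lit 269) (nat_lit 0) (cs (rf (nat_lit 0)) (nd (nat_lit 206) (nat_lit 0) (cs (lf (nat_lit 34) (nat_lit 205)) (nd (nat_lit 291) (nat_lit 0) (cs (lf (nat_lit 23) (nat_lit 268)) (nd (nat_lit 226) (nat_lit 0) (cs (lf (nat_lit 47) (nat_lit 204)) (nd (nat_lit 312) (nat_lit 0) (cs (lf (nat_lit 10) (nat_lit 290)) (nd (nat_lit 290) (nat_lit 0) (cs (lf (nat_lit 11) (nat_lit 289)) (nd (nat_lit 225) (nat_lit 0) (cs (lf (nat_lit 0) (nat_lit 224)) (lf (nat_lit 37) (nat_lit 224)))))))))))))))))) q66998 (by decide +kernel)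
def q67025 : Q := Q.p (nat_lit 0x20000880002600000800010000040000000000000000000000000000000000000000000000) (nat_lit 0x140000d00000700011c0005700005c00000000000000000000000000000000000000000000000000) (nat_lit 11)
theorem c67025 : QOK q67025 := cut [q67017] ⟨c67017, trivial⟩ (nd (nat_lit 292) (nat_lit 0) (cs (lf (nat_lit 41) (nat_lit 226)) (nd (nat_lit 226) (nat_lit 0) (cs (lf (nat_lit 47) (nat_lit 204)) (nd (nat_lit 225) (nat_lit 0) (cs (lf (nat_lit 0) (nat_lit 224)) (nd (nat_lit 228) (nat_lit 0) (cs (lf (nat_lit 35) (nat_lit 205)) (nd (nat_lit 230) (nat_lit 0) (cs (lf (nat_lit 27) (nat_lit 186)) (nd (nat_lit 246) (nat_lit 0) (cs (lf (nat_lit 10) (nat_lit 224)) (nd (nat_lit 294) (nat_lit 0) (cs (lf (nat_lit 29) (nat_lit 227)) (nd (nat_lit 203) (nat_lit 0) (cs (lf (nat_lit 23) (nat_lit 202)) (rf (nat_lit 0)))))))))))))))))) q67025 (by decide +kernel)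
def q67028 : Q := Q.p (nat_lit 0x20000880002200000800010000040000000000000000000000000000000000000000000000) (nat_lit 0x4000010000040000000008400023000004000000000000000000000000000000000000000000000) (nat_lit 5)
theorem c67028 : QOK q67028 := cut [q67027] ⟨c67027, trivial⟩ (nd (nat_lit 209) (nat_lit 0) (cs (lf (nat_lit 44) (nat_lit 186)) (rf (nat_lit 0)))) q67028 (by decide +kernel)
def q67033 : Q := Q.p (nat_lit 0x20000880002600000800010000040000000000000000000000000000000000000000000000) (nat_lit 0x40000100000600011c0005700005c00000000000000000000000000000000000000000000000000) (nat_lit 9)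
theorem c67033 : QOK q67033 := cut [q56772] ⟨c56772, trivial⟩ (nd (nat_lit 292) (nat_lit 0) (cs (lf (nat_lit 41) (nat_lit 226)) (nd (nat_lit 226) (nat_lit 0) (cs (lf (nat_lit 47) (nat_lit 204)) (nd (nat_lit 225) (nat_lit 0) (cs (lf (nat_lit 0) (nat_lit 224)) (nd (nat_lit 230) (nat_lit 0) (cs (lf (nat_lit 27) (nat_lit 186)) (nd (nat_lit 228) (nat_lit 0) (cs (lf (nat_lit 35) (nat_lit 205)) (rf (nat_lit 0)))))))))))) q67033 (by decide +kernel)
def q67037 : Q := Q.p (nat_lit 0x20000880002200000800030000040000000000000000000000000000000000000000000000) (nat_lit 0x10000054000c70000b8000000000000000000000000000000000000000000000) (nat_lit 7)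
theorem c67037 : QOK q67037 := cut [q56765] ⟨c56765, trivial⟩ (nd (nat_lit 206) (nat_lit 0) (cs (lf (nat_lit 34) (nat_lit 205)) (nd (nat_lit 184) (nat_lit 0) (cs (lf (nat_lit 33) (nat_lit 183)) (nd (nat_lit 204) (nat_lit 0) (cs (lf (nat_lit 46) (nat_lit 204)) (nd (nat_lit 230) (nat_lit 0) (cs (lf (nat_lit 27) (nat_lit 186)) (rf (nat_lit 0)))))))))) q67037 (by decide +kernel)
def q67047 : Q := Q.p (nat_lit 0x20000900002600000800010000040000000000000000000000000000000000000000000000) (nat_lit 0x300001c0000680000000009000024000038000060000000000000000000000000000000000000000) (nat_lit 9)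
theorem c67047 : QOK q67047 := cut [q67046] ⟨c67046, trivial⟩ (nd (nat_lit 209) (nat_lit 0) (cs (lf (nat_lit 44) (nat_lit 186)) (rf (nat_lit 0)))) q67047 (by decide +kernel)
def q67054 : Q := Q.p (nat_lit 0x20000880002200000800010000040000000000000000000000000000000000000000000000) (nat_lit 0x10000040000100001000005000006000010000000000000000000000000000000000000000000000) (nat_lit 5)
theorem c67054 : QOK q67054 := cut [q59913] ⟨c59913, trivial⟩ (nd (nat_lit 230) (nat_lit 0) (cs (lf (nat_lit 27) (nat_lit 186)) (rf (nat_lit 0)))) q67054 (by decide +kernel)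
def q67084 : Q := Q.p (nat_lit 0x20000980000600000800000000000000000000000000000000000000000000000000000000) (nat_lit 0x400001c000640000180001400005000000000000000000000000000000000000000000000000000) (nat_lit 7)
theorem c67084 : QOK q67084 := cut [q59682] ⟨c59682, trivial⟩ (nd (nat_lit 273) (nat_lit 0) (cs (lf (nat_lit 19) (nat_lit 249)) (nd (nat_lit 247) (nat_lit 0) (cs (lf (nat_lit 1) (nat_lit 247)) (nd (nat_lit 206) (nat_lit 0) (cs (lf (nat_lit 37) (nat_lit 205)) (nd (nat_lit 204) (nat_lit 0) (cs (lf (nat_lit 46) (nat_lit 204)) (rf (nat_lit 0)))))))))) q67084 (by decide +kernel)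
def q67095 : Q := Q.p (nat_lit 0x20000980002200000800010000040000000000000000000000000000000000000000000000) (nat_lit 0x14000058000600000000008000020000000000000000000000000000000000000000000000000000) (nat_lit 5)
theorem c67095 : QOK q67095 := cut [q61671] ⟨c61671, trivial⟩ (nd (nat_lit 294) (nat_lit 0) (cs (lf (nat_lit 29) (nat_lit 227)) (nd (nat_lit 209) (nat_lit 0) (cs (lf (nat_lit 44) (nat_lit 186)) (rf (nat_lit 0)))))) q67095 (by decide +kernel)
def q67105 : Q := Q.p (nat_lit 0x20000880002600000000010000040000000000000000000000000000000000000000000000) (nat_lit 0x40000700001c000000000040000100009400020000000000000000000000000000000000000000000000000000) (nat_lit 7)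
theorem c67105 : QOK q67105 := cut [q67103] ⟨c67103, trivial⟩ (nd (nat_lit 315) (nat_lit 0) (cs (lf (nat_lit 35) (nat_lit 227)) (nd (nat_lit 316) (nat_lit 0) (cs (lf (nat_lit 29) (nat_lit 249)) (rf (nat_lit 0)))))) q67105 (by decide +kernel)
def q67109 : Q := Q.p (nat_lit 0x8000020000880002200000000010000040000000000000000000000000000000000000000000000) (nat_lit 0x4000010000040000000000100008c00021000000000000000000000000000000000000000000000000000) (nat_lit 5)
theorem c67109 : QOK q67109 := cut [q67108] ⟨c67108, trivial⟩ (nd (nat_lit 209) (nat_lit 0) (cs (lf (nat_lit 44) (nat_lit 186)) (rf (nat_lit 0)))) q67109 (by decide +kernel)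
def q67126 : Q := Q.p (nat_lit 0x60000180000600000800000000000000000000000000000000000000000000000000000000) (nat_lit 0x20000180000060000000001000004000000000000000000000000000000000000000000000000000) (nat_lit 4)
theorem c67126 : QOK q67126 := cut [q59492] ⟨c59492, trivial⟩ (nd (nat_lit 228) (nat_lit 0) (cs (lf (nat_lit 35) (nat_lit 205)) (rf (nat_lit 0)))) q67126 (by decide +kernel)
def q67144 : Q := Q.p (nat_lit 0x8000020000180000600000000000000000000000000000000000000000000000000000000000000) (nat_lit 0x4000010000040000000000000000c0000300000c000000000000000000000000000000000000000000000) (nat_lit 5)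
theorem c67144 : QOK q67144 := cut [q46573] ⟨c46573, trivial⟩ (nd (nat_lit 316) (nat_lit 0) (cs (lf (nat_lit 29) (nat_lit 249)) (nd (nat_lit 227) (nat_lit 0) (cs (lf (nat_lit 43) (nat_lit 227)) (rf (nat_lit 0)))))) q67144 (by decide +kernel)
def q67155 : Q := Q.p (nat_lit 0x8000020000880002600000000010000040000000000000000000000000000000000000000000000) (nat_lit 0x70000160001c0000700001180004800000000000000000000000000000000000000000000000000000000) (nat_lit 9)
theorem c67155 : QOK q67155 := cut [q67154] ⟨c67154, trivial⟩ (nd (nat_lit 230) (nat_lit 0) (cs (lf (nat_lit 27) (nat_lit 186)) (rf (nat_lit 0)))) q67155 (by decide +kernel)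
def q67186 : Q := Q.p (nat_lit 0x8000020000000000600000000000000000000000000000000000000000000000000000000000000) (nat_lit 0x4000070000140000000000c0000100001400000000000000000000000000000000000000000000000000000000) (nat_lit 6)
theorem c67186 : QOK q67186 := cut [q67185] ⟨c67185, trivial⟩ (nd (nat_lit 271) (nat_lit 0) (cs (lf (nat_lit 35) (nat_lit 227)) (rf (nat_lit 0)))) q67186 (by decide +kernel)
def q67188 : Q := Q.p (nat_lit 0xe000020000800002000000000010000040000000000000000000000000000000000000000000000) (nat_lit 0x10001d0000000001000004000000000000000000000000000000000000000000000000000000000) (nat_lit 4)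
theorem c67188 : QOK q67188 := cut [q59352] ⟨c59352, trivial⟩ (nd (nat_lit 230) (nat_lit 0) (cs (lf (nat_lit 27) (nat_lit 186)) (rf (nat_lit 0)))) q67188 (by decide +kernel)
def q67195 : Q := Q.p (nat_lit 0x8000020000880002600000000010000040000000000000000000000000000000000000000000000) (nat_lit 0x400007000014000000000100001000004000000000000000000000000000000000000000000000000000000000) (nat_lit 5)
theorem c67195 : QOK q67195 := cut [q67194] ⟨c67194, trivial⟩ (nd (nat_lit 316) (nat_lit 0) (cs (lf (nat_lit 29) (nat_lit 249)) (rf (nat_lit 0)))) q67195 (by decide +kernel)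
def q67217 : Q := Q.p (nat_lit 0x20000880002600000800010000040000000000000000000000000000000000000000000000) (nat_lit 0x1000014000110000440000300000c000000000000000000000000000000000000000000000) (nat_lit 6)
theorem c67217 : QOK q67217 := cut [q67214] ⟨c67214, trivial⟩ (nd (nat_lit 230) (nat_lit 0) (cs (lf (nat_lit 27) (nat_lit 186)) (nd (nat_lit 204) (nat_lit 0) (cs (lf (nat_lit 46) (nat_lit 204)) (nd (nat_lit 205) (nat_lit 0) (cs (lf (nat_lit 47) (nat_lit 182)) (rf (nat_lit 0)))))))) q67217 (by decide +kernel)
def q67227 : Q := Q.p (nat_lit 0x20000080000200000800030000040000000000000000000000000000000000000000000000) (nat_lit 0x40000700003c000040000000000000000000000000000000000000000) (nat_lit 5)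
theorem c67227 : QOK q67227 := cut [q67226] ⟨c67226, trivial⟩ (nd (nat_lit 204) (nat_lit 0) (cs (lf (nat_lit 46) (nat_lit 204)) (rf (nat_lit 0)))) q67227 (by decide +kernel)
def q67373 : Q := Q.p (nat_lit 0x600004800032000040000000000000000000000000000000000000000000000) (nat_lit 0x3000000000038000060000000000000000000000000000000000000000) (nat_lit 4)
theorem c67373 : QOK q67373 := cut [q67372] ⟨c67372, trivial⟩ (nd (nat_lit 228) (nat_lit 0) (cs (lf (nat_lit 14) (nat_lit 205)) (rf (nat_lit 0)))) q67373 (by decide +kernel)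
def q67383 : Q := Q.p (nat_lit 0x20000880002600000800011000040000000000000000000000000000000000000000000000) (nat_lit 0x10000040000000001000007000002c0003c000060000000000000000000000000000000000000000) (nat_lit 8)
theorem c67383 : QOK q67383 := cut [q41327] ⟨c41327, trivial⟩ (nd (nat_lit 205) (nat_lit 0) (cs (lf (nat_lit 47) (nat_lit 182)) (nd (nat_lit 294) (nat_lit 0) (cs (lf (nat_lit 29) (nat_lit 227)) (nd (nat_lit 230) (nat_lit 0) (cs (lf (nat_lit 27) (nat_lit 186)) (nd (nat_lit 228) (nat_lit 0) (cs (lf (nat_lit 19) (nat_lit 204)) (nd (nat_lit 202) (nat_lit 0) (cs (lf (nat_lit 1) (nat_lit 202)) (rf (nat_lit 0)))))))))))) q67383 (by decide +kernel)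
def q67421 : Q := Q.p (nat_lit 0x80000200000800002000000000000000000000000000000000000000000000) (nat_lit 0x1000004000010000000000100000c000010000000000000000000000000000000000) (nat_lit 4)
theorem c67421 : QOK q67421 := cut [q49204] ⟨c49204, trivial⟩ (nd (nat_lit 246) (nat_lit 0) (cs (lf (nat_lit 41) (nat_lit 180)) (rf (nat_lit 0)))) q67421 (by decide +kernel)
def q67452 : Q := Q.p (nat_lit 0x600001800003000008000000000000000000000000000000000000000000000) (nat_lit 0x700001c0000400000000004000010000000000000000000000000000000000000000) (nat_lit 5)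
theorem c67452 : QOK q67452 := cut [q67445] ⟨c67445, trivial⟩ (nd (nat_lit 182) (nat_lit 0) (cs (lf (nat_lit 47) (nat_lit 160)) (nd (nat_lit 248) (nat_lit 0) (cs (lf (nat_lit 41) (nat_lit 182)) (rf (nat_lit 0)))))) q67452 (by decide +kernel)
def q67495 : Q := Q.p (nat_lit 0x20000880000200000800000000000000000000000000000000000000000000000000000000) (nat_lit 0x140001dc000770000000000400001000000000000000000000000000000000000000000000000000) (nat_lit 6)
theorem c67495 : QOK q67495 := cut [q60066, q66765, q66768] ⟨c60066, c66765, c66768, trivial⟩ (nd (nat_lit 294) (nat_lit 0) (cs (lf (nat_lit 29) (nat_lit 227)) (nd (nat_lit 269) (nat_lit 0) (cs (nd (nat_lit 292) (nat_lit 0) (cs (lf (nat_lit 41) (nat_lit 226)) (nd (nat_lit 291) (nat_lit 0) (cs (lf (nat_lit 23) (nat_lit 268)) (rf (nat_lit 0)))))) (cs (nd (nat_lit 292) (nat_lit 0) (cs (lf (nat_lit 41) (nat_lit 226)) (rf (nat_lit 1)))) (nd (nat_lit 204) (nat_lit 0) (cs (lf (nat_lit 46) (nat_lit 204)) (rf (nat_lit 2))))))))) q67495 (by decide +kernel)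
def q67502 : Q := Q.p (nat_lit 0x20000080000600000800030000040000000000000000000000000000000000000000000000) (nat_lit 0x4000010000140000000000000002000038000040000000000000000000000000000000000000000) (nat_lit 5)
theorem c67502 : QOK q67502 := cut [q66985] ⟨c66985, trivial⟩ (nd (nat_lit 292) (nat_lit 0) (cs (lf (nat_lit 41) (nat_lit 226)) (nd (nat_lit 205) (nat_lit 0) (cs (lf (nat_lit 40) (nat_lit 204)) (rf (nat_lit 0)))))) q67502 (by decide +kernel)
def q67508 : Q := Q.p (nat_lit 0x20000880002600000800010000040000000000000000000000000000000000000000000000) (nat_lit 0x10000100000f40002300000c000020000000000000000000000000000000000000000) (nat_lit 7)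
theorem c67508 : QOK q67508 := cut [q67507] ⟨c67507, trivial⟩ (nd (nat_lit 209) (nat_lit 0) (cs (lf (nat_lit 44) (nat_lit 186)) (rf (nat_lit 0)))) q67508 (by decide +kernel)
def q67513 : Q := Q.p (nat_lit 0x20000880002600000800030000040000000000000000000000000000000000000000000000) (nat_lit 0x40000100000600011c0007700001c00000000000000000000000000000000000000000000000000) (nat_lit 9)
theorem c67513 : QOK q67513 := cut [q56772] ⟨c56772, trivial⟩ (nd (nat_lit 226) (nat_lit 0) (cs (lf (nat_lit 47) (nat_lit 204)) (nd (nat_lit 225) (nat_lit 0) (cs (lf (nat_lit 0) (nat_lit 224)) (nd (nat_lit 292) (nat_lit 0) (cs (lf (nat_lit 41) (nat_lit 226)) (nd (nat_lit 230) (nat_lit 0) (cs (lf (nat_lit 27) (nat_lit 186)) (nd (nat_lit 228) (nat_lit 0) (cs (lf (nat_lit 14) (nat_lit 205)) (rf (nat_lit 0)))))))))))) q67513 (by decide +kernel)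
def q67519 : Q := Q.p (nat_lit 0x20000880002600000000010000040000000000000000000000000000000000000000000000) (nat_lit 0xc00001000014000100000f800022000008000020000000000000000000000000000000000000000) (nat_lit 8)
theorem c67519 : QOK q67519 := cut [q61660] ⟨c61660, trivial⟩ (nd (nat_lit 230) (nat_lit 0) (cs (lf (nat_lit 27) (nat_lit 186)) (nd (nat_lit 209) (nat_lit 0) (cs (lf (nat_lit 44) (nat_lit 186)) (nd (nat_lit 228) (nat_lit 0) (cs (lf (nat_lit 30) (nat_lit 227)) (nd (nat_lit 227) (nat_lit 0) (cs (lf (nat_lit 14) (nat_lit 205)) (rf (nat_lit 0)))))))))) q67519 (by decide +kernel)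
def q67564 : Q := Q.p (nat_lit 0x20000980002600000000010000040000000000000000000000000000000000000000000000) (nat_lit 0x6000018000040000000001100004c00001000000000000000000000000000000000000000000000000000) (nat_lit 6)
theorem c67564 : QOK q67564 := cut [q67108] ⟨c67108, trivial⟩ (nd (nat_lit 230) (nat_lit 0) (cs (lf (nat_lit 27) (nat_lit 186)) (nd (nat_lit 315) (nat_lit 0) (cs (lf (nat_lit 30) (nat_lit 249)) (rf (nat_lit 0)))))) q67564 (by decide +kernel)
def q67568 : Q := Q.p (nat_lit 0x20000980000600000000000000000000000000000000000000000000000000000000000000) (nat_lit 0x6000018000000000600000180000400000000000000000000000000000000000000000000000000000000) (nat_lit 5)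
theorem c67568 : QOK q67568 := cut [q60772] ⟨c60772, trivial⟩ (nd (nat_lit 315) (nat_lit 0) (cs (lf (nat_lit 30) (nat_lit 249)) (nd (nat_lit 316) (nat_lit 0) (cs (lf (nat_lit 29) (nat_lit 249)) (rf (nat_lit 0)))))) q67568 (by decide +kernel)
def q67570 : Q := Q.p (nat_lit 0x20000880002600000000010000040000000000000000000000000000000000000000000000) (nat_lit 0x700001c0000700003800005c000140000100009c00021000000000000000000000000000000000000000000000000000) (nat_lit 13)
theorem c67570 : QOK q67570 := cut [q61727] ⟨c61727, trivial⟩ (nd (nat_lit 209) (nat_lit 0) (cs (lf (nat_lit 44) (nat_lit 186)) (rf (nat_lit 0)))) q67570 (by decide +kernel)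
def q67615 : Q := Q.p (nat_lit 0xf0000040000000000000000000000000000000000000000000000) (nat_lit 0xe0000100000680000000000000000000000000000000000000000000000) (nat_lit 4)
theorem c67615 : QOK q67615 := cut [q1860] ⟨c1860, trivial⟩ (nd (nat_lit 189) (nat_lit 0) (cs (lf (nat_lit 17) (nat_lit 186)) (rf (nat_lit 0)))) q67615 (by decide +kernel)
def q67622 : Q := Q.p (nat_lit 0x20000880002600000000010000040000000000000000000000000000000000000000000000) (nat_lit 0x60000180000700000c000010000140000100009c00021000000000000000000000000000000000000000000000000000) (nat_lit 10)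
theorem c67622 : QOK q67622 := cut [q61716] ⟨c61716, trivial⟩ (nd (nat_lit 209) (nat_lit 0) (cs (lf (nat_lit 44) (nat_lit 186)) (rf (nat_lit 0)))) q67622 (by decide +kernel)
def q67710 : Q := Q.p (nat_lit 0x20000680000200000000000000000000000000000000000000000000000000000000) (nat_lit 0x8000000000100000100000c00001000004000000000000000000000000000000000000000) (nat_lit 4)
theorem c67710 : QOK q67710 := cut [q45757] ⟨c45757, trivial⟩ (nd (nat_lit 224) (nat_lit 0) (cs (rf (nat_lit 0)) (lf (nat_lit 20) (nat_lit 224)))) q67710 (by decide +kernel)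
def q67729 : Q := Q.p (nat_lit 0x80000600000800002000000000000000000000000000000000000000000000000000) (nat_lit 0x5c0001700001c0000600001000004000000000000000000000000000000000000000000000) (nat_lit 8)
theorem c67729 : QOK q67729 := cut [q67635] ⟨c67635, trivial⟩ (nd (nat_lit 204) (nat_lit 0) (cs (lf (nat_lit 47) (nat_lit 182)) (nd (nat_lit 270) (nat_lit 0) (cs (lf (nat_lit 41) (nat_lit 204)) (nd (nat_lit 269) (nat_lit 0) (cs (lf (nat_lit 12) (nat_lit 246)) (rf (nat_lit 0)))))))) q67729 (by decide +kernel)
def q67807 : Q := Q.p (nat_lit 0x900000600001800000000000000000000000000000000000000000000000000000000) (nat_lit 0x1c0000780006c0000180000000000000000000000000000000000000000000000000000000000000) (nat_lit 7)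
theorem c67807 : QOK q67807 := cut [q64871] ⟨c64871, trivial⟩ (nd (nat_lit 273) (nat_lit 0) (cs (lf (nat_lit 19) (nat_lit 249)) (nd (nat_lit 248) (nat_lit 0) (cs (lf (nat_lit 0) (nat_lit 247)) (nd (nat_lit 294) (nat_lit 0) (cs (lf (nat_lit 42) (nat_lit 227)) (nd (nat_lit 293) (nat_lit 0) (cs (lf (nat_lit 41) (nat_lit 227)) (rf (nat_lit 0)))))))))) q67807 (by decide +kernel)
def q67814 : Q := Q.p (nat_lit 0x980000600000800000000000000000000000000000000000000000000000000000000) (nat_lit 0x10000040000180006700001c0000000002000000000000000000000000000000000000000000000000000) (nat_lit 5)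
theorem c67814 : QOK q67814 := cut [q67695, q67810, q67813] ⟨c67695, c67810, c67813, trivial⟩ (nd (nat_lit 270) (nat_lit 0) (cs (rf (nat_lit 0)) (cs (nd (nat_lit 273) (nat_lit 0) (cs (lf (nat_lit 19) (nat_lit 249)) (rf (nat_lit 1)))) (rf (nat_lit 2))))) q67814 (by decide +kernel)

end Crest.Agent.H3.Snaky.CR
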