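import Crest.Agent.H3.Snaky.Cert
import Crest.Agent.H3.Snaky.CR.CR3
import Crest.Agent.H3.Snaky.CR.CR6
import Crest.Agent.H3.Snaky.CR.CR9
import Crest.Agent.H3.Snaky.CR.CR10
import Crest.Agent.H3.Snaky.CR.CR11
import Crest.Agent.H3.Snaky.CR.CR12
import Crest.Agent.H3.Snaky.CR.CR13
import Crest.Agent.H3.Snaky.CR.CR14
import Crest.Agent.H3.Snaky.CR.CR15
import Crest.Agent.H3.Snaky.CR.CR25
import Crest.Agent.H3.Snaky.CR.CR27
import Crest.Agent.H3.Snaky.CR.CR28
import Crest.Agent.H3.Snaky.CR.CR29
import Crest.Agent.H3.Snaky.CR.CR30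
import Crest.Agent.H3.Snaky.CR.CR31
import Crest.Agent.H3.Snaky.CR.CR32

set_option autoImplicit false
set_option maxRecDepth 100000

namespace Crest.Agent.H3.Snaky.CR

open T

def q67852 : Q := Q.p (nat_lit 0x60000180000600001800000000000000000000000000000000000000000000000000000000) (nat_lit 0x20000180000060000000000400001000000000000000000000000000000000000000000000000000) (nat_lit 4)
theorem c67852 : QOK q67852 := cut [q59492] ⟨c59492, trivial⟩ (nd (nat_lit 204) (nat_lit 0) (cs (lf (nat_lit 46) (nat_lit 204)) (rf (nat_lit 0)))) q67852 (by decide +kernel)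
def q67921 : Q := Q.p (nat_lit 0x800000600001800002000040000000000000000000000000000000000000000000000) (nat_lit 0xc00007000000000000000040000b00000c0000000000000000000000000000000000000000) (nat_lit 6)
theorem c67921 : QOK q67921 := cut [q41036] ⟨c41036, trivial⟩ (nd (nat_lit 272) (nat_lit 0) (cs (lf (nat_lit 42) (nat_lit 205)) (nd (nat_lit 273) (nat_lit 0) (cs (lf (nat_lit 19) (nat_lit 249)) (nd (nat_lit 206) (nat_lit 0) (cs (lf (nat_lit 29) (nat_lit 206)) (rf (nat_lit 0)))))))) q67921 (by decide +kernel)
def q67930 : Q := Q.p (nat_lit 0x880002600000800012000040000000000000000000000000000000000000000000000) (nat_lit 0x1d0000740000000009000025000014000000000000000000000000000000000000000000000) (nat_lit 8)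
theorem c67930 : QOK q67930 := cut [q67929] ⟨c67929, trivial⟩ (nd (nat_lit 209) (nat_lit 0) (cs (lf (nat_lit 44) (nat_lit 186)) (rf (nat_lit 0)))) q67930 (by decide +kernel)
def q67941 : Q := Q.p (nat_lit 0x800002600000800012000040000000000000000000000000000000000000000000000) (nat_lit 0x900002000003c000070000140000000000000000000000000000000000) (nat_lit 5)
theorem c67941 : QOK q67941 := cut [q23761, q56871, q56952] ⟨c23761, c56871, c56952, trivial⟩ (nd (nat_lit 183) (nat_lit 0) (cs (rf (nat_lit 0)) (cs (rf (nat_lit 1)) (nd (nat_lit 209) (nat_lit 0) (cs (lf (nat_lit 44) (nat_lit 186)) (rf (nat_lit 2))))))) q67941 (by decide +kernel)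
def q67944 : Q := Q.p (nat_lit 0x200000800032000040000000000000000000000000000000000000000000000) (nat_lit 0x4000010000040000000003c000070000040000000000000000000000000000000000) (nat_lit 5)
theorem c67944 : QOK q67944 := cut [q40983, q56870] ⟨c40983, c56870, trivial⟩ (nd (nat_lit 183) (nat_lit 0) (cs (rf (nat_lit 0)) (rf (nat_lit 1)))) q67944 (by decide +kernel)
def q67955 : Q := Q.p (nat_lit 0x80000600000800000000000000000000000000000000000000000000000000000000) (nat_lit 0x400001c000070000040000000001400003000004000000000000000000000000000000000000000000000) (nat_lit 5)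
theorem c67955 : QOK q67955 := cut [q56922, q67027] ⟨c56922, c67027, trivial⟩ (nd (nat_lit 293) (nat_lit 0) (cs (rf (nat_lit 0)) (rf (nat_lit 1)))) q67955 (by decide +kernel)
def q67990 : Q := Q.p (nat_lit 0xf0000200000800000000000000000000000000000000000000000) (nat_lit 0x60000000000000001400007000014000000000000000000000000000000) (nat_lit 5)
theorem c67990 : QOK q67990 := cut [q67989] ⟨c67989, trivial⟩ (nd (nat_lit 233) (nat_lit 0) (cs (lf (nat_lit 5) (nat_lit 208)) (rf (nat_lit 0)))) q67990 (by decide +kernel)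
def q68031 : Q := Q.p (nat_lit 0x900002600000800010000040000000000000000000000000000000000000000000000) (nat_lit 0x100000c0000bc0006f00001c000f700067c000b40000d0000000000000000000000000000000000000000) (nat_lit 11)
theorem c68031 : QOK q68031 := cut [q61168, q64331, q41331, q57280, q60044, q67695, q57256, q68030] ⟨c61168, c64331, c41331, c57280, c60044, c67695, c57256, c68030, trivial⟩ (nd (nat_lit 228) (nat_lit 0) (cs (nd (nat_lit 209) (nat_lit 0) (cs (lf (nat_lit 44) (nat_lit 186)) (nd (nat_lit 273) (nat_lit 0) (cs (lf (nat_lit 19) (nat_lit 249)) (nd (nat_lit 247) (nat_lit 0) (cs (lf (nat_lit 1) (nat_lit 247)) (nd (nat_lit 229) (nat_lit 0) (cs (lf (nat_lit 15) (nat_lit 205)) (nd (nat_lit 206) (nat_lit 0) (cs (lf (nat_lit 29) (nat_lit 206)) (nd (nat_lit 184) (nat_lit 0) (cs (lf (nat_lit 36) (nat_lit 161)) (rf (nat_lit 0)))))))))))))) (cs (nd (nat_lit 226) (nat_lit 0) (cs (nd (nat_lit 225) (nat_lit 0) (cs (lf (nat_lit 0) (nat_lit 224)) (rf (nat_lit 1)))) (nd (nat_lit 209) (nat_lit 0) (cs (lf (nat_lit 44) (nat_lit 186))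 (nd (nat_lit 229) (nat_lit 0) (cs (lf (nat_lit 15) (nat_lit 205)) (nd (nat_lit 204) (nat_lit 0) (cs (lf (nat_lit 23) (nat_lit 203)) (rf (nat_lit 2)))))))))) (cs (nd (nat_lit 271) (nat_lit 0) (cs (rf (nat_lit 3)) (cs (nd (nat_lit 293) (nat_lit 0) (cs (lf (nat_lit 30) (nat_lit 227)) (nd (nat_lit 292) (nat_lit 0) (cs (lf (nat_lit 41) (nat_lit 226)) (nd (nat_lit 290) (nat_lit 0) (cs (lf (nat_lit 13) (nat_lit 268)) (rf (nat_lit 4)))))))) (nd (nat_lit 270) (nat_lit 0) (cs (rf (nat_lit 5)) (cs (nd (nat_lit 209) (nat_lit 0) (cs (lf (nat_lit 44) (nat_lit 186)) (nd (nat_lit 268) (nat_lit 0) (cs (lf (nat_lit 13) (nat_lit 246)) (nd (nat_lit 229) (nat_lit 0) (cs (lf (nat_lit 15) (nat_lit 205)) (nd (nat_lit 205) (nat_lit 0) (cs (lf (nat_lit 41) (nat_lit 204)) (nd (nat_lit 184) (nat_lit 0) (cs (lf (nat_lit 34) (nat_lit 183)) (nd (nat_lit 204) (nat_lit 0) (cs (lf (nat_lit 47) (nat_lit 182)) (rf (nat_lit 6)))))))))))))) (nd (nat_lit 184) (nat_lit 0) (cs (lf (nat_lit 37) (nat_lit 183)) (nd (nat_lit 209) (nat_lit 0) (cs (lf (nat_lit 44)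 (nat_lit 186)) (nd (nat_lit 269) (nat_lit 0) (cs (lf (nat_lit 12) (nat_lit 246)) (nd (nat_lit 229) (nat_lit 0) (cs (lf (nat_lit 15) (nat_lit 205)) (nd (nat_lit 247) (nat_lit 0) (cs (lf (nat_lit 23) (nat_lit 246)) (lf (nat_lit 13) (nat_lit 225)))))))))))))))))) (rf (nat_lit 7)))))) q68031 (by decide +kernel)
def q68087 : Q := Q.p (nat_lit 0x80000600000800002000000000000000000000000000000000000000000000000000) (nat_lit 0x100000700001c00037c0005e00017c00000000000000000000000000000000000000000000) (nat_lit 10)
theorem c68087 : QOK q68087 := cut [q27079, q44553] ⟨c27079, c44553, trivial⟩ (nd (nat_lit 204) (nat_lit 0) (cs (lf (nat_lit 47) (nat_lit 182)) (nd (nat_lit 203) (nat_lit 0) (cs (nd (nat_lit 202) (nat_lit 0) (cs (lf (nat_lit 5) (nat_lit 202)) (nd (nat_lit 201) (nat_lit 0) (cs (lf (nat_lit 4) (nat_lit 201)) (nd (nat_lit 223) (nat_lit 0) (cs (lf (nat_lit 11) (nat_lit 200)) (lf (nat_lit 10) (nat_lit 201)))))))) (cs (nd (nat_lit 270) (nat_lit 0) (cs (lf (nat_lit 41) (nat_lit 204)) (nd (nat_lit 206) (nat_lit 0) (cs (lf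 (nat_lit 35) (nat_lit 183)) (nd (nat_lit 268) (nat_lit 0) (cs (lf (nat_lit 13) (nat_lit 246)) (nd (nat_lit 225) (nat_lit 0) (cs (lf (nat_lit 11) (nat_lit 202)) (nd (nat_lit 228) (nat_lit 0) (cs (lf (nat_lit 5) (nat_lit 203)) (nd (nat_lit 181) (nat_lit 0) (cs (lf (nat_lit 23) (nat_lit 180)) (nd (nat_lit 247) (nat_lit 0) (cs (lf (nat_lit 40) (nat_lit 180)) (lf (nat_lit 28) (nat_lit 181)))))))))))))))) (cs (nd (nat_lit 184) (nat_lit 0) (cs (lf (nat_lit 34) (nat_lit 183)) (nd (nat_lit 270) (nat_lit 0) (cs (lf (nat_lit 41) (nat_lit 204)) (nd (nat_lit 268) (nat_lit 0) (cs (lf (nat_lit 13) (nat_lit 246)) (nd (nat_lit 202) (nat_lit 0) (cs (lf (nat_lit 5) (nat_lit 202)) (rf (nat_lit 0)))))))))) (nd (nat_lit 206) (nat_lit 0) (cs (lf (nat_lit 35) (nat_lit 183)) (nd (nat_lit 270) (nat_lit 0) (cs (lf (nat_lit 41) (nat_lit 204)) (nd (nat_lit 180) (nat_lit 0) (cs (lf (nat_lit 22) (nat_lit 180)) (nd (nat_lit 268) (nat_lit 0) (cs (lf (nat_lit 13) (nat_lit 246)) (rf (nat_lit 1)))))))))))))))) q68087 (by decide +kernel)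
def q68106 : Q := Q.p (nat_lit 0x880000600000800002000000000000000000000000000000000000000000000000000) (nat_lit 0xe0000700000180001000004000010000000000000000000000000000000000000000000000) (nat_lit 6)
theorem c68106 : QOK q68106 := cut [q68092] ⟨c68092, trivial⟩ (nd (nat_lit 272) (nat_lit 0) (cs (lf (nat_lit 29) (nat_lit 205)) (rf (nat_lit 0)))) q68106 (by decide +kernel)
def q68195 : Q := Q.p (nat_lit 0x3c0000600000000000000000000000000000000000000000000000000000000000000) (nat_lit 0x90000240001b8000000000000000800002000000000000000000000000000000000000000000000000000) (nat_lit 6)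
theorem c68195 : QOK q68195 := cut [q46560] ⟨c46560, trivial⟩ (nd (nat_lit 292) (nat_lit 0) (cs (lf (nat_lit 11) (nat_lit 269)) (nd (nat_lit 295) (nat_lit 0) (cs (lf (nat_lit 5) (nat_lit 270)) (nd (nat_lit 317) (nat_lit 0) (cs (lf (nat_lit 42) (nat_lit 250)) (rf (nat_lit 0)))))))) q68195 (by decide +kernel)
def q68221 : Q := Q.p (nat_lit 0x900002780000000010000040000000000000000000000000000000000000000000000) (nat_lit 0x80001040004380000000000000000000000000000000000000000000000000000000) (nat_lit 4)
theorem c68221 : QOK q68221 := cut [q44584] ⟨c44584, trivial⟩ (nd (nat_lit 230) (nat_lit 0) (cs (lf (nat_lit 27) (nat_lit 186)) (rf (nat_lit 0)))) q68221 (by decide +kernel)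
def q68225 : Q := Q.p (nat_lit 0x40000940002780000000010000040000000000000000000000000000000000000000000000) (nat_lit 0x200008c0000b0001000004400001000000000000000000000000000000000000000000000000000) (nat_lit 6)
theorem c68225 : QOK q68225 := cut [q47248] ⟨c47248, trivial⟩ (nd (nat_lit 230) (nat_lit 0) (cs (lf (nat_lit 27) (nat_lit 186)) (nd (nat_lit 269) (nat_lit 0) (cs (lf (nat_lit 11) (nat_lit 246)) (nd (nat_lit 271) (nat_lit 0) (cs (lf (nat_lit 5) (nat_lit 269)) (rf (nat_lit 0)))))))) q68225 (by decide +kernel)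
def q68260 : Q := Q.p (nat_lit 0x40000900002600008000010000040000000000000000000000000000000000000000000000) (nat_lit 0x8000060000380003e00007e0001a0000680001180004000000000000000000000000000000000000000000000000000000000) (nat_lit 12)
theorem c68260 : QOK q68260 := cut [q52291, q68238, q68256] ⟨c52291, c68238, c68256, trivial⟩ (nd (nat_lit 316) (nat_lit 0) (cs (rf (nat_lit 0)) (cs (nd (nat_lit 274) (nat_lit 0) (cs (lf (nat_lit 20) (nat_lit 249)) (nd (nat_lit 317) (nat_lit 0) (cs (lf (nat_lit 29) (nat_lit 250)) (nd (nat_lit 315) (nat_lit 0) (cs (lf (nat_lit 41) (nat_lit 249)) (rf (nat_lit 1)))))))) (cs (nd (nat_lit 230) (nat_lit 0) (cs (lf (nat_lit 27) (nat_lit 186)) (nd (nat_lit 273) (nat_lit 0) (cs (lf (nat_lit 19) (nat_lit 249)) (nd (nat_lit 247) (nat_lit 0) (cs (lf (nat_lit 1) (nat_lit 247)) (nd (nat_lit 315) (nat_lit 0) (cs (lf (nat_lit 41) (nat_lit 249)) (nd (nat_lit 338) (nat_lit 0) (cs (lf (nat_lit 46) (nat_lit 249)) (nd (nat_lit 295) (nat_lit 0) (cs (lf (nat_lit 30) (nat_lit 272)) (nd (nat_lit 314) (nat_lit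 0) (cs (lf (nat_lit 12) (nat_lit 291)) (nd (nat_lit 296) (nat_lit 0) (cs (lf (nat_lit 9) (nat_lit 292)) (lf (nat_lit 15) (nat_lit 292)))))))))))))))))) (nd (nat_lit 230) (nat_lit 0) (cs (lf (nat_lit 27) (nat_lit 186)) (nd (nat_lit 273) (nat_lit 0) (cs (lf (nat_lit 19) (nat_lit 249)) (nd (nat_lit 247) (nat_lit 0) (cs (lf (nat_lit 1) (nat_lit 247)) (rf (nat_lit 2)))))))))))) q68260 (by decide +kernel)
def q68261 : Q := Q.p (nat_lit 0x40000900002600000000010000040000000000000000000000000000000000000000000000) (nat_lit 0x10000000000080001000004800002000008000000000000000000000000000000000000000000000) (nat_lit 4)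
theorem c68261 : QOK q68261 := cut [q23133] ⟨c23133, trivial⟩ (nd (nat_lit 230) (nat_lit 0) (cs (lf (nat_lit 27) (nat_lit 186)) (rf (nat_lit 0)))) q68261 (by decide +kernel)
def q68282 : Q := Q.p (nat_lit 0x900002600008000010000040000000000000000000000000000000000000000000000) (nat_lit 0x80000200000c0000600001180007000004000000000000000000000000000000000000000000000000000) (nat_lit 7)
theorem c68282 : QOK q68282 := cut [q62406] ⟨c62406, trivial⟩ (nd (nat_lit 273) (nat_lit 0) (cs (lf (nat_lit 19) (nat_lit 249)) (nd (nat_lit 247) (nat_lit 0) (cs (lf (nat_lit 1) (nat_lit 247)) (nd (nat_lit 230) (nat_lit 0) (cs (lf (nat_lit 27) (nat_lit 186)) (nd (nat_lit 228) (nat_lit 0) (cs (lf (nat_lit 8) (nat_lit 227)) (rf (nat_lit 0)))))))))) q68282 (by decide +kernel)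
def q68284 : Q := Q.p (nat_lit 0x60000900002000008000000000000000000000000000000000000000000000000000000000) (nat_lit 0x10000040000180000600001000000000000000000000000000000000000000000000000000000000000000) (nat_lit 4)
theorem c68284 : QOK q68284 := cut [q59939] ⟨c59939, trivial⟩ (nd (nat_lit 274) (nat_lit 0) (cs (lf (nat_lit 8) (nat_lit 271)) (rf (nat_lit 0)))) q68284 (by decide +kernel)
def q68345 : Q := Q.p (nat_lit 0x8000060000800000000000000000000000000000000000000000000000000000000000000000000) (nat_lit 0x20000f780019c001670000100000400000000000000000000000000000000000000000000000000000000) (nat_lit 9)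
theorem c68345 : QOK q68345 := cut [q61925, q61983, q67178, q44140, q58551, q58556, q67170] ⟨c61925, c61983, c67178, c44140, c58551, c58556, c67170, trivial⟩ (nd (nat_lit 295) (nat_lit 0) (cs (rf (nat_lit 0)) (cs (rf (nat_lit 1)) (cs (rf (nat_lit 2)) (nd (nat_lit 292) (nat_lit 0) (cs (rf (nat_lit 3)) (cs (rf (nat_lit 4)) (cs (rf (nat_lit 5)) (rf (nat_lit 6)))))))))) q68345 (by decide +kernel)
def q68347 : Q := Q.p (nat_lit 0x8000060000800000600000000000000000000000000000000000000000000000000000000000000) (nat_lit 0x8000067000198001700000000001000000000000000000000000000000000000000000000000000000000) (nat_lit 6)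
theorem c68347 : QOK q68347 := cut [q61787, q61925, q58544, q60779] ⟨c61787, c61925, c58544, c60779, trivial⟩ (nd (nat_lit 295) (nat_lit 0) (cs (rf (nat_lit 0)) (cs (rf (nat_lit 1)) (cs (nd (nat_lit 228) (nat_lit 0) (cs (lf (nat_lit 38) (nat_lit 227)) (rf (nat_lit 2)))) (nd (nat_lit 272) (nat_lit 0) (cs (lf (nat_lit 36) (nat_lit 227)) (rf (nat_lit 3)))))))) q68347 (by decide +kernel)
def q68440 : Q := Q.p (nat_lit 0x20000080000600000800000000000000000000000000000000000000000000000000000000) (nat_lit 0x140000d00000700001c0001700005c00000000000000000000000000000000000000000000000000) (nat_lit 10)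
theorem c68440 : QOK q68440 := cut [q67017] ⟨c67017, trivial⟩ (nd (nat_lit 226) (nat_lit 0) (cs (lf (nat_lit 47) (nat_lit 204)) (nd (nat_lit 225) (nat_lit 0) (cs (lf (nat_lit 0) (nat_lit 224)) (nd (nat_lit 228) (nat_lit 0) (cs (lf (nat_lit 35) (nat_lit 205)) (nd (nat_lit 292) (nat_lit 0) (cs (lf (nat_lit 41) (nat_lit 226)) (nd (nat_lit 203) (nat_lit 0) (cs (lf (nat_lit 23) (nat_lit 202)) (nd (nat_lit 294) (nat_lit 0) (cs (lf (nat_lit 29) (nat_lit 227)) (nd (nat_lit 246) (nat_lit 0) (cs (lf (nat_lit 10) (nat_lit 224)) (rf (nat_lit 0)))))))))))))))) q68440 (by decide +kernel)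
def q68524 : Q := Q.p (nat_lit 0x1e0000780000000000000000000000000000000000000000000000000000000000000) (nat_lit 0x200000c000000000000000700001000000000000000000000000000000000000000000000000000) (nat_lit 4)
theorem c68524 : QOK q68524 := cut [q47248] ⟨c47248, trivial⟩ (nd (nat_lit 224) (nat_lit 0) (cs (lf (nat_lit 22) (nat_lit 224)) (rf (nat_lit 0)))) q68524 (by decide +kernel)
def q68531 : Q := Q.p (nat_lit 0x1e0000380000000000000000000000000000000000000000000000000000000000000) (nat_lit 0x1c00007c0003c000000000000000800000000000000000000000000000000000000000000000000000000) (nat_lit 7)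
theorem c68531 : QOK q68531 := cut [q68530] ⟨c68530, trivial⟩ (nd (nat_lit 291) (nat_lit 0) (cs (lf (nat_lit 11) (nat_lit 268)) (rf (nat_lit 0)))) q68531 (by decide +kernel)
def q68552 : Q := Q.p (nat_lit 0x8000020000880002200000000010000040000000000000000000000000000000000000000000000) (nat_lit 0x500003400001c00000000100000c800020000000000000000000000000000000000000000000000000000) (nat_lit 7)
theorem c68552 : QOK q68552 := cut [q54929] ⟨c54929, trivial⟩ (nd (nat_lit 314) (nat_lit 0) (cs (lf (nat_lit 41) (nat_lit 248)) (nd (nat_lit 292) (nat_lit 0) (cs (lf (nat_lit 36) (nat_lit 226)) (nd (nat_lit 230) (nat_lit 0) (cs (lf (nat_lit 27) (nat_lit 186)) (nd (nat_lit 209) (nat_lit 0) (cs (lf (nat_lit 44) (nat_lit 186)) (rf (nat_lit 0)))))))))) q68552 (by decide +kernel)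
def q68575 : Q := Q.p (nat_lit 0x80000a0000780000000000000000000000000000000000000000000000000000000000000) (nat_lit 0x1c00007c00034000340000000000800000000000000000000000000000000000000000000000000000000) (nat_lit 8)
theorem c68575 : QOK q68575 := cut [q68530] ⟨c68530, trivial⟩ (nd (nat_lit 272) (nat_lit 0) (cs (lf (nat_lit 5) (nat_lit 247)) (nd (nat_lit 270) (nat_lit 0) (cs (lf (nat_lit 11) (nat_lit 268)) (rf (nat_lit 0)))))) q68575 (by decide +kernel)
def q68594 : Q := Q.p (nat_lit 0x80000a0000780000000000000000000000000000000000000000000000000000000000000) (nat_lit 0x5000034000340000000000200000000000000000000000000000000000000000000000000000000) (nat_lit 5)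
theorem c68594 : QOK q68594 := cut [q68593] ⟨c68593, trivial⟩ (nd (nat_lit 272) (nat_lit 0) (cs (lf (nat_lit 5) (nat_lit 247)) (rf (nat_lit 0)))) q68594 (by decide +kernel)
def q68600 : Q := Q.p (nat_lit 0x880002300000400010000040000000000000000000000000000000000000000000000) (nat_lit 0x8000020000040001000004000001000004000000000000000000000000000000000000000000000) (nat_lit 4)
theorem c68600 : QOK q68600 := cut [q63832] ⟨c63832, trivial⟩ (nd (nat_lit 230) (nat_lit 0) (cs (lf (nat_lit 27) (nat_lit 186)) (rf (nat_lit 0)))) q68600 (by decide +kernel)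
def q68614 : Q := Q.p (nat_lit 0x880002780000400010000040000000000000000000000000000000000000000000000) (nat_lit 0x40000060008b80020000000000000000000000000000000000000000000000000000) (nat_lit 5)
theorem c68614 : QOK q68614 := cut [q68613] ⟨c68613, trivial⟩ (nd (nat_lit 209) (nat_lit 0) (cs (lf (nat_lit 44) (nat_lit 186)) (rf (nat_lit 0)))) q68614 (by decide +kernel)
def q68633 : Q := Q.p (nat_lit 0x780000200000800000000000000000000000000000000000000000000000000) (nat_lit 0x30000000000000001400007000014000000000000000000000000000000000000000) (nat_lit 5)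
theorem c68633 : QOK q68633 := cut [q45760] ⟨c45760, trivial⟩ (nd (nat_lit 269) (nat_lit 0) (cs (lf (nat_lit 11) (nat_lit 246)) (rf (nat_lit 0)))) q68633 (by decide +kernel)
def q68700 : Q := Q.p (nat_lit 0x880002780000000010000040000000000000000000000000000000000000000000000) (nat_lit 0x5c001060004380000000000000000000000000000000000000000000000000000000) (nat_lit 6)
theorem c68700 : QOK q68700 := cut [q59051] ⟨c59051, trivial⟩ (nd (nat_lit 230) (nat_lit 0) (cs (lf (nat_lit 27) (nat_lit 186)) (rf (nat_lit 0)))) q68700 (by decide +kernel)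
def q68778 : Q := Q.p (nat_lit 0x900002600008000010000040000000000000000000000000000000000000000000000) (nat_lit 0xa0000680001180007000004000010000000000000000000000000000000000000000000000) (nat_lit 7)
theorem c68778 : QOK q68778 := cut [q63972] ⟨c63972, trivial⟩ (nd (nat_lit 273) (nat_lit 0) (cs (lf (nat_lit 19) (nat_lit 249)) (nd (nat_lit 247) (nat_lit 0) (cs (lf (nat_lit 1) (nat_lit 247)) (nd (nat_lit 230) (nat_lit 0) (cs (lf (nat_lit 27) (nat_lit 186)) (nd (nat_lit 228) (nat_lit 0) (cs (lf (nat_lit 8) (nat_lit 227)) (rf (nat_lit 0)))))))))) q68778 (by decide +kernel)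
def q68793 : Q := Q.p (nat_lit 0x40000900002600008000010000040000000000000000000000000000000000000000000000) (nat_lit 0x40000300000a0000080001000007800004000010000000000000000000000000000000000000000000000) (nat_lit 7)
theorem c68793 : QOK q68793 := cut [q64846] ⟨c64846, trivial⟩ (nd (nat_lit 230) (nat_lit 0) (cs (lf (nat_lit 27) (nat_lit 186)) (nd (nat_lit 228) (nat_lit 0) (cs (lf (nat_lit 8) (nat_lit 227)) (nd (nat_lit 295) (nat_lit 0) (cs (lf (nat_lit 29) (nat_lit 228)) (nd (nat_lit 316) (nat_lit 0) (cs (lf (nat_lit 47) (nat_lit 227)) (rf (nat_lit 0)))))))))) q68793 (by decide +kernel)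
def q68839 : Q := Q.p (nat_lit 0x40000900000600000000000000000000000000000000000000000000000000000000000000) (nat_lit 0x20000380000a0000600000180001800004000000000000000000000000000000000000000000000000000) (nat_lit 7)
theorem c68839 : QOK q68839 := cut [q64233] ⟨c64233, trivial⟩ (nd (nat_lit 273) (nat_lit 0) (cs (lf (nat_lit 19) (nat_lit 249)) (nd (nat_lit 247) (nat_lit 0) (cs (lf (nat_lit 1) (nat_lit 247)) (nd (nat_lit 316) (nat_lit 0) (cs (lf (nat_lit 47) (nat_lit 227)) (nd (nat_lit 315) (nat_lit 0) (cs (lf (nat_lit 41) (nat_lit 249)) (rf (nat_lit 0)))))))))) q68839 (by decide +kernel)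
def q68841 : Q := Q.p (nat_lit 0x9c0000600000000000000000000000000000000000000000000000000000000000000) (nat_lit 0x1c000630000000000000000000000000000000000000000000000000000000000000000000) (nat_lit 4)
theorem c68841 : QOK q68841 := cut [q61291] ⟨c61291, trivial⟩ (nd (nat_lit 273) (nat_lit 0) (cs (lf (nat_lit 19) (nat_lit 249)) (rf (nat_lit 0)))) q68841 (by decide +kernel)
def q68847 : Q := Q.p (nat_lit 0x9c0002700000000010000040000000000000000000000000000000000000000000000) (nat_lit 0x40000100000000010c0007700004800012000000000000000000000000000000000000000000000) (nat_lit 8)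
theorem c68847 : QOK q68847 := cut [q57077] ⟨c57077, trivial⟩ (nd (nat_lit 247) (nat_lit 0) (cs (lf (nat_lit 0) (nat_lit 246)) (nd (nat_lit 230) (nat_lit 0) (cs (lf (nat_lit 27) (nat_lit 186)) (nd (nat_lit 225) (nat_lit 0) (cs (lf (nat_lit 23) (nat_lit 224)) (nd (nat_lit 228) (nat_lit 0) (cs (lf (nat_lit 17) (nat_lit 225)) (nd (nat_lit 184) (nat_lit 0) (cs (lf (nat_lit 37) (nat_lit 183)) (rf (nat_lit 0)))))))))))) q68847 (by decide +kernel)
def q68859 : Q := Q.p (nat_lit 0x20000980000600000000000000000000000000000000000000000000000000000000000000) (nat_lit 0x40000100000400005c000640000000000800000000000000000000000000000000000000000000000000000000) (nat_lit 4)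
theorem c68859 : QOK q68859 := cut [q56522] ⟨c56522, trivial⟩ (nd (nat_lit 292) (nat_lit 0) (cs (rf (nat_lit 0)) (nd (nat_lit 273) (nat_lit 0) (cs (lf (nat_lit 19) (nat_lit 249)) (nd (nat_lit 291) (nat_lit 0) (cs (lf (nat_lit 12) (nat_lit 268)) (lf (nat_lit 15) (nat_lit 269)))))))) q68859 (by decide +kernel)
def q68931 : Q := Q.p (nat_lit 0x800002600001800010000040000000000000000000000000000000000000000000000) (nat_lit 0x100001000006000023000008000020000000000000000000000000000000000000000) (nat_lit 5)
theorem c68931 : QOK q68931 := cut [q61412] ⟨c61412, trivial⟩ (nd (nat_lit 230) (nat_lit 0) (cs (lf (nat_lit 27) (nat_lit 186)) (nd (nat_lit 229) (nat_lit 0) (cs (lf (nat_lit 17) (nat_lit 205)) (rf (nat_lit 0)))))) q68931 (by decide +kernel)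
def q68960 : Q := Q.p (nat_lit 0x600007800000000040000000000000000000000000000000000000000000000) (nat_lit 0x800000000000000070000bc0000f0000000000000000000000000000000000000000) (nat_lit 7)
theorem c68960 : QOK q68960 := cut [q68959] ⟨c68959, trivial⟩ (nd (nat_lit 205) (nat_lit 0) (cs (lf (nat_lit 23) (nat_lit 204)) (rf (nat_lit 0)))) q68960 (by decide +kernel)
def q68990 : Q := Q.p (nat_lit 0x880002600000800010000040000000000000000000000000000000000000000000000) (nat_lit 0x8000020000000001100007000024000000000000000000000000000000000000000000000000000) (nat_lit 4)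
theorem c68990 : QOK q68990 := cut [q57280, q66753] ⟨c57280, c66753, trivial⟩ (nd (nat_lit 228) (nat_lit 0) (cs (rf (nat_lit 0)) (rf (nat_lit 1)))) q68990 (by decide +kernel)
def q68992 : Q := Q.p (nat_lit 0x200000800002000040000000000000000000000000000000000000000000000) (nat_lit 0xc00001000004000050000bc000070000040000000000000000000000000000000000) (nat_lit 5)
theorem c68992 : QOK q68992 := cut [q40983, q67997] ⟨c40983, c67997, trivial⟩ (nd (nat_lit 183) (nat_lit 0) (cs (rf (nat_lit 0)) (rf (nat_lit 1)))) q68992 (by decide +kernel)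
def q69002 : Q := Q.p (nat_lit 0x600000800002000040000000000000000000000000000000000000000000000) (nat_lit 0x800000000010000050000bc000070000040000000000000000000000000000000000) (nat_lit 5)
theorem c69002 : QOK q69002 := cut [q56952, q67997] ⟨c56952, c67997, trivial⟩ (nd (nat_lit 183) (nat_lit 0) (cs (rf (nat_lit 0)) (rf (nat_lit 1)))) q69002 (by decide +kernel)
def q69087 : Q := Q.p (nat_lit 0x8c0002700000000010000040000000000000000000000000000000000000000000000) (nat_lit 0x380000e000018000000001000004f0000380000e000000000000000000000000000000000000000000000) (nat_lit 9)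
theorem c69087 : QOK q69087 := cut [q68679, q69076, q63540] ⟨c68679, c69076, c63540, trivial⟩ (nd (nat_lit 292) (nat_lit 0) (cs (rf (nat_lit 0)) (cs (nd (nat_lit 230) (nat_lit 0) (cs (lf (nat_lit 27) (nat_lit 186)) (nd (nat_lit 314) (nat_lit 0) (cs (lf (nat_lit 30) (nat_lit 248)) (nd (nat_lit 315) (nat_lit 0) (cs (lf (nat_lit 29) (nat_lit 248)) (nd (nat_lit 313) (nat_lit 0) (cs (lf (nat_lit 41) (nat_lit 247)) (nd (nat_lit 226) (nat_lit 0) (cs (lf (nat_lit 40) (nat_lit 225)) (rf (nat_lit 1)))))))))))) (nd (nat_lit 226) (nat_lit 0) (cs (rf (nat_lit 2)) (cs (rf (nat_lit 1)) (nd (nat_lit 291) (nat_lit 0) (cs (lf (nat_lit 41) (nat_lit 225)) (nd (nat_lit 230) (nat_lit 0) (cs (lf (nat_lit 27) (nat_lit 186)) (nd (nat_lit 205) (nat_lit 0) (cs (lf (nat_lit 34) (nat_lit 204)) (nd (nat_lit 204) (nat_lit 0) (cs (lf (nat_lit 24) (nat_lit 182)) (lf (nat_lit 35) (nat_lit 182)))))))))))))))) q69087 (by decide +kernel)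
def q69106 : Q := Q.p (nat_lit 0x9c0002600000000010000040000000000000000000000000000000000000000000000) (nat_lit 0x100000cc000030001000004800002000000000000000000000000000000000000000000000000000) (nat_lit 6)
theorem c69106 : QOK q69106 := cut [q46562] ⟨c46562, trivial⟩ (nd (nat_lit 230) (nat_lit 0) (cs (lf (nat_lit 27) (nat_lit 186)) (nd (nat_lit 269) (nat_lit 0) (cs (lf (nat_lit 12) (nat_lit 246)) (nd (nat_lit 290) (nat_lit 0) (cs (lf (nat_lit 10) (nat_lit 268)) (rf (nat_lit 0)))))))) q69106 (by decide +kernel)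
def q69114 : Q := Q.p (nat_lit 0x20000080000600000000000000000000000000000000000000000000000000000000000000) (nat_lit 0x40000700001c000000000040000100001400000000000000000000000000000000000000000000000000000000) (nat_lit 6)
theorem c69114 : QOK q69114 := cut [q67185] ⟨c67185, trivial⟩ (nd (nat_lit 315) (nat_lit 0) (cs (lf (nat_lit 35) (nat_lit 227)) (rf (nat_lit 0)))) q69114 (by decide +kernel)
def q69119 : Q := Q.p (nat_lit 0x80001800000c0000000000000000000000000000000000000000000000000000000000000) (nat_lit 0x2000000000070000000000100000400001000000000000000000000000000000000000000000000) (nat_lit 4)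
theorem c69119 : QOK q69119 := cut [q48835] ⟨c48835, trivial⟩ (nd (nat_lit 269) (nat_lit 0) (cs (lf (nat_lit 20) (nat_lit 246)) (rf (nat_lit 0)))) q69119 (by decide +kernel)
def q69227 : Q := Q.p (nat_lit 0x3c0000700000000000000000000000000000000000000000000000000000000000000) (nat_lit 0xb00002c0001b8000000000000000600001800006000000000000000000000000000000000000000000000) (nat_lit 9)
theorem c69227 : QOK q69227 := cut [q46593] ⟨c46593, trivial⟩ (nd (nat_lit 292) (nat_lit 0) (cs (lf (nat_lit 11) (nat_lit 269)) (nd (nat_lit 295) (nat_lit 0) (cs (lf (nat_lit 5) (nat_lit 270)) (nd (nat_lit 317) (nat_lit 0) (cs (lf (nat_lit 42) (nat_lit 250)) (rf (nat_lit 0)))))))) q69227 (by decide +kernel)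
def q69246 : Q := Q.p (nat_lit 0x9a0000680000000000000000000000000000000000000000000000000000000000000) (nat_lit 0x1c000640000040000000000000000000000000000000000000000000000000000000000000) (nat_lit 4)
theorem c69246 : QOK q69246 := cut [q69245] ⟨c69245, trivial⟩ (nd (nat_lit 273) (nat_lit 0) (cs (lf (nat_lit 19) (nat_lit 249)) (rf (nat_lit 0)))) q69246 (by decide +kernel)
def q69282 : Q := Q.p (nat_lit 0x9a0000600000000000000000000000000000000000000000000000000000000000000) (nat_lit 0x1c00006400001c0000000000000000000000000000000000000000000000000000000000000) (nat_lit 5)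
theorem c69282 : QOK q69282 := cut [q69280] ⟨c69280, trivial⟩ (nd (nat_lit 273) (nat_lit 0) (cs (lf (nat_lit 19) (nat_lit 249)) (nd (nat_lit 247) (nat_lit 0) (cs (lf (nat_lit 1) (nat_lit 247)) (rf (nat_lit 0)))))) q69282 (by decide +kernel)
def q69301 : Q := Q.p (nat_lit 0x9c0000600000000000000000000000000000000000000000000000000000000000000) (nat_lit 0x1c0000630000000000000000000000000000000000000000000000000000000000000000000) (nat_lit 4)
theorem c69301 : QOK q69301 := cut [q69300] ⟨c69300, trivial⟩ (nd (nat_lit 273) (nat_lit 0) (cs (lf (nat_lit 19) (nat_lit 249)) (rf (nat_lit 0)))) q69301 (by decide +kernel)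
def q69361 : Q := Q.p (nat_lit 0x80000200000800002000000000000000000000000000000000000000000000) (nat_lit 0x4000030000040000000000400001000004000000000000000000000000000000000000000) (nat_lit 4)
theorem c69361 : QOK q69361 := cut [q67869] ⟨c67869, trivial⟩ (nd (nat_lit 180) (nat_lit 0) (cs (lf (nat_lit 47) (nat_lit 158)) (rf (nat_lit 0)))) q69361 (by decide +kernel)
def q69385 : Q := Q.p (nat_lit 0x80000200000800004000000000000000000000000000000000000000000000) (nat_lit 0x500001c000070000000000000001000000000000000000000000000000000000000000000000000) (nat_lit 5)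
theorem c69385 : QOK q69385 := cut [q69384] ⟨c69384, trivial⟩ (nd (nat_lit 269) (nat_lit 0) (cs (lf (nat_lit 34) (nat_lit 181)) (rf (nat_lit 0)))) q69385 (by decide +kernel)
def q69405 : Q := Q.p (nat_lit 0x800002600004200010c00040000000000000000000000000000000000000000000000) (nat_lit 0x10000000000bc00023000008000020000000000000000000000000000000000000000) (nat_lit 6)
theorem c69405 : QOK q69405 := cut [q69388] ⟨c69388, trivial⟩ (nd (nat_lit 231) (nat_lit 0) (cs (lf (nat_lit 45) (nat_lit 186)) (nd (nat_lit 228) (nat_lit 0) (cs (lf (nat_lit 8) (nat_lit 227)) (rf (nat_lit 0)))))) q69405 (by decide +kernel)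
def q69425 : Q := Q.p (nat_lit 0x680004200030800043000000000000000000000000000000000000000000000) (nat_lit 0x10000000000380000600003c0000f0000000000000000000000000000000000000000) (nat_lit 7)
theorem c69425 : QOK q69425 := cut [q69417] ⟨c69417, trivial⟩ (nd (nat_lit 182) (nat_lit 0) (cs (lf (nat_lit 35) (nat_lit 159)) (rf (nat_lit 0)))) q69425 (by decide +kernel)
def q69517 : Q := Q.p (nat_lit 0x80000200000800000000000000000000000000000000000000000000000000) (nat_lit 0x500001c000070000000000000001400007000014000000000000000000000000000000000000000) (nat_lit 5)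
theorem c69517 : QOK q69517 := cut [q45760, q69384] ⟨c45760, c69384, trivial⟩ (nd (nat_lit 269) (nat_lit 0) (cs (rf (nat_lit 0)) (rf (nat_lit 1)))) q69517 (by decide +kernel)
def q69521 : Q := Q.p (nat_lit 0x8000020000080000200000000000000000000000000000000000000000000000000000000) (nat_lit 0x1400007000014000000000000000400001000000000000000000000000000000000000000000000000000) (nat_lit 5)
theorem c69521 : QOK q69521 := cut [q47098] ⟨c47098, trivial⟩ (nd (nat_lit 314) (nat_lit 0) (cs (lf (nat_lit 28) (nat_lit 225)) (nd (nat_lit 204) (nat_lit 0) (cs (lf (nat_lit 34) (nat_lit 203)) (rf (nat_lit 0)))))) q69521 (by decide +kernel)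
def q69545 : Q := Q.p (nat_lit 0x20000080000200000800000000000000000000000000000000000000000000000000) (nat_lit 0x2000018000050000070000100001400006000018000000000000000000000000000000000000000) (nat_lit 8)
theorem c69545 : QOK q69545 := cut [q48822] ⟨c48822, trivial⟩ (nd (nat_lit 270) (nat_lit 0) (cs (lf (nat_lit 29) (nat_lit 203)) (nd (nat_lit 182) (nat_lit 0) (cs (lf (nat_lit 34) (nat_lit 181)) (nd (nat_lit 181) (nat_lit 0) (cs (lf (nat_lit 35) (nat_lit 159)) (nd (nat_lit 246) (nat_lit 0) (cs (lf (nat_lit 41) (nat_lit 180)) (nd (nat_lit 244) (nat_lit 0) (cs (lf (nat_lit 1) (nat_lit 244)) (rf (nat_lit 0)))))))))))) q69545 (by decide +kernel)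
def q69549 : Q := Q.p (nat_lit 0x20000080000200000000000000000000000000000000000000000000000000000000) (nat_lit 0x40000700001c000050000040000100000c00001000000000000000000000000000000000000000000000) (nat_lit 5)
theorem c69549 : QOK q69549 := cut [q60935, q69339, q46783] ⟨c60935, c69339, c46783, trivial⟩ (nd (nat_lit 291) (nat_lit 0) (cs (rf (nat_lit 0)) (cs (rf (nat_lit 1)) (nd (nat_lit 292) (nat_lit 0) (cs (lf (nat_lit 29) (nat_lit 225)) (nd (nat_lit 203) (nat_lit 0) (cs (lf (nat_lit 28) (nat_lit 203)) (rf (nat_lit 2))))))))) q69549 (by decide +kernel)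
def q69552 : Q := Q.p (nat_lit 0x20000680000200001800000000000000000000000000000000000000000000000000) (nat_lit 0x8000000000000000d80006400001000000000000000000000000000000000000000000000) (nat_lit 5)
theorem c69552 : QOK q69552 := cut [q69550] ⟨c69550, trivial⟩ (nd (nat_lit 226) (nat_lit 0) (cs (lf (nat_lit 30) (nat_lit 203)) (nd (nat_lit 180) (nat_lit 0) (cs (lf (nat_lit 46) (nat_lit 180)) (rf (nat_lit 0)))))) q69552 (by decide +kernel)
def q69603 : Q := Q.p (nat_lit 0x10000080000200000800000000000000000000000000000000000000000000000000) (nat_lit 0x4000000000000000700001c000050000000000000000000000000000000000) (nat_lit 5)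
theorem c69603 : QOK q69603 := cut [q41049] ⟨c41049, trivial⟩ (nd (nat_lit 181) (nat_lit 0) (cs (lf (nat_lit 40) (nat_lit 180)) (rf (nat_lit 0)))) q69603 (by decide +kernel)
def q69608 : Q := Q.p (nat_lit 0x680000300000800002000000000000000000000000000000000000000000000) (nat_lit 0xc0000040000400001c000070000040000000000000000000000000000) (nat_lit 6)
theorem c69608 : QOK q69608 := cut [q38327] ⟨c38327, trivial⟩ (nd (nat_lit 160) (nat_lit 0) (cs (lf (nat_lit 34) (nat_lit 159)) (nd (nat_lit 159) (nat_lit 0) (cs (lf (nat_lit 35) (nat_lit 137)) (nd (nat_lit 226) (nat_lit 0) (cs (rf (nat_lit 0)) (lf (nat_lit 3) (nat_lit 224)))))))) q69608 (by decide +kernel)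
def q69654 : Q := Q.p (nat_lit 0x80000300000800002000000000000000000000000000000000000000000000) (nat_lit 0x40000400001c000070000040000000000000000000000000000) (nat_lit 5)
theorem c69654 : QOK q69654 := cut [q27269] ⟨c27269, trivial⟩ (nd (nat_lit 160) (nat_lit 0) (cs (lf (nat_lit 34) (nat_lit 159)) (nd (nat_lit 159) (nat_lit 0) (cs (rf (nat_lit 0)) (lf (nat_lit 35) (nat_lit 137)))))) q69654 (by decide +kernel)
def q69709 : Q := Q.p (nat_lit 0x20000080000200000800000000000000000000000000000000000000000000000000) (nat_lit 0x100000c000010000000000100001400005000000000000000000000000000000000000000000000) (nat_lit 5)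
theorem c69709 : QOK q69709 := cut [q47084] ⟨c47084, trivial⟩ (nd (nat_lit 182) (nat_lit 0) (cs (lf (nat_lit 34) (nat_lit 181)) (nd (nat_lit 290) (nat_lit 0) (cs (lf (nat_lit 40) (nat_lit 202)) (rf (nat_lit 0)))))) q69709 (by decide +kernel)
def q69914 : Q := Q.p (nat_lit 0x20000080000200000800000000000000000000000000000000000000000000000000) (nat_lit 0x10000040000100000000000400003000004000000000000000000000000000000000000000) (nat_lit 4)
theorem c69914 : QOK q69914 := cut [q46797] ⟨c46797, trivial⟩ (nd (nat_lit 270) (nat_lit 0) (cs (lf (nat_lit 29) (nat_lit 203)) (rf (nat_lit 0)))) q69914 (by decide +kernel)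
def q69926 : Q := Q.p (nat_lit 0x20000680000200000000000000000000000000000000000000000000000000000000) (nat_lit 0x4000010000140000000000c00003000004000000000000000000000000000000000000000) (nat_lit 5)
theorem c69926 : QOK q69926 := cut [q45688] ⟨c45688, trivial⟩ (nd (nat_lit 268) (nat_lit 0) (cs (lf (nat_lit 8) (nat_lit 246)) (nd (nat_lit 203) (nat_lit 0) (cs (lf (nat_lit 41) (nat_lit 202)) (rf (nat_lit 0)))))) q69926 (by decide +kernel)
def q69947 : Q := Q.p (nat_lit 0x600000380000000000000000000000000000000000000000000000000000000) (nat_lit 0x38000c40000380000000000000000000000000000000000000000000000000) (nat_lit 5)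
theorem c69947 : QOK q69947 := cut [q69946] ⟨c69946, trivial⟩ (nd (nat_lit 226) (nat_lit 0) (cs (lf (nat_lit 3) (nat_lit 224)) (rf (nat_lit 0)))) q69947 (by decide +kernel)
def q69984 : Q := Q.p (nat_lit 0xc000030000080000200000000000000000000000000000000000000000000000000000000) (nat_lit 0x2800003800040000040000100000400000000000000000000000000000000000000000000000000) (nat_lit 5)
theorem c69984 : QOK q69984 := cut [q69595] ⟨c69595, trivial⟩ (nd (nat_lit 224) (nat_lit 0) (cs (lf (nat_lit 47) (nat_lit 202)) (nd (nat_lit 246) (nat_lit 0) (cs (lf (nat_lit 42) (nat_lit 224)) (rf (nat_lit 0)))))) q69984 (by decide +kernel)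
def q69997 : Q := Q.p (nat_lit 0x20000680000200000000000000000000000000000000000000000000000000000000) (nat_lit 0x10000040000100000180007c00007000014000000000000000000000000000000000000000) (nat_lit 6)
theorem c69997 : QOK q69997 := cut [q45760, q49412, q47014] ⟨c45760, c49412, c47014, trivial⟩ (nd (nat_lit 203) (nat_lit 0) (cs (rf (nat_lit 0)) (cs (nd (nat_lit 224) (nat_lit 0) (cs (lf (nat_lit 20) (nat_lit 224)) (nd (nat_lit 202) (nat_lit 0) (cs (lf (nat_lit 47) (nat_lit 180)) (rf (nat_lit 1)))))) (nd (nat_lit 270) (nat_lit 0) (cs (lf (nat_lit 29) (nat_lit 203)) (rf (nat_lit 2))))))) q69997 (by decide +kernel)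
def q70003 : Q := Q.p (nat_lit 0x20000680000200000000000000000000000000000000000000000000000000000000) (nat_lit 0x8000000000140000100000400001000004000000000000000000000000000000000000000) (nat_lit 4)
theorem c70003 : QOK q70003 := cut [q45697] ⟨c45697, trivial⟩ (nd (nat_lit 224) (nat_lit 0) (cs (rf (nat_lit 0)) (lf (nat_lit 20) (nat_lit 224)))) q70003 (by decide +kernel)
def q70070 : Q := Q.p (nat_lit 0x800002000068000c000000000000000000000000000000000000000000000000000000000) (nat_lit 0x100004c000170001de00077c0005c0001780031e0000500000400000000000000000000000000000000000000000000) (nat_lit 10)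
theorem c70070 : QOK q70070 := cut [q70007, q69594, q69568, q70015, q68309, q70026, q70027, q70032, q70040, q70044, q70049] ⟨c70007, c69594, c69568, c70015, c68309, c70026, c70027, c70032, c70040, c70044, c70049, trivial⟩ (nd (nat_lit 268) (nat_lit 0) (cs (lf (nat_lit 8) (nat_lit 246)) (nd (nat_lit 292) (nat_lit 0) (cs (rf (nat_lit 0)) (cs (nd (nat_lit 290) (nat_lit 0) (cs (nd (nat_lit 312) (nat_lit 0) (cs (lf (nat_lit 30) (nat_lit 246)) (nd (nat_lit 293) (nat_lit 0) (cs (lf (nat_lit 11) (nat_lit 289)) (lf (nat_lit 18) (nat_lit 268)))))) (cs (nd (nat_lit 228) (nat_lit 0) (cs (lf (nat_lit 8) (nat_lit 227)) (nd (nat_lit 293) (nat_lit 0) (cs (lf (nat_lit 18) (nat_lit 268)) (nd (nat_lit 315) (nat_lit 0) (cs (lf (nat_lit 5) (nat_lit 290)) (nd (nat_lit 289) (nat_lit 0) (cs (lf (nat_lit 4) (nat_lit 289)) (rf (nat_lit 1)))))))))) (nd (nat_lit 289) (nat_lit 0) (cs (rf (nat_lit 2)) (cs (rf (nat_lit 3)) (nd (nat_lit 314) (nat_lit 0) (cs (lf (nat_lit 5) (nat_lit 289)) (nd (nat_lit 336) (nat_lit 0) (cs (lf (nat_lit 42) (nat_lit 269))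 (nd (nat_lit 288) (nat_lit 0) (cs (lf (nat_lit 12) (nat_lit 265)) (rf (nat_lit 4)))))))))))))) (cs (nd (nat_lit 267) (nat_lit 0) (cs (lf (nat_lit 0) (nat_lit 266)) (nd (nat_lit 289) (nat_lit 0) (cs (rf (nat_lit 5)) (cs (nd (nat_lit 245) (nat_lit 0) (cs (rf (nat_lit 6)) (cs (nd (nat_lit 288) (nat_lit 0) (cs (lf (nat_lit 6) (nat_lit 266)) (nd (nat_lit 286) (nat_lit 0) (cs (rf (nat_lit 7)) (lf (nat_lit 13) (nat_lit 264)))))) (rf (nat_lit 8))))) (cs (nd (nat_lit 311) (nat_lit 0) (cs (nd (nat_lit 228) (nat_lit 0) (cs (lf (nat_lit 8) (nat_lit 227)) (rf (nat_lit 9)))) (cs (rf (nat_lit 10)) (nd (nat_lit 290) (nat_lit 0) (cs (lf (nat_lit 11) (nat_lit 288)) (nd (nat_lit 312) (nat_lit 0) (cs (lf (nat_lit 30) (nat_lit 246)) (nd (nat_lit 245) (nat_lit 0) (cs (lf (nat_lit 24) (nat_lit 223)) (nd (nat_lit 244) (nat_lit 0) (cs (lf (nat_lit 18) (nat_lit 244)) (lf (nat_lit 47) (nat_lit 222))))))))))))) (nd (nat_lit 311) (nat_lit 0) (cs (rf (nat_lit 9)) (cs (rf (nat_lit 10)) (nd (nat_lit 228) (nat_lit 0) (cs (lf (nat_lit 8) (nat_lit 227))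 (nd (nat_lit 310) (nat_lit 0) (cs (nd (nat_lit 332) (nat_lit 0) (cs (nd (nat_lit 354) (nat_lit 0) (cs (lf (nat_lit 30) (nat_lit 288)) (lf (nat_lit 33) (nat_lit 266)))) (lf (nat_lit 36) (nat_lit 244)))) (lf (nat_lit 8) (nat_lit 288))))))))))))))) (nd (nat_lit 228) (nat_lit 0) (cs (lf (nat_lit 8) (nat_lit 227)) (nd (nat_lit 293) (nat_lit 0) (cs (lf (nat_lit 18) (nat_lit 268)) (nd (nat_lit 267) (nat_lit 0) (cs (lf (nat_lit 3) (nat_lit 267)) (lf (nat_lit 0) (nat_lit 266)))))))))))))) q70070 (by decide +kernel)
def q70101 : Q := Q.p (nat_lit 0x200000800002000068000c000000000000000000000000000000000000000000000000000000000) (nat_lit 0x500001c00005000000000000000000003000000000000000000000000000000000000000000000000000000000) (nat_lit 5)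
theorem c70101 : QOK q70101 := cut [q70100] ⟨c70100, trivial⟩ (nd (nat_lit 228) (nat_lit 0) (cs (lf (nat_lit 8) (nat_lit 227)) (rf (nat_lit 0)))) q70101 (by decide +kernel)
def q70128 : Q := Q.p (nat_lit 0x8000020000680000000000000000000000000000000000000000000000000000000000000) (nat_lit 0x2000000000050000100000400001000004000000000000000000000000000000000000000000000) (nat_lit 4)
theorem c70128 : QOK q70128 := cut [q45489] ⟨c45489, trivial⟩ (nd (nat_lit 248) (nat_lit 0) (cs (lf (nat_lit 11) (nat_lit 246)) (rf (nat_lit 0)))) q70128 (by decide +kernel)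
def q70143 : Q := Q.p (nat_lit 0x1800002000068000c000000000000000000000000000000000000000000000000000000000) (nat_lit 0x6400001c000100003000000000000000000000000000000000000000000000000000000000) (nat_lit 5)
theorem c70143 : QOK q70143 := cut [q70007] ⟨c70007, trivial⟩ (nd (nat_lit 228) (nat_lit 0) (cs (lf (nat_lit 8) (nat_lit 227)) (nd (nat_lit 268) (nat_lit 0) (cs (lf (nat_lit 8) (nat_lit 246)) (rf (nat_lit 0)))))) q70143 (by decide +kernel)
def q70144 : Q := Q.p (nat_lit 0x18000020000080000000000000000000000000000000000000000000000000000000000000) (nat_lit 0x4000000000040000000000600001800004000000000000000000000000000000000000000000000) (nat_lit 4)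
theorem c70144 : QOK q70144 := cut [q70139] ⟨c70139, trivial⟩ (nd (nat_lit 225) (nat_lit 0) (cs (lf (nat_lit 29) (nat_lit 225)) (rf (nat_lit 0)))) q70144 (by decide +kernel)
def q70151 : Q := Q.p (nat_lit 0x200000800002000068000c000000000000000000000000000000000000000000000000000000000) (nat_lit 0x100000700001c00001000004000010000040003000000000000000000000000000000000000000000000000000000000) (nat_lit 7)
theorem c70151 : QOK q70151 := cut [q48906] ⟨c48906, trivial⟩ (nd (nat_lit 228) (nat_lit 0) (cs (lf (nat_lit 8) (nat_lit 227)) (rf (nat_lit 0)))) q70151 (by decide +kernel)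
def q70155 : Q := Q.p (nat_lit 0x2000008000020000080000000000000000000000000000000000000000000000000000000000000) (nat_lit 0x400005000014000040000000000600001800004000000000000000000000000000000000000000000000) (nat_lit 6)
theorem c70155 : QOK q70155 := cut [q70153] ⟨c70153, trivial⟩ (nd (nat_lit 312) (nat_lit 0) (cs (lf (nat_lit 41) (nat_lit 246)) (nd (nat_lit 225) (nat_lit 0) (cs (lf (nat_lit 40) (nat_lit 224)) (rf (nat_lit 0)))))) q70155 (by decide +kernel)
def q70161 : Q := Q.p (nat_lit 0x6000008000020000180000000000000000000000000000000000000000000000000000000000000) (nat_lit 0x2800018000016000040000000000200000000000000000000000000000000000000000000000000000000) (nat_lit 5)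
theorem c70161 : QOK q70161 := cut [q63340] ⟨c63340, trivial⟩ (nd (nat_lit 292) (nat_lit 0) (cs (lf (nat_lit 24) (nat_lit 225)) (nd (nat_lit 270) (nat_lit 0) (cs (lf (nat_lit 41) (nat_lit 247)) (rf (nat_lit 0)))))) q70161 (by decide +kernel)
def q70218 : Q := Q.p (nat_lit 0x7c0000000000000000000000000000000000000000000000000000000000000) (nat_lit 0x1000004000030e000030001ce0000000000000000000000000000000000000000000000000000000) (nat_lit 8)
theorem c70218 : QOK q70218 := cut [q50417] ⟨c50417, trivial⟩ (nd (nat_lit 227) (nat_lit 0) (cs (lf (nat_lit 17) (nat_lit 224)) (nd (nat_lit 245) (nat_lit 0) (cs (lf (nat_lit 16) (nat_lit 223)) (nd (nat_lit 272) (nat_lit 0) (cs (lf (nat_lit 5) (nat_lit 247)) (nd (nat_lit 294) (nat_lit 0) (cs (lf (nat_lit 42) (nat_lit 227)) (rf (nat_lit 0)))))))))) q70218 (by decide +kernel)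
def q70253 : Q := Q.p (nat_lit 0x40000180000600000000000000000000000000000000000000000000000000000000000000) (nat_lit 0xe0000f8000030000000000000001000000000000000000000000000000000000000000000000000000000) (nat_lit 6)
theorem c70253 : QOK q70253 := cut [q60108] ⟨c60108, trivial⟩ (nd (nat_lit 316) (nat_lit 0) (cs (lf (nat_lit 42) (nat_lit 249)) (nd (nat_lit 315) (nat_lit 0) (cs (lf (nat_lit 41) (nat_lit 249)) (nd (nat_lit 293) (nat_lit 0) (cs (lf (nat_lit 35) (nat_lit 227)) (rf (nat_lit 0)))))))) q70253 (by decide +kernel)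
def q70258 : Q := Q.p (nat_lit 0x9c0000600000000000000000000000000000000000000000000000000000000000000) (nat_lit 0x1c000630000000000000000000000000000000000000000000000000000000000000000000) (nat_lit 4)
theorem c70258 : QOK q70258 := cut [q61547] ⟨c61547, trivial⟩ (nd (nat_lit 269) (nat_lit 0) (cs (lf (nat_lit 12) (nat_lit 246)) (rf (nat_lit 0)))) q70258 (by decide +kernel)
def q70267 : Q := Q.p (nat_lit 0x280001a0000480000000000000000000000000000000000000000000000000000000000000) (nat_lit 0x500001c00007000000000000000040001700007c00004000000000000000000000000000000000000000000000) (nat_lit 7)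
theorem c70267 : QOK q70267 := cut [q70100, q65744] ⟨c70100, c65744, trivial⟩ (nd (nat_lit 313) (nat_lit 0) (cs (rf (nat_lit 0)) (nd (nat_lit 224) (nat_lit 0) (cs (lf (nat_lit 46) (nat_lit 224)) (nd (nat_lit 206) (nat_lit 0) (cs (lf (nat_lit 37) (nat_lit 205)) (nd (nat_lit 225) (nat_lit 0) (cs (lf (nat_lit 47) (nat_lit 202)) (rf (nat_lit 1)))))))))) q70267 (by decide +kernel)
def q70268 : Q := Q.p (nat_lit 0x280001a0000080000000000000000000000000000000000000000000000000000000000000) (nat_lit 0x1000014000010000000000600001800004000000000000000000000000000000000000000000000) (nat_lit 5)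
theorem c70268 : QOK q70268 := cut [q48700] ⟨c48700, trivial⟩ (nd (nat_lit 290) (nat_lit 0) (cs (rf (nat_lit 0)) (lf (nat_lit 14) (nat_lit 268)))) q70268 (by decide +kernel)
def q70272 : Q := Q.p (nat_lit 0x280001a0000600000000000000000000000000000000000000000000000000000000000000) (nat_lit 0x4000030000054000010000000001000004000000000000000000000000000000000000000000000000000) (nat_lit 5)
theorem c70272 : QOK q70272 := cut [q70270] ⟨c70270, trivial⟩ (nd (nat_lit 292) (nat_lit 0) (cs (lf (nat_lit 12) (nat_lit 268)) (nd (nat_lit 206) (nat_lit 0) (cs (lf (nat_lit 37) (nat_lit 205)) (rf (nat_lit 0)))))) q70272 (by decide +kernel)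
def q70293 : Q := Q.p (nat_lit 0x1a0000680000000000000000000000000000000000000000000000000000000000000) (nat_lit 0xe0000380000fc000040000040001000000000000000000000000000000000000000000000000000000000) (nat_lit 8)
theorem c70293 : QOK q70293 := cut [q70292] ⟨c70292, trivial⟩ (nd (nat_lit 270) (nat_lit 0) (cs (lf (nat_lit 23) (nat_lit 246)) (rf (nat_lit 0)))) q70293 (by decide +kernel)
def q70295 : Q := Q.p (nat_lit 0x1a0000600000000000000000000000000000000000000000000000000000000000000) (nat_lit 0xe0000380000fc000050000000001000000000000000000000000000000000000000000000000000000000) (nat_lit 8)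
theorem c70295 : QOK q70295 := cut [q70292] ⟨c70292, trivial⟩ (nd (nat_lit 270) (nat_lit 0) (cs (lf (nat_lit 12) (nat_lit 246)) (rf (nat_lit 0)))) q70295 (by decide +kernel)
def q70298 : Q := Q.p (nat_lit 0x1a0000680000000000000000000000000000000000000000000000000000000000000) (nat_lit 0x20000010000100003000004000010000000000000000000000000000000000000000000000) (nat_lit 4)
theorem c70298 : QOK q70298 := cut [q52053] ⟨c52053, trivial⟩ (nd (nat_lit 248) (nat_lit 0) (cs (lf (nat_lit 11) (nat_lit 246)) (rf (nat_lit 0)))) q70298 (by decide +kernel)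
def q70315 : Q := Q.p (nat_lit 0x60000180000600000000000000000000000000000000000000000000000000000000000000) (nat_lit 0xe000078000018000000000000000000000000000000000000000000000000000000000000000000000000) (nat_lit 5)
theorem c70315 : QOK q70315 := cut [q45169] ⟨c45169, trivial⟩ (nd (nat_lit 316) (nat_lit 0) (cs (lf (nat_lit 42) (nat_lit 249)) (nd (nat_lit 315) (nat_lit 0) (cs (lf (nat_lit 30) (nat_lit 249)) (rf (nat_lit 0)))))) q70315 (by decide +kernel)
def q70336 : Q := Q.p (nat_lit 0x40000980002600000000010000040000000000000000000000000000000000000000000000) (nat_lit 0xc0000300000a0000000001000005000004000010000000000000000000000000000000000000000000000) (nat_lit 6)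
theorem c70336 : QOK q70336 := cut [q65631] ⟨c65631, trivial⟩ (nd (nat_lit 316) (nat_lit 0) (cs (lf (nat_lit 42) (nat_lit 249)) (nd (nat_lit 230) (nat_lit 0) (cs (lf (nat_lit 27) (nat_lit 186)) (rf (nat_lit 0)))))) q70336 (by decide +kernel)
def q70337 : Q := Q.p (nat_lit 0x60000980000400000000000000000000000000000000000000000000000000000000000000) (nat_lit 0x20000180000600000000001000004000000000000000000000000000000000000000000000000000) (nat_lit 4)
theorem c70337 : QOK q70337 := cut [q65636] ⟨c65636, trivial⟩ (nd (nat_lit 274) (nat_lit 0) (cs (lf (nat_lit 8) (nat_lit 271)) (rf (nat_lit 0)))) q70337 (by decide +kernel)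
def q70349 : Q := Q.p (nat_lit 0x180000780000000000000000000000000000000000000000000000000000000000000) (nat_lit 0x20000000000000003300004000010000000000000000000000000000000000000000000000) (nat_lit 4)
theorem c70349 : QOK q70349 := cut [q52053] ⟨c52053, trivial⟩ (nd (nat_lit 224) (nat_lit 0) (cs (lf (nat_lit 22) (nat_lit 224)) (rf (nat_lit 0)))) q70349 (by decide +kernel)
def q70378 : Q := Q.p (nat_lit 0x9a0000600000000000000000000000000000000000000000000000000000000000000) (nat_lit 0x1c000650000000000000000000000000000000000000000000000000000000000000000000) (nat_lit 4)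
theorem c70378 : QOK q70378 := cut [q69257] ⟨c69257, trivial⟩ (nd (nat_lit 273) (nat_lit 0) (cs (lf (nat_lit 19) (nat_lit 249)) (rf (nat_lit 0)))) q70378 (by decide +kernel)
def q70395 : Q := Q.p (nat_lit 0xbc0002600000000010000040000000000000000000000000000000000000000000000) (nat_lit 0x1c000030001000004000000000000000000000000000000000000000000000000000000000) (nat_lit 4)
theorem c70395 : QOK q70395 := cut [q61291] ⟨c61291, trivial⟩ (nd (nat_lit 230) (nat_lit 0) (cs (lf (nat_lit 27) (nat_lit 186)) (rf (nat_lit 0)))) q70395 (by decide +kernel)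
def q70408 : Q := Q.p (nat_lit 0x8000020000980002600000000010000040000000000000000000000000000000000000000000000) (nat_lit 0x1000004000000000600001180004400000000000000000000000000000000000000000000000000000000) (nat_lit 5)
theorem c70408 : QOK q70408 := cut [q60772] ⟨c60772, trivial⟩ (nd (nat_lit 314) (nat_lit 0) (cs (lf (nat_lit 41) (nat_lit 248)) (nd (nat_lit 230) (nat_lit 0) (cs (lf (nat_lit 27) (nat_lit 186)) (rf (nat_lit 0)))))) q70408 (by decide +kernel)
def q70423 : Q := Q.p (nat_lit 0x60000980002600000000010000040000000000000000000000000000000000000000000000) (nat_lit 0x300000f0001800002000011c0004400000000000000000000000000000000000000000000000000000000) (nat_lit 8)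
theorem c70423 : QOK q70423 := cut [q40969] ⟨c40969, trivial⟩ (nd (nat_lit 230) (nat_lit 0) (cs (lf (nat_lit 27) (nat_lit 186)) (nd (nat_lit 315) (nat_lit 0) (cs (lf (nat_lit 30) (nat_lit 249)) (nd (nat_lit 314) (nat_lit 0) (cs (lf (nat_lit 41) (nat_lit 248)) (nd (nat_lit 312) (nat_lit 0) (cs (lf (nat_lit 13) (nat_lit 290)) (nd (nat_lit 295) (nat_lit 0) (cs (rf (nat_lit 0)) (lf (nat_lit 6) (nat_lit 292)))))))))))) q70423 (by decide +kernel)
def q70425 : Q := Q.p (nat_lit 0x60000380000600000000000000000000000000000000000000000000000000000000000000) (nat_lit 0xc0000f0000098000000000000000000000000000000000000000000000000000000000000000000000000) (nat_lit 5)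
theorem c70425 : QOK q70425 := cut [q65642] ⟨c65642, trivial⟩ (nd (nat_lit 292) (nat_lit 0) (cs (lf (nat_lit 12) (nat_lit 269)) (rf (nat_lit 0)))) q70425 (by decide +kernel)
def q70456 : Q := Q.p (nat_lit 0x1e0000280000000000000000000000000000000000000000000000000000000000000) (nat_lit 0x40000140000dc000200000000000200000800000000000000000000000000000000000000000000000000) (nat_lit 6)
theorem c70456 : QOK q70456 := cut [q70453] ⟨c70453, trivial⟩ (nd (nat_lit 294) (nat_lit 0) (cs (lf (nat_lit 5) (nat_lit 269)) (nd (nat_lit 291) (nat_lit 0) (cs (lf (nat_lit 11) (nat_lit 268)) (nd (nat_lit 316) (nat_lit 0) (cs (lf (nat_lit 42) (nat_lit 249)) (rf (nat_lit 0)))))))) q70456 (by decide +kernel)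
def q70459 : Q := Q.p (nat_lit 0x120000680000000000000000000000000000000000000000000000000000000000000) (nat_lit 0x90000140000380000000000000000000000000000000000000000000000000000000) (nat_lit 4)
theorem c70459 : QOK q70459 := cut [q44584] ⟨c44584, trivial⟩ (nd (nat_lit 248) (nat_lit 0) (cs (lf (nat_lit 11) (nat_lit 246)) (rf (nat_lit 0)))) q70459 (by decide +kernel)
def q70464 : Q := Q.p (nat_lit 0xc000020000080000000000000000000000000000000000000000000000000000000000000) (nat_lit 0x1000000000000000000000700001c00005000000000000000000000000000000000000000000000) (nat_lit 5)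
theorem c70464 : QOK q70464 := cut [q46785] ⟨c46785, trivial⟩ (nd (nat_lit 225) (nat_lit 0) (cs (lf (nat_lit 41) (nat_lit 224)) (rf (nat_lit 0)))) q70464 (by decide +kernel)
def q70469 : Q := Q.p (nat_lit 0x28000980002200000000010000040000000000000000000000000000000000000000000000) (nat_lit 0x4000030000054000200001000004000000000000000000000000000000000000000000000000000000000) (nat_lit 5)
theorem c70469 : QOK q70469 := cut [q70468] ⟨c70468, trivial⟩ (nd (nat_lit 230) (nat_lit 0) (cs (lf (nat_lit 27) (nat_lit 186)) (rf (nat_lit 0)))) q70469 (by decide +kernel)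
def q70499 : Q := Q.p (nat_lit 0x9a0002080000000010000040000000000000000000000000000000000000000000000) (nat_lit 0x400001c000240001040004200000800000000000000000000000000000000000000000000000000) (nat_lit 6)
theorem c70499 : QOK q70499 := cut [q70453] ⟨c70453, trivial⟩ (nd (nat_lit 230) (nat_lit 0) (cs (lf (nat_lit 27) (nat_lit 186)) (nd (nat_lit 270) (nat_lit 0) (cs (lf (nat_lit 23) (nat_lit 246)) (nd (nat_lit 291) (nat_lit 0) (cs (lf (nat_lit 11) (nat_lit 268)) (rf (nat_lit 0)))))))) q70499 (by decide +kernel)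
def q70502 : Q := Q.p (nat_lit 0x8000820002180000000010000040000000000000000000000000000000000000000000000) (nat_lit 0x2000000000040001000004400001000004000000000000000000000000000000000000000000000) (nat_lit 4)
theorem c70502 : QOK q70502 := cut [q45489] ⟨c45489, trivial⟩ (nd (nat_lit 230) (nat_lit 0) (cs (lf (nat_lit 27) (nat_lit 186)) (rf (nat_lit 0)))) q70502 (by decide +kernel)
def q70503 : Q := Q.p (nat_lit 0x8000820002780000000010000040000000000000000000000000000000000000000000000) (nat_lit 0x10000040001000004700001800006000000000000000000000000000000000000000000000) (nat_lit 6)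
theorem c70503 : QOK q70503 := cut [q70186] ⟨c70186, trivial⟩ (nd (nat_lit 230) (nat_lit 0) (cs (lf (nat_lit 27) (nat_lit 186)) (rf (nat_lit 0)))) q70503 (by decide +kernel)
def q70521 : Q := Q.p (nat_lit 0x8000820002180000000010000040000000000000000000000000000000000000000000000) (nat_lit 0x500001c00007000000000000001000004400000000000000000000000000000000000000000000000000000000) (nat_lit 6)
theorem c70521 : QOK q70521 := cut [q70100] ⟨c70100, trivial⟩ (nd (nat_lit 230) (nat_lit 0) (cs (lf (nat_lit 27) (nat_lit 186)) (nd (nat_lit 313) (nat_lit 0) (cs (lf (nat_lit 35) (nat_lit 225)) (rf (nat_lit 0)))))) q70521 (by decide +kernel)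
def q70551 : Q := Q.p (nat_lit 0x8000820002080000200010000040000000000000000000000000000000000000000000000) (nat_lit 0x1400007000014000000001000004000000000000000000000000000000000000000000000000000000000) (nat_lit 5)
theorem c70551 : QOK q70551 := cut [q47098] ⟨c47098, trivial⟩ (nd (nat_lit 314) (nat_lit 0) (cs (lf (nat_lit 28) (nat_lit 225)) (nd (nat_lit 230) (nat_lit 0) (cs (lf (nat_lit 27) (nat_lit 186)) (rf (nat_lit 0)))))) q70551 (by decide +kernel)
def q70553 : Q := Q.p (nat_lit 0x8000020000080000200000000000000000000000000000000000000000000000000000000) (nat_lit 0x400003000004000000000040000500001400000000000000000000000000000000000000000000000000) (nat_lit 5)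
theorem c70553 : QOK q70553 := cut [q48737] ⟨c48737, trivial⟩ (nd (nat_lit 312) (nat_lit 0) (cs (lf (nat_lit 40) (nat_lit 224)) (nd (nat_lit 204) (nat_lit 0) (cs (lf (nat_lit 34) (nat_lit 203)) (rf (nat_lit 0)))))) q70553 (by decide +kernel)
def q70559 : Q := Q.p (nat_lit 0x8000820002080000200010000040000000000000000000000000000000000000000000000) (nat_lit 0x4000010000040001000004400001800004000000000000000000000000000000000000000000000) (nat_lit 5)
theorem c70559 : QOK q70559 := cut [q59148] ⟨c59148, trivial⟩ (nd (nat_lit 230) (nat_lit 0) (cs (lf (nat_lit 27) (nat_lit 186)) (rf (nat_lit 0)))) q70559 (by decide +kernel)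
def q70565 : Q := Q.p (nat_lit 0x20000080000200000000000000000000000000000000000000000000000000000000) (nat_lit 0x1000006000018000040000040000500001c00005000000000000000000000000000000000000000000000) (nat_lit 5)
theorem c70565 : QOK q70565 := cut [q46785, q59148, q69576] ⟨c46785, c59148, c69576, trivial⟩ (nd (nat_lit 291) (nat_lit 0) (cs (rf (nat_lit 0)) (cs (rf (nat_lit 1)) (rf (nat_lit 2))))) q70565 (by decide +kernel)
def q70581 : Q := Q.p (nat_lit 0x8000820002080000000010000040000000000000000000000000000000000000000000000) (nat_lit 0x500001c00007000010000010001040004300000400000000000000000000000000000000000000000000000000) (nat_lit 6)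
theorem c70581 : QOK q70581 := cut [q48857, q70100, q70580] ⟨c48857, c70100, c70580, trivial⟩ (nd (nat_lit 313) (nat_lit 0) (cs (rf (nat_lit 0)) (cs (rf (nat_lit 1)) (rf (nat_lit 2))))) q70581 (by decide +kernel)
def q70597 : Q := Q.p (nat_lit 0x2000008000820002080000000010000040000000000000000000000000000000000000000000000) (nat_lit 0x400001800004000000000010001040004100000000000000000000000000000000000000000000000000000000) (nat_lit 5)
theorem c70597 : QOK q70597 := cut [q65753] ⟨c65753, trivial⟩ (nd (nat_lit 336) (nat_lit 0) (cs (lf (nat_lit 28) (nat_lit 247)) (nd (nat_lit 230) (nat_lit 0) (cs (lf (nat_lit 27) (nat_lit 186)) (rf (nat_lit 0)))))) q70597 (by decide +kernel)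
def q70604 : Q := Q.p (nat_lit 0x8000820002080000200010000040000000000000000000000000000000000000000000000) (nat_lit 0x4000014000010001040004400001c00007000004000000000000000000000000000000000000000) (nat_lit 8)
theorem c70604 : QOK q70604 := cut [q70600] ⟨c70600, trivial⟩ (nd (nat_lit 230) (nat_lit 0) (cs (lf (nat_lit 27) (nat_lit 186)) (nd (nat_lit 204) (nat_lit 0) (cs (lf (nat_lit 34) (nat_lit 203)) (nd (nat_lit 203) (nat_lit 0) (cs (lf (nat_lit 35) (nat_lit 181)) (nd (nat_lit 292) (nat_lit 0) (cs (lf (nat_lit 29) (nat_lit 225)) (rf (nat_lit 0)))))))))) q70604 (by decide +kernel)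
def q70610 : Q := Q.p (nat_lit 0x8000820002080000200010000040000000000000000000000000000000000000000000000) (nat_lit 0x800006000074000010001040004500001800006000000000000000000000000000000000000000000000) (nat_lit 9)
theorem c70610 : QOK q70610 := cut [q48780] ⟨c48780, trivial⟩ (nd (nat_lit 230) (nat_lit 0) (cs (lf (nat_lit 27) (nat_lit 186)) (nd (nat_lit 204) (nat_lit 0) (cs (lf (nat_lit 34) (nat_lit 203)) (nd (nat_lit 292) (nat_lit 0) (cs (lf (nat_lit 29) (nat_lit 225)) (nd (nat_lit 203) (nat_lit 0) (cs (lf (nat_lit 35) (nat_lit 181)) (nd (nat_lit 268) (nat_lit 0) (cs (lf (nat_lit 41) (nat_lit 202)) (nd (nat_lit 293) (nat_lit 0) (cs (rf (nat_lit 0)) (lf (nat_lit 18) (nat_lit 268)))))))))))))) q70610 (by decide +kernel)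
def q70613 : Q := Q.p (nat_lit 0x2000008000820002080000000010000040000000000000000000000000000000000000000000000) (nat_lit 0x100000700001c00001000004000010001040004000000000000000000000000000000000000000000000000000000000) (nat_lit 7)
theorem c70613 : QOK q70613 := cut [q48906] ⟨c48906, trivial⟩ (nd (nat_lit 230) (nat_lit 0) (cs (lf (nat_lit 27) (nat_lit 186)) (rf (nat_lit 0)))) q70613 (by decide +kernel)
def q70619 : Q := Q.p (nat_lit 0x2000008000820002080000000010000040000000000000000000000000000000000000000000000) (nat_lit 0x300000c0000500003400001c001040004200000800000000000000000000000000000000000000000000000000) (nat_lit 9)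
theorem c70619 : QOK q70619 := cut [q70614] ⟨c70614, trivial⟩ (nd (nat_lit 230) (nat_lit 0) (cs (lf (nat_lit 27) (nat_lit 186)) (nd (nat_lit 334) (nat_lit 0) (cs (lf (nat_lit 40) (nat_lit 246)) (nd (nat_lit 335) (nat_lit 0) (cs (lf (nat_lit 41) (nat_lit 268)) (nd (nat_lit 268) (nat_lit 0) (cs (lf (nat_lit 47) (nat_lit 246)) (nd (nat_lit 290) (nat_lit 0) (cs (lf (nat_lit 42) (nat_lit 268)) (rf (nat_lit 0)))))))))))) q70619 (by decide +kernel)
def q70625 : Q := Q.p (nat_lit 0x80000600001000030000040000000000000000000000000000000000000000000000) (nat_lit 0xc40000b8000000000000000000000000000000000000000000000) (nat_lit 4)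
theorem c70625 : QOK q70625 := cut [q56765] ⟨c56765, trivial⟩ (nd (nat_lit 184) (nat_lit 0) (cs (lf (nat_lit 37) (nat_lit 183)) (rf (nat_lit 0)))) q70625 (by decide +kernel)
def q70664 : Q := Q.p (nat_lit 0x1e0000600000000000000000000000000000000000000000000000000000000000000) (nat_lit 0x700003c0000dc0002000000c0000000000000000000000000000000000000000000000000000000000000) (nat_lit 8)
theorem c70664 : QOK q70664 := cut [q70663] ⟨c70663, trivial⟩ (nd (nat_lit 246) (nat_lit 0) (cs (lf (nat_lit 22) (nat_lit 246)) (rf (nat_lit 0)))) q70664 (by decide +kernel)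
def q70667 : Q := Q.p (nat_lit 0x180000680000000000000000000000000000000000000000000000000000000000000) (nat_lit 0x20000200000100003000004000010000000000000000000000000000000000000000000000) (nat_lit 4)
theorem c70667 : QOK q70667 := cut [q52053] ⟨c52053, trivial⟩ (nd (nat_lit 248) (nat_lit 0) (cs (lf (nat_lit 5) (nat_lit 247)) (rf (nat_lit 0)))) q70667 (by decide +kernel)
def q70692 : Q := Q.p (nat_lit 0x8000820002080000200010000040000000000000000000000000000000000000000000000) (nat_lit 0x5e0001780005f001060004500001400000000000000000000000000000000000000000000000000) (nat_lit 8)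
theorem c70692 : QOK q70692 := cut [q70541, q70546] ⟨c70541, c70546, trivial⟩ (nd (nat_lit 290) (nat_lit 0) (cs (lf (nat_lit 41) (nat_lit 224)) (nd (nat_lit 289) (nat_lit 0) (cs (rf (nat_lit 0)) (cs (rf (nat_lit 1)) (nd (nat_lit 224) (nat_lit 0) (cs (lf (nat_lit 47) (nat_lit 202)) (nd (nat_lit 292) (nat_lit 0) (cs (lf (nat_lit 29) (nat_lit 225)) (nd (nat_lit 311) (nat_lit 0) (cs (lf (nat_lit 11) (nat_lit 288)) (nd (nat_lit 267) (nat_lit 0) (cs (lf (nat_lit 23) (nat_lit 266)) (nd (nat_lit 246) (nat_lit 0) (cs (lf (nat_lit 33) (nat_lit 223)) (lf (nat_lit 38) (nat_lit 223))))))))))))))))) q70692 (by decide +kernel)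
def q70734 : Q := Q.p (nat_lit 0x4000830002080000000010000040000000000000000000000000000000000000000000000) (nat_lit 0x400001000000000000001040004200000800000000000000000000000000000000000000000000000000) (nat_lit 4)
theorem c70734 : QOK q70734 := cut [q70733] ⟨c70733, trivial⟩ (nd (nat_lit 230) (nat_lit 0) (cs (lf (nat_lit 27) (nat_lit 186)) (rf (nat_lit 0)))) q70734 (by decide +kernel)
def q70749 : Q := Q.p (nat_lit 0x4000830002080000000010000040000000000000000000000000000000000000000000000) (nat_lit 0x1e0000fe0003b000000001060004180000200000000000000000000000000000000000000000000000000) (nat_lit 8)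
theorem c70749 : QOK q70749 := cut [q50957, q70736, q70738, q51075] ⟨c50957, c70736, c70738, c51075, trivial⟩ (nd (nat_lit 312) (nat_lit 0) (cs (lf (nat_lit 30) (nat_lit 246)) (nd (nat_lit 246) (nat_lit 0) (cs (rf (nat_lit 0)) (cs (rf (nat_lit 1)) (nd (nat_lit 291) (nat_lit 0) (cs (nd (nat_lit 313) (nat_lit 0) (cs (lf (nat_lit 29) (nat_lit 246)) (rf (nat_lit 2)))) (cs (nd (nat_lit 313) (nat_lit 0) (cs (lf (nat_lit 42) (nat_lit 246)) (nd (nat_lit 314) (nat_lit 0) (cs (lf (nat_lit 29) (nat_lit 247)) (nd (nat_lit 311) (nat_lit 0) (cs (lf (nat_lit 41) (nat_lit 245)) (nd (nat_lit 292) (nat_lit 0) (cs (lf (nat_lit 12) (nat_lit 288)) (lf (nat_lit 6) (nat_lit 289)))))))))) (nd (nat_lit 230) (nat_lit 0) (cs (lf (nat_lit 27) (nat_lit 186)) (nd (nat_lit 311) (nat_lit 0) (cs (lf (nat_lit 41) (nat_lit 245)) (nd (nat_lit 292) (nat_lit 0) (cs (lf (nat_lit 6) (nat_lit 289)) (rf (nat_lit 3)))))))))))))))) q70749 (by decide +kernel)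
def q70780 : Q := Q.p (nat_lit 0x78000000000000000000000000000000000000000000000000000000000000000000) (nat_lit 0x500001c0000700001c0003f000000000070000180000400000000000000000000000000000000000000000000000000) (nat_lit 8)
theorem c70780 : QOK q70780 := cut [q70765, q70777] ⟨c70765, c70777, trivial⟩ (nd (nat_lit 289) (nat_lit 0) (cs (lf (nat_lit 11) (nat_lit 266)) (nd (nat_lit 311) (nat_lit 0) (cs (nd (nat_lit 292) (nat_lit 0) (cs (lf (nat_lit 5) (nat_lit 267)) (rf (nat_lit 0)))) (cs (nd (nat_lit 292) (nat_lit 0) (cs (lf (nat_lit 5) (nat_lit 267)) (nd (nat_lit 245) (nat_lit 0) (cs (lf (nat_lit 23) (nat_lit 244)) (nd (nat_lit 312) (nat_lit 0) (cs (lf (nat_lit 29) (nat_lit 245)) (nd (nat_lit 290) (nat_lit 0) (cs (lf (nat_lit 24) (nat_lit 223)) (nd (nat_lit 310) (nat_lit 0) (cs (lf (nat_lit 41) (nat_lit 244)) (lf (nat_lit 7) (nat_lit 288)))))))))))) (nd (nat_lit 244) (nat_lit 0) (cs (lf (nat_lit 22) (nat_lit 244)) (rf (nat_lit 1))))))))) q70780 (by decide +kernel)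
def q70864 : Q := Q.p (nat_lit 0x80009a0002280000000010000040000000000000000000000000000000000000000000000) (nat_lit 0x500001c00007000000000000001140004100000000000000000000000000000000000000000000000000000000) (nat_lit 7)
theorem c70864 : QOK q70864 := cut [q70100] ⟨c70100, trivial⟩ (nd (nat_lit 230) (nat_lit 0) (cs (lf (nat_lit 27) (nat_lit 186)) (nd (nat_lit 246) (nat_lit 0) (cs (lf (nat_lit 2) (nat_lit 246)) (nd (nat_lit 313) (nat_lit 0) (cs (lf (nat_lit 47) (nat_lit 224)) (rf (nat_lit 0)))))))) q70864 (by decide +kernel)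
def q70871 : Q := Q.p (nat_lit 0x80009a0002600000000010000040000000000000000000000000000000000000000000000) (nat_lit 0xe00003c0000f4000040001000004000000000000000000000000000000000000000000000000000000000) (nat_lit 8)
theorem c70871 : QOK q70871 := cut [q70854] ⟨c70854, trivial⟩ (nd (nat_lit 230) (nat_lit 0) (cs (lf (nat_lit 27) (nat_lit 186)) (nd (nat_lit 270) (nat_lit 0) (cs (lf (nat_lit 11) (nat_lit 268)) (rf (nat_lit 0)))))) q70871 (by decide +kernel)
def q70880 : Q := Q.p (nat_lit 0x1e0000600000000000000000000000000000000000000000000000000000000000000) (nat_lit 0xc8000320000dc0000000001c0003700005800012000000000000000000000000000000000000000000000) (nat_lit 10)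
theorem c70880 : QOK q70880 := cut [q46619, q47263, q47248] ⟨c46619, c47263, c47248, trivial⟩ (nd (nat_lit 248) (nat_lit 0) (cs (rf (nat_lit 0)) (cs (nd (nat_lit 247) (nat_lit 0) (cs (lf (nat_lit 23) (nat_lit 246)) (nd (nat_lit 294) (nat_lit 0) (cs (lf (nat_lit 5) (nat_lit 269)) (nd (nat_lit 316) (nat_lit 0) (cs (lf (nat_lit 42) (nat_lit 249)) (nd (nat_lit 228) (nat_lit 0) (cs (lf (nat_lit 17) (nat_lit 225)) (nd (nat_lit 184) (nat_lit 0) (cs (lf (nat_lit 37) (nat_lit 183)) (nd (nat_lit 317) (nat_lit 0) (cs (lf (nat_lit 29) (nat_lit 250)) (rf (nat_lit 1)))))))))))))) (nd (nat_lit 247) (nat_lit 0) (cs (lf (nat_lit 23) (nat_lit 246)) (rf (nat_lit 2))))))) q70880 (by decide +kernel)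
def q70892 : Q := Q.p (nat_lit 0x1e0000600000000000000000000000000000000000000000000000000000000000000) (nat_lit 0xe00003c0000fc000000000000000000000000000000000000000000000000000000000000000000000000) (nat_lit 7)
theorem c70892 : QOK q70892 := cut [q70854] ⟨c70854, trivial⟩ (nd (nat_lit 291) (nat_lit 0) (cs (lf (nat_lit 11) (nat_lit 268)) (rf (nat_lit 0)))) q70892 (by decide +kernel)
def q70914 : Q := Q.p (nat_lit 0x600001a0000600000000000000000000000000000000000000000000000000000000000000) (nat_lit 0xc00003000001c000050000000000000000000000000000000000000000000000000000000000000000000) (nat_lit 5)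
theorem c70914 : QOK q70914 := cut [q47213] ⟨c47213, trivial⟩ (nd (nat_lit 316) (nat_lit 0) (cs (lf (nat_lit 42) (nat_lit 249)) (nd (nat_lit 270) (nat_lit 0) (cs (lf (nat_lit 12) (nat_lit 246)) (rf (nat_lit 0)))))) q70914 (by decide +kernel)
def q70981 : Q := Q.p (nat_lit 0x8000020000680000000000000000000000000000000000000000000000000000000000000) (nat_lit 0x2000000000050000100003400001000004000000000000000000000000000000000000000000000) (nat_lit 5)
theorem c70981 : QOK q70981 := cut [q45489] ⟨c45489, trivial⟩ (nd (nat_lit 248) (nat_lit 0) (cs (lf (nat_lit 11) (nat_lit 246)) (nd (nat_lit 228) (nat_lit 0) (cs (lf (nat_lit 17) (nat_lit 225)) (rf (nat_lit 0)))))) q70981 (by decide +kernel)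
def q71019 : Q := Q.p (nat_lit 0x2000008000920002680008000010000040000000000000000000000000000000000000000000000) (nat_lit 0x740001d800077000000001040007100000000000000000000000000000000000000000000000000000000) (nat_lit 9)
theorem c71019 : QOK q71019 := cut [q70079, q70085] ⟨c70079, c70085, trivial⟩ (nd (nat_lit 314) (nat_lit 0) (cs (lf (nat_lit 29) (nat_lit 247)) (nd (nat_lit 315) (nat_lit 0) (cs (rf (nat_lit 0)) (cs (nd (nat_lit 230) (nat_lit 0) (cs (lf (nat_lit 27) (nat_lit 186)) (nd (nat_lit 228) (nat_lit 0) (cs (lf (nat_lit 8) (nat_lit 227)) (nd (nat_lit 293) (nat_lit 0) (cs (lf (nat_lit 39) (nat_lit 227)) (nd (nat_lit 312) (nat_lit 0) (cs (lf (nat_lit 41) (nat_lit 246)) (rf (nat_lit 1)))))))))) (nd (nat_lit 224) (nat_lit 0) (cs (lf (nat_lit 46) (nat_lit 224)) (nd (nat_lit 230) (nat_lit 0) (cs (lf (nat_lit 27) (nat_lit 186)) (nd (nat_lit 228) (nat_lit 0) (cs (lf (nat_lit 8) (nat_lit 227)) (nd (nat_lit 312) (nat_lit 0) (cs (lf (nat_lit 41) (nat_lit 246)) (nd (nat_lit 337) (nat_lit 0) (cs (lf (nat_lit 5) (nat_lit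 312)) (nd (nat_lit 294) (nat_lit 0) (cs (lf (nat_lit 39) (nat_lit 249)) (lf (nat_lit 16) (nat_lit 290))))))))))))))))))) q71019 (by decide +kernel)
def q71022 : Q := Q.p (nat_lit 0x2000008000020000080000000000000000000000000000000000000000000000000000000000000) (nat_lit 0x400001800004000000000040000100000400000000000000000000000000000000000000000000000000000000) (nat_lit 4)
theorem c71022 : QOK q71022 := cut [q70072] ⟨c70072, trivial⟩ (nd (nat_lit 336) (nat_lit 0) (cs (lf (nat_lit 28) (nat_lit 247)) (rf (nat_lit 0)))) q71022 (by decide +kernel)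
def q71034 : Q := Q.p (nat_lit 0x2000008000820002080000000010000040000000000000000000000000000000000000000000000) (nat_lit 0x1400005000014000000001000004200000000000000000000000000000000000000000000000000000000) (nat_lit 5)
theorem c71034 : QOK q71034 := cut [q49593] ⟨c49593, trivial⟩ (nd (nat_lit 230) (nat_lit 0) (cs (lf (nat_lit 27) (nat_lit 186)) (rf (nat_lit 0)))) q71034 (by decide +kernel)
def q71233 : Q := Q.p (nat_lit 0x3c000040000000000000000000000000000000000000000000000000000000000000) (nat_lit 0x2000018000002000080000100000400000000000000000000000000000000000000000000000000) (nat_lit 4)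
theorem c71233 : QOK q71233 := cut [q50876] ⟨c50876, trivial⟩ (nd (nat_lit 247) (nat_lit 0) (cs (lf (nat_lit 12) (nat_lit 243)) (rf (nat_lit 0)))) q71233 (by decide +kernel)
def q71321 : Q := Q.p (nat_lit 0x60000980000600000000000000000000000000000000000000000000000000000000000000) (nat_lit 0x300000e000198000600000000000000000000000000000000000000000000000000000000000000000000) (nat_lit 6)
theorem c71321 : QOK q71321 := cut [q64225] ⟨c64225, trivial⟩ (nd (nat_lit 273) (nat_lit 0) (cs (lf (nat_lit 7) (nat_lit 271)) (rf (nat_lit 0)))) q71321 (by decide +kernel)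
def q71352 : Q := Q.p (nat_lit 0x80000200009c0002600000000010000040000000000000000000000000000000000000000000000) (nat_lit 0x10000040000100000000001c0008700020000000000000000000000000000000000000000000000000000) (nat_lit 6)
theorem c71352 : QOK q71352 := cut [q46984] ⟨c46984, trivial⟩ (nd (nat_lit 314) (nat_lit 0) (cs (lf (nat_lit 41) (nat_lit 248)) (nd (nat_lit 248) (nat_lit 0) (cs (lf (nat_lit 47) (nat_lit 226)) (nd (nat_lit 209) (nat_lit 0) (cs (lf (nat_lit 44) (nat_lit 186)) (rf (nat_lit 0)))))))) q71352 (by decide +kernel)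
def q71454 : Q := Q.p (nat_lit 0x8000020000900000600000000000000000000000000000000000000000000000000000000000000) (nat_lit 0x15c0005e0006c0000180000400000000000000000000000000000000000000000000000000000000) (nat_lit 9)
theorem c71454 : QOK q71454 := cut [q60765] ⟨c60765, trivial⟩ (nd (nat_lit 273) (nat_lit 0) (cs (lf (nat_lit 19) (nat_lit 249)) (nd (nat_lit 248) (nat_lit 0) (cs (lf (nat_lit 0) (nat_lit 247)) (nd (nat_lit 226) (nat_lit 0) (cs (lf (nat_lit 44) (nat_lit 226)) (nd (nat_lit 292) (nat_lit 0) (cs (lf (nat_lit 26) (nat_lit 226)) (rf (nat_lit 0)))))))))) q71454 (by decide +kernel)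
def q71456 : Q := Q.p (nat_lit 0x8000020000900002400000000010000040000000000000000000000000000000000000000000000) (nat_lit 0x800002000010000040000080001000004000000000000000000000000000000000000000000000000000000000) (nat_lit 4)
theorem c71456 : QOK q71456 := cut [q60492] ⟨c60492, trivial⟩ (nd (nat_lit 230) (nat_lit 0) (cs (lf (nat_lit 27) (nat_lit 186)) (rf (nat_lit 0)))) q71456 (by decide +kernel)
def q71459 : Q := Q.p (nat_lit 0x60000900002600000000010000040000000000000000000000000000000000000000000000) (nat_lit 0x4000018000060000100000c000020000000000000000000000000000000000000000000000000000) (nat_lit 5)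
theorem c71459 : QOK q71459 := cut [q66972] ⟨c66972, trivial⟩ (nd (nat_lit 231) (nat_lit 0) (cs (lf (nat_lit 45) (nat_lit 186)) (nd (nat_lit 252) (nat_lit 0) (cs (lf (nat_lit 26) (nat_lit 186)) (rf (nat_lit 0)))))) q71459 (by decide +kernel)
def q71461 : Q := Q.p (nat_lit 0x70000900002000000000010000040000000000000000000000000000000000000000000000) (nat_lit 0x3800000c000238001000004000000000000000000000000000000000000000000000000000000000) (nat_lit 6)
theorem c71461 : QOK q71461 := cut [q61740] ⟨c61740, trivial⟩ (nd (nat_lit 230) (nat_lit 0) (cs (lf (nat_lit 27) (nat_lit 186)) (nd (nat_lit 291) (nat_lit 0) (cs (lf (nat_lit 17) (nat_lit 269)) (rf (nat_lit 0)))))) q71461 (by decide +kernel)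
def q71579 : Q := Q.p (nat_lit 0x70000900002600000000010000040000000000000000000000000000000000000000000000) (nat_lit 0x20000090000760001800000e0000000008000020000000000000000000000000000000000000000000000000000) (nat_lit 6)
theorem c71579 : QOK q71579 := cut [q65156, q71578] ⟨c65156, c71578, trivial⟩ (nd (nat_lit 295) (nat_lit 0) (cs (nd (nat_lit 209) (nat_lit 0) (cs (lf (nat_lit 44) (nat_lit 186)) (nd (nat_lit 314) (nat_lit 0) (cs (lf (nat_lit 11) (nat_lit 291)) (nd (nat_lit 270) (nat_lit 0) (cs (lf (nat_lit 23) (nat_lit 269)) (rf (nat_lit 0)))))))) (rf (nat_lit 1)))) q71579 (by decide +kernel)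
def q71620 : Q := Q.p (nat_lit 0x70000120000200000000000000000000000000000000000000000000000000000000000000) (nat_lit 0x400003000000c000090000000000000000000000000000000000000000000000000000000000000000000) (nat_lit 4)
theorem c71620 : QOK q71620 := cut [q71619] ⟨c71619, trivial⟩ (nd (nat_lit 291) (nat_lit 0) (cs (lf (nat_lit 23) (nat_lit 268)) (rf (nat_lit 0)))) q71620 (by decide +kernel)
def q71646 : Q := Q.p (nat_lit 0x60000980002600000000010000040000000000000000000000000000000000000000000000) (nat_lit 0xc0000f000010000060000100000c000020000000000000000000000000000000000000000000000000000) (nat_lit 7)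
theorem c71646 : QOK q71646 := cut [q71645] ⟨c71645, trivial⟩ (nd (nat_lit 274) (nat_lit 0) (cs (lf (nat_lit 20) (nat_lit 249)) (rf (nat_lit 0)))) q71646 (by decide +kernel)
def q71685 : Q := Q.p (nat_lit 0x8000020000080000100000000000000000000000000000000000000000000000000000000) (nat_lit 0x500001c00007000000000000000040000000000000000000000000000000000000000000000000000000000000) (nat_lit 5)
theorem c71685 : QOK q71685 := cut [q47291] ⟨c47291, trivial⟩ (nd (nat_lit 313) (nat_lit 0) (cs (lf (nat_lit 46) (nat_lit 224)) (rf (nat_lit 0)))) q71685 (by decide +kernel)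
def q71736 : Q := Q.p (nat_lit 0x60000900002400000000010000040000000000000000000000000000000000000000000000) (nat_lit 0x200000800007780019c0006f8001000004000000000000000000000000000000000000000000000000000000000) (nat_lit 10)
theorem c71736 : QOK q71736 := cut [q71471, q71590, q71578] ⟨c71471, c71590, c71578, trivial⟩ (nd (nat_lit 292) (nat_lit 0) (cs (rf (nat_lit 0)) (cs (rf (nat_lit 1)) (nd (nat_lit 230) (nat_lit 0) (cs (lf (nat_lit 27) (nat_lit 186)) (nd (nat_lit 274) (nat_lit 0) (cs (lf (nat_lit 8) (nat_lit 271)) (nd (nat_lit 295) (nat_lit 0) (cs (lf (nat_lit 15) (nat_lit 271)) (nd (nat_lit 269) (nat_lit 0) (cs (lf (nat_lit 22) (nat_lit 269)) (rf (nat_lit 2))))))))))))) q71736 (by decide +kernel)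
def q71796 : Q := Q.p (nat_lit 0x60000980002600000000010000040000000000000000000000000000000000000000000000) (nat_lit 0x3f0000fe000180000000001000004000000000000000000000000000000000000000000000000000000000) (nat_lit 9)
theorem c71796 : QOK q71796 := cut [q60056] ⟨c60056, trivial⟩ (nd (nat_lit 230) (nat_lit 0) (cs (lf (nat_lit 27) (nat_lit 186)) (nd (nat_lit 315) (nat_lit 0) (cs (lf (nat_lit 30) (nat_lit 249)) (nd (nat_lit 316) (nat_lit 0) (cs (lf (nat_lit 29) (nat_lit 249)) (nd (nat_lit 317) (nat_lit 0) (cs (lf (nat_lit 29) (nat_lit 250)) (nd (nat_lit 318) (nat_lit 0) (cs (lf (nat_lit 18) (nat_lit 293)) (nd (nat_lit 340) (nat_lit 0) (cs (lf (nat_lit 5) (nat_lit 315)) (rf (nat_lit 0)))))))))))))) q71796 (by decide +kernel)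
def q71799 : Q := Q.p (nat_lit 0x8000020000980002600000000010000040000000000000000000000000000000000000000000000) (nat_lit 0x2000011c0004400000000000000000000000000000000000000000000000000000000) (nat_lit 4)
theorem c71799 : QOK q71799 := cut [q40969] ⟨c40969, trivial⟩ (nd (nat_lit 230) (nat_lit 0) (cs (lf (nat_lit 27) (nat_lit 186)) (rf (nat_lit 0)))) q71799 (by decide +kernel)
def q71890 : Q := Q.p (nat_lit 0x60000980002600000000010000040000000000000000000000000000000000000000000000) (nat_lit 0xc0000f0000190000060001000004000000000000000000000000000000000000000000000000000000000) (nat_lit 7)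
theorem c71890 : QOK q71890 := cut [q71889] ⟨c71889, trivial⟩ (nd (nat_lit 230) (nat_lit 0) (cs (lf (nat_lit 27) (nat_lit 186)) (rf (nat_lit 0)))) q71890 (by decide +kernel)
def q72084 : Q := Q.p (nat_lit 0x8000030000900000600000000000000000000000000000000000000000000000000000000000000) (nat_lit 0x15c0004e000600000180000000000000000000000000000000000000000000000000000000000000) (nat_lit 7)
theorem c72084 : QOK q72084 := cut [q60765] ⟨c60765, trivial⟩ (nd (nat_lit 273) (nat_lit 0) (cs (lf (nat_lit 19) (nat_lit 249)) (nd (nat_lit 247) (nat_lit 0) (cs (lf (nat_lit 1) (nat_lit 247)) (rf (nat_lit 0)))))) q72084 (by decide +kernel)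
def q72093 : Q := Q.p (nat_lit 0x2000008000030000800002000000000010000040000000000000000000000000000000000000000000000) (nat_lit 0x800000000004000000000040001100004400000000000000000000000000000000000000000000000000000000) (nat_lit 4)
theorem c72093 : QOK q72093 := cut [q48137] ⟨c48137, trivial⟩ (nd (nat_lit 230) (nat_lit 0) (cs (lf (nat_lit 27) (nat_lit 186)) (rf (nat_lit 0)))) q72093 (by decide +kernel)
def q72104 : Q := Q.p (nat_lit 0x8000030000900002600000000010000040000000000000000000000000000000000000000000000) (nat_lit 0x15c0004e000600001000004000000000000000000000000000000000000000000000000000000000) (nat_lit 7)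
theorem c72104 : QOK q72104 := cut [q60765] ⟨c60765, trivial⟩ (nd (nat_lit 230) (nat_lit 0) (cs (lf (nat_lit 27) (nat_lit 186)) (nd (nat_lit 273) (nat_lit 0) (cs (lf (nat_lit 19) (nat_lit 249)) (rf (nat_lit 0)))))) q72104 (by decide +kernel)
def q72177 : Q := Q.p (nat_lit 0x8000020000880002200000000010000040000000000000000000000000000000000000000000000) (nat_lit 0x4000010000040000000001100004c00001000000000000000000000000000000000000000000000000000) (nat_lit 5)
theorem c72177 : QOK q72177 := cut [q67108] ⟨c67108, trivial⟩ (nd (nat_lit 230) (nat_lit 0) (cs (lf (nat_lit 27) (nat_lit 186)) (rf (nat_lit 0)))) q72177 (by decide +kernel)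
def q72184 : Q := Q.p (nat_lit 0x8000020000880000600000000000000000000000000000000000000000000000000000000000000) (nat_lit 0xf0000f60001c0000700000180000800000000000000000000000000000000000000000000000000000000) (nat_lit 10)
theorem c72184 : QOK q72184 := cut [q60056] ⟨c60056, trivial⟩ (nd (nat_lit 272) (nat_lit 0) (cs (lf (nat_lit 30) (nat_lit 249)) (nd (nat_lit 273) (nat_lit 0) (cs (lf (nat_lit 19) (nat_lit 249)) (nd (nat_lit 247) (nat_lit 0) (cs (lf (nat_lit 1) (nat_lit 247)) (nd (nat_lit 316) (nat_lit 0) (cs (lf (nat_lit 29) (nat_lit 249)) (nd (nat_lit 294) (nat_lit 0) (cs (lf (nat_lit 47) (nat_lit 227)) (nd (nat_lit 317) (nat_lit 0) (cs (lf (nat_lit 29) (nat_lit 250)) (nd (nat_lit 318) (nat_lit 0) (cs (lf (nat_lit 18) (nat_lit 293)) (rf (nat_lit 0)))))))))))))))) q72184 (by decide +kernel)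
def q72186 : Q := Q.p (nat_lit 0x8000020000880002200000000010000040000000000000000000000000000000000000000000000) (nat_lit 0x400007000014000000000040001100004400000000000000000000000000000000000000000000000000000000) (nat_lit 6)
theorem c72186 : QOK q72186 := cut [q67185] ⟨c67185, trivial⟩ (nd (nat_lit 230) (nat_lit 0) (cs (lf (nat_lit 27) (nat_lit 186)) (rf (nat_lit 0)))) q72186 (by decide +kernel)
def q72211 : Q := Q.p (nat_lit 0x9e0002600000000010000040000000000000000000000000000000000000000000000) (nat_lit 0x100000c0000000001000004800002000000000000000000000000000000000000000000000000000) (nat_lit 4)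
theorem c72211 : QOK q72211 := cut [q46562] ⟨c46562, trivial⟩ (nd (nat_lit 230) (nat_lit 0) (cs (lf (nat_lit 27) (nat_lit 186)) (rf (nat_lit 0)))) q72211 (by decide +kernel)
def q72215 : Q := Q.p (nat_lit 0x70000980002600000000010000040000000000000000000000000000000000000000000000) (nat_lit 0xc0000f0000080000000000000008000020000000000000000000000000000000000000000000000000000) (nat_lit 5)
theorem c72215 : QOK q72215 := cut [q65642] ⟨c65642, trivial⟩ (nd (nat_lit 209) (nat_lit 0) (cs (lf (nat_lit 44) (nat_lit 186)) (rf (nat_lit 0)))) q72215 (by decide +kernel)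
def q72324 : Q := Q.p (nat_lit 0x980002600000000010000040000000000000000000000000000000000000000000000) (nat_lit 0x700001c00007c0006700010c0004e0000700001c000000000000000000000000000000000000000000000) (nat_lit 12)
theorem c72324 : QOK q72324 := cut [q40946, q56550, q56552, q61671] ⟨c40946, c56550, c56552, c61671, trivial⟩ (nd (nat_lit 227) (nat_lit 0) (cs (rf (nat_lit 0)) (cs (nd (nat_lit 230) (nat_lit 0) (cs (lf (nat_lit 27) (nat_lit 186)) (nd (nat_lit 205) (nat_lit 0) (cs (lf (nat_lit 24) (nat_lit 183)) (nd (nat_lit 273) (nat_lit 0) (cs (lf (nat_lit 19) (nat_lit 249)) (nd (nat_lit 270) (nat_lit 0) (cs (lf (nat_lit 41) (nat_lit 204)) (nd (nat_lit 204) (nat_lit 0) (cs (lf (nat_lit 47) (nat_lit 182)) (nd (nat_lit 269) (nat_lit 0) (cs (lf (nat_lit 12) (nat_lit 246)) (nd (nat_lit 184) (nat_lit 0) (cs (lf (nat_lit 34) (nat_lit 183)) (nd (nat_lit 247) (nat_lit 0) (cs (lf (nat_lit 23) (nat_lit 246)) (nd (nat_lit 291) (nat_lit 0) (cs (lf (nat_lit 11) (nat_lit 268)) (nd (nat_lit 226) (nat_lit 0) (cs (lf (nat_lit 42) (nat_lit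 204)) (lf (nat_lit 33) (nat_lit 203)))))))))))))))))))))) (nd (nat_lit 293) (nat_lit 0) (cs (rf (nat_lit 1)) (cs (rf (nat_lit 2)) (nd (nat_lit 294) (nat_lit 0) (cs (lf (nat_lit 29) (nat_lit 227)) (rf (nat_lit 3)))))))))) q72324 (by decide +kernel)
def q72326 : Q := Q.p (nat_lit 0x9c0000600000000000000000000000000000000000000000000000000000000000000) (nat_lit 0x6300001c0000000000000000000000000000000000000000000000000000000000000) (nat_lit 4)
theorem c72326 : QOK q72326 := cut [q45731] ⟨c45731, trivial⟩ (nd (nat_lit 273) (nat_lit 0) (cs (lf (nat_lit 19) (nat_lit 249)) (rf (nat_lit 0)))) q72326 (by decide +kernel)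
def q72327 : Q := Q.p (nat_lit 0x9e0002600000000010000040000000000000000000000000000000000000000000000) (nat_lit 0x100000c0000000000000008800022000000000000000000000000000000000000000000000000000) (nat_lit 4)
theorem c72327 : QOK q72327 := cut [q46562] ⟨c46562, trivial⟩ (nd (nat_lit 209) (nat_lit 0) (cs (lf (nat_lit 44) (nat_lit 186)) (rf (nat_lit 0)))) q72327 (by decide +kernel)
def q72340 : Q := Q.p (nat_lit 0x20000880002300000000010000040000000000000000000000000000000000000000000000) (nat_lit 0x8000000000000001000004c00001000004000000000000000000000000000000000000000000000) (nat_lit 4)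
theorem c72340 : QOK q72340 := cut [q72339] ⟨c72339, trivial⟩ (nd (nat_lit 230) (nat_lit 0) (cs (lf (nat_lit 27) (nat_lit 186)) (rf (nat_lit 0)))) q72340 (by decide +kernel)
def q72341 : Q := Q.p (nat_lit 0x20000880002300000000010000040000000000000000000000000000000000000000000000) (nat_lit 0x8000000000040001000004400001000004000000000000000000000000000000000000000000000) (nat_lit 4)
theorem c72341 : QOK q72341 := cut [q54918] ⟨c54918, trivial⟩ (nd (nat_lit 230) (nat_lit 0) (cs (lf (nat_lit 27) (nat_lit 186)) (rf (nat_lit 0)))) q72341 (by decide +kernel)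
def q72350 : Q := Q.p (nat_lit 0x1a0000680000200001000000000000000000000000000000000000000000000000000) (nat_lit 0x40000000000000000800006c0000f000004000000000000000000000000000000000000000) (nat_lit 6)
theorem c72350 : QOK q72350 := cut [q47421] ⟨c47421, trivial⟩ (nd (nat_lit 203) (nat_lit 0) (cs (lf (nat_lit 35) (nat_lit 181)) (nd (nat_lit 180) (nat_lit 0) (cs (lf (nat_lit 46) (nat_lit 180)) (nd (nat_lit 181) (nat_lit 0) (cs (lf (nat_lit 47) (nat_lit 158)) (rf (nat_lit 0)))))))) q72350 (by decide +kernel)
def q72353 : Q := Q.p (nat_lit 0x880002300000000011000040000000000000000000000000000000000000000000000) (nat_lit 0x8000020000000001000004c00000000004000000000000000000000000000000000000000000000) (nat_lit 4)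
theorem c72353 : QOK q72353 := cut [q72352] ⟨c72352, trivial⟩ (nd (nat_lit 230) (nat_lit 0) (cs (lf (nat_lit 27) (nat_lit 186)) (rf (nat_lit 0)))) q72353 (by decide +kernel)
def q72367 : Q := Q.p (nat_lit 0x810002340000100010000040000000000000000000000000000000000000000000000) (nat_lit 0x20000080010a0004000000c00003000008000000000000000000000000000000000000000) (nat_lit 6)
theorem c72367 : QOK q72367 := cut [q72364] ⟨c72364, trivial⟩ (nd (nat_lit 230) (nat_lit 0) (cs (lf (nat_lit 27) (nat_lit 186)) (nd (nat_lit 267) (nat_lit 0) (cs (rf (nat_lit 0)) (lf (nat_lit 8) (nat_lit 245)))))) q72367 (by decide +kernel)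
def q72369 : Q := Q.p (nat_lit 0x810002340000100010000040000000000000000000000000000000000000000000000) (nat_lit 0x40000000010a0004080000200000800002000000000000000000000000000000000000000) (nat_lit 5)
theorem c72369 : QOK q72369 := cut [q51144] ⟨c51144, trivial⟩ (nd (nat_lit 230) (nat_lit 0) (cs (lf (nat_lit 27) (nat_lit 186)) (nd (nat_lit 223) (nat_lit 0) (cs (lf (nat_lit 20) (nat_lit 223)) (rf (nat_lit 0)))))) q72369 (by decide +kernel)
def q72373 : Q := Q.p (nat_lit 0x4000810002040000100010000040000000000000000000000000000000000000000000000) (nat_lit 0x800003000008000000001020004080000200000000000000000000000000000000000000000000000000) (nat_lit 5)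
theorem c72373 : QOK q72373 := cut [q72372] ⟨c72372, trivial⟩ (nd (nat_lit 230) (nat_lit 0) (cs (lf (nat_lit 27) (nat_lit 186)) (rf (nat_lit 0)))) q72373 (by decide +kernel)
def q72395 : Q := Q.p (nat_lit 0x80000700000100000000000000000000000000000000000000000000000000000000) (nat_lit 0x8000020000040000080000e00001000004000000000000000000000000000000000000000000000) (nat_lit 5)
theorem c72395 : QOK q72395 := cut [q63832] ⟨c63832, trivial⟩ (nd (nat_lit 225) (nat_lit 0) (cs (lf (nat_lit 21) (nat_lit 224)) (nd (nat_lit 226) (nat_lit 0) (cs (lf (nat_lit 3) (nat_lit 224)) (rf (nat_lit 0)))))) q72395 (by decide +kernel)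
def q72404 : Q := Q.p (nat_lit 0x80009a0002080000200010000040000000000000000000000000000000000000000000000) (nat_lit 0x5000034000000001000004000000000000000000000000000000000000000000000000000000000) (nat_lit 4)
theorem c72404 : QOK q72404 := cut [q48862] ⟨c48862, trivial⟩ (nd (nat_lit 230) (nat_lit 0) (cs (lf (nat_lit 27) (nat_lit 186)) (rf (nat_lit 0)))) q72404 (by decide +kernel)
def q72409 : Q := Q.p (nat_lit 0x8000820002780000000010000040000000000000000000000000000000000000000000000) (nat_lit 0x100001c00007000010000040001000004300000000000000000000000000000000000000000000000000000000) (nat_lit 7)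
theorem c72409 : QOK q72409 := cut [q59189] ⟨c59189, trivial⟩ (nd (nat_lit 225) (nat_lit 0) (cs (lf (nat_lit 23) (nat_lit 224)) (nd (nat_lit 230) (nat_lit 0) (cs (lf (nat_lit 27) (nat_lit 186)) (nd (nat_lit 314) (nat_lit 0) (cs (lf (nat_lit 28) (nat_lit 225)) (nd (nat_lit 313) (nat_lit 0) (cs (lf (nat_lit 29) (nat_lit 247)) (rf (nat_lit 0)))))))))) q72409 (by decide +kernel)
def q72476 : Q := Q.p (nat_lit 0x80000200000800002000000000000000000000000000000000000000000000000000) (nat_lit 0x10000060000100000000000400005000014000000000000000000000000000000000000000000000) (nat_lit 5)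
theorem c72476 : QOK q72476 := cut [q65837] ⟨c65837, trivial⟩ (nd (nat_lit 294) (nat_lit 0) (cs (lf (nat_lit 28) (nat_lit 205)) (nd (nat_lit 184) (nat_lit 0) (cs (lf (nat_lit 34) (nat_lit 183)) (rf (nat_lit 0)))))) q72476 (by decide +kernel)
def q72490 : Q := Q.p (nat_lit 0x20000080000200000800030000040000000000000000000000000000000000000000000000) (nat_lit 0x4000010000040000000000000006000038000040000000000000000000000000000000000000000) (nat_lit 5)
theorem c72490 : QOK q72490 := cut [q72489] ⟨c72489, trivial⟩ (nd (nat_lit 292) (nat_lit 0) (cs (lf (nat_lit 41) (nat_lit 226)) (rf (nat_lit 0)))) q72490 (by decide +kernel)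
def q72521 : Q := Q.p (nat_lit 0x40000d80002600008000010000040000000000000000000000000000000000000000000000) (nat_lit 0x20000480001a0000000001100004c00003000000000000000000000000000000000000000000000000000) (nat_lit 7)
theorem c72521 : QOK q72521 := cut [q46588] ⟨c46588, trivial⟩ (nd (nat_lit 227) (nat_lit 0) (cs (lf (nat_lit 24) (nat_lit 205)) (nd (nat_lit 252) (nat_lit 0) (cs (lf (nat_lit 26) (nat_lit 186)) (nd (nat_lit 296) (nat_lit 0) (cs (lf (nat_lit 30) (nat_lit 230)) (nd (nat_lit 293) (nat_lit 0) (cs (lf (nat_lit 14) (nat_lit 271)) (rf (nat_lit 0)))))))))) q72521 (by decide +kernel)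
def q72587 : Q := Q.p (nat_lit 0x80000200008c0002200000000010000040000000000000000000000000000000000000000000000) (nat_lit 0x80000700003400001c000000000100008000020000000000000000000000000000000000000000000000000000) (nat_lit 7)
theorem c72587 : QOK q72587 := cut [q72584] ⟨c72584, trivial⟩ (nd (nat_lit 314) (nat_lit 0) (cs (lf (nat_lit 41) (nat_lit 248)) (nd (nat_lit 316) (nat_lit 0) (cs (lf (nat_lit 29) (nat_lit 249)) (nd (nat_lit 209) (nat_lit 0) (cs (lf (nat_lit 44) (nat_lit 186)) (rf (nat_lit 0)))))))) q72587 (by decide +kernel)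
def q72643 : Q := Q.p (nat_lit 0x380008c0002600000000010000040000000000000000000000000000000000000000000000) (nat_lit 0x2000008000030000c0000030001100004000000000000000000000000000000000000000000000000000000000) (nat_lit 6)
theorem c72643 : QOK q72643 := cut [q47300] ⟨c47300, trivial⟩ (nd (nat_lit 230) (nat_lit 0) (cs (lf (nat_lit 27) (nat_lit 186)) (nd (nat_lit 269) (nat_lit 0) (cs (lf (nat_lit 12) (nat_lit 246)) (nd (nat_lit 294) (nat_lit 0) (cs (lf (nat_lit 18) (nat_lit 269)) (rf (nat_lit 0)))))))) q72643 (by decide +kernel)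
def q72662 : Q := Q.p (nat_lit 0x80000200008c0002600000000010000040000000000000000000000000000000000000000000000) (nat_lit 0x4000010000050000030000000008800026000038000040000000000000000000000000000000000000000) (nat_lit 8)
theorem c72662 : QOK q72662 := cut [q72658] ⟨c72658, trivial⟩ (nd (nat_lit 209) (nat_lit 0) (cs (lf (nat_lit 44) (nat_lit 186)) (nd (nat_lit 268) (nat_lit 0) (cs (lf (nat_lit 13) (nat_lit 246)) (nd (nat_lit 316) (nat_lit 0) (cs (lf (nat_lit 29) (nat_lit 249)) (nd (nat_lit 227) (nat_lit 0) (cs (lf (nat_lit 28) (nat_lit 227)) (rf (nat_lit 0)))))))))) q72662 (by decide +kernel)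
def q72681 : Q := Q.p (nat_lit 0x9e0002600000000010000040000000000000000000000000000000000000000000000) (nat_lit 0x1c000600001000004000000000000000000000000000000000000000000000000000000000) (nat_lit 4)
theorem c72681 : QOK q72681 := cut [q61547] ⟨c61547, trivial⟩ (nd (nat_lit 230) (nat_lit 0) (cs (lf (nat_lit 27) (nat_lit 186)) (rf (nat_lit 0)))) q72681 (by decide +kernel)
def q72733 : Q := Q.p (nat_lit 0x30000880002700000000010000040000000000000000000000000000000000000000000000) (nat_lit 0x140000d0000f70001cc00070000100000c800020000000000000000000000000000000000000000000000000000) (nat_lit 10)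
theorem c72733 : QOK q72733 := cut [q65860, q61736, q61773, q71641] ⟨c65860, c61736, c61773, c71641, trivial⟩ (nd (nat_lit 294) (nat_lit 0) (cs (rf (nat_lit 0)) (cs (nd (nat_lit 230) (nat_lit 0) (cs (lf (nat_lit 27) (nat_lit 186)) (nd (nat_lit 209) (nat_lit 0) (cs (lf (nat_lit 44) (nat_lit 186)) (nd (nat_lit 314) (nat_lit 0) (cs (lf (nat_lit 36) (nat_lit 226)) (nd (nat_lit 336) (nat_lit 0) (cs (lf (nat_lit 30) (nat_lit 270)) (nd (nat_lit 295) (nat_lit 0) (cs (lf (nat_lit 11) (nat_lit 291)) (rf (nat_lit 1)))))))))))) (nd (nat_lit 274) (nat_lit 0) (cs (nd (nat_lit 273) (nat_lit 0) (cs (lf (nat_lit 15) (nat_lit 270)) (lf (nat_lit 20) (nat_lit 248)))) (cs (nd (nat_lit 230) (nat_lit 0) (cs (lf (nat_lit 27) (nat_lit 186)) (nd (nat_lit 209) (nat_lit 0) (cs (lf (nat_lit 44) (nat_lit 186)) (nd (nat_lit 295) (nat_lit 0) (cs (lf (nat_lit 15) (nat_lit 271)) (nd (nat_lit 313) (nat_lit 0) (cs (lf (nat_lit 10) (nat_lit 291)) (nd (nat_lit 291) (nat_lit 0) (cs (lf (nat_lit 11) (nat_lit 290)) (rf (nat_lit 2)))))))))))) (nd (nat_lit 272)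 (nat_lit 0) (cs (lf (nat_lit 8) (nat_lit 271)) (nd (nat_lit 290) (nat_lit 0) (cs (lf (nat_lit 13) (nat_lit 268)) (nd (nat_lit 252) (nat_lit 0) (cs (lf (nat_lit 26) (nat_lit 186)) (nd (nat_lit 316) (nat_lit 0) (cs (lf (nat_lit 42) (nat_lit 249)) (nd (nat_lit 317) (nat_lit 0) (cs (lf (nat_lit 29) (nat_lit 250)) (nd (nat_lit 231) (nat_lit 0) (cs (lf (nat_lit 45) (nat_lit 186)) (rf (nat_lit 3)))))))))))))))))))) q72733 (by decide +kernel)
def q72742 : Q := Q.p (nat_lit 0x38000880002000000000010000040000000000000000000000000000000000000000000000) (nat_lit 0x44000700000000008000020000000000000000000000000000000000000000000000000000) (nat_lit 4)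
theorem c72742 : QOK q72742 := cut [q62053] ⟨c62053, trivial⟩ (nd (nat_lit 209) (nat_lit 0) (cs (lf (nat_lit 44) (nat_lit 186)) (rf (nat_lit 0)))) q72742 (by decide +kernel)
def q72786 : Q := Q.p (nat_lit 0x880002300000400010000040000000000000000000000000000000000000000000000) (nat_lit 0x8000020000000001000004800001000004000000000000000000000000000000000000000000000) (nat_lit 4)
theorem c72786 : QOK q72786 := cut [q68618] ⟨c68618, trivial⟩ (nd (nat_lit 230) (nat_lit 0) (cs (lf (nat_lit 27) (nat_lit 186)) (rf (nat_lit 0)))) q72786 (by decide +kernel)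
def q72802 : Q := Q.p (nat_lit 0x10000000000780000000000000000000000000000000000000000000000000000000000000) (nat_lit 0x4000000000040000000000700000800002000000000000000000000000000000000000000000000) (nat_lit 4)
theorem c72802 : QOK q72802 := cut [q63835] ⟨c63835, trivial⟩ (nd (nat_lit 225) (nat_lit 0) (cs (lf (nat_lit 23) (nat_lit 224)) (rf (nat_lit 0)))) q72802 (by decide +kernel)
def q72837 : Q := Q.p (nat_lit 0x8a0002780000000011000040000000000000000000000000000000000000000000000) (nat_lit 0x8000028000000000000008f00020000000000000000000000000000000000000000000000000000) (nat_lit 5)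
theorem c72837 : QOK q72837 := cut [q68561] ⟨c68561, trivial⟩ (nd (nat_lit 209) (nat_lit 0) (cs (lf (nat_lit 44) (nat_lit 186)) (nd (nat_lit 225) (nat_lit 0) (cs (lf (nat_lit 23) (nat_lit 224)) (rf (nat_lit 0)))))) q72837 (by decide +kernel)
def q72874 : Q := Q.p (nat_lit 0xf0000200000400000000000000000000000000000000000000000000000000000000000000) (nat_lit 0x140000700001c000060000000000100000000000000000000000000000000000000000000000000000000000000000000) (nat_lit 6)
theorem c72874 : QOK q72874 := cut [q65473] ⟨c65473, trivial⟩ (nd (nat_lit 317) (nat_lit 0) (cs (lf (nat_lit 5) (nat_lit 292)) (rf (nat_lit 0)))) q72874 (by decide +kernel)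
def q72946 : Q := Q.p (nat_lit 0x20000080000700000800000000000000000000000000000000000000000000000000000000) (nat_lit 0x600001c000340000000000700001800000000000000000000000000000000000000000000000000) (nat_lit 7)
theorem c72946 : QOK q72946 := cut [q60650] ⟨c60650, trivial⟩ (nd (nat_lit 292) (nat_lit 0) (cs (lf (nat_lit 41) (nat_lit 226)) (nd (nat_lit 226) (nat_lit 0) (cs (lf (nat_lit 47) (nat_lit 204)) (nd (nat_lit 225) (nat_lit 0) (cs (lf (nat_lit 0) (nat_lit 224)) (nd (nat_lit 270) (nat_lit 0) (cs (lf (nat_lit 47) (nat_lit 203)) (rf (nat_lit 0)))))))))) q72946 (by decide +kernel)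
def q73078 : Q := Q.p (nat_lit 0x20000880002700000000010000040000000000000000000000000000000000000000000000) (nat_lit 0x100001e0000f80001d8001740001000004800002000008000000000000000000000000000000000000000000000) (nat_lit 9)
theorem c73078 : QOK q73078 := cut [q72767, q66876, q56070, q45169, q73068, q60062, q59343] ⟨c72767, c66876, c56070, c45169, c73068, c60062, c59343, trivial⟩ (nd (nat_lit 316) (nat_lit 0) (cs (nd (nat_lit 230) (nat_lit 0) (cs (lf (nat_lit 27) (nat_lit 186)) (nd (nat_lit 315) (nat_lit 0) (cs (lf (nat_lit 29) (nat_lit 249)) (rf (nat_lit 0)))))) (cs (nd (nat_lit 294) (nat_lit 0) (cs (lf (nat_lit 24) (nat_lit 227)) (nd (nat_lit 274) (nat_lit 0) (cs (nd (nat_lit 230) (nat_lit 0) (cs (lf (nat_lit 27) (nat_lit 186)) (rf (nat_lit 1)))) (cs (nd (nat_lit 230) (nat_lit 0) (cs (lf (nat_lit 27) (nat_lit 186)) (nd (nat_lit 296) (nat_lit 0) (cs (lf (nat_lit 14) (nat_lit 271)) (nd (nat_lit 318) (nat_lit 0) (cs (lf (nat_lit 30) (nat_lit 252)) (rf (nat_lit 2)))))))) (cs (nd (nat_lit 272) (nat_lit 0) (cs (lf (nat_lit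 8) (nat_lit 271)) (nd (nat_lit 315) (nat_lit 0) (cs (lf (nat_lit 41) (nat_lit 249)) (nd (nat_lit 230) (nat_lit 0) (cs (lf (nat_lit 27) (nat_lit 186)) (rf (nat_lit 3)))))))) (nd (nat_lit 272) (nat_lit 0) (cs (lf (nat_lit 8) (nat_lit 271)) (nd (nat_lit 315) (nat_lit 0) (cs (lf (nat_lit 41) (nat_lit 249)) (rf (nat_lit 4)))))))))))) (cs (nd (nat_lit 230) (nat_lit 0) (cs (lf (nat_lit 27) (nat_lit 186)) (nd (nat_lit 294) (nat_lit 0) (cs (lf (nat_lit 24) (nat_lit 227)) (rf (nat_lit 5)))))) (nd (nat_lit 315) (nat_lit 0) (cs (lf (nat_lit 29) (nat_lit 249)) (nd (nat_lit 227) (nat_lit 0) (cs (lf (nat_lit 28) (nat_lit 227)) (nd (nat_lit 270) (nat_lit 0) (cs (lf (nat_lit 42) (nat_lit 248)) (rf (nat_lit 6)))))))))))) q73078 (by decide +kernel)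
def q73177 : Q := Q.p (nat_lit 0x8c0002600000000010000040000000000000000000000000000000000000000000000) (nat_lit 0x98000760001fe0007000011e000cf0002380000e000010000000000000000000000000000000000000000) (nat_lit 13)
theorem c73177 : QOK q73177 := cut [q46560, q61648, q11170, q57499, q65776, q69076, q73159, q72384, q46701] ⟨c46560, c61648, c11170, c57499, c65776, c69076, c73159, c72384, c46701, trivial⟩ (nd (nat_lit 292) (nat_lit 0) (cs (rf (nat_lit 0)) (cs (nd (nat_lit 314) (nat_lit 0) (cs (lf (nat_lit 30) (nat_lit 248)) (nd (nat_lit 248) (nat_lit 0) (cs (rf (nat_lit 1)) (nd (nat_lit 209) (nat_lit 0) (cs (lf (nat_lit 44) (nat_lit 186)) (nd (nat_lit 313) (nat_lit 0) (cs (lf (nat_lit 41) (nat_lit 247)) (nd (nat_lit 226) (nat_lit 0) (cs (rf (nat_lit 2)) (lf (nat_lit 40) (nat_lit 225)))))))))))) (cs (nd (nat_lit 226) (nat_lit 0) (cs (nd (nat_lit 209) (nat_lit 0) (cs (lf (nat_lit 44) (nat_lit 186)) (nd (nat_lit 227) (nat_lit 0) (cs (lf (nat_lit 36) (nat_lit 204)) (nd (nat_lit 230) (nat_lit 0) (cs (lf (nat_lit 27) (nat_lit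 186)) (rf (nat_lit 3)))))))) (cs (nd (nat_lit 230) (nat_lit 0) (cs (lf (nat_lit 27) (nat_lit 186)) (nd (nat_lit 209) (nat_lit 0) (cs (lf (nat_lit 44) (nat_lit 186)) (nd (nat_lit 227) (nat_lit 0) (cs (lf (nat_lit 36) (nat_lit 204)) (nd (nat_lit 224) (nat_lit 0) (cs (lf (nat_lit 1) (nat_lit 224)) (nd (nat_lit 293) (nat_lit 0) (cs (lf (nat_lit 47) (nat_lit 204)) (rf (nat_lit 4)))))))))))) (cs (nd (nat_lit 248) (nat_lit 0) (cs (rf (nat_lit 5)) (nd (nat_lit 209) (nat_lit 0) (cs (lf (nat_lit 44) (nat_lit 186)) (rf (nat_lit 6)))))) (cs (nd (nat_lit 230) (nat_lit 0) (cs (lf (nat_lit 27) (nat_lit 186)) (nd (nat_lit 209) (nat_lit 0) (cs (lf (nat_lit 44) (nat_lit 186)) (nd (nat_lit 227) (nat_lit 0) (cs (lf (nat_lit 36) (nat_lit 204)) (nd (nat_lit 225) (nat_lit 0) (cs (lf (nat_lit 0) (nat_lit 224)) (nd (nat_lit 248) (nat_lit 0) (cs (lf (nat_lit 47) (nat_lit 203)) (rf (nat_lit 6)))))))))))) (nd (nat_lit 248) (nat_lit 0) (cs (rf (nat_lit 5)) (cs (rf (nat_lit 7)) (nd (nat_lit 205) (nat_lit 0) (cs (lf (nat_lit 37) (nat_lit 204)) (nd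 (nat_lit 291) (nat_lit 0) (cs (lf (nat_lit 41) (nat_lit 225)) (nd (nat_lit 289) (nat_lit 0) (cs (lf (nat_lit 13) (nat_lit 267)) (nd (nat_lit 272) (nat_lit 0) (cs (lf (nat_lit 6) (nat_lit 269)) (nd (nat_lit 247) (nat_lit 0) (cs (lf (nat_lit 0) (nat_lit 246)) (nd (nat_lit 225) (nat_lit 0) (cs (lf (nat_lit 47) (nat_lit 203)) (lf (nat_lit 23) (nat_lit 224)))))))))))))))))))))) (nd (nat_lit 230) (nat_lit 0) (cs (lf (nat_lit 27) (nat_lit 186)) (nd (nat_lit 314) (nat_lit 0) (cs (lf (nat_lit 30) (nat_lit 248)) (rf (nat_lit 8)))))))))) q73177 (by decide +kernel)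
def q73249 : Q := Q.p (nat_lit 0x60000900002000000000010000040000000000000000000000000000000000000000000000) (nat_lit 0x4000018000060000100000c000020000000000000000000000000000000000000000000000000000) (nat_lit 5)
theorem c73249 : QOK q73249 := cut [q73247] ⟨c73247, trivial⟩ (nd (nat_lit 274) (nat_lit 0) (cs (lf (nat_lit 8) (nat_lit 271)) (nd (nat_lit 296) (nat_lit 0) (cs (lf (nat_lit 14) (nat_lit 271)) (rf (nat_lit 0)))))) q73249 (by decide +kernel)
def q73312 : Q := Q.p (nat_lit 0x8000820002080000000010000040000000000000000000000000000000000000000000000) (nat_lit 0x100001c00007800070000010001040004300000400000000000000000000000000000000000000000000000000) (nat_lit 7)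
theorem c73312 : QOK q73312 := cut [q73215, q73299, q73311] ⟨c73215, c73299, c73311, trivial⟩ (nd (nat_lit 313) (nat_lit 0) (cs (rf (nat_lit 0)) (cs (rf (nat_lit 1)) (rf (nat_lit 2))))) q73312 (by decide +kernel)
def q73331 : Q := Q.p (nat_lit 0x8000820002080000200010000040000000000000000000000000000000000000000000000) (nat_lit 0x1000006000010000000001040004100000400000000000000000000000000000000000000000000000000) (nat_lit 5)
theorem c73331 : QOK q73331 := cut [q48727] ⟨c48727, trivial⟩ (nd (nat_lit 230) (nat_lit 0) (cs (lf (nat_lit 27) (nat_lit 186)) (rf (nat_lit 0)))) q73331 (by decide +kernel)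
def q73361 : Q := Q.p (nat_lit 0x820002080000200010000040000000000000000000000000000000000000000000000) (nat_lit 0x140000700001c000000001000004500001c00005000000000000000000000000000000000000000000000) (nat_lit 6)
theorem c73361 : QOK q73361 := cut [q46785, q73356] ⟨c46785, c73356, trivial⟩ (nd (nat_lit 291) (nat_lit 0) (cs (rf (nat_lit 0)) (rf (nat_lit 1)))) q73361 (by decide +kernel)
def q73388 : Q := Q.p (nat_lit 0x8000820002080000200010000040000000000000000000000000000000000000000000000) (nat_lit 0x4000010000040001000004400001800004000000000000000000000000000000000000000000000) (nat_lit 5)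
theorem c73388 : QOK q73388 := cut [q70153] ⟨c70153, trivial⟩ (nd (nat_lit 230) (nat_lit 0) (cs (lf (nat_lit 27) (nat_lit 186)) (rf (nat_lit 0)))) q73388 (by decide +kernel)
def q73395 : Q := Q.p (nat_lit 0x820002680000200010000040000000000000000000000000000000000000000000000) (nat_lit 0x100000400011000045c0007c00007000014000000000000000000000000000000000000000) (nat_lit 9)
theorem c73395 : QOK q73395 := cut [q51538, q70967] ⟨c51538, c70967, trivial⟩ (nd (nat_lit 203) (nat_lit 0) (cs (rf (nat_lit 0)) (cs (nd (nat_lit 180) (nat_lit 0) (cs (lf (nat_lit 46) (nat_lit 180)) (nd (nat_lit 270) (nat_lit 0) (cs (lf (nat_lit 29) (nat_lit 203)) (nd (nat_lit 181) (nat_lit 0) (cs (lf (nat_lit 47) (nat_lit 158)) (lf (nat_lit 28) (nat_lit 181)))))))) (cs (nd (nat_lit 224) (nat_lit 0) (cs (lf (nat_lit 20) (nat_lit 224)) (nd (nat_lit 230) (nat_lit 0) (cs (lf (nat_lit 27) (nat_lit 186)) (rf (nat_lit 1)))))) (nd (nat_lit 182) (nat_lit 0) (cs (lf (nat_lit 34) (nat_lit 181)) (nd (nat_lit 181) (nat_lit 0) (cs (lf (nat_lit 35) (nat_lit 159))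 (nd (nat_lit 248) (nat_lit 0) (cs (lf (nat_lit 23) (nat_lit 224)) (lf (nat_lit 29) (nat_lit 181)))))))))))) q73395 (by decide +kernel)
def q73399 : Q := Q.p (nat_lit 0x4000830002080000000010000040000000000000000000000000000000000000000000000) (nat_lit 0x400001000008000000001000004200000800000000000000000000000000000000000000000000000000) (nat_lit 4)
theorem c73399 : QOK q73399 := cut [q69992] ⟨c69992, trivial⟩ (nd (nat_lit 230) (nat_lit 0) (cs (lf (nat_lit 27) (nat_lit 186)) (rf (nat_lit 0)))) q73399 (by decide +kernel)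
def q73406 : Q := Q.p (nat_lit 0x4000030000080000000000000000000000000000000000000000000000000000000000000) (nat_lit 0x80000600003800000c0000780007e0001e00000000000000000000000000000000000000000000000000) (nat_lit 8)
theorem c73406 : QOK q73406 := cut [q50585, q48778, q73401] ⟨c50585, c48778, c73401, trivial⟩ (nd (nat_lit 225) (nat_lit 0) (cs (lf (nat_lit 36) (nat_lit 202)) (nd (nat_lit 291) (nat_lit 0) (cs (rf (nat_lit 0)) (nd (nat_lit 224) (nat_lit 0) (cs (lf (nat_lit 47) (nat_lit 202)) (nd (nat_lit 246) (nat_lit 0) (cs (rf (nat_lit 1)) (nd (nat_lit 244) (nat_lit 0) (cs (nd (nat_lit 226) (nat_lit 0) (cs (lf (nat_lit 35) (nat_lit 203)) (lf (nat_lit 13) (nat_lit 222)))) (rf (nat_lit 2)))))))))))) q73406 (by decide +kernel)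
def q73407 : Q := Q.p (nat_lit 0x1000004000810002040000000010000040000000000000000000000000000000000000000000000) (nat_lit 0xa0000280000a000000001000004100000000000000000000000000000000000000000000000000000000) (nat_lit 5)
theorem c73407 : QOK q73407 := cut [q50866] ⟨c50866, trivial⟩ (nd (nat_lit 230) (nat_lit 0) (cs (lf (nat_lit 27) (nat_lit 186)) (rf (nat_lit 0)))) q73407 (by decide +kernel)
def q73416 : Q := Q.p (nat_lit 0x8e0000680000000000000000000000000000000000000000000000000000000000000) (nat_lit 0x1c0000700000040000000000000000000000000000000000000000000000000000000000000) (nat_lit 4)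
theorem c73416 : QOK q73416 := cut [q65422] ⟨c65422, trivial⟩ (nd (nat_lit 272) (nat_lit 0) (cs (lf (nat_lit 23) (nat_lit 246)) (rf (nat_lit 0)))) q73416 (by decide +kernel)
def q73421 : Q := Q.p (nat_lit 0x8a0002680000000010000040000000000000000000000000000000000000000000000) (nat_lit 0x1c0000740001140004000000000000000000000000000000000000000000000000000000000) (nat_lit 6)
theorem c73421 : QOK q73421 := cut [q47437, q56821, q69280] ⟨c47437, c56821, c69280, trivial⟩ (nd (nat_lit 272) (nat_lit 0) (cs (rf (nat_lit 0)) (cs (rf (nat_lit 1)) (nd (nat_lit 230) (nat_lit 0) (cs (lf (nat_lit 27) (nat_lit 186)) (nd (nat_lit 273) (nat_lit 0) (cs (lf (nat_lit 19) (nat_lit 249)) (rf (nat_lit 2))))))))) q73421 (by decide +kernel)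
def q73423 : Q := Q.p (nat_lit 0x8a0002680000000010000040000000000000000000000000000000000000000000000) (nat_lit 0x1c000740000140008000020000000000000000000000000000000000000000000000000000) (nat_lit 6)
theorem c73423 : QOK q73423 := cut [q47437, q56821, q69245] ⟨c47437, c56821, c69245, trivial⟩ (nd (nat_lit 272) (nat_lit 0) (cs (rf (nat_lit 0)) (cs (rf (nat_lit 1)) (nd (nat_lit 273) (nat_lit 0) (cs (lf (nat_lit 19) (nat_lit 249)) (nd (nat_lit 209) (nat_lit 0) (cs (lf (nat_lit 44) (nat_lit 186)) (rf (nat_lit 2))))))))) q73423 (by decide +kernel)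
def q73515 : Q := Q.p (nat_lit 0x20000880002200000800010000040000000000000000000000000000000000000000000000) (nat_lit 0x500001c000050000000001000004000000000000000000000000000000000000000000000000000000000) (nat_lit 5)
theorem c73515 : QOK q73515 := cut [q65471] ⟨c65471, trivial⟩ (nd (nat_lit 316) (nat_lit 0) (cs (lf (nat_lit 28) (nat_lit 227)) (nd (nat_lit 230) (nat_lit 0) (cs (lf (nat_lit 27) (nat_lit 186)) (rf (nat_lit 0)))))) q73515 (by decide +kernel)
def q73539 : Q := Q.p (nat_lit 0x880002200000800012000040000000000000000000000000000000000000000000000) (nat_lit 0x100000400000500001c000050000000000000000000000000000000000000000) (nat_lit 5)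
theorem c73539 : QOK q73539 := cut [q40962] ⟨c40962, trivial⟩ (nd (nat_lit 230) (nat_lit 0) (cs (lf (nat_lit 27) (nat_lit 186)) (rf (nat_lit 0)))) q73539 (by decide +kernel)
def q73570 : Q := Q.p (nat_lit 0x820002680000200010000040000000000000000000000000000000000000000000000) (nat_lit 0x140000700001c000000001040004d00001400000000000000000000000000000000000000000000000000) (nat_lit 6)
theorem c73570 : QOK q73570 := cut [q48727, q73356, q69523] ⟨c48727, c73356, c69523, trivial⟩ (nd (nat_lit 291) (nat_lit 0) (cs (rf (nat_lit 0)) (cs (rf (nat_lit 1)) (nd (nat_lit 230) (nat_lit 0) (cs (lf (nat_lit 27) (nat_lit 186)) (nd (nat_lit 290) (nat_lit 0) (cs (lf (nat_lit 41) (nat_lit 224)) (rf (nat_lit 2))))))))) q73570 (by decide +kernel)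
def q73647 : Q := Q.p (nat_lit 0x800002000000780010000040000000000000000000000000000000000000000000000) (nat_lit 0x1038004040000380000000000000000000000000000000000000000000000000) (nat_lit 5)
theorem c73647 : QOK q73647 := cut [q69946] ⟨c69946, trivial⟩ (nd (nat_lit 230) (nat_lit 0) (cs (lf (nat_lit 27) (nat_lit 186)) (rf (nat_lit 0)))) q73647 (by decide +kernel)
def q73737 : Q := Q.p (nat_lit 0x1000004000810002040000000010000040000000000000000000000000000000000000000000000) (nat_lit 0x10a0004380000a00000000000000000000000000000000000000000000000000) (nat_lit 5)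
theorem c73737 : QOK q73737 := cut [q73736] ⟨c73736, trivial⟩ (nd (nat_lit 230) (nat_lit 0) (cs (lf (nat_lit 27) (nat_lit 186)) (rf (nat_lit 0)))) q73737 (by decide +kernel)
def q73777 : Q := Q.p (nat_lit 0x8000020000880002200000000010000040000000000000000000000000000000000000000000000) (nat_lit 0x50000160001c0000000001000004800000000000000000000000000000000000000000000000000000000) (nat_lit 6)
theorem c73777 : QOK q73777 := cut [q60056] ⟨c60056, trivial⟩ (nd (nat_lit 316) (nat_lit 0) (cs (lf (nat_lit 29) (nat_lit 249)) (nd (nat_lit 294) (nat_lit 0) (cs (lf (nat_lit 24) (nat_lit 227)) (nd (nat_lit 230) (nat_lit 0) (cs (lf (nat_lit 27) (nat_lit 186)) (rf (nat_lit 0)))))))) q73777 (by decide +kernel)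
def q73780 : Q := Q.p (nat_lit 0x18000024000080000200000800030000040000000000000000000000000000000000000000000000) (nat_lit 0x18000040000000000000006000038000040000000000000000000000000000000000000000) (nat_lit 5)
theorem c73780 : QOK q73780 := cut [q72489] ⟨c72489, trivial⟩ (nd (nat_lit 292) (nat_lit 0) (cs (lf (nat_lit 1) (nat_lit 290)) (rf (nat_lit 0)))) q73780 (by decide +kernel)
def q73825 : Q := Q.p (nat_lit 0x8000024000880002200000000010000040000000000000000000000000000000000000000000000) (nat_lit 0x4000010000058000040000000008800026000038000040000000000000000000000000000000000000000) (nat_lit 8)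
theorem c73825 : QOK q73825 := cut [q72489] ⟨c72489, trivial⟩ (nd (nat_lit 316) (nat_lit 0) (cs (lf (nat_lit 29) (nat_lit 249)) (nd (nat_lit 227) (nat_lit 0) (cs (lf (nat_lit 28) (nat_lit 227)) (nd (nat_lit 292) (nat_lit 0) (cs (lf (nat_lit 1) (nat_lit 290)) (nd (nat_lit 209) (nat_lit 0) (cs (lf (nat_lit 44) (nat_lit 186)) (rf (nat_lit 0)))))))))) q73825 (by decide +kernel)
def q73877 : Q := Q.p (nat_lit 0x34000890002200000000010000040000000000000000000000000000000000000000000000) (nat_lit 0x40000100000c000008000008001000004800000000000000000000000000000000000000000000000000000000) (nat_lit 5)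
theorem c73877 : QOK q73877 := cut [q73875] ⟨c73875, trivial⟩ (nd (nat_lit 230) (nat_lit 0) (cs (lf (nat_lit 27) (nat_lit 186)) (nd (nat_lit 267) (nat_lit 0) (cs (lf (nat_lit 20) (nat_lit 267)) (rf (nat_lit 0)))))) q73877 (by decide +kernel)
def q73879 : Q := Q.p (nat_lit 0x24000880002200000000010000040000000000000000000000000000000000000000000000) (nat_lit 0x100000700001e000018000040001100004c00001000000000000000000000000000000000000000000000000000) (nat_lit 6)
theorem c73879 : QOK q73879 := cut [q59324, q73810, q73872] ⟨c59324, c73810, c73872, trivial⟩ (nd (nat_lit 315) (nat_lit 0) (cs (rf (nat_lit 0)) (cs (rf (nat_lit 1)) (rf (nat_lit 2))))) q73879 (by decide +kernel)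
def q73907 : Q := Q.p (nat_lit 0x1000024000090000600000800000000000000000000000000000000000000000000000000000000) (nat_lit 0x280000e000028000000000000000c0000700001000000000000000000000000000000000000000000000000000) (nat_lit 7)
theorem c73907 : QOK q73907 := cut [q73904] ⟨c73904, trivial⟩ (nd (nat_lit 226) (nat_lit 0) (cs (lf (nat_lit 47) (nat_lit 204)) (nd (nat_lit 225) (nat_lit 0) (cs (lf (nat_lit 0) (nat_lit 224)) (nd (nat_lit 246) (nat_lit 0) (cs (lf (nat_lit 34) (nat_lit 224)) (rf (nat_lit 0)))))))) q73907 (by decide +kernel)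
def q73951 : Q := Q.p (nat_lit 0x4000890002240000000010000040000000000000000000000000000000000000000000000) (nat_lit 0xa0000380000e000038000000000480011a0004280000000000000000000000000000000000000000000000000000000) (nat_lit 7)
theorem c73951 : QOK q73951 := cut [q73734, q73739, q73745] ⟨c73734, c73739, c73745, trivial⟩ (nd (nat_lit 312) (nat_lit 0) (cs (rf (nat_lit 0)) (cs (nd (nat_lit 245) (nat_lit 0) (cs (lf (nat_lit 47) (nat_lit 223)) (nd (nat_lit 230) (nat_lit 0) (cs (lf (nat_lit 27) (nat_lit 186)) (rf (nat_lit 1)))))) (rf (nat_lit 2))))) q73951 (by decide +kernel)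
def q73967 : Q := Q.p (nat_lit 0x4000010000040000100000000000000000000000000000000000000000000000000000000) (nat_lit 0x2000008000020000200000e00003800002000000000000000000000000000000000000000) (nat_lit 6)
theorem c73967 : QOK q73967 := cut [q73965] ⟨c73965, trivial⟩ (nd (nat_lit 203) (nat_lit 0) (cs (lf (nat_lit 34) (nat_lit 202)) (nd (nat_lit 202) (nat_lit 0) (cs (lf (nat_lit 35) (nat_lit 180)) (rf (nat_lit 0)))))) q73967 (by decide +kernel)
def q73988 : Q := Q.p (nat_lit 0x24000890002200000800010000040000000000000000000000000000000000000000000000) (nat_lit 0x5c0001a000048000000008000020000000000000000000000000000000000000000000000000000) (nat_lit 6)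
theorem c73988 : QOK q73988 := cut [q73986] ⟨c73986, trivial⟩ (nd (nat_lit 209) (nat_lit 0) (cs (lf (nat_lit 44) (nat_lit 186)) (nd (nat_lit 292) (nat_lit 0) (cs (lf (nat_lit 41) (nat_lit 226)) (rf (nat_lit 0)))))) q73988 (by decide +kernel)
def q73993 : Q := Q.p (nat_lit 0x8000020000880002200000000010000040000000000000000000000000000000000000000000000) (nat_lit 0x1400007000014000000000000000000008000020000000000000000000000000000000000000000000000000000) (nat_lit 5)
theorem c73993 : QOK q73993 := cut [q59008] ⟨c59008, trivial⟩ (nd (nat_lit 209) (nat_lit 0) (cs (lf (nat_lit 44) (nat_lit 186)) (rf (nat_lit 0)))) q73993 (by decide +kernel)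
def q74046 : Q := Q.p (nat_lit 0x1000004000810002040000000010000040000000000000000000000000000000000000000000000) (nat_lit 0x200000c00002000000000008001020004080000000000000000000000000000000000000000000000000000000) (nat_lit 5)
theorem c74046 : QOK q74046 := cut [q74045] ⟨c74045, trivial⟩ (nd (nat_lit 230) (nat_lit 0) (cs (lf (nat_lit 27) (nat_lit 186)) (rf (nat_lit 0)))) q74046 (by decide +kernel)
def q74059 : Q := Q.p (nat_lit 0x400001000004000810002000000000010000040000000000000000000000000000000000000000000000) (nat_lit 0x80000200000800000000008001060004080000000000000000000000000000000000000000000000000000000) (nat_lit 5)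
theorem c74059 : QOK q74059 := cut [q74058] ⟨c74058, trivial⟩ (nd (nat_lit 230) (nat_lit 0) (cs (lf (nat_lit 27) (nat_lit 186)) (rf (nat_lit 0)))) q74059 (by decide +kernel)
def q74067 : Q := Q.p (nat_lit 0x1000004000810002000000000010000040000000000000000000000000000000000000000000000) (nat_lit 0xa0000380000e00002000002000008001060004080000000000000000000000000000000000000000000000000000000) (nat_lit 6)
theorem c74067 : QOK q74067 := cut [q73732, q74064, q74066] ⟨c73732, c74064, c74066, trivial⟩ (nd (nat_lit 334) (nat_lit 0) (cs (rf (nat_lit 0)) (cs (rf (nat_lit 1)) (rf (nat_lit 2))))) q74067 (by decide +kernel)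
def q74102 : Q := Q.p (nat_lit 0x1000004000010000000000000000000000000000000000000000000000000000000000000000000) (nat_lit 0xa0000380000e00002800000000008000060000080000000000000000000000000000000000000000000000000000000) (nat_lit 5)
theorem c74102 : QOK q74102 := cut [q73732, q74058, q74066] ⟨c73732, c74058, c74066, trivial⟩ (nd (nat_lit 334) (nat_lit 0) (cs (rf (nat_lit 0)) (cs (rf (nat_lit 1)) (rf (nat_lit 2))))) q74102 (by decide +kernel)
def q74129 : Q := Q.p (nat_lit 0x1000004000810002000000000010000040000000000000000000000000000000000000000000000) (nat_lit 0xa00003f0003f8000ef00002000008001020004000000000000000000000000000000000000000000000000000000000) (nat_lit 9)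
theorem c74129 : QOK q74129 := cut [q73712, q73732, q74064] ⟨c73712, c73732, c74064, trivial⟩ (nd (nat_lit 334) (nat_lit 0) (cs (rf (nat_lit 0)) (cs (rf (nat_lit 1)) (cs (rf (nat_lit 2)) (nd (nat_lit 333) (nat_lit 0) (cs (lf (nat_lit 41) (nat_lit 267)) (nd (nat_lit 314) (nat_lit 0) (cs (nd (nat_lit 230) (nat_lit 0) (cs (lf (nat_lit 27) (nat_lit 186)) (nd (nat_lit 245) (nat_lit 0) (cs (lf (nat_lit 46) (nat_lit 245)) (nd (nat_lit 335) (nat_lit 0) (cs (lf (nat_lit 29) (nat_lit 268)) (nd (nat_lit 336) (nat_lit 0) (cs (lf (nat_lit 17) (nat_lit 311)) (nd (nat_lit 311) (nat_lit 0) (cs (lf (nat_lit 23) (nat_lit 310)) (lf (nat_lit 18) (nat_lit 311)))))))))))) (cs (nd (nat_lit 335) (nat_lit 0) (cs (lf (nat_lit 29) (nat_lit 268)) (nd (nat_lit 332) (nat_lit 0) (cs (nd (nat_lit 353) (nat_lit 0) (cs (nd (nat_lit 309) (nat_lit 0) (cs (nd (nat_lit 331) (nat_lit 0) (cs (lf (nat_lit 11) (nat_lit 330)) (lf (nat_lit 23) (nat_lit 308)))) (lf (nat_lit 22) (nat_lit 309)))) (lf (nat_lit 10) (nat_lit 331)))) (lf (nat_lit 16) (nat_lit 310))))))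 (nd (nat_lit 230) (nat_lit 0) (cs (lf (nat_lit 27) (nat_lit 186)) (nd (nat_lit 313) (nat_lit 0) (cs (lf (nat_lit 6) (nat_lit 311)) (nd (nat_lit 332) (nat_lit 0) (cs (lf (nat_lit 9) (nat_lit 310)) (lf (nat_lit 12) (nat_lit 309))))))))))))))))) q74129 (by decide +kernel)
def q74159 : Q := Q.p (nat_lit 0x1000004000010000000000000000000000000000000000000000000000000000000000000000000) (nat_lit 0x200000c000020000080000080000e0000380000a00000000000000000000000000000000000000000000000000) (nat_lit 5)
theorem c74159 : QOK q74159 := cut [q73729, q73736, q74045] ⟨c73729, c73736, c74045, trivial⟩ (nd (nat_lit 246) (nat_lit 0) (cs (rf (nat_lit 0)) (cs (rf (nat_lit 1)) (rf (nat_lit 2))))) q74159 (by decide +kernel)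
def q74160 : Q := Q.p (nat_lit 0x1000004000010000000000000000000000000000000000000000000000000000000000000000000) (nat_lit 0x800006000008000020000080000e0000380000a00000000000000000000000000000000000000000000000000) (nat_lit 5)
theorem c74160 : QOK q74160 := cut [q50952, q73736, q73762] ⟨c50952, c73736, c73762, trivial⟩ (nd (nat_lit 246) (nat_lit 0) (cs (rf (nat_lit 0)) (cs (rf (nat_lit 1)) (rf (nat_lit 2))))) q74160 (by decide +kernel)
def q74165 : Q := Q.p (nat_lit 0x800002600000300010000040000000000000000000000000000000000000000000000) (nat_lit 0x180008c80020000000000000000000000000000000000000000000000000000) (nat_lit 4)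
theorem c74165 : QOK q74165 := cut [q74164] ⟨c74164, trivial⟩ (nd (nat_lit 209) (nat_lit 0) (cs (lf (nat_lit 44) (nat_lit 186)) (rf (nat_lit 0)))) q74165 (by decide +kernel)
def q74166 : Q := Q.p (nat_lit 0x200000700000000000000000000000000000000000000000000000000000000) (nat_lit 0x1380000c0003800000000000000000000000000000000000000000000000000) (nat_lit 5)
theorem c74166 : QOK q74166 := cut [q51725] ⟨c51725, trivial⟩ (nd (nat_lit 223) (nat_lit 0) (cs (rf (nat_lit 0)) (lf (nat_lit 4) (nat_lit 223)))) q74166 (by decide +kernel)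
def q74195 : Q := Q.p (nat_lit 0x4000810002600000300010000040000000000000000000000000000000000000000000000) (nat_lit 0x380000a0000280001c0008000020400000000000000000000000000000000000000000000000000) (nat_lit 7)
theorem c74195 : QOK q74195 := cut [q50567] ⟨c50567, trivial⟩ (nd (nat_lit 209) (nat_lit 0) (cs (lf (nat_lit 44) (nat_lit 186)) (nd (nat_lit 247) (nat_lit 0) (cs (lf (nat_lit 20) (nat_lit 224)) (nd (nat_lit 246) (nat_lit 0) (cs (lf (nat_lit 30) (nat_lit 224)) (rf (nat_lit 0)))))))) q74195 (by decide +kernel)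
def q74248 : Q := Q.p (nat_lit 0x600000380000000000000000000000000000000000000000000000000000000) (nat_lit 0xc40003b80000000000000000000000000000000000000000000000000) (nat_lit 5)
theorem c74248 : QOK q74248 := cut [q74247] ⟨c74247, trivial⟩ (nd (nat_lit 226) (nat_lit 0) (cs (lf (nat_lit 3) (nat_lit 224)) (rf (nat_lit 0)))) q74248 (by decide +kernel)
def q74276 : Q := Q.p (nat_lit 0x890002240000100010000040000000000000000000000000000000000000000000000) (nat_lit 0xa0001f80007e0000280011a0004c80001200004000000000000000000000000000000000000000000000) (nat_lit 9)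
theorem c74276 : QOK q74276 := cut [q72372, q74051, q72339, q58695, q74275] ⟨c72372, c74051, c72339, c58695, c74275, trivial⟩ (nd (nat_lit 290) (nat_lit 0) (cs (rf (nat_lit 0)) (cs (rf (nat_lit 1)) (cs (nd (nat_lit 293) (nat_lit 0) (cs (nd (nat_lit 289) (nat_lit 0) (cs (lf (nat_lit 41) (nat_lit 223)) (nd (nat_lit 201) (nat_lit 0) (cs (lf (nat_lit 46) (nat_lit 201)) (nd (nat_lit 291) (nat_lit 0) (cs (lf (nat_lit 29) (nat_lit 224)) (nd (nat_lit 292) (nat_lit 0) (cs (lf (nat_lit 23) (nat_lit 267)) (nd (nat_lit 314) (nat_lit 0) (cs (lf (nat_lit 36) (nat_lit 226)) (lf (nat_lit 5) (nat_lit 289)))))))))))) (cs (nd (nat_lit 230) (nat_lit 0) (cs (lf (nat_lit 27) (nat_lit 186)) (nd (nat_lit 289) (nat_lit 0) (cs (lf (nat_lit 41) (nat_lit 223)) (nd (nat_lit 223) (nat_lit 0) (cs (lf (nat_lit 47) (nat_lit 201)) (nd (nat_lit 248) (nat_lit 0) (cs (lf (nat_lit 20) (nat_lit 223)) (rf (nat_lit 2)))))))))) (cs (nd (nat_lit 230) (nat_lit 0) (cs (lf (nat_lit 27) (nat_lit 186)) (nd (nat_lit 291) (nat_lit 0) (cs (lf (nat_lit 29) (nat_lit 224))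 (nd (nat_lit 292) (nat_lit 0) (cs (lf (nat_lit 23) (nat_lit 267)) (nd (nat_lit 227) (nat_lit 0) (cs (lf (nat_lit 41) (nat_lit 226)) (nd (nat_lit 294) (nat_lit 0) (cs (lf (nat_lit 29) (nat_lit 227)) (lf (nat_lit 22) (nat_lit 268)))))))))))) (nd (nat_lit 289) (nat_lit 0) (cs (lf (nat_lit 41) (nat_lit 223)) (nd (nat_lit 230) (nat_lit 0) (cs (lf (nat_lit 27) (nat_lit 186)) (nd (nat_lit 201) (nat_lit 0) (cs (lf (nat_lit 46) (nat_lit 201)) (nd (nat_lit 291) (nat_lit 0) (cs (lf (nat_lit 29) (nat_lit 224)) (nd (nat_lit 292) (nat_lit 0) (cs (lf (nat_lit 23) (nat_lit 267)) (rf (nat_lit 3)))))))))))))))) (rf (nat_lit 4)))))) q74276 (by decide +kernel)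
def q74290 : Q := Q.p (nat_lit 0x810002040000100010400040000000000000000000000000000000000000000000000) (nat_lit 0x1000004000000a0000380000a000000000000000000000000000000000000000) (nat_lit 5)
theorem c74290 : QOK q74290 := cut [q74289] ⟨c74289, trivial⟩ (nd (nat_lit 230) (nat_lit 0) (cs (lf (nat_lit 27) (nat_lit 186)) (rf (nat_lit 0)))) q74290 (by decide +kernel)
def q74306 : Q := Q.p (nat_lit 0x810002040000100010400040000000000000000000000000000000000000000000000) (nat_lit 0x280000e000028001000004000000000000000000000000000000000000000000000000000000000) (nat_lit 5)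
theorem c74306 : QOK q74306 := cut [q74305] ⟨c74305, trivial⟩ (nd (nat_lit 230) (nat_lit 0) (cs (lf (nat_lit 27) (nat_lit 186)) (rf (nat_lit 0)))) q74306 (by decide +kernel)
def q74376 : Q := Q.p (nat_lit 0x8100022c0000100010000040000000000000000000000000000000000000000000000) (nat_lit 0x200000e001120004000000c00003000008000000000000000000000000000000000000000) (nat_lit 7)
theorem c74376 : QOK q74376 := cut [q72364] ⟨c72364, trivial⟩ (nd (nat_lit 267) (nat_lit 0) (cs (lf (nat_lit 7) (nat_lit 245)) (nd (nat_lit 230) (nat_lit 0) (cs (lf (nat_lit 27) (nat_lit 186)) (nd (nat_lit 265) (nat_lit 0) (cs (lf (nat_lit 13) (nat_lit 243)) (rf (nat_lit 0)))))))) q74376 (by decide +kernel)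
def q74435 : Q := Q.p (nat_lit 0x8100020c0000100010000040000000000000000000000000000000000000000000000) (nat_lit 0xa0000380000e000028001000004200000600001800006000000000000000000000000000000000000000) (nat_lit 8)
theorem c74435 : QOK q74435 := cut [q74176, q74275, q49857, q74431] ⟨c74176, c74275, c49857, c74431, trivial⟩ (nd (nat_lit 290) (nat_lit 0) (cs (rf (nat_lit 0)) (cs (rf (nat_lit 1)) (cs (nd (nat_lit 230) (nat_lit 0) (cs (lf (nat_lit 27) (nat_lit 186)) (nd (nat_lit 291) (nat_lit 0) (cs (lf (nat_lit 29) (nat_lit 224)) (nd (nat_lit 202) (nat_lit 0) (cs (lf (nat_lit 28) (nat_lit 202)) (nd (nat_lit 179) (nat_lit 0) (cs (lf (nat_lit 46) (nat_lit 179)) (nd (nat_lit 225) (nat_lit 0) (cs (lf (nat_lit 30) (nat_lit 224)) (rf (nat_lit 2)))))))))))) (nd (nat_lit 230) (nat_lit 0) (cs (lf (nat_lit 27) (nat_lit 186)) (nd (nat_lit 289) (nat_lit 0) (cs (lf (nat_lit 41) (nat_lit 223)) (nd (nat_lit 202) (nat_lit 0) (cs (lf (nat_lit 40) (nat_lit 201)) (rf (nat_lit 3)))))))))))) q74435 (by decide +kernel)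
def q74502 : Q := Q.p (nat_lit 0x810002040000100010000040000000000000000000000000000000000000000000000) (nat_lit 0xa000028001020004ef0001f80003f0000a000000000000000000000000000000000000000) (nat_lit 9)
theorem c74502 : QOK q74502 := cut [q73965, q74030, q74489, q74497] ⟨c73965, c74030, c74489, c74497, trivial⟩ (nd (nat_lit 202) (nat_lit 0) (cs (rf (nat_lit 0)) (cs (rf (nat_lit 1)) (nd (nat_lit 201) (nat_lit 0) (cs (lf (nat_lit 47) (nat_lit 179)) (nd (nat_lit 200) (nat_lit 0) (cs (rf (nat_lit 2)) (cs (nd (nat_lit 269) (nat_lit 0) (cs (lf (nat_lit 29) (nat_lit 202)) (nd (nat_lit 203) (nat_lit 0) (cs (lf (nat_lit 35) (nat_lit 180)) (nd (nat_lit 177) (nat_lit 0) (cs (lf (nat_lit 22) (nat_lit 177)) (nd (nat_lit 221) (nat_lit 0) (cs (lf (nat_lit 10) (nat_lit 199)) (nd (nat_lit 199) (nat_lit 0) (cs (lf (nat_lit 11) (nat_lit 198)) (lf (nat_lit 23) (nat_lit 176)))))))))))) (nd (nat_lit 230) (nat_lit 0) (cs (lf (nat_lit 27) (nat_lit 186)) (nd (nat_lit 203) (nat_lit 0) (cs (lf (nat_lit 35) (nat_lit 180)) (rf (nat_lit 3))))))))))))))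 q74502 (by decide +kernel)
def q74503 : Q := Q.p (nat_lit 0x810002040000100010000040000000000000000000000000000000000000000000000) (nat_lit 0xe0000380000e000028001020004280000c0000300000c000000000000000000000000000000000000000) (nat_lit 9)
theorem c74503 : QOK q74503 := cut [q73974, q74013, q74275, q74324] ⟨c73974, c74013, c74275, c74324, trivial⟩ (nd (nat_lit 290) (nat_lit 0) (cs (rf (nat_lit 0)) (cs (rf (nat_lit 1)) (cs (rf (nat_lit 2)) (rf (nat_lit 3)))))) q74503 (by decide +kernel)
def q74517 : Q := Q.p (nat_lit 0x10000040000100000000000000000000000000000000000000000000000000000000) (nat_lit 0x280000e000028000000000000000e0000380000a000000000000000000000000000000000000000) (nat_lit 5)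
theorem c74517 : QOK q74517 := cut [q74289, q74305] ⟨c74289, c74305, trivial⟩ (nd (nat_lit 202) (nat_lit 0) (cs (rf (nat_lit 0)) (rf (nat_lit 1)))) q74517 (by decide +kernel)
def q74532 : Q := Q.p (nat_lit 0x10000040000100000400000000000000000000000000000000000000000000000000) (nat_lit 0xa0000280000a0000000000000001000000000000000000000000000000000000000000000) (nat_lit 4)
theorem c74532 : QOK q74532 := cut [q74531] ⟨c74531, trivial⟩ (nd (nat_lit 269) (nat_lit 0) (cs (lf (nat_lit 29) (nat_lit 202)) (rf (nat_lit 0)))) q74532 (by decide +kernel)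
def q74579 : Q := Q.p (nat_lit 0x8100020c0000100010000040000000000000000000000000000000000000000000000) (nat_lit 0xa00003f0003f80002e0010300040e0000300000000000000000000000000000000000000000000000000) (nat_lit 9)
theorem c74579 : QOK q74579 := cut [q72372, q74051, q74275, q74563] ⟨c72372, c74051, c74275, c74563, trivial⟩ (nd (nat_lit 290) (nat_lit 0) (cs (rf (nat_lit 0)) (cs (rf (nat_lit 1)) (cs (rf (nat_lit 2)) (nd (nat_lit 291) (nat_lit 0) (cs (lf (nat_lit 29) (nat_lit 224)) (nd (nat_lit 266) (nat_lit 0) (cs (nd (nat_lit 230) (nat_lit 0) (cs (lf (nat_lit 27) (nat_lit 186)) (nd (nat_lit 289) (nat_lit 0) (cs (lf (nat_lit 41) (nat_lit 223)) (rf (nat_lit 3)))))) (cs (nd (nat_lit 289) (nat_lit 0) (cs (lf (nat_lit 41) (nat_lit 223)) (nd (nat_lit 267) (nat_lit 0) (cs (lf (nat_lit 18) (nat_lit 266)) (nd (nat_lit 223) (nat_lit 0) (cs (lf (nat_lit 47) (nat_lit 201)) (nd (nat_lit 222) (nat_lit 0) (cs (lf (nat_lit 0) (nat_lit 221)) (nd (nat_lit 200) (nat_lit 0) (cs (lf (nat_lit 44) (nat_lit 200)) (lf (nat_lit 26) (nat_lit 200))))))))))))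 (nd (nat_lit 230) (nat_lit 0) (cs (lf (nat_lit 27) (nat_lit 186)) (nd (nat_lit 201) (nat_lit 0) (cs (lf (nat_lit 46) (nat_lit 201)) (nd (nat_lit 267) (nat_lit 0) (cs (lf (nat_lit 0) (nat_lit 265)) (nd (nat_lit 292) (nat_lit 0) (cs (lf (nat_lit 18) (nat_lit 267)) (lf (nat_lit 3) (nat_lit 266))))))))))))))))))) q74579 (by decide +kernel)
def q74584 : Q := Q.p (nat_lit 0x4000810002040000100010000040000000000000000000000000000000000000000000000) (nat_lit 0x2000008000020001000004080000600000800000000000000000000000000000000000000000000) (nat_lit 5)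
theorem c74584 : QOK q74584 := cut [q50557] ⟨c50557, trivial⟩ (nd (nat_lit 230) (nat_lit 0) (cs (lf (nat_lit 27) (nat_lit 186)) (rf (nat_lit 0)))) q74584 (by decide +kernel)
def q74600 : Q := Q.p (nat_lit 0x40008100020c0000300010000040000000000000000000000000000000000000000000000) (nat_lit 0x800002000028001000004000000400001000004000000000000000000000000000000000000000) (nat_lit 5)
theorem c74600 : QOK q74600 := cut [q50466] ⟨c50466, trivial⟩ (nd (nat_lit 230) (nat_lit 0) (cs (lf (nat_lit 27) (nat_lit 186)) (rf (nat_lit 0)))) q74600 (by decide +kernel)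
def q74620 : Q := Q.p (nat_lit 0x810002600000300010000040000000000000000000000000000000000000000000000) (nat_lit 0x4000000001140004cc0003f00002000008000000000000000000000000000000000000000) (nat_lit 9)
theorem c74620 : QOK q74620 := cut [q74614] ⟨c74614, trivial⟩ (nd (nat_lit 230) (nat_lit 0) (cs (lf (nat_lit 27) (nat_lit 186)) (nd (nat_lit 226) (nat_lit 0) (cs (lf (nat_lit 3) (nat_lit 224)) (nd (nat_lit 223) (nat_lit 0) (cs (lf (nat_lit 4) (nat_lit 223)) (nd (nat_lit 204) (nat_lit 0) (cs (lf (nat_lit 17) (nat_lit 201)) (nd (nat_lit 203) (nat_lit 0) (cs (lf (nat_lit 12) (nat_lit 200)) (nd (nat_lit 200) (nat_lit 0) (cs (lf (nat_lit 22) (nat_lit 200)) (rf (nat_lit 0)))))))))))))) q74620 (by decide +kernel)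
def q74702 : Q := Q.p (nat_lit 0x20000890002600000000010000040000000000000000000000000000000000000000000000) (nat_lit 0x8000000000060000180008c00021000004000000000000000000000000000000000000000000000) (nat_lit 6)
theorem c74702 : QOK q74702 := cut [q72339] ⟨c72339, trivial⟩ (nd (nat_lit 269) (nat_lit 0) (cs (lf (nat_lit 14) (nat_lit 246)) (nd (nat_lit 248) (nat_lit 0) (cs (lf (nat_lit 9) (nat_lit 246)) (nd (nat_lit 209) (nat_lit 0) (cs (lf (nat_lit 44) (nat_lit 186)) (rf (nat_lit 0)))))))) q74702 (by decide +kernel)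
def q74731 : Q := Q.p (nat_lit 0x6000810002000000100010000040000000000000000000000000000000000000000000000) (nat_lit 0x800000000008001040004080000600000800000000000000000000000000000000000000000000) (nat_lit 5)
theorem c74731 : QOK q74731 := cut [q50579] ⟨c50579, trivial⟩ (nd (nat_lit 230) (nat_lit 0) (cs (lf (nat_lit 27) (nat_lit 186)) (nd (nat_lit 246) (nat_lit 0) (cs (lf (nat_lit 41) (nat_lit 223)) (rf (nat_lit 0)))))) q74731 (by decide +kernel)
def q74821 : Q := Q.p (nat_lit 0x80000600000900000000000000000000000000000000000000000000000000000000) (nat_lit 0x20000000000000000600003000004000010000000000000000000000000000000000000000) (nat_lit 4)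
theorem c74821 : QOK q74821 := cut [q57501] ⟨c57501, trivial⟩ (nd (nat_lit 226) (nat_lit 0) (cs (lf (nat_lit 1) (nat_lit 224)) (rf (nat_lit 0)))) q74821 (by decide +kernel)
def q74910 : Q := Q.p (nat_lit 0x1000004000830002000000000010000040000000000000000000000000000000000000000000000) (nat_lit 0x400000000008000000001080004200000800000000000000000000000000000000000000000000000000) (nat_lit 4)
theorem c74910 : QOK q74910 := cut [q74909] ⟨c74909, trivial⟩ (nd (nat_lit 230) (nat_lit 0) (cs (lf (nat_lit 27) (nat_lit 186)) (rf (nat_lit 0)))) q74910 (by decide +kernel)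
def q74931 : Q := Q.p (nat_lit 0x1000004000090000600000000000000000000000000000000000000000000000000000000000000) (nat_lit 0x400000000008000060000080000200000800000000000000000000000000000000000000000000000000) (nat_lit 4)
theorem c74931 : QOK q74931 := cut [q74909] ⟨c74909, trivial⟩ (nd (nat_lit 269) (nat_lit 0) (cs (lf (nat_lit 14) (nat_lit 246)) (rf (nat_lit 0)))) q74931 (by decide +kernel)
def q75057 : Q := Q.p (nat_lit 0x1000004000010000000000000000000000000000000000000000000000000000000000000000000) (nat_lit 0xa0000380000e00000800002000008000060000080000000000000000000000000000000000000000000000000000000) (nat_lit 5)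
theorem c75057 : QOK q75057 := cut [q73732, q74058, q74144] ⟨c73732, c74058, c74144, trivial⟩ (nd (nat_lit 334) (nat_lit 0) (cs (rf (nat_lit 0)) (cs (rf (nat_lit 1)) (rf (nat_lit 2))))) q75057 (by decide +kernel)
def q75331 : Q := Q.p (nat_lit 0x40000180000780000000000000000000000000000000000000000000000000000000000000) (nat_lit 0x200008c000070000000000400001000000000000000000000000000000000000000000000000000) (nat_lit 5)
theorem c75331 : QOK q75331 := cut [q47248] ⟨c47248, trivial⟩ (nd (nat_lit 269) (nat_lit 0) (cs (lf (nat_lit 11) (nat_lit 246)) (nd (nat_lit 270) (nat_lit 0) (cs (lf (nat_lit 5) (nat_lit 269)) (rf (nat_lit 0)))))) q75331 (by decide +kernel)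
def q75339 : Q := Q.p (nat_lit 0x810002040000100010400040000000000000000000000000000000000000000000000) (nat_lit 0x2000008001020004000000800003000008000000000000000000000000000000000000000) (nat_lit 5)
theorem c75339 : QOK q75339 := cut [q51158] ⟨c51158, trivial⟩ (nd (nat_lit 230) (nat_lit 0) (cs (lf (nat_lit 27) (nat_lit 186)) (rf (nat_lit 0)))) q75339 (by decide +kernel)
def q75364 : Q := Q.p (nat_lit 0x80000240000100000400000000000000000000000000000000000000000000000000) (nat_lit 0x12000018000008000000000380000e000028000000000000000000000000000000000) (nat_lit 5)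
theorem c75364 : QOK q75364 := cut [q75346, q75355] ⟨c75346, c75355, trivial⟩ (nd (nat_lit 180) (nat_lit 0) (cs (rf (nat_lit 0)) (rf (nat_lit 1)))) q75364 (by decide +kernel)
def q75365 : Q := Q.p (nat_lit 0x880002640000100010400040000000000000000000000000000000000000000000000) (nat_lit 0x80000e000078000000008080020200000800000000000000000000000000000000000000000000) (nat_lit 6)
theorem c75365 : QOK q75365 := cut [q75338, q75350] ⟨c75338, c75350, trivial⟩ (nd (nat_lit 268) (nat_lit 0) (cs (rf (nat_lit 0)) (rf (nat_lit 1)))) q75365 (by decide +kernel)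
def q75374 : Q := Q.p (nat_lit 0x20000880002200000000011000040000000000000000000000000000000000000000000000) (nat_lit 0x8000000000040000100008c00020000000000000000000000000000000000000000000000000000) (nat_lit 4)
theorem c75374 : QOK q75374 := cut [q75373] ⟨c75373, trivial⟩ (nd (nat_lit 209) (nat_lit 0) (cs (lf (nat_lit 44) (nat_lit 186)) (rf (nat_lit 0)))) q75374 (by decide +kernel)
def q75395 : Q := Q.p (nat_lit 0x8000020000880002200000000010000040000000000000000000000000000000000000000000000) (nat_lit 0x1400007000014000000000000001000004000000000000000000000000000000000000000000000000000000000) (nat_lit 5)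
theorem c75395 : QOK q75395 := cut [q59111] ⟨c59111, trivial⟩ (nd (nat_lit 336) (nat_lit 0) (cs (lf (nat_lit 40) (nat_lit 248)) (nd (nat_lit 230) (nat_lit 0) (cs (lf (nat_lit 27) (nat_lit 186)) (rf (nat_lit 0)))))) q75395 (by decide +kernel)
def q75423 : Q := Q.p (nat_lit 0x800002000000100011c00040000000000000000000000000000000000000000000000) (nat_lit 0x80800e60000b9800000000000000000000000000000000000000000000) (nat_lit 7)
theorem c75423 : QOK q75423 := cut [q75419] ⟨c75419, trivial⟩ (nd (nat_lit 205) (nat_lit 0) (cs (lf (nat_lit 11) (nat_lit 201)) (nd (nat_lit 184) (nat_lit 0) (cs (lf (nat_lit 16) (nat_lit 180)) (nd (nat_lit 209) (nat_lit 0) (cs (lf (nat_lit 44) (nat_lit 186)) (nd (nat_lit 179) (nat_lit 0) (cs (lf (nat_lit 22) (nat_lit 179)) (rf (nat_lit 0)))))))))) q75423 (by decide +kernel)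
def q75467 : Q := Q.p (nat_lit 0x33c00040000000000000000000000000000000000000000000000) (nat_lit 0xc40000b8000000000000000000000000000000000000000000000) (nat_lit 4)
theorem c75467 : QOK q75467 := cut [q75419] ⟨c75419, trivial⟩ (nd (nat_lit 184) (nat_lit 0) (cs (lf (nat_lit 16) (nat_lit 180)) (rf (nat_lit 0)))) q75467 (by decide +kernel)
def q75478 : Q := Q.p (nat_lit 0x880002600000100011400040000000000000000000000000000000000000000000000) (nat_lit 0x40000100000000008880026a0003fc00000000000000000000000000000000000000000000) (nat_lit 7)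
theorem c75478 : QOK q75478 := cut [q75369, q75370, q75476] ⟨c75369, c75370, c75476, trivial⟩ (nd (nat_lit 205) (nat_lit 0) (cs (rf (nat_lit 0)) (cs (nd (nat_lit 209) (nat_lit 0) (cs (lf (nat_lit 44) (nat_lit 186)) (rf (nat_lit 1)))) (nd (nat_lit 209) (nat_lit 0) (cs (lf (nat_lit 44) (nat_lit 186)) (rf (nat_lit 2))))))) q75478 (by decide +kernel)
def q75479 : Q := Q.p (nat_lit 0x80000600000100001400000000000000000000000000000000000000000000000000) (nat_lit 0x40000100000000000880006a0003fc00000000000000000000000000000000000000000000) (nat_lit 6)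
theorem c75479 : QOK q75479 := cut [q75369, q75370, q75476] ⟨c75369, c75370, c75476, trivial⟩ (nd (nat_lit 205) (nat_lit 0) (cs (rf (nat_lit 0)) (cs (rf (nat_lit 1)) (rf (nat_lit 2))))) q75479 (by decide +kernel)
def q75538 : Q := Q.p (nat_lit 0x8a0002640000100010400040000000000000000000000000000000000000000000000) (nat_lit 0x300005f0001e800071000118000c800022000000000000000000000000000000000000000000000000000) (nat_lit 10)
theorem c75538 : QOK q75538 := cut [q49950, q46561, q66878, q70883] ⟨c49950, c46561, c66878, c70883, trivial⟩ (nd (nat_lit 247) (nat_lit 0) (cs (rf (nat_lit 0)) (cs (nd (nat_lit 313) (nat_lit 0) (cs (lf (nat_lit 43) (nat_lit 224)) (nd (nat_lit 272) (nat_lit 0) (cs (lf (nat_lit 2) (nat_lit 246)) (nd (nat_lit 294) (nat_lit 0) (cs (rf (nat_lit 1)) (nd (nat_lit 274) (nat_lit 0) (cs (lf (nat_lit 20) (nat_lit 249)) (nd (nat_lit 296) (nat_lit 0) (cs (rf (nat_lit 2)) (nd (nat_lit 293) (nat_lit 0) (cs (lf (nat_lit 14) (nat_lit 271)) (nd (nat_lit 315) (nat_lit 0) (cs (lf (nat_lit 30) (nat_lit 249)) (rf (nat_lit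 3)))))))))))))))) (nd (nat_lit 248) (nat_lit 0) (cs (lf (nat_lit 11) (nat_lit 246)) (lf (nat_lit 5) (nat_lit 246))))))) q75538 (by decide +kernel)
def q75556 : Q := Q.p (nat_lit 0x10000040000100000400000000000000000000000000000000000000000000000000) (nat_lit 0x40000000000000000c0003a00002800000000000000000000000000000000000000000000) (nat_lit 5)
theorem c75556 : QOK q75556 := cut [q75554] ⟨c75554, trivial⟩ (nd (nat_lit 203) (nat_lit 0) (cs (lf (nat_lit 35) (nat_lit 180)) (nd (nat_lit 201) (nat_lit 0) (cs (lf (nat_lit 47) (nat_lit 179)) (rf (nat_lit 0)))))) q75556 (by decide +kernel)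
def q75573 : Q := Q.p (nat_lit 0x8000020000080000200000000000000000000000000000000000000000000000000000000000000) (nat_lit 0x50000160001c0000000000000000800000000000000000000000000000000000000000000000000000000) (nat_lit 5)
theorem c75573 : QOK q75573 := cut [q60056] ⟨c60056, trivial⟩ (nd (nat_lit 316) (nat_lit 0) (cs (lf (nat_lit 29) (nat_lit 249)) (nd (nat_lit 294) (nat_lit 0) (cs (lf (nat_lit 24) (nat_lit 227)) (rf (nat_lit 0)))))) q75573 (by decide +kernel)
def q75628 : Q := Q.p (nat_lit 0xa0000600000100000400000000000000000000000000000000000000000000000000) (nat_lit 0xa0000580000e0000000000000001000000000000000000000000000000000000000000000) (nat_lit 5)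
theorem c75628 : QOK q75628 := cut [q75627] ⟨c75627, trivial⟩ (nd (nat_lit 268) (nat_lit 0) (cs (lf (nat_lit 14) (nat_lit 246)) (rf (nat_lit 0)))) q75628 (by decide +kernel)
def q75652 : Q := Q.p (nat_lit 0x800002040000100010400041000000000000000000000000000000000000000000000) (nat_lit 0x2000018000020008000020200000800002000000000000000000000000000000000000000) (nat_lit 5)
theorem c75652 : QOK q75652 := cut [q75650] ⟨c75650, trivial⟩ (nd (nat_lit 267) (nat_lit 0) (cs (lf (nat_lit 40) (nat_lit 179)) (nd (nat_lit 209) (nat_lit 0) (cs (lf (nat_lit 44) (nat_lit 186)) (rf (nat_lit 0)))))) q75652 (by decide +kernel)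
def q75659 : Q := Q.p (nat_lit 0x80000640000100000400000000000000000000000000000000000000000000000000) (nat_lit 0xa000078000020000000000800003000008000000000000000000000000000000000000000) (nat_lit 5)
theorem c75659 : QOK q75659 := cut [q51158, q75338] ⟨c51158, c75338, trivial⟩ (nd (nat_lit 268) (nat_lit 0) (cs (rf (nat_lit 0)) (rf (nat_lit 1)))) q75659 (by decide +kernel)
def q75661 : Q := Q.p (nat_lit 0x810002640000100010400040000000000000000000000000000000000000000000000) (nat_lit 0x8000020000180008000020000001000000000000000000000000000000000000000000000) (nat_lit 4)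
theorem c75661 : QOK q75661 := cut [q74278] ⟨c74278, trivial⟩ (nd (nat_lit 209) (nat_lit 0) (cs (lf (nat_lit 44) (nat_lit 186)) (rf (nat_lit 0)))) q75661 (by decide +kernel)
def q75677 : Q := Q.p (nat_lit 0x80000600000100000400001000004000000000000000000000000000000000000000) (nat_lit 0x80000700000c0000000000000000800002000008000000000000000000000000000000000) (nat_lit 5)
theorem c75677 : QOK q75677 := cut [q75675] ⟨c75675, trivial⟩ (nd (nat_lit 157) (nat_lit 0) (cs (lf (nat_lit 47) (nat_lit 135)) (nd (nat_lit 246) (nat_lit 0) (cs (lf (nat_lit 46) (nat_lit 157)) (rf (nat_lit 0)))))) q75677 (by decide +kernel)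
def q75708 : Q := Q.p (nat_lit 0x40000100000400001c00000000000000000000000000000000000000000000) (nat_lit 0x80000200000000001c0002200009c00000000000000000000000000000000000000) (nat_lit 6)
theorem c75708 : QOK q75708 := cut [q75706] ⟨c75706, trivial⟩ (nd (nat_lit 181) (nat_lit 0) (cs (lf (nat_lit 35) (nat_lit 158)) (nd (nat_lit 245) (nat_lit 0) (cs (lf (nat_lit 41) (nat_lit 179)) (rf (nat_lit 0)))))) q75708 (by decide +kernel)
def q75734 : Q := Q.p (nat_lit 0x80000600000100000400001000008000000000000000000000000000000000000000) (nat_lit 0x80000700000c0000000000000002000000000000000000000000000000000000000000000) (nat_lit 4)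
theorem c75734 : QOK q75734 := cut [q75675] ⟨c75675, trivial⟩ (nd (nat_lit 246) (nat_lit 0) (cs (lf (nat_lit 34) (nat_lit 158)) (rf (nat_lit 0)))) q75734 (by decide +kernel)
def q75759 : Q := Q.p (nat_lit 0x800002000000100010600041000000000000000000000000000000000000000000000) (nat_lit 0x102000c08002098003e0000ff0001f80000a0000000000000000000000000000) (nat_lit 10)
theorem c75759 : QOK q75759 := cut [q75684, q75730, q75743, q69373] ⟨c75684, c75730, c75743, c69373, trivial⟩ (nd (nat_lit 209) (nat_lit 0) (cs (lf (nat_lit 44) (nat_lit 186)) (nd (nat_lit 158) (nat_lit 0) (cs (rf (nat_lit 0)) (cs (rf (nat_lit 1)) (nd (nat_lit 159) (nat_lit 0) (cs (lf (nat_lit 35) (nat_lit 136)) (nd (nat_lit 157) (nat_lit 0) (cs (lf (nat_lit 47) (nat_lit 135)) (nd (nat_lit 160) (nat_lit 0) (cs (nd (nat_lit 230) (nat_lit 0) (cs (lf (nat_lit 27) (nat_lit 186)) (nd (nat_lit 138) (nat_lit 0) (cs (lf (nat_lit 17) (nat_lit 135)) (rf (nat_lit 2)))))) (cs (nd (nat_lit 139) (nat_lit 0) (cs (lf (nat_lit 16) (nat_lit 135)) (nd (nat_lit 161) (nat_lit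 0) (cs (lf (nat_lit 17) (nat_lit 136)) (nd (nat_lit 162) (nat_lit 0) (cs (lf (nat_lit 10) (nat_lit 158)) (rf (nat_lit 3)))))))) (nd (nat_lit 230) (nat_lit 0) (cs (lf (nat_lit 27) (nat_lit 186)) (nd (nat_lit 182) (nat_lit 0) (cs (nd (nat_lit 181) (nat_lit 0) (cs (lf (nat_lit 0) (nat_lit 156)) (nd (nat_lit 200) (nat_lit 0) (cs (lf (nat_lit 12) (nat_lit 177)) (lf (nat_lit 15) (nat_lit 178)))))) (lf (nat_lit 5) (nat_lit 157)))))))))))))))))) q75759 (by decide +kernel)
def q75777 : Q := Q.p (nat_lit 0xf00000000000000000000000000000000000000000000000000) (nat_lit 0x200000e0001000000600001000004000000000000000000000000000000000) (nat_lit 5)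
theorem c75777 : QOK q75777 := cut [q75776] ⟨c75776, trivial⟩ (nd (nat_lit 178) (nat_lit 0) (cs (lf (nat_lit 23) (nat_lit 177)) (rf (nat_lit 0)))) q75777 (by decide +kernel)
def q75869 : Q := Q.p (nat_lit 0x100000600001000000000000000000000000000000000000000000000) (nat_lit 0x300000e0001800000c0003f00003c0000a0000000000000000000000000000) (nat_lit 8)
theorem c75869 : QOK q75869 := cut [q75684, q75730, q75733, q75737] ⟨c75684, c75730, c75733, c75737, trivial⟩ (nd (nat_lit 158) (nat_lit 0) (cs (rf (nat_lit 0)) (cs (rf (nat_lit 1)) (cs (rf (nat_lit 2)) (nd (nat_lit 157) (nat_lit 0) (cs (lf (nat_lit 47) (nat_lit 135)) (nd (nat_lit 179) (nat_lit 0) (cs (nd (nat_lit 223) (nat_lit 0) (cs (lf (nat_lit 41) (nat_lit 157)) (nd (nat_lit 134) (nat_lit 0) (cs (lf (nat_lit 46) (nat_lit 134)) (rf (nat_lit 3)))))) (nd (nat_lit 159) (nat_lit 0) (cs (lf (nat_lit 35) (nat_lit 136)) (nd (nat_lit 160) (nat_lit 0) (cs (lf (nat_lit 11) (nat_lit 156)) (lf (nat_lit 6) (nat_lit 157)))))))))))))) q75869 (by decide +kernel)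
def q75901 : Q := Q.p (nat_lit 0x800002000000100010600041000000000000000000000000000000000000000000000) (nat_lit 0x103000c0f00209c000e80000f80001c0000e0000300000800000000000000000) (nat_lit 10)
theorem c75901 : QOK q75901 := cut [q75878, q75899, q75900] ⟨c75878, c75899, c75900, trivial⟩ (nd (nat_lit 158) (nat_lit 0) (cs (nd (nat_lit 230) (nat_lit 0) (cs (lf (nat_lit 27) (nat_lit 186)) (nd (nat_lit 209) (nat_lit 0) (cs (lf (nat_lit 44) (nat_lit 186)) (nd (nat_lit 135) (nat_lit 0) (cs (lf (nat_lit 46) (nat_lit 135)) (nd (nat_lit 136) (nat_lit 0) (cs (lf (nat_lit 47) (nat_lit 113)) (rf (nat_lit 0)))))))))) (cs (rf (nat_lit 1)) (rf (nat_lit 2))))) q75901 (by decide +kernel)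
def q75902 : Q := Q.p (nat_lit 0x800002000000100010600041000000000000000000000000000000000000000000000) (nat_lit 0x103000c0f00201c000e80000f80003c0000a0000000000000000000000000000) (nat_lit 10)
theorem c75902 : QOK q75902 := cut [q75684, q75730, q75733, q75899] ⟨c75684, c75730, c75733, c75899, trivial⟩ (nd (nat_lit 158) (nat_lit 0) (cs (rf (nat_lit 0)) (cs (rf (nat_lit 1)) (cs (rf (nat_lit 2)) (rf (nat_lit 3)))))) q75902 (by decide +kernel)
def q75930 : Q := Q.p (nat_lit 0x800002000000100010600041000000000000000000000000000000000000000000000) (nat_lit 0x103000c0e0021800002e0003e0000380000a0000000000000000000000000000) (nat_lit 9)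
theorem c75930 : QOK q75930 := cut [q75684, q75730, q75733, q75924, q75737] ⟨c75684, c75730, c75733, c75924, c75737, trivial⟩ (nd (nat_lit 158) (nat_lit 0) (cs (rf (nat_lit 0)) (cs (rf (nat_lit 1)) (cs (rf (nat_lit 2)) (nd (nat_lit 223) (nat_lit 0) (cs (lf (nat_lit 41) (nat_lit 157)) (nd (nat_lit 179) (nat_lit 0) (cs (rf (nat_lit 3)) (nd (nat_lit 230) (nat_lit 0) (cs (lf (nat_lit 27) (nat_lit 186)) (nd (nat_lit 209) (nat_lit 0) (cs (lf (nat_lit 44) (nat_lit 186)) (nd (nat_lit 157) (nat_lit 0) (cs (lf (nat_lit 47) (nat_lit 135)) (rf (nat_lit 4)))))))))))))))) q75930 (by decide +kernel)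
def q75933 : Q := Q.p (nat_lit 0x80000600000100000400001000000000000000000000000000000000000000000000) (nat_lit 0x80000780000e000008000000000200000c000020000000000000000000000000000000000) (nat_lit 5)
theorem c75933 : QOK q75933 := cut [q75343, q75675] ⟨c75343, c75675, trivial⟩ (nd (nat_lit 246) (nat_lit 0) (cs (rf (nat_lit 0)) (rf (nat_lit 1)))) q75933 (by decide +kernel)
def q75934 : Q := Q.p (nat_lit 0x80000600000100000400001000000000000000000000000000000000000000000000) (nat_lit 0x80000780000e0000080000000000800006000008000000000000000000000000000000000) (nat_lit 5)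
theorem c75934 : QOK q75934 := cut [q37980, q75675] ⟨c37980, c75675, trivial⟩ (nd (nat_lit 246) (nat_lit 0) (cs (rf (nat_lit 0)) (rf (nat_lit 1)))) q75934 (by decide +kernel)
def q75942 : Q := Q.p (nat_lit 0x20000090000600000000000000000000000000000000000000000000000000000000000000) (nat_lit 0x100000700001c000000000160000180000400000000000000000000000000000000000000000000000000000000) (nat_lit 7)
theorem c75942 : QOK q75942 := cut [q56930] ⟨c56930, trivial⟩ (nd (nat_lit 269) (nat_lit 0) (cs (lf (nat_lit 14) (nat_lit 246)) (nd (nat_lit 248) (nat_lit 0) (cs (lf (nat_lit 9) (nat_lit 246)) (nd (nat_lit 315) (nat_lit 0) (cs (lf (nat_lit 47) (nat_lit 226)) (rf (nat_lit 0)))))))) q75942 (by decide +kernel)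
def q75951 : Q := Q.p (nat_lit 0x890002600000000011c00040000000000000000000000000000000000000000000000) (nat_lit 0x6000018000840002020003e000000000000000000000000000000000000000000000) (nat_lit 7)
theorem c75951 : QOK q75951 := cut [q75948] ⟨c75948, trivial⟩ (nd (nat_lit 269) (nat_lit 0) (cs (lf (nat_lit 14) (nat_lit 246)) (nd (nat_lit 248) (nat_lit 0) (cs (lf (nat_lit 9) (nat_lit 246)) (nd (nat_lit 209) (nat_lit 0) (cs (lf (nat_lit 44) (nat_lit 186)) (rf (nat_lit 0)))))))) q75951 (by decide +kernel)
def q75954 : Q := Q.p (nat_lit 0x90000600000000001000000000000000000000000000000000000000000000000000) (nat_lit 0x8000020000060000180000c00000000004000000000000000000000000000000000000000000000) (nat_lit 5)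
theorem c75954 : QOK q75954 := cut [q72352] ⟨c72352, trivial⟩ (nd (nat_lit 269) (nat_lit 0) (cs (lf (nat_lit 14) (nat_lit 246)) (nd (nat_lit 248) (nat_lit 0) (cs (lf (nat_lit 9) (nat_lit 246)) (rf (nat_lit 0)))))) q75954 (by decide +kernel)
def q75978 : Q := Q.p (nat_lit 0x90000600000100000400000000000000000000000000000000000000000000000000) (nat_lit 0xe00006e0001c00000c0003a00002800000000000000000000000000000000000000000000) (nat_lit 10)
theorem c75978 : QOK q75978 := cut [q75554] ⟨c75554, trivial⟩ (nd (nat_lit 269) (nat_lit 0) (cs (lf (nat_lit 14) (nat_lit 246)) (nd (nat_lit 247) (nat_lit 0) (cs (lf (nat_lit 8) (nat_lit 246)) (nd (nat_lit 246) (nat_lit 0) (cs (lf (nat_lit 29) (nat_lit 202)) (nd (nat_lit 267) (nat_lit 0) (cs (lf (nat_lit 41) (nat_lit 201)) (nd (nat_lit 201) (nat_lit 0) (cs (lf (nat_lit 47) (nat_lit 179)) (nd (nat_lit 265) (nat_lit 0) (cs (lf (nat_lit 13) (nat_lit 243)) (nd (nat_lit 203) (nat_lit 0) (cs (lf (nat_lit 35) (nat_lit 180)) (rf (nat_lit 0)))))))))))))))) q75978 (by decide +kernel)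
def q76008 : Q := Q.p (nat_lit 0x800002040000100010400041000000000000000000000000000000000000000000000) (nat_lit 0x8001020004000003bc000ee0000bc00000000000000000000000000000000000000) (nat_lit 8)
theorem c76008 : QOK q76008 := cut [q75996, q76003, q76005] ⟨c75996, c76003, c76005, trivial⟩ (nd (nat_lit 179) (nat_lit 0) (cs (lf (nat_lit 47) (nat_lit 157)) (nd (nat_lit 204) (nat_lit 0) (cs (nd (nat_lit 230) (nat_lit 0) (cs (lf (nat_lit 27) (nat_lit 186)) (nd (nat_lit 245) (nat_lit 0) (cs (lf (nat_lit 41) (nat_lit 179)) (rf (nat_lit 0)))))) (cs (rf (nat_lit 1)) (nd (nat_lit 245) (nat_lit 0) (cs (lf (nat_lit 41) (nat_lit 179)) (rf (nat_lit 2))))))))) q76008 (by decide +kernel)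
def q76016 : Q := Q.p (nat_lit 0x100000400001000004000000000000000000000000000000000000000) (nat_lit 0x800006000008000000000200000a000028000000000000000000000000000000000) (nat_lit 5)
theorem c76016 : QOK q76016 := cut [q76014] ⟨c76014, trivial⟩ (nd (nat_lit 245) (nat_lit 0) (cs (lf (nat_lit 40) (nat_lit 157)) (nd (nat_lit 135) (nat_lit 0) (cs (lf (nat_lit 46) (nat_lit 135)) (rf (nat_lit 0)))))) q76016 (by decide +kernel)
def q76021 : Q := Q.p (nat_lit 0x100000400001000004000000000000000000000000000000000000000) (nat_lit 0x800006000008000000000080000a000028000000000000000000000000000000000) (nat_lit 5)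
theorem c76021 : QOK q76021 := cut [q76019] ⟨c76019, trivial⟩ (nd (nat_lit 245) (nat_lit 0) (cs (lf (nat_lit 40) (nat_lit 157)) (nd (nat_lit 137) (nat_lit 0) (cs (lf (nat_lit 34) (nat_lit 136)) (rf (nat_lit 0)))))) q76021 (by decide +kernel)
def q76025 : Q := Q.p (nat_lit 0x800002000000100010400041000004000000000000000000000000000000000000000) (nat_lit 0x8000060008080020000000800002000008000000000000000000000000000000000) (nat_lit 5)
theorem c76025 : QOK q76025 := cut [q76019] ⟨c76019, trivial⟩ (nd (nat_lit 245) (nat_lit 0) (cs (lf (nat_lit 40) (nat_lit 157)) (nd (nat_lit 209) (nat_lit 0) (cs (lf (nat_lit 44) (nat_lit 186)) (rf (nat_lit 0)))))) q76025 (by decide +kernel)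
def q76028 : Q := Q.p (nat_lit 0x800002000000100010400041000004000000000000000000000000000000000000000) (nat_lit 0x8001060004080000000002000008000020000000000000000000000000000000000) (nat_lit 5)
theorem c76028 : QOK q76028 := cut [q76014] ⟨c76014, trivial⟩ (nd (nat_lit 245) (nat_lit 0) (cs (lf (nat_lit 40) (nat_lit 157)) (nd (nat_lit 230) (nat_lit 0) (cs (lf (nat_lit 27) (nat_lit 186)) (rf (nat_lit 0)))))) q76028 (by decide +kernel)
def q76097 : Q := Q.p (nat_lit 0x880002640000180010600040000000000000000000000000000000000000000000000) (nat_lit 0xc000070001000004000000000000000000000000000000000000000000000000000000000) (nat_lit 4)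
theorem c76097 : QOK q76097 := cut [q76096] ⟨c76096, trivial⟩ (nd (nat_lit 230) (nat_lit 0) (cs (lf (nat_lit 27) (nat_lit 186)) (rf (nat_lit 0)))) q76097 (by decide +kernel)
def q76119 : Q := Q.p (nat_lit 0x80000600000100000400001000002000000000000000000000000000000000000000) (nat_lit 0xa000078000060000000000000000800000000000000000000000000000000000000000000) (nat_lit 5)
theorem c76119 : QOK q76119 := cut [q76118] ⟨c76118, trivial⟩ (nd (nat_lit 246) (nat_lit 0) (cs (lf (nat_lit 46) (nat_lit 157)) (rf (nat_lit 0)))) q76119 (by decide +kernel)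
def q76127 : Q := Q.p (nat_lit 0x80000000000100000400001000004000000000000000000000000000000000000000) (nat_lit 0x8000078000060000080000200000800002000000000000000000000000000000000000000) (nat_lit 6)
theorem c76127 : QOK q76127 := cut [q76126] ⟨c76126, trivial⟩ (nd (nat_lit 245) (nat_lit 0) (cs (lf (nat_lit 40) (nat_lit 157)) (rf (nat_lit 0)))) q76127 (by decide +kernel)
def q76167 : Q := Q.p (nat_lit 0x800002000000100010400041000000000000000000000000000000000000000000000) (nat_lit 0x1000104000c080020a0000680000f8000380000e0000380000800000000000000000) (nat_lit 11)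
theorem c76167 : QOK q76167 := cut [q76134, q76143, q76148, q76157, q76166] ⟨c76134, c76143, c76148, c76157, c76166, trivial⟩ (nd (nat_lit 158) (nat_lit 0) (cs (rf (nat_lit 0)) (cs (nd (nat_lit 230) (nat_lit 0) (cs (lf (nat_lit 27) (nat_lit 186)) (nd (nat_lit 209) (nat_lit 0) (cs (lf (nat_lit 44) (nat_lit 186)) (rf (nat_lit 1)))))) (cs (nd (nat_lit 230) (nat_lit 0) (cs (lf (nat_lit 27) (nat_lit 186)) (nd (nat_lit 209) (nat_lit 0) (cs (lf (nat_lit 44) (nat_lit 186)) (rf (nat_lit 2)))))) (cs (nd (nat_lit 230) (nat_lit 0) (cs (lf (nat_lit 27) (nat_lit 186)) (nd (nat_lit 209) (nat_lit 0) (cs (lf (nat_lit 44) (nat_lit 186)) (rf (nat_lit 3)))))) (rf (nat_lit 4))))))) q76167 (by decide +kernel)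
def q76234 : Q := Q.p (nat_lit 0x8000020000001c0010400040000000000000000000000000000000000000000000000) (nat_lit 0x1000004020003a00000000000000000000000000000000000000000000000000) (nat_lit 4)
theorem c76234 : QOK q76234 := cut [q76233] ⟨c76233, trivial⟩ (nd (nat_lit 230) (nat_lit 0) (cs (lf (nat_lit 27) (nat_lit 186)) (rf (nat_lit 0)))) q76234 (by decide +kernel)
def q76252 : Q := Q.p (nat_lit 0x8800026000001c0010400040000000000000000000000000000000000000000000000) (nat_lit 0xc0000700010f8004e00003800002000000000000000000000000000000000000000000000) (nat_lit 7)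
theorem c76252 : QOK q76252 := cut [q76238, q76239, q76242, q76246, q76248] ⟨c76238, c76239, c76242, c76246, c76248, trivial⟩ (nd (nat_lit 225) (nat_lit 0) (cs (rf (nat_lit 0)) (cs (rf (nat_lit 1)) (nd (nat_lit 268) (nat_lit 0) (cs (nd (nat_lit 243) (nat_lit 0) (cs (lf (nat_lit 10) (nat_lit 221)) (rf (nat_lit 2)))) (cs (rf (nat_lit 3)) (nd (nat_lit 243) (nat_lit 0) (cs (lf (nat_lit 10) (nat_lit 221)) (nd (nat_lit 230) (nat_lit 0) (cs (lf (nat_lit 27) (nat_lit 186)) (rf (nat_lit 4)))))))))))) q76252 (by decide +kernel)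
def q76292 : Q := Q.p (nat_lit 0x8000020000001e0010000040000000000000000000000000000000000000000000000) (nat_lit 0x18000070010fc0040100001c0000600000800000000000000000000000000000000000000) (nat_lit 7)
theorem c76292 : QOK q76292 := cut [q76277, q76288] ⟨c76277, c76288, trivial⟩ (nd (nat_lit 244) (nat_lit 0) (cs (rf (nat_lit 0)) (cs (nd (nat_lit 230) (nat_lit 0) (cs (lf (nat_lit 27) (nat_lit 186)) (nd (nat_lit 199) (nat_lit 0) (cs (lf (nat_lit 23) (nat_lit 198)) (nd (nat_lit 246) (nat_lit 0) (cs (lf (nat_lit 5) (nat_lit 221)) (nd (nat_lit 177) (nat_lit 0) (cs (lf (nat_lit 24) (nat_lit 155)) (nd (nat_lit 266) (nat_lit 0) (cs (lf (nat_lit 45) (nat_lit 177)) (lf (nat_lit 42) (nat_lit 199)))))))))))) (nd (nat_lit 246) (nat_lit 0) (cs (lf (nat_lit 5) (nat_lit 221)) (nd (nat_lit 245) (nat_lit 0) (cs (lf (nat_lit 0) (nat_lit 220)) (nd (nat_lit 243) (nat_lit 0) (cs (lf (nat_lit 12) (nat_lit 220)) (rf (nat_lit 1))))))))))) q76292 (by decide +kernel)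
def q76327 : Q := Q.p (nat_lit 0x890002600000180010400040000000000000000000000000000000000000000000000) (nat_lit 0xc000060001040004000000200000800000000000000000000000000000000000000000000) (nat_lit 5)
theorem c76327 : QOK q76327 := cut [q76325] ⟨c76325, trivial⟩ (nd (nat_lit 230) (nat_lit 0) (cs (lf (nat_lit 27) (nat_lit 186)) (nd (nat_lit 269) (nat_lit 0) (cs (lf (nat_lit 14) (nat_lit 246)) (rf (nat_lit 0)))))) q76327 (by decide +kernel)
def q76396 : Q := Q.p (nat_lit 0x180000e00000000000000000000000000000000000000000000000000) (nat_lit 0x310000ee00000000000000000000000000000000000000000000) (nat_lit 5)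
theorem c76396 : QOK q76396 := cut [q75465] ⟨c75465, trivial⟩ (nd (nat_lit 204) (nat_lit 0) (cs (lf (nat_lit 6) (nat_lit 201)) (rf (nat_lit 0)))) q76396 (by decide +kernel)
def q76441 : Q := Q.p (nat_lit 0x800002000000080010f00040000000000000000000000000000000000000000000000) (nat_lit 0x1020004060000000000600001000004000000000000000000000000000000000) (nat_lit 5)
theorem c76441 : QOK q76441 := cut [q76439] ⟨c76439, trivial⟩ (nd (nat_lit 230) (nat_lit 0) (cs (lf (nat_lit 27) (nat_lit 186)) (nd (nat_lit 222) (nat_lit 0) (cs (lf (nat_lit 11) (nat_lit 199)) (rf (nat_lit 0)))))) q76441 (by decide +kernel)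

end Crest.Agent.H3.Snaky.CR
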