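import Crest.Agent.H3.Snaky.Cert
import Crest.Agent.H3.Snaky.CR.CR0
import Crest.Agent.H3.Snaky.CR.CR1
import Crest.Agent.H3.Snaky.CR.CR2
import Crest.Agent.H3.Snaky.CR.CR4
import Crest.Agent.H3.Snaky.CR.CR8
import Crest.Agent.H3.Snaky.CR.CR9
import Crest.Agent.H3.Snaky.CR.CR11
import Crest.Agent.H3.Snaky.CR.CR12
import Crest.Agent.H3.Snaky.CR.CR14
import Crest.Agent.H3.Snaky.CR.CR15
import Crest.Agent.H3.Snaky.CR.CR16
import Crest.Agent.H3.Snaky.CR.CR20
import Crest.Agent.H3.Snaky.CR.CR21
import Crest.Agent.H3.Snaky.CR.CR22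
import Crest.Agent.H3.Snaky.CR.CR23
import Crest.Agent.H3.Snaky.CR.CR24
import Crest.Agent.H3.Snaky.CR.CR25
import Crest.Agent.H3.Snaky.CR.CR27
import Crest.Agent.H3.Snaky.CR.CR28
import Crest.Agent.H3.Snaky.CR.CR29
import Crest.Agent.H3.Snaky.CR.CR30
import Crest.Agent.H3.Snaky.CR.CR31
import Crest.Agent.H3.Snaky.CR.CR32
import Crest.Agent.H3.Snaky.CR.CR33
import Crest.Agent.H3.Snaky.CR.CR34

set_option autoImplicit false
set_option maxRecDepth 100000

namespace Crest.Agent.H3.Snaky.CR

open T

def q76541 : Q := Q.p (nat_lit 0x800002020000180010400040000000000000000000000000000000000000000000000) (nat_lit 0x700003c00001c0082000203c0000c00000000000000000000000000000000000000000000) (nat_lit 8)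
theorem c76541 : QOK q76541 := cut [q76498, q76538] ⟨c76498, c76538, trivial⟩ (nd (nat_lit 209) (nat_lit 0) (cs (lf (nat_lit 44) (nat_lit 186)) (nd (nat_lit 267) (nat_lit 0) (cs (lf (nat_lit 30) (nat_lit 201)) (nd (nat_lit 201) (nat_lit 0) (cs (rf (nat_lit 0)) (rf (nat_lit 1)))))))) q76541 (by decide +kernel)
def q76678 : Q := Q.p (nat_lit 0x880002600000100011000040000000000000000000000000000000000000000000000) (nat_lit 0x6000010000100000ce0002200000c000000000000000000000000000000000000000000000) (nat_lit 6)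
theorem c76678 : QOK q76678 := cut [q62055] ⟨c62055, trivial⟩ (nd (nat_lit 227) (nat_lit 0) (cs (nd (nat_lit 230) (nat_lit 0) (cs (lf (nat_lit 27) (nat_lit 186)) (nd (nat_lit 209) (nat_lit 0) (cs (lf (nat_lit 44) (nat_lit 186)) (rf (nat_lit 0)))))) (nd (nat_lit 226) (nat_lit 0) (cs (lf (nat_lit 42) (nat_lit 204)) (lf (nat_lit 1) (nat_lit 224)))))) q76678 (by decide +kernel)
def q76734 : Q := Q.p (nat_lit 0x9a0000600000000000000000000000000000000000000000000000000000000000000) (nat_lit 0x1c0000650000000000000000000000000000000000000000000000000000000000000000000) (nat_lit 4)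
theorem c76734 : QOK q76734 := cut [q69289] ⟨c69289, trivial⟩ (nd (nat_lit 273) (nat_lit 0) (cs (lf (nat_lit 19) (nat_lit 249)) (rf (nat_lit 0)))) q76734 (by decide +kernel)
def q76744 : Q := Q.p (nat_lit 0x20000600000900000400000000000000000000000000000000000000000000000000) (nat_lit 0x8000000000080000600000800001000004000000000000000000000000000000000000000) (nat_lit 4)
theorem c76744 : QOK q76744 := cut [q76743] ⟨c76743, trivial⟩ (nd (nat_lit 225) (nat_lit 0) (cs (lf (nat_lit 2) (nat_lit 224)) (rf (nat_lit 0)))) q76744 (by decide +kernel)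
def q76752 : Q := Q.p (nat_lit 0x8a0002600000100010400040000000000000000000000000000000000000000000000) (nat_lit 0x80000e000058001040004200000800002000000000000000000000000000000000000000000000) (nat_lit 7)
theorem c76752 : QOK q76752 := cut [q76750] ⟨c76750, trivial⟩ (nd (nat_lit 268) (nat_lit 0) (cs (lf (nat_lit 14) (nat_lit 246)) (nd (nat_lit 246) (nat_lit 0) (cs (lf (nat_lit 29) (nat_lit 202)) (rf (nat_lit 0)))))) q76752 (by decide +kernel)
def q76769 : Q := Q.p (nat_lit 0x800002000000100010700040000000000000000000000000000000000000000000000) (nat_lit 0x10000042800000c0003800000000000000000000000000000000000000000000) (nat_lit 5)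
theorem c76769 : QOK q76769 := cut [q76768] ⟨c76768, trivial⟩ (nd (nat_lit 230) (nat_lit 0) (cs (lf (nat_lit 27) (nat_lit 186)) (rf (nat_lit 0)))) q76769 (by decide +kernel)
def q76781 : Q := Q.p (nat_lit 0x100000700000000000000000000000000000000000000000000000000) (nat_lit 0x2700008c0003f00000c00002000008000000000000000000000000000) (nat_lit 9)
theorem c76781 : QOK q76781 := cut [q76778] ⟨c76778, trivial⟩ (nd (nat_lit 199) (nat_lit 0) (cs (lf (nat_lit 5) (nat_lit 199)) (nd (nat_lit 220) (nat_lit 0) (cs (rf (nat_lit 0)) (lf (nat_lit 10) (nat_lit 198)))))) q76781 (by decide +kernel)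
def q76787 : Q := Q.p (nat_lit 0x800002000000100010700040000000000000000000000000000000000000000000000) (nat_lit 0x10000042f00008c0000700000000000000000000000000000000000000000000) (nat_lit 7)
theorem c76787 : QOK q76787 := cut [q76786] ⟨c76786, trivial⟩ (nd (nat_lit 230) (nat_lit 0) (cs (lf (nat_lit 27) (nat_lit 186)) (rf (nat_lit 0)))) q76787 (by decide +kernel)
def q76872 : Q := Q.p (nat_lit 0x880002200000100010600040000000000000000000000000000000000000000000000) (nat_lit 0x200109800ce700239c000ff0001fc0007e000068000000000000000000000000000) (nat_lit 11)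
theorem c76872 : QOK q76872 := cut [q76821, q76789, q76797, q76829, q49456, q76784, q50237, q76849, q76854, q49384, q76778] ⟨c76821, c76789, c76797, c76829, c49456, c76784, c50237, c76849, c76854, c49384, c76778, trivial⟩ (nd (nat_lit 200) (nat_lit 0) (cs (nd (nat_lit 199) (nat_lit 0) (cs (lf (nat_lit 5) (nat_lit 199)) (nd (nat_lit 178) (nat_lit 0) (cs (nd (nat_lit 221) (nat_lit 0) (cs (lf (nat_lit 11) (nat_lit 198)) (nd (nat_lit 243) (nat_lit 0) (cs (lf (nat_lit 30) (nat_lit 177)) (nd (nat_lit 156) (nat_lit 0) (cs (lf (nat_lit 36) (nat_lit 133)) (lf (nat_lit 39) (nat_lit 155)))))))) (nd (nat_lit 180) (nat_lit 0) (cs (lf (nat_lit 17) (nat_lit 177)) (nd (nat_lit 179) (nat_lit 0) (cs (lf (nat_lit 12) (nat_lit 176)) (nd (nat_lit 177) (nat_lit 0) (cs (lf (nat_lit 0) (nat_lit 176)) (nd (nat_lit 135) (nat_lit 0) (cs (lf (nat_lit 25) (nat_lit 135)) (nd (nat_lit 158) (nat_lit 0) (cs (nd (nat_lit 136) (nat_lit 0) (cs (lf (nat_lit 47) (nat_lit 113)) (lf (nat_lit 36) (nat_lit 113)))) (lf (nat_lit 17) (nat_lit 155))))))))))))))))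 (cs (nd (nat_lit 230) (nat_lit 0) (cs (lf (nat_lit 27) (nat_lit 186)) (nd (nat_lit 209) (nat_lit 0) (cs (lf (nat_lit 44) (nat_lit 186)) (nd (nat_lit 199) (nat_lit 0) (cs (lf (nat_lit 5) (nat_lit 199)) (nd (nat_lit 220) (nat_lit 0) (cs (lf (nat_lit 10) (nat_lit 198)) (nd (nat_lit 177) (nat_lit 0) (cs (lf (nat_lit 23) (nat_lit 176)) (nd (nat_lit 203) (nat_lit 0) (cs (lf (nat_lit 22) (nat_lit 177)) (rf (nat_lit 0)))))))))))))) (cs (nd (nat_lit 203) (nat_lit 0) (cs (rf (nat_lit 1)) (cs (rf (nat_lit 2)) (cs (rf (nat_lit 0)) (nd (nat_lit 230) (nat_lit 0) (cs (lf (nat_lit 27) (nat_lit 186)) (nd (nat_lit 181) (nat_lit 0) (cs (lf (nat_lit 17) (nat_lit 178)) (nd (nat_lit 137) (nat_lit 0) (cs (lf (nat_lit 37) (nat_lit 136)) (nd (nat_lit 222) (nat_lit 0) (cs (lf (nat_lit 11) (nat_lit 199)) (nd (nat_lit 209) (nat_lit 0) (cs (lf (nat_lit 44) (nat_lit 186)) (rf (nat_lit 3)))))))))))))))) (cs (nd (nat_lit 181) (nat_lit 0) (cs (nd (nat_lit 203) (nat_lit 0) (cs (lf (nat_lit 17) (nat_lit 178)) (nd (nat_lit 230) (nat_lit 0)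 (cs (lf (nat_lit 27) (nat_lit 186)) (nd (nat_lit 137) (nat_lit 0) (cs (lf (nat_lit 37) (nat_lit 136)) (rf (nat_lit 4)))))))) (cs (nd (nat_lit 230) (nat_lit 0) (cs (lf (nat_lit 27) (nat_lit 186)) (nd (nat_lit 199) (nat_lit 0) (cs (nd (nat_lit 209) (nat_lit 0) (cs (lf (nat_lit 44) (nat_lit 186)) (rf (nat_lit 5)))) (lf (nat_lit 16) (nat_lit 177)))))) (cs (nd (nat_lit 180) (nat_lit 0) (cs (rf (nat_lit 6)) (lf (nat_lit 12) (nat_lit 177)))) (nd (nat_lit 182) (nat_lit 0) (cs (lf (nat_lit 15) (nat_lit 178)) (nd (nat_lit 180) (nat_lit 0) (cs (lf (nat_lit 6) (nat_lit 179)) (lf (nat_lit 9) (nat_lit 178)))))))))) (cs (nd (nat_lit 230) (nat_lit 0) (cs (lf (nat_lit 27) (nat_lit 186)) (nd (nat_lit 209) (nat_lit 0) (cs (lf (nat_lit 44) (nat_lit 186)) (rf (nat_lit 7)))))) (cs (nd (nat_lit 199) (nat_lit 0) (cs (lf (nat_lit 5) (nat_lit 199)) (nd (nat_lit 180) (nat_lit 0) (cs (lf (nat_lit 17) (nat_lit 177)) (nd (nat_lit 179) (nat_lit 0) (cs (lf (nat_lit 12) (nat_lit 176)) (nd (nat_lit 135) (nat_lit 0) (cs (lf (nat_lit 25) (nat_lit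 135)) (nd (nat_lit 177) (nat_lit 0) (cs (lf (nat_lit 23) (nat_lit 176)) (nd (nat_lit 230) (nat_lit 0) (cs (lf (nat_lit 27) (nat_lit 186)) (rf (nat_lit 8)))))))))))))) (cs (nd (nat_lit 209) (nat_lit 0) (cs (lf (nat_lit 44) (nat_lit 186)) (nd (nat_lit 230) (nat_lit 0) (cs (lf (nat_lit 27) (nat_lit 186)) (nd (nat_lit 199) (nat_lit 0) (cs (lf (nat_lit 5) (nat_lit 199)) (nd (nat_lit 180) (nat_lit 0) (cs (lf (nat_lit 17) (nat_lit 177)) (nd (nat_lit 179) (nat_lit 0) (cs (lf (nat_lit 12) (nat_lit 176)) (nd (nat_lit 135) (nat_lit 0) (cs (lf (nat_lit 25) (nat_lit 135)) (nd (nat_lit 221) (nat_lit 0) (cs (lf (nat_lit 11) (nat_lit 198)) (nd (nat_lit 203) (nat_lit 0) (cs (lf (nat_lit 10) (nat_lit 199)) (rf (nat_lit 9)))))))))))))))))) (nd (nat_lit 209) (nat_lit 0) (cs (lf (nat_lit 44) (nat_lit 186)) (nd (nat_lit 230) (nat_lit 0) (cs (lf (nat_lit 27) (nat_lit 186)) (nd (nat_lit 199) (nat_lit 0) (cs (lf (nat_lit 5) (nat_lit 199)) (rf (nat_lit 10)))))))))))))))) q76872 (by decide +kernel)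
def q76873 : Q := Q.p (nat_lit 0x800002000000100010700040000000000000000000000000000000000000000000000) (nat_lit 0x1000004e80000080000000000000000000000000000000000000000000000000) (nat_lit 4)
theorem c76873 : QOK q76873 := cut [q74489] ⟨c74489, trivial⟩ (nd (nat_lit 230) (nat_lit 0) (cs (lf (nat_lit 27) (nat_lit 186)) (rf (nat_lit 0)))) q76873 (by decide +kernel)
def q76874 : Q := Q.p (nat_lit 0x80000200000000000700000000000000000000000000000000000000000000000000) (nat_lit 0xc7000388000e700000000000000000000000000000000000000000000) (nat_lit 5)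
theorem c76874 : QOK q76874 := cut [q49456, q76821] ⟨c49456, c76821, trivial⟩ (nd (nat_lit 203) (nat_lit 0) (cs (rf (nat_lit 0)) (rf (nat_lit 1)))) q76874 (by decide +kernel)
def q76906 : Q := Q.p (nat_lit 0x800002000000180010600040000000000000000000000000000000000000000000000) (nat_lit 0x700003c00103c004640000000001c00007000018000000000000000000000000000000000) (nat_lit 8)
theorem c76906 : QOK q76906 := cut [q51650, q76499, q76894, q76899, q76903] ⟨c51650, c76499, c76894, c76899, c76903, trivial⟩ (nd (nat_lit 245) (nat_lit 0) (cs (rf (nat_lit 0)) (cs (rf (nat_lit 1)) (nd (nat_lit 179) (nat_lit 0) (cs (nd (nat_lit 230) (nat_lit 0) (cs (lf (nat_lit 27) (nat_lit 186)) (rf (nat_lit 2)))) (cs (nd (nat_lit 158) (nat_lit 0) (cs (lf (nat_lit 34) (nat_lit 157)) (rf (nat_lit 3)))) (nd (nat_lit 230) (nat_lit 0) (cs (lf (nat_lit 27) (nat_lit 186)) (rf (nat_lit 4)))))))))) q76906 (by decide +kernel)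
def q76983 : Q := Q.p (nat_lit 0x800002000000180010700040000000000000000000000000000000000000000000000) (nat_lit 0x80000600101c00c0700200c0000700001800002000000000000000000000000000000000) (nat_lit 8)
theorem c76983 : QOK q76983 := cut [q76262, q76302, q76978] ⟨c76262, c76302, c76978, trivial⟩ (nd (nat_lit 222) (nat_lit 0) (cs (nd (nat_lit 230) (nat_lit 0) (cs (lf (nat_lit 27) (nat_lit 186)) (nd (nat_lit 221) (nat_lit 0) (cs (lf (nat_lit 12) (nat_lit 198)) (nd (nat_lit 243) (nat_lit 0) (cs (lf (nat_lit 11) (nat_lit 220)) (nd (nat_lit 265) (nat_lit 0) (cs (lf (nat_lit 30) (nat_lit 199)) (nd (nat_lit 178) (nat_lit 0) (cs (lf (nat_lit 36) (nat_lit 155)) (lf (nat_lit 39) (nat_lit 177)))))))))))) (cs (nd (nat_lit 221) (nat_lit 0) (cs (lf (nat_lit 12) (nat_lit 198)) (nd (nat_lit 199) (nat_lit 0) (cs (lf (nat_lit 0) (nat_lit 198)) (nd (nat_lit 242) (nat_lit 0) (cs (lf (nat_lit 10) (nat_lit 220)) (rf (nat_lit 0)))))))) (cs (nd (nat_lit 209) (nat_lit 0) (cs (lf (nat_lit 44) (nat_lit 186)) (nd (nat_lit 221) (nat_lit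 0) (cs (lf (nat_lit 12) (nat_lit 198)) (nd (nat_lit 199) (nat_lit 0) (cs (lf (nat_lit 0) (nat_lit 198)) (nd (nat_lit 243) (nat_lit 0) (cs (lf (nat_lit 11) (nat_lit 220)) (rf (nat_lit 1)))))))))) (nd (nat_lit 209) (nat_lit 0) (cs (lf (nat_lit 44) (nat_lit 186)) (nd (nat_lit 199) (nat_lit 0) (cs (lf (nat_lit 0) (nat_lit 198)) (nd (nat_lit 230) (nat_lit 0) (cs (lf (nat_lit 27) (nat_lit 186)) (nd (nat_lit 177) (nat_lit 0) (cs (lf (nat_lit 23) (nat_lit 176)) (rf (nat_lit 2)))))))))))))) q76983 (by decide +kernel)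
def q77056 : Q := Q.p (nat_lit 0x800002600000180010600040000000000000000000000000000000000000000000000) (nat_lit 0x300000c00103c00ce700201c0001400004000000000000000000000000000000000000000) (nat_lit 10)
theorem c77056 : QOK q77056 := cut [q76687, q74473, q76537, q75892] ⟨c76687, c74473, c76537, c75892, trivial⟩ (nd (nat_lit 225) (nat_lit 0) (cs (rf (nat_lit 0)) (cs (nd (nat_lit 230) (nat_lit 0) (cs (lf (nat_lit 27) (nat_lit 186)) (nd (nat_lit 226) (nat_lit 0) (cs (lf (nat_lit 3) (nat_lit 224)) (rf (nat_lit 1)))))) (nd (nat_lit 222) (nat_lit 0) (cs (nd (nat_lit 200) (nat_lit 0) (cs (rf (nat_lit 2)) (nd (nat_lit 230) (nat_lit 0) (cs (lf (nat_lit 27) (nat_lit 186)) (nd (nat_lit 244) (nat_lit 0) (cs (lf (nat_lit 11) (nat_lit 221)) (nd (nat_lit 209) (nat_lit 0) (cs (lf (nat_lit 44) (nat_lit 186)) (nd (nat_lit 266) (nat_lit 0) (cs (lf (nat_lit 30) (nat_lit 200)) (nd (nat_lit 267) (nat_lit 0) (cs (lf (nat_lit 29) (nat_lit 200)) (nd (nat_lit 245) (nat_lit 0) (cs (lf (nat_lit 47) (nat_lit 178)) (lf (nat_lit 35) (nat_lit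 179)))))))))))))))) (cs (nd (nat_lit 221) (nat_lit 0) (cs (lf (nat_lit 12) (nat_lit 198)) (nd (nat_lit 243) (nat_lit 0) (cs (lf (nat_lit 10) (nat_lit 221)) (lf (nat_lit 11) (nat_lit 220)))))) (nd (nat_lit 199) (nat_lit 0) (cs (lf (nat_lit 1) (nat_lit 199)) (rf (nat_lit 3)))))))))) q77056 (by decide +kernel)
def q77101 : Q := Q.p (nat_lit 0x800002000000180010600040000000000000000000000000000000000000000000000) (nat_lit 0x10a800c6700201c000ff0001f8000ff000008000000000000000000000000000) (nat_lit 10)
theorem c77101 : QOK q77101 := cut [q76537, q76986, q76987, q77018, q77082, q76985, q77092] ⟨c76537, c76986, c76987, c77018, c77082, c76985, c77092, trivial⟩ (nd (nat_lit 200) (nat_lit 0) (cs (rf (nat_lit 0)) (cs (nd (nat_lit 158) (nat_lit 0) (cs (rf (nat_lit 1)) (cs (nd (nat_lit 157) (nat_lit 0) (cs (rf (nat_lit 2)) (cs (rf (nat_lit 3)) (cs (nd (nat_lit 230) (nat_lit 0) (cs (lf (nat_lit 27) (nat_lit 186)) (nd (nat_lit 225) (nat_lit 0) (cs (lf (nat_lit 18) (nat_lit 200)) (nd (nat_lit 179) (nat_lit 0) (cs (lf (nat_lit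 35) (nat_lit 135)) (rf (nat_lit 4)))))))) (nd (nat_lit 209) (nat_lit 0) (cs (lf (nat_lit 44) (nat_lit 186)) (nd (nat_lit 225) (nat_lit 0) (cs (lf (nat_lit 18) (nat_lit 200)) (nd (nat_lit 179) (nat_lit 0) (cs (lf (nat_lit 24) (nat_lit 135)) (rf (nat_lit 4)))))))))))) (cs (nd (nat_lit 230) (nat_lit 0) (cs (lf (nat_lit 27) (nat_lit 186)) (nd (nat_lit 180) (nat_lit 0) (cs (lf (nat_lit 41) (nat_lit 157)) (rf (nat_lit 5)))))) (rf (nat_lit 6)))))) (nd (nat_lit 199) (nat_lit 0) (cs (lf (nat_lit 0) (nat_lit 198)) (nd (nat_lit 230) (nat_lit 0) (cs (lf (nat_lit 27) (nat_lit 186)) (nd (nat_lit 220) (nat_lit 0) (cs (lf (nat_lit 10) (nat_lit 198)) (nd (nat_lit 176) (nat_lit 0) (cs (nd (nat_lit 180) (nat_lit 0) (cs (lf (nat_lit 17) (nat_lit 177)) (nd (nat_lit 158) (nat_lit 0) (cs (lf (nat_lit 36) (nat_lit 135)) (lf (nat_lit 41) (nat_lit 157)))))) (lf (nat_lit 22) (nat_lit 176))))))))))))) q77101 (by decide +kernel)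
def q77117 : Q := Q.p (nat_lit 0x180000600001000000000000000000000000000000000000000000000) (nat_lit 0x8000060000018000000000e000038000000000000000000000000000000000) (nat_lit 6)
theorem c77117 : QOK q77117 := cut [q77114] ⟨c77114, trivial⟩ (nd (nat_lit 158) (nat_lit 0) (cs (lf (nat_lit 36) (nat_lit 135)) (nd (nat_lit 135) (nat_lit 0) (cs (lf (nat_lit 46) (nat_lit 135)) (nd (nat_lit 137) (nat_lit 0) (cs (lf (nat_lit 34) (nat_lit 136)) (rf (nat_lit 0)))))))) q77117 (by decide +kernel)
def q77162 : Q := Q.p (nat_lit 0x880002600000300010f00040000000000000000000000000000000000000000000000) (nat_lit 0xc00007000108000406000000000700000c000030000000000000000000000000000000000) (nat_lit 6)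
theorem c77162 : QOK q77162 := cut [q77155, q77158] ⟨c77155, c77158, trivial⟩ (nd (nat_lit 158) (nat_lit 0) (cs (nd (nat_lit 180) (nat_lit 0) (cs (lf (nat_lit 24) (nat_lit 136)) (lf (nat_lit 29) (nat_lit 158)))) (cs (nd (nat_lit 230) (nat_lit 0) (cs (lf (nat_lit 27) (nat_lit 186)) (rf (nat_lit 0)))) (nd (nat_lit 181) (nat_lit 0) (cs (lf (nat_lit 17) (nat_lit 178)) (nd (nat_lit 247) (nat_lit 0) (cs (rf (nat_lit 1)) (lf (nat_lit 25) (nat_lit 158))))))))) q77162 (by decide +kernel)
def q77181 : Q := Q.p (nat_lit 0x180000e00000000000000000000000000000000000000000000000000) (nat_lit 0xe0000310000e000000000000000000000000000000000000000000000) (nat_lit 5)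
theorem c77181 : QOK q77181 := cut [q76656] ⟨c76656, trivial⟩ (nd (nat_lit 204) (nat_lit 0) (cs (lf (nat_lit 6) (nat_lit 201)) (rf (nat_lit 0)))) q77181 (by decide +kernel)
def q77355 : Q := Q.p (nat_lit 0x800002600000100010400041000000000000000000000000000000000000000000000) (nat_lit 0x108000ce0002080003ee0007f0001f80000a0000000000000000000000000000) (nat_lit 11)
theorem c77355 : QOK q77355 := cut [q75733, q77346, q77348, q76172, q76177, q76186, q76179] ⟨c75733, c77346, c77348, c76172, c76177, c76186, c76179, trivial⟩ (nd (nat_lit 158) (nat_lit 0) (cs (rf (nat_lit 0)) (cs (rf (nat_lit 1)) (cs (nd (nat_lit 209) (nat_lit 0) (cs (lf (nat_lit 44) (nat_lit 186)) (rf (nat_lit 2)))) (nd (nat_lit 159) (nat_lit 0) (cs (lf (nat_lit 35) (nat_lit 136)) (nd (nat_lit 160) (nat_lit 0) (cs (rf (nat_lit 3)) (cs (rf (nat_lit 4)) (cs (rf (nat_lit 5)) (nd (nat_lit 225) (nat_lit 0) (cs (lf (nat_lit 29) (nat_lit 158)) (nd (nat_lit 209) (nat_lit 0) (cs (lf (nat_lit 44) (nat_lit 186)) (nd (nat_lit 226) (nat_lit 0) (cs (lf (nat_lit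 3) (nat_lit 224)) (rf (nat_lit 6)))))))))))))))))) q77355 (by decide +kernel)
def q77366 : Q := Q.p (nat_lit 0x880002600000100010400041000000000000000000000000000000000000000000000) (nat_lit 0xa0000780010e000420000080000200000c000020000000000000000000000000000000000) (nat_lit 7)
theorem c77366 : QOK q77366 := cut [q75656, q75675, q77356] ⟨c75656, c75675, c77356, trivial⟩ (nd (nat_lit 246) (nat_lit 0) (cs (rf (nat_lit 0)) (cs (rf (nat_lit 1)) (nd (nat_lit 230) (nat_lit 0) (cs (lf (nat_lit 27) (nat_lit 186)) (nd (nat_lit 245) (nat_lit 0) (cs (lf (nat_lit 41) (nat_lit 179)) (nd (nat_lit 159) (nat_lit 0) (cs (lf (nat_lit 34) (nat_lit 158)) (nd (nat_lit 158) (nat_lit 0) (cs (lf (nat_lit 35) (nat_lit 136)) (rf (nat_lit 2))))))))))))) q77366 (by decide +kernel)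
def q77430 : Q := Q.p (nat_lit 0x880002600000100010400041000000000000000000000000000000000000000000000) (nat_lit 0x400001200010c0004e60003bc000ef0007bc0006e0001b8000000000000000000000000000) (nat_lit 9)
theorem c77430 : QOK q77430 := cut [q77373, q75706, q75370, q77393, q75994, q37428, q77400, q75717, q75696, q77415, q76772, q75712, q75854] ⟨c77373, c75706, c75370, c77393, c75994, c37428, c77400, c75717, c75696, c77415, c76772, c75712, c75854, trivial⟩ (nd (nat_lit 179) (nat_lit 0) (cs (nd (nat_lit 157) (nat_lit 0) (cs (lf (nat_lit 42) (nat_lit 157)) (nd (nat_lit 135) (nat_lit 0) (cs (lf (nat_lit 24) (nat_lit 113)) (lf (nat_lit 27) (nat_lit 135)))))) (cs (nd (nat_lit 204) (nat_lit 0) (cs (nd (nat_lit 203) (nat_lit 0) (cs (lf (nat_lit 18) (nat_lit 179)) (rf (nat_lit 0)))) (cs (nd (nat_lit 246) (nat_lit 0) (cs (lf (nat_lit 47) (nat_lit 157)) (nd (nat_lit 181) (nat_lit 0) (cs (lf (nat_lit 35) (nat_lit 158)) (nd (nat_lit 178) (nat_lit 0) (cs (lf (nat_lit 4) (nat_lit 178)) (rf (nat_lit 1)))))))) (cs (nd (nat_lit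 246) (nat_lit 0) (cs (lf (nat_lit 47) (nat_lit 157)) (nd (nat_lit 247) (nat_lit 0) (cs (lf (nat_lit 29) (nat_lit 180)) (nd (nat_lit 181) (nat_lit 0) (cs (lf (nat_lit 35) (nat_lit 158)) (nd (nat_lit 182) (nat_lit 0) (cs (lf (nat_lit 5) (nat_lit 179)) (nd (nat_lit 160) (nat_lit 0) (cs (lf (nat_lit 17) (nat_lit 157)) (nd (nat_lit 226) (nat_lit 0) (cs (lf (nat_lit 40) (nat_lit 159)) (lf (nat_lit 28) (nat_lit 160)))))))))))))) (nd (nat_lit 230) (nat_lit 0) (cs (lf (nat_lit 27) (nat_lit 186)) (nd (nat_lit 205) (nat_lit 0) (cs (lf (nat_lit 20) (nat_lit 179)) (nd (nat_lit 157) (nat_lit 0) (cs (lf (nat_lit 42) (nat_lit 157)) (nd (nat_lit 113) (nat_lit 0) (cs (rf (nat_lit 2)) (lf (nat_lit 25) (nat_lit 113)))))))))))))) (cs (nd (nat_lit 181) (nat_lit 0) (cs (rf (nat_lit 3)) (cs (nd (nat_lit 182) (nat_lit 0) (cs (rf (nat_lit 4)) (nd (nat_lit 230) (nat_lit 0) (cs (lf (nat_lit 27) (nat_lit 186)) (nd (nat_lit 160) (nat_lit 0) (cs (lf (nat_lit 17) (nat_lit 157)) (nd (nat_lit 204) (nat_lit 0) (cs (lf (nat_lit 5) (nat_lit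 179)) (nd (nat_lit 203) (nat_lit 0) (cs (rf (nat_lit 5)) (lf (nat_lit 0) (nat_lit 178)))))))))))) (nd (nat_lit 230) (nat_lit 0) (cs (lf (nat_lit 27) (nat_lit 186)) (rf (nat_lit 6))))))) (nd (nat_lit 178) (nat_lit 0) (cs (rf (nat_lit 7)) (cs (nd (nat_lit 230) (nat_lit 0) (cs (lf (nat_lit 27) (nat_lit 186)) (nd (nat_lit 177) (nat_lit 0) (cs (lf (nat_lit 5) (nat_lit 177)) (nd (nat_lit 199) (nat_lit 0) (cs (lf (nat_lit 11) (nat_lit 176)) (nd (nat_lit 155) (nat_lit 0) (cs (lf (nat_lit 23) (nat_lit 154)) (nd (nat_lit 181) (nat_lit 0) (cs (lf (nat_lit 10) (nat_lit 177)) (lf (nat_lit 22) (nat_lit 155)))))))))))) (cs (nd (nat_lit 199) (nat_lit 0) (cs (nd (nat_lit 230) (nat_lit 0) (cs (lf (nat_lit 27) (nat_lit 186)) (nd (nat_lit 177) (nat_lit 0) (cs (lf (nat_lit 11) (nat_lit 176)) (nd (nat_lit 155) (nat_lit 0) (cs (lf (nat_lit 23) (nat_lit 154)) (nd (nat_lit 156) (nat_lit 0) (cs (rf (nat_lit 8)) (lf (nat_lit 18) (nat_lit 155)))))))))) (cs (nd (nat_lit 230) (nat_lit 0) (cs (lf (nat_lit 27) (nat_lit 186)) (nd (nat_lit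 181) (nat_lit 0) (cs (lf (nat_lit 10) (nat_lit 177)) (rf (nat_lit 9)))))) (cs (nd (nat_lit 177) (nat_lit 0) (cs (lf (nat_lit 11) (nat_lit 176)) (nd (nat_lit 201) (nat_lit 0) (cs (lf (nat_lit 0) (nat_lit 176)) (nd (nat_lit 155) (nat_lit 0) (cs (lf (nat_lit 23) (nat_lit 154)) (nd (nat_lit 200) (nat_lit 0) (cs (lf (nat_lit 5) (nat_lit 199)) (rf (nat_lit 10)))))))))) (nd (nat_lit 230) (nat_lit 0) (cs (lf (nat_lit 27) (nat_lit 186)) (nd (nat_lit 177) (nat_lit 0) (cs (lf (nat_lit 11) (nat_lit 176)) (nd (nat_lit 201) (nat_lit 0) (cs (lf (nat_lit 0) (nat_lit 176)) (nd (nat_lit 200) (nat_lit 0) (cs (lf (nat_lit 5) (nat_lit 199)) (lf (nat_lit 6) (nat_lit 177)))))))))))))) (nd (nat_lit 181) (nat_lit 0) (cs (rf (nat_lit 11)) (cs (rf (nat_lit 12)) (rf (nat_lit 9))))))))))))) q77430 (by decide +kernel)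
def q77470 : Q := Q.p (nat_lit 0x880002600000900010400040000000000000000000000000000000000000000000000) (nat_lit 0x4000070000100000428000780001c000050000000000000000000000000000000000000000) (nat_lit 8)
theorem c77470 : QOK q77470 := cut [q40955, q77466, q77469] ⟨c40955, c77466, c77469, trivial⟩ (nd (nat_lit 205) (nat_lit 0) (cs (rf (nat_lit 0)) (cs (nd (nat_lit 230) (nat_lit 0) (cs (lf (nat_lit 27) (nat_lit 186)) (rf (nat_lit 1)))) (rf (nat_lit 2))))) q77470 (by decide +kernel)
def q77479 : Q := Q.p (nat_lit 0x810002040000100010400040000000000000000000000000000000000000000000000) (nat_lit 0x80000380000e000008001020004080000200000000000000000000000000000000000000000000000000) (nat_lit 7)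
theorem c77479 : QOK q77479 := cut [q72372] ⟨c72372, trivial⟩ (nd (nat_lit 230) (nat_lit 0) (cs (lf (nat_lit 27) (nat_lit 186)) (nd (nat_lit 289) (nat_lit 0) (cs (lf (nat_lit 40) (nat_lit 201)) (nd (nat_lit 290) (nat_lit 0) (cs (lf (nat_lit 41) (nat_lit 223)) (rf (nat_lit 0)))))))) q77479 (by decide +kernel)
def q77562 : Q := Q.p (nat_lit 0x40000100000400001000000000000000000000000000000000000000000000) (nat_lit 0x80000a000028000080000000000c000030000080000000000000000000000000000) (nat_lit 6)
theorem c77562 : QOK q77562 := cut [q77346] ⟨c77346, trivial⟩ (nd (nat_lit 245) (nat_lit 0) (cs (lf (nat_lit 41) (nat_lit 179)) (nd (nat_lit 158) (nat_lit 0) (cs (lf (nat_lit 40) (nat_lit 157)) (rf (nat_lit 0)))))) q77562 (by decide +kernel)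
def q77586 : Q := Q.p (nat_lit 0x800002040000100010400040000000000000000000000000000000000000000000000) (nat_lit 0x100010a000c280021a00003e0000e000038000000000000000000000000000000000) (nat_lit 9)
theorem c77586 : QOK q77586 := cut [q75355, q75360, q77577] ⟨c75355, c75360, c77577, trivial⟩ (nd (nat_lit 180) (nat_lit 0) (cs (rf (nat_lit 0)) (cs (rf (nat_lit 1)) (cs (nd (nat_lit 230) (nat_lit 0) (cs (lf (nat_lit 27) (nat_lit 186)) (nd (nat_lit 209) (nat_lit 0) (cs (lf (nat_lit 44) (nat_lit 186)) (nd (nat_lit 157) (nat_lit 0) (cs (lf (nat_lit 46) (nat_lit 157)) (nd (nat_lit 158) (nat_lit 0) (cs (lf (nat_lit 47) (nat_lit 135)) (rf (nat_lit 2)))))))))) (nd (nat_lit 230) (nat_lit 0) (cs (lf (nat_lit 27) (nat_lit 186)) (nd (nat_lit 209) (nat_lit 0) (cs (lf (nat_lit 44) (nat_lit 186)) (nd (nat_lit 159) (nat_lit 0) (cs (lf (nat_lit 34) (nat_lit 158)) (nd (nat_lit 158) (nat_lit 0) (cs (lf (nat_lit 35) (nat_lit 136)) (rf (nat_lit 2)))))))))))))) q77586 (by decide +kernel)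
def q77601 : Q := Q.p (nat_lit 0x100000400001000004000000000000000000000000000000000000000) (nat_lit 0x2000008000020000080000380000e0000080000000000000000000000) (nat_lit 6)
theorem c77601 : QOK q77601 := cut [q77599] ⟨c77599, trivial⟩ (nd (nat_lit 137) (nat_lit 0) (cs (lf (nat_lit 34) (nat_lit 136)) (nd (nat_lit 136) (nat_lit 0) (cs (lf (nat_lit 35) (nat_lit 114)) (rf (nat_lit 0)))))) q77601 (by decide +kernel)
def q77610 : Q := Q.p (nat_lit 0x80000200000010001040004100001c000000000000000000000000000000000000000) (nat_lit 0x800002000003c000022000008000000000000000000000000000000000) (nat_lit 5)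
theorem c77610 : QOK q77610 := cut [q77609] ⟨c77609, trivial⟩ (nd (nat_lit 157) (nat_lit 0) (cs (lf (nat_lit 47) (nat_lit 135)) (rf (nat_lit 0)))) q77610 (by decide +kernel)
def q77620 : Q := Q.p (nat_lit 0x40000100000400001000000000000000000000000000000000000000000000) (nat_lit 0x3bc000ee0000bc00000000000000000000000000000000000000) (nat_lit 8)
theorem c77620 : QOK q77620 := cut [q75996, q76003, q76005] ⟨c75996, c76003, c76005, trivial⟩ (nd (nat_lit 179) (nat_lit 0) (cs (lf (nat_lit 47) (nat_lit 157)) (nd (nat_lit 204) (nat_lit 0) (cs (rf (nat_lit 0)) (cs (rf (nat_lit 1)) (rf (nat_lit 2))))))) q77620 (by decide +kernel)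
def q77637 : Q := Q.p (nat_lit 0x880002600000100010400041000000000000000000000000000000000000000000000) (nat_lit 0xa000078001160004c000039c0006e0003bc00000000000000000000000000000000000000) (nat_lit 9)
theorem c77637 : QOK q77637 := cut [q76118, q76002, q77630] ⟨c76118, c76002, c77630, trivial⟩ (nd (nat_lit 246) (nat_lit 0) (cs (rf (nat_lit 0)) (nd (nat_lit 181) (nat_lit 0) (cs (lf (nat_lit 35) (nat_lit 158)) (nd (nat_lit 179) (nat_lit 0) (cs (lf (nat_lit 47) (nat_lit 157)) (nd (nat_lit 204) (nat_lit 0) (cs (rf (nat_lit 1)) (nd (nat_lit 230) (nat_lit 0) (cs (lf (nat_lit 27) (nat_lit 186)) (nd (nat_lit 182) (nat_lit 0) (cs (lf (nat_lit 5) (nat_lit 179)) (nd (nat_lit 160) (nat_lit 0) (cs (lf (nat_lit 17) (nat_lit 157)) (rf (nat_lit 2)))))))))))))))) q77637 (by decide +kernel)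
def q77657 : Q := Q.p (nat_lit 0x800002600000100010400041000004000000000000000000000000000000000000000) (nat_lit 0x112000ce80020800000000008000030000080000000000000000000000000000) (nat_lit 8)
theorem c77657 : QOK q77657 := cut [q77652] ⟨c77652, trivial⟩ (nd (nat_lit 223) (nat_lit 0) (cs (lf (nat_lit 41) (nat_lit 157)) (nd (nat_lit 230) (nat_lit 0) (cs (lf (nat_lit 27) (nat_lit 186)) (nd (nat_lit 209) (nat_lit 0) (cs (lf (nat_lit 44) (nat_lit 186)) (nd (nat_lit 137) (nat_lit 0) (cs (lf (nat_lit 34) (nat_lit 136)) (nd (nat_lit 136) (nat_lit 0) (cs (lf (nat_lit 35) (nat_lit 114)) (rf (nat_lit 0)))))))))))) q77657 (by decide +kernel)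
def q77664 : Q := Q.p (nat_lit 0x800002600000100010400041000004000000000000000000000000000000000000000) (nat_lit 0x120008e80020800000000002000018000020000000000000000000000000000) (nat_lit 7)
theorem c77664 : QOK q77664 := cut [q77652] ⟨c77652, trivial⟩ (nd (nat_lit 223) (nat_lit 0) (cs (lf (nat_lit 41) (nat_lit 157)) (nd (nat_lit 209) (nat_lit 0) (cs (lf (nat_lit 44) (nat_lit 186)) (nd (nat_lit 135) (nat_lit 0) (cs (lf (nat_lit 46) (nat_lit 135)) (nd (nat_lit 136) (nat_lit 0) (cs (lf (nat_lit 47) (nat_lit 113)) (rf (nat_lit 0)))))))))) q77664 (by decide +kernel)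
def q77675 : Q := Q.p (nat_lit 0x880002600000800010000040000000000000000000000000000000000000000000000) (nat_lit 0x1000006000010000100000440000700001c000050000000000000000000000000000000000000000) (nat_lit 6)
theorem c77675 : QOK q77675 := cut [q40955, q77469, q65836] ⟨c40955, c77469, c65836, trivial⟩ (nd (nat_lit 205) (nat_lit 0) (cs (rf (nat_lit 0)) (cs (rf (nat_lit 1)) (nd (nat_lit 230) (nat_lit 0) (cs (lf (nat_lit 27) (nat_lit 186)) (nd (nat_lit 204) (nat_lit 0) (cs (lf (nat_lit 47) (nat_lit 182)) (nd (nat_lit 294) (nat_lit 0) (cs (lf (nat_lit 28) (nat_lit 205)) (rf (nat_lit 2))))))))))) q77675 (by decide +kernel)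
def q77684 : Q := Q.p (nat_lit 0x80000600000100000400001000008000000000000000000000000000000000000000) (nat_lit 0xa000078000060000000000000002000000000000000000000000000000000000000000000) (nat_lit 5)
theorem c77684 : QOK q77684 := cut [q76118] ⟨c76118, trivial⟩ (nd (nat_lit 246) (nat_lit 0) (cs (lf (nat_lit 34) (nat_lit 158)) (rf (nat_lit 0)))) q77684 (by decide +kernel)
def q77721 : Q := Q.p (nat_lit 0x800002200000580010000040000000000000000000000000000000000000000000000) (nat_lit 0x1138004240000380000000000000000000000000000000000000000000000000) (nat_lit 6)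
theorem c77721 : QOK q77721 := cut [q69946] ⟨c69946, trivial⟩ (nd (nat_lit 230) (nat_lit 0) (cs (lf (nat_lit 27) (nat_lit 186)) (nd (nat_lit 225) (nat_lit 0) (cs (rf (nat_lit 0)) (lf (nat_lit 4) (nat_lit 223)))))) q77721 (by decide +kernel)
def q77722 : Q := Q.p (nat_lit 0x80000200000580000000000000000000000000000000000000000000000000000000) (nat_lit 0x8000020000040000100000200001000004000000000000000000000000000000000000000000000) (nat_lit 4)
theorem c77722 : QOK q77722 := cut [q63832] ⟨c63832, trivial⟩ (nd (nat_lit 248) (nat_lit 0) (cs (rf (nat_lit 0)) (lf (nat_lit 2) (nat_lit 223)))) q77722 (by decide +kernel)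
def q77727 : Q := Q.p (nat_lit 0x200000700000000000000000000000000000000000000000000000000000000) (nat_lit 0x1380000c0000380000000000000000000000000000000000000000000000000) (nat_lit 5)
theorem c77727 : QOK q77727 := cut [q69946] ⟨c69946, trivial⟩ (nd (nat_lit 223) (nat_lit 0) (cs (rf (nat_lit 0)) (lf (nat_lit 4) (nat_lit 223)))) q77727 (by decide +kernel)
def q77738 : Q := Q.p (nat_lit 0x880002600000500010000040000000000000000000000000000000000000000000000) (nat_lit 0x20000000001000004a00003000004000010000000000000000000000000000000000000000) (nat_lit 5)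
theorem c77738 : QOK q77738 := cut [q57501] ⟨c57501, trivial⟩ (nd (nat_lit 230) (nat_lit 0) (cs (lf (nat_lit 27) (nat_lit 186)) (nd (nat_lit 227) (nat_lit 0) (cs (lf (nat_lit 1) (nat_lit 224)) (rf (nat_lit 0)))))) q77738 (by decide +kernel)
def q77856 : Q := Q.p (nat_lit 0x100000400002000000000000000000000000000000000000000000000) (nat_lit 0x1000004000020000080000100000c000020000080000000000000000000000000000) (nat_lit 4)
theorem c77856 : QOK q77856 := cut [q77745] ⟨c77745, trivial⟩ (nd (nat_lit 159) (nat_lit 0) (cs (nd (nat_lit 203) (nat_lit 0) (cs (lf (nat_lit 36) (nat_lit 136)) (nd (nat_lit 246) (nat_lit 0) (cs (lf (nat_lit 30) (nat_lit 180)) (lf (nat_lit 39) (nat_lit 158)))))) (cs (nd (nat_lit 246) (nat_lit 0) (cs (lf (nat_lit 33) (nat_lit 158)) (nd (nat_lit 203) (nat_lit 0) (cs (lf (nat_lit 30) (nat_lit 180)) (lf (nat_lit 39) (nat_lit 158)))))) (cs (rf (nat_lit 0)) (nd (nat_lit 137) (nat_lit 0) (cs (lf (nat_lit 39) (nat_lit 136)) (nd (nat_lit 180) (nat_lit 0) (cs (lf (nat_lit 33) (nat_lit 136)) (lf (nat_lit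 36) (nat_lit 114)))))))))) q77856 (by decide +kernel)
def q77940 : Q := Q.p (nat_lit 0x800002000000100010400041000000000000000000000000000000000000000000000) (nat_lit 0x10300040e0001b00006e0000fc0003e0000a0000000000000000000000000000) (nat_lit 10)
theorem c77940 : QOK q77940 := cut [q75684, q75730, q75733, q77334, q75737] ⟨c75684, c75730, c75733, c77334, c75737, trivial⟩ (nd (nat_lit 158) (nat_lit 0) (cs (rf (nat_lit 0)) (cs (rf (nat_lit 1)) (cs (rf (nat_lit 2)) (nd (nat_lit 223) (nat_lit 0) (cs (lf (nat_lit 41) (nat_lit 157)) (nd (nat_lit 157) (nat_lit 0) (cs (lf (nat_lit 47) (nat_lit 135)) (nd (nat_lit 156) (nat_lit 0) (cs (rf (nat_lit 3)) (cs (nd (nat_lit 155) (nat_lit 0) (cs (lf (nat_lit 5) (nat_lit 155)) (nd (nat_lit 179) (nat_lit 0) (cs (lf (nat_lit 0) (nat_lit 154)) (nd (nat_lit 201) (nat_lit 0) (cs (lf (nat_lit 47) (nat_lit 134)) (rf (nat_lit 4)))))))) (nd (nat_lit 159) (nat_lit 0) (cs (lf (nat_lit 35) (nat_lit 136)) (nd (nat_lit 230) (nat_lit 0) (cs (lf (nat_lit 27) (nat_lit 186)) (nd (nat_lit 178)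 (nat_lit 0) (cs (lf (nat_lit 11) (nat_lit 155)) (nd (nat_lit 134) (nat_lit 0) (cs (lf (nat_lit 23) (nat_lit 133)) (nd (nat_lit 201) (nat_lit 0) (cs (lf (nat_lit 44) (nat_lit 134)) (lf (nat_lit 27) (nat_lit 134))))))))))))))))))))))) q77940 (by decide +kernel)
def q77965 : Q := Q.p (nat_lit 0x100000400001000004000000000000000000000000000000000000000) (nat_lit 0x3ae0007b8001ef000000000000000000000000000000000) (nat_lit 8)
theorem c77965 : QOK q77965 := cut [q76172, q76177, q76175, q77959] ⟨c76172, c76177, c76175, c77959, trivial⟩ (nd (nat_lit 159) (nat_lit 0) (cs (lf (nat_lit 35) (nat_lit 136)) (nd (nat_lit 160) (nat_lit 0) (cs (rf (nat_lit 0)) (cs (rf (nat_lit 1)) (cs (nd (nat_lit 157) (nat_lit 0) (cs (lf (nat_lit 47) (nat_lit 135)) (nd (nat_lit 139) (nat_lit 0) (cs (lf (nat_lit 16) (nat_lit 135)) (nd (nat_lit 161) (nat_lit 0) (cs (lf (nat_lit 17) (nat_lit 136)) (rf (nat_lit 2)))))))) (nd (nat_lit 157) (nat_lit 0) (cs (lf (nat_lit 47) (nat_lit 135)) (nd (nat_lit 178) (nat_lit 0) (cs (lf (nat_lit 10) (nat_lit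 156)) (nd (nat_lit 156) (nat_lit 0) (cs (lf (nat_lit 11) (nat_lit 155)) (nd (nat_lit 155) (nat_lit 0) (cs (lf (nat_lit 5) (nat_lit 155)) (rf (nat_lit 3)))))))))))))))) q77965 (by decide +kernel)
def q77982 : Q := Q.p (nat_lit 0x600000100000400001000008000000000000000000000000000000000000000) (nat_lit 0x120000e80000a00000000004000038000060000080000000000000000000000) (nat_lit 8)
theorem c77982 : QOK q77982 := cut [q77652] ⟨c77652, trivial⟩ (nd (nat_lit 158) (nat_lit 0) (cs (lf (nat_lit 35) (nat_lit 136)) (nd (nat_lit 223) (nat_lit 0) (cs (lf (nat_lit 41) (nat_lit 157)) (nd (nat_lit 136) (nat_lit 0) (cs (lf (nat_lit 40) (nat_lit 135)) (nd (nat_lit 113) (nat_lit 0) (cs (lf (nat_lit 46) (nat_lit 113)) (nd (nat_lit 91) (nat_lit 0) (cs (rf (nat_lit 0)) (lf (nat_lit 45) (nat_lit 91)))))))))))) q77982 (by decide +kernel)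
def q78057 : Q := Q.p (nat_lit 0x8a0002680000100010000040000000000000000000000000000000000000000000000) (nat_lit 0x100000c0001500010000046c0007c00005000004000000000000000000000000000000000000000) (nat_lit 8)
theorem c78057 : QOK q78057 := cut [q45757, q70965, q78056] ⟨c45757, c70965, c78056, trivial⟩ (nd (nat_lit 225) (nat_lit 0) (cs (rf (nat_lit 0)) (cs (nd (nat_lit 230) (nat_lit 0) (cs (lf (nat_lit 27) (nat_lit 186)) (nd (nat_lit 268) (nat_lit 0) (cs (lf (nat_lit 14) (nat_lit 246)) (nd (nat_lit 203) (nat_lit 0) (cs (lf (nat_lit 41) (nat_lit 202)) (rf (nat_lit 1)))))))) (rf (nat_lit 2))))) q78057 (by decide +kernel)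
def q78080 : Q := Q.p (nat_lit 0x800002680000100010000040000000000000000000000000000000000000000000000) (nat_lit 0x38001140004280000000000000000000000000000000000000000000000000000000) (nat_lit 5)
theorem c78080 : QOK q78080 := cut [q44570] ⟨c44570, trivial⟩ (nd (nat_lit 248) (nat_lit 0) (cs (lf (nat_lit 22) (nat_lit 224)) (nd (nat_lit 230) (nat_lit 0) (cs (lf (nat_lit 27) (nat_lit 186)) (rf (nat_lit 0)))))) q78080 (by decide +kernel)
def q78139 : Q := Q.p (nat_lit 0x880002600000380010000040000000000000000000000000000000000000000000000) (nat_lit 0xe0000780010e000cc70020f8000380000e000000000000000000000000000000000000000) (nat_lit 11)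
theorem c78139 : QOK q78139 := cut [q78094, q74185, q51143, q75267, q74347] ⟨c78094, c74185, c51143, c75267, c74347, trivial⟩ (nd (nat_lit 246) (nat_lit 0) (cs (nd (nat_lit 230) (nat_lit 0) (cs (lf (nat_lit 27) (nat_lit 186)) (nd (nat_lit 209) (nat_lit 0) (cs (lf (nat_lit 44) (nat_lit 186)) (nd (nat_lit 226) (nat_lit 0) (cs (lf (nat_lit 3) (nat_lit 224)) (nd (nat_lit 200) (nat_lit 0) (cs (lf (nat_lit 22) (nat_lit 200)) (nd (nat_lit 222) (nat_lit 0) (cs (lf (nat_lit 23) (nat_lit 199)) (nd (nat_lit 221) (nat_lit 0) (cs (lf (nat_lit 5) (nat_lit 221)) (nd (nat_lit 202) (nat_lit 0) (cs (lf (nat_lit 17) (nat_lit 199)) (rf (nat_lit 0)))))))))))))))) (cs (nd (nat_lit 226) (nat_lit 0) (cs (lf (nat_lit 3) (nat_lit 224)) (nd (nat_lit 201) (nat_lit 0) (cs (lf (nat_lit 23) (nat_lit 200)) (nd (nat_lit 230) (nat_lit 0) (cs (lf (nat_lit 27) (nat_lit 186)) (nd (nat_lit 268) (nat_lit 0) (cs (lf (nat_lit 42) (nat_lit 201)) (rf (nat_lit 1)))))))))) (cs (nd (nat_lit 230) (nat_lit 0) (cs (lf (nat_lit 27) (nat_lit 186)) (nd (nat_lit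 226) (nat_lit 0) (cs (lf (nat_lit 3) (nat_lit 224)) (nd (nat_lit 201) (nat_lit 0) (cs (lf (nat_lit 23) (nat_lit 200)) (nd (nat_lit 209) (nat_lit 0) (cs (lf (nat_lit 44) (nat_lit 186)) (nd (nat_lit 268) (nat_lit 0) (cs (lf (nat_lit 42) (nat_lit 201)) (rf (nat_lit 2)))))))))))) (nd (nat_lit 268) (nat_lit 0) (cs (rf (nat_lit 3)) (cs (nd (nat_lit 269) (nat_lit 0) (cs (lf (nat_lit 14) (nat_lit 246)) (nd (nat_lit 202) (nat_lit 0) (cs (lf (nat_lit 29) (nat_lit 202)) (nd (nat_lit 203) (nat_lit 0) (cs (lf (nat_lit 30) (nat_lit 202)) (lf (nat_lit 35) (nat_lit 180)))))))) (nd (nat_lit 209) (nat_lit 0) (cs (lf (nat_lit 44) (nat_lit 186)) (rf (nat_lit 4))))))))))) q78139 (by decide +kernel)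
def q78176 : Q := Q.p (nat_lit 0x800002080000300010c00040000000000000000000000000000000000000000000000) (nat_lit 0xc000030000000008080027000004000000000000000000000000000000000000000000000) (nat_lit 6)
theorem c78176 : QOK q78176 := cut [q49412] ⟨c49412, trivial⟩ (nd (nat_lit 269) (nat_lit 0) (cs (lf (nat_lit 42) (nat_lit 202)) (nd (nat_lit 268) (nat_lit 0) (cs (lf (nat_lit 41) (nat_lit 202)) (nd (nat_lit 209) (nat_lit 0) (cs (lf (nat_lit 44) (nat_lit 186)) (rf (nat_lit 0)))))))) q78176 (by decide +kernel)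
def q78186 : Q := Q.p (nat_lit 0x800002080000300010400040000000000000000000000000000000000000000000000) (nat_lit 0x8000020001000004000000800001000004000000000000000000000000000000000000000) (nat_lit 4)
theorem c78186 : QOK q78186 := cut [q74447] ⟨c74447, trivial⟩ (nd (nat_lit 230) (nat_lit 0) (cs (lf (nat_lit 27) (nat_lit 186)) (rf (nat_lit 0)))) q78186 (by decide +kernel)
def q78269 : Q := Q.p (nat_lit 0x880002600000100010c00041000000000000000000000000000000000000000000000) (nat_lit 0x10000102000c88002700003e80007e0001780000e0000080000000000000000000000) (nat_lit 9)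
theorem c78269 : QOK q78269 := cut [q78214, q56661, q75733, q75728, q77596] ⟨c78214, c56661, c75733, c75728, c77596, trivial⟩ (nd (nat_lit 205) (nat_lit 0) (cs (rf (nat_lit 0)) (cs (nd (nat_lit 183) (nat_lit 0) (cs (nd (nat_lit 230) (nat_lit 0) (cs (lf (nat_lit 27) (nat_lit 186)) (nd (nat_lit 227) (nat_lit 0) (cs (lf (nat_lit 29) (nat_lit 183)) (rf (nat_lit 1)))))) (cs (nd (nat_lit 227) (nat_lit 0) (cs (lf (nat_lit 29) (nat_lit 183)) (nd (nat_lit 160) (nat_lit 0) (cs (lf (nat_lit 46) (nat_lit 160)) (nd (nat_lit 161) (nat_lit 0) (cs (lf (nat_lit 47) (nat_lit 138)) (nd (nat_lit 162) (nat_lit 0) (cs (lf (nat_lit 35) (nat_lit 139)) (nd (nat_lit 159) (nat_lit 0) (cs (lf (nat_lit 10) (nat_lit 158)) (nd (nat_lit 137) (nat_lit 0) (cs (lf (nat_lit 23) (nat_lit 136)) (lf (nat_lit 33) (nat_lit 136)))))))))))))) (nd (nat_lit 158) (nat_lit 0) (cs (rf (nat_lit 2)) (cs (nd (nat_lit 209) (nat_lit 0) (cs (lf (nat_lit 44) (nat_lit 186)) (nd (nat_lit 184) (nat_lit 0) (cs (lf (nat_lit 2) (nat_lit 183)) (nd (nat_lit 181) (nat_lit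 0) (cs (lf (nat_lit 8) (nat_lit 180)) (nd (nat_lit 136) (nat_lit 0) (cs (rf (nat_lit 3)) (lf (nat_lit 24) (nat_lit 114)))))))))) (cs (nd (nat_lit 230) (nat_lit 0) (cs (lf (nat_lit 27) (nat_lit 186)) (nd (nat_lit 137) (nat_lit 0) (cs (lf (nat_lit 34) (nat_lit 136)) (nd (nat_lit 136) (nat_lit 0) (cs (lf (nat_lit 35) (nat_lit 114)) (nd (nat_lit 113) (nat_lit 0) (cs (lf (nat_lit 46) (nat_lit 113)) (rf (nat_lit 4)))))))))) (cs (nd (nat_lit 159) (nat_lit 0) (cs (lf (nat_lit 35) (nat_lit 136)) (nd (nat_lit 230) (nat_lit 0) (cs (lf (nat_lit 27) (nat_lit 186)) (nd (nat_lit 209) (nat_lit 0) (cs (lf (nat_lit 44) (nat_lit 186)) (nd (nat_lit 157) (nat_lit 0) (cs (lf (nat_lit 47) (nat_lit 135)) (nd (nat_lit 182) (nat_lit 0) (cs (lf (nat_lit 3) (nat_lit 157)) (lf (nat_lit 20) (nat_lit 157)))))))))))) (nd (nat_lit 223) (nat_lit 0) (cs (lf (nat_lit 41) (nat_lit 157)) (nd (nat_lit 137) (nat_lit 0) (cs (lf (nat_lit 34) (nat_lit 136)) (nd (nat_lit 136) (nat_lit 0) (cs (lf (nat_lit 35) (nat_lit 114)) (nd (nat_lit 181) (nat_lit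 0) (cs (lf (nat_lit 24) (nat_lit 114)) (nd (nat_lit 182) (nat_lit 0) (cs (lf (nat_lit 23) (nat_lit 157)) (lf (nat_lit 5) (nat_lit 180)))))))))))))))))))) (nd (nat_lit 209) (nat_lit 0) (cs (lf (nat_lit 44) (nat_lit 186)) (nd (nat_lit 230) (nat_lit 0) (cs (lf (nat_lit 27) (nat_lit 186)) (nd (nat_lit 204) (nat_lit 0) (cs (lf (nat_lit 23) (nat_lit 179)) (nd (nat_lit 181) (nat_lit 0) (cs (lf (nat_lit 18) (nat_lit 180)) (nd (nat_lit 137) (nat_lit 0) (cs (lf (nat_lit 37) (nat_lit 136)) (nd (nat_lit 183) (nat_lit 0) (cs (lf (nat_lit 17) (nat_lit 180)) (nd (nat_lit 227) (nat_lit 0) (cs (lf (nat_lit 29) (nat_lit 183)) (lf (nat_lit 47) (nat_lit 182))))))))))))))))))) q78269 (by decide +kernel)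
def q78326 : Q := Q.p (nat_lit 0x880002600000100010c00041000000000000000000000000000000000000000000000) (nat_lit 0x10000102000c8e002720003e80005e0000300000e0000180000200000000000000000) (nat_lit 9)
theorem c78326 : QOK q78326 := cut [q78322] ⟨c78322, trivial⟩ (nd (nat_lit 209) (nat_lit 0) (cs (lf (nat_lit 44) (nat_lit 186)) (nd (nat_lit 158) (nat_lit 0) (cs (nd (nat_lit 137) (nat_lit 0) (cs (lf (nat_lit 34) (nat_lit 136)) (nd (nat_lit 136) (nat_lit 0) (cs (lf (nat_lit 35) (nat_lit 114)) (nd (nat_lit 114) (nat_lit 0) (cs (lf (nat_lit 28) (nat_lit 114)) (nd (nat_lit 179) (nat_lit 0) (cs (lf (nat_lit 41) (nat_lit 113)) (nd (nat_lit 92) (nat_lit 0) (cs (nd (nat_lit 91) (nat_lit 0) (cs (lf (nat_lit 47) (nat_lit 69)) (lf (nat_lit 46) (nat_lit 91)))) (lf (nat_lit 40) (nat_lit 91)))))))))))) (cs (nd (nat_lit 223) (nat_lit 0) (cs (lf (nat_lit 41) (nat_lit 157)) (nd (nat_lit 222) (nat_lit 0) (cs (lf (nat_lit 12) (nat_lit 199)) (nd (nat_lit 201) (nat_lit 0) (cs (lf (nat_lit 36) (nat_lit 135)) (lf (nat_lit 6) (nat_lit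 200)))))))) (cs (nd (nat_lit 183) (nat_lit 0) (cs (nd (nat_lit 223) (nat_lit 0) (cs (lf (nat_lit 41) (nat_lit 157)) (nd (nat_lit 184) (nat_lit 0) (cs (lf (nat_lit 2) (nat_lit 183)) (nd (nat_lit 181) (nat_lit 0) (cs (lf (nat_lit 8) (nat_lit 180)) (nd (nat_lit 137) (nat_lit 0) (cs (lf (nat_lit 37) (nat_lit 136)) (nd (nat_lit 136) (nat_lit 0) (cs (lf (nat_lit 35) (nat_lit 114)) (lf (nat_lit 24) (nat_lit 114)))))))))))) (cs (nd (nat_lit 223) (nat_lit 0) (cs (lf (nat_lit 41) (nat_lit 157)) (nd (nat_lit 205) (nat_lit 0) (cs (lf (nat_lit 7) (nat_lit 201)) (nd (nat_lit 227) (nat_lit 0) (cs (lf (nat_lit 29) (nat_lit 183)) (nd (nat_lit 182) (nat_lit 0) (cs (lf (nat_lit 47) (nat_lit 160)) (nd (nat_lit 181) (nat_lit 0) (cs (lf (nat_lit 23) (nat_lit 157)) (lf (nat_lit 5) (nat_lit 180)))))))))))) (nd (nat_lit 137) (nat_lit 0) (cs (lf (nat_lit 34) (nat_lit 136)) (nd (nat_lit 115) (nat_lit 0) (cs (lf (nat_lit 33) (nat_lit 114)) (nd (nat_lit 184) (nat_lit 0) (cs (lf (nat_lit 2) (nat_lit 183)) (nd (nat_lit 205) (nat_lit 0)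 (cs (lf (nat_lit 14) (nat_lit 180)) (nd (nat_lit 227) (nat_lit 0) (cs (lf (nat_lit 35) (nat_lit 161)) (lf (nat_lit 34) (nat_lit 183))))))))))))))) (nd (nat_lit 230) (nat_lit 0) (cs (lf (nat_lit 27) (nat_lit 186)) (nd (nat_lit 137) (nat_lit 0) (cs (lf (nat_lit 34) (nat_lit 136)) (rf (nat_lit 0)))))))))))) q78326 (by decide +kernel)
def q78481 : Q := Q.p (nat_lit 0x40000100000400001000000000000000000000000000000000000000000000) (nat_lit 0x200001800002000000000020000280000a000000000000000000000000000000000000000) (nat_lit 5)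
theorem c78481 : QOK q78481 := cut [q75650] ⟨c75650, trivial⟩ (nd (nat_lit 267) (nat_lit 0) (cs (lf (nat_lit 40) (nat_lit 179)) (nd (nat_lit 159) (nat_lit 0) (cs (lf (nat_lit 34) (nat_lit 158)) (rf (nat_lit 0)))))) q78481 (by decide +kernel)
def q78536 : Q := Q.p (nat_lit 0x20000180000600000000000000000000000000000000000000000000000000000000000000) (nat_lit 0x6000018000040000000000000000c0000300000c000000000000000000000000000000000000000000000) (nat_lit 6)
theorem c78536 : QOK q78536 := cut [q46969] ⟨c46969, trivial⟩ (nd (nat_lit 315) (nat_lit 0) (cs (lf (nat_lit 30) (nat_lit 249)) (nd (nat_lit 316) (nat_lit 0) (cs (lf (nat_lit 29) (nat_lit 249)) (nd (nat_lit 227) (nat_lit 0) (cs (lf (nat_lit 28) (nat_lit 227)) (rf (nat_lit 0)))))))) q78536 (by decide +kernel)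
def q78572 : Q := Q.p (nat_lit 0x20000980002600000800010000040000000000000000000000000000000000000000000000) (nat_lit 0x2000008000000000000000100008400021000000000000000000000000000000000000000000000000000) (nat_lit 4)
theorem c78572 : QOK q78572 := cut [q46588] ⟨c46588, trivial⟩ (nd (nat_lit 209) (nat_lit 0) (cs (lf (nat_lit 44) (nat_lit 186)) (rf (nat_lit 0)))) q78572 (by decide +kernel)
def q78671 : Q := Q.p (nat_lit 0x800002000008000020000000000000000000000000000000000000000000000) (nat_lit 0x100000400001000000000040000180000400000000000000000000000000000000000) (nat_lit 4)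
theorem c78671 : QOK q78671 := cut [q78670] ⟨c78670, trivial⟩ (nd (nat_lit 250) (nat_lit 0) (cs (lf (nat_lit 41) (nat_lit 184)) (rf (nat_lit 0)))) q78671 (by decide +kernel)
def q78687 : Q := Q.p (nat_lit 0x2000038000000000000000000000000000000000000000000000000000) (nat_lit 0xc0000300001c0000400004000007c0001c0000700001400000000000000000000000000000) (nat_lit 9)
theorem c78687 : QOK q78687 := cut [q1597, q24611, q1749, q5380, q1884] ⟨c1597, c24611, c1749, c5380, c1884, trivial⟩ (nd (nat_lit 185) (nat_lit 0) (cs (rf (nat_lit 0)) (cs (rf (nat_lit 1)) (nd (nat_lit 163) (nat_lit 0) (cs (rf (nat_lit 2)) (cs (rf (nat_lit 3)) (nd (nat_lit 140) (nat_lit 0) (cs (lf (nat_lit 46) (nat_lit 140)) (nd (nat_lit 230) (nat_lit 0) (cs (lf (nat_lit 29) (nat_lit 163)) (rf (nat_lit 4)))))))))))) q78687 (by decide +kernel)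
def q78717 : Q := Q.p (nat_lit 0x2000000000038000000000000000000000000000000000000000000000000000) (nat_lit 0xe0000380001e00003c000060001fc0000e0000380000800000000000000000000000000000) (nat_lit 13)
theorem c78717 : QOK q78717 := cut [q1464, q1550, q78656, q1545, q1496, q5881, q17191, q1540] ⟨c1464, c1550, c78656, c1545, c1496, c5881, c17191, c1540, trivial⟩ (nd (nat_lit 206) (nat_lit 0) (cs (rf (nat_lit 0)) (cs (rf (nat_lit 1)) (cs (rf (nat_lit 2)) (nd (nat_lit 228) (nat_lit 0) (cs (lf (nat_lit 11) (nat_lit 205)) (nd (nat_lit 250) (nat_lit 0) (cs (rf (nat_lit 3)) (cs (nd (nat_lit 187) (nat_lit 0) (cs (lf (nat_lit 17) (nat_lit 184)) (rf (nat_lit 4)))) (cs (nd (nat_lit 187) (nat_lit 0) (cs (lf (nat_lit 17) (nat_lit 184)) (nd (nat_lit 184) (nat_lit 0) (cs (lf (nat_lit 23) (nat_lit 183)) (nd (nat_lit 251) (nat_lit 0) (cs (lf (nat_lit 29) (nat_lit 184)) (nd (nat_lit 162) (nat_lit 0) (cs (lf (nat_lit 28) (nat_lit 162)) (nd (nat_lit 141) (nat_lit 0) (cs (lf (nat_lit 34) (nat_lit 140)) (nd (nat_lit 119) (nat_lit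 0) (cs (lf (nat_lit 33) (nat_lit 118)) (nd (nat_lit 139) (nat_lit 0) (cs (lf (nat_lit 46) (nat_lit 139)) (rf (nat_lit 5)))))))))))))))) (cs (nd (nat_lit 184) (nat_lit 0) (cs (lf (nat_lit 23) (nat_lit 183)) (nd (nat_lit 187) (nat_lit 0) (cs (lf (nat_lit 17) (nat_lit 184)) (nd (nat_lit 249) (nat_lit 0) (cs (lf (nat_lit 41) (nat_lit 183)) (nd (nat_lit 251) (nat_lit 0) (cs (lf (nat_lit 29) (nat_lit 184)) (rf (nat_lit 6)))))))))) (nd (nat_lit 187) (nat_lit 0) (cs (lf (nat_lit 17) (nat_lit 184)) (nd (nat_lit 183) (nat_lit 0) (cs (lf (nat_lit 22) (nat_lit 183)) (rf (nat_lit 7))))))))))))))))) q78717 (by decide +kernel)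
def q78727 : Q := Q.p (nat_lit 0xf0000000000000000000000000000000000000000000000000000) (nat_lit 0x100000ee0000000000000000000000000000000000000000000000) (nat_lit 4)
theorem c78727 : QOK q78727 := cut [q2454] ⟨c2454, trivial⟩ (nd (nat_lit 186) (nat_lit 0) (cs (lf (nat_lit 23) (nat_lit 185)) (rf (nat_lit 0)))) q78727 (by decide +kernel)
def q78736 : Q := Q.p (nat_lit 0x3c000000000000000000000000000000000000000000000000000) (nat_lit 0x738000c0000700000000000000000000000000000000000000000000000) (nat_lit 6)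
theorem c78736 : QOK q78736 := cut [q18827] ⟨c18827, trivial⟩ (nd (nat_lit 228) (nat_lit 0) (cs (lf (nat_lit 11) (nat_lit 205)) (nd (nat_lit 210) (nat_lit 0) (cs (lf (nat_lit 10) (nat_lit 206)) (rf (nat_lit 0)))))) q78736 (by decide +kernel)
def q78744 : Q := Q.p (nat_lit 0x2000008000038000000000000000000000000000000000000000000000000000) (nat_lit 0x770000c0000380000400001000000000000000000000000000000000000) (nat_lit 5)
theorem c78744 : QOK q78744 := cut [q18142, q78698] ⟨c18142, c78698, trivial⟩ (nd (nat_lit 210) (nat_lit 0) (cs (rf (nat_lit 0)) (rf (nat_lit 1)))) q78744 (by decide +kernel)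
def q78775 : Q := Q.p (nat_lit 0x2000008000038000040000000000000000000000000000000000000000000000) (nat_lit 0x100000c0000330000400001000000000000000000000000000000000000) (nat_lit 4)
theorem c78775 : QOK q78775 := cut [q2683, q16059] ⟨c2683, c16059, trivial⟩ (nd (nat_lit 210) (nat_lit 0) (cs (rf (nat_lit 0)) (rf (nat_lit 1)))) q78775 (by decide +kernel)
def q78840 : Q := Q.p (nat_lit 0x3000000000070000040000000000000000000000000000000000000000000000) (nat_lit 0xe0000080003b00000c000030000000000000000000000000000000000000000000000) (nat_lit 5)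
theorem c78840 : QOK q78840 := cut [q7826, q78839] ⟨c7826, c78839, trivial⟩ (nd (nat_lit 207) (nat_lit 0) (cs (rf (nat_lit 0)) (rf (nat_lit 1)))) q78840 (by decide +kernel)
def q78923 : Q := Q.p (nat_lit 0x400003c0000000000000000000000000000000000000000) (nat_lit 0x1b8001c00007000000000000000000000000000000000000) (nat_lit 6)
theorem c78923 : QOK q78923 := cut [q19754] ⟨c19754, trivial⟩ (nd (nat_lit 187) (nat_lit 0) (cs (lf (nat_lit 5) (nat_lit 162)) (rf (nat_lit 0)))) q78923 (by decide +kernel)
def q79009 : Q := Q.p (nat_lit 0x7800000000000000000000000000000000000000000000000000000000000000) (nat_lit 0x3b80000400000000000000000000000000000000000000000000000000000000000000) (nat_lit 4)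
theorem c79009 : QOK q79009 := cut [q79007] ⟨c79007, trivial⟩ (nd (nat_lit 276) (nat_lit 0) (cs (rf (nat_lit 0)) (lf (nat_lit 5) (nat_lit 251)))) q79009 (by decide +kernel)
def q79024 : Q := Q.p (nat_lit 0x7800000000000000000000000000000000000000000000000000000000000000) (nat_lit 0x3800000400003800000000000000000000000000000000000000000000000000000000) (nat_lit 4)
theorem c79024 : QOK q79024 := cut [q79023] ⟨c79023, trivial⟩ (nd (nat_lit 276) (nat_lit 0) (cs (lf (nat_lit 5) (nat_lit 251)) (rf (nat_lit 0)))) q79024 (by decide +kernel)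
def q79029 : Q := Q.p (nat_lit 0x3000004000010000000000000000000000000000000000000000000000000000) (nat_lit 0x8000000000000000000000e0000380000a00000000000000000000000000000000000) (nat_lit 5)
theorem c79029 : QOK q79029 := cut [q499] ⟨c499, trivial⟩ (nd (nat_lit 186) (nat_lit 0) (cs (lf (nat_lit 29) (nat_lit 186)) (rf (nat_lit 0)))) q79029 (by decide +kernel)
def q79041 : Q := Q.p (nat_lit 0x7000004000010000000000000000000000000000000000000000000000000000) (nat_lit 0x140000000000b00006c0007e0000780000a00000000000000000000000000000000000) (nat_lit 9)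
theorem c79041 : QOK q79041 := cut [q79031, q79032, q79034, q78834] ⟨c79031, c79032, c79034, c78834, trivial⟩ (nd (nat_lit 187) (nat_lit 0) (cs (rf (nat_lit 0)) (cs (nd (nat_lit 186) (nat_lit 0) (cs (lf (nat_lit 35) (nat_lit 164)) (rf (nat_lit 1)))) (cs (rf (nat_lit 2)) (nd (nat_lit 209) (nat_lit 0) (cs (lf (nat_lit 30) (nat_lit 186)) (nd (nat_lit 231) (nat_lit 0) (cs (nd (nat_lit 228) (nat_lit 0) (cs (nd (nat_lit 164) (nat_lit 0) (cs (lf (nat_lit 25) (nat_lit 164)) (rf (nat_lit 3)))) (lf (nat_lit 1) (nat_lit 228)))) (lf (nat_lit 29) (nat_lit 187)))))))))) q79041 (by decide +kernel)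
def q79046 : Q := Q.p (nat_lit 0x80000400003000004000000000000000000000000000000000000000000000000000000000) (nat_lit 0x200000e0000300000000000000008000000000000000000000000000000000000000000000000000000000) (nat_lit 4)
theorem c79046 : QOK q79046 := cut [q79045] ⟨c79045, trivial⟩ (nd (nat_lit 296) (nat_lit 0) (cs (lf (nat_lit 41) (nat_lit 229)) (rf (nat_lit 0)))) q79046 (by decide +kernel)
def q79055 : Q := Q.p (nat_lit 0xc0000700000c000020000000000000000000000000000000000000000000000000000) (nat_lit 0x1c00007000000000013000040000100000000000000000000000000000000000000000000000) (nat_lit 6)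
theorem c79055 : QOK q79055 := cut [q79054] ⟨c79054, trivial⟩ (nd (nat_lit 228) (nat_lit 0) (cs (lf (nat_lit 1) (nat_lit 228)) (rf (nat_lit 0)))) q79055 (by decide +kernel)
def q79066 : Q := Q.p (nat_lit 0x3000004000010000000000000000000000000000000000000000000000000000) (nat_lit 0x800000000008000000000060000180000200000000000000000000000000000000000) (nat_lit 4)
theorem c79066 : QOK q79066 := cut [q79032] ⟨c79032, trivial⟩ (nd (nat_lit 186) (nat_lit 0) (cs (lf (nat_lit 29) (nat_lit 186)) (rf (nat_lit 0)))) q79066 (by decide +kernel)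
def q79072 : Q := Q.p (nat_lit 0xf000004000000000000000000000000000000000000000000000000000000000) (nat_lit 0x200000e00010000000000010000040000000000000000000000000000000000000000000000) (nat_lit 4)
theorem c79072 : QOK q79072 := cut [q79070] ⟨c79070, trivial⟩ (nd (nat_lit 274) (nat_lit 0) (cs (rf (nat_lit 0)) (lf (nat_lit 11) (nat_lit 251)))) q79072 (by decide +kernel)
def q79096 : Q := Q.p (nat_lit 0x80000700000c000000000000000000000000000000000000000000000000000000000) (nat_lit 0x80000200001000000000010000060000180000200000000000000000000000000000000000000000) (nat_lit 5)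
theorem c79096 : QOK q79096 := cut [q79095] ⟨c79095, trivial⟩ (nd (nat_lit 297) (nat_lit 0) (cs (lf (nat_lit 42) (nat_lit 230)) (rf (nat_lit 0)))) q79096 (by decide +kernel)
def q79101 : Q := Q.p (nat_lit 0x700000c000000000000000000000000000000000000000000000000000000000) (nat_lit 0x100006600018000060000020000080000000000000000000000000000000000000000000000) (nat_lit 6)
theorem c79101 : QOK q79101 := cut [q79098] ⟨c79098, trivial⟩ (nd (nat_lit 255) (nat_lit 0) (cs (lf (nat_lit 18) (nat_lit 230)) (nd (nat_lit 233) (nat_lit 0) (cs (lf (nat_lit 17) (nat_lit 230)) (nd (nat_lit 277) (nat_lit 0) (cs (lf (nat_lit 5) (nat_lit 252)) (rf (nat_lit 0)))))))) q79101 (by decide +kernel)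
def q79108 : Q := Q.p (nat_lit 0x20000080000700000c000000000000000000000000000000000000000000000000000000000) (nat_lit 0x1400005000070000180000700000c0000100000000000000000000000000000000000000000000000) (nat_lit 8)
theorem c79108 : QOK q79108 := cut [q79105] ⟨c79105, trivial⟩ (nd (nat_lit 210) (nat_lit 0) (cs (lf (nat_lit 34) (nat_lit 209)) (nd (nat_lit 296) (nat_lit 0) (cs (lf (nat_lit 41) (nat_lit 230)) (nd (nat_lit 298) (nat_lit 0) (cs (lf (nat_lit 29) (nat_lit 231)) (rf (nat_lit 0)))))))) q79108 (by decide +kernel)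
def q79145 : Q := Q.p (nat_lit 0x7000010000040000000000000000000000000000000000000000000000000000) (nat_lit 0x14000000000680001b80003e0000f00002800000000000000000000000000000000000) (nat_lit 9)
theorem c79145 : QOK q79145 := cut [q79132, q79136, q79139, q9684] ⟨c79132, c79136, c79139, c9684, trivial⟩ (nd (nat_lit 187) (nat_lit 0) (cs (rf (nat_lit 0)) (cs (rf (nat_lit 1)) (cs (rf (nat_lit 2)) (nd (nat_lit 209) (nat_lit 0) (cs (lf (nat_lit 42) (nat_lit 187)) (nd (nat_lit 231) (nat_lit 0) (cs (lf (nat_lit 41) (nat_lit 186)) (nd (nat_lit 166) (nat_lit 0) (cs (lf (nat_lit 37) (nat_lit 165)) (nd (nat_lit 233) (nat_lit 0) (cs (lf (nat_lit 6) (nat_lit 230)) (nd (nat_lit 208) (nat_lit 0) (cs (lf (nat_lit 0) (nat_lit 207)) (rf (nat_lit 3)))))))))))))))) q79145 (by decide +kernel)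
def q79160 : Q := Q.p (nat_lit 0x6000010000040000000000000000000000000000000000000000000000000000) (nat_lit 0x800000000008000000000180000600000800000000000000000000000000000000000) (nat_lit 4)
theorem c79160 : QOK q79160 := cut [q79159] ⟨c79159, trivial⟩ (nd (nat_lit 188) (nat_lit 0) (cs (lf (nat_lit 41) (nat_lit 187)) (rf (nat_lit 0)))) q79160 (by decide +kernel)
def q79165 : Q := Q.p (nat_lit 0x7000010000000000000000000000000000000000000000000000000000000000) (nat_lit 0x3800000c00023800000000000000000000000000000000000000000000000000000000) (nat_lit 5)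
theorem c79165 : QOK q79165 := cut [q79164] ⟨c79164, trivial⟩ (nd (nat_lit 251) (nat_lit 0) (cs (lf (nat_lit 17) (nat_lit 229)) (rf (nat_lit 0)))) q79165 (by decide +kernel)
def q79183 : Q := Q.p (nat_lit 0x7800018000000000000000000000000000000000000000000000000000000000) (nat_lit 0x400003300000000000000020000080000000000000000000000000000000000000000000000) (nat_lit 4)
theorem c79183 : QOK q79183 := cut [q79182] ⟨c79182, trivial⟩ (nd (nat_lit 272) (nat_lit 0) (cs (lf (nat_lit 10) (nat_lit 250)) (rf (nat_lit 0)))) q79183 (by decide +kernel)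
def q79188 : Q := Q.p (nat_lit 0x200000800002000008000000000000000000000000000000000000000000000000000000000) (nat_lit 0x40000100000400000000004000030000040000000000000000000000000000000000000000000000) (nat_lit 4)
theorem c79188 : QOK q79188 := cut [q79187] ⟨c79187, trivial⟩ (nd (nat_lit 296) (nat_lit 0) (cs (lf (nat_lit 41) (nat_lit 230)) (rf (nat_lit 0)))) q79188 (by decide +kernel)
def q79196 : Q := Q.p (nat_lit 0x800006000018000000000000000000000000000000000000000000000000000000000) (nat_lit 0xc0000300001400000000000000020000080000200000000000000000000000000000000000000000) (nat_lit 5)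
theorem c79196 : QOK q79196 := cut [q79195] ⟨c79195, trivial⟩ (nd (nat_lit 297) (nat_lit 0) (cs (lf (nat_lit 30) (nat_lit 231)) (rf (nat_lit 0)))) q79196 (by decide +kernel)
def q79202 : Q := Q.p (nat_lit 0x7800018000000000000000000000000000000000000000000000000000000000) (nat_lit 0x400003000000000003000020000080000000000000000000000000000000000000000000000) (nat_lit 4)
theorem c79202 : QOK q79202 := cut [q79182] ⟨c79182, trivial⟩ (nd (nat_lit 228) (nat_lit 0) (cs (lf (nat_lit 22) (nat_lit 228)) (rf (nat_lit 0)))) q79202 (by decide +kernel)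
def q79217 : Q := Q.p (nat_lit 0xf000000000000000000000000000000000000000000000000000000000000000) (nat_lit 0x7700000800000000000000000000000000000000000000000000000000000000000000) (nat_lit 4)
theorem c79217 : QOK q79217 := cut [q79216] ⟨c79216, trivial⟩ (nd (nat_lit 277) (nat_lit 0) (cs (lf (nat_lit 5) (nat_lit 252)) (rf (nat_lit 0)))) q79217 (by decide +kernel)
def q79228 : Q := Q.p (nat_lit 0xf000000000000000000000000000000000000000000000000000000000000000) (nat_lit 0x800006000000800070000040000100000000000000000000000000000000000000000000000) (nat_lit 5)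
theorem c79228 : QOK q79228 := cut [q79226] ⟨c79226, trivial⟩ (nd (nat_lit 277) (nat_lit 0) (cs (lf (nat_lit 5) (nat_lit 252)) (nd (nat_lit 233) (nat_lit 0) (cs (lf (nat_lit 17) (nat_lit 230)) (rf (nat_lit 0)))))) q79228 (by decide +kernel)
def q79232 : Q := Q.p (nat_lit 0x7800000000000000000000000000000000000000000000000000000000000000) (nat_lit 0x7700008000003000000000000000000000000000000000000000000000000000000000) (nat_lit 5)
theorem c79232 : QOK q79232 := cut [q79231] ⟨c79231, trivial⟩ (nd (nat_lit 228) (nat_lit 0) (cs (lf (nat_lit 22) (nat_lit 228)) (rf (nat_lit 0)))) q79232 (by decide +kernel)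
def q79239 : Q := Q.p (nat_lit 0xc00003c000000000000000000000000000000000000000000000000000000000) (nat_lit 0x1000000000000000198000200000800000000000000000000000000000000000000000) (nat_lit 4)
theorem c79239 : QOK q79239 := cut [q79237] ⟨c79237, trivial⟩ (nd (nat_lit 207) (nat_lit 0) (cs (rf (nat_lit 0)) (lf (nat_lit 22) (nat_lit 207)))) q79239 (by decide +kernel)
def q79252 : Q := Q.p (nat_lit 0x600001e000000000000000000000000000000000000000000000000000000000) (nat_lit 0x8000000000000000cc000100000400000000000000000000000000000000000000000) (nat_lit 4)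
theorem c79252 : QOK q79252 := cut [q79251] ⟨c79251, trivial⟩ (nd (nat_lit 206) (nat_lit 0) (cs (lf (nat_lit 22) (nat_lit 206)) (rf (nat_lit 0)))) q79252 (by decide +kernel)
def q79260 : Q := Q.p (nat_lit 0x7800000000000000000000000000000000000000000000000000000000000000) (nat_lit 0x8000077000000000000000000000000000000000000000000000000000000000) (nat_lit 4)
theorem c79260 : QOK q79260 := cut [q79259] ⟨c79259, trivial⟩ (nd (nat_lit 233) (nat_lit 0) (cs (lf (nat_lit 16) (nat_lit 229)) (rf (nat_lit 0)))) q79260 (by decide +kernel)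
def q79272 : Q := Q.p (nat_lit 0x3800006000000000000000000000000000000000000000000000000000000000000000) (nat_lit 0x10000040000300000c4000380000ec000100000400000000000000000000000000000000000000000000000) (nat_lit 9)
theorem c79272 : QOK q79272 := cut [q79268] ⟨c79268, trivial⟩ (nd (nat_lit 278) (nat_lit 0) (cs (lf (nat_lit 18) (nat_lit 253)) (nd (nat_lit 256) (nat_lit 0) (cs (lf (nat_lit 17) (nat_lit 253)) (nd (nat_lit 255) (nat_lit 0) (cs (lf (nat_lit 12) (nat_lit 252)) (nd (nat_lit 230) (nat_lit 0) (cs (lf (nat_lit 22) (nat_lit 230)) (rf (nat_lit 0)))))))))) q79272 (by decide +kernel)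
def q79282 : Q := Q.p (nat_lit 0x6000010000040000000000000000000000000000000000000000000000000000) (nat_lit 0x800003000008000008000020000380000e00002800000000000000000000000000000000000) (nat_lit 6)
theorem c79282 : QOK q79282 := cut [q79121, q79159, q79280] ⟨c79121, c79159, c79280, trivial⟩ (nd (nat_lit 188) (nat_lit 0) (cs (rf (nat_lit 0)) (cs (rf (nat_lit 1)) (nd (nat_lit 167) (nat_lit 0) (cs (lf (nat_lit 34) (nat_lit 166)) (rf (nat_lit 2))))))) q79282 (by decide +kernel)
def q79285 : Q := Q.p (nat_lit 0x2000018000020000080000000000000000000000000000000000000000000000) (nat_lit 0x80000000006400001c000040000100000000000000000000000000000000000000000) (nat_lit 5)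
theorem c79285 : QOK q79285 := cut [q79283] ⟨c79283, trivial⟩ (nd (nat_lit 186) (nat_lit 0) (cs (lf (nat_lit 47) (nat_lit 164)) (nd (nat_lit 208) (nat_lit 0) (cs (lf (nat_lit 42) (nat_lit 186)) (rf (nat_lit 0)))))) q79285 (by decide +kernel)
def q79292 : Q := Q.p (nat_lit 0x1800006000008000020000000000000000000000000000000000000000000000000000) (nat_lit 0x100000600018000000000010000040000000000000000000000000000000000000000000000) (nat_lit 4)
theorem c79292 : QOK q79292 := cut [q79290] ⟨c79290, trivial⟩ (nd (nat_lit 186) (nat_lit 0) (cs (rf (nat_lit 0)) (lf (nat_lit 46) (nat_lit 186)))) q79292 (by decide +kernel)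
def q79299 : Q := Q.p (nat_lit 0x800002000018000020000000000000000000000000000000000000000000000000000) (nat_lit 0x6400001c000040000000000000000000000000000000000000000000000) (nat_lit 4)
theorem c79299 : QOK q79299 := cut [q79298] ⟨c79298, trivial⟩ (nd (nat_lit 208) (nat_lit 0) (cs (lf (nat_lit 47) (nat_lit 186)) (rf (nat_lit 0)))) q79299 (by decide +kernel)
def q79311 : Q := Q.p (nat_lit 0x200003c000000000000000000000000000000000000000000000000000000000) (nat_lit 0x200000800000000000000038000040000100000000000000000000000000000000000000000) (nat_lit 4)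
theorem c79311 : QOK q79311 := cut [q3986] ⟨c3986, trivial⟩ (nd (nat_lit 208) (nat_lit 0) (cs (rf (nat_lit 0)) (lf (nat_lit 23) (nat_lit 207)))) q79311 (by decide +kernel)
def q79326 : Q := Q.p (nat_lit 0x600001c000000000000000000000000000000000000000000000000000000000) (nat_lit 0xc000e300039c000000000000000000000000000000000000000000000000000) (nat_lit 7)
theorem c79326 : QOK q79326 := cut [q79324] ⟨c79324, trivial⟩ (nd (nat_lit 229) (nat_lit 0) (cs (lf (nat_lit 0) (nat_lit 228)) (nd (nat_lit 250) (nat_lit 0) (cs (lf (nat_lit 10) (nat_lit 228)) (rf (nat_lit 0)))))) q79326 (by decide +kernel)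
def q79327 : Q := Q.p (nat_lit 0x600003c000000000000000000000000000000000000000000000000000000000) (nat_lit 0x1000018000000000180000200000800000000000000000000000000000000000000000) (nat_lit 4)
theorem c79327 : QOK q79327 := cut [q79237] ⟨c79237, trivial⟩ (nd (nat_lit 255) (nat_lit 0) (cs (lf (nat_lit 18) (nat_lit 230)) (rf (nat_lit 0)))) q79327 (by decide +kernel)
def q79389 : Q := Q.p (nat_lit 0x800006000078000100000000000000000000000000000000000000000000000000000) (nat_lit 0x2400038000000000000000400001000000000000000000000000000000000000000000) (nat_lit 4)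
theorem c79389 : QOK q79389 := cut [q79388] ⟨c79388, trivial⟩ (nd (nat_lit 256) (nat_lit 0) (cs (lf (nat_lit 5) (nat_lit 231)) (rf (nat_lit 0)))) q79389 (by decide +kernel)
def q79416 : Q := Q.p (nat_lit 0x3800006000000000000000000000000000000000000000000000000000000000000000) (nat_lit 0x10000040000300000c4000380000e0000100000400000000000000000000000000000000000000000000000) (nat_lit 8)
theorem c79416 : QOK q79416 := cut [q79268] ⟨c79268, trivial⟩ (nd (nat_lit 278) (nat_lit 0) (cs (lf (nat_lit 18) (nat_lit 253)) (nd (nat_lit 256) (nat_lit 0) (cs (lf (nat_lit 17) (nat_lit 253)) (nd (nat_lit 255) (nat_lit 0) (cs (lf (nat_lit 12) (nat_lit 252)) (rf (nat_lit 0)))))))) q79416 (by decide +kernel)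
def q79425 : Q := Q.p (nat_lit 0x1800006000010000040000000000000000000000000000000000000000000000000000) (nat_lit 0xc0000300000c00000000000000020000080000200000000000000000000000000000000000000000000000) (nat_lit 5)
theorem c79425 : QOK q79425 := cut [q79424] ⟨c79424, trivial⟩ (nd (nat_lit 211) (nat_lit 0) (cs (lf (nat_lit 35) (nat_lit 188)) (rf (nat_lit 0)))) q79425 (by decide +kernel)
def q79446 : Q := Q.p (nat_lit 0x1800006000010000040000000000000000000000000000000000000000000000000000) (nat_lit 0x9c000e700038000000000000000000000000000000000000000000000000000000000000000) (nat_lit 7)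
theorem c79446 : QOK q79446 := cut [q79444] ⟨c79444, trivial⟩ (nd (nat_lit 277) (nat_lit 0) (cs (lf (nat_lit 29) (nat_lit 210)) (nd (nat_lit 278) (nat_lit 0) (cs (lf (nat_lit 18) (nat_lit 253)) (rf (nat_lit 0)))))) q79446 (by decide +kernel)
def q79469 : Q := Q.p (nat_lit 0x200000800006000018000000000000000000000000000000000000000000000000000000000) (nat_lit 0x400001000004000000000000000300000c0000300000000000000000000000000000000000000000) (nat_lit 5)
theorem c79469 : QOK q79469 := cut [q79467] ⟨c79467, trivial⟩ (nd (nat_lit 296) (nat_lit 0) (cs (lf (nat_lit 41) (nat_lit 230)) (nd (nat_lit 209) (nat_lit 0) (cs (lf (nat_lit 40) (nat_lit 208)) (rf (nat_lit 0)))))) q79469 (by decide +kernel)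
def q79512 : Q := Q.p (nat_lit 0xe000038000000000000000000000000000000000000000000000000000000000) (nat_lit 0x40000100000e000030000000000080000200000000000000000000000000000000000000000000000) (nat_lit 5)
theorem c79512 : QOK q79512 := cut [q79511] ⟨c79511, trivial⟩ (nd (nat_lit 256) (nat_lit 0) (cs (lf (nat_lit 18) (nat_lit 231)) (rf (nat_lit 0)))) q79512 (by decide +kernel)
def q79548 : Q := Q.p (nat_lit 0x600001c000000000000000000000000000000000000000000000000000000000) (nat_lit 0x8000000000030000c0000100000400000000000000000000000000000000000000000) (nat_lit 4)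
theorem c79548 : QOK q79548 := cut [q79251] ⟨c79251, trivial⟩ (nd (nat_lit 229) (nat_lit 0) (cs (rf (nat_lit 0)) (lf (nat_lit 0) (nat_lit 228)))) q79548 (by decide +kernel)
def q79558 : Q := Q.p (nat_lit 0x100001c0000000000000000000000000000000000000000000000000000) (nat_lit 0x3a8000600001800000000000000000000000000000000000000000000000) (nat_lit 5)
theorem c79558 : QOK q79558 := cut [q79556] ⟨c79556, trivial⟩ (nd (nat_lit 213) (nat_lit 0) (cs (lf (nat_lit 11) (nat_lit 209)) (nd (nat_lit 191) (nat_lit 0) (cs (lf (nat_lit 17) (nat_lit 188)) (rf (nat_lit 0)))))) q79558 (by decide +kernel)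
def q79562 : Q := Q.p (nat_lit 0x1e0000000000000000000000000000000000000000000000000000) (nat_lit 0xe7000018000070000000000000000000000000000000000000000000000) (nat_lit 6)
theorem c79562 : QOK q79562 := cut [q79560] ⟨c79560, trivial⟩ (nd (nat_lit 234) (nat_lit 0) (cs (lf (nat_lit 5) (nat_lit 209)) (nd (nat_lit 208) (nat_lit 0) (cs (lf (nat_lit 4) (nat_lit 208)) (rf (nat_lit 0)))))) q79562 (by decide +kernel)
def q79572 : Q := Q.p (nat_lit 0x10000040000100001c0000000000000000000000000000000000000000000000000000) (nat_lit 0x3a8000620000080000000000000000000000000000000000000000000000) (nat_lit 5)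
theorem c79572 : QOK q79572 := cut [q79556] ⟨c79556, trivial⟩ (nd (nat_lit 213) (nat_lit 0) (cs (lf (nat_lit 11) (nat_lit 209)) (nd (nat_lit 187) (nat_lit 0) (cs (lf (nat_lit 46) (nat_lit 187)) (rf (nat_lit 0)))))) q79572 (by decide +kernel)
def q79580 : Q := Q.p (nat_lit 0x800001000006000010000000000000000000000000000000000000000000000000000000000) (nat_lit 0x20000380000600000000000000008000000000000000000000000000000000000000000000000000000000) (nat_lit 4)
theorem c79580 : QOK q79580 := cut [q79579] ⟨c79579, trivial⟩ (nd (nat_lit 298) (nat_lit 0) (cs (lf (nat_lit 29) (nat_lit 232)) (rf (nat_lit 0)))) q79580 (by decide +kernel)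
def q79588 : Q := Q.p (nat_lit 0x800001000006000010000000000000000000000000000000000000000000000000000000000) (nat_lit 0x8000060000380000400000800000000008000000000000000000000000000000000000000000000000000000000) (nat_lit 5)
theorem c79588 : QOK q79588 := cut [q79587] ⟨c79587, trivial⟩ (nd (nat_lit 298) (nat_lit 0) (cs (lf (nat_lit 29) (nat_lit 232)) (rf (nat_lit 0)))) q79588 (by decide +kernel)
def q79603 : Q := Q.p (nat_lit 0x400001000006000018000000000000000000000000000000000000000000000000000000000) (nat_lit 0x2000008000020000000000000000c0000300000c00000000000000000000000000000000000000000) (nat_lit 5)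
theorem c79603 : QOK q79603 := cut [q79601] ⟨c79601, trivial⟩ (nd (nat_lit 299) (nat_lit 0) (cs (lf (nat_lit 29) (nat_lit 232)) (nd (nat_lit 210) (nat_lit 0) (cs (lf (nat_lit 28) (nat_lit 210)) (rf (nat_lit 0)))))) q79603 (by decide +kernel)
def q79608 : Q := Q.p (nat_lit 0x3000006000018000060000000000000000000000000000000000000000000000000000) (nat_lit 0xc000000000004000380000200000000000000000000000000000000000000000000000) (nat_lit 4)
theorem c79608 : QOK q79608 := cut [q79607] ⟨c79607, trivial⟩ (nd (nat_lit 278) (nat_lit 0) (cs (lf (nat_lit 18) (nat_lit 253)) (rf (nat_lit 0)))) q79608 (by decide +kernel)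
def q79671 : Q := Q.p (nat_lit 0x600001c000000000180000000000000000000000000000000000000000000000) (nat_lit 0x1800002000001e000270001fe0000000000000000000000000000000000000000) (nat_lit 8)
theorem c79671 : QOK q79671 := cut [q20002, q79652, q4958, q7631, q4697, q18440] ⟨c20002, c79652, c4958, c7631, c4697, c18440, trivial⟩ (nd (nat_lit 186) (nat_lit 0) (cs (nd (nat_lit 164) (nat_lit 0) (cs (rf (nat_lit 0)) (lf (nat_lit 26) (nat_lit 164)))) (cs (nd (nat_lit 185) (nat_lit 0) (cs (nd (nat_lit 207) (nat_lit 0) (cs (lf (nat_lit 11) (nat_lit 184)) (nd (nat_lit 208) (nat_lit 0) (cs (lf (nat_lit 6) (nat_lit 185)) (lf (nat_lit 18) (nat_lit 207)))))) (nd (nat_lit 255) (nat_lit 0) (cs (lf (nat_lit 18) (nat_lit 230)) (rf (nat_lit 1)))))) (cs (nd (nat_lit 185) (nat_lit 0) (cs (rf (nat_lit 1)) (cs (nd (nat_lit 255) (nat_lit 0) (cs (lf (nat_lit 18) (nat_lit 230)) (nd (nat_lit 166) (nat_lit 0) (cs (lf (nat_lit 17) (nat_lit 163)) (nd (nat_lit 184) (nat_lit 0) (cs (lf (nat_lit 16) (nat_lit 162)) (rf (nat_lit 2)))))))) (cs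 (nd (nat_lit 206) (nat_lit 0) (cs (lf (nat_lit 10) (nat_lit 184)) (nd (nat_lit 255) (nat_lit 0) (cs (lf (nat_lit 18) (nat_lit 230)) (nd (nat_lit 167) (nat_lit 0) (cs (lf (nat_lit 16) (nat_lit 163)) (nd (nat_lit 189) (nat_lit 0) (cs (lf (nat_lit 17) (nat_lit 164)) (rf (nat_lit 3)))))))))) (nd (nat_lit 162) (nat_lit 0) (cs (lf (nat_lit 22) (nat_lit 162)) (nd (nat_lit 255) (nat_lit 0) (cs (rf (nat_lit 4)) (lf (nat_lit 18) (nat_lit 230)))))))))) (cs (nd (nat_lit 255) (nat_lit 0) (cs (lf (nat_lit 18) (nat_lit 230)) (nd (nat_lit 208) (nat_lit 0) (cs (lf (nat_lit 24) (nat_lit 164)) (nd (nat_lit 207) (nat_lit 0) (cs (lf (nat_lit 18) (nat_lit 207)) (nd (nat_lit 206) (nat_lit 0) (cs (lf (nat_lit 9) (nat_lit 184)) (lf (nat_lit 0) (nat_lit 205)))))))))) (nd (nat_lit 255) (nat_lit 0) (cs (lf (nat_lit 18) (nat_lit 230)) (nd (nat_lit 164) (nat_lit 0) (cs (rf (nat_lit 5)) (lf (nat_lit 26) (nat_lit 164))))))))))) q79671 (by decide +kernel)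
def q79694 : Q := Q.p (nat_lit 0x6000018000040000100000000000000000000000000000000000000000000000) (nat_lit 0x2000018000006000000000200000800000000000000000000000000000000000000000) (nat_lit 4)
theorem c79694 : QOK q79694 := cut [q79693] ⟨c79693, trivial⟩ (nd (nat_lit 167) (nat_lit 0) (cs (lf (nat_lit 34) (nat_lit 166)) (rf (nat_lit 0)))) q79694 (by decide +kernel)
def q79696 : Q := Q.p (nat_lit 0x6000018000040000100000000000000000000000000000000000000000000000) (nat_lit 0x1000000000000000030000e80000a00000000000000000000000000000000000000000) (nat_lit 5)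
theorem c79696 : QOK q79696 := cut [q79640] ⟨c79640, trivial⟩ (nd (nat_lit 189) (nat_lit 0) (cs (lf (nat_lit 35) (nat_lit 166)) (rf (nat_lit 0)))) q79696 (by decide +kernel)
def q79702 : Q := Q.p (nat_lit 0x6000018000040000100000000000000000000000000000000000000000000000) (nat_lit 0x2000018000006000000000080000200000000000000000000000000000000000000000) (nat_lit 4)
theorem c79702 : QOK q79702 := cut [q79693] ⟨c79693, trivial⟩ (nd (nat_lit 165) (nat_lit 0) (cs (lf (nat_lit 46) (nat_lit 165)) (rf (nat_lit 0)))) q79702 (by decide +kernel)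
def q79736 : Q := Q.p (nat_lit 0x200000800002000008000000000000000000000000000000000000000000000000000000000) (nat_lit 0x40000100000400000000004000030000040000000000000000000000000000000000000000000000) (nat_lit 4)
theorem c79736 : QOK q79736 := cut [q79735] ⟨c79735, trivial⟩ (nd (nat_lit 296) (nat_lit 0) (cs (lf (nat_lit 41) (nat_lit 230)) (rf (nat_lit 0)))) q79736 (by decide +kernel)
def q79753 : Q := Q.p (nat_lit 0x1000004000010000040000000000000000000000000000000000000000000000000000) (nat_lit 0x4000000000000000600000b8000280000000000000000000000000000000000000000000000) (nat_lit 5)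
theorem c79753 : QOK q79753 := cut [q79752] ⟨c79752, trivial⟩ (nd (nat_lit 209) (nat_lit 0) (cs (lf (nat_lit 47) (nat_lit 187)) (rf (nat_lit 0)))) q79753 (by decide +kernel)
def q79764 : Q := Q.p (nat_lit 0x600001800004000010000000000000000000000000000000000000000000000000000000000) (nat_lit 0x200001800000600000000020000080000000000000000000000000000000000000000000000000000) (nat_lit 4)
theorem c79764 : QOK q79764 := cut [q79763] ⟨c79763, trivial⟩ (nd (nat_lit 211) (nat_lit 0) (cs (lf (nat_lit 34) (nat_lit 210)) (rf (nat_lit 0)))) q79764 (by decide +kernel)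
def q79776 : Q := Q.p (nat_lit 0x800006000018000060000000000000000000000000000000000000000000000000000) (nat_lit 0x10000070000000002000001c000040000000000000000000000000000000000000000000000) (nat_lit 5)
theorem c79776 : QOK q79776 := cut [q79273] ⟨c79273, trivial⟩ (nd (nat_lit 274) (nat_lit 0) (cs (lf (nat_lit 41) (nat_lit 208)) (nd (nat_lit 272) (nat_lit 0) (cs (lf (nat_lit 13) (nat_lit 250)) (rf (nat_lit 0)))))) q79776 (by decide +kernel)
def q79841 : Q := Q.p (nat_lit 0x60000100000c0000000000000000000000000000000000000000000000000000) (nat_lit 0xa0000f8000380001c8000330001ee0001800006000000000000000000000000000000000000) (nat_lit 10)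
theorem c79841 : QOK q79841 := cut [q10177, q79832] ⟨c10177, c79832, trivial⟩ (nd (nat_lit 212) (nat_lit 0) (cs (nd (nat_lit 213) (nat_lit 0) (cs (lf (nat_lit 11) (nat_lit 209)) (nd (nat_lit 191) (nat_lit 0) (cs (lf (nat_lit 17) (nat_lit 188)) (nd (nat_lit 235) (nat_lit 0) (cs (lf (nat_lit 5) (nat_lit 210)) (nd (nat_lit 276) (nat_lit 0) (cs (lf (nat_lit 35) (nat_lit 188)) (nd (nat_lit 275) (nat_lit 0) (cs (lf (nat_lit 41) (nat_lit 209)) (nd (nat_lit 277) (nat_lit 0) (cs (lf (nat_lit 29) (nat_lit 210)) (nd (nat_lit 278) (nat_lit 0) (cs (lf (nat_lit 18) (nat_lit 253)) (nd (nat_lit 256) (nat_lit 0) (cs (lf (nat_lit 32) (nat_lit 190)) (lf (nat_lit 39) (nat_lit 190)))))))))))))))))) (cs (nd (nat_lit 276) (nat_lit 0) (cs (lf (nat_lit 35) (nat_lit 188)) (nd (nat_lit 209) (nat_lit 0) (cs (lf (nat_lit 47) (nat_lit 187)) (nd (nat_lit 275) (nat_lit 0) (cs (lf (nat_lit 41) (nat_lit 209)) (nd (nat_lit 234) (nat_lit 0) (cs (lf (nat_lit 5) (nat_lit 209)) (nd (nat_lit 190) (nat_lit 0) (cs (lf (nat_lit 17) (nat_lit 187))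 (nd (nat_lit 277) (nat_lit 0) (cs (lf (nat_lit 29) (nat_lit 210)) (nd (nat_lit 278) (nat_lit 0) (cs (lf (nat_lit 18) (nat_lit 253)) (nd (nat_lit 256) (nat_lit 0) (cs (lf (nat_lit 17) (nat_lit 253)) (lf (nat_lit 40) (nat_lit 189)))))))))))))))))) (cs (nd (nat_lit 189) (nat_lit 0) (cs (lf (nat_lit 30) (nat_lit 188)) (nd (nat_lit 145) (nat_lit 0) (cs (lf (nat_lit 37) (nat_lit 144)) (nd (nat_lit 213) (nat_lit 0) (cs (lf (nat_lit 11) (nat_lit 209)) (nd (nat_lit 235) (nat_lit 0) (cs (lf (nat_lit 5) (nat_lit 210)) (nd (nat_lit 209) (nat_lit 0) (cs (lf (nat_lit 4) (nat_lit 209)) (nd (nat_lit 208) (nat_lit 0) (cs (lf (nat_lit 17) (nat_lit 186)) (rf (nat_lit 0)))))))))))))) (cs (rf (nat_lit 1)) (nd (nat_lit 213) (nat_lit 0) (cs (lf (nat_lit 11) (nat_lit 209)) (nd (nat_lit 191) (nat_lit 0) (cs (lf (nat_lit 17) (nat_lit 188)) (nd (nat_lit 190) (nat_lit 0) (cs (lf (nat_lit 12) (nat_lit 187)) (nd (nat_lit 276) (nat_lit 0) (cs (lf (nat_lit 35) (nat_lit 188)) (nd (nat_lit 275) (nat_lit 0) (cs (lf (nat_lit 41) (nat_lit 209))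 (nd (nat_lit 277) (nat_lit 0) (cs (lf (nat_lit 29) (nat_lit 210)) (nd (nat_lit 278) (nat_lit 0) (cs (lf (nat_lit 18) (nat_lit 253)) (nd (nat_lit 256) (nat_lit 0) (cs (lf (nat_lit 17) (nat_lit 253)) (lf (nat_lit 32) (nat_lit 190))))))))))))))))))))))) q79841 (by decide +kernel)
def q79867 : Q := Q.p (nat_lit 0x60000100000c0000000000000000000000000000000000000000000000000000) (nat_lit 0x200001ec001f30001ec0001200004000000000000000000000000000000000000) (nat_lit 7)
theorem c79867 : QOK q79867 := cut [q79832, q79852, q2453, q79850] ⟨c79832, c79852, c2453, c79850, trivial⟩ (nd (nat_lit 212) (nat_lit 0) (cs (rf (nat_lit 0)) (cs (rf (nat_lit 1)) (cs (nd (nat_lit 209) (nat_lit 0) (cs (nd (nat_lit 231) (nat_lit 0) (cs (lf (nat_lit 11) (nat_lit 208)) (nd (nat_lit 187) (nat_lit 0) (cs (lf (nat_lit 23) (nat_lit 186)) (lf (nat_lit 24) (nat_lit 165)))))) (nd (nat_lit 234) (nat_lit 0) (cs (lf (nat_lit 5) (nat_lit 209)) (nd (nat_lit 208) (nat_lit 0) (cs (lf (nat_lit 4) (nat_lit 208)) (rf (nat_lit 2)))))))) (cs (nd (nat_lit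 213) (nat_lit 0) (cs (lf (nat_lit 11) (nat_lit 209)) (nd (nat_lit 191) (nat_lit 0) (cs (lf (nat_lit 17) (nat_lit 188)) (nd (nat_lit 190) (nat_lit 0) (cs (lf (nat_lit 12) (nat_lit 187)) (nd (nat_lit 214) (nat_lit 0) (cs (lf (nat_lit 10) (nat_lit 210)) (nd (nat_lit 215) (nat_lit 0) (cs (lf (nat_lit 23) (nat_lit 189)) (lf (nat_lit 18) (nat_lit 190)))))))))))) (nd (nat_lit 213) (nat_lit 0) (cs (lf (nat_lit 11) (nat_lit 209)) (nd (nat_lit 235) (nat_lit 0) (cs (lf (nat_lit 5) (nat_lit 210)) (rf (nat_lit 3))))))))))) q79867 (by decide +kernel)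
def q79876 : Q := Q.p (nat_lit 0x60000100000c0000000000000000000000000000000000000000000000000000) (nat_lit 0x8000020000180000000002c00033c0000f0000200000800000000000000000000000000000000000) (nat_lit 7)
theorem c79876 : QOK q79876 := cut [q79167, q79276, q79868, q79870, q79273, q79606] ⟨c79167, c79276, c79868, c79870, c79273, c79606, trivial⟩ (nd (nat_lit 275) (nat_lit 0) (cs (rf (nat_lit 0)) (cs (rf (nat_lit 1)) (nd (nat_lit 209) (nat_lit 0) (cs (rf (nat_lit 2)) (cs (nd (nat_lit 187) (nat_lit 0) (cs (lf (nat_lit 42) (nat_lit 187)) (nd (nat_lit 143) (nat_lit 0) (cs (lf (nat_lit 25) (nat_lit 143)) (nd (nat_lit 186) (nat_lit 0) (cs (lf (nat_lit 18) (nat_lit 186)) (rf (nat_lit 3)))))))) (nd (nat_lit 231) (nat_lit 0) (cs (rf (nat_lit 4)) (rf (nat_lit 5)))))))))) q79876 (by decide +kernel)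
def q79901 : Q := Q.p (nat_lit 0x6000010000040000000000000000000000000000000000000000000000000000) (nat_lit 0x100000c0000f0000080000280000a0000300000c00002000000000000000000000000000000000000) (nat_lit 8)
theorem c79901 : QOK q79901 := cut [q79891, q79895, q79798] ⟨c79891, c79895, c79798, trivial⟩ (nd (nat_lit 189) (nat_lit 0) (cs (nd (nat_lit 188) (nat_lit 0) (cs (lf (nat_lit 35) (nat_lit 166)) (rf (nat_lit 0)))) (cs (nd (nat_lit 276) (nat_lit 0) (cs (lf (nat_lit 34) (nat_lit 188)) (nd (nat_lit 277) (nat_lit 0) (cs (lf (nat_lit 29) (nat_lit 210)) (nd (nat_lit 278) (nat_lit 0) (cs (lf (nat_lit 18) (nat_lit 253)) (nd (nat_lit 188) (nat_lit 0) (cs (lf (nat_lit 28) (nat_lit 188)) (rf (nat_lit 1)))))))))) (nd (nat_lit 211) (nat_lit 0) (cs (rf (nat_lit 2)) (lf (nat_lit 30) (nat_lit 188))))))) q79901 (by decide +kernel)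
def q79913 : Q := Q.p (nat_lit 0x6000010000040000000000000000000000000000000000000000000000000000) (nat_lit 0x10000000000080001800003e0000e00002800000000000000000000000000000000000) (nat_lit 6)
theorem c79913 : QOK q79913 := cut [q79121, q79159, q79912] ⟨c79121, c79159, c79912, trivial⟩ (nd (nat_lit 188) (nat_lit 0) (cs (rf (nat_lit 0)) (cs (rf (nat_lit 1)) (rf (nat_lit 2))))) q79913 (by decide +kernel)
def q79960 : Q := Q.p (nat_lit 0x1800006000010000040000000000000000000000000000000000000000000000000000) (nat_lit 0x800006000001800000000080000200000000000000000000000000000000000000000000000) (nat_lit 4)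
theorem c79960 : QOK q79960 := cut [q79959] ⟨c79959, trivial⟩ (nd (nat_lit 189) (nat_lit 0) (cs (lf (nat_lit 34) (nat_lit 188)) (rf (nat_lit 0)))) q79960 (by decide +kernel)
def q79962 : Q := Q.p (nat_lit 0x1800006000010000040000000000000000000000000000000000000000000000000000) (nat_lit 0x800006000001800000000020000080000000000000000000000000000000000000000000000) (nat_lit 4)
theorem c79962 : QOK q79962 := cut [q79959] ⟨c79959, trivial⟩ (nd (nat_lit 187) (nat_lit 0) (cs (lf (nat_lit 46) (nat_lit 187)) (rf (nat_lit 0)))) q79962 (by decide +kernel)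
def q79971 : Q := Q.p (nat_lit 0x4000010000040000080000000000000000000000000000000000000000000000) (nat_lit 0x1000000000000000180000360000a00000000000000000000000000000000000000000) (nat_lit 5)
theorem c79971 : QOK q79971 := cut [q79970] ⟨c79970, trivial⟩ (nd (nat_lit 188) (nat_lit 0) (cs (lf (nat_lit 47) (nat_lit 165)) (rf (nat_lit 0)))) q79971 (by decide +kernel)
def q80000 : Q := Q.p (nat_lit 0x700003c000000000000000000000000000000000000000000000000000000000) (nat_lit 0x400001800000000000000198000240000900000000000000000000000000000000000000000) (nat_lit 6)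
theorem c80000 : QOK q80000 := cut [q79997] ⟨c79997, trivial⟩ (nd (nat_lit 211) (nat_lit 0) (cs (lf (nat_lit 17) (nat_lit 208)) (nd (nat_lit 167) (nat_lit 0) (cs (lf (nat_lit 37) (nat_lit 166)) (nd (nat_lit 276) (nat_lit 0) (cs (lf (nat_lit 30) (nat_lit 210)) (rf (nat_lit 0)))))))) q80000 (by decide +kernel)
def q80026 : Q := Q.p (nat_lit 0x600007800018000000000000000000000000000000000000000000000000000000000) (nat_lit 0x700000c000030000000000000000000000000000000000000000000000) (nat_lit 4)
theorem c80026 : QOK q80026 := cut [q80025] ⟨c80025, trivial⟩ (nd (nat_lit 229) (nat_lit 0) (cs (lf (nat_lit 23) (nat_lit 228)) (rf (nat_lit 0)))) q80026 (by decide +kernel)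
def q80063 : Q := Q.p (nat_lit 0x700003c000000000000000000000000000000000000000000000000000000000) (nat_lit 0x800000000000000198000240000900000000000000000000000000000000000000000) (nat_lit 5)
theorem c80063 : QOK q80063 := cut [q79997] ⟨c79997, trivial⟩ (nd (nat_lit 211) (nat_lit 0) (cs (lf (nat_lit 17) (nat_lit 208)) (nd (nat_lit 167) (nat_lit 0) (cs (lf (nat_lit 37) (nat_lit 166)) (rf (nat_lit 0)))))) q80063 (by decide +kernel)
def q80088 : Q := Q.p (nat_lit 0x6000018000000000000000000000000000000000000000000000000000000000) (nat_lit 0x60000180004600031c000e70003bc0002e0000b80000000000000000000000000000000000000000) (nat_lit 13)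
theorem c80088 : QOK q80088 := cut [q79383, q79994, q79992, q80003, q80082] ⟨c79383, c79994, c79992, c80003, c80082, trivial⟩ (nd (nat_lit 233) (nat_lit 0) (cs (rf (nat_lit 0)) (cs (rf (nat_lit 1)) (nd (nat_lit 230) (nat_lit 0) (cs (rf (nat_lit 2)) (cs (rf (nat_lit 3)) (nd (nat_lit 252) (nat_lit 0) (cs (lf (nat_lit 11) (nat_lit 229)) (nd (nat_lit 211) (nat_lit 0) (cs (lf (nat_lit 17) (nat_lit 208)) (nd (nat_lit 167) (nat_lit 0) (cs (lf (nat_lit 37) (nat_lit 166)) (nd (nat_lit 208) (nat_lit 0) (cs (lf (nat_lit 23) (nat_lit 207)) (rf (nat_lit 4)))))))))))))))) q80088 (by decide +kernel)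
def q80158 : Q := Q.p (nat_lit 0x6000018000020000080000000000000000000000000000000000000000000000) (nat_lit 0x400001800060000000000040000100000000000000000000000000000000000000000) (nat_lit 4)
theorem c80158 : QOK q80158 := cut [q80157] ⟨c80157, trivial⟩ (nd (nat_lit 164) (nat_lit 0) (cs (lf (nat_lit 46) (nat_lit 164)) (rf (nat_lit 0)))) q80158 (by decide +kernel)
def q80204 : Q := Q.p (nat_lit 0x700000c000010000000000000000000000000000000000000000000000000000) (nat_lit 0x14000000000000000200000e0000380000000000000000000000000000000000000000) (nat_lit 5)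
theorem c80204 : QOK q80204 := cut [q80202] ⟨c80202, trivial⟩ (nd (nat_lit 186) (nat_lit 0) (cs (lf (nat_lit 24) (nat_lit 164)) (nd (nat_lit 163) (nat_lit 0) (cs (lf (nat_lit 46) (nat_lit 163)) (rf (nat_lit 0)))))) q80204 (by decide +kernel)
def q80207 : Q := Q.p (nat_lit 0x7000018000000000000000000000000000000000000000000000000000000000) (nat_lit 0x400003000000c00000000020000080000000000000000000000000000000000000000000000) (nat_lit 4)
theorem c80207 : QOK q80207 := cut [q79182] ⟨c79182, trivial⟩ (nd (nat_lit 251) (nat_lit 0) (cs (lf (nat_lit 12) (nat_lit 228)) (rf (nat_lit 0)))) q80207 (by decide +kernel)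
def q80211 : Q := Q.p (nat_lit 0x600001c000000000000000000000000000000000000000000000000000000000) (nat_lit 0x10000e300001c000000000000000000000000000000000000000000000000000) (nat_lit 5)
theorem c80211 : QOK q80211 := cut [q80210] ⟨c80210, trivial⟩ (nd (nat_lit 229) (nat_lit 0) (cs (lf (nat_lit 0) (nat_lit 228)) (rf (nat_lit 0)))) q80211 (by decide +kernel)
def q80216 : Q := Q.p (nat_lit 0x700001c000000000000000000000000000000000000000000000000000000000) (nat_lit 0x10000040000000000300001c000020000080000000000000000000000000000000000000000) (nat_lit 5)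
theorem c80216 : QOK q80216 := cut [q80215] ⟨c80215, trivial⟩ (nd (nat_lit 229) (nat_lit 0) (cs (lf (nat_lit 0) (nat_lit 228)) (rf (nat_lit 0)))) q80216 (by decide +kernel)
def q80219 : Q := Q.p (nat_lit 0x600001e000000000000000000000000000000000000000000000000000000000) (nat_lit 0x400003000001c00020000020000080000000000000000000000000000000000000000000000) (nat_lit 5)
theorem c80219 : QOK q80219 := cut [q79182] ⟨c79182, trivial⟩ (nd (nat_lit 251) (nat_lit 0) (cs (lf (nat_lit 11) (nat_lit 228)) (nd (nat_lit 252) (nat_lit 0) (cs (lf (nat_lit 17) (nat_lit 229)) (rf (nat_lit 0)))))) q80219 (by decide +kernel)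
def q80225 : Q := Q.p (nat_lit 0x6000038000000000000000000000000000000000000000000000000000000000) (nat_lit 0x10000300000c0000330000080000200000000000000000000000000000000000000000) (nat_lit 6)
theorem c80225 : QOK q80225 := cut [q80222] ⟨c80222, trivial⟩ (nd (nat_lit 234) (nat_lit 0) (cs (lf (nat_lit 6) (nat_lit 231)) (nd (nat_lit 256) (nat_lit 0) (cs (lf (nat_lit 5) (nat_lit 231)) (nd (nat_lit 212) (nat_lit 0) (cs (lf (nat_lit 17) (nat_lit 209)) (rf (nat_lit 0)))))))) q80225 (by decide +kernel)
def q80236 : Q := Q.p (nat_lit 0x7000018000040000000000000000000000000000000000000000000000000000) (nat_lit 0x1400000000000000020000380000e00000000000000000000000000000000000000000) (nat_lit 5)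
theorem c80236 : QOK q80236 := cut [q80235] ⟨c80235, trivial⟩ (nd (nat_lit 188) (nat_lit 0) (cs (lf (nat_lit 36) (nat_lit 165)) (rf (nat_lit 0)))) q80236 (by decide +kernel)
def q80247 : Q := Q.p (nat_lit 0x400007800000000000000000000000000000000000000000000000000000000000000) (nat_lit 0x40000100000000000000007000008000020000000000000000000000000000000000000000000000) (nat_lit 4)
theorem c80247 : QOK q80247 := cut [q80246] ⟨c80246, trivial⟩ (nd (nat_lit 229) (nat_lit 0) (cs (lf (nat_lit 23) (nat_lit 228)) (rf (nat_lit 0)))) q80247 (by decide +kernel)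
def q80251 : Q := Q.p (nat_lit 0x1e00006000000000000000000000000000000000000000000000000000000000000000) (nat_lit 0x40000100000cc0000000000000008000000000000000000000000000000000000000000000000000000000) (nat_lit 4)
theorem c80251 : QOK q80251 := cut [q80250] ⟨c80250, trivial⟩ (nd (nat_lit 294) (nat_lit 0) (cs (lf (nat_lit 10) (nat_lit 272)) (rf (nat_lit 0)))) q80251 (by decide +kernel)
def q80288 : Q := Q.p (nat_lit 0x1000007000010000040000000000000000000000000000000000000000000000000000) (nat_lit 0x4000000000000000e8000080000200000000000000000000000000000000000000000000000) (nat_lit 4)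
theorem c80288 : QOK q80288 := cut [q79152] ⟨c79152, trivial⟩ (nd (nat_lit 211) (nat_lit 0) (cs (rf (nat_lit 0)) (lf (nat_lit 35) (nat_lit 188)))) q80288 (by decide +kernel)
def q80295 : Q := Q.p (nat_lit 0x60000080000700001c000000000000000000000000000000000000000000000000000000000) (nat_lit 0x40000100001000000000060000180000000000000000000000000000000000000000000000000000) (nat_lit 4)
theorem c80295 : QOK q80295 := cut [q80294] ⟨c80294, trivial⟩ (nd (nat_lit 296) (nat_lit 0) (cs (lf (nat_lit 41) (nat_lit 230)) (rf (nat_lit 0)))) q80295 (by decide +kernel)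
def q80324 : Q := Q.p (nat_lit 0x1800007000018000000000000000000000000000000000000000000000000000000000) (nat_lit 0x8000020000190000670000000006400003c0000c0000000000000000000000000000000000000000000000) (nat_lit 10)
theorem c80324 : QOK q80324 := cut [q80317] ⟨c80317, trivial⟩ (nd (nat_lit 277) (nat_lit 0) (cs (lf (nat_lit 18) (nat_lit 252)) (nd (nat_lit 233) (nat_lit 0) (cs (lf (nat_lit 6) (nat_lit 230)) (nd (nat_lit 209) (nat_lit 0) (cs (lf (nat_lit 24) (nat_lit 187)) (nd (nat_lit 274) (nat_lit 0) (cs (lf (nat_lit 41) (nat_lit 208)) (nd (nat_lit 299) (nat_lit 0) (cs (lf (nat_lit 5) (nat_lit 274)) (nd (nat_lit 321) (nat_lit 0) (cs (lf (nat_lit 42) (nat_lit 254)) (nd (nat_lit 272) (nat_lit 0) (cs (lf (nat_lit 13) (nat_lit 250)) (rf (nat_lit 0)))))))))))))))) q80324 (by decide +kernel)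
def q80347 : Q := Q.p (nat_lit 0x1000006000010000040000000000000000000000000000000000000000000000000000) (nat_lit 0xa00006800001800000000000000000000000000000000000000000000000000000000000000) (nat_lit 4)
theorem c80347 : QOK q80347 := cut [q79959] ⟨c79959, trivial⟩ (nd (nat_lit 275) (nat_lit 0) (cs (lf (nat_lit 41) (nat_lit 209)) (rf (nat_lit 0)))) q80347 (by decide +kernel)
def q80373 : Q := Q.p (nat_lit 0x1800007000010000040000000000000000000000000000000000000000000000000000) (nat_lit 0x5000007000000000680000380000c0000000000000000000000000000000000000000000000) (nat_lit 7)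
theorem c80373 : QOK q80373 := cut [q80369] ⟨c80369, trivial⟩ (nd (nat_lit 209) (nat_lit 0) (cs (lf (nat_lit 47) (nat_lit 187)) (nd (nat_lit 231) (nat_lit 0) (cs (lf (nat_lit 29) (nat_lit 209)) (nd (nat_lit 274) (nat_lit 0) (cs (lf (nat_lit 41) (nat_lit 208)) (nd (nat_lit 272) (nat_lit 0) (cs (lf (nat_lit 13) (nat_lit 250)) (rf (nat_lit 0)))))))))) q80373 (by decide +kernel)
def q80394 : Q := Q.p (nat_lit 0xf000020000080000000000000000000000000000000000000000000000000000) (nat_lit 0x1000000000016000000000600001800004000000000000000000000000000000000000) (nat_lit 5)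
theorem c80394 : QOK q80394 := cut [q80393] ⟨c80393, trivial⟩ (nd (nat_lit 229) (nat_lit 0) (cs (lf (nat_lit 22) (nat_lit 229)) (rf (nat_lit 0)))) q80394 (by decide +kernel)
def q80403 : Q := Q.p (nat_lit 0xf000020000080000000000000000000000000000000000000000000000000000) (nat_lit 0x180000600001c00007600000000016000140000500000000000000000000000000000000000000000000000) (nat_lit 10)
theorem c80403 : QOK q80403 := cut [q80398] ⟨c80398, trivial⟩ (nd (nat_lit 229) (nat_lit 0) (cs (lf (nat_lit 22) (nat_lit 229)) (nd (nat_lit 273) (nat_lit 0) (cs (lf (nat_lit 10) (nat_lit 251)) (nd (nat_lit 277) (nat_lit 0) (cs (lf (nat_lit 5) (nat_lit 252)) (nd (nat_lit 276) (nat_lit 0) (cs (lf (nat_lit 41) (nat_lit 210)) (nd (nat_lit 190) (nat_lit 0) (cs (lf (nat_lit 34) (nat_lit 189)) (rf (nat_lit 0)))))))))))) q80403 (by decide +kernel)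
def q80408 : Q := Q.p (nat_lit 0x2000008000020000080000000000000000000000000000000000000000000000000000) (nat_lit 0x140000700001c00000000000000010000040000100000000000000000000000000000000000000000000000) (nat_lit 6)
theorem c80408 : QOK q80408 := cut [q80406] ⟨c80406, trivial⟩ (nd (nat_lit 210) (nat_lit 0) (cs (lf (nat_lit 47) (nat_lit 188)) (nd (nat_lit 299) (nat_lit 0) (cs (lf (nat_lit 46) (nat_lit 210)) (rf (nat_lit 0)))))) q80408 (by decide +kernel)
def q80425 : Q := Q.p (nat_lit 0xf000000000000000000000000000000000000000000000000000000000000000) (nat_lit 0xe0000100000e6000000000000000000000000000000000000000000000000000000000) (nat_lit 5)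
theorem c80425 : QOK q80425 := cut [q80423] ⟨c80423, trivial⟩ (nd (nat_lit 234) (nat_lit 0) (cs (lf (nat_lit 16) (nat_lit 230)) (nd (nat_lit 229) (nat_lit 0) (cs (lf (nat_lit 22) (nat_lit 229)) (rf (nat_lit 0)))))) q80425 (by decide +kernel)
def q80429 : Q := Q.p (nat_lit 0xf000000000000000000000000000000000000000000000000000000000000000) (nat_lit 0xee00010000006000000000000000000000000000000000000000000000000000000000) (nat_lit 5)
theorem c80429 : QOK q80429 := cut [q80428] ⟨c80428, trivial⟩ (nd (nat_lit 229) (nat_lit 0) (cs (lf (nat_lit 22) (nat_lit 229)) (rf (nat_lit 0)))) q80429 (by decide +kernel)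
def q80448 : Q := Q.p (nat_lit 0x7800002000008000000000000000000000000000000000000000000000000000) (nat_lit 0x3300000000000000014000070000140000000000000000000000000000000000000000) (nat_lit 6)
theorem c80448 : QOK q80448 := cut [q80446] ⟨c80446, trivial⟩ (nd (nat_lit 273) (nat_lit 0) (cs (lf (nat_lit 11) (nat_lit 250)) (nd (nat_lit 276) (nat_lit 0) (cs (lf (nat_lit 5) (nat_lit 251)) (rf (nat_lit 0)))))) q80448 (by decide +kernel)
def q80450 : Q := Q.p (nat_lit 0x1800002000008000000000000000000000000000000000000000000000000000) (nat_lit 0x4000000000040000000000300000c0000100000000000000000000000000000000000) (nat_lit 4)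
theorem c80450 : QOK q80450 := cut [q80449] ⟨c80449, trivial⟩ (nd (nat_lit 185) (nat_lit 0) (cs (lf (nat_lit 29) (nat_lit 185)) (rf (nat_lit 0)))) q80450 (by decide +kernel)
def q80458 : Q := Q.p (nat_lit 0x1e000000000000000000000000000000000000000000000000000000000000000) (nat_lit 0x1dc00020000000000000000000000000000000000000000000000000000000000000000) (nat_lit 4)
theorem c80458 : QOK q80458 := cut [q80457] ⟨c80457, trivial⟩ (nd (nat_lit 275) (nat_lit 0) (cs (lf (nat_lit 11) (nat_lit 252)) (rf (nat_lit 0)))) q80458 (by decide +kernel)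
def q80464 : Q := Q.p (nat_lit 0xf000000000000000000000000000000000000000000000000000000000000000) (nat_lit 0x800077000000000000000000000000000000000000000000000000000000000) (nat_lit 4)
theorem c80464 : QOK q80464 := cut [q80463] ⟨c80463, trivial⟩ (nd (nat_lit 233) (nat_lit 0) (cs (lf (nat_lit 17) (nat_lit 230)) (rf (nat_lit 0)))) q80464 (by decide +kernel)
def q80543 : Q := Q.p (nat_lit 0xe000000000000000000000000000000000000000000000000000000000000000) (nat_lit 0x1e0000310001ee000000000000000000000000000000000000000000000000000000000) (nat_lit 5)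
theorem c80543 : QOK q80543 := cut [q80500, q80540, q80542] ⟨c80500, c80540, c80542, trivial⟩ (nd (nat_lit 256) (nat_lit 0) (cs (rf (nat_lit 0)) (cs (rf (nat_lit 1)) (rf (nat_lit 2))))) q80543 (by decide +kernel)
def q80548 : Q := Q.p (nat_lit 0xf000000000000000000000000000000000000000000000000000000000000000) (nat_lit 0x3b80000c00007000000000000000000000000000000000000000000000000000000000) (nat_lit 6)
theorem c80548 : QOK q80548 := cut [q80546] ⟨c80546, trivial⟩ (nd (nat_lit 229) (nat_lit 0) (cs (lf (nat_lit 22) (nat_lit 229)) (nd (nat_lit 251) (nat_lit 0) (cs (lf (nat_lit 23) (nat_lit 228)) (rf (nat_lit 0)))))) q80548 (by decide +kernel)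
def q80558 : Q := Q.p (nat_lit 0xf000000000000000000000000000000000000000000000000000000000000000) (nat_lit 0x100000400003c00030c00067000000000000000000000000000000000000000000000000000000000) (nat_lit 8)
theorem c80558 : QOK q80558 := cut [q80552] ⟨c80552, trivial⟩ (nd (nat_lit 233) (nat_lit 0) (cs (lf (nat_lit 17) (nat_lit 230)) (nd (nat_lit 229) (nat_lit 0) (cs (lf (nat_lit 22) (nat_lit 229)) (nd (nat_lit 251) (nat_lit 0) (cs (lf (nat_lit 23) (nat_lit 228)) (nd (nat_lit 276) (nat_lit 0) (cs (lf (nat_lit 5) (nat_lit 251)) (nd (nat_lit 298) (nat_lit 0) (cs (rf (nat_lit 0)) (lf (nat_lit 30) (nat_lit 232)))))))))))) q80558 (by decide +kernel)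
def q80564 : Q := Q.p (nat_lit 0xe000000000000000000000000000000000000000000000000000000000000000) (nat_lit 0xff00011800007000000000000000000000000000000000000000000000000000000000) (nat_lit 5)
theorem c80564 : QOK q80564 := cut [q79210, q79214, q80428] ⟨c79210, c79214, c80428, trivial⟩ (nd (nat_lit 252) (nat_lit 0) (cs (rf (nat_lit 0)) (cs (rf (nat_lit 1)) (rf (nat_lit 2))))) q80564 (by decide +kernel)
def q80571 : Q := Q.p (nat_lit 0xf000000000000000000000000000000000000000000000000000000000000000) (nat_lit 0x3f0000700001ce000000000000000000000000000000000000000000000000000000000) (nat_lit 8)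
theorem c80571 : QOK q80571 := cut [q80566] ⟨c80566, trivial⟩ (nd (nat_lit 230) (nat_lit 0) (cs (lf (nat_lit 23) (nat_lit 229)) (nd (nat_lit 277) (nat_lit 0) (cs (lf (nat_lit 5) (nat_lit 252)) (nd (nat_lit 256) (nat_lit 0) (cs (lf (nat_lit 22) (nat_lit 230)) (nd (nat_lit 235) (nat_lit 0) (cs (lf (nat_lit 16) (nat_lit 231)) (nd (nat_lit 257) (nat_lit 0) (cs (lf (nat_lit 17) (nat_lit 232)) (rf (nat_lit 0)))))))))))) q80571 (by decide +kernel)
def q80574 : Q := Q.p (nat_lit 0xf000000000000000000000000000000000000000000000000000000000000000) (nat_lit 0xe60001000000e000000000000000000000000000000000000000000000000000000000) (nat_lit 5)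
theorem c80574 : QOK q80574 := cut [q80572] ⟨c80572, trivial⟩ (nd (nat_lit 278) (nat_lit 0) (cs (lf (nat_lit 4) (nat_lit 252)) (nd (nat_lit 273) (nat_lit 0) (cs (lf (nat_lit 10) (nat_lit 251)) (rf (nat_lit 0)))))) q80574 (by decide +kernel)
def q80577 : Q := Q.p (nat_lit 0xf000000000000000000000000000000000000000000000000000000000000000) (nat_lit 0xe6000100000e0000000000000000000000000000000000000000000000000000000000) (nat_lit 5)
theorem c80577 : QOK q80577 := cut [q80576] ⟨c80576, trivial⟩ (nd (nat_lit 273) (nat_lit 0) (cs (lf (nat_lit 10) (nat_lit 251)) (rf (nat_lit 0)))) q80577 (by decide +kernel)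
def q80580 : Q := Q.p (nat_lit 0xf000000000000000000000000000000000000000000000000000000000000000) (nat_lit 0x6000100000ee000000000000000000000000000000000000000000000000000000000) (nat_lit 5)
theorem c80580 : QOK q80580 := cut [q80578] ⟨c80578, trivial⟩ (nd (nat_lit 234) (nat_lit 0) (cs (lf (nat_lit 16) (nat_lit 230)) (nd (nat_lit 273) (nat_lit 0) (cs (lf (nat_lit 10) (nat_lit 251)) (rf (nat_lit 0)))))) q80580 (by decide +kernel)
def q80587 : Q := Q.p (nat_lit 0x80000200000800002000000000000000000000000000000000000000000000000000000000) (nat_lit 0x4000010000040000000000000001c000070000140000000000000000000000000000000000000000) (nat_lit 6)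
theorem c80587 : QOK q80587 := cut [q80585] ⟨c80585, trivial⟩ (nd (nat_lit 296) (nat_lit 0) (cs (lf (nat_lit 29) (nat_lit 229)) (nd (nat_lit 207) (nat_lit 0) (cs (lf (nat_lit 28) (nat_lit 207)) (rf (nat_lit 0)))))) q80587 (by decide +kernel)
def q80609 : Q := Q.p (nat_lit 0xf000000000000000000000000000000000000000000000000000000000000000) (nat_lit 0x700000800070000000000000000000000000000000000000000000000000000000000) (nat_lit 4)
theorem c80609 : QOK q80609 := cut [q80608] ⟨c80608, trivial⟩ (nd (nat_lit 233) (nat_lit 0) (cs (lf (nat_lit 17) (nat_lit 230)) (rf (nat_lit 0)))) q80609 (by decide +kernel)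
def q80614 : Q := Q.p (nat_lit 0x7800000000000000000000000000000000000000000000000000000000000000) (nat_lit 0x1c000060001f800000000000000000000000000000000000000000000000000000000) (nat_lit 6)
theorem c80614 : QOK q80614 := cut [q80611] ⟨c80611, trivial⟩ (nd (nat_lit 228) (nat_lit 0) (cs (lf (nat_lit 22) (nat_lit 228)) (nd (nat_lit 250) (nat_lit 0) (cs (lf (nat_lit 23) (nat_lit 227)) (nd (nat_lit 231) (nat_lit 0) (cs (lf (nat_lit 17) (nat_lit 228)) (rf (nat_lit 0)))))))) q80614 (by decide +kernel)
def q80646 : Q := Q.p (nat_lit 0x1e000000000000000000000000000000000000000000000000000000000000000) (nat_lit 0xc000200001dc000000000000000000000000000000000000000000000000000000000) (nat_lit 5)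
theorem c80646 : QOK q80646 := cut [q80645] ⟨c80645, trivial⟩ (nd (nat_lit 274) (nat_lit 0) (cs (lf (nat_lit 10) (nat_lit 252)) (rf (nat_lit 0)))) q80646 (by decide +kernel)
def q80653 : Q := Q.p (nat_lit 0x100000400001000004000000000000000000000000000000000000000000000000000000000) (nat_lit 0x80000200000800000000008000030000080000000000000000000000000000000000000000000000) (nat_lit 4)
theorem c80653 : QOK q80653 := cut [q80652] ⟨c80652, trivial⟩ (nd (nat_lit 297) (nat_lit 0) (cs (lf (nat_lit 29) (nat_lit 230)) (rf (nat_lit 0)))) q80653 (by decide +kernel)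
def q80686 : Q := Q.p (nat_lit 0xe000000000000000000000000000000000000000000000000000000000000000) (nat_lit 0x1ee000310001e0000000000000000000000000000000000000000000000000000000000) (nat_lit 5)
theorem c80686 : QOK q80686 := cut [q80500, q80562, q80685] ⟨c80500, c80562, c80685, trivial⟩ (nd (nat_lit 256) (nat_lit 0) (cs (rf (nat_lit 0)) (cs (rf (nat_lit 1)) (rf (nat_lit 2))))) q80686 (by decide +kernel)
def q80688 : Q := Q.p (nat_lit 0x7800000000000000000000000000000000000000000000000000000000000000) (nat_lit 0x380000400038000000000000000000000000000000000000000000000000000000000) (nat_lit 4)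
theorem c80688 : QOK q80688 := cut [q80687] ⟨c80687, trivial⟩ (nd (nat_lit 232) (nat_lit 0) (cs (lf (nat_lit 17) (nat_lit 229)) (rf (nat_lit 0)))) q80688 (by decide +kernel)
def q80702 : Q := Q.p (nat_lit 0xe000000000000000000000000000000000000000000000000000000000000000) (nat_lit 0x1e0000310001de000000000000000000000000000000000000000000000000000000000) (nat_lit 5)
theorem c80702 : QOK q80702 := cut [q80500, q80540, q80645] ⟨c80500, c80540, c80645, trivial⟩ (nd (nat_lit 256) (nat_lit 0) (cs (rf (nat_lit 0)) (cs (rf (nat_lit 1)) (rf (nat_lit 2))))) q80702 (by decide +kernel)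
def q80708 : Q := Q.p (nat_lit 0x6000008000020000000000000000000000000000000000000000000000000000) (nat_lit 0x1400001000014000000000080000200000000000000000000000000000000000000000) (nat_lit 4)
theorem c80708 : QOK q80708 := cut [q80707] ⟨c80707, trivial⟩ (nd (nat_lit 187) (nat_lit 0) (cs (lf (nat_lit 29) (nat_lit 187)) (rf (nat_lit 0)))) q80708 (by decide +kernel)
def q80709 : Q := Q.p (nat_lit 0x1800006000008000020000000000000000000000000000000000000000000000000000) (nat_lit 0x100000600018000000000040000100000000000000000000000000000000000000000000000) (nat_lit 4)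
theorem c80709 : QOK q80709 := cut [q79290] ⟨c79290, trivial⟩ (nd (nat_lit 188) (nat_lit 0) (cs (lf (nat_lit 34) (nat_lit 187)) (rf (nat_lit 0)))) q80709 (by decide +kernel)
def q80715 : Q := Q.p (nat_lit 0x1800006000008000020000000000000000000000000000000000000000000000000000) (nat_lit 0xa0000e000001000010000040000100000000000000000000000000000000000000000000000) (nat_lit 5)
theorem c80715 : QOK q80715 := cut [q80713] ⟨c80713, trivial⟩ (nd (nat_lit 210) (nat_lit 0) (cs (lf (nat_lit 35) (nat_lit 187)) (nd (nat_lit 232) (nat_lit 0) (cs (lf (nat_lit 30) (nat_lit 209)) (rf (nat_lit 0)))))) q80715 (by decide +kernel)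
def q80721 : Q := Q.p (nat_lit 0x800006000008000020000000000000000000000000000000000000000000000000000) (nat_lit 0x100000700019000000000000000000000000000000000000000000000000000000000000000) (nat_lit 4)
theorem c80721 : QOK q80721 := cut [q80720] ⟨c80720, trivial⟩ (nd (nat_lit 274) (nat_lit 0) (cs (lf (nat_lit 41) (nat_lit 208)) (rf (nat_lit 0)))) q80721 (by decide +kernel)
def q80724 : Q := Q.p (nat_lit 0x2000008000020000080000000000000000000000000000000000000000000000) (nat_lit 0x400001000004000000000040000300000400000000000000000000000000000000000) (nat_lit 4)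
theorem c80724 : QOK q80724 := cut [q80723] ⟨c80723, trivial⟩ (nd (nat_lit 252) (nat_lit 0) (cs (lf (nat_lit 41) (nat_lit 186)) (rf (nat_lit 0)))) q80724 (by decide +kernel)
def q80728 : Q := Q.p (nat_lit 0x6000008000020000000000000000000000000000000000000000000000000000) (nat_lit 0x1000000000010000000000180000600001000000000000000000000000000000000000) (nat_lit 4)
theorem c80728 : QOK q80728 := cut [q80727] ⟨c80727, trivial⟩ (nd (nat_lit 187) (nat_lit 0) (cs (lf (nat_lit 29) (nat_lit 187)) (rf (nat_lit 0)))) q80728 (by decide +kernel)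
def q80733 : Q := Q.p (nat_lit 0x6000008000020000000000000000000000000000000000000000000000000000) (nat_lit 0x100000c000010000140000400001c0000700001000000000000000000000000000000000000) (nat_lit 6)
theorem c80733 : QOK q80733 := cut [q80707, q80727, q80732] ⟨c80707, c80727, c80732, trivial⟩ (nd (nat_lit 187) (nat_lit 0) (cs (rf (nat_lit 0)) (cs (rf (nat_lit 1)) (rf (nat_lit 2))))) q80733 (by decide +kernel)
def q80737 : Q := Q.p (nat_lit 0x800006000008000020000000000000000000000000000000000000000000000000000) (nat_lit 0x200000000019000007000010000040000000000000000000000000000000000000000000000) (nat_lit 5)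
theorem c80737 : QOK q80737 := cut [q80735] ⟨c80735, trivial⟩ (nd (nat_lit 208) (nat_lit 0) (cs (lf (nat_lit 47) (nat_lit 186)) (nd (nat_lit 230) (nat_lit 0) (cs (lf (nat_lit 42) (nat_lit 208)) (rf (nat_lit 0)))))) q80737 (by decide +kernel)
def q80754 : Q := Q.p (nat_lit 0x6000008000020000000000000000000000000000000000000000000000000000) (nat_lit 0x10000000000000000000001c0000700001400000000000000000000000000000000000) (nat_lit 5)
theorem c80754 : QOK q80754 := cut [q1580] ⟨c1580, trivial⟩ (nd (nat_lit 187) (nat_lit 0) (cs (rf (nat_lit 0)) (lf (nat_lit 29) (nat_lit 187)))) q80754 (by decide +kernel)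
def q80757 : Q := Q.p (nat_lit 0x6000008000020000000000000000000000000000000000000000000000000000) (nat_lit 0x1400001000004000000000180000600001000000000000000000000000000000000000) (nat_lit 5)
theorem c80757 : QOK q80757 := cut [q80756] ⟨c80756, trivial⟩ (nd (nat_lit 187) (nat_lit 0) (cs (lf (nat_lit 29) (nat_lit 187)) (rf (nat_lit 0)))) q80757 (by decide +kernel)
def q80802 : Q := Q.p (nat_lit 0x80000200000e000000000000000000000000000000000000000000000000000000000000000) (nat_lit 0x5000014000050000000000f00001c0000000000000000000000000000000000000000000000000000) (nat_lit 5)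
theorem c80802 : QOK q80802 := cut [q80799, q80801] ⟨c80799, c80801, trivial⟩ (nd (nat_lit 233) (nat_lit 0) (cs (rf (nat_lit 0)) (rf (nat_lit 1)))) q80802 (by decide +kernel)
def q80817 : Q := Q.p (nat_lit 0x200000e000008000000000000000000000000000000000000000000000000000000000) (nat_lit 0x8000010000010001f70001c0000700001800000000000000000000000000000000000000000) (nat_lit 7)
theorem c80817 : QOK q80817 := cut [q80765, q80766, q80811, q80814, q79225, q79237] ⟨c80765, c80766, c80811, c80814, c79225, c79237, trivial⟩ (nd (nat_lit 230) (nat_lit 0) (cs (rf (nat_lit 0)) (cs (rf (nat_lit 1)) (nd (nat_lit 233) (nat_lit 0) (cs (rf (nat_lit 2)) (cs (rf (nat_lit 3)) (nd (nat_lit 232) (nat_lit 0) (cs (rf (nat_lit 4)) (rf (nat_lit 5)))))))))) q80817 (by decide +kernel)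
def q80822 : Q := Q.p (nat_lit 0x80001e0000000000000000000000000000000000000000000000000000) (nat_lit 0x1d0000200000c00000000000000000000000000000000000000000000000) (nat_lit 4)
theorem c80822 : QOK q80822 := cut [q80821] ⟨c80821, trivial⟩ (nd (nat_lit 190) (nat_lit 0) (cs (lf (nat_lit 17) (nat_lit 187)) (rf (nat_lit 0)))) q80822 (by decide +kernel)
def q80848 : Q := Q.p (nat_lit 0x800006000008000020000000000000000000000000000000000000000000000000000) (nat_lit 0x20000080000700001700000000014000010000040000000000000000000000000000000000000000000000) (nat_lit 7)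
theorem c80848 : QOK q80848 := cut [q80845] ⟨c80845, trivial⟩ (nd (nat_lit 276) (nat_lit 0) (cs (lf (nat_lit 29) (nat_lit 209)) (nd (nat_lit 274) (nat_lit 0) (cs (lf (nat_lit 41) (nat_lit 208)) (nd (nat_lit 272) (nat_lit 0) (cs (lf (nat_lit 13) (nat_lit 250)) (rf (nat_lit 0)))))))) q80848 (by decide +kernel)
def q80866 : Q := Q.p (nat_lit 0x1e000008000000000000000000000000000000000000000000000000000000000) (nat_lit 0x20000210000f0000300000400001000000000000000000000000000000000000000000) (nat_lit 6)
theorem c80866 : QOK q80866 := cut [q80863] ⟨c80863, trivial⟩ (nd (nat_lit 234) (nat_lit 0) (cs (lf (nat_lit 17) (nat_lit 231)) (nd (nat_lit 233) (nat_lit 0) (cs (lf (nat_lit 12) (nat_lit 230)) (nd (nat_lit 232) (nat_lit 0) (cs (lf (nat_lit 5) (nat_lit 231)) (rf (nat_lit 0)))))))) q80866 (by decide +kernel)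
def q80874 : Q := Q.p (nat_lit 0xe000038000000000000000000000000000000000000000000000000000000000) (nat_lit 0x20000000000060001f80007e0001f80000000000000000000000000000000000000000) (nat_lit 11)
theorem c80874 : QOK q80874 := cut [q79497] ⟨c79497, trivial⟩ (nd (nat_lit 230) (nat_lit 0) (cs (lf (nat_lit 0) (nat_lit 229)) (rf (nat_lit 0)))) q80874 (by decide +kernel)
def q80875 : Q := Q.p (nat_lit 0x200003c000000000000000000000000000000000000000000000000000000000) (nat_lit 0x200000800001000000000018000040000100000000000000000000000000000000000000000) (nat_lit 4)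
theorem c80875 : QOK q80875 := cut [q3984] ⟨c3984, trivial⟩ (nd (nat_lit 208) (nat_lit 0) (cs (rf (nat_lit 0)) (lf (nat_lit 23) (nat_lit 207)))) q80875 (by decide +kernel)
def q80882 : Q := Q.p (nat_lit 0xf000008000000000000000000000000000000000000000000000000000000000) (nat_lit 0x40000100000e00000000000000020000080000000000000000000000000000000000000000000000) (nat_lit 4)
theorem c80882 : QOK q80882 := cut [q80881] ⟨c80881, trivial⟩ (nd (nat_lit 274) (nat_lit 0) (cs (lf (nat_lit 11) (nat_lit 251)) (rf (nat_lit 0)))) q80882 (by decide +kernel)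
def q80890 : Q := Q.p (nat_lit 0x6000008000020000000000000000000000000000000000000000000000000000) (nat_lit 0x100000c000010000100000400001c0000700000400000000000000000000000000000000000) (nat_lit 5)
theorem c80890 : QOK q80890 := cut [q80731, q80889] ⟨c80731, c80889, trivial⟩ (nd (nat_lit 187) (nat_lit 0) (cs (rf (nat_lit 0)) (rf (nat_lit 1)))) q80890 (by decide +kernel)
def q80893 : Q := Q.p (nat_lit 0x6000008000020000000000000000000000000000000000000000000000000000) (nat_lit 0x14000010000100000000000c0000300000400000000000000000000000000000000000) (nat_lit 5)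
theorem c80893 : QOK q80893 := cut [q80891] ⟨c80891, trivial⟩ (nd (nat_lit 187) (nat_lit 0) (cs (lf (nat_lit 29) (nat_lit 187)) (nd (nat_lit 252) (nat_lit 0) (cs (lf (nat_lit 41) (nat_lit 186)) (rf (nat_lit 0)))))) q80893 (by decide +kernel)
def q80895 : Q := Q.p (nat_lit 0xc000038000000000000000000000000000000000000000000000000000000000) (nat_lit 0x1000000000006000180000200000800000000000000000000000000000000000000000) (nat_lit 4)
theorem c80895 : QOK q80895 := cut [q79237] ⟨c79237, trivial⟩ (nd (nat_lit 230) (nat_lit 0) (cs (rf (nat_lit 0)) (lf (nat_lit 0) (nat_lit 229)))) q80895 (by decide +kernel)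
def q80902 : Q := Q.p (nat_lit 0x100000e00002c000000000000000000000000000000000000000000000000000000000) (nat_lit 0x1000006000001000010000180000600000000000000000000000000000000000000000000000) (nat_lit 5)
theorem c80902 : QOK q80902 := cut [q80901] ⟨c80901, trivial⟩ (nd (nat_lit 211) (nat_lit 0) (cs (lf (nat_lit 36) (nat_lit 188)) (rf (nat_lit 0)))) q80902 (by decide +kernel)
def q80923 : Q := Q.p (nat_lit 0xe000008000020000000000000000000000000000000000000000000000000000) (nat_lit 0x1000004000018000010000370001d0000f00000400001000000000000000000000000000000000000) (nat_lit 8)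
theorem c80923 : QOK q80923 := cut [q80766, q7464, q80921, q80922] ⟨c80766, c7464, c80921, c80922, trivial⟩ (nd (nat_lit 276) (nat_lit 0) (cs (nd (nat_lit 230) (nat_lit 0) (cs (rf (nat_lit 0)) (nd (nat_lit 210) (nat_lit 0) (cs (rf (nat_lit 1)) (cs (nd (nat_lit 211) (nat_lit 0) (cs (lf (nat_lit 6) (nat_lit 208)) (nd (nat_lit 189) (nat_lit 0) (cs (lf (nat_lit 32) (nat_lit 188)) (lf (nat_lit 38) (nat_lit 188)))))) (nd (nat_lit 211) (nat_lit 0) (cs (lf (nat_lit 6) (nat_lit 208)) (nd (nat_lit 189) (nat_lit 0) (cs (lf (nat_lit 38) (nat_lit 188)) (nd (nat_lit 190) (nat_lit 0) (cs (nd (nat_lit 188) (nat_lit 0) (cs (lf (nat_lit 6) (nat_lit 187)) (lf (nat_lit 30) (nat_lit 187)))) (lf (nat_lit 12) (nat_lit 186))))))))))))) (cs (rf (nat_lit 2)) (rf (nat_lit 3))))) q80923 (by decide +kernel)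
def q80929 : Q := Q.p (nat_lit 0xe000008000020000080000000000000000000000000000000000000000000000) (nat_lit 0x2800000000016000050000f40000d00000000000000000000000000000000000000000) (nat_lit 8)
theorem c80929 : QOK q80929 := cut [q80924] ⟨c80924, trivial⟩ (nd (nat_lit 164) (nat_lit 0) (cs (lf (nat_lit 46) (nat_lit 164)) (nd (nat_lit 188) (nat_lit 0) (cs (lf (nat_lit 35) (nat_lit 165)) (nd (nat_lit 210) (nat_lit 0) (cs (lf (nat_lit 30) (nat_lit 187)) (nd (nat_lit 232) (nat_lit 0) (cs (lf (nat_lit 29) (nat_lit 188)) (nd (nat_lit 229) (nat_lit 0) (cs (lf (nat_lit 1) (nat_lit 229)) (rf (nat_lit 0)))))))))))) q80929 (by decide +kernel)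
def q80931 : Q := Q.p (nat_lit 0x6000008000020000000000000000000000000000000000000000000000000000) (nat_lit 0x10000000000100000000000c0000300000400000000000000000000000000000000000) (nat_lit 4)
theorem c80931 : QOK q80931 := cut [q80891] ⟨c80891, trivial⟩ (nd (nat_lit 187) (nat_lit 0) (cs (lf (nat_lit 29) (nat_lit 187)) (rf (nat_lit 0)))) q80931 (by decide +kernel)
def q80942 : Q := Q.p (nat_lit 0x6000008000020000080000000000000000000000000000000000000000000000) (nat_lit 0x1c0000700000c00008000017000050000140000500000000000000000000000000000000000000000) (nat_lit 10)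
theorem c80942 : QOK q80942 := cut [q80935] ⟨c80935, trivial⟩ (nd (nat_lit 164) (nat_lit 0) (cs (lf (nat_lit 46) (nat_lit 164)) (nd (nat_lit 188) (nat_lit 0) (cs (lf (nat_lit 35) (nat_lit 165)) (nd (nat_lit 275) (nat_lit 0) (cs (lf (nat_lit 34) (nat_lit 187)) (nd (nat_lit 296) (nat_lit 0) (cs (lf (nat_lit 40) (nat_lit 208)) (nd (nat_lit 297) (nat_lit 0) (cs (lf (nat_lit 41) (nat_lit 230)) (nd (nat_lit 232) (nat_lit 0) (cs (lf (nat_lit 30) (nat_lit 231)) (nd (nat_lit 298) (nat_lit 0) (cs (lf (nat_lit 29) (nat_lit 231)) (rf (nat_lit 0)))))))))))))))) q80942 (by decide +kernel)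
def q80955 : Q := Q.p (nat_lit 0x400006000008000020000000000000000000000000000000000000000000000000000) (nat_lit 0x10000100000000000c0000300000400000000000000000000000000000000000) (nat_lit 4)
theorem c80955 : QOK q80955 := cut [q80891] ⟨c80891, trivial⟩ (nd (nat_lit 187) (nat_lit 0) (cs (lf (nat_lit 40) (nat_lit 186)) (rf (nat_lit 0)))) q80955 (by decide +kernel)
def q80961 : Q := Q.p (nat_lit 0x4000008000020000080000000000000000000000000000000000000000000000) (nat_lit 0x10000000000000000700001c00005000000000000000000000000000000) (nat_lit 5)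
theorem c80961 : QOK q80961 := cut [q4298] ⟨c4298, trivial⟩ (nd (nat_lit 165) (nat_lit 0) (cs (rf (nat_lit 0)) (lf (nat_lit 28) (nat_lit 165)))) q80961 (by decide +kernel)
def q80974 : Q := Q.p (nat_lit 0x80000200000c000030000000000000000000000000000000000000000000000000000000000) (nat_lit 0x100000400001000000000000000180000600001800000000000000000000000000000000000000000) (nat_lit 5)
theorem c80974 : QOK q80974 := cut [q80973] ⟨c80973, trivial⟩ (nd (nat_lit 298) (nat_lit 0) (cs (lf (nat_lit 41) (nat_lit 232)) (rf (nat_lit 0)))) q80974 (by decide +kernel)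
def q80985 : Q := Q.p (nat_lit 0x400007000004000000000000000000000000000000000000000000000000000000000) (nat_lit 0x100000000008000003800018000020000080000000000000000000000000000000000000000) (nat_lit 5)
theorem c80985 : QOK q80985 := cut [q80983] ⟨c80983, trivial⟩ (nd (nat_lit 229) (nat_lit 0) (cs (lf (nat_lit 18) (nat_lit 229)) (nd (nat_lit 227) (nat_lit 0) (cs (lf (nat_lit 1) (nat_lit 227)) (rf (nat_lit 0)))))) q80985 (by decide +kernel)
def q80995 : Q := Q.p (nat_lit 0x40000100000c00003000000000000000000000000000000000000000000000000000000000000000) (nat_lit 0x8000020000080000000000000006000018000060000000000000000000000000000000000000000000000) (nat_lit 5)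
theorem c80995 : QOK q80995 := cut [q80993] ⟨c80993, trivial⟩ (nd (nat_lit 317) (nat_lit 0) (cs (lf (nat_lit 41) (nat_lit 251)) (nd (nat_lit 230) (nat_lit 0) (cs (lf (nat_lit 40) (nat_lit 229)) (rf (nat_lit 0)))))) q80995 (by decide +kernel)
def q81019 : Q := Q.p (nat_lit 0xf000010000000000000000000000000000000000000000000000000000000000) (nat_lit 0x800006000000000060000040000100000000000000000000000000000000000000000000000) (nat_lit 4)
theorem c81019 : QOK q81019 := cut [q81018] ⟨c81018, trivial⟩ (nd (nat_lit 233) (nat_lit 0) (cs (lf (nat_lit 17) (nat_lit 230)) (rf (nat_lit 0)))) q81019 (by decide +kernel)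
def q81024 : Q := Q.p (nat_lit 0x7800000000000000000000000000000000000000000000000000000000000000) (nat_lit 0x700008000007000000000000000000000000000000000000000000000000000000000) (nat_lit 4)
theorem c81024 : QOK q81024 := cut [q81023] ⟨c81023, trivial⟩ (nd (nat_lit 273) (nat_lit 0) (cs (lf (nat_lit 11) (nat_lit 250)) (rf (nat_lit 0)))) q81024 (by decide +kernel)
def q81028 : Q := Q.p (nat_lit 0xf000010000000000000000000000000000000000000000000000000000000000) (nat_lit 0x200000800007000000000000000040000100000000000000000000000000000000000000000000000) (nat_lit 4)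
theorem c81028 : QOK q81028 := cut [q81027] ⟨c81027, trivial⟩ (nd (nat_lit 277) (nat_lit 0) (cs (lf (nat_lit 5) (nat_lit 252)) (rf (nat_lit 0)))) q81028 (by decide +kernel)
def q81055 : Q := Q.p (nat_lit 0x200000e000000000000000000000000000000000000000000000000000000000000000) (nat_lit 0x4700001800070000000000000000000000000000000000000000000000000000000000) (nat_lit 5)
theorem c81055 : QOK q81055 := cut [q81054] ⟨c81054, trivial⟩ (nd (nat_lit 252) (nat_lit 0) (cs (lf (nat_lit 5) (nat_lit 252)) (rf (nat_lit 0)))) q81055 (by decide +kernel)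
def q81058 : Q := Q.p (nat_lit 0x100000800002000008000000000000000000000000000000000000000000000000000000000000000) (nat_lit 0x400001400004000000000060000180000400000000000000000000000000000000000000000000000) (nat_lit 5)
theorem c81058 : QOK q81058 := cut [q81057] ⟨c81057, trivial⟩ (nd (nat_lit 233) (nat_lit 0) (cs (lf (nat_lit 40) (nat_lit 232)) (rf (nat_lit 0)))) q81058 (by decide +kernel)
def q81070 : Q := Q.p (nat_lit 0x200000c000020000000000000000000000000000000000000000000000000000000000) (nat_lit 0x140000700001c000010000000000100000c0000100000000000000000000000000000000000000000000000) (nat_lit 6)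
theorem c81070 : QOK q81070 := cut [q80406, q80658, q81067] ⟨c80406, c80658, c81067, trivial⟩ (nd (nat_lit 299) (nat_lit 0) (cs (rf (nat_lit 0)) (cs (rf (nat_lit 1)) (nd (nat_lit 210) (nat_lit 0) (cs (lf (nat_lit 46) (nat_lit 210)) (nd (nat_lit 300) (nat_lit 0) (cs (lf (nat_lit 29) (nat_lit 233)) (rf (nat_lit 2))))))))) q81070 (by decide +kernel)
def q81085 : Q := Q.p (nat_lit 0x7800000000000000000000000000000000000000000000000000000000000000) (nat_lit 0x40003b800000000000000000000000000000000000000000000000000000000) (nat_lit 4)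
theorem c81085 : QOK q81085 := cut [q81084] ⟨c81084, trivial⟩ (nd (nat_lit 232) (nat_lit 0) (cs (lf (nat_lit 17) (nat_lit 229)) (rf (nat_lit 0)))) q81085 (by decide +kernel)
def q81154 : Q := Q.p (nat_lit 0xc000020000080000000000000000000000000000000000000000000000000000) (nat_lit 0x1000000000000000000000700001c00005000000000000000000000000000000000000) (nat_lit 5)
theorem c81154 : QOK q81154 := cut [q81153] ⟨c81153, trivial⟩ (nd (nat_lit 189) (nat_lit 0) (cs (lf (nat_lit 41) (nat_lit 188)) (rf (nat_lit 0)))) q81154 (by decide +kernel)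
def q81174 : Q := Q.p (nat_lit 0xe000020000080000000000000000000000000000000000000000000000000000) (nat_lit 0x28000000000d00000780007e0001e00005000000000000000000000000000000000000) (nat_lit 9)
theorem c81174 : QOK q81174 := cut [q80392, q81153] ⟨c80392, c81153, trivial⟩ (nd (nat_lit 189) (nat_lit 0) (cs (rf (nat_lit 0)) (cs (rf (nat_lit 1)) (nd (nat_lit 188) (nat_lit 0) (cs (lf (nat_lit 47) (nat_lit 166)) (nd (nat_lit 210) (nat_lit 0) (cs (lf (nat_lit 42) (nat_lit 188)) (nd (nat_lit 232) (nat_lit 0) (cs (lf (nat_lit 41) (nat_lit 187)) (nd (nat_lit 234) (nat_lit 0) (cs (lf (nat_lit 6) (nat_lit 231)) (nd (nat_lit 208) (nat_lit 0) (cs (lf (nat_lit 1) (nat_lit 208)) (nd (nat_lit 187) (nat_lit 0) (cs (lf (nat_lit 47) (nat_lit 165)) (nd (nat_lit 186) (nat_lit 0) (cs (lf (nat_lit 11) (nat_lit 185)) (lf (nat_lit 0) (nat_lit 185))))))))))))))))))) q81174 (by decide +kernel)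
def q81180 : Q := Q.p (nat_lit 0x80000e000000000000000000000000000000000000000000000000000000000000000) (nat_lit 0x1d4000300000c0000000000000000000000000000000000000000000000000000000000) (nat_lit 5)
theorem c81180 : QOK q81180 := cut [q80457] ⟨c80457, trivial⟩ (nd (nat_lit 256) (nat_lit 0) (cs (lf (nat_lit 11) (nat_lit 252)) (nd (nat_lit 234) (nat_lit 0) (cs (lf (nat_lit 17) (nat_lit 231)) (rf (nat_lit 0)))))) q81180 (by decide +kernel)
def q81285 : Q := Q.p (nat_lit 0x100000480003e000010000000000000000000000000000000000000000000000000000000000) (nat_lit 0x80000200002000040000020000080000200000000000000000000000000000000000000000000000) (nat_lit 4)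
theorem c81285 : QOK q81285 := cut [q81181] ⟨c81181, trivial⟩ (nd (nat_lit 297) (nat_lit 0) (cs (lf (nat_lit 30) (nat_lit 231)) (rf (nat_lit 0)))) q81285 (by decide +kernel)
def q81298 : Q := Q.p (nat_lit 0x1e000000000000000000000000000000000000000000000000000000000000000) (nat_lit 0xe000061800078000000000000000000000000000000000000000000000000000000000) (nat_lit 6)
theorem c81298 : QOK q81298 := cut [q81296] ⟨c81296, trivial⟩ (nd (nat_lit 278) (nat_lit 0) (cs (lf (nat_lit 5) (nat_lit 253)) (nd (nat_lit 252) (nat_lit 0) (cs (lf (nat_lit 4) (nat_lit 252)) (rf (nat_lit 0)))))) q81298 (by decide +kernel)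
def q81303 : Q := Q.p (nat_lit 0x1e000000000000000000000000000000000000000000000000000000000000000) (nat_lit 0x200000800007380001c000e3800000000000000000000000000000000000000000000000000000000) (nat_lit 9)
theorem c81303 : QOK q81303 := cut [q79201] ⟨c79201, trivial⟩ (nd (nat_lit 234) (nat_lit 0) (cs (lf (nat_lit 17) (nat_lit 231)) (nd (nat_lit 252) (nat_lit 0) (cs (lf (nat_lit 16) (nat_lit 230)) (nd (nat_lit 277) (nat_lit 0) (cs (lf (nat_lit 5) (nat_lit 252)) (nd (nat_lit 299) (nat_lit 0) (cs (lf (nat_lit 30) (nat_lit 233)) (nd (nat_lit 251) (nat_lit 0) (cs (rf (nat_lit 0)) (lf (nat_lit 4) (nat_lit 251)))))))))))) q81303 (by decide +kernel)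
def q81316 : Q := Q.p (nat_lit 0x40000f000000000000000000000000000000000000000000000000000000000000000) (nat_lit 0x10000000001000000e000020000080000000000000000000000000000000000000000000000) (nat_lit 4)
theorem c81316 : QOK q81316 := cut [q81315] ⟨c81315, trivial⟩ (nd (nat_lit 230) (nat_lit 0) (cs (lf (nat_lit 23) (nat_lit 229)) (rf (nat_lit 0)))) q81316 (by decide +kernel)
def q81320 : Q := Q.p (nat_lit 0x100000400001000004000000000000000000000000000000000000000000000000000000000) (nat_lit 0x20000080000200000000002000018000020000000000000000000000000000000000000000000000) (nat_lit 4)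
theorem c81320 : QOK q81320 := cut [q81319] ⟨c81319, trivial⟩ (nd (nat_lit 295) (nat_lit 0) (cs (lf (nat_lit 41) (nat_lit 229)) (rf (nat_lit 0)))) q81320 (by decide +kernel)
def q81333 : Q := Q.p (nat_lit 0x100000400001000004000000000000000000000000000000000000000000000000000000000) (nat_lit 0x800002000008000000000000000380000e0000280000000000000000000000000000000000000000) (nat_lit 6)
theorem c81333 : QOK q81333 := cut [q81331] ⟨c81331, trivial⟩ (nd (nat_lit 297) (nat_lit 0) (cs (lf (nat_lit 29) (nat_lit 230)) (nd (nat_lit 208) (nat_lit 0) (cs (lf (nat_lit 28) (nat_lit 208)) (rf (nat_lit 0)))))) q81333 (by decide +kernel)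
def q81339 : Q := Q.p (nat_lit 0x7800000000000000000000000000000000000000000000000000000000000000) (nat_lit 0x7300008000007000000000000000000000000000000000000000000000000000000000) (nat_lit 5)
theorem c81339 : QOK q81339 := cut [q81337] ⟨c81337, trivial⟩ (nd (nat_lit 277) (nat_lit 0) (cs (lf (nat_lit 4) (nat_lit 251)) (nd (nat_lit 272) (nat_lit 0) (cs (lf (nat_lit 10) (nat_lit 250)) (rf (nat_lit 0)))))) q81339 (by decide +kernel)
def q81363 : Q := Q.p (nat_lit 0x3c00004000000000000000000000000000000000000000000000000000000000000000) (nat_lit 0x80000200001c00000000000000010000040000000000000000000000000000000000000000000000000000) (nat_lit 4)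
theorem c81363 : QOK q81363 := cut [q81362] ⟨c81362, trivial⟩ (nd (nat_lit 299) (nat_lit 0) (cs (lf (nat_lit 5) (nat_lit 274)) (rf (nat_lit 0)))) q81363 (by decide +kernel)
def q81382 : Q := Q.p (nat_lit 0x700000c000000000000000000000000000000000000000000000000000000000) (nat_lit 0x7000018e00010000000000000000000000000000000000000000000000000000000000) (nat_lit 5)
theorem c81382 : QOK q81382 := cut [q81381] ⟨c81381, trivial⟩ (nd (nat_lit 255) (nat_lit 0) (cs (lf (nat_lit 18) (nat_lit 230)) (rf (nat_lit 0)))) q81382 (by decide +kernel)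
def q81384 : Q := Q.p (nat_lit 0x20000080000300000c000000000000000000000000000000000000000000000000000000000) (nat_lit 0x400000000010000060000180000200000000000000000000000000000000000000000) (nat_lit 4)
theorem c81384 : QOK q81384 := cut [q81383] ⟨c81383, trivial⟩ (nd (nat_lit 210) (nat_lit 0) (cs (lf (nat_lit 34) (nat_lit 209)) (rf (nat_lit 0)))) q81384 (by decide +kernel)
def q81390 : Q := Q.p (nat_lit 0x80000300000c000000000000000000000000000000000000000000000000000000000) (nat_lit 0xc0000300000400000000000000060000180000600000000000000000000000000000000000000000) (nat_lit 6)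
theorem c81390 : QOK q81390 := cut [q81389] ⟨c81389, trivial⟩ (nd (nat_lit 297) (nat_lit 0) (cs (lf (nat_lit 42) (nat_lit 230)) (rf (nat_lit 0)))) q81390 (by decide +kernel)
def q81404 : Q := Q.p (nat_lit 0x800007000006000010000000000000000000000000000000000000000000000000000) (nat_lit 0x4000000000180000e8000780000200000800000000000000000000000000000000000) (nat_lit 6)
theorem c81404 : QOK q81404 := cut [q10803, q81399] ⟨c10803, c81399, trivial⟩ (nd (nat_lit 209) (nat_lit 0) (cs (rf (nat_lit 0)) (cs (rf (nat_lit 1)) (nd (nat_lit 210) (nat_lit 0) (cs (lf (nat_lit 6) (nat_lit 207)) (nd (nat_lit 188) (nat_lit 0) (cs (lf (nat_lit 38) (nat_lit 187)) (nd (nat_lit 189) (nat_lit 0) (cs (lf (nat_lit 12) (nat_lit 185)) (nd (nat_lit 187) (nat_lit 0) (cs (lf (nat_lit 30) (nat_lit 186)) (lf (nat_lit 6) (nat_lit 186))))))))))))) q81404 (by decide +kernel)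
def q81411 : Q := Q.p (nat_lit 0x1000007000000000000000000000000000000000000000000000000000000000000000) (nat_lit 0x2380000c00003800000000000000000000000000000000000000000000000000000000) (nat_lit 5)
theorem c81411 : QOK q81411 := cut [q79201] ⟨c79201, trivial⟩ (nd (nat_lit 251) (nat_lit 0) (cs (lf (nat_lit 5) (nat_lit 251)) (rf (nat_lit 0)))) q81411 (by decide +kernel)
def q81429 : Q := Q.p (nat_lit 0x400001000004000010000000000000000000000000000000000000000000000000000000000) (nat_lit 0x80000200000800000000008000060000080000000000000000000000000000000000000000000000) (nat_lit 4)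
theorem c81429 : QOK q81429 := cut [q81428] ⟨c81428, trivial⟩ (nd (nat_lit 209) (nat_lit 0) (cs (lf (nat_lit 46) (nat_lit 209)) (rf (nat_lit 0)))) q81429 (by decide +kernel)
def q81438 : Q := Q.p (nat_lit 0x80000400001000004000000000000000000000000000000000000000000000000000000000000000) (nat_lit 0xa0000300000a00000000000000010000000000000000000000000000000000000000000000000000000000) (nat_lit 4)
theorem c81438 : QOK q81438 := cut [q81437] ⟨c81437, trivial⟩ (nd (nat_lit 320) (nat_lit 0) (cs (lf (nat_lit 41) (nat_lit 253)) (rf (nat_lit 0)))) q81438 (by decide +kernel)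
def q81452 : Q := Q.p (nat_lit 0x400001600001800000000000000000000000000000000000000000000000000000000000000) (nat_lit 0x200008c0000800000000004000010000000000000000000000000000000000000000000000000000) (nat_lit 4)
theorem c81452 : QOK q81452 := cut [q81451] ⟨c81451, trivial⟩ (nd (nat_lit 275) (nat_lit 0) (cs (lf (nat_lit 5) (nat_lit 273)) (rf (nat_lit 0)))) q81452 (by decide +kernel)
def q81459 : Q := Q.p (nat_lit 0x400001400007800008000000000000000000000000000000000000000000000000000000000) (nat_lit 0xc000070000bc0000b00000000003000000000000000000000000000000000000000000000000000000000) (nat_lit 8)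
theorem c81459 : QOK q81459 := cut [q81457] ⟨c81457, trivial⟩ (nd (nat_lit 273) (nat_lit 0) (cs (lf (nat_lit 11) (nat_lit 250)) (nd (nat_lit 228) (nat_lit 0) (cs (lf (nat_lit 22) (nat_lit 228)) (rf (nat_lit 0)))))) q81459 (by decide +kernel)
def q81471 : Q := Q.p (nat_lit 0x1800007000008000020000000000000000000000000000000000000000000000000000) (nat_lit 0x1c0000700000c00004000050000140000000000000000000000000000000000000000000000) (nat_lit 7)
theorem c81471 : QOK q81471 := cut [q81468] ⟨c81468, trivial⟩ (nd (nat_lit 250) (nat_lit 0) (cs (lf (nat_lit 1) (nat_lit 250)) (nd (nat_lit 208) (nat_lit 0) (cs (lf (nat_lit 47) (nat_lit 186)) (nd (nat_lit 188) (nat_lit 0) (cs (lf (nat_lit 34) (nat_lit 187)) (rf (nat_lit 0)))))))) q81471 (by decide +kernel)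
def q81475 : Q := Q.p (nat_lit 0x1000007000000000000000000000000000000000000000000000000000000000000000) (nat_lit 0x2800000c00003800000000000000000000000000000000000000000000000000000000) (nat_lit 4)
theorem c81475 : QOK q81475 := cut [q79023] ⟨c79023, trivial⟩ (nd (nat_lit 251) (nat_lit 0) (cs (lf (nat_lit 5) (nat_lit 251)) (rf (nat_lit 0)))) q81475 (by decide +kernel)
def q81479 : Q := Q.p (nat_lit 0x3c00008000000000000000000000000000000000000000000000000000000000) (nat_lit 0x200001800000200004000010000040000000000000000000000000000000000000000000000) (nat_lit 4)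
theorem c81479 : QOK q81479 := cut [q81478] ⟨c81478, trivial⟩ (nd (nat_lit 230) (nat_lit 0) (cs (lf (nat_lit 12) (nat_lit 227)) (rf (nat_lit 0)))) q81479 (by decide +kernel)
def q81490 : Q := Q.p (nat_lit 0x7c00000000000000000000000000000000000000000000000000000000000000) (nat_lit 0x1820001e000000000000000000000000000000000000000000000000000000000) (nat_lit 4)
theorem c81490 : QOK q81490 := cut [q81489] ⟨c81489, trivial⟩ (nd (nat_lit 231) (nat_lit 0) (cs (lf (nat_lit 17) (nat_lit 228)) (rf (nat_lit 0)))) q81490 (by decide +kernel)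
def q81504 : Q := Q.p (nat_lit 0x10000060000300000c0000000000000000000000000000000000000000000000000000) (nat_lit 0x2000008000000000c0000030000080000000000000000000000000000000000000000000000) (nat_lit 4)
theorem c81504 : QOK q81504 := cut [q79947] ⟨c79947, trivial⟩ (nd (nat_lit 275) (nat_lit 0) (cs (lf (nat_lit 41) (nat_lit 209)) (rf (nat_lit 0)))) q81504 (by decide +kernel)
def q81512 : Q := Q.p (nat_lit 0x200000e000020000000000000000000000000000000000000000000000000000000000) (nat_lit 0x800004000001800010000040000100000000000000000000000000000000000000000000000) (nat_lit 4)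
theorem c81512 : QOK q81512 := cut [q79226] ⟨c79226, trivial⟩ (nd (nat_lit 252) (nat_lit 0) (cs (lf (nat_lit 5) (nat_lit 252)) (rf (nat_lit 0)))) q81512 (by decide +kernel)
def q81544 : Q := Q.p (nat_lit 0x100000e000008000000000000000000000000000000000000000000000000000000000) (nat_lit 0x100000400003a0000e8000310000300000f00003c0000400001000000000000000000000000000000000000) (nat_lit 10)
theorem c81544 : QOK q81544 := cut [q81526, q7464, q81531, q79265] ⟨c81526, c7464, c81531, c79265, trivial⟩ (nd (nat_lit 278) (nat_lit 0) (cs (nd (nat_lit 277) (nat_lit 0) (cs (lf (nat_lit 18) (nat_lit 253)) (lf (nat_lit 0) (nat_lit 252)))) (cs (nd (nat_lit 187) (nat_lit 0) (cs (lf (nat_lit 25) (nat_lit 187)) (nd (nat_lit 256) (nat_lit 0) (cs (lf (nat_lit 5) (nat_lit 253)) (rf (nat_lit 0)))))) (nd (nat_lit 210) (nat_lit 0) (cs (nd (nat_lit 209) (nat_lit 0) (cs (rf (nat_lit 1)) (lf (nat_lit 24) (nat_lit 187)))) (cs (nd (nat_lit 277) (nat_lit 0) (cs (lf (nat_lit 0) (nat_lit 252)) (nd (nat_lit 209) (nat_lit 0) (cs (lf (nat_lit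 24) (nat_lit 187)) (nd (nat_lit 275) (nat_lit 0) (cs (lf (nat_lit 35) (nat_lit 187)) (nd (nat_lit 186) (nat_lit 0) (cs (lf (nat_lit 46) (nat_lit 186)) (rf (nat_lit 2)))))))))) (cs (nd (nat_lit 277) (nat_lit 0) (cs (lf (nat_lit 0) (nat_lit 252)) (nd (nat_lit 232) (nat_lit 0) (cs (lf (nat_lit 29) (nat_lit 210)) (nd (nat_lit 256) (nat_lit 0) (cs (lf (nat_lit 18) (nat_lit 231)) (nd (nat_lit 275) (nat_lit 0) (cs (lf (nat_lit 30) (nat_lit 209)) (nd (nat_lit 189) (nat_lit 0) (cs (lf (nat_lit 34) (nat_lit 188)) (rf (nat_lit 3)))))))))))) (nd (nat_lit 277) (nat_lit 0) (cs (lf (nat_lit 0) (nat_lit 252)) (nd (nat_lit 232) (nat_lit 0) (cs (lf (nat_lit 29) (nat_lit 210)) (lf (nat_lit 24) (nat_lit 188))))))))))))) q81544 (by decide +kernel)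
def q81551 : Q := Q.p (nat_lit 0x1000006000018000000000000000000000000000000000000000000000000000000000) (nat_lit 0x1000004000008000000000200000c0000300000400000000000000000000000000000000000000000) (nat_lit 5)
theorem c81551 : QOK q81551 := cut [q81550] ⟨c81550, trivial⟩ (nd (nat_lit 298) (nat_lit 0) (cs (lf (nat_lit 42) (nat_lit 231)) (rf (nat_lit 0)))) q81551 (by decide +kernel)
def q81557 : Q := Q.p (nat_lit 0xf000000000000000000000000000000000000000000000000000000000000000) (nat_lit 0x3b80000c00070000000000000000000000000000000000000000000000000000000000) (nat_lit 6)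
theorem c81557 : QOK q81557 := cut [q80546] ⟨c80546, trivial⟩ (nd (nat_lit 233) (nat_lit 0) (cs (lf (nat_lit 17) (nat_lit 230)) (nd (nat_lit 251) (nat_lit 0) (cs (lf (nat_lit 16) (nat_lit 229)) (rf (nat_lit 0)))))) q81557 (by decide +kernel)
def q81600 : Q := Q.p (nat_lit 0x800006000008000020000000000000000000000000000000000000000000000000000) (nat_lit 0x100001c0000700001000000000010000000000000000000000000000000000000000000000000000000000) (nat_lit 5)
theorem c81600 : QOK q81600 := cut [q81598] ⟨c81598, trivial⟩ (nd (nat_lit 298) (nat_lit 0) (cs (lf (nat_lit 28) (nat_lit 209)) (nd (nat_lit 297) (nat_lit 0) (cs (lf (nat_lit 29) (nat_lit 231)) (rf (nat_lit 0)))))) q81600 (by decide +kernel)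
def q81624 : Q := Q.p (nat_lit 0x40000100000e000008000000000000000000000000000000000000000000000000000000000) (nat_lit 0x280000a000028000300000f00003c0000700001400000000000000000000000000000000000000000) (nat_lit 8)
theorem c81624 : QOK q81624 := cut [q80335, q81550, q80863] ⟨c80335, c81550, c80863, trivial⟩ (nd (nat_lit 232) (nat_lit 0) (cs (rf (nat_lit 0)) (cs (rf (nat_lit 1)) (nd (nat_lit 233) (nat_lit 0) (cs (lf (nat_lit 35) (nat_lit 210)) (nd (nat_lit 297) (nat_lit 0) (cs (lf (nat_lit 41) (nat_lit 231)) (nd (nat_lit 234) (nat_lit 0) (cs (lf (nat_lit 6) (nat_lit 231)) (nd (nat_lit 256) (nat_lit 0) (cs (lf (nat_lit 5) (nat_lit 231)) (rf (nat_lit 2))))))))))))) q81624 (by decide +kernel)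
def q81641 : Q := Q.p (nat_lit 0x40000e000020000000000000000000000000000000000000000000000000000000000) (nat_lit 0x1c800070000390000000000000000000000000000000000000000000000000000000000) (nat_lit 6)
theorem c81641 : QOK q81641 := cut [q81638] ⟨c81638, trivial⟩ (nd (nat_lit 256) (nat_lit 0) (cs (lf (nat_lit 10) (nat_lit 252)) (nd (nat_lit 279) (nat_lit 0) (cs (lf (nat_lit 4) (nat_lit 253)) (nd (nat_lit 257) (nat_lit 0) (cs (lf (nat_lit 5) (nat_lit 254)) (rf (nat_lit 0)))))))) q81641 (by decide +kernel)
def q81648 : Q := Q.p (nat_lit 0x80000600000c000030000000000000000000000000000000000000000000000000000) (nat_lit 0x4000010000000000100001c0000700000000000000000000000000000000000000000000000) (nat_lit 5)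
theorem c81648 : QOK q81648 := cut [q81647] ⟨c81647, trivial⟩ (nd (nat_lit 276) (nat_lit 0) (cs (lf (nat_lit 29) (nat_lit 209)) (rf (nat_lit 0)))) q81648 (by decide +kernel)
def q81657 : Q := Q.p (nat_lit 0x400007000004000000000000000000000000000000000000000000000000000000000) (nat_lit 0x100000200018000068000020000080000000000000000000000000000000000000000000000) (nat_lit 5)
theorem c81657 : QOK q81657 := cut [q81315] ⟨c81315, trivial⟩ (nd (nat_lit 255) (nat_lit 0) (cs (lf (nat_lit 11) (nat_lit 251)) (nd (nat_lit 233) (nat_lit 0) (cs (lf (nat_lit 17) (nat_lit 230)) (rf (nat_lit 0)))))) q81657 (by decide +kernel)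
def q81663 : Q := Q.p (nat_lit 0x7800000000000000000000000000000000000000000000000000000000000000) (nat_lit 0x1dc0000600003800000000000000000000000000000000000000000000000000000000) (nat_lit 6)
theorem c81663 : QOK q81663 := cut [q40546] ⟨c40546, trivial⟩ (nd (nat_lit 228) (nat_lit 0) (cs (lf (nat_lit 22) (nat_lit 228)) (nd (nat_lit 250) (nat_lit 0) (cs (lf (nat_lit 23) (nat_lit 227)) (rf (nat_lit 0)))))) q81663 (by decide +kernel)
def q81665 : Q := Q.p (nat_lit 0x7800000000000000000000000000000000000000000000000000000000000000) (nat_lit 0x1f80000600001c00000000000000000000000000000000000000000000000000000000) (nat_lit 6)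
theorem c81665 : QOK q81665 := cut [q18255] ⟨c18255, trivial⟩ (nd (nat_lit 272) (nat_lit 0) (cs (lf (nat_lit 10) (nat_lit 250)) (nd (nat_lit 250) (nat_lit 0) (cs (lf (nat_lit 11) (nat_lit 249)) (rf (nat_lit 0)))))) q81665 (by decide +kernel)
def q81675 : Q := Q.p (nat_lit 0x7800000000000000000000000000000000000000000000000000000000000000) (nat_lit 0x1e00018600003800000000000000000000000000000000000000000000000000000000) (nat_lit 6)
theorem c81675 : QOK q81675 := cut [q81672] ⟨c81672, trivial⟩ (nd (nat_lit 228) (nat_lit 0) (cs (lf (nat_lit 22) (nat_lit 228)) (nd (nat_lit 250) (nat_lit 0) (cs (lf (nat_lit 23) (nat_lit 227)) (nd (nat_lit 275) (nat_lit 0) (cs (lf (nat_lit 5) (nat_lit 250)) (rf (nat_lit 0)))))))) q81675 (by decide +kernel)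
def q81681 : Q := Q.p (nat_lit 0x800006000010000020000000000000000000000000000000000000000000000000000) (nat_lit 0x1000000000008000040000180000200000800000000000000000000000000000000000) (nat_lit 4)
theorem c81681 : QOK q81681 := cut [q79868] ⟨c79868, trivial⟩ (nd (nat_lit 210) (nat_lit 0) (cs (lf (nat_lit 36) (nat_lit 187)) (rf (nat_lit 0)))) q81681 (by decide +kernel)
def q81699 : Q := Q.p (nat_lit 0xe00007000010000020000000000000000000000000000000000000000000000000000) (nat_lit 0x5c0001000000c0000c000010000040000000000000000000000000000000000000000000000) (nat_lit 6)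
theorem c81699 : QOK q81699 := cut [q81696] ⟨c81696, trivial⟩ (nd (nat_lit 231) (nat_lit 0) (cs (lf (nat_lit 41) (nat_lit 208)) (nd (nat_lit 250) (nat_lit 0) (cs (lf (nat_lit 13) (nat_lit 228)) (nd (nat_lit 276) (nat_lit 0) (cs (lf (nat_lit 42) (nat_lit 209)) (rf (nat_lit 0)))))))) q81699 (by decide +kernel)
def q81706 : Q := Q.p (nat_lit 0x200000800002000008000000000000000000000000000000000000000000000000000000000) (nat_lit 0x100000400001000000000004000030000040000000000000000000000000000000000000000000000) (nat_lit 4)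
theorem c81706 : QOK q81706 := cut [q81705] ⟨c81705, trivial⟩ (nd (nat_lit 298) (nat_lit 0) (cs (lf (nat_lit 29) (nat_lit 231)) (rf (nat_lit 0)))) q81706 (by decide +kernel)
def q81710 : Q := Q.p (nat_lit 0x7800018000000000000000000000000000000000000000000000000000000000) (nat_lit 0x700038000004000000000000000000000000000000000000000000000000000000000) (nat_lit 4)
theorem c81710 : QOK q81710 := cut [q81709] ⟨c81709, trivial⟩ (nd (nat_lit 273) (nat_lit 0) (cs (lf (nat_lit 11) (nat_lit 250)) (rf (nat_lit 0)))) q81710 (by decide +kernel)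
def q81715 : Q := Q.p (nat_lit 0x3800010000000000000000000000000000000000000000000000000000000000) (nat_lit 0x1dc0000600008000000000000000000000000000000000000000000000000000000000) (nat_lit 5)
theorem c81715 : QOK q81715 := cut [q40546] ⟨c40546, trivial⟩ (nd (nat_lit 250) (nat_lit 0) (cs (lf (nat_lit 16) (nat_lit 228)) (rf (nat_lit 0)))) q81715 (by decide +kernel)
def q81724 : Q := Q.p (nat_lit 0xf000000000000000000000000000000000000000000000000000000000000000) (nat_lit 0x1dc000300000e0000000000000000000000000000000000000000000000000000000000) (nat_lit 6)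
theorem c81724 : QOK q81724 := cut [q81722] ⟨c81722, trivial⟩ (nd (nat_lit 234) (nat_lit 0) (cs (lf (nat_lit 16) (nat_lit 230)) (nd (nat_lit 256) (nat_lit 0) (cs (lf (nat_lit 17) (nat_lit 231)) (rf (nat_lit 0)))))) q81724 (by decide +kernel)
def q81730 : Q := Q.p (nat_lit 0x7000010000000000000000000000000000000000000000000000000000000000) (nat_lit 0x380000c00023800000000000000000000000000000000000000000000000000000000) (nat_lit 5)
theorem c81730 : QOK q81730 := cut [q81729] ⟨c81729, trivial⟩ (nd (nat_lit 251) (nat_lit 0) (cs (lf (nat_lit 17) (nat_lit 229)) (rf (nat_lit 0)))) q81730 (by decide +kernel)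
def q81736 : Q := Q.p (nat_lit 0x1800016000040000000000000000000000000000000000000000000000000000) (nat_lit 0x40000000000800008c000020000080000000000000000000000000000000000000000) (nat_lit 4)
theorem c81736 : QOK q81736 := cut [q81735] ⟨c81735, trivial⟩ (nd (nat_lit 231) (nat_lit 0) (cs (lf (nat_lit 17) (nat_lit 207)) (rf (nat_lit 0)))) q81736 (by decide +kernel)
def q81755 : Q := Q.p (nat_lit 0x1000007000000000000000000000000000000000000000000000000000000000000000) (nat_lit 0x2380000c00038000000000000000000000000000000000000000000000000000000000) (nat_lit 5)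
theorem c81755 : QOK q81755 := cut [q79013] ⟨c79013, trivial⟩ (nd (nat_lit 251) (nat_lit 0) (cs (lf (nat_lit 5) (nat_lit 251)) (rf (nat_lit 0)))) q81755 (by decide +kernel)
def q81757 : Q := Q.p (nat_lit 0x400001000007000010000000000000000000000000000000000000000000000000000000000) (nat_lit 0x800002000000000000000680000a0000000000000000000000000000000000000000000000000000) (nat_lit 4)
theorem c81757 : QOK q81757 := cut [q81756] ⟨c81756, trivial⟩ (nd (nat_lit 297) (nat_lit 0) (cs (lf (nat_lit 41) (nat_lit 231)) (rf (nat_lit 0)))) q81757 (by decide +kernel)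
def q81763 : Q := Q.p (nat_lit 0x1000007000010000000000000000000000000000000000000000000000000000000000) (nat_lit 0x4000000000008000e00000c0000200000800000000000000000000000000000000000000000) (nat_lit 5)
theorem c81763 : QOK q81763 := cut [q81761] ⟨c81761, trivial⟩ (nd (nat_lit 233) (nat_lit 0) (cs (lf (nat_lit 12) (nat_lit 229)) (nd (nat_lit 234) (nat_lit 0) (cs (lf (nat_lit 6) (nat_lit 231)) (rf (nat_lit 0)))))) q81763 (by decide +kernel)
def q81805 : Q := Q.p (nat_lit 0x100000400003000004000000000000000000000000000000000000000000000000000000000) (nat_lit 0x20000280000a00000000000000010000040000000000000000000000000000000000000000000000) (nat_lit 4)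
theorem c81805 : QOK q81805 := cut [q81804] ⟨c81804, trivial⟩ (nd (nat_lit 295) (nat_lit 0) (cs (lf (nat_lit 41) (nat_lit 229)) (rf (nat_lit 0)))) q81805 (by decide +kernel)
def q81814 : Q := Q.p (nat_lit 0x40000100000400007000004000000000000000000000000000000000000000000000000000000000) (nat_lit 0x10000000000080000b00000000000000010000040000000000000000000000000000000000000000000000) (nat_lit 4)
theorem c81814 : QOK q81814 := cut [q81813] ⟨c81813, trivial⟩ (nd (nat_lit 275) (nat_lit 0) (cs (lf (nat_lit 30) (nat_lit 252)) (rf (nat_lit 0)))) q81814 (by decide +kernel)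
def q81820 : Q := Q.p (nat_lit 0x100000400003000000000000000000000000000000000000000000000000000000000000000) (nat_lit 0x280000e000028000000000000000c000000000000000000000000000000000000000000000000000000000) (nat_lit 5)
theorem c81820 : QOK q81820 := cut [q81819] ⟨c81819, trivial⟩ (nd (nat_lit 318) (nat_lit 0) (cs (lf (nat_lit 35) (nat_lit 230)) (rf (nat_lit 0)))) q81820 (by decide +kernel)
def q81825 : Q := Q.p (nat_lit 0x10000340000c000020000000000000000000000000000000000000000000000000000000000) (nat_lit 0x200001880000800000000010000040000000000000000000000000000000000000000000000000000) (nat_lit 4)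
theorem c81825 : QOK q81825 := cut [q81824] ⟨c81824, trivial⟩ (nd (nat_lit 275) (nat_lit 0) (cs (lf (nat_lit 11) (nat_lit 273)) (rf (nat_lit 0)))) q81825 (by decide +kernel)
def q81850 : Q := Q.p (nat_lit 0xc00007000008000020000000000000000000000000000000000000000000000000000) (nat_lit 0x200006000018000074000058000160000000000000000000000000000000000000000000000) (nat_lit 8)
theorem c81850 : QOK q81850 := cut [q81847] ⟨c81847, trivial⟩ (nd (nat_lit 255) (nat_lit 0) (cs (lf (nat_lit 6) (nat_lit 252)) (nd (nat_lit 277) (nat_lit 0) (cs (lf (nat_lit 5) (nat_lit 252)) (nd (nat_lit 233) (nat_lit 0) (cs (lf (nat_lit 17) (nat_lit 230)) (rf (nat_lit 0)))))))) q81850 (by decide +kernel)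
def q81855 : Q := Q.p (nat_lit 0xc00007000008000020000000000000000000000000000000000000000000000000000) (nat_lit 0x80000200001c00007000018000070000010000040000000000000000000000000000000000000000000000) (nat_lit 8)
theorem c81855 : QOK q81855 := cut [q81851] ⟨c81851, trivial⟩ (nd (nat_lit 255) (nat_lit 0) (cs (lf (nat_lit 6) (nat_lit 252)) (nd (nat_lit 277) (nat_lit 0) (cs (lf (nat_lit 5) (nat_lit 252)) (nd (nat_lit 233) (nat_lit 0) (cs (lf (nat_lit 17) (nat_lit 230)) (nd (nat_lit 186) (nat_lit 0) (cs (lf (nat_lit 46) (nat_lit 186)) (rf (nat_lit 0)))))))))) q81855 (by decide +kernel)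
def q81859 : Q := Q.p (nat_lit 0xc00007000008000020000000000000000000000000000000000000000000000000000) (nat_lit 0x6000010000180000740000d8000360000000000000000000000000000000000000000000000) (nat_lit 9)
theorem c81859 : QOK q81859 := cut [q81847] ⟨c81847, trivial⟩ (nd (nat_lit 276) (nat_lit 0) (cs (lf (nat_lit 29) (nat_lit 209)) (nd (nat_lit 255) (nat_lit 0) (cs (lf (nat_lit 6) (nat_lit 252)) (nd (nat_lit 233) (nat_lit 0) (cs (lf (nat_lit 17) (nat_lit 230)) (nd (nat_lit 189) (nat_lit 0) (cs (lf (nat_lit 37) (nat_lit 188)) (rf (nat_lit 0)))))))))) q81859 (by decide +kernel)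
def q81865 : Q := Q.p (nat_lit 0xf800000000000000000000000000000000000000000000000000000000000000) (nat_lit 0x3040003c000000000000000000000000000000000000000000000000000000000) (nat_lit 4)
theorem c81865 : QOK q81865 := cut [q81864] ⟨c81864, trivial⟩ (nd (nat_lit 232) (nat_lit 0) (cs (lf (nat_lit 17) (nat_lit 229)) (rf (nat_lit 0)))) q81865 (by decide +kernel)
def q81880 : Q := Q.p (nat_lit 0x80001e000000000000000000000000000000000000000000000000000000000000000) (nat_lit 0x20000000002000001c000040000100000000000000000000000000000000000000000000000) (nat_lit 4)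
theorem c81880 : QOK q81880 := cut [q81879] ⟨c81879, trivial⟩ (nd (nat_lit 231) (nat_lit 0) (cs (lf (nat_lit 23) (nat_lit 230)) (rf (nat_lit 0)))) q81880 (by decide +kernel)
def q81898 : Q := Q.p (nat_lit 0x80000e000008000000000000000000000000000000000000000000000000000000000) (nat_lit 0x200000000010000007000030000040000100000000000000000000000000000000000000000) (nat_lit 5)
theorem c81898 : QOK q81898 := cut [q81896] ⟨c81896, trivial⟩ (nd (nat_lit 230) (nat_lit 0) (cs (lf (nat_lit 18) (nat_lit 230)) (nd (nat_lit 228) (nat_lit 0) (cs (lf (nat_lit 1) (nat_lit 228)) (rf (nat_lit 0)))))) q81898 (by decide +kernel)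
def q81902 : Q := Q.p (nat_lit 0x400000800002000008000000000000000000000000000000000000000000000000000000000) (nat_lit 0x10000000000000000700001c0000500000000000000000000000000000000000000000) (nat_lit 5)
theorem c81902 : QOK q81902 := cut [q81901] ⟨c81901, trivial⟩ (nd (nat_lit 209) (nat_lit 0) (cs (lf (nat_lit 28) (nat_lit 209)) (rf (nat_lit 0)))) q81902 (by decide +kernel)
def q81907 : Q := Q.p (nat_lit 0x80000e000000000000000000000000000000000000000000000000000000000000000) (nat_lit 0x1d40003000000c000000000000000000000000000000000000000000000000000000000) (nat_lit 5)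
theorem c81907 : QOK q81907 := cut [q80457] ⟨c80457, trivial⟩ (nd (nat_lit 256) (nat_lit 0) (cs (lf (nat_lit 11) (nat_lit 252)) (nd (nat_lit 230) (nat_lit 0) (cs (lf (nat_lit 22) (nat_lit 230)) (rf (nat_lit 0)))))) q81907 (by decide +kernel)
def q81924 : Q := Q.p (nat_lit 0xf000000000000000000000000000000000000000000000000000000000000000) (nat_lit 0x1ce000700003be000000000000000000000000000000000000000000000000000000000) (nat_lit 9)
theorem c81924 : QOK q81924 := cut [q81918] ⟨c81918, trivial⟩ (nd (nat_lit 274) (nat_lit 0) (cs (lf (nat_lit 11) (nat_lit 251)) (nd (nat_lit 229) (nat_lit 0) (cs (lf (nat_lit 22) (nat_lit 229)) (nd (nat_lit 256) (nat_lit 0) (cs (lf (nat_lit 10) (nat_lit 252)) (nd (nat_lit 279) (nat_lit 0) (cs (lf (nat_lit 4) (nat_lit 253)) (nd (nat_lit 257) (nat_lit 0) (cs (lf (nat_lit 5) (nat_lit 254)) (nd (nat_lit 232) (nat_lit 0) (cs (lf (nat_lit 23) (nat_lit 231)) (rf (nat_lit 0)))))))))))))) q81924 (by decide +kernel)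
def q81928 : Q := Q.p (nat_lit 0x200000e000000000000000000000000000000000000000000000000000000000000000) (nat_lit 0x4700001800007000000000000000000000000000000000000000000000000000000000) (nat_lit 5)
theorem c81928 : QOK q81928 := cut [q81927] ⟨c81927, trivial⟩ (nd (nat_lit 252) (nat_lit 0) (cs (lf (nat_lit 5) (nat_lit 252)) (rf (nat_lit 0)))) q81928 (by decide +kernel)
def q81945 : Q := Q.p (nat_lit 0x800002000008000020000000000000000000000000000000000000000000000000000000000) (nat_lit 0x1000004000010000000000100000c0000100000000000000000000000000000000000000000000000) (nat_lit 4)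
theorem c81945 : QOK q81945 := cut [q81067] ⟨c81067, trivial⟩ (nd (nat_lit 210) (nat_lit 0) (cs (lf (nat_lit 46) (nat_lit 210)) (rf (nat_lit 0)))) q81945 (by decide +kernel)
def q81959 : Q := Q.p (nat_lit 0x80000280000f000000000000000000000000000000000000000000000000000000000000000) (nat_lit 0x40001180001600000000008000020000000000000000000000000000000000000000000000000000) (nat_lit 5)
theorem c81959 : QOK q81959 := cut [q81957] ⟨c81957, trivial⟩ (nd (nat_lit 274) (nat_lit 0) (cs (lf (nat_lit 11) (nat_lit 251)) (nd (nat_lit 276) (nat_lit 0) (cs (lf (nat_lit 5) (nat_lit 274)) (rf (nat_lit 0)))))) q81959 (by decide +kernel)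
def q81973 : Q := Q.p (nat_lit 0x300000f000010000040000000000000000000000000000000000000000000000000000) (nat_lit 0x10000040000380000e0000000000e000000000000000000000000000000000000000000000000000000000) (nat_lit 6)
theorem c81973 : QOK q81973 := cut [q81970] ⟨c81970, trivial⟩ (nd (nat_lit 275) (nat_lit 0) (cs (lf (nat_lit 41) (nat_lit 209)) (nd (nat_lit 274) (nat_lit 0) (cs (lf (nat_lit 12) (nat_lit 251)) (nd (nat_lit 229) (nat_lit 0) (cs (lf (nat_lit 22) (nat_lit 229)) (rf (nat_lit 0)))))))) q81973 (by decide +kernel)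
def q81977 : Q := Q.p (nat_lit 0x300000c000010000040000000000000000000000000000000000000000000000000000) (nat_lit 0x400000000000000028000780000600000000000000000000000000000000000000000000000) (nat_lit 5)
theorem c81977 : QOK q81977 := cut [q79923] ⟨c79923, trivial⟩ (nd (nat_lit 211) (nat_lit 0) (cs (lf (nat_lit 35) (nat_lit 188)) (nd (nat_lit 233) (nat_lit 0) (cs (lf (nat_lit 41) (nat_lit 210)) (rf (nat_lit 0)))))) q81977 (by decide +kernel)
def q81986 : Q := Q.p (nat_lit 0xf000000000000000000000000000000000000000000000000000000000000000) (nat_lit 0x10000060001000000e000020000080000000000000000000000000000000000000000000000) (nat_lit 5)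
theorem c81986 : QOK q81986 := cut [q79098] ⟨c79098, trivial⟩ (nd (nat_lit 230) (nat_lit 0) (cs (lf (nat_lit 23) (nat_lit 229)) (nd (nat_lit 231) (nat_lit 0) (cs (lf (nat_lit 18) (nat_lit 230)) (rf (nat_lit 0)))))) q81986 (by decide +kernel)
def q81991 : Q := Q.p (nat_lit 0x1000007000010000000000000000000000000000000000000000000000000000000000) (nat_lit 0x400002000000c00008000020000080000000000000000000000000000000000000000000000) (nat_lit 4)
theorem c81991 : QOK q81991 := cut [q81990] ⟨c81990, trivial⟩ (nd (nat_lit 251) (nat_lit 0) (cs (lf (nat_lit 5) (nat_lit 251)) (rf (nat_lit 0)))) q81991 (by decide +kernel)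
def q81995 : Q := Q.p (nat_lit 0x800003000018000060000000000000000000000000000000000000000000000000000) (nat_lit 0x10000040000000000400001c000070000000000000000000000000000000000000000000000) (nat_lit 5)
theorem c81995 : QOK q81995 := cut [q81994] ⟨c81994, trivial⟩ (nd (nat_lit 274) (nat_lit 0) (cs (lf (nat_lit 41) (nat_lit 208)) (rf (nat_lit 0)))) q81995 (by decide +kernel)
def q82024 : Q := Q.p (nat_lit 0x7000004000000000000000000000000000000000000000000000000000000000) (nat_lit 0x48000120000fc000780003f2000090000240000000000000000000000000000000000000000000000) (nat_lit 13)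
theorem c82024 : QOK q82024 := cut [q82021] ⟨c82021, trivial⟩ (nd (nat_lit 255) (nat_lit 0) (cs (lf (nat_lit 23) (nat_lit 229)) (nd (nat_lit 233) (nat_lit 0) (cs (lf (nat_lit 17) (nat_lit 230)) (nd (nat_lit 278) (nat_lit 0) (cs (lf (nat_lit 4) (nat_lit 252)) (rf (nat_lit 0)))))))) q82024 (by decide +kernel)
def q82038 : Q := Q.p (nat_lit 0x200000400003000004000000000000000000000000000000000000000000000000000000000) (nat_lit 0x80000e0000180000000000000008000000000000000000000000000000000000000000000000000000000) (nat_lit 4)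
theorem c82038 : QOK q82038 := cut [q82037] ⟨c82037, trivial⟩ (nd (nat_lit 296) (nat_lit 0) (cs (lf (nat_lit 29) (nat_lit 230)) (rf (nat_lit 0)))) q82038 (by decide +kernel)
def q82042 : Q := Q.p (nat_lit 0x600000c000030000000000000000000000000000000000000000000000000000) (nat_lit 0x8000000000130000c0000100000400001000000000000000000000000000000000000) (nat_lit 5)
theorem c82042 : QOK q82042 := cut [q7464] ⟨c7464, trivial⟩ (nd (nat_lit 229) (nat_lit 0) (cs (lf (nat_lit 0) (nat_lit 228)) (nd (nat_lit 210) (nat_lit 0) (cs (lf (nat_lit 6) (nat_lit 207)) (rf (nat_lit 0)))))) q82042 (by decide +kernel)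
def q82058 : Q := Q.p (nat_lit 0x80000f000014000010000000000000000000000000000000000000000000000000000) (nat_lit 0x10000000000680001c8000300000400000000000000000000000000000000000000000) (nat_lit 6)
theorem c82058 : QOK q82058 := cut [q82056] ⟨c82056, trivial⟩ (nd (nat_lit 188) (nat_lit 0) (cs (lf (nat_lit 37) (nat_lit 187)) (nd (nat_lit 233) (nat_lit 0) (cs (lf (nat_lit 17) (nat_lit 230)) (rf (nat_lit 0)))))) q82058 (by decide +kernel)
def q82070 : Q := Q.p (nat_lit 0xf000000000000000000000000000000000000000000000000000000000000000) (nat_lit 0x3c00030c00007000000000000000000000000000000000000000000000000000000000) (nat_lit 6)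
theorem c82070 : QOK q82070 := cut [q80552] ⟨c80552, trivial⟩ (nd (nat_lit 229) (nat_lit 0) (cs (lf (nat_lit 22) (nat_lit 229)) (nd (nat_lit 251) (nat_lit 0) (cs (lf (nat_lit 23) (nat_lit 228)) (nd (nat_lit 276) (nat_lit 0) (cs (lf (nat_lit 5) (nat_lit 251)) (rf (nat_lit 0)))))))) q82070 (by decide +kernel)
def q82140 : Q := Q.p (nat_lit 0x300002c000080000000000000000000000000000000000000000000000000000) (nat_lit 0x800000000010000118000040000100000000000000000000000000000000000000000) (nat_lit 4)
theorem c82140 : QOK q82140 := cut [q79997] ⟨c79997, trivial⟩ (nd (nat_lit 232) (nat_lit 0) (cs (lf (nat_lit 17) (nat_lit 208)) (rf (nat_lit 0)))) q82140 (by decide +kernel)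
def q82169 : Q := Q.p (nat_lit 0x400001000007000000000000000000000000000000000000000000000000000000000000000) (nat_lit 0x280000a000028000000000780000e0000000000000000000000000000000000000000000000000000) (nat_lit 5)
theorem c82169 : QOK q82169 := cut [q80335, q81756] ⟨c80335, c81756, trivial⟩ (nd (nat_lit 232) (nat_lit 0) (cs (rf (nat_lit 0)) (rf (nat_lit 1)))) q82169 (by decide +kernel)
def q82180 : Q := Q.p (nat_lit 0x300000f000000000000000000000000000000000000000000000000000000000) (nat_lit 0x400000000000000066000080000200000000000000000000000000000000000000000) (nat_lit 4)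
theorem c82180 : QOK q82180 := cut [q82179] ⟨c82179, trivial⟩ (nd (nat_lit 205) (nat_lit 0) (cs (lf (nat_lit 22) (nat_lit 205)) (rf (nat_lit 0)))) q82180 (by decide +kernel)
def q82194 : Q := Q.p (nat_lit 0x3c00000000000000000000000000000000000000000000000000000000000000) (nat_lit 0x40000100000f0000c300019c00000000000000000000000000000000000000000000000000000000) (nat_lit 8)
theorem c82194 : QOK q82194 := cut [q82189] ⟨c82189, trivial⟩ (nd (nat_lit 231) (nat_lit 0) (cs (lf (nat_lit 17) (nat_lit 228)) (nd (nat_lit 227) (nat_lit 0) (cs (lf (nat_lit 22) (nat_lit 227)) (nd (nat_lit 249) (nat_lit 0) (cs (lf (nat_lit 23) (nat_lit 226)) (nd (nat_lit 274) (nat_lit 0) (cs (lf (nat_lit 5) (nat_lit 249)) (nd (nat_lit 296) (nat_lit 0) (cs (lf (nat_lit 30) (nat_lit 230)) (rf (nat_lit 0)))))))))))) q82194 (by decide +kernel)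
def q82202 : Q := Q.p (nat_lit 0xf000010000000000000000000000000000000000000000000000000000000000) (nat_lit 0xe0000300001c8000000000000000000000000000000000000000000000000000000000) (nat_lit 5)
theorem c82202 : QOK q82202 := cut [q82200] ⟨c82200, trivial⟩ (nd (nat_lit 278) (nat_lit 0) (cs (lf (nat_lit 4) (nat_lit 252)) (nd (nat_lit 256) (nat_lit 0) (cs (lf (nat_lit 5) (nat_lit 253)) (rf (nat_lit 0)))))) q82202 (by decide +kernel)

end Crest.Agent.H3.Snaky.CR
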