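import Crest.Agent.H3.Snaky.Cert
import Crest.Agent.H3.Snaky.CR.CR0
import Crest.Agent.H3.Snaky.CR.CR1
import Crest.Agent.H3.Snaky.CR.CR2
import Crest.Agent.H3.Snaky.CR.CR3
import Crest.Agent.H3.Snaky.CR.CR4
import Crest.Agent.H3.Snaky.CR.CR5
import Crest.Agent.H3.Snaky.CR.CR9
import Crest.Agent.H3.Snaky.CR.CR11
import Crest.Agent.H3.Snaky.CR.CR12
import Crest.Agent.H3.Snaky.CR.CR13
import Crest.Agent.H3.Snaky.CR.CR15
import Crest.Agent.H3.Snaky.CR.CR16
import Crest.Agent.H3.Snaky.CR.CR17
import Crest.Agent.H3.Snaky.CR.CR20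
import Crest.Agent.H3.Snaky.CR.CR21
import Crest.Agent.H3.Snaky.CR.CR22
import Crest.Agent.H3.Snaky.CR.CR23
import Crest.Agent.H3.Snaky.CR.CR24
import Crest.Agent.H3.Snaky.CR.CR25
import Crest.Agent.H3.Snaky.CR.CR26
import Crest.Agent.H3.Snaky.CR.CR27
import Crest.Agent.H3.Snaky.CR.CR28
import Crest.Agent.H3.Snaky.CR.CR30
import Crest.Agent.H3.Snaky.CR.CR31
import Crest.Agent.H3.Snaky.CR.CR33
import Crest.Agent.H3.Snaky.CR.CR34
import Crest.Agent.H3.Snaky.CR.CR35

set_option autoImplicit false
set_option maxRecDepth 100000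

namespace Crest.Agent.H3.Snaky.CR

open T

def q82209 : Q := Q.p (nat_lit 0x40000200001800002000000000000000000000000000000000000000000000000000000000) (nat_lit 0x10000070000180000000000000004000000000000000000000000000000000000000000000000000000000) (nat_lit 4)
theorem c82209 : QOK q82209 := cut [q82208] ⟨c82208, trivial⟩ (nd (nat_lit 295) (nat_lit 0) (cs (lf (nat_lit 41) (nat_lit 228)) (rf (nat_lit 0)))) q82209 (by decide +kernel)
def q82212 : Q := Q.p (nat_lit 0xc00003000006000018000000000000000000000000000000000000000000000000000) (nat_lit 0x80000e0000380000000000000000000000000000000000000000000000) (nat_lit 4)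
theorem c82212 : QOK q82212 := cut [q1018] ⟨c1018, trivial⟩ (nd (nat_lit 209) (nat_lit 0) (cs (lf (nat_lit 35) (nat_lit 186)) (rf (nat_lit 0)))) q82212 (by decide +kernel)
def q82220 : Q := Q.p (nat_lit 0x1800002000008000040000000000000000000000000000000000000000000000) (nat_lit 0x40000000000300001c0000100000000000000000000000000000000000) (nat_lit 4)
theorem c82220 : QOK q82220 := cut [q80449] ⟨c80449, trivial⟩ (nd (nat_lit 185) (nat_lit 0) (cs (lf (nat_lit 35) (nat_lit 163)) (rf (nat_lit 0)))) q82220 (by decide +kernel)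
def q82231 : Q := Q.p (nat_lit 0x200003800002000000000000000000000000000000000000000000000000000000000) (nat_lit 0x8000010000c000034000010000040000000000000000000000000000000000000000000000) (nat_lit 5)
theorem c82231 : QOK q82231 := cut [q82229] ⟨c82229, trivial⟩ (nd (nat_lit 254) (nat_lit 0) (cs (lf (nat_lit 11) (nat_lit 250)) (nd (nat_lit 232) (nat_lit 0) (cs (lf (nat_lit 17) (nat_lit 229)) (rf (nat_lit 0)))))) q82231 (by decide +kernel)
def q82256 : Q := Q.p (nat_lit 0x3c00000000000000000000000000000000000000000000000000000000000000) (nat_lit 0xf0000c300001c00000000000000000000000000000000000000000000000000000000) (nat_lit 6)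
theorem c82256 : QOK q82256 := cut [q82189] ⟨c82189, trivial⟩ (nd (nat_lit 227) (nat_lit 0) (cs (lf (nat_lit 22) (nat_lit 227)) (nd (nat_lit 249) (nat_lit 0) (cs (lf (nat_lit 23) (nat_lit 226)) (nd (nat_lit 274) (nat_lit 0) (cs (lf (nat_lit 5) (nat_lit 249)) (rf (nat_lit 0)))))))) q82256 (by decide +kernel)
def q82259 : Q := Q.p (nat_lit 0xf000000000000000000000000000000000000000000000000000000000000000) (nat_lit 0xee00010000000000000000000000000000000000000000000000000000000000000000) (nat_lit 4)
theorem c82259 : QOK q82259 := cut [q82258] ⟨c82258, trivial⟩ (nd (nat_lit 274) (nat_lit 0) (cs (lf (nat_lit 11) (nat_lit 251)) (rf (nat_lit 0)))) q82259 (by decide +kernel)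
def q82267 : Q := Q.p (nat_lit 0x380000f000000000000000000000000000000000000000000000000000000000) (nat_lit 0xa000000000000000700001c0000700000000000000000000000000000000000000000) (nat_lit 6)
theorem c82267 : QOK q82267 := cut [q82266] ⟨c82266, trivial⟩ (nd (nat_lit 209) (nat_lit 0) (cs (lf (nat_lit 17) (nat_lit 206)) (rf (nat_lit 0)))) q82267 (by decide +kernel)
def q82285 : Q := Q.p (nat_lit 0xc00003c00000000000000000000000000000000000000000000000000000000000000) (nat_lit 0x10000060000380004000002000008000000000000000000000000000000000000000000000000000) (nat_lit 5)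
theorem c82285 : QOK q82285 := cut [q12679] ⟨c12679, trivial⟩ (nd (nat_lit 272) (nat_lit 0) (cs (lf (nat_lit 11) (nat_lit 249)) (nd (nat_lit 273) (nat_lit 0) (cs (rf (nat_lit 0)) (lf (nat_lit 17) (nat_lit 250)))))) q82285 (by decide +kernel)
def q82289 : Q := Q.p (nat_lit 0x40000300000c000000000000000000000000000000000000000000000000000000000) (nat_lit 0xe0000380000a00000000000000010000000000000000000000000000000000000000000000000000) (nat_lit 5)
theorem c82289 : QOK q82289 := cut [q82288] ⟨c82288, trivial⟩ (nd (nat_lit 296) (nat_lit 0) (cs (lf (nat_lit 30) (nat_lit 230)) (rf (nat_lit 0)))) q82289 (by decide +kernel)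
def q82292 : Q := Q.p (nat_lit 0x40000300000c000000000000000000000000000000000000000000000000000000000) (nat_lit 0xc0000300000800000000002000018000020000000000000000000000000000000000000000000000) (nat_lit 5)
theorem c82292 : QOK q82292 := cut [q82291] ⟨c82291, trivial⟩ (nd (nat_lit 296) (nat_lit 0) (cs (lf (nat_lit 30) (nat_lit 230)) (rf (nat_lit 0)))) q82292 (by decide +kernel)
def q82294 : Q := Q.p (nat_lit 0x3c0000c000000000000000000000000000000000000000000000000000000000) (nat_lit 0x38001c000002000000000000000000000000000000000000000000000000000000000) (nat_lit 4)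
theorem c82294 : QOK q82294 := cut [q82293] ⟨c82293, trivial⟩ (nd (nat_lit 272) (nat_lit 0) (cs (lf (nat_lit 11) (nat_lit 249)) (rf (nat_lit 0)))) q82294 (by decide +kernel)
def q82307 : Q := Q.p (nat_lit 0x3800008000020000080000000000000000000000000000000000000000000000) (nat_lit 0xa0000000003400001e000078000180000000000000000000000000000000000000000) (nat_lit 8)
theorem c82307 : QOK q82307 := cut [q10986] ⟨c10986, trivial⟩ (nd (nat_lit 186) (nat_lit 0) (cs (lf (nat_lit 47) (nat_lit 164)) (nd (nat_lit 208) (nat_lit 0) (cs (lf (nat_lit 42) (nat_lit 186)) (nd (nat_lit 230) (nat_lit 0) (cs (lf (nat_lit 41) (nat_lit 185)) (nd (nat_lit 232) (nat_lit 0) (cs (lf (nat_lit 6) (nat_lit 229)) (nd (nat_lit 206) (nat_lit 0) (cs (rf (nat_lit 0)) (lf (nat_lit 1) (nat_lit 206)))))))))))) q82307 (by decide +kernel)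
def q82309 : Q := Q.p (nat_lit 0x3000008000020000000000000000000000000000000000000000000000000000) (nat_lit 0x4000000000040000000000c0000300000400000000000000000000000000000000000) (nat_lit 4)
theorem c82309 : QOK q82309 := cut [q4090] ⟨c4090, trivial⟩ (nd (nat_lit 187) (nat_lit 0) (cs (lf (nat_lit 41) (nat_lit 186)) (rf (nat_lit 0)))) q82309 (by decide +kernel)
def q82310 : Q := Q.p (nat_lit 0x1c00008000000000000000000000000000000000000000000000000000000000) (nat_lit 0xee0000300004000000000000000000000000000000000000000000000000000000000) (nat_lit 5)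
theorem c82310 : QOK q82310 := cut [q40736] ⟨c40736, trivial⟩ (nd (nat_lit 249) (nat_lit 0) (cs (lf (nat_lit 16) (nat_lit 227)) (rf (nat_lit 0)))) q82310 (by decide +kernel)
def q82316 : Q := Q.p (nat_lit 0xc00003000008000040000000000000000000000000000000000000000000000000000) (nat_lit 0x60000180000600000000000000010000000000000000000000000000000000000000000000000000000000) (nat_lit 4)
theorem c82316 : QOK q82316 := cut [q82283] ⟨c82283, trivial⟩ (nd (nat_lit 297) (nat_lit 0) (cs (lf (nat_lit 34) (nat_lit 209)) (rf (nat_lit 0)))) q82316 (by decide +kernel)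
def q82344 : Q := Q.p (nat_lit 0x100001c000030000000000000000000000000000000000000000000000000000) (nat_lit 0x40000000000200000c000020000080000200000000000000000000000000000000000) (nat_lit 4)
theorem c82344 : QOK q82344 := cut [q1411] ⟨c1411, trivial⟩ (nd (nat_lit 207) (nat_lit 0) (cs (lf (nat_lit 0) (nat_lit 206)) (rf (nat_lit 0)))) q82344 (by decide +kernel)
def q82350 : Q := Q.p (nat_lit 0x800002000008000020000000000000000000000000000000000000000000000000000) (nat_lit 0x500001c0000700000000000000004000010000040000000000000000000000000000000000000000000000) (nat_lit 6)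
theorem c82350 : QOK q82350 := cut [q2394] ⟨c2394, trivial⟩ (nd (nat_lit 208) (nat_lit 0) (cs (lf (nat_lit 47) (nat_lit 186)) (nd (nat_lit 297) (nat_lit 0) (cs (lf (nat_lit 46) (nat_lit 208)) (rf (nat_lit 0)))))) q82350 (by decide +kernel)
def q82358 : Q := Q.p (nat_lit 0xc0000b000020000000000000000000000000000000000000000000000000000) (nat_lit 0x200000000004000046000010000040000000000000000000000000000000000000000) (nat_lit 4)
theorem c82358 : QOK q82358 := cut [q82357] ⟨c82357, trivial⟩ (nd (nat_lit 230) (nat_lit 0) (cs (lf (nat_lit 17) (nat_lit 206)) (rf (nat_lit 0)))) q82358 (by decide +kernel)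
def q82386 : Q := Q.p (nat_lit 0x3c00001000000000000000000000000000000000000000000000000000000000) (nat_lit 0x40000180004000002000008000020000000000000000000000000000000000000000000000) (nat_lit 4)
theorem c82386 : QOK q82386 := cut [q20250] ⟨c20250, trivial⟩ (nd (nat_lit 229) (nat_lit 0) (cs (rf (nat_lit 0)) (lf (nat_lit 18) (nat_lit 228)))) q82386 (by decide +kernel)
def q82402 : Q := Q.p (nat_lit 0x3c00000000000000000000000000000000000000000000000000000000000000) (nat_lit 0x2000008000e70001c00007f800000000000000000000000000000000000000000000000000000000) (nat_lit 10)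
theorem c82402 : QOK q82402 := cut [q82395] ⟨c82395, trivial⟩ (nd (nat_lit 231) (nat_lit 0) (cs (lf (nat_lit 17) (nat_lit 228)) (nd (nat_lit 228) (nat_lit 0) (cs (lf (nat_lit 23) (nat_lit 227)) (nd (nat_lit 254) (nat_lit 0) (cs (lf (nat_lit 22) (nat_lit 228)) (nd (nat_lit 273) (nat_lit 0) (cs (lf (nat_lit 11) (nat_lit 250)) (nd (nat_lit 295) (nat_lit 0) (cs (lf (nat_lit 42) (nat_lit 228)) (nd (nat_lit 255) (nat_lit 0) (cs (lf (nat_lit 10) (nat_lit 251)) (nd (nat_lit 233) (nat_lit 0) (cs (lf (nat_lit 17) (nat_lit 230)) (rf (nat_lit 0)))))))))))))))) q82402 (by decide +kernel)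
def q82416 : Q := Q.p (nat_lit 0x80000300000800000000000000000000000000000000000000000000000000000000000000) (nat_lit 0x40000100000600007400000c000000000300000c000010000000000000000000000000000000000000000000000) (nat_lit 6)
theorem c82416 : QOK q82416 := cut [q82408, q82413] ⟨c82408, c82413, trivial⟩ (nd (nat_lit 296) (nat_lit 0) (cs (nd (nat_lit 229) (nat_lit 0) (cs (lf (nat_lit 29) (nat_lit 229)) (rf (nat_lit 0)))) (cs (nd (nat_lit 297) (nat_lit 0) (cs (lf (nat_lit 18) (nat_lit 272)) (nd (nat_lit 271) (nat_lit 0) (cs (lf (nat_lit 0) (nat_lit 270)) (lf (nat_lit 21) (nat_lit 271)))))) (nd (nat_lit 297) (nat_lit 0) (cs (lf (nat_lit 18) (nat_lit 272)) (nd (nat_lit 270) (nat_lit 0) (cs (lf (nat_lit 1) (nat_lit 270)) (rf (nat_lit 1))))))))) q82416 (by decide +kernel)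
def q82419 : Q := Q.p (nat_lit 0x100000000002000008000020000000000000000000000000000000000000000000000000000000000) (nat_lit 0x140000600001c00000000000000000000000000000000000000000000000000000000000000000000000000) (nat_lit 4)
theorem c82419 : QOK q82419 := cut [q82418] ⟨c82418, trivial⟩ (nd (nat_lit 299) (nat_lit 0) (cs (lf (nat_lit 40) (nat_lit 232)) (rf (nat_lit 0)))) q82419 (by decide +kernel)
def q82456 : Q := Q.p (nat_lit 0x10000040000100000400000000000000000000000000000000000000000000000000000000) (nat_lit 0xa0000380000e000000000000000080000200000800000000000000000000000000000000000000000000000000) (nat_lit 6)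
theorem c82456 : QOK q82456 := cut [q64789] ⟨c64789, trivial⟩ (nd (nat_lit 225) (nat_lit 0) (cs (lf (nat_lit 47) (nat_lit 203)) (nd (nat_lit 314) (nat_lit 0) (cs (lf (nat_lit 46) (nat_lit 225)) (rf (nat_lit 0)))))) q82456 (by decide +kernel)
def q82541 : Q := Q.p (nat_lit 0x80000200003800000000000000000000000000000000000000000000000000000000000000) (nat_lit 0x500001c000078001ff8003fe000f780001c0004200000800000000000000000000000000000000000000000000000000000000) (nat_lit 13)
theorem c82541 : QOK q82541 := cut [q12815, q82498, q43076, q25254, q82511, q42360, q12705, q9863, q45054, q60777, q82468] ⟨c12815, c82498, c43076, c25254, c82511, c42360, c12705, c9863, c45054, c60777, c82468, trivial⟩ (nd (nat_lit 272) (nat_lit 0) (cs (lf (nat_lit 6) (nat_lit 250)) (nd (nat_lit 271) (nat_lit 0) (cs (lf (nat_lit 12) (nat_lit 248)) (nd (nat_lit 317) (nat_lit 0) (cs (rf (nat_lit 0)) (cs (rf (nat_lit 1)) (cs (nd (nat_lit 318) (nat_lit 0) (cs (lf (nat_lit 29) (nat_lit 251)) (nd (nat_lit 319) (nat_lit 0) (cs (rf (nat_lit 2)) (cs (nd (nat_lit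 316) (nat_lit 0) (cs (nd (nat_lit 297) (nat_lit 0) (cs (lf (nat_lit 17) (nat_lit 294)) (nd (nat_lit 296) (nat_lit 0) (cs (lf (nat_lit 12) (nat_lit 293)) (lf (nat_lit 21) (nat_lit 271)))))) (cs (nd (nat_lit 297) (nat_lit 0) (cs (lf (nat_lit 17) (nat_lit 294)) (nd (nat_lit 315) (nat_lit 0) (cs (lf (nat_lit 16) (nat_lit 293)) (rf (nat_lit 3)))))) (cs (nd (nat_lit 341) (nat_lit 0) (cs (lf (nat_lit 5) (nat_lit 316)) (nd (nat_lit 293) (nat_lit 0) (cs (lf (nat_lit 22) (nat_lit 293)) (nd (nat_lit 315) (nat_lit 0) (cs (lf (nat_lit 23) (nat_lit 292)) (nd (nat_lit 314) (nat_lit 0) (cs (lf (nat_lit 17) (nat_lit 292)) (nd (nat_lit 336) (nat_lit 0) (cs (lf (nat_lit 10) (nat_lit 314)) (lf (nat_lit 36) (nat_lit 248)))))))))))) (cs (nd (nat_lit 297) (nat_lit 0) (cs (lf (nat_lit 17) (nat_lit 294)) (nd (nat_lit 341) (nat_lit 0) (cs (lf (nat_lit 5) (nat_lit 316)) (rf (nat_lit 4)))))) (nd (nat_lit 294) (nat_lit 0) (cs (lf (nat_lit 23) (nat_lit 293)) (nd (nat_lit 297) (nat_lit 0) (cs (lf (nat_lit 19) (nat_lit 271)) (lf (nat_lit 17) (nat_lit 294)))))))))))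 (cs (nd (nat_lit 320) (nat_lit 0) (cs (rf (nat_lit 5)) (cs (nd (nat_lit 298) (nat_lit 0) (cs (lf (nat_lit 17) (nat_lit 295)) (nd (nat_lit 296) (nat_lit 0) (cs (lf (nat_lit 18) (nat_lit 295)) (lf (nat_lit 19) (nat_lit 272)))))) (nd (nat_lit 343) (nat_lit 0) (cs (lf (nat_lit 4) (nat_lit 317)) (nd (nat_lit 321) (nat_lit 0) (cs (lf (nat_lit 5) (nat_lit 318)) (lf (nat_lit 22) (nat_lit 295))))))))) (nd (nat_lit 294) (nat_lit 0) (cs (lf (nat_lit 18) (nat_lit 294)) (nd (nat_lit 296) (nat_lit 0) (cs (lf (nat_lit 18) (nat_lit 271)) (lf (nat_lit 0) (nat_lit 293)))))))))))) (cs (nd (nat_lit 338) (nat_lit 0) (cs (lf (nat_lit 40) (nat_lit 250)) (nd (nat_lit 339) (nat_lit 0) (cs (lf (nat_lit 41) (nat_lit 272)) (nd (nat_lit 361) (nat_lit 0) (cs (rf (nat_lit 6)) (lf (nat_lit 46) (nat_lit 272)))))))) (nd (nat_lit 339) (nat_lit 0) (cs (rf (nat_lit 7)) (cs (nd (nat_lit 361) (nat_lit 0) (cs (lf (nat_lit 46) (nat_lit 272)) (rf (nat_lit 8)))) (nd (nat_lit 294) (nat_lit 0) (cs (lf (nat_lit 42) (nat_lit 272)) (nd (nat_lit 293) (nat_lit 0) (cs (rf (nat_lit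 9)) (cs (rf (nat_lit 10)) (nd (nat_lit 316) (nat_lit 0) (cs (lf (nat_lit 30) (nat_lit 250)) (nd (nat_lit 318) (nat_lit 0) (cs (lf (nat_lit 18) (nat_lit 293)) (nd (nat_lit 227) (nat_lit 0) (cs (lf (nat_lit 25) (nat_lit 227)) (nd (nat_lit 296) (nat_lit 0) (cs (lf (nat_lit 18) (nat_lit 271)) (nd (nat_lit 315) (nat_lit 0) (cs (lf (nat_lit 12) (nat_lit 292)) (nd (nat_lit 337) (nat_lit 0) (cs (lf (nat_lit 11) (nat_lit 314)) (lf (nat_lit 30) (nat_lit 271))))))))))))))))))))))))))))))) q82541 (by decide +kernel)
def q82543 : Q := Q.p (nat_lit 0x80000200000800002000000000000000000000000000000000000000000000000000000000) (nat_lit 0x1000004000010000000000100000c000010000000000000000000000000000000000000000000000) (nat_lit 4)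
theorem c82543 : QOK q82543 := cut [q82542] ⟨c82542, trivial⟩ (nd (nat_lit 294) (nat_lit 0) (cs (lf (nat_lit 41) (nat_lit 228)) (rf (nat_lit 0)))) q82543 (by decide +kernel)
def q82568 : Q := Q.p (nat_lit 0x20000080000200003800000000000000000000000000000000000000000000000000000000000000) (nat_lit 0x4000010000040000000004000003000004000000000000000000000000000000000000000000000000000) (nat_lit 4)
theorem c82568 : QOK q82568 := cut [q82567] ⟨c82567, trivial⟩ (nd (nat_lit 316) (nat_lit 0) (cs (lf (nat_lit 41) (nat_lit 250)) (rf (nat_lit 0)))) q82568 (by decide +kernel)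
def q82588 : Q := Q.p (nat_lit 0x80000200001800002000000000000000000000000000000000000000000000000000000000) (nat_lit 0xc000030000140000400000000000000008000020000000000000000000000000000000000000000000000) (nat_lit 5)
theorem c82588 : QOK q82588 := cut [q82586] ⟨c82586, trivial⟩ (nd (nat_lit 316) (nat_lit 0) (cs (lf (nat_lit 40) (nat_lit 228)) (nd (nat_lit 317) (nat_lit 0) (cs (lf (nat_lit 41) (nat_lit 250)) (rf (nat_lit 0)))))) q82588 (by decide +kernel)
def q82591 : Q := Q.p (nat_lit 0x80000200001800002000000000000000000000000000000000000000000000000000000000) (nat_lit 0x400001c000070000040000400000000000000000000000000000000000000000000000000000000000000000000) (nat_lit 5)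
theorem c82591 : QOK q82591 := cut [q82589] ⟨c82589, trivial⟩ (nd (nat_lit 316) (nat_lit 0) (cs (lf (nat_lit 40) (nat_lit 228)) (nd (nat_lit 317) (nat_lit 0) (cs (lf (nat_lit 41) (nat_lit 250)) (rf (nat_lit 0)))))) q82591 (by decide +kernel)
def q82632 : Q := Q.p (nat_lit 0x40000080000200001800000000000000000000000000000000000000000000000000000000000000) (nat_lit 0x100001c000030000000000400000000000000000000000000000000000000000000000000000000000000000000) (nat_lit 4)
theorem c82632 : QOK q82632 := cut [q82631] ⟨c82631, trivial⟩ (nd (nat_lit 317) (nat_lit 0) (cs (lf (nat_lit 29) (nat_lit 251)) (rf (nat_lit 0)))) q82632 (by decide +kernel)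
def q82665 : Q := Q.p (nat_lit 0x400003c00000000000000000000000000000000000000000000000000000000000000) (nat_lit 0x40000100000800000000018000020000080000000000000000000000000000000000000000000000) (nat_lit 4)
theorem c82665 : QOK q82665 := cut [q82664] ⟨c82664, trivial⟩ (nd (nat_lit 231) (nat_lit 0) (cs (lf (nat_lit 17) (nat_lit 228)) (rf (nat_lit 0)))) q82665 (by decide +kernel)
def q82718 : Q := Q.p (nat_lit 0x3c00000000000000000000000000000000000000000000000000000000000000) (nat_lit 0x400003b800000000000000000000000000000000000000000000000000000000) (nat_lit 4)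
theorem c82718 : QOK q82718 := cut [q82244] ⟨c82244, trivial⟩ (nd (nat_lit 232) (nat_lit 0) (cs (lf (nat_lit 16) (nat_lit 228)) (rf (nat_lit 0)))) q82718 (by decide +kernel)
def q82728 : Q := Q.p (nat_lit 0x1e0000000000000000000000000000000000000000000000000000000000000000000000000000000) (nat_lit 0x1c0000200001cc0000000000000000000000000000000000000000000000000000000000000000000000000) (nat_lit 5)
theorem c82728 : QOK q82728 := cut [q41754] ⟨c41754, trivial⟩ (nd (nat_lit 343) (nat_lit 0) (cs (lf (nat_lit 4) (nat_lit 317)) (nd (nat_lit 294) (nat_lit 0) (cs (lf (nat_lit 22) (nat_lit 294)) (rf (nat_lit 0)))))) q82728 (by decide +kernel)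
def q82777 : Q := Q.p (nat_lit 0x10000000000080000200000800000000000000000000000000000000000000000000000000000000) (nat_lit 0x500000c000070000000000000000000000000000000000000000000000000000000000000000000000000) (nat_lit 4)
theorem c82777 : QOK q82777 := cut [q65471] ⟨c65471, trivial⟩ (nd (nat_lit 293) (nat_lit 0) (cs (lf (nat_lit 28) (nat_lit 227)) (rf (nat_lit 0)))) q82777 (by decide +kernel)
def q82809 : Q := Q.p (nat_lit 0x50000040000100000400000000000000000000000000000000000000000000000000000000000000) (nat_lit 0x80000a00000b8000000000000000000000000000000000000000000000000000000000000000000000000) (nat_lit 4)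
theorem c82809 : QOK q82809 := cut [q46652] ⟨c46652, trivial⟩ (nd (nat_lit 317) (nat_lit 0) (cs (lf (nat_lit 29) (nat_lit 250)) (rf (nat_lit 0)))) q82809 (by decide +kernel)
def q82891 : Q := Q.p (nat_lit 0xe0000000000000000000000000000000000000000000000000000000000000000000000000000000) (nat_lit 0x7f0001180000f0000000000000000000000000000000000000000000000000000000000000000000000000) (nat_lit 5)
theorem c82891 : QOK q82891 := cut [q56138, q82771, q82876] ⟨c56138, c82771, c82876, trivial⟩ (nd (nat_lit 316) (nat_lit 0) (cs (rf (nat_lit 0)) (cs (rf (nat_lit 1)) (rf (nat_lit 2))))) q82891 (by decide +kernel)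
def q82912 : Q := Q.p (nat_lit 0x1c0000100000000000000000000000000000000000000000000000000000000000000000000000000) (nat_lit 0x3b8000600001880000000000000000000000000000000000000000000000000000000000000000000000000) (nat_lit 6)
theorem c82912 : QOK q82912 := cut [q82910] ⟨c82910, trivial⟩ (nd (nat_lit 321) (nat_lit 0) (cs (lf (nat_lit 23) (nat_lit 295)) (nd (nat_lit 299) (nat_lit 0) (cs (lf (nat_lit 17) (nat_lit 296)) (rf (nat_lit 0)))))) q82912 (by decide +kernel)
def q82917 : Q := Q.p (nat_lit 0x1c0000000000000000000000000000000000000000000000000000000000000000000000000000000) (nat_lit 0x3fc000620001c00000000000000000000000000000000000000000000000000000000000000000000000000) (nat_lit 5)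
theorem c82917 : QOK q82917 := cut [q13053, q82910, q12801] ⟨c13053, c82910, c12801, trivial⟩ (nd (nat_lit 321) (nat_lit 0) (cs (rf (nat_lit 0)) (cs (rf (nat_lit 1)) (nd (nat_lit 343) (nat_lit 0) (cs (lf (nat_lit 5) (nat_lit 318)) (nd (nat_lit 317) (nat_lit 0) (cs (rf (nat_lit 2)) (lf (nat_lit 4) (nat_lit 317))))))))) q82917 (by decide +kernel)
def q83076 : Q := Q.p (nat_lit 0x70000000000000002000000000000000000000000000000000000000000000000000000000000000) (nat_lit 0xa0000380001f8000f8000fe000180000fe0000800000000000000000000000000000000000000000000000000000000000000000000) (nat_lit 12)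
theorem c83076 : QOK q83076 := cut [q82771, q82788, q42492, q82750, q43505] ⟨c82771, c82788, c42492, c82750, c43505, trivial⟩ (nd (nat_lit 319) (nat_lit 0) (cs (rf (nat_lit 0)) (cs (rf (nat_lit 1)) (nd (nat_lit 361) (nat_lit 0) (cs (nd (nat_lit 297) (nat_lit 0) (cs (lf (nat_lit 17) (nat_lit 294)) (nd (nat_lit 340) (nat_lit 0) (cs (lf (nat_lit 37) (nat_lit 252)) (nd (nat_lit 362) (nat_lit 0) (cs (lf (nat_lit 30) (nat_lit 296)) (rf (nat_lit 2)))))))) (cs (nd (nat_lit 360) (nat_lit 0) (cs (nd (nat_lit 293) (nat_lit 0) (cs (lf (nat_lit 22) (nat_lit 293)) (nd (nat_lit 341) (nat_lit 0) (cs (lf (nat_lit 5) (nat_lit 316)) (nd (nat_lit 297) (nat_lit 0) (cs (lf (nat_lit 17) (nat_lit 294)) (nd (nat_lit 340) (nat_lit 0) (cs (lf (nat_lit 37) (nat_lit 252)) (nd (nat_lit 362) (nat_lit 0) (cs (lf (nat_lit 30) (nat_lit 296)) (lf (nat_lit 12) (nat_lit 337)))))))))))) (cs (nd (nat_lit 297) (nat_lit 0) (cs (lf (nat_lit 17) (nat_lit 294)) (nd (nat_lit 338) (nat_lit 0) (cs (lf (nat_lit 11) (nat_lit 315)) (nd (nat_lit 293) (nat_lit 0) (cs (lf (nat_lit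 22) (nat_lit 293)) (nd (nat_lit 275) (nat_lit 0) (cs (lf (nat_lit 41) (nat_lit 252)) (nd (nat_lit 341) (nat_lit 0) (cs (lf (nat_lit 5) (nat_lit 316)) (rf (nat_lit 3)))))))))))) (nd (nat_lit 338) (nat_lit 0) (cs (lf (nat_lit 11) (nat_lit 315)) (nd (nat_lit 382) (nat_lit 0) (cs (lf (nat_lit 35) (nat_lit 294)) (nd (nat_lit 381) (nat_lit 0) (cs (lf (nat_lit 41) (nat_lit 315)) (nd (nat_lit 380) (nat_lit 0) (cs (lf (nat_lit 12) (nat_lit 357)) (nd (nat_lit 362) (nat_lit 0) (cs (lf (nat_lit 9) (nat_lit 358)) (lf (nat_lit 6) (nat_lit 359))))))))))))))) (cs (nd (nat_lit 294) (nat_lit 0) (cs (lf (nat_lit 23) (nat_lit 293)) (nd (nat_lit 338) (nat_lit 0) (cs (lf (nat_lit 11) (nat_lit 315)) (nd (nat_lit 341) (nat_lit 0) (cs (lf (nat_lit 5) (nat_lit 316)) (nd (nat_lit 360) (nat_lit 0) (cs (lf (nat_lit 29) (nat_lit 294)) (nd (nat_lit 359) (nat_lit 0) (cs (lf (nat_lit 41) (nat_lit 293)) (nd (nat_lit 295) (nat_lit 0) (cs (lf (nat_lit 30) (nat_lit 294)) (nd (nat_lit 340) (nat_lit 0) (cs (rf (nat_lit 4)) (lf (nat_lit 15) (nat_lit 337))))))))))))))))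 (nd (nat_lit 341) (nat_lit 0) (cs (lf (nat_lit 5) (nat_lit 316)) (nd (nat_lit 338) (nat_lit 0) (cs (lf (nat_lit 11) (nat_lit 315)) (nd (nat_lit 294) (nat_lit 0) (cs (lf (nat_lit 23) (nat_lit 293)) (nd (nat_lit 383) (nat_lit 0) (cs (lf (nat_lit 27) (nat_lit 294)) (lf (nat_lit 44) (nat_lit 294))))))))))))))))) q83076 (by decide +kernel)
def q83110 : Q := Q.p (nat_lit 0x70000000000000000000000000000000000000000000000000000000000000000000000000000000) (nat_lit 0x7f80008c000038000000000000000000000000000000000000000000000000000000000000000000000000) (nat_lit 6)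
theorem c83110 : QOK q83110 := cut [q25254, q41854, q83005, q41746] ⟨c25254, c41854, c83005, c41746, trivial⟩ (nd (nat_lit 315) (nat_lit 0) (cs (rf (nat_lit 0)) (cs (rf (nat_lit 1)) (cs (rf (nat_lit 2)) (nd (nat_lit 292) (nat_lit 0) (cs (lf (nat_lit 22) (nat_lit 292)) (nd (nat_lit 341) (nat_lit 0) (cs (lf (nat_lit 4) (nat_lit 315)) (nd (nat_lit 319) (nat_lit 0) (cs (lf (nat_lit 5) (nat_lit 316)) (rf (nat_lit 3)))))))))))) q83110 (by decide +kernel)
def q83133 : Q := Q.p (nat_lit 0x400001c00000000000000000000000000000000000000000000000000000000000000) (nat_lit 0x8e0000300000e00000000000000000000000000000000000000000000000000000000) (nat_lit 5)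
theorem c83133 : QOK q83133 := cut [q11143] ⟨c11143, trivial⟩ (nd (nat_lit 249) (nat_lit 0) (cs (rf (nat_lit 0)) (lf (nat_lit 5) (nat_lit 249)))) q83133 (by decide +kernel)
def q83196 : Q := Q.p (nat_lit 0x78000000000000000000000000000000000000000000000) (nat_lit 0x40003b8000000000000000000000000000000000000000) (nat_lit 4)
theorem c83196 : QOK q83196 := cut [q19991] ⟨c19991, trivial⟩ (nd (nat_lit 164) (nat_lit 0) (cs (lf (nat_lit 17) (nat_lit 161)) (rf (nat_lit 0)))) q83196 (by decide +kernel)
def q83242 : Q := Q.p (nat_lit 0x2000018000020000080000000000000000000000000000000000) (nat_lit 0x40000100000700001c00001000000000000000000) (nat_lit 5)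
theorem c83242 : QOK q83242 := cut [q19002] ⟨c19002, trivial⟩ (nd (nat_lit 118) (nat_lit 0) (cs (lf (nat_lit 34) (nat_lit 117)) (nd (nat_lit 117) (nat_lit 0) (cs (lf (nat_lit 35) (nat_lit 95)) (rf (nat_lit 0)))))) q83242 (by decide +kernel)
def q83271 : Q := Q.p (nat_lit 0x1e00000000000000078000000000000000000000000000000000000000000000) (nat_lit 0xc00000000000000000000080000770000000000000000000000000000000000000000) (nat_lit 5)
theorem c83271 : QOK q83271 := cut [q62621] ⟨c62621, trivial⟩ (nd (nat_lit 161) (nat_lit 0) (cs (lf (nat_lit 23) (nat_lit 160)) (nd (nat_lit 274) (nat_lit 0) (cs (lf (nat_lit 5) (nat_lit 249)) (rf (nat_lit 0)))))) q83271 (by decide +kernel)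
def q83312 : Q := Q.p (nat_lit 0x3c000000000000000000000000000000000000000000000) (nat_lit 0x760001c0000ff8000040000100000000000000000000000000000) (nat_lit 10)
theorem c83312 : QOK q83312 := cut [q83298] ⟨c83298, trivial⟩ (nd (nat_lit 163) (nat_lit 0) (cs (lf (nat_lit 17) (nat_lit 160)) (nd (nat_lit 160) (nat_lit 0) (cs (lf (nat_lit 23) (nat_lit 159)) (nd (nat_lit 186) (nat_lit 0) (cs (lf (nat_lit 22) (nat_lit 160)) (nd (nat_lit 209) (nat_lit 0) (cs (lf (nat_lit 4) (nat_lit 183)) (nd (nat_lit 187) (nat_lit 0) (cs (lf (nat_lit 5) (nat_lit 184)) (nd (nat_lit 205) (nat_lit 0) (cs (lf (nat_lit 10) (nat_lit 183)) (nd (nat_lit 116) (nat_lit 0) (cs (lf (nat_lit 25) (nat_lit 116)) (rf (nat_lit 0)))))))))))))))) q83312 (by decide +kernel)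
def q83333 : Q := Q.p (nat_lit 0xf0000000000000000000000000000000000000000000000) (nat_lit 0x70000008000070000000000000000000000000000000000000000) (nat_lit 4)
theorem c83333 : QOK q83333 := cut [q83332] ⟨c83332, trivial⟩ (nd (nat_lit 209) (nat_lit 0) (cs (lf (nat_lit 5) (nat_lit 184)) (rf (nat_lit 0)))) q83333 (by decide +kernel)
def q83459 : Q := Q.p (nat_lit 0x1e0000000000000003c000000000000000000000000000000000000000000000) (nat_lit 0xc000000000000000020000420001f8000060000100000400000000000000000000000) (nat_lit 8)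
theorem c83459 : QOK q83459 := cut [q27606] ⟨c27606, trivial⟩ (nd (nat_lit 274) (nat_lit 0) (cs (lf (nat_lit 5) (nat_lit 249)) (nd (nat_lit 163) (nat_lit 0) (cs (lf (nat_lit 17) (nat_lit 160)) (nd (nat_lit 162) (nat_lit 0) (cs (lf (nat_lit 12) (nat_lit 159)) (nd (nat_lit 160) (nat_lit 0) (cs (lf (nat_lit 23) (nat_lit 159)) (nd (nat_lit 161) (nat_lit 0) (cs (rf (nat_lit 0)) (lf (nat_lit 18) (nat_lit 160)))))))))))) q83459 (by decide +kernel)
def q83579 : Q := Q.p (nat_lit 0x3c00000000000000020000000000000000000000000000000000000000000000) (nat_lit 0xdc000420007a0000fc0001dc0007c0001400000000000000000000000000000000000) (nat_lit 10)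
theorem c83579 : QOK q83579 := cut [q82278, q82301, q3184, q1231, q83565, q1434] ⟨c82278, c82301, c3184, c1231, c83565, c1434, trivial⟩ (nd (nat_lit 231) (nat_lit 0) (cs (rf (nat_lit 0)) (nd (nat_lit 209) (nat_lit 0) (cs (rf (nat_lit 1)) (cs (nd (nat_lit 207) (nat_lit 0) (cs (rf (nat_lit 2)) (cs (nd (nat_lit 271) (nat_lit 0) (cs (lf (nat_lit 10) (nat_lit 249)) (nd (nat_lit 249) (nat_lit 0) (cs (lf (nat_lit 11) (nat_lit 248)) (nd (nat_lit 275) (nat_lit 0) (cs (lf (nat_lit 4) (nat_lit 249)) (nd (nat_lit 210) (nat_lit 0) (cs (lf (nat_lit 35) (nat_lit 187)) (nd (nat_lit 208) (nat_lit 0) (cs (lf (nat_lit 23) (nat_lit 184)) (lf (nat_lit 47) (nat_lit 186)))))))))))) (nd (nat_lit 229) (nat_lit 0) (cs (lf (nat_lit 29) (nat_lit 185)) (nd (nat_lit 164) (nat_lit 0) (cs (lf (nat_lit 34) (nat_lit 163)) (nd (nat_lit 142) (nat_lit 0) (cs (lf (nat_lit 33) (nat_lit 141)) (nd (nat_lit 184) (nat_lit 0) (cs (lf (nat_lit 47) (nat_lit 162)) (nd (nat_lit 208) (nat_lit 0) (cs (lf (nat_lit 18) (nat_lit 184)) (rf (nat_lit 3))))))))))))))) (cs (nd (nat_lit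 186) (nat_lit 0) (cs (nd (nat_lit 271) (nat_lit 0) (cs (lf (nat_lit 10) (nat_lit 249)) (nd (nat_lit 249) (nat_lit 0) (cs (lf (nat_lit 11) (nat_lit 248)) (rf (nat_lit 4)))))) (cs (nd (nat_lit 208) (nat_lit 0) (cs (lf (nat_lit 42) (nat_lit 186)) (rf (nat_lit 5)))) (nd (nat_lit 271) (nat_lit 0) (cs (lf (nat_lit 10) (nat_lit 249)) (nd (nat_lit 249) (nat_lit 0) (cs (lf (nat_lit 11) (nat_lit 248)) (nd (nat_lit 187) (nat_lit 0) (cs (lf (nat_lit 47) (nat_lit 164)) (nd (nat_lit 166) (nat_lit 0) (cs (lf (nat_lit 34) (nat_lit 165)) (nd (nat_lit 184) (nat_lit 0) (cs (lf (nat_lit 5) (nat_lit 184)) (lf (nat_lit 16) (nat_lit 162))))))))))))))) (nd (nat_lit 271) (nat_lit 0) (cs (lf (nat_lit 10) (nat_lit 249)) (nd (nat_lit 249) (nat_lit 0) (cs (lf (nat_lit 11) (nat_lit 248)) (nd (nat_lit 274) (nat_lit 0) (cs (lf (nat_lit 36) (nat_lit 186)) (lf (nat_lit 5) (nat_lit 249)))))))))))))) q83579 (by decide +kernel)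
def q83610 : Q := Q.p (nat_lit 0x200007000000000000000000000000000000000000000000000000000000000000000) (nat_lit 0xe4000180000e0000000000000000000000000000000000000000000000000000000000) (nat_lit 5)
theorem c83610 : QOK q83610 := cut [q80576] ⟨c80576, trivial⟩ (nd (nat_lit 255) (nat_lit 0) (cs (lf (nat_lit 10) (nat_lit 251)) (rf (nat_lit 0)))) q83610 (by decide +kernel)
def q83650 : Q := Q.p (nat_lit 0x7800000000000000000000000000000000000000000000000000000000000000) (nat_lit 0x1c0000f00001f0000f0000870001a0000280000a0000000000000000000000000000000000000000000000) (nat_lit 11)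
theorem c83650 : QOK q83650 := cut [q82682, q83632, q82369, q83637, q83612, q83647] ⟨c82682, c83632, c82369, c83637, c83612, c83647, trivial⟩ (nd (nat_lit 273) (nat_lit 0) (cs (lf (nat_lit 11) (nat_lit 250)) (nd (nat_lit 274) (nat_lit 0) (cs (lf (nat_lit 6) (nat_lit 251)) (nd (nat_lit 295) (nat_lit 0) (cs (rf (nat_lit 0)) (cs (nd (nat_lit 317) (nat_lit 0) (cs (lf (nat_lit 30) (nat_lit 251)) (nd (nat_lit 318) (nat_lit 0) (cs (lf (nat_lit 29) (nat_lit 251)) (rf (nat_lit 1)))))) (cs (nd (nat_lit 296) (nat_lit 0) (cs (nd (nat_lit 229) (nat_lit 0) (cs (lf (nat_lit 24) (nat_lit 207)) (nd (nat_lit 294) (nat_lit 0) (cs (lf (nat_lit 41) (nat_lit 228)) (rf (nat_lit 2)))))) (rf (nat_lit 3)))) (cs (nd (nat_lit 317) (nat_lit 0) (cs (lf (nat_lit 30) (nat_lit 251)) (nd (nat_lit 318) (nat_lit 0) (cs (lf (nat_lit 29) (nat_lit 251)) (nd (nat_lit 231) (nat_lit 0) (cs (lf (nat_lit 31) (nat_lit 230)) (nd (nat_lit 187) (nat_lit 0) (cs (lf (nat_lit 37) (nat_lit 186)) (nd (nat_lit 316) (nat_lit 0) (cs (lf (nat_lit 41) (nat_lit 250)) (nd (nat_lit 250)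 (nat_lit 0) (cs (lf (nat_lit 17) (nat_lit 228)) (rf (nat_lit 4)))))))))))))) (rf (nat_lit 5))))))))))) q83650 (by decide +kernel)
def q83677 : Q := Q.p (nat_lit 0x100003c00000000000000000000000000000000000000000000000000000000000000) (nat_lit 0x40000000004000003800008000020000000000000000000000000000000000000000000000) (nat_lit 4)
theorem c83677 : QOK q83677 := cut [q83676] ⟨c83676, trivial⟩ (nd (nat_lit 228) (nat_lit 0) (cs (lf (nat_lit 23) (nat_lit 227)) (rf (nat_lit 0)))) q83677 (by decide +kernel)
def q83686 : Q := Q.p (nat_lit 0x600003800000000000000000000000000000000000000000000000000000000000000) (nat_lit 0x10000000000c000003000008000020000000000000000000000000000000000000000000000) (nat_lit 4)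
theorem c83686 : QOK q83686 := cut [q83685] ⟨c83685, trivial⟩ (nd (nat_lit 254) (nat_lit 0) (cs (lf (nat_lit 6) (nat_lit 251)) (rf (nat_lit 0)))) q83686 (by decide +kernel)
def q83695 : Q := Q.p (nat_lit 0x400007000000000000000000000000000000000000000000000000000000000000000) (nat_lit 0xe800018800077000000000000000000000000000000000000000000000000000000000) (nat_lit 5)
theorem c83695 : QOK q83695 := cut [q82258, q83694] ⟨c82258, c83694, trivial⟩ (nd (nat_lit 255) (nat_lit 0) (cs (rf (nat_lit 0)) (rf (nat_lit 1)))) q83695 (by decide +kernel)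
def q83699 : Q := Q.p (nat_lit 0x400007800000000000000000000000000000000000000000000000000000000000000) (nat_lit 0x9c0000600033800000000000000000000000000000000000000000000000000000000) (nat_lit 6)
theorem c83699 : QOK q83699 := cut [q83696] ⟨c83696, trivial⟩ (nd (nat_lit 228) (nat_lit 0) (cs (lf (nat_lit 22) (nat_lit 228)) (nd (nat_lit 232) (nat_lit 0) (cs (lf (nat_lit 17) (nat_lit 229)) (nd (nat_lit 250) (nat_lit 0) (cs (lf (nat_lit 23) (nat_lit 227)) (rf (nat_lit 0)))))))) q83699 (by decide +kernel)
def q83703 : Q := Q.p (nat_lit 0xf000020000000000000000000000000000000000000000000000000000000000) (nat_lit 0x800006000000800010000040000100000000000000000000000000000000000000000000000) (nat_lit 4)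
theorem c83703 : QOK q83703 := cut [q81018] ⟨c81018, trivial⟩ (nd (nat_lit 232) (nat_lit 0) (cs (lf (nat_lit 12) (nat_lit 229)) (rf (nat_lit 0)))) q83703 (by decide +kernel)
def q83707 : Q := Q.p (nat_lit 0x400007000000000000000000000000000000000000000000000000000000000000000) (nat_lit 0xea00018000060000000000000000000000000000000000000000000000000000000000) (nat_lit 5)
theorem c83707 : QOK q83707 := cut [q82258] ⟨c82258, trivial⟩ (nd (nat_lit 255) (nat_lit 0) (cs (lf (nat_lit 11) (nat_lit 251)) (nd (nat_lit 233) (nat_lit 0) (cs (lf (nat_lit 17) (nat_lit 230)) (rf (nat_lit 0)))))) q83707 (by decide +kernel)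
def q83710 : Q := Q.p (nat_lit 0x400007000000000000000000000000000000000000000000000000000000000000000) (nat_lit 0xea00018800007000000000000000000000000000000000000000000000000000000000) (nat_lit 6)
theorem c83710 : QOK q83710 := cut [q82258] ⟨c82258, trivial⟩ (nd (nat_lit 255) (nat_lit 0) (cs (lf (nat_lit 11) (nat_lit 251)) (nd (nat_lit 229) (nat_lit 0) (cs (lf (nat_lit 22) (nat_lit 229)) (nd (nat_lit 228) (nat_lit 0) (cs (lf (nat_lit 21) (nat_lit 228)) (rf (nat_lit 0)))))))) q83710 (by decide +kernel)
def q83713 : Q := Q.p (nat_lit 0x400003000004000008000000000000000000000000000000000000000000000000000) (nat_lit 0x10000000000c800003800000000000000000000000000000000000000000000000000000000) (nat_lit 4)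
theorem c83713 : QOK q83713 := cut [q83712] ⟨c83712, trivial⟩ (nd (nat_lit 229) (nat_lit 0) (cs (lf (nat_lit 42) (nat_lit 207)) (rf (nat_lit 0)))) q83713 (by decide +kernel)
def q83719 : Q := Q.p (nat_lit 0x100000400003000002000000000000000000000000000000000000000000000000000000000) (nat_lit 0x280000e000038000040000000000800000800000000000000000000000000000000000000000000000000000000000000) (nat_lit 6)
theorem c83719 : QOK q83719 := cut [q83718] ⟨c83718, trivial⟩ (nd (nat_lit 318) (nat_lit 0) (cs (lf (nat_lit 46) (nat_lit 229)) (rf (nat_lit 0)))) q83719 (by decide +kernel)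
def q83724 : Q := Q.p (nat_lit 0x100000400003000004000000000000000000000000000000000000000000000000000000000) (nat_lit 0xc800003800008000000000000000000000000000000000000000000000000000) (nat_lit 4)
theorem c83724 : QOK q83724 := cut [q83723] ⟨c83723, trivial⟩ (nd (nat_lit 229) (nat_lit 0) (cs (lf (nat_lit 47) (nat_lit 207)) (rf (nat_lit 0)))) q83724 (by decide +kernel)
def q83732 : Q := Q.p (nat_lit 0x100000400003000004000010000000000000000000000000000000000000000000000000000) (nat_lit 0x80000380000e0000080000800000000000000020000080000000000000000000000000000000000000000000000) (nat_lit 6)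
theorem c83732 : QOK q83732 := cut [q83731] ⟨c83731, trivial⟩ (nd (nat_lit 187) (nat_lit 0) (cs (lf (nat_lit 34) (nat_lit 186)) (rf (nat_lit 0)))) q83732 (by decide +kernel)
def q83735 : Q := Q.p (nat_lit 0x100000400003000004000010000000000000000000000000000000000000000000000000000) (nat_lit 0x18000060000280000800000000000000000000000000000000000000000000000000000000000000000000) (nat_lit 4)
theorem c83735 : QOK q83735 := cut [q83734] ⟨c83734, trivial⟩ (nd (nat_lit 275) (nat_lit 0) (cs (lf (nat_lit 29) (nat_lit 208)) (rf (nat_lit 0)))) q83735 (by decide +kernel)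
def q83750 : Q := Q.p (nat_lit 0x400003000004000000000000000000000000000000000000000000000000000000000) (nat_lit 0x20000080000c8000338000f80007e0000280000000000000000000000000000000000000000) (nat_lit 8)
theorem c83750 : QOK q83750 := cut [q80524, q81803, q83749] ⟨c80524, c81803, c83749, trivial⟩ (nd (nat_lit 208) (nat_lit 0) (cs (rf (nat_lit 0)) (cs (rf (nat_lit 1)) (rf (nat_lit 2))))) q83750 (by decide +kernel)
def q83814 : Q := Q.p (nat_lit 0x100000400003000004000000000000000000000000000000000000000000000000000000000) (nat_lit 0x80000300000c0000200000800000000000000010000040000000000000000000000000000000000000000000000) (nat_lit 4)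
theorem c83814 : QOK q83814 := cut [q10904, q42162, q83751] ⟨c10904, c42162, c83751, trivial⟩ (nd (nat_lit 318) (nat_lit 0) (cs (rf (nat_lit 0)) (cs (rf (nat_lit 1)) (rf (nat_lit 2))))) q83814 (by decide +kernel)
def q83816 : Q := Q.p (nat_lit 0x400003000004000000000000000000000000000000000000000000000000000000000) (nat_lit 0x10000000000c800003800018000020000080000000000000000000000000000000000000000) (nat_lit 4)
theorem c83816 : QOK q83816 := cut [q80983, q83712] ⟨c80983, c83712, trivial⟩ (nd (nat_lit 229) (nat_lit 0) (cs (rf (nat_lit 0)) (rf (nat_lit 1)))) q83816 (by decide +kernel)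
def q83837 : Q := Q.p (nat_lit 0x40000100000400003000000000000000000000000000000000000000000000000000000000000000) (nat_lit 0x80000200000800008000000000060000380000e0000200000000000000000000000000000000000000000) (nat_lit 7)
theorem c83837 : QOK q83837 := cut [q83835] ⟨c83835, trivial⟩ (nd (nat_lit 317) (nat_lit 0) (cs (lf (nat_lit 41) (nat_lit 251)) (nd (nat_lit 230) (nat_lit 0) (cs (lf (nat_lit 40) (nat_lit 229)) (rf (nat_lit 0)))))) q83837 (by decide +kernel)
def q83843 : Q := Q.p (nat_lit 0x100000600003000004000000000000000000000000000000000000000000000000000000000) (nat_lit 0x280000e00003800006000008000080000c000000000000000000000000000000000000000000000000000000000000000) (nat_lit 6)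
theorem c83843 : QOK q83843 := cut [q13202, q83718, q83840] ⟨c13202, c83718, c83840, trivial⟩ (nd (nat_lit 318) (nat_lit 0) (cs (rf (nat_lit 0)) (cs (rf (nat_lit 1)) (nd (nat_lit 254) (nat_lit 0) (cs (lf (nat_lit 6) (nat_lit 251)) (nd (nat_lit 295) (nat_lit 0) (cs (lf (nat_lit 41) (nat_lit 229)) (rf (nat_lit 2))))))))) q83843 (by decide +kernel)
def q83896 : Q := Q.p (nat_lit 0x180000600003000000000000000000000000000000000000000000000000000000000000000) (nat_lit 0x300000c00003c000e700001c000c200000800000000000000000000000000000000000000000000000000000000) (nat_lit 9)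
theorem c83896 : QOK q83896 := cut [q83882, q43962, q83850] ⟨c83882, c43962, c83850, trivial⟩ (nd (nat_lit 294) (nat_lit 0) (cs (rf (nat_lit 0)) (cs (nd (nat_lit 293) (nat_lit 0) (cs (lf (nat_lit 12) (nat_lit 270)) (nd (nat_lit 317) (nat_lit 0) (cs (lf (nat_lit 30) (nat_lit 251)) (nd (nat_lit 271) (nat_lit 0) (cs (lf (nat_lit 23) (nat_lit 270)) (nd (nat_lit 254) (nat_lit 0) (cs (rf (nat_lit 1)) (lf (nat_lit 6) (nat_lit 251)))))))))) (cs (nd (nat_lit 317) (nat_lit 0) (cs (lf (nat_lit 30) (nat_lit 251)) (nd (nat_lit 254) (nat_lit 0) (cs (lf (nat_lit 6) (nat_lit 251)) (nd (nat_lit 293) (nat_lit 0) (cs (lf (nat_lit 12) (nat_lit 270)) (rf (nat_lit 2)))))))) (nd (nat_lit 339) (nat_lit 0) (cs (lf (nat_lit 31) (nat_lit 251)) (nd (nat_lit 254) (nat_lit 0) (cs (lf (nat_lit 6) (nat_lit 251)) (nd (nat_lit 272) (nat_lit 0) (cs (lf (nat_lit 12) (nat_lit 249)) (nd (nat_lit 297) (nat_lit 0) (cs (lf (nat_lit 18) (nat_lit 272)) (nd (nat_lit 316) (nat_lit 0) (cs (lf (nat_lit 11) (nat_lit 293)) (nd (nat_lit 338) (nat_lit 0) (cs (lf (nat_lit 29)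 (nat_lit 272)) (lf (nat_lit 30) (nat_lit 272)))))))))))))))))) q83896 (by decide +kernel)
def q83915 : Q := Q.p (nat_lit 0x100000400003000000000000000000000000000000000000000000000000000000000000000) (nat_lit 0xa0000f80003f0000ee0000800000000000000000000000000000000000000000000000000000000000000000000) (nat_lit 8)
theorem c83915 : QOK q83915 := cut [q42098, q42162, q42165, q42171, q42176, q82897] ⟨c42098, c42162, c42165, c42171, c42176, c82897, trivial⟩ (nd (nat_lit 318) (nat_lit 0) (cs (rf (nat_lit 0)) (cs (rf (nat_lit 1)) (cs (rf (nat_lit 2)) (nd (nat_lit 319) (nat_lit 0) (cs (lf (nat_lit 29) (nat_lit 252)) (nd (nat_lit 320) (nat_lit 0) (cs (rf (nat_lit 3)) (cs (rf (nat_lit 4)) (rf (nat_lit 5))))))))))) q83915 (by decide +kernel)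
def q83935 : Q := Q.p (nat_lit 0x100000600001000000000000000000000000000000000000000000000000000000000000000) (nat_lit 0x80000200000c0000e80000180000000004000000000000000000000000000000000000000000000000000000000) (nat_lit 4)
theorem c83935 : QOK q83935 := cut [q83934] ⟨c83934, trivial⟩ (nd (nat_lit 297) (nat_lit 0) (cs (nd (nat_lit 298) (nat_lit 0) (cs (lf (nat_lit 18) (nat_lit 273)) (nd (nat_lit 272) (nat_lit 0) (cs (lf (nat_lit 0) (nat_lit 271)) (lf (nat_lit 21) (nat_lit 272)))))) (rf (nat_lit 0)))) q83935 (by decide +kernel)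
def q83959 : Q := Q.p (nat_lit 0x400003000004000000000000000000000000000000000000000000000000000000000) (nat_lit 0xa0000380000a000008000000000300000c0000200000000000000000000000000000000000000000) (nat_lit 6)
theorem c83959 : QOK q83959 := cut [q81803, q83956, q83958] ⟨c81803, c83956, c83958, trivial⟩ (nd (nat_lit 208) (nat_lit 0) (cs (rf (nat_lit 0)) (cs (rf (nat_lit 1)) (rf (nat_lit 2))))) q83959 (by decide +kernel)
def q83967 : Q := Q.p (nat_lit 0x600007800012000008000000000000000000000000000000000000000000000000000) (nat_lit 0x2800008000000000040000f00001c0000000000000000000000000000000000000000000000) (nat_lit 6)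
theorem c83967 : QOK q83967 := cut [q83965] ⟨c83965, trivial⟩ (nd (nat_lit 208) (nat_lit 0) (cs (lf (nat_lit 35) (nat_lit 185)) (nd (nat_lit 230) (nat_lit 0) (cs (lf (nat_lit 41) (nat_lit 207)) (rf (nat_lit 0)))))) q83967 (by decide +kernel)
def q83980 : Q := Q.p (nat_lit 0x400007800000000000000000000000000000000000000000000000000000000000000) (nat_lit 0x100000300000000003000008000020000000000000000000000000000000000000000000000) (nat_lit 4)
theorem c83980 : QOK q83980 := cut [q83685] ⟨c83685, trivial⟩ (nd (nat_lit 273) (nat_lit 0) (cs (lf (nat_lit 11) (nat_lit 250)) (rf (nat_lit 0)))) q83980 (by decide +kernel)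
def q84024 : Q := Q.p (nat_lit 0x60000080000600003000000000000000000000000000000000000000000000000000000000000000) (nat_lit 0x1400001000000000080000cf00031000000000000000000000000000000000000000000000000000000000) (nat_lit 7)
theorem c84024 : QOK q84024 := cut [q84023] ⟨c84023, trivial⟩ (nd (nat_lit 254) (nat_lit 0) (cs (lf (nat_lit 6) (nat_lit 251)) (rf (nat_lit 0)))) q84024 (by decide +kernel)
def q84032 : Q := Q.p (nat_lit 0x60000080000600003000000000000000000000000000000000000000000000000000000000000000) (nat_lit 0x6600019000037000080000c800000000000000000000000000000000000000000000000000000000000000) (nat_lit 7)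
theorem c84032 : QOK q84032 := cut [q43076, q82690] ⟨c43076, c82690, trivial⟩ (nd (nat_lit 319) (nat_lit 0) (cs (rf (nat_lit 0)) (cs (nd (nat_lit 254) (nat_lit 0) (cs (lf (nat_lit 6) (nat_lit 251)) (nd (nat_lit 296) (nat_lit 0) (cs (lf (nat_lit 29) (nat_lit 252)) (rf (nat_lit 1)))))) (nd (nat_lit 254) (nat_lit 0) (cs (lf (nat_lit 6) (nat_lit 251)) (nd (nat_lit 341) (nat_lit 0) (cs (lf (nat_lit 26) (nat_lit 252)) (nd (nat_lit 275) (nat_lit 0) (cs (lf (nat_lit 44) (nat_lit 252)) (nd (nat_lit 316) (nat_lit 0) (cs (lf (nat_lit 5) (nat_lit 316)) (nd (nat_lit 338) (nat_lit 0) (cs (lf (nat_lit 11) (nat_lit 315)) (lf (nat_lit 36) (nat_lit 250))))))))))))))) q84032 (by decide +kernel)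
def q84035 : Q := Q.p (nat_lit 0x60000080000600003000000000000000000000000000000000000000000000000000000000000000) (nat_lit 0x400003000019000017000080000c000000000000000000000000000000000000000000000000000000000000000) (nat_lit 5)
theorem c84035 : QOK q84035 := cut [q43076, q83840] ⟨c43076, c83840, trivial⟩ (nd (nat_lit 319) (nat_lit 0) (cs (rf (nat_lit 0)) (nd (nat_lit 254) (nat_lit 0) (cs (lf (nat_lit 6) (nat_lit 251)) (nd (nat_lit 296) (nat_lit 0) (cs (lf (nat_lit 29) (nat_lit 252)) (rf (nat_lit 1)))))))) q84035 (by decide +kernel)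
def q84076 : Q := Q.p (nat_lit 0x3c0000c00003000000000000000000000000000000000000000000000000000000000000000) (nat_lit 0x400000380000e00001800006000000000000000000000000000000000000000000000000000) (nat_lit 6)
theorem c84076 : QOK q84076 := cut [q15075] ⟨c15075, trivial⟩ (nd (nat_lit 272) (nat_lit 0) (cs (lf (nat_lit 23) (nat_lit 271)) (nd (nat_lit 273) (nat_lit 0) (cs (lf (nat_lit 18) (nat_lit 272)) (rf (nat_lit 0)))))) q84076 (by decide +kernel)
def q84110 : Q := Q.p (nat_lit 0x700003000004000000000000000000000000000000000000000000000000000000000) (nat_lit 0x800006c0000800000e0000380000e000038000080000000000000000000000000000000000000000) (nat_lit 6)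
theorem c84110 : QOK q84110 := cut [q22805, q55454, q51587, q84109] ⟨c22805, c55454, c51587, c84109, trivial⟩ (nd (nat_lit 250) (nat_lit 0) (cs (nd (nat_lit 228) (nat_lit 0) (cs (rf (nat_lit 0)) (cs (rf (nat_lit 1)) (nd (nat_lit 227) (nat_lit 0) (cs (lf (nat_lit 2) (nat_lit 227)) (nd (nat_lit 206) (nat_lit 0) (cs (lf (nat_lit 29) (nat_lit 206)) (rf (nat_lit 2))))))))) (rf (nat_lit 3)))) q84110 (by decide +kernel)
def q84143 : Q := Q.p (nat_lit 0x200003800006000018000000000000000000000000000000000000000000000000000) (nat_lit 0x1c00007000010000000000000000000000000000000000000000000000) (nat_lit 4)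
theorem c84143 : QOK q84143 := cut [q12540] ⟨c12540, trivial⟩ (nd (nat_lit 227) (nat_lit 0) (cs (lf (nat_lit 1) (nat_lit 227)) (rf (nat_lit 0)))) q84143 (by decide +kernel)
def q84156 : Q := Q.p (nat_lit 0x400001000004000010000000000000000000000000000000000000000000000000000) (nat_lit 0x800003000008000000000020000280000a0000000000000000000000000000000000000000000000) (nat_lit 5)
theorem c84156 : QOK q84156 := cut [q84155] ⟨c84155, trivial⟩ (nd (nat_lit 187) (nat_lit 0) (cs (lf (nat_lit 34) (nat_lit 186)) (rf (nat_lit 0)))) q84156 (by decide +kernel)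
def q84168 : Q := Q.p (nat_lit 0x400007800000000000000000000000000000000000000000000000000000000000000) (nat_lit 0xbe0000700000000000000000000000000000000000000000000000000000000000000) (nat_lit 5)
theorem c84168 : QOK q84168 := cut [q79006, q82663, q83696, q83974] ⟨c79006, c82663, c83696, c83974, trivial⟩ (nd (nat_lit 250) (nat_lit 0) (cs (rf (nat_lit 0)) (cs (rf (nat_lit 1)) (cs (rf (nat_lit 2)) (rf (nat_lit 3)))))) q84168 (by decide +kernel)
def q84215 : Q := Q.p (nat_lit 0x100000400001000000000000000000000000000000000000000000000000000000000000000) (nat_lit 0xa0000380000e0000280000000000800006000008000000000000000000000000000000000000000000000000000) (nat_lit 5)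
theorem c84215 : QOK q84215 := cut [q42098, q84212, q84214] ⟨c42098, c84212, c84214, trivial⟩ (nd (nat_lit 318) (nat_lit 0) (cs (rf (nat_lit 0)) (cs (rf (nat_lit 1)) (rf (nat_lit 2))))) q84215 (by decide +kernel)
def q84216 : Q := Q.p (nat_lit 0x80000400001000004000000000000000000000000000000000000000000000000000000000) (nat_lit 0x2000000000000000380000e0000280000000000000000000000000000000000000000) (nat_lit 5)
theorem c84216 : QOK q84216 := cut [q81331] ⟨c81331, trivial⟩ (nd (nat_lit 208) (nat_lit 0) (cs (lf (nat_lit 40) (nat_lit 207)) (rf (nat_lit 0)))) q84216 (by decide +kernel)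
def q84221 : Q := Q.p (nat_lit 0x100000400003000004000000000000000000000000000000000000000000000000000000000) (nat_lit 0xa0000680000380000000000000010000000000000000000000000000000000000000000000000000) (nat_lit 5)
theorem c84221 : QOK q84221 := cut [q84220] ⟨c84220, trivial⟩ (nd (nat_lit 297) (nat_lit 0) (cs (lf (nat_lit 29) (nat_lit 230)) (rf (nat_lit 0)))) q84221 (by decide +kernel)
def q84226 : Q := Q.p (nat_lit 0x100000400003000000000000000000000000000000000000000000000000000000000000000) (nat_lit 0xa0000380000e000020000030000c800006000008000000000000000000000000000000000000000000000000000) (nat_lit 6)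
theorem c84226 : QOK q84226 := cut [q42098, q84212, q84224] ⟨c42098, c84212, c84224, trivial⟩ (nd (nat_lit 318) (nat_lit 0) (cs (rf (nat_lit 0)) (cs (rf (nat_lit 1)) (nd (nat_lit 317) (nat_lit 0) (cs (lf (nat_lit 41) (nat_lit 251)) (rf (nat_lit 2))))))) q84226 (by decide +kernel)
def q84258 : Q := Q.p (nat_lit 0x100000400003800000000000000000000000000000000000000000000000000000000000000) (nat_lit 0x40000000000000004400003c00000000000000000000000000000000000000000000000000000000) (nat_lit 4)
theorem c84258 : QOK q84258 := cut [q84257] ⟨c84257, trivial⟩ (nd (nat_lit 229) (nat_lit 0) (cs (lf (nat_lit 42) (nat_lit 229)) (rf (nat_lit 0)))) q84258 (by decide +kernel)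
def q84268 : Q := Q.p (nat_lit 0x400003c00000000000000000000000000000000000000000000000000000000000000) (nat_lit 0x30000c300001c00000000000000000000000000000000000000000000000000000000) (nat_lit 5)
theorem c84268 : QOK q84268 := cut [q82189] ⟨c82189, trivial⟩ (nd (nat_lit 227) (nat_lit 0) (cs (lf (nat_lit 22) (nat_lit 227)) (nd (nat_lit 249) (nat_lit 0) (cs (lf (nat_lit 23) (nat_lit 226)) (rf (nat_lit 0)))))) q84268 (by decide +kernel)
def q84284 : Q := Q.p (nat_lit 0x3c00000000000000000000000000000000000000000000000000000000000000) (nat_lit 0x80000380004000001800004000010000000000000000000000000000000000000000000000) (nat_lit 5)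
theorem c84284 : QOK q84284 := cut [q84283] ⟨c84283, trivial⟩ (nd (nat_lit 228) (nat_lit 0) (cs (lf (nat_lit 23) (nat_lit 227)) (rf (nat_lit 0)))) q84284 (by decide +kernel)
def q84320 : Q := Q.p (nat_lit 0x20000080000e0000000000000000000000000000000000000000000000000000) (nat_lit 0x77000018000070000100000000000000000000000000000000000000000) (nat_lit 5)
theorem c84320 : QOK q84320 := cut [q7439, q84318, q84319] ⟨c7439, c84318, c84319, trivial⟩ (nd (nat_lit 208) (nat_lit 0) (cs (rf (nat_lit 0)) (cs (rf (nat_lit 1)) (rf (nat_lit 2))))) q84320 (by decide +kernel)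
def q84324 : Q := Q.p (nat_lit 0x80000e0000000000000000000000000000000000000000000000000000) (nat_lit 0x100000c4000110000e00000800002000000000000000000000000000000000000) (nat_lit 6)
theorem c84324 : QOK q84324 := cut [q84323] ⟨c84323, trivial⟩ (nd (nat_lit 212) (nat_lit 0) (cs (lf (nat_lit 11) (nat_lit 208)) (rf (nat_lit 0)))) q84324 (by decide +kernel)
def q84331 : Q := Q.p (nat_lit 0x2000008000020000080000000000000000000000000000000000000000000000) (nat_lit 0x8000000000000000c0000170000500000000000000000000000000000000000000000) (nat_lit 5)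
theorem c84331 : QOK q84331 := cut [q84329] ⟨c84329, trivial⟩ (nd (nat_lit 188) (nat_lit 0) (cs (lf (nat_lit 35) (nat_lit 165)) (nd (nat_lit 210) (nat_lit 0) (cs (lf (nat_lit 30) (nat_lit 187)) (rf (nat_lit 0)))))) q84331 (by decide +kernel)
def q84334 : Q := Q.p (nat_lit 0x80000200000c00003000000000000000000000000000000000000000000000000000000000000000) (nat_lit 0x1000004000000000020001c000010000000000000000000000000000000000000000000000000000000000) (nat_lit 4)
theorem c84334 : QOK q84334 := cut [q84333] ⟨c84333, trivial⟩ (nd (nat_lit 318) (nat_lit 0) (cs (lf (nat_lit 41) (nat_lit 252)) (rf (nat_lit 0)))) q84334 (by decide +kernel)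
def q84359 : Q := Q.p (nat_lit 0x78000000000000000000000000000000000000000000000000000) (nat_lit 0x3800004000038000000000000000000000000000000000000000000000) (nat_lit 4)
theorem c84359 : QOK q84359 := cut [q84358] ⟨c84358, trivial⟩ (nd (nat_lit 184) (nat_lit 0) (cs (lf (nat_lit 22) (nat_lit 184)) (rf (nat_lit 0)))) q84359 (by decide +kernel)
def q84365 : Q := Q.p (nat_lit 0x200000800002000008000000000000000000000000000000000000000000000000000000000) (nat_lit 0x500001c0000500000000000000000000000000000000000000000000000000000000000000000000000000) (nat_lit 4)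
theorem c84365 : QOK q84365 := cut [q44391] ⟨c44391, trivial⟩ (nd (nat_lit 318) (nat_lit 0) (cs (lf (nat_lit 40) (nat_lit 230)) (rf (nat_lit 0)))) q84365 (by decide +kernel)
def q84370 : Q := Q.p (nat_lit 0x200000800003000008000000000000000000000000000000000000000000000000000000000) (nat_lit 0x40000700001c0000400000400000000000000000000000000000000000000000000000000000000000000000000) (nat_lit 5)
theorem c84370 : QOK q84370 := cut [q2615] ⟨c2615, trivial⟩ (nd (nat_lit 320) (nat_lit 0) (cs (lf (nat_lit 28) (nat_lit 231)) (nd (nat_lit 319) (nat_lit 0) (cs (lf (nat_lit 29) (nat_lit 253)) (rf (nat_lit 0)))))) q84370 (by decide +kernel)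
def q84394 : Q := Q.p (nat_lit 0x3000018000020000080000200000000000000000000000000000000000000000) (nat_lit 0x200000800000000060000040000100000000000800000000000000000000000000000000000) (nat_lit 4)
theorem c84394 : QOK q84394 := cut [q84393] ⟨c84393, trivial⟩ (nd (nat_lit 233) (nat_lit 0) (cs (lf (nat_lit 6) (nat_lit 230)) (rf (nat_lit 0)))) q84394 (by decide +kernel)
def q84401 : Q := Q.p (nat_lit 0x3000018000020000080000200000000000000000000000000000000000000000) (nat_lit 0x200000800000000060000058000040000000000800000000000000000000000000000000000) (nat_lit 5)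
theorem c84401 : QOK q84401 := cut [q84399] ⟨c84399, trivial⟩ (nd (nat_lit 233) (nat_lit 0) (cs (lf (nat_lit 6) (nat_lit 230)) (nd (nat_lit 210) (nat_lit 0) (cs (lf (nat_lit 24) (nat_lit 143)) (rf (nat_lit 0)))))) q84401 (by decide +kernel)
def q84410 : Q := Q.p (nat_lit 0xc00003000004000010000000000000000000000000000000000000000000000000000) (nat_lit 0x8000030000c000000000008000020000000000000000000000000000000000000000000000) (nat_lit 4)
theorem c84410 : QOK q84410 := cut [q84409] ⟨c84409, trivial⟩ (nd (nat_lit 185) (nat_lit 0) (cs (lf (nat_lit 46) (nat_lit 185)) (rf (nat_lit 0)))) q84410 (by decide +kernel)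
def q84415 : Q := Q.p (nat_lit 0x300000c000010000000000000000000000000000000000000000000000000000) (nat_lit 0x40000000003200000e0000e0000380000000000000000000000000000000000000000) (nat_lit 7)
theorem c84415 : QOK q84415 := cut [q6938] ⟨c6938, trivial⟩ (nd (nat_lit 186) (nat_lit 0) (cs (lf (nat_lit 24) (nat_lit 164)) (nd (nat_lit 165) (nat_lit 0) (cs (lf (nat_lit 34) (nat_lit 164)) (nd (nat_lit 185) (nat_lit 0) (cs (lf (nat_lit 47) (nat_lit 163)) (nd (nat_lit 207) (nat_lit 0) (cs (lf (nat_lit 42) (nat_lit 185)) (rf (nat_lit 0)))))))))) q84415 (by decide +kernel)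
def q84419 : Q := Q.p (nat_lit 0x200001e000000000000000000000000000000000000000000000000000000000) (nat_lit 0x80000c0000000000c0000100000400000000000000000000000000000000000000000) (nat_lit 4)
theorem c84419 : QOK q84419 := cut [q79251] ⟨c79251, trivial⟩ (nd (nat_lit 254) (nat_lit 0) (cs (rf (nat_lit 0)) (lf (nat_lit 5) (nat_lit 229)))) q84419 (by decide +kernel)
def q84427 : Q := Q.p (nat_lit 0x300000f000000000000000000000000000000000000000000000000000000000) (nat_lit 0x700001ce000000000000000000000000000000000000000000000000000) (nat_lit 5)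
theorem c84427 : QOK q84427 := cut [q84425] ⟨c84425, trivial⟩ (nd (nat_lit 206) (nat_lit 0) (cs (lf (nat_lit 23) (nat_lit 205)) (nd (nat_lit 232) (nat_lit 0) (cs (lf (nat_lit 22) (nat_lit 206)) (rf (nat_lit 0)))))) q84427 (by decide +kernel)
def q84438 : Q := Q.p (nat_lit 0x300000c000010000000000000000000000000000000000000000000000000000) (nat_lit 0x600001800006000000000000000080000e0000380000000000000000000000000000000000000000) (nat_lit 7)
theorem c84438 : QOK q84438 := cut [q84436] ⟨c84436, trivial⟩ (nd (nat_lit 186) (nat_lit 0) (cs (lf (nat_lit 24) (nat_lit 164)) (nd (nat_lit 165) (nat_lit 0) (cs (lf (nat_lit 34) (nat_lit 164)) (rf (nat_lit 0)))))) q84438 (by decide +kernel)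
def q84444 : Q := Q.p (nat_lit 0x100001e000000000000000000000000000000000000000000000000000000000) (nat_lit 0x10000040000000000000001c000020000080000000000000000000000000000000000000000) (nat_lit 4)
theorem c84444 : QOK q84444 := cut [q84443] ⟨c84443, trivial⟩ (nd (nat_lit 207) (nat_lit 0) (cs (lf (nat_lit 23) (nat_lit 206)) (rf (nat_lit 0)))) q84444 (by decide +kernel)
def q84452 : Q := Q.p (nat_lit 0x3c000000000000000000000000000000000000000000000000000000000) (nat_lit 0x1c0000020001c0000000000000000000000000000000000000000000000000000) (nat_lit 4)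
theorem c84452 : QOK q84452 := cut [q84451] ⟨c84451, trivial⟩ (nd (nat_lit 255) (nat_lit 0) (cs (lf (nat_lit 5) (nat_lit 230)) (rf (nat_lit 0)))) q84452 (by decide +kernel)
def q84458 : Q := Q.p (nat_lit 0x300001c000000000000000000000000000000000000000000000000000000000) (nat_lit 0x2000008000040000620001c0000100000400000000000000000000000000000000000000000) (nat_lit 6)
theorem c84458 : QOK q84458 := cut [q84457] ⟨c84457, trivial⟩ (nd (nat_lit 233) (nat_lit 0) (cs (lf (nat_lit 6) (nat_lit 230)) (rf (nat_lit 0)))) q84458 (by decide +kernel)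
def q84484 : Q := Q.p (nat_lit 0xf000030000080000000000000000000000000000000000000000000000000000) (nat_lit 0x800006000000000000000040000300000800000000000000000000000000000000000000000) (nat_lit 4)
theorem c84484 : QOK q84484 := cut [q84483] ⟨c84483, trivial⟩ (nd (nat_lit 167) (nat_lit 0) (cs (lf (nat_lit 37) (nat_lit 166)) (rf (nat_lit 0)))) q84484 (by decide +kernel)
def q84491 : Q := Q.p (nat_lit 0x40000300001c000000000000000000000000000000000000000000000000000000000) (nat_lit 0xc0000300000800000000000000050000000000000000000000000000000000000000000000000000) (nat_lit 4)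
theorem c84491 : QOK q84491 := cut [q84490] ⟨c84490, trivial⟩ (nd (nat_lit 296) (nat_lit 0) (cs (lf (nat_lit 30) (nat_lit 230)) (rf (nat_lit 0)))) q84491 (by decide +kernel)
def q84498 : Q := Q.p (nat_lit 0x300001c000000000000000000000000000000000000000000000000000000000) (nat_lit 0x80000600001c000062000040000100000000000000000000000000000000000000000000000) (nat_lit 6)
theorem c84498 : QOK q84498 := cut [q81018] ⟨c81018, trivial⟩ (nd (nat_lit 233) (nat_lit 0) (cs (lf (nat_lit 6) (nat_lit 230)) (nd (nat_lit 255) (nat_lit 0) (cs (lf (nat_lit 5) (nat_lit 230)) (nd (nat_lit 254) (nat_lit 0) (cs (lf (nat_lit 0) (nat_lit 229)) (rf (nat_lit 0)))))))) q84498 (by decide +kernel)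
def q84514 : Q := Q.p (nat_lit 0x3000008000020000040000000000000000000000000000000000000000000000) (nat_lit 0x4000000000180000700001000000000000000000000000000000000000) (nat_lit 4)
theorem c84514 : QOK q84514 := cut [q10518] ⟨c10518, trivial⟩ (nd (nat_lit 187) (nat_lit 0) (cs (lf (nat_lit 47) (nat_lit 164)) (rf (nat_lit 0)))) q84514 (by decide +kernel)
def q84555 : Q := Q.p (nat_lit 0x30000080000e0000000000000000000000000000000000000000000000000000) (nat_lit 0xf4000300000000000000000000000000000000000000000000000000000) (nat_lit 4)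
theorem c84555 : QOK q84555 := cut [q84554] ⟨c84554, trivial⟩ (nd (nat_lit 212) (nat_lit 0) (cs (lf (nat_lit 11) (nat_lit 208)) (rf (nat_lit 0)))) q84555 (by decide +kernel)
def q84570 : Q := Q.p (nat_lit 0x1000008000020000080000000000000000000000000000000000000000000000) (nat_lit 0x4000014000040000000000600001800004000000000000000000000000000000) (nat_lit 5)
theorem c84570 : QOK q84570 := cut [q84569] ⟨c84569, trivial⟩ (nd (nat_lit 165) (nat_lit 0) (cs (lf (nat_lit 40) (nat_lit 164)) (rf (nat_lit 0)))) q84570 (by decide +kernel)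
def q84601 : Q := Q.p (nat_lit 0x200000e0000000000000000000000000000000000000000000000) (nat_lit 0x50000018000070000000000000000000000000000000000000000) (nat_lit 4)
theorem c84601 : QOK q84601 := cut [q83332] ⟨c83332, trivial⟩ (nd (nat_lit 184) (nat_lit 0) (cs (lf (nat_lit 5) (nat_lit 184)) (rf (nat_lit 0)))) q84601 (by decide +kernel)
def q84607 : Q := Q.p (nat_lit 0x2000008000020000080000000000000000000000000000000000000000000000) (nat_lit 0x800000000000000018000740000500000000000000000000000000000000000000000) (nat_lit 5)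
theorem c84607 : QOK q84607 := cut [q358] ⟨c358, trivial⟩ (nd (nat_lit 186) (nat_lit 0) (cs (lf (nat_lit 47) (nat_lit 164)) (nd (nat_lit 208) (nat_lit 0) (cs (lf (nat_lit 42) (nat_lit 186)) (rf (nat_lit 0)))))) q84607 (by decide +kernel)
def q84626 : Q := Q.p (nat_lit 0xc00003000004000000000000000000000000000000000000000000000000000000000) (nat_lit 0x8000030000c000000000010000040000000000000000000000000000000000000000000000) (nat_lit 4)
theorem c84626 : QOK q84626 := cut [q84409] ⟨c84409, trivial⟩ (nd (nat_lit 208) (nat_lit 0) (cs (lf (nat_lit 24) (nat_lit 186)) (rf (nat_lit 0)))) q84626 (by decide +kernel)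
def q84638 : Q := Q.p (nat_lit 0x100000400001000004000000000000000000000000000000000000000000000000000000000) (nat_lit 0xa0000280000200000000002000018000020000000000000000000000000000000000000000000000) (nat_lit 5)
theorem c84638 : QOK q84638 := cut [q84637] ⟨c84637, trivial⟩ (nd (nat_lit 297) (nat_lit 0) (cs (lf (nat_lit 29) (nat_lit 230)) (rf (nat_lit 0)))) q84638 (by decide +kernel)
def q84643 : Q := Q.p (nat_lit 0xf000008000000000000000000000000000000000000000000000000000000000) (nat_lit 0x40000100000e00000000060000020000080000000000000000000000000000000000000000000000) (nat_lit 5)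
theorem c84643 : QOK q84643 := cut [q82664] ⟨c82664, trivial⟩ (nd (nat_lit 274) (nat_lit 0) (cs (lf (nat_lit 11) (nat_lit 251)) (nd (nat_lit 233) (nat_lit 0) (cs (lf (nat_lit 17) (nat_lit 230)) (rf (nat_lit 0)))))) q84643 (by decide +kernel)
def q84648 : Q := Q.p (nat_lit 0x200000000003000008000040000000000000000000000000000000000000000000000000000) (nat_lit 0x40000180000400000800000000014000000000000000000000000000000000000000000000000000000000) (nat_lit 4)
theorem c84648 : QOK q84648 := cut [q84647] ⟨c84647, trivial⟩ (nd (nat_lit 275) (nat_lit 0) (cs (lf (nat_lit 34) (nat_lit 209)) (rf (nat_lit 0)))) q84648 (by decide +kernel)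
def q84701 : Q := Q.p (nat_lit 0x10000040000100000000000000000000000000000000000000000000000000000) (nat_lit 0x200000c000020000080000200000e0000380000a000000000000000000000000000000000000) (nat_lit 6)
theorem c84701 : QOK q84701 := cut [q22455, q84657, q84694, q84699] ⟨c22455, c84657, c84694, c84699, trivial⟩ (nd (nat_lit 190) (nat_lit 0) (cs (rf (nat_lit 0)) (cs (rf (nat_lit 1)) (cs (rf (nat_lit 2)) (nd (nat_lit 167) (nat_lit 0) (cs (lf (nat_lit 46) (nat_lit 167)) (rf (nat_lit 3)))))))) q84701 (by decide +kernel)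
def q84808 : Q := Q.p (nat_lit 0x300000000003000008000000000000000000000000000000000000000000000000000000000) (nat_lit 0x400001c0000400000800000000004000000000000000000000000000000000000000000000000000000000) (nat_lit 4)
theorem c84808 : QOK q84808 := cut [q84647] ⟨c84647, trivial⟩ (nd (nat_lit 275) (nat_lit 0) (cs (lf (nat_lit 41) (nat_lit 230)) (rf (nat_lit 0)))) q84808 (by decide +kernel)
def q84831 : Q := Q.p (nat_lit 0x100000800003000008000000000000000000000000000000000000000000000000000000000) (nat_lit 0x400001c0000600000000000000004000000000000000000000000000000000000000000000000000000000) (nat_lit 4)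
theorem c84831 : QOK q84831 := cut [q84647] ⟨c84647, trivial⟩ (nd (nat_lit 297) (nat_lit 0) (cs (lf (nat_lit 41) (nat_lit 230)) (rf (nat_lit 0)))) q84831 (by decide +kernel)
def q84852 : Q := Q.p (nat_lit 0x300000e000000000000000000000000000000000000000000000000000000000) (nat_lit 0x400000000001800060000080000200000000000000000000000000000000000000000) (nat_lit 4)
theorem c84852 : QOK q84852 := cut [q82179] ⟨c82179, trivial⟩ (nd (nat_lit 228) (nat_lit 0) (cs (lf (nat_lit 0) (nat_lit 227)) (rf (nat_lit 0)))) q84852 (by decide +kernel)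
def q84861 : Q := Q.p (nat_lit 0xc000020000080000100000000000000000000000000000000000000000000000) (nat_lit 0x10000000000600001c00004000000000000000000000000000000000000) (nat_lit 4)
theorem c84861 : QOK q84861 := cut [q84860] ⟨c84860, trivial⟩ (nd (nat_lit 189) (nat_lit 0) (cs (lf (nat_lit 47) (nat_lit 166)) (rf (nat_lit 0)))) q84861 (by decide +kernel)
def q84908 : Q := Q.p (nat_lit 0xf000000000000000000000000000000000000000000000000000000000) (nat_lit 0x10000060001000000e000020000080000000000000000000000000000000000000000) (nat_lit 5)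
theorem c84908 : QOK q84908 := cut [q84907] ⟨c84907, trivial⟩ (nd (nat_lit 250) (nat_lit 0) (cs (lf (nat_lit 11) (nat_lit 227)) (rf (nat_lit 0)))) q84908 (by decide +kernel)
def q84919 : Q := Q.p (nat_lit 0x2000008000020000040000000000000000000000000000000000000000000000000000) (nat_lit 0x140000700001c00000000000000010000000000000000000000000000000000000000000000000000000000) (nat_lit 5)
theorem c84919 : QOK q84919 := cut [q84918] ⟨c84918, trivial⟩ (nd (nat_lit 299) (nat_lit 0) (cs (lf (nat_lit 46) (nat_lit 210)) (rf (nat_lit 0)))) q84919 (by decide +kernel)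
def q84928 : Q := Q.p (nat_lit 0xa000038000000000000000000000000000000000000000000000000000000000) (nat_lit 0x20000100000060001c0000100000400000000000000000000000000000000000000000) (nat_lit 5)
theorem c84928 : QOK q84928 := cut [q22240] ⟨c22240, trivial⟩ (nd (nat_lit 230) (nat_lit 0) (cs (lf (nat_lit 5) (nat_lit 230)) (rf (nat_lit 0)))) q84928 (by decide +kernel)
def q84950 : Q := Q.p (nat_lit 0xf000018000000000000000000000000000000000000000000000000000000000) (nat_lit 0xe00030000060000000000000000000000000000000000000000000000000000000000) (nat_lit 4)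
theorem c84950 : QOK q84950 := cut [q84949] ⟨c84949, trivial⟩ (nd (nat_lit 233) (nat_lit 0) (cs (lf (nat_lit 6) (nat_lit 230)) (rf (nat_lit 0)))) q84950 (by decide +kernel)
def q84953 : Q := Q.p (nat_lit 0xb00001c000000000000000000000000000000000000000000000000000000000) (nat_lit 0x400000380000e000000000000000000000000000000000000000000000000000) (nat_lit 4)
theorem c84953 : QOK q84953 := cut [q84952] ⟨c84952, trivial⟩ (nd (nat_lit 229) (nat_lit 0) (cs (lf (nat_lit 19) (nat_lit 229)) (rf (nat_lit 0)))) q84953 (by decide +kernel)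
def q84958 : Q := Q.p (nat_lit 0xf000008000000000000000000000000000000000000000000000000000000000) (nat_lit 0x100000600000000006000020000080000000000000000000000000000000000000000000000) (nat_lit 4)
theorem c84958 : QOK q84958 := cut [q79098] ⟨c79098, trivial⟩ (nd (nat_lit 230) (nat_lit 0) (cs (lf (nat_lit 23) (nat_lit 229)) (rf (nat_lit 0)))) q84958 (by decide +kernel)
def q84969 : Q := Q.p (nat_lit 0x8000020000080000e0000000000000000000000000000000000000000000000000000) (nat_lit 0x1000004000000001c4000300001c00000000000000000000000000000000000000000000000) (nat_lit 6)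
theorem c84969 : QOK q84969 := cut [q84968] ⟨c84968, trivial⟩ (nd (nat_lit 212) (nat_lit 0) (cs (lf (nat_lit 11) (nat_lit 208)) (rf (nat_lit 0)))) q84969 (by decide +kernel)
def q84971 : Q := Q.p (nat_lit 0xf0000000000000000000000000000000000000000000000000000) (nat_lit 0xe0000100000e00000000000000000000000000000000000000000000000) (nat_lit 4)
theorem c84971 : QOK q84971 := cut [q84970] ⟨c84970, trivial⟩ (nd (nat_lit 190) (nat_lit 0) (cs (lf (nat_lit 16) (nat_lit 186)) (rf (nat_lit 0)))) q84971 (by decide +kernel)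
def q84979 : Q := Q.p (nat_lit 0x8000030000080000e0000000000000000000000000000000000000000000000000000) (nat_lit 0x18000070000c000066000018000660000000000000000000000000000000000000000000000) (nat_lit 9)
theorem c84979 : QOK q84979 := cut [q84409] ⟨c84409, trivial⟩ (nd (nat_lit 208) (nat_lit 0) (cs (lf (nat_lit 47) (nat_lit 186)) (nd (nat_lit 274) (nat_lit 0) (cs (lf (nat_lit 41) (nat_lit 208)) (nd (nat_lit 230) (nat_lit 0) (cs (lf (nat_lit 11) (nat_lit 207)) (nd (nat_lit 185) (nat_lit 0) (cs (lf (nat_lit 46) (nat_lit 185)) (nd (nat_lit 189) (nat_lit 0) (cs (lf (nat_lit 17) (nat_lit 186)) (nd (nat_lit 233) (nat_lit 0) (cs (lf (nat_lit 5) (nat_lit 208)) (rf (nat_lit 0)))))))))))))) q84979 (by decide +kernel)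
def q84993 : Q := Q.p (nat_lit 0x300000c000010000000000000000000000000000000000000000000000000000) (nat_lit 0x40000000003000002e000060000180000000000000000000000000000000000000000) (nat_lit 6)
theorem c84993 : QOK q84993 := cut [q84623] ⟨c84623, trivial⟩ (nd (nat_lit 186) (nat_lit 0) (cs (lf (nat_lit 24) (nat_lit 164)) (nd (nat_lit 185) (nat_lit 0) (cs (lf (nat_lit 47) (nat_lit 163)) (nd (nat_lit 207) (nat_lit 0) (cs (lf (nat_lit 42) (nat_lit 185)) (rf (nat_lit 0)))))))) q84993 (by decide +kernel)
def q84994 : Q := Q.p (nat_lit 0x60000300000c000030000000000000000000000000000000000000000000000000000) (nat_lit 0xc00001000000e000020000000000000000000000000000000000000000000000) (nat_lit 4)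
theorem c84994 : QOK q84994 := cut [q2953] ⟨c2953, trivial⟩ (nd (nat_lit 254) (nat_lit 0) (cs (rf (nat_lit 0)) (lf (nat_lit 6) (nat_lit 251)))) q84994 (by decide +kernel)
def q84998 : Q := Q.p (nat_lit 0x300000c000030000000000000000000000000000000000000000000000000000) (nat_lit 0x4c000780000600000000000000000000000000000000000000000) (nat_lit 5)
theorem c84998 : QOK q84998 := cut [q78834] ⟨c78834, trivial⟩ (nd (nat_lit 187) (nat_lit 0) (cs (lf (nat_lit 36) (nat_lit 164)) (rf (nat_lit 0)))) q84998 (by decide +kernel)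
def q85000 : Q := Q.p (nat_lit 0x1000004000030000040000000000000000000000000000000000000000000000) (nat_lit 0xc8000038000080000000000000000000000000000000000000000) (nat_lit 4)
theorem c85000 : QOK q85000 := cut [q1170] ⟨c1170, trivial⟩ (nd (nat_lit 185) (nat_lit 0) (cs (lf (nat_lit 47) (nat_lit 163)) (rf (nat_lit 0)))) q85000 (by decide +kernel)
def q85004 : Q := Q.p (nat_lit 0x300000c000030000000000000000000000000000000000000000000000000000) (nat_lit 0x400001f8000780000000000000000000000000000000000000000) (nat_lit 6)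
theorem c85004 : QOK q85004 := cut [q13] ⟨c13, trivial⟩ (nd (nat_lit 186) (nat_lit 0) (cs (lf (nat_lit 24) (nat_lit 164)) (nd (nat_lit 187) (nat_lit 0) (cs (lf (nat_lit 36) (nat_lit 164)) (nd (nat_lit 166) (nat_lit 0) (cs (rf (nat_lit 0)) (lf (nat_lit 34) (nat_lit 165)))))))) q85004 (by decide +kernel)
def q85007 : Q := Q.p (nat_lit 0x300000c000030000000000000000000000000000000000000000000000000000) (nat_lit 0x80007e0000780000000000000000000000000000000000000000) (nat_lit 6)
theorem c85007 : QOK q85007 := cut [q358] ⟨c358, trivial⟩ (nd (nat_lit 186) (nat_lit 0) (cs (lf (nat_lit 24) (nat_lit 164)) (nd (nat_lit 163) (nat_lit 0) (cs (lf (nat_lit 46) (nat_lit 163)) (nd (nat_lit 187) (nat_lit 0) (cs (lf (nat_lit 35) (nat_lit 164)) (rf (nat_lit 0)))))))) q85007 (by decide +kernel)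
def q85011 : Q := Q.p (nat_lit 0x300000c000010000000000000000000000000000000000000000000000000000) (nat_lit 0x4000000000000000280007c0000700000000000000000000000000000000000000000) (nat_lit 6)
theorem c85011 : QOK q85011 := cut [q358] ⟨c358, trivial⟩ (nd (nat_lit 186) (nat_lit 0) (cs (lf (nat_lit 24) (nat_lit 164)) (nd (nat_lit 187) (nat_lit 0) (cs (lf (nat_lit 35) (nat_lit 164)) (nd (nat_lit 209) (nat_lit 0) (cs (lf (nat_lit 41) (nat_lit 186)) (rf (nat_lit 0)))))))) q85011 (by decide +kernel)
def q85039 : Q := Q.p (nat_lit 0x40000300000c000010000000000000000000000000000000000000000000000000000) (nat_lit 0x8000038000c00000380002e0000b8000200000000000000000000000000000000000000000) (nat_lit 9)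
theorem c85039 : QOK q85039 := cut [q80169, q85038] ⟨c80169, c85038, trivial⟩ (nd (nat_lit 209) (nat_lit 0) (cs (rf (nat_lit 0)) (rf (nat_lit 1)))) q85039 (by decide +kernel)
def q85048 : Q := Q.p (nat_lit 0x40000700001c000000000000000000000000000000000000000000000000000000000) (nat_lit 0x30000e0000180000600000000000000000000000000000000000000000) (nat_lit 5)
theorem c85048 : QOK q85048 := cut [q85047] ⟨c85047, trivial⟩ (nd (nat_lit 187) (nat_lit 0) (cs (lf (nat_lit 37) (nat_lit 186)) (rf (nat_lit 0)))) q85048 (by decide +kernel)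
def q85065 : Q := Q.p (nat_lit 0x2000008000030000000000000000000000000000000000000000000000000000) (nat_lit 0x20000080000000003000004c000140000000000000000000000000000000000000000000000) (nat_lit 5)
theorem c85065 : QOK q85065 := cut [q2931] ⟨c2931, trivial⟩ (nd (nat_lit 275) (nat_lit 0) (cs (lf (nat_lit 47) (nat_lit 186)) (rf (nat_lit 0)))) q85065 (by decide +kernel)
def q85066 : Q := Q.p (nat_lit 0x2000008000078000000000000000000000000000000000000000000000000000) (nat_lit 0x13000000000300000400001000000000000000000000000000000000000) (nat_lit 4)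
theorem c85066 : QOK q85066 := cut [q2683] ⟨c2683, trivial⟩ (nd (nat_lit 228) (nat_lit 0) (cs (lf (nat_lit 10) (nat_lit 206)) (rf (nat_lit 0)))) q85066 (by decide +kernel)
def q85101 : Q := Q.p (nat_lit 0x20000080000e0000000000000000000000000000000000000000000000000000) (nat_lit 0x8000000000e4000118000370000400001000000000000000000000000000000000000) (nat_lit 8)
theorem c85101 : QOK q85101 := cut [q85096] ⟨c85096, trivial⟩ (nd (nat_lit 188) (nat_lit 0) (cs (lf (nat_lit 30) (nat_lit 187)) (nd (nat_lit 144) (nat_lit 0) (cs (lf (nat_lit 37) (nat_lit 143)) (nd (nat_lit 212) (nat_lit 0) (cs (lf (nat_lit 11) (nat_lit 208)) (nd (nat_lit 234) (nat_lit 0) (cs (lf (nat_lit 5) (nat_lit 209)) (nd (nat_lit 208) (nat_lit 0) (cs (lf (nat_lit 4) (nat_lit 208)) (rf (nat_lit 0)))))))))))) q85101 (by decide +kernel)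
def q85116 : Q := Q.p (nat_lit 0x2000008000070000000000000000000000000000000000000000000000000000) (nat_lit 0x800000000000000088000078000100000400000000000000000000000000000000000) (nat_lit 5)
theorem c85116 : QOK q85116 := cut [q39] ⟨c39, trivial⟩ (nd (nat_lit 186) (nat_lit 0) (cs (lf (nat_lit 42) (nat_lit 186)) (nd (nat_lit 142) (nat_lit 0) (cs (rf (nat_lit 0)) (lf (nat_lit 25) (nat_lit 142)))))) q85116 (by decide +kernel)
def q85124 : Q := Q.p (nat_lit 0x200000e0000000000000000000000000000000000000000000000000000) (nat_lit 0x47000018000700000000000000000000000000000000000000000000000) (nat_lit 5)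
theorem c85124 : QOK q85124 := cut [q2382] ⟨c2382, trivial⟩ (nd (nat_lit 208) (nat_lit 0) (cs (lf (nat_lit 5) (nat_lit 208)) (rf (nat_lit 0)))) q85124 (by decide +kernel)
def q85128 : Q := Q.p (nat_lit 0x20000380000e0000000000000000000000000000000000000000000000000000) (nat_lit 0x4000000000018000700000c00001000000000000000000000000000000000000) (nat_lit 5)
theorem c85128 : QOK q85128 := cut [q85127] ⟨c85127, trivial⟩ (nd (nat_lit 208) (nat_lit 0) (cs (lf (nat_lit 0) (nat_lit 207)) (rf (nat_lit 0)))) q85128 (by decide +kernel)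
def q85138 : Q := Q.p (nat_lit 0x20000380000e0000000000000000000000000000000000000000000000000000) (nat_lit 0x6000018000700000c00003000000000000000000000000000000000000) (nat_lit 6)
theorem c85138 : QOK q85138 := cut [q85135] ⟨c85135, trivial⟩ (nd (nat_lit 229) (nat_lit 0) (cs (lf (nat_lit 13) (nat_lit 207)) (nd (nat_lit 166) (nat_lit 0) (cs (lf (nat_lit 37) (nat_lit 165)) (nd (nat_lit 208) (nat_lit 0) (cs (lf (nat_lit 0) (nat_lit 207)) (rf (nat_lit 0)))))))) q85138 (by decide +kernel)
def q85142 : Q := Q.p (nat_lit 0x30000280000e0000000000000000000000000000000000000000000000000000) (nat_lit 0x90000660001c000056000000000100000400000000000000000000000000000000000000000) (nat_lit 8)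
theorem c85142 : QOK q85142 := cut [q85132] ⟨c85132, trivial⟩ (nd (nat_lit 232) (nat_lit 0) (cs (lf (nat_lit 6) (nat_lit 230)) (nd (nat_lit 230) (nat_lit 0) (cs (lf (nat_lit 12) (nat_lit 207)) (nd (nat_lit 166) (nat_lit 0) (cs (lf (nat_lit 37) (nat_lit 165)) (rf (nat_lit 0)))))))) q85142 (by decide +kernel)
def q85149 : Q := Q.p (nat_lit 0x400003000004000010000000000000000000000000000000000000000000000000000) (nat_lit 0x280000b0000c000000000000000000000000000000000000000000000000000000000000000) (nat_lit 4)
theorem c85149 : QOK q85149 := cut [q84409] ⟨c84409, trivial⟩ (nd (nat_lit 275) (nat_lit 0) (cs (lf (nat_lit 29) (nat_lit 208)) (rf (nat_lit 0)))) q85149 (by decide +kernel)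
def q85165 : Q := Q.p (nat_lit 0xc0000300000c000018000000000000000000000000000000000000000000000000000) (nat_lit 0x8000030000c000030000000000000000000000000000000000000000000000000000000000) (nat_lit 4)
theorem c85165 : QOK q85165 := cut [q84409] ⟨c84409, trivial⟩ (nd (nat_lit 232) (nat_lit 0) (cs (lf (nat_lit 18) (nat_lit 207)) (rf (nat_lit 0)))) q85165 (by decide +kernel)
def q85179 : Q := Q.p (nat_lit 0x100000c000060000000000000000000000000000000000000000000000000000) (nat_lit 0x100000400000000003000190000000000000000000000000000000000000000000000000000) (nat_lit 4)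
theorem c85179 : QOK q85179 := cut [q85178] ⟨c85178, trivial⟩ (nd (nat_lit 274) (nat_lit 0) (cs (lf (nat_lit 30) (nat_lit 208)) (rf (nat_lit 0)))) q85179 (by decide +kernel)
def q85190 : Q := Q.p (nat_lit 0x800002000008000020000000000000000000000000000000000000000000000000000) (nat_lit 0x400001c0000700000400004000010000040000000000000000000000000000000000000000000000000000) (nat_lit 6)
theorem c85190 : QOK q85190 := cut [q85187] ⟨c85187, trivial⟩ (nd (nat_lit 296) (nat_lit 0) (cs (lf (nat_lit 40) (nat_lit 208)) (nd (nat_lit 297) (nat_lit 0) (cs (lf (nat_lit 41) (nat_lit 230)) (nd (nat_lit 232) (nat_lit 0) (cs (lf (nat_lit 35) (nat_lit 209)) (rf (nat_lit 0)))))))) q85190 (by decide +kernel)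
def q85203 : Q := Q.p (nat_lit 0x800003000008000038000000000000000000000000000000000000000000000000000) (nat_lit 0x18000070000c000004000006000020000000000000000000000000000000000000000000000) (nat_lit 6)
theorem c85203 : QOK q85203 := cut [q84409] ⟨c84409, trivial⟩ (nd (nat_lit 274) (nat_lit 0) (cs (lf (nat_lit 41) (nat_lit 208)) (nd (nat_lit 230) (nat_lit 0) (cs (lf (nat_lit 47) (nat_lit 185)) (nd (nat_lit 205) (nat_lit 0) (cs (lf (nat_lit 1) (nat_lit 205)) (rf (nat_lit 0)))))))) q85203 (by decide +kernel)
def q85212 : Q := Q.p (nat_lit 0x200000c000030000000000000000000000000000000000000000000000000000) (nat_lit 0x2000008000000000020001c0000100000000000000000000000000000000000000000000000) (nat_lit 4)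
theorem c85212 : QOK q85212 := cut [q1402] ⟨c1402, trivial⟩ (nd (nat_lit 275) (nat_lit 0) (cs (lf (nat_lit 42) (nat_lit 208)) (rf (nat_lit 0)))) q85212 (by decide +kernel)
def q85235 : Q := Q.p (nat_lit 0x7800002000008000000000000000000000000000000000000000000000000000) (nat_lit 0x300000000000000014000070000140000000000000000000000000000000000000000) (nat_lit 5)
theorem c85235 : QOK q85235 := cut [q80585] ⟨c80585, trivial⟩ (nd (nat_lit 273) (nat_lit 0) (cs (lf (nat_lit 11) (nat_lit 250)) (rf (nat_lit 0)))) q85235 (by decide +kernel)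
def q85255 : Q := Q.p (nat_lit 0x800003000008000020000000000000000000000000000000000000000000000) (nat_lit 0x40000400001c0000700000400000000000000000000000000000) (nat_lit 5)
theorem c85255 : QOK q85255 := cut [q7237] ⟨c7237, trivial⟩ (nd (nat_lit 164) (nat_lit 0) (cs (lf (nat_lit 34) (nat_lit 163)) (nd (nat_lit 163) (nat_lit 0) (cs (lf (nat_lit 35) (nat_lit 141)) (rf (nat_lit 0)))))) q85255 (by decide +kernel)
def q85302 : Q := Q.p (nat_lit 0x800002000008000040000000000000000000000000000000000000000000000) (nat_lit 0x100000c0000300000000001000014000010000000000000000000000000000000000000000000000) (nat_lit 5)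
theorem c85302 : QOK q85302 := cut [q85301] ⟨c85301, trivial⟩ (nd (nat_lit 273) (nat_lit 0) (cs (lf (nat_lit 34) (nat_lit 185)) (rf (nat_lit 0)))) q85302 (by decide +kernel)
def q85306 : Q := Q.p (nat_lit 0x800002000008000040000000000000000000000000000000000000000000000) (nat_lit 0x2000000000000000060001b0000140000000000000000000000000000000000000000) (nat_lit 5)
theorem c85306 : QOK q85306 := cut [q85305] ⟨c85305, trivial⟩ (nd (nat_lit 185) (nat_lit 0) (cs (lf (nat_lit 35) (nat_lit 163)) (rf (nat_lit 0)))) q85306 (by decide +kernel)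
def q85341 : Q := Q.p (nat_lit 0x380000600000c000000000000000000000000000000000000000000000000000) (nat_lit 0xc00003c00000000198000700001a0000680000000000000000000000000000000000000000) (nat_lit 10)
theorem c85341 : QOK q85341 := cut [q85336] ⟨c85336, trivial⟩ (nd (nat_lit 228) (nat_lit 0) (cs (lf (nat_lit 0) (nat_lit 227)) (nd (nat_lit 273) (nat_lit 0) (cs (lf (nat_lit 42) (nat_lit 206)) (nd (nat_lit 272) (nat_lit 0) (cs (lf (nat_lit 41) (nat_lit 206)) (nd (nat_lit 270) (nat_lit 0) (cs (lf (nat_lit 13) (nat_lit 248)) (nd (nat_lit 163) (nat_lit 0) (cs (lf (nat_lit 25) (nat_lit 163)) (rf (nat_lit 0)))))))))))) q85341 (by decide +kernel)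
def q85352 : Q := Q.p (nat_lit 0x380000200000c000000000000000000000000000000000000000000000000000) (nat_lit 0x20001dc000730001bc0006c0000100000000000000000000000000000000000) (nat_lit 9)
theorem c85352 : QOK q85352 := cut [q85322, q85343, q85336, q3281] ⟨c85322, c85343, c85336, c3281, trivial⟩ (nd (nat_lit 230) (nat_lit 0) (cs (rf (nat_lit 0)) (cs (rf (nat_lit 1)) (cs (nd (nat_lit 163) (nat_lit 0) (cs (lf (nat_lit 25) (nat_lit 163)) (nd (nat_lit 228) (nat_lit 0) (cs (lf (nat_lit 0) (nat_lit 227)) (nd (nat_lit 162) (nat_lit 0) (cs (lf (nat_lit 25) (nat_lit 162)) (rf (nat_lit 2)))))))) (nd (nat_lit 227) (nat_lit 0) (cs (lf (nat_lit 1) (nat_lit 227)) (nd (nat_lit 163) (nat_lit 0) (cs (lf (nat_lit 25) (nat_lit 163)) (nd (nat_lit 205) (nat_lit 0) (cs (lf (nat_lit 0) (nat_lit 204)) (nd (nat_lit 208) (nat_lit 0) (cs (lf (nat_lit 11) (nat_lit 204)) (rf (nat_lit 3)))))))))))))) q85352 (by decide +kernel)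
def q85373 : Q := Q.p (nat_lit 0x200003800002000008000000000000000000000000000000000000000000000000000) (nat_lit 0x80000000000000005c00014000050000000000000000000000000000000000000000000000) (nat_lit 5)
theorem c85373 : QOK q85373 := cut [q85371] ⟨c85371, trivial⟩ (nd (nat_lit 206) (nat_lit 0) (cs (lf (nat_lit 47) (nat_lit 184)) (nd (nat_lit 186) (nat_lit 0) (cs (lf (nat_lit 34) (nat_lit 185)) (rf (nat_lit 0)))))) q85373 (by decide +kernel)
def q85375 : Q := Q.p (nat_lit 0x1800006000018000040000000000000000000000000000000000000000000000) (nat_lit 0x2000003c0000c0000000000000000000000000000000000000000) (nat_lit 4)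
theorem c85375 : QOK q85375 := cut [q3176] ⟨c3176, trivial⟩ (nd (nat_lit 185) (nat_lit 0) (cs (lf (nat_lit 47) (nat_lit 163)) (rf (nat_lit 0)))) q85375 (by decide +kernel)
def q85395 : Q := Q.p (nat_lit 0x200003c000000000000000000000000000000000000000000000000000) (nat_lit 0x5c0000300000e000000000000000000000000000000000000000000000) (nat_lit 5)
theorem c85395 : QOK q85395 := cut [q12023] ⟨c12023, trivial⟩ (nd (nat_lit 227) (nat_lit 0) (cs (lf (nat_lit 10) (nat_lit 205)) (nd (nat_lit 205) (nat_lit 0) (cs (lf (nat_lit 11) (nat_lit 204)) (rf (nat_lit 0)))))) q85395 (by decide +kernel)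
def q85397 : Q := Q.p (nat_lit 0x2000002000038000000000000000000000000000000000000000000000000000) (nat_lit 0x80000000007c0000c4000380000400000000000000000000000000000000000000000) (nat_lit 5)
theorem c85397 : QOK q85397 := cut [q917, q13356] ⟨c917, c13356, trivial⟩ (nd (nat_lit 210) (nat_lit 0) (cs (rf (nat_lit 0)) (rf (nat_lit 1)))) q85397 (by decide +kernel)
def q85407 : Q := Q.p (nat_lit 0x3000002000018000060000000000000000000000000000000000000000000000) (nat_lit 0x800000000005800004000380000200000000000000000000000000000000000000000) (nat_lit 5)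
theorem c85407 : QOK q85407 := cut [q420] ⟨c420, trivial⟩ (nd (nat_lit 230) (nat_lit 0) (cs (lf (nat_lit 29) (nat_lit 186)) (nd (nat_lit 227) (nat_lit 0) (cs (rf (nat_lit 0)) (lf (nat_lit 1) (nat_lit 227)))))) q85407 (by decide +kernel)
def q85421 : Q := Q.p (nat_lit 0x200003800002000000000000000000000000000000000000000000000000000000000) (nat_lit 0x400001c000400000000001c000070000140000000000000000000000000000000000000000) (nat_lit 7)
theorem c85421 : QOK q85421 := cut [q80585] ⟨c80585, trivial⟩ (nd (nat_lit 272) (nat_lit 0) (cs (lf (nat_lit 6) (nat_lit 250)) (nd (nat_lit 270) (nat_lit 0) (cs (lf (nat_lit 13) (nat_lit 248)) (nd (nat_lit 207) (nat_lit 0) (cs (lf (nat_lit 41) (nat_lit 206)) (rf (nat_lit 0)))))))) q85421 (by decide +kernel)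
def q85427 : Q := Q.p (nat_lit 0x200001800002000000000000000000000000000000000000000000000000000000000) (nat_lit 0x140000700001c0000100000000004000018000040000000000000000000000000000000000000000000000) (nat_lit 5)
theorem c85427 : QOK q85427 := cut [q82208, q82405, q85426] ⟨c82208, c82405, c85426, trivial⟩ (nd (nat_lit 295) (nat_lit 0) (cs (rf (nat_lit 0)) (cs (rf (nat_lit 1)) (rf (nat_lit 2))))) q85427 (by decide +kernel)
def q85434 : Q := Q.p (nat_lit 0x6000016000008000000000000000000000000000000000000000000000000000) (nat_lit 0x8000000000080000c4000100000400000000000000000000000000000000000000000) (nat_lit 4)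
theorem c85434 : QOK q85434 := cut [q79251] ⟨c79251, trivial⟩ (nd (nat_lit 231) (nat_lit 0) (cs (lf (nat_lit 23) (nat_lit 206)) (rf (nat_lit 0)))) q85434 (by decide +kernel)
def q85463 : Q := Q.p (nat_lit 0x300000c000020000080000000000000000000000000000000000000000000000) (nat_lit 0x800000000000000050000078000180000000000000000000000000000000000000000) (nat_lit 5)
theorem c85463 : QOK q85463 := cut [q13] ⟨c13, trivial⟩ (nd (nat_lit 186) (nat_lit 0) (cs (lf (nat_lit 47) (nat_lit 164)) (nd (nat_lit 208) (nat_lit 0) (cs (rf (nat_lit 0)) (lf (nat_lit 42) (nat_lit 186)))))) q85463 (by decide +kernel)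
def q85473 : Q := Q.p (nat_lit 0x300000c000020000000000000000000000000000000000000000000000000000) (nat_lit 0x80000200000800000000000000050000180000600000000000000000000000000000000000000000) (nat_lit 5)
theorem c85473 : QOK q85473 := cut [q85472] ⟨c85472, trivial⟩ (nd (nat_lit 187) (nat_lit 0) (cs (lf (nat_lit 36) (nat_lit 164)) (rf (nat_lit 0)))) q85473 (by decide +kernel)
def q85508 : Q := Q.p (nat_lit 0x380000c000000000000000000000000000000000000000000000000000000000) (nat_lit 0x2000008000030001c000072000010000040000000000000000000000000000000000000000000000) (nat_lit 6)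
theorem c85508 : QOK q85508 := cut [q81488, q85502, q85505] ⟨c81488, c85502, c85505, trivial⟩ (nd (nat_lit 254) (nat_lit 0) (cs (rf (nat_lit 0)) (cs (rf (nat_lit 1)) (nd (nat_lit 232) (nat_lit 0) (cs (lf (nat_lit 6) (nat_lit 229)) (nd (nat_lit 273) (nat_lit 0) (cs (lf (nat_lit 11) (nat_lit 250)) (rf (nat_lit 2))))))))) q85508 (by decide +kernel)
def q85524 : Q := Q.p (nat_lit 0x7800000000000000000000000000000000000000000000000000000000000000) (nat_lit 0x8000077000000000000000000000000000000000000000000000000000000000) (nat_lit 4)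
theorem c85524 : QOK q85524 := cut [q85523] ⟨c85523, trivial⟩ (nd (nat_lit 229) (nat_lit 0) (cs (lf (nat_lit 23) (nat_lit 228)) (rf (nat_lit 0)))) q85524 (by decide +kernel)
def q85533 : Q := Q.p (nat_lit 0x100003c00002000000000000000000000000000000000000000000000000000000000) (nat_lit 0x270000380005c00002000008000000000000000000000000000000000000000000000) (nat_lit 7)
theorem c85533 : QOK q85533 := cut [q85531] ⟨c85531, trivial⟩ (nd (nat_lit 227) (nat_lit 0) (cs (lf (nat_lit 22) (nat_lit 227)) (nd (nat_lit 249) (nat_lit 0) (cs (lf (nat_lit 23) (nat_lit 226)) (rf (nat_lit 0)))))) q85533 (by decide +kernel)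
def q85538 : Q := Q.p (nat_lit 0x1e00000000000000000000000000000000000000000000000000000000000000) (nat_lit 0x10000ee00000000000000000000000000000000000000000000000000000000) (nat_lit 4)
theorem c85538 : QOK q85538 := cut [q85537] ⟨c85537, trivial⟩ (nd (nat_lit 230) (nat_lit 0) (cs (lf (nat_lit 17) (nat_lit 227)) (rf (nat_lit 0)))) q85538 (by decide +kernel)
def q85551 : Q := Q.p (nat_lit 0x3800006000000000000000000000000000000000000000000000000000000000) (nat_lit 0x8000030000c000000000010000040000000000000000000000000000000000000000000000) (nat_lit 4)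
theorem c85551 : QOK q85551 := cut [q85550] ⟨c85550, trivial⟩ (nd (nat_lit 254) (nat_lit 0) (cs (lf (nat_lit 18) (nat_lit 229)) (rf (nat_lit 0)))) q85551 (by decide +kernel)
def q85575 : Q := Q.p (nat_lit 0x3c00000000000000000000000000000000000000000000000000000000000000) (nat_lit 0x20000080000300004000003800004000010000000000000000000000000000000000000000000000) (nat_lit 5)
theorem c85575 : QOK q85575 := cut [q25568, q85572, q14896] ⟨c25568, c85572, c14896, trivial⟩ (nd (nat_lit 228) (nat_lit 0) (cs (lf (nat_lit 23) (nat_lit 227)) (nd (nat_lit 273) (nat_lit 0) (cs (rf (nat_lit 0)) (cs (rf (nat_lit 1)) (nd (nat_lit 272) (nat_lit 0) (cs (rf (nat_lit 2)) (lf (nat_lit 6) (nat_lit 250))))))))) q85575 (by decide +kernel)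
def q85613 : Q := Q.p (nat_lit 0x3c0000000000000000000000000000000000000000000000) (nat_lit 0x380001c20001e00000000000000000000000000000000000000000) (nat_lit 6)
theorem c85613 : QOK q85613 := cut [q85611] ⟨c85611, trivial⟩ (nd (nat_lit 167) (nat_lit 0) (cs (lf (nat_lit 17) (nat_lit 164)) (nd (nat_lit 166) (nat_lit 0) (cs (lf (nat_lit 12) (nat_lit 163)) (rf (nat_lit 0)))))) q85613 (by decide +kernel)
def q85674 : Q := Q.p (nat_lit 0x500003400000000000000000000000000000000000000000000000000000000000000) (nat_lit 0x880000a00001c00000000000000000000000000000000000000000000000000000000) (nat_lit 4)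
theorem c85674 : QOK q85674 := cut [q83700] ⟨c83700, trivial⟩ (nd (nat_lit 251) (nat_lit 0) (cs (lf (nat_lit 11) (nat_lit 249)) (rf (nat_lit 0)))) q85674 (by decide +kernel)
def q85708 : Q := Q.p (nat_lit 0x3000014000018000000000000000000000000000000000000000000000000000) (nat_lit 0xc8000e8000000000000000000000000000000000000000000000000000000000) (nat_lit 4)
theorem c85708 : QOK q85708 := cut [q85706] ⟨c85706, trivial⟩ (nd (nat_lit 233) (nat_lit 0) (cs (rf (nat_lit 0)) (lf (nat_lit 20) (nat_lit 207)))) q85708 (by decide +kernel)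
def q85714 : Q := Q.p (nat_lit 0x400003000004000010000000000000000000000000000000000000000000000000000) (nat_lit 0x8000038000c800000000000000000000000000000000000000000000000000000000000000) (nat_lit 4)
theorem c85714 : QOK q85714 := cut [q85713] ⟨c85713, trivial⟩ (nd (nat_lit 273) (nat_lit 0) (cs (lf (nat_lit 41) (nat_lit 207)) (rf (nat_lit 0)))) q85714 (by decide +kernel)
def q85717 : Q := Q.p (nat_lit 0x400001c000000000000000000000000000000000000000000000000000) (nat_lit 0x8e0000300000e000000000000000000000000000000000000000000000) (nat_lit 5)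
theorem c85717 : QOK q85717 := cut [q18354] ⟨c18354, trivial⟩ (nd (nat_lit 205) (nat_lit 0) (cs (lf (nat_lit 5) (nat_lit 205)) (rf (nat_lit 0)))) q85717 (by decide +kernel)
def q85865 : Q := Q.p (nat_lit 0x8000020000080000000000000000000000000000000000000000000000000000) (nat_lit 0x400001c0000700001c00006000050000fd0003f7800fde000340000d000000000000000000000000000000000000) (nat_lit 10)
theorem c85865 : QOK q85865 := cut [q85794, q85772, q1600, q8059, q85824, q85830, q85823, q84503, q81106, q79972] ⟨c85794, c85772, c1600, c8059, c85824, c85830, c85823, c84503, c81106, c79972, trivial⟩ (nd (nat_lit 212) (nat_lit 0) (cs (rf (nat_lit 0)) (cs (nd (nat_lit 277) (nat_lit 0) (cs (lf (nat_lit 35) (nat_lit 189)) (nd (nat_lit 210) (nat_lit 0) (cs (lf (nat_lit 47) (nat_lit 188)) (rf (nat_lit 1)))))) (cs (nd (nat_lit 213) (nat_lit 0) (cs (nd (nat_lit 214) (nat_lit 0) (cs (lf (nat_lit 11) (nat_lit 210)) (nd (nat_lit 192) (nat_lit 0) (cs (lf (nat_lit 17) (nat_lit 189)) (nd (nat_lit 191) (nat_lit 0) (cs (nd (nat_lit 215) (nat_lit 0) (cs (nd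 (nat_lit 216) (nat_lit 0) (cs (lf (nat_lit 23) (nat_lit 190)) (lf (nat_lit 18) (nat_lit 191)))) (lf (nat_lit 10) (nat_lit 211)))) (lf (nat_lit 12) (nat_lit 188)))))))) (cs (nd (nat_lit 210) (nat_lit 0) (cs (nd (nat_lit 187) (nat_lit 0) (cs (lf (nat_lit 22) (nat_lit 187)) (nd (nat_lit 235) (nat_lit 0) (cs (lf (nat_lit 5) (nat_lit 210)) (nd (nat_lit 209) (nat_lit 0) (cs (lf (nat_lit 23) (nat_lit 186)) (lf (nat_lit 4) (nat_lit 209)))))))) (cs (nd (nat_lit 235) (nat_lit 0) (cs (lf (nat_lit 5) (nat_lit 210)) (nd (nat_lit 209) (nat_lit 0) (cs (rf (nat_lit 2)) (lf (nat_lit 4) (nat_lit 209)))))) (cs (nd (nat_lit 187) (nat_lit 0) (cs (lf (nat_lit 22) (nat_lit 187)) (nd (nat_lit 191) (nat_lit 0) (cs (lf (nat_lit 17) (nat_lit 188)) (nd (nat_lit 209) (nat_lit 0) (cs (lf (nat_lit 16) (nat_lit 187)) (lf (nat_lit 23) (nat_lit 186)))))))) (nd (nat_lit 191) (nat_lit 0) (cs (lf (nat_lit 17) (nat_lit 188)) (nd (nat_lit 235) (nat_lit 0) (cs (lf (nat_lit 5) (nat_lit 210)) (nd (nat_lit 188) (nat_lit 0) (cs (lf (nat_lit 23) (nat_lit 187)) (rf (nat_lit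 3)))))))))))) (cs (rf (nat_lit 4)) (cs (nd (nat_lit 214) (nat_lit 0) (cs (lf (nat_lit 11) (nat_lit 210)) (rf (nat_lit 5)))) (cs (nd (nat_lit 214) (nat_lit 0) (cs (rf (nat_lit 6)) (cs (rf (nat_lit 5)) (nd (nat_lit 215) (nat_lit 0) (cs (rf (nat_lit 7)) (lf (nat_lit 10) (nat_lit 211))))))) (nd (nat_lit 214) (nat_lit 0) (cs (lf (nat_lit 11) (nat_lit 210)) (nd (nat_lit 192) (nat_lit 0) (cs (lf (nat_lit 17) (nat_lit 189)) (nd (nat_lit 237) (nat_lit 0) (cs (lf (nat_lit 4) (nat_lit 211)) (nd (nat_lit 215) (nat_lit 0) (cs (lf (nat_lit 5) (nat_lit 212)) (lf (nat_lit 10) (nat_lit 211)))))))))))))))) (nd (nat_lit 210) (nat_lit 0) (cs (rf (nat_lit 8)) (cs (nd (nat_lit 213) (nat_lit 0) (cs (rf (nat_lit 4)) (cs (nd (nat_lit 191) (nat_lit 0) (cs (lf (nat_lit 17) (nat_lit 188)) (nd (nat_lit 235) (nat_lit 0) (cs (lf (nat_lit 5) (nat_lit 210)) (nd (nat_lit 234) (nat_lit 0) (cs (lf (nat_lit 0) (nat_lit 209)) (nd (nat_lit 169) (nat_lit 0) (cs (lf (nat_lit 41) (nat_lit 168)) (lf (nat_lit 36) (nat_lit 146)))))))))) (cs (nd (nat_lit 235) (nat_lit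 0) (cs (lf (nat_lit 5) (nat_lit 210)) (nd (nat_lit 209) (nat_lit 0) (cs (lf (nat_lit 4) (nat_lit 209)) (nd (nat_lit 186) (nat_lit 0) (cs (lf (nat_lit 22) (nat_lit 186)) (nd (nat_lit 232) (nat_lit 0) (cs (lf (nat_lit 6) (nat_lit 210)) (nd (nat_lit 208) (nat_lit 0) (cs (lf (nat_lit 23) (nat_lit 185)) (lf (nat_lit 0) (nat_lit 207)))))))))))) (nd (nat_lit 191) (nat_lit 0) (cs (lf (nat_lit 17) (nat_lit 188)) (nd (nat_lit 214) (nat_lit 0) (cs (lf (nat_lit 11) (nat_lit 210)) (nd (nat_lit 215) (nat_lit 0) (cs (lf (nat_lit 10) (nat_lit 211)) (nd (nat_lit 238) (nat_lit 0) (cs (nd (nat_lit 194) (nat_lit 0) (cs (nd (nat_lit 216) (nat_lit 0) (cs (lf (nat_lit 17) (nat_lit 191)) (lf (nat_lit 5) (nat_lit 213)))) (lf (nat_lit 16) (nat_lit 190)))) (lf (nat_lit 4) (nat_lit 212)))))))))))))) (nd (nat_lit 188) (nat_lit 0) (cs (lf (nat_lit 42) (nat_lit 188)) (nd (nat_lit 144) (nat_lit 0) (cs (lf (nat_lit 25) (nat_lit 144)) (nd (nat_lit 187) (nat_lit 0) (cs (lf (nat_lit 18) (nat_lit 187)) (rf (nat_lit 9))))))))))))))) q85865 (by decide +kernel)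
def q85870 : Q := Q.p (nat_lit 0x8000020000080000200000000000000000000000000000000000000000000000) (nat_lit 0x4000010000040000000000000001c00007000014000000000000000000000000000000) (nat_lit 6)
theorem c85870 : QOK q85870 := cut [q67989] ⟨c67989, trivial⟩ (nd (nat_lit 256) (nat_lit 0) (cs (lf (nat_lit 29) (nat_lit 189)) (nd (nat_lit 167) (nat_lit 0) (cs (lf (nat_lit 28) (nat_lit 167)) (rf (nat_lit 0)))))) q85870 (by decide +kernel)
def q85882 : Q := Q.p (nat_lit 0x8000020000080000200000000000000000000000000000000000000000000000) (nat_lit 0x2000000000010000040000100001c0000700001c000010000000000000000000000000) (nat_lit 7)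
theorem c85882 : QOK q85882 := cut [q57685, q67989, q85875] ⟨c57685, c67989, c85875, trivial⟩ (nd (nat_lit 167) (nat_lit 0) (cs (rf (nat_lit 0)) (cs (rf (nat_lit 1)) (cs (rf (nat_lit 2)) (nd (nat_lit 146) (nat_lit 0) (cs (lf (nat_lit 34) (nat_lit 145)) (nd (nat_lit 188) (nat_lit 0) (cs (lf (nat_lit 47) (nat_lit 166)) (nd (nat_lit 145) (nat_lit 0) (cs (lf (nat_lit 35) (nat_lit 123)) (nd (nat_lit 210) (nat_lit 0) (cs (lf (nat_lit 36) (nat_lit 122)) (lf (nat_lit 42) (nat_lit 188)))))))))))))) q85882 (by decide +kernel)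
def q85886 : Q := Q.p (nat_lit 0x8000020000080000000000000000000000000000000000000000000000000000) (nat_lit 0x1000006000010000000000140000700001c00005000000000000000000000000000000000000) (nat_lit 5)
theorem c85886 : QOK q85886 := cut [q81153, q85868, q85885] ⟨c81153, c85868, c85885, trivial⟩ (nd (nat_lit 189) (nat_lit 0) (cs (rf (nat_lit 0)) (cs (rf (nat_lit 1)) (rf (nat_lit 2))))) q85886 (by decide +kernel)
def q85888 : Q := Q.p (nat_lit 0x2000008000020000080000000000000000000000000000000000000000000000000000) (nat_lit 0x140000700001c00000000000000040000100000400000000000000000000000000000000000000000000000) (nat_lit 6)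
theorem c85888 : QOK q85888 := cut [q80406] ⟨c80406, trivial⟩ (nd (nat_lit 212) (nat_lit 0) (cs (lf (nat_lit 35) (nat_lit 189)) (nd (nat_lit 299) (nat_lit 0) (cs (lf (nat_lit 34) (nat_lit 211)) (rf (nat_lit 0)))))) q85888 (by decide +kernel)
def q85908 : Q := Q.p (nat_lit 0x8000020000080000200000000000000000000000000000000000000000000000) (nat_lit 0x2000000000040000100000400001c0000700001c000040000000000000000000000000) (nat_lit 7)
theorem c85908 : QOK q85908 := cut [q67989, q84859, q19854] ⟨c67989, c84859, c19854, trivial⟩ (nd (nat_lit 167) (nat_lit 0) (cs (rf (nat_lit 0)) (cs (rf (nat_lit 1)) (cs (nd (nat_lit 144) (nat_lit 0) (cs (lf (nat_lit 46) (nat_lit 144)) (nd (nat_lit 145) (nat_lit 0) (cs (lf (nat_lit 47) (nat_lit 122)) (nd (nat_lit 124) (nat_lit 0) (cs (lf (nat_lit 34) (nat_lit 123)) (nd (nat_lit 212) (nat_lit 0) (cs (lf (nat_lit 29) (nat_lit 145)) (rf (nat_lit 2)))))))))) (nd (nat_lit 144) (nat_lit 0) (cs (lf (nat_lit 46) (nat_lit 144)) (nd (nat_lit 190) (nat_lit 0) (cs (lf (nat_lit 35) (nat_lit 167)) (nd (nat_lit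 212) (nat_lit 0) (cs (lf (nat_lit 30) (nat_lit 189)) (nd (nat_lit 145) (nat_lit 0) (cs (lf (nat_lit 47) (nat_lit 122)) (lf (nat_lit 29) (nat_lit 145)))))))))))))) q85908 (by decide +kernel)
def q86008 : Q := Q.p (nat_lit 0x40000b000020000000000000000000000000000000000000000000000000000000000) (nat_lit 0xe800014000040000000000000000000000000000000000000000000000000000000000) (nat_lit 4)
theorem c86008 : QOK q86008 := cut [q82258] ⟨c82258, trivial⟩ (nd (nat_lit 254) (nat_lit 0) (cs (lf (nat_lit 17) (nat_lit 230)) (rf (nat_lit 0)))) q86008 (by decide +kernel)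
def q86021 : Q := Q.p (nat_lit 0x400003000004000010000000000000000000000000000000000000000000000000000) (nat_lit 0x80000080000e0000380000800000000000000000000000000000000000) (nat_lit 5)
theorem c86021 : QOK q86021 := cut [q86019] ⟨c86019, trivial⟩ (nd (nat_lit 185) (nat_lit 0) (cs (lf (nat_lit 46) (nat_lit 185)) (nd (nat_lit 186) (nat_lit 0) (cs (lf (nat_lit 47) (nat_lit 163)) (rf (nat_lit 0)))))) q86021 (by decide +kernel)
def q86043 : Q := Q.p (nat_lit 0xb000020000080000000000000000000000000000000000000000000000000000) (nat_lit 0x1000006000014000000000000000700001c00005000000000000000000000000000000000000) (nat_lit 6)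
theorem c86043 : QOK q86043 := cut [q86041, q57688] ⟨c86041, c57688, trivial⟩ (nd (nat_lit 278) (nat_lit 0) (cs (rf (nat_lit 0)) (nd (nat_lit 189) (nat_lit 0) (cs (lf (nat_lit 28) (nat_lit 189)) (rf (nat_lit 1)))))) q86043 (by decide +kernel)
def q86116 : Q := Q.p (nat_lit 0x30000200000b0000000000000000000000000000000000000000000000000000) (nat_lit 0x100000600001c00000000014c0007e0007d8000700001c000000000000000000000000000000) (nat_lit 10)
theorem c86116 : QOK q86116 := cut [q15442, q86097, q86103] ⟨c15442, c86097, c86103, trivial⟩ (nd (nat_lit 189) (nat_lit 0) (cs (nd (nat_lit 188) (nat_lit 0) (cs (nd (nat_lit 207) (nat_lit 0) (cs (lf (nat_lit 15) (nat_lit 185)) (nd (nat_lit 187) (nat_lit 0) (cs (lf (nat_lit 12) (nat_lit 184)) (lf (nat_lit 9) (nat_lit 185)))))) (nd (nat_lit 166) (nat_lit 0) (cs (lf (nat_lit 42) (nat_lit 166)) (nd (nat_lit 144) (nat_lit 0) (cs (lf (nat_lit 24) (nat_lit 122)) (lf (nat_lit 45) (nat_lit 144)))))))) (cs (nd (nat_lit 168) (nat_lit 0) (cs (nd (nat_lit 167) (nat_lit 0) (cs (lf (nat_lit 35) (nat_lit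 145)) (nd (nat_lit 166) (nat_lit 0) (cs (lf (nat_lit 47) (nat_lit 144)) (nd (nat_lit 188) (nat_lit 0) (cs (lf (nat_lit 42) (nat_lit 166)) (rf (nat_lit 0)))))))) (cs (nd (nat_lit 255) (nat_lit 0) (cs (lf (nat_lit 34) (nat_lit 167)) (nd (nat_lit 166) (nat_lit 0) (cs (lf (nat_lit 46) (nat_lit 166)) (nd (nat_lit 144) (nat_lit 0) (cs (lf (nat_lit 45) (nat_lit 144)) (rf (nat_lit 1)))))))) (cs (nd (nat_lit 146) (nat_lit 0) (cs (lf (nat_lit 33) (nat_lit 145)) (nd (nat_lit 190) (nat_lit 0) (cs (lf (nat_lit 36) (nat_lit 123)) (lf (nat_lit 39) (nat_lit 145)))))) (nd (nat_lit 190) (nat_lit 0) (cs (lf (nat_lit 30) (nat_lit 167)) (rf (nat_lit 2)))))))) (cs (nd (nat_lit 210) (nat_lit 0) (cs (lf (nat_lit 17) (nat_lit 186)) (nd (nat_lit 188) (nat_lit 0) (cs (lf (nat_lit 12) (nat_lit 185)) (nd (nat_lit 144) (nat_lit 0) (cs (lf (nat_lit 25) (nat_lit 144)) (nd (nat_lit 186) (nat_lit 0) (cs (lf (nat_lit 23) (nat_lit 185)) (nd (nat_lit 187) (nat_lit 0) (cs (lf (nat_lit 18) (nat_lit 186)) (nd (nat_lit 163) (nat_lit 0) (cs (lf (nat_lit 22) (nat_lit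 163)) (nd (nat_lit 167) (nat_lit 0) (cs (lf (nat_lit 17) (nat_lit 164)) (nd (nat_lit 145) (nat_lit 0) (cs (lf (nat_lit 36) (nat_lit 122)) (lf (nat_lit 47) (nat_lit 122)))))))))))))))))) (nd (nat_lit 190) (nat_lit 0) (cs (lf (nat_lit 14) (nat_lit 186)) (nd (nat_lit 168) (nat_lit 0) (cs (lf (nat_lit 30) (nat_lit 167)) (rf (nat_lit 2)))))))))) q86116 (by decide +kernel)
def q86148 : Q := Q.p (nat_lit 0x200000b0000000000000000000000000000000000000000000000000000) (nat_lit 0x8000040000048000700000400001000000000000000000000000000000000000) (nat_lit 5)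
theorem c86148 : QOK q86148 := cut [q230] ⟨c230, trivial⟩ (nd (nat_lit 210) (nat_lit 0) (cs (lf (nat_lit 5) (nat_lit 208)) (rf (nat_lit 0)))) q86148 (by decide +kernel)
def q86170 : Q := Q.p (nat_lit 0x40000b000020000030000000000000000000000000000000000000000000000000000) (nat_lit 0x12000068000140000040001cc0007a0001c00005000000000000000000000000000000000000) (nat_lit 8)
theorem c86170 : QOK q86170 := cut [q86150, q86152, q81153, q85868, q85885, q86097] ⟨c86150, c86152, c81153, c85868, c85885, c86097, trivial⟩ (nd (nat_lit 189) (nat_lit 0) (cs (nd (nat_lit 187) (nat_lit 0) (cs (lf (nat_lit 32) (nat_lit 186)) (rf (nat_lit 0)))) (cs (nd (nat_lit 230) (nat_lit 0) (cs (lf (nat_lit 35) (nat_lit 186)) (nd (nat_lit 185) (nat_lit 0) (cs (lf (nat_lit 46) (nat_lit 185)) (nd (nat_lit 275) (nat_lit 0) (cs (lf (nat_lit 29) (nat_lit 208)) (nd (nat_lit 256) (nat_lit 0) (cs (nd (nat_lit 211) (nat_lit 0) (cs (lf (nat_lit 29) (nat_lit 189)) (rf (nat_lit 1)))) (lf (nat_lit 8) (nat_lit 252)))))))))) (cs (nd (nat_lit 211) (nat_lit 0) (cs (rf (nat_lit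 2)) (cs (rf (nat_lit 3)) (rf (nat_lit 4))))) (cs (nd (nat_lit 187) (nat_lit 0) (cs (lf (nat_lit 32) (nat_lit 186)) (nd (nat_lit 188) (nat_lit 0) (cs (lf (nat_lit 6) (nat_lit 186)) (nd (nat_lit 206) (nat_lit 0) (cs (lf (nat_lit 13) (nat_lit 184)) (nd (nat_lit 211) (nat_lit 0) (cs (lf (nat_lit 47) (nat_lit 166)) (rf (nat_lit 5)))))))))) (nd (nat_lit 230) (nat_lit 0) (cs (lf (nat_lit 35) (nat_lit 186)) (nd (nat_lit 207) (nat_lit 0) (cs (lf (nat_lit 47) (nat_lit 185)) (nd (nat_lit 188) (nat_lit 0) (cs (lf (nat_lit 15) (nat_lit 185)) (nd (nat_lit 211) (nat_lit 0) (cs (lf (nat_lit 47) (nat_lit 166)) (nd (nat_lit 275) (nat_lit 0) (cs (lf (nat_lit 29) (nat_lit 208)) (nd (nat_lit 256) (nat_lit 0) (cs (lf (nat_lit 29) (nat_lit 189)) (lf (nat_lit 8) (nat_lit 252))))))))))))))))))) q86170 (by decide +kernel)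
def q86267 : Q := Q.p (nat_lit 0x900002400009000024000000000000000000000000000000000000000000000000000000000) (nat_lit 0x200010800040000100000400001c0000700000400000000000000000000000000000000000000000) (nat_lit 7)
theorem c86267 : QOK q86267 := cut [q86263] ⟨c86263, trivial⟩ (nd (nat_lit 295) (nat_lit 0) (cs (lf (nat_lit 41) (nat_lit 229)) (nd (nat_lit 212) (nat_lit 0) (cs (lf (nat_lit 34) (nat_lit 211)) (nd (nat_lit 211) (nat_lit 0) (cs (lf (nat_lit 35) (nat_lit 189)) (nd (nat_lit 278) (nat_lit 0) (cs (lf (nat_lit 29) (nat_lit 211)) (rf (nat_lit 0)))))))))) q86267 (by decide +kernel)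
def q86271 : Q := Q.p (nat_lit 0x900002400009000024000000000000000000000000000000000000000000000000000000000) (nat_lit 0x500001c0000720000080000000010000040000100000000000000000000000000000000000000000000000000000) (nat_lit 7)
theorem c86271 : QOK q86271 := cut [q14283] ⟨c14283, trivial⟩ (nd (nat_lit 295) (nat_lit 0) (cs (lf (nat_lit 41) (nat_lit 229)) (nd (nat_lit 234) (nat_lit 0) (cs (lf (nat_lit 35) (nat_lit 211)) (nd (nat_lit 321) (nat_lit 0) (cs (lf (nat_lit 34) (nat_lit 233)) (nd (nat_lit 344) (nat_lit 0) (cs (lf (nat_lit 28) (nat_lit 255)) (rf (nat_lit 0)))))))))) q86271 (by decide +kernel)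
def q86314 : Q := Q.p (nat_lit 0x800003000008000040000000000000000000000000000000000000000000000000000) (nat_lit 0x200000000004c00070000000000000000000000000000000000000000000000000000000000) (nat_lit 4)
theorem c86314 : QOK q86314 := cut [q86313] ⟨c86313, trivial⟩ (nd (nat_lit 232) (nat_lit 0) (cs (lf (nat_lit 30) (nat_lit 209)) (rf (nat_lit 0)))) q86314 (by decide +kernel)
def q86319 : Q := Q.p (nat_lit 0xd00007000010000000000000000000000000000000000000000000000000000000000) (nat_lit 0x80000e00020000040000100000000000000000000000000000000000000000000000) (nat_lit 4)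
theorem c86319 : QOK q86319 := cut [q86318] ⟨c86318, trivial⟩ (nd (nat_lit 188) (nat_lit 0) (cs (lf (nat_lit 37) (nat_lit 187)) (rf (nat_lit 0)))) q86319 (by decide +kernel)
def q86345 : Q := Q.p (nat_lit 0x10000040000500003400008000000000000000000000000000000000000000000000000000000000) (nat_lit 0x8000060000180000000000200001800002000000000000000000000000000000000000000000000000000) (nat_lit 5)
theorem c86345 : QOK q86345 := cut [q86344] ⟨c86344, trivial⟩ (nd (nat_lit 296) (nat_lit 0) (cs (lf (nat_lit 30) (nat_lit 230)) (rf (nat_lit 0)))) q86345 (by decide +kernel)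
def q86367 : Q := Q.p (nat_lit 0x10000040000100000400000000000000000000000000000000000000000000000000000000000000) (nat_lit 0x200000c000020000000000080000200000800000000000000000000000000000000000000000000000000000000) (nat_lit 4)
theorem c86367 : QOK q86367 := cut [q56496] ⟨c56496, trivial⟩ (nd (nat_lit 249) (nat_lit 0) (cs (lf (nat_lit 47) (nat_lit 227)) (rf (nat_lit 0)))) q86367 (by decide +kernel)
def q86385 : Q := Q.p (nat_lit 0xc00003000018000000000000000000000000000000000000000000000000000000000) (nat_lit 0x600000780001c0000000000000000000000000000000000000000000000) (nat_lit 5)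
theorem c86385 : QOK q86385 := cut [q86384] ⟨c86384, trivial⟩ (nd (nat_lit 209) (nat_lit 0) (cs (lf (nat_lit 36) (nat_lit 186)) (rf (nat_lit 0)))) q86385 (by decide +kernel)
def q86390 : Q := Q.p (nat_lit 0x80000f000000000000000000000000000000000000000000000000000000000000000) (nat_lit 0x800006000000800070000040000100000000000000000000000000000000000000000000000) (nat_lit 5)
theorem c86390 : QOK q86390 := cut [q86389] ⟨c86389, trivial⟩ (nd (nat_lit 277) (nat_lit 0) (cs (lf (nat_lit 5) (nat_lit 252)) (rf (nat_lit 0)))) q86390 (by decide +kernel)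
def q86401 : Q := Q.p (nat_lit 0xe0000000000c00007000000000000000000000000000000000000000000000000000000000000000) (nat_lit 0x80001100000f0000300000000000000000000000000000000000000000000000000000000000000000000) (nat_lit 5)
theorem c86401 : QOK q86401 := cut [q12769] ⟨c12769, trivial⟩ (nd (nat_lit 273) (nat_lit 0) (cs (lf (nat_lit 12) (nat_lit 250)) (nd (nat_lit 295) (nat_lit 0) (cs (lf (nat_lit 30) (nat_lit 251)) (rf (nat_lit 0)))))) q86401 (by decide +kernel)
def q86433 : Q := Q.p (nat_lit 0x200000c00003000000000000000000000000000000000000000000000000000000000000000) (nat_lit 0x60000180000500000000000000008000020000080000000000000000000000000000000000000000000000) (nat_lit 5)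
theorem c86433 : QOK q86433 := cut [q86432] ⟨c86432, trivial⟩ (nd (nat_lit 319) (nat_lit 0) (cs (lf (nat_lit 42) (nat_lit 252)) (rf (nat_lit 0)))) q86433 (by decide +kernel)
def q86434 : Q := Q.p (nat_lit 0x300000c00002000000000000000000000000000000000000000000000000000000000000000) (nat_lit 0x100000c00000300000000008000020000000000000000000000000000000000000000000000000000) (nat_lit 4)
theorem c86434 : QOK q86434 := cut [q2561] ⟨c2561, trivial⟩ (nd (nat_lit 231) (nat_lit 0) (cs (rf (nat_lit 0)) (lf (nat_lit 36) (nat_lit 208)))) q86434 (by decide +kernel)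
def q86437 : Q := Q.p (nat_lit 0xc0000300000c00003000000000000000000000000000000000000000000000000000000000000000) (nat_lit 0x480003380000c0000000000000000000000000000000000000000000000000000000000000000000000000) (nat_lit 5)
theorem c86437 : QOK q86437 := cut [q55446] ⟨c55446, trivial⟩ (nd (nat_lit 317) (nat_lit 0) (cs (lf (nat_lit 41) (nat_lit 251)) (nd (nat_lit 315) (nat_lit 0) (cs (lf (nat_lit 13) (nat_lit 293)) (rf (nat_lit 0)))))) q86437 (by decide +kernel)
def q86441 : Q := Q.p (nat_lit 0xc0000200000400003000000000000000000000000000000000000000000000000000000000000000) (nat_lit 0x8000030000d00000000000000008000000000000000000000000000000000000000000000000000000000) (nat_lit 4)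
theorem c86441 : QOK q86441 := cut [q55442] ⟨c55442, trivial⟩ (nd (nat_lit 296) (nat_lit 0) (cs (lf (nat_lit 35) (nat_lit 230)) (rf (nat_lit 0)))) q86441 (by decide +kernel)
def q86463 : Q := Q.p (nat_lit 0x60000400003000008000000000000000000000000000000000000000000000000000000000) (nat_lit 0x4e0001900008e0000000000000000000000000000000000000000000000000000000000000000000) (nat_lit 6)
theorem c86463 : QOK q86463 := cut [q58485] ⟨c58485, trivial⟩ (nd (nat_lit 296) (nat_lit 0) (cs (lf (nat_lit 30) (nat_lit 230)) (nd (nat_lit 295) (nat_lit 0) (cs (lf (nat_lit 17) (nat_lit 271)) (rf (nat_lit 0)))))) q86463 (by decide +kernel)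
def q86529 : Q := Q.p (nat_lit 0x40000700000400000000000000000000000000000000000000000000000000000000000000) (nat_lit 0x10000000000800000380001800002000008000000000000000000000000000000000000000000000) (nat_lit 5)
theorem c86529 : QOK q86529 := cut [q25763] ⟨c25763, trivial⟩ (nd (nat_lit 249) (nat_lit 0) (cs (lf (nat_lit 18) (nat_lit 249)) (nd (nat_lit 247) (nat_lit 0) (cs (lf (nat_lit 1) (nat_lit 247)) (rf (nat_lit 0)))))) q86529 (by decide +kernel)
def q86555 : Q := Q.p (nat_lit 0xc0000300000c000020000000000000000000000000000000000000000000000000000) (nat_lit 0x1000001e000060000000000000000000000000000000000000000000000) (nat_lit 4)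
theorem c86555 : QOK q86555 := cut [q2953] ⟨c2953, trivial⟩ (nd (nat_lit 208) (nat_lit 0) (cs (lf (nat_lit 47) (nat_lit 186)) (rf (nat_lit 0)))) q86555 (by decide +kernel)
def q86574 : Q := Q.p (nat_lit 0x380000400006000018000000000000000000000000000000000000000000000000000000000) (nat_lit 0x100000c60000b00000000000000040000000000000000000000000000000000000000000000000000) (nat_lit 5)
theorem c86574 : QOK q86574 := cut [q86572] ⟨c86572, trivial⟩ (nd (nat_lit 275) (nat_lit 0) (cs (lf (nat_lit 35) (nat_lit 209)) (nd (nat_lit 293) (nat_lit 0) (cs (lf (nat_lit 13) (nat_lit 271)) (rf (nat_lit 0)))))) q86574 (by decide +kernel)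
def q86634 : Q := Q.p (nat_lit 0xc00003400000000018000000000000000000000000000000000000000000000000000) (nat_lit 0x80000380000200004000000000020000000000000000000000000000000000000000000000) (nat_lit 4)
theorem c86634 : QOK q86634 := cut [q13430] ⟨c13430, trivial⟩ (nd (nat_lit 230) (nat_lit 0) (cs (lf (nat_lit 47) (nat_lit 185)) (rf (nat_lit 0)))) q86634 (by decide +kernel)
def q86662 : Q := Q.p (nat_lit 0x1c0000400001000004000000000000000000000000000000000000000000000000000000000) (nat_lit 0x9c0002200001c0000000000000000000000000000000000000000000000000000000000000000000) (nat_lit 5)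
theorem c86662 : QOK q86662 := cut [q11750] ⟨c11750, trivial⟩ (nd (nat_lit 297) (nat_lit 0) (cs (lf (nat_lit 29) (nat_lit 230)) (rf (nat_lit 0)))) q86662 (by decide +kernel)
def q86679 : Q := Q.p (nat_lit 0x10000040000300000c000000000000000000000000000000000000000000000000000000000) (nat_lit 0x80000200000800000000000000018000060000180000000000000000000000000000000000000000) (nat_lit 5)
theorem c86679 : QOK q86679 := cut [q86677] ⟨c86677, trivial⟩ (nd (nat_lit 297) (nat_lit 0) (cs (lf (nat_lit 29) (nat_lit 230)) (nd (nat_lit 208) (nat_lit 0) (cs (lf (nat_lit 28) (nat_lit 208)) (rf (nat_lit 0)))))) q86679 (by decide +kernel)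
def q86701 : Q := Q.p (nat_lit 0x100000200001800002000000000000000000000000000000000000000000000000000000000) (nat_lit 0x40000700000c0000000000000004000000000000000000000000000000000000000000000000000000000) (nat_lit 4)
theorem c86701 : QOK q86701 := cut [q86700] ⟨c86700, trivial⟩ (nd (nat_lit 295) (nat_lit 0) (cs (lf (nat_lit 29) (nat_lit 229)) (rf (nat_lit 0)))) q86701 (by decide +kernel)
def q86705 : Q := Q.p (nat_lit 0x200001800002000008000000000000000000000000000000000000000000000000000) (nat_lit 0x40000040000700001c0000400000000000000000000000000000000000) (nat_lit 5)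
theorem c86705 : QOK q86705 := cut [q5428] ⟨c5428, trivial⟩ (nd (nat_lit 184) (nat_lit 0) (cs (lf (nat_lit 46) (nat_lit 184)) (nd (nat_lit 185) (nat_lit 0) (cs (lf (nat_lit 47) (nat_lit 162)) (rf (nat_lit 0)))))) q86705 (by decide +kernel)
def q86716 : Q := Q.p (nat_lit 0x300000400003000000000000000000000000000000000000000000000000000000000000000) (nat_lit 0x200000800073c001ce000eb80000000004000000000000000000000000000000000000000000000000000000000) (nat_lit 8)
theorem c86716 : QOK q86716 := cut [q86578, q86596, q83826, q86587, q86657] ⟨c86578, c86596, c83826, c86587, c86657, trivial⟩ (nd (nat_lit 295) (nat_lit 0) (cs (rf (nat_lit 0)) (cs (rf (nat_lit 1)) (nd (nat_lit 272) (nat_lit 0) (cs (rf (nat_lit 2)) (cs (rf (nat_lit 3)) (rf (nat_lit 4)))))))) q86716 (by decide +kernel)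
def q86746 : Q := Q.p (nat_lit 0xf00001c000000000100000000000000000000000000000000000000000000000) (nat_lit 0x60000180000200000c00000000000000000000000000000000000000000) (nat_lit 4)
theorem c86746 : QOK q86746 := cut [q86745] ⟨c86745, trivial⟩ (nd (nat_lit 233) (nat_lit 0) (cs (lf (nat_lit 6) (nat_lit 230)) (rf (nat_lit 0)))) q86746 (by decide +kernel)
def q86768 : Q := Q.p (nat_lit 0x7000000000000000000000000000000000000000000000000000000000000000) (nat_lit 0xe0000188000ff000000000000000000000000000000000000000000000000000000000) (nat_lit 5)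
theorem c86768 : QOK q86768 := cut [q80576, q83694, q86766] ⟨c80576, c83694, c86766, trivial⟩ (nd (nat_lit 255) (nat_lit 0) (cs (rf (nat_lit 0)) (cs (rf (nat_lit 1)) (nd (nat_lit 230) (nat_lit 0) (cs (lf (nat_lit 23) (nat_lit 229)) (rf (nat_lit 2))))))) q86768 (by decide +kernel)
def q86769 : Q := Q.p (nat_lit 0x7000000000000000000000000000000000000000000000000000000000000000) (nat_lit 0xe7000188000e7000000000000000000000000000000000000000000000000000000000) (nat_lit 5)
theorem c86769 : QOK q86769 := cut [q80576, q81927] ⟨c80576, c81927, trivial⟩ (nd (nat_lit 255) (nat_lit 0) (cs (rf (nat_lit 0)) (rf (nat_lit 1)))) q86769 (by decide +kernel)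
def q86773 : Q := Q.p (nat_lit 0x7800000000000000000000000000000000000000000000000000000000000000) (nat_lit 0x1c000060001f800000000000000000000000000000000000000000000000000000000) (nat_lit 6)
theorem c86773 : QOK q86773 := cut [q23543] ⟨c23543, trivial⟩ (nd (nat_lit 228) (nat_lit 0) (cs (lf (nat_lit 22) (nat_lit 228)) (nd (nat_lit 250) (nat_lit 0) (cs (lf (nat_lit 23) (nat_lit 227)) (rf (nat_lit 0)))))) q86773 (by decide +kernel)
def q86774 : Q := Q.p (nat_lit 0x700000c000000000000000000000000000000000000000000000000000000000) (nat_lit 0x100000600018000000000020000080000000000000000000000000000000000000000000000) (nat_lit 4)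
theorem c86774 : QOK q86774 := cut [q79098] ⟨c79098, trivial⟩ (nd (nat_lit 255) (nat_lit 0) (cs (lf (nat_lit 18) (nat_lit 230)) (rf (nat_lit 0)))) q86774 (by decide +kernel)
def q86782 : Q := Q.p (nat_lit 0xf000000000000000000000000000000000000000000000000000000000000000) (nat_lit 0xe0000300001dc000000000000000000000000000000000000000000000000000000000) (nat_lit 6)
theorem c86782 : QOK q86782 := cut [q86779] ⟨c86779, trivial⟩ (nd (nat_lit 278) (nat_lit 0) (cs (lf (nat_lit 4) (nat_lit 252)) (nd (nat_lit 256) (nat_lit 0) (cs (lf (nat_lit 5) (nat_lit 253)) (nd (nat_lit 231) (nat_lit 0) (cs (lf (nat_lit 23) (nat_lit 230)) (rf (nat_lit 0)))))))) q86782 (by decide +kernel)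
def q86795 : Q := Q.p (nat_lit 0x800003000018000060000000000000000000000000000000000000000000000000000) (nat_lit 0x100000400000000060000018000040000000000000000000000000000000000000000000000) (nat_lit 4)
theorem c86795 : QOK q86795 := cut [q80369] ⟨c80369, trivial⟩ (nd (nat_lit 274) (nat_lit 0) (cs (lf (nat_lit 41) (nat_lit 208)) (rf (nat_lit 0)))) q86795 (by decide +kernel)
def q86838 : Q := Q.p (nat_lit 0x8000020000680001e000000000000000000000000000000000000000000000000000000000) (nat_lit 0x100000400008000000000000000c0000100000400000000000000000000000000000000000000000) (nat_lit 4)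
theorem c86838 : QOK q86838 := cut [q79251] ⟨c79251, trivial⟩ (nd (nat_lit 294) (nat_lit 0) (cs (lf (nat_lit 41) (nat_lit 228)) (rf (nat_lit 0)))) q86838 (by decide +kernel)
def q86861 : Q := Q.p (nat_lit 0x200007000018000000000000000000000000000000000000000000000000000000000) (nat_lit 0xe400038000000000000000000000000000000000000000000000000000000000000000) (nat_lit 4)
theorem c86861 : QOK q86861 := cut [q86860] ⟨c86860, trivial⟩ (nd (nat_lit 255) (nat_lit 0) (cs (lf (nat_lit 10) (nat_lit 251)) (rf (nat_lit 0)))) q86861 (by decide +kernel)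
def q86907 : Q := Q.p (nat_lit 0x80000200001800000000000000000000000000000000000000000000000000000000000000) (nat_lit 0x14000070000140000000000000006000000000000000000000000000000000000000000000000000000000) (nat_lit 5)
theorem c86907 : QOK q86907 := cut [q86906] ⟨c86906, trivial⟩ (nd (nat_lit 317) (nat_lit 0) (cs (lf (nat_lit 35) (nat_lit 229)) (rf (nat_lit 0)))) q86907 (by decide +kernel)
def q86927 : Q := Q.p (nat_lit 0x7800008000000000000000000000000000000000000000000000000000000000) (nat_lit 0x40000100000f00008000000000020000080000000000000000000000000000000000000000000000) (nat_lit 5)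
theorem c86927 : QOK q86927 := cut [q80881] ⟨c80881, trivial⟩ (nd (nat_lit 273) (nat_lit 0) (cs (lf (nat_lit 11) (nat_lit 250)) (nd (nat_lit 274) (nat_lit 0) (cs (rf (nat_lit 0)) (lf (nat_lit 6) (nat_lit 251)))))) q86927 (by decide +kernel)
def q86947 : Q := Q.p (nat_lit 0x8000020000080000e0000000000000000000000000000000000000000000000000000) (nat_lit 0x1d4000310000040000000000000000000000000000000000000000000000) (nat_lit 5)
theorem c86947 : QOK q86947 := cut [q80821] ⟨c80821, trivial⟩ (nd (nat_lit 212) (nat_lit 0) (cs (lf (nat_lit 11) (nat_lit 208)) (nd (nat_lit 186) (nat_lit 0) (cs (lf (nat_lit 46) (nat_lit 186)) (rf (nat_lit 0)))))) q86947 (by decide +kernel)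
def q86979 : Q := Q.p (nat_lit 0x300001c000040000000000000000000000000000000000000000000000000000) (nat_lit 0x400000c0000200008c000020000080000000000000000000000000000000000000000) (nat_lit 5)
theorem c86979 : QOK q86979 := cut [q86978] ⟨c86978, trivial⟩ (nd (nat_lit 229) (nat_lit 0) (cs (lf (nat_lit 17) (nat_lit 207)) (rf (nat_lit 0)))) q86979 (by decide +kernel)
def q87042 : Q := Q.p (nat_lit 0x300000c00003000008000000000000000000000000000000000000000000000000000000000) (nat_lit 0x100000c00000300000000004000010000000000000000000000000000000000000000000000000000) (nat_lit 4)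
theorem c87042 : QOK q87042 := cut [q2561] ⟨c2561, trivial⟩ (nd (nat_lit 208) (nat_lit 0) (cs (rf (nat_lit 0)) (lf (nat_lit 25) (nat_lit 208)))) q87042 (by decide +kernel)
def q87051 : Q := Q.p (nat_lit 0x1000018000070000000000000000000000000000000000000000000000000000) (nat_lit 0x40000000000600000c000030000080000200000000000000000000000000000000000) (nat_lit 5)
theorem c87051 : QOK q87051 := cut [q10121] ⟨c10121, trivial⟩ (nd (nat_lit 207) (nat_lit 0) (cs (lf (nat_lit 0) (nat_lit 206)) (nd (nat_lit 185) (nat_lit 0) (cs (lf (nat_lit 23) (nat_lit 184)) (rf (nat_lit 0)))))) q87051 (by decide +kernel)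
def q87068 : Q := Q.p (nat_lit 0x7800008000000000000000000000000000000000000000000000000000000000) (nat_lit 0x18000076000000000000000000000000000000000000000000000000000000000) (nat_lit 4)
theorem c87068 : QOK q87068 := cut [q86921] ⟨c86921, trivial⟩ (nd (nat_lit 233) (nat_lit 0) (cs (lf (nat_lit 16) (nat_lit 229)) (rf (nat_lit 0)))) q87068 (by decide +kernel)
def q87098 : Q := Q.p (nat_lit 0x200003800008000000000000000000000000000000000000000000000000000000000) (nat_lit 0x50001c000006000000000000000000000000000000000000000000000000000000000) (nat_lit 4)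
theorem c87098 : QOK q87098 := cut [q86924] ⟨c86924, trivial⟩ (nd (nat_lit 254) (nat_lit 0) (cs (lf (nat_lit 11) (nat_lit 250)) (rf (nat_lit 0)))) q87098 (by decide +kernel)
def q87130 : Q := Q.p (nat_lit 0x3000004000010000000000000000000000000000000000000000000000000000) (nat_lit 0x8000060000080000a0000200000e0000380000800000000000000000000000000000000000) (nat_lit 6)
theorem c87130 : QOK q87130 := cut [q29, q86019, q87129] ⟨c29, c86019, c87129, trivial⟩ (nd (nat_lit 186) (nat_lit 0) (cs (rf (nat_lit 0)) (cs (rf (nat_lit 1)) (rf (nat_lit 2))))) q87130 (by decide +kernel)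
def q87136 : Q := Q.p (nat_lit 0x300000e000000000000000000000000000000000000000000000000000000000) (nat_lit 0x80007180006e000080000200000000000000000000000000000000000000000) (nat_lit 7)
theorem c87136 : QOK q87136 := cut [q87133] ⟨c87133, trivial⟩ (nd (nat_lit 228) (nat_lit 0) (cs (lf (nat_lit 0) (nat_lit 227)) (nd (nat_lit 209) (nat_lit 0) (cs (lf (nat_lit 17) (nat_lit 206)) (nd (nat_lit 165) (nat_lit 0) (cs (lf (nat_lit 37) (nat_lit 164)) (rf (nat_lit 0)))))))) q87136 (by decide +kernel)
def q87142 : Q := Q.p (nat_lit 0x200001e000000000000000000000000000000000000000000000000000000000) (nat_lit 0x2000008000000000000000e0000100000400000000000000000000000000000000000000000) (nat_lit 4)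
theorem c87142 : QOK q87142 := cut [q12207] ⟨c12207, trivial⟩ (nd (nat_lit 210) (nat_lit 0) (cs (lf (nat_lit 17) (nat_lit 207)) (rf (nat_lit 0)))) q87142 (by decide +kernel)
def q87146 : Q := Q.p (nat_lit 0x3000016000000000000000000000000000000000000000000000000000000000) (nat_lit 0xc8000e8000000000000000000000000000000000000000000000000000000000) (nat_lit 4)
theorem c87146 : QOK q87146 := cut [q79118] ⟨c79118, trivial⟩ (nd (nat_lit 254) (nat_lit 0) (cs (lf (nat_lit 18) (nat_lit 229)) (rf (nat_lit 0)))) q87146 (by decide +kernel)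
def q87151 : Q := Q.p (nat_lit 0x200001800006000000000000000000000000000000000000000000000000000000000) (nat_lit 0x6000018000040000000000000000c0000300000c0000000000000000000000000000000000000000) (nat_lit 6)
theorem c87151 : QOK q87151 := cut [q87148] ⟨c87148, trivial⟩ (nd (nat_lit 295) (nat_lit 0) (cs (lf (nat_lit 30) (nat_lit 229)) (nd (nat_lit 296) (nat_lit 0) (cs (lf (nat_lit 29) (nat_lit 229)) (nd (nat_lit 207) (nat_lit 0) (cs (lf (nat_lit 28) (nat_lit 207)) (rf (nat_lit 0)))))))) q87151 (by decide +kernel)
def q87163 : Q := Q.p (nat_lit 0x3000004000010000000000000000000000000000000000000000000000000000) (nat_lit 0xa000008000020000000000c0000300000800000000000000000000000000000000000) (nat_lit 5)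
theorem c87163 : QOK q87163 := cut [q32260] ⟨c32260, trivial⟩ (nd (nat_lit 186) (nat_lit 0) (cs (lf (nat_lit 29) (nat_lit 186)) (rf (nat_lit 0)))) q87163 (by decide +kernel)
def q87165 : Q := Q.p (nat_lit 0x3000004000010000000000000000000000000000000000000000000000000000) (nat_lit 0xa00000800002000000000060000180000200000000000000000000000000000000000) (nat_lit 5)
theorem c87165 : QOK q87165 := cut [q87164] ⟨c87164, trivial⟩ (nd (nat_lit 186) (nat_lit 0) (cs (lf (nat_lit 29) (nat_lit 186)) (rf (nat_lit 0)))) q87165 (by decide +kernel)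
def q87166 : Q := Q.p (nat_lit 0x1000004000010000000000000000000000000000000000000000000000000000) (nat_lit 0x800006000008000020000200000e0000380000a00000000000000000000000000000000000) (nat_lit 5)
theorem c87166 : QOK q87166 := cut [q367, q499, q87164] ⟨c367, c499, c87164, trivial⟩ (nd (nat_lit 186) (nat_lit 0) (cs (rf (nat_lit 0)) (cs (rf (nat_lit 1)) (rf (nat_lit 2))))) q87166 (by decide +kernel)
def q87170 : Q := Q.p (nat_lit 0x7000024000000000000000000000000000000000000000000000000000000000) (nat_lit 0xe000018000048000000000000000000000000000000000000000000000000000000000) (nat_lit 4)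
theorem c87170 : QOK q87170 := cut [q87169] ⟨c87169, trivial⟩ (nd (nat_lit 255) (nat_lit 0) (cs (lf (nat_lit 17) (nat_lit 230)) (rf (nat_lit 0)))) q87170 (by decide +kernel)
def q87184 : Q := Q.p (nat_lit 0x7000014000010000000000000000000000000000000000000000000000000000) (nat_lit 0x80000080000b8000e0000380000e00002800000000000000000000000000000000000) (nat_lit 6)
theorem c87184 : QOK q87184 := cut [q79128, q81406, q87182] ⟨c79128, c81406, c87182, trivial⟩ (nd (nat_lit 210) (nat_lit 0) (cs (rf (nat_lit 0)) (nd (nat_lit 229) (nat_lit 0) (cs (rf (nat_lit 1)) (rf (nat_lit 2)))))) q87184 (by decide +kernel)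
def q87201 : Q := Q.p (nat_lit 0x3000004000010000000000000000000000000000000000000000000000000000) (nat_lit 0xa00000800008000000000060000180000200000000000000000000000000000000000) (nat_lit 5)
theorem c87201 : QOK q87201 := cut [q79032] ⟨c79032, trivial⟩ (nd (nat_lit 186) (nat_lit 0) (cs (lf (nat_lit 29) (nat_lit 186)) (nd (nat_lit 251) (nat_lit 0) (cs (lf (nat_lit 41) (nat_lit 185)) (rf (nat_lit 0)))))) q87201 (by decide +kernel)
def q87204 : Q := Q.p (nat_lit 0x1000004000010000040000000000000000000000000000000000000000000000) (nat_lit 0x800006000008000000000080000a0000280000000000000000000000000000000000000000) (nat_lit 5)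
theorem c87204 : QOK q87204 := cut [q20148] ⟨c20148, trivial⟩ (nd (nat_lit 165) (nat_lit 0) (cs (lf (nat_lit 34) (nat_lit 164)) (rf (nat_lit 0)))) q87204 (by decide +kernel)
def q87210 : Q := Q.p (nat_lit 0x400003000004000010000000000000000000000000000000000000000000000000000) (nat_lit 0x40000100000000000000008000028000060000180000000000000000000000000000000000000000) (nat_lit 5)
theorem c87210 : QOK q87210 := cut [q87208] ⟨c87208, trivial⟩ (nd (nat_lit 185) (nat_lit 0) (cs (lf (nat_lit 46) (nat_lit 185)) (nd (nat_lit 186) (nat_lit 0) (cs (lf (nat_lit 47) (nat_lit 163)) (rf (nat_lit 0)))))) q87210 (by decide +kernel)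
def q87229 : Q := Q.p (nat_lit 0x400003000006000000000000000000000000000000000000000000000000000000000) (nat_lit 0x10000000000c800000000008000020000080000000000000000000000000000000000000000) (nat_lit 4)
theorem c87229 : QOK q87229 := cut [q87228] ⟨c87228, trivial⟩ (nd (nat_lit 254) (nat_lit 0) (cs (lf (nat_lit 18) (nat_lit 229)) (rf (nat_lit 0)))) q87229 (by decide +kernel)
def q87241 : Q := Q.p (nat_lit 0x100000c000030000000000000000000000000000000000000000000000000000) (nat_lit 0x10000040000000001000000e000020000000000000000000000000000000000000000000000) (nat_lit 4)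
theorem c87241 : QOK q87241 := cut [q2953] ⟨c2953, trivial⟩ (nd (nat_lit 274) (nat_lit 0) (cs (lf (nat_lit 30) (nat_lit 208)) (rf (nat_lit 0)))) q87241 (by decide +kernel)
def q87246 : Q := Q.p (nat_lit 0x3000004000010000080000000000000000000000000000000000000000000000) (nat_lit 0x20000080000a000000000040000300000000000000000000000000000000000000000) (nat_lit 4)
theorem c87246 : QOK q87246 := cut [q87245] ⟨c87245, trivial⟩ (nd (nat_lit 186) (nat_lit 0) (cs (lf (nat_lit 35) (nat_lit 164)) (rf (nat_lit 0)))) q87246 (by decide +kernel)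
def q87264 : Q := Q.p (nat_lit 0x3000018000060000000000000000000000000000000000000000000000000000) (nat_lit 0x200000800000000060000018000040000000000000000000000000000000000000000000000) (nat_lit 4)
theorem c87264 : QOK q87264 := cut [q80369] ⟨c80369, trivial⟩ (nd (nat_lit 275) (nat_lit 0) (cs (lf (nat_lit 30) (nat_lit 209)) (rf (nat_lit 0)))) q87264 (by decide +kernel)
def q87284 : Q := Q.p (nat_lit 0x400003800000000000000000000000000000000000000000000000000000000000000) (nat_lit 0x40000100000200004400003c00008000020000000000000000000000000000000000000000000000) (nat_lit 4)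
theorem c87284 : QOK q87284 := cut [q83666, q84257] ⟨c83666, c84257, trivial⟩ (nd (nat_lit 229) (nat_lit 0) (cs (rf (nat_lit 0)) (rf (nat_lit 1)))) q87284 (by decide +kernel)
def q87285 : Q := Q.p (nat_lit 0x400007800000000000000000000000000000000000000000000000000000000000000) (nat_lit 0x40000100000200000000003000008000020000000000000000000000000000000000000000000000) (nat_lit 4)
theorem c87285 : QOK q87285 := cut [q83666] ⟨c83666, trivial⟩ (nd (nat_lit 229) (nat_lit 0) (cs (lf (nat_lit 23) (nat_lit 228)) (rf (nat_lit 0)))) q87285 (by decide +kernel)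
def q87296 : Q := Q.p (nat_lit 0x400003800008000000000000000000000000000000000000000000000000000000000) (nat_lit 0x2e0000700011c00000000000000000000000000000000000000000000000000000000) (nat_lit 6)
theorem c87296 : QOK q87296 := cut [q84261] ⟨c84261, trivial⟩ (nd (nat_lit 250) (nat_lit 0) (cs (lf (nat_lit 17) (nat_lit 228)) (rf (nat_lit 0)))) q87296 (by decide +kernel)
def q87344 : Q := Q.p (nat_lit 0x380000c00002000008000000000000000000000000000000000000000000000000000000000) (nat_lit 0x100001c60000200000000000000000000000000000000000000000000000000000000000000000000) (nat_lit 4)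
theorem c87344 : QOK q87344 := cut [q41426] ⟨c41426, trivial⟩ (nd (nat_lit 293) (nat_lit 0) (cs (lf (nat_lit 13) (nat_lit 271)) (rf (nat_lit 0)))) q87344 (by decide +kernel)
def q87352 : Q := Q.p (nat_lit 0x10000040000300000c000000000000000000000000000000000000000000000000000000000) (nat_lit 0x80000200000000004000003800008000000000000000000000000000000000000000000000000000) (nat_lit 4)
theorem c87352 : QOK q87352 := cut [q87351] ⟨c87351, trivial⟩ (nd (nat_lit 297) (nat_lit 0) (cs (lf (nat_lit 29) (nat_lit 230)) (rf (nat_lit 0)))) q87352 (by decide +kernel)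
def q87372 : Q := Q.p (nat_lit 0x100000400003000000000000000000000000000000000000000000000000000000000000000) (nat_lit 0x1800006000008000080000080000e000008000000000000000000000000000000000000000000000000000) (nat_lit 6)
theorem c87372 : QOK q87372 := cut [q87369] ⟨c87369, trivial⟩ (nd (nat_lit 318) (nat_lit 0) (cs (lf (nat_lit 35) (nat_lit 230)) (nd (nat_lit 229) (nat_lit 0) (cs (lf (nat_lit 46) (nat_lit 229)) (nd (nat_lit 275) (nat_lit 0) (cs (lf (nat_lit 30) (nat_lit 252)) (rf (nat_lit 0)))))))) q87372 (by decide +kernel)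
def q87376 : Q := Q.p (nat_lit 0x100000400003000000000000000000000000000000000000000000000000000000000000000) (nat_lit 0x1000004000020000080000080000e000018000040000000000000000000000000000000000000000000000) (nat_lit 6)
theorem c87376 : QOK q87376 := cut [q87375] ⟨c87375, trivial⟩ (nd (nat_lit 318) (nat_lit 0) (cs (lf (nat_lit 35) (nat_lit 230)) (rf (nat_lit 0)))) q87376 (by decide +kernel)
def q87396 : Q := Q.p (nat_lit 0x1000004000010000040000000000000000000000000000000000000000000000) (nat_lit 0x800002000008000080000380000e00000800000000000000000000000000000) (nat_lit 6)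
theorem c87396 : QOK q87396 := cut [q32206] ⟨c32206, trivial⟩ (nd (nat_lit 165) (nat_lit 0) (cs (lf (nat_lit 34) (nat_lit 164)) (nd (nat_lit 164) (nat_lit 0) (cs (lf (nat_lit 35) (nat_lit 142)) (rf (nat_lit 0)))))) q87396 (by decide +kernel)
def q87399 : Q := Q.p (nat_lit 0x1000004000010000040000000000000000000000000000000000000000000000) (nat_lit 0x800002000008000020000380000e00002000000000000000000000000000000) (nat_lit 6)
theorem c87399 : QOK q87399 := cut [q18159] ⟨c18159, trivial⟩ (nd (nat_lit 163) (nat_lit 0) (cs (lf (nat_lit 46) (nat_lit 163)) (nd (nat_lit 164) (nat_lit 0) (cs (lf (nat_lit 47) (nat_lit 141)) (rf (nat_lit 0)))))) q87399 (by decide +kernel)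
def q87416 : Q := Q.p (nat_lit 0x400003000004000010000000000000000000000000000000000000000000000000000) (nat_lit 0x80000380000e0000180000800000000008000020000080000000000000000000000000000000000000000000000) (nat_lit 7)
theorem c87416 : QOK q87416 := cut [q83731] ⟨c83731, trivial⟩ (nd (nat_lit 209) (nat_lit 0) (cs (lf (nat_lit 35) (nat_lit 186)) (nd (nat_lit 296) (nat_lit 0) (cs (lf (nat_lit 34) (nat_lit 208)) (rf (nat_lit 0)))))) q87416 (by decide +kernel)
def q87424 : Q := Q.p (nat_lit 0x400001000004000010000000000000000000000000000000000000000000000000000) (nat_lit 0x280000e0000380000000000000008000020000080000000000000000000000000000000000000000000000) (nat_lit 6)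
theorem c87424 : QOK q87424 := cut [q83728] ⟨c83728, trivial⟩ (nd (nat_lit 209) (nat_lit 0) (cs (lf (nat_lit 35) (nat_lit 186)) (nd (nat_lit 296) (nat_lit 0) (cs (lf (nat_lit 34) (nat_lit 208)) (rf (nat_lit 0)))))) q87424 (by decide +kernel)
def q87433 : Q := Q.p (nat_lit 0x3c00004000000000000000000000000000000000000000000000000000000000) (nat_lit 0x100000dc0000300002000008000020000000000000000000000000000000000000000000000) (nat_lit 6)
theorem c87433 : QOK q87433 := cut [q87431] ⟨c87431, trivial⟩ (nd (nat_lit 271) (nat_lit 0) (cs (lf (nat_lit 10) (nat_lit 249)) (nd (nat_lit 249) (nat_lit 0) (cs (lf (nat_lit 11) (nat_lit 248)) (rf (nat_lit 0)))))) q87433 (by decide +kernel)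
def q87469 : Q := Q.p (nat_lit 0x7000010000028000000000000000000000000000000000000000000000000000) (nat_lit 0x8000008000e00000d0000300000e00003800002000000000000000000000000000000) (nat_lit 9)
theorem c87469 : QOK q87469 := cut [q87466] ⟨c87466, trivial⟩ (nd (nat_lit 233) (nat_lit 0) (cs (lf (nat_lit 12) (nat_lit 229)) (nd (nat_lit 234) (nat_lit 0) (cs (lf (nat_lit 6) (nat_lit 231)) (nd (nat_lit 210) (nat_lit 0) (cs (lf (nat_lit 1) (nat_lit 207)) (rf (nat_lit 0)))))))) q87469 (by decide +kernel)
def q87497 : Q := Q.p (nat_lit 0x2000004000070000000000000000000000000000000000000000000000000000) (nat_lit 0x20000080000000007a00018c000138000000000000000000000000000000000000000000000) (nat_lit 8)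
theorem c87497 : QOK q87497 := cut [q9468] ⟨c9468, trivial⟩ (nd (nat_lit 211) (nat_lit 0) (cs (lf (nat_lit 11) (nat_lit 207)) (nd (nat_lit 233) (nat_lit 0) (cs (lf (nat_lit 5) (nat_lit 208)) (nd (nat_lit 207) (nat_lit 0) (cs (lf (nat_lit 4) (nat_lit 207)) (nd (nat_lit 184) (nat_lit 0) (cs (lf (nat_lit 22) (nat_lit 184)) (nd (nat_lit 183) (nat_lit 0) (cs (lf (nat_lit 21) (nat_lit 183)) (rf (nat_lit 0)))))))))))) q87497 (by decide +kernel)
def q87536 : Q := Q.p (nat_lit 0x3000004000018000000000000000000000000000000000000000000000000000) (nat_lit 0xc0000300000c00000000008000020000020000000000000000000000000000000000000000000000) (nat_lit 5)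
theorem c87536 : QOK q87536 := cut [q87418] ⟨c87418, trivial⟩ (nd (nat_lit 274) (nat_lit 0) (cs (lf (nat_lit 47) (nat_lit 185)) (nd (nat_lit 297) (nat_lit 0) (cs (lf (nat_lit 28) (nat_lit 208)) (rf (nat_lit 0)))))) q87536 (by decide +kernel)
def q87579 : Q := Q.p (nat_lit 0x7000006000010000000000000000000000000000000000000000000000000000) (nat_lit 0x8000008000f80000e8000380000e00002800000000000000000000000000000000000) (nat_lit 7)
theorem c87579 : QOK q87579 := cut [q79118, q79128, q87182] ⟨c79118, c79128, c87182, trivial⟩ (nd (nat_lit 232) (nat_lit 0) (cs (rf (nat_lit 0)) (cs (nd (nat_lit 210) (nat_lit 0) (cs (rf (nat_lit 1)) (nd (nat_lit 233) (nat_lit 0) (cs (lf (nat_lit 12) (nat_lit 229)) (nd (nat_lit 209) (nat_lit 0) (cs (lf (nat_lit 6) (nat_lit 207)) (lf (nat_lit 0) (nat_lit 207)))))))) (nd (nat_lit 210) (nat_lit 0) (cs (rf (nat_lit 1)) (rf (nat_lit 2))))))) q87579 (by decide +kernel)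
def q87582 : Q := Q.p (nat_lit 0x3000004000010000000000000000000000000000000000000000000000000000) (nat_lit 0x80003e80007f0001f80000a00000000000000000000000000000000000) (nat_lit 8)
theorem c87582 : QOK q87582 := cut [q441, q499, q86019, q376, q395, q78903, q87190] ⟨c441, c499, c86019, c376, c395, c78903, c87190, trivial⟩ (nd (nat_lit 186) (nat_lit 0) (cs (rf (nat_lit 0)) (cs (rf (nat_lit 1)) (cs (rf (nat_lit 2)) (nd (nat_lit 187) (nat_lit 0) (cs (lf (nat_lit 35) (nat_lit 164)) (nd (nat_lit 188) (nat_lit 0) (cs (rf (nat_lit 3)) (cs (rf (nat_lit 4)) (cs (rf (nat_lit 5)) (rf (nat_lit 6)))))))))))) q87582 (by decide +kernel)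
def q87647 : Q := Q.p (nat_lit 0x300000f000000000000000000000000000000000000000000000000000000000) (nat_lit 0xe000700001c6000000000000000000000000000000000000000000000000000) (nat_lit 6)
theorem c87647 : QOK q87647 := cut [q84425] ⟨c84425, trivial⟩ (nd (nat_lit 205) (nat_lit 0) (cs (lf (nat_lit 22) (nat_lit 205)) (nd (nat_lit 250) (nat_lit 0) (cs (lf (nat_lit 11) (nat_lit 227)) (nd (nat_lit 232) (nat_lit 0) (cs (lf (nat_lit 10) (nat_lit 228)) (rf (nat_lit 0)))))))) q87647 (by decide +kernel)
def q87680 : Q := Q.p (nat_lit 0x300000c000010000000000000000000000000000000000000000000000000000) (nat_lit 0x4000000000000000e00000f0000380000000000000000000000000000000000000000) (nat_lit 6)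
theorem c87680 : QOK q87680 := cut [q87678] ⟨c87678, trivial⟩ (nd (nat_lit 186) (nat_lit 0) (cs (lf (nat_lit 24) (nat_lit 164)) (nd (nat_lit 185) (nat_lit 0) (cs (lf (nat_lit 47) (nat_lit 163)) (rf (nat_lit 0)))))) q87680 (by decide +kernel)
def q87683 : Q := Q.p (nat_lit 0x300000c000030000000000000000000000000000000000000000000000000000) (nat_lit 0x10000040000400000380004e000038000000000000000000000000000000000000000000000) (nat_lit 7)
theorem c87683 : QOK q87683 := cut [q87682] ⟨c87682, trivial⟩ (nd (nat_lit 274) (nat_lit 0) (cs (lf (nat_lit 30) (nat_lit 208)) (rf (nat_lit 0)))) q87683 (by decide +kernel)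
def q87706 : Q := Q.p (nat_lit 0x300000d00000c000000000000000000000000000000000000000000000000000) (nat_lit 0x60000180004e00002000000000000000000000000000000000000000000000000000000000) (nat_lit 5)
theorem c87706 : QOK q87706 := cut [q10815] ⟨c10815, trivial⟩ (nd (nat_lit 229) (nat_lit 0) (cs (rf (nat_lit 0)) (lf (nat_lit 5) (nat_lit 228)))) q87706 (by decide +kernel)
def q87813 : Q := Q.p (nat_lit 0x300000c000020000000000000000000000000000000000000000000000000000) (nat_lit 0xc0000300000c000000000130001c0000100000400001000000000000000000000000000000000000) (nat_lit 7)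
theorem c87813 : QOK q87813 := cut [q7464, q84327, q87808] ⟨c7464, c84327, c87808, trivial⟩ (nd (nat_lit 210) (nat_lit 0) (cs (rf (nat_lit 0)) (cs (rf (nat_lit 1)) (nd (nat_lit 296) (nat_lit 0) (cs (nd (nat_lit 211) (nat_lit 0) (cs (lf (nat_lit 6) (nat_lit 208)) (nd (nat_lit 228) (nat_lit 0) (cs (lf (nat_lit 13) (nat_lit 206)) (rf (nat_lit 2)))))) (lf (nat_lit 31) (nat_lit 208))))))) q87813 (by decide +kernel)
def q87820 : Q := Q.p (nat_lit 0x3c0000000003000018000000000000000000000000000000000000000000000000000000000) (nat_lit 0x1dc000020000000000c00000000000000000000000000000000000000000000000000000000000000) (nat_lit 5)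
theorem c87820 : QOK q87820 := cut [q87819] ⟨c87819, trivial⟩ (nd (nat_lit 250) (nat_lit 0) (cs (lf (nat_lit 13) (nat_lit 228)) (rf (nat_lit 0)))) q87820 (by decide +kernel)
def q87864 : Q := Q.p (nat_lit 0x2000008000020000080000000000000000000000000000000000000000000000) (nat_lit 0x8000000000000000c0000170000500000000000000000000000000000000000000000) (nat_lit 5)
theorem c87864 : QOK q87864 := cut [q87863] ⟨c87863, trivial⟩ (nd (nat_lit 186) (nat_lit 0) (cs (lf (nat_lit 47) (nat_lit 164)) (rf (nat_lit 0)))) q87864 (by decide +kernel)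
def q87885 : Q := Q.p (nat_lit 0x300000400001000000000000000000000000000000000000000000000000000000000) (nat_lit 0x8000000000000000000000e0000380000a0000000000000000000000000000000000000000) (nat_lit 5)
theorem c87885 : QOK q87885 := cut [q2085] ⟨c2085, trivial⟩ (nd (nat_lit 206) (nat_lit 0) (cs (lf (nat_lit 29) (nat_lit 206)) (rf (nat_lit 0)))) q87885 (by decide +kernel)
def q87903 : Q := Q.p (nat_lit 0x10000000000300000c000060000000000000000000000000000000000000000000000000000) (nat_lit 0xc0000200000800000000000000180000100000000000000000000000000000000000000000000000) (nat_lit 4)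
theorem c87903 : QOK q87903 := cut [q87808] ⟨c87808, trivial⟩ (nd (nat_lit 211) (nat_lit 0) (cs (lf (nat_lit 6) (nat_lit 208)) (rf (nat_lit 0)))) q87903 (by decide +kernel)
def q87917 : Q := Q.p (nat_lit 0x180000e000000000000000000000000000000000000000000000000000000000) (nat_lit 0x40000000003000000c000020000080000000000000000000000000000000000000000) (nat_lit 4)
theorem c87917 : QOK q87917 := cut [q81735] ⟨c81735, trivial⟩ (nd (nat_lit 232) (nat_lit 0) (cs (lf (nat_lit 6) (nat_lit 229)) (rf (nat_lit 0)))) q87917 (by decide +kernel)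
def q87918 : Q := Q.p (nat_lit 0x3c00002000000000000000000000000000000000000000000000000000000000) (nat_lit 0x10000040000380000000000000008000020000000000000000000000000000000000000000000000) (nat_lit 4)
theorem c87918 : QOK q87918 := cut [q85528] ⟨c85528, trivial⟩ (nd (nat_lit 272) (nat_lit 0) (cs (lf (nat_lit 11) (nat_lit 249)) (rf (nat_lit 0)))) q87918 (by decide +kernel)
def q87922 : Q := Q.p (nat_lit 0x300000e000000000000000000000000000000000000000000000000000000000) (nat_lit 0x200000e00011800006000010000040000000000000000000000000000000000000000) (nat_lit 6)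
theorem c87922 : QOK q87922 := cut [q10810] ⟨c10810, trivial⟩ (nd (nat_lit 228) (nat_lit 0) (cs (lf (nat_lit 0) (nat_lit 227)) (nd (nat_lit 206) (nat_lit 0) (cs (lf (nat_lit 23) (nat_lit 205)) (rf (nat_lit 0)))))) q87922 (by decide +kernel)
def q87924 : Q := Q.p (nat_lit 0x300000f000000000000000000000000000000000000000000000000000000000) (nat_lit 0x40000180000e00010000008000020000000000000000000000000000000000000000000000) (nat_lit 5)
theorem c87924 : QOK q87924 := cut [q20250] ⟨c20250, trivial⟩ (nd (nat_lit 250) (nat_lit 0) (cs (lf (nat_lit 11) (nat_lit 227)) (nd (nat_lit 251) (nat_lit 0) (cs (lf (nat_lit 17) (nat_lit 228)) (rf (nat_lit 0)))))) q87924 (by decide +kernel)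
def q87928 : Q := Q.p (nat_lit 0x380000e000000000000000000000000000000000000000000000000000000000) (nat_lit 0x8000020000000000180000e000010000040000000000000000000000000000000000000000) (nat_lit 5)
theorem c87928 : QOK q87928 := cut [q87927] ⟨c87927, trivial⟩ (nd (nat_lit 228) (nat_lit 0) (cs (lf (nat_lit 0) (nat_lit 227)) (rf (nat_lit 0)))) q87928 (by decide +kernel)
def q87929 : Q := Q.p (nat_lit 0x3c0000f000000000000000000000000000000000000000000000000000000000) (nat_lit 0x4000018000000000000000e000020000000000000000000000000000000000000000000000) (nat_lit 4)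
theorem c87929 : QOK q87929 := cut [q20250] ⟨c20250, trivial⟩ (nd (nat_lit 205) (nat_lit 0) (cs (lf (nat_lit 22) (nat_lit 205)) (rf (nat_lit 0)))) q87929 (by decide +kernel)
def q87934 : Q := Q.p (nat_lit 0x380000e000000000000000000000000000000000000000000000000000000000) (nat_lit 0x380000600001800006000010000040000000000000000000000000000000000000000) (nat_lit 6)
theorem c87934 : QOK q87934 := cut [q82357] ⟨c82357, trivial⟩ (nd (nat_lit 250) (nat_lit 0) (cs (lf (nat_lit 12) (nat_lit 227)) (nd (nat_lit 228) (nat_lit 0) (cs (lf (nat_lit 23) (nat_lit 227)) (nd (nat_lit 271) (nat_lit 0) (cs (lf (nat_lit 10) (nat_lit 249)) (rf (nat_lit 0)))))))) q87934 (by decide +kernel)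
def q87951 : Q := Q.p (nat_lit 0x380000e000000000000000000000000000000000000000000000000000000000) (nat_lit 0xa0000000003000001c0000700001c0000000000000000000000000000000000000000) (nat_lit 7)
theorem c87951 : QOK q87951 := cut [q87949] ⟨c87949, trivial⟩ (nd (nat_lit 232) (nat_lit 0) (cs (lf (nat_lit 6) (nat_lit 229)) (nd (nat_lit 207) (nat_lit 0) (cs (lf (nat_lit 23) (nat_lit 206)) (rf (nat_lit 0)))))) q87951 (by decide +kernel)

end Crest.Agent.H3.Snaky.CR
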