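import Crest.Agent.H3.Snaky.Cert
import Crest.Agent.H3.Snaky.CR.CR0
import Crest.Agent.H3.Snaky.CR.CR3
import Crest.Agent.H3.Snaky.CR.CR4
import Crest.Agent.H3.Snaky.CR.CR5
import Crest.Agent.H3.Snaky.CR.CR7
import Crest.Agent.H3.Snaky.CR.CR9
import Crest.Agent.H3.Snaky.CR.CR10
import Crest.Agent.H3.Snaky.CR.CR15
import Crest.Agent.H3.Snaky.CR.CR16
import Crest.Agent.H3.Snaky.CR.CR17
import Crest.Agent.H3.Snaky.CR.CR18
import Crest.Agent.H3.Snaky.CR.CR20
import Crest.Agent.H3.Snaky.CR.CR21
import Crest.Agent.H3.Snaky.CR.CR22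
import Crest.Agent.H3.Snaky.CR.CR23
import Crest.Agent.H3.Snaky.CR.CR24
import Crest.Agent.H3.Snaky.CR.CR25
import Crest.Agent.H3.Snaky.CR.CR27
import Crest.Agent.H3.Snaky.CR.CR28
import Crest.Agent.H3.Snaky.CR.CR29
import Crest.Agent.H3.Snaky.CR.CR30
import Crest.Agent.H3.Snaky.CR.CR31
import Crest.Agent.H3.Snaky.CR.CR33
import Crest.Agent.H3.Snaky.CR.CR34
import Crest.Agent.H3.Snaky.CR.CR35
import Crest.Agent.H3.Snaky.CR.CR36

set_option autoImplicit false
set_option maxRecDepth 100000

namespace Crest.Agent.H3.Snaky.CR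

open T

def q87953 : Q := Q.p (nat_lit 0x300000e000000000000000000000000000000000000000000000000000000000) (nat_lit 0x80007180000e000000000000000000000000000000000000000000000000000) (nat_lit 5)
theorem c87953 : QOK q87953 := cut [q87133] ⟨c87133, trivial⟩ (nd (nat_lit 228) (nat_lit 0) (cs (lf (nat_lit 0) (nat_lit 227)) (rf (nat_lit 0)))) q87953 (by decide +kernel)
def q87972 : Q := Q.p (nat_lit 0x300001e000000000000000000000000000000000000000000000000000000000) (nat_lit 0x300000c0000300000c000000000dc0001700005c0000000000000000000000000000000000000000) (nat_lit 11)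
theorem c87972 : QOK q87972 := cut [q87971] ⟨c87971, trivial⟩ (nd (nat_lit 251) (nat_lit 0) (cs (lf (nat_lit 12) (nat_lit 228)) (rf (nat_lit 0)))) q87972 (by decide +kernel)
def q87994 : Q := Q.p (nat_lit 0xc0000300000c000010000000000000000000000000000000000000000000000000000) (nat_lit 0x1000006e0001a0000000000000000000000000000000000000000000000) (nat_lit 5)
theorem c87994 : QOK q87994 := cut [q2953] ⟨c2953, trivial⟩ (nd (nat_lit 209) (nat_lit 0) (cs (lf (nat_lit 35) (nat_lit 186)) (nd (nat_lit 188) (nat_lit 0) (cs (lf (nat_lit 34) (nat_lit 187)) (rf (nat_lit 0)))))) q87994 (by decide +kernel)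
def q88001 : Q := Q.p (nat_lit 0x200000c0000300000c000000000000000000000000000000000000000000000000000000000) (nat_lit 0x100001c00000300000800070000040000000000000000000000000000000000000000000000000000) (nat_lit 6)
theorem c88001 : QOK q88001 := cut [q87998] ⟨c87998, trivial⟩ (nd (nat_lit 298) (nat_lit 0) (cs (lf (nat_lit 29) (nat_lit 231)) (nd (nat_lit 299) (nat_lit 0) (cs (lf (nat_lit 18) (nat_lit 274)) (nd (nat_lit 272) (nat_lit 0) (cs (lf (nat_lit 1) (nat_lit 272)) (rf (nat_lit 0)))))))) q88001 (by decide +kernel)
def q88014 : Q := Q.p (nat_lit 0x400003000004000010000000000000000000000000000000000000000000000000000) (nat_lit 0x2e0000b80000e00003000008000020000000000000000000000000000000000000000000000) (nat_lit 8)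
theorem c88014 : QOK q88014 := cut [q25744] ⟨c25744, trivial⟩ (nd (nat_lit 273) (nat_lit 0) (cs (lf (nat_lit 41) (nat_lit 207)) (nd (nat_lit 272) (nat_lit 0) (cs (lf (nat_lit 12) (nat_lit 249)) (nd (nat_lit 207) (nat_lit 0) (cs (lf (nat_lit 47) (nat_lit 185)) (nd (nat_lit 275) (nat_lit 0) (cs (lf (nat_lit 29) (nat_lit 208)) (rf (nat_lit 0)))))))))) q88014 (by decide +kernel)
def q88019 : Q := Q.p (nat_lit 0x400003000004000010000000000000000000000000000000000000000000000000000) (nat_lit 0x100000c0000380000b8000080000a000000000000000000000000000000000000000000000000000000000) (nat_lit 7)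
theorem c88019 : QOK q88019 := cut [q88018] ⟨c88018, trivial⟩ (nd (nat_lit 273) (nat_lit 0) (cs (lf (nat_lit 41) (nat_lit 207)) (rf (nat_lit 0)))) q88019 (by decide +kernel)
def q88039 : Q := Q.p (nat_lit 0xc00003c00004000010000000000000000000000000000000000000000000000000000) (nat_lit 0x40000100000e0000380000000002000000000000000000000000000000000000000000000000000000000) (nat_lit 5)
theorem c88039 : QOK q88039 := cut [q52664] ⟨c52664, trivial⟩ (nd (nat_lit 273) (nat_lit 0) (cs (lf (nat_lit 41) (nat_lit 207)) (nd (nat_lit 272) (nat_lit 0) (cs (lf (nat_lit 12) (nat_lit 249)) (rf (nat_lit 0)))))) q88039 (by decide +kernel)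
def q88045 : Q := Q.p (nat_lit 0x800003c00004000030000000000000000000000000000000000000000000000000000) (nat_lit 0x1a0001c0000100000000000000000000000000000000000000000000000) (nat_lit 4)
theorem c88045 : QOK q88045 := cut [q1402] ⟨c1402, trivial⟩ (nd (nat_lit 231) (nat_lit 0) (cs (lf (nat_lit 17) (nat_lit 228)) (rf (nat_lit 0)))) q88045 (by decide +kernel)
def q88083 : Q := Q.p (nat_lit 0x400003c000000000000000000000000000000000000000000000000000) (nat_lit 0x738000c0000380000000000000000000000000000000000000000000000) (nat_lit 6)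
theorem c88083 : QOK q88083 := cut [q27920] ⟨c27920, trivial⟩ (nd (nat_lit 188) (nat_lit 0) (cs (lf (nat_lit 16) (nat_lit 184)) (nd (nat_lit 227) (nat_lit 0) (cs (lf (nat_lit 10) (nat_lit 205)) (rf (nat_lit 0)))))) q88083 (by decide +kernel)
def q88087 : Q := Q.p (nat_lit 0x100000400003c000000000000000000000000000000000000000000000000000) (nat_lit 0x10000060001b8000400000b8000280000000000000000000000000000000000000000) (nat_lit 8)
theorem c88087 : QOK q88087 := cut [q78749] ⟨c78749, trivial⟩ (nd (nat_lit 183) (nat_lit 0) (cs (lf (nat_lit 22) (nat_lit 183)) (nd (nat_lit 231) (nat_lit 0) (cs (lf (nat_lit 5) (nat_lit 206)) (nd (nat_lit 165) (nat_lit 0) (cs (lf (nat_lit 37) (nat_lit 164)) (rf (nat_lit 0)))))))) q88087 (by decide +kernel)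
def q88100 : Q := Q.p (nat_lit 0x3000006000018000000000000000000000000000000000000000000000000000) (nat_lit 0x1800007800008000380000e4000098000000000000000000000000000000000000000000000) (nat_lit 9)
theorem c88100 : QOK q88100 := cut [q88099] ⟨c88099, trivial⟩ (nd (nat_lit 274) (nat_lit 0) (cs (lf (nat_lit 42) (nat_lit 207)) (rf (nat_lit 0)))) q88100 (by decide +kernel)
def q88105 : Q := Q.p (nat_lit 0x3000006000018000000000000000000000000000000000000000000000000000) (nat_lit 0x1c0000780000800001c00007000010000000000000000000000000000000000000000000000) (nat_lit 8)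
theorem c88105 : QOK q88105 := cut [q12540] ⟨c12540, trivial⟩ (nd (nat_lit 227) (nat_lit 0) (cs (lf (nat_lit 1) (nat_lit 227)) (nd (nat_lit 274) (nat_lit 0) (cs (lf (nat_lit 42) (nat_lit 207)) (nd (nat_lit 273) (nat_lit 0) (cs (lf (nat_lit 41) (nat_lit 207)) (nd (nat_lit 272) (nat_lit 0) (cs (lf (nat_lit 12) (nat_lit 249)) (nd (nat_lit 251) (nat_lit 0) (cs (lf (nat_lit 41) (nat_lit 206)) (rf (nat_lit 0)))))))))))) q88105 (by decide +kernel)
def q88108 : Q := Q.p (nat_lit 0x400003000006000018000000000000000000000000000000000000000000000000000) (nat_lit 0x8000000000398000e0000380000400000000000000000000000000000000000000000) (nat_lit 7)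
theorem c88108 : QOK q88108 := cut [q88107] ⟨c88107, trivial⟩ (nd (nat_lit 227) (nat_lit 0) (cs (lf (nat_lit 1) (nat_lit 227)) (rf (nat_lit 0)))) q88108 (by decide +kernel)
def q88116 : Q := Q.p (nat_lit 0x3000004000010000020000000000000000000000000000000000000000000000) (nat_lit 0x20000080000a000000000040000180000000000000000000000000000000000000000) (nat_lit 4)
theorem c88116 : QOK q88116 := cut [q87245] ⟨c87245, trivial⟩ (nd (nat_lit 186) (nat_lit 0) (cs (lf (nat_lit 47) (nat_lit 163)) (rf (nat_lit 0)))) q88116 (by decide +kernel)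
def q88117 : Q := Q.p (nat_lit 0x600003000004000010000000000000000000000000000000000000000000000000000) (nat_lit 0x40000100000000000800008000020000040000100000000000000000000000000000000000000000) (nat_lit 4)
theorem c88117 : QOK q88117 := cut [q87208] ⟨c87208, trivial⟩ (nd (nat_lit 186) (nat_lit 0) (cs (lf (nat_lit 40) (nat_lit 185)) (rf (nat_lit 0)))) q88117 (by decide +kernel)
def q88133 : Q := Q.p (nat_lit 0x40000300000c000010000000000000000000000000000000000000000000000000000) (nat_lit 0x800003800000000038001ee0007b8000200000800000000000000000000000000000000000) (nat_lit 11)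
theorem c88133 : QOK q88133 := cut [q10803, q88132] ⟨c10803, c88132, trivial⟩ (nd (nat_lit 209) (nat_lit 0) (cs (rf (nat_lit 0)) (rf (nat_lit 1)))) q88133 (by decide +kernel)
def q88136 : Q := Q.p (nat_lit 0x300000d000000000000000000000000000000000000000000000000000000000) (nat_lit 0x400000000002800060000080000200000000000000000000000000000000000000000) (nat_lit 4)
theorem c88136 : QOK q88136 := cut [q82179] ⟨c82179, trivial⟩ (nd (nat_lit 229) (nat_lit 0) (cs (lf (nat_lit 0) (nat_lit 227)) (rf (nat_lit 0)))) q88136 (by decide +kernel)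
def q88150 : Q := Q.p (nat_lit 0x300000d000020000000000000000000000000000000000000000000000000000) (nat_lit 0x20001d00001f0000700000000000000000000000000000000000000000) (nat_lit 7)
theorem c88150 : QOK q88150 := cut [q86995] ⟨c86995, trivial⟩ (nd (nat_lit 210) (nat_lit 0) (cs (lf (nat_lit 13) (nat_lit 206)) (nd (nat_lit 211) (nat_lit 0) (cs (lf (nat_lit 6) (nat_lit 208)) (nd (nat_lit 187) (nat_lit 0) (cs (lf (nat_lit 36) (nat_lit 164)) (nd (nat_lit 166) (nat_lit 0) (cs (lf (nat_lit 34) (nat_lit 165)) (rf (nat_lit 0)))))))))) q88150 (by decide +kernel)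
def q88168 : Q := Q.p (nat_lit 0x3800006000018000000000000000000000000000000000000000000000000000) (nat_lit 0x1c0000780000000000000000000000000000000000000000000000000000000000000000000) (nat_lit 4)
theorem c88168 : QOK q88168 := cut [q82207] ⟨c82207, trivial⟩ (nd (nat_lit 273) (nat_lit 0) (cs (lf (nat_lit 30) (nat_lit 207)) (rf (nat_lit 0)))) q88168 (by decide +kernel)
def q88234 : Q := Q.p (nat_lit 0x1000004000038000000000000000000000000000000000000000000000000000) (nat_lit 0x40000000000000004400003c000080000200000000000000000000000000000000000) (nat_lit 5)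
theorem c88234 : QOK q88234 := cut [q1412] ⟨c1412, trivial⟩ (nd (nat_lit 185) (nat_lit 0) (cs (lf (nat_lit 42) (nat_lit 185)) (nd (nat_lit 141) (nat_lit 0) (cs (rf (nat_lit 0)) (lf (nat_lit 25) (nat_lit 141)))))) q88234 (by decide +kernel)
def q88241 : Q := Q.p (nat_lit 0x40000f000004000000000000000000000000000000000000000000000000000000000) (nat_lit 0x200000800010000060000010000040000000000000000000000000000000000000000000000) (nat_lit 4)
theorem c88241 : QOK q88241 := cut [q79070] ⟨c79070, trivial⟩ (nd (nat_lit 233) (nat_lit 0) (cs (lf (nat_lit 17) (nat_lit 230)) (rf (nat_lit 0)))) q88241 (by decide +kernel)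
def q88353 : Q := Q.p (nat_lit 0x100000400001000004000000000000000000000000000000000000000000000000000) (nat_lit 0x80000e0000380000e0000080000200002000008000020000000000000000000000000000000000000000000000) (nat_lit 8)
theorem c88353 : QOK q88353 := cut [q27639] ⟨c27639, trivial⟩ (nd (nat_lit 207) (nat_lit 0) (cs (lf (nat_lit 35) (nat_lit 184)) (nd (nat_lit 271) (nat_lit 0) (cs (lf (nat_lit 41) (nat_lit 205)) (rf (nat_lit 0)))))) q88353 (by decide +kernel)
def q88377 : Q := Q.p (nat_lit 0x40000500001400001000000000000000000000000000000000000000000000000000000000) (nat_lit 0x80000e00003800008000008000020000680001c000020000000000000000000000000000000000000000000000) (nat_lit 9)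
theorem c88377 : QOK q88377 := cut [q14127] ⟨c14127, trivial⟩ (nd (nat_lit 207) (nat_lit 0) (cs (lf (nat_lit 34) (nat_lit 206)) (nd (nat_lit 317) (nat_lit 0) (cs (lf (nat_lit 28) (nat_lit 228)) (nd (nat_lit 185) (nat_lit 0) (cs (lf (nat_lit 33) (nat_lit 184)) (nd (nat_lit 316) (nat_lit 0) (cs (lf (nat_lit 29) (nat_lit 250)) (nd (nat_lit 249) (nat_lit 0) (cs (lf (nat_lit 47) (nat_lit 227)) (nd (nat_lit 208) (nat_lit 0) (cs (lf (nat_lit 44) (nat_lit 185)) (rf (nat_lit 0)))))))))))))) q88377 (by decide +kernel)
def q88381 : Q := Q.p (nat_lit 0x40000100000400001000000000000000000000000000000000000000000000000000000000) (nat_lit 0x40000300000a00000e000020000280000c000030000000000000000000000000000000000000000000000) (nat_lit 8)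
theorem c88381 : QOK q88381 := cut [q45194] ⟨c45194, trivial⟩ (nd (nat_lit 207) (nat_lit 0) (cs (lf (nat_lit 34) (nat_lit 206)) (nd (nat_lit 206) (nat_lit 0) (cs (lf (nat_lit 35) (nat_lit 184)) (nd (nat_lit 271) (nat_lit 0) (cs (lf (nat_lit 41) (nat_lit 205)) (nd (nat_lit 295) (nat_lit 0) (cs (lf (nat_lit 29) (nat_lit 228)) (rf (nat_lit 0)))))))))) q88381 (by decide +kernel)
def q88384 : Q := Q.p (nat_lit 0x100000400001000004000000000000000000000000000000000000000000000000000) (nat_lit 0x800002000008000080000380000e0000080000000000000000000000000000000000) (nat_lit 6)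
theorem c88384 : QOK q88384 := cut [q17131] ⟨c17131, trivial⟩ (nd (nat_lit 185) (nat_lit 0) (cs (lf (nat_lit 34) (nat_lit 184)) (nd (nat_lit 184) (nat_lit 0) (cs (lf (nat_lit 35) (nat_lit 162)) (rf (nat_lit 0)))))) q88384 (by decide +kernel)
def q88413 : Q := Q.p (nat_lit 0x100003c00000000008000000000000000000000000000000000000000000000000000) (nat_lit 0x80000200000000001800004000030000000000000000000000000000000000000000000000) (nat_lit 4)
theorem c88413 : QOK q88413 := cut [q88412] ⟨c88412, trivial⟩ (nd (nat_lit 228) (nat_lit 0) (cs (lf (nat_lit 23) (nat_lit 227)) (rf (nat_lit 0)))) q88413 (by decide +kernel)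
def q88427 : Q := Q.p (nat_lit 0xf00003000000000000000000000000000000000000000000000000000000000000000) (nat_lit 0x80000660000000000000004000010000000000000000000000000000000000000000000000000000) (nat_lit 4)
theorem c88427 : QOK q88427 := cut [q88426] ⟨c88426, trivial⟩ (nd (nat_lit 293) (nat_lit 0) (cs (lf (nat_lit 10) (nat_lit 271)) (rf (nat_lit 0)))) q88427 (by decide +kernel)
def q88468 : Q := Q.p (nat_lit 0x100003400001000000000000000000000000000000000000000000000000000000000) (nat_lit 0x40000000000a00000800002000008000020000000000000000000000000000000000000000) (nat_lit 4)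
theorem c88468 : QOK q88468 := cut [q41224] ⟨c41224, trivial⟩ (nd (nat_lit 227) (nat_lit 0) (cs (lf (nat_lit 20) (nat_lit 227)) (rf (nat_lit 0)))) q88468 (by decide +kernel)
def q88480 : Q := Q.p (nat_lit 0x10000140000100000400000000000000000000000000000000000000000000000000000000000000) (nat_lit 0xa00002c000280000000000200000800000000000000000000000000000000000000000000000000000000) (nat_lit 5)
theorem c88480 : QOK q88480 := cut [q88479] ⟨c88479, trivial⟩ (nd (nat_lit 227) (nat_lit 0) (cs (lf (nat_lit 46) (nat_lit 227)) (rf (nat_lit 0)))) q88480 (by decide +kernel)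
def q88482 : Q := Q.p (nat_lit 0x140000100003400000000000000000000000000000000000000000000000000000000000000) (nat_lit 0x2a00000e0000800000000000000000000000000000000000000000000000000000000000000) (nat_lit 4)
theorem c88482 : QOK q88482 := cut [q46596] ⟨c46596, trivial⟩ (nd (nat_lit 271) (nat_lit 0) (cs (lf (nat_lit 8) (nat_lit 249)) (rf (nat_lit 0)))) q88482 (by decide +kernel)
def q88743 : Q := Q.p (nat_lit 0x800003000008000020000000000000000000000000000000000000000000000000000) (nat_lit 0x400007000004c00000000000000000000000000000000000000000000000000000000000000) (nat_lit 4)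
theorem c88743 : QOK q88743 := cut [q88742] ⟨c88742, trivial⟩ (nd (nat_lit 276) (nat_lit 0) (cs (lf (nat_lit 29) (nat_lit 209)) (rf (nat_lit 0)))) q88743 (by decide +kernel)
def q88746 : Q := Q.p (nat_lit 0xc00003000008000020000000000000000000000000000000000000000000000000000) (nat_lit 0x280000380004000004000010000040000000000000000000000000000000000000000000000) (nat_lit 5)
theorem c88746 : QOK q88746 := cut [q88744] ⟨c88744, trivial⟩ (nd (nat_lit 208) (nat_lit 0) (cs (lf (nat_lit 47) (nat_lit 186)) (nd (nat_lit 230) (nat_lit 0) (cs (lf (nat_lit 29) (nat_lit 208)) (rf (nat_lit 0)))))) q88746 (by decide +kernel)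
def q88750 : Q := Q.p (nat_lit 0x2000008000020000080000000000000000000000000000000000000000000000) (nat_lit 0x1000004000010000000000100000600001000000000000000000000000000000000000) (nat_lit 4)
theorem c88750 : QOK q88750 := cut [q80727] ⟨c80727, trivial⟩ (nd (nat_lit 254) (nat_lit 0) (cs (lf (nat_lit 29) (nat_lit 187)) (rf (nat_lit 0)))) q88750 (by decide +kernel)
def q88767 : Q := Q.p (nat_lit 0x800003000008000020000000000000000000000000000000000000000000000000000) (nat_lit 0x1f00007400004000010000050000140000000000000000000000000000000000000000000000) (nat_lit 8)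
theorem c88767 : QOK q88767 := cut [q88764] ⟨c88764, trivial⟩ (nd (nat_lit 276) (nat_lit 0) (cs (lf (nat_lit 29) (nat_lit 209)) (nd (nat_lit 277) (nat_lit 0) (cs (lf (nat_lit 18) (nat_lit 252)) (nd (nat_lit 186) (nat_lit 0) (cs (lf (nat_lit 46) (nat_lit 186)) (rf (nat_lit 0)))))))) q88767 (by decide +kernel)
def q88774 : Q := Q.p (nat_lit 0x2000008000020000080000000000000000000000000000000000000000000000) (nat_lit 0x1000004000010000000000040000300000400000000000000000000000000000000000) (nat_lit 4)
theorem c88774 : QOK q88774 := cut [q88773] ⟨c88773, trivial⟩ (nd (nat_lit 164) (nat_lit 0) (cs (lf (nat_lit 46) (nat_lit 164)) (rf (nat_lit 0)))) q88774 (by decide +kernel)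
def q88781 : Q := Q.p (nat_lit 0x1000006000018000000000000000000000000000000000000000000000000000000000) (nat_lit 0x1800006000008000000000000000c0000300000c00000000000000000000000000000000000000000) (nat_lit 6)
theorem c88781 : QOK q88781 := cut [q88780] ⟨c88780, trivial⟩ (nd (nat_lit 298) (nat_lit 0) (cs (lf (nat_lit 42) (nat_lit 231)) (rf (nat_lit 0)))) q88781 (by decide +kernel)
def q88789 : Q := Q.p (nat_lit 0x20000080000200003800000000000000000000000000000000000000000000000000000000000000) (nat_lit 0xc00001000004000058000000000300000c000030000000000000000000000000000000000000000000000) (nat_lit 7)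
theorem c88789 : QOK q88789 := cut [q22302] ⟨c22302, trivial⟩ (nd (nat_lit 274) (nat_lit 0) (cs (lf (nat_lit 30) (nat_lit 251)) (nd (nat_lit 271) (nat_lit 0) (cs (lf (nat_lit 13) (nat_lit 249)) (nd (nat_lit 316) (nat_lit 0) (cs (lf (nat_lit 41) (nat_lit 250)) (nd (nat_lit 229) (nat_lit 0) (cs (lf (nat_lit 40) (nat_lit 228)) (rf (nat_lit 0)))))))))) q88789 (by decide +kernel)
def q88806 : Q := Q.p (nat_lit 0x3c0000c000000000000000000000000000000000000000000000000000000000) (nat_lit 0x200001980000000000000010000040000000000000000000000000000000000000000000000) (nat_lit 4)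
theorem c88806 : QOK q88806 := cut [q81478] ⟨c81478, trivial⟩ (nd (nat_lit 271) (nat_lit 0) (cs (lf (nat_lit 10) (nat_lit 249)) (rf (nat_lit 0)))) q88806 (by decide +kernel)
def q88812 : Q := Q.p (nat_lit 0x800003000008000020000000000000000000000000000000000000000000000000000) (nat_lit 0x1f00007400004000010000040000100000000000000000000000000000000000000000000000) (nat_lit 7)
theorem c88812 : QOK q88812 := cut [q88810] ⟨c88810, trivial⟩ (nd (nat_lit 274) (nat_lit 0) (cs (lf (nat_lit 41) (nat_lit 208)) (nd (nat_lit 276) (nat_lit 0) (cs (lf (nat_lit 29) (nat_lit 209)) (rf (nat_lit 0)))))) q88812 (by decide +kernel)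
def q88818 : Q := Q.p (nat_lit 0x800003000008000020000000000000000000000000000000000000000000000000000) (nat_lit 0x40000300001c0000600001400004000074000010000040000000000000000000000000000000000000000000000) (nat_lit 9)
theorem c88818 : QOK q88818 := cut [q21908] ⟨c21908, trivial⟩ (nd (nat_lit 298) (nat_lit 0) (cs (lf (nat_lit 28) (nat_lit 209)) (nd (nat_lit 186) (nat_lit 0) (cs (lf (nat_lit 46) (nat_lit 186)) (nd (nat_lit 297) (nat_lit 0) (cs (lf (nat_lit 29) (nat_lit 231)) (nd (nat_lit 319) (nat_lit 0) (cs (lf (nat_lit 47) (nat_lit 230)) (nd (nat_lit 232) (nat_lit 0) (cs (lf (nat_lit 34) (nat_lit 231)) (nd (nat_lit 233) (nat_lit 0) (cs (lf (nat_lit 6) (nat_lit 230)) (rf (nat_lit 0)))))))))))))) q88818 (by decide +kernel)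
def q88821 : Q := Q.p (nat_lit 0x3000000000038000040000000000000000000000000000000000000000000000000000) (nat_lit 0x800000000004000004000380000200000000000000000000000000000000000000000000000) (nat_lit 4)
theorem c88821 : QOK q88821 := cut [q88820] ⟨c88820, trivial⟩ (nd (nat_lit 254) (nat_lit 0) (cs (lf (nat_lit 29) (nat_lit 210)) (rf (nat_lit 0)))) q88821 (by decide +kernel)
def q88828 : Q := Q.p (nat_lit 0x380001e000000000000000000000000000000000000000000000000000000000) (nat_lit 0x4000000000000000cc000120000480000000000000000000000000000000000000000) (nat_lit 5)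
theorem c88828 : QOK q88828 := cut [q81735] ⟨c81735, trivial⟩ (nd (nat_lit 210) (nat_lit 0) (cs (lf (nat_lit 17) (nat_lit 207)) (nd (nat_lit 166) (nat_lit 0) (cs (lf (nat_lit 37) (nat_lit 165)) (rf (nat_lit 0)))))) q88828 (by decide +kernel)
def q88830 : Q := Q.p (nat_lit 0x380000e000000000000000000000000000000000000000000000000000000000) (nat_lit 0x318000e0000000000000000000000000000000000000000000000000000) (nat_lit 4)
theorem c88830 : QOK q88830 := cut [q4233] ⟨c4233, trivial⟩ (nd (nat_lit 232) (nat_lit 0) (cs (lf (nat_lit 6) (nat_lit 229)) (rf (nat_lit 0)))) q88830 (by decide +kernel)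
def q88833 : Q := Q.p (nat_lit 0x7800008000000000000000000000000000000000000000000000000000000000) (nat_lit 0x400003000000000030000020000080000000000000000000000000000000000000000000000) (nat_lit 4)
theorem c88833 : QOK q88833 := cut [q79182] ⟨c79182, trivial⟩ (nd (nat_lit 232) (nat_lit 0) (cs (lf (nat_lit 17) (nat_lit 229)) (rf (nat_lit 0)))) q88833 (by decide +kernel)
def q88840 : Q := Q.p (nat_lit 0x3800008000000000000000000000000000000000000000000000000000000000) (nat_lit 0x3c0004600007c00000000000000000000000000000000000000000000000000000000) (nat_lit 5)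
theorem c88840 : QOK q88840 := cut [q88801, q88836, q88839] ⟨c88801, c88836, c88839, trivial⟩ (nd (nat_lit 250) (nat_lit 0) (cs (rf (nat_lit 0)) (cs (rf (nat_lit 1)) (rf (nat_lit 2))))) q88840 (by decide +kernel)
def q88846 : Q := Q.p (nat_lit 0x380001e000000000000000000000000000000000000000000000000000000000) (nat_lit 0x2000008000000000000000dc000160000580000000000000000000000000000000000000000) (nat_lit 7)
theorem c88846 : QOK q88846 := cut [q88842] ⟨c88842, trivial⟩ (nd (nat_lit 210) (nat_lit 0) (cs (lf (nat_lit 17) (nat_lit 207)) (nd (nat_lit 166) (nat_lit 0) (cs (lf (nat_lit 37) (nat_lit 165)) (nd (nat_lit 275) (nat_lit 0) (cs (lf (nat_lit 30) (nat_lit 209)) (nd (nat_lit 186) (nat_lit 0) (cs (lf (nat_lit 25) (nat_lit 186)) (rf (nat_lit 0)))))))))) q88846 (by decide +kernel)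
def q88858 : Q := Q.p (nat_lit 0x3800006000008000000000000000000000000000000000000000000000000000) (nat_lit 0x400003000040000000000100000700001c0000000000000000000000000000000000000000) (nat_lit 6)
theorem c88858 : QOK q88858 := cut [q88856] ⟨c88856, trivial⟩ (nd (nat_lit 185) (nat_lit 0) (cs (lf (nat_lit 24) (nat_lit 163)) (nd (nat_lit 162) (nat_lit 0) (cs (lf (nat_lit 46) (nat_lit 162)) (rf (nat_lit 0)))))) q88858 (by decide +kernel)
def q88864 : Q := Q.p (nat_lit 0x200001e000000000000000000000000000000000000000000000000000000000) (nat_lit 0x2000008000040000000000c0000100000400000000000000000000000000000000000000000) (nat_lit 4)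
theorem c88864 : QOK q88864 := cut [q88863] ⟨c88863, trivial⟩ (nd (nat_lit 210) (nat_lit 0) (cs (lf (nat_lit 17) (nat_lit 207)) (rf (nat_lit 0)))) q88864 (by decide +kernel)
def q88869 : Q := Q.p (nat_lit 0x380000e000000000000000000000000000000000000000000000000000000000) (nat_lit 0x8000020000000000180006e000090000240000000000000000000000000000000000000000) (nat_lit 7)
theorem c88869 : QOK q88869 := cut [q87927] ⟨c87927, trivial⟩ (nd (nat_lit 228) (nat_lit 0) (cs (lf (nat_lit 0) (nat_lit 227)) (nd (nat_lit 209) (nat_lit 0) (cs (lf (nat_lit 17) (nat_lit 206)) (nd (nat_lit 165) (nat_lit 0) (cs (lf (nat_lit 37) (nat_lit 164)) (rf (nat_lit 0)))))))) q88869 (by decide +kernel)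
def q88879 : Q := Q.p (nat_lit 0x40000380001a000000000000000000000000000000000000000000000000000000000) (nat_lit 0x4000030000400000400000c000030000000000000000000000000000000000000000000000) (nat_lit 5)
theorem c88879 : QOK q88879 := cut [q88878] ⟨c88878, trivial⟩ (nd (nat_lit 207) (nat_lit 0) (cs (lf (nat_lit 24) (nat_lit 185)) (rf (nat_lit 0)))) q88879 (by decide +kernel)
def q88893 : Q := Q.p (nat_lit 0x3800008000020000000000000000000000000000000000000000000000000000) (nat_lit 0x40000300000c0000400007600005c000160000100000400000000000000000000000000000000000) (nat_lit 7)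
theorem c88893 : QOK q88893 := cut [q17544, q82279, q82277, q1563, q88888, q82302] ⟨c17544, c82279, c82277, c1563, c88888, c82302, trivial⟩ (nd (nat_lit 274) (nat_lit 0) (cs (rf (nat_lit 0)) (cs (rf (nat_lit 1)) (nd (nat_lit 232) (nat_lit 0) (cs (rf (nat_lit 2)) (nd (nat_lit 208) (nat_lit 0) (cs (rf (nat_lit 3)) (cs (rf (nat_lit 4)) (nd (nat_lit 206) (nat_lit 0) (cs (lf (nat_lit 1) (nat_lit 206)) (nd (nat_lit 275) (nat_lit 0) (cs (lf (nat_lit 47) (nat_lit 186)) (rf (nat_lit 5)))))))))))))) q88893 (by decide +kernel)
def q88909 : Q := Q.p (nat_lit 0x400003800008000000000000000000000000000000000000000000000000000000000) (nat_lit 0x40000100000200004000007c00008000020000000000000000000000000000000000000000000000) (nat_lit 4)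
theorem c88909 : QOK q88909 := cut [q82198, q88881] ⟨c82198, c88881, trivial⟩ (nd (nat_lit 229) (nat_lit 0) (cs (rf (nat_lit 0)) (rf (nat_lit 1)))) q88909 (by decide +kernel)
def q88914 : Q := Q.p (nat_lit 0x800003000008000020000000000000000000000000000000000000000000000000000) (nat_lit 0x100001c0000700001000000000004000000000000000000000000000000000000000000000000000000000) (nat_lit 5)
theorem c88914 : QOK q88914 := cut [q88912] ⟨c88912, trivial⟩ (nd (nat_lit 298) (nat_lit 0) (cs (lf (nat_lit 28) (nat_lit 209)) (nd (nat_lit 297) (nat_lit 0) (cs (lf (nat_lit 29) (nat_lit 231)) (rf (nat_lit 0)))))) q88914 (by decide +kernel)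
def q88916 : Q := Q.p (nat_lit 0x800003000008000020000000000000000000000000000000000000000000000000000) (nat_lit 0x400007400000c00000000000000000000000000000000000000000000000000000000000000) (nat_lit 4)
theorem c88916 : QOK q88916 := cut [q88915] ⟨c88915, trivial⟩ (nd (nat_lit 276) (nat_lit 0) (cs (lf (nat_lit 29) (nat_lit 209)) (rf (nat_lit 0)))) q88916 (by decide +kernel)
def q88923 : Q := Q.p (nat_lit 0x200000800003000008000000000000000000000000000000000000000000000000000000000) (nat_lit 0x80000000000000000800074000040000000000000000000000000000000000000000000000000000) (nat_lit 4)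
theorem c88923 : QOK q88923 := cut [q87998] ⟨c87998, trivial⟩ (nd (nat_lit 230) (nat_lit 0) (cs (lf (nat_lit 42) (nat_lit 230)) (rf (nat_lit 0)))) q88923 (by decide +kernel)
def q88939 : Q := Q.p (nat_lit 0x380000800002000008000000000000000000000000000000000000000000000000000000000) (nat_lit 0x138000440000380000000000000000000000000000000000000000000000000000000000000000000) (nat_lit 5)
theorem c88939 : QOK q88939 := cut [q28278] ⟨c28278, trivial⟩ (nd (nat_lit 298) (nat_lit 0) (cs (lf (nat_lit 29) (nat_lit 231)) (rf (nat_lit 0)))) q88939 (by decide +kernel)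
def q88940 : Q := Q.p (nat_lit 0x200000800002000008000000000000000000000000000000000000000000000000000000000) (nat_lit 0x40000100000400000000004000030000040000000000000000000000000000000000000000000000) (nat_lit 4)
theorem c88940 : QOK q88940 := cut [q52637] ⟨c52637, trivial⟩ (nd (nat_lit 208) (nat_lit 0) (cs (lf (nat_lit 46) (nat_lit 208)) (rf (nat_lit 0)))) q88940 (by decide +kernel)
def q88945 : Q := Q.p (nat_lit 0x180000200000800001000000000000000000000000000000000000000000000000000000000000000) (nat_lit 0x300000c000030000000000400001400000000000000000000000000000000000000000000000000000000000000000000) (nat_lit 5)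
theorem c88945 : QOK q88945 := cut [q21912] ⟨c21912, trivial⟩ (nd (nat_lit 341) (nat_lit 0) (cs (lf (nat_lit 46) (nat_lit 252)) (rf (nat_lit 0)))) q88945 (by decide +kernel)
def q88950 : Q := Q.p (nat_lit 0x200000800003000000000000000000000000000000000000000000000000000000000000000) (nat_lit 0x40000300000c0000100000400004000018000060000080000000000000000000000000000000000000000000000) (nat_lit 6)
theorem c88950 : QOK q88950 := cut [q21908, q88944, q88949] ⟨c21908, c88944, c88949, trivial⟩ (nd (nat_lit 319) (nat_lit 0) (cs (rf (nat_lit 0)) (cs (rf (nat_lit 1)) (rf (nat_lit 2))))) q88950 (by decide +kernel)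
def q88953 : Q := Q.p (nat_lit 0x300000400001000000000000000000000000000000000000000000000000000000000000000) (nat_lit 0x8000000000000000000000e0000380000a0000000000000000000000000000000000000000000000) (nat_lit 5)
theorem c88953 : QOK q88953 := cut [q88952] ⟨c88952, trivial⟩ (nd (nat_lit 230) (nat_lit 0) (cs (lf (nat_lit 29) (nat_lit 230)) (rf (nat_lit 0)))) q88953 (by decide +kernel)
def q88954 : Q := Q.p (nat_lit 0x40000300000400001000000000000000000000000000000000000000000000000000000000000000) (nat_lit 0x280000b0000c00000000000000000000000000000000000000000000000000000000000000000000000000) (nat_lit 4)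
theorem c88954 : QOK q88954 := cut [q55442] ⟨c55442, trivial⟩ (nd (nat_lit 319) (nat_lit 0) (cs (lf (nat_lit 29) (nat_lit 252)) (rf (nat_lit 0)))) q88954 (by decide +kernel)
def q88956 : Q := Q.p (nat_lit 0x300000400001000000000000000000000000000000000000000000000000000000000000000) (nat_lit 0xa0000080000200000000006000018000020000000000000000000000000000000000000000000000) (nat_lit 5)
theorem c88956 : QOK q88956 := cut [q81007] ⟨c81007, trivial⟩ (nd (nat_lit 230) (nat_lit 0) (cs (lf (nat_lit 29) (nat_lit 230)) (rf (nat_lit 0)))) q88956 (by decide +kernel)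
def q88983 : Q := Q.p (nat_lit 0x780000000000000000000000000000000000000000000000000000000000000000000000000) (nat_lit 0x70000800007300000000000000000000000000000000000000000000000000000000000000000000) (nat_lit 5)
theorem c88983 : QOK q88983 := cut [q88981] ⟨c88981, trivial⟩ (nd (nat_lit 277) (nat_lit 0) (cs (lf (nat_lit 16) (nat_lit 273)) (nd (nat_lit 272) (nat_lit 0) (cs (lf (nat_lit 22) (nat_lit 272)) (rf (nat_lit 0)))))) q88983 (by decide +kernel)
def q88998 : Q := Q.p (nat_lit 0x780000000000000000000000000000000000000000000000000000000000000000000000000) (nat_lit 0xee0001800007000000000000000000000000000000000000000000000000000000000000000000000) (nat_lit 6)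
theorem c88998 : QOK q88998 := cut [q42005] ⟨c42005, trivial⟩ (nd (nat_lit 277) (nat_lit 0) (cs (lf (nat_lit 16) (nat_lit 273)) (nd (nat_lit 299) (nat_lit 0) (cs (lf (nat_lit 17) (nat_lit 274)) (nd (nat_lit 318) (nat_lit 0) (cs (lf (nat_lit 11) (nat_lit 295)) (rf (nat_lit 0)))))))) q88998 (by decide +kernel)
def q89025 : Q := Q.p (nat_lit 0x380000000000000000000000000000000000000000000000000000000000000000000000000) (nat_lit 0x738000c40007380000000000000000000000000000000000000000000000000000000000000000000) (nat_lit 5)
theorem c89025 : QOK q89025 := cut [q28278, q44960] ⟨c28278, c44960, trivial⟩ (nd (nat_lit 298) (nat_lit 0) (cs (rf (nat_lit 0)) (rf (nat_lit 1)))) q89025 (by decide +kernel)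
def q89027 : Q := Q.p (nat_lit 0x380000000000000000000000000000000000000000000000000000000000000000000000000) (nat_lit 0x7f8000c40007000000000000000000000000000000000000000000000000000000000000000000000) (nat_lit 5)
theorem c89027 : QOK q89027 := cut [q44960, q88960, q88981] ⟨c44960, c88960, c88981, trivial⟩ (nd (nat_lit 298) (nat_lit 0) (cs (rf (nat_lit 0)) (cs (rf (nat_lit 1)) (nd (nat_lit 277) (nat_lit 0) (cs (lf (nat_lit 16) (nat_lit 273)) (rf (nat_lit 2))))))) q89027 (by decide +kernel)
def q89033 : Q := Q.p (nat_lit 0x700000400000000000000000000000000000000000000000000000000000000000000000000) (nat_lit 0xe0000180000e200000000000000000000000000000000000000000000000000000000000000000000) (nat_lit 5)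
theorem c89033 : QOK q89033 := cut [q89032] ⟨c89032, trivial⟩ (nd (nat_lit 299) (nat_lit 0) (cs (lf (nat_lit 23) (nat_lit 273)) (rf (nat_lit 0)))) q89033 (by decide +kernel)
def q89034 : Q := Q.p (nat_lit 0x700000000002000000000000000000000000000000000000000000000000000000000000000) (nat_lit 0x200003b80000c0003380004000018000000000000000000000000000000000000000000000000000000000) (nat_lit 6)
theorem c89034 : QOK q89034 := cut [q28278, q88980] ⟨c28278, c88980, trivial⟩ (nd (nat_lit 295) (nat_lit 0) (cs (rf (nat_lit 0)) (rf (nat_lit 1)))) q89034 (by decide +kernel)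
def q89096 : Q := Q.p (nat_lit 0x100000400003000004000000000000000000000000000000000000000000000000000000000) (nat_lit 0x400000b800028000000000000000000000000000000000000000000000000000) (nat_lit 4)
theorem c89096 : QOK q89096 := cut [q87351] ⟨c87351, trivial⟩ (nd (nat_lit 231) (nat_lit 0) (cs (lf (nat_lit 35) (nat_lit 208)) (rf (nat_lit 0)))) q89096 (by decide +kernel)
def q89112 : Q := Q.p (nat_lit 0x300000400001000000000000000000000000000000000000000000000000000000000000000) (nat_lit 0x200000800077c000cf00073e0000000004000000000000000000000000000000000000000000000000000000000) (nat_lit 8)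
theorem c89112 : QOK q89112 := cut [q84171, q41955, q83848, q89106, q89110] ⟨c84171, c41955, c83848, c89106, c89110, trivial⟩ (nd (nat_lit 295) (nat_lit 0) (cs (rf (nat_lit 0)) (nd (nat_lit 294) (nat_lit 0) (cs (rf (nat_lit 1)) (cs (nd (nat_lit 315) (nat_lit 0) (cs (lf (nat_lit 10) (nat_lit 293)) (nd (nat_lit 293) (nat_lit 0) (cs (lf (nat_lit 11) (nat_lit 292)) (nd (nat_lit 273) (nat_lit 0) (cs (lf (nat_lit 12) (nat_lit 270)) (rf (nat_lit 2)))))))) (cs (rf (nat_lit 3)) (rf (nat_lit 4)))))))) q89112 (by decide +kernel)
def q89205 : Q := Q.p (nat_lit 0xc0000300000000002000000000000000000000000000000000000000000000000000000000000000) (nat_lit 0xf00003f0001f8000700001ce0007380004000018000000000000000000000000000000000000000000000000000000000) (nat_lit 12)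
theorem c89205 : QOK q89205 := cut [q89148, q89150, q89151, q89158, q29843, q89197, q79577] ⟨c89148, c89150, c89151, c89158, c29843, c89197, c79577, trivial⟩ (nd (nat_lit 298) (nat_lit 0) (cs (nd (nat_lit 299) (nat_lit 0) (cs (lf (nat_lit 6) (nat_lit 296)) (rf (nat_lit 0)))) (cs (nd (nat_lit 320) (nat_lit 0) (cs (rf (nat_lit 1)) (cs (nd (nat_lit 295) (nat_lit 0) (cs (lf (nat_lit 0) (nat_lit 294)) (nd (nat_lit 276) (nat_lit 0) (cs (lf (nat_lit 17) (nat_lit 273)) (rf (nat_lit 2)))))) (rf (nat_lit 3))))) (cs (nd (nat_lit 320) (nat_lit 0) (cs (rf (nat_lit 3)) (cs (nd (nat_lit 341) (nat_lit 0) (cs (nd (nat_lit 276) (nat_lit 0) (cs (lf (nat_lit 30) (nat_lit 275)) (lf (nat_lit 36) (nat_lit 253)))) (cs (nd (nat_lit 276) (nat_lit 0) (cs (lf (nat_lit 36) (nat_lit 253)) (nd (nat_lit 299) (nat_lit 0) (cs (lf (nat_lit 6) (nat_lit 296)) (nd (nat_lit 277) (nat_lit 0) (cs (lf (nat_lit 17) (nat_lit 274)) (nd (nat_lit 342) (nat_lit 0) (cs (lf (nat_lit 30) (nat_lit 276)) (nd (nat_lit 343) (nat_lit 0) (cs (lf (nat_lit 18) (nat_lit 318)) (lf (nat_lit 29) (nat_lit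 276)))))))))))) (nd (nat_lit 299) (nat_lit 0) (cs (lf (nat_lit 6) (nat_lit 296)) (nd (nat_lit 277) (nat_lit 0) (cs (lf (nat_lit 17) (nat_lit 274)) (nd (nat_lit 342) (nat_lit 0) (cs (lf (nat_lit 30) (nat_lit 276)) (nd (nat_lit 343) (nat_lit 0) (cs (lf (nat_lit 18) (nat_lit 318)) (nd (nat_lit 363) (nat_lit 0) (cs (lf (nat_lit 30) (nat_lit 297)) (nd (nat_lit 362) (nat_lit 0) (cs (lf (nat_lit 41) (nat_lit 296)) (rf (nat_lit 4))))))))))))))))) (cs (nd (nat_lit 299) (nat_lit 0) (cs (lf (nat_lit 6) (nat_lit 296)) (nd (nat_lit 277) (nat_lit 0) (cs (lf (nat_lit 17) (nat_lit 274)) (nd (nat_lit 321) (nat_lit 0) (cs (lf (nat_lit 18) (nat_lit 296)) (nd (nat_lit 343) (nat_lit 0) (cs (lf (nat_lit 5) (nat_lit 318)) (nd (nat_lit 276) (nat_lit 0) (cs (lf (nat_lit 42) (nat_lit 276)) (lf (nat_lit 47) (nat_lit 254)))))))))))) (cs (nd (nat_lit 299) (nat_lit 0) (cs (lf (nat_lit 6) (nat_lit 296)) (nd (nat_lit 277) (nat_lit 0) (cs (lf (nat_lit 17) (nat_lit 274)) (nd (nat_lit 342) (nat_lit 0) (cs (lf (nat_lit 30) (nat_lit 276)) (nd (nat_lit 321) (nat_lit 0) (cs (lf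 (nat_lit 18) (nat_lit 296)) (nd (nat_lit 340) (nat_lit 0) (cs (lf (nat_lit 11) (nat_lit 317)) (nd (nat_lit 362) (nat_lit 0) (cs (lf (nat_lit 30) (nat_lit 296)) (nd (nat_lit 363) (nat_lit 0) (cs (lf (nat_lit 29) (nat_lit 296)) (nd (nat_lit 276) (nat_lit 0) (cs (lf (nat_lit 40) (nat_lit 275)) (nd (nat_lit 254) (nat_lit 0) (cs (lf (nat_lit 47) (nat_lit 231)) (lf (nat_lit 24) (nat_lit 232)))))))))))))))))))) (nd (nat_lit 321) (nat_lit 0) (cs (lf (nat_lit 18) (nat_lit 296)) (nd (nat_lit 339) (nat_lit 0) (cs (lf (nat_lit 10) (nat_lit 317)) (nd (nat_lit 299) (nat_lit 0) (cs (lf (nat_lit 6) (nat_lit 296)) (nd (nat_lit 277) (nat_lit 0) (cs (lf (nat_lit 17) (nat_lit 274)) (nd (nat_lit 343) (nat_lit 0) (cs (lf (nat_lit 5) (nat_lit 318)) (nd (nat_lit 364) (nat_lit 0) (cs (lf (nat_lit 40) (nat_lit 276)) (nd (nat_lit 365) (nat_lit 0) (cs (lf (nat_lit 41) (nat_lit 298)) (lf (nat_lit 42) (nat_lit 298))))))))))))))))))))) (cs (nd (nat_lit 299) (nat_lit 0) (cs (lf (nat_lit 6) (nat_lit 296)) (nd (nat_lit 321) (nat_lit 0) (cs (lf (nat_lit 5) (nat_lit 296))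 (nd (nat_lit 295) (nat_lit 0) (cs (lf (nat_lit 4) (nat_lit 295)) (rf (nat_lit 5)))))))) (nd (nat_lit 299) (nat_lit 0) (cs (lf (nat_lit 6) (nat_lit 296)) (nd (nat_lit 277) (nat_lit 0) (cs (lf (nat_lit 17) (nat_lit 274)) (nd (nat_lit 276) (nat_lit 0) (cs (lf (nat_lit 12) (nat_lit 273)) (nd (nat_lit 254) (nat_lit 0) (cs (rf (nat_lit 6)) (lf (nat_lit 36) (nat_lit 231))))))))))))))) q89205 (by decide +kernel)
def q89225 : Q := Q.p (nat_lit 0x40000300000400001000000000000000000000000000000000000000000000000000000000000000) (nat_lit 0x1ee0007b80000e0000000000000000000000000000000000000000000000000000000000000000000000000) (nat_lit 9)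
theorem c89225 : QOK q89225 := cut [q89224] ⟨c89224, trivial⟩ (nd (nat_lit 319) (nat_lit 0) (cs (lf (nat_lit 29) (nat_lit 252)) (rf (nat_lit 0)))) q89225 (by decide +kernel)
def q89267 : Q := Q.p (nat_lit 0x40000300000000001000000000000000000000000000000000000000000000000000000000000000) (nat_lit 0xf80003e0001fe0007b8001ce0003780004000010000000000000000000000000000000000000000000000000000000000) (nat_lit 14)
theorem c89267 : QOK q89267 := cut [q89215, q23048, q89223, q89150, q89224, q89143, q89197, q55442] ⟨c89215, c23048, c89223, c89150, c89224, c89143, c89197, c55442, trivial⟩ (nd (nat_lit 319) (nat_lit 0) (cs (rf (nat_lit 0)) (cs (nd (nat_lit 317) (nat_lit 0) (cs (rf (nat_lit 1)) (cs (rf (nat_lit 2)) (nd (nat_lit 298) (nat_lit 0) (cs (lf (nat_lit 6) (nat_lit 295)) (nd (nat_lit 339) (nat_lit 0) (cs (lf (nat_lit 37) (nat_lit 251)) (nd (nat_lit 361) (nat_lit 0) (cs (lf (nat_lit 30) (nat_lit 295)) (nd (nat_lit 320) (nat_lit 0) (cs (lf (nat_lit 11) (nat_lit 316)) (rf (nat_lit 3))))))))))))) (cs (nd (nat_lit 274) (nat_lit 0) (cs (lf (nat_lit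 29) (nat_lit 252)) (rf (nat_lit 4)))) (cs (nd (nat_lit 317) (nat_lit 0) (cs (rf (nat_lit 1)) (cs (rf (nat_lit 2)) (nd (nat_lit 295) (nat_lit 0) (cs (rf (nat_lit 5)) (cs (nd (nat_lit 298) (nat_lit 0) (cs (lf (nat_lit 6) (nat_lit 295)) (nd (nat_lit 276) (nat_lit 0) (cs (lf (nat_lit 17) (nat_lit 273)) (nd (nat_lit 232) (nat_lit 0) (cs (lf (nat_lit 37) (nat_lit 231)) (nd (nat_lit 341) (nat_lit 0) (cs (lf (nat_lit 30) (nat_lit 275)) (rf (nat_lit 6)))))))))) (nd (nat_lit 298) (nat_lit 0) (cs (lf (nat_lit 6) (nat_lit 295)) (nd (nat_lit 276) (nat_lit 0) (cs (lf (nat_lit 17) (nat_lit 273)) (nd (nat_lit 232) (nat_lit 0) (cs (lf (nat_lit 37) (nat_lit 231)) (nd (nat_lit 341) (nat_lit 0) (cs (lf (nat_lit 30) (nat_lit 275)) (nd (nat_lit 272) (nat_lit 0) (cs (lf (nat_lit 22) (nat_lit 272)) (nd (nat_lit 320) (nat_lit 0) (cs (lf (nat_lit 18) (nat_lit 295)) (nd (nat_lit 342) (nat_lit 0) (cs (lf (nat_lit 5) (nat_lit 317)) (nd (nat_lit 364) (nat_lit 0) (cs (lf (nat_lit 42) (nat_lit 297)) (nd (nat_lit 339) (nat_lit 0) (cs (lf (nat_lit 11) (nat_lit 316)) (nd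 (nat_lit 365) (nat_lit 0) (cs (lf (nat_lit 29) (nat_lit 298)) (lf (nat_lit 1) (nat_lit 339)))))))))))))))))))))))))))) (nd (nat_lit 274) (nat_lit 0) (cs (lf (nat_lit 29) (nat_lit 252)) (rf (nat_lit 7))))))))) q89267 (by decide +kernel)
def q89322 : Q := Q.p (nat_lit 0x200000700000800000000000000000000000000000000000000000000000000000000000000000000) (nat_lit 0x40000180000e400000000000000000000000000000000000000000000000000000000000000000000) (nat_lit 4)
theorem c89322 : QOK q89322 := cut [q89321] ⟨c89321, trivial⟩ (nd (nat_lit 299) (nat_lit 0) (cs (lf (nat_lit 5) (nat_lit 296)) (rf (nat_lit 0)))) q89322 (by decide +kernel)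
def q89350 : Q := Q.p (nat_lit 0x380000000003000000000000000000000000000000000000000000000000000000000000000) (nat_lit 0xa0000380000e0000730000c00007f00000000004000010000000000000000000000000000000000000000000000000000) (nat_lit 10)
theorem c89350 : QOK q89350 := cut [q44960, q89330, q89348] ⟨c44960, c89330, c89348, trivial⟩ (nd (nat_lit 298) (nat_lit 0) (cs (rf (nat_lit 0)) (cs (rf (nat_lit 1)) (nd (nat_lit 272) (nat_lit 0) (cs (lf (nat_lit 22) (nat_lit 272)) (rf (nat_lit 2))))))) q89350 (by decide +kernel)
def q89354 : Q := Q.p (nat_lit 0x300000800002000000000000000000000000000000000000000000000000000000000000000) (nat_lit 0x4000000000000000000001c000070000140000000000000000000000000000000000000000000000) (nat_lit 5)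
theorem c89354 : QOK q89354 := cut [q89353] ⟨c89353, trivial⟩ (nd (nat_lit 231) (nat_lit 0) (cs (lf (nat_lit 41) (nat_lit 230)) (rf (nat_lit 0)))) q89354 (by decide +kernel)
def q89370 : Q := Q.p (nat_lit 0x380000100000000000000000000000000000000000000000000000000000000000000000000) (nat_lit 0x8000038000440000080000400001000000000000000000000000000000000000000000000000000000000) (nat_lit 5)
theorem c89370 : QOK q89370 := cut [q14502] ⟨c14502, trivial⟩ (nd (nat_lit 294) (nat_lit 0) (cs (lf (nat_lit 23) (nat_lit 271)) (rf (nat_lit 0)))) q89370 (by decide +kernel)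
def q89375 : Q := Q.p (nat_lit 0x600000800002000000000000000000000000000000000000000000000000000000000000000) (nat_lit 0x10000000000000000000001c000070000140000000000000000000000000000000000000000000000) (nat_lit 5)
theorem c89375 : QOK q89375 := cut [q89353] ⟨c89353, trivial⟩ (nd (nat_lit 231) (nat_lit 0) (cs (lf (nat_lit 29) (nat_lit 231)) (rf (nat_lit 0)))) q89375 (by decide +kernel)
def q89376 : Q := Q.p (nat_lit 0x700000000002000000000000000000000000000000000000000000000000000000000000000) (nat_lit 0xa0000380000e00003380000c0003b80000000000000000000000000000000000000000000000000000000000000000000) (nat_lit 9)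
theorem c89376 : QOK q89376 := cut [q28278, q89315, q89348] ⟨c28278, c89315, c89348, trivial⟩ (nd (nat_lit 295) (nat_lit 0) (cs (rf (nat_lit 0)) (cs (rf (nat_lit 1)) (rf (nat_lit 2))))) q89376 (by decide +kernel)
def q89389 : Q := Q.p (nat_lit 0x300000000002000008000000000000000000000000000000000000000000000000000000000) (nat_lit 0x40000000000800000000014000070000140000000000000000000000000000000000000000000000) (nat_lit 5)
theorem c89389 : QOK q89389 := cut [q89353] ⟨c89353, trivial⟩ (nd (nat_lit 275) (nat_lit 0) (cs (lf (nat_lit 41) (nat_lit 230)) (rf (nat_lit 0)))) q89389 (by decide +kernel)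
def q89391 : Q := Q.p (nat_lit 0x18000000000300000c000000000000000000000000000000000000000000000000000000000) (nat_lit 0x20000000000400004000003800008000000000000000000000000000000000000000000000000000) (nat_lit 4)
theorem c89391 : QOK q89391 := cut [q87351] ⟨c87351, trivial⟩ (nd (nat_lit 274) (nat_lit 0) (cs (lf (nat_lit 41) (nat_lit 229)) (rf (nat_lit 0)))) q89391 (by decide +kernel)
def q89396 : Q := Q.p (nat_lit 0x10000000000300000c000000000000000000000000000000000000000000000000000000000) (nat_lit 0x400004000003800028000000000000000000000000000000000000000000000000000) (nat_lit 4)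
theorem c89396 : QOK q89396 := cut [q87351] ⟨c87351, trivial⟩ (nd (nat_lit 274) (nat_lit 0) (cs (lf (nat_lit 35) (nat_lit 208)) (rf (nat_lit 0)))) q89396 (by decide +kernel)
def q89398 : Q := Q.p (nat_lit 0x700000800002000000000000000000000000000000000000000000000000000000000000000) (nat_lit 0x100000000000400000000018000060000100000000000000000000000000000000000000000000000) (nat_lit 4)
theorem c89398 : QOK q89398 := cut [q21944] ⟨c21944, trivial⟩ (nd (nat_lit 231) (nat_lit 0) (cs (lf (nat_lit 29) (nat_lit 231)) (rf (nat_lit 0)))) q89398 (by decide +kernel)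
def q89402 : Q := Q.p (nat_lit 0x700001800000000000000000000000000000000000000000000000000000000000000000000) (nat_lit 0xe300038c0000700000000000000000000000000000000000000000000000000000000000000000000) (nat_lit 7)
theorem c89402 : QOK q89402 := cut [q89399] ⟨c89399, trivial⟩ (nd (nat_lit 295) (nat_lit 0) (cs (lf (nat_lit 12) (nat_lit 272)) (nd (nat_lit 316) (nat_lit 0) (cs (lf (nat_lit 10) (nat_lit 294)) (nd (nat_lit 273) (nat_lit 0) (cs (lf (nat_lit 23) (nat_lit 272)) (rf (nat_lit 0)))))))) q89402 (by decide +kernel)
def q89411 : Q := Q.p (nat_lit 0x300000800002000000000000000000000000000000000000000000000000000000000000000) (nat_lit 0x40000000000400000000018000060000100000000000000000000000000000000000000000000000) (nat_lit 4)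
theorem c89411 : QOK q89411 := cut [q21944] ⟨c21944, trivial⟩ (nd (nat_lit 231) (nat_lit 0) (cs (lf (nat_lit 41) (nat_lit 230)) (rf (nat_lit 0)))) q89411 (by decide +kernel)
def q89422 : Q := Q.p (nat_lit 0x380000c00002000000000000000000000000000000000000000000000000000000000000000) (nat_lit 0x460000380004000000000000000000000000000000000000000000000000000000000000000) (nat_lit 4)
theorem c89422 : QOK q89422 := cut [q89421] ⟨c89421, trivial⟩ (nd (nat_lit 294) (nat_lit 0) (cs (lf (nat_lit 12) (nat_lit 271)) (rf (nat_lit 0)))) q89422 (by decide +kernel)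
def q89440 : Q := Q.p (nat_lit 0xf00000800002000000000000000000000000000000000000000000000000000000000000000) (nat_lit 0x140000700001c0000700000000007600004000010000000000000000000000000000000000000000000000000000000000) (nat_lit 8)
theorem c89440 : QOK q89440 := cut [q22431] ⟨c22431, trivial⟩ (nd (nat_lit 321) (nat_lit 0) (cs (lf (nat_lit 5) (nat_lit 296)) (nd (nat_lit 343) (nat_lit 0) (cs (nd (nat_lit 273) (nat_lit 0) (cs (lf (nat_lit 22) (nat_lit 273)) (nd (nat_lit 277) (nat_lit 0) (cs (lf (nat_lit 17) (nat_lit 274)) (nd (nat_lit 366) (nat_lit 0) (cs (lf (nat_lit 28) (nat_lit 277)) (rf (nat_lit 0)))))))) (cs (nd (nat_lit 277) (nat_lit 0) (cs (lf (nat_lit 17) (nat_lit 274)) (nd (nat_lit 342) (nat_lit 0) (cs (lf (nat_lit 41) (nat_lit 276)) (nd (nat_lit 276) (nat_lit 0) (cs (lf (nat_lit 43) (nat_lit 253)) (lf (nat_lit 47) (nat_lit 254)))))))) (nd (nat_lit 276) (nat_lit 0) (cs (lf (nat_lit 42) (nat_lit 276)) (nd (nat_lit 254) (nat_lit 0) (cs (lf (nat_lit 24) (nat_lit 232)) (lf (nat_lit 27) (nat_lit 254))))))))))) q89440 (by decide +kernel)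
def q89447 : Q := Q.p (nat_lit 0x70000080000300000c000000000000000000000000000000000000000000000000000000000) (nat_lit 0x14000040000730001cc000200000800000000000000000000000000000000000000000) (nat_lit 8)
theorem c89447 : QOK q89447 := cut [q89442] ⟨c89442, trivial⟩ (nd (nat_lit 232) (nat_lit 0) (cs (lf (nat_lit 35) (nat_lit 209)) (nd (nat_lit 233) (nat_lit 0) (cs (lf (nat_lit 6) (nat_lit 230)) (nd (nat_lit 211) (nat_lit 0) (cs (lf (nat_lit 17) (nat_lit 208)) (nd (nat_lit 254) (nat_lit 0) (cs (lf (nat_lit 31) (nat_lit 210)) (nd (nat_lit 167) (nat_lit 0) (cs (lf (nat_lit 37) (nat_lit 166)) (rf (nat_lit 0)))))))))))) q89447 (by decide +kernel)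
def q89454 : Q := Q.p (nat_lit 0x300000c00001000004000000000000000000000000000000000000000000000000000000000) (nat_lit 0x200000c0003000000000002000008000000000000000000000000000000000000000000000000000) (nat_lit 4)
theorem c89454 : QOK q89454 := cut [q89453] ⟨c89453, trivial⟩ (nd (nat_lit 207) (nat_lit 0) (cs (lf (nat_lit 46) (nat_lit 207)) (rf (nat_lit 0)))) q89454 (by decide +kernel)
def q89467 : Q := Q.p (nat_lit 0x300003c000000000000000000000000000000000000000000000000000000000) (nat_lit 0x20001f8000160000580000000000000000000000000000000000000000) (nat_lit 7)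
theorem c89467 : QOK q89467 := cut [q89464] ⟨c89464, trivial⟩ (nd (nat_lit 211) (nat_lit 0) (cs (lf (nat_lit 17) (nat_lit 208)) (nd (nat_lit 210) (nat_lit 0) (cs (lf (nat_lit 12) (nat_lit 207)) (nd (nat_lit 166) (nat_lit 0) (cs (lf (nat_lit 37) (nat_lit 165)) (rf (nat_lit 0)))))))) q89467 (by decide +kernel)
def q89483 : Q := Q.p (nat_lit 0x10000000000100000c000000000000000000000000000000000000000000000000000000000) (nat_lit 0x20000080000600000000002000038000020000000000000000000000000000000000000000000000) (nat_lit 5)
theorem c89483 : QOK q89483 := cut [q89482] ⟨c89482, trivial⟩ (nd (nat_lit 274) (nat_lit 0) (cs (lf (nat_lit 35) (nat_lit 208)) (rf (nat_lit 0)))) q89483 (by decide +kernel)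
def q89530 : Q := Q.p (nat_lit 0x200000800003000000000000000000000000000000000000000000000000000000000000000) (nat_lit 0x40000700001c0000400000400004000018000040000000000000000000000000000000000000000000000000000) (nat_lit 5)
theorem c89530 : QOK q89530 := cut [q21908, q89529] ⟨c21908, c89529, trivial⟩ (nd (nat_lit 319) (nat_lit 0) (cs (rf (nat_lit 0)) (rf (nat_lit 1)))) q89530 (by decide +kernel)
def q89597 : Q := Q.p (nat_lit 0x80000200000800003000000000000000000000000000000000000000000000000000000000000000) (nat_lit 0x700001c000070000060001d00001400000000000000000000000000000000000000000000000000000000000000000000) (nat_lit 9)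
theorem c89597 : QOK q89597 := cut [q16778] ⟨c16778, trivial⟩ (nd (nat_lit 318) (nat_lit 0) (cs (lf (nat_lit 41) (nat_lit 252)) (nd (nat_lit 341) (nat_lit 0) (cs (lf (nat_lit 46) (nat_lit 252)) (nd (nat_lit 364) (nat_lit 0) (cs (lf (nat_lit 28) (nat_lit 275)) (nd (nat_lit 363) (nat_lit 0) (cs (lf (nat_lit 29) (nat_lit 297)) (nd (nat_lit 362) (nat_lit 0) (cs (lf (nat_lit 41) (nat_lit 296)) (nd (nat_lit 296) (nat_lit 0) (cs (lf (nat_lit 42) (nat_lit 296)) (rf (nat_lit 0)))))))))))))) q89597 (by decide +kernel)
def q89600 : Q := Q.p (nat_lit 0x80000200000800003000000000000000000000000000000000000000000000000000000000000000) (nat_lit 0x4000070000140000000000400000000000000000000000000000000000000000000000000000000000000000000) (nat_lit 4)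
theorem c89600 : QOK q89600 := cut [q21908] ⟨c21908, trivial⟩ (nd (nat_lit 320) (nat_lit 0) (cs (lf (nat_lit 29) (nat_lit 253)) (rf (nat_lit 0)))) q89600 (by decide +kernel)
def q89626 : Q := Q.p (nat_lit 0x200000800003000000000000000000000000000000000000000000000000000000000000000) (nat_lit 0x140000700001c0000500000400000000008000000000000000000000000000000000000000000000000000000000) (nat_lit 5)
theorem c89626 : QOK q89626 := cut [q21908, q41536, q89625] ⟨c21908, c41536, c89625, trivial⟩ (nd (nat_lit 319) (nat_lit 0) (cs (rf (nat_lit 0)) (cs (rf (nat_lit 1)) (rf (nat_lit 2))))) q89626 (by decide +kernel)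
def q89642 : Q := Q.p (nat_lit 0x100000c0000300000c000000000000000000000000000000000000000000000000000000000) (nat_lit 0x200000e0000000004000003800008000000000000000000000000000000000000000000000000000) (nat_lit 5)
theorem c89642 : QOK q89642 := cut [q87351] ⟨c87351, trivial⟩ (nd (nat_lit 295) (nat_lit 0) (cs (lf (nat_lit 41) (nat_lit 229)) (nd (nat_lit 293) (nat_lit 0) (cs (lf (nat_lit 13) (nat_lit 271)) (rf (nat_lit 0)))))) q89642 (by decide +kernel)
def q89653 : Q := Q.p (nat_lit 0x300000800002000000000000000000000000000000000000000000000000000000000000000) (nat_lit 0x4000000000040000000000c000030000040000000000000000000000000000000000000000000000) (nat_lit 4)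
theorem c89653 : QOK q89653 := cut [q79187] ⟨c79187, trivial⟩ (nd (nat_lit 231) (nat_lit 0) (cs (lf (nat_lit 41) (nat_lit 230)) (rf (nat_lit 0)))) q89653 (by decide +kernel)
def q89664 : Q := Q.p (nat_lit 0x3800002000000000000000000000000000000000000000000000000000000000) (nat_lit 0x1c00007c0004000001c0001c000070000140000000000000000000000000000000000000000) (nat_lit 8)
theorem c89664 : QOK q89664 := cut [q82584, q88302, q89658, q80445, q82207] ⟨c82584, c88302, c89658, c80445, c82207, trivial⟩ (nd (nat_lit 273) (nat_lit 0) (cs (rf (nat_lit 0)) (cs (rf (nat_lit 1)) (nd (nat_lit 207) (nat_lit 0) (cs (rf (nat_lit 2)) (cs (nd (nat_lit 184) (nat_lit 0) (cs (lf (nat_lit 46) (nat_lit 184)) (nd (nat_lit 272) (nat_lit 0) (cs (lf (nat_lit 41) (nat_lit 206)) (nd (nat_lit 270) (nat_lit 0) (cs (rf (nat_lit 3)) (lf (nat_lit 13) (nat_lit 248)))))))) (nd (nat_lit 186) (nat_lit 0) (cs (lf (nat_lit 34) (nat_lit 185)) (rf (nat_lit 4)))))))))) q89664 (by decide +kernel)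
def q89683 : Q := Q.p (nat_lit 0x200003800002000008000000000000000000000000000000000000000000000000000) (nat_lit 0x1800004000000000058000740000d0000000000000000000000000000000000000000000000) (nat_lit 7)
theorem c89683 : QOK q89683 := cut [q5015] ⟨c5015, trivial⟩ (nd (nat_lit 274) (nat_lit 0) (cs (lf (nat_lit 29) (nat_lit 207)) (nd (nat_lit 184) (nat_lit 0) (cs (lf (nat_lit 46) (nat_lit 184)) (nd (nat_lit 208) (nat_lit 0) (cs (lf (nat_lit 35) (nat_lit 185)) (nd (nat_lit 230) (nat_lit 0) (cs (lf (nat_lit 30) (nat_lit 207)) (rf (nat_lit 0)))))))))) q89683 (by decide +kernel)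
def q89715 : Q := Q.p (nat_lit 0xe00003800002000008000000000000000000000000000000000000000000000000000) (nat_lit 0x2000000000000000058000700000c0000000000000000000000000000000000000000000000) (nat_lit 5)
theorem c89715 : QOK q89715 := cut [q5015] ⟨c5015, trivial⟩ (nd (nat_lit 208) (nat_lit 0) (cs (lf (nat_lit 35) (nat_lit 185)) (nd (nat_lit 230) (nat_lit 0) (cs (lf (nat_lit 29) (nat_lit 208)) (rf (nat_lit 0)))))) q89715 (by decide +kernel)
def q89720 : Q := Q.p (nat_lit 0x200000800002000008000000000000000000000000000000000000000000000000000) (nat_lit 0x140000700001c0000000000000004000010000040000000000000000000000000000000000000000000000) (nat_lit 6)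
theorem c89720 : QOK q89720 := cut [q56399] ⟨c56399, trivial⟩ (nd (nat_lit 208) (nat_lit 0) (cs (lf (nat_lit 35) (nat_lit 185)) (nd (nat_lit 295) (nat_lit 0) (cs (lf (nat_lit 34) (nat_lit 207)) (rf (nat_lit 0)))))) q89720 (by decide +kernel)
def q89792 : Q := Q.p (nat_lit 0xe00003800000000000000000000000000000000000000000000000000000000000000) (nat_lit 0x380000f0000fe0000000000000006000018000040000000000000000000000000000000000000000000000) (nat_lit 8)
theorem c89792 : QOK q89792 := cut [q15961, q89784, q79068, q87096, q89787] ⟨c15961, c89784, c79068, c87096, c89787, trivial⟩ (nd (nat_lit 296) (nat_lit 0) (cs (rf (nat_lit 0)) (cs (rf (nat_lit 1)) (nd (nat_lit 230) (nat_lit 0) (cs (rf (nat_lit 2)) (cs (rf (nat_lit 3)) (nd (nat_lit 229) (nat_lit 0) (cs (lf (nat_lit 24) (nat_lit 207)) (nd (nat_lit 297) (nat_lit 0) (cs (lf (nat_lit 42) (nat_lit 230)) (nd (nat_lit 298) (nat_lit 0) (cs (lf (nat_lit 18) (nat_lit 273)) (rf (nat_lit 4)))))))))))))) q89792 (by decide +kernel)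
def q89804 : Q := Q.p (nat_lit 0xa00003800000000000000000000000000000000000000000000000000000000000000) (nat_lit 0x700003c0007400004000006000010000040000000000000000000000000000000000000000000000) (nat_lit 6)
theorem c89804 : QOK q89804 := cut [q80583, q86851, q89803] ⟨c80583, c86851, c89803, trivial⟩ (nd (nat_lit 295) (nat_lit 0) (cs (rf (nat_lit 0)) (cs (rf (nat_lit 1)) (rf (nat_lit 2))))) q89804 (by decide +kernel)
def q89806 : Q := Q.p (nat_lit 0x1e00003800000000000000000000000000000000000000000000000000000000000000) (nat_lit 0x40000120000cc0000000000000004000010000000000000000000000000000000000000000000000000000) (nat_lit 5)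
theorem c89806 : QOK q89806 := cut [q81451] ⟨c81451, trivial⟩ (nd (nat_lit 298) (nat_lit 0) (cs (lf (nat_lit 5) (nat_lit 273)) (nd (nat_lit 320) (nat_lit 0) (cs (lf (nat_lit 42) (nat_lit 253)) (rf (nat_lit 0)))))) q89806 (by decide +kernel)
def q89817 : Q := Q.p (nat_lit 0xe00003800000000000000000000000000000000000000000000000000000000000000) (nat_lit 0x200000c0003180000000004000010000000000000000000000000000000000000000000000000000) (nat_lit 5)
theorem c89817 : QOK q89817 := cut [q81451] ⟨c81451, trivial⟩ (nd (nat_lit 276) (nat_lit 0) (cs (lf (nat_lit 18) (nat_lit 251)) (nd (nat_lit 271) (nat_lit 0) (cs (lf (nat_lit 13) (nat_lit 249)) (rf (nat_lit 0)))))) q89817 (by decide +kernel)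
def q89836 : Q := Q.p (nat_lit 0x3c00002000000000000000000000000000000000000000000000000000000000) (nat_lit 0x800007c0000380005000004000010000000000000000000000000000000000000000000000) (nat_lit 7)
theorem c89836 : QOK q89836 := cut [q63629] ⟨c63629, trivial⟩ (nd (nat_lit 271) (nat_lit 0) (cs (lf (nat_lit 10) (nat_lit 249)) (nd (nat_lit 249) (nat_lit 0) (cs (lf (nat_lit 11) (nat_lit 248)) (nd (nat_lit 248) (nat_lit 0) (cs (lf (nat_lit 17) (nat_lit 226)) (rf (nat_lit 0)))))))) q89836 (by decide +kernel)
def q89846 : Q := Q.p (nat_lit 0x80000200003800002000000000000000000000000000000000000000000000000000000000) (nat_lit 0x10000040000000000000005800014000000000000000000000000000000000000000000000000000) (nat_lit 4)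
theorem c89846 : QOK q89846 := cut [q89845] ⟨c89845, trivial⟩ (nd (nat_lit 294) (nat_lit 0) (cs (lf (nat_lit 41) (nat_lit 228)) (rf (nat_lit 0)))) q89846 (by decide +kernel)
def q89851 : Q := Q.p (nat_lit 0x60000080000200001800000000000000000000000000000000000000000000000000000000000000) (nat_lit 0x800000000010000040000000000300000c000030000000000000000000000000000000000000000000000) (nat_lit 5)
theorem c89851 : QOK q89851 := cut [q89850] ⟨c89850, trivial⟩ (nd (nat_lit 229) (nat_lit 0) (cs (lf (nat_lit 28) (nat_lit 229)) (rf (nat_lit 0)))) q89851 (by decide +kernel)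
def q89856 : Q := Q.p (nat_lit 0x70000080000200003000000000000000000000000000000000000000000000000000000000000000) (nat_lit 0x8000008000700000580000000008000000000000000000000000000000000000000000000000000000000) (nat_lit 5)
theorem c89856 : QOK q89856 := cut [q89854] ⟨c89854, trivial⟩ (nd (nat_lit 274) (nat_lit 0) (cs (lf (nat_lit 30) (nat_lit 251)) (nd (nat_lit 271) (nat_lit 0) (cs (lf (nat_lit 13) (nat_lit 249)) (rf (nat_lit 0)))))) q89856 (by decide +kernel)
def q89868 : Q := Q.p (nat_lit 0x3c00004000000000000000000000000000000000000000000000000000000000) (nat_lit 0x20000080000780004000000000010000040000000000000000000000000000000000000000000000) (nat_lit 5)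
theorem c89868 : QOK q89868 := cut [q89866] ⟨c89866, trivial⟩ (nd (nat_lit 272) (nat_lit 0) (cs (lf (nat_lit 11) (nat_lit 249)) (nd (nat_lit 273) (nat_lit 0) (cs (lf (nat_lit 6) (nat_lit 250)) (rf (nat_lit 0)))))) q89868 (by decide +kernel)
def q89893 : Q := Q.p (nat_lit 0x80000200003800008000000000000000000000000000000000000000000000000000000000) (nat_lit 0x1c0000f0000170000400000000002000020000080000000000000000000000000000000000000000000000) (nat_lit 8)
theorem c89893 : QOK q89893 := cut [q86846, q88792, q88794, q83632] ⟨c86846, c88792, c88794, c83632, trivial⟩ (nd (nat_lit 318) (nat_lit 0) (cs (rf (nat_lit 0)) (cs (rf (nat_lit 1)) (cs (rf (nat_lit 2)) (nd (nat_lit 317) (nat_lit 0) (cs (lf (nat_lit 29) (nat_lit 251)) (nd (nat_lit 274) (nat_lit 0) (cs (lf (nat_lit 30) (nat_lit 251)) (nd (nat_lit 187) (nat_lit 0) (cs (lf (nat_lit 37) (nat_lit 186)) (rf (nat_lit 3)))))))))))) q89893 (by decide +kernel)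
def q89931 : Q := Q.p (nat_lit 0x10000040000300000c000000000000000000000000000000000000000000000000000000000) (nat_lit 0x20000080000200000000000000018000060000180000000000000000000000000000000000000000) (nat_lit 5)
theorem c89931 : QOK q89931 := cut [q86677] ⟨c86677, trivial⟩ (nd (nat_lit 295) (nat_lit 0) (cs (lf (nat_lit 41) (nat_lit 229)) (nd (nat_lit 208) (nat_lit 0) (cs (lf (nat_lit 40) (nat_lit 207)) (rf (nat_lit 0)))))) q89931 (by decide +kernel)
def q89954 : Q := Q.p (nat_lit 0x300000c000010000000000000000000000000000000000000000000000000000) (nat_lit 0x14000040000000000280007e0000780000000000000000000000000000000000000000) (nat_lit 8)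
theorem c89954 : QOK q89954 := cut [q358] ⟨c358, trivial⟩ (nd (nat_lit 186) (nat_lit 0) (cs (lf (nat_lit 24) (nat_lit 164)) (nd (nat_lit 163) (nat_lit 0) (cs (lf (nat_lit 46) (nat_lit 163)) (nd (nat_lit 187) (nat_lit 0) (cs (lf (nat_lit 35) (nat_lit 164)) (nd (nat_lit 209) (nat_lit 0) (cs (lf (nat_lit 30) (nat_lit 186)) (nd (nat_lit 254) (nat_lit 0) (cs (rf (nat_lit 0)) (lf (nat_lit 29) (nat_lit 187)))))))))))) q89954 (by decide +kernel)
def q89958 : Q := Q.p (nat_lit 0x3c0000c000000000000000000000000000000000000000000000000000000000) (nat_lit 0x200004000003800006000010000040000000000000000000000000000000000000000) (nat_lit 5)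
theorem c89958 : QOK q89958 := cut [q82357] ⟨c82357, trivial⟩ (nd (nat_lit 228) (nat_lit 0) (cs (lf (nat_lit 23) (nat_lit 227)) (nd (nat_lit 229) (nat_lit 0) (cs (rf (nat_lit 0)) (lf (nat_lit 5) (nat_lit 228)))))) q89958 (by decide +kernel)
def q89966 : Q := Q.p (nat_lit 0x300000d000000000000000000000000000000000000000000000000000000000) (nat_lit 0x400004000002000060000080000200000000000000000000000000000000000000000) (nat_lit 4)
theorem c89966 : QOK q89966 := cut [q82179] ⟨c82179, trivial⟩ (nd (nat_lit 229) (nat_lit 0) (cs (rf (nat_lit 0)) (lf (nat_lit 5) (nat_lit 228)))) q89966 (by decide +kernel)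
def q89985 : Q := Q.p (nat_lit 0x100003c00008000008000000000000000000000000000000000000000000000000000) (nat_lit 0x280000e000060000000000780003600019e000620001000000000000000000000000000000000000) (nat_lit 13)
theorem c89985 : QOK q89985 := cut [q82300] ⟨c82300, trivial⟩ (nd (nat_lit 228) (nat_lit 0) (cs (lf (nat_lit 23) (nat_lit 227)) (nd (nat_lit 294) (nat_lit 0) (cs (lf (nat_lit 34) (nat_lit 206)) (nd (nat_lit 295) (nat_lit 0) (cs (lf (nat_lit 29) (nat_lit 228)) (nd (nat_lit 206) (nat_lit 0) (cs (lf (nat_lit 28) (nat_lit 206)) (nd (nat_lit 183) (nat_lit 0) (cs (lf (nat_lit 46) (nat_lit 183)) (nd (nat_lit 293) (nat_lit 0) (cs (lf (nat_lit 41) (nat_lit 227)) (nd (nat_lit 184) (nat_lit 0) (cs (lf (nat_lit 47) (nat_lit 161)) (nd (nat_lit 181) (nat_lit 0) (cs (lf (nat_lit 1) (nat_lit 181)) (nd (nat_lit 209) (nat_lit 0) (cs (rf (nat_lit 0)) (lf (nat_lit 19) (nat_lit 183)))))))))))))))))))) q89985 (by decide +kernel)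
def q89999 : Q := Q.p (nat_lit 0x7800010000040000000000000000000000000000000000000000000000000000) (nat_lit 0xc0000300000e0000380000000000b0000a0000280000000000000000000000000000000000000000000000) (nat_lit 9)
theorem c89999 : QOK q89999 := cut [q89995] ⟨c89995, trivial⟩ (nd (nat_lit 276) (nat_lit 0) (cs (lf (nat_lit 5) (nat_lit 251)) (nd (nat_lit 275) (nat_lit 0) (cs (lf (nat_lit 41) (nat_lit 209)) (nd (nat_lit 189) (nat_lit 0) (cs (lf (nat_lit 34) (nat_lit 188)) (nd (nat_lit 228) (nat_lit 0) (cs (lf (nat_lit 22) (nat_lit 228)) (rf (nat_lit 0)))))))))) q89999 (by decide +kernel)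
def q90032 : Q := Q.p (nat_lit 0x200003800002000000000000000000000000000000000000000000000000000000000) (nat_lit 0x140000700001c0000000004000001c00004000000000000000000000000000000000000000000000000000) (nat_lit 7)
theorem c90032 : QOK q90032 := cut [q56399] ⟨c56399, trivial⟩ (nd (nat_lit 228) (nat_lit 0) (cs (lf (nat_lit 18) (nat_lit 228)) (nd (nat_lit 226) (nat_lit 0) (cs (lf (nat_lit 1) (nat_lit 226)) (nd (nat_lit 295) (nat_lit 0) (cs (lf (nat_lit 47) (nat_lit 206)) (rf (nat_lit 0)))))))) q90032 (by decide +kernel)
def q90035 : Q := Q.p (nat_lit 0x20000080000200000800000000000000000000000000000000000000000000000000000000000000) (nat_lit 0x140000d0000070000000000000002000000000000000000000000000000000000000000000000000000000) (nat_lit 5)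
theorem c90035 : QOK q90035 := cut [q18221] ⟨c18221, trivial⟩ (nd (nat_lit 316) (nat_lit 0) (cs (lf (nat_lit 41) (nat_lit 250)) (nd (nat_lit 294) (nat_lit 0) (cs (lf (nat_lit 36) (nat_lit 228)) (rf (nat_lit 0)))))) q90035 (by decide +kernel)
def q90044 : Q := Q.p (nat_lit 0xc0000200000800000000000000000000000000000000000000000000000000000000000000) (nat_lit 0x1000000000010000000000300000c000010000000000000000000000000000000000000000000000) (nat_lit 4)
theorem c90044 : QOK q90044 := cut [q82542] ⟨c82542, trivial⟩ (nd (nat_lit 229) (nat_lit 0) (cs (lf (nat_lit 41) (nat_lit 228)) (rf (nat_lit 0)))) q90044 (by decide +kernel)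
def q90060 : Q := Q.p (nat_lit 0xc0000600003800000000000000000000000000000000000000000000000000000000000000) (nat_lit 0x680001a0000700001980000000002000008000000000000000000000000000000000000000000000000000) (nat_lit 8)
theorem c90060 : QOK q90060 := cut [q18269] ⟨c18269, trivial⟩ (nd (nat_lit 272) (nat_lit 0) (cs (lf (nat_lit 12) (nat_lit 249)) (nd (nat_lit 207) (nat_lit 0) (cs (lf (nat_lit 37) (nat_lit 206)) (nd (nat_lit 317) (nat_lit 0) (cs (lf (nat_lit 30) (nat_lit 251)) (nd (nat_lit 275) (nat_lit 0) (cs (lf (nat_lit 6) (nat_lit 272)) (rf (nat_lit 0)))))))))) q90060 (by decide +kernel)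
def q90091 : Q := Q.p (nat_lit 0x3c0000200000000000000000000000000000000000000000000000000000000000000000000) (nat_lit 0xe0000380001f0000000000000000000000000000000000000000000000000000000000000000000) (nat_lit 6)
theorem c90091 : QOK q90091 := cut [q11748, q43918, q58727] ⟨c11748, c43918, c58727, trivial⟩ (nd (nat_lit 293) (nat_lit 0) (cs (rf (nat_lit 0)) (cs (rf (nat_lit 1)) (cs (nd (nat_lit 314) (nat_lit 0) (cs (lf (nat_lit 10) (nat_lit 292)) (nd (nat_lit 292) (nat_lit 0) (cs (lf (nat_lit 11) (nat_lit 291)) (rf (nat_lit 2)))))) (nd (nat_lit 314) (nat_lit 0) (cs (lf (nat_lit 10) (nat_lit 292)) (nd (nat_lit 292) (nat_lit 0) (cs (lf (nat_lit 11) (nat_lit 291)) (nd (nat_lit 272) (nat_lit 0) (cs (lf (nat_lit 23) (nat_lit 271)) (lf (nat_lit 12) (nat_lit 269)))))))))))) q90091 (by decide +kernel)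
def q90134 : Q := Q.p (nat_lit 0x20000080000200003800000000000000000000000000000000000000000000000000000000000000) (nat_lit 0x40000340001dc000760000dc0000000008000000000000000000000000000000000000000000000000000000000) (nat_lit 9)
theorem c90134 : QOK q90134 := cut [q82645, q90122, q82691] ⟨c82645, c90122, c82691, trivial⟩ (nd (nat_lit 296) (nat_lit 0) (cs (rf (nat_lit 0)) (cs (rf (nat_lit 1)) (cs (nd (nat_lit 316) (nat_lit 0) (cs (lf (nat_lit 41) (nat_lit 250)) (nd (nat_lit 314) (nat_lit 0) (cs (nd (nat_lit 318) (nat_lit 0) (cs (lf (nat_lit 29) (nat_lit 251)) (nd (nat_lit 274) (nat_lit 0) (cs (lf (nat_lit 35) (nat_lit 230)) (nd (nat_lit 271) (nat_lit 0) (cs (lf (nat_lit 13) (nat_lit 249)) (rf (nat_lit 2)))))))) (lf (nat_lit 13) (nat_lit 292)))))) (nd (nat_lit 318) (nat_lit 0) (cs (lf (nat_lit 29) (nat_lit 251)) (nd (nat_lit 231) (nat_lit 0) (cs (lf (nat_lit 32) (nat_lit 230)) (nd (nat_lit 316) (nat_lit 0) (cs (lf (nat_lit 41) (nat_lit 250)) (nd (nat_lit 297) (nat_lit 0) (cs (lf (nat_lit 6) (nat_lit 294)) (lf (nat_lit 38) (nat_lit 230))))))))))))))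 q90134 (by decide +kernel)
def q90138 : Q := Q.p (nat_lit 0x1000007800000000000000000000000000000000000000000000000000000000000000) (nat_lit 0x400000000000400038000020000080000000000000000000000000000000000000000000000) (nat_lit 4)
theorem c90138 : QOK q90138 := cut [q81990] ⟨c81990, trivial⟩ (nd (nat_lit 232) (nat_lit 0) (cs (lf (nat_lit 17) (nat_lit 229)) (rf (nat_lit 0)))) q90138 (by decide +kernel)
def q90169 : Q := Q.p (nat_lit 0x3800002000000000000000000000000000000000000000000000000000000000) (nat_lit 0x380000e00003b000040000390000e0000380000e00000000000000000000000000000000000000000) (nat_lit 11)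
theorem c90169 : QOK q90169 := cut [q80343, q90151, q90156] ⟨c80343, c90151, c90156, trivial⟩ (nd (nat_lit 254) (nat_lit 0) (cs (lf (nat_lit 23) (nat_lit 228)) (nd (nat_lit 276) (nat_lit 0) (cs (lf (nat_lit 5) (nat_lit 251)) (nd (nat_lit 298) (nat_lit 0) (cs (nd (nat_lit 232) (nat_lit 0) (cs (lf (nat_lit 17) (nat_lit 229)) (rf (nat_lit 0)))) (cs (nd (nat_lit 272) (nat_lit 0) (cs (lf (nat_lit 10) (nat_lit 250)) (rf (nat_lit 1)))) (cs (nd (nat_lit 232) (nat_lit 0) (cs (lf (nat_lit 17) (nat_lit 229)) (nd (nat_lit 299) (nat_lit 0) (cs (lf (nat_lit 29) (nat_lit 232)) (nd (nat_lit 297) (nat_lit 0) (cs (lf (nat_lit 41) (nat_lit 231)) (rf (nat_lit 2)))))))) (nd (nat_lit 232) (nat_lit 0) (cs (lf (nat_lit 17) (nat_lit 229)) (nd (nat_lit 299) (nat_lit 0) (cs (lf (nat_lit 29) (nat_lit 232)) (nd (nat_lit 297) (nat_lit 0) (cs (lf (nat_lit 41) (nat_lit 231)) (nd (nat_lit 210) (nat_lit 0) (cs (lf (nat_lit 40) (nat_lit 209)) (nd (nat_lit 189) (nat_lit 0) (cs (lf (nat_lit 34) (nat_lit 188)) (nd (nat_lit 188) (nat_lit 0) (cs (lf (nat_lit 35) (nat_lit 166))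 (nd (nat_lit 231) (nat_lit 0) (cs (lf (nat_lit 36) (nat_lit 165)) (lf (nat_lit 42) (nat_lit 231)))))))))))))))))))))))) q90169 (by decide +kernel)
def q90198 : Q := Q.p (nat_lit 0x200003800002000008000000000000000000000000000000000000000000000000000) (nat_lit 0x2000008000010000400003c000014000010000000000000000000000000000000000000000000000) (nat_lit 5)
theorem c90198 : QOK q90198 := cut [q85430, q90196] ⟨c85430, c90196, trivial⟩ (nd (nat_lit 230) (nat_lit 0) (cs (rf (nat_lit 0)) (nd (nat_lit 254) (nat_lit 0) (cs (lf (nat_lit 11) (nat_lit 250)) (rf (nat_lit 1)))))) q90198 (by decide +kernel)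
def q90242 : Q := Q.p (nat_lit 0x3c00000000000000000000000000000000000000000000000000000000000000) (nat_lit 0x3b80004000000000000000000000000000000000000000000000000000000000000000) (nat_lit 4)
theorem c90242 : QOK q90242 := cut [q89692] ⟨c89692, trivial⟩ (nd (nat_lit 276) (nat_lit 0) (cs (lf (nat_lit 4) (nat_lit 250)) (rf (nat_lit 0)))) q90242 (by decide +kernel)
def q90249 : Q := Q.p (nat_lit 0x800003c00000000000000000000000000000000000000000000000000000000000000) (nat_lit 0x20000000000020001c000010000040000000000000000000000000000000000000000000000) (nat_lit 4)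
theorem c90249 : QOK q90249 := cut [q90248] ⟨c90248, trivial⟩ (nd (nat_lit 231) (nat_lit 0) (cs (lf (nat_lit 17) (nat_lit 228)) (rf (nat_lit 0)))) q90249 (by decide +kernel)
def q90252 : Q := Q.p (nat_lit 0x7800010000000000000000000000000000000000000000000000000000000000) (nat_lit 0x400003000000400008000020000080000000000000000000000000000000000000000000000) (nat_lit 4)
theorem c90252 : QOK q90252 := cut [q79182] ⟨c79182, trivial⟩ (nd (nat_lit 231) (nat_lit 0) (cs (lf (nat_lit 12) (nat_lit 228)) (rf (nat_lit 0)))) q90252 (by decide +kernel)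
def q90260 : Q := Q.p (nat_lit 0xc00003000004000010000000000000000000000000000000000000000000000000000) (nat_lit 0x500007000000800008000020000080000000000000000000000000000000000000000000000) (nat_lit 5)
theorem c90260 : QOK q90260 := cut [q1258] ⟨c1258, trivial⟩ (nd (nat_lit 209) (nat_lit 0) (cs (lf (nat_lit 35) (nat_lit 186)) (nd (nat_lit 231) (nat_lit 0) (cs (lf (nat_lit 30) (nat_lit 208)) (rf (nat_lit 0)))))) q90260 (by decide +kernel)
def q90265 : Q := Q.p (nat_lit 0x3000004000010000000000000000000000000000000000000000000000000000) (nat_lit 0x8000060000080000a0000200000e0000380000800000000000000000000000000000000000) (nat_lit 6)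
theorem c90265 : QOK q90265 := cut [q25, q29, q87129] ⟨c25, c29, c87129, trivial⟩ (nd (nat_lit 186) (nat_lit 0) (cs (rf (nat_lit 0)) (cs (rf (nat_lit 1)) (rf (nat_lit 2))))) q90265 (by decide +kernel)
def q90280 : Q := Q.p (nat_lit 0x300000c000020000000000000000000000000000000000000000000000000000) (nat_lit 0x4000018000040000000000400001c0000700000000000000000000000000000000000000000) (nat_lit 6)
theorem c90280 : QOK q90280 := cut [q90278] ⟨c90278, trivial⟩ (nd (nat_lit 187) (nat_lit 0) (cs (lf (nat_lit 36) (nat_lit 164)) (nd (nat_lit 164) (nat_lit 0) (cs (lf (nat_lit 46) (nat_lit 164)) (rf (nat_lit 0)))))) q90280 (by decide +kernel)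
def q90288 : Q := Q.p (nat_lit 0x300001e000000000000000000000000000000000000000000000000000000000) (nat_lit 0x1000004000008000000000cc000120000480000000000000000000000000000000000000000) (nat_lit 6)
theorem c90288 : QOK q90288 := cut [q90285] ⟨c90285, trivial⟩ (nd (nat_lit 207) (nat_lit 0) (cs (lf (nat_lit 23) (nat_lit 206)) (nd (nat_lit 210) (nat_lit 0) (cs (lf (nat_lit 17) (nat_lit 207)) (nd (nat_lit 166) (nat_lit 0) (cs (lf (nat_lit 37) (nat_lit 165)) (rf (nat_lit 0)))))))) q90288 (by decide +kernel)
def q90297 : Q := Q.p (nat_lit 0x80000300000c000000000000000000000000000000000000000000000000000000000) (nat_lit 0x1c0000780007000000000000000020000000000000000000000000000000000000000000000000000) (nat_lit 6)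
theorem c90297 : QOK q90297 := cut [q90296] ⟨c90296, trivial⟩ (nd (nat_lit 297) (nat_lit 0) (cs (lf (nat_lit 42) (nat_lit 230)) (rf (nat_lit 0)))) q90297 (by decide +kernel)
def q90300 : Q := Q.p (nat_lit 0x80000300000c000000000000000000000000000000000000000000000000000000000) (nat_lit 0x180000600001400000000000000020000080000200000000000000000000000000000000000000000) (nat_lit 5)
theorem c90300 : QOK q90300 := cut [q90299] ⟨c90299, trivial⟩ (nd (nat_lit 297) (nat_lit 0) (cs (lf (nat_lit 42) (nat_lit 230)) (rf (nat_lit 0)))) q90300 (by decide +kernel)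
def q90301 : Q := Q.p (nat_lit 0xc00003000008000000000000000000000000000000000000000000000000000000000) (nat_lit 0x400007000000800000000020000080000000000000000000000000000000000000000000000) (nat_lit 4)
theorem c90301 : QOK q90301 := cut [q1258] ⟨c1258, trivial⟩ (nd (nat_lit 209) (nat_lit 0) (cs (lf (nat_lit 36) (nat_lit 186)) (rf (nat_lit 0)))) q90301 (by decide +kernel)
def q90319 : Q := Q.p (nat_lit 0x3000006000000000000000000000000000000000000000000000000000000000) (nat_lit 0x400004000009800060000080000200000000000000000000000000000000000000000) (nat_lit 5)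
theorem c90319 : QOK q90319 := cut [q82179] ⟨c82179, trivial⟩ (nd (nat_lit 228) (nat_lit 0) (cs (lf (nat_lit 0) (nat_lit 227)) (nd (nat_lit 231) (nat_lit 0) (cs (rf (nat_lit 0)) (lf (nat_lit 5) (nat_lit 228)))))) q90319 (by decide +kernel)
def q90325 : Q := Q.p (nat_lit 0x400003000004000010000000000000000000000000000000000000000000000000000) (nat_lit 0x80000b80004800000000008000020000000000000000000000000000000000000000000000) (nat_lit 5)
theorem c90325 : QOK q90325 := cut [q90323] ⟨c90323, trivial⟩ (nd (nat_lit 273) (nat_lit 0) (cs (lf (nat_lit 41) (nat_lit 207)) (nd (nat_lit 185) (nat_lit 0) (cs (lf (nat_lit 46) (nat_lit 185)) (rf (nat_lit 0)))))) q90325 (by decide +kernel)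
def q90329 : Q := Q.p (nat_lit 0x600001000004000010000000000000000000000000000000000000000000000000000) (nat_lit 0x20000380000e0000300000000000800002000008000020000000000000000000000000000000000000000000000) (nat_lit 7)
theorem c90329 : QOK q90329 := cut [q90327] ⟨c90327, trivial⟩ (nd (nat_lit 207) (nat_lit 0) (cs (lf (nat_lit 47) (nat_lit 185)) (nd (nat_lit 296) (nat_lit 0) (cs (lf (nat_lit 46) (nat_lit 207)) (rf (nat_lit 0)))))) q90329 (by decide +kernel)
def q90334 : Q := Q.p (nat_lit 0x400003000004000010000000000000000000000000000000000000000000000000000) (nat_lit 0x280000b80004000000000000000000000000000000000000000000000000000000000000000) (nat_lit 4)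
theorem c90334 : QOK q90334 := cut [q90333] ⟨c90333, trivial⟩ (nd (nat_lit 273) (nat_lit 0) (cs (lf (nat_lit 41) (nat_lit 207)) (rf (nat_lit 0)))) q90334 (by decide +kernel)
def q90344 : Q := Q.p (nat_lit 0x200003800006000000000000000000000000000000000000000000000000000000000) (nat_lit 0x4000010000400000000000c0000300000c0000000000000000000000000000000000000000) (nat_lit 5)
theorem c90344 : QOK q90344 := cut [q87148] ⟨c87148, trivial⟩ (nd (nat_lit 272) (nat_lit 0) (cs (lf (nat_lit 6) (nat_lit 250)) (nd (nat_lit 207) (nat_lit 0) (cs (lf (nat_lit 41) (nat_lit 206)) (rf (nat_lit 0)))))) q90344 (by decide +kernel)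
def q90405 : Q := Q.p (nat_lit 0x300000c0000300000c0000000000000000000000000000000000000000000000) (nat_lit 0x8000720000480000000000000000000000000000000000000000) (nat_lit 4)
theorem c90405 : QOK q90405 := cut [q358] ⟨c358, trivial⟩ (nd (nat_lit 163) (nat_lit 0) (cs (rf (nat_lit 0)) (lf (nat_lit 46) (nat_lit 163)))) q90405 (by decide +kernel)
def q90440 : Q := Q.p (nat_lit 0x200001e000000000000000000000000000000000000000000000000000000000) (nat_lit 0x2000008000000000000000e0000100000400000000000000000000000000000000000000000) (nat_lit 4)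
theorem c90440 : QOK q90440 := cut [q90439] ⟨c90439, trivial⟩ (nd (nat_lit 210) (nat_lit 0) (cs (lf (nat_lit 17) (nat_lit 207)) (rf (nat_lit 0)))) q90440 (by decide +kernel)
def q90488 : Q := Q.p (nat_lit 0x400003000004000010000000000000000000000000000000000000000000000000000) (nat_lit 0x20000380000e0000380000380000800008000020000080000000000000000000000000000000000000000000000) (nat_lit 9)
theorem c90488 : QOK q90488 := cut [q90327] ⟨c90327, trivial⟩ (nd (nat_lit 273) (nat_lit 0) (cs (lf (nat_lit 41) (nat_lit 207)) (nd (nat_lit 271) (nat_lit 0) (cs (lf (nat_lit 13) (nat_lit 249)) (nd (nat_lit 209) (nat_lit 0) (cs (lf (nat_lit 35) (nat_lit 186)) (nd (nat_lit 296) (nat_lit 0) (cs (lf (nat_lit 34) (nat_lit 208)) (rf (nat_lit 0)))))))))) q90488 (by decide +kernel)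
def q90491 : Q := Q.p (nat_lit 0x3000004000010000000000000000000000000000000000000000000000000000) (nat_lit 0x800006000008000080000080000e0000380000800000000000000000000000000000000000) (nat_lit 5)
theorem c90491 : QOK q90491 := cut [q25, q20148] ⟨c25, c20148, trivial⟩ (nd (nat_lit 186) (nat_lit 0) (cs (rf (nat_lit 0)) (rf (nat_lit 1)))) q90491 (by decide +kernel)
def q90512 : Q := Q.p (nat_lit 0x400003000004000010000000000000000000000000000000000000000000000000000) (nat_lit 0x280000b80004000000000000000000000000000000000000000000000000000000000000000) (nat_lit 4)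
theorem c90512 : QOK q90512 := cut [q88744] ⟨c88744, trivial⟩ (nd (nat_lit 275) (nat_lit 0) (cs (lf (nat_lit 29) (nat_lit 208)) (rf (nat_lit 0)))) q90512 (by decide +kernel)
def q90521 : Q := Q.p (nat_lit 0x400003000004000010000000000000000000000000000000000000000000000000000) (nat_lit 0x80000b80004800000000020000080000000000000000000000000000000000000000000000) (nat_lit 5)
theorem c90521 : QOK q90521 := cut [q90323] ⟨c90323, trivial⟩ (nd (nat_lit 273) (nat_lit 0) (cs (lf (nat_lit 41) (nat_lit 207)) (nd (nat_lit 187) (nat_lit 0) (cs (lf (nat_lit 34) (nat_lit 186)) (rf (nat_lit 0)))))) q90521 (by decide +kernel)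
def q90529 : Q := Q.p (nat_lit 0xc0000300000c000030000000000000000000000000000000000000000000000000000) (nat_lit 0x1c000070000000000020001c0000100000000000000000000000000000000000000000000000) (nat_lit 6)
theorem c90529 : QOK q90529 := cut [q1402] ⟨c1402, trivial⟩ (nd (nat_lit 276) (nat_lit 0) (cs (lf (nat_lit 29) (nat_lit 209)) (nd (nat_lit 277) (nat_lit 0) (cs (lf (nat_lit 18) (nat_lit 252)) (nd (nat_lit 299) (nat_lit 0) (cs (lf (nat_lit 5) (nat_lit 274)) (rf (nat_lit 0)))))))) q90529 (by decide +kernel)
def q90555 : Q := Q.p (nat_lit 0x400003000004000010000000000000000000000000000000000000000000000000000) (nat_lit 0x800002e0000b800008000030000e80000a0000000000000000000000000000000000000000000000) (nat_lit 9)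
theorem c90555 : QOK q90555 := cut [q1140, q90553] ⟨c1140, c90553, trivial⟩ (nd (nat_lit 207) (nat_lit 0) (cs (lf (nat_lit 47) (nat_lit 185)) (nd (nat_lit 275) (nat_lit 0) (cs (rf (nat_lit 0)) (rf (nat_lit 1)))))) q90555 (by decide +kernel)
def q90565 : Q := Q.p (nat_lit 0x3000006000000000000000000000000000000000000000000000000000000000) (nat_lit 0x8000020000380000f800048000000000380000a0000080000000000000000000000000000000000000000) (nat_lit 7)
theorem c90565 : QOK q90565 := cut [q80983, q87228, q87979, q90323, q90333] ⟨c80983, c87228, c87979, c90323, c90333, trivial⟩ (nd (nat_lit 274) (nat_lit 0) (cs (rf (nat_lit 0)) (cs (rf (nat_lit 1)) (nd (nat_lit 273) (nat_lit 0) (cs (rf (nat_lit 2)) (cs (rf (nat_lit 3)) (nd (nat_lit 208) (nat_lit 0) (cs (lf (nat_lit 41) (nat_lit 207)) (nd (nat_lit 187) (nat_lit 0) (cs (lf (nat_lit 34) (nat_lit 186)) (rf (nat_lit 4)))))))))))) q90565 (by decide +kernel)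
def q90571 : Q := Q.p (nat_lit 0x200000800003000008000000000000000000000000000000000000000000000000000000000) (nat_lit 0xc00074000040000000000000000000000000000000000000000000000000000) (nat_lit 4)
theorem c90571 : QOK q90571 := cut [q86631] ⟨c86631, trivial⟩ (nd (nat_lit 232) (nat_lit 0) (cs (lf (nat_lit 35) (nat_lit 209)) (rf (nat_lit 0)))) q90571 (by decide +kernel)
def q90575 : Q := Q.p (nat_lit 0x200000800003000000000000000000000000000000000000000000000000000000000000000) (nat_lit 0x4000018000040000000000400001c000040000000000000000000000000000000000000000000000000000) (nat_lit 5)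
theorem c90575 : QOK q90575 := cut [q89529] ⟨c89529, trivial⟩ (nd (nat_lit 319) (nat_lit 0) (cs (lf (nat_lit 47) (nat_lit 230)) (rf (nat_lit 0)))) q90575 (by decide +kernel)
def q90593 : Q := Q.p (nat_lit 0x1800006000010000040000000000000000000000000000000000000000000000000000) (nat_lit 0xc0000300000c000000000000000080000a0000280000000000000000000000000000000000000000000000) (nat_lit 6)
theorem c90593 : QOK q90593 := cut [q89995] ⟨c89995, trivial⟩ (nd (nat_lit 189) (nat_lit 0) (cs (lf (nat_lit 34) (nat_lit 188)) (rf (nat_lit 0)))) q90593 (by decide +kernel)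
def q90602 : Q := Q.p (nat_lit 0x800003000008000020000000000000000000000000000000000000000000000000000) (nat_lit 0x40000400001c0000700000400000000000000000000000000000000000) (nat_lit 5)
theorem c90602 : QOK q90602 := cut [q4090] ⟨c4090, trivial⟩ (nd (nat_lit 188) (nat_lit 0) (cs (lf (nat_lit 34) (nat_lit 187)) (nd (nat_lit 187) (nat_lit 0) (cs (lf (nat_lit 35) (nat_lit 165)) (rf (nat_lit 0)))))) q90602 (by decide +kernel)
def q90612 : Q := Q.p (nat_lit 0x200000800003800008000000000000000000000000000000000000000000000000000000000) (nat_lit 0x140000d800007c0004000000000020000000000000000000000000000000000000000000000000000) (nat_lit 5)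
theorem c90612 : QOK q90612 := cut [q88302] ⟨c88302, trivial⟩ (nd (nat_lit 273) (nat_lit 0) (cs (rf (nat_lit 0)) (cs (nd (nat_lit 298) (nat_lit 0) (cs (lf (nat_lit 29) (nat_lit 231)) (nd (nat_lit 296) (nat_lit 0) (cs (lf (nat_lit 41) (nat_lit 230)) (nd (nat_lit 272) (nat_lit 0) (cs (lf (nat_lit 21) (nat_lit 272)) (lf (nat_lit 6) (nat_lit 250)))))))) (nd (nat_lit 298) (nat_lit 0) (cs (lf (nat_lit 29) (nat_lit 231)) (nd (nat_lit 296) (nat_lit 0) (cs (lf (nat_lit 41) (nat_lit 230)) (nd (nat_lit 274) (nat_lit 0) (cs (lf (nat_lit 18) (nat_lit 273)) (lf (nat_lit 36) (nat_lit 208))))))))))) q90612 (by decide +kernel)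
def q90619 : Q := Q.p (nat_lit 0x80000a00001800000000000000000000000000000000000000000000000000000000000000) (nat_lit 0xc000030000040003400000000004000000000000000000000000000000000000000000000000000000000) (nat_lit 5)
theorem c90619 : QOK q90619 := cut [q90617] ⟨c90617, trivial⟩ (nd (nat_lit 317) (nat_lit 0) (cs (lf (nat_lit 35) (nat_lit 229)) (nd (nat_lit 316) (nat_lit 0) (cs (lf (nat_lit 41) (nat_lit 250)) (rf (nat_lit 0)))))) q90619 (by decide +kernel)
def q90625 : Q := Q.p (nat_lit 0x1e00003800000000000000000000000000000000000000000000000000000000000000) (nat_lit 0x48000120000cc0000000000000004000000000000000000000000000000000000000000000000000000000) (nat_lit 5)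
theorem c90625 : QOK q90625 := cut [q90623] ⟨c90623, trivial⟩ (nd (nat_lit 298) (nat_lit 0) (cs (lf (nat_lit 5) (nat_lit 273)) (nd (nat_lit 320) (nat_lit 0) (cs (lf (nat_lit 42) (nat_lit 253)) (rf (nat_lit 0)))))) q90625 (by decide +kernel)
def q90627 : Q := Q.p (nat_lit 0xe00003000000000000000000000000000000000000000000000000000000000000000) (nat_lit 0x20000080000600000180000000004000000000000000000000000000000000000000000000000000000000) (nat_lit 4)
theorem c90627 : QOK q90627 := cut [q86874] ⟨c86874, trivial⟩ (nd (nat_lit 272) (nat_lit 0) (cs (lf (nat_lit 12) (nat_lit 249)) (rf (nat_lit 0)))) q90627 (by decide +kernel)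
def q90628 : Q := Q.p (nat_lit 0xe00001800000000000000000000000000000000000000000000000000000000000000) (nat_lit 0x80000200000c0003000000000004000000000000000000000000000000000000000000000000000000000) (nat_lit 4)
theorem c90628 : QOK q90628 := cut [q90623] ⟨c90623, trivial⟩ (nd (nat_lit 276) (nat_lit 0) (cs (lf (nat_lit 18) (nat_lit 251)) (rf (nat_lit 0)))) q90628 (by decide +kernel)
def q90632 : Q := Q.p (nat_lit 0x800003800000000000000000000000000000000000000000000000000000000000000) (nat_lit 0x7c0004600003c00000000000000000000000000000000000000000000000000000000) (nat_lit 5)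
theorem c90632 : QOK q90632 := cut [q2090, q3763, q88839] ⟨c2090, c3763, c88839, trivial⟩ (nd (nat_lit 250) (nat_lit 0) (cs (rf (nat_lit 0)) (cs (rf (nat_lit 1)) (rf (nat_lit 2))))) q90632 (by decide +kernel)
def q90666 : Q := Q.p (nat_lit 0x300000c00003800000000000000000000000000000000000000000000000000000000000000) (nat_lit 0x200000c0003000004000007800008000000000000000000000000000000000000000000000000000) (nat_lit 6)
theorem c90666 : QOK q90666 := cut [q90663] ⟨c90663, trivial⟩ (nd (nat_lit 276) (nat_lit 0) (cs (lf (nat_lit 18) (nat_lit 251)) (nd (nat_lit 295) (nat_lit 0) (cs (lf (nat_lit 12) (nat_lit 272)) (nd (nat_lit 230) (nat_lit 0) (cs (lf (nat_lit 41) (nat_lit 229)) (rf (nat_lit 0)))))))) q90666 (by decide +kernel)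
def q90672 : Q := Q.p (nat_lit 0x180000200000800003000000000000000000000000000000000000000000000000000000000000000) (nat_lit 0x20000000000500000400000000008000020000080000000000000000000000000000000000000000000000) (nat_lit 4)
theorem c90672 : QOK q90672 := cut [q90671] ⟨c90671, trivial⟩ (nd (nat_lit 231) (nat_lit 0) (cs (lf (nat_lit 28) (nat_lit 231)) (rf (nat_lit 0)))) q90672 (by decide +kernel)
def q90721 : Q := Q.p (nat_lit 0xe00003800000000000000000000000000000000000000000000000000000000000000) (nat_lit 0x40000100000e00003000000000008000020000000000000000000000000000000000000000000000000000) (nat_lit 5)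
theorem c90721 : QOK q90721 := cut [q15513] ⟨c15513, trivial⟩ (nd (nat_lit 276) (nat_lit 0) (cs (lf (nat_lit 18) (nat_lit 251)) (rf (nat_lit 0)))) q90721 (by decide +kernel)
def q90731 : Q := Q.p (nat_lit 0xe00003800000000000000000000000000000000000000000000000000000000000000) (nat_lit 0x180000600001c000300000000000a000000000000000000000000000000000000000000000000000000000) (nat_lit 6)
theorem c90731 : QOK q90731 := cut [q83647] ⟨c83647, trivial⟩ (nd (nat_lit 276) (nat_lit 0) (cs (lf (nat_lit 18) (nat_lit 251)) (nd (nat_lit 295) (nat_lit 0) (cs (lf (nat_lit 11) (nat_lit 272)) (rf (nat_lit 0)))))) q90731 (by decide +kernel)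
def q90767 : Q := Q.p (nat_lit 0xe00004800002000000000000000000000000000000000000000000000000000000000000000) (nat_lit 0x40000f700031c0009000000000000000000000000000000000000000000000000000000000000000000000) (nat_lit 8)
theorem c90767 : QOK q90767 := cut [q90764] ⟨c90764, trivial⟩ (nd (nat_lit 300) (nat_lit 0) (cs (lf (nat_lit 17) (nat_lit 275)) (nd (nat_lit 276) (nat_lit 0) (cs (lf (nat_lit 18) (nat_lit 275)) (nd (nat_lit 320) (nat_lit 0) (cs (lf (nat_lit 42) (nat_lit 253)) (rf (nat_lit 0)))))))) q90767 (by decide +kernel)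
def q90797 : Q := Q.p (nat_lit 0x200000800003000008000000000000000000000000000000000000000000000000000000000) (nat_lit 0x4c00070000040000000000000000000000000000000000000000000000000000) (nat_lit 4)
theorem c90797 : QOK q90797 := cut [q86313] ⟨c86313, trivial⟩ (nd (nat_lit 232) (nat_lit 0) (cs (lf (nat_lit 35) (nat_lit 209)) (rf (nat_lit 0)))) q90797 (by decide +kernel)
def q90842 : Q := Q.p (nat_lit 0x300000c00003000000000000000000000000000000000000000000000000000000000000000) (nat_lit 0x10000040000000001000000e00006000010000000000000000000000000000000000000000000000000000) (nat_lit 5)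
theorem c90842 : QOK q90842 := cut [q13045] ⟨c13045, trivial⟩ (nd (nat_lit 318) (nat_lit 0) (cs (lf (nat_lit 30) (nat_lit 252)) (nd (nat_lit 208) (nat_lit 0) (cs (rf (nat_lit 0)) (lf (nat_lit 25) (nat_lit 208)))))) q90842 (by decide +kernel)
def q90852 : Q := Q.p (nat_lit 0x200000800003000008000000000000000000000000000000000000000000000000000000000) (nat_lit 0x800074000050000000000000000000000000000000000000000000000000000) (nat_lit 4)
theorem c90852 : QOK q90852 := cut [q87998] ⟨c87998, trivial⟩ (nd (nat_lit 230) (nat_lit 0) (cs (lf (nat_lit 47) (nat_lit 208)) (rf (nat_lit 0)))) q90852 (by decide +kernel)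
def q90877 : Q := Q.p (nat_lit 0x3000000000018000060000000000000000000000000000000000000000000000000000) (nat_lit 0x800000000004000004000380000200000000000000000000000000000000000000000000000) (nat_lit 4)
theorem c90877 : QOK q90877 := cut [q79607] ⟨c79607, trivial⟩ (nd (nat_lit 254) (nat_lit 0) (cs (lf (nat_lit 29) (nat_lit 210)) (rf (nat_lit 0)))) q90877 (by decide +kernel)
def q90978 : Q := Q.p (nat_lit 0xc000030000040000f0000000000000000000000000000000000000000000000000000) (nat_lit 0x80000380004000000000000000600000000000000000000000000000000000000000000000) (nat_lit 4)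
theorem c90978 : QOK q90978 := cut [q88744] ⟨c88744, trivial⟩ (nd (nat_lit 189) (nat_lit 0) (cs (lf (nat_lit 17) (nat_lit 186)) (rf (nat_lit 0)))) q90978 (by decide +kernel)
def q90989 : Q := Q.p (nat_lit 0x8000078000000000000000000000000000000000000000000000000000) (nat_lit 0x74000180000e00000000000000000000000000000000000000000000000) (nat_lit 5)
theorem c90989 : QOK q90989 := cut [q9659] ⟨c9659, trivial⟩ (nd (nat_lit 233) (nat_lit 0) (cs (lf (nat_lit 4) (nat_lit 207)) (rf (nat_lit 0)))) q90989 (by decide +kernel)
def q91016 : Q := Q.p (nat_lit 0x300000c000030000000000000000000000000000000000000000000000000000) (nat_lit 0x18000078000400000380004e000038000000000000000000000000000000000000000000000) (nat_lit 9)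
theorem c91016 : QOK q91016 := cut [q87682] ⟨c87682, trivial⟩ (nd (nat_lit 274) (nat_lit 0) (cs (lf (nat_lit 30) (nat_lit 208)) (nd (nat_lit 273) (nat_lit 0) (cs (lf (nat_lit 41) (nat_lit 207)) (nd (nat_lit 271) (nat_lit 0) (cs (lf (nat_lit 13) (nat_lit 249)) (rf (nat_lit 0)))))))) q91016 (by decide +kernel)
def q91029 : Q := Q.p (nat_lit 0x800003000008000020000000000000000000000000000000000000000000000000000) (nat_lit 0x500003400000c00000000000000000000000000000000000000000000000000000000000000) (nat_lit 4)
theorem c91029 : QOK q91029 := cut [q721] ⟨c721, trivial⟩ (nd (nat_lit 274) (nat_lit 0) (cs (lf (nat_lit 41) (nat_lit 208)) (rf (nat_lit 0)))) q91029 (by decide +kernel)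
def q91042 : Q := Q.p (nat_lit 0x3800008000000000000000000000000000000000000000000000000000000000) (nat_lit 0x100000500007c000040000140000300001c0000700001000000000000000000000000000000000000) (nat_lit 6)
theorem c91042 : QOK q91042 := cut [q82300, q88756, q91005] ⟨c82300, c88756, c91005, trivial⟩ (nd (nat_lit 209) (nat_lit 0) (cs (rf (nat_lit 0)) (cs (rf (nat_lit 1)) (rf (nat_lit 2))))) q91042 (by decide +kernel)
def q91060 : Q := Q.p (nat_lit 0x3000008000020000000000000000000000000000000000000000000000000000) (nat_lit 0x8000000000040000500001c0000700001400000000000000000000000000000000000) (nat_lit 5)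
theorem c91060 : QOK q91060 := cut [q4090, q82299, q83412] ⟨c4090, c82299, c83412, trivial⟩ (nd (nat_lit 187) (nat_lit 0) (cs (rf (nat_lit 0)) (cs (rf (nat_lit 1)) (nd (nat_lit 188) (nat_lit 0) (cs (lf (nat_lit 35) (nat_lit 165)) (nd (nat_lit 186) (nat_lit 0) (cs (lf (nat_lit 47) (nat_lit 164)) (rf (nat_lit 2))))))))) q91060 (by decide +kernel)
def q91081 : Q := Q.p (nat_lit 0x800003800000000000000000000000000000000000000000000000000000000000000) (nat_lit 0x7c000460003c000000000000000000000000000000000000000000000000000000000) (nat_lit 5)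
theorem c91081 : QOK q91081 := cut [q3763, q26064, q89927] ⟨c3763, c26064, c89927, trivial⟩ (nd (nat_lit 250) (nat_lit 0) (cs (rf (nat_lit 0)) (cs (rf (nat_lit 1)) (rf (nat_lit 2))))) q91081 (by decide +kernel)
def q91098 : Q := Q.p (nat_lit 0x1c00003000000000000000000000000000000000000000000000000000000000000000) (nat_lit 0x1c00006380004000000000000000000000000000000000000000000000000000000000000000) (nat_lit 5)
theorem c91098 : QOK q91098 := cut [q91097] ⟨c91097, trivial⟩ (nd (nat_lit 277) (nat_lit 0) (cs (lf (nat_lit 18) (nat_lit 252)) (rf (nat_lit 0)))) q91098 (by decide +kernel)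
def q91101 : Q := Q.p (nat_lit 0x1c00003000000000000000000000000000000000000000000000000000000000000000) (nat_lit 0x40000180006000000000008000020000000000000000000000000000000000000000000000000000) (nat_lit 4)
theorem c91101 : QOK q91101 := cut [q81957] ⟨c81957, trivial⟩ (nd (nat_lit 277) (nat_lit 0) (cs (lf (nat_lit 18) (nat_lit 252)) (rf (nat_lit 0)))) q91101 (by decide +kernel)
def q91107 : Q := Q.p (nat_lit 0x1800002000008000000000000000000000000000000000000000000000000000000000) (nat_lit 0x400000000004000000000060000180000400000000000000000000000000000000000000000) (nat_lit 4)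
theorem c91107 : QOK q91107 := cut [q91106] ⟨c91106, trivial⟩ (nd (nat_lit 209) (nat_lit 0) (cs (lf (nat_lit 29) (nat_lit 209)) (rf (nat_lit 0)))) q91107 (by decide +kernel)
def q91138 : Q := Q.p (nat_lit 0x300000800002000000000000000000000000000000000000000000000000000000000000000) (nat_lit 0x14000040000100000000000c000030000040000000000000000000000000000000000000000000000) (nat_lit 5)
theorem c91138 : QOK q91138 := cut [q91137] ⟨c91137, trivial⟩ (nd (nat_lit 231) (nat_lit 0) (cs (lf (nat_lit 41) (nat_lit 230)) (rf (nat_lit 0)))) q91138 (by decide +kernel)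
def q91145 : Q := Q.p (nat_lit 0x80001a000008000000000000000000000000000000000000000000000000000) (nat_lit 0x200000000005000004000010000040000100000000000000000000000000000000000) (nat_lit 4)
theorem c91145 : QOK q91145 := cut [q85321] ⟨c85321, trivial⟩ (nd (nat_lit 206) (nat_lit 0) (cs (lf (nat_lit 20) (nat_lit 206)) (rf (nat_lit 0)))) q91145 (by decide +kernel)
def q91167 : Q := Q.p (nat_lit 0x300003c000000000000000000000000000000000000000000000000000000000) (nat_lit 0x800000000000000198000040000100000000000000000000000000000000000000000) (nat_lit 4)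
theorem c91167 : QOK q91167 := cut [q79997] ⟨c79997, trivial⟩ (nd (nat_lit 211) (nat_lit 0) (cs (lf (nat_lit 17) (nat_lit 208)) (rf (nat_lit 0)))) q91167 (by decide +kernel)
def q91174 : Q := Q.p (nat_lit 0x800003000008000000000000000000000000000000000000000000000000000000000) (nat_lit 0x100001c0000780007000000000004000030000040000000000000000000000000000000000000000000000) (nat_lit 6)
theorem c91174 : QOK q91174 := cut [q88912, q88936, q90296] ⟨c88912, c88936, c90296, trivial⟩ (nd (nat_lit 297) (nat_lit 0) (cs (rf (nat_lit 0)) (cs (rf (nat_lit 1)) (rf (nat_lit 2))))) q91174 (by decide +kernel)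
def q91180 : Q := Q.p (nat_lit 0x800003000008000020000000000000000000000000000000000000000000000000000) (nat_lit 0x80000200000000000000004000050000180000600000000000000000000000000000000000000000) (nat_lit 5)
theorem c91180 : QOK q91180 := cut [q91178] ⟨c91178, trivial⟩ (nd (nat_lit 188) (nat_lit 0) (cs (lf (nat_lit 34) (nat_lit 187)) (nd (nat_lit 187) (nat_lit 0) (cs (lf (nat_lit 35) (nat_lit 165)) (rf (nat_lit 0)))))) q91180 (by decide +kernel)
def q91187 : Q := Q.p (nat_lit 0x3000008000020000000000000000000000000000000000000000000000000000) (nat_lit 0x1400004000014000000000080000200000000000000000000000000000000000000000) (nat_lit 4)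
theorem c91187 : QOK q91187 := cut [q91186] ⟨c91186, trivial⟩ (nd (nat_lit 187) (nat_lit 0) (cs (lf (nat_lit 41) (nat_lit 186)) (rf (nat_lit 0)))) q91187 (by decide +kernel)
def q91206 : Q := Q.p (nat_lit 0x1e00001000000000000000000000000000000000000000000000000000000000000000) (nat_lit 0x80000200001c0000000000000004000010000000000000000000000000000000000000000000000000000) (nat_lit 4)
theorem c91206 : QOK q91206 := cut [q84049] ⟨c84049, trivial⟩ (nd (nat_lit 295) (nat_lit 0) (cs (lf (nat_lit 11) (nat_lit 272)) (rf (nat_lit 0)))) q91206 (by decide +kernel)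
def q91218 : Q := Q.p (nat_lit 0x900003800000000000000000000000000000000000000000000000000000000000000) (nat_lit 0x480000600001c00000000000000000000000000000000000000000000000000000000) (nat_lit 4)
theorem c91218 : QOK q91218 := cut [q2090] ⟨c2090, trivial⟩ (nd (nat_lit 250) (nat_lit 0) (cs (lf (nat_lit 11) (nat_lit 249)) (rf (nat_lit 0)))) q91218 (by decide +kernel)
def q91270 : Q := Q.p (nat_lit 0x20000080000200000e0000000000000000000000000000000000000000000000) (nat_lit 0x100000400000000000e0001100004e0000000000000000000000000000000000000000) (nat_lit 6)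
theorem c91270 : QOK q91270 := cut [q4698] ⟨c4698, trivial⟩ (nd (nat_lit 188) (nat_lit 0) (cs (lf (nat_lit 35) (nat_lit 165)) (nd (nat_lit 254) (nat_lit 0) (cs (rf (nat_lit 0)) (lf (nat_lit 29) (nat_lit 187)))))) q91270 (by decide +kernel)
def q91271 : Q := Q.p (nat_lit 0x40000100000200001e0000000000000000000000000000000000000000000000) (nat_lit 0xd0000e00000800000000000000000000000000000000000000000) (nat_lit 4)
theorem c91271 : QOK q91271 := cut [q80924] ⟨c80924, trivial⟩ (nd (nat_lit 210) (nat_lit 0) (cs (lf (nat_lit 5) (nat_lit 185)) (rf (nat_lit 0)))) q91271 (by decide +kernel)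
def q91298 : Q := Q.p (nat_lit 0x3000008000020000040000000000000000000000000000000000000000000000) (nat_lit 0x1000004000014000000000080000300000000000000000000000000000000000000000) (nat_lit 4)
theorem c91298 : QOK q91298 := cut [q91186] ⟨c91186, trivial⟩ (nd (nat_lit 187) (nat_lit 0) (cs (lf (nat_lit 47) (nat_lit 164)) (rf (nat_lit 0)))) q91298 (by decide +kernel)
def q91304 : Q := Q.p (nat_lit 0x3000008000020000000000000000000000000000000000000000000000000000) (nat_lit 0x400001800004000014000040000180000600001000000000000000000000000000000000000) (nat_lit 5)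
theorem c91304 : QOK q91304 := cut [q82299, q90278, q91186] ⟨c82299, c90278, c91186, trivial⟩ (nd (nat_lit 187) (nat_lit 0) (cs (rf (nat_lit 0)) (cs (rf (nat_lit 1)) (rf (nat_lit 2))))) q91304 (by decide +kernel)
def q91319 : Q := Q.p (nat_lit 0x80000f0000000000000000000000000000000000000000000000000000) (nat_lit 0x3700000c000000000000000000000000000000000000000000000000000) (nat_lit 4)
theorem c91319 : QOK q91319 := cut [q91318] ⟨c91318, trivial⟩ (nd (nat_lit 229) (nat_lit 0) (cs (lf (nat_lit 10) (nat_lit 207)) (rf (nat_lit 0)))) q91319 (by decide +kernel)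
def q91352 : Q := Q.p (nat_lit 0x80000200000c000020000000000000000000000000000000000000000000000000000) (nat_lit 0x30001d0000100000000000000000000000000000000000000000000000) (nat_lit 4)
theorem c91352 : QOK q91352 := cut [q85178] ⟨c85178, trivial⟩ (nd (nat_lit 210) (nat_lit 0) (cs (lf (nat_lit 35) (nat_lit 187)) (rf (nat_lit 0)))) q91352 (by decide +kernel)
def q91378 : Q := Q.p (nat_lit 0x200000c00002000008000000000000000000000000000000000000000000000000000000000) (nat_lit 0x100001c00001300000000000000000000000000000000000000000000000000000000000000000000) (nat_lit 4)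
theorem c91378 : QOK q91378 := cut [q2556] ⟨c2556, trivial⟩ (nd (nat_lit 298) (nat_lit 0) (cs (lf (nat_lit 29) (nat_lit 231)) (rf (nat_lit 0)))) q91378 (by decide +kernel)
def q91430 : Q := Q.p (nat_lit 0x800003800008000020000000000000000000000000000000000000000000000000000) (nat_lit 0x200000000000000074000040000100000000000000000000000000000000000000000000000) (nat_lit 4)
theorem c91430 : QOK q91430 := cut [q91429] ⟨c91429, trivial⟩ (nd (nat_lit 210) (nat_lit 0) (cs (lf (nat_lit 35) (nat_lit 187)) (rf (nat_lit 0)))) q91430 (by decide +kernel)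
def q91440 : Q := Q.p (nat_lit 0x400003800008000000000000000000000000000000000000000000000000000000000) (nat_lit 0xe0000380000a000000000378000d8000020000000000000000000000000000000000000000000000) (nat_lit 9)
theorem c91440 : QOK q91440 := cut [q81007, q87355, q84490] ⟨c81007, c87355, c84490, trivial⟩ (nd (nat_lit 296) (nat_lit 0) (cs (lf (nat_lit 30) (nat_lit 230)) (nd (nat_lit 230) (nat_lit 0) (cs (rf (nat_lit 0)) (cs (nd (nat_lit 229) (nat_lit 0) (cs (lf (nat_lit 47) (nat_lit 207)) (nd (nat_lit 297) (nat_lit 0) (cs (lf (nat_lit 29) (nat_lit 230)) (nd (nat_lit 227) (nat_lit 0) (cs (lf (nat_lit 1) (nat_lit 227)) (nd (nat_lit 295) (nat_lit 0) (cs (lf (nat_lit 41) (nat_lit 229)) (nd (nat_lit 232) (nat_lit 0) (cs (lf (nat_lit 6) (nat_lit 229)) (rf (nat_lit 1)))))))))))) (nd (nat_lit 232) (nat_lit 0) (cs (lf (nat_lit 6) (nat_lit 229)) (rf (nat_lit 2))))))))) q91440 (by decide +kernel)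
def q91510 : Q := Q.p (nat_lit 0x1800006000008000020000000000000000000000000000000000000000000000) (nat_lit 0x2000000000000000140003d0000340000000000000000000000000000000000000000) (nat_lit 6)
theorem c91510 : QOK q91510 := cut [q420] ⟨c420, trivial⟩ (nd (nat_lit 162) (nat_lit 0) (cs (lf (nat_lit 46) (nat_lit 162)) (nd (nat_lit 186) (nat_lit 0) (cs (lf (nat_lit 35) (nat_lit 163)) (nd (nat_lit 208) (nat_lit 0) (cs (lf (nat_lit 30) (nat_lit 185)) (rf (nat_lit 0)))))))) q91510 (by decide +kernel)
def q91585 : Q := Q.p (nat_lit 0x400003c00000000000000000000000000000000000000000000000000000000000000) (nat_lit 0x40000100000000004000007800008000020000000000000000000000000000000000000000000000) (nat_lit 5)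
theorem c91585 : QOK q91585 := cut [q91583] ⟨c91583, trivial⟩ (nd (nat_lit 228) (nat_lit 0) (cs (lf (nat_lit 23) (nat_lit 227)) (nd (nat_lit 229) (nat_lit 0) (cs (lf (nat_lit 18) (nat_lit 228)) (rf (nat_lit 0)))))) q91585 (by decide +kernel)
def q91653 : Q := Q.p (nat_lit 0xe00003800000000000000000000000000000000000000000000000000000000000000) (nat_lit 0x280000000004000007c0001c000070000040000000000000000000000000000000000000000) (nat_lit 6)
theorem c91653 : QOK q91653 := cut [q82198, q82584, q91652] ⟨c82198, c82584, c91652, trivial⟩ (nd (nat_lit 229) (nat_lit 0) (cs (rf (nat_lit 0)) (cs (rf (nat_lit 1)) (rf (nat_lit 2))))) q91653 (by decide +kernel)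
def q91672 : Q := Q.p (nat_lit 0x100000400003000000000000000000000000000000000000000000000000000000000000000) (nat_lit 0x380000e000000000038000480000a000000000000000000000000000000000000000000000000000000000) (nat_lit 7)
theorem c91672 : QOK q91672 := cut [q91669] ⟨c91669, trivial⟩ (nd (nat_lit 318) (nat_lit 0) (cs (lf (nat_lit 35) (nat_lit 230)) (nd (nat_lit 319) (nat_lit 0) (cs (lf (nat_lit 29) (nat_lit 252)) (nd (nat_lit 317) (nat_lit 0) (cs (lf (nat_lit 41) (nat_lit 251)) (rf (nat_lit 0)))))))) q91672 (by decide +kernel)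
def q91673 : Q := Q.p (nat_lit 0x100000400003000000000000000000000000000000000000000000000000000000000000000) (nat_lit 0x380000e0000280000380004800006000000000000000000000000000000000000000000000000000000000) (nat_lit 5)
theorem c91673 : QOK q91673 := cut [q91618, q91669] ⟨c91618, c91669, trivial⟩ (nd (nat_lit 318) (nat_lit 0) (cs (rf (nat_lit 0)) (rf (nat_lit 1)))) q91673 (by decide +kernel)
def q91679 : Q := Q.p (nat_lit 0x100000400003000000000000000000000000000000000000000000000000000000000000000) (nat_lit 0x20000380000e0000280000800000000006000018000060000000000000000000000000000000000000000000000) (nat_lit 7)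
theorem c91679 : QOK q91679 := cut [q42165, q91618, q91675] ⟨c42165, c91618, c91675, trivial⟩ (nd (nat_lit 318) (nat_lit 0) (cs (rf (nat_lit 0)) (cs (rf (nat_lit 1)) (nd (nat_lit 319) (nat_lit 0) (cs (lf (nat_lit 29) (nat_lit 252)) (nd (nat_lit 230) (nat_lit 0) (cs (lf (nat_lit 28) (nat_lit 230)) (nd (nat_lit 275) (nat_lit 0) (cs (lf (nat_lit 30) (nat_lit 252)) (rf (nat_lit 2))))))))))) q91679 (by decide +kernel)
def q91686 : Q := Q.p (nat_lit 0x100000600003800000000000000000000000000000000000000000000000000000000000000) (nat_lit 0x4400003c00008000000000000000000000000000000000000000000000000000) (nat_lit 4)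
theorem c91686 : QOK q91686 := cut [q84257] ⟨c84257, trivial⟩ (nd (nat_lit 229) (nat_lit 0) (cs (lf (nat_lit 24) (nat_lit 207)) (rf (nat_lit 0)))) q91686 (by decide +kernel)
def q91718 : Q := Q.p (nat_lit 0x180000600001800000000000000000000000000000000000000000000000000000000000000) (nat_lit 0xc00003c000640000000000000000000000000000000000000000000000000000000000000000000000000) (nat_lit 5)
theorem c91718 : QOK q91718 := cut [q82645] ⟨c82645, trivial⟩ (nd (nat_lit 317) (nat_lit 0) (cs (lf (nat_lit 30) (nat_lit 251)) (rf (nat_lit 0)))) q91718 (by decide +kernel)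
def q91767 : Q := Q.p (nat_lit 0x100000f00003000000000000000000000000000000000000000000000000000000000000000) (nat_lit 0x600001800006e0000000000000000000000000000000000000000000000000000000000000000000000000) (nat_lit 5)
theorem c91767 : QOK q91767 := cut [q91766] ⟨c91766, trivial⟩ (nd (nat_lit 297) (nat_lit 0) (cs (lf (nat_lit 5) (nat_lit 272)) (rf (nat_lit 0)))) q91767 (by decide +kernel)
def q91781 : Q := Q.p (nat_lit 0xf00003000000000000000000000000000000000000000000000000000000000000000) (nat_lit 0x80000600000000000600004000010000000000000000000000000000000000000000000000000000) (nat_lit 4)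
theorem c91781 : QOK q91781 := cut [q88426] ⟨c88426, trivial⟩ (nd (nat_lit 249) (nat_lit 0) (cs (lf (nat_lit 22) (nat_lit 249)) (rf (nat_lit 0)))) q91781 (by decide +kernel)
def q91797 : Q := Q.p (nat_lit 0x300000400001000000000000000000000000000000000000000000000000000000000000000) (nat_lit 0xa000008000020000000000c000030000080000000000000000000000000000000000000000000000) (nat_lit 5)
theorem c91797 : QOK q91797 := cut [q81787] ⟨c81787, trivial⟩ (nd (nat_lit 230) (nat_lit 0) (cs (lf (nat_lit 29) (nat_lit 230)) (rf (nat_lit 0)))) q91797 (by decide +kernel)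
def q91866 : Q := Q.p (nat_lit 0x600003800000000000000000000000000000000000000000000000000000000000000) (nat_lit 0xc0000300000c0000000004000007c0001c000070000040000000000000000000000000000000000000000) (nat_lit 8)
theorem c91866 : QOK q91866 := cut [q82198, q82584, q91865] ⟨c82198, c82584, c91865, trivial⟩ (nd (nat_lit 229) (nat_lit 0) (cs (rf (nat_lit 0)) (cs (rf (nat_lit 1)) (rf (nat_lit 2))))) q91866 (by decide +kernel)
def q91882 : Q := Q.p (nat_lit 0x800002000008000020000000000000000000000000000000000000000000000000000) (nat_lit 0x20000000000000003000005c000140000000000000000000000000000000000000000000000) (nat_lit 5)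
theorem c91882 : QOK q91882 := cut [q2931] ⟨c2931, trivial⟩ (nd (nat_lit 208) (nat_lit 0) (cs (lf (nat_lit 47) (nat_lit 186)) (rf (nat_lit 0)))) q91882 (by decide +kernel)
def q91912 : Q := Q.p (nat_lit 0x300000e000000000000000000000000000000000000000000000000000000000) (nat_lit 0x6000718001ce000000000000000000000000000000000000000000000000000) (nat_lit 7)
theorem c91912 : QOK q91912 := cut [q84418] ⟨c84418, trivial⟩ (nd (nat_lit 228) (nat_lit 0) (cs (lf (nat_lit 0) (nat_lit 227)) (nd (nat_lit 249) (nat_lit 0) (cs (lf (nat_lit 10) (nat_lit 227)) (nd (nat_lit 206) (nat_lit 0) (cs (lf (nat_lit 23) (nat_lit 205)) (nd (nat_lit 232) (nat_lit 0) (cs (lf (nat_lit 22) (nat_lit 206)) (rf (nat_lit 0)))))))))) q91912 (by decide +kernel)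
def q91940 : Q := Q.p (nat_lit 0x380000e000000000000000000000000000000000000000000000000000000000) (nat_lit 0x8000020000000000180000e000010000040000000000000000000000000000000000000000) (nat_lit 5)
theorem c91940 : QOK q91940 := cut [q91939] ⟨c91939, trivial⟩ (nd (nat_lit 228) (nat_lit 0) (cs (lf (nat_lit 0) (nat_lit 227)) (rf (nat_lit 0)))) q91940 (by decide +kernel)
def q91944 : Q := Q.p (nat_lit 0x300000f000000000000000000000000000000000000000000000000000000000) (nat_lit 0xe000700001c0000000000000000000000000000000000000000000000000000) (nat_lit 5)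
theorem c91944 : QOK q91944 := cut [q84418] ⟨c84418, trivial⟩ (nd (nat_lit 250) (nat_lit 0) (cs (lf (nat_lit 11) (nat_lit 227)) (nd (nat_lit 232) (nat_lit 0) (cs (lf (nat_lit 13) (nat_lit 228)) (rf (nat_lit 0)))))) q91944 (by decide +kernel)
def q91956 : Q := Q.p (nat_lit 0xe00003000008000000000000000000000000000000000000000000000000000000000) (nat_lit 0x1180000e00010000000000000000000000000000000000000000000000000000000000) (nat_lit 4)
theorem c91956 : QOK q91956 := cut [q91955] ⟨c91955, trivial⟩ (nd (nat_lit 272) (nat_lit 0) (cs (lf (nat_lit 12) (nat_lit 249)) (rf (nat_lit 0)))) q91956 (by decide +kernel)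
def q91959 : Q := Q.p (nat_lit 0x200000c00002000008000000000000000000000000000000000000000000000000000000000) (nat_lit 0x100001c00001300000000000000000000000000000000000000000000000000000000000000000000) (nat_lit 4)
theorem c91959 : QOK q91959 := cut [q22569] ⟨c22569, trivial⟩ (nd (nat_lit 298) (nat_lit 0) (cs (lf (nat_lit 29) (nat_lit 231)) (rf (nat_lit 0)))) q91959 (by decide +kernel)
def q91962 : Q := Q.p (nat_lit 0x40000300000c000000000000000000000000000000000000000000000000000000000) (nat_lit 0x60000180000a00000000000000010000040000100000000000000000000000000000000000000000) (nat_lit 5)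
theorem c91962 : QOK q91962 := cut [q88653] ⟨c88653, trivial⟩ (nd (nat_lit 296) (nat_lit 0) (cs (lf (nat_lit 30) (nat_lit 230)) (rf (nat_lit 0)))) q91962 (by decide +kernel)
def q91963 : Q := Q.p (nat_lit 0x300000c000010000040000000000000000000000000000000000000000000000) (nat_lit 0x200000c00030000000000080000200000000000000000000000000000000000000000) (nat_lit 4)
theorem c91963 : QOK q91963 := cut [q2975] ⟨c2975, trivial⟩ (nd (nat_lit 165) (nat_lit 0) (cs (lf (nat_lit 34) (nat_lit 164)) (rf (nat_lit 0)))) q91963 (by decide +kernel)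
def q91969 : Q := Q.p (nat_lit 0x100000c00001000004000000000000000000000000000000000000000000000000000000000) (nat_lit 0x200000e0003200000000000000000000000000000000000000000000000000000000000000000000) (nat_lit 4)
theorem c91969 : QOK q91969 := cut [q54413] ⟨c54413, trivial⟩ (nd (nat_lit 295) (nat_lit 0) (cs (lf (nat_lit 41) (nat_lit 229)) (rf (nat_lit 0)))) q91969 (by decide +kernel)
def q91976 : Q := Q.p (nat_lit 0xc0000300000c000000000000000000000000000000000000000000000000000000000) (nat_lit 0xe00003e0003000000c00030000040000000000000000000000000000000000000000000000000000) (nat_lit 8)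
theorem c91976 : QOK q91976 := cut [q91971] ⟨c91971, trivial⟩ (nd (nat_lit 296) (nat_lit 0) (cs (lf (nat_lit 30) (nat_lit 230)) (nd (nat_lit 295) (nat_lit 0) (cs (lf (nat_lit 41) (nat_lit 229)) (nd (nat_lit 293) (nat_lit 0) (cs (lf (nat_lit 13) (nat_lit 271)) (nd (nat_lit 276) (nat_lit 0) (cs (lf (nat_lit 6) (nat_lit 273)) (nd (nat_lit 251) (nat_lit 0) (cs (lf (nat_lit 0) (nat_lit 250)) (rf (nat_lit 0)))))))))))) q91976 (by decide +kernel)
def q91978 : Q := Q.p (nat_lit 0x300000c0000300000c000000000000000000000000000000000000000000000000000000000) (nat_lit 0x120000ce0000300000000000000000000000000000000000000000000000000000000000000000000) (nat_lit 5)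
theorem c91978 : QOK q91978 := cut [q2561] ⟨c2561, trivial⟩ (nd (nat_lit 295) (nat_lit 0) (cs (lf (nat_lit 41) (nat_lit 229)) (nd (nat_lit 293) (nat_lit 0) (cs (rf (nat_lit 0)) (lf (nat_lit 13) (nat_lit 271)))))) q91978 (by decide +kernel)
def q92001 : Q := Q.p (nat_lit 0x100000c0000300000c000000000000000000000000000000000000000000000000000000000) (nat_lit 0x1000000e0001380000e000000000000000000000000000000000000000000000000000) (nat_lit 6)
theorem c92001 : QOK q92001 := cut [q92000] ⟨c92000, trivial⟩ (nd (nat_lit 229) (nat_lit 0) (cs (lf (nat_lit 47) (nat_lit 207)) (rf (nat_lit 0)))) q92001 (by decide +kernel)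
def q92006 : Q := Q.p (nat_lit 0x20000080000300000c000000000000000000000000000000000000000000000000000000000) (nat_lit 0x140000500000000000800070000040000000000000000000000000000000000000000000000000000) (nat_lit 5)
theorem c92006 : QOK q92006 := cut [q87998] ⟨c87998, trivial⟩ (nd (nat_lit 298) (nat_lit 0) (cs (lf (nat_lit 29) (nat_lit 231)) (nd (nat_lit 296) (nat_lit 0) (cs (lf (nat_lit 41) (nat_lit 230)) (rf (nat_lit 0)))))) q92006 (by decide +kernel)
def q92025 : Q := Q.p (nat_lit 0x40000500003400009000000000000000000000000000000000000000000000000000000000) (nat_lit 0x8000030000080000000000200000800022000080000000000000000000000000000000000000000000000) (nat_lit 5)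
theorem c92025 : QOK q92025 := cut [q41231] ⟨c41231, trivial⟩ (nd (nat_lit 187) (nat_lit 0) (cs (lf (nat_lit 37) (nat_lit 186)) (nd (nat_lit 227) (nat_lit 0) (cs (lf (nat_lit 47) (nat_lit 205)) (rf (nat_lit 0)))))) q92025 (by decide +kernel)
def q92083 : Q := Q.p (nat_lit 0x300000e000000000000000000000000000000000000000000000000000000000) (nat_lit 0x200001800000e00011800016000040000000000000000000000000000000000000000000000) (nat_lit 7)
theorem c92083 : QOK q92083 := cut [q81478] ⟨c81478, trivial⟩ (nd (nat_lit 228) (nat_lit 0) (cs (lf (nat_lit 0) (nat_lit 227)) (nd (nat_lit 205) (nat_lit 0) (cs (lf (nat_lit 22) (nat_lit 205)) (nd (nat_lit 250) (nat_lit 0) (cs (lf (nat_lit 11) (nat_lit 227)) (nd (nat_lit 251) (nat_lit 0) (cs (lf (nat_lit 17) (nat_lit 228)) (rf (nat_lit 0)))))))))) q92083 (by decide +kernel)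
def q92090 : Q := Q.p (nat_lit 0x300000f000000000040000000000000000000000000000000000000000000000) (nat_lit 0x66000080000300000000000000000000000000000000000000000) (nat_lit 4)
theorem c92090 : QOK q92090 := cut [q92089] ⟨c92089, trivial⟩ (nd (nat_lit 205) (nat_lit 0) (cs (lf (nat_lit 22) (nat_lit 205)) (rf (nat_lit 0)))) q92090 (by decide +kernel)
def q92113 : Q := Q.p (nat_lit 0xc00003800008000000000000000000000000000000000000000000000000000000000) (nat_lit 0x40000100000ce0003380000000000000020000000000000000000000000000000000000000000000000000) (nat_lit 7)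
theorem c92113 : QOK q92113 := cut [q12665] ⟨c12665, trivial⟩ (nd (nat_lit 276) (nat_lit 0) (cs (lf (nat_lit 18) (nat_lit 251)) (nd (nat_lit 298) (nat_lit 0) (cs (lf (nat_lit 24) (nat_lit 209)) (nd (nat_lit 320) (nat_lit 0) (cs (lf (nat_lit 42) (nat_lit 253)) (nd (nat_lit 273) (nat_lit 0) (cs (lf (nat_lit 5) (nat_lit 273)) (rf (nat_lit 0)))))))))) q92113 (by decide +kernel)
def q92114 : Q := Q.p (nat_lit 0x60000300001c000010000000000000000000000000000000000000000000000000000) (nat_lit 0x18000000000200000e000020000000000000000000000000000000000000000000000) (nat_lit 4)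
theorem c92114 : QOK q92114 := cut [q87075] ⟨c87075, trivial⟩ (nd (nat_lit 271) (nat_lit 0) (cs (lf (nat_lit 13) (nat_lit 249)) (rf (nat_lit 0)))) q92114 (by decide +kernel)
def q92152 : Q := Q.p (nat_lit 0x3c0000e000000000000000000000000000000000000000000000000000000000) (nat_lit 0xc0000300001c00000000000000028000000000000000000000000000000000000000000000000000) (nat_lit 5)
theorem c92152 : QOK q92152 := cut [q90292] ⟨c90292, trivial⟩ (nd (nat_lit 275) (nat_lit 0) (cs (lf (nat_lit 5) (nat_lit 250)) (rf (nat_lit 0)))) q92152 (by decide +kernel)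
def q92168 : Q := Q.p (nat_lit 0x300000c000020000080000000000000000000000000000000000000000000000) (nat_lit 0x800000000000000018000740000500000000000000000000000000000000000000000) (nat_lit 5)
theorem c92168 : QOK q92168 := cut [q92167] ⟨c92167, trivial⟩ (nd (nat_lit 188) (nat_lit 0) (cs (lf (nat_lit 35) (nat_lit 165)) (rf (nat_lit 0)))) q92168 (by decide +kernel)
def q92184 : Q := Q.p (nat_lit 0x400003000004000010000000000000000000000000000000000000000000000000000) (nat_lit 0x3000008000048000780001e0000780000800002000000000000000000000000000000000000) (nat_lit 10)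
theorem c92184 : QOK q92184 := cut [q92183] ⟨c92183, trivial⟩ (nd (nat_lit 275) (nat_lit 0) (cs (lf (nat_lit 29) (nat_lit 208)) (rf (nat_lit 0)))) q92184 (by decide +kernel)
def q92244 : Q := Q.p (nat_lit 0x7800010000000000000000000000000000000000000000000000000000000000) (nat_lit 0x80000200001e00018600003800000000000000000000000000000000000000000000000000000000) (nat_lit 7)
theorem c92244 : QOK q92244 := cut [q81672] ⟨c81672, trivial⟩ (nd (nat_lit 228) (nat_lit 0) (cs (lf (nat_lit 22) (nat_lit 228)) (nd (nat_lit 250) (nat_lit 0) (cs (lf (nat_lit 23) (nat_lit 227)) (nd (nat_lit 275) (nat_lit 0) (cs (lf (nat_lit 5) (nat_lit 250)) (nd (nat_lit 297) (nat_lit 0) (cs (lf (nat_lit 30) (nat_lit 231)) (rf (nat_lit 0)))))))))) q92244 (by decide +kernel)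
def q92276 : Q := Q.p (nat_lit 0x4000030000060000000000000000000000000000000000000000000000000000) (nat_lit 0x400001000000000000000098000280000000000000000000000000000000000000000000000) (nat_lit 4)
theorem c92276 : QOK q92276 := cut [q92275] ⟨c92275, trivial⟩ (nd (nat_lit 207) (nat_lit 0) (cs (lf (nat_lit 1) (nat_lit 207)) (rf (nat_lit 0)))) q92276 (by decide +kernel)
def q92312 : Q := Q.p (nat_lit 0x3000018000060000000000000000000000000000000000000000000000000000) (nat_lit 0x800000000064000018000040000100000400000000000000000000000000000000000) (nat_lit 5)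
theorem c92312 : QOK q92312 := cut [q1563] ⟨c1563, trivial⟩ (nd (nat_lit 233) (nat_lit 0) (cs (lf (nat_lit 6) (nat_lit 230)) (nd (nat_lit 208) (nat_lit 0) (cs (rf (nat_lit 0)) (lf (nat_lit 0) (nat_lit 207)))))) q92312 (by decide +kernel)
def q92319 : Q := Q.p (nat_lit 0x1000004000010000040000000000000000000000000000000000000000000000000000) (nat_lit 0xa0000380000e00000000000000008000020000080000000000000000000000000000000000000000000000) (nat_lit 6)
theorem c92319 : QOK q92319 := cut [q92317] ⟨c92317, trivial⟩ (nd (nat_lit 209) (nat_lit 0) (cs (lf (nat_lit 47) (nat_lit 187)) (nd (nat_lit 298) (nat_lit 0) (cs (lf (nat_lit 46) (nat_lit 209)) (rf (nat_lit 0)))))) q92319 (by decide +kernel)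
def q92326 : Q := Q.p (nat_lit 0x7800000000000000000000000000000000000000000000000000000000000000) (nat_lit 0x80000300008000007000010000040000000000000000000000000000000000000000000000) (nat_lit 5)
theorem c92326 : QOK q92326 := cut [q85550] ⟨c85550, trivial⟩ (nd (nat_lit 229) (nat_lit 0) (cs (lf (nat_lit 23) (nat_lit 228)) (nd (nat_lit 230) (nat_lit 0) (cs (lf (nat_lit 18) (nat_lit 229)) (rf (nat_lit 0)))))) q92326 (by decide +kernel)
def q92329 : Q := Q.p (nat_lit 0x7800000000000000000000000000000000000000000000000000000000000000) (nat_lit 0x1c00000600039c00000000000000000000000000000000000000000000000000000000) (nat_lit 6)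
theorem c92329 : QOK q92329 := cut [q18255] ⟨c18255, trivial⟩ (nd (nat_lit 232) (nat_lit 0) (cs (lf (nat_lit 17) (nat_lit 229)) (nd (nat_lit 250) (nat_lit 0) (cs (lf (nat_lit 16) (nat_lit 228)) (rf (nat_lit 0)))))) q92329 (by decide +kernel)
def q92342 : Q := Q.p (nat_lit 0x7800000000000000000000000000000000000000000000000000000000000000) (nat_lit 0x4000010001ce000380000ff000000000000000000000000000000000000000000000000000000000) (nat_lit 10)
theorem c92342 : QOK q92342 := cut [q92337] ⟨c92337, trivial⟩ (nd (nat_lit 232) (nat_lit 0) (cs (lf (nat_lit 17) (nat_lit 229)) (nd (nat_lit 229) (nat_lit 0) (cs (lf (nat_lit 23) (nat_lit 228)) (nd (nat_lit 255) (nat_lit 0) (cs (lf (nat_lit 22) (nat_lit 229)) (nd (nat_lit 274) (nat_lit 0) (cs (lf (nat_lit 11) (nat_lit 251)) (nd (nat_lit 296) (nat_lit 0) (cs (lf (nat_lit 42) (nat_lit 229)) (rf (nat_lit 0)))))))))))) q92342 (by decide +kernel)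
def q92367 : Q := Q.p (nat_lit 0x1c0000800000000000000000000000000000000000000000000000000000000000000000000) (nat_lit 0xe0000300004e0000000000000000000000000000000000000000000000000000000000000000000) (nat_lit 5)
theorem c92367 : QOK q92367 := cut [q43918] ⟨c43918, trivial⟩ (nd (nat_lit 293) (nat_lit 0) (cs (lf (nat_lit 16) (nat_lit 271)) (rf (nat_lit 0)))) q92367 (by decide +kernel)
def q92386 : Q := Q.p (nat_lit 0x3c0000000001000000000000000000000000000000000000000000000000000000000000000) (nat_lit 0x500001c000070000180000000001d80000000000000000000000000000000000000000000000000000000000000000000) (nat_lit 8)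
theorem c92386 : QOK q92386 := cut [q90094] ⟨c90094, trivial⟩ (nd (nat_lit 319) (nat_lit 0) (cs (lf (nat_lit 5) (nat_lit 294)) (nd (nat_lit 271) (nat_lit 0) (cs (lf (nat_lit 22) (nat_lit 271)) (nd (nat_lit 275) (nat_lit 0) (cs (lf (nat_lit 17) (nat_lit 272)) (rf (nat_lit 0)))))))) q92386 (by decide +kernel)
def q92393 : Q := Q.p (nat_lit 0x40000200000800002000000000000000000000000000000000000000000000000000000000) (nat_lit 0x10000000000000001c000070000140000000000000000000000000000000000000000) (nat_lit 5)
theorem c92393 : QOK q92393 := cut [q80585] ⟨c80585, trivial⟩ (nd (nat_lit 207) (nat_lit 0) (cs (lf (nat_lit 40) (nat_lit 206)) (rf (nat_lit 0)))) q92393 (by decide +kernel)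
def q92434 : Q := Q.p (nat_lit 0x70000000000200000800000000000000000000000000000000000000000000000000000000000000) (nat_lit 0x3b80000c000080000000000000000000000000000000000000000000000000000000000000000000000000) (nat_lit 5)
theorem c92434 : QOK q92434 := cut [q42395] ⟨c42395, trivial⟩ (nd (nat_lit 340) (nat_lit 0) (cs (lf (nat_lit 26) (nat_lit 251)) (rf (nat_lit 0)))) q92434 (by decide +kernel)
def q92442 : Q := Q.p (nat_lit 0x70000200000000000000000000000000000000000000000000000000000000000000000000000000) (nat_lit 0x77000088000400000000000000000000000000000000000000000000000000000000000000000000000000) (nat_lit 5)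
theorem c92442 : QOK q92442 := cut [q41749] ⟨c41749, trivial⟩ (nd (nat_lit 319) (nat_lit 0) (cs (lf (nat_lit 17) (nat_lit 294)) (rf (nat_lit 0)))) q92442 (by decide +kernel)
def q92460 : Q := Q.p (nat_lit 0x400001c000000000000000000000000000000000000000000000000000000000000000000000000000000) (nat_lit 0x8e0000300000e000000000000000000000000000000000000000000000000000000000000000000000000) (nat_lit 5)
theorem c92460 : QOK q92460 := cut [q47155] ⟨c47155, trivial⟩ (nd (nat_lit 313) (nat_lit 0) (cs (lf (nat_lit 5) (nat_lit 313)) (rf (nat_lit 0)))) q92460 (by decide +kernel)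
def q92467 : Q := Q.p (nat_lit 0x400001c000000000080002000000000000000000000000000000000000000000000000000000000000000) (nat_lit 0x4000398000e0000738000800000200000000000000000000000000000000000000000000000000000000000000) (nat_lit 6)
theorem c92467 : QOK q92467 := cut [q92463, q92464] ⟨c92463, c92464, trivial⟩ (nd (nat_lit 317) (nat_lit 0) (cs (rf (nat_lit 0)) (nd (nat_lit 292) (nat_lit 0) (cs (lf (nat_lit 23) (nat_lit 291)) (nd (nat_lit 293) (nat_lit 0) (cs (lf (nat_lit 24) (nat_lit 249)) (rf (nat_lit 1)))))))) q92467 (by decide +kernel)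
def q92586 : Q := Q.p (nat_lit 0x200007800002000000000000000000000000000000000000000000000000000000000) (nat_lit 0x100000400008000030000008000020000000000000000000000000000000000000000000000) (nat_lit 4)
theorem c92586 : QOK q92586 := cut [q92585] ⟨c92585, trivial⟩ (nd (nat_lit 232) (nat_lit 0) (cs (lf (nat_lit 17) (nat_lit 229)) (rf (nat_lit 0)))) q92586 (by decide +kernel)
def q92591 : Q := Q.p (nat_lit 0x3c00000000000000000000000000000000000000000000000000000000000000) (nat_lit 0x100001c00000200018000020000080000000000000000000000000000000000000000000000) (nat_lit 5)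
theorem c92591 : QOK q92591 := cut [q24704] ⟨c24704, trivial⟩ (nd (nat_lit 275) (nat_lit 0) (cs (lf (nat_lit 5) (nat_lit 250)) (nd (nat_lit 274) (nat_lit 0) (cs (lf (nat_lit 0) (nat_lit 249)) (rf (nat_lit 0)))))) q92591 (by decide +kernel)
def q92610 : Q := Q.p (nat_lit 0x200007800000000000000000000000000000000000000000000000000000000000000) (nat_lit 0x80000000008000007000010000040000000000000000000000000000000000000000000000) (nat_lit 4)
theorem c92610 : QOK q92610 := cut [q82229] ⟨c82229, trivial⟩ (nd (nat_lit 229) (nat_lit 0) (cs (lf (nat_lit 23) (nat_lit 228)) (rf (nat_lit 0)))) q92610 (by decide +kernel)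
def q92618 : Q := Q.p (nat_lit 0x800007800000000000000000000000000000000000000000000000000000000000000) (nat_lit 0x80000200001000000000030000040000100000000000000000000000000000000000000000000000) (nat_lit 4)
theorem c92618 : QOK q92618 := cut [q79199] ⟨c79199, trivial⟩ (nd (nat_lit 232) (nat_lit 0) (cs (lf (nat_lit 17) (nat_lit 229)) (rf (nat_lit 0)))) q92618 (by decide +kernel)
def q92647 : Q := Q.p (nat_lit 0x800002000018000000000000000000000000000000000000000000000000000) (nat_lit 0x180000600000000001800064000050000000000000000000000000000000000000000000000) (nat_lit 6)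
theorem c92647 : QOK q92647 := cut [q14678] ⟨c14678, trivial⟩ (nd (nat_lit 273) (nat_lit 0) (cs (lf (nat_lit 35) (nat_lit 185)) (nd (nat_lit 274) (nat_lit 0) (cs (lf (nat_lit 29) (nat_lit 207)) (rf (nat_lit 0)))))) q92647 (by decide +kernel)
def q92654 : Q := Q.p (nat_lit 0x3800006000018000000000000000000000000000000000000000000000000000) (nat_lit 0x80000200000000001c00007000010000000000000000000000000000000000000000000000) (nat_lit 5)
theorem c92654 : QOK q92654 := cut [q12540] ⟨c12540, trivial⟩ (nd (nat_lit 227) (nat_lit 0) (cs (lf (nat_lit 1) (nat_lit 227)) (nd (nat_lit 273) (nat_lit 0) (cs (lf (nat_lit 30) (nat_lit 207)) (rf (nat_lit 0)))))) q92654 (by decide +kernel)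
def q92699 : Q := Q.p (nat_lit 0x3800001000000000000000000000000000000000000000000000000000000000) (nat_lit 0x80000380004400000800004000010000000000000000000000000000000000000000000000) (nat_lit 5)
theorem c92699 : QOK q92699 := cut [q84283] ⟨c84283, trivial⟩ (nd (nat_lit 250) (nat_lit 0) (cs (lf (nat_lit 23) (nat_lit 227)) (rf (nat_lit 0)))) q92699 (by decide +kernel)
def q92706 : Q := Q.p (nat_lit 0x2000008000020000080000000000000000000000000000000000000000000000) (nat_lit 0x1000004000010000000000100000600001000000000000000000000000000000000000) (nat_lit 4)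
theorem c92706 : QOK q92706 := cut [q92705] ⟨c92705, trivial⟩ (nd (nat_lit 254) (nat_lit 0) (cs (lf (nat_lit 29) (nat_lit 187)) (rf (nat_lit 0)))) q92706 (by decide +kernel)
def q92710 : Q := Q.p (nat_lit 0x3000008000020000000000000000000000000000000000000000000000000000) (nat_lit 0x4000018000040000040000100001c0000700001000000000000000000000000000000000000) (nat_lit 5)
theorem c92710 : QOK q92710 := cut [q82299, q92709] ⟨c82299, c92709, trivial⟩ (nd (nat_lit 187) (nat_lit 0) (cs (rf (nat_lit 0)) (rf (nat_lit 1)))) q92710 (by decide +kernel)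
def q92717 : Q := Q.p (nat_lit 0x300001e000000000000000000000000000000000000000000000000000000000) (nat_lit 0x80000c0000000000c0000100000400000000000000000000000000000000000000000) (nat_lit 4)
theorem c92717 : QOK q92717 := cut [q79251] ⟨c79251, trivial⟩ (nd (nat_lit 254) (nat_lit 0) (cs (lf (nat_lit 18) (nat_lit 229)) (rf (nat_lit 0)))) q92717 (by decide +kernel)
def q92734 : Q := Q.p (nat_lit 0x700000c00001000004000000000000000000000000000000000000000000000000000000000) (nat_lit 0x6200018e0001000000000000000000000000000000000000000000000000000000000000000000000) (nat_lit 5)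
theorem c92734 : QOK q92734 := cut [q92732] ⟨c92732, trivial⟩ (nd (nat_lit 299) (nat_lit 0) (cs (lf (nat_lit 18) (nat_lit 274)) (nd (nat_lit 321) (nat_lit 0) (cs (lf (nat_lit 5) (nat_lit 296)) (rf (nat_lit 0)))))) q92734 (by decide +kernel)
def q92742 : Q := Q.p (nat_lit 0xc0000300000c000000000000000000000000000000000000000000000000000000000) (nat_lit 0x600001e000130000c000000000000000000000000000000000000000000000000000000000000000) (nat_lit 6)
theorem c92742 : QOK q92742 := cut [q92739] ⟨c92739, trivial⟩ (nd (nat_lit 296) (nat_lit 0) (cs (lf (nat_lit 30) (nat_lit 230)) (nd (nat_lit 295) (nat_lit 0) (cs (lf (nat_lit 41) (nat_lit 229)) (nd (nat_lit 294) (nat_lit 0) (cs (lf (nat_lit 12) (nat_lit 271)) (rf (nat_lit 0)))))))) q92742 (by decide +kernel)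
def q92770 : Q := Q.p (nat_lit 0x8000020000080000f0000000000000000000000000000000000000000000000000000) (nat_lit 0x4000010000000000e0000100000e00000000000000000000000000000000000000000000000) (nat_lit 5)
theorem c92770 : QOK q92770 := cut [q84970] ⟨c84970, trivial⟩ (nd (nat_lit 190) (nat_lit 0) (cs (lf (nat_lit 16) (nat_lit 186)) (nd (nat_lit 276) (nat_lit 0) (cs (lf (nat_lit 29) (nat_lit 209)) (rf (nat_lit 0)))))) q92770 (by decide +kernel)
def q92780 : Q := Q.p (nat_lit 0x400000c00003000008000000000000000000000000000000000000000000000000000000000) (nat_lit 0x300001f0001a0000030000c000010000000000000000000000000000000000000000000000000000000000) (nat_lit 8)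
theorem c92780 : QOK q92780 := cut [q84340] ⟨c84340, trivial⟩ (nd (nat_lit 297) (nat_lit 0) (cs (lf (nat_lit 29) (nat_lit 231)) (nd (nat_lit 319) (nat_lit 0) (cs (lf (nat_lit 42) (nat_lit 252)) (nd (nat_lit 318) (nat_lit 0) (cs (lf (nat_lit 41) (nat_lit 252)) (nd (nat_lit 316) (nat_lit 0) (cs (lf (nat_lit 13) (nat_lit 294)) (nd (nat_lit 299) (nat_lit 0) (cs (lf (nat_lit 6) (nat_lit 296)) (rf (nat_lit 0)))))))))))) q92780 (by decide +kernel)
def q92785 : Q := Q.p (nat_lit 0x800002000008000020000000000000000000000000000000000000000000000000000) (nat_lit 0x140000700001400000000000000010000040000000000000000000000000000000000000000000000) (nat_lit 5)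
theorem c92785 : QOK q92785 := cut [q11877] ⟨c11877, trivial⟩ (nd (nat_lit 296) (nat_lit 0) (cs (lf (nat_lit 40) (nat_lit 208)) (nd (nat_lit 186) (nat_lit 0) (cs (rf (nat_lit 0)) (lf (nat_lit 46) (nat_lit 186)))))) q92785 (by decide +kernel)
def q92791 : Q := Q.p (nat_lit 0x2000008000020000080000000000000000000000000000000000000000000000) (nat_lit 0x1000004000010000000000040000300000400000000000000000000000000000000000) (nat_lit 4)
theorem c92791 : QOK q92791 := cut [q80891] ⟨c80891, trivial⟩ (nd (nat_lit 254) (nat_lit 0) (cs (lf (nat_lit 29) (nat_lit 187)) (rf (nat_lit 0)))) q92791 (by decide +kernel)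
def q92798 : Q := Q.p (nat_lit 0x200000c000030000000000000000000000000000000000000000000000000000) (nat_lit 0x6000018000000000020001c0000100000000000000000000000000000000000000000000000) (nat_lit 5)
theorem c92798 : QOK q92798 := cut [q1402] ⟨c1402, trivial⟩ (nd (nat_lit 275) (nat_lit 0) (cs (lf (nat_lit 42) (nat_lit 208)) (nd (nat_lit 276) (nat_lit 0) (cs (lf (nat_lit 29) (nat_lit 209)) (rf (nat_lit 0)))))) q92798 (by decide +kernel)
def q92802 : Q := Q.p (nat_lit 0x300000c000020000080000000000000000000000000000000000000000000000) (nat_lit 0x100000c000003000000000100000400000000000000000000000000000000000000000) (nat_lit 4)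
theorem c92802 : QOK q92802 := cut [q92801] ⟨c92801, trivial⟩ (nd (nat_lit 166) (nat_lit 0) (cs (lf (nat_lit 34) (nat_lit 165)) (rf (nat_lit 0)))) q92802 (by decide +kernel)
def q92804 : Q := Q.p (nat_lit 0x300000c000020000080000000000000000000000000000000000000000000000) (nat_lit 0x100000c000003000000000040000100000000000000000000000000000000000000000) (nat_lit 4)
theorem c92804 : QOK q92804 := cut [q92801] ⟨c92801, trivial⟩ (nd (nat_lit 164) (nat_lit 0) (cs (lf (nat_lit 46) (nat_lit 164)) (rf (nat_lit 0)))) q92804 (by decide +kernel)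
def q92809 : Q := Q.p (nat_lit 0x80000200000c000030000000000000000000000000000000000000000000000000000) (nat_lit 0x700001ce000138000000000000000000000000000000000000000000000) (nat_lit 7)
theorem c92809 : QOK q92809 := cut [q85148] ⟨c85148, trivial⟩ (nd (nat_lit 210) (nat_lit 0) (cs (lf (nat_lit 35) (nat_lit 187)) (rf (nat_lit 0)))) q92809 (by decide +kernel)
def q92815 : Q := Q.p (nat_lit 0x2000008000020000080000000000000000000000000000000000000000000000) (nat_lit 0x400001800004000000000040000140000500000000000000000000000000000000000000000) (nat_lit 5)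
theorem c92815 : QOK q92815 := cut [q92814] ⟨c92814, trivial⟩ (nd (nat_lit 164) (nat_lit 0) (cs (lf (nat_lit 46) (nat_lit 164)) (rf (nat_lit 0)))) q92815 (by decide +kernel)
def q92827 : Q := Q.p (nat_lit 0x300000c000030000080000000000000000000000000000000000000000000000) (nat_lit 0x40000178000580000000000000000000000000000000000000000) (nat_lit 5)
theorem c92827 : QOK q92827 := cut [q13] ⟨c13, trivial⟩ (nd (nat_lit 166) (nat_lit 0) (cs (lf (nat_lit 34) (nat_lit 165)) (nd (nat_lit 186) (nat_lit 0) (cs (rf (nat_lit 0)) (lf (nat_lit 47) (nat_lit 164)))))) q92827 (by decide +kernel)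
def q92842 : Q := Q.p (nat_lit 0x80000300000c000000000000000000000000000000000000000000000000000000000) (nat_lit 0x180000600001000000000010000060000100000000000000000000000000000000000000000000000) (nat_lit 5)
theorem c92842 : QOK q92842 := cut [q11869] ⟨c11869, trivial⟩ (nd (nat_lit 297) (nat_lit 0) (cs (lf (nat_lit 42) (nat_lit 230)) (rf (nat_lit 0)))) q92842 (by decide +kernel)
def q92844 : Q := Q.p (nat_lit 0x80000300000c000000000000000000000000000000000000000000000000000000000) (nat_lit 0x130001f00001c0000300000000000000000000000000000000000000000) (nat_lit 5)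
theorem c92844 : QOK q92844 := cut [q91450, q92843] ⟨c91450, c92843, trivial⟩ (nd (nat_lit 209) (nat_lit 0) (cs (rf (nat_lit 0)) (rf (nat_lit 1)))) q92844 (by decide +kernel)
def q92864 : Q := Q.p (nat_lit 0xf00000c000020000180000000000000000000000000000000000000000000000) (nat_lit 0x800000000060000018000640000100000000000000000000000000000000000000000) (nat_lit 5)
theorem c92864 : QOK q92864 := cut [q92167] ⟨c92167, trivial⟩ (nd (nat_lit 233) (nat_lit 0) (cs (lf (nat_lit 17) (nat_lit 230)) (rf (nat_lit 0)))) q92864 (by decide +kernel)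
def q92906 : Q := Q.p (nat_lit 0x300000c000020000000000000000000000000000000000000000000000000000) (nat_lit 0x8000000000000000500000f8000380000000000000000000000000000000000000000) (nat_lit 6)
theorem c92906 : QOK q92906 := cut [q13] ⟨c13, trivial⟩ (nd (nat_lit 187) (nat_lit 0) (cs (lf (nat_lit 36) (nat_lit 164)) (nd (nat_lit 186) (nat_lit 0) (cs (lf (nat_lit 47) (nat_lit 164)) (nd (nat_lit 208) (nat_lit 0) (cs (rf (nat_lit 0)) (lf (nat_lit 29) (nat_lit 186)))))))) q92906 (by decide +kernel)
def q92916 : Q := Q.p (nat_lit 0x300000c000020000000000000000000000000000000000000000000000000000) (nat_lit 0x100000c000003000000000080000200000000000000000000000000000000000000000) (nat_lit 4)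
theorem c92916 : QOK q92916 := cut [q92801] ⟨c92801, trivial⟩ (nd (nat_lit 187) (nat_lit 0) (cs (lf (nat_lit 36) (nat_lit 164)) (rf (nat_lit 0)))) q92916 (by decide +kernel)
def q92926 : Q := Q.p (nat_lit 0x40000300000c000010000000000000000000000000000000000000000000000000000) (nat_lit 0x8000038000c00000380002e0001b8000600001000000000000000000000000000000000000) (nat_lit 9)
theorem c92926 : QOK q92926 := cut [q82300, q85038] ⟨c82300, c85038, trivial⟩ (nd (nat_lit 209) (nat_lit 0) (cs (rf (nat_lit 0)) (rf (nat_lit 1)))) q92926 (by decide +kernel)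
def q92937 : Q := Q.p (nat_lit 0x300000c000020000000000000000000000000000000000000000000000000000) (nat_lit 0x400001000004000006000738001df000020000080000000000000000000000000000000000000000) (nat_lit 8)
theorem c92937 : QOK q92937 := cut [q82279, q91265, q80982, q85172, q84425] ⟨c82279, c91265, c80982, c85172, c84425, trivial⟩ (nd (nat_lit 274) (nat_lit 0) (cs (rf (nat_lit 0)) (nd (nat_lit 229) (nat_lit 0) (cs (rf (nat_lit 1)) (cs (nd (nat_lit 207) (nat_lit 0) (cs (rf (nat_lit 2)) (cs (rf (nat_lit 3)) (nd (nat_lit 163) (nat_lit 0) (cs (lf (nat_lit 25) (nat_lit 163)) (nd (nat_lit 232) (nat_lit 0) (cs (lf (nat_lit 23) (nat_lit 206)) (rf (nat_lit 4))))))))) (nd (nat_lit 228) (nat_lit 0) (cs (lf (nat_lit 0) (nat_lit 227)) (nd (nat_lit 249) (nat_lit 0) (cs (lf (nat_lit 10) (nat_lit 227)) (nd (nat_lit 206) (nat_lit 0) (cs (lf (nat_lit 23) (nat_lit 205)) (nd (nat_lit 207) (nat_lit 0) (cs (lf (nat_lit 18) (nat_lit 206)) (rf (nat_lit 2))))))))))))))) q92937 (by decide +kernel)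
def q92963 : Q := Q.p (nat_lit 0x40000300001c000000000000000000000000000000000000000000000000000000000) (nat_lit 0x120001c0000600001a0000280000800000000000000000000000000000000000000000) (nat_lit 7)
theorem c92963 : QOK q92963 := cut [q92960] ⟨c92960, trivial⟩ (nd (nat_lit 233) (nat_lit 0) (cs (lf (nat_lit 6) (nat_lit 230)) (nd (nat_lit 211) (nat_lit 0) (cs (lf (nat_lit 17) (nat_lit 208)) (nd (nat_lit 187) (nat_lit 0) (cs (lf (nat_lit 37) (nat_lit 186)) (rf (nat_lit 0)))))))) q92963 (by decide +kernel)
def q92991 : Q := Q.p (nat_lit 0x800002000008000020000000000000000000000000000000000000000000000000000) (nat_lit 0x100000600001000000000004000050000140000000000000000000000000000000000000000000000) (nat_lit 5)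
theorem c92991 : QOK q92991 := cut [q92989] ⟨c92989, trivial⟩ (nd (nat_lit 298) (nat_lit 0) (cs (lf (nat_lit 28) (nat_lit 209)) (nd (nat_lit 188) (nat_lit 0) (cs (lf (nat_lit 34) (nat_lit 187)) (rf (nat_lit 0)))))) q92991 (by decide +kernel)
def q92994 : Q := Q.p (nat_lit 0x800003000008000020000000000000000000000000000000000000000000000000000) (nat_lit 0x20000180000700001400000000004000000000000000000000000000000000000000000000000000000000) (nat_lit 5)
theorem c92994 : QOK q92994 := cut [q92993] ⟨c92993, trivial⟩ (nd (nat_lit 274) (nat_lit 0) (cs (lf (nat_lit 41) (nat_lit 208)) (rf (nat_lit 0)))) q92994 (by decide +kernel)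
def q92998 : Q := Q.p (nat_lit 0x3000008000038000000000000000000000000000000000000000000000000000) (nat_lit 0x4000000000340000c0000370000500000000000000000000000000000000000000000) (nat_lit 5)
theorem c92998 : QOK q92998 := cut [q108, q85069] ⟨c108, c85069, trivial⟩ (nd (nat_lit 210) (nat_lit 0) (cs (rf (nat_lit 0)) (rf (nat_lit 1)))) q92998 (by decide +kernel)
def q93011 : Q := Q.p (nat_lit 0x3000008000020000040000000000000000000000000000000000000000000000) (nat_lit 0x100001c0000700001800000000004000010000000000000000000000000000000000000000000000000000) (nat_lit 6)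
theorem c93011 : QOK q93011 := cut [q93010] ⟨c93010, trivial⟩ (nd (nat_lit 275) (nat_lit 0) (cs (lf (nat_lit 46) (nat_lit 186)) (rf (nat_lit 0)))) q93011 (by decide +kernel)
def q93043 : Q := Q.p (nat_lit 0x7000008000060000000000000000000000000000000000000000000000000000) (nat_lit 0x1d0000380000f6000180000600001800004000000000000000000000000000000000000) (nat_lit 8)
theorem c93043 : QOK q93043 := cut [q84925, q80393, q93042] ⟨c84925, c80393, c93042, trivial⟩ (nd (nat_lit 255) (nat_lit 0) (cs (rf (nat_lit 0)) (cs (nd (nat_lit 233) (nat_lit 0) (cs (lf (nat_lit 17) (nat_lit 230)) (nd (nat_lit 230) (nat_lit 0) (cs (lf (nat_lit 23) (nat_lit 229)) (nd (nat_lit 211) (nat_lit 0) (cs (lf (nat_lit 6) (nat_lit 208)) (rf (nat_lit 1)))))))) (rf (nat_lit 2))))) q93043 (by decide +kernel)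
def q93064 : Q := Q.p (nat_lit 0xc000038000040000100000000000000000000000000000000000000000000000) (nat_lit 0x1000000000000000780001e80001a00000000000000000000000000000000000000000) (nat_lit 7)
theorem c93064 : QOK q93064 := cut [q93063] ⟨c93063, trivial⟩ (nd (nat_lit 165) (nat_lit 0) (cs (lf (nat_lit 46) (nat_lit 165)) (rf (nat_lit 0)))) q93064 (by decide +kernel)
def q93074 : Q := Q.p (nat_lit 0xf000038000000000000000000000000000000000000000000000000000000000) (nat_lit 0x1000000000006000180000200000800000000000000000000000000000000000000000) (nat_lit 4)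
theorem c93074 : QOK q93074 := cut [q79237] ⟨c79237, trivial⟩ (nd (nat_lit 230) (nat_lit 0) (cs (lf (nat_lit 23) (nat_lit 229)) (rf (nat_lit 0)))) q93074 (by decide +kernel)
def q93137 : Q := Q.p (nat_lit 0x400007000008000000000000000000000000000000000000000000000000000000000) (nat_lit 0x4000010001c2000380000f0000000000000000000000000000000000000000000000000000000000) (nat_lit 7)
theorem c93137 : QOK q93137 := cut [q93133] ⟨c93133, trivial⟩ (nd (nat_lit 255) (nat_lit 0) (cs (lf (nat_lit 11) (nat_lit 251)) (nd (nat_lit 234) (nat_lit 0) (cs (lf (nat_lit 16) (nat_lit 230)) (nd (nat_lit 296) (nat_lit 0) (cs (lf (nat_lit 30) (nat_lit 230)) (nd (nat_lit 256) (nat_lit 0) (cs (lf (nat_lit 17) (nat_lit 231)) (rf (nat_lit 0)))))))))) q93137 (by decide +kernel)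
def q93141 : Q := Q.p (nat_lit 0x7000008000000000000000000000000000000000000000000000000000000000) (nat_lit 0x40000100000e00018000006000020000080000000000000000000000000000000000000000000000) (nat_lit 4)
theorem c93141 : QOK q93141 := cut [q80881, q93140] ⟨c80881, c93140, trivial⟩ (nd (nat_lit 274) (nat_lit 0) (cs (rf (nat_lit 0)) (rf (nat_lit 1)))) q93141 (by decide +kernel)
def q93179 : Q := Q.p (nat_lit 0x3000008000020000000000000000000000000000000000000000000000000000) (nat_lit 0x400001800004000014000040000180000600001000000000000000000000000000000000000) (nat_lit 5)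
theorem c93179 : QOK q93179 := cut [q82299, q92814, q80706] ⟨c82299, c92814, c80706, trivial⟩ (nd (nat_lit 187) (nat_lit 0) (cs (rf (nat_lit 0)) (cs (rf (nat_lit 1)) (nd (nat_lit 254) (nat_lit 0) (cs (lf (nat_lit 29) (nat_lit 187)) (rf (nat_lit 2))))))) q93179 (by decide +kernel)

end Crest.Agent.H3.Snaky.CR
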