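import Crest.Agent.H3.Snaky.Cert
import Crest.Agent.H3.Snaky.CR.CR0
import Crest.Agent.H3.Snaky.CR.CR3
import Crest.Agent.H3.Snaky.CR.CR4
import Crest.Agent.H3.Snaky.CR.CR6
import Crest.Agent.H3.Snaky.CR.CR9
import Crest.Agent.H3.Snaky.CR.CR10
import Crest.Agent.H3.Snaky.CR.CR12
import Crest.Agent.H3.Snaky.CR.CR15
import Crest.Agent.H3.Snaky.CR.CR16
import Crest.Agent.H3.Snaky.CR.CR17
import Crest.Agent.H3.Snaky.CR.CR18
import Crest.Agent.H3.Snaky.CR.CR20
import Crest.Agent.H3.Snaky.CR.CR21
import Crest.Agent.H3.Snaky.CR.CR22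
import Crest.Agent.H3.Snaky.CR.CR23
import Crest.Agent.H3.Snaky.CR.CR24
import Crest.Agent.H3.Snaky.CR.CR25
import Crest.Agent.H3.Snaky.CR.CR27
import Crest.Agent.H3.Snaky.CR.CR28
import Crest.Agent.H3.Snaky.CR.CR29
import Crest.Agent.H3.Snaky.CR.CR30
import Crest.Agent.H3.Snaky.CR.CR33
import Crest.Agent.H3.Snaky.CR.CR34
import Crest.Agent.H3.Snaky.CR.CR35
import Crest.Agent.H3.Snaky.CR.CR36
import Crest.Agent.H3.Snaky.CR.CR37

set_option autoImplicit false
set_option maxRecDepth 100000

namespace Crest.Agent.H3.Snaky.CR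

open T

def q93183 : Q := Q.p (nat_lit 0x3000008000060000000000000000000000000000000000000000000000000000) (nat_lit 0x180000700001c00000000004000010000100000000000000000000000000000000000000000000000) (nat_lit 6)
theorem c93183 : QOK q93183 := cut [q93181] ⟨c93181, trivial⟩ (nd (nat_lit 275) (nat_lit 0) (cs (lf (nat_lit 35) (nat_lit 187)) (nd (nat_lit 274) (nat_lit 0) (cs (lf (nat_lit 41) (nat_lit 208)) (rf (nat_lit 0)))))) q93183 (by decide +kernel)
def q93201 : Q := Q.p (nat_lit 0x380000e0000000000000000000000000000000000000000000000000000) (nat_lit 0x4000006000018000600000800002000000000000000000000000000000000000) (nat_lit 5)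
theorem c93201 : QOK q93201 := cut [q93199] ⟨c93199, trivial⟩ (nd (nat_lit 208) (nat_lit 0) (cs (lf (nat_lit 0) (nat_lit 207)) (nd (nat_lit 229) (nat_lit 0) (cs (lf (nat_lit 13) (nat_lit 207)) (rf (nat_lit 0)))))) q93201 (by decide +kernel)
def q93215 : Q := Q.p (nat_lit 0x1c0000b000000000000000000000000000000000000000000000000000000000000000) (nat_lit 0xe0000380004000000000000000000000000000000000000000000000000000000000000000) (nat_lit 4)
theorem c93215 : QOK q93215 := cut [q12665] ⟨c12665, trivial⟩ (nd (nat_lit 273) (nat_lit 0) (cs (rf (nat_lit 0)) (lf (nat_lit 16) (nat_lit 251)))) q93215 (by decide +kernel)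
def q93259 : Q := Q.p (nat_lit 0x400007000008000000000000000000000000000000000000000000000000000000000) (nat_lit 0x1ca000380000d0000000000000000000000000000000000000000000000000000000000) (nat_lit 6)
theorem c93259 : QOK q93259 := cut [q93133] ⟨c93133, trivial⟩ (nd (nat_lit 255) (nat_lit 0) (cs (lf (nat_lit 11) (nat_lit 251)) (nd (nat_lit 256) (nat_lit 0) (cs (lf (nat_lit 10) (nat_lit 252)) (nd (nat_lit 234) (nat_lit 0) (cs (lf (nat_lit 17) (nat_lit 231)) (rf (nat_lit 0)))))))) q93259 (by decide +kernel)
def q93264 : Q := Q.p (nat_lit 0x800002000008000020000000000000000000000000000000000000000000000000000) (nat_lit 0x100000600001000000000010000050000140000000000000000000000000000000000000000000000) (nat_lit 5)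
theorem c93264 : QOK q93264 := cut [q26052] ⟨c26052, trivial⟩ (nd (nat_lit 298) (nat_lit 0) (cs (lf (nat_lit 28) (nat_lit 209)) (nd (nat_lit 186) (nat_lit 0) (cs (rf (nat_lit 0)) (lf (nat_lit 46) (nat_lit 186)))))) q93264 (by decide +kernel)
def q93285 : Q := Q.p (nat_lit 0x80000200000800002000000000000000000000000000000000000000000000000000000000) (nat_lit 0x14000070000140000000000000000000000000000000000000000000000000000000000000000000000000) (nat_lit 4)
theorem c93285 : QOK q93285 := cut [q44433] ⟨c44433, trivial⟩ (nd (nat_lit 318) (nat_lit 0) (cs (lf (nat_lit 28) (nat_lit 229)) (rf (nat_lit 0)))) q93285 (by decide +kernel)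
def q93400 : Q := Q.p (nat_lit 0x200000080000000001c000040000000000000000000000000000000000000000) (nat_lit 0x2000080000738000e0000398000040000000000000000000000000000000000) (nat_lit 6)
theorem c93400 : QOK q93400 := cut [q93395] ⟨c93395, trivial⟩ (nd (nat_lit 185) (nat_lit 0) (cs (nd (nat_lit 205) (nat_lit 0) (cs (lf (nat_lit 30) (nat_lit 161)) (nd (nat_lit 204) (nat_lit 0) (cs (lf (nat_lit 11) (nat_lit 181)) (lf (nat_lit 6) (nat_lit 182)))))) (cs (rf (nat_lit 0)) (nd (nat_lit 163) (nat_lit 0) (cs (lf (nat_lit 17) (nat_lit 160)) (nd (nat_lit 204) (nat_lit 0) (cs (lf (nat_lit 11) (nat_lit 181)) (nd (nat_lit 205) (nat_lit 0) (cs (lf (nat_lit 30) (nat_lit 161)) (nd (nat_lit 160) (nat_lit 0) (cs (lf (nat_lit 23) (nat_lit 159)) (lf (nat_lit 24) (nat_lit 138))))))))))))) q93400 (by decide +kernel)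
def q93508 : Q := Q.p (nat_lit 0x3c00000000000000000000000000000000000000000000000000000000000000) (nat_lit 0x180000020001dc00000000000000000000000000000000000000000000000000000000) (nat_lit 5)
theorem c93508 : QOK q93508 := cut [q6263] ⟨c6263, trivial⟩ (nd (nat_lit 227) (nat_lit 0) (cs (lf (nat_lit 22) (nat_lit 227)) (nd (nat_lit 275) (nat_lit 0) (cs (lf (nat_lit 5) (nat_lit 250)) (rf (nat_lit 0)))))) q93508 (by decide +kernel)
def q93524 : Q := Q.p (nat_lit 0x3c00000000000000000000000000000000000000000000000000000000000000) (nat_lit 0x1c0000f00007c0001b8000400000600001c000070000000000000000000000000000000000000000000000) (nat_lit 11)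
theorem c93524 : QOK q93524 := cut [q85528, q44444, q82405, q86851] ⟨c85528, c44444, c82405, c86851, trivial⟩ (nd (nat_lit 272) (nat_lit 0) (cs (lf (nat_lit 11) (nat_lit 249)) (nd (nat_lit 273) (nat_lit 0) (cs (lf (nat_lit 6) (nat_lit 250)) (nd (nat_lit 229) (nat_lit 0) (cs (rf (nat_lit 0)) (cs (nd (nat_lit 275) (nat_lit 0) (cs (lf (nat_lit 5) (nat_lit 250)) (nd (nat_lit 207) (nat_lit 0) (cs (lf (nat_lit 36) (nat_lit 184)) (nd (nat_lit 184) (nat_lit 0) (cs (lf (nat_lit 46) (nat_lit 184)) (nd (nat_lit 208) (nat_lit 0) (cs (lf (nat_lit 35) (nat_lit 185)) (nd (nat_lit 295) (nat_lit 0) (cs (lf (nat_lit 34) (nat_lit 207)) (nd (nat_lit 318) (nat_lit 0) (cs (lf (nat_lit 28) (nat_lit 229)) (rf (nat_lit 1)))))))))))))) (nd (nat_lit 295) (nat_lit 0) (cs (rf (nat_lit 2)) (cs (rf (nat_lit 3)) (nd (nat_lit 294) (nat_lit 0) (cs (lf (nat_lit 30) (nat_lit 228)) (nd (nat_lit 230) (nat_lit 0) (cs (lf (nat_lit 35) (nat_lit 207)) (nd (nat_lit 275) (nat_lit 0) (cs (lf (nat_lit 5) (nat_lit 250)) (nd (nat_lit 297) (nat_lit 0) (cs (lf (nat_lit 42)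 (nat_lit 230)) (nd (nat_lit 296) (nat_lit 0) (cs (lf (nat_lit 29) (nat_lit 229)) (lf (nat_lit 18) (nat_lit 272)))))))))))))))))))))) q93524 (by decide +kernel)
def q93527 : Q := Q.p (nat_lit 0x3c00000000000000000000000000000000000000000000000000000000000000) (nat_lit 0x18e000030000fc00000000000000000000000000000000000000000000000000000000) (nat_lit 7)
theorem c93527 : QOK q93527 := cut [q85544] ⟨c85544, trivial⟩ (nd (nat_lit 275) (nat_lit 0) (cs (lf (nat_lit 5) (nat_lit 250)) (rf (nat_lit 0)))) q93527 (by decide +kernel)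
def q93535 : Q := Q.p (nat_lit 0x3c00000000000000000000000000000000000000000000000000000000000000) (nat_lit 0x80000280001b0000c30000fc00010000040000000000000000000000000000000000000000000000) (nat_lit 10)
theorem c93535 : QOK q93535 := cut [q93528] ⟨c93528, trivial⟩ (nd (nat_lit 275) (nat_lit 0) (cs (lf (nat_lit 5) (nat_lit 250)) (nd (nat_lit 227) (nat_lit 0) (cs (lf (nat_lit 22) (nat_lit 227)) (nd (nat_lit 249) (nat_lit 0) (cs (lf (nat_lit 23) (nat_lit 226)) (nd (nat_lit 230) (nat_lit 0) (cs (lf (nat_lit 17) (nat_lit 227)) (nd (nat_lit 297) (nat_lit 0) (cs (lf (nat_lit 42) (nat_lit 230)) (nd (nat_lit 208) (nat_lit 0) (cs (lf (nat_lit 24) (nat_lit 186)) (nd (nat_lit 229) (nat_lit 0) (cs (lf (nat_lit 12) (nat_lit 226)) (rf (nat_lit 0)))))))))))))))) q93535 (by decide +kernel)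
def q93545 : Q := Q.p (nat_lit 0x3c00000000000000000000000000000000000000000000000000000000000000) (nat_lit 0x20000080001b00004000003800004000010000000000000000000000000000000000000000000000) (nat_lit 6)
theorem c93545 : QOK q93545 := cut [q85572, q14767] ⟨c85572, c14767, trivial⟩ (nd (nat_lit 228) (nat_lit 0) (cs (lf (nat_lit 23) (nat_lit 227)) (nd (nat_lit 273) (nat_lit 0) (cs (rf (nat_lit 0)) (cs (nd (nat_lit 275) (nat_lit 0) (cs (lf (nat_lit 5) (nat_lit 250)) (nd (nat_lit 295) (nat_lit 0) (cs (lf (nat_lit 42) (nat_lit 228)) (nd (nat_lit 272) (nat_lit 0) (cs (lf (nat_lit 24) (nat_lit 206)) (lf (nat_lit 6) (nat_lit 250)))))))) (nd (nat_lit 275) (nat_lit 0) (cs (lf (nat_lit 5) (nat_lit 250)) (rf (nat_lit 1))))))))) q93545 (by decide +kernel)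
def q93563 : Q := Q.p (nat_lit 0x3000004000010000000000000000000000000000000000000000000000000000) (nat_lit 0x800006000008000080000080000e0000380000a00000000000000000000000000000000000) (nat_lit 6)
theorem c93563 : QOK q93563 := cut [q25, q79032, q371] ⟨c25, c79032, c371, trivial⟩ (nd (nat_lit 186) (nat_lit 0) (cs (rf (nat_lit 0)) (cs (rf (nat_lit 1)) (nd (nat_lit 165) (nat_lit 0) (cs (lf (nat_lit 34) (nat_lit 164)) (rf (nat_lit 2))))))) q93563 (by decide +kernel)
def q93595 : Q := Q.p (nat_lit 0x300001c000000000000000000000000000000000000000000000000000000000) (nat_lit 0x180000638001ce000000000000000000000000000000000000000000000000000) (nat_lit 7)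
theorem c93595 : QOK q93595 := cut [q91239] ⟨c91239, trivial⟩ (nd (nat_lit 233) (nat_lit 0) (cs (lf (nat_lit 6) (nat_lit 230)) (nd (nat_lit 255) (nat_lit 0) (cs (lf (nat_lit 5) (nat_lit 230)) (nd (nat_lit 211) (nat_lit 0) (cs (lf (nat_lit 17) (nat_lit 208)) (nd (nat_lit 229) (nat_lit 0) (cs (lf (nat_lit 16) (nat_lit 207)) (rf (nat_lit 0)))))))))) q93595 (by decide +kernel)
def q93598 : Q := Q.p (nat_lit 0x380001e000000000000000000000000000000000000000000000000000000000) (nat_lit 0x200000c000000000000000cc000120000480000000000000000000000000000000000000000) (nat_lit 6)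
theorem c93598 : QOK q93598 := cut [q81735] ⟨c81735, trivial⟩ (nd (nat_lit 210) (nat_lit 0) (cs (lf (nat_lit 17) (nat_lit 207)) (nd (nat_lit 166) (nat_lit 0) (cs (lf (nat_lit 37) (nat_lit 165)) (nd (nat_lit 275) (nat_lit 0) (cs (lf (nat_lit 30) (nat_lit 209)) (rf (nat_lit 0)))))))) q93598 (by decide +kernel)
def q93612 : Q := Q.p (nat_lit 0x20000380000e000020000000000000000000000000000000000000000000000000000) (nat_lit 0x140000580000000000000008000020000000000000000000000000000000000000000000000) (nat_lit 4)
theorem c93612 : QOK q93612 := cut [q90271] ⟨c90271, trivial⟩ (nd (nat_lit 274) (nat_lit 0) (cs (lf (nat_lit 30) (nat_lit 208)) (rf (nat_lit 0)))) q93612 (by decide +kernel)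
def q93679 : Q := Q.p (nat_lit 0x400003000004000010000000000000000000000000000000000000000000000000000) (nat_lit 0x300003e00003e0001a00000e00002000020000080000000000000000000000000000000000000000000000) (nat_lit 11)
theorem c93679 : QOK q93679 := cut [q13045] ⟨c13045, trivial⟩ (nd (nat_lit 295) (nat_lit 0) (cs (lf (nat_lit 40) (nat_lit 207)) (nd (nat_lit 275) (nat_lit 0) (cs (lf (nat_lit 29) (nat_lit 208)) (nd (nat_lit 187) (nat_lit 0) (cs (lf (nat_lit 34) (nat_lit 186)) (nd (nat_lit 296) (nat_lit 0) (cs (lf (nat_lit 41) (nat_lit 229)) (nd (nat_lit 318) (nat_lit 0) (cs (lf (nat_lit 30) (nat_lit 252)) (nd (nat_lit 319) (nat_lit 0) (cs (lf (nat_lit 29) (nat_lit 252)) (nd (nat_lit 320) (nat_lit 0) (cs (lf (nat_lit 18) (nat_lit 295)) (nd (nat_lit 293) (nat_lit 0) (cs (rf (nat_lit 0)) (lf (nat_lit 1) (nat_lit 293)))))))))))))))))) q93679 (by decide +kernel)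
def q93692 : Q := Q.p (nat_lit 0x300000c000020000000000000000000000000000000000000000000000000000) (nat_lit 0x8000000000030001d0000180000600000000000000000000000000000000000000000) (nat_lit 6)
theorem c93692 : QOK q93692 := cut [q85178] ⟨c85178, trivial⟩ (nd (nat_lit 187) (nat_lit 0) (cs (lf (nat_lit 36) (nat_lit 164)) (nd (nat_lit 188) (nat_lit 0) (cs (lf (nat_lit 35) (nat_lit 165)) (nd (nat_lit 210) (nat_lit 0) (cs (lf (nat_lit 30) (nat_lit 187)) (rf (nat_lit 0)))))))) q93692 (by decide +kernel)
def q93713 : Q := Q.p (nat_lit 0x40000300000400001c000000000000000000000000000000000000000000000000000) (nat_lit 0x20000080000000001b8001e0000198000000000000000000000000000000000000000000000) (nat_lit 8)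
theorem c93713 : QOK q93713 := cut [q1402] ⟨c1402, trivial⟩ (nd (nat_lit 209) (nat_lit 0) (cs (lf (nat_lit 35) (nat_lit 186)) (nd (nat_lit 275) (nat_lit 0) (cs (lf (nat_lit 29) (nat_lit 208)) (nd (nat_lit 227) (nat_lit 0) (cs (lf (nat_lit 10) (nat_lit 205)) (nd (nat_lit 183) (nat_lit 0) (cs (lf (nat_lit 22) (nat_lit 183)) (nd (nat_lit 231) (nat_lit 0) (cs (lf (nat_lit 5) (nat_lit 206)) (rf (nat_lit 0)))))))))))) q93713 (by decide +kernel)
def q93728 : Q := Q.p (nat_lit 0xc00003000004000010000000000000000000000000000000000000000000000000000) (nat_lit 0xce0001380000e00008000020000080000000000000000000000000000000000000000000000) (nat_lit 8)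
theorem c93728 : QOK q93728 := cut [q1306] ⟨c1306, trivial⟩ (nd (nat_lit 209) (nat_lit 0) (cs (lf (nat_lit 35) (nat_lit 186)) (rf (nat_lit 0)))) q93728 (by decide +kernel)
def q93737 : Q := Q.p (nat_lit 0x400003000004000010000000000000000000000000000000000000000000000000000) (nat_lit 0x700001800000c000780001e80001a0000000000000000000000000000000000000000000000) (nat_lit 10)
theorem c93737 : QOK q93737 := cut [q85510] ⟨c85510, trivial⟩ (nd (nat_lit 275) (nat_lit 0) (cs (lf (nat_lit 29) (nat_lit 208)) (nd (nat_lit 185) (nat_lit 0) (cs (lf (nat_lit 46) (nat_lit 185)) (nd (nat_lit 209) (nat_lit 0) (cs (lf (nat_lit 35) (nat_lit 186)) (nd (nat_lit 231) (nat_lit 0) (cs (lf (nat_lit 30) (nat_lit 208)) (nd (nat_lit 276) (nat_lit 0) (cs (lf (nat_lit 29) (nat_lit 209)) (nd (nat_lit 251) (nat_lit 0) (cs (lf (nat_lit 0) (nat_lit 250)) (nd (nat_lit 233) (nat_lit 0) (cs (lf (nat_lit 7) (nat_lit 229)) (rf (nat_lit 0)))))))))))))))) q93737 (by decide +kernel)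
def q93741 : Q := Q.p (nat_lit 0x400003000004000010000000000000000000000000000000000000000000000000000) (nat_lit 0x80000300000e0000180000a000000000080000280000a0000000000000000000000000000000000000000000000) (nat_lit 8)
theorem c93741 : QOK q93741 := cut [q46633] ⟨c46633, trivial⟩ (nd (nat_lit 295) (nat_lit 0) (cs (lf (nat_lit 40) (nat_lit 207)) (nd (nat_lit 187) (nat_lit 0) (cs (lf (nat_lit 34) (nat_lit 186)) (nd (nat_lit 185) (nat_lit 0) (cs (lf (nat_lit 46) (nat_lit 185)) (nd (nat_lit 296) (nat_lit 0) (cs (lf (nat_lit 41) (nat_lit 229)) (rf (nat_lit 0)))))))))) q93741 (by decide +kernel)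
def q93761 : Q := Q.p (nat_lit 0x40000300000c000010000000000000000000000000000000000000000000000000000) (nat_lit 0x800003800000000038001ee0007b8000200000000000000000000000000000000000000000) (nat_lit 11)
theorem c93761 : QOK q93761 := cut [q80169, q88132] ⟨c80169, c88132, trivial⟩ (nd (nat_lit 209) (nat_lit 0) (cs (rf (nat_lit 0)) (rf (nat_lit 1)))) q93761 (by decide +kernel)
def q93789 : Q := Q.p (nat_lit 0x300001c0000000000c0000000000000000000000000000000000000000000000) (nat_lit 0xc000020003c0001f20003fc0000000000000000000000000000000000000000) (nat_lit 9)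
theorem c93789 : QOK q93789 := cut [q2647, q20766, q85607, q85617, q85611] ⟨c2647, c20766, c85607, c85617, c85611, trivial⟩ (nd (nat_lit 188) (nat_lit 0) (cs (nd (nat_lit 166) (nat_lit 0) (cs (rf (nat_lit 0)) (lf (nat_lit 38) (nat_lit 165)))) (cs (nd (nat_lit 189) (nat_lit 0) (cs (nd (nat_lit 211) (nat_lit 0) (cs (lf (nat_lit 5) (nat_lit 186)) (nd (nat_lit 210) (nat_lit 0) (cs (lf (nat_lit 0) (nat_lit 185)) (lf (nat_lit 12) (nat_lit 207)))))) (nd (nat_lit 250) (nat_lit 0) (cs (lf (nat_lit 13) (nat_lit 228)) (rf (nat_lit 1)))))) (cs (nd (nat_lit 189) (nat_lit 0) (cs (rf (nat_lit 1)) (cs (nd (nat_lit 250) (nat_lit 0) (cs (lf (nat_lit 13) (nat_lit 228)) (nd (nat_lit 164) (nat_lit 0) (cs (lf (nat_lit 23) (nat_lit 163)) (nd (nat_lit 212) (nat_lit 0) (cs (lf (nat_lit 4) (nat_lit 186)) (rf (nat_lit 2)))))))) (cs (nd (nat_lit 211) (nat_lit 0) (cs (lf (nat_lit 5) (nat_lit 186)) (rf (nat_lit 3)))) (nd (nat_lit 167) (nat_lit 0) (cs (lf (nat_lit 17) (nat_lit 164)) (nd (nat_lit 166) (nat_lit 0) (cs (lf (nat_lit 12) (nat_lit 163)) (nd (nat_lit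 250) (nat_lit 0) (cs (lf (nat_lit 13) (nat_lit 228)) (rf (nat_lit 4)))))))))))) (nd (nat_lit 250) (nat_lit 0) (cs (lf (nat_lit 13) (nat_lit 228)) (nd (nat_lit 210) (nat_lit 0) (cs (lf (nat_lit 36) (nat_lit 165)) (nd (nat_lit 211) (nat_lit 0) (cs (lf (nat_lit 12) (nat_lit 207)) (nd (nat_lit 212) (nat_lit 0) (cs (lf (nat_lit 6) (nat_lit 209)) (lf (nat_lit 3) (nat_lit 186)))))))))))))) q93789 (by decide +kernel)
def q93808 : Q := Q.p (nat_lit 0x300001e000020000000000000000000000000000000000000000000000000000) (nat_lit 0x200000c000000001dc0007c0000700000000000000000000000000000000000000000) (nat_lit 9)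
theorem c93808 : QOK q93808 := cut [q93807] ⟨c93807, trivial⟩ (nd (nat_lit 251) (nat_lit 0) (cs (lf (nat_lit 11) (nat_lit 228)) (rf (nat_lit 0)))) q93808 (by decide +kernel)
def q93830 : Q := Q.p (nat_lit 0x400003000004000010000000000000000000000000000000000000000000000000000) (nat_lit 0x20000180000e0000f8000038000080000a000008000020000000000000000000000000000000000000000000000) (nat_lit 10)
theorem c93830 : QOK q93830 := cut [q5049] ⟨c5049, trivial⟩ (nd (nat_lit 273) (nat_lit 0) (cs (lf (nat_lit 41) (nat_lit 207)) (nd (nat_lit 271) (nat_lit 0) (cs (lf (nat_lit 13) (nat_lit 249)) (nd (nat_lit 207) (nat_lit 0) (cs (lf (nat_lit 47) (nat_lit 185)) (nd (nat_lit 296) (nat_lit 0) (cs (lf (nat_lit 46) (nat_lit 207)) (nd (nat_lit 297) (nat_lit 0) (cs (lf (nat_lit 29) (nat_lit 230)) (rf (nat_lit 0)))))))))))) q93830 (by decide +kernel)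
def q93835 : Q := Q.p (nat_lit 0x100000400001c000000000000000000000000000000000000000000000000000) (nat_lit 0x200000c00000000001c000220000bc000000000000000000000000000000000000000000000) (nat_lit 7)
theorem c93835 : QOK q93835 := cut [q117] ⟨c117, trivial⟩ (nd (nat_lit 274) (nat_lit 0) (cs (lf (nat_lit 47) (nat_lit 185)) (nd (nat_lit 209) (nat_lit 0) (cs (lf (nat_lit 35) (nat_lit 186)) (nd (nat_lit 275) (nat_lit 0) (cs (rf (nat_lit 0)) (lf (nat_lit 29) (nat_lit 208)))))))) q93835 (by decide +kernel)
def q93851 : Q := Q.p (nat_lit 0x100000400001c000000000000000000000000000000000000000000000000000) (nat_lit 0x400000000008e00003800037000080000200000000000000000000000000000000000) (nat_lit 8)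
theorem c93851 : QOK q93851 := cut [q900] ⟨c900, trivial⟩ (nd (nat_lit 185) (nat_lit 0) (cs (lf (nat_lit 42) (nat_lit 185)) (nd (nat_lit 141) (nat_lit 0) (cs (lf (nat_lit 25) (nat_lit 141)) (nd (nat_lit 205) (nat_lit 0) (cs (lf (nat_lit 5) (nat_lit 205)) (nd (nat_lit 226) (nat_lit 0) (cs (lf (nat_lit 10) (nat_lit 204)) (nd (nat_lit 204) (nat_lit 0) (cs (lf (nat_lit 11) (nat_lit 203)) (rf (nat_lit 0)))))))))))) q93851 (by decide +kernel)
def q93876 : Q := Q.p (nat_lit 0x180000300000c000030000000000000000000000000000000000000000000000000000) (nat_lit 0xc000020001c0000100000000000000000000000000000000000000000000000) (nat_lit 4)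
theorem c93876 : QOK q93876 := cut [q1402] ⟨c1402, trivial⟩ (nd (nat_lit 250) (nat_lit 0) (cs (lf (nat_lit 1) (nat_lit 250)) (rf (nat_lit 0)))) q93876 (by decide +kernel)
def q93882 : Q := Q.p (nat_lit 0x3000004000010000000000000000000000000000000000000000000000000000) (nat_lit 0x800006000008000080000200000e0000380000a00000000000000000000000000000000000) (nat_lit 6)
theorem c93882 : QOK q93882 := cut [q25, q79032, q87129] ⟨c25, c79032, c87129, trivial⟩ (nd (nat_lit 186) (nat_lit 0) (cs (rf (nat_lit 0)) (cs (rf (nat_lit 1)) (rf (nat_lit 2))))) q93882 (by decide +kernel)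
def q93908 : Q := Q.p (nat_lit 0x300000c000030000000000000000000000000000000000000000000000000000) (nat_lit 0x700001c00000c0001000000e000020000000000000000000000000000000000000000000000) (nat_lit 7)
theorem c93908 : QOK q93908 := cut [q2953] ⟨c2953, trivial⟩ (nd (nat_lit 274) (nat_lit 0) (cs (lf (nat_lit 30) (nat_lit 208)) (nd (nat_lit 275) (nat_lit 0) (cs (lf (nat_lit 29) (nat_lit 208)) (nd (nat_lit 276) (nat_lit 0) (cs (lf (nat_lit 29) (nat_lit 209)) (nd (nat_lit 250) (nat_lit 0) (cs (lf (nat_lit 1) (nat_lit 250)) (rf (nat_lit 0)))))))))) q93908 (by decide +kernel)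
def q93916 : Q := Q.p (nat_lit 0x7800002000000000000000000000000000000000000000000000000000000000) (nat_lit 0x100000700008000000000008000020000000000000000000000000000000000000000000000) (nat_lit 4)
theorem c93916 : QOK q93916 := cut [q92585] ⟨c92585, trivial⟩ (nd (nat_lit 273) (nat_lit 0) (cs (lf (nat_lit 11) (nat_lit 250)) (rf (nat_lit 0)))) q93916 (by decide +kernel)
def q93926 : Q := Q.p (nat_lit 0x7800000000000000000000000000000000000000000000000000000000000000) (nat_lit 0x7000180000ee000000000000000000000000000000000000000000000000000000000) (nat_lit 6)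
theorem c93926 : QOK q93926 := cut [q93924] ⟨c93924, trivial⟩ (nd (nat_lit 273) (nat_lit 0) (cs (lf (nat_lit 11) (nat_lit 250)) (nd (nat_lit 255) (nat_lit 0) (cs (lf (nat_lit 10) (nat_lit 251)) (rf (nat_lit 0)))))) q93926 (by decide +kernel)
def q93928 : Q := Q.p (nat_lit 0x7000004000000000000000000000000000000000000000000000000000000000) (nat_lit 0x180000ea000000000000000000000000000000000000000000000000000000000) (nat_lit 4)
theorem c93928 : QOK q93928 := cut [q93927] ⟨c93927, trivial⟩ (nd (nat_lit 255) (nat_lit 0) (cs (lf (nat_lit 23) (nat_lit 229)) (rf (nat_lit 0)))) q93928 (by decide +kernel)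
def q93934 : Q := Q.p (nat_lit 0x7800004000000000000000000000000000000000000000000000000000000000) (nat_lit 0x1c000070003ae00000000000000000000000000000000000000000000000000000000) (nat_lit 7)
theorem c93934 : QOK q93934 := cut [q85537] ⟨c85537, trivial⟩ (nd (nat_lit 232) (nat_lit 0) (cs (lf (nat_lit 17) (nat_lit 229)) (nd (nat_lit 250) (nat_lit 0) (cs (lf (nat_lit 16) (nat_lit 228)) (nd (nat_lit 271) (nat_lit 0) (cs (lf (nat_lit 10) (nat_lit 249)) (nd (nat_lit 249) (nat_lit 0) (cs (lf (nat_lit 11) (nat_lit 248)) (rf (nat_lit 0)))))))))) q93934 (by decide +kernel)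
def q94017 : Q := Q.p (nat_lit 0x3000008000020000000000000000000000000000000000000000000000000000) (nat_lit 0x4000000000000000000001c0000700001400000000000000000000000000000000000) (nat_lit 5)
theorem c94017 : QOK q94017 := cut [q1580] ⟨c1580, trivial⟩ (nd (nat_lit 187) (nat_lit 0) (cs (lf (nat_lit 41) (nat_lit 186)) (rf (nat_lit 0)))) q94017 (by decide +kernel)
def q94031 : Q := Q.p (nat_lit 0x60000180000300000c000000000000000000000000000000000000000000000000000) (nat_lit 0x40000700001c0000000000000000000000000000000000000000000000) (nat_lit 4)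
theorem c94031 : QOK q94031 := cut [q25541] ⟨c25541, trivial⟩ (nd (nat_lit 208) (nat_lit 0) (cs (lf (nat_lit 35) (nat_lit 185)) (rf (nat_lit 0)))) q94031 (by decide +kernel)
def q94049 : Q := Q.p (nat_lit 0xc00003000004000010000000000000000000000000000000000000000000000000000) (nat_lit 0x8000030000c000000000020000080000000000000000000000000000000000000000000000) (nat_lit 4)
theorem c94049 : QOK q94049 := cut [q84409] ⟨c84409, trivial⟩ (nd (nat_lit 187) (nat_lit 0) (cs (lf (nat_lit 34) (nat_lit 186)) (rf (nat_lit 0)))) q94049 (by decide +kernel)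
def q94055 : Q := Q.p (nat_lit 0x7000004000000000000000000000000000000000000000000000000000000000) (nat_lit 0xf000188000f8000000000000000000000000000000000000000000000000000000000) (nat_lit 5)
theorem c94055 : QOK q94055 := cut [q81054, q93927, q92247] ⟨c81054, c93927, c92247, trivial⟩ (nd (nat_lit 255) (nat_lit 0) (cs (rf (nat_lit 0)) (cs (rf (nat_lit 1)) (nd (nat_lit 274) (nat_lit 0) (cs (lf (nat_lit 11) (nat_lit 251)) (rf (nat_lit 2))))))) q94055 (by decide +kernel)
def q94057 : Q := Q.p (nat_lit 0x4000016000040000000000000000000000000000000000000000000000000000) (nat_lit 0x1000000000028000080000200000800002000000000000000000000000000000000000) (nat_lit 4)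
theorem c94057 : QOK q94057 := cut [q79800] ⟨c79800, trivial⟩ (nd (nat_lit 211) (nat_lit 0) (cs (rf (nat_lit 0)) (lf (nat_lit 14) (nat_lit 207)))) q94057 (by decide +kernel)
def q94081 : Q := Q.p (nat_lit 0x700000c000000000000000000000000000000000000000000000000000000000) (nat_lit 0x1000018800070000180000200000800000000000000000000000000000000000000000) (nat_lit 6)
theorem c94081 : QOK q94081 := cut [q79237] ⟨c79237, trivial⟩ (nd (nat_lit 255) (nat_lit 0) (cs (lf (nat_lit 18) (nat_lit 230)) (nd (nat_lit 233) (nat_lit 0) (cs (lf (nat_lit 17) (nat_lit 230)) (nd (nat_lit 232) (nat_lit 0) (cs (lf (nat_lit 11) (nat_lit 229)) (rf (nat_lit 0)))))))) q94081 (by decide +kernel)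
def q94086 : Q := Q.p (nat_lit 0x7800004000000000000000000000000000000000000000000000000000000000) (nat_lit 0x80000300000000003000010000040000000000000000000000000000000000000000000000) (nat_lit 4)
theorem c94086 : QOK q94086 := cut [q85550] ⟨c85550, trivial⟩ (nd (nat_lit 229) (nat_lit 0) (cs (lf (nat_lit 23) (nat_lit 228)) (rf (nat_lit 0)))) q94086 (by decide +kernel)
def q94096 : Q := Q.p (nat_lit 0x700001c000000000000000000000000000000000000000000000000000000000) (nat_lit 0x4000010000000000600001c0000200000800000000000000000000000000000000000000000) (nat_lit 5)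
theorem c94096 : QOK q94096 := cut [q94095] ⟨c94095, trivial⟩ (nd (nat_lit 233) (nat_lit 0) (cs (lf (nat_lit 6) (nat_lit 230)) (rf (nat_lit 0)))) q94096 (by decide +kernel)
def q94098 : Q := Q.p (nat_lit 0x300001c000000000000000000000000000000000000000000000000000000000) (nat_lit 0x800000000060000018000040000100000000000000000000000000000000000000000) (nat_lit 4)
theorem c94098 : QOK q94098 := cut [q79997] ⟨c79997, trivial⟩ (nd (nat_lit 233) (nat_lit 0) (cs (lf (nat_lit 6) (nat_lit 230)) (rf (nat_lit 0)))) q94098 (by decide +kernel)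
def q94139 : Q := Q.p (nat_lit 0x180000700000c000010000000000000000000000000000000000000000000000000000) (nat_lit 0x180000700000000000000020000080000000000000000000000000000000000000000000000) (nat_lit 4)
theorem c94139 : QOK q94139 := cut [q94138] ⟨c94138, trivial⟩ (nd (nat_lit 209) (nat_lit 0) (cs (lf (nat_lit 24) (nat_lit 187)) (rf (nat_lit 0)))) q94139 (by decide +kernel)
def q94160 : Q := Q.p (nat_lit 0x200000800003000008000000000000000000000000000000000000000000000000000000000) (nat_lit 0x4c00070000040000000000000000000000000000000000000000000000000000) (nat_lit 4)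
theorem c94160 : QOK q94160 := cut [q94159] ⟨c94159, trivial⟩ (nd (nat_lit 232) (nat_lit 0) (cs (lf (nat_lit 35) (nat_lit 209)) (rf (nat_lit 0)))) q94160 (by decide +kernel)
def q94162 : Q := Q.p (nat_lit 0x200000800003000000000000000000000000000000000000000000000000000000000000000) (nat_lit 0x500001c0000700000c0000100000400004000018000060000080000000000000000000000000000000000000000000000) (nat_lit 6)
theorem c94162 : QOK q94162 := cut [q88944, q88949, q90094] ⟨c88944, c88949, c90094, trivial⟩ (nd (nat_lit 319) (nat_lit 0) (cs (rf (nat_lit 0)) (cs (rf (nat_lit 1)) (rf (nat_lit 2))))) q94162 (by decide +kernel)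
def q94166 : Q := Q.p (nat_lit 0x80000200000800002000000000000000000000000000000000000000000000000000000000000000) (nat_lit 0x4000030000040000000001000004000010000000000000000000000000000000000000000000000000000000000) (nat_lit 4)
theorem c94166 : QOK q94166 := cut [q94165] ⟨c94165, trivial⟩ (nd (nat_lit 340) (nat_lit 0) (cs (lf (nat_lit 40) (nat_lit 252)) (rf (nat_lit 0)))) q94166 (by decide +kernel)
def q94175 : Q := Q.p (nat_lit 0x80001f000000000000000000000000000000000000000000000000000000000000000) (nat_lit 0x1d00002000000c000010000040000000000000000000000000000000000000000000000) (nat_lit 5)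
theorem c94175 : QOK q94175 := cut [q80457] ⟨c80457, trivial⟩ (nd (nat_lit 230) (nat_lit 0) (cs (lf (nat_lit 22) (nat_lit 230)) (nd (nat_lit 186) (nat_lit 0) (cs (rf (nat_lit 0)) (lf (nat_lit 25) (nat_lit 186)))))) q94175 (by decide +kernel)
def q94230 : Q := Q.p (nat_lit 0x800007800008000020000000000000000000000000000000000000000000000000000) (nat_lit 0x300000000030000040000180000600000000000000000000000000000000000000000) (nat_lit 5)
theorem c94230 : QOK q94230 := cut [q79463] ⟨c79463, trivial⟩ (nd (nat_lit 272) (nat_lit 0) (cs (lf (nat_lit 10) (nat_lit 250)) (nd (nat_lit 232) (nat_lit 0) (cs (lf (nat_lit 17) (nat_lit 229)) (rf (nat_lit 0)))))) q94230 (by decide +kernel)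
def q94238 : Q := Q.p (nat_lit 0x1800006000018000060000000000000000000000000000000000000000000000000000) (nat_lit 0x4000390000240000000000000000000000000000000000000000000000) (nat_lit 4)
theorem c94238 : QOK q94238 := cut [q79607] ⟨c79607, trivial⟩ (nd (nat_lit 186) (nat_lit 0) (cs (lf (nat_lit 46) (nat_lit 186)) (rf (nat_lit 0)))) q94238 (by decide +kernel)
def q94264 : Q := Q.p (nat_lit 0x7800008000000000000000000000000000000000000000000000000000000000) (nat_lit 0xc7000380001d4000000000000000000000000000000000000000000000000000000000) (nat_lit 7)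
theorem c94264 : QOK q94264 := cut [q86779] ⟨c86779, trivial⟩ (nd (nat_lit 273) (nat_lit 0) (cs (lf (nat_lit 11) (nat_lit 250)) (nd (nat_lit 255) (nat_lit 0) (cs (lf (nat_lit 10) (nat_lit 251)) (nd (nat_lit 256) (nat_lit 0) (cs (lf (nat_lit 23) (nat_lit 230)) (nd (nat_lit 278) (nat_lit 0) (cs (lf (nat_lit 5) (nat_lit 253)) (rf (nat_lit 0)))))))))) q94264 (by decide +kernel)
def q94269 : Q := Q.p (nat_lit 0x800003000000000050000000000000000000000000000000000000000000000000000) (nat_lit 0xc0000a8000078000000000000000000000000000000000000000000000) (nat_lit 5)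
theorem c94269 : QOK q94269 := cut [q39] ⟨c39, trivial⟩ (nd (nat_lit 186) (nat_lit 0) (cs (lf (nat_lit 26) (nat_lit 186)) (nd (nat_lit 209) (nat_lit 0) (cs (rf (nat_lit 0)) (lf (nat_lit 44) (nat_lit 186)))))) q94269 (by decide +kernel)
def q94317 : Q := Q.p (nat_lit 0xe00001000000000010000000000000000000000000000000000000000000000000000) (nat_lit 0x1f0001000000000004000000000000000000000000000000000000000000000000000000000) (nat_lit 4)
theorem c94317 : QOK q94317 := cut [q14764] ⟨c14764, trivial⟩ (nd (nat_lit 295) (nat_lit 0) (cs (lf (nat_lit 37) (nat_lit 207)) (rf (nat_lit 0)))) q94317 (by decide +kernel)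
def q94324 : Q := Q.p (nat_lit 0xf0000000000000000000000000000000000000000000000000000) (nat_lit 0x100000ee0000000000000000000000000000000000000000000000) (nat_lit 4)
theorem c94324 : QOK q94324 := cut [q6044] ⟨c6044, trivial⟩ (nd (nat_lit 186) (nat_lit 0) (cs (lf (nat_lit 23) (nat_lit 185)) (rf (nat_lit 0)))) q94324 (by decide +kernel)
def q94327 : Q := Q.p (nat_lit 0x800002000000000070000000000000000000000000000000000000000000000000000) (nat_lit 0x8000088000078000000000000000000000000000000000000000000000) (nat_lit 4)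
theorem c94327 : QOK q94327 := cut [q39] ⟨c39, trivial⟩ (nd (nat_lit 186) (nat_lit 0) (cs (rf (nat_lit 0)) (lf (nat_lit 44) (nat_lit 186)))) q94327 (by decide +kernel)
def q94337 : Q := Q.p (nat_lit 0x100000c00003000000000000000000000000000000000000000000000000000000000000000) (nat_lit 0x18000060000280000000000000004000010000040000000000000000000000000000000000000000000000) (nat_lit 5)
theorem c94337 : QOK q94337 := cut [q94336] ⟨c94336, trivial⟩ (nd (nat_lit 318) (nat_lit 0) (cs (lf (nat_lit 30) (nat_lit 252)) (rf (nat_lit 0)))) q94337 (by decide +kernel)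
def q94338 : Q := Q.p (nat_lit 0x300000c00001000000000000000000000000000000000000000000000000000000000000000) (nat_lit 0x200000e0001000000000004000010000000000000000000000000000000000000000000000000000) (nat_lit 4)
theorem c94338 : QOK q94338 := cut [q92732] ⟨c92732, trivial⟩ (nd (nat_lit 230) (nat_lit 0) (cs (lf (nat_lit 24) (nat_lit 208)) (rf (nat_lit 0)))) q94338 (by decide +kernel)
def q94340 : Q := Q.p (nat_lit 0xc0000300000800002000000000000000000000000000000000000000000000000000000000000000) (nat_lit 0x400003000000c0000000004000010000000000000000000000000000000000000000000000000000000000) (nat_lit 4)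
theorem c94340 : QOK q94340 := cut [q55446] ⟨c55446, trivial⟩ (nd (nat_lit 232) (nat_lit 0) (cs (rf (nat_lit 0)) (lf (nat_lit 34) (nat_lit 231)))) q94340 (by decide +kernel)
def q94359 : Q := Q.p (nat_lit 0x100000c00003000000000000000000000000000000000000000000000000000000000000000) (nat_lit 0x1f80007e0001e00000000000000004000000000000000000000000000000000000000000000000000000000) (nat_lit 9)
theorem c94359 : QOK q94359 := cut [q25443] ⟨c25443, trivial⟩ (nd (nat_lit 318) (nat_lit 0) (cs (lf (nat_lit 30) (nat_lit 252)) (nd (nat_lit 319) (nat_lit 0) (cs (lf (nat_lit 29) (nat_lit 252)) (nd (nat_lit 297) (nat_lit 0) (cs (lf (nat_lit 47) (nat_lit 230)) (rf (nat_lit 0)))))))) q94359 (by decide +kernel)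
def q94364 : Q := Q.p (nat_lit 0xe00001800000000000000000000000000000000000000000000000000000000000000) (nat_lit 0x200001f0001000000000004000010000040000000000000000000000000000000000000000000000) (nat_lit 4)
theorem c94364 : QOK q94364 := cut [q14764, q80583] ⟨c14764, c80583, trivial⟩ (nd (nat_lit 295) (nat_lit 0) (cs (rf (nat_lit 0)) (rf (nat_lit 1)))) q94364 (by decide +kernel)
def q94430 : Q := Q.p (nat_lit 0x20000080000300000c000000000000000000000000000000000000000000000000000000000) (nat_lit 0x100000400000000000800070000040000000000000000000000000000000000000000000000000000) (nat_lit 4)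
theorem c94430 : QOK q94430 := cut [q87998] ⟨c87998, trivial⟩ (nd (nat_lit 298) (nat_lit 0) (cs (lf (nat_lit 29) (nat_lit 231)) (rf (nat_lit 0)))) q94430 (by decide +kernel)
def q94443 : Q := Q.p (nat_lit 0x200000800003000000000000000000000000000000000000000000000000000000000000000) (nat_lit 0x2000008000010000040000400001c000060000080000000000000000000000000000000000000000000000) (nat_lit 6)
theorem c94443 : QOK q94443 := cut [q88949] ⟨c88949, trivial⟩ (nd (nat_lit 319) (nat_lit 0) (cs (lf (nat_lit 47) (nat_lit 230)) (rf (nat_lit 0)))) q94443 (by decide +kernel)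
def q94444 : Q := Q.p (nat_lit 0x200000800003000000000000000000000000000000000000000000000000000000000000000) (nat_lit 0x500001c000050000000000000000c000000000000000000000000000000000000000000000000000000000) (nat_lit 5)
theorem c94444 : QOK q94444 := cut [q89625] ⟨c89625, trivial⟩ (nd (nat_lit 319) (nat_lit 0) (cs (lf (nat_lit 47) (nat_lit 230)) (rf (nat_lit 0)))) q94444 (by decide +kernel)
def q94471 : Q := Q.p (nat_lit 0x40000080000e00001000000000000000000000000000000000000000000000000000000000000000) (nat_lit 0x18000020000000000000000e00001000000000000000000000000000000000000000000000000000000000) (nat_lit 4)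
theorem c94471 : QOK q94471 := cut [q86408] ⟨c86408, trivial⟩ (nd (nat_lit 317) (nat_lit 0) (cs (lf (nat_lit 30) (nat_lit 251)) (rf (nat_lit 0)))) q94471 (by decide +kernel)
def q94487 : Q := Q.p (nat_lit 0x1e00006000000000000000000000000000000000000000000000000000000000000000) (nat_lit 0x100000c00000000000c00008000020000000000000000000000000000000000000000000000000000) (nat_lit 4)
theorem c94487 : QOK q94487 := cut [q94412] ⟨c94412, trivial⟩ (nd (nat_lit 250) (nat_lit 0) (cs (lf (nat_lit 22) (nat_lit 250)) (rf (nat_lit 0)))) q94487 (by decide +kernel)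
def q94505 : Q := Q.p (nat_lit 0x300000800002000000000000000000000000000000000000000000000000000000000000000) (nat_lit 0x14000040000100000000000c000030000040000000000000000000000000000000000000000000000) (nat_lit 5)
theorem c94505 : QOK q94505 := cut [q88936] ⟨c88936, trivial⟩ (nd (nat_lit 231) (nat_lit 0) (cs (lf (nat_lit 41) (nat_lit 230)) (rf (nat_lit 0)))) q94505 (by decide +kernel)
def q94527 : Q := Q.p (nat_lit 0x200000800003000000000000000000000000000000000000000000000000000000000000000) (nat_lit 0x500001c0000700001c0000500001400000000008000020000080000000000000000000000000000000000000000000000) (nat_lit 7)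
theorem c94527 : QOK q94527 := cut [q89625, q90094, q94438, q94522] ⟨c89625, c90094, c94438, c94522, trivial⟩ (nd (nat_lit 319) (nat_lit 0) (cs (rf (nat_lit 0)) (cs (rf (nat_lit 1)) (cs (rf (nat_lit 2)) (nd (nat_lit 318) (nat_lit 0) (cs (lf (nat_lit 41) (nat_lit 252)) (nd (nat_lit 231) (nat_lit 0) (cs (lf (nat_lit 40) (nat_lit 230)) (nd (nat_lit 298) (nat_lit 0) (cs (lf (nat_lit 29) (nat_lit 231)) (nd (nat_lit 209) (nat_lit 0) (cs (lf (nat_lit 28) (nat_lit 209)) (rf (nat_lit 3)))))))))))))) q94527 (by decide +kernel)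
def q94545 : Q := Q.p (nat_lit 0x600000a00002000008000000000000000000000000000000000000000000000000000000000) (nat_lit 0x1800001500000000014000050000000000000000000000000000000000000000000000000000) (nat_lit 5)
theorem c94545 : QOK q94545 := cut [q26412] ⟨c26412, trivial⟩ (nd (nat_lit 208) (nat_lit 0) (cs (lf (nat_lit 46) (nat_lit 208)) (nd (nat_lit 210) (nat_lit 0) (cs (lf (nat_lit 34) (nat_lit 209)) (rf (nat_lit 0)))))) q94545 (by decide +kernel)
def q94584 : Q := Q.p (nat_lit 0x3000006000010000000000000000000000000000000000000000000000000000) (nat_lit 0x100000400000400001c000ef0003bc0003e0000b80000000000000000000000000000000000) (nat_lit 11)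
theorem c94584 : QOK q94584 := cut [q84443, q94574, q6674, q1345] ⟨c84443, c94574, c6674, c1345, trivial⟩ (nd (nat_lit 207) (nat_lit 0) (cs (rf (nat_lit 0)) (cs (nd (nat_lit 228) (nat_lit 0) (cs (lf (nat_lit 0) (nat_lit 227)) (rf (nat_lit 1)))) (nd (nat_lit 206) (nat_lit 0) (cs (rf (nat_lit 2)) (cs (nd (nat_lit 228) (nat_lit 0) (cs (lf (nat_lit 0) (nat_lit 227)) (nd (nat_lit 163) (nat_lit 0) (cs (lf (nat_lit 25) (nat_lit 163)) (nd (nat_lit 209) (nat_lit 0) (cs (lf (nat_lit 6) (nat_lit 206)) (nd (nat_lit 187) (nat_lit 0) (cs (lf (nat_lit 17) (nat_lit 184)) (nd (nat_lit 143) (nat_lit 0) (cs (lf (nat_lit 37) (nat_lit 142)) (rf (nat_lit 3)))))))))))) (cs (nd (nat_lit 163) (nat_lit 0) (cs (lf (nat_lit 25) (nat_lit 163)) (nd (nat_lit 205) (nat_lit 0) (cs (lf (nat_lit 0) (nat_lit 204)) (nd (nat_lit 183) (nat_lit 0) (cs (lf (nat_lit 23) (nat_lit 182)) (nd (nat_lit 184) (nat_lit 0) (cs (lf (nat_lit 18) (nat_lit 183)) (nd (nat_lit 162) (nat_lit 0) (cs (lf (nat_lit 24) (nat_lit 140)) (nd (nat_lit 164) (nat_lit 0) (cs (lf (nat_lit 6) (nat_lit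 161)) (nd (nat_lit 228) (nat_lit 0) (cs (lf (nat_lit 35) (nat_lit 140)) (nd (nat_lit 161) (nat_lit 0) (cs (lf (nat_lit 42) (nat_lit 161)) (lf (nat_lit 24) (nat_lit 139)))))))))))))))))) (nd (nat_lit 163) (nat_lit 0) (cs (lf (nat_lit 25) (nat_lit 163)) (nd (nat_lit 205) (nat_lit 0) (cs (lf (nat_lit 0) (nat_lit 204)) (nd (nat_lit 226) (nat_lit 0) (cs (lf (nat_lit 10) (nat_lit 204)) (nd (nat_lit 183) (nat_lit 0) (cs (lf (nat_lit 23) (nat_lit 182)) (nd (nat_lit 209) (nat_lit 0) (cs (lf (nat_lit 22) (nat_lit 183)) (nd (nat_lit 188) (nat_lit 0) (cs (lf (nat_lit 16) (nat_lit 184)) (nd (nat_lit 210) (nat_lit 0) (cs (lf (nat_lit 17) (nat_lit 185)) (lf (nat_lit 6) (nat_lit 207))))))))))))))))))))))) q94584 (by decide +kernel)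
def q94587 : Q := Q.p (nat_lit 0x800007000000000000000000000000000000000000000000000000000000000000000) (nat_lit 0x800002000010000088000f0000040000100000000000000000000000000000000000000000000000) (nat_lit 4)
theorem c94587 : QOK q94587 := cut [q79199, q81677] ⟨c79199, c81677, trivial⟩ (nd (nat_lit 232) (nat_lit 0) (cs (rf (nat_lit 0)) (rf (nat_lit 1)))) q94587 (by decide +kernel)
def q94612 : Q := Q.p (nat_lit 0x80000f000000000000000000000000000000000000000000000000000000000000000) (nat_lit 0x1d0000300000e0000000000000000000000000000000000000000000000000000000000) (nat_lit 5)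
theorem c94612 : QOK q94612 := cut [q80457] ⟨c80457, trivial⟩ (nd (nat_lit 234) (nat_lit 0) (cs (lf (nat_lit 16) (nat_lit 230)) (nd (nat_lit 256) (nat_lit 0) (cs (lf (nat_lit 17) (nat_lit 231)) (rf (nat_lit 0)))))) q94612 (by decide +kernel)
def q94674 : Q := Q.p (nat_lit 0x180001a000040000000000000000000000000000000000000000000000000000) (nat_lit 0x40000000000400008c000020000080000000000000000000000000000000000000000) (nat_lit 4)
theorem c94674 : QOK q94674 := cut [q81735] ⟨c81735, trivial⟩ (nd (nat_lit 230) (nat_lit 0) (cs (lf (nat_lit 17) (nat_lit 207)) (rf (nat_lit 0)))) q94674 (by decide +kernel)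
def q94685 : Q := Q.p (nat_lit 0x800007000012000000000000000000000000000000000000000000000000000000000) (nat_lit 0x140003800000c000000000000000000000000000000000000000000000000000000000) (nat_lit 4)
theorem c94685 : QOK q94685 := cut [q94684] ⟨c94684, trivial⟩ (nd (nat_lit 255) (nat_lit 0) (cs (lf (nat_lit 22) (nat_lit 229)) (rf (nat_lit 0)))) q94685 (by decide +kernel)
def q94689 : Q := Q.p (nat_lit 0x80000e000000000000000000000000000000000000000000000000000000000000000) (nat_lit 0x1d400030000000000000000000000000000000000000000000000000000000000000000) (nat_lit 4)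
theorem c94689 : QOK q94689 := cut [q94212] ⟨c94212, trivial⟩ (nd (nat_lit 256) (nat_lit 0) (cs (lf (nat_lit 11) (nat_lit 252)) (rf (nat_lit 0)))) q94689 (by decide +kernel)
def q94757 : Q := Q.p (nat_lit 0x7800008000000000000000000000000000000000000000000000000000000000) (nat_lit 0x700018000036000000000000000000000000000000000000000000000000000000000) (nat_lit 5)
theorem c94757 : QOK q94757 := cut [q94756] ⟨c94756, trivial⟩ (nd (nat_lit 232) (nat_lit 0) (cs (lf (nat_lit 17) (nat_lit 229)) (rf (nat_lit 0)))) q94757 (by decide +kernel)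
def q94773 : Q := Q.p (nat_lit 0x800003000018000020000000000000000000000000000000000000000000000000000) (nat_lit 0x400001000004c000060001dc000770000480001200000000000000000000000000000000000) (nat_lit 9)
theorem c94773 : QOK q94773 := cut [q7464, q87114, q1410, q94768] ⟨c7464, c87114, c1410, c94768, trivial⟩ (nd (nat_lit 210) (nat_lit 0) (cs (rf (nat_lit 0)) (nd (nat_lit 230) (nat_lit 0) (cs (rf (nat_lit 1)) (cs (nd (nat_lit 250) (nat_lit 0) (cs (lf (nat_lit 13) (nat_lit 228)) (nd (nat_lit 276) (nat_lit 0) (cs (lf (nat_lit 29) (nat_lit 209)) (nd (nat_lit 208) (nat_lit 0) (cs (lf (nat_lit 47) (nat_lit 186)) (nd (nat_lit 207) (nat_lit 0) (cs (lf (nat_lit 0) (nat_lit 206)) (nd (nat_lit 185) (nat_lit 0) (cs (lf (nat_lit 23) (nat_lit 184)) (rf (nat_lit 2)))))))))))) (nd (nat_lit 208) (nat_lit 0) (cs (lf (nat_lit 47) (nat_lit 186)) (nd (nat_lit 250) (nat_lit 0) (cs (lf (nat_lit 13) (nat_lit 228)) (nd (nat_lit 206) (nat_lit 0) (cs (lf (nat_lit 1) (nat_lit 206)) (rf (nat_lit 3))))))))))))) q94773 (by decide +kernel)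
def q94775 : Q := Q.p (nat_lit 0x800002000008000020000000000000000000000000000000000000000000000000000) (nat_lit 0x4000010000040000000000100000c0000100000000000000000000000000000000000000000) (nat_lit 4)
theorem c94775 : QOK q94775 := cut [q94774] ⟨c94774, trivial⟩ (nd (nat_lit 276) (nat_lit 0) (cs (lf (nat_lit 29) (nat_lit 209)) (rf (nat_lit 0)))) q94775 (by decide +kernel)
def q94805 : Q := Q.p (nat_lit 0x180000680000800000000000000000000000000000000000000000000000000000000000000) (nat_lit 0x10000070000040000000002000008000000000000000000000000000000000000000000000000000) (nat_lit 4)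
theorem c94805 : QOK q94805 := cut [q89896] ⟨c89896, trivial⟩ (nd (nat_lit 229) (nat_lit 0) (cs (lf (nat_lit 24) (nat_lit 207)) (rf (nat_lit 0)))) q94805 (by decide +kernel)
def q94816 : Q := Q.p (nat_lit 0x300003c000020000000000000000000000000000000000000000000000000000) (nat_lit 0x10000160001c000000000198000200000800000000000000000000000000000000000000000) (nat_lit 7)
theorem c94816 : QOK q94816 := cut [q92960] ⟨c92960, trivial⟩ (nd (nat_lit 211) (nat_lit 0) (cs (lf (nat_lit 17) (nat_lit 208)) (nd (nat_lit 274) (nat_lit 0) (cs (lf (nat_lit 30) (nat_lit 208)) (nd (nat_lit 207) (nat_lit 0) (cs (lf (nat_lit 22) (nat_lit 207)) (rf (nat_lit 0)))))))) q94816 (by decide +kernel)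
def q94840 : Q := Q.p (nat_lit 0x1000007800008000060000000000000000000000000000000000000000000000000000) (nat_lit 0x34000380000200000000000000000000000000000000000000000000000) (nat_lit 4)
theorem c94840 : QOK q94840 := cut [q79607] ⟨c79607, trivial⟩ (nd (nat_lit 232) (nat_lit 0) (cs (lf (nat_lit 17) (nat_lit 229)) (rf (nat_lit 0)))) q94840 (by decide +kernel)
def q94897 : Q := Q.p (nat_lit 0xa00007800018000020000000000000000000000000000000000000000000000000000) (nat_lit 0x5c000140000000000600001c000060000000000000000000000000000000000000000000000) (nat_lit 7)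
theorem c94897 : QOK q94897 := cut [q94894] ⟨c94894, trivial⟩ (nd (nat_lit 276) (nat_lit 0) (cs (lf (nat_lit 42) (nat_lit 209)) (nd (nat_lit 274) (nat_lit 0) (cs (lf (nat_lit 41) (nat_lit 208)) (nd (nat_lit 294) (nat_lit 0) (cs (lf (nat_lit 10) (nat_lit 272)) (rf (nat_lit 0)))))))) q94897 (by decide +kernel)
def q94956 : Q := Q.p (nat_lit 0x40000100000400003000000000000000000000000000000000000000000000000000000000000000) (nat_lit 0x18000020000280000800000000004000010000040000000000000000000000000000000000000000000000) (nat_lit 5)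
theorem c94956 : QOK q94956 := cut [q94336] ⟨c94336, trivial⟩ (nd (nat_lit 275) (nat_lit 0) (cs (lf (nat_lit 30) (nat_lit 252)) (rf (nat_lit 0)))) q94956 (by decide +kernel)
def q94963 : Q := Q.p (nat_lit 0x40000100000400001000000000000000000000000000000000000000000000000000000000) (nat_lit 0xa0000380000a0000000000000002000008000000000000000000000000000000000000000000000000000) (nat_lit 5)
theorem c94963 : QOK q94963 := cut [q18266] ⟨c18266, trivial⟩ (nd (nat_lit 315) (nat_lit 0) (cs (lf (nat_lit 40) (nat_lit 227)) (nd (nat_lit 207) (nat_lit 0) (cs (lf (nat_lit 34) (nat_lit 206)) (rf (nat_lit 0)))))) q94963 (by decide +kernel)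
def q95029 : Q := Q.p (nat_lit 0xe0000000000600003000000000000000000000000000000000000000000000000000000000000000) (nat_lit 0x3ff000718001c7000000000c000000000000000000000000000000000000000000000000000000000000000) (nat_lit 11)
theorem c95029 : QOK q95029 := cut [q25666, q41749, q82876, q11792] ⟨c25666, c41749, c82876, c11792, trivial⟩ (nd (nat_lit 316) (nat_lit 0) (cs (rf (nat_lit 0)) (cs (rf (nat_lit 1)) (cs (nd (nat_lit 254) (nat_lit 0) (cs (lf (nat_lit 6) (nat_lit 251)) (rf (nat_lit 2)))) (nd (nat_lit 341) (nat_lit 0) (cs (lf (nat_lit 5) (nat_lit 316)) (nd (nat_lit 254) (nat_lit 0) (cs (lf (nat_lit 6) (nat_lit 251)) (nd (nat_lit 293) (nat_lit 0) (cs (lf (nat_lit 22) (nat_lit 293)) (nd (nat_lit 338) (nat_lit 0) (cs (lf (nat_lit 11) (nat_lit 315)) (nd (nat_lit 320) (nat_lit 0) (cs (lf (nat_lit 10) (nat_lit 316)) (nd (nat_lit 299) (nat_lit 0) (cs (lf (nat_lit 16) (nat_lit 295)) (nd (nat_lit 321) (nat_lit 0) (cs (lf (nat_lit 17) (nat_lit 296)) (nd (nat_lit 322) (nat_lit 0) (cs (rf (nat_lit 3)) (lf (nat_lit 11) (nat_lit 318))))))))))))))))))))))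 q95029 (by decide +kernel)
def q95085 : Q := Q.p (nat_lit 0x200000c00003000000000000000000000000000000000000000000000000000000000000000) (nat_lit 0x780007f800018000000000080000a000000000000000000000000000000000000000000000000000000000) (nat_lit 9)
theorem c95085 : QOK q95085 := cut [q12843] ⟨c12843, trivial⟩ (nd (nat_lit 319) (nat_lit 0) (cs (lf (nat_lit 42) (nat_lit 252)) (nd (nat_lit 318) (nat_lit 0) (cs (lf (nat_lit 41) (nat_lit 252)) (nd (nat_lit 296) (nat_lit 0) (cs (lf (nat_lit 36) (nat_lit 230)) (nd (nat_lit 317) (nat_lit 0) (cs (lf (nat_lit 41) (nat_lit 251)) (nd (nat_lit 315) (nat_lit 0) (cs (lf (nat_lit 13) (nat_lit 293)) (nd (nat_lit 229) (nat_lit 0) (cs (lf (nat_lit 46) (nat_lit 229)) (rf (nat_lit 0)))))))))))))) q95085 (by decide +kernel)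
def q95154 : Q := Q.p (nat_lit 0x100000400003000000000000000000000000000000000000000000000000000000000000000) (nat_lit 0x80000380000e0000080000b80004800006000008000000000000000000000000000000000000000000000000000) (nat_lit 6)
theorem c95154 : QOK q95154 := cut [q42162, q91669, q95151] ⟨c42162, c91669, c95151, trivial⟩ (nd (nat_lit 318) (nat_lit 0) (cs (rf (nat_lit 0)) (cs (rf (nat_lit 1)) (nd (nat_lit 229) (nat_lit 0) (cs (lf (nat_lit 46) (nat_lit 229)) (nd (nat_lit 319) (nat_lit 0) (cs (lf (nat_lit 29) (nat_lit 252)) (rf (nat_lit 2))))))))) q95154 (by decide +kernel)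
def q95300 : Q := Q.p (nat_lit 0x3000006000018000000000000000000000000000000000000000000000000000) (nat_lit 0x200001a00000e00019c000070000300000c0000000000000000000000000000000000000000) (nat_lit 9)
theorem c95300 : QOK q95300 := cut [q6674, q85322, q12242] ⟨c6674, c85322, c12242, trivial⟩ (nd (nat_lit 206) (nat_lit 0) (cs (rf (nat_lit 0)) (cs (rf (nat_lit 1)) (nd (nat_lit 228) (nat_lit 0) (cs (lf (nat_lit 0) (nat_lit 227)) (nd (nat_lit 231) (nat_lit 0) (cs (lf (nat_lit 18) (nat_lit 206)) (nd (nat_lit 250) (nat_lit 0) (cs (lf (nat_lit 11) (nat_lit 227)) (nd (nat_lit 163) (nat_lit 0) (cs (lf (nat_lit 37) (nat_lit 162)) (nd (nat_lit 275) (nat_lit 0) (cs (lf (nat_lit 42) (nat_lit 208)) (nd (nat_lit 251) (nat_lit 0) (cs (lf (nat_lit 5) (nat_lit 250)) (rf (nat_lit 2))))))))))))))))) q95300 (by decide +kernel)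
def q95387 : Q := Q.p (nat_lit 0x100000400003000000000000000000000000000000000000000000000000000000000000000) (nat_lit 0x80000380000e0000280000800000800006000008000000000000000000000000000000000000000000000000000) (nat_lit 6)
theorem c95387 : QOK q95387 := cut [q42162, q94955, q95151] ⟨c42162, c94955, c95151, trivial⟩ (nd (nat_lit 318) (nat_lit 0) (cs (rf (nat_lit 0)) (cs (rf (nat_lit 1)) (nd (nat_lit 229) (nat_lit 0) (cs (lf (nat_lit 46) (nat_lit 229)) (nd (nat_lit 275) (nat_lit 0) (cs (lf (nat_lit 30) (nat_lit 252)) (rf (nat_lit 2))))))))) q95387 (by decide +kernel)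
def q95438 : Q := Q.p (nat_lit 0x100000600003800000000000000000000000000000000000000000000000000000000000000) (nat_lit 0x80000c400038000020000080000000000000000000000000000000000000000000000) (nat_lit 5)
theorem c95438 : QOK q95438 := cut [q88278] ⟨c88278, trivial⟩ (nd (nat_lit 254) (nat_lit 0) (cs (lf (nat_lit 6) (nat_lit 251)) (rf (nat_lit 0)))) q95438 (by decide +kernel)
def q95463 : Q := Q.p (nat_lit 0x7000004000010000000000000000000000000000000000000000000000000000) (nat_lit 0x280001f80018e000700000280000a0000000000000000000000000000000000000000000000) (nat_lit 9)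
theorem c95463 : QOK q95463 := cut [q79044, q94116, q94363] ⟨c79044, c94116, c94363, trivial⟩ (nd (nat_lit 274) (nat_lit 0) (cs (rf (nat_lit 0)) (cs (rf (nat_lit 1)) (nd (nat_lit 185) (nat_lit 0) (cs (lf (nat_lit 46) (nat_lit 185)) (nd (nat_lit 187) (nat_lit 0) (cs (lf (nat_lit 34) (nat_lit 186)) (nd (nat_lit 275) (nat_lit 0) (cs (lf (nat_lit 29) (nat_lit 208)) (rf (nat_lit 2))))))))))) q95463 (by decide +kernel)
def q95552 : Q := Q.p (nat_lit 0x200000800007800000000000000000000000000000000000000000000000000000000000000) (nat_lit 0x400008000007000010000040000000000000000000000000000000000000000000000) (nat_lit 4)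
theorem c95552 : QOK q95552 := cut [q95551] ⟨c95551, trivial⟩ (nd (nat_lit 229) (nat_lit 0) (cs (lf (nat_lit 23) (nat_lit 228)) (rf (nat_lit 0)))) q95552 (by decide +kernel)
def q95560 : Q := Q.p (nat_lit 0x3800008000000000000000000000000000000000000000000000000000000000) (nat_lit 0x1dc0000600010000000000000000000000000000000000000000000000000000000000) (nat_lit 5)
theorem c95560 : QOK q95560 := cut [q40546] ⟨c40546, trivial⟩ (nd (nat_lit 250) (nat_lit 0) (cs (lf (nat_lit 17) (nat_lit 228)) (rf (nat_lit 0)))) q95560 (by decide +kernel)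
def q95562 : Q := Q.p (nat_lit 0x100000800002000008000000000000000000000000000000000000000000000000000000000) (nat_lit 0x4000000000000000700001c0000500000000000000000000000000000000000000000) (nat_lit 5)
theorem c95562 : QOK q95562 := cut [q81901] ⟨c81901, trivial⟩ (nd (nat_lit 209) (nat_lit 0) (cs (lf (nat_lit 40) (nat_lit 208)) (rf (nat_lit 0)))) q95562 (by decide +kernel)
def q95597 : Q := Q.p (nat_lit 0x4000038000060000000000000000000000000000000000000000000000000000) (nat_lit 0x400001000000000004000380000200000000000000000000000000000000000000000000000) (nat_lit 4)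
theorem c95597 : QOK q95597 := cut [q88820] ⟨c88820, trivial⟩ (nd (nat_lit 276) (nat_lit 0) (cs (lf (nat_lit 42) (nat_lit 209)) (rf (nat_lit 0)))) q95597 (by decide +kernel)
def q95657 : Q := Q.p (nat_lit 0x80000600000c000020000000000000000000000000000000000000000000000000000) (nat_lit 0x130001c0000100000000000000000000000000000000000000000000000) (nat_lit 4)
theorem c95657 : QOK q95657 := cut [q90310] ⟨c90310, trivial⟩ (nd (nat_lit 229) (nat_lit 0) (cs (lf (nat_lit 0) (nat_lit 228)) (rf (nat_lit 0)))) q95657 (by decide +kernel)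
def q95665 : Q := Q.p (nat_lit 0x20000080000700000c000000000000000000000000000000000000000000000000000000000) (nat_lit 0x1000004000010000000000700001c0000000000000000000000000000000000000000000000000000) (nat_lit 5)
theorem c95665 : QOK q95665 := cut [q80294] ⟨c80294, trivial⟩ (nd (nat_lit 232) (nat_lit 0) (cs (lf (nat_lit 35) (nat_lit 209)) (nd (nat_lit 298) (nat_lit 0) (cs (lf (nat_lit 29) (nat_lit 231)) (rf (nat_lit 0)))))) q95665 (by decide +kernel)
def q95696 : Q := Q.p (nat_lit 0x4000018000060000000000000000000000000000000000000000000000000000) (nat_lit 0x400001000000000004000380000200000000000000000000000000000000000000000000000) (nat_lit 4)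
theorem c95696 : QOK q95696 := cut [q79607] ⟨c79607, trivial⟩ (nd (nat_lit 276) (nat_lit 0) (cs (lf (nat_lit 42) (nat_lit 209)) (rf (nat_lit 0)))) q95696 (by decide +kernel)
def q95740 : Q := Q.p (nat_lit 0x400007000010000000000000000000000000000000000000000000000000000000000) (nat_lit 0x2000380000ec000000000000000000000000000000000000000000000000000000000) (nat_lit 5)
theorem c95740 : QOK q95740 := cut [q95738] ⟨c95738, trivial⟩ (nd (nat_lit 255) (nat_lit 0) (cs (lf (nat_lit 11) (nat_lit 251)) (nd (nat_lit 234) (nat_lit 0) (cs (lf (nat_lit 16) (nat_lit 230)) (rf (nat_lit 0)))))) q95740 (by decide +kernel)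
def q95749 : Q := Q.p (nat_lit 0x4000038000040000100000000000000000000000000000000000000000000000) (nat_lit 0x1000000000004000380000280000a00000000000000000000000000000000000000000) (nat_lit 5)
theorem c95749 : QOK q95749 := cut [q95602] ⟨c95602, trivial⟩ (nd (nat_lit 165) (nat_lit 0) (cs (lf (nat_lit 46) (nat_lit 165)) (rf (nat_lit 0)))) q95749 (by decide +kernel)
def q95755 : Q := Q.p (nat_lit 0x400003000018000000000000000000000000000000000000000000000000000000000) (nat_lit 0x40000100000000000000064000020000080000000000000000000000000000000000000000000000) (nat_lit 4)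
theorem c95755 : QOK q95755 := cut [q82280] ⟨c82280, trivial⟩ (nd (nat_lit 233) (nat_lit 0) (cs (lf (nat_lit 6) (nat_lit 230)) (rf (nat_lit 0)))) q95755 (by decide +kernel)
def q95788 : Q := Q.p (nat_lit 0x80000300000a000020000000000000000000000000000000000000000000000000000) (nat_lit 0x400001000004c00005c00000000000000000000000000000000000000000000000000000000) (nat_lit 5)
theorem c95788 : QOK q95788 := cut [q82198] ⟨c82198, trivial⟩ (nd (nat_lit 276) (nat_lit 0) (cs (lf (nat_lit 29) (nat_lit 209)) (nd (nat_lit 251) (nat_lit 0) (cs (lf (nat_lit 0) (nat_lit 250)) (rf (nat_lit 0)))))) q95788 (by decide +kernel)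
def q95864 : Q := Q.p (nat_lit 0x300001a000060000000000000000000000000000000000000000000000000000) (nat_lit 0x10c000c4000390000e00000800002000000000000000000000000000000000000) (nat_lit 8)
theorem c95864 : QOK q95864 := cut [q95863] ⟨c95863, trivial⟩ (nd (nat_lit 250) (nat_lit 0) (cs (lf (nat_lit 13) (nat_lit 228)) (rf (nat_lit 0)))) q95864 (by decide +kernel)
def q95954 : Q := Q.p (nat_lit 0xf00000800002000000000000000000000000000000000000000000000000000000000000000) (nat_lit 0x10000660000000000600000000000000000000000000000000000000000000000000000000000000000000) (nat_lit 4)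
theorem c95954 : QOK q95954 := cut [q95953] ⟨c95953, trivial⟩ (nd (nat_lit 321) (nat_lit 0) (cs (lf (nat_lit 5) (nat_lit 296)) (rf (nat_lit 0)))) q95954 (by decide +kernel)
def q96035 : Q := Q.p (nat_lit 0x300000c00003000000000000000000000000000000000000000000000000000000000000000) (nat_lit 0x100000c0000038000c800078000040000000000000000000000000000000000000000000000000000) (nat_lit 7)
theorem c96035 : QOK q96035 := cut [q14470, q84408, q96034] ⟨c14470, c84408, c96034, trivial⟩ (nd (nat_lit 273) (nat_lit 0) (cs (rf (nat_lit 0)) (cs (rf (nat_lit 1)) (rf (nat_lit 2))))) q96035 (by decide +kernel)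
def q96152 : Q := Q.p (nat_lit 0x1000000000018000070000000000000000000000000000000000000000000000000000) (nat_lit 0x400000700008c000630000000000000000000000000000000000000000000000) (nat_lit 6)
theorem c96152 : QOK q96152 := cut [q96151] ⟨c96151, trivial⟩ (nd (nat_lit 207) (nat_lit 0) (cs (lf (nat_lit 0) (nat_lit 206)) (rf (nat_lit 0)))) q96152 (by decide +kernel)
def q96168 : Q := Q.p (nat_lit 0x6000018000040000100000000000000000000000000000000000000000000000) (nat_lit 0x10000000000000000a00000f0000300000000000000000000000000000000000000000) (nat_lit 5)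
theorem c96168 : QOK q96168 := cut [q84329] ⟨c84329, trivial⟩ (nd (nat_lit 187) (nat_lit 0) (cs (lf (nat_lit 47) (nat_lit 165)) (nd (nat_lit 209) (nat_lit 0) (cs (lf (nat_lit 42) (nat_lit 187)) (rf (nat_lit 0)))))) q96168 (by decide +kernel)
def q96209 : Q := Q.p (nat_lit 0x800003000008000020000000000000000000000000000000000000000000000000000) (nat_lit 0x80000600005c0001780004c00004000000000000000000000000000000000000000000000000000000000) (nat_lit 7)
theorem c96209 : QOK q96209 := cut [q17544, q87021, q94936] ⟨c17544, c87021, c94936, trivial⟩ (nd (nat_lit 274) (nat_lit 0) (cs (rf (nat_lit 0)) (nd (nat_lit 273) (nat_lit 0) (cs (rf (nat_lit 1)) (rf (nat_lit 2)))))) q96209 (by decide +kernel)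
def q96216 : Q := Q.p (nat_lit 0x40000180000c000010000000000000000000000000000000000000000000000000000) (nat_lit 0x3200000e000020000000000000000000000000000000000000000000000) (nat_lit 4)
theorem c96216 : QOK q96216 := cut [q87075] ⟨c87075, trivial⟩ (nd (nat_lit 232) (nat_lit 0) (cs (lf (nat_lit 6) (nat_lit 229)) (rf (nat_lit 0)))) q96216 (by decide +kernel)
def q96223 : Q := Q.p (nat_lit 0x400003800008000000000000000000000000000000000000000000000000000000000) (nat_lit 0x40000100000200004000007c00008000020000000000000000000000000000000000000000000000) (nat_lit 4)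
theorem c96223 : QOK q96223 := cut [q82198, q40801] ⟨c82198, c40801, trivial⟩ (nd (nat_lit 229) (nat_lit 0) (cs (rf (nat_lit 0)) (nd (nat_lit 296) (nat_lit 0) (cs (lf (nat_lit 30) (nat_lit 230)) (rf (nat_lit 1)))))) q96223 (by decide +kernel)
def q96246 : Q := Q.p (nat_lit 0x2000008000078000000000000000000000000000000000000000000000000000) (nat_lit 0x4000080000070000100000400000000000000000000000000000000000) (nat_lit 4)
theorem c96246 : QOK q96246 := cut [q96245] ⟨c96245, trivial⟩ (nd (nat_lit 185) (nat_lit 0) (cs (lf (nat_lit 23) (nat_lit 184)) (rf (nat_lit 0)))) q96246 (by decide +kernel)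
def q96273 : Q := Q.p (nat_lit 0x200001c000030000000000000000000000000000000000000000000000000000) (nat_lit 0x40000620001c0000700000c00001000000000000000000000000000000000000) (nat_lit 7)
theorem c96273 : QOK q96273 := cut [q85127] ⟨c85127, trivial⟩ (nd (nat_lit 233) (nat_lit 0) (cs (lf (nat_lit 18) (nat_lit 208)) (nd (nat_lit 211) (nat_lit 0) (cs (lf (nat_lit 17) (nat_lit 208)) (nd (nat_lit 210) (nat_lit 0) (cs (lf (nat_lit 12) (nat_lit 207)) (rf (nat_lit 0)))))))) q96273 (by decide +kernel)
def q96303 : Q := Q.p (nat_lit 0x300001c000000000000000000000000000000000000000000000000000000000) (nat_lit 0x1c0000620001c0000000000000000000000000000000000000000000000000000) (nat_lit 5)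
theorem c96303 : QOK q96303 := cut [q92716] ⟨c92716, trivial⟩ (nd (nat_lit 233) (nat_lit 0) (cs (lf (nat_lit 6) (nat_lit 230)) (rf (nat_lit 0)))) q96303 (by decide +kernel)
def q96314 : Q := Q.p (nat_lit 0x800002000008000020000000000000000000000000000000000000000000000000000) (nat_lit 0x500001400005000000000000000080000000000000000000000000000000000000000000000) (nat_lit 4)
theorem c96314 : QOK q96314 := cut [q96313] ⟨c96313, trivial⟩ (nd (nat_lit 274) (nat_lit 0) (cs (lf (nat_lit 41) (nat_lit 208)) (rf (nat_lit 0)))) q96314 (by decide +kernel)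
def q96322 : Q := Q.p (nat_lit 0x800002000008000020000000000000000000000000000000000000000000000000000) (nat_lit 0x80000700003400001c000170001d0000100000000000000000000000000000000000000000000000) (nat_lit 10)
theorem c96322 : QOK q96322 := cut [q96315] ⟨c96315, trivial⟩ (nd (nat_lit 274) (nat_lit 0) (cs (lf (nat_lit 41) (nat_lit 208)) (nd (nat_lit 276) (nat_lit 0) (cs (lf (nat_lit 29) (nat_lit 209)) (nd (nat_lit 210) (nat_lit 0) (cs (lf (nat_lit 35) (nat_lit 187)) (nd (nat_lit 297) (nat_lit 0) (cs (lf (nat_lit 34) (nat_lit 209)) (nd (nat_lit 230) (nat_lit 0) (cs (lf (nat_lit 47) (nat_lit 208)) (nd (nat_lit 228) (nat_lit 0) (cs (lf (nat_lit 13) (nat_lit 206)) (nd (nat_lit 211) (nat_lit 0) (cs (lf (nat_lit 6) (nat_lit 208)) (rf (nat_lit 0)))))))))))))))) q96322 (by decide +kernel)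
def q96325 : Q := Q.p (nat_lit 0x800002000008000020000000000000000000000000000000000000000000000000000) (nat_lit 0x1000004000010000000000100000c0000100000000000000000000000000000000000000000) (nat_lit 4)
theorem c96325 : QOK q96325 := cut [q96324] ⟨c96324, trivial⟩ (nd (nat_lit 274) (nat_lit 0) (cs (lf (nat_lit 41) (nat_lit 208)) (rf (nat_lit 0)))) q96325 (by decide +kernel)
def q96330 : Q := Q.p (nat_lit 0x1c00002000008000020000000000000000000000000000000000000000000000000000) (nat_lit 0x8000020000020001c000074000050000040000000000000000000000000000000000000000000000) (nat_lit 7)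
theorem c96330 : QOK q96330 := cut [q96326] ⟨c96326, trivial⟩ (nd (nat_lit 208) (nat_lit 0) (cs (lf (nat_lit 47) (nat_lit 186)) (nd (nat_lit 297) (nat_lit 0) (cs (lf (nat_lit 46) (nat_lit 208)) (nd (nat_lit 232) (nat_lit 0) (cs (lf (nat_lit 35) (nat_lit 209)) (nd (nat_lit 233) (nat_lit 0) (cs (lf (nat_lit 18) (nat_lit 208)) (rf (nat_lit 0)))))))))) q96330 (by decide +kernel)
def q96338 : Q := Q.p (nat_lit 0x400001000007800008000000000000000000000000000000000000000000000000000000000) (nat_lit 0x800002000008000000000300000c0000300000c00000000000000000000000000000000000000000) (nat_lit 6)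
theorem c96338 : QOK q96338 := cut [q88780] ⟨c88780, trivial⟩ (nd (nat_lit 232) (nat_lit 0) (cs (lf (nat_lit 17) (nat_lit 229)) (rf (nat_lit 0)))) q96338 (by decide +kernel)
def q96345 : Q := Q.p (nat_lit 0x7800008000000000000000000000000000000000000000000000000000000000) (nat_lit 0x1800006000038000000000330000c0000300000c00000000000000000000000000000000000000000) (nat_lit 9)
theorem c96345 : QOK q96345 := cut [q88780] ⟨c88780, trivial⟩ (nd (nat_lit 232) (nat_lit 0) (cs (lf (nat_lit 17) (nat_lit 229)) (nd (nat_lit 276) (nat_lit 0) (cs (lf (nat_lit 5) (nat_lit 251)) (nd (nat_lit 298) (nat_lit 0) (cs (lf (nat_lit 42) (nat_lit 231)) (nd (nat_lit 228) (nat_lit 0) (cs (lf (nat_lit 22) (nat_lit 228)) (rf (nat_lit 0)))))))))) q96345 (by decide +kernel)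
def q96350 : Q := Q.p (nat_lit 0x7800008000000000000000000000000000000000000000000000000000000000) (nat_lit 0x100000400003f00038000014000000000000000000000000000000000000000000000000000000000) (nat_lit 7)
theorem c96350 : QOK q96350 := cut [q96346] ⟨c96346, trivial⟩ (nd (nat_lit 276) (nat_lit 0) (cs (lf (nat_lit 5) (nat_lit 251)) (nd (nat_lit 298) (nat_lit 0) (cs (lf (nat_lit 42) (nat_lit 231)) (nd (nat_lit 273) (nat_lit 0) (cs (lf (nat_lit 11) (nat_lit 250)) (nd (nat_lit 255) (nat_lit 0) (cs (lf (nat_lit 10) (nat_lit 251)) (rf (nat_lit 0)))))))))) q96350 (by decide +kernel)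
def q96364 : Q := Q.p (nat_lit 0x700001c000000000000000000000000000000000000000000000000000000000) (nat_lit 0xe0000380007e00018000000000050000100000000000000000000000000000000000000000000000) (nat_lit 9)
theorem c96364 : QOK q96364 := cut [q96363] ⟨c96363, trivial⟩ (nd (nat_lit 255) (nat_lit 0) (cs (lf (nat_lit 18) (nat_lit 230)) (rf (nat_lit 0)))) q96364 (by decide +kernel)
def q96383 : Q := Q.p (nat_lit 0xf00003c000000000000000000000000000000000000000000000000000000000) (nat_lit 0x1600000000000000180000200000800000000000000000000000000000000000000000) (nat_lit 4)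
theorem c96383 : QOK q96383 := cut [q79237] ⟨c79237, trivial⟩ (nd (nat_lit 273) (nat_lit 0) (cs (lf (nat_lit 10) (nat_lit 251)) (rf (nat_lit 0)))) q96383 (by decide +kernel)
def q96397 : Q := Q.p (nat_lit 0x7800008000000000000000000000000000000000000000000000000000000000) (nat_lit 0x10000040001ff000380000e0000000000000000000000000000000000000000000000000000000000) (nat_lit 9)
theorem c96397 : QOK q96397 := cut [q96395] ⟨c96395, trivial⟩ (nd (nat_lit 276) (nat_lit 0) (cs (lf (nat_lit 5) (nat_lit 251)) (nd (nat_lit 298) (nat_lit 0) (cs (lf (nat_lit 42) (nat_lit 231)) (rf (nat_lit 0)))))) q96397 (by decide +kernel)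
def q96402 : Q := Q.p (nat_lit 0x3800008000000000000000000000000000000000000000000000000000000000) (nat_lit 0x1c00000600011c00000000000000000000000000000000000000000000000000000000) (nat_lit 5)
theorem c96402 : QOK q96402 := cut [q40524] ⟨c40524, trivial⟩ (nd (nat_lit 250) (nat_lit 0) (cs (lf (nat_lit 17) (nat_lit 228)) (rf (nat_lit 0)))) q96402 (by decide +kernel)
def q96420 : Q := Q.p (nat_lit 0xe0000300000c000000000000000000000000000000000000000000000000000000000) (nat_lit 0x60001180000e00003800006000018000000000000000000000000000000000000000000000) (nat_lit 8)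
theorem c96420 : QOK q96420 := cut [q22218] ⟨c22218, trivial⟩ (nd (nat_lit 272) (nat_lit 0) (cs (lf (nat_lit 12) (nat_lit 249)) (nd (nat_lit 250) (nat_lit 0) (cs (lf (nat_lit 23) (nat_lit 249)) (nd (nat_lit 293) (nat_lit 0) (cs (lf (nat_lit 10) (nat_lit 271)) (nd (nat_lit 251) (nat_lit 0) (cs (lf (nat_lit 5) (nat_lit 250)) (rf (nat_lit 0)))))))))) q96420 (by decide +kernel)
def q96430 : Q := Q.p (nat_lit 0xc0000300001c000000000000000000000000000000000000000000000000000000000) (nat_lit 0x80000380000e00000000010000040000000000000000000000000000000000000000000000) (nat_lit 5)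
theorem c96430 : QOK q96430 := cut [q13430] ⟨c13430, trivial⟩ (nd (nat_lit 250) (nat_lit 0) (cs (lf (nat_lit 13) (nat_lit 228)) (nd (nat_lit 208) (nat_lit 0) (cs (lf (nat_lit 24) (nat_lit 186)) (rf (nat_lit 0)))))) q96430 (by decide +kernel)
def q96446 : Q := Q.p (nat_lit 0x7800008000000000000000000000000000000000000000000000000000000000) (nat_lit 0x76000180000e4000000000000000000000000000000000000000000000000000000000) (nat_lit 6)
theorem c96446 : QOK q96446 := cut [q96443] ⟨c96443, trivial⟩ (nd (nat_lit 277) (nat_lit 0) (cs (lf (nat_lit 4) (nat_lit 251)) (nd (nat_lit 255) (nat_lit 0) (cs (lf (nat_lit 5) (nat_lit 252)) (nd (nat_lit 273) (nat_lit 0) (cs (lf (nat_lit 10) (nat_lit 251)) (rf (nat_lit 0)))))))) q96446 (by decide +kernel)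
def q96466 : Q := Q.p (nat_lit 0x7800008000000000000000000000000000000000000000000000000000000000) (nat_lit 0x140001f00007c0003f00000000007000010000040000000000000000000000000000000000000000000000) (nat_lit 10)
theorem c96466 : QOK q96466 := cut [q80583, q2032] ⟨c80583, c2032, trivial⟩ (nd (nat_lit 273) (nat_lit 0) (cs (lf (nat_lit 11) (nat_lit 250)) (nd (nat_lit 295) (nat_lit 0) (cs (rf (nat_lit 0)) (cs (nd (nat_lit 229) (nat_lit 0) (cs (lf (nat_lit 23) (nat_lit 228)) (nd (nat_lit 276) (nat_lit 0) (cs (lf (nat_lit 5) (nat_lit 251)) (nd (nat_lit 298) (nat_lit 0) (cs (lf (nat_lit 42) (nat_lit 231)) (nd (nat_lit 294) (nat_lit 0) (cs (lf (nat_lit 41) (nat_lit 228)) (nd (nat_lit 296) (nat_lit 0) (cs (lf (nat_lit 29) (nat_lit 229)) (nd (nat_lit 275) (nat_lit 0) (cs (lf (nat_lit 15) (nat_lit 272)) (lf (nat_lit 8) (nat_lit 272)))))))))))))) (nd (nat_lit 228) (nat_lit 0) (cs (lf (nat_lit 22) (nat_lit 228)) (nd (nat_lit 276) (nat_lit 0) (cs (lf (nat_lit 5) (nat_lit 251)) (nd (nat_lit 298) (nat_lit 0) (cs (lf (nat_lit 42) (nat_lit 231))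 (nd (nat_lit 317) (nat_lit 0) (cs (rf (nat_lit 1)) (lf (nat_lit 35) (nat_lit 229))))))))))))))) q96466 (by decide +kernel)
def q96472 : Q := Q.p (nat_lit 0xf000000000000000000000000000000000000000000000000000000000000000) (nat_lit 0x400007000000800060000080000200000000000000000000000000000000000000000000000) (nat_lit 5)
theorem c96472 : QOK q96472 := cut [q96471] ⟨c96471, trivial⟩ (nd (nat_lit 233) (nat_lit 0) (cs (lf (nat_lit 17) (nat_lit 230)) (rf (nat_lit 0)))) q96472 (by decide +kernel)
def q96502 : Q := Q.p (nat_lit 0x3800008000000000000000000000000000000000000000000000000000000000) (nat_lit 0x380004600017800006000010000040000000000000000000000000000000000000000) (nat_lit 8)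
theorem c96502 : QOK q96502 := cut [q82357] ⟨c82357, trivial⟩ (nd (nat_lit 250) (nat_lit 0) (cs (lf (nat_lit 17) (nat_lit 228)) (nd (nat_lit 230) (nat_lit 0) (cs (lf (nat_lit 12) (nat_lit 227)) (nd (nat_lit 271) (nat_lit 0) (cs (lf (nat_lit 10) (nat_lit 249)) (nd (nat_lit 228) (nat_lit 0) (cs (lf (nat_lit 23) (nat_lit 227)) (nd (nat_lit 229) (nat_lit 0) (cs (lf (nat_lit 18) (nat_lit 228)) (rf (nat_lit 0)))))))))))) q96502 (by decide +kernel)
def q96512 : Q := Q.p (nat_lit 0x3000018000000000000000000000000000000000000000000000000000000000) (nat_lit 0x2000008000008000660001d8000140000400000000000000000000000000000000000000000) (nat_lit 8)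
theorem c96512 : QOK q96512 := cut [q96507] ⟨c96507, trivial⟩ (nd (nat_lit 233) (nat_lit 0) (cs (lf (nat_lit 6) (nat_lit 230)) (nd (nat_lit 230) (nat_lit 0) (cs (lf (nat_lit 11) (nat_lit 229)) (nd (nat_lit 211) (nat_lit 0) (cs (lf (nat_lit 17) (nat_lit 208)) (nd (nat_lit 210) (nat_lit 0) (cs (lf (nat_lit 12) (nat_lit 207)) (nd (nat_lit 166) (nat_lit 0) (cs (lf (nat_lit 37) (nat_lit 165)) (rf (nat_lit 0)))))))))))) q96512 (by decide +kernel)
def q96520 : Q := Q.p (nat_lit 0x80000f000038000000000000000000000000000000000000000000000000000000000) (nat_lit 0x400005800076000000000000000c0000300000000000000000000000000000000000000000000000) (nat_lit 7)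
theorem c96520 : QOK q96520 := cut [q96517] ⟨c96517, trivial⟩ (nd (nat_lit 277) (nat_lit 0) (cs (lf (nat_lit 5) (nat_lit 252)) (nd (nat_lit 188) (nat_lit 0) (cs (lf (nat_lit 37) (nat_lit 187)) (nd (nat_lit 274) (nat_lit 0) (cs (lf (nat_lit 11) (nat_lit 251)) (rf (nat_lit 0)))))))) q96520 (by decide +kernel)
def q96534 : Q := Q.p (nat_lit 0x700001c000000000000000000000000000000000000000000000000000000000) (nat_lit 0x1000004000008000030000cc000120000480000000000000000000000000000000000000000) (nat_lit 7)
theorem c96534 : QOK q96534 := cut [q90285] ⟨c90285, trivial⟩ (nd (nat_lit 229) (nat_lit 0) (cs (lf (nat_lit 0) (nat_lit 228)) (nd (nat_lit 210) (nat_lit 0) (cs (lf (nat_lit 17) (nat_lit 207)) (nd (nat_lit 166) (nat_lit 0) (cs (lf (nat_lit 37) (nat_lit 165)) (nd (nat_lit 207) (nat_lit 0) (cs (lf (nat_lit 23) (nat_lit 206)) (rf (nat_lit 0)))))))))) q96534 (by decide +kernel)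
def q96536 : Q := Q.p (nat_lit 0x4000010000040000100000000000000000000000000000000000000000000000) (nat_lit 0x10000000000000001800002e0000a00000000000000000000000000000000000000000) (nat_lit 5)
theorem c96536 : QOK q96536 := cut [q79970] ⟨c79970, trivial⟩ (nd (nat_lit 187) (nat_lit 0) (cs (lf (nat_lit 47) (nat_lit 165)) (rf (nat_lit 0)))) q96536 (by decide +kernel)
def q96568 : Q := Q.p (nat_lit 0x7000028000000000000000000000000000000000000000000000000000000000) (nat_lit 0xe000018000044000000000000000000000000000000000000000000000000000000000) (nat_lit 4)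
theorem c96568 : QOK q96568 := cut [q82395] ⟨c82395, trivial⟩ (nd (nat_lit 255) (nat_lit 0) (cs (lf (nat_lit 17) (nat_lit 230)) (rf (nat_lit 0)))) q96568 (by decide +kernel)
def q96570 : Q := Q.p (nat_lit 0xe000008000000000000000000000000000000000000000000000000000000000) (nat_lit 0x300001d4000000000000000000000000000000000000000000000000000000000) (nat_lit 4)
theorem c96570 : QOK q96570 := cut [q87286] ⟨c87286, trivial⟩ (nd (nat_lit 256) (nat_lit 0) (cs (lf (nat_lit 23) (nat_lit 230)) (rf (nat_lit 0)))) q96570 (by decide +kernel)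
def q96573 : Q := Q.p (nat_lit 0x600001a000000000000000000000000000000000000000000000000000000000) (nat_lit 0x8000080000040000c0000100000400000000000000000000000000000000000000000) (nat_lit 4)
theorem c96573 : QOK q96573 := cut [q79251] ⟨c79251, trivial⟩ (nd (nat_lit 230) (nat_lit 0) (cs (rf (nat_lit 0)) (lf (nat_lit 5) (nat_lit 229)))) q96573 (by decide +kernel)
def q96631 : Q := Q.p (nat_lit 0x380000e000008000000000000000000000000000000000000000000000000000) (nat_lit 0x200000000001800006000010000040000000000000000000000000000000000000000) (nat_lit 4)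
theorem c96631 : QOK q96631 := cut [q93621] ⟨c93621, trivial⟩ (nd (nat_lit 228) (nat_lit 0) (cs (lf (nat_lit 0) (nat_lit 227)) (rf (nat_lit 0)))) q96631 (by decide +kernel)
def q96662 : Q := Q.p (nat_lit 0x1800002800008000020000000000000000000000000000000000000000000000000000) (nat_lit 0x10000070000c400000000000000000000000000000000000000000000000000000000000000) (nat_lit 4)
theorem c96662 : QOK q96662 := cut [q96661] ⟨c96661, trivial⟩ (nd (nat_lit 274) (nat_lit 0) (cs (lf (nat_lit 41) (nat_lit 208)) (rf (nat_lit 0)))) q96662 (by decide +kernel)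
def q96671 : Q := Q.p (nat_lit 0x1800002800008000020000000000000000000000000000000000000000000000000000) (nat_lit 0x710000e40003d000000000000000000000000000000000000000000000000000000000000000) (nat_lit 7)
theorem c96671 : QOK q96671 := cut [q96670] ⟨c96670, trivial⟩ (nd (nat_lit 274) (nat_lit 0) (cs (lf (nat_lit 41) (nat_lit 208)) (rf (nat_lit 0)))) q96671 (by decide +kernel)
def q96679 : Q := Q.p (nat_lit 0x800002000008000020000000000000000000000000000000000000000000000000000) (nat_lit 0x40000300000400000000010000050000140000000000000000000000000000000000000000000000) (nat_lit 5)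
theorem c96679 : QOK q96679 := cut [q96677] ⟨c96677, trivial⟩ (nd (nat_lit 296) (nat_lit 0) (cs (lf (nat_lit 40) (nat_lit 208)) (nd (nat_lit 186) (nat_lit 0) (cs (lf (nat_lit 46) (nat_lit 186)) (rf (nat_lit 0)))))) q96679 (by decide +kernel)
def q96698 : Q := Q.p (nat_lit 0x2000008000020000000000000000000000000000000000000000000000000000) (nat_lit 0x100000c000010000000000500001c0000700001400000000000000000000000000000000000) (nat_lit 5)
theorem c96698 : QOK q96698 := cut [q1580, q96335, q96697] ⟨c1580, c96335, c96697, trivial⟩ (nd (nat_lit 187) (nat_lit 0) (cs (rf (nat_lit 0)) (cs (rf (nat_lit 1)) (rf (nat_lit 2))))) q96698 (by decide +kernel)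
def q96702 : Q := Q.p (nat_lit 0x80000e0000000000000000000000000000000000000000000000000000) (nat_lit 0x100001d0000f10000f00000800002000000000000000000000000000000000000) (nat_lit 6)
theorem c96702 : QOK q96702 := cut [q80821, q84303, q84323] ⟨c80821, c84303, c84323, trivial⟩ (nd (nat_lit 212) (nat_lit 0) (cs (rf (nat_lit 0)) (cs (rf (nat_lit 1)) (rf (nat_lit 2))))) q96702 (by decide +kernel)
def q96719 : Q := Q.p (nat_lit 0x800001c0000000000000000000000000000000000000000000000) (nat_lit 0x4e0000300000e0000000000000000000000000000000000000000) (nat_lit 5)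
theorem c96719 : QOK q96719 := cut [q20853] ⟨c20853, trivial⟩ (nd (nat_lit 185) (nat_lit 0) (cs (lf (nat_lit 4) (nat_lit 185)) (rf (nat_lit 0)))) q96719 (by decide +kernel)
def q96725 : Q := Q.p (nat_lit 0x2000008000020000000000000000000000000000000000000000000000000000) (nat_lit 0x4000018000040000000000500001c0000700001400000000000000000000000000000000000) (nat_lit 5)
theorem c96725 : QOK q96725 := cut [q1580, q88755, q92814] ⟨c1580, c88755, c92814, trivial⟩ (nd (nat_lit 187) (nat_lit 0) (cs (rf (nat_lit 0)) (cs (rf (nat_lit 1)) (rf (nat_lit 2))))) q96725 (by decide +kernel)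
def q96728 : Q := Q.p (nat_lit 0x200000800002000008000000000000000000000000000000000000000000000000000000000) (nat_lit 0x40000180000400000000004000010000040000000000000000000000000000000000000000000000000000) (nat_lit 4)
theorem c96728 : QOK q96728 := cut [q96727] ⟨c96727, trivial⟩ (nd (nat_lit 232) (nat_lit 0) (cs (lf (nat_lit 35) (nat_lit 209)) (rf (nat_lit 0)))) q96728 (by decide +kernel)
def q96734 : Q := Q.p (nat_lit 0xc00002000008000020000080000000000000000000000000000000000000000000000) (nat_lit 0x8000020000130001c000010000040000000000200000000000000000000000000000000000000000) (nat_lit 6)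
theorem c96734 : QOK q96734 := cut [q80949] ⟨c80949, trivial⟩ (nd (nat_lit 254) (nat_lit 0) (cs (lf (nat_lit 29) (nat_lit 187)) (nd (nat_lit 272) (nat_lit 0) (cs (lf (nat_lit 13) (nat_lit 250)) (nd (nat_lit 255) (nat_lit 0) (cs (lf (nat_lit 6) (nat_lit 252)) (rf (nat_lit 0)))))))) q96734 (by decide +kernel)
def q96742 : Q := Q.p (nat_lit 0x2000008000020000000000000000000000000000000000000000000000000000) (nat_lit 0x140000700001c00004000010000040000180000400000000000000000000000000000000000000000) (nat_lit 5)
theorem c96742 : QOK q96742 := cut [q3443, q96310, q96741] ⟨c3443, c96310, c96741, trivial⟩ (nd (nat_lit 275) (nat_lit 0) (cs (rf (nat_lit 0)) (cs (rf (nat_lit 1)) (rf (nat_lit 2))))) q96742 (by decide +kernel)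
def q96750 : Q := Q.p (nat_lit 0x2000008000020000080000000000000000000000000000000000000000000000) (nat_lit 0x200000800004000010000040000140000300000c00000000000000000000000000000000000) (nat_lit 6)
theorem c96750 : QOK q96750 := cut [q84393] ⟨c84393, trivial⟩ (nd (nat_lit 164) (nat_lit 0) (cs (lf (nat_lit 46) (nat_lit 164)) (nd (nat_lit 165) (nat_lit 0) (cs (lf (nat_lit 47) (nat_lit 142)) (nd (nat_lit 232) (nat_lit 0) (cs (lf (nat_lit 29) (nat_lit 165)) (rf (nat_lit 0)))))))) q96750 (by decide +kernel)
def q96764 : Q := Q.p (nat_lit 0x200000e000000000000000000000000000000000000000000000000000000000) (nat_lit 0x4700001800070000000000000000000000000000000000000000000000000000) (nat_lit 5)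
theorem c96764 : QOK q96764 := cut [q96763] ⟨c96763, trivial⟩ (nd (nat_lit 228) (nat_lit 0) (cs (lf (nat_lit 5) (nat_lit 228)) (rf (nat_lit 0)))) q96764 (by decide +kernel)
def q96769 : Q := Q.p (nat_lit 0x200000e000000000000000000000000000000000000000000000000000000000) (nat_lit 0x5000001800007000000000000000000000000000000000000000000000000000) (nat_lit 4)
theorem c96769 : QOK q96769 := cut [q22544] ⟨c22544, trivial⟩ (nd (nat_lit 228) (nat_lit 0) (cs (rf (nat_lit 0)) (lf (nat_lit 5) (nat_lit 228)))) q96769 (by decide +kernel)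
def q96772 : Q := Q.p (nat_lit 0x780000c000000000000000000000000000000000000000000000000000000000) (nat_lit 0x120000480003700000000000000010000040000000000000000000000000000000000000000000000) (nat_lit 6)
theorem c96772 : QOK q96772 := cut [q87096] ⟨c87096, trivial⟩ (nd (nat_lit 273) (nat_lit 0) (cs (lf (nat_lit 11) (nat_lit 250)) (nd (nat_lit 276) (nat_lit 0) (cs (lf (nat_lit 5) (nat_lit 251)) (nd (nat_lit 298) (nat_lit 0) (cs (lf (nat_lit 42) (nat_lit 231)) (rf (nat_lit 0)))))))) q96772 (by decide +kernel)
def q96778 : Q := Q.p (nat_lit 0x380000c000000000000000000000000000000000000000000000000000000000) (nat_lit 0x738001c600001800000000000000000000000000000000000000000000000000000000) (nat_lit 7)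
theorem c96778 : QOK q96778 := cut [q96776] ⟨c96776, trivial⟩ (nd (nat_lit 250) (nat_lit 0) (cs (lf (nat_lit 12) (nat_lit 227)) (nd (nat_lit 227) (nat_lit 0) (cs (lf (nat_lit 22) (nat_lit 227)) (rf (nat_lit 0)))))) q96778 (by decide +kernel)
def q96783 : Q := Q.p (nat_lit 0x300000c000010000040000000000000000000000000000000000000000000000) (nat_lit 0x400000000000000028000780000600000000000000000000000000000000000000000) (nat_lit 5)
theorem c96783 : QOK q96783 := cut [q358] ⟨c358, trivial⟩ (nd (nat_lit 187) (nat_lit 0) (cs (lf (nat_lit 35) (nat_lit 164)) (nd (nat_lit 209) (nat_lit 0) (cs (lf (nat_lit 30) (nat_lit 186)) (rf (nat_lit 0)))))) q96783 (by decide +kernel)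
def q96836 : Q := Q.p (nat_lit 0x200000e000000000000000000000000000000000000000000000000000000000) (nat_lit 0x4700001800007000000000000000000000000000000000000000000000000000) (nat_lit 5)
theorem c96836 : QOK q96836 := cut [q96835] ⟨c96835, trivial⟩ (nd (nat_lit 228) (nat_lit 0) (cs (lf (nat_lit 5) (nat_lit 228)) (rf (nat_lit 0)))) q96836 (by decide +kernel)
def q96837 : Q := Q.p (nat_lit 0xe000000000000000000000000000000000000000000000000000000000) (nat_lit 0x7000118000ff000000000000000000000000000000000000000000000000000) (nat_lit 5)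
theorem c96837 : QOK q96837 := cut [q96763, q96767, q96835] ⟨c96763, c96767, c96835, trivial⟩ (nd (nat_lit 228) (nat_lit 0) (cs (rf (nat_lit 0)) (cs (rf (nat_lit 1)) (rf (nat_lit 2))))) q96837 (by decide +kernel)
def q96850 : Q := Q.p (nat_lit 0x780000c000000000000000000000000000000000000000000000000000000000) (nat_lit 0x100000400003380000600000000020000080000000000000000000000000000000000000000000000) (nat_lit 6)
theorem c96850 : QOK q96850 := cut [q85488] ⟨c85488, trivial⟩ (nd (nat_lit 276) (nat_lit 0) (cs (lf (nat_lit 5) (nat_lit 251)) (nd (nat_lit 298) (nat_lit 0) (cs (lf (nat_lit 42) (nat_lit 231)) (nd (nat_lit 187) (nat_lit 0) (cs (lf (nat_lit 25) (nat_lit 187)) (rf (nat_lit 0)))))))) q96850 (by decide +kernel)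
def q96865 : Q := Q.p (nat_lit 0x40000300000c000010000000000000000000000000000000000000000000000000000) (nat_lit 0x800003800000000038001ee0007b8000000000000000000000000000000000000000000000) (nat_lit 11)
theorem c96865 : QOK q96865 := cut [q88132] ⟨c88132, trivial⟩ (nd (nat_lit 209) (nat_lit 0) (cs (lf (nat_lit 36) (nat_lit 186)) (rf (nat_lit 0)))) q96865 (by decide +kernel)
def q96873 : Q := Q.p (nat_lit 0x300000c000010000000000000000000000000000000000000000000000000000) (nat_lit 0x140000c0000030000200000c0000300000000000000000000000000000000000000000) (nat_lit 6)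
theorem c96873 : QOK q96873 := cut [q92801] ⟨c92801, trivial⟩ (nd (nat_lit 186) (nat_lit 0) (cs (lf (nat_lit 24) (nat_lit 164)) (nd (nat_lit 187) (nat_lit 0) (cs (lf (nat_lit 35) (nat_lit 164)) (nd (nat_lit 209) (nat_lit 0) (cs (lf (nat_lit 30) (nat_lit 186)) (rf (nat_lit 0)))))))) q96873 (by decide +kernel)
def q96880 : Q := Q.p (nat_lit 0x200001e000000000000000000000000000000000000000000000000000000000) (nat_lit 0xd0000e00001c0000000000000000000000000000000000000000000000000000) (nat_lit 5)
theorem c96880 : QOK q96880 := cut [q96878] ⟨c96878, trivial⟩ (nd (nat_lit 211) (nat_lit 0) (cs (lf (nat_lit 16) (nat_lit 207)) (nd (nat_lit 254) (nat_lit 0) (cs (lf (nat_lit 5) (nat_lit 229)) (rf (nat_lit 0)))))) q96880 (by decide +kernel)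
def q96899 : Q := Q.p (nat_lit 0x6000008000020000000000000000000000000000000000000000000000) (nat_lit 0x10000000000100000000000c0000300000400000000000000000000000000000) (nat_lit 4)
theorem c96899 : QOK q96899 := cut [q96898] ⟨c96898, trivial⟩ (nd (nat_lit 163) (nat_lit 0) (cs (lf (nat_lit 29) (nat_lit 163)) (rf (nat_lit 0)))) q96899 (by decide +kernel)
def q96914 : Q := Q.p (nat_lit 0x200000e000000000000000000000000000000000000000000000000000000000) (nat_lit 0x39f000718001df000020000080000000000000000000000000000000000000000) (nat_lit 11)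
theorem c96914 : QOK q96914 := cut [q22544, q96757, q96835, q96906] ⟨c22544, c96757, c96835, c96906, trivial⟩ (nd (nat_lit 228) (nat_lit 0) (cs (rf (nat_lit 0)) (cs (rf (nat_lit 1)) (cs (rf (nat_lit 2)) (nd (nat_lit 205) (nat_lit 0) (cs (lf (nat_lit 22) (nat_lit 205)) (nd (nat_lit 250) (nat_lit 0) (cs (lf (nat_lit 11) (nat_lit 227)) (nd (nat_lit 232) (nat_lit 0) (cs (lf (nat_lit 10) (nat_lit 228)) (nd (nat_lit 211) (nat_lit 0) (cs (lf (nat_lit 16) (nat_lit 207)) (nd (nat_lit 233) (nat_lit 0) (cs (lf (nat_lit 17) (nat_lit 208)) (nd (nat_lit 207) (nat_lit 0) (cs (lf (nat_lit 22) (nat_lit 207)) (nd (nat_lit 163) (nat_lit 0) (cs (lf (nat_lit 37) (nat_lit 162)) (rf (nat_lit 3)))))))))))))))))))) q96914 (by decide +kernel)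
def q96973 : Q := Q.p (nat_lit 0x200001c000080000000000000000000000000000000000000000000000000000) (nat_lit 0x39000060000100000000000000000000000000000000000000000000000000000) (nat_lit 4)
theorem c96973 : QOK q96973 := cut [q96906] ⟨c96906, trivial⟩ (nd (nat_lit 233) (nat_lit 0) (cs (lf (nat_lit 17) (nat_lit 208)) (rf (nat_lit 0)))) q96973 (by decide +kernel)
def q96986 : Q := Q.p (nat_lit 0x200001e000000000000000000000000000000000000000000000000000000000) (nat_lit 0x75c000e00001cc000000000000000000000000000000000000000000000000000) (nat_lit 8)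
theorem c96986 : QOK q96986 := cut [q96982] ⟨c96982, trivial⟩ (nd (nat_lit 211) (nat_lit 0) (cs (lf (nat_lit 16) (nat_lit 207)) (nd (nat_lit 250) (nat_lit 0) (cs (lf (nat_lit 10) (nat_lit 228)) (nd (nat_lit 206) (nat_lit 0) (cs (lf (nat_lit 22) (nat_lit 206)) (nd (nat_lit 233) (nat_lit 0) (cs (lf (nat_lit 17) (nat_lit 208)) (rf (nat_lit 0)))))))))) q96986 (by decide +kernel)
def q96999 : Q := Q.p (nat_lit 0x600001c000000000000000000000000000000000000000000000000000000000) (nat_lit 0x4000010000180000e00001f8000200000800000000000000000000000000000000000000000) (nat_lit 5)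
theorem c96999 : QOK q96999 := cut [q94095, q96996] ⟨c94095, c96996, trivial⟩ (nd (nat_lit 233) (nat_lit 0) (cs (rf (nat_lit 0)) (nd (nat_lit 255) (nat_lit 0) (cs (lf (nat_lit 18) (nat_lit 230)) (nd (nat_lit 234) (nat_lit 0) (cs (lf (nat_lit 6) (nat_lit 231)) (rf (nat_lit 1)))))))) q96999 (by decide +kernel)
def q97008 : Q := Q.p (nat_lit 0x7800004000000000000000000000000000000000000000000000000000000000) (nat_lit 0x20000080000700000000000000010000040000000000000000000000000000000000000000000000) (nat_lit 4)
theorem c97008 : QOK q97008 := cut [q89866] ⟨c89866, trivial⟩ (nd (nat_lit 273) (nat_lit 0) (cs (lf (nat_lit 11) (nat_lit 250)) (rf (nat_lit 0)))) q97008 (by decide +kernel)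
def q97014 : Q := Q.p (nat_lit 0x200001e000000000000000000000000000000000000000000000000000000000) (nat_lit 0xd0000e000001c000000000000000000000000000000000000000000000000000) (nat_lit 5)
theorem c97014 : QOK q97014 := cut [q80210] ⟨c80210, trivial⟩ (nd (nat_lit 254) (nat_lit 0) (cs (lf (nat_lit 5) (nat_lit 229)) (rf (nat_lit 0)))) q97014 (by decide +kernel)
def q97019 : Q := Q.p (nat_lit 0x200001e000040000000000000000000000000000000000000000000000000000) (nat_lit 0x50000e000003c000000000000000000000000000000000000000000000000000) (nat_lit 5)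
theorem c97019 : QOK q97019 := cut [q97017] ⟨c97017, trivial⟩ (nd (nat_lit 207) (nat_lit 0) (cs (lf (nat_lit 23) (nat_lit 206)) (nd (nat_lit 233) (nat_lit 0) (cs (lf (nat_lit 22) (nat_lit 207)) (rf (nat_lit 0)))))) q97019 (by decide +kernel)
def q97024 : Q := Q.p (nat_lit 0x6000008000020000000000000000000000000000000000000000000000) (nat_lit 0x10000000000000000000001c0000700001400000000000000000000000000000) (nat_lit 5)
theorem c97024 : QOK q97024 := cut [q24613] ⟨c24613, trivial⟩ (nd (nat_lit 163) (nat_lit 0) (cs (lf (nat_lit 29) (nat_lit 163)) (rf (nat_lit 0)))) q97024 (by decide +kernel)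
def q97029 : Q := Q.p (nat_lit 0x200000e000008000020000000000000000000000000000000000000000000000) (nat_lit 0xcc000100000c40001500005c0000500000000000000000000000000000000000) (nat_lit 9)
theorem c97029 : QOK q97029 := cut [q11483] ⟨c11483, trivial⟩ (nd (nat_lit 232) (nat_lit 0) (cs (lf (nat_lit 23) (nat_lit 206)) (nd (nat_lit 210) (nat_lit 0) (cs (lf (nat_lit 17) (nat_lit 207)) (nd (nat_lit 166) (nat_lit 0) (cs (lf (nat_lit 37) (nat_lit 165)) (nd (nat_lit 254) (nat_lit 0) (cs (lf (nat_lit 5) (nat_lit 229)) (nd (nat_lit 251) (nat_lit 0) (cs (lf (nat_lit 11) (nat_lit 228)) (rf (nat_lit 0)))))))))))) q97029 (by decide +kernel)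
def q97065 : Q := Q.p (nat_lit 0x200000e000008000020000000000000000000000000000000000000000000000) (nat_lit 0x8000000000100000400001c0000700001400000000000000000000000000000) (nat_lit 5)
theorem c97065 : QOK q97065 := cut [q96898] ⟨c96898, trivial⟩ (nd (nat_lit 164) (nat_lit 0) (cs (nd (nat_lit 186) (nat_lit 0) (cs (lf (nat_lit 30) (nat_lit 163)) (lf (nat_lit 26) (nat_lit 164)))) (cs (nd (nat_lit 163) (nat_lit 0) (cs (lf (nat_lit 35) (nat_lit 141)) (rf (nat_lit 0)))) (nd (nat_lit 142) (nat_lit 0) (cs (lf (nat_lit 33) (nat_lit 141)) (nd (nat_lit 186) (nat_lit 0) (cs (lf (nat_lit 30) (nat_lit 163)) (lf (nat_lit 36) (nat_lit 119))))))))) q97065 (by decide +kernel)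
def q97072 : Q := Q.p (nat_lit 0x800006000008000020000000000000000000000000000000000000000000000) (nat_lit 0x400001c0000700000400000000010000050000140000000000000000000000000000000000000000) (nat_lit 7)
theorem c97072 : QOK q97072 := cut [q97071] ⟨c97071, trivial⟩ (nd (nat_lit 162) (nat_lit 0) (cs (lf (nat_lit 46) (nat_lit 162)) (rf (nat_lit 0)))) q97072 (by decide +kernel)
def q97101 : Q := Q.p (nat_lit 0x200001e000000000000000000000000000000000000000000000000000000000) (nat_lit 0x75c000e00001f0000040000100000000000000000000000000000000000000000) (nat_lit 9)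
theorem c97101 : QOK q97101 := cut [q97097] ⟨c97097, trivial⟩ (nd (nat_lit 211) (nat_lit 0) (cs (lf (nat_lit 16) (nat_lit 207)) (nd (nat_lit 250) (nat_lit 0) (cs (lf (nat_lit 10) (nat_lit 228)) (nd (nat_lit 233) (nat_lit 0) (cs (lf (nat_lit 17) (nat_lit 208)) (nd (nat_lit 234) (nat_lit 0) (cs (lf (nat_lit 11) (nat_lit 230)) (rf (nat_lit 0)))))))))) q97101 (by decide +kernel)
def q97107 : Q := Q.p (nat_lit 0x200000e000000000000000000000000000000000000000000000000000000000) (nat_lit 0x1f000118000e7000000000000000000000000000000000000000000000000000) (nat_lit 6)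
theorem c97107 : QOK q97107 := cut [q22544, q96757, q97105] ⟨c22544, c96757, c97105, trivial⟩ (nd (nat_lit 228) (nat_lit 0) (cs (rf (nat_lit 0)) (cs (rf (nat_lit 1)) (nd (nat_lit 205) (nat_lit 0) (cs (lf (nat_lit 22) (nat_lit 205)) (rf (nat_lit 2))))))) q97107 (by decide +kernel)
def q97118 : Q := Q.p (nat_lit 0x200000e000000000000000000000000000000000000000000000000000000000) (nat_lit 0x18000718000ff000100000400000000000000000000000000000000000000000) (nat_lit 8)
theorem c97118 : QOK q97118 := cut [q97111, q97113, q85171] ⟨c97111, c97113, c85171, trivial⟩ (nd (nat_lit 206) (nat_lit 0) (cs (rf (nat_lit 0)) (cs (nd (nat_lit 232) (nat_lit 0) (cs (lf (nat_lit 22) (nat_lit 206)) (nd (nat_lit 210) (nat_lit 0) (cs (lf (nat_lit 17) (nat_lit 207)) (nd (nat_lit 166) (nat_lit 0) (cs (lf (nat_lit 37) (nat_lit 165)) (rf (nat_lit 1)))))))) (nd (nat_lit 207) (nat_lit 0) (cs (lf (nat_lit 18) (nat_lit 206)) (rf (nat_lit 2))))))) q97118 (by decide +kernel)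
def q97120 : Q := Q.p (nat_lit 0x200000e000000000000000000000000000000000000000000000000000000000) (nat_lit 0x5000001800070000000000000000000000000000000000000000000000000000) (nat_lit 4)
theorem c97120 : QOK q97120 := cut [q97119] ⟨c97119, trivial⟩ (nd (nat_lit 228) (nat_lit 0) (cs (lf (nat_lit 5) (nat_lit 228)) (rf (nat_lit 0)))) q97120 (by decide +kernel)
def q97186 : Q := Q.p (nat_lit 0x680001c000000000000000000000000000000000000000000000000000000000) (nat_lit 0x10000e0000380000000000000000000000000000000000000000000000000000) (nat_lit 4)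
theorem c97186 : QOK q97186 := cut [q79310] ⟨c79310, trivial⟩ (nd (nat_lit 233) (nat_lit 0) (cs (rf (nat_lit 0)) (lf (nat_lit 13) (nat_lit 229)))) q97186 (by decide +kernel)
def q97207 : Q := Q.p (nat_lit 0x200000e000000000000000000000000000000000000000000000000000000000) (nat_lit 0x1f0001180000f000000000000000000000000000000000000000000000000000) (nat_lit 5)
theorem c97207 : QOK q97207 := cut [q22544, q96757, q97205] ⟨c22544, c96757, c97205, trivial⟩ (nd (nat_lit 228) (nat_lit 0) (cs (rf (nat_lit 0)) (cs (rf (nat_lit 1)) (nd (nat_lit 250) (nat_lit 0) (cs (lf (nat_lit 11) (nat_lit 227)) (rf (nat_lit 2))))))) q97207 (by decide +kernel)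
def q97209 : Q := Q.p (nat_lit 0x240000e000000000000000000000000000000000000000000000000000000000) (nat_lit 0x1200001800070000000000000000000000000000000000000000000000000000) (nat_lit 4)
theorem c97209 : QOK q97209 := cut [q97119] ⟨c97119, trivial⟩ (nd (nat_lit 228) (nat_lit 0) (cs (lf (nat_lit 11) (nat_lit 227)) (rf (nat_lit 0)))) q97209 (by decide +kernel)
def q97225 : Q := Q.p (nat_lit 0x80000e000000000000000000000000000000000000000000000000000000000) (nat_lit 0x1d400030000000000000000000000000000000000000000000000000000000000) (nat_lit 4)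
theorem c97225 : QOK q97225 := cut [q97224] ⟨c97224, trivial⟩ (nd (nat_lit 232) (nat_lit 0) (cs (lf (nat_lit 11) (nat_lit 228)) (rf (nat_lit 0)))) q97225 (by decide +kernel)
def q97237 : Q := Q.p (nat_lit 0x800002000008000020000000000000000000000000000000000000000000000000000) (nat_lit 0x40000300000400000000004000050000140000000000000000000000000000000000000000000000) (nat_lit 5)
theorem c97237 : QOK q97237 := cut [q97235] ⟨c97235, trivial⟩ (nd (nat_lit 296) (nat_lit 0) (cs (lf (nat_lit 40) (nat_lit 208)) (nd (nat_lit 188) (nat_lit 0) (cs (lf (nat_lit 34) (nat_lit 187)) (rf (nat_lit 0)))))) q97237 (by decide +kernel)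
def q97238 : Q := Q.p (nat_lit 0x800002000008000020000000000000000000000000000000000000000000000000000) (nat_lit 0x100000600001000000000004000010000040000000000000000000000000000000000000000000000) (nat_lit 4)
theorem c97238 : QOK q97238 := cut [q92989] ⟨c92989, trivial⟩ (nd (nat_lit 298) (nat_lit 0) (cs (lf (nat_lit 28) (nat_lit 209)) (rf (nat_lit 0)))) q97238 (by decide +kernel)
def q97242 : Q := Q.p (nat_lit 0x2000008000020000000000000000000000000000000000000000000000000000) (nat_lit 0x140000700001c00005000000000040000180000400000000000000000000000000000000000000000) (nat_lit 5)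
theorem c97242 : QOK q97242 := cut [q3443, q96310, q96312] ⟨c3443, c96310, c96312, trivial⟩ (nd (nat_lit 275) (nat_lit 0) (cs (rf (nat_lit 0)) (cs (rf (nat_lit 1)) (rf (nat_lit 2))))) q97242 (by decide +kernel)
def q97265 : Q := Q.p (nat_lit 0x2000008000020000000000000000000000000000000000000000000000000000) (nat_lit 0x140000700001c00001000010000040000180000400000000000000000000000000000000000000000) (nat_lit 5)
theorem c97265 : QOK q97265 := cut [q3443, q96312, q96655] ⟨c3443, c96312, c96655, trivial⟩ (nd (nat_lit 275) (nat_lit 0) (cs (rf (nat_lit 0)) (cs (rf (nat_lit 1)) (rf (nat_lit 2))))) q97265 (by decide +kernel)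
def q97286 : Q := Q.p (nat_lit 0x200000800002000008000000000000000000000000000000000000000000000000000000000) (nat_lit 0x100000c0000100000000001000004000010000000000000000000000000000000000000000000000000000) (nat_lit 4)
theorem c97286 : QOK q97286 := cut [q97285] ⟨c97285, trivial⟩ (nd (nat_lit 230) (nat_lit 0) (cs (lf (nat_lit 47) (nat_lit 208)) (rf (nat_lit 0)))) q97286 (by decide +kernel)
def q97295 : Q := Q.p (nat_lit 0x2000008000020000080000000000000000000000000000000000000000000000) (nat_lit 0x200000800001000004000010000140000600001800000000000000000000000000000000000) (nat_lit 6)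
theorem c97295 : QOK q97295 := cut [q97292] ⟨c97292, trivial⟩ (nd (nat_lit 166) (nat_lit 0) (cs (lf (nat_lit 34) (nat_lit 165)) (nd (nat_lit 165) (nat_lit 0) (cs (lf (nat_lit 35) (nat_lit 143)) (nd (nat_lit 230) (nat_lit 0) (cs (lf (nat_lit 41) (nat_lit 164)) (rf (nat_lit 0)))))))) q97295 (by decide +kernel)
def q97307 : Q := Q.p (nat_lit 0x2000038000000000000000000000000000000000000000000000000000000000) (nat_lit 0x4000031000044000380000200000800000000000000000000000000000000000000000) (nat_lit 6)
theorem c97307 : QOK q97307 := cut [q97306] ⟨c97306, trivial⟩ (nd (nat_lit 234) (nat_lit 0) (cs (lf (nat_lit 11) (nat_lit 230)) (rf (nat_lit 0)))) q97307 (by decide +kernel)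
def q97308 : Q := Q.p (nat_lit 0x2000038000000000000000000000000000000000000000000000000000000000) (nat_lit 0x40000740000c40007f0000200000800000000000000000000000000000000000000000) (nat_lit 6)
theorem c97308 : QOK q97308 := cut [q96981, q97226, q97306] ⟨c96981, c97226, c97306, trivial⟩ (nd (nat_lit 234) (nat_lit 0) (cs (rf (nat_lit 0)) (cs (nd (nat_lit 209) (nat_lit 0) (cs (lf (nat_lit 23) (nat_lit 208)) (nd (nat_lit 235) (nat_lit 0) (cs (rf (nat_lit 1)) (lf (nat_lit 22) (nat_lit 209)))))) (rf (nat_lit 2))))) q97308 (by decide +kernel)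
def q97317 : Q := Q.p (nat_lit 0xc00002000018000000000000000000000000000000000000000000000000000000000) (nat_lit 0x50000100000000002000007c000140000000000000000000000000000000000000000000000) (nat_lit 6)
theorem c97317 : QOK q97317 := cut [q79273] ⟨c79273, trivial⟩ (nd (nat_lit 209) (nat_lit 0) (cs (lf (nat_lit 41) (nat_lit 208)) (nd (nat_lit 210) (nat_lit 0) (cs (lf (nat_lit 35) (nat_lit 187)) (nd (nat_lit 276) (nat_lit 0) (cs (lf (nat_lit 29) (nat_lit 209)) (rf (nat_lit 0)))))))) q97317 (by decide +kernel)
def q97320 : Q := Q.p (nat_lit 0xc00006000010000000000000000000000000000000000000000000000000000000000) (nat_lit 0x300019000000000040000100000000000000000000000000000000000000000000000) (nat_lit 4)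
theorem c97320 : QOK q97320 := cut [q97319] ⟨c97319, trivial⟩ (nd (nat_lit 188) (nat_lit 0) (cs (lf (nat_lit 37) (nat_lit 187)) (rf (nat_lit 0)))) q97320 (by decide +kernel)
def q97331 : Q := Q.p (nat_lit 0xc00006800018000000000000000000000000000000000000000000000000000000000) (nat_lit 0x40000100000300001000023000008000000000000000000000000000000000000000000000000000) (nat_lit 5)
theorem c97331 : QOK q97331 := cut [q97329] ⟨c97329, trivial⟩ (nd (nat_lit 273) (nat_lit 0) (cs (lf (nat_lit 12) (nat_lit 250)) (nd (nat_lit 252) (nat_lit 0) (cs (lf (nat_lit 17) (nat_lit 229)) (rf (nat_lit 0)))))) q97331 (by decide +kernel)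
def q97339 : Q := Q.p (nat_lit 0xc0000f000038000000000000000000000000000000000000000000000000000000000) (nat_lit 0x400005800070000000000000000c0000300000000000000000000000000000000000000000000000) (nat_lit 6)
theorem c97339 : QOK q97339 := cut [q96517] ⟨c96517, trivial⟩ (nd (nat_lit 277) (nat_lit 0) (cs (lf (nat_lit 5) (nat_lit 252)) (nd (nat_lit 188) (nat_lit 0) (cs (lf (nat_lit 37) (nat_lit 187)) (rf (nat_lit 0)))))) q97339 (by decide +kernel)
def q97348 : Q := Q.p (nat_lit 0x800002000018000020000000000000000000000000000000000000000000000000000) (nat_lit 0x2000005c000140000000000000000000000000000000000000000000000) (nat_lit 4)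
theorem c97348 : QOK q97348 := cut [q79273] ⟨c79273, trivial⟩ (nd (nat_lit 210) (nat_lit 0) (cs (lf (nat_lit 35) (nat_lit 187)) (rf (nat_lit 0)))) q97348 (by decide +kernel)
def q97364 : Q := Q.p (nat_lit 0x200000800002000018000000000000000000000000000000000000000000000000000000000) (nat_lit 0xc000010000070001d000000000020000000000000000000000000000000000000000000000000000) (nat_lit 6)
theorem c97364 : QOK q97364 := cut [q80720] ⟨c80720, trivial⟩ (nd (nat_lit 296) (nat_lit 0) (cs (lf (nat_lit 41) (nat_lit 230)) (nd (nat_lit 274) (nat_lit 0) (cs (lf (nat_lit 36) (nat_lit 208)) (nd (nat_lit 254) (nat_lit 0) (cs (lf (nat_lit 30) (nat_lit 231)) (rf (nat_lit 0)))))))) q97364 (by decide +kernel)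
def q97375 : Q := Q.p (nat_lit 0x2000038000000000000000000000000000000000000000000000000000000000) (nat_lit 0x8000310000c0000370000100000400000000000000000000000000000000000000000) (nat_lit 7)
theorem c97375 : QOK q97375 := cut [q97372] ⟨c97372, trivial⟩ (nd (nat_lit 234) (nat_lit 0) (cs (lf (nat_lit 11) (nat_lit 230)) (nd (nat_lit 212) (nat_lit 0) (cs (lf (nat_lit 17) (nat_lit 209)) (nd (nat_lit 256) (nat_lit 0) (cs (lf (nat_lit 5) (nat_lit 231)) (rf (nat_lit 0)))))))) q97375 (by decide +kernel)
def q97376 : Q := Q.p (nat_lit 0x2000038000000000000000000000000000000000000000000000000000000000) (nat_lit 0x48000300000c40003f0000300000c00000000000000000000000000000000000000000) (nat_lit 6)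
theorem c97376 : QOK q97376 := cut [q97306, q97372] ⟨c97306, c97372, trivial⟩ (nd (nat_lit 234) (nat_lit 0) (cs (rf (nat_lit 0)) (rf (nat_lit 1)))) q97376 (by decide +kernel)
def q97382 : Q := Q.p (nat_lit 0x2000038000000000000000000000000000000000000000000000000000000000) (nat_lit 0x8000010000c40003f0000100000400000000000000000000000000000000000000000) (nat_lit 7)
theorem c97382 : QOK q97382 := cut [q97372] ⟨c97372, trivial⟩ (nd (nat_lit 234) (nat_lit 0) (cs (lf (nat_lit 11) (nat_lit 230)) (nd (nat_lit 212) (nat_lit 0) (cs (lf (nat_lit 17) (nat_lit 209)) (nd (nat_lit 211) (nat_lit 0) (cs (lf (nat_lit 12) (nat_lit 208)) (rf (nat_lit 0)))))))) q97382 (by decide +kernel)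
def q97436 : Q := Q.p (nat_lit 0x200001c000000000000000000000000000000000000000000000000000000000) (nat_lit 0x20000cc0002300001c000040000100000000000000000000000000000000000000000) (nat_lit 6)
theorem c97436 : QOK q97436 := cut [q80199, q97428] ⟨c80199, c97428, trivial⟩ (nd (nat_lit 229) (nat_lit 0) (cs (rf (nat_lit 0)) (rf (nat_lit 1)))) q97436 (by decide +kernel)
def q97441 : Q := Q.p (nat_lit 0x800002000018000000000000000000000000000000000000000000000000000000000) (nat_lit 0x400001c0000700001400004000004000030000040000000000000000000000000000000000000000000000) (nat_lit 6)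
theorem c97441 : QOK q97441 := cut [q21953, q96727, q52637] ⟨c21953, c96727, c52637, trivial⟩ (nd (nat_lit 297) (nat_lit 0) (cs (rf (nat_lit 0)) (cs (rf (nat_lit 1)) (nd (nat_lit 208) (nat_lit 0) (cs (lf (nat_lit 46) (nat_lit 208)) (nd (nat_lit 254) (nat_lit 0) (cs (rf (nat_lit 2)) (lf (nat_lit 30) (nat_lit 231))))))))) q97441 (by decide +kernel)
def q97480 : Q := Q.p (nat_lit 0x80000200003c000000000000000000000000000000000000000000000000000000000) (nat_lit 0x1b8000040000100000000000000000000000000000000000000000) (nat_lit 4)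
theorem c97480 : QOK q97480 := cut [q97434] ⟨c97434, trivial⟩ (nd (nat_lit 211) (nat_lit 0) (cs (lf (nat_lit 17) (nat_lit 208)) (rf (nat_lit 0)))) q97480 (by decide +kernel)
def q97491 : Q := Q.p (nat_lit 0x2000038000000000000000000000000000000000000000000000000000000000) (nat_lit 0x40000740000c4000780000200000800000000000000000000000000000000000000000) (nat_lit 6)
theorem c97491 : QOK q97491 := cut [q96981, q97306, q97443] ⟨c96981, c97306, c97443, trivial⟩ (nd (nat_lit 234) (nat_lit 0) (cs (rf (nat_lit 0)) (cs (rf (nat_lit 1)) (rf (nat_lit 2))))) q97491 (by decide +kernel)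
def q97515 : Q := Q.p (nat_lit 0xc00003000018000000000000000000000000000000000000000000000000000000000) (nat_lit 0x20001c000066000018000040000000000000000000000000000000000000000000000) (nat_lit 6)
theorem c97515 : QOK q97515 := cut [q84347, q97511, q96506] ⟨c84347, c97511, c96506, trivial⟩ (nd (nat_lit 255) (nat_lit 0) (cs (rf (nat_lit 0)) (cs (rf (nat_lit 1)) (nd (nat_lit 233) (nat_lit 0) (cs (lf (nat_lit 6) (nat_lit 230)) (nd (nat_lit 254) (nat_lit 0) (cs (lf (nat_lit 11) (nat_lit 251)) (nd (nat_lit 230) (nat_lit 0) (cs (lf (nat_lit 23) (nat_lit 229)) (rf (nat_lit 2))))))))))) q97515 (by decide +kernel)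
def q97533 : Q := Q.p (nat_lit 0x1800002000008000000000000000000000000000000000000000000000000000000000) (nat_lit 0x500000400001000000000060000180000400000000000000000000000000000000000000000) (nat_lit 5)
theorem c97533 : QOK q97533 := cut [q96312] ⟨c96312, trivial⟩ (nd (nat_lit 209) (nat_lit 0) (cs (lf (nat_lit 29) (nat_lit 209)) (rf (nat_lit 0)))) q97533 (by decide +kernel)
def q97540 : Q := Q.p (nat_lit 0x100000f000000000000000000000000000000000000000000000000000000000000000) (nat_lit 0x100000400000000000000070000080000200000000000000000000000000000000000000000000000) (nat_lit 4)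
theorem c97540 : QOK q97540 := cut [q81147] ⟨c81147, trivial⟩ (nd (nat_lit 233) (nat_lit 0) (cs (lf (nat_lit 17) (nat_lit 230)) (rf (nat_lit 0)))) q97540 (by decide +kernel)
def q97575 : Q := Q.p (nat_lit 0x1c00002000008000000000000000000000000000000000000000000000000000000000) (nat_lit 0x100000000004000000000060000180000400000000000000000000000000000000000000000) (nat_lit 4)
theorem c97575 : QOK q97575 := cut [q91106] ⟨c91106, trivial⟩ (nd (nat_lit 209) (nat_lit 0) (cs (lf (nat_lit 41) (nat_lit 208)) (rf (nat_lit 0)))) q97575 (by decide +kernel)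
def q97576 : Q := Q.p (nat_lit 0x1c00002000000000000000000000000000000000000000000000000000000000000000) (nat_lit 0x700000e30003dc00000000000000000000000000000000000000000000000000000000000000) (nat_lit 7)
theorem c97576 : QOK q97576 := cut [q15959, q96661, q96670] ⟨c15959, c96661, c96670, trivial⟩ (nd (nat_lit 251) (nat_lit 0) (cs (rf (nat_lit 0)) (cs (rf (nat_lit 1)) (rf (nat_lit 2))))) q97576 (by decide +kernel)
def q97581 : Q := Q.p (nat_lit 0x100000800002000008000000000000000000000000000000000000000000000000000000000) (nat_lit 0x140000680007000000000000000020000000000000000000000000000000000000000000000000000) (nat_lit 5)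
theorem c97581 : QOK q97581 := cut [q97580] ⟨c97580, trivial⟩ (nd (nat_lit 297) (nat_lit 0) (cs (lf (nat_lit 41) (nat_lit 230)) (rf (nat_lit 0)))) q97581 (by decide +kernel)
def q97584 : Q := Q.p (nat_lit 0x100000800002000008000000000000000000000000000000000000000000000000000000000) (nat_lit 0x400001400004000000000060000180000400000000000000000000000000000000000000000) (nat_lit 5)
theorem c97584 : QOK q97584 := cut [q97583] ⟨c97583, trivial⟩ (nd (nat_lit 209) (nat_lit 0) (cs (lf (nat_lit 40) (nat_lit 208)) (rf (nat_lit 0)))) q97584 (by decide +kernel)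
def q97589 : Q := Q.p (nat_lit 0x200000800002000008000000000000000000000000000000000000000000000000000000000) (nat_lit 0x140000580007000000000000000020000000000000000000000000000000000000000000000000000) (nat_lit 5)
theorem c97589 : QOK q97589 := cut [q97580] ⟨c97580, trivial⟩ (nd (nat_lit 296) (nat_lit 0) (cs (lf (nat_lit 41) (nat_lit 230)) (rf (nat_lit 0)))) q97589 (by decide +kernel)
def q97608 : Q := Q.p (nat_lit 0x8000038000000000000000000000000000000000000000000000000000000000) (nat_lit 0x11c000060001c0000000000000000000000000000000000000000000000000000) (nat_lit 5)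
theorem c97608 : QOK q97608 := cut [q22592] ⟨c22592, trivial⟩ (nd (nat_lit 230) (nat_lit 0) (cs (lf (nat_lit 5) (nat_lit 230)) (rf (nat_lit 0)))) q97608 (by decide +kernel)
def q97610 : Q := Q.p (nat_lit 0x80000e000038000000000000000000000000000000000000000000000000000000000) (nat_lit 0x10000000000060001c0000300000400000000000000000000000000000000000000000) (nat_lit 5)
theorem c97610 : QOK q97610 := cut [q97609] ⟨c97609, trivial⟩ (nd (nat_lit 230) (nat_lit 0) (cs (lf (nat_lit 0) (nat_lit 229)) (rf (nat_lit 0)))) q97610 (by decide +kernel)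
def q97624 : Q := Q.p (nat_lit 0x8000038000000000000000000000000000000000000000000000000000000000) (nat_lit 0x140000060001c0000000000000000000000000000000000000000000000000000) (nat_lit 4)
theorem c97624 : QOK q97624 := cut [q84451] ⟨c84451, trivial⟩ (nd (nat_lit 230) (nat_lit 0) (cs (lf (nat_lit 5) (nat_lit 230)) (rf (nat_lit 0)))) q97624 (by decide +kernel)
def q97626 : Q := Q.p (nat_lit 0x2000038000000000000000000000000000000000000000000000000000000000) (nat_lit 0x50000c0000700000000000000000000000000000000000000000000000000000) (nat_lit 4)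
theorem c97626 : QOK q97626 := cut [q97443] ⟨c97443, trivial⟩ (nd (nat_lit 234) (nat_lit 0) (cs (lf (nat_lit 11) (nat_lit 230)) (rf (nat_lit 0)))) q97626 (by decide +kernel)
def q97672 : Q := Q.p (nat_lit 0x1800003000008000020000080000000000000000000000000000000000000000000000) (nat_lit 0xc00004000000000040000300000400000000000000000000000000000000000) (nat_lit 4)
theorem c97672 : QOK q97672 := cut [q80723] ⟨c80723, trivial⟩ (nd (nat_lit 250) (nat_lit 0) (cs (lf (nat_lit 1) (nat_lit 250)) (rf (nat_lit 0)))) q97672 (by decide +kernel)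
def q97681 : Q := Q.p (nat_lit 0x200000800002000008000000000000000000000000000000000000000000000000000000000) (nat_lit 0x40000700001c0000400000400001000004000000000000000000000000000000000000000000000000000000000) (nat_lit 6)
theorem c97681 : QOK q97681 := cut [q97679] ⟨c97679, trivial⟩ (nd (nat_lit 320) (nat_lit 0) (cs (lf (nat_lit 28) (nat_lit 231)) (nd (nat_lit 319) (nat_lit 0) (cs (lf (nat_lit 29) (nat_lit 253)) (rf (nat_lit 0)))))) q97681 (by decide +kernel)
def q97684 : Q := Q.p (nat_lit 0x1000002000008000020000000000000000000000000000000000000000000000000000) (nat_lit 0x40000000000000001c0000700001400000000000000000000000000000000000) (nat_lit 5)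
theorem c97684 : QOK q97684 := cut [q1580] ⟨c1580, trivial⟩ (nd (nat_lit 187) (nat_lit 0) (cs (rf (nat_lit 0)) (lf (nat_lit 28) (nat_lit 187)))) q97684 (by decide +kernel)
def q97696 : Q := Q.p (nat_lit 0x400002000008000020000000000000000000000000000000000000000000000000000) (nat_lit 0x10000000000000001c0000700001400000000000000000000000000000000000) (nat_lit 5)
theorem c97696 : QOK q97696 := cut [q1580] ⟨c1580, trivial⟩ (nd (nat_lit 187) (nat_lit 0) (cs (lf (nat_lit 40) (nat_lit 186)) (rf (nat_lit 0)))) q97696 (by decide +kernel)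
def q97711 : Q := Q.p (nat_lit 0x100000c0000b000004000000000000000000000000000000000000000000000000000000000) (nat_lit 0x20000080007200004000000000000000000000000000000000000000000000000000000000000000) (nat_lit 4)
theorem c97711 : QOK q97711 := cut [q97710] ⟨c97710, trivial⟩ (nd (nat_lit 254) (nat_lit 0) (cs (lf (nat_lit 11) (nat_lit 251)) (rf (nat_lit 0)))) q97711 (by decide +kernel)
def q97749 : Q := Q.p (nat_lit 0xc00006800018000000000000000000000000000000000000000000000000000000000) (nat_lit 0x10000130000070000700004c0001700001c0000400000000000000000000000000000000000) (nat_lit 11)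
theorem c97749 : QOK q97749 := cut [q78670] ⟨c78670, trivial⟩ (nd (nat_lit 188) (nat_lit 0) (cs (lf (nat_lit 37) (nat_lit 187)) (nd (nat_lit 273) (nat_lit 0) (cs (lf (nat_lit 12) (nat_lit 250)) (nd (nat_lit 250) (nat_lit 0) (cs (lf (nat_lit 18) (nat_lit 250)) (nd (nat_lit 248) (nat_lit 0) (cs (lf (nat_lit 1) (nat_lit 248)) (nd (nat_lit 229) (nat_lit 0) (cs (lf (nat_lit 8) (nat_lit 228)) (nd (nat_lit 207) (nat_lit 0) (cs (lf (nat_lit 29) (nat_lit 207)) (nd (nat_lit 184) (nat_lit 0) (cs (lf (nat_lit 46) (nat_lit 184)) (nd (nat_lit 185) (nat_lit 0) (cs (lf (nat_lit 47) (nat_lit 162)) (rf (nat_lit 0)))))))))))))))))) q97749 (by decide +kernel)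
def q97751 : Q := Q.p (nat_lit 0x2c0000f00000c000000000000000000000000000000000000000000000000000000000) (nat_lit 0x60000180001000000000060000000000000000000000000000000000000000000000000000000000) (nat_lit 4)
theorem c97751 : QOK q97751 := cut [q97611] ⟨c97611, trivial⟩ (nd (nat_lit 233) (nat_lit 0) (cs (lf (nat_lit 17) (nat_lit 230)) (rf (nat_lit 0)))) q97751 (by decide +kernel)
def q97764 : Q := Q.p (nat_lit 0x1000004000018000040000000000000000000000000000000000000000000000000000) (nat_lit 0x26000380000200000000000000000000000000000000000000000000000) (nat_lit 4)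
theorem c97764 : QOK q97764 := cut [q97763] ⟨c97763, trivial⟩ (nd (nat_lit 211) (nat_lit 0) (cs (lf (nat_lit 35) (nat_lit 188)) (rf (nat_lit 0)))) q97764 (by decide +kernel)
def q97786 : Q := Q.p (nat_lit 0x800002000008000020000000000000000000000000000000000000000000000000000) (nat_lit 0x40000300000400000000004000010000040000000000000000000000000000000000000000000000) (nat_lit 4)
theorem c97786 : QOK q97786 := cut [q97235] ⟨c97235, trivial⟩ (nd (nat_lit 296) (nat_lit 0) (cs (lf (nat_lit 40) (nat_lit 208)) (rf (nat_lit 0)))) q97786 (by decide +kernel)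
def q97804 : Q := Q.p (nat_lit 0x800002000008000020000000000000000000000000000000000000000000000000000) (nat_lit 0x100001400005000010000000000180000600001000000000000000000000000000000000000) (nat_lit 6)
theorem c97804 : QOK q97804 := cut [q97802] ⟨c97802, trivial⟩ (nd (nat_lit 274) (nat_lit 0) (cs (lf (nat_lit 41) (nat_lit 208)) (nd (nat_lit 187) (nat_lit 0) (cs (lf (nat_lit 40) (nat_lit 186)) (rf (nat_lit 0)))))) q97804 (by decide +kernel)
def q97863 : Q := Q.p (nat_lit 0x2000008000020000080000000000000000000000000000000000000000000000) (nat_lit 0x100001d000017000010000000000300000c00001000000000000000000000000000000) (nat_lit 8)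
theorem c97863 : QOK q97863 := cut [q97858] ⟨c97858, trivial⟩ (nd (nat_lit 254) (nat_lit 0) (cs (lf (nat_lit 29) (nat_lit 187)) (nd (nat_lit 165) (nat_lit 0) (cs (lf (nat_lit 28) (nat_lit 165)) (nd (nat_lit 230) (nat_lit 0) (cs (lf (nat_lit 41) (nat_lit 164)) (nd (nat_lit 255) (nat_lit 0) (cs (lf (nat_lit 18) (nat_lit 230)) (nd (nat_lit 228) (nat_lit 0) (cs (lf (nat_lit 1) (nat_lit 228)) (rf (nat_lit 0)))))))))))) q97863 (by decide +kernel)
def q97940 : Q := Q.p (nat_lit 0xe00002400008000000000000000000000000000000000000000000000000000000000) (nat_lit 0x600001e0001180001200001000004000000000000000000000000000000000000000000000000000) (nat_lit 7)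
theorem c97940 : QOK q97940 := cut [q14706] ⟨c14706, trivial⟩ (nd (nat_lit 272) (nat_lit 0) (cs (lf (nat_lit 23) (nat_lit 249)) (nd (nat_lit 252) (nat_lit 0) (cs (lf (nat_lit 12) (nat_lit 249)) (nd (nat_lit 296) (nat_lit 0) (cs (lf (nat_lit 30) (nat_lit 230)) (rf (nat_lit 0)))))))) q97940 (by decide +kernel)
def q97949 : Q := Q.p (nat_lit 0x1c00002000008000000000000000000000000000000000000000000000000000000000) (nat_lit 0x4000000000010000000000300000c0000100000000000000000000000000000000000000000) (nat_lit 4)
theorem c97949 : QOK q97949 := cut [q97948] ⟨c97948, trivial⟩ (nd (nat_lit 209) (nat_lit 0) (cs (lf (nat_lit 29) (nat_lit 209)) (rf (nat_lit 0)))) q97949 (by decide +kernel)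
def q97956 : Q := Q.p (nat_lit 0x80000200000c000000000000000000000000000000000000000000000000000000000) (nat_lit 0x1c000070000000000c000013000050000000000000000000000000000000000000000000000000000) (nat_lit 7)
theorem c97956 : QOK q97956 := cut [q97954] ⟨c97954, trivial⟩ (nd (nat_lit 297) (nat_lit 0) (cs (lf (nat_lit 47) (nat_lit 208)) (nd (nat_lit 298) (nat_lit 0) (cs (lf (nat_lit 29) (nat_lit 231)) (rf (nat_lit 0)))))) q97956 (by decide +kernel)
def q97958 : Q := Q.p (nat_lit 0x80000200001c000000000000000000000000000000000000000000000000000000000) (nat_lit 0x2000000000000000220003c0000000000000000000000000000000000000000000000000000) (nat_lit 4)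
theorem c97958 : QOK q97958 := cut [q7963] ⟨c7963, trivial⟩ (nd (nat_lit 210) (nat_lit 0) (cs (lf (nat_lit 30) (nat_lit 209)) (rf (nat_lit 0)))) q97958 (by decide +kernel)
def q97969 : Q := Q.p (nat_lit 0x2000008000020000080000000000000000000000000000000000000000000000) (nat_lit 0x1400005000014000000000000000200000000000000000000000000000000000000000) (nat_lit 4)
theorem c97969 : QOK q97969 := cut [q91186] ⟨c91186, trivial⟩ (nd (nat_lit 252) (nat_lit 0) (cs (lf (nat_lit 41) (nat_lit 186)) (rf (nat_lit 0)))) q97969 (by decide +kernel)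
def q97975 : Q := Q.p (nat_lit 0x800002000008000020000000000000000000000000000000000000000000000000000) (nat_lit 0x800002000010000040000100000500000c0000300000000000000000000000000000000000000000) (nat_lit 6)
theorem c97975 : QOK q97975 := cut [q80949] ⟨c80949, trivial⟩ (nd (nat_lit 186) (nat_lit 0) (cs (lf (nat_lit 46) (nat_lit 186)) (nd (nat_lit 187) (nat_lit 0) (cs (lf (nat_lit 47) (nat_lit 164)) (nd (nat_lit 254) (nat_lit 0) (cs (lf (nat_lit 29) (nat_lit 187)) (rf (nat_lit 0)))))))) q97975 (by decide +kernel)
def q97978 : Q := Q.p (nat_lit 0x200000800002000008000000000000000000000000000000000000000000000000000000000) (nat_lit 0x140000500000400000000004000030000040000000000000000000000000000000000000000000000) (nat_lit 5)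
theorem c97978 : QOK q97978 := cut [q52637] ⟨c52637, trivial⟩ (nd (nat_lit 208) (nat_lit 0) (cs (lf (nat_lit 46) (nat_lit 208)) (nd (nat_lit 298) (nat_lit 0) (cs (lf (nat_lit 29) (nat_lit 231)) (rf (nat_lit 0)))))) q97978 (by decide +kernel)
def q97982 : Q := Q.p (nat_lit 0x20000080000200000e000000000000000000000000000000000000000000000000000000000) (nat_lit 0x18000040000100000d000000000060000180000600000000000000000000000000000000000000000) (nat_lit 7)
theorem c97982 : QOK q97982 := cut [q94063] ⟨c94063, trivial⟩ (nd (nat_lit 252) (nat_lit 0) (cs (lf (nat_lit 42) (nat_lit 230)) (nd (nat_lit 254) (nat_lit 0) (cs (lf (nat_lit 18) (nat_lit 229)) (rf (nat_lit 0)))))) q97982 (by decide +kernel)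
def q97995 : Q := Q.p (nat_lit 0x200000e000010000000000000000000000000000000000000000000000000000) (nat_lit 0x640001900001e000018000ee0001b8000280000800000000000000000000000000000000000) (nat_lit 9)
theorem c97995 : QOK q97995 := cut [q97989, q2354, q2356] ⟨c97989, c2354, c2356, trivial⟩ (nd (nat_lit 209) (nat_lit 0) (cs (nd (nat_lit 210) (nat_lit 0) (cs (lf (nat_lit 6) (nat_lit 207)) (lf (nat_lit 12) (nat_lit 206)))) (cs (rf (nat_lit 0)) (nd (nat_lit 207) (nat_lit 0) (cs (rf (nat_lit 1)) (nd (nat_lit 206) (nat_lit 0) (cs (lf (nat_lit 0) (nat_lit 205)) (nd (nat_lit 275) (nat_lit 0) (cs (lf (nat_lit 42) (nat_lit 208)) (nd (nat_lit 183) (nat_lit 0) (cs (lf (nat_lit 22) (nat_lit 183)) (nd (nat_lit 276) (nat_lit 0) (cs (lf (nat_lit 29) (nat_lit 209)) (rf (nat_lit 2))))))))))))))) q97995 (by decide +kernel)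
def q98027 : Q := Q.p (nat_lit 0x80000200000c000020000000000000000000000000000000000000000000000000000) (nat_lit 0x140000700001d0000700001de000770000100000400000000000000000000000000000000000) (nat_lit 13)
theorem c98027 : QOK q98027 := cut [q1563] ⟨c1563, trivial⟩ (nd (nat_lit 208) (nat_lit 0) (cs (rf (nat_lit 0)) (nd (nat_lit 276) (nat_lit 0) (cs (lf (nat_lit 29) (nat_lit 209)) (nd (nat_lit 210) (nat_lit 0) (cs (lf (nat_lit 35) (nat_lit 187)) (nd (nat_lit 211) (nat_lit 0) (cs (lf (nat_lit 6) (nat_lit 208)) (nd (nat_lit 233) (nat_lit 0) (cs (lf (nat_lit 5) (nat_lit 208)) (nd (nat_lit 207) (nat_lit 0) (cs (lf (nat_lit 19) (nat_lit 207)) (nd (nat_lit 205) (nat_lit 0) (cs (lf (nat_lit 1) (nat_lit 205)) (nd (nat_lit 184) (nat_lit 0) (cs (lf (nat_lit 22) (nat_lit 184)) (nd (nat_lit 189) (nat_lit 0) (cs (lf (nat_lit 17) (nat_lit 186)) (nd (nat_lit 255) (nat_lit 0) (cs (nd (nat_lit 278) (nat_lit 0) (cs (lf (nat_lit 28) (nat_lit 189)) (nd (nat_lit 277) (nat_lit 0) (cs (lf (nat_lit 29) (nat_lit 211)) (lf (nat_lit 23) (nat_lit 252))))))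 (lf (nat_lit 40) (nat_lit 188)))))))))))))))))))))) q98027 (by decide +kernel)
def q98031 : Q := Q.p (nat_lit 0x200001e000000000000000000000000000000000000000000000000000000000) (nat_lit 0x80000cc000000000c0000100000400000000000000000000000000000000000000000) (nat_lit 5)
theorem c98031 : QOK q98031 := cut [q79251] ⟨c79251, trivial⟩ (nd (nat_lit 254) (nat_lit 0) (cs (lf (nat_lit 5) (nat_lit 229)) (nd (nat_lit 250) (nat_lit 0) (cs (lf (nat_lit 10) (nat_lit 228)) (rf (nat_lit 0)))))) q98031 (by decide +kernel)
def q98041 : Q := Q.p (nat_lit 0x200001c000010000000000000000000000000000000000000000000000000000) (nat_lit 0x20000080000000002000002e000000000000000000000000000000000000000000000000000) (nat_lit 4)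
theorem c98041 : QOK q98041 := cut [q98040] ⟨c98040, trivial⟩ (nd (nat_lit 275) (nat_lit 0) (cs (lf (nat_lit 42) (nat_lit 208)) (rf (nat_lit 0)))) q98041 (by decide +kernel)
def q98082 : Q := Q.p (nat_lit 0x2000008000020000080000000000000000000000000000000000000000000000) (nat_lit 0x400005c00074000040000000000200001c00007000014000000000000000000000000) (nat_lit 10)
theorem c98082 : QOK q98082 := cut [q1946] ⟨c1946, trivial⟩ (nd (nat_lit 252) (nat_lit 0) (cs (lf (nat_lit 41) (nat_lit 186)) (nd (nat_lit 165) (nat_lit 0) (cs (lf (nat_lit 40) (nat_lit 164)) (nd (nat_lit 232) (nat_lit 0) (cs (lf (nat_lit 29) (nat_lit 165)) (nd (nat_lit 250) (nat_lit 0) (cs (lf (nat_lit 13) (nat_lit 228)) (nd (nat_lit 233) (nat_lit 0) (cs (lf (nat_lit 6) (nat_lit 230)) (nd (nat_lit 143) (nat_lit 0) (cs (rf (nat_lit 0)) (lf (nat_lit 28) (nat_lit 143)))))))))))))) q98082 (by decide +kernel)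
def q98091 : Q := Q.p (nat_lit 0x200000e000010000000000000000000000000000000000000000000000000000) (nat_lit 0x6000018000050000000000ec000780000600000800000000000000000000000000000000000) (nat_lit 6)
theorem c98091 : QOK q98091 := cut [q97989, q1989, q78834, q98090] ⟨c97989, c1989, c78834, c98090, trivial⟩ (nd (nat_lit 209) (nat_lit 0) (cs (rf (nat_lit 0)) (cs (nd (nat_lit 187) (nat_lit 0) (cs (rf (nat_lit 1)) (rf (nat_lit 2)))) (rf (nat_lit 3))))) q98091 (by decide +kernel)
def q98094 : Q := Q.p (nat_lit 0x180000e000010000040000000000000000000000000000000000000000000000) (nat_lit 0x40000000000000000f00003c0000c0000000000000000000000000000000000000000) (nat_lit 6)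
theorem c98094 : QOK q98094 := cut [q40683] ⟨c40683, trivial⟩ (nd (nat_lit 185) (nat_lit 0) (cs (lf (nat_lit 47) (nat_lit 163)) (nd (nat_lit 207) (nat_lit 0) (cs (lf (nat_lit 42) (nat_lit 185)) (nd (nat_lit 205) (nat_lit 0) (cs (lf (nat_lit 1) (nat_lit 205)) (rf (nat_lit 0)))))))) q98094 (by decide +kernel)
def q98121 : Q := Q.p (nat_lit 0x80000200000c000000000000000000000000000000000000000000000000000000000) (nat_lit 0xc000030000000000c000013000050000000000000000000000000000000000000000000000000000) (nat_lit 6)
theorem c98121 : QOK q98121 := cut [q97954] ⟨c97954, trivial⟩ (nd (nat_lit 297) (nat_lit 0) (cs (lf (nat_lit 47) (nat_lit 208)) (rf (nat_lit 0)))) q98121 (by decide +kernel)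
def q98131 : Q := Q.p (nat_lit 0x200000800002000008000000000000000000000000000000000000000000000000000000000) (nat_lit 0x100000700001c0000100001000004000010000000000000000000000000000000000000000000000000000000000) (nat_lit 6)
theorem c98131 : QOK q98131 := cut [q98129] ⟨c98129, trivial⟩ (nd (nat_lit 318) (nat_lit 0) (cs (lf (nat_lit 40) (nat_lit 230)) (nd (nat_lit 319) (nat_lit 0) (cs (lf (nat_lit 41) (nat_lit 252)) (rf (nat_lit 0)))))) q98131 (by decide +kernel)
def q98134 : Q := Q.p (nat_lit 0xc00002000008000000000000000000000000000000000000000000000000000000000) (nat_lit 0x1000000000000000000000700001c0000500000000000000000000000000000000000000000) (nat_lit 5)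
theorem c98134 : QOK q98134 := cut [q81901] ⟨c81901, trivial⟩ (nd (nat_lit 209) (nat_lit 0) (cs (lf (nat_lit 41) (nat_lit 208)) (rf (nat_lit 0)))) q98134 (by decide +kernel)
def q98136 : Q := Q.p (nat_lit 0x1e00000800000000000000000000000000000000000000000000000000000000000000) (nat_lit 0x400001c000200000c000002000008000000000000000000000000000000000000000000000000000) (nat_lit 5)
theorem c98136 : QOK q98136 := cut [q97323] ⟨c97323, trivial⟩ (nd (nat_lit 254) (nat_lit 0) (cs (lf (nat_lit 17) (nat_lit 251)) (rf (nat_lit 0)))) q98136 (by decide +kernel)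
def q98138 : Q := Q.p (nat_lit 0xe00001800000000000000000000000000000000000000000000000000000000000000) (nat_lit 0x200000c0003000000000004000010000000000000000000000000000000000000000000000000000) (nat_lit 4)
theorem c98138 : QOK q98138 := cut [q81451] ⟨c81451, trivial⟩ (nd (nat_lit 276) (nat_lit 0) (cs (lf (nat_lit 18) (nat_lit 251)) (rf (nat_lit 0)))) q98138 (by decide +kernel)
def q98139 : Q := Q.p (nat_lit 0x600003800008000000000000000000000000000000000000000000000000000000000) (nat_lit 0x4000010000000000c000003000008000000000000000000000000000000000000000000000000000) (nat_lit 4)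
theorem c98139 : QOK q98139 := cut [q84263] ⟨c84263, trivial⟩ (nd (nat_lit 296) (nat_lit 0) (cs (lf (nat_lit 30) (nat_lit 230)) (rf (nat_lit 0)))) q98139 (by decide +kernel)
def q98145 : Q := Q.p (nat_lit 0xe0000200000c000020000000000000000000000000000000000000000000000000000) (nat_lit 0x8000000000100001000001e000060000000000000000000000000000000000000000000000) (nat_lit 5)
theorem c98145 : QOK q98145 := cut [q2953] ⟨c2953, trivial⟩ (nd (nat_lit 208) (nat_lit 0) (cs (lf (nat_lit 47) (nat_lit 186)) (nd (nat_lit 252) (nat_lit 0) (cs (lf (nat_lit 41) (nat_lit 207)) (rf (nat_lit 0)))))) q98145 (by decide +kernel)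
def q98150 : Q := Q.p (nat_lit 0xe0000600000c000020000000000000000000000000000000000000000000000000000) (nat_lit 0x8000000000100000380005e000160000000000000000000000000000000000000000000000) (nat_lit 7)
theorem c98150 : QOK q98150 := cut [q98146] ⟨c98146, trivial⟩ (nd (nat_lit 208) (nat_lit 0) (cs (lf (nat_lit 47) (nat_lit 186)) (nd (nat_lit 228) (nat_lit 0) (cs (lf (nat_lit 1) (nat_lit 228)) (nd (nat_lit 252) (nat_lit 0) (cs (lf (nat_lit 41) (nat_lit 207)) (nd (nat_lit 188) (nat_lit 0) (cs (lf (nat_lit 34) (nat_lit 187)) (rf (nat_lit 0)))))))))) q98150 (by decide +kernel)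
def q98160 : Q := Q.p (nat_lit 0xc0000f000008000000000000000000000000000000000000000000000000000000000) (nat_lit 0x76000018000060000000000000000000000000000000000000000000000) (nat_lit 5)
theorem c98160 : QOK q98160 := cut [q98158] ⟨c98158, trivial⟩ (nd (nat_lit 233) (nat_lit 0) (cs (lf (nat_lit 17) (nat_lit 230)) (nd (nat_lit 230) (nat_lit 0) (cs (lf (nat_lit 23) (nat_lit 229)) (rf (nat_lit 0)))))) q98160 (by decide +kernel)
def q98170 : Q := Q.p (nat_lit 0x800002000008000020000000000000000000000000000000000000000000000000000) (nat_lit 0x1400005000014000040000180000600000000000000000000000000000000000000000) (nat_lit 6)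
theorem c98170 : QOK q98170 := cut [q98168] ⟨c98168, trivial⟩ (nd (nat_lit 188) (nat_lit 0) (cs (lf (nat_lit 34) (nat_lit 187)) (nd (nat_lit 187) (nat_lit 0) (cs (lf (nat_lit 35) (nat_lit 165)) (rf (nat_lit 0)))))) q98170 (by decide +kernel)
def q98184 : Q := Q.p (nat_lit 0xf000008000000000000000000000000000000000000000000000000000000000) (nat_lit 0x40000100006e00000000000000020000080000000000000000000000000000000000000000000000) (nat_lit 5)
theorem c98184 : QOK q98184 := cut [q80881] ⟨c80881, trivial⟩ (nd (nat_lit 274) (nat_lit 0) (cs (lf (nat_lit 11) (nat_lit 251)) (nd (nat_lit 277) (nat_lit 0) (cs (lf (nat_lit 5) (nat_lit 252)) (rf (nat_lit 0)))))) q98184 (by decide +kernel)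
def q98190 : Q := Q.p (nat_lit 0xe000008000000000000000000000000000000000000000000000000000000000) (nat_lit 0xee000310001d0000000000000000000000000000000000000000000000000000000000) (nat_lit 5)
theorem c98190 : QOK q98190 := cut [q80685, q87286] ⟨c80685, c87286, trivial⟩ (nd (nat_lit 256) (nat_lit 0) (cs (rf (nat_lit 0)) (rf (nat_lit 1)))) q98190 (by decide +kernel)
def q98192 : Q := Q.p (nat_lit 0x800006000008000020000000000000000000000000000000000000000000000000000) (nat_lit 0x500001600018000000000000000000000000000000000000000000000000000000000000000) (nat_lit 4)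
theorem c98192 : QOK q98192 := cut [q79290] ⟨c79290, trivial⟩ (nd (nat_lit 276) (nat_lit 0) (cs (lf (nat_lit 29) (nat_lit 209)) (rf (nat_lit 0)))) q98192 (by decide +kernel)
def q98199 : Q := Q.p (nat_lit 0xf000008000000000000000000000000000000000000000000000000000000000) (nat_lit 0x40000100000e00000000060000020000080000000000000000000000000000000000000000000000) (nat_lit 5)
theorem c98199 : QOK q98199 := cut [q80881] ⟨c80881, trivial⟩ (nd (nat_lit 274) (nat_lit 0) (cs (lf (nat_lit 11) (nat_lit 251)) (nd (nat_lit 233) (nat_lit 0) (cs (lf (nat_lit 17) (nat_lit 230)) (rf (nat_lit 0)))))) q98199 (by decide +kernel)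
def q98203 : Q := Q.p (nat_lit 0x1e000008000000000000000000000000000000000000000000000000000000000) (nat_lit 0x400001c00020000000000020000080000000000000000000000000000000000000000000000) (nat_lit 4)
theorem c98203 : QOK q98203 := cut [q94179] ⟨c94179, trivial⟩ (nd (nat_lit 275) (nat_lit 0) (cs (lf (nat_lit 11) (nat_lit 252)) (rf (nat_lit 0)))) q98203 (by decide +kernel)
def q98254 : Q := Q.p (nat_lit 0x6000018000040000000000000000000000000000000000000000000000000000) (nat_lit 0x2000018000006000000000100000400000000000000000000000000000000000000000) (nat_lit 4)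
theorem c98254 : QOK q98254 := cut [q79693] ⟨c79693, trivial⟩ (nd (nat_lit 188) (nat_lit 0) (cs (lf (nat_lit 36) (nat_lit 165)) (rf (nat_lit 0)))) q98254 (by decide +kernel)
def q98277 : Q := Q.p (nat_lit 0xe000008000000000000000000000000000000000000000000000000000000000) (nat_lit 0x100000e000031c001f0000080000200000000000000000000000000000000000000000000000) (nat_lit 6)
theorem c98277 : QOK q98277 := cut [q87286, q98210, q98274] ⟨c87286, c98210, c98274, trivial⟩ (nd (nat_lit 256) (nat_lit 0) (cs (rf (nat_lit 0)) (cs (rf (nat_lit 1)) (nd (nat_lit 278) (nat_lit 0) (cs (lf (nat_lit 5) (nat_lit 253)) (nd (nat_lit 252) (nat_lit 0) (cs (lf (nat_lit 4) (nat_lit 252)) (rf (nat_lit 2))))))))) q98277 (by decide +kernel)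
def q98280 : Q := Q.p (nat_lit 0xf00000c000000000000000000000000000000000000000000000000000000000) (nat_lit 0x100000600000000060000020000080000000000000000000000000000000000000000000000) (nat_lit 4)
theorem c98280 : QOK q98280 := cut [q79098] ⟨c79098, trivial⟩ (nd (nat_lit 233) (nat_lit 0) (cs (lf (nat_lit 17) (nat_lit 230)) (rf (nat_lit 0)))) q98280 (by decide +kernel)
def q98308 : Q := Q.p (nat_lit 0x1e000000000000000000000000000000000000000000000000000000000) (nat_lit 0x1dc0002000000c000000000000000000000000000000000000000000000000000) (nat_lit 5)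
theorem c98308 : QOK q98308 := cut [q97224] ⟨c97224, trivial⟩ (nd (nat_lit 206) (nat_lit 0) (cs (lf (nat_lit 22) (nat_lit 206)) (nd (nat_lit 251) (nat_lit 0) (cs (lf (nat_lit 11) (nat_lit 228)) (rf (nat_lit 0)))))) q98308 (by decide +kernel)
def q98315 : Q := Q.p (nat_lit 0x800002000008000020000000000000000000000000000000000000000000000000000) (nat_lit 0x500001400005000000000000000080000000000000000000000000000000000000000000000) (nat_lit 4)
theorem c98315 : QOK q98315 := cut [q98314] ⟨c98314, trivial⟩ (nd (nat_lit 276) (nat_lit 0) (cs (lf (nat_lit 29) (nat_lit 209)) (rf (nat_lit 0)))) q98315 (by decide +kernel)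
def q98317 : Q := Q.p (nat_lit 0x800002000008000020000000000000000000000000000000000000000000000000000) (nat_lit 0x400001000004000000000040000180000400000000000000000000000000000000000000000) (nat_lit 4)
theorem c98317 : QOK q98317 := cut [q98316] ⟨c98316, trivial⟩ (nd (nat_lit 276) (nat_lit 0) (cs (lf (nat_lit 29) (nat_lit 209)) (rf (nat_lit 0)))) q98317 (by decide +kernel)
def q98327 : Q := Q.p (nat_lit 0x200001e000000000000000000000000000000000000000000000000000000000) (nat_lit 0xdc000e0000380000000000000000000000000000000000000000000000000000) (nat_lit 6)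
theorem c98327 : QOK q98327 := cut [q79310] ⟨c79310, trivial⟩ (nd (nat_lit 254) (nat_lit 0) (cs (lf (nat_lit 5) (nat_lit 229)) (nd (nat_lit 251) (nat_lit 0) (cs (lf (nat_lit 11) (nat_lit 228)) (nd (nat_lit 233) (nat_lit 0) (cs (lf (nat_lit 10) (nat_lit 229)) (rf (nat_lit 0)))))))) q98327 (by decide +kernel)
def q98332 : Q := Q.p (nat_lit 0x80000200001e000000000000000000000000000000000000000000000000000000000) (nat_lit 0x100002000001c000040000100000000000000000000000000000000000000000) (nat_lit 4)
theorem c98332 : QOK q98332 := cut [q98331] ⟨c98331, trivial⟩ (nd (nat_lit 207) (nat_lit 0) (cs (lf (nat_lit 23) (nat_lit 206)) (rf (nat_lit 0)))) q98332 (by decide +kernel)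
def q98350 : Q := Q.p (nat_lit 0x300003400008000000000000000000000000000000000000000000000000000000000) (nat_lit 0x80000000000800011800004000010000000000000000000000000000000000000000000000) (nat_lit 4)
theorem c98350 : QOK q98350 := cut [q14897] ⟨c14897, trivial⟩ (nd (nat_lit 251) (nat_lit 0) (cs (lf (nat_lit 17) (nat_lit 228)) (rf (nat_lit 0)))) q98350 (by decide +kernel)
def q98356 : Q := Q.p (nat_lit 0x1c00002000008000000000000000000000000000000000000000000000000000000000) (nat_lit 0x400000000001000000000060000180000400000000000000000000000000000000000000000) (nat_lit 4)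
theorem c98356 : QOK q98356 := cut [q15536] ⟨c15536, trivial⟩ (nd (nat_lit 209) (nat_lit 0) (cs (lf (nat_lit 29) (nat_lit 209)) (rf (nat_lit 0)))) q98356 (by decide +kernel)
def q98359 : Q := Q.p (nat_lit 0x800002000008000020000000000000000000000000000000000000000000000000000) (nat_lit 0x4000010000040000000000100000c0000100000000000000000000000000000000000000000) (nat_lit 4)
theorem c98359 : QOK q98359 := cut [q98358] ⟨c98358, trivial⟩ (nd (nat_lit 186) (nat_lit 0) (cs (lf (nat_lit 46) (nat_lit 186)) (rf (nat_lit 0)))) q98359 (by decide +kernel)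
def q98378 : Q := Q.p (nat_lit 0x800003800000000000000000000000000000000000000000000000000000000000000) (nat_lit 0x5c000460003b800000000000000000000000000000000000000000000000000000000) (nat_lit 5)
theorem c98378 : QOK q98378 := cut [q1998, q89874] ⟨c1998, c89874, trivial⟩ (nd (nat_lit 250) (nat_lit 0) (cs (rf (nat_lit 0)) (rf (nat_lit 1)))) q98378 (by decide +kernel)
def q98379 : Q := Q.p (nat_lit 0x1e00006000000000000000000000000000000000000000000000000000000000000000) (nat_lit 0x100000cc0000000000000008000020000000000000000000000000000000000000000000000000000) (nat_lit 4)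
theorem c98379 : QOK q98379 := cut [q94412] ⟨c94412, trivial⟩ (nd (nat_lit 294) (nat_lit 0) (cs (lf (nat_lit 10) (nat_lit 272)) (rf (nat_lit 0)))) q98379 (by decide +kernel)
def q98387 : Q := Q.p (nat_lit 0x1e00001000000000000000000000000000000000000000000000000000000000000000) (nat_lit 0x80000200001c0000000000000004000010000000000000000000000000000000000000000000000000000) (nat_lit 4)
theorem c98387 : QOK q98387 := cut [q98386] ⟨c98386, trivial⟩ (nd (nat_lit 295) (nat_lit 0) (cs (lf (nat_lit 11) (nat_lit 272)) (rf (nat_lit 0)))) q98387 (by decide +kernel)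
def q98433 : Q := Q.p (nat_lit 0x1e00007000000000000000000000000000000000000000000000000000000000000000) (nat_lit 0x800002000018c00060000000000ff8003fc000ff8000000000000000000000000000000000000000000000) (nat_lit 14)
theorem c98433 : QOK q98433 := cut [q98395, q4622, q79147, q24766, q56633, q186, q1118, q87, q11668] ⟨c98395, c4622, c79147, c24766, c56633, c186, c1118, c87, c11668, trivial⟩ (nd (nat_lit 209) (nat_lit 0) (cs (nd (nat_lit 277) (nat_lit 0) (cs (lf (nat_lit 18) (nat_lit 252)) (nd (nat_lit 299) (nat_lit 0) (cs (lf (nat_lit 5) (nat_lit 274)) (nd (nat_lit 321) (nat_lit 0) (cs (lf (nat_lit 42) (nat_lit 254)) (nd (nat_lit 210) (nat_lit 0) (cs (lf (nat_lit 25) (nat_lit 210)) (rf (nat_lit 0)))))))))) (cs (nd (nat_lit 277) (nat_lit 0) (cs (lf (nat_lit 18) (nat_lit 252)) (nd (nat_lit 295) (nat_lit 0) (cs (lf (nat_lit 11) (nat_lit 272)) (nd (nat_lit 299) (nat_lit 0) (cs (lf (nat_lit 5) (nat_lit 274)) (nd (nat_lit 321) (nat_lit 0) (cs (lf (nat_lit 42) (nat_lit 254)) (nd (nat_lit 210) (nat_lit 0) (cs (lf (nat_lit 25) (nat_lit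 210)) (nd (nat_lit 188) (nat_lit 0) (cs (lf (nat_lit 32) (nat_lit 187)) (nd (nat_lit 208) (nat_lit 0) (cs (rf (nat_lit 1)) (lf (nat_lit 37) (nat_lit 207)))))))))))))))) (cs (nd (nat_lit 210) (nat_lit 0) (cs (nd (nat_lit 232) (nat_lit 0) (cs (lf (nat_lit 36) (nat_lit 187)) (lf (nat_lit 47) (nat_lit 187)))) (cs (nd (nat_lit 294) (nat_lit 0) (cs (lf (nat_lit 10) (nat_lit 272)) (nd (nat_lit 232) (nat_lit 0) (cs (rf (nat_lit 2)) (lf (nat_lit 36) (nat_lit 187)))))) (cs (nd (nat_lit 208) (nat_lit 0) (cs (rf (nat_lit 3)) (cs (rf (nat_lit 4)) (nd (nat_lit 207) (nat_lit 0) (cs (rf (nat_lit 5)) (cs (nd (nat_lit 277) (nat_lit 0) (cs (lf (nat_lit 18) (nat_lit 252)) (nd (nat_lit 299) (nat_lit 0) (cs (lf (nat_lit 5) (nat_lit 274)) (nd (nat_lit 321) (nat_lit 0) (cs (lf (nat_lit 42) (nat_lit 254)) (nd (nat_lit 188) (nat_lit 0) (cs (lf (nat_lit 17) (nat_lit 185)) (nd (nat_lit 187) (nat_lit 0) (cs (lf (nat_lit 12) (nat_lit 184)) (nd (nat_lit 185) (nat_lit 0) (cs (lf (nat_lit 23) (nat_lit 184)) (nd (nat_lit 211) (nat_lit 0) (cs (rf (nat_lit 6))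 (lf (nat_lit 22) (nat_lit 185)))))))))))))))) (cs (nd (nat_lit 294) (nat_lit 0) (cs (lf (nat_lit 10) (nat_lit 272)) (nd (nat_lit 277) (nat_lit 0) (cs (lf (nat_lit 18) (nat_lit 252)) (nd (nat_lit 299) (nat_lit 0) (cs (lf (nat_lit 5) (nat_lit 274)) (nd (nat_lit 321) (nat_lit 0) (cs (rf (nat_lit 7)) (lf (nat_lit 42) (nat_lit 254)))))))))) (nd (nat_lit 228) (nat_lit 0) (cs (lf (nat_lit 10) (nat_lit 206)) (nd (nat_lit 294) (nat_lit 0) (cs (lf (nat_lit 10) (nat_lit 272)) (nd (nat_lit 277) (nat_lit 0) (cs (lf (nat_lit 18) (nat_lit 252)) (nd (nat_lit 299) (nat_lit 0) (cs (lf (nat_lit 5) (nat_lit 274)) (nd (nat_lit 321) (nat_lit 0) (cs (rf (nat_lit 8)) (lf (nat_lit 42) (nat_lit 254))))))))))))))))))) (nd (nat_lit 277) (nat_lit 0) (cs (lf (nat_lit 18) (nat_lit 252)) (nd (nat_lit 232) (nat_lit 0) (cs (lf (nat_lit 29) (nat_lit 210)) (lf (nat_lit 47) (nat_lit 187)))))))))) (nd (nat_lit 231) (nat_lit 0) (cs (lf (nat_lit 36) (nat_lit 186)) (nd (nat_lit 208) (nat_lit 0) (cs (lf (nat_lit 47) (nat_lit 186)) (rf (nat_lit 3)))))))))) q98433 (by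 decide +kernel)
def q98469 : Q := Q.p (nat_lit 0x400003000004000008000000000000000000000000000000000000000000000000000) (nat_lit 0x10000000000c00000b800000000000000000000000000000000000000000000000000000000) (nat_lit 4)
theorem c98469 : QOK q98469 := cut [q94114] ⟨c94114, trivial⟩ (nd (nat_lit 229) (nat_lit 0) (cs (lf (nat_lit 42) (nat_lit 207)) (rf (nat_lit 0)))) q98469 (by decide +kernel)
def q98472 : Q := Q.p (nat_lit 0x40000300000c000000000000000000000000000000000000000000000000000000000) (nat_lit 0x40000100000000004000003800008000000000000000000000000000000000000000000000000000) (nat_lit 4)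
theorem c98472 : QOK q98472 := cut [q87351] ⟨c87351, trivial⟩ (nd (nat_lit 296) (nat_lit 0) (cs (lf (nat_lit 30) (nat_lit 230)) (rf (nat_lit 0)))) q98472 (by decide +kernel)
def q98475 : Q := Q.p (nat_lit 0xc0000300000c000020000000000000000000000000000000000000000000000000000) (nat_lit 0x1c000070000000000130001c0000100000000000000000000000000000000000000000000000) (nat_lit 7)
theorem c98475 : QOK q98475 := cut [q91450] ⟨c91450, trivial⟩ (nd (nat_lit 276) (nat_lit 0) (cs (lf (nat_lit 29) (nat_lit 209)) (nd (nat_lit 277) (nat_lit 0) (cs (lf (nat_lit 18) (nat_lit 252)) (nd (nat_lit 299) (nat_lit 0) (cs (lf (nat_lit 5) (nat_lit 274)) (rf (nat_lit 0)))))))) q98475 (by decide +kernel)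
def q98531 : Q := Q.p (nat_lit 0x1800007800000000000000000000000000000000000000000000000000000000000000) (nat_lit 0x200000c0000700008000004000010000000000000000000000000000000000000000000000000000) (nat_lit 5)
theorem c98531 : QOK q98531 := cut [q81451] ⟨c81451, trivial⟩ (nd (nat_lit 273) (nat_lit 0) (cs (lf (nat_lit 11) (nat_lit 250)) (nd (nat_lit 274) (nat_lit 0) (cs (lf (nat_lit 17) (nat_lit 251)) (rf (nat_lit 0)))))) q98531 (by decide +kernel)
def q98540 : Q := Q.p (nat_lit 0x800003800000000000000000000000000000000000000000000000000000000000000) (nat_lit 0x7c0004600003c00000000000000000000000000000000000000000000000000000000) (nat_lit 5)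
theorem c98540 : QOK q98540 := cut [q1998, q2090, q98539] ⟨c1998, c2090, c98539, trivial⟩ (nd (nat_lit 250) (nat_lit 0) (cs (rf (nat_lit 0)) (cs (rf (nat_lit 1)) (rf (nat_lit 2))))) q98540 (by decide +kernel)
def q98546 : Q := Q.p (nat_lit 0xe00003800000000000000000000000000000000000000000000000000000000000000) (nat_lit 0x10000000000c000033000048000120000000000000000000000000000000000000000000000) (nat_lit 6)
theorem c98546 : QOK q98546 := cut [q83685] ⟨c83685, trivial⟩ (nd (nat_lit 254) (nat_lit 0) (cs (lf (nat_lit 6) (nat_lit 251)) (nd (nat_lit 232) (nat_lit 0) (cs (lf (nat_lit 17) (nat_lit 229)) (nd (nat_lit 188) (nat_lit 0) (cs (lf (nat_lit 37) (nat_lit 187)) (rf (nat_lit 0)))))))) q98546 (by decide +kernel)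
def q98558 : Q := Q.p (nat_lit 0xc00003800000000000000000000000000000000000000000000000000000000000000) (nat_lit 0x7c0001f00001e0000380004600005800000000000000000000000000000000000000000000000000000000) (nat_lit 12)
theorem c98558 : QOK q98558 := cut [q98557] ⟨c98557, trivial⟩ (nd (nat_lit 250) (nat_lit 0) (cs (lf (nat_lit 0) (nat_lit 249)) (rf (nat_lit 0)))) q98558 (by decide +kernel)
def q98562 : Q := Q.p (nat_lit 0xc00003800000000000000000000000000000000000000000000000000000000000000) (nat_lit 0x40000100000200004600003800008000020000000000000000000000000000000000000000000000) (nat_lit 6)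
theorem c98562 : QOK q98562 := cut [q98559] ⟨c98559, trivial⟩ (nd (nat_lit 250) (nat_lit 0) (cs (lf (nat_lit 0) (nat_lit 249)) (nd (nat_lit 228) (nat_lit 0) (cs (lf (nat_lit 23) (nat_lit 227)) (nd (nat_lit 229) (nat_lit 0) (cs (lf (nat_lit 18) (nat_lit 228)) (rf (nat_lit 0)))))))) q98562 (by decide +kernel)
def q98578 : Q := Q.p (nat_lit 0xe00007800000000000000000000000000000000000000000000000000000000000000) (nat_lit 0xc0000300000c000000000000003700005c000170000000000000000000000000000000000000000000000) (nat_lit 10)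
theorem c98578 : QOK q98578 := cut [q91865] ⟨c91865, trivial⟩ (nd (nat_lit 232) (nat_lit 0) (cs (lf (nat_lit 17) (nat_lit 229)) (nd (nat_lit 188) (nat_lit 0) (cs (lf (nat_lit 37) (nat_lit 187)) (nd (nat_lit 229) (nat_lit 0) (cs (lf (nat_lit 23) (nat_lit 228)) (rf (nat_lit 0)))))))) q98578 (by decide +kernel)
def q98595 : Q := Q.p (nat_lit 0xe00003800000000000000000000000000000000000000000000000000000000000000) (nat_lit 0x2000008000018000060001d8000300000c0000000000000000000000000000000000000000000000) (nat_lit 8)
theorem c98595 : QOK q98595 := cut [q98590] ⟨c98590, trivial⟩ (nd (nat_lit 250) (nat_lit 0) (cs (lf (nat_lit 0) (nat_lit 249)) (nd (nat_lit 271) (nat_lit 0) (cs (lf (nat_lit 13) (nat_lit 249)) (nd (nat_lit 228) (nat_lit 0) (cs (lf (nat_lit 23) (nat_lit 227)) (nd (nat_lit 231) (nat_lit 0) (cs (lf (nat_lit 17) (nat_lit 228)) (nd (nat_lit 209) (nat_lit 0) (cs (lf (nat_lit 36) (nat_lit 186)) (rf (nat_lit 0)))))))))))) q98595 (by decide +kernel)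
def q98610 : Q := Q.p (nat_lit 0xc00003400000000000000000000000000000000000000000000000000000000000000) (nat_lit 0x100000000000a00018000020000080000000000000000000000000000000000000000000000) (nat_lit 4)
theorem c98610 : QOK q98610 := cut [q24704] ⟨c24704, trivial⟩ (nd (nat_lit 251) (nat_lit 0) (cs (lf (nat_lit 0) (nat_lit 249)) (rf (nat_lit 0)))) q98610 (by decide +kernel)
def q98624 : Q := Q.p (nat_lit 0xc00003400008000000000000000000000000000000000000000000000000000000000) (nat_lit 0x80007400007c0001c0000000000000000000000000000000000000000000000) (nat_lit 7)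
theorem c98624 : QOK q98624 := cut [q80317] ⟨c80317, trivial⟩ (nd (nat_lit 232) (nat_lit 0) (cs (lf (nat_lit 13) (nat_lit 228)) (nd (nat_lit 233) (nat_lit 0) (cs (lf (nat_lit 6) (nat_lit 230)) (nd (nat_lit 209) (nat_lit 0) (cs (lf (nat_lit 36) (nat_lit 186)) (nd (nat_lit 188) (nat_lit 0) (cs (lf (nat_lit 34) (nat_lit 187)) (rf (nat_lit 0)))))))))) q98624 (by decide +kernel)
def q98653 : Q := Q.p (nat_lit 0xe00001800006000000000000000000000000000000000000000000000000000000000) (nat_lit 0x700001e0000000000000000000000000000000000000000000000000000000000000000000000000) (nat_lit 4)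
theorem c98653 : QOK q98653 := cut [q12950] ⟨c12950, trivial⟩ (nd (nat_lit 295) (nat_lit 0) (cs (lf (nat_lit 30) (nat_lit 229)) (rf (nat_lit 0)))) q98653 (by decide +kernel)
def q98679 : Q := Q.p (nat_lit 0x400003800000000000000000000000000000000000000000000000000000000000000) (nat_lit 0x40000100000200004000007c00008000020000000000000000000000000000000000000000000000) (nat_lit 4)
theorem c98679 : QOK q98679 := cut [q82198, q98559] ⟨c82198, c98559, trivial⟩ (nd (nat_lit 229) (nat_lit 0) (cs (rf (nat_lit 0)) (rf (nat_lit 1)))) q98679 (by decide +kernel)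

end Crest.Agent.H3.Snaky.CR
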