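import Crest.Agent.H3.Snaky.Cert
import Crest.Agent.H3.Snaky.CR.CR0
import Crest.Agent.H3.Snaky.CR.CR2
import Crest.Agent.H3.Snaky.CR.CR3
import Crest.Agent.H3.Snaky.CR.CR4
import Crest.Agent.H3.Snaky.CR.CR5
import Crest.Agent.H3.Snaky.CR.CR6
import Crest.Agent.H3.Snaky.CR.CR9
import Crest.Agent.H3.Snaky.CR.CR12
import Crest.Agent.H3.Snaky.CR.CR15
import Crest.Agent.H3.Snaky.CR.CR16
import Crest.Agent.H3.Snaky.CR.CR17
import Crest.Agent.H3.Snaky.CR.CR18
import Crest.Agent.H3.Snaky.CR.CR19
import Crest.Agent.H3.Snaky.CR.CR20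
import Crest.Agent.H3.Snaky.CR.CR21
import Crest.Agent.H3.Snaky.CR.CR22
import Crest.Agent.H3.Snaky.CR.CR23
import Crest.Agent.H3.Snaky.CR.CR24
import Crest.Agent.H3.Snaky.CR.CR25
import Crest.Agent.H3.Snaky.CR.CR27
import Crest.Agent.H3.Snaky.CR.CR29
import Crest.Agent.H3.Snaky.CR.CR30
import Crest.Agent.H3.Snaky.CR.CR33
import Crest.Agent.H3.Snaky.CR.CR34
import Crest.Agent.H3.Snaky.CR.CR35
import Crest.Agent.H3.Snaky.CR.CR36
import Crest.Agent.H3.Snaky.CR.CR37
import Crest.Agent.H3.Snaky.CR.CR38

set_option autoImplicit false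
set_option maxRecDepth 100000

namespace Crest.Agent.H3.Snaky.CR

open T

def q98695 : Q := Q.p (nat_lit 0x1c00003000000000000000000000000000000000000000000000000000000000000000) (nat_lit 0x1dc0006200000000000000000000000000000000000000000000000000000000000000000000) (nat_lit 5)
theorem c98695 : QOK q98695 := cut [q98694] ⟨c98694, trivial⟩ (nd (nat_lit 277) (nat_lit 0) (cs (lf (nat_lit 18) (nat_lit 252)) (rf (nat_lit 0)))) q98695 (by decide +kernel)
def q98701 : Q := Q.p (nat_lit 0xe00003800000000000000000000000000000000000000000000000000000000000000) (nat_lit 0x40000120000cc000300000000000c000030000000000000000000000000000000000000000000000000000) (nat_lit 7)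
theorem c98701 : QOK q98701 := cut [q81451] ⟨c81451, trivial⟩ (nd (nat_lit 276) (nat_lit 0) (cs (lf (nat_lit 18) (nat_lit 251)) (nd (nat_lit 298) (nat_lit 0) (cs (lf (nat_lit 5) (nat_lit 273)) (nd (nat_lit 320) (nat_lit 0) (cs (lf (nat_lit 42) (nat_lit 253)) (nd (nat_lit 209) (nat_lit 0) (cs (lf (nat_lit 25) (nat_lit 209)) (rf (nat_lit 0)))))))))) q98701 (by decide +kernel)
def q98720 : Q := Q.p (nat_lit 0xe00003000000000000000000000000000000000000000000000000000000000000000) (nat_lit 0x80001180000e0001f80007e0001f8000000000000000000000000000000000000000000000) (nat_lit 13)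
theorem c98720 : QOK q98720 := cut [q91844] ⟨c91844, trivial⟩ (nd (nat_lit 272) (nat_lit 0) (cs (lf (nat_lit 12) (nat_lit 249)) (nd (nat_lit 250) (nat_lit 0) (cs (lf (nat_lit 23) (nat_lit 249)) (nd (nat_lit 251) (nat_lit 0) (cs (lf (nat_lit 18) (nat_lit 250)) (nd (nat_lit 227) (nat_lit 0) (cs (lf (nat_lit 22) (nat_lit 227)) (nd (nat_lit 231) (nat_lit 0) (cs (lf (nat_lit 17) (nat_lit 228)) (nd (nat_lit 209) (nat_lit 0) (cs (lf (nat_lit 36) (nat_lit 186)) (rf (nat_lit 0)))))))))))))) q98720 (by decide +kernel)
def q98758 : Q := Q.p (nat_lit 0x800003800000000000000000000000000000000000000000000000000000000000000) (nat_lit 0x140000060001c000000000000000000000000000000000000000000000000000000000) (nat_lit 4)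
theorem c98758 : QOK q98758 := cut [q23550] ⟨c23550, trivial⟩ (nd (nat_lit 250) (nat_lit 0) (cs (lf (nat_lit 5) (nat_lit 250)) (rf (nat_lit 0)))) q98758 (by decide +kernel)
def q98764 : Q := Q.p (nat_lit 0x200003800000000000000000000000000000000000000000000000000000000000000) (nat_lit 0x750000c000003000000000000000000000000000000000000000000000000000000000) (nat_lit 5)
theorem c98764 : QOK q98764 := cut [q98762] ⟨c98762, trivial⟩ (nd (nat_lit 254) (nat_lit 0) (cs (lf (nat_lit 11) (nat_lit 250)) (nd (nat_lit 228) (nat_lit 0) (cs (lf (nat_lit 22) (nat_lit 228)) (rf (nat_lit 0)))))) q98764 (by decide +kernel)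
def q98776 : Q := Q.p (nat_lit 0x80000e00003800000000000000000000000000000000000000000000000000000000000000) (nat_lit 0x40000140000d0000318000000000f80003c000000000000000000000000000000000000000000000000000) (nat_lit 10)
theorem c98776 : QOK q98776 := cut [q98769] ⟨c98769, trivial⟩ (nd (nat_lit 230) (nat_lit 0) (cs (lf (nat_lit 36) (nat_lit 207)) (nd (nat_lit 271) (nat_lit 0) (cs (lf (nat_lit 13) (nat_lit 249)) (nd (nat_lit 276) (nat_lit 0) (cs (lf (nat_lit 18) (nat_lit 251)) (nd (nat_lit 298) (nat_lit 0) (cs (lf (nat_lit 5) (nat_lit 273)) (nd (nat_lit 320) (nat_lit 0) (cs (lf (nat_lit 42) (nat_lit 253)) (nd (nat_lit 231) (nat_lit 0) (cs (lf (nat_lit 24) (nat_lit 209)) (nd (nat_lit 296) (nat_lit 0) (cs (lf (nat_lit 30) (nat_lit 230)) (rf (nat_lit 0)))))))))))))))) q98776 (by decide +kernel)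
def q98781 : Q := Q.p (nat_lit 0x200003800000000000000000000000000000000000000000000000000000000000000) (nat_lit 0x50000c000007000000000000000000000000000000000000000000000000000000000) (nat_lit 4)
theorem c98781 : QOK q98781 := cut [q81023] ⟨c81023, trivial⟩ (nd (nat_lit 254) (nat_lit 0) (cs (lf (nat_lit 11) (nat_lit 250)) (rf (nat_lit 0)))) q98781 (by decide +kernel)
def q98821 : Q := Q.p (nat_lit 0x800002000008000000000000000000000000000000000000000000000000000000000) (nat_lit 0xc00003000017000040000100000700001c0000700001000000000000000000000000000000000000) (nat_lit 9)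
theorem c98821 : QOK q98821 := cut [q81901, q96741, q98814, q80949] ⟨c81901, c96741, c98814, c80949, trivial⟩ (nd (nat_lit 209) (nat_lit 0) (cs (rf (nat_lit 0)) (cs (rf (nat_lit 1)) (cs (nd (nat_lit 274) (nat_lit 0) (cs (lf (nat_lit 41) (nat_lit 208)) (rf (nat_lit 2)))) (nd (nat_lit 274) (nat_lit 0) (cs (lf (nat_lit 41) (nat_lit 208)) (nd (nat_lit 186) (nat_lit 0) (cs (lf (nat_lit 46) (nat_lit 186)) (nd (nat_lit 187) (nat_lit 0) (cs (lf (nat_lit 47) (nat_lit 164)) (nd (nat_lit 254) (nat_lit 0) (cs (lf (nat_lit 29) (nat_lit 187)) (nd (nat_lit 272) (nat_lit 0) (cs (lf (nat_lit 13) (nat_lit 250)) (rf (nat_lit 3)))))))))))))))) q98821 (by decide +kernel)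
def q98827 : Q := Q.p (nat_lit 0x100000400001800006000000000000000000000000000000000000000000000000000000000000000) (nat_lit 0x200000800002000000000000000300000c0000300000000000000000000000000000000000000000000000) (nat_lit 5)
theorem c98827 : QOK q98827 := cut [q98826] ⟨c98826, trivial⟩ (nd (nat_lit 319) (nat_lit 0) (cs (lf (nat_lit 41) (nat_lit 253)) (rf (nat_lit 0)))) q98827 (by decide +kernel)
def q98839 : Q := Q.p (nat_lit 0x1e00002000000000000000000000000000000000000000000000000000000000000000) (nat_lit 0x1c000e00000d000000000000000000000000000000000000000000000000000000000000000) (nat_lit 5)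
theorem c98839 : QOK q98839 := cut [q98838] ⟨c98838, trivial⟩ (nd (nat_lit 254) (nat_lit 0) (cs (lf (nat_lit 17) (nat_lit 251)) (rf (nat_lit 0)))) q98839 (by decide +kernel)
def q98858 : Q := Q.p (nat_lit 0xf00002000000000000000000000000000000000000000000000000000000000000000) (nat_lit 0x80000600000080001000004000010000000000000000000000000000000000000000000000000000) (nat_lit 4)
theorem c98858 : QOK q98858 := cut [q88426] ⟨c88426, trivial⟩ (nd (nat_lit 252) (nat_lit 0) (cs (lf (nat_lit 12) (nat_lit 249)) (rf (nat_lit 0)))) q98858 (by decide +kernel)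
def q98881 : Q := Q.p (nat_lit 0x800007800000000000000000000000000000000000000000000000000000000000000) (nat_lit 0x200003000000000030000040000100000000000000000000000000000000000000000000000) (nat_lit 4)
theorem c98881 : QOK q98881 := cut [q98880] ⟨c98880, trivial⟩ (nd (nat_lit 276) (nat_lit 0) (cs (lf (nat_lit 5) (nat_lit 251)) (rf (nat_lit 0)))) q98881 (by decide +kernel)
def q98893 : Q := Q.p (nat_lit 0x300000c00003800000000000000000000000000000000000000000000000000000000000000) (nat_lit 0x40000738001ce0007000000000000000000000000000000000000000000000000000000000000000000000) (nat_lit 8)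
theorem c98893 : QOK q98893 := cut [q14326, q56241, q98891] ⟨c14326, c56241, c98891, trivial⟩ (nd (nat_lit 298) (nat_lit 0) (cs (rf (nat_lit 0)) (cs (nd (nat_lit 276) (nat_lit 0) (cs (lf (nat_lit 18) (nat_lit 251)) (nd (nat_lit 320) (nat_lit 0) (cs (lf (nat_lit 42) (nat_lit 253)) (nd (nat_lit 295) (nat_lit 0) (cs (lf (nat_lit 12) (nat_lit 272)) (lf (nat_lit 5) (nat_lit 295)))))))) (cs (nd (nat_lit 299) (nat_lit 0) (cs (lf (nat_lit 18) (nat_lit 274)) (nd (nat_lit 321) (nat_lit 0) (cs (lf (nat_lit 5) (nat_lit 296)) (nd (nat_lit 295) (nat_lit 0) (cs (lf (nat_lit 4) (nat_lit 295)) (rf (nat_lit 1)))))))) (nd (nat_lit 277) (nat_lit 0) (cs (lf (nat_lit 19) (nat_lit 251)) (rf (nat_lit 2)))))))) q98893 (by decide +kernel)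
def q98920 : Q := Q.p (nat_lit 0x300000c00003000000000000000000000000000000000000000000000000000000000000000) (nat_lit 0x780007e0001c00000000004000010000000000000000000000000000000000000000000000000000000000) (nat_lit 8)
theorem c98920 : QOK q98920 := cut [q25850] ⟨c25850, trivial⟩ (nd (nat_lit 319) (nat_lit 0) (cs (lf (nat_lit 42) (nat_lit 252)) (nd (nat_lit 232) (nat_lit 0) (cs (rf (nat_lit 0)) (lf (nat_lit 34) (nat_lit 231)))))) q98920 (by decide +kernel)
def q98948 : Q := Q.p (nat_lit 0x300000c00001000000000000000000000000000000000000000000000000000000000000000) (nat_lit 0x200000c0003000000000004000010000000000000000000000000000000000000000000000000000) (nat_lit 4)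
theorem c98948 : QOK q98948 := cut [q89453] ⟨c89453, trivial⟩ (nd (nat_lit 230) (nat_lit 0) (cs (lf (nat_lit 24) (nat_lit 208)) (rf (nat_lit 0)))) q98948 (by decide +kernel)
def q98959 : Q := Q.p (nat_lit 0x1e00006000000000000000000000000000000000000000000000000000000000000000) (nat_lit 0x39c000e000000000000000000000000000000000000000000000000000000000000000000000) (nat_lit 5)
theorem c98959 : QOK q98959 := cut [q98957] ⟨c98957, trivial⟩ (nd (nat_lit 295) (nat_lit 0) (cs (lf (nat_lit 11) (nat_lit 272)) (nd (nat_lit 277) (nat_lit 0) (cs (lf (nat_lit 10) (nat_lit 273)) (rf (nat_lit 0)))))) q98959 (by decide +kernel)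
def q98997 : Q := Q.p (nat_lit 0x20000080000200000800000000000000000000000000000000000000000000000000000000000000) (nat_lit 0x1000004000010000000000000000700001c000050000000000000000000000000000000000000000000000) (nat_lit 6)
theorem c98997 : QOK q98997 := cut [q12655] ⟨c12655, trivial⟩ (nd (nat_lit 318) (nat_lit 0) (cs (lf (nat_lit 29) (nat_lit 251)) (nd (nat_lit 229) (nat_lit 0) (cs (lf (nat_lit 28) (nat_lit 229)) (nd (nat_lit 208) (nat_lit 0) (cs (lf (nat_lit 34) (nat_lit 207)) (rf (nat_lit 0)))))))) q98997 (by decide +kernel)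
def q99008 : Q := Q.p (nat_lit 0x1e00002000000000000000000000000000000000000000000000000000000000000000) (nat_lit 0x1c0000e00000d000000000000000000000000000000000000000000000000000000000000000) (nat_lit 5)
theorem c99008 : QOK q99008 := cut [q99006] ⟨c99006, trivial⟩ (nd (nat_lit 254) (nat_lit 0) (cs (lf (nat_lit 17) (nat_lit 251)) (nd (nat_lit 299) (nat_lit 0) (cs (lf (nat_lit 4) (nat_lit 273)) (rf (nat_lit 0)))))) q99008 (by decide +kernel)
def q99023 : Q := Q.p (nat_lit 0xe00002000000000000000000000000000000000000000000000000000000000000000) (nat_lit 0x180005700000000000000000000000000000000000000000000000000000000000000) (nat_lit 4)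
theorem c99023 : QOK q99023 := cut [q13256] ⟨c13256, trivial⟩ (nd (nat_lit 272) (nat_lit 0) (cs (rf (nat_lit 0)) (lf (nat_lit 17) (nat_lit 250)))) q99023 (by decide +kernel)
def q99066 : Q := Q.p (nat_lit 0x1e00003800000000000000000000000000000000000000000000000000000000000000) (nat_lit 0x20000000000c000030000040000100000000000000000000000000000000000000000000000) (nat_lit 4)
theorem c99066 : QOK q99066 := cut [q98880] ⟨c98880, trivial⟩ (nd (nat_lit 254) (nat_lit 0) (cs (lf (nat_lit 6) (nat_lit 251)) (rf (nat_lit 0)))) q99066 (by decide +kernel)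
def q99092 : Q := Q.p (nat_lit 0x1800007000000000000000000000000000000000000000000000000000000000000000) (nat_lit 0x200000000000c00030000040000100000000000000000000000000000000000000000000000) (nat_lit 4)
theorem c99092 : QOK q99092 := cut [q98880] ⟨c98880, trivial⟩ (nd (nat_lit 251) (nat_lit 0) (cs (lf (nat_lit 0) (nat_lit 250)) (rf (nat_lit 0)))) q99092 (by decide +kernel)
def q99123 : Q := Q.p (nat_lit 0x200000d00003000000000000000000000000000000000000000000000000000000000000000) (nat_lit 0x20000090000460001200000e00002000008000000000000000000000000000000000000000000000000000) (nat_lit 7)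
theorem c99123 : QOK q99123 := cut [q14956] ⟨c14956, trivial⟩ (nd (nat_lit 273) (nat_lit 0) (cs (lf (nat_lit 5) (nat_lit 272)) (nd (nat_lit 294) (nat_lit 0) (cs (lf (nat_lit 11) (nat_lit 271)) (nd (nat_lit 250) (nat_lit 0) (cs (lf (nat_lit 23) (nat_lit 249)) (nd (nat_lit 319) (nat_lit 0) (cs (lf (nat_lit 42) (nat_lit 252)) (rf (nat_lit 0)))))))))) q99123 (by decide +kernel)
def q99169 : Q := Q.p (nat_lit 0x300000c00003800004000000000000000000000000000000000000000000000000000000000) (nat_lit 0x720001c80000380000600003800008000000000000000000000000000000000000000000000000000) (nat_lit 9)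
theorem c99169 : QOK q99169 := cut [q99164] ⟨c99164, trivial⟩ (nd (nat_lit 207) (nat_lit 0) (cs (lf (nat_lit 46) (nat_lit 207)) (nd (nat_lit 250) (nat_lit 0) (cs (lf (nat_lit 0) (nat_lit 249)) (nd (nat_lit 295) (nat_lit 0) (cs (lf (nat_lit 41) (nat_lit 229)) (nd (nat_lit 227) (nat_lit 0) (cs (lf (nat_lit 22) (nat_lit 227)) (nd (nat_lit 272) (nat_lit 0) (cs (lf (nat_lit 11) (nat_lit 249)) (rf (nat_lit 0)))))))))))) q99169 (by decide +kernel)
def q99177 : Q := Q.p (nat_lit 0x1e00006000000000000000000000000000000000000000000000000000000000000000) (nat_lit 0x200002000001c00033000040000100000000000000000000000000000000000000000000000) (nat_lit 6)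
theorem c99177 : QOK q99177 := cut [q98880] ⟨c98880, trivial⟩ (nd (nat_lit 251) (nat_lit 0) (cs (lf (nat_lit 23) (nat_lit 250)) (nd (nat_lit 252) (nat_lit 0) (cs (lf (nat_lit 18) (nat_lit 251)) (nd (nat_lit 228) (nat_lit 0) (cs (lf (nat_lit 22) (nat_lit 228)) (rf (nat_lit 0)))))))) q99177 (by decide +kernel)
def q99197 : Q := Q.p (nat_lit 0x600000800002000000000000000000000000000000000000000000000000000000000) (nat_lit 0x10000000000000000000001c000070000140000000000000000000000000000000000000000) (nat_lit 5)
theorem c99197 : QOK q99197 := cut [q80585] ⟨c80585, trivial⟩ (nd (nat_lit 207) (nat_lit 0) (cs (lf (nat_lit 29) (nat_lit 207)) (rf (nat_lit 0)))) q99197 (by decide +kernel)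
def q99236 : Q := Q.p (nat_lit 0x200000800002000000000000000000000000000000000000000000000000000000000000000) (nat_lit 0x100000700001c000010000100000500001c000010000000000000000000000000000000000000000000000000000) (nat_lit 5)
theorem c99236 : QOK q99236 := cut [q98129, q99235] ⟨c98129, c99235, trivial⟩ (nd (nat_lit 319) (nat_lit 0) (cs (rf (nat_lit 0)) (rf (nat_lit 1)))) q99236 (by decide +kernel)
def q99239 : Q := Q.p (nat_lit 0xe0000200000800002000000000000000000000000000000000000000000000000000000000000000) (nat_lit 0x10001d00000000001000004000000000000000000000000000000000000000000000000000000000) (nat_lit 4)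
theorem c99239 : QOK q99239 := cut [q2583] ⟨c2583, trivial⟩ (nd (nat_lit 230) (nat_lit 0) (cs (rf (nat_lit 0)) (lf (nat_lit 46) (nat_lit 230)))) q99239 (by decide +kernel)
def q99246 : Q := Q.p (nat_lit 0x80000200000800002000000000000000000000000000000000000000000000000000000000000000) (nat_lit 0x4000030000040000000001000005000014000000000000000000000000000000000000000000000000000000000) (nat_lit 5)
theorem c99246 : QOK q99246 := cut [q94165] ⟨c94165, trivial⟩ (nd (nat_lit 340) (nat_lit 0) (cs (lf (nat_lit 40) (nat_lit 252)) (nd (nat_lit 230) (nat_lit 0) (cs (lf (nat_lit 46) (nat_lit 230)) (rf (nat_lit 0)))))) q99246 (by decide +kernel)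
def q99252 : Q := Q.p (nat_lit 0x200000800002000008000000000000000000000000000000000000000000000000000000000) (nat_lit 0x4000010000040000100000700001c0000100000000000000000000000000000000000000000) (nat_lit 6)
theorem c99252 : QOK q99252 := cut [q97917] ⟨c97917, trivial⟩ (nd (nat_lit 210) (nat_lit 0) (cs (lf (nat_lit 34) (nat_lit 209)) (nd (nat_lit 209) (nat_lit 0) (cs (lf (nat_lit 35) (nat_lit 187)) (rf (nat_lit 0)))))) q99252 (by decide +kernel)
def q99257 : Q := Q.p (nat_lit 0x300000800002000008000020000000000000000000000000000000000000000000000000000) (nat_lit 0x200000800004c0007000004000010000000000080000000000000000000000000000000000000000000000) (nat_lit 6)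
theorem c99257 : QOK q99257 := cut [q99254] ⟨c99254, trivial⟩ (nd (nat_lit 276) (nat_lit 0) (cs (lf (nat_lit 29) (nat_lit 209)) (nd (nat_lit 294) (nat_lit 0) (cs (lf (nat_lit 13) (nat_lit 272)) (nd (nat_lit 277) (nat_lit 0) (cs (lf (nat_lit 6) (nat_lit 274)) (rf (nat_lit 0)))))))) q99257 (by decide +kernel)
def q99266 : Q := Q.p (nat_lit 0x300000800002000008000020000000000000000000000000000000000000000000000000000) (nat_lit 0x200000800004c0007000005800004000000000080000000000000000000000000000000000000000000000) (nat_lit 7)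
theorem c99266 : QOK q99266 := cut [q99262] ⟨c99262, trivial⟩ (nd (nat_lit 276) (nat_lit 0) (cs (lf (nat_lit 29) (nat_lit 209)) (nd (nat_lit 294) (nat_lit 0) (cs (lf (nat_lit 13) (nat_lit 272)) (nd (nat_lit 277) (nat_lit 0) (cs (lf (nat_lit 6) (nat_lit 274)) (nd (nat_lit 254) (nat_lit 0) (cs (lf (nat_lit 24) (nat_lit 187)) (rf (nat_lit 0)))))))))) q99266 (by decide +kernel)
def q99278 : Q := Q.p (nat_lit 0x80000200000800002000000000000000000000000000000000000000000000000000000000000000) (nat_lit 0x10000060000100000000000400005000014000000000000000000000000000000000000000000000000000000000) (nat_lit 5)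
theorem c99278 : QOK q99278 := cut [q97691] ⟨c97691, trivial⟩ (nd (nat_lit 342) (nat_lit 0) (cs (lf (nat_lit 28) (nat_lit 253)) (nd (nat_lit 232) (nat_lit 0) (cs (lf (nat_lit 34) (nat_lit 231)) (rf (nat_lit 0)))))) q99278 (by decide +kernel)
def q99281 : Q := Q.p (nat_lit 0x80000200000800002000000000000000000000000000000000000000000000000000000000000000) (nat_lit 0x4000030000040000000000400005000014000000000000000000000000000000000000000000000000000000000) (nat_lit 5)
theorem c99281 : QOK q99281 := cut [q99280] ⟨c99280, trivial⟩ (nd (nat_lit 232) (nat_lit 0) (cs (lf (nat_lit 34) (nat_lit 231)) (rf (nat_lit 0)))) q99281 (by decide +kernel)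
def q99285 : Q := Q.p (nat_lit 0x200000800002000008000000000000000000000000000000000000000000000000000000000) (nat_lit 0x1000004000010000040000700001c0000400000000000000000000000000000000000000000) (nat_lit 6)
theorem c99285 : QOK q99285 := cut [q96312] ⟨c96312, trivial⟩ (nd (nat_lit 208) (nat_lit 0) (cs (lf (nat_lit 46) (nat_lit 208)) (nd (nat_lit 209) (nat_lit 0) (cs (lf (nat_lit 47) (nat_lit 186)) (rf (nat_lit 0)))))) q99285 (by decide +kernel)
def q99308 : Q := Q.p (nat_lit 0x8000020000080000e0000000000000000000000000000000000000000000000000000) (nat_lit 0x5000014000090000f4000300000c00001000004000000000000000000000000000000000000) (nat_lit 9)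
theorem c99308 : QOK q99308 := cut [q99303] ⟨c99303, trivial⟩ (nd (nat_lit 212) (nat_lit 0) (cs (lf (nat_lit 11) (nat_lit 208)) (nd (nat_lit 190) (nat_lit 0) (cs (lf (nat_lit 17) (nat_lit 187)) (nd (nat_lit 234) (nat_lit 0) (cs (lf (nat_lit 5) (nat_lit 209)) (nd (nat_lit 274) (nat_lit 0) (cs (lf (nat_lit 41) (nat_lit 208)) (nd (nat_lit 276) (nat_lit 0) (cs (lf (nat_lit 29) (nat_lit 209)) (rf (nat_lit 0)))))))))))) q99308 (by decide +kernel)
def q99316 : Q := Q.p (nat_lit 0x800002000008000020000000000000000000000000000000000000000000000000000) (nat_lit 0x4000010000040000100001c0000700001000000000000000000000000000000000000) (nat_lit 6)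
theorem c99316 : QOK q99316 := cut [q80756] ⟨c80756, trivial⟩ (nd (nat_lit 186) (nat_lit 0) (cs (lf (nat_lit 46) (nat_lit 186)) (nd (nat_lit 187) (nat_lit 0) (cs (lf (nat_lit 47) (nat_lit 164)) (rf (nat_lit 0)))))) q99316 (by decide +kernel)
def q99325 : Q := Q.p (nat_lit 0x800002000008000020000000000000000000000000000000000000000000000000000) (nat_lit 0x80000600007400001c000340000500000c0000300000000000000000000000000000000000000000) (nat_lit 10)
theorem c99325 : QOK q99325 := cut [q99318] ⟨c99318, trivial⟩ (nd (nat_lit 276) (nat_lit 0) (cs (lf (nat_lit 29) (nat_lit 209)) (nd (nat_lit 186) (nat_lit 0) (cs (lf (nat_lit 46) (nat_lit 186)) (nd (nat_lit 187) (nat_lit 0) (cs (lf (nat_lit 47) (nat_lit 164)) (nd (nat_lit 252) (nat_lit 0) (cs (lf (nat_lit 41) (nat_lit 186)) (nd (nat_lit 277) (nat_lit 0) (cs (lf (nat_lit 18) (nat_lit 252)) (nd (nat_lit 251) (nat_lit 0) (cs (lf (nat_lit 0) (nat_lit 250)) (nd (nat_lit 230) (nat_lit 0) (cs (lf (nat_lit 36) (nat_lit 164)) (rf (nat_lit 0)))))))))))))))) q99325 (by decide +kernel)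
def q99331 : Q := Q.p (nat_lit 0xe00000800000000000000000000000000000000000000000000000000000000000000000000) (nat_lit 0x1c0000300001c400000000000000000000000000000000000000000000000000000000000000000000) (nat_lit 5)
theorem c99331 : QOK q99331 := cut [q84706] ⟨c84706, trivial⟩ (nd (nat_lit 300) (nat_lit 0) (cs (lf (nat_lit 23) (nat_lit 274)) (rf (nat_lit 0)))) q99331 (by decide +kernel)
def q99349 : Q := Q.p (nat_lit 0x700000800001000004000000000000000000000000000000000000000000000000000000000) (nat_lit 0x200008c0003700000000000000000000000000000000000000000000000000000000000000000000) (nat_lit 4)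
theorem c99349 : QOK q99349 := cut [q2560, q89453] ⟨c2560, c89453, trivial⟩ (nd (nat_lit 274) (nat_lit 0) (cs (rf (nat_lit 0)) (rf (nat_lit 1)))) q99349 (by decide +kernel)
def q99353 : Q := Q.p (nat_lit 0xe00001800002000000000000000000000000000000000000000000000000000000000000000) (nat_lit 0x40000f700031c000c000000000000000000000000000000000000000000000000000000000000000000000) (nat_lit 8)
theorem c99353 : QOK q99353 := cut [q90764] ⟨c90764, trivial⟩ (nd (nat_lit 320) (nat_lit 0) (cs (lf (nat_lit 42) (nat_lit 253)) (nd (nat_lit 300) (nat_lit 0) (cs (lf (nat_lit 18) (nat_lit 275)) (nd (nat_lit 278) (nat_lit 0) (cs (lf (nat_lit 17) (nat_lit 275)) (rf (nat_lit 0)))))))) q99353 (by decide +kernel)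
def q99362 : Q := Q.p (nat_lit 0xe00001800002000000000000000000000000000000000000000000000000000000000000000) (nat_lit 0x40000f000031c0002000000000000000000000000000000000000000000000000000000000000000000000) (nat_lit 6)
theorem c99362 : QOK q99362 := cut [q99361] ⟨c99361, trivial⟩ (nd (nat_lit 320) (nat_lit 0) (cs (lf (nat_lit 42) (nat_lit 253)) (rf (nat_lit 0)))) q99362 (by decide +kernel)
def q99384 : Q := Q.p (nat_lit 0x300000c00007000004000000000000000000000000000000000000000000000000000000000) (nat_lit 0x200000e0000380000000000000000000000000000000000000000000000000000000000000000000) (nat_lit 4)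
theorem c99384 : QOK q99384 := cut [q99383] ⟨c99383, trivial⟩ (nd (nat_lit 272) (nat_lit 0) (cs (lf (nat_lit 13) (nat_lit 250)) (rf (nat_lit 0)))) q99384 (by decide +kernel)
def q99488 : Q := Q.p (nat_lit 0x80000200000800003800000000000000000000000000000000000000000000000000000000000000) (nat_lit 0x60000100000400003400000000018000060000180000000000000000000000000000000000000000000000) (nat_lit 7)
theorem c99488 : QOK q99488 := cut [q22910] ⟨c22910, trivial⟩ (nd (nat_lit 274) (nat_lit 0) (cs (lf (nat_lit 42) (nat_lit 252)) (nd (nat_lit 276) (nat_lit 0) (cs (lf (nat_lit 18) (nat_lit 251)) (rf (nat_lit 0)))))) q99488 (by decide +kernel)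
def q99495 : Q := Q.p (nat_lit 0x200000800003000000000000000000000000000000000000000000000000000000000000000) (nat_lit 0x40000700001c000040000040000000001c000060000100000000000000000000000000000000000000000000000) (nat_lit 8)
theorem c99495 : QOK q99495 := cut [q2615] ⟨c2615, trivial⟩ (nd (nat_lit 319) (nat_lit 0) (cs (lf (nat_lit 47) (nat_lit 230)) (nd (nat_lit 320) (nat_lit 0) (cs (lf (nat_lit 29) (nat_lit 253)) (nd (nat_lit 231) (nat_lit 0) (cs (lf (nat_lit 28) (nat_lit 231)) (nd (nat_lit 210) (nat_lit 0) (cs (lf (nat_lit 34) (nat_lit 209)) (nd (nat_lit 188) (nat_lit 0) (cs (rf (nat_lit 0)) (lf (nat_lit 33) (nat_lit 187)))))))))))) q99495 (by decide +kernel)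
def q99559 : Q := Q.p (nat_lit 0x180000e000000000000000000000000000000000000000000000000000000000) (nat_lit 0x40000c00003000000c000020000080000000000000000000000000000000000000000) (nat_lit 5)
theorem c99559 : QOK q99559 := cut [q81735] ⟨c81735, trivial⟩ (nd (nat_lit 232) (nat_lit 0) (cs (lf (nat_lit 6) (nat_lit 229)) (nd (nat_lit 254) (nat_lit 0) (cs (lf (nat_lit 5) (nat_lit 229)) (rf (nat_lit 0)))))) q99559 (by decide +kernel)
def q99584 : Q := Q.p (nat_lit 0x800003000004000000000000000000000000000000000000000000000000000000000) (nat_lit 0x8000070000cc0003b8000f80001c0000200000800000000000000000000000000000000000) (nat_lit 9)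
theorem c99584 : QOK q99584 := cut [q83723, q92269, q81812, q99573, q10803] ⟨c83723, c92269, c81812, c99573, c10803, trivial⟩ (nd (nat_lit 229) (nat_lit 0) (cs (rf (nat_lit 0)) (cs (nd (nat_lit 273) (nat_lit 0) (cs (nd (nat_lit 254) (nat_lit 0) (cs (lf (nat_lit 18) (nat_lit 229)) (rf (nat_lit 1)))) (cs (nd (nat_lit 254) (nat_lit 0) (cs (lf (nat_lit 18) (nat_lit 229)) (nd (nat_lit 274) (nat_lit 0) (cs (lf (nat_lit 12) (nat_lit 250)) (rf (nat_lit 2)))))) (cs (nd (nat_lit 254) (nat_lit 0) (cs (lf (nat_lit 18) (nat_lit 229)) (nd (nat_lit 186) (nat_lit 0) (cs (lf (nat_lit 25) (nat_lit 186)) (nd (nat_lit 251) (nat_lit 0) (cs (lf (nat_lit 11) (nat_lit 250)) (rf (nat_lit 3)))))))) (nd (nat_lit 208) (nat_lit 0) (cs (lf (nat_lit 24) (nat_lit 186)) (nd (nat_lit 295) (nat_lit 0) (cs (lf (nat_lit 39) (nat_lit 207)) (lf (nat_lit 32) (nat_lit 207)))))))))) (nd (nat_lit 208) (nat_lit 0) (cs (lf (nat_lit 24) (nat_lit 186)) (nd (nat_lit 209) (nat_lit 0) (cs (rf (nat_lit 4)) (nd (nat_lit 210) (nat_lit 0) (cs (lf (nat_lit 6) (nat_lit 207)) (nd (nat_lit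 228) (nat_lit 0) (cs (lf (nat_lit 9) (nat_lit 206)) (lf (nat_lit 0) (nat_lit 227))))))))))))) q99584 (by decide +kernel)
def q99625 : Q := Q.p (nat_lit 0x80000200000800002000000000000000000000000000000000000000000000000000000000000000) (nat_lit 0x10000060000100000000001000004000010000000000000000000000000000000000000000000000000000000000) (nat_lit 4)
theorem c99625 : QOK q99625 := cut [q99624] ⟨c99624, trivial⟩ (nd (nat_lit 254) (nat_lit 0) (cs (lf (nat_lit 35) (nat_lit 231)) (rf (nat_lit 0)))) q99625 (by decide +kernel)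
def q99639 : Q := Q.p (nat_lit 0x40000700000c000030000000000000000000000000000000000000000000000000000) (nat_lit 0x380000e000020000000000000000000000000000000000000000000000) (nat_lit 4)
theorem c99639 : QOK q99639 := cut [q98146] ⟨c98146, trivial⟩ (nd (nat_lit 228) (nat_lit 0) (cs (lf (nat_lit 1) (nat_lit 228)) (rf (nat_lit 0)))) q99639 (by decide +kernel)
def q99646 : Q := Q.p (nat_lit 0xc00002000008000000000000000000000000000000000000000000000000000000000) (nat_lit 0x1000000000010000000000300000c0000100000000000000000000000000000000000000000) (nat_lit 4)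
theorem c99646 : QOK q99646 := cut [q96324] ⟨c96324, trivial⟩ (nd (nat_lit 209) (nat_lit 0) (cs (lf (nat_lit 41) (nat_lit 208)) (rf (nat_lit 0)))) q99646 (by decide +kernel)
def q99649 : Q := Q.p (nat_lit 0x800002000008000020000000000000000000000000000000000000000000000000000) (nat_lit 0x2000000000000000060001d0000140000000000000000000000000000000000000000000000) (nat_lit 5)
theorem c99649 : QOK q99649 := cut [q1402] ⟨c1402, trivial⟩ (nd (nat_lit 208) (nat_lit 0) (cs (lf (nat_lit 47) (nat_lit 186)) (nd (nat_lit 230) (nat_lit 0) (cs (lf (nat_lit 42) (nat_lit 208)) (rf (nat_lit 0)))))) q99649 (by decide +kernel)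
def q99668 : Q := Q.p (nat_lit 0x600000800002000000000000000000000000000000000000000000000000000000000000000) (nat_lit 0x140000100000400000000018000060000100000000000000000000000000000000000000000000000) (nat_lit 5)
theorem c99668 : QOK q99668 := cut [q22016] ⟨c22016, trivial⟩ (nd (nat_lit 231) (nat_lit 0) (cs (lf (nat_lit 29) (nat_lit 231)) (rf (nat_lit 0)))) q99668 (by decide +kernel)
def q99669 : Q := Q.p (nat_lit 0xe00000800002000000000000000000000000000000000000000000000000000000000000000) (nat_lit 0x10000760000180007600000000000000000000000000000000000000000000000000000000000000000000) (nat_lit 5)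
theorem c99669 : QOK q99669 := cut [q95953, q99367] ⟨c95953, c99367, trivial⟩ (nd (nat_lit 296) (nat_lit 0) (cs (rf (nat_lit 0)) (rf (nat_lit 1)))) q99669 (by decide +kernel)
def q99676 : Q := Q.p (nat_lit 0x700000800002000000000000000000000000000000000000000000000000000000000000000) (nat_lit 0x40000000001000000000018000060000100000000000000000000000000000000000000000000000) (nat_lit 4)
theorem c99676 : QOK q99676 := cut [q89373] ⟨c89373, trivial⟩ (nd (nat_lit 231) (nat_lit 0) (cs (lf (nat_lit 41) (nat_lit 230)) (rf (nat_lit 0)))) q99676 (by decide +kernel)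
def q99690 : Q := Q.p (nat_lit 0x100000200000800002000000000000000000000000000000000000000000000000000000000000000) (nat_lit 0x5000004000010000180000700001c0000100000000000000000000000000000000000000000) (nat_lit 7)
theorem c99690 : QOK q99690 := cut [q99687] ⟨c99687, trivial⟩ (nd (nat_lit 231) (nat_lit 0) (cs (lf (nat_lit 28) (nat_lit 231)) (nd (nat_lit 210) (nat_lit 0) (cs (lf (nat_lit 34) (nat_lit 209)) (nd (nat_lit 209) (nat_lit 0) (cs (lf (nat_lit 35) (nat_lit 187)) (rf (nat_lit 0)))))))) q99690 (by decide +kernel)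
def q99736 : Q := Q.p (nat_lit 0x380000800002000000000000000000000000000000000000000000000000000000000000000) (nat_lit 0x5c0004600007c0005800002000008000000000000000000000000000000000000000000000000000) (nat_lit 8)
theorem c99736 : QOK q99736 := cut [q11733, q11737, q41955] ⟨c11733, c11737, c41955, trivial⟩ (nd (nat_lit 294) (nat_lit 0) (cs (rf (nat_lit 0)) (cs (rf (nat_lit 1)) (cs (rf (nat_lit 2)) (nd (nat_lit 315) (nat_lit 0) (cs (lf (nat_lit 10) (nat_lit 293)) (nd (nat_lit 272) (nat_lit 0) (cs (lf (nat_lit 23) (nat_lit 271)) (nd (nat_lit 273) (nat_lit 0) (cs (lf (nat_lit 18) (nat_lit 272)) (nd (nat_lit 254) (nat_lit 0) (cs (lf (nat_lit 14) (nat_lit 250)) (nd (nat_lit 251) (nat_lit 0) (cs (nd (nat_lit 229) (nat_lit 0) (cs (lf (nat_lit 29) (nat_lit 229)) (lf (nat_lit 36) (nat_lit 206)))) (lf (nat_lit 8) (nat_lit 250)))))))))))))))) q99736 (by decide +kernel)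
def q99772 : Q := Q.p (nat_lit 0x3c00002000000000000000000000000000000000000000000000000000000000000000) (nat_lit 0x1c0000030000c000000000000000000000000000000000000000000000000000000000000000) (nat_lit 4)
theorem c99772 : QOK q99772 := cut [q99771] ⟨c99771, trivial⟩ (nd (nat_lit 299) (nat_lit 0) (cs (lf (nat_lit 5) (nat_lit 274)) (rf (nat_lit 0)))) q99772 (by decide +kernel)
def q99795 : Q := Q.p (nat_lit 0x80000200000800003000000000000000000000000000000000000000000000000000000000000000) (nat_lit 0x30000040000100000400000000018000060000180000000000000000000000000000000000000000000000) (nat_lit 6)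
theorem c99795 : QOK q99795 := cut [q99793] ⟨c99793, trivial⟩ (nd (nat_lit 318) (nat_lit 0) (cs (lf (nat_lit 41) (nat_lit 252)) (nd (nat_lit 231) (nat_lit 0) (cs (lf (nat_lit 40) (nat_lit 230)) (rf (nat_lit 0)))))) q99795 (by decide +kernel)
def q99818 : Q := Q.p (nat_lit 0x1800007000000000000000000000000000000000000000000000000000000000000000) (nat_lit 0x80000200000c0000700008c00007000000000000000000000000000000000000000000000000000000000) (nat_lit 7)
theorem c99818 : QOK q99818 := cut [q90623] ⟨c90623, trivial⟩ (nd (nat_lit 251) (nat_lit 0) (cs (lf (nat_lit 0) (nat_lit 250)) (nd (nat_lit 228) (nat_lit 0) (cs (lf (nat_lit 22) (nat_lit 228)) (nd (nat_lit 273) (nat_lit 0) (cs (lf (nat_lit 11) (nat_lit 250)) (nd (nat_lit 274) (nat_lit 0) (cs (lf (nat_lit 17) (nat_lit 251)) (rf (nat_lit 0)))))))))) q99818 (by decide +kernel)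
def q99839 : Q := Q.p (nat_lit 0x1800002000000000000000000000000000000000000000000000000000000000000000) (nat_lit 0x1000014001ff8003e6000e1c00008000020000000000000000000000000000000000000000000000000000) (nat_lit 10)
theorem c99839 : QOK q99839 := cut [q16715, q99829, q99831, q99783, q99836, q22169] ⟨c16715, c99829, c99831, c99783, c99836, c22169, trivial⟩ (nd (nat_lit 277) (nat_lit 0) (cs (rf (nat_lit 0)) (cs (rf (nat_lit 1)) (cs (nd (nat_lit 300) (nat_lit 0) (cs (nd (nat_lit 278) (nat_lit 0) (cs (lf (nat_lit 5) (nat_lit 275)) (rf (nat_lit 2)))) (cs (nd (nat_lit 274) (nat_lit 0) (cs (lf (nat_lit 4) (nat_lit 274)) (rf (nat_lit 3)))) (rf (nat_lit 4))))) (nd (nat_lit 274) (nat_lit 0) (cs (rf (nat_lit 5)) (rf (nat_lit 3)))))))) q99839 (by decide +kernel)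
def q99845 : Q := Q.p (nat_lit 0x800003800002000000000000000000000000000000000000000000000000000000000000000) (nat_lit 0x11c000070000c000000000000000000000000000000000000000000000000000000000000000) (nat_lit 5)
theorem c99845 : QOK q99845 := cut [q99844] ⟨c99844, trivial⟩ (nd (nat_lit 274) (nat_lit 0) (cs (lf (nat_lit 5) (nat_lit 274)) (rf (nat_lit 0)))) q99845 (by decide +kernel)
def q99891 : Q := Q.p (nat_lit 0x80000200000800003000000000000000000000000000000000000000000000000000000000000000000000) (nat_lit 0x60000100000500000400000000008000020000080000000000000000000000000000000000000000000000000000) (nat_lit 5)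
theorem c99891 : QOK q99891 := cut [q15524] ⟨c15524, trivial⟩ (nd (nat_lit 344) (nat_lit 0) (cs (lf (nat_lit 29) (nat_lit 277)) (nd (nat_lit 255) (nat_lit 0) (cs (lf (nat_lit 28) (nat_lit 255)) (rf (nat_lit 0)))))) q99891 (by decide +kernel)
def q99903 : Q := Q.p (nat_lit 0x3c00003000000000000000000000000000000000000000000000000000000000000000) (nat_lit 0x40001980000000000000008000020000000000000000000000000000000000000000000000000000) (nat_lit 4)
theorem c99903 : QOK q99903 := cut [q81957] ⟨c81957, trivial⟩ (nd (nat_lit 299) (nat_lit 0) (cs (lf (nat_lit 5) (nat_lit 274)) (rf (nat_lit 0)))) q99903 (by decide +kernel)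
def q99950 : Q := Q.p (nat_lit 0x600001800002000000000000000000000000000000000000000000000000000000000000000) (nat_lit 0x40000180006000000000008000020000000000000000000000000000000000000000000000000000) (nat_lit 4)
theorem c99950 : QOK q99950 := cut [q99949] ⟨c99949, trivial⟩ (nd (nat_lit 231) (nat_lit 0) (cs (lf (nat_lit 24) (nat_lit 209)) (rf (nat_lit 0)))) q99950 (by decide +kernel)
def q99970 : Q := Q.p (nat_lit 0x100000600001000004000000000000000000000000000000000000000000000000000000000000000) (nat_lit 0x80000e00000980000000000000000000000000000000000000000000000000000000000000000000000000) (nat_lit 4)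
theorem c99970 : QOK q99970 := cut [q28787] ⟨c28787, trivial⟩ (nd (nat_lit 321) (nat_lit 0) (cs (rf (nat_lit 0)) (lf (nat_lit 29) (nat_lit 254)))) q99970 (by decide +kernel)
def q99974 : Q := Q.p (nat_lit 0x100000400001000004000000000000000000000000000000000000000000000000000000000000000) (nat_lit 0xa0000280000a00000000000000010000000000000000000000000000000000000000000000000000000000) (nat_lit 4)
theorem c99974 : QOK q99974 := cut [q81437] ⟨c81437, trivial⟩ (nd (nat_lit 319) (nat_lit 0) (cs (lf (nat_lit 41) (nat_lit 253)) (rf (nat_lit 0)))) q99974 (by decide +kernel)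
def q100018 : Q := Q.p (nat_lit 0x3800002000000000000000000000000000000000000000000000000000000000000000) (nat_lit 0x10000040003fc003c7000ec000000000000000000000000000000000000000000000000000000000000000) (nat_lit 8)
theorem c100018 : QOK q100018 := cut [q99836, q100010, q99844, q99778] ⟨c99836, c100010, c99844, c99778, trivial⟩ (nd (nat_lit 300) (nat_lit 0) (cs (rf (nat_lit 0)) (cs (nd (nat_lit 278) (nat_lit 0) (cs (lf (nat_lit 5) (nat_lit 275)) (nd (nat_lit 296) (nat_lit 0) (cs (lf (nat_lit 10) (nat_lit 274)) (nd (nat_lit 274) (nat_lit 0) (cs (lf (nat_lit 11) (nat_lit 273)) (nd (nat_lit 318) (nat_lit 0) (cs (lf (nat_lit 30) (nat_lit 252)) (rf (nat_lit 1)))))))))) (cs (nd (nat_lit 274) (nat_lit 0) (cs (lf (nat_lit 4) (nat_lit 274)) (rf (nat_lit 2)))) (nd (nat_lit 278) (nat_lit 0) (cs (lf (nat_lit 5) (nat_lit 275)) (nd (nat_lit 296) (nat_lit 0) (cs (lf (nat_lit 10) (nat_lit 274)) (rf (nat_lit 3)))))))))) q100018 (by decide +kernel)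
def q100091 : Q := Q.p (nat_lit 0x800003800000000000000000000000000000000000000000000000000000000000000000000) (nat_lit 0x1400000600001c00000000000000000000000000000000000000000000000000000000000000) (nat_lit 4)
theorem c100091 : QOK q100091 := cut [q13424] ⟨c13424, trivial⟩ (nd (nat_lit 274) (nat_lit 0) (cs (lf (nat_lit 5) (nat_lit 274)) (rf (nat_lit 0)))) q100091 (by decide +kernel)
def q100121 : Q := Q.p (nat_lit 0x3c00002000000000000000000000000000000000000000000000000000000000000000) (nat_lit 0x30000dc00000000000000000000000000000000000000000000000000000000000000) (nat_lit 4)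
theorem c100121 : QOK q100121 := cut [q96661] ⟨c96661, trivial⟩ (nd (nat_lit 251) (nat_lit 0) (cs (lf (nat_lit 22) (nat_lit 251)) (rf (nat_lit 0)))) q100121 (by decide +kernel)
def q100289 : Q := Q.p (nat_lit 0x1a00003000000000000000000000000000000000000000000000000000000000000000) (nat_lit 0xa00003c000040000cc0000f8000380000e0000000000000000000000000000000000000000000000) (nat_lit 10)
theorem c100289 : QOK q100289 := cut [q79078, q90858, q100282] ⟨c79078, c90858, c100282, trivial⟩ (nd (nat_lit 230) (nat_lit 0) (cs (rf (nat_lit 0)) (cs (nd (nat_lit 297) (nat_lit 0) (cs (lf (nat_lit 42) (nat_lit 230)) (nd (nat_lit 251) (nat_lit 0) (cs (lf (nat_lit 0) (nat_lit 250)) (rf (nat_lit 1)))))) (nd (nat_lit 250) (nat_lit 0) (cs (lf (nat_lit 1) (nat_lit 250)) (nd (nat_lit 208) (nat_lit 0) (cs (lf (nat_lit 24) (nat_lit 186)) (nd (nat_lit 274) (nat_lit 0) (cs (lf (nat_lit 41) (nat_lit 207)) (nd (nat_lit 254) (nat_lit 0) (cs (lf (nat_lit 17) (nat_lit 251)) (nd (nat_lit 207) (nat_lit 0) (cs (lf (nat_lit 47) (nat_lit 185)) (nd (nat_lit 187)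 (nat_lit 0) (cs (lf (nat_lit 34) (nat_lit 186)) (rf (nat_lit 2))))))))))))))))) q100289 (by decide +kernel)
def q100321 : Q := Q.p (nat_lit 0x1800002000008000000000000000000000000000000000000000000000000000000000) (nat_lit 0x4000000000040000000000300000c0000100000000000000000000000000000000000000000) (nat_lit 4)
theorem c100321 : QOK q100321 := cut [q94774] ⟨c94774, trivial⟩ (nd (nat_lit 209) (nat_lit 0) (cs (lf (nat_lit 29) (nat_lit 209)) (rf (nat_lit 0)))) q100321 (by decide +kernel)
def q100348 : Q := Q.p (nat_lit 0x1800003000008000000000000000000000000000000000000000000000000000000000) (nat_lit 0x400000000004000004000020000180000600001000000000000000000000000000000000000) (nat_lit 5)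
theorem c100348 : QOK q100348 := cut [q91177] ⟨c91177, trivial⟩ (nd (nat_lit 209) (nat_lit 0) (cs (lf (nat_lit 29) (nat_lit 209)) (rf (nat_lit 0)))) q100348 (by decide +kernel)
def q100356 : Q := Q.p (nat_lit 0x580001a000000000000000000000000000000000000000000000000000000000) (nat_lit 0x40000800000400000c000020000080000000000000000000000000000000000000000) (nat_lit 4)
theorem c100356 : QOK q100356 := cut [q81735] ⟨c81735, trivial⟩ (nd (nat_lit 230) (nat_lit 0) (cs (lf (nat_lit 5) (nat_lit 229)) (rf (nat_lit 0)))) q100356 (by decide +kernel)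
def q100361 : Q := Q.p (nat_lit 0x1800007800008000000000000000000000000000000000000000000000000000000000) (nat_lit 0x300000c00000700000000033000000000000000000000000000000000000000000000000000000000) (nat_lit 6)
theorem c100361 : QOK q100361 := cut [q94745] ⟨c94745, trivial⟩ (nd (nat_lit 273) (nat_lit 0) (cs (lf (nat_lit 11) (nat_lit 250)) (nd (nat_lit 228) (nat_lit 0) (cs (lf (nat_lit 22) (nat_lit 228)) (nd (nat_lit 232) (nat_lit 0) (cs (lf (nat_lit 17) (nat_lit 229)) (rf (nat_lit 0)))))))) q100361 (by decide +kernel)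
def q100417 : Q := Q.p (nat_lit 0x200001800003000008000000000000000000000000000000000000000000000000000000000) (nat_lit 0x80000700007c0000640000c70007780019e000040000100000000000000000000000000000000000000000) (nat_lit 11)
theorem c100417 : QOK q100417 := cut [q97957, q96758, q80264] ⟨c97957, c96758, c80264, trivial⟩ (nd (nat_lit 230) (nat_lit 0) (cs (rf (nat_lit 0)) (nd (nat_lit 229) (nat_lit 0) (cs (rf (nat_lit 1)) (cs (nd (nat_lit 299) (nat_lit 0) (cs (nd (nat_lit 298) (nat_lit 0) (cs (lf (nat_lit 29) (nat_lit 231)) (rf (nat_lit 2)))) (cs (nd (nat_lit 255) (nat_lit 0) (cs (lf (nat_lit 19) (nat_lit 229)) (nd (nat_lit 277) (nat_lit 0) (cs (lf (nat_lit 18) (nat_lit 252)) (nd (nat_lit 300) (nat_lit 0) (cs (lf (nat_lit 0) (nat_lit 274)) (nd (nat_lit 301) (nat_lit 0) (cs (lf (nat_lit 18) (nat_lit 276)) (nd (nat_lit 233) (nat_lit 0) (cs (lf (nat_lit 29) (nat_lit 233)) (nd (nat_lit 234) (nat_lit 0) (cs (lf (nat_lit 35) (nat_lit 211)) (lf (nat_lit 8) (nat_lit 230)))))))))))))) (nd (nat_lit 277) (nat_lit 0) (cs (lf (nat_lit 18) (nat_lit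 252)) (nd (nat_lit 254) (nat_lit 0) (cs (lf (nat_lit 18) (nat_lit 229)) (nd (nat_lit 321) (nat_lit 0) (cs (lf (nat_lit 42) (nat_lit 254)) (nd (nat_lit 298) (nat_lit 0) (cs (lf (nat_lit 29) (nat_lit 231)) (lf (nat_lit 24) (nat_lit 232))))))))))))) (nd (nat_lit 228) (nat_lit 0) (cs (lf (nat_lit 0) (nat_lit 227)) (nd (nat_lit 277) (nat_lit 0) (cs (lf (nat_lit 18) (nat_lit 252)) (nd (nat_lit 249) (nat_lit 0) (cs (lf (nat_lit 10) (nat_lit 227)) (nd (nat_lit 298) (nat_lit 0) (cs (lf (nat_lit 29) (nat_lit 231)) (nd (nat_lit 206) (nat_lit 0) (cs (lf (nat_lit 23) (nat_lit 205)) (nd (nat_lit 232) (nat_lit 0) (cs (lf (nat_lit 22) (nat_lit 206)) (nd (nat_lit 233) (nat_lit 0) (cs (lf (nat_lit 6) (nat_lit 230)) (nd (nat_lit 211) (nat_lit 0) (cs (lf (nat_lit 17) (nat_lit 208)) (lf (nat_lit 38) (nat_lit 210))))))))))))))))))))))) q100417 (by decide +kernel)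
def q100443 : Q := Q.p (nat_lit 0x3800002000000000000000000000000000000000000000000000000000000000000000) (nat_lit 0x100003f8003c4000e4000008000020000000000000000000000000000000000000000000000000000) (nat_lit 7)
theorem c100443 : QOK q100443 := cut [q16964, q99779, q99831] ⟨c16964, c99779, c99831, trivial⟩ (nd (nat_lit 278) (nat_lit 0) (cs (rf (nat_lit 0)) (cs (rf (nat_lit 1)) (rf (nat_lit 2))))) q100443 (by decide +kernel)
def q100456 : Q := Q.p (nat_lit 0x200001800002000008000000000000000000000000000000000000000000000000000000000) (nat_lit 0x140000580006000000000000000000000000000000000000000000000000000000000000000000000) (nat_lit 4)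
theorem c100456 : QOK q100456 := cut [q99949] ⟨c99949, trivial⟩ (nd (nat_lit 298) (nat_lit 0) (cs (lf (nat_lit 29) (nat_lit 231)) (rf (nat_lit 0)))) q100456 (by decide +kernel)
def q100469 : Q := Q.p (nat_lit 0x1800002000008000000000000000000000000000000000000000000000000000000000) (nat_lit 0x4000000000000000000000700001c0000500000000000000000000000000000000000000000) (nat_lit 5)
theorem c100469 : QOK q100469 := cut [q81901] ⟨c81901, trivial⟩ (nd (nat_lit 209) (nat_lit 0) (cs (lf (nat_lit 29) (nat_lit 209)) (rf (nat_lit 0)))) q100469 (by decide +kernel)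
def q100541 : Q := Q.p (nat_lit 0x1e00002000000000000000000000000000000000000000000000000000000000000000) (nat_lit 0x100000c0000000000c000008000020000000000000000000000000000000000000000000000000000) (nat_lit 4)
theorem c100541 : QOK q100541 := cut [q94412] ⟨c94412, trivial⟩ (nd (nat_lit 254) (nat_lit 0) (cs (lf (nat_lit 17) (nat_lit 251)) (rf (nat_lit 0)))) q100541 (by decide +kernel)
def q100641 : Q := Q.p (nat_lit 0x80000300000c000000000000000000000000000000000000000000000000000000000) (nat_lit 0x4000000000130001e0000180000200000000000000000000000000000000000000000) (nat_lit 5)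
theorem c100641 : QOK q100641 := cut [q80169, q91450] ⟨c80169, c91450, trivial⟩ (nd (nat_lit 209) (nat_lit 0) (cs (rf (nat_lit 0)) (rf (nat_lit 1)))) q100641 (by decide +kernel)
def q100654 : Q := Q.p (nat_lit 0xc00003800004000010000000000000000000000000000000000000000000000000000) (nat_lit 0xc800033800000000080000280000a0000000000000000000000000000000000000000000000) (nat_lit 7)
theorem c100654 : QOK q100654 := cut [q100653] ⟨c100653, trivial⟩ (nd (nat_lit 185) (nat_lit 0) (cs (lf (nat_lit 46) (nat_lit 185)) (rf (nat_lit 0)))) q100654 (by decide +kernel)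
def q100670 : Q := Q.p (nat_lit 0x200000800003000000000000000000000000000000000000000000000000000000000000000) (nat_lit 0x40000180000700000c00005000014000040000180000700001c0000100000000000000000000000000000000000000000) (nat_lit 7)
theorem c100670 : QOK q100670 := cut [q26069, q81899, q100668] ⟨c26069, c81899, c100668, trivial⟩ (nd (nat_lit 318) (nat_lit 0) (cs (nd (nat_lit 319) (nat_lit 0) (cs (lf (nat_lit 41) (nat_lit 252)) (nd (nat_lit 341) (nat_lit 0) (cs (lf (nat_lit 46) (nat_lit 252)) (nd (nat_lit 276) (nat_lit 0) (cs (lf (nat_lit 35) (nat_lit 253)) (nd (nat_lit 364) (nat_lit 0) (cs (lf (nat_lit 28) (nat_lit 275)) (rf (nat_lit 0)))))))))) (cs (nd (nat_lit 231) (nat_lit 0) (cs (lf (nat_lit 40) (nat_lit 230)) (nd (nat_lit 210) (nat_lit 0) (cs (lf (nat_lit 34) (nat_lit 209)) (nd (nat_lit 209) (nat_lit 0) (cs (lf (nat_lit 35) (nat_lit 187)) (nd (nat_lit 187) (nat_lit 0) (cs (lf (nat_lit 41) (nat_lit 186)) (rf (nat_lit 1)))))))))) (nd (nat_lit 231) (nat_lit 0) (cs (lf (nat_lit 40) (nat_lit 230)) (rf (nat_lit 2))))))) q100670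 (by decide +kernel)
def q100749 : Q := Q.p (nat_lit 0x200000800002000008000000000000000000000000000000000000000000000000000000000) (nat_lit 0x400005000014000040000000000300000c0000100000000000000000000000000000000000000000) (nat_lit 6)
theorem c100749 : QOK q100749 := cut [q97917] ⟨c97917, trivial⟩ (nd (nat_lit 296) (nat_lit 0) (cs (lf (nat_lit 41) (nat_lit 230)) (nd (nat_lit 209) (nat_lit 0) (cs (lf (nat_lit 40) (nat_lit 208)) (rf (nat_lit 0)))))) q100749 (by decide +kernel)
def q100798 : Q := Q.p (nat_lit 0x80000380000c000000000000000000000000000000000000000000000000000000000) (nat_lit 0x200000000000000030000060000100000400000000000000000000000000000000000000000) (nat_lit 4)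
theorem c100798 : QOK q100798 := cut [q26315] ⟨c26315, trivial⟩ (nd (nat_lit 232) (nat_lit 0) (cs (lf (nat_lit 6) (nat_lit 229)) (rf (nat_lit 0)))) q100798 (by decide +kernel)
def q100800 : Q := Q.p (nat_lit 0x80000300001c000000000000000000000000000000000000000000000000000000000) (nat_lit 0x2000000000000000038000ce000000000000000000000000000000000000000000000000000) (nat_lit 5)
theorem c100800 : QOK q100800 := cut [q91239] ⟨c91239, trivial⟩ (nd (nat_lit 210) (nat_lit 0) (cs (lf (nat_lit 30) (nat_lit 209)) (nd (nat_lit 229) (nat_lit 0) (cs (lf (nat_lit 17) (nat_lit 207)) (rf (nat_lit 0)))))) q100800 (by decide +kernel)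
def q100863 : Q := Q.p (nat_lit 0x3800008000020000000000000000000000000000000000000000000000000000) (nat_lit 0x180000780004600007c0005c000030000080000000000000000000000000000000000000000) (nat_lit 8)
theorem c100863 : QOK q100863 := cut [q85582, q91191, q91257, q84283] ⟨c85582, c91191, c91257, c84283, trivial⟩ (nd (nat_lit 228) (nat_lit 0) (cs (rf (nat_lit 0)) (cs (rf (nat_lit 1)) (cs (rf (nat_lit 2)) (cs (nd (nat_lit 250) (nat_lit 0) (cs (lf (nat_lit 23) (nat_lit 227)) (nd (nat_lit 230) (nat_lit 0) (cs (lf (nat_lit 12) (nat_lit 227)) (nd (nat_lit 274) (nat_lit 0) (cs (lf (nat_lit 30) (nat_lit 208)) (rf (nat_lit 3)))))))) (nd (nat_lit 229) (nat_lit 0) (cs (lf (nat_lit 18) (nat_lit 228)) (nd (nat_lit 230) (nat_lit 0) (cs (lf (nat_lit 0) (nat_lit 227)) (lf (nat_lit 17) (nat_lit 206))))))))))) q100863 (by decide +kernel)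
def q100868 : Q := Q.p (nat_lit 0x7800008000000000000000000000000000000000000000000000000000000000) (nat_lit 0x7000180000e7000000000000000000000000000000000000000000000000000000000) (nat_lit 6)
theorem c100868 : QOK q100868 := cut [q96443] ⟨c96443, trivial⟩ (nd (nat_lit 273) (nat_lit 0) (cs (lf (nat_lit 11) (nat_lit 250)) (nd (nat_lit 228) (nat_lit 0) (cs (lf (nat_lit 22) (nat_lit 228)) (nd (nat_lit 255) (nat_lit 0) (cs (lf (nat_lit 10) (nat_lit 251)) (rf (nat_lit 0)))))))) q100868 (by decide +kernel)
def q100877 : Q := Q.p (nat_lit 0x2000008000020000080000000000000000000000000000000000000000000000) (nat_lit 0x1400005000010000000000040000300000400000000000000000000000000000000000) (nat_lit 5)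
theorem c100877 : QOK q100877 := cut [q88773] ⟨c88773, trivial⟩ (nd (nat_lit 164) (nat_lit 0) (cs (lf (nat_lit 46) (nat_lit 164)) (nd (nat_lit 252) (nat_lit 0) (cs (lf (nat_lit 41) (nat_lit 186)) (rf (nat_lit 0)))))) q100877 (by decide +kernel)
def q100882 : Q := Q.p (nat_lit 0x800002000008000020000000000000000000000000000000000000000000000000000) (nat_lit 0x1000004000010000000000100000c0000100000000000000000000000000000000000000000) (nat_lit 4)
theorem c100882 : QOK q100882 := cut [q97948] ⟨c97948, trivial⟩ (nd (nat_lit 274) (nat_lit 0) (cs (lf (nat_lit 41) (nat_lit 208)) (rf (nat_lit 0)))) q100882 (by decide +kernel)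
def q100891 : Q := Q.p (nat_lit 0x7800018000000000000000000000000000000000000000000000000000000000) (nat_lit 0x380000e000038000000000030000c0000300000c00000000000000000000000000000000000000000) (nat_lit 9)
theorem c100891 : QOK q100891 := cut [q88780] ⟨c88780, trivial⟩ (nd (nat_lit 276) (nat_lit 0) (cs (lf (nat_lit 5) (nat_lit 251)) (nd (nat_lit 298) (nat_lit 0) (cs (lf (nat_lit 42) (nat_lit 231)) (nd (nat_lit 228) (nat_lit 0) (cs (lf (nat_lit 22) (nat_lit 228)) (nd (nat_lit 299) (nat_lit 0) (cs (lf (nat_lit 29) (nat_lit 232)) (rf (nat_lit 0)))))))))) q100891 (by decide +kernel)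
def q100916 : Q := Q.p (nat_lit 0x7800008000000000000000000000000000000000000000000000000000000000) (nat_lit 0xc000170000fc0003f00008000000000000000000000000000000000000000000000000000000000000000) (nat_lit 10)
theorem c100916 : QOK q100916 := cut [q81457] ⟨c81457, trivial⟩ (nd (nat_lit 276) (nat_lit 0) (cs (lf (nat_lit 5) (nat_lit 251)) (nd (nat_lit 298) (nat_lit 0) (cs (lf (nat_lit 42) (nat_lit 231)) (nd (nat_lit 273) (nat_lit 0) (cs (lf (nat_lit 11) (nat_lit 250)) (nd (nat_lit 274) (nat_lit 0) (cs (lf (nat_lit 6) (nat_lit 251)) (rf (nat_lit 0)))))))))) q100916 (by decide +kernel)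
def q100921 : Q := Q.p (nat_lit 0x780000e000000000000000000000000000000000000000000000000000000000) (nat_lit 0x100000480003300000000000000010000040000000000000000000000000000000000000000000000) (nat_lit 5)
theorem c100921 : QOK q100921 := cut [q85550] ⟨c85550, trivial⟩ (nd (nat_lit 276) (nat_lit 0) (cs (lf (nat_lit 5) (nat_lit 251)) (nd (nat_lit 298) (nat_lit 0) (cs (lf (nat_lit 42) (nat_lit 231)) (rf (nat_lit 0)))))) q100921 (by decide +kernel)
def q100958 : Q := Q.p (nat_lit 0x780000e000000000000000000000000000000000000000000000000000000000) (nat_lit 0x16000058000370000000000000000c0000300000c0000000000000000000000000000000000000000) (nat_lit 9)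
theorem c100958 : QOK q100958 := cut [q100955] ⟨c100955, trivial⟩ (nd (nat_lit 276) (nat_lit 0) (cs (lf (nat_lit 5) (nat_lit 251)) (nd (nat_lit 298) (nat_lit 0) (cs (lf (nat_lit 42) (nat_lit 231)) (nd (nat_lit 273) (nat_lit 0) (cs (lf (nat_lit 11) (nat_lit 250)) (rf (nat_lit 0)))))))) q100958 (by decide +kernel)
def q100962 : Q := Q.p (nat_lit 0x3c0000c000000000000000000000000000000000000000000000000000000000) (nat_lit 0x200001800000000001800010000040000000000000000000000000000000000000000000000) (nat_lit 4)
theorem c100962 : QOK q100962 := cut [q81478] ⟨c81478, trivial⟩ (nd (nat_lit 227) (nat_lit 0) (cs (lf (nat_lit 22) (nat_lit 227)) (rf (nat_lit 0)))) q100962 (by decide +kernel)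
def q101063 : Q := Q.p (nat_lit 0x120000780001a000000000000000000000000000000000000000000000000000000000) (nat_lit 0x100000480000000008000004000010000040000000000000000000000000000000000000000000000) (nat_lit 4)
theorem c101063 : QOK q101063 := cut [q101062] ⟨c101062, trivial⟩ (nd (nat_lit 298) (nat_lit 0) (cs (lf (nat_lit 42) (nat_lit 231)) (rf (nat_lit 0)))) q101063 (by decide +kernel)
def q101093 : Q := Q.p (nat_lit 0x7800008000000000000000000000000000000000000000000000000000000000) (nat_lit 0x100000400003300008000077000000000000000000000000000000000000000000000000000000000) (nat_lit 7)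
theorem c101093 : QOK q101093 := cut [q85523] ⟨c85523, trivial⟩ (nd (nat_lit 229) (nat_lit 0) (cs (lf (nat_lit 23) (nat_lit 228)) (nd (nat_lit 272) (nat_lit 0) (cs (lf (nat_lit 10) (nat_lit 250)) (nd (nat_lit 276) (nat_lit 0) (cs (lf (nat_lit 5) (nat_lit 251)) (nd (nat_lit 298) (nat_lit 0) (cs (lf (nat_lit 42) (nat_lit 231)) (rf (nat_lit 0)))))))))) q101093 (by decide +kernel)
def q101120 : Q := Q.p (nat_lit 0x600001800006000018000000000000000000000000000000000000000000000000000000000) (nat_lit 0x2400039c0000400000000000000000000000000000000000000000000000000000000000000000000) (nat_lit 5)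
theorem c101120 : QOK q101120 := cut [q80265] ⟨c80265, trivial⟩ (nd (nat_lit 296) (nat_lit 0) (cs (lf (nat_lit 41) (nat_lit 230)) (nd (nat_lit 294) (nat_lit 0) (cs (lf (nat_lit 13) (nat_lit 272)) (rf (nat_lit 0)))))) q101120 (by decide +kernel)
def q101130 : Q := Q.p (nat_lit 0x1000007800008000000000000000000000000000000000000000000000000000000000) (nat_lit 0x800018600006000000000000000000000000000000000000000000000000000000000) (nat_lit 4)
theorem c101130 : QOK q101130 := cut [q81489] ⟨c81489, trivial⟩ (nd (nat_lit 250) (nat_lit 0) (cs (lf (nat_lit 4) (nat_lit 250)) (rf (nat_lit 0)))) q101130 (by decide +kernel)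
def q101171 : Q := Q.p (nat_lit 0x200003800008000000000000000000000000000000000000000000000000000000000) (nat_lit 0x10000048000310000c000007000010000040000000000000000000000000000000000000000000000) (nat_lit 7)
theorem c101171 : QOK q101171 := cut [q82229] ⟨c82229, trivial⟩ (nd (nat_lit 254) (nat_lit 0) (cs (lf (nat_lit 11) (nat_lit 250)) (nd (nat_lit 229) (nat_lit 0) (cs (lf (nat_lit 23) (nat_lit 228)) (nd (nat_lit 276) (nat_lit 0) (cs (lf (nat_lit 5) (nat_lit 251)) (nd (nat_lit 298) (nat_lit 0) (cs (lf (nat_lit 42) (nat_lit 231)) (rf (nat_lit 0)))))))))) q101171 (by decide +kernel)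
def q101209 : Q := Q.p (nat_lit 0xe00002000008000020000000000000000000000000000000000000000000000000000) (nat_lit 0x4e0001100000e00000000000000000000000000000000000000000000000000000000000000) (nat_lit 5)
theorem c101209 : QOK q101209 := cut [q15625] ⟨c15625, trivial⟩ (nd (nat_lit 276) (nat_lit 0) (cs (lf (nat_lit 29) (nat_lit 209)) (rf (nat_lit 0)))) q101209 (by decide +kernel)
def q101214 : Q := Q.p (nat_lit 0x800002000008000020000000000000000000000000000000000000000000000000000) (nat_lit 0x40000300000400000000010000040000100000000000000000000000000000000000000000000000) (nat_lit 4)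
theorem c101214 : QOK q101214 := cut [q96677] ⟨c96677, trivial⟩ (nd (nat_lit 296) (nat_lit 0) (cs (lf (nat_lit 40) (nat_lit 208)) (rf (nat_lit 0)))) q101214 (by decide +kernel)
def q101234 : Q := Q.p (nat_lit 0x2000008000020000000000000000000000000000000000000000000000000000) (nat_lit 0x100000c000010000000000500001c0000700001400000000000000000000000000000000000) (nat_lit 5)
theorem c101234 : QOK q101234 := cut [q1580, q80731, q96697] ⟨c1580, c80731, c96697, trivial⟩ (nd (nat_lit 187) (nat_lit 0) (cs (rf (nat_lit 0)) (cs (rf (nat_lit 1)) (rf (nat_lit 2))))) q101234 (by decide +kernel)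
def q101298 : Q := Q.p (nat_lit 0x6000018000040000100000000000000000000000000000000000000000000000) (nat_lit 0x300000c00003000000000000000020000280000a00000000000000000000000000000000000000000) (nat_lit 6)
theorem c101298 : QOK q101298 := cut [q101296] ⟨c101296, trivial⟩ (nd (nat_lit 167) (nat_lit 0) (cs (lf (nat_lit 34) (nat_lit 166)) (nd (nat_lit 187) (nat_lit 0) (cs (lf (nat_lit 47) (nat_lit 165)) (rf (nat_lit 0)))))) q101298 (by decide +kernel)
def q101313 : Q := Q.p (nat_lit 0xf00000c000000000000000000000000000000000000000000000000000000000) (nat_lit 0x1000000800070000180000200000800000000000000000000000000000000000000000) (nat_lit 5)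
theorem c101313 : QOK q101313 := cut [q79237] ⟨c79237, trivial⟩ (nd (nat_lit 233) (nat_lit 0) (cs (lf (nat_lit 17) (nat_lit 230)) (nd (nat_lit 232) (nat_lit 0) (cs (lf (nat_lit 12) (nat_lit 229)) (rf (nat_lit 0)))))) q101313 (by decide +kernel)
def q101325 : Q := Q.p (nat_lit 0x380000c000030000000000000000000000000000000000000000000000000000) (nat_lit 0x80000700001cc000700000400001000000000000000000000000000000000000) (nat_lit 7)
theorem c101325 : QOK q101325 := cut [q1399, q209, q4380] ⟨c1399, c209, c4380, trivial⟩ (nd (nat_lit 210) (nat_lit 0) (cs (rf (nat_lit 0)) (cs (nd (nat_lit 211) (nat_lit 0) (cs (lf (nat_lit 6) (nat_lit 208)) (nd (nat_lit 233) (nat_lit 0) (cs (lf (nat_lit 5) (nat_lit 208)) (lf (nat_lit 7) (nat_lit 229)))))) (cs (nd (nat_lit 211) (nat_lit 0) (cs (rf (nat_lit 1)) (lf (nat_lit 6) (nat_lit 208)))) (nd (nat_lit 232) (nat_lit 0) (cs (lf (nat_lit 6) (nat_lit 229)) (rf (nat_lit 2)))))))) q101325 (by decide +kernel)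
def q101424 : Q := Q.p (nat_lit 0x600001e000000000000000000000000000000000000000000000000000000000) (nat_lit 0x1c000e00001c0000000000000000000000000000000000000000000000000000) (nat_lit 5)
theorem c101424 : QOK q101424 := cut [q96878] ⟨c96878, trivial⟩ (nd (nat_lit 211) (nat_lit 0) (cs (lf (nat_lit 16) (nat_lit 207)) (nd (nat_lit 250) (nat_lit 0) (cs (lf (nat_lit 10) (nat_lit 228)) (rf (nat_lit 0)))))) q101424 (by decide +kernel)
def q101438 : Q := Q.p (nat_lit 0x200000e000000000000000000000000000000000000000000000000000000000) (nat_lit 0x40000100039f000718001df000020000080000000000000000000000000000000000000000) (nat_lit 12)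
theorem c101438 : QOK q101438 := cut [q22544, q96757, q96835] ⟨c22544, c96757, c96835, trivial⟩ (nd (nat_lit 228) (nat_lit 0) (cs (rf (nat_lit 0)) (cs (rf (nat_lit 1)) (cs (rf (nat_lit 2)) (nd (nat_lit 205) (nat_lit 0) (cs (lf (nat_lit 22) (nat_lit 205)) (nd (nat_lit 250) (nat_lit 0) (cs (lf (nat_lit 11) (nat_lit 227)) (nd (nat_lit 232) (nat_lit 0) (cs (lf (nat_lit 10) (nat_lit 228)) (nd (nat_lit 211) (nat_lit 0) (cs (lf (nat_lit 16) (nat_lit 207)) (nd (nat_lit 233) (nat_lit 0) (cs (lf (nat_lit 17) (nat_lit 208)) (nd (nat_lit 207) (nat_lit 0) (cs (lf (nat_lit 22) (nat_lit 207)) (nd (nat_lit 163) (nat_lit 0) (cs (lf (nat_lit 37) (nat_lit 162)) (nd (nat_lit 272) (nat_lit 0) (cs (lf (nat_lit 30) (nat_lit 206)) (nd (nat_lit 256) (nat_lit 0) (cs (lf (nat_lit 4) (nat_lit 230)) (nd (nat_lit 234) (nat_lit 0) (cs (lf (nat_lit 11) (nat_lit 230)) (lf (nat_lit 5) (nat_lit 231)))))))))))))))))))))))))) q101438 (by decide +kernel)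
def q101479 : Q := Q.p (nat_lit 0x200001e000000000000000000000000000000000000000000000000000000000) (nat_lit 0x3900006000001c000000000000000000000000000000000000000000000000000) (nat_lit 5)
theorem c101479 : QOK q101479 := cut [q96906] ⟨c96906, trivial⟩ (nd (nat_lit 207) (nat_lit 0) (cs (lf (nat_lit 23) (nat_lit 206)) (nd (nat_lit 233) (nat_lit 0) (cs (lf (nat_lit 22) (nat_lit 207)) (rf (nat_lit 0)))))) q101479 (by decide +kernel)
def q101510 : Q := Q.p (nat_lit 0x380000e000000000000000000000000000000000000000000000000000000000) (nat_lit 0x8000030000c00003000001c000040000000000000000000000000000000000000000000000) (nat_lit 6)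
theorem c101510 : QOK q101510 := cut [q85550] ⟨c85550, trivial⟩ (nd (nat_lit 232) (nat_lit 0) (cs (lf (nat_lit 6) (nat_lit 229)) (nd (nat_lit 254) (nat_lit 0) (cs (lf (nat_lit 5) (nat_lit 229)) (nd (nat_lit 206) (nat_lit 0) (cs (lf (nat_lit 22) (nat_lit 206)) (rf (nat_lit 0)))))))) q101510 (by decide +kernel)
def q101516 : Q := Q.p (nat_lit 0x80000e000000000000000000000000000000000000000000000000000000000) (nat_lit 0x3940007000038c000000000000000000000000000000000000000000000000000) (nat_lit 7)
theorem c101516 : QOK q101516 := cut [q101513] ⟨c101513, trivial⟩ (nd (nat_lit 232) (nat_lit 0) (cs (lf (nat_lit 11) (nat_lit 228)) (nd (nat_lit 206) (nat_lit 0) (cs (lf (nat_lit 22) (nat_lit 206)) (nd (nat_lit 233) (nat_lit 0) (cs (lf (nat_lit 10) (nat_lit 229)) (rf (nat_lit 0)))))))) q101516 (by decide +kernel)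
def q101521 : Q := Q.p (nat_lit 0x280000e000000000000000000000000000000000000000000000000000000000) (nat_lit 0x754000f00003bc000040000100000000000000000000000000000000000000000) (nat_lit 10)
theorem c101521 : QOK q101521 := cut [q97097] ⟨c97097, trivial⟩ (nd (nat_lit 232) (nat_lit 0) (cs (lf (nat_lit 11) (nat_lit 228)) (nd (nat_lit 206) (nat_lit 0) (cs (lf (nat_lit 22) (nat_lit 206)) (nd (nat_lit 233) (nat_lit 0) (cs (lf (nat_lit 10) (nat_lit 229)) (nd (nat_lit 212) (nat_lit 0) (cs (lf (nat_lit 16) (nat_lit 208)) (nd (nat_lit 234) (nat_lit 0) (cs (lf (nat_lit 17) (nat_lit 209)) (rf (nat_lit 0)))))))))))) q101521 (by decide +kernel)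
def q101546 : Q := Q.p (nat_lit 0x200000800002000008000000000000000000000000000000000000000000000000000000000) (nat_lit 0x100000c0000100000000004000014000050000000000000000000000000000000000000000000000000000) (nat_lit 5)
theorem c101546 : QOK q101546 := cut [q100668] ⟨c100668, trivial⟩ (nd (nat_lit 318) (nat_lit 0) (cs (lf (nat_lit 40) (nat_lit 230)) (nd (nat_lit 208) (nat_lit 0) (cs (lf (nat_lit 46) (nat_lit 208)) (rf (nat_lit 0)))))) q101546 (by decide +kernel)
def q101552 : Q := Q.p (nat_lit 0x1800002000008000038000000000000000000000000000000000000000000000000000) (nat_lit 0x40000370000c0000730000000000000000000000000000000000000000000000) (nat_lit 7)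
theorem c101552 : QOK q101552 := cut [q96151] ⟨c96151, trivial⟩ (nd (nat_lit 210) (nat_lit 0) (cs (lf (nat_lit 35) (nat_lit 187)) (nd (nat_lit 232) (nat_lit 0) (cs (lf (nat_lit 5) (nat_lit 207)) (rf (nat_lit 0)))))) q101552 (by decide +kernel)
def q101582 : Q := Q.p (nat_lit 0x200000800002000008000000000000000000000000000000000000000000000000000000000) (nat_lit 0x100000c0000100000000001000014000050000000000000000000000000000000000000000000000000000) (nat_lit 5)
theorem c101582 : QOK q101582 := cut [q101581] ⟨c101581, trivial⟩ (nd (nat_lit 210) (nat_lit 0) (cs (lf (nat_lit 34) (nat_lit 209)) (rf (nat_lit 0)))) q101582 (by decide +kernel)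
def q101587 : Q := Q.p (nat_lit 0x800002000008000000000000000000000000000000000000000000000000000000000) (nat_lit 0x1000006000010000000000140000700001c0000500000000000000000000000000000000000000000) (nat_lit 5)
theorem c101587 : QOK q101587 := cut [q52527, q81901, q101586] ⟨c52527, c81901, c101586, trivial⟩ (nd (nat_lit 209) (nat_lit 0) (cs (rf (nat_lit 0)) (cs (rf (nat_lit 1)) (rf (nat_lit 2))))) q101587 (by decide +kernel)
def q101647 : Q := Q.p (nat_lit 0xc0000200000c000000000000000000000000000000000000000000000000000000000) (nat_lit 0x5000010000000000020001f0000140000000000000000000000000000000000000000000000) (nat_lit 6)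
theorem c101647 : QOK q101647 := cut [q1402] ⟨c1402, trivial⟩ (nd (nat_lit 209) (nat_lit 0) (cs (lf (nat_lit 41) (nat_lit 208)) (nd (nat_lit 276) (nat_lit 0) (cs (lf (nat_lit 29) (nat_lit 209)) (nd (nat_lit 208) (nat_lit 0) (cs (lf (nat_lit 47) (nat_lit 186)) (rf (nat_lit 0)))))))) q101647 (by decide +kernel)
def q101654 : Q := Q.p (nat_lit 0x30000080000100000c000000000000000000000000000000000000000000000000000000000) (nat_lit 0x200000c0003400000000000000020000000000000000000000000000000000000000000000000000) (nat_lit 4)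
theorem c101654 : QOK q101654 := cut [q89453] ⟨c89453, trivial⟩ (nd (nat_lit 274) (nat_lit 0) (cs (lf (nat_lit 35) (nat_lit 208)) (rf (nat_lit 0)))) q101654 (by decide +kernel)
def q101684 : Q := Q.p (nat_lit 0xc0000200000c000000000000000000000000000000000000000000000000000000000) (nat_lit 0xc000138001df00013000030000040000100000000000000000000000000000000000000000) (nat_lit 7)
theorem c101684 : QOK q101684 := cut [q97408, q97409, q101640, q53050, q81812] ⟨c97408, c97409, c101640, c53050, c81812, trivial⟩ (nd (nat_lit 273) (nat_lit 0) (cs (rf (nat_lit 0)) (cs (rf (nat_lit 1)) (cs (rf (nat_lit 2)) (nd (nat_lit 250) (nat_lit 0) (cs (rf (nat_lit 3)) (cs (nd (nat_lit 272) (nat_lit 0) (cs (lf (nat_lit 23) (nat_lit 249)) (nd (nat_lit 252) (nat_lit 0) (cs (lf (nat_lit 12) (nat_lit 249)) (rf (nat_lit 4)))))) (nd (nat_lit 251) (nat_lit 0) (cs (lf (nat_lit 18) (nat_lit 250)) (nd (nat_lit 232) (nat_lit 0) (cs (lf (nat_lit 14) (nat_lit 228)) (lf (nat_lit 9) (nat_lit 228))))))))))))) q101684 (by decide +kernel)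
def q101731 : Q := Q.p (nat_lit 0x1c00002000000000000000000000000000000000000000000000000000000000000000) (nat_lit 0x20000180000230001dc00010000040000000000000000000000000000000000000000000000000000) (nat_lit 7)
theorem c101731 : QOK q101731 := cut [q96661, q101728] ⟨c96661, c101728, trivial⟩ (nd (nat_lit 251) (nat_lit 0) (cs (rf (nat_lit 0)) (cs (nd (nat_lit 277) (nat_lit 0) (cs (lf (nat_lit 22) (nat_lit 251)) (rf (nat_lit 1)))) (nd (nat_lit 252) (nat_lit 0) (cs (lf (nat_lit 0) (nat_lit 250)) (lf (nat_lit 18) (nat_lit 251))))))) q101731 (by decide +kernel)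
def q101738 : Q := Q.p (nat_lit 0x300000800002000008000020000000000000000000000000000000000000000000000000000) (nat_lit 0x200000800004c0003000005c00004000000000080000000000000000000000000000000000000000000000) (nat_lit 7)
theorem c101738 : QOK q101738 := cut [q101734] ⟨c101734, trivial⟩ (nd (nat_lit 276) (nat_lit 0) (cs (lf (nat_lit 29) (nat_lit 209)) (nd (nat_lit 294) (nat_lit 0) (cs (lf (nat_lit 13) (nat_lit 272)) (nd (nat_lit 254) (nat_lit 0) (cs (lf (nat_lit 24) (nat_lit 187)) (nd (nat_lit 319) (nat_lit 0) (cs (lf (nat_lit 30) (nat_lit 253)) (rf (nat_lit 0)))))))))) q101738 (by decide +kernel)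
def q101800 : Q := Q.p (nat_lit 0x2000038000000000000000000000000000000000000000000000000000000000) (nat_lit 0x7c0000c4000780000000000000000000000000000000000000000000000000000) (nat_lit 5)
theorem c101800 : QOK q101800 := cut [q96981, q97443, q101799] ⟨c96981, c97443, c101799, trivial⟩ (nd (nat_lit 234) (nat_lit 0) (cs (rf (nat_lit 0)) (cs (rf (nat_lit 1)) (rf (nat_lit 2))))) q101800 (by decide +kernel)
def q101804 : Q := Q.p (nat_lit 0x2000038000000000000000000000000000000000000000000000000000000000) (nat_lit 0x50003c40003c0000000000000000000000000000000000000000000000000000) (nat_lit 6)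
theorem c101804 : QOK q101804 := cut [q101803] ⟨c101803, trivial⟩ (nd (nat_lit 234) (nat_lit 0) (cs (lf (nat_lit 11) (nat_lit 230)) (rf (nat_lit 0)))) q101804 (by decide +kernel)
def q101853 : Q := Q.p (nat_lit 0x7800018000000000000000000000000000000000000000000000000000000000) (nat_lit 0x40000800000700000c000020000080000000000000000000000000000000000000000) (nat_lit 5)
theorem c101853 : QOK q101853 := cut [q81735] ⟨c81735, trivial⟩ (nd (nat_lit 229) (nat_lit 0) (cs (lf (nat_lit 23) (nat_lit 228)) (nd (nat_lit 230) (nat_lit 0) (cs (lf (nat_lit 18) (nat_lit 229)) (rf (nat_lit 0)))))) q101853 (by decide +kernel)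
def q101895 : Q := Q.p (nat_lit 0x6000038000040000000000000000000000000000000000000000000000000000) (nat_lit 0x10000300000c4000380000200000800000000000000000000000000000000000000000) (nat_lit 6)
theorem c101895 : QOK q101895 := cut [q101893] ⟨c101893, trivial⟩ (nd (nat_lit 234) (nat_lit 0) (cs (lf (nat_lit 6) (nat_lit 231)) (nd (nat_lit 256) (nat_lit 0) (cs (lf (nat_lit 5) (nat_lit 231)) (rf (nat_lit 0)))))) q101895 (by decide +kernel)
def q102017 : Q := Q.p (nat_lit 0x2000008000060000000000000000000000000000000000000000000000000000) (nat_lit 0x600001800000000006000190000140000000000000000000000000000000000000000000000) (nat_lit 6)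
theorem c102017 : QOK q102017 := cut [q96707] ⟨c96707, trivial⟩ (nd (nat_lit 275) (nat_lit 0) (cs (lf (nat_lit 35) (nat_lit 187)) (nd (nat_lit 276) (nat_lit 0) (cs (lf (nat_lit 29) (nat_lit 209)) (rf (nat_lit 0)))))) q102017 (by decide +kernel)
def q102019 : Q := Q.p (nat_lit 0x80000e0000000000000000000000000000000000000000000000000000) (nat_lit 0x100001d0000f10000f00000800002000000000000000000000000000000000000) (nat_lit 6)
theorem c102019 : QOK q102019 := cut [q10382, q84303, q84323] ⟨c10382, c84303, c84323, trivial⟩ (nd (nat_lit 212) (nat_lit 0) (cs (rf (nat_lit 0)) (cs (rf (nat_lit 1)) (rf (nat_lit 2))))) q102019 (by decide +kernel)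
def q102037 : Q := Q.p (nat_lit 0x2000008000020000100000000000000000000000000000000000000000000000) (nat_lit 0x100001c0000700001800001000004000050000000000000000000000000000000000000000000000000000) (nat_lit 7)
theorem c102037 : QOK q102037 := cut [q102036] ⟨c102036, trivial⟩ (nd (nat_lit 275) (nat_lit 0) (cs (lf (nat_lit 34) (nat_lit 187)) (rf (nat_lit 0)))) q102037 (by decide +kernel)
def q102102 : Q := Q.p (nat_lit 0xc000020000080000000000000000000000000000000000000000000000000000) (nat_lit 0x1000000000000000000000700001c00005000000000000000000000000000000000000) (nat_lit 5)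
theorem c102102 : QOK q102102 := cut [q57688] ⟨c57688, trivial⟩ (nd (nat_lit 189) (nat_lit 0) (cs (rf (nat_lit 0)) (lf (nat_lit 41) (nat_lit 188)))) q102102 (by decide +kernel)
def q102142 : Q := Q.p (nat_lit 0x200000c000030000000000000000000000000000000000000000000000000000) (nat_lit 0x8000080000700001ce000738000400001000000000000000000000000000000000000) (nat_lit 7)
theorem c102142 : QOK q102142 := cut [q1399, q7464, q85148] ⟨c1399, c7464, c85148, trivial⟩ (nd (nat_lit 210) (nat_lit 0) (cs (rf (nat_lit 0)) (cs (rf (nat_lit 1)) (rf (nat_lit 2))))) q102142 (by decide +kernel)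
def q102193 : Q := Q.p (nat_lit 0xc0000340000d800000000000000000000000000000000000000000000000000000000) (nat_lit 0x180000640000300000000000000006000008000020000000000000000000000000000000000000000) (nat_lit 6)
theorem c102193 : QOK q102193 := cut [q41236] ⟨c41236, trivial⟩ (nd (nat_lit 297) (nat_lit 0) (cs (lf (nat_lit 42) (nat_lit 230)) (nd (nat_lit 298) (nat_lit 0) (cs (lf (nat_lit 29) (nat_lit 231)) (nd (nat_lit 272) (nat_lit 0) (cs (lf (nat_lit 1) (nat_lit 272)) (rf (nat_lit 0)))))))) q102193 (by decide +kernel)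
def q102212 : Q := Q.p (nat_lit 0xc0000300000d000000000000000000000000000000000000000000000000000000000) (nat_lit 0x190001e40000380004e0000200002e000080000000000000000000000000000000000000000000000) (nat_lit 11)
theorem c102212 : QOK q102212 := cut [q102206] ⟨c102206, trivial⟩ (nd (nat_lit 187) (nat_lit 0) (cs (lf (nat_lit 37) (nat_lit 186)) (nd (nat_lit 297) (nat_lit 0) (cs (lf (nat_lit 42) (nat_lit 230)) (nd (nat_lit 298) (nat_lit 0) (cs (lf (nat_lit 29) (nat_lit 231)) (nd (nat_lit 299) (nat_lit 0) (cs (lf (nat_lit 18) (nat_lit 274)) (nd (nat_lit 272) (nat_lit 0) (cs (lf (nat_lit 1) (nat_lit 272)) (nd (nat_lit 229) (nat_lit 0) (cs (lf (nat_lit 5) (nat_lit 228)) (rf (nat_lit 0)))))))))))))) q102212 (by decide +kernel)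
def q102227 : Q := Q.p (nat_lit 0x7800008000000000000000000000000000000000000000000000000000000000) (nat_lit 0x100000400003800000000000000020000080000000000000000000000000000000000000000000000) (nat_lit 4)
theorem c102227 : QOK q102227 := cut [q80905] ⟨c80905, trivial⟩ (nd (nat_lit 276) (nat_lit 0) (cs (lf (nat_lit 5) (nat_lit 251)) (rf (nat_lit 0)))) q102227 (by decide +kernel)
def q102287 : Q := Q.p (nat_lit 0x3000008000020000100000000000000000000000000000000000000000000000) (nat_lit 0x1000004000014000000000080000600000000000000000000000000000000000000000) (nat_lit 4)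
theorem c102287 : QOK q102287 := cut [q91186] ⟨c91186, trivial⟩ (nd (nat_lit 187) (nat_lit 0) (cs (lf (nat_lit 35) (nat_lit 165)) (rf (nat_lit 0)))) q102287 (by decide +kernel)
def q102292 : Q := Q.p (nat_lit 0x3800006000000000000000000000000000000000000000000000000000000000) (nat_lit 0x2000008000030000c000000000010000000000000000000000000000000000000000000000000000) (nat_lit 4)
theorem c102292 : QOK q102292 := cut [q91339] ⟨c91339, trivial⟩ (nd (nat_lit 254) (nat_lit 0) (cs (lf (nat_lit 18) (nat_lit 229)) (rf (nat_lit 0)))) q102292 (by decide +kernel)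
def q102310 : Q := Q.p (nat_lit 0x800002000008000020000000000000000000000000000000000000000000000000000) (nat_lit 0x100001c0000700001000004000010000040000000000000000000000000000000000000000000000000000) (nat_lit 6)
theorem c102310 : QOK q102310 := cut [q97592] ⟨c97592, trivial⟩ (nd (nat_lit 298) (nat_lit 0) (cs (lf (nat_lit 28) (nat_lit 209)) (nd (nat_lit 297) (nat_lit 0) (cs (lf (nat_lit 29) (nat_lit 231)) (rf (nat_lit 0)))))) q102310 (by decide +kernel)
def q102388 : Q := Q.p (nat_lit 0x800002000008000020000000000000000000000000000000000000000000000000000) (nat_lit 0x400001c0000700000400004000010000040000000000000000000000000000000000000000000000000000) (nat_lit 6)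
theorem c102388 : QOK q102388 := cut [q98797] ⟨c98797, trivial⟩ (nd (nat_lit 296) (nat_lit 0) (cs (lf (nat_lit 40) (nat_lit 208)) (nd (nat_lit 297) (nat_lit 0) (cs (lf (nat_lit 41) (nat_lit 230)) (rf (nat_lit 0)))))) q102388 (by decide +kernel)
def q102401 : Q := Q.p (nat_lit 0x80000200001c000000000000000000000000000000000000000000000000000000000) (nat_lit 0x20000000000000002200001e000000000000000000000000000000000000000000000000000) (nat_lit 4)
theorem c102401 : QOK q102401 := cut [q7954] ⟨c7954, trivial⟩ (nd (nat_lit 208) (nat_lit 0) (cs (lf (nat_lit 42) (nat_lit 208)) (rf (nat_lit 0)))) q102401 (by decide +kernel)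
def q102402 : Q := Q.p (nat_lit 0x200001c000000000000000000000000000000000000000000000000000000000) (nat_lit 0x3dc00062000380000000000000000000000000000000000000000000000000000) (nat_lit 5)
theorem c102402 : QOK q102402 := cut [q7975, q101513, q102086] ⟨c7975, c101513, c102086, trivial⟩ (nd (nat_lit 233) (nat_lit 0) (cs (rf (nat_lit 0)) (cs (rf (nat_lit 1)) (rf (nat_lit 2))))) q102402 (by decide +kernel)
def q102411 : Q := Q.p (nat_lit 0x800002000008000020000000000000000000000000000000000000000000000000000) (nat_lit 0x80000200000400001000004000050000180000600000000000000000000000000000000000000000) (nat_lit 6)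
theorem c102411 : QOK q102411 := cut [q91178] ⟨c91178, trivial⟩ (nd (nat_lit 188) (nat_lit 0) (cs (lf (nat_lit 34) (nat_lit 187)) (nd (nat_lit 187) (nat_lit 0) (cs (lf (nat_lit 35) (nat_lit 165)) (nd (nat_lit 252) (nat_lit 0) (cs (lf (nat_lit 41) (nat_lit 186)) (rf (nat_lit 0)))))))) q102411 (by decide +kernel)
def q102506 : Q := Q.p (nat_lit 0x200003c000040000000000000000000000000000000000000000000000000000) (nat_lit 0x400001b8000160000500000000000000000000000000000000000000000) (nat_lit 6)
theorem c102506 : QOK q102506 := cut [q102505] ⟨c102505, trivial⟩ (nd (nat_lit 166) (nat_lit 0) (cs (lf (nat_lit 37) (nat_lit 165)) (rf (nat_lit 0)))) q102506 (by decide +kernel)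
def q102535 : Q := Q.p (nat_lit 0x2000038000000000000000000000000000000000000000000000000000000000) (nat_lit 0x39000044000038000000000000000000000000000000000000000000000000000) (nat_lit 5)
theorem c102535 : QOK q102535 := cut [q102534] ⟨c102534, trivial⟩ (nd (nat_lit 234) (nat_lit 0) (cs (lf (nat_lit 11) (nat_lit 230)) (rf (nat_lit 0)))) q102535 (by decide +kernel)
def q102578 : Q := Q.p (nat_lit 0x2000038000010000000000000000000000000000000000000000000000000000) (nat_lit 0x800000000044000020000040000100000400000000000000000000000000000000000) (nat_lit 4)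
theorem c102578 : QOK q102578 := cut [q1563] ⟨c1563, trivial⟩ (nd (nat_lit 209) (nat_lit 0) (cs (rf (nat_lit 0)) (lf (nat_lit 18) (nat_lit 208)))) q102578 (by decide +kernel)
def q102616 : Q := Q.p (nat_lit 0x300000c000060000000000000000000000000000000000000000000000000000) (nat_lit 0x100002400018800070000198000720000400000000000000000000000000000000000000000) (nat_lit 7)
theorem c102616 : QOK q102616 := cut [q83746, q102612] ⟨c83746, c102612, trivial⟩ (nd (nat_lit 233) (nat_lit 0) (cs (nd (nat_lit 232) (nat_lit 0) (cs (lf (nat_lit 6) (nat_lit 230)) (lf (nat_lit 11) (nat_lit 229)))) (cs (nd (nat_lit 274) (nat_lit 0) (cs (lf (nat_lit 30) (nat_lit 208)) (nd (nat_lit 211) (nat_lit 0) (cs (lf (nat_lit 6) (nat_lit 208)) (nd (nat_lit 208) (nat_lit 0) (cs (lf (nat_lit 5) (nat_lit 208)) (rf (nat_lit 0)))))))) (nd (nat_lit 211) (nat_lit 0) (cs (lf (nat_lit 6) (nat_lit 208)) (nd (nat_lit 232) (nat_lit 0) (cs (lf (nat_lit 11) (nat_lit 229)) (nd (nat_lit 207) (nat_lit 0) (cs (lf (nat_lit 22) (nat_lit 207)) (rf (nat_lit 1))))))))))) q102616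 (by decide +kernel)
def q102653 : Q := Q.p (nat_lit 0x300003c000020000000000000000000000000000000000000000000000000000) (nat_lit 0x1d8000060000180000000000000000000000000000000000000000) (nat_lit 5)
theorem c102653 : QOK q102653 := cut [q102651] ⟨c102651, trivial⟩ (nd (nat_lit 211) (nat_lit 0) (cs (lf (nat_lit 17) (nat_lit 208)) (nd (nat_lit 208) (nat_lit 0) (cs (lf (nat_lit 23) (nat_lit 207)) (rf (nat_lit 0)))))) q102653 (by decide +kernel)
def q102734 : Q := Q.p (nat_lit 0x200003c000000000000000000000000000000000000000000000000000000000) (nat_lit 0x200000800000000000000038000040000100000000000000000000000000000000000000000) (nat_lit 4)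
theorem c102734 : QOK q102734 := cut [q98012] ⟨c98012, trivial⟩ (nd (nat_lit 208) (nat_lit 0) (cs (lf (nat_lit 23) (nat_lit 207)) (rf (nat_lit 0)))) q102734 (by decide +kernel)
def q102740 : Q := Q.p (nat_lit 0x2000038000000000000000000000000000000000000000000000000000000000) (nat_lit 0x40000740000c4000780000200000800000000000000000000000000000000000000000) (nat_lit 6)
theorem c102740 : QOK q102740 := cut [q97095, q97306, q97443] ⟨c97095, c97306, c97443, trivial⟩ (nd (nat_lit 234) (nat_lit 0) (cs (rf (nat_lit 0)) (cs (rf (nat_lit 1)) (rf (nat_lit 2))))) q102740 (by decide +kernel)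
def q102743 : Q := Q.p (nat_lit 0x2000038000000000000000000000000000000000000000000000000000000000) (nat_lit 0x200000800019c000060001dc000040000000000000000000000000000000000000000000000) (nat_lit 6)
theorem c102743 : QOK q102743 := cut [q22592, q97301, q102733] ⟨c22592, c97301, c102733, trivial⟩ (nd (nat_lit 230) (nat_lit 0) (cs (rf (nat_lit 0)) (cs (rf (nat_lit 1)) (rf (nat_lit 2))))) q102743 (by decide +kernel)
def q102748 : Q := Q.p (nat_lit 0x2000038000000000000000000000000000000000000000000000000000000000) (nat_lit 0x3d0000c700001c000000000000000000000000000000000000000000000000000) (nat_lit 7)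
theorem c102748 : QOK q102748 := cut [q102746] ⟨c102746, trivial⟩ (nd (nat_lit 234) (nat_lit 0) (cs (lf (nat_lit 11) (nat_lit 230)) (nd (nat_lit 256) (nat_lit 0) (cs (lf (nat_lit 5) (nat_lit 231)) (rf (nat_lit 0)))))) q102748 (by decide +kernel)
def q102752 : Q := Q.p (nat_lit 0x200000800002000018000000000000000000000000000000000000000000000000000000000) (nat_lit 0x1800004000010000040000000000300000c0000300000000000000000000000000000000000000000) (nat_lit 6)
theorem c102752 : QOK q102752 := cut [q94235] ⟨c94235, trivial⟩ (nd (nat_lit 298) (nat_lit 0) (cs (lf (nat_lit 29) (nat_lit 231)) (nd (nat_lit 254) (nat_lit 0) (cs (lf (nat_lit 30) (nat_lit 231)) (nd (nat_lit 209) (nat_lit 0) (cs (lf (nat_lit 43) (nat_lit 209)) (rf (nat_lit 0)))))))) q102752 (by decide +kernel)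
def q102781 : Q := Q.p (nat_lit 0x2000038000000000000000000000000000000000000000000000000000000000) (nat_lit 0x740001dc000060001fc0001e0000780000000000000000000000000000000000000000) (nat_lit 13)
theorem c102781 : QOK q102781 := cut [q22592, q102731, q102733] ⟨c22592, c102731, c102733, trivial⟩ (nd (nat_lit 230) (nat_lit 0) (cs (rf (nat_lit 0)) (cs (rf (nat_lit 1)) (cs (rf (nat_lit 2)) (nd (nat_lit 252) (nat_lit 0) (cs (lf (nat_lit 11) (nat_lit 229)) (nd (nat_lit 208) (nat_lit 0) (cs (lf (nat_lit 23) (nat_lit 207)) (nd (nat_lit 255) (nat_lit 0) (cs (lf (nat_lit 5) (nat_lit 230)) (nd (nat_lit 186) (nat_lit 0) (cs (lf (nat_lit 24) (nat_lit 164)) (nd (nat_lit 211) (nat_lit 0) (cs (lf (nat_lit 17) (nat_lit 208)) (nd (nat_lit 163) (nat_lit 0) (cs (lf (nat_lit 46) (nat_lit 163)) (nd (nat_lit 187) (nat_lit 0) (cs (lf (nat_lit 35) (nat_lit 164)) (nd (nat_lit 209) (nat_lit 0) (cs (lf (nat_lit 41) (nat_lit 186)) (nd (nat_lit 254) (nat_lit 0) (cs (lf (nat_lit 29) (nat_lit 187)) (nd (nat_lit 277) (nat_lit 0) (cs (lf (nat_lit 5) (nat_lit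 252)) (nd (nat_lit 188) (nat_lit 0) (cs (lf (nat_lit 35) (nat_lit 165)) (lf (nat_lit 46) (nat_lit 188)))))))))))))))))))))))))))) q102781 (by decide +kernel)
def q102805 : Q := Q.p (nat_lit 0x6000010000040000000000000000000000000000000000000000000000000000) (nat_lit 0x2800008000020000000000300000c00002000000000000000000000000000000000000) (nat_lit 5)
theorem c102805 : QOK q102805 := cut [q102804] ⟨c102804, trivial⟩ (nd (nat_lit 188) (nat_lit 0) (cs (lf (nat_lit 41) (nat_lit 187)) (rf (nat_lit 0)))) q102805 (by decide +kernel)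
def q102820 : Q := Q.p (nat_lit 0x1000006000010000040000000000000000000000000000000000000000000000000000) (nat_lit 0xbc000ef00038000000000080000200000000000000000000000000000000000000000000000) (nat_lit 9)
theorem c102820 : QOK q102820 := cut [q79444] ⟨c79444, trivial⟩ (nd (nat_lit 277) (nat_lit 0) (cs (lf (nat_lit 29) (nat_lit 210)) (nd (nat_lit 278) (nat_lit 0) (cs (lf (nat_lit 18) (nat_lit 253)) (nd (nat_lit 275) (nat_lit 0) (cs (lf (nat_lit 41) (nat_lit 209)) (nd (nat_lit 189) (nat_lit 0) (cs (lf (nat_lit 34) (nat_lit 188)) (rf (nat_lit 0)))))))))) q102820 (by decide +kernel)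
def q102826 : Q := Q.p (nat_lit 0x4000010000040000100000000000000000000000000000000000000000000000) (nat_lit 0x1000000000000000030000e80000a00000000000000000000000000000000000000000) (nat_lit 5)
theorem c102826 : QOK q102826 := cut [q80924] ⟨c80924, trivial⟩ (nd (nat_lit 187) (nat_lit 0) (cs (lf (nat_lit 47) (nat_lit 165)) (nd (nat_lit 209) (nat_lit 0) (cs (lf (nat_lit 42) (nat_lit 187)) (rf (nat_lit 0)))))) q102826 (by decide +kernel)
def q102838 : Q := Q.p (nat_lit 0x4000010000040000080000000000000000000000000000000000000000000000) (nat_lit 0x200000c000030000000000200000a0000200000000000000000000000000000000000000000000000) (nat_lit 5)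
theorem c102838 : QOK q102838 := cut [q102832] ⟨c102832, trivial⟩ (nd (nat_lit 276) (nat_lit 0) (cs (lf (nat_lit 46) (nat_lit 187)) (rf (nat_lit 0)))) q102838 (by decide +kernel)
def q102854 : Q := Q.p (nat_lit 0x40000f000010000000000000000000000000000000000000000000000000000000000) (nat_lit 0x1c800070000060000000000000000000000000000000000000000000000000000000000) (nat_lit 5)
theorem c102854 : QOK q102854 := cut [q85969] ⟨c85969, trivial⟩ (nd (nat_lit 233) (nat_lit 0) (cs (lf (nat_lit 17) (nat_lit 230)) (rf (nat_lit 0)))) q102854 (by decide +kernel)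
def q102865 : Q := Q.p (nat_lit 0x7000002000000000000000000000000000000000000000000000000000000000) (nat_lit 0xee00018000004000000000000000000000000000000000000000000000000000000000) (nat_lit 5)
theorem c102865 : QOK q102865 := cut [q102864] ⟨c102864, trivial⟩ (nd (nat_lit 255) (nat_lit 0) (cs (lf (nat_lit 22) (nat_lit 229)) (rf (nat_lit 0)))) q102865 (by decide +kernel)
def q102915 : Q := Q.p (nat_lit 0x1800007000000000000000000000000000000000000000000000000000000000000000) (nat_lit 0x400038c00007000000000000000000000000000000000000000000000000000000000) (nat_lit 5)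
theorem c102915 : QOK q102915 := cut [q102914] ⟨c102914, trivial⟩ (nd (nat_lit 251) (nat_lit 0) (cs (lf (nat_lit 0) (nat_lit 250)) (rf (nat_lit 0)))) q102915 (by decide +kernel)
def q102931 : Q := Q.p (nat_lit 0x1000006000010000040000000000000000000000000000000000000000000000000000) (nat_lit 0x80000e0000380000e000008000000000000000a0000280000000000000000000000000000000000000000000000) (nat_lit 8)
theorem c102931 : QOK q102931 := cut [q80333, q102927] ⟨c80333, c102927, trivial⟩ (nd (nat_lit 298) (nat_lit 0) (cs (rf (nat_lit 0)) (cs (nd (nat_lit 187) (nat_lit 0) (cs (lf (nat_lit 46) (nat_lit 187)) (nd (nat_lit 189) (nat_lit 0) (cs (lf (nat_lit 34) (nat_lit 188)) (nd (nat_lit 321) (nat_lit 0) (cs (lf (nat_lit 28) (nat_lit 232)) (nd (nat_lit 320) (nat_lit 0) (cs (lf (nat_lit 29) (nat_lit 254)) (nd (nat_lit 342) (nat_lit 0) (cs (lf (nat_lit 46) (nat_lit 253)) (nd (nat_lit 341) (nat_lit 0) (cs (lf (nat_lit 41) (nat_lit 275)) (lf (nat_lit 40) (nat_lit 253)))))))))))))) (cs (nd (nat_lit 321) (nat_lit 0) (cs (lf (nat_lit 28) (nat_lit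 232)) (nd (nat_lit 187) (nat_lit 0) (cs (lf (nat_lit 46) (nat_lit 187)) (nd (nat_lit 320) (nat_lit 0) (cs (lf (nat_lit 29) (nat_lit 254)) (nd (nat_lit 275) (nat_lit 0) (cs (lf (nat_lit 42) (nat_lit 253)) (lf (nat_lit 41) (nat_lit 209)))))))))) (nd (nat_lit 187) (nat_lit 0) (cs (lf (nat_lit 46) (nat_lit 187)) (nd (nat_lit 319) (nat_lit 0) (cs (lf (nat_lit 40) (nat_lit 231)) (nd (nat_lit 189) (nat_lit 0) (cs (lf (nat_lit 34) (nat_lit 188)) (rf (nat_lit 1)))))))))))) q102931 (by decide +kernel)
def q102978 : Q := Q.p (nat_lit 0xf000010000000000000000000000000000000000000000000000000000000000) (nat_lit 0x1c6000700003e6000000000000000000000000000000000000000000000000000000000) (nat_lit 8)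
theorem c102978 : QOK q102978 := cut [q80860, q81918, q80456] ⟨c80860, c81918, c80456, trivial⟩ (nd (nat_lit 256) (nat_lit 0) (cs (rf (nat_lit 0)) (cs (nd (nat_lit 229) (nat_lit 0) (cs (lf (nat_lit 22) (nat_lit 229)) (nd (nat_lit 273) (nat_lit 0) (cs (lf (nat_lit 10) (nat_lit 251)) (nd (nat_lit 279) (nat_lit 0) (cs (lf (nat_lit 4) (nat_lit 253)) (nd (nat_lit 257) (nat_lit 0) (cs (lf (nat_lit 5) (nat_lit 254)) (rf (nat_lit 1)))))))))) (cs (nd (nat_lit 233) (nat_lit 0) (cs (lf (nat_lit 17) (nat_lit 230)) (nd (nat_lit 257) (nat_lit 0) (cs (lf (nat_lit 18) (nat_lit 232)) (rf (nat_lit 2)))))) (nd (nat_lit 235) (nat_lit 0) (cs (lf (nat_lit 16) (nat_lit 231)) (nd (nat_lit 229) (nat_lit 0) (cs (lf (nat_lit 22) (nat_lit 229)) (nd (nat_lit 257) (nat_lit 0) (cs (lf (nat_lit 17) (nat_lit 232)) (rf (nat_lit 2)))))))))))) q102978 (by decide +kernel)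
def q103055 : Q := Q.p (nat_lit 0x6000030000040000000000000000000000000000000000000000000000000000) (nat_lit 0x80000380000e000018000080000c00000b0000280000000000000000000000000000000000000000000000) (nat_lit 6)
theorem c103055 : QOK q103055 := cut [q92274, q103014, q79946] ⟨c92274, c103014, c79946, trivial⟩ (nd (nat_lit 276) (nat_lit 0) (cs (rf (nat_lit 0)) (cs (rf (nat_lit 1)) (nd (nat_lit 234) (nat_lit 0) (cs (lf (nat_lit 6) (nat_lit 231)) (nd (nat_lit 275) (nat_lit 0) (cs (lf (nat_lit 41) (nat_lit 209)) (nd (nat_lit 211) (nat_lit 0) (cs (lf (nat_lit 35) (nat_lit 188)) (rf (nat_lit 2))))))))))) q103055 (by decide +kernel)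
def q103132 : Q := Q.p (nat_lit 0x800002000008000020000000000000000000000000000000000000000000000000000) (nat_lit 0x500001400001000000000040000180000400000000000000000000000000000000000000000) (nat_lit 5)
theorem c103132 : QOK q103132 := cut [q96312] ⟨c96312, trivial⟩ (nd (nat_lit 276) (nat_lit 0) (cs (lf (nat_lit 29) (nat_lit 209)) (rf (nat_lit 0)))) q103132 (by decide +kernel)
def q103153 : Q := Q.p (nat_lit 0x38000000000000000000000000000000000000000000000000000000000) (nat_lit 0x780000c40007b8000000000000000000000000000000000000000000000000000) (nat_lit 5)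
theorem c103153 : QOK q103153 := cut [q102534, q103107, q103152] ⟨c102534, c103107, c103152, trivial⟩ (nd (nat_lit 234) (nat_lit 0) (cs (rf (nat_lit 0)) (cs (rf (nat_lit 1)) (rf (nat_lit 2))))) q103153 (by decide +kernel)
def q103273 : Q := Q.p (nat_lit 0x2000018000000000000000000000000000000000000000000000000000000000) (nat_lit 0x800002400079c000e60007fc0007e0001f80006000000000000000000000000000000000000) (nat_lit 15)
theorem c103273 : QOK q103273 := cut [q103108, q103128, q103129, q22592, q102731, q102733, q10759, q103267] ⟨c103108, c103128, c103129, c22592, c102731, c102733, c10759, c103267, trivial⟩ (nd (nat_lit 233) (nat_lit 0) (cs (rf (nat_lit 0)) (cs (rf (nat_lit 1)) (cs (rf (nat_lit 2)) (nd (nat_lit 230) (nat_lit 0) (cs (rf (nat_lit 3)) (cs (rf (nat_lit 4)) (cs (rf (nat_lit 5)) (nd (nat_lit 252) (nat_lit 0) (cs (rf (nat_lit 6)) (nd (nat_lit 255) (nat_lit 0) (cs (lf (nat_lit 5) (nat_lit 230)) (nd (nat_lit 208) (nat_lit 0) (cs (lf (nat_lit 23) (nat_lit 207)) (nd (nat_lit 211) (nat_lit 0) (cs (lf (nat_lit 17) (nat_lit 208))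 (rf (nat_lit 7)))))))))))))))))) q103273 (by decide +kernel)
def q103281 : Q := Q.p (nat_lit 0x3c000040000000000000000000000000000000000000000000000000000) (nat_lit 0x1c0000300002e000000000000000000000000000000000000000000000000000) (nat_lit 5)
theorem c103281 : QOK q103281 := cut [q103279] ⟨c103279, trivial⟩ (nd (nat_lit 251) (nat_lit 0) (cs (lf (nat_lit 10) (nat_lit 229)) (nd (nat_lit 229) (nat_lit 0) (cs (lf (nat_lit 11) (nat_lit 228)) (rf (nat_lit 0)))))) q103281 (by decide +kernel)
def q103348 : Q := Q.p (nat_lit 0x800006000018000000000000000000000000000000000000000000000000000000000) (nat_lit 0x1c0000700000000008000007000010000000000000000000000000000000000000000000000000000) (nat_lit 6)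
theorem c103348 : QOK q103348 := cut [q80935] ⟨c80935, trivial⟩ (nd (nat_lit 297) (nat_lit 0) (cs (lf (nat_lit 30) (nat_lit 231)) (nd (nat_lit 298) (nat_lit 0) (cs (lf (nat_lit 29) (nat_lit 231)) (nd (nat_lit 296) (nat_lit 0) (cs (lf (nat_lit 41) (nat_lit 230)) (rf (nat_lit 0)))))))) q103348 (by decide +kernel)
def q103368 : Q := Q.p (nat_lit 0xe000038000000000000000000000000000000000000000000000000000000000) (nat_lit 0x1c000070000fc000300000000000a0000200000000000000000000000000000000000000000000000) (nat_lit 9)
theorem c103368 : QOK q103368 := cut [q103367] ⟨c103367, trivial⟩ (nd (nat_lit 256) (nat_lit 0) (cs (lf (nat_lit 18) (nat_lit 231)) (rf (nat_lit 0)))) q103368 (by decide +kernel)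
def q103424 : Q := Q.p (nat_lit 0xe000018000000000000000000000000000000000000000000000000000000000) (nat_lit 0xee000310000c0000000000000000000000000000000000000000000000000000000000) (nat_lit 6)
theorem c103424 : QOK q103424 := cut [q80685] ⟨c80685, trivial⟩ (nd (nat_lit 256) (nat_lit 0) (cs (lf (nat_lit 18) (nat_lit 231)) (nd (nat_lit 234) (nat_lit 0) (cs (lf (nat_lit 17) (nat_lit 231)) (rf (nat_lit 0)))))) q103424 (by decide +kernel)
def q103470 : Q := Q.p (nat_lit 0xe000018000000000000000000000000000000000000000000000000000000000) (nat_lit 0x80000e0000310000c0000100000400000000000000000000000000000000000000000000000) (nat_lit 6)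
theorem c103470 : QOK q103470 := cut [q103468] ⟨c103468, trivial⟩ (nd (nat_lit 256) (nat_lit 0) (cs (lf (nat_lit 18) (nat_lit 231)) (nd (nat_lit 234) (nat_lit 0) (cs (lf (nat_lit 17) (nat_lit 231)) (rf (nat_lit 0)))))) q103470 (by decide +kernel)
def q103603 : Q := Q.p (nat_lit 0xf000010000000000000000000000000000000000000000000000000000000000) (nat_lit 0xe0000700003a8000000000000000000000000000000000000000000000000000000000) (nat_lit 6)
theorem c103603 : QOK q103603 := cut [q103601] ⟨c103601, trivial⟩ (nd (nat_lit 278) (nat_lit 0) (cs (lf (nat_lit 4) (nat_lit 252)) (nd (nat_lit 256) (nat_lit 0) (cs (lf (nat_lit 5) (nat_lit 253)) (rf (nat_lit 0)))))) q103603 (by decide +kernel)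
def q103604 : Q := Q.p (nat_lit 0xc000034000000000000000000000000000000000000000000000000000000000) (nat_lit 0x1000010000008000180000200000800000000000000000000000000000000000000000) (nat_lit 4)
theorem c103604 : QOK q103604 := cut [q79237] ⟨c79237, trivial⟩ (nd (nat_lit 231) (nat_lit 0) (cs (lf (nat_lit 5) (nat_lit 230)) (rf (nat_lit 0)))) q103604 (by decide +kernel)
def q103610 : Q := Q.p (nat_lit 0xf000010000000000000000000000000000000000000000000000000000000000) (nat_lit 0xe00070000068000000000000000000000000000000000000000000000000000000000) (nat_lit 5)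
theorem c103610 : QOK q103610 := cut [q81141] ⟨c81141, trivial⟩ (nd (nat_lit 233) (nat_lit 0) (cs (lf (nat_lit 17) (nat_lit 230)) (rf (nat_lit 0)))) q103610 (by decide +kernel)
def q103644 : Q := Q.p (nat_lit 0x700001c000000000000000000000000000000000000000000000000000000000) (nat_lit 0x4000018000000000600001b80002c0000900000000000000000000000000000000000000000) (nat_lit 8)
theorem c103644 : QOK q103644 := cut [q79997] ⟨c79997, trivial⟩ (nd (nat_lit 233) (nat_lit 0) (cs (lf (nat_lit 6) (nat_lit 230)) (nd (nat_lit 211) (nat_lit 0) (cs (lf (nat_lit 17) (nat_lit 208)) (nd (nat_lit 167) (nat_lit 0) (cs (lf (nat_lit 37) (nat_lit 166)) (nd (nat_lit 276) (nat_lit 0) (cs (lf (nat_lit 30) (nat_lit 210)) (nd (nat_lit 187) (nat_lit 0) (cs (lf (nat_lit 25) (nat_lit 187)) (rf (nat_lit 0)))))))))))) q103644 (by decide +kernel)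
def q103734 : Q := Q.p (nat_lit 0xc000038000000000100000000000000000000000000000000000000000000000) (nat_lit 0x6000180000200000c00000000000000000000000000000000000000000) (nat_lit 4)
theorem c103734 : QOK q103734 := cut [q86745] ⟨c86745, trivial⟩ (nd (nat_lit 230) (nat_lit 0) (cs (lf (nat_lit 0) (nat_lit 229)) (rf (nat_lit 0)))) q103734 (by decide +kernel)
def q103781 : Q := Q.p (nat_lit 0x1000006000018000000000000000000000000000000000000000000000000000000000) (nat_lit 0x300000c000020000000000200000c0000200000000000000000000000000000000000000000000000) (nat_lit 5)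
theorem c103781 : QOK q103781 := cut [q103780] ⟨c103780, trivial⟩ (nd (nat_lit 298) (nat_lit 0) (cs (lf (nat_lit 42) (nat_lit 231)) (rf (nat_lit 0)))) q103781 (by decide +kernel)
def q103807 : Q := Q.p (nat_lit 0x1000006000018000000000000000000000000000000000000000000000000000000000) (nat_lit 0x380000f0000e000000000000000040000000000000000000000000000000000000000000000000000) (nat_lit 6)
theorem c103807 : QOK q103807 := cut [q103806] ⟨c103806, trivial⟩ (nd (nat_lit 298) (nat_lit 0) (cs (lf (nat_lit 42) (nat_lit 231)) (rf (nat_lit 0)))) q103807 (by decide +kernel)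
def q103812 : Q := Q.p (nat_lit 0x6000018000040000000000000000000000000000000000000000000000000000) (nat_lit 0x10000000000000000a00001f0000700000000000000000000000000000000000000000) (nat_lit 6)
theorem c103812 : QOK q103812 := cut [q84329] ⟨c84329, trivial⟩ (nd (nat_lit 188) (nat_lit 0) (cs (lf (nat_lit 36) (nat_lit 165)) (nd (nat_lit 187) (nat_lit 0) (cs (lf (nat_lit 47) (nat_lit 165)) (nd (nat_lit 209) (nat_lit 0) (cs (lf (nat_lit 29) (nat_lit 187)) (rf (nat_lit 0)))))))) q103812 (by decide +kernel)
def q103819 : Q := Q.p (nat_lit 0x6000018000060000000000000000000000000000000000000000000000000000) (nat_lit 0xc000030000180000e700039c000060000100000000000000000000000000000000000000000) (nat_lit 9)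
theorem c103819 : QOK q103819 := cut [q79307, q87114, q79322, q103232, q10546] ⟨c79307, c87114, c79322, c103232, c10546, trivial⟩ (nd (nat_lit 230) (nat_lit 0) (cs (rf (nat_lit 0)) (cs (rf (nat_lit 1)) (nd (nat_lit 233) (nat_lit 0) (cs (rf (nat_lit 2)) (cs (rf (nat_lit 3)) (nd (nat_lit 276) (nat_lit 0) (cs (lf (nat_lit 42) (nat_lit 209)) (nd (nat_lit 211) (nat_lit 0) (cs (lf (nat_lit 17) (nat_lit 208)) (nd (nat_lit 255) (nat_lit 0) (cs (lf (nat_lit 18) (nat_lit 230)) (nd (nat_lit 277) (nat_lit 0) (cs (lf (nat_lit 42) (nat_lit 210)) (nd (nat_lit 208) (nat_lit 0) (cs (lf (nat_lit 23) (nat_lit 207)) (rf (nat_lit 4)))))))))))))))))) q103819 (by decide +kernel)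
def q103856 : Q := Q.p (nat_lit 0x1e00000000000000000000000000000000000000000000000000000000000000000000) (nat_lit 0x400001c0002000000c00002000008000000000000000000000000000000000000000000000000000) (nat_lit 5)
theorem c103856 : QOK q103856 := cut [q97323] ⟨c97323, trivial⟩ (nd (nat_lit 251) (nat_lit 0) (cs (lf (nat_lit 23) (nat_lit 250)) (rf (nat_lit 0)))) q103856 (by decide +kernel)
def q103956 : Q := Q.p (nat_lit 0x6000018000060000000000000000000000000000000000000000000000000000) (nat_lit 0x300000c000000000000000100000c0000300000000000000000000000000000000000000000) (nat_lit 5)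
theorem c103956 : QOK q103956 := cut [q79467] ⟨c79467, trivial⟩ (nd (nat_lit 275) (nat_lit 0) (cs (lf (nat_lit 30) (nat_lit 209)) (nd (nat_lit 274) (nat_lit 0) (cs (lf (nat_lit 41) (nat_lit 208)) (rf (nat_lit 0)))))) q103956 (by decide +kernel)
def q103965 : Q := Q.p (nat_lit 0x4000010000060000000000000000000000000000000000000000000000000000) (nat_lit 0x600001800000000060000098000280000000000000000000000000000000000000000000000) (nat_lit 6)
theorem c103965 : QOK q103965 := cut [q79752] ⟨c79752, trivial⟩ (nd (nat_lit 276) (nat_lit 0) (cs (lf (nat_lit 47) (nat_lit 187)) (nd (nat_lit 275) (nat_lit 0) (cs (lf (nat_lit 41) (nat_lit 209)) (rf (nat_lit 0)))))) q103965 (by decide +kernel)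
def q103982 : Q := Q.p (nat_lit 0x6000018000060000000000000000000000000000000000000000000000000000) (nat_lit 0x700001e00018000000000000000000000000000000000000000000000000000000000000000) (nat_lit 5)
theorem c103982 : QOK q103982 := cut [q79290] ⟨c79290, trivial⟩ (nd (nat_lit 276) (nat_lit 0) (cs (lf (nat_lit 42) (nat_lit 209)) (nd (nat_lit 275) (nat_lit 0) (cs (lf (nat_lit 41) (nat_lit 209)) (rf (nat_lit 0)))))) q103982 (by decide +kernel)
def q103995 : Q := Q.p (nat_lit 0x6000018000060000000000000000000000000000000000000000000000000000) (nat_lit 0x300000f0001800000700001c000040000000000000000000000000000000000000000000000) (nat_lit 8)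
theorem c103995 : QOK q103995 := cut [q103990] ⟨c103990, trivial⟩ (nd (nat_lit 275) (nat_lit 0) (cs (lf (nat_lit 30) (nat_lit 209)) (nd (nat_lit 274) (nat_lit 0) (cs (lf (nat_lit 41) (nat_lit 208)) (nd (nat_lit 272) (nat_lit 0) (cs (lf (nat_lit 13) (nat_lit 250)) (nd (nat_lit 255) (nat_lit 0) (cs (lf (nat_lit 6) (nat_lit 252)) (nd (nat_lit 229) (nat_lit 0) (cs (lf (nat_lit 1) (nat_lit 229)) (rf (nat_lit 0)))))))))))) q103995 (by decide +kernel)
def q104008 : Q := Q.p (nat_lit 0x1000006000018000000000000000000000000000000000000000000000000000000000) (nat_lit 0x80000e0000018000040003e0000380000e00000000000000000000000000000000000000000) (nat_lit 8)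
theorem c104008 : QOK q104008 := cut [q79601, q103782, q79607] ⟨c79601, c103782, c79607, trivial⟩ (nd (nat_lit 210) (nat_lit 0) (cs (rf (nat_lit 0)) (cs (rf (nat_lit 1)) (nd (nat_lit 209) (nat_lit 0) (cs (lf (nat_lit 24) (nat_lit 187)) (nd (nat_lit 277) (nat_lit 0) (cs (lf (nat_lit 29) (nat_lit 210)) (nd (nat_lit 278) (nat_lit 0) (cs (lf (nat_lit 18) (nat_lit 253)) (nd (nat_lit 251) (nat_lit 0) (cs (rf (nat_lit 2)) (lf (nat_lit 1) (nat_lit 251))))))))))))) q104008 (by decide +kernel)
def q104068 : Q := Q.p (nat_lit 0x1800006000010000040000000000000000000000000000000000000000000000000000) (nat_lit 0x80000e000001000000000080000200000000000000000000000000000000000000000000000) (nat_lit 4)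
theorem c104068 : QOK q104068 := cut [q80713] ⟨c80713, trivial⟩ (nd (nat_lit 189) (nat_lit 0) (cs (lf (nat_lit 34) (nat_lit 188)) (rf (nat_lit 0)))) q104068 (by decide +kernel)
def q104112 : Q := Q.p (nat_lit 0x6000018000060000000000000000000000000000000000000000000000000000) (nat_lit 0xc0000f800001800000000000000000000000000000000000000000000000000000000000000) (nat_lit 5)
theorem c104112 : QOK q104112 := cut [q80278] ⟨c80278, trivial⟩ (nd (nat_lit 276) (nat_lit 0) (cs (lf (nat_lit 42) (nat_lit 209)) (rf (nat_lit 0)))) q104112 (by decide +kernel)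
def q104141 : Q := Q.p (nat_lit 0x200000800002000018000000000000000000000000000000000000000000000000000000000) (nat_lit 0x800000000010000040000040000300000c0000200000000000000000000000000000000000000000) (nat_lit 5)
theorem c104141 : QOK q104141 := cut [q100751] ⟨c100751, trivial⟩ (nd (nat_lit 208) (nat_lit 0) (cs (lf (nat_lit 46) (nat_lit 208)) (rf (nat_lit 0)))) q104141 (by decide +kernel)
def q104166 : Q := Q.p (nat_lit 0x1800002000018000000000000000000000000000000000000000000000000000000000) (nat_lit 0x340000d8000e60003dc000060003c0000300000000000000000000000000000000000000000000000) (nat_lit 12)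
theorem c104166 : QOK q104166 := cut [q104082, q99923, q104084, q104157, q104090] ⟨c104082, c99923, c104084, c104157, c104090, trivial⟩ (nd (nat_lit 277) (nat_lit 0) (cs (rf (nat_lit 0)) (cs (nd (nat_lit 254) (nat_lit 0) (cs (rf (nat_lit 1)) (nd (nat_lit 278) (nat_lit 0) (cs (lf (nat_lit 18) (nat_lit 253)) (nd (nat_lit 298) (nat_lit 0) (cs (lf (nat_lit 42) (nat_lit 231)) (rf (nat_lit 2)))))))) (cs (nd (nat_lit 252) (nat_lit 0) (cs (lf (nat_lit 18) (nat_lit 252)) (nd (nat_lit 251) (nat_lit 0) (cs (lf (nat_lit 12) (nat_lit 228)) (lf (nat_lit 3) (nat_lit 251)))))) (nd (nat_lit 254) (nat_lit 0) (cs (rf (nat_lit 1)) (cs (nd (nat_lit 252) (nat_lit 0) (cs (lf (nat_lit 0) (nat_lit 251)) (rf (nat_lit 3)))) (nd (nat_lit 298) (nat_lit 0) (cs (lf (nat_lit 42) (nat_lit 231)) (nd (nat_lit 252) (nat_lit 0) (cs (lf (nat_lit 0) (nat_lit 251)) (nd (nat_lit 210) (nat_lit 0) (cs (lf (nat_lit 36) (nat_lit 187)) (nd (nat_lit 211) (nat_lit 0) (cs (lf (nat_lit 35) (nat_lit 188)) (nd (nat_lit 212) (nat_lit 0) (cs (lf (nat_lit 6) (nat_lit 209)) (nd (nat_lit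 230) (nat_lit 0) (cs (lf (nat_lit 12) (nat_lit 207)) (rf (nat_lit 4))))))))))))))))))))) q104166 (by decide +kernel)
def q104167 : Q := Q.p (nat_lit 0x1800006000008000000000000000000000000000000000000000000000000000000000) (nat_lit 0x100000600018000000000020000080000000000000000000000000000000000000000000000) (nat_lit 4)
theorem c104167 : QOK q104167 := cut [q79290] ⟨c79290, trivial⟩ (nd (nat_lit 209) (nat_lit 0) (cs (lf (nat_lit 24) (nat_lit 187)) (rf (nat_lit 0)))) q104167 (by decide +kernel)
def q104265 : Q := Q.p (nat_lit 0x300001c000000000000000000000000000000000000000000000000000000000) (nat_lit 0x10000040000c00000300001c000020000080000000000000000000000000000000000000000) (nat_lit 5)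
theorem c104265 : QOK q104265 := cut [q80215, q97428] ⟨c80215, c97428, trivial⟩ (nd (nat_lit 229) (nat_lit 0) (cs (rf (nat_lit 0)) (rf (nat_lit 1)))) q104265 (by decide +kernel)
def q104270 : Q := Q.p (nat_lit 0x300001c000000000000000000000000000000000000000000000000000000000) (nat_lit 0x4000000000220001fe0007e0001f80002000000000000000000000000000000000000) (nat_lit 11)
theorem c104270 : QOK q104270 := cut [q7954, q98040, q96925] ⟨c7954, c98040, c96925, trivial⟩ (nd (nat_lit 208) (nat_lit 0) (cs (rf (nat_lit 0)) (cs (rf (nat_lit 1)) (nd (nat_lit 186) (nat_lit 0) (cs (lf (nat_lit 24) (nat_lit 164)) (nd (nat_lit 163) (nat_lit 0) (cs (lf (nat_lit 46) (nat_lit 163)) (nd (nat_lit 187) (nat_lit 0) (cs (lf (nat_lit 35) (nat_lit 164)) (nd (nat_lit 209) (nat_lit 0) (cs (lf (nat_lit 41) (nat_lit 186)) (rf (nat_lit 2))))))))))))) q104270 (by decide +kernel)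
def q104283 : Q := Q.p (nat_lit 0x300001c000000000000000000000000000000000000000000000000000000000) (nat_lit 0x6000018000760001c00002000007e0001e0000780000000000000000000000000000000000000000) (nat_lit 10)
theorem c104283 : QOK q104283 := cut [q98040, q80078] ⟨c98040, c80078, trivial⟩ (nd (nat_lit 208) (nat_lit 0) (cs (rf (nat_lit 0)) (cs (nd (nat_lit 164) (nat_lit 0) (cs (lf (nat_lit 25) (nat_lit 164)) (nd (nat_lit 207) (nat_lit 0) (cs (lf (nat_lit 18) (nat_lit 207)) (nd (nat_lit 205) (nat_lit 0) (cs (lf (nat_lit 1) (nat_lit 205)) (nd (nat_lit 274) (nat_lit 0) (cs (lf (nat_lit 47) (nat_lit 185)) (rf (nat_lit 1)))))))))) (nd (nat_lit 186) (nat_lit 0) (cs (lf (nat_lit 24) (nat_lit 164)) (nd (nat_lit 163) (nat_lit 0) (cs (lf (nat_lit 46) (nat_lit 163)) (nd (nat_lit 187) (nat_lit 0) (cs (lf (nat_lit 35) (nat_lit 164)) (nd (nat_lit 209) (nat_lit 0) (cs (lf (nat_lit 41) (nat_lit 186)) (nd (nat_lit 254) (nat_lit 0) (cs (lf (nat_lit 29) (nat_lit 187)) (nd (nat_lit 255) (nat_lit 0) (cs (lf (nat_lit 18) (nat_lit 230)) (nd (nat_lit 277)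 (nat_lit 0) (cs (lf (nat_lit 5) (nat_lit 252)) (nd (nat_lit 188) (nat_lit 0) (cs (lf (nat_lit 35) (nat_lit 165)) (lf (nat_lit 25) (nat_lit 188))))))))))))))))))))) q104283 (by decide +kernel)
def q104288 : Q := Q.p (nat_lit 0x300001c000000000000000000000000000000000000000000000000000000000) (nat_lit 0x100000400000e0000380001c000020000080000000000000000000000000000000000000000) (nat_lit 5)
theorem c104288 : QOK q104288 := cut [q80215, q87908] ⟨c80215, c87908, trivial⟩ (nd (nat_lit 229) (nat_lit 0) (cs (rf (nat_lit 0)) (rf (nat_lit 1)))) q104288 (by decide +kernel)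
def q104343 : Q := Q.p (nat_lit 0x2000038000000000000000000000000000000000000000000000000000000000) (nat_lit 0x1400005c000060001fc0007e0000f80000000000000000000000000000000000000000) (nat_lit 12)
theorem c104343 : QOK q104343 := cut [q22592, q97369, q102583, q104228, q104287] ⟨c22592, c97369, c102583, c104228, c104287, trivial⟩ (nd (nat_lit 230) (nat_lit 0) (cs (rf (nat_lit 0)) (cs (rf (nat_lit 1)) (cs (rf (nat_lit 2)) (nd (nat_lit 252) (nat_lit 0) (cs (rf (nat_lit 3)) (rf (nat_lit 4)))))))) q104343 (by decide +kernel)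
def q104347 : Q := Q.p (nat_lit 0x2000038000000000000000000000000000000000000000000000000000000000) (nat_lit 0x3c0000c4000738000000000000000000000000000000000000000000000000000) (nat_lit 5)
theorem c104347 : QOK q104347 := cut [q97443, q102534] ⟨c97443, c102534, trivial⟩ (nd (nat_lit 234) (nat_lit 0) (cs (rf (nat_lit 0)) (rf (nat_lit 1)))) q104347 (by decide +kernel)
def q104353 : Q := Q.p (nat_lit 0x200000e000038000040000000000000000000000000000000000000000000000000000) (nat_lit 0xc000030000000000380000600000000000000000000000000000000000000000000000) (nat_lit 5)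
theorem c104353 : QOK q104353 := cut [q104352] ⟨c104352, trivial⟩ (nd (nat_lit 256) (nat_lit 0) (cs (lf (nat_lit 18) (nat_lit 231)) (rf (nat_lit 0)))) q104353 (by decide +kernel)
def q104376 : Q := Q.p (nat_lit 0x2000038000000000000000000000000000000000000000000000000000000000) (nat_lit 0xc0000c70007fc000000000000000000000000000000000000000000000000000) (nat_lit 7)
theorem c104376 : QOK q104376 := cut [q103127, q104371, q97428] ⟨c103127, c104371, c97428, trivial⟩ (nd (nat_lit 212) (nat_lit 0) (cs (rf (nat_lit 0)) (cs (nd (nat_lit 234) (nat_lit 0) (cs (lf (nat_lit 17) (nat_lit 209)) (rf (nat_lit 1)))) (nd (nat_lit 230) (nat_lit 0) (cs (lf (nat_lit 16) (nat_lit 208)) (nd (nat_lit 207) (nat_lit 0) (cs (lf (nat_lit 22) (nat_lit 207)) (nd (nat_lit 229) (nat_lit 0) (cs (lf (nat_lit 23) (nat_lit 206)) (rf (nat_lit 2))))))))))) q104376 (by decide +kernel)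
def q104451 : Q := Q.p (nat_lit 0x1000006000010000000000000000000000000000000000000000000000000000000000) (nat_lit 0x380000f0000e000000000008000060000000000000000000000000000000000000000000000000000) (nat_lit 6)
theorem c104451 : QOK q104451 := cut [q80343, q103806] ⟨c80343, c103806, trivial⟩ (nd (nat_lit 298) (nat_lit 0) (cs (rf (nat_lit 0)) (rf (nat_lit 1)))) q104451 (by decide +kernel)
def q104551 : Q := Q.p (nat_lit 0xe000038000040000000000000000000000000000000000000000000000000000) (nat_lit 0xb00006e00001000000000020000080000000000000000000000000000000000000000000000) (nat_lit 6)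
theorem c104551 : QOK q104551 := cut [q104548] ⟨c104548, trivial⟩ (nd (nat_lit 275) (nat_lit 0) (cs (lf (nat_lit 30) (nat_lit 209)) (nd (nat_lit 277) (nat_lit 0) (cs (lf (nat_lit 42) (nat_lit 210)) (nd (nat_lit 252) (nat_lit 0) (cs (lf (nat_lit 5) (nat_lit 252)) (rf (nat_lit 0)))))))) q104551 (by decide +kernel)
def q104615 : Q := Q.p (nat_lit 0x800002000018000000000000000000000000000000000000000000000000000000000) (nat_lit 0x400001c0000700001400004000000000020000080000200000000000000000000000000000000000000000) (nat_lit 6)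
theorem c104615 : QOK q104615 := cut [q21953, q85187, q104525] ⟨c21953, c85187, c104525, trivial⟩ (nd (nat_lit 297) (nat_lit 0) (cs (rf (nat_lit 0)) (cs (rf (nat_lit 1)) (rf (nat_lit 2))))) q104615 (by decide +kernel)
def q104657 : Q := Q.p (nat_lit 0x80000300001c000000000000000000000000000000000000000000000000000000000) (nat_lit 0x2200001e000040000000000000000000000000000000000000000000000) (nat_lit 4)
theorem c104657 : QOK q104657 := cut [q7954] ⟨c7954, trivial⟩ (nd (nat_lit 208) (nat_lit 0) (cs (lf (nat_lit 24) (nat_lit 186)) (rf (nat_lit 0)))) q104657 (by decide +kernel)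
def q104661 : Q := Q.p (nat_lit 0x80000300001c000000000000000000000000000000000000000000000000000000000) (nat_lit 0x6000018000060000000002000001e000060000000000000000000000000000000000000000000000) (nat_lit 7)
theorem c104661 : QOK q104661 := cut [q57679] ⟨c57679, trivial⟩ (nd (nat_lit 208) (nat_lit 0) (cs (lf (nat_lit 24) (nat_lit 186)) (nd (nat_lit 207) (nat_lit 0) (cs (lf (nat_lit 18) (nat_lit 207)) (nd (nat_lit 205) (nat_lit 0) (cs (lf (nat_lit 1) (nat_lit 205)) (nd (nat_lit 274) (nat_lit 0) (cs (lf (nat_lit 47) (nat_lit 185)) (rf (nat_lit 0)))))))))) q104661 (by decide +kernel)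
def q104672 : Q := Q.p (nat_lit 0x800003000018000000000000000000000000000000000000000000000000000000000) (nat_lit 0x300000c00003700004c00023000000000000000000000000000000000000000000000000000000000) (nat_lit 8)
theorem c104672 : QOK q104672 := cut [q104669] ⟨c104669, trivial⟩ (nd (nat_lit 251) (nat_lit 0) (cs (lf (nat_lit 12) (nat_lit 228)) (nd (nat_lit 254) (nat_lit 0) (cs (lf (nat_lit 17) (nat_lit 229)) (nd (nat_lit 228) (nat_lit 0) (cs (lf (nat_lit 22) (nat_lit 228)) (rf (nat_lit 0)))))))) q104672 (by decide +kernel)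
def q104694 : Q := Q.p (nat_lit 0x2000038000060000000000000000000000000000000000000000000000000000) (nat_lit 0x8000000000000000180000c0000100000400000000000000000000000000000000000) (nat_lit 4)
theorem c104694 : QOK q104694 := cut [q1595] ⟨c1595, trivial⟩ (nd (nat_lit 208) (nat_lit 0) (cs (rf (nat_lit 0)) (lf (nat_lit 0) (nat_lit 207)))) q104694 (by decide +kernel)
def q104698 : Q := Q.p (nat_lit 0x2000038000060000000000000000000000000000000000000000000000000000) (nat_lit 0x800004000000000098000660000900002400000000000000000000000000000000000) (nat_lit 7)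
theorem c104698 : QOK q104698 := cut [q93199] ⟨c93199, trivial⟩ (nd (nat_lit 208) (nat_lit 0) (cs (lf (nat_lit 0) (nat_lit 207)) (nd (nat_lit 186) (nat_lit 0) (cs (lf (nat_lit 42) (nat_lit 186)) (nd (nat_lit 142) (nat_lit 0) (cs (lf (nat_lit 25) (nat_lit 142)) (nd (nat_lit 211) (nat_lit 0) (cs (lf (nat_lit 23) (nat_lit 185)) (rf (nat_lit 0)))))))))) q104698 (by decide +kernel)
def q104722 : Q := Q.p (nat_lit 0x2000038000000000000000000000000000000000000000000000000000000000) (nat_lit 0xf80003c0000c00003fc0003c0000f00001400000000000000000000000000000000000) (nat_lit 13)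
theorem c104722 : QOK q104722 := cut [q102459, q104685, q80750, q97738, q104704] ⟨c102459, c104685, c80750, c97738, c104704, trivial⟩ (nd (nat_lit 209) (nat_lit 0) (cs (rf (nat_lit 0)) (cs (rf (nat_lit 1)) (nd (nat_lit 187) (nat_lit 0) (cs (rf (nat_lit 2)) (cs (rf (nat_lit 3)) (nd (nat_lit 164) (nat_lit 0) (cs (lf (nat_lit 46) (nat_lit 164)) (nd (nat_lit 254) (nat_lit 0) (cs (lf (nat_lit 29) (nat_lit 187)) (nd (nat_lit 234) (nat_lit 0) (cs (lf (nat_lit 6) (nat_lit 231)) (nd (nat_lit 256) (nat_lit 0) (cs (lf (nat_lit 5) (nat_lit 231)) (nd (nat_lit 212) (nat_lit 0) (cs (lf (nat_lit 17) (nat_lit 209)) (nd (nat_lit 188) (nat_lit 0) (cs (lf (nat_lit 35) (nat_lit 165)) (nd (nat_lit 210) (nat_lit 0) (cs (lf (nat_lit 30) (nat_lit 187)) (nd (nat_lit 255) (nat_lit 0) (cs (lf (nat_lit 29) (nat_lit 188)) (rf (nat_lit 4)))))))))))))))))))))))) q104722 (by decide +kernel)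
def q104807 : Q := Q.p (nat_lit 0xf000010000000000000000000000000000000000000000000000000000000000) (nat_lit 0x1ce000300000c8000000000000000000000000000000000000000000000000000000000) (nat_lit 6)
theorem c104807 : QOK q104807 := cut [q92337] ⟨c92337, trivial⟩ (nd (nat_lit 274) (nat_lit 0) (cs (lf (nat_lit 11) (nat_lit 251)) (rf (nat_lit 0)))) q104807 (by decide +kernel)
def q104830 : Q := Q.p (nat_lit 0xf000010000000000000000000000000000000000000000000000000000000000) (nat_lit 0xce000700003a8000000000000000000000000000000000000000000000000000000000) (nat_lit 7)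
theorem c104830 : QOK q104830 := cut [q103601] ⟨c103601, trivial⟩ (nd (nat_lit 274) (nat_lit 0) (cs (lf (nat_lit 11) (nat_lit 251)) (nd (nat_lit 256) (nat_lit 0) (cs (lf (nat_lit 10) (nat_lit 252)) (nd (nat_lit 278) (nat_lit 0) (cs (lf (nat_lit 5) (nat_lit 253)) (rf (nat_lit 0)))))))) q104830 (by decide +kernel)
def q104966 : Q := Q.p (nat_lit 0x1000006000010000040000000000000000000000000000000000000000000000000000) (nat_lit 0x60000080000000002800003c0000c0000000000000000000000000000000000000000000000) (nat_lit 6)
theorem c104966 : QOK q104966 := cut [q79273] ⟨c79273, trivial⟩ (nd (nat_lit 275) (nat_lit 0) (cs (lf (nat_lit 41) (nat_lit 209)) (nd (nat_lit 209) (nat_lit 0) (cs (lf (nat_lit 47) (nat_lit 187)) (nd (nat_lit 231) (nat_lit 0) (cs (lf (nat_lit 42) (nat_lit 209)) (rf (nat_lit 0)))))))) q104966 (by decide +kernel)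
def q105049 : Q := Q.p (nat_lit 0x200001800002000008000000000000000000000000000000000000000000000000000000000) (nat_lit 0x400001c0006400000000000000000000000000000000000000000000000000000000000000000000) (nat_lit 4)
theorem c105049 : QOK q105049 := cut [q105048] ⟨c105048, trivial⟩ (nd (nat_lit 296) (nat_lit 0) (cs (lf (nat_lit 41) (nat_lit 230)) (rf (nat_lit 0)))) q105049 (by decide +kernel)
def q105166 : Q := Q.p (nat_lit 0x800003800008000020000000000000000000000000000000000000000000000000000) (nat_lit 0x200000000000000074000050000140000000000000000000000000000000000000000000000) (nat_lit 5)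
theorem c105166 : QOK q105166 := cut [q91429] ⟨c91429, trivial⟩ (nd (nat_lit 210) (nat_lit 0) (cs (lf (nat_lit 35) (nat_lit 187)) (nd (nat_lit 186) (nat_lit 0) (cs (lf (nat_lit 46) (nat_lit 186)) (rf (nat_lit 0)))))) q105166 (by decide +kernel)
def q105170 : Q := Q.p (nat_lit 0x800002000008000020000000000000000000000000000000000000000000000000000) (nat_lit 0x500001c0000700000000000000004000010000040000000000000000000000000000000000000000000000) (nat_lit 6)
theorem c105170 : QOK q105170 := cut [q41459] ⟨c41459, trivial⟩ (nd (nat_lit 208) (nat_lit 0) (cs (lf (nat_lit 47) (nat_lit 186)) (nd (nat_lit 297) (nat_lit 0) (cs (lf (nat_lit 46) (nat_lit 208)) (rf (nat_lit 0)))))) q105170 (by decide +kernel)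
def q105177 : Q := Q.p (nat_lit 0xc00003800008000020000000000000000000000000000000000000000000000000000) (nat_lit 0x28000020000000000600001e000078000000000000000000000000000000000000000000000) (nat_lit 7)
theorem c105177 : QOK q105177 := cut [q89946] ⟨c89946, trivial⟩ (nd (nat_lit 208) (nat_lit 0) (cs (lf (nat_lit 47) (nat_lit 186)) (nd (nat_lit 230) (nat_lit 0) (cs (lf (nat_lit 29) (nat_lit 208)) (rf (nat_lit 0)))))) q105177 (by decide +kernel)
def q105190 : Q := Q.p (nat_lit 0x7800000000000000000000000000000000000000000000000000000000000000) (nat_lit 0x3800000400038000000000000000000000000000000000000000000000000000000000) (nat_lit 4)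
theorem c105190 : QOK q105190 := cut [q105189] ⟨c105189, trivial⟩ (nd (nat_lit 232) (nat_lit 0) (cs (lf (nat_lit 17) (nat_lit 229)) (rf (nat_lit 0)))) q105190 (by decide +kernel)
def q105192 : Q := Q.p (nat_lit 0x7800000000000000000000000000000000000000000000000000000000000000) (nat_lit 0x70001840003e000000000000000000000000000000000000000000000000000000000) (nat_lit 6)
theorem c105192 : QOK q105192 := cut [q94756] ⟨c94756, trivial⟩ (nd (nat_lit 232) (nat_lit 0) (cs (lf (nat_lit 17) (nat_lit 229)) (nd (nat_lit 231) (nat_lit 0) (cs (lf (nat_lit 12) (nat_lit 228)) (rf (nat_lit 0)))))) q105192 (by decide +kernel)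
def q105199 : Q := Q.p (nat_lit 0x7800000000000000000000000000000000000000000000000000000000000000) (nat_lit 0x2000048000370001800003e000020000080000000000000000000000000000000000000000000000) (nat_lit 9)
theorem c105199 : QOK q105199 := cut [q105193] ⟨c105193, trivial⟩ (nd (nat_lit 276) (nat_lit 0) (cs (lf (nat_lit 5) (nat_lit 251)) (nd (nat_lit 232) (nat_lit 0) (cs (lf (nat_lit 17) (nat_lit 229)) (nd (nat_lit 273) (nat_lit 0) (cs (lf (nat_lit 11) (nat_lit 250)) (nd (nat_lit 255) (nat_lit 0) (cs (lf (nat_lit 10) (nat_lit 251)) (nd (nat_lit 230) (nat_lit 0) (cs (lf (nat_lit 23) (nat_lit 229)) (nd (nat_lit 295) (nat_lit 0) (cs (lf (nat_lit 30) (nat_lit 229)) (rf (nat_lit 0)))))))))))))) q105199 (by decide +kernel)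
def q105230 : Q := Q.p (nat_lit 0x100000c0000300000c000000000000000000000000000000000000000000000000000000000) (nat_lit 0x200000e0003000004000003800008000000000000000000000000000000000000000000000000000) (nat_lit 6)
theorem c105230 : QOK q105230 := cut [q87351] ⟨c87351, trivial⟩ (nd (nat_lit 295) (nat_lit 0) (cs (lf (nat_lit 41) (nat_lit 229)) (nd (nat_lit 293) (nat_lit 0) (cs (lf (nat_lit 13) (nat_lit 271)) (nd (nat_lit 276) (nat_lit 0) (cs (lf (nat_lit 6) (nat_lit 273)) (rf (nat_lit 0)))))))) q105230 (by decide +kernel)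
def q105236 : Q := Q.p (nat_lit 0x3c00003000000000000000000000000000000000000000000000000000000000000000) (nat_lit 0x8000020000180000020001c000076000080000200000000000000000000000000000000000000000000000) (nat_lit 8)
theorem c105236 : QOK q105236 := cut [q105233] ⟨c105233, trivial⟩ (nd (nat_lit 255) (nat_lit 0) (cs (lf (nat_lit 17) (nat_lit 252)) (nd (nat_lit 254) (nat_lit 0) (cs (lf (nat_lit 12) (nat_lit 251)) (nd (nat_lit 229) (nat_lit 0) (cs (lf (nat_lit 22) (nat_lit 229)) (rf (nat_lit 0)))))))) q105236 (by decide +kernel)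
def q105257 : Q := Q.p (nat_lit 0x1c00003000000000000000000000000000000000000000000000000000000000000000) (nat_lit 0x40000620001c000060000080000200000000000000000000000000000000000000000000000) (nat_lit 6)
theorem c105257 : QOK q105257 := cut [q105254] ⟨c105254, trivial⟩ (nd (nat_lit 277) (nat_lit 0) (cs (lf (nat_lit 18) (nat_lit 252)) (nd (nat_lit 255) (nat_lit 0) (cs (lf (nat_lit 17) (nat_lit 252)) (nd (nat_lit 254) (nat_lit 0) (cs (lf (nat_lit 12) (nat_lit 251)) (rf (nat_lit 0)))))))) q105257 (by decide +kernel)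
def q105260 : Q := Q.p (nat_lit 0x1c00007000000000000000000000000000000000000000000000000000000000000000) (nat_lit 0x100000400000000018000070000080000200000000000000000000000000000000000000000000000) (nat_lit 5)
theorem c105260 : QOK q105260 := cut [q105259] ⟨c105259, trivial⟩ (nd (nat_lit 255) (nat_lit 0) (cs (lf (nat_lit 6) (nat_lit 252)) (rf (nat_lit 0)))) q105260 (by decide +kernel)
def q105274 : Q := Q.p (nat_lit 0xc0000300000c000020000000000000000000000000000000000000000000000000000) (nat_lit 0x1c0000720001c000002000040000100000000000000000000000000000000000000000000000) (nat_lit 7)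
theorem c105274 : QOK q105274 := cut [q105271] ⟨c105271, trivial⟩ (nd (nat_lit 276) (nat_lit 0) (cs (lf (nat_lit 29) (nat_lit 209)) (nd (nat_lit 277) (nat_lit 0) (cs (lf (nat_lit 18) (nat_lit 252)) (nd (nat_lit 188) (nat_lit 0) (cs (lf (nat_lit 34) (nat_lit 187)) (rf (nat_lit 0)))))))) q105274 (by decide +kernel)
def q105284 : Q := Q.p (nat_lit 0xc00003000008000020000000000000000000000000000000000000000000000000000) (nat_lit 0x80000200001c0000720001c0000700000c0000300000000000000000000000000000000000000000000000) (nat_lit 10)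
theorem c105284 : QOK q105284 := cut [q105233] ⟨c105233, trivial⟩ (nd (nat_lit 188) (nat_lit 0) (cs (lf (nat_lit 34) (nat_lit 187)) (nd (nat_lit 276) (nat_lit 0) (cs (lf (nat_lit 29) (nat_lit 209)) (nd (nat_lit 277) (nat_lit 0) (cs (lf (nat_lit 18) (nat_lit 252)) (nd (nat_lit 255) (nat_lit 0) (cs (lf (nat_lit 17) (nat_lit 252)) (nd (nat_lit 254) (nat_lit 0) (cs (lf (nat_lit 11) (nat_lit 251)) (rf (nat_lit 0)))))))))))) q105284 (by decide +kernel)
def q105293 : Q := Q.p (nat_lit 0xc0000300000c000000000000000000000000000000000000000000000000000000000) (nat_lit 0x130001e0000180000000000000000000000000000000000000000000000) (nat_lit 5)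
theorem c105293 : QOK q105293 := cut [q91450] ⟨c91450, trivial⟩ (nd (nat_lit 209) (nat_lit 0) (cs (lf (nat_lit 36) (nat_lit 186)) (rf (nat_lit 0)))) q105293 (by decide +kernel)
def q105321 : Q := Q.p (nat_lit 0x1c00003000004000000000000000000000000000000000000000000000000000000000) (nat_lit 0x180000e0001f0000600001c000003800008000000000000000000000000000000000000000000000000000) (nat_lit 10)
theorem c105321 : QOK q105321 := cut [q81961] ⟨c81961, trivial⟩ (nd (nat_lit 297) (nat_lit 0) (cs (lf (nat_lit 42) (nat_lit 230)) (nd (nat_lit 277) (nat_lit 0) (cs (lf (nat_lit 18) (nat_lit 252)) (nd (nat_lit 255) (nat_lit 0) (cs (lf (nat_lit 17) (nat_lit 252)) (nd (nat_lit 229) (nat_lit 0) (cs (lf (nat_lit 19) (nat_lit 229)) (nd (nat_lit 227) (nat_lit 0) (cs (lf (nat_lit 1) (nat_lit 227)) (nd (nat_lit 299) (nat_lit 0) (cs (lf (nat_lit 5) (nat_lit 274)) (nd (nat_lit 296) (nat_lit 0) (cs (lf (nat_lit 47) (nat_lit 207)) (rf (nat_lit 0)))))))))))))))) q105321 (by decide +kernel)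
def q105334 : Q := Q.p (nat_lit 0x200000c00003000000000000000000000000000000000000000000000000000000000000000) (nat_lit 0x60000180000400000000004000018000040000000000000000000000000000000000000000000000000000) (nat_lit 5)
theorem c105334 : QOK q105334 := cut [q89529] ⟨c89529, trivial⟩ (nd (nat_lit 319) (nat_lit 0) (cs (lf (nat_lit 42) (nat_lit 252)) (rf (nat_lit 0)))) q105334 (by decide +kernel)
def q105433 : Q := Q.p (nat_lit 0x80000200000800003000000000000000000000000000000000000000000000000000000000000000) (nat_lit 0x60000100000400000400000000018000060000180000000000000000000000000000000000000000000000) (nat_lit 6)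
theorem c105433 : QOK q105433 := cut [q99793] ⟨c99793, trivial⟩ (nd (nat_lit 320) (nat_lit 0) (cs (lf (nat_lit 29) (nat_lit 253)) (nd (nat_lit 231) (nat_lit 0) (cs (lf (nat_lit 28) (nat_lit 231)) (rf (nat_lit 0)))))) q105433 (by decide +kernel)
def q105437 : Q := Q.p (nat_lit 0x300000800003000004000000000000000000000000000000000000000000000000000000000) (nat_lit 0x140001c0000700001c00007b8001cc000000000000000000000000000000000000000000000000000) (nat_lit 12)
theorem c105437 : QOK q105437 := cut [q105218] ⟨c105218, trivial⟩ (nd (nat_lit 231) (nat_lit 0) (cs (lf (nat_lit 41) (nat_lit 230)) (nd (nat_lit 298) (nat_lit 0) (cs (lf (nat_lit 29) (nat_lit 231)) (rf (nat_lit 0)))))) q105437 (by decide +kernel)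
def q105451 : Q := Q.p (nat_lit 0x380000800003000004000000000000000000000000000000000000000000000000000000000) (nat_lit 0x10000078000460000780004000002000008000000000000000000000000000000000000000000000000000) (nat_lit 8)
theorem c105451 : QOK q105451 := cut [q89421] ⟨c89421, trivial⟩ (nd (nat_lit 274) (nat_lit 0) (cs (lf (nat_lit 41) (nat_lit 229)) (nd (nat_lit 207) (nat_lit 0) (cs (lf (nat_lit 46) (nat_lit 207)) (nd (nat_lit 294) (nat_lit 0) (cs (lf (nat_lit 12) (nat_lit 271)) (nd (nat_lit 318) (nat_lit 0) (cs (lf (nat_lit 30) (nat_lit 252)) (nd (nat_lit 315) (nat_lit 0) (cs (lf (nat_lit 10) (nat_lit 293)) (rf (nat_lit 0)))))))))))) q105451 (by decide +kernel)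
def q105452 : Q := Q.p (nat_lit 0x380001c00006000000000000000000000000000000000000000000000000000000000000000) (nat_lit 0x40000300000c00000300000000000000000000000000000000000000000000000000000000000000000000) (nat_lit 4)
theorem c105452 : QOK q105452 := cut [q53956] ⟨c53956, trivial⟩ (nd (nat_lit 273) (nat_lit 0) (cs (rf (nat_lit 0)) (lf (nat_lit 12) (nat_lit 250)))) q105452 (by decide +kernel)
def q105475 : Q := Q.p (nat_lit 0x600001800000000030000000000000000000000000000000000000000000000000000000000) (nat_lit 0x200001800000600004000000000080000000000000000000000000000000000000000000000000000) (nat_lit 4)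
theorem c105475 : QOK q105475 := cut [q79763] ⟨c79763, trivial⟩ (nd (nat_lit 254) (nat_lit 0) (cs (lf (nat_lit 35) (nat_lit 210)) (rf (nat_lit 0)))) q105475 (by decide +kernel)
def q105515 : Q := Q.p (nat_lit 0x100000400001000000000000000000000000000000000000000000000000000000000000000) (nat_lit 0x20000380000e0000280000200000800006000008000000000000000000000000000000000000000000000000000) (nat_lit 5)
theorem c105515 : QOK q105515 := cut [q84212, q87382, q91618] ⟨c84212, c87382, c91618, trivial⟩ (nd (nat_lit 318) (nat_lit 0) (cs (rf (nat_lit 0)) (cs (rf (nat_lit 1)) (rf (nat_lit 2))))) q105515 (by decide +kernel)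
def q105522 : Q := Q.p (nat_lit 0x200000c00003000000000000000000000000000000000000000000000000000000000000000) (nat_lit 0x700001c0000400000000000000018000060000180000000000000000000000000000000000000000000000) (nat_lit 7)
theorem c105522 : QOK q105522 := cut [q22910] ⟨c22910, trivial⟩ (nd (nat_lit 319) (nat_lit 0) (cs (lf (nat_lit 42) (nat_lit 252)) (nd (nat_lit 318) (nat_lit 0) (cs (lf (nat_lit 41) (nat_lit 252)) (rf (nat_lit 0)))))) q105522 (by decide +kernel)
def q105531 : Q := Q.p (nat_lit 0xc00003000008000020000000000000000000000000000000000000000000000000000) (nat_lit 0x400003000000c00000000010000040000000000000000000000000000000000000000000000) (nat_lit 4)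
theorem c105531 : QOK q105531 := cut [q721] ⟨c721, trivial⟩ (nd (nat_lit 186) (nat_lit 0) (cs (rf (nat_lit 0)) (lf (nat_lit 46) (nat_lit 186)))) q105531 (by decide +kernel)
def q105538 : Q := Q.p (nat_lit 0x1e00001000000000000000000000000000000000000000000000000000000000000000) (nat_lit 0x200000c0000000000c00004000010000000000000000000000000000000000000000000000000000) (nat_lit 4)
theorem c105538 : QOK q105538 := cut [q81451] ⟨c81451, trivial⟩ (nd (nat_lit 251) (nat_lit 0) (cs (lf (nat_lit 23) (nat_lit 250)) (rf (nat_lit 0)))) q105538 (by decide +kernel)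
def q105545 : Q := Q.p (nat_lit 0x800003000008000020000000000000000000000000000000000000000000000000000) (nat_lit 0x200000000000c00074000040000100000000000000000000000000000000000000000000000) (nat_lit 5)
theorem c105545 : QOK q105545 := cut [q86631] ⟨c86631, trivial⟩ (nd (nat_lit 210) (nat_lit 0) (cs (lf (nat_lit 35) (nat_lit 187)) (nd (nat_lit 232) (nat_lit 0) (cs (lf (nat_lit 30) (nat_lit 209)) (rf (nat_lit 0)))))) q105545 (by decide +kernel)
def q105667 : Q := Q.p (nat_lit 0x180000600003000004000000000000000000000000000000000000000000000000000000000) (nat_lit 0x40000380000e40003800000000000000000000000000000000000000000000000000000000000000000000) (nat_lit 6)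
theorem c105667 : QOK q105667 := cut [q89315] ⟨c89315, trivial⟩ (nd (nat_lit 297) (nat_lit 0) (cs (lf (nat_lit 29) (nat_lit 230)) (nd (nat_lit 298) (nat_lit 0) (cs (lf (nat_lit 18) (nat_lit 273)) (rf (nat_lit 0)))))) q105667 (by decide +kernel)
def q105737 : Q := Q.p (nat_lit 0x100000400003000000000000000000000000000000000000000000000000000000000000000) (nat_lit 0xa0000380000e0000280000800000000004000000000000000000000000000000000000000000000000000000000) (nat_lit 5)
theorem c105737 : QOK q105737 := cut [q42162, q42165, q91618] ⟨c42162, c42165, c91618, trivial⟩ (nd (nat_lit 318) (nat_lit 0) (cs (rf (nat_lit 0)) (cs (rf (nat_lit 1)) (rf (nat_lit 2))))) q105737 (by decide +kernel)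
def q105757 : Q := Q.p (nat_lit 0x1000004000010000040000000000000000000000000000000000000000000000000000) (nat_lit 0xa0000380000e00000000000000008000020000080000000000000000000000000000000000000000000000) (nat_lit 6)
theorem c105757 : QOK q105757 := cut [q105755] ⟨c105755, trivial⟩ (nd (nat_lit 209) (nat_lit 0) (cs (lf (nat_lit 47) (nat_lit 187)) (nd (nat_lit 298) (nat_lit 0) (cs (lf (nat_lit 46) (nat_lit 209)) (rf (nat_lit 0)))))) q105757 (by decide +kernel)
def q105771 : Q := Q.p (nat_lit 0x7800000000000000000000000000000000000000000000000000000000000000) (nat_lit 0xee00018000070000000000000000000000000000000000000000000000000000000000) (nat_lit 6)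
theorem c105771 : QOK q105771 := cut [q102864] ⟨c102864, trivial⟩ (nd (nat_lit 233) (nat_lit 0) (cs (lf (nat_lit 16) (nat_lit 229)) (nd (nat_lit 255) (nat_lit 0) (cs (lf (nat_lit 17) (nat_lit 230)) (rf (nat_lit 0)))))) q105771 (by decide +kernel)
def q105779 : Q := Q.p (nat_lit 0xf000020000080000000000000000000000000000000000000000000000000000) (nat_lit 0x6000000000000000140000700001400000000000000000000000000000000000000000) (nat_lit 5)
theorem c105779 : QOK q105779 := cut [q86274] ⟨c86274, trivial⟩ (nd (nat_lit 277) (nat_lit 0) (cs (lf (nat_lit 5) (nat_lit 252)) (rf (nat_lit 0)))) q105779 (by decide +kernel)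
def q105806 : Q := Q.p (nat_lit 0xf000000000000000000000000000000000000000000000000000000000000000) (nat_lit 0xe000100000e6000000000000000000000000000000000000000000000000000000000) (nat_lit 5)
theorem c105806 : QOK q105806 := cut [q105804] ⟨c105804, trivial⟩ (nd (nat_lit 234) (nat_lit 0) (cs (lf (nat_lit 16) (nat_lit 230)) (nd (nat_lit 229) (nat_lit 0) (cs (lf (nat_lit 22) (nat_lit 229)) (rf (nat_lit 0)))))) q105806 (by decide +kernel)
def q105823 : Q := Q.p (nat_lit 0x7000000000000000000000000000000000000000000000000000000000000000) (nat_lit 0xff00018800070000000000000000000000000000000000000000000000000000000000) (nat_lit 5)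
theorem c105823 : QOK q105823 := cut [q81054, q102864, q105822] ⟨c81054, c102864, c105822, trivial⟩ (nd (nat_lit 255) (nat_lit 0) (cs (rf (nat_lit 0)) (cs (rf (nat_lit 1)) (rf (nat_lit 2))))) q105823 (by decide +kernel)
def q105827 : Q := Q.p (nat_lit 0x7800000000000000000000000000000000000000000000000000000000000000) (nat_lit 0x7000008000007000000000000000000000000000000000000000000000000000000000) (nat_lit 4)
theorem c105827 : QOK q105827 := cut [q81337] ⟨c81337, trivial⟩ (nd (nat_lit 277) (nat_lit 0) (cs (lf (nat_lit 4) (nat_lit 251)) (rf (nat_lit 0)))) q105827 (by decide +kernel)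
def q105829 : Q := Q.p (nat_lit 0x7800000000000000000000000000000000000000000000000000000000000000) (nat_lit 0x7000008000070000000000000000000000000000000000000000000000000000000000) (nat_lit 4)
theorem c105829 : QOK q105829 := cut [q98865] ⟨c98865, trivial⟩ (nd (nat_lit 277) (nat_lit 0) (cs (lf (nat_lit 4) (nat_lit 251)) (rf (nat_lit 0)))) q105829 (by decide +kernel)
def q105883 : Q := Q.p (nat_lit 0x40000300000c000000000000000000000000000000000000000000000000000000000) (nat_lit 0xe0000380000200000000002000018000020000000000000000000000000000000000000000000000) (nat_lit 6)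
theorem c105883 : QOK q105883 := cut [q89482] ⟨c89482, trivial⟩ (nd (nat_lit 296) (nat_lit 0) (cs (lf (nat_lit 30) (nat_lit 230)) (nd (nat_lit 297) (nat_lit 0) (cs (lf (nat_lit 29) (nat_lit 230)) (rf (nat_lit 0)))))) q105883 (by decide +kernel)
def q105890 : Q := Q.p (nat_lit 0x300001e000000000000000000000000000000000000000000000000000000000) (nat_lit 0x140000c0000000000ec000380000e00000000000000000000000000000000000000000) (nat_lit 8)
theorem c105890 : QOK q105890 := cut [q80235] ⟨c80235, trivial⟩ (nd (nat_lit 254) (nat_lit 0) (cs (lf (nat_lit 5) (nat_lit 229)) (nd (nat_lit 210) (nat_lit 0) (cs (lf (nat_lit 17) (nat_lit 207)) (nd (nat_lit 188) (nat_lit 0) (cs (lf (nat_lit 36) (nat_lit 165)) (nd (nat_lit 206) (nat_lit 0) (cs (lf (nat_lit 22) (nat_lit 206)) (rf (nat_lit 0)))))))))) q105890 (by decide +kernel)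
def q105901 : Q := Q.p (nat_lit 0x300001e000000000000000000000000000000000000000000000000000000000) (nat_lit 0x100000c0000000000fc0003f0000fc0000000000000000000000000000000000000000) (nat_lit 11)
theorem c105901 : QOK q105901 := cut [q105900] ⟨c105900, trivial⟩ (nd (nat_lit 254) (nat_lit 0) (cs (lf (nat_lit 5) (nat_lit 229)) (rf (nat_lit 0)))) q105901 (by decide +kernel)
def q105930 : Q := Q.p (nat_lit 0x700000c000000000000000000000000000000000000000000000000000000000) (nat_lit 0x20000080000780000e00003800010000040000000000000000000000000000000000000000000000) (nat_lit 6)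
theorem c105930 : QOK q105930 := cut [q101387, q105927, q87096] ⟨c101387, c105927, c87096, trivial⟩ (nd (nat_lit 251) (nat_lit 0) (cs (rf (nat_lit 0)) (cs (rf (nat_lit 1)) (nd (nat_lit 273) (nat_lit 0) (cs (lf (nat_lit 11) (nat_lit 250)) (nd (nat_lit 228) (nat_lit 0) (cs (lf (nat_lit 22) (nat_lit 228)) (rf (nat_lit 2))))))))) q105930 (by decide +kernel)
def q105952 : Q := Q.p (nat_lit 0x2000007000008000000000000000000000000000000000000000000000000000000000) (nat_lit 0x40000180000e4000000000000000000000000000000000000000000000000000000000) (nat_lit 4)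
theorem c105952 : QOK q105952 := cut [q96443] ⟨c96443, trivial⟩ (nd (nat_lit 255) (nat_lit 0) (cs (lf (nat_lit 5) (nat_lit 252)) (rf (nat_lit 0)))) q105952 (by decide +kernel)
def q105982 : Q := Q.p (nat_lit 0x3000008000020000000000000000000000000000000000000000000000000000) (nat_lit 0x200000c0000700003cc000740001d80001f0000780001400000000000000000000000000000000000) (nat_lit 11)
theorem c105982 : QOK q105982 := cut [q86313, q86631, q79193, q105961, q79870, q81708, q4090, q80750, q82299, q104329, q10016] ⟨c86313, c86631, c79193, c105961, c79870, c81708, c4090, c80750, c82299, c104329, c10016, trivial⟩ (nd (nat_lit 232) (nat_lit 0) (cs (rf (nat_lit 0)) (cs (rf (nat_lit 1)) (cs (nd (nat_lit 254) (nat_lit 0) (cs (rf (nat_lit 2)) (cs (rf (nat_lit 3)) (nd (nat_lit 210) (nat_lit 0) (cs (nd (nat_lit 187) (nat_lit 0) (cs (lf (nat_lit 24) (nat_lit 165)) (nd (nat_lit 186) (nat_lit 0) (cs (lf (nat_lit 47) (nat_lit 164)) (nd (nat_lit 211) (nat_lit 0) (cs (lf (nat_lit 18) (nat_lit 186)) (rf (nat_lit 4)))))))) (nd (nat_lit 188) (nat_lit 0)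 (cs (lf (nat_lit 36) (nat_lit 165)) (nd (nat_lit 250) (nat_lit 0) (cs (lf (nat_lit 13) (nat_lit 228)) (nd (nat_lit 255) (nat_lit 0) (cs (lf (nat_lit 29) (nat_lit 188)) (rf (nat_lit 5))))))))))))) (nd (nat_lit 187) (nat_lit 0) (cs (rf (nat_lit 6)) (cs (rf (nat_lit 7)) (cs (rf (nat_lit 8)) (nd (nat_lit 233) (nat_lit 0) (cs (lf (nat_lit 6) (nat_lit 230)) (nd (nat_lit 255) (nat_lit 0) (cs (rf (nat_lit 9)) (cs (nd (nat_lit 166) (nat_lit 0) (cs (lf (nat_lit 34) (nat_lit 165)) (nd (nat_lit 230) (nat_lit 0) (cs (lf (nat_lit 5) (nat_lit 230)) (nd (nat_lit 211) (nat_lit 0) (cs (lf (nat_lit 17) (nat_lit 208)) (nd (nat_lit 208) (nat_lit 0) (cs (lf (nat_lit 23) (nat_lit 207)) (nd (nat_lit 186) (nat_lit 0) (cs (lf (nat_lit 47) (nat_lit 164)) (rf (nat_lit 10)))))))))))) (nd (nat_lit 164) (nat_lit 0) (cs (lf (nat_lit 46) (nat_lit 164)) (nd (nat_lit 166) (nat_lit 0) (cs (lf (nat_lit 34) (nat_lit 165)) (nd (nat_lit 256) (nat_lit 0) (cs (lf (nat_lit 0) (nat_lit 230)) (nd (nat_lit 254) (nat_lit 0) (cs (lf (nat_lit 29) (nat_lit 187)) (lf (nat_lit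 18) (nat_lit 231))))))))))))))))))))))) q105982 (by decide +kernel)
def q105987 : Q := Q.p (nat_lit 0xf000018000020000000000000000000000000000000000000000000000000000) (nat_lit 0xc00007000000000000000040000100000000000000000000000000000000000000000000000) (nat_lit 4)
theorem c105987 : QOK q105987 := cut [q105986] ⟨c105986, trivial⟩ (nd (nat_lit 276) (nat_lit 0) (cs (lf (nat_lit 42) (nat_lit 209)) (rf (nat_lit 0)))) q105987 (by decide +kernel)
def q106016 : Q := Q.p (nat_lit 0x3000018000020000000000000000000000000000000000000000000000000000) (nat_lit 0x20000188000660001d8000100000400000000000000000000000000000000000000000) (nat_lit 8)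
theorem c106016 : QOK q106016 := cut [q102612] ⟨c102612, trivial⟩ (nd (nat_lit 233) (nat_lit 0) (cs (lf (nat_lit 6) (nat_lit 230)) (nd (nat_lit 230) (nat_lit 0) (cs (lf (nat_lit 11) (nat_lit 229)) (nd (nat_lit 211) (nat_lit 0) (cs (lf (nat_lit 17) (nat_lit 208)) (nd (nat_lit 210) (nat_lit 0) (cs (lf (nat_lit 12) (nat_lit 207)) (nd (nat_lit 207) (nat_lit 0) (cs (lf (nat_lit 1) (nat_lit 207)) (rf (nat_lit 0)))))))))))) q106016 (by decide +kernel)
def q106030 : Q := Q.p (nat_lit 0x380000e000000000000000000000000000000000000000000000000000000000) (nat_lit 0x3180000e000000000000000000000000000000000000000000000000000) (nat_lit 4)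
theorem c106030 : QOK q106030 := cut [q91239] ⟨c91239, trivial⟩ (nd (nat_lit 232) (nat_lit 0) (cs (lf (nat_lit 6) (nat_lit 229)) (rf (nat_lit 0)))) q106030 (by decide +kernel)
def q106034 : Q := Q.p (nat_lit 0x3800008000000000000000000000000000000000000000000000000000000000) (nat_lit 0x3c0004600007c00000000000000000000000000000000000000000000000000000000) (nat_lit 5)
theorem c106034 : QOK q106034 := cut [q12246, q88836, q88839] ⟨c12246, c88836, c88839, trivial⟩ (nd (nat_lit 250) (nat_lit 0) (cs (rf (nat_lit 0)) (cs (rf (nat_lit 1)) (rf (nat_lit 2))))) q106034 (by decide +kernel)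
def q106084 : Q := Q.p (nat_lit 0x7000010000040000000000000000000000000000000000000000000000000000) (nat_lit 0x800003800000800000000020000380000e00002000000000000000000000000000000000000) (nat_lit 7)
theorem c106084 : QOK q106084 := cut [q106079] ⟨c106079, trivial⟩ (nd (nat_lit 188) (nat_lit 0) (cs (lf (nat_lit 41) (nat_lit 187)) (nd (nat_lit 167) (nat_lit 0) (cs (lf (nat_lit 34) (nat_lit 166)) (nd (nat_lit 145) (nat_lit 0) (cs (nd (nat_lit 187) (nat_lit 0) (cs (lf (nat_lit 47) (nat_lit 165)) (rf (nat_lit 0)))) (lf (nat_lit 33) (nat_lit 144)))))))) q106084 (by decide +kernel)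
def q106115 : Q := Q.p (nat_lit 0x700001c000000000000000000000000000000000000000000000000000000000) (nat_lit 0x6300001c000000000000000000000000000000000000000000000000000) (nat_lit 4)
theorem c106115 : QOK q106115 := cut [q80003] ⟨c80003, trivial⟩ (nd (nat_lit 233) (nat_lit 0) (cs (lf (nat_lit 6) (nat_lit 230)) (rf (nat_lit 0)))) q106115 (by decide +kernel)
def q106131 : Q := Q.p (nat_lit 0xf000004000000000000000000000000000000000000000000000000000000000) (nat_lit 0x100000400007800010800008000020000080000000000000000000000000000000000000000000000) (nat_lit 6)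
theorem c106131 : QOK q106131 := cut [q106128] ⟨c106128, trivial⟩ (nd (nat_lit 277) (nat_lit 0) (cs (lf (nat_lit 5) (nat_lit 252)) (nd (nat_lit 276) (nat_lit 0) (cs (lf (nat_lit 0) (nat_lit 251)) (nd (nat_lit 231) (nat_lit 0) (cs (lf (nat_lit 18) (nat_lit 230)) (rf (nat_lit 0)))))))) q106131 (by decide +kernel)
def q106138 : Q := Q.p (nat_lit 0x700001c000000000000000000000000000000000000000000000000000000000) (nat_lit 0x10000000000030000fc0003f0000fc0000000000000000000000000000000000000000) (nat_lit 11)
theorem c106138 : QOK q106138 := cut [q105900] ⟨c105900, trivial⟩ (nd (nat_lit 229) (nat_lit 0) (cs (lf (nat_lit 0) (nat_lit 228)) (rf (nat_lit 0)))) q106138 (by decide +kernel)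
def q106147 : Q := Q.p (nat_lit 0x700001c000000000000000000000000000000000000000000000000000000000) (nat_lit 0x4000010000000000600001b80002c0000b00000000000000000000000000000000000000000) (nat_lit 8)
theorem c106147 : QOK q106147 := cut [q80019] ⟨c80019, trivial⟩ (nd (nat_lit 233) (nat_lit 0) (cs (lf (nat_lit 6) (nat_lit 230)) (rf (nat_lit 0)))) q106147 (by decide +kernel)
def q106158 : Q := Q.p (nat_lit 0x800007000016000000000000000000000000000000000000000000000000000000000) (nat_lit 0x8000030000008000080000c0000300000000000000000000000000000000000000000000000) (nat_lit 5)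
theorem c106158 : QOK q106158 := cut [q106086] ⟨c106086, trivial⟩ (nd (nat_lit 210) (nat_lit 0) (cs (lf (nat_lit 36) (nat_lit 187)) (rf (nat_lit 0)))) q106158 (by decide +kernel)
def q106213 : Q := Q.p (nat_lit 0x200000f000000000000000000000000000000000000000000000000000000000000000) (nat_lit 0x2000008000010000300000fc000140000500000000000000000000000000000000000000000000000) (nat_lit 8)
theorem c106213 : QOK q106213 := cut [q81776] ⟨c81776, trivial⟩ (nd (nat_lit 234) (nat_lit 0) (cs (lf (nat_lit 16) (nat_lit 230)) (nd (nat_lit 256) (nat_lit 0) (cs (lf (nat_lit 17) (nat_lit 231)) (nd (nat_lit 299) (nat_lit 0) (cs (lf (nat_lit 30) (nat_lit 233)) (nd (nat_lit 190) (nat_lit 0) (cs (lf (nat_lit 37) (nat_lit 189)) (nd (nat_lit 231) (nat_lit 0) (cs (lf (nat_lit 23) (nat_lit 230)) (rf (nat_lit 0)))))))))))) q106213 (by decide +kernel)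
def q106220 : Q := Q.p (nat_lit 0x80000400001000004000000000000000000000000000000000000000000000000000000000000000) (nat_lit 0x200000a000020000000000300000c0000200000000000000000000000000000000000000000000000) (nat_lit 5)
theorem c106220 : QOK q106220 := cut [q106219] ⟨c106219, trivial⟩ (nd (nat_lit 232) (nat_lit 0) (cs (lf (nat_lit 40) (nat_lit 231)) (rf (nat_lit 0)))) q106220 (by decide +kernel)
def q106227 : Q := Q.p (nat_lit 0x80000400001000007000000000000000000000000000000000000000000000000000000000000000) (nat_lit 0xe00003000008000068000000000300000c0000300000000000000000000000000000000000000000000000) (nat_lit 8)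
theorem c106227 : QOK q106227 := cut [q106224] ⟨c106224, trivial⟩ (nd (nat_lit 320) (nat_lit 0) (cs (lf (nat_lit 41) (nat_lit 253)) (nd (nat_lit 275) (nat_lit 0) (cs (lf (nat_lit 42) (nat_lit 253)) (nd (nat_lit 277) (nat_lit 0) (cs (lf (nat_lit 18) (nat_lit 252)) (rf (nat_lit 0)))))))) q106227 (by decide +kernel)
def q106246 : Q := Q.p (nat_lit 0xf000000000000000000000000000000000000000000000000000000000000000) (nat_lit 0x400007000000800060000080000200000000000000000000000000000000000000000000000) (nat_lit 5)
theorem c106246 : QOK q106246 := cut [q105254] ⟨c105254, trivial⟩ (nd (nat_lit 277) (nat_lit 0) (cs (lf (nat_lit 5) (nat_lit 252)) (nd (nat_lit 276) (nat_lit 0) (cs (lf (nat_lit 0) (nat_lit 251)) (rf (nat_lit 0)))))) q106246 (by decide +kernel)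
def q106263 : Q := Q.p (nat_lit 0x400007000000000000000000000000000000000000000000000000000000000000000) (nat_lit 0x2400009000072000380000fc000040000100000000000000000000000000000000000000000000000) (nat_lit 10)
theorem c106263 : QOK q106263 := cut [q81776] ⟨c81776, trivial⟩ (nd (nat_lit 255) (nat_lit 0) (cs (lf (nat_lit 11) (nat_lit 251)) (nd (nat_lit 277) (nat_lit 0) (cs (lf (nat_lit 5) (nat_lit 252)) (nd (nat_lit 234) (nat_lit 0) (cs (lf (nat_lit 16) (nat_lit 230)) (nd (nat_lit 256) (nat_lit 0) (cs (lf (nat_lit 17) (nat_lit 231)) (nd (nat_lit 231) (nat_lit 0) (cs (lf (nat_lit 23) (nat_lit 230)) (nd (nat_lit 299) (nat_lit 0) (cs (lf (nat_lit 30) (nat_lit 233)) (nd (nat_lit 296) (nat_lit 0) (cs (lf (nat_lit 30) (nat_lit 230)) (rf (nat_lit 0)))))))))))))))) q106263 (by decide +kernel)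
def q106340 : Q := Q.p (nat_lit 0xc00007000008000000000000000000000000000000000000000000000000000000000) (nat_lit 0x4000010000188000740000fc0003c0000000000000000000000000000000000000000000000) (nat_lit 10)
theorem c106340 : QOK q106340 := cut [q80317] ⟨c80317, trivial⟩ (nd (nat_lit 255) (nat_lit 0) (cs (lf (nat_lit 6) (nat_lit 252)) (nd (nat_lit 233) (nat_lit 0) (cs (lf (nat_lit 17) (nat_lit 230)) (nd (nat_lit 232) (nat_lit 0) (cs (lf (nat_lit 12) (nat_lit 229)) (nd (nat_lit 188) (nat_lit 0) (cs (lf (nat_lit 37) (nat_lit 187)) (nd (nat_lit 209) (nat_lit 0) (cs (lf (nat_lit 36) (nat_lit 186)) (nd (nat_lit 276) (nat_lit 0) (cs (lf (nat_lit 42) (nat_lit 209)) (nd (nat_lit 189) (nat_lit 0) (cs (rf (nat_lit 0)) (lf (nat_lit 37) (nat_lit 188)))))))))))))))) q106340 (by decide +kernel)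
def q106342 : Q := Q.p (nat_lit 0x1800006000008000020000000000000000000000000000000000000000000000000000) (nat_lit 0x2000000000000000140003c0000300000000000000000000000000000000000000000000000) (nat_lit 5)
theorem c106342 : QOK q106342 := cut [q79607] ⟨c79607, trivial⟩ (nd (nat_lit 210) (nat_lit 0) (cs (lf (nat_lit 35) (nat_lit 187)) (nd (nat_lit 232) (nat_lit 0) (cs (lf (nat_lit 41) (nat_lit 209)) (rf (nat_lit 0)))))) q106342 (by decide +kernel)
def q106366 : Q := Q.p (nat_lit 0x800003000018000020000000000000000000000000000000000000000000000000000) (nat_lit 0x6400001c000040000000000000000000000000000000000000000000000) (nat_lit 4)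
theorem c106366 : QOK q106366 := cut [q80317] ⟨c80317, trivial⟩ (nd (nat_lit 233) (nat_lit 0) (cs (lf (nat_lit 6) (nat_lit 230)) (rf (nat_lit 0)))) q106366 (by decide +kernel)
def q106377 : Q := Q.p (nat_lit 0x100000e00006000010000000000000000000000000000000000000000000000000000000000) (nat_lit 0x180000e00000000000000008000020000000000000000000000000000000000000000000000000000) (nat_lit 4)
theorem c106377 : QOK q106377 := cut [q23322] ⟨c23322, trivial⟩ (nd (nat_lit 297) (nat_lit 0) (cs (rf (nat_lit 0)) (lf (nat_lit 30) (nat_lit 231)))) q106377 (by decide +kernel)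
def q106386 : Q := Q.p (nat_lit 0x400007000000000000000000000000000000000000000000000000000000000000000) (nat_lit 0x4000010001c2000380000fc000000000000000000000000000000000000000000000000000000000) (nat_lit 8)
theorem c106386 : QOK q106386 := cut [q93133] ⟨c93133, trivial⟩ (nd (nat_lit 255) (nat_lit 0) (cs (lf (nat_lit 11) (nat_lit 251)) (nd (nat_lit 234) (nat_lit 0) (cs (lf (nat_lit 16) (nat_lit 230)) (nd (nat_lit 256) (nat_lit 0) (cs (lf (nat_lit 17) (nat_lit 231)) (nd (nat_lit 231) (nat_lit 0) (cs (lf (nat_lit 23) (nat_lit 230)) (nd (nat_lit 296) (nat_lit 0) (cs (lf (nat_lit 30) (nat_lit 230)) (rf (nat_lit 0)))))))))))) q106386 (by decide +kernel)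
def q106391 : Q := Q.p (nat_lit 0x400007000000000000000000000000000000000000000000000000000000000000000) (nat_lit 0x1ca000380000dc000000000000000000000000000000000000000000000000000000000) (nat_lit 7)
theorem c106391 : QOK q106391 := cut [q81770] ⟨c81770, trivial⟩ (nd (nat_lit 255) (nat_lit 0) (cs (lf (nat_lit 11) (nat_lit 251)) (nd (nat_lit 256) (nat_lit 0) (cs (lf (nat_lit 10) (nat_lit 252)) (nd (nat_lit 234) (nat_lit 0) (cs (lf (nat_lit 17) (nat_lit 231)) (rf (nat_lit 0)))))))) q106391 (by decide +kernel)
def q106396 : Q := Q.p (nat_lit 0x400007000000000000000000000000000000000000000000000000000000000000000) (nat_lit 0x4000010000ca00038c0003c000000000000000000000000000000000000000000000000000000000) (nat_lit 8)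
theorem c106396 : QOK q106396 := cut [q98274] ⟨c98274, trivial⟩ (nd (nat_lit 255) (nat_lit 0) (cs (lf (nat_lit 11) (nat_lit 251)) (nd (nat_lit 256) (nat_lit 0) (cs (lf (nat_lit 10) (nat_lit 252)) (nd (nat_lit 231) (nat_lit 0) (cs (lf (nat_lit 23) (nat_lit 230)) (nd (nat_lit 278) (nat_lit 0) (cs (lf (nat_lit 5) (nat_lit 253)) (nd (nat_lit 296) (nat_lit 0) (cs (lf (nat_lit 30) (nat_lit 230)) (rf (nat_lit 0)))))))))))) q106396 (by decide +kernel)
def q106423 : Q := Q.p (nat_lit 0x7800000000000000000000000000000000000000000000000000000000000000) (nat_lit 0x70000180000ee000000000000000000000000000000000000000000000000000000000) (nat_lit 6)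
theorem c106423 : QOK q106423 := cut [q93924] ⟨c93924, trivial⟩ (nd (nat_lit 277) (nat_lit 0) (cs (lf (nat_lit 4) (nat_lit 251)) (nd (nat_lit 255) (nat_lit 0) (cs (lf (nat_lit 5) (nat_lit 252)) (rf (nat_lit 0)))))) q106423 (by decide +kernel)
def q106433 : Q := Q.p (nat_lit 0x1c00003800002000010000000000000000000000000000000000000000000000000000) (nat_lit 0x40000100000e0000020000000000800002c000070000000000000000000000000000000000000000000000) (nat_lit 7)
theorem c106433 : QOK q106433 := cut [q15513] ⟨c15513, trivial⟩ (nd (nat_lit 207) (nat_lit 0) (cs (lf (nat_lit 24) (nat_lit 185)) (nd (nat_lit 273) (nat_lit 0) (cs (lf (nat_lit 35) (nat_lit 185)) (nd (nat_lit 184) (nat_lit 0) (cs (lf (nat_lit 46) (nat_lit 184)) (rf (nat_lit 0)))))))) q106433 (by decide +kernel)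
def q106438 : Q := Q.p (nat_lit 0x1c00003800002000010000000000000000000000000000000000000000000000000000) (nat_lit 0x40000100000e8000020000c00000c000020000080000000000000000000000000000000000000000000000) (nat_lit 7)
theorem c106438 : QOK q106438 := cut [q80250] ⟨c80250, trivial⟩ (nd (nat_lit 230) (nat_lit 0) (cs (lf (nat_lit 29) (nat_lit 208)) (nd (nat_lit 254) (nat_lit 0) (cs (lf (nat_lit 18) (nat_lit 229)) (nd (nat_lit 273) (nat_lit 0) (cs (lf (nat_lit 30) (nat_lit 207)) (nd (nat_lit 187) (nat_lit 0) (cs (lf (nat_lit 34) (nat_lit 186)) (rf (nat_lit 0)))))))))) q106438 (by decide +kernel)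
def q106448 : Q := Q.p (nat_lit 0x400001800006000000000000000000000000000000000000000000000000000000000) (nat_lit 0x400001000002000000000080000300000c0000100000000000000000000000000000000000000000) (nat_lit 5)
theorem c106448 : QOK q106448 := cut [q106447] ⟨c106447, trivial⟩ (nd (nat_lit 296) (nat_lit 0) (cs (lf (nat_lit 42) (nat_lit 229)) (rf (nat_lit 0)))) q106448 (by decide +kernel)
def q106453 : Q := Q.p (nat_lit 0x400003800006000000000000000000000000000000000000000000000000000000000) (nat_lit 0x60000180003a0000c7000000000300000c0000300000000000000000000000000000000000000000) (nat_lit 10)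
theorem c106453 : QOK q106453 := cut [q95269] ⟨c95269, trivial⟩ (nd (nat_lit 254) (nat_lit 0) (cs (lf (nat_lit 18) (nat_lit 229)) (nd (nat_lit 276) (nat_lit 0) (cs (lf (nat_lit 5) (nat_lit 251)) (nd (nat_lit 250) (nat_lit 0) (cs (lf (nat_lit 4) (nat_lit 250)) (nd (nat_lit 248) (nat_lit 0) (cs (lf (nat_lit 13) (nat_lit 226)) (nd (nat_lit 296) (nat_lit 0) (cs (lf (nat_lit 42) (nat_lit 229)) (rf (nat_lit 0)))))))))))) q106453 (by decide +kernel)
def q106474 : Q := Q.p (nat_lit 0x800003800006000000000000000000000000000000000000000000000000000000000) (nat_lit 0x1f00007c000160000000000980006c0001f00007c0000000000000000000000000000000000000000) (nat_lit 11)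
theorem c106474 : QOK q106474 := cut [q106462, q94063, q96062] ⟨c106462, c94063, c96062, trivial⟩ (nd (nat_lit 296) (nat_lit 0) (cs (rf (nat_lit 0)) (cs (nd (nat_lit 227) (nat_lit 0) (cs (lf (nat_lit 1) (nat_lit 227)) (nd (nat_lit 297) (nat_lit 0) (cs (lf (nat_lit 42) (nat_lit 230)) (nd (nat_lit 231) (nat_lit 0) (cs (lf (nat_lit 41) (nat_lit 230)) (rf (nat_lit 1)))))))) (nd (nat_lit 297) (nat_lit 0) (cs (lf (nat_lit 42) (nat_lit 230)) (nd (nat_lit 207) (nat_lit 0) (cs (lf (nat_lit 43) (nat_lit 207)) (nd (nat_lit 185) (nat_lit 0) (cs (lf (nat_lit 24) (nat_lit 163)) (nd (nat_lit 227) (nat_lit 0) (cs (lf (nat_lit 1) (nat_lit 227)) (nd (nat_lit 164) (nat_lit 0) (cs (lf (nat_lit 34) (nat_lit 163)) (nd (nat_lit 184) (nat_lit 0) (cs (lf (nat_lit 47) (nat_lit 162)) (nd (nat_lit 273) (nat_lit 0) (cs (lf (nat_lit 46) (nat_lit 184)) (nd (nat_lit 295) (nat_lit 0) (cs (lf (nat_lit 30) (nat_lit 229)) (rf (nat_lit 2))))))))))))))))))))) q106474 (by decide +kernel)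
def q106487 : Q := Q.p (nat_lit 0x100000800003800007000000000000000000000000000000000000000000000000000000000) (nat_lit 0x1c000068000020000060000800006e000090000240000000000000000000000000000000000000000) (nat_lit 10)
theorem c106487 : QOK q106487 := cut [q91939] ⟨c91939, trivial⟩ (nd (nat_lit 297) (nat_lit 0) (cs (lf (nat_lit 42) (nat_lit 230)) (nd (nat_lit 231) (nat_lit 0) (cs (lf (nat_lit 41) (nat_lit 230)) (nd (nat_lit 249) (nat_lit 0) (cs (lf (nat_lit 13) (nat_lit 227)) (nd (nat_lit 298) (nat_lit 0) (cs (lf (nat_lit 29) (nat_lit 231)) (nd (nat_lit 209) (nat_lit 0) (cs (lf (nat_lit 17) (nat_lit 206)) (nd (nat_lit 165) (nat_lit 0) (cs (lf (nat_lit 37) (nat_lit 164)) (rf (nat_lit 0)))))))))))))) q106487 (by decide +kernel)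
def q106501 : Q := Q.p (nat_lit 0x800003000007000008000000000000000000000000000000000000000000000000000) (nat_lit 0x1000004000000000000000700000c0000000000000000000000000000000000000000000000) (nat_lit 4)
theorem c106501 : QOK q106501 := cut [q94574] ⟨c94574, trivial⟩ (nd (nat_lit 208) (nat_lit 0) (cs (lf (nat_lit 24) (nat_lit 186)) (rf (nat_lit 0)))) q106501 (by decide +kernel)
def q106510 : Q := Q.p (nat_lit 0x300000c00003800000000000000000000000000000000000000000000000000000000000000) (nat_lit 0x100000cc0003300000000008000020000000000000000000000000000000000000000000000000000) (nat_lit 6)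
theorem c106510 : QOK q106510 := cut [q106507] ⟨c106507, trivial⟩ (nd (nat_lit 231) (nat_lit 0) (cs (lf (nat_lit 36) (nat_lit 208)) (nd (nat_lit 276) (nat_lit 0) (cs (lf (nat_lit 18) (nat_lit 251)) (nd (nat_lit 294) (nat_lit 0) (cs (lf (nat_lit 13) (nat_lit 272)) (rf (nat_lit 0)))))))) q106510 (by decide +kernel)
def q106516 : Q := Q.p (nat_lit 0x200000a00003c00000000000000000000000000000000000000000000000000000000000000) (nat_lit 0x10000460000580000000002000008000000000000000000000000000000000000000000000000000) (nat_lit 5)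
theorem c106516 : QOK q106516 := cut [q12679] ⟨c12679, trivial⟩ (nd (nat_lit 272) (nat_lit 0) (cs (lf (nat_lit 11) (nat_lit 249)) (nd (nat_lit 274) (nat_lit 0) (cs (lf (nat_lit 5) (nat_lit 272)) (rf (nat_lit 0)))))) q106516 (by decide +kernel)
def q106554 : Q := Q.p (nat_lit 0x1000007000010000040000000000000000000000000000000000000000000000000000) (nat_lit 0x80000e8000000000000000a0000280000000000000000000000000000000000000000000000) (nat_lit 5)
theorem c106554 : QOK q106554 := cut [q106552] ⟨c106552, trivial⟩ (nd (nat_lit 187) (nat_lit 0) (cs (lf (nat_lit 46) (nat_lit 187)) (nd (nat_lit 189) (nat_lit 0) (cs (lf (nat_lit 34) (nat_lit 188)) (rf (nat_lit 0)))))) q106554 (by decide +kernel)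
def q106585 : Q := Q.p (nat_lit 0x700000c000030000000000000000000000000000000000000000000000000000) (nat_lit 0xe000078000000000130001c0000300000000000000000000000000000000000000000000000) (nat_lit 8)
theorem c106585 : QOK q106585 := cut [q106581] ⟨c106581, trivial⟩ (nd (nat_lit 228) (nat_lit 0) (cs (lf (nat_lit 1) (nat_lit 228)) (nd (nat_lit 275) (nat_lit 0) (cs (lf (nat_lit 42) (nat_lit 208)) (nd (nat_lit 276) (nat_lit 0) (cs (lf (nat_lit 29) (nat_lit 209)) (nd (nat_lit 277) (nat_lit 0) (cs (lf (nat_lit 18) (nat_lit 252)) (rf (nat_lit 0)))))))))) q106585 (by decide +kernel)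
def q106635 : Q := Q.p (nat_lit 0x400003800008000000000000000000000000000000000000000000000000000000000) (nat_lit 0x7c0001f00006e0000b800046000060000780001e0000100000400000000000000000000000000000000000) (nat_lit 16)
theorem c106635 : QOK q106635 := cut [q86868, q1563, q95922, q95927, q87049] ⟨c86868, c1563, c95922, c95927, c87049, trivial⟩ (nd (nat_lit 272) (nat_lit 0) (cs (rf (nat_lit 0)) (cs (nd (nat_lit 208) (nat_lit 0) (cs (nd (nat_lit 209) (nat_lit 0) (cs (lf (nat_lit 36) (nat_lit 186)) (rf (nat_lit 1)))) (cs (nd (nat_lit 273) (nat_lit 0) (cs (lf (nat_lit 6) (nat_lit 250)) (rf (nat_lit 2)))) (cs (nd (nat_lit 273) (nat_lit 0) (cs (lf (nat_lit 6) (nat_lit 250)) (rf (nat_lit 3)))) (nd (nat_lit 273) (nat_lit 0) (cs (lf (nat_lit 6) (nat_lit 250)) (rf (nat_lit 4)))))))) (nd (nat_lit 273) (nat_lit 0) (cs (lf (nat_lit 12) (nat_lit 249)) (lf (nat_lit 6) (nat_lit 250))))))) q106635 (by decide +kernel)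

end Crest.Agent.H3.Snaky.CR
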