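import Crest.Agent.H3.Snaky.Cert
import Crest.Agent.H3.Snaky.CR.CR0
import Crest.Agent.H3.Snaky.CR.CR1
import Crest.Agent.H3.Snaky.CR.CR3
import Crest.Agent.H3.Snaky.CR.CR4
import Crest.Agent.H3.Snaky.CR.CR5
import Crest.Agent.H3.Snaky.CR.CR6
import Crest.Agent.H3.Snaky.CR.CR12
import Crest.Agent.H3.Snaky.CR.CR15
import Crest.Agent.H3.Snaky.CR.CR16
import Crest.Agent.H3.Snaky.CR.CR17
import Crest.Agent.H3.Snaky.CR.CR18
import Crest.Agent.H3.Snaky.CR.CR19
import Crest.Agent.H3.Snaky.CR.CR20
import Crest.Agent.H3.Snaky.CR.CR21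
import Crest.Agent.H3.Snaky.CR.CR22
import Crest.Agent.H3.Snaky.CR.CR23
import Crest.Agent.H3.Snaky.CR.CR24
import Crest.Agent.H3.Snaky.CR.CR25
import Crest.Agent.H3.Snaky.CR.CR30
import Crest.Agent.H3.Snaky.CR.CR33
import Crest.Agent.H3.Snaky.CR.CR34
import Crest.Agent.H3.Snaky.CR.CR35
import Crest.Agent.H3.Snaky.CR.CR36
import Crest.Agent.H3.Snaky.CR.CR37
import Crest.Agent.H3.Snaky.CR.CR38

set_option autoImplicit false
set_option maxRecDepth 100000

namespace Crest.Agent.H3.Snaky.CR

open T

def q106645 : Q := Q.p (nat_lit 0x20000380000c000000000000000000000000000000000000000000000000000000000) (nat_lit 0x700001c0000d000000000320001ec0001c0000700000000000000000000000000000000000000000) (nat_lit 10)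
theorem c106645 : QOK q106645 := cut [q87084, q87089, q106640] ⟨c87084, c87089, c106640, trivial⟩ (nd (nat_lit 296) (nat_lit 0) (cs (rf (nat_lit 0)) (cs (rf (nat_lit 1)) (nd (nat_lit 295) (nat_lit 0) (cs (lf (nat_lit 30) (nat_lit 229)) (nd (nat_lit 209) (nat_lit 0) (cs (lf (nat_lit 31) (nat_lit 208)) (nd (nat_lit 187) (nat_lit 0) (cs (lf (nat_lit 36) (nat_lit 164)) (nd (nat_lit 232) (nat_lit 0) (cs (lf (nat_lit 6) (nat_lit 229)) (rf (nat_lit 2))))))))))))) q106645 (by decide +kernel)
def q106647 : Q := Q.p (nat_lit 0x20000180000c000000000000000000000000000000000000000000000000000000000) (nat_lit 0x20000080000400000000032000010000000000000000000000000000000000000000000000000000) (nat_lit 4)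
theorem c106647 : QOK q106647 := cut [q106646] ⟨c106646, trivial⟩ (nd (nat_lit 232) (nat_lit 0) (cs (lf (nat_lit 6) (nat_lit 229)) (rf (nat_lit 0)))) q106647 (by decide +kernel)
def q106653 : Q := Q.p (nat_lit 0x300001c000020000000000000000000000000000000000000000000000000000) (nat_lit 0x8000000000020001c00001c0000700000000000000000000000000000000000000000) (nat_lit 6)
theorem c106653 : QOK q106653 := cut [q106640] ⟨c106640, trivial⟩ (nd (nat_lit 187) (nat_lit 0) (cs (lf (nat_lit 36) (nat_lit 164)) (rf (nat_lit 0)))) q106653 (by decide +kernel)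
def q106670 : Q := Q.p (nat_lit 0x200001c000030000000000000000000000000000000000000000000000000000) (nat_lit 0x2000008000000000020001c0000100000000000000000000000000000000000000000000000) (nat_lit 4)
theorem c106670 : QOK q106670 := cut [q87115] ⟨c87115, trivial⟩ (nd (nat_lit 275) (nat_lit 0) (cs (lf (nat_lit 42) (nat_lit 208)) (rf (nat_lit 0)))) q106670 (by decide +kernel)
def q106705 : Q := Q.p (nat_lit 0x800003000008000020000000000000000000000000000000000000000000000000000) (nat_lit 0x1d0000740000400003400005c000140000000000000000000000000000000000000000000000) (nat_lit 9)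
theorem c106705 : QOK q106705 := cut [q91408, q106703] ⟨c91408, c106703, trivial⟩ (nd (nat_lit 210) (nat_lit 0) (cs (lf (nat_lit 35) (nat_lit 187)) (nd (nat_lit 274) (nat_lit 0) (cs (rf (nat_lit 0)) (rf (nat_lit 1)))))) q106705 (by decide +kernel)
def q106710 : Q := Q.p (nat_lit 0x380000e000000000000000000000000000000000000000000000000000000000) (nat_lit 0x680003b000040000000000300000c0000300000800000000000000000000000000000000000) (nat_lit 7)
theorem c106710 : QOK q106710 := cut [q6259, q88848, q88853] ⟨c6259, c88848, c88853, trivial⟩ (nd (nat_lit 208) (nat_lit 0) (cs (rf (nat_lit 0)) (cs (rf (nat_lit 1)) (rf (nat_lit 2))))) q106710 (by decide +kernel)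
def q106759 : Q := Q.p (nat_lit 0x180000200000800000000000000000000000000000000000000000000000000000000000000) (nat_lit 0x50000040000100000000006000018000040000000000000000000000000000000000000000000000) (nat_lit 5)
theorem c106759 : QOK q106759 := cut [q85426] ⟨c85426, trivial⟩ (nd (nat_lit 229) (nat_lit 0) (cs (lf (nat_lit 29) (nat_lit 229)) (rf (nat_lit 0)))) q106759 (by decide +kernel)
def q106785 : Q := Q.p (nat_lit 0x800007800004000000000000000000000000000000000000000000000000000000000) (nat_lit 0x80000200000000000000038000040000100000000000000000000000000000000000000000000000) (nat_lit 4)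
theorem c106785 : QOK q106785 := cut [q106784] ⟨c106784, trivial⟩ (nd (nat_lit 297) (nat_lit 0) (cs (lf (nat_lit 42) (nat_lit 230)) (rf (nat_lit 0)))) q106785 (by decide +kernel)
def q106817 : Q := Q.p (nat_lit 0x7800000000000000000000000000000000000000000000000000000000000000) (nat_lit 0xe00001800007e000000000000000000000000000000000000000000000000000000000) (nat_lit 6)
theorem c106817 : QOK q106817 := cut [q106815] ⟨c106815, trivial⟩ (nd (nat_lit 233) (nat_lit 0) (cs (lf (nat_lit 16) (nat_lit 229)) (nd (nat_lit 255) (nat_lit 0) (cs (lf (nat_lit 17) (nat_lit 230)) (rf (nat_lit 0)))))) q106817 (by decide +kernel)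
def q106820 : Q := Q.p (nat_lit 0x800003800008000000000000000000000000000000000000000000000000000000000) (nat_lit 0x200001000000600004000010000040000000000000000000000000000000000000000000000) (nat_lit 4)
theorem c106820 : QOK q106820 := cut [q90248] ⟨c90248, trivial⟩ (nd (nat_lit 250) (nat_lit 0) (cs (lf (nat_lit 5) (nat_lit 250)) (rf (nat_lit 0)))) q106820 (by decide +kernel)
def q106836 : Q := Q.p (nat_lit 0x3800002000000000000000000000000000000000000000000000000000000000) (nat_lit 0x240000900007e0003c0001f9000048000120000000000000000000000000000000000000000000000) (nat_lit 13)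
theorem c106836 : QOK q106836 := cut [q106833] ⟨c106833, trivial⟩ (nd (nat_lit 254) (nat_lit 0) (cs (lf (nat_lit 23) (nat_lit 228)) (nd (nat_lit 277) (nat_lit 0) (cs (lf (nat_lit 4) (nat_lit 251)) (nd (nat_lit 232) (nat_lit 0) (cs (lf (nat_lit 17) (nat_lit 229)) (rf (nat_lit 0)))))))) q106836 (by decide +kernel)
def q106876 : Q := Q.p (nat_lit 0x100000400003800002000000000000000000000000000000000000000000000000000000000) (nat_lit 0xa0000280003a0000c00003c0000700000c0000100000000000000000000000000000000000000000) (nat_lit 9)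
theorem c106876 : QOK q106876 := cut [q106447, q106872, q1337] ⟨c106447, c106872, c1337, trivial⟩ (nd (nat_lit 230) (nat_lit 0) (cs (rf (nat_lit 0)) (cs (rf (nat_lit 1)) (nd (nat_lit 254) (nat_lit 0) (cs (lf (nat_lit 18) (nat_lit 229)) (nd (nat_lit 295) (nat_lit 0) (cs (lf (nat_lit 41) (nat_lit 229)) (nd (nat_lit 208) (nat_lit 0) (cs (lf (nat_lit 40) (nat_lit 207)) (rf (nat_lit 2))))))))))) q106876 (by decide +kernel)
def q106889 : Q := Q.p (nat_lit 0x400007000000000000000000000000000000000000000000000000000000000000000) (nat_lit 0x3fa000780001d8000020000080000000000000000000000000000000000000000000000) (nat_lit 10)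
theorem c106889 : QOK q106889 := cut [q80566] ⟨c80566, trivial⟩ (nd (nat_lit 255) (nat_lit 0) (cs (lf (nat_lit 11) (nat_lit 251)) (nd (nat_lit 277) (nat_lit 0) (cs (lf (nat_lit 5) (nat_lit 252)) (nd (nat_lit 256) (nat_lit 0) (cs (lf (nat_lit 10) (nat_lit 252)) (nd (nat_lit 235) (nat_lit 0) (cs (lf (nat_lit 16) (nat_lit 231)) (nd (nat_lit 257) (nat_lit 0) (cs (lf (nat_lit 17) (nat_lit 232)) (nd (nat_lit 231) (nat_lit 0) (cs (lf (nat_lit 22) (nat_lit 231)) (nd (nat_lit 187) (nat_lit 0) (cs (lf (nat_lit 37) (nat_lit 186)) (rf (nat_lit 0)))))))))))))))) q106889 (by decide +kernel)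
def q106893 : Q := Q.p (nat_lit 0x400007000000000000000000000000000000000000000000000000000000000000000) (nat_lit 0xea00018000006000000000000000000000000000000000000000000000000000000000) (nat_lit 5)
theorem c106893 : QOK q106893 := cut [q82258] ⟨c82258, trivial⟩ (nd (nat_lit 255) (nat_lit 0) (cs (lf (nat_lit 11) (nat_lit 251)) (nd (nat_lit 229) (nat_lit 0) (cs (lf (nat_lit 22) (nat_lit 229)) (rf (nat_lit 0)))))) q106893 (by decide +kernel)
def q106909 : Q := Q.p (nat_lit 0x600001800007000000000000000000000000000000000000000000000000000000000000000) (nat_lit 0x200001980006600000000010000040000000000000000000000000000000000000000000000000000) (nat_lit 6)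
theorem c106909 : QOK q106909 := cut [q80283] ⟨c80283, trivial⟩ (nd (nat_lit 232) (nat_lit 0) (cs (lf (nat_lit 36) (nat_lit 209)) (nd (nat_lit 277) (nat_lit 0) (cs (lf (nat_lit 18) (nat_lit 252)) (nd (nat_lit 295) (nat_lit 0) (cs (lf (nat_lit 13) (nat_lit 273)) (rf (nat_lit 0)))))))) q106909 (by decide +kernel)
def q106924 : Q := Q.p (nat_lit 0x600001800007000000000000000000000000000000000000000000000000000000000000000) (nat_lit 0x40000180006000000000018000060000000000000000000000000000000000000000000000000000) (nat_lit 5)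
theorem c106924 : QOK q106924 := cut [q106923] ⟨c106923, trivial⟩ (nd (nat_lit 210) (nat_lit 0) (cs (lf (nat_lit 37) (nat_lit 209)) (rf (nat_lit 0)))) q106924 (by decide +kernel)
def q106926 : Q := Q.p (nat_lit 0x600001000003000000000000000000000000000000000000000000000000000000000000000) (nat_lit 0xc0000180006c0000000000c000030000040000000000000000000000000000000000000000000000) (nat_lit 5)
theorem c106926 : QOK q106926 := cut [q88933, q106923] ⟨c88933, c106923, trivial⟩ (nd (nat_lit 275) (nat_lit 0) (cs (rf (nat_lit 0)) (rf (nat_lit 1)))) q106926 (by decide +kernel)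
def q106980 : Q := Q.p (nat_lit 0x3000018000060000000000000000000000000000000000000000000000000000) (nat_lit 0x200000800000000060000018000040000000000000000000000000000000000000000000000) (nat_lit 4)
theorem c106980 : QOK q106980 := cut [q84399] ⟨c84399, trivial⟩ (nd (nat_lit 233) (nat_lit 0) (cs (lf (nat_lit 6) (nat_lit 230)) (rf (nat_lit 0)))) q106980 (by decide +kernel)
def q107014 : Q := Q.p (nat_lit 0x600001e000000000000000000000000000000000000000000000000000000000) (nat_lit 0x1c000e0000380000000000000000000000000000000000000000000000000000) (nat_lit 5)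
theorem c107014 : QOK q107014 := cut [q107013] ⟨c107013, trivial⟩ (nd (nat_lit 251) (nat_lit 0) (cs (lf (nat_lit 11) (nat_lit 228)) (rf (nat_lit 0)))) q107014 (by decide +kernel)
def q107026 : Q := Q.p (nat_lit 0xc00007000000000000000000000000000000000000000000000000000000000000000) (nat_lit 0x7000018800007000000000000000000000000000000000000000000000000000000000) (nat_lit 5)
theorem c107026 : QOK q107026 := cut [q98157] ⟨c98157, trivial⟩ (nd (nat_lit 255) (nat_lit 0) (cs (lf (nat_lit 6) (nat_lit 252)) (rf (nat_lit 0)))) q107026 (by decide +kernel)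
def q107039 : Q := Q.p (nat_lit 0x200000800002000008000000000000000000000000000000000000000000000000000000000) (nat_lit 0x8000000000000000c000017000050000000000000000000000000000000000000000000000000000) (nat_lit 5)
theorem c107039 : QOK q107039 := cut [q80935] ⟨c80935, trivial⟩ (nd (nat_lit 232) (nat_lit 0) (cs (lf (nat_lit 35) (nat_lit 209)) (nd (nat_lit 254) (nat_lit 0) (cs (lf (nat_lit 30) (nat_lit 231)) (rf (nat_lit 0)))))) q107039 (by decide +kernel)
def q107048 : Q := Q.p (nat_lit 0x200000800002000008000000000000000000000000000000000000000000000000000000000) (nat_lit 0x200001c000058000700001d000014000010000000000000000000000000000000000000000000000000000) (nat_lit 9)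
theorem c107048 : QOK q107048 := cut [q98362] ⟨c98362, trivial⟩ (nd (nat_lit 298) (nat_lit 0) (cs (lf (nat_lit 29) (nat_lit 231)) (nd (nat_lit 296) (nat_lit 0) (cs (lf (nat_lit 41) (nat_lit 230)) (nd (nat_lit 230) (nat_lit 0) (cs (lf (nat_lit 47) (nat_lit 208)) (nd (nat_lit 319) (nat_lit 0) (cs (lf (nat_lit 46) (nat_lit 230)) (nd (nat_lit 254) (nat_lit 0) (cs (lf (nat_lit 35) (nat_lit 231)) (nd (nat_lit 255) (nat_lit 0) (cs (lf (nat_lit 18) (nat_lit 230)) (rf (nat_lit 0)))))))))))))) q107048 (by decide +kernel)
def q107068 : Q := Q.p (nat_lit 0x7800008000000000000000000000000000000000000000000000000000000000) (nat_lit 0x380000e000034000080000370000cc000120000480000000000000000000000000000000000000000) (nat_lit 12)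
theorem c107068 : QOK q107068 := cut [q81735] ⟨c81735, trivial⟩ (nd (nat_lit 232) (nat_lit 0) (cs (lf (nat_lit 17) (nat_lit 229)) (nd (nat_lit 229) (nat_lit 0) (cs (lf (nat_lit 23) (nat_lit 228)) (nd (nat_lit 276) (nat_lit 0) (cs (lf (nat_lit 5) (nat_lit 251)) (nd (nat_lit 298) (nat_lit 0) (cs (lf (nat_lit 42) (nat_lit 231)) (nd (nat_lit 230) (nat_lit 0) (cs (lf (nat_lit 5) (nat_lit 229)) (nd (nat_lit 210) (nat_lit 0) (cs (lf (nat_lit 17) (nat_lit 207)) (nd (nat_lit 166) (nat_lit 0) (cs (lf (nat_lit 37) (nat_lit 165)) (nd (nat_lit 299) (nat_lit 0) (cs (lf (nat_lit 29) (nat_lit 232)) (nd (nat_lit 297) (nat_lit 0) (cs (lf (nat_lit 41) (nat_lit 231)) (rf (nat_lit 0)))))))))))))))))))) q107068 (by decide +kernel)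
def q107141 : Q := Q.p (nat_lit 0x7800000000000000000000000000000000000000000000000000000000000000) (nat_lit 0x7000008000007000000000000000000000000000000000000000000000000000000000) (nat_lit 4)
theorem c107141 : QOK q107141 := cut [q105153] ⟨c105153, trivial⟩ (nd (nat_lit 229) (nat_lit 0) (cs (lf (nat_lit 23) (nat_lit 228)) (rf (nat_lit 0)))) q107141 (by decide +kernel)
def q107158 : Q := Q.p (nat_lit 0x400001000006000018000000000000000000000000000000000000000000000000000000000) (nat_lit 0x280000a000008000000000000000c0000300000c00000000000000000000000000000000000000000) (nat_lit 6)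
theorem c107158 : QOK q107158 := cut [q79601] ⟨c79601, trivial⟩ (nd (nat_lit 299) (nat_lit 0) (cs (lf (nat_lit 29) (nat_lit 232)) (nd (nat_lit 297) (nat_lit 0) (cs (lf (nat_lit 41) (nat_lit 231)) (nd (nat_lit 210) (nat_lit 0) (cs (rf (nat_lit 0)) (lf (nat_lit 31) (nat_lit 209)))))))) q107158 (by decide +kernel)
def q107186 : Q := Q.p (nat_lit 0x200000e000000000000000000000000000000000000000000000000000000000) (nat_lit 0x17000118000ef000000000000000000000000000000000000000000000000000) (nat_lit 6)
theorem c107186 : QOK q107186 := cut [q22544, q96757, q96767] ⟨c22544, c96757, c96767, trivial⟩ (nd (nat_lit 228) (nat_lit 0) (cs (rf (nat_lit 0)) (cs (rf (nat_lit 1)) (nd (nat_lit 249) (nat_lit 0) (cs (lf (nat_lit 10) (nat_lit 227)) (rf (nat_lit 2))))))) q107186 (by decide +kernel)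
def q107251 : Q := Q.p (nat_lit 0x200000e000000000000000000000000000000000000000000000000000000000) (nat_lit 0x1f000718001cf000000000000000000000000000000000000000000000000000) (nat_lit 8)
theorem c107251 : QOK q107251 := cut [q22544, q96757, q96835, q107248] ⟨c22544, c96757, c96835, c107248, trivial⟩ (nd (nat_lit 228) (nat_lit 0) (cs (rf (nat_lit 0)) (cs (rf (nat_lit 1)) (cs (rf (nat_lit 2)) (nd (nat_lit 206) (nat_lit 0) (cs (lf (nat_lit 23) (nat_lit 205)) (nd (nat_lit 249) (nat_lit 0) (cs (lf (nat_lit 10) (nat_lit 227)) (rf (nat_lit 3)))))))))) q107251 (by decide +kernel)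
def q107340 : Q := Q.p (nat_lit 0x2000008000020000080000000000000000000000000000000000000000000000) (nat_lit 0x4000010000040000040000700001c00004000000000000000000000000000000) (nat_lit 6)
theorem c107340 : QOK q107340 := cut [q84569] ⟨c84569, trivial⟩ (nd (nat_lit 164) (nat_lit 0) (cs (lf (nat_lit 46) (nat_lit 164)) (nd (nat_lit 165) (nat_lit 0) (cs (lf (nat_lit 47) (nat_lit 142)) (rf (nat_lit 0)))))) q107340 (by decide +kernel)
def q107349 : Q := Q.p (nat_lit 0x380000800002000008000000000000000000000000000000000000000000000000000000000) (nat_lit 0x40007400000000004000010000000000000000000000000000000000000000000000000000) (nat_lit 4)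
theorem c107349 : QOK q107349 := cut [q11666] ⟨c11666, trivial⟩ (nd (nat_lit 208) (nat_lit 0) (cs (lf (nat_lit 46) (nat_lit 208)) (rf (nat_lit 0)))) q107349 (by decide +kernel)
def q107371 : Q := Q.p (nat_lit 0x800002000008000020000000000000000000000000000000000000000000000000000) (nat_lit 0x10000040000100000400001c0000700000400000000000000000000000000000000000) (nat_lit 6)
theorem c107371 : QOK q107371 := cut [q107369] ⟨c107369, trivial⟩ (nd (nat_lit 188) (nat_lit 0) (cs (lf (nat_lit 34) (nat_lit 187)) (nd (nat_lit 187) (nat_lit 0) (cs (lf (nat_lit 35) (nat_lit 165)) (rf (nat_lit 0)))))) q107371 (by decide +kernel)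
def q107403 : Q := Q.p (nat_lit 0x2000008000020000000000000000000000000000000000000000000000000000) (nat_lit 0x100000c000010000040000400001c0000700001400000000000000000000000000000000000) (nat_lit 5)
theorem c107403 : QOK q107403 := cut [q1568, q80731, q80750] ⟨c1568, c80731, c80750, trivial⟩ (nd (nat_lit 187) (nat_lit 0) (cs (rf (nat_lit 0)) (cs (rf (nat_lit 1)) (rf (nat_lit 2))))) q107403 (by decide +kernel)
def q107422 : Q := Q.p (nat_lit 0x2000038000000000000000000000000000000000000000000000000000000000) (nat_lit 0xd0000c7000038000000000000000000000000000000000000000000000000000) (nat_lit 6)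
theorem c107422 : QOK q107422 := cut [q104371] ⟨c104371, trivial⟩ (nd (nat_lit 234) (nat_lit 0) (cs (lf (nat_lit 11) (nat_lit 230)) (rf (nat_lit 0)))) q107422 (by decide +kernel)
def q107446 : Q := Q.p (nat_lit 0x2000038000000000000000000000000000000000000000000000000000000000) (nat_lit 0x40003c40003f8000000000000000000000000000000000000000000000000000) (nat_lit 6)
theorem c107446 : QOK q107446 := cut [q97496, q101803, q103152] ⟨c97496, c101803, c103152, trivial⟩ (nd (nat_lit 234) (nat_lit 0) (cs (rf (nat_lit 0)) (cs (rf (nat_lit 1)) (rf (nat_lit 2))))) q107446 (by decide +kernel)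
def q107484 : Q := Q.p (nat_lit 0x1800002000018000040000000000000000000000000000000000000000000000000000) (nat_lit 0x380000e400005c000060003a0000200000000000000000000000000000000000000000000000) (nat_lit 8)
theorem c107484 : QOK q107484 := cut [q104082, q104099] ⟨c104082, c104099, trivial⟩ (nd (nat_lit 277) (nat_lit 0) (cs (rf (nat_lit 0)) (cs (nd (nat_lit 254) (nat_lit 0) (cs (lf (nat_lit 29) (nat_lit 210)) (nd (nat_lit 278) (nat_lit 0) (cs (lf (nat_lit 18) (nat_lit 253)) (nd (nat_lit 300) (nat_lit 0) (cs (lf (nat_lit 5) (nat_lit 275)) (rf (nat_lit 1)))))))) (nd (nat_lit 254) (nat_lit 0) (cs (lf (nat_lit 29) (nat_lit 210)) (nd (nat_lit 251) (nat_lit 0) (cs (lf (nat_lit 1) (nat_lit 251)) (rf (nat_lit 1))))))))) q107484 (by decide +kernel)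
def q107521 : Q := Q.p (nat_lit 0xc0000b000018000000000000000000000000000000000000000000000000000000000) (nat_lit 0x800006200004000066000040000100000000000000000000000000000000000000000000000) (nat_lit 6)
theorem c107521 : QOK q107521 := cut [q107518] ⟨c107518, trivial⟩ (nd (nat_lit 233) (nat_lit 0) (cs (lf (nat_lit 6) (nat_lit 230)) (nd (nat_lit 254) (nat_lit 0) (cs (lf (nat_lit 11) (nat_lit 251)) (nd (nat_lit 229) (nat_lit 0) (cs (lf (nat_lit 22) (nat_lit 229)) (rf (nat_lit 0)))))))) q107521 (by decide +kernel)
def q107524 : Q := Q.p (nat_lit 0x800003000008000000000000000000000000000000000000000000000000000000000) (nat_lit 0x40000100000400007400004c00000000020000000000000000000000000000000000000000000000000000) (nat_lit 4)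
theorem c107524 : QOK q107524 := cut [q97351, q104510] ⟨c97351, c104510, trivial⟩ (nd (nat_lit 276) (nat_lit 0) (cs (rf (nat_lit 0)) (rf (nat_lit 1)))) q107524 (by decide +kernel)
def q107536 : Q := Q.p (nat_lit 0x1800006000018000000000000000000000000000000000000000000000000000000000) (nat_lit 0x300003c00002600000000020000080000000000000000000000000000000000000000000000000000) (nat_lit 6)
theorem c107536 : QOK q107536 := cut [q107534] ⟨c107534, trivial⟩ (nd (nat_lit 298) (nat_lit 0) (cs (lf (nat_lit 42) (nat_lit 231)) (nd (nat_lit 211) (nat_lit 0) (cs (lf (nat_lit 34) (nat_lit 210)) (rf (nat_lit 0)))))) q107536 (by decide +kernel)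
def q107538 : Q := Q.p (nat_lit 0x1800006000018000000000000000000000000000000000000000000000000000000000) (nat_lit 0x1000004000000000010000e00000c0000100000000000000000000000000000000000000000000000) (nat_lit 5)
theorem c107538 : QOK q107538 := cut [q100002] ⟨c100002, trivial⟩ (nd (nat_lit 298) (nat_lit 0) (cs (lf (nat_lit 42) (nat_lit 231)) (nd (nat_lit 188) (nat_lit 0) (cs (lf (nat_lit 37) (nat_lit 187)) (rf (nat_lit 0)))))) q107538 (by decide +kernel)
def q107539 : Q := Q.p (nat_lit 0x1800006000018000000000000000000000000000000000000000000000000000000000) (nat_lit 0x300003c00002600000000000000000000000000000000000000000000000000000000000000000000) (nat_lit 5)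
theorem c107539 : QOK q107539 := cut [q107534] ⟨c107534, trivial⟩ (nd (nat_lit 298) (nat_lit 0) (cs (lf (nat_lit 42) (nat_lit 231)) (rf (nat_lit 0)))) q107539 (by decide +kernel)
def q107543 : Q := Q.p (nat_lit 0x800002000018000020000000000000000000000000000000000000000000000000000) (nat_lit 0x6400001c000040000000000000000000000000000000000000000000000) (nat_lit 4)
theorem c107543 : QOK q107543 := cut [q79283] ⟨c79283, trivial⟩ (nd (nat_lit 208) (nat_lit 0) (cs (lf (nat_lit 47) (nat_lit 186)) (rf (nat_lit 0)))) q107543 (by decide +kernel)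
def q107554 : Q := Q.p (nat_lit 0xf000000000000000000000000000000000000000000000000000000000000000) (nat_lit 0xe0000100000e0000000000000000000000000000000000000000000000000000000000) (nat_lit 4)
theorem c107554 : QOK q107554 := cut [q80423] ⟨c80423, trivial⟩ (nd (nat_lit 234) (nat_lit 0) (cs (lf (nat_lit 16) (nat_lit 230)) (rf (nat_lit 0)))) q107554 (by decide +kernel)
def q107577 : Q := Q.p (nat_lit 0x400006000008000020000000000000000000000000000000000000000000000000000) (nat_lit 0x100001b00018000000000040000100000000000000000000000000000000000000000000000) (nat_lit 5)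
theorem c107577 : QOK q107577 := cut [q101882] ⟨c101882, trivial⟩ (nd (nat_lit 275) (nat_lit 0) (cs (lf (nat_lit 41) (nat_lit 208)) (nd (nat_lit 188) (nat_lit 0) (cs (lf (nat_lit 34) (nat_lit 187)) (rf (nat_lit 0)))))) q107577 (by decide +kernel)
def q107709 : Q := Q.p (nat_lit 0x1000006800006000000000000000000000000000000000000000000000000000000000) (nat_lit 0x80002300001000000000010000040000000000000000000000000000000000000000000000) (nat_lit 4)
theorem c107709 : QOK q107709 := cut [q85550] ⟨c85550, trivial⟩ (nd (nat_lit 252) (nat_lit 0) (cs (lf (nat_lit 5) (nat_lit 251)) (rf (nat_lit 0)))) q107709 (by decide +kernel)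
def q107748 : Q := Q.p (nat_lit 0x800003000008000020000000000000000000000000000000000000000000000000000) (nat_lit 0x20000080000300000400000000014000040000100000000000000000000000000000000000000000000000) (nat_lit 5)
theorem c107748 : QOK q107748 := cut [q92704] ⟨c92704, trivial⟩ (nd (nat_lit 274) (nat_lit 0) (cs (lf (nat_lit 41) (nat_lit 208)) (rf (nat_lit 0)))) q107748 (by decide +kernel)
def q107817 : Q := Q.p (nat_lit 0x80000700000c000000000000000000000000000000000000000000000000000000000) (nat_lit 0x380001e00006600018800070000180000200000800000000000000000000000000000000000000000) (nat_lit 11)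
theorem c107817 : QOK q107817 := cut [q107809] ⟨c107809, trivial⟩ (nd (nat_lit 297) (nat_lit 0) (cs (lf (nat_lit 42) (nat_lit 230)) (nd (nat_lit 298) (nat_lit 0) (cs (lf (nat_lit 29) (nat_lit 231)) (nd (nat_lit 255) (nat_lit 0) (cs (lf (nat_lit 18) (nat_lit 230)) (nd (nat_lit 233) (nat_lit 0) (cs (lf (nat_lit 17) (nat_lit 230)) (nd (nat_lit 232) (nat_lit 0) (cs (lf (nat_lit 12) (nat_lit 229)) (nd (nat_lit 211) (nat_lit 0) (cs (lf (nat_lit 17) (nat_lit 208)) (nd (nat_lit 167) (nat_lit 0) (cs (lf (nat_lit 37) (nat_lit 166)) (nd (nat_lit 277) (nat_lit 0) (cs (lf (nat_lit 5) (nat_lit 252)) (rf (nat_lit 0)))))))))))))))))) q107817 (by decide +kernel)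
def q107845 : Q := Q.p (nat_lit 0x200000c0000600000e000000000000000000000000000000000000000000000000000000000) (nat_lit 0x80000740001d8000700000100001000000f000000000000000000000000000000000000000000000000000) (nat_lit 10)
theorem c107845 : QOK q107845 := cut [q107840] ⟨c107840, trivial⟩ (nd (nat_lit 298) (nat_lit 0) (cs (lf (nat_lit 29) (nat_lit 231)) (nd (nat_lit 296) (nat_lit 0) (cs (lf (nat_lit 41) (nat_lit 230)) (nd (nat_lit 207) (nat_lit 0) (cs (lf (nat_lit 44) (nat_lit 207)) (nd (nat_lit 206) (nat_lit 0) (cs (lf (nat_lit 18) (nat_lit 206)) (nd (nat_lit 204) (nat_lit 0) (cs (lf (nat_lit 1) (nat_lit 204)) (rf (nat_lit 0)))))))))))) q107845 (by decide +kernel)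
def q107846 : Q := Q.p (nat_lit 0x300000d00000000006000000000000000000000000000000000000000000000000000000000) (nat_lit 0x200000e0000080001000000000008000000000000000000000000000000000000000000000000000) (nat_lit 4)
theorem c107846 : QOK q107846 := cut [q99383] ⟨c99383, trivial⟩ (nd (nat_lit 252) (nat_lit 0) (cs (lf (nat_lit 47) (nat_lit 207)) (rf (nat_lit 0)))) q107846 (by decide +kernel)
def q107861 : Q := Q.p (nat_lit 0x200000800002000008000000000000000000000000000000000000000000000000000000000) (nat_lit 0x200000800004000010000040000140000300000c0000000000000000000000000000000000000000000000) (nat_lit 6)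
theorem c107861 : QOK q107861 := cut [q99254] ⟨c99254, trivial⟩ (nd (nat_lit 208) (nat_lit 0) (cs (lf (nat_lit 46) (nat_lit 208)) (nd (nat_lit 209) (nat_lit 0) (cs (lf (nat_lit 47) (nat_lit 186)) (nd (nat_lit 276) (nat_lit 0) (cs (lf (nat_lit 29) (nat_lit 209)) (rf (nat_lit 0)))))))) q107861 (by decide +kernel)
def q107933 : Q := Q.p (nat_lit 0x1a000030000000000000000000000000000000000000000000000000000) (nat_lit 0x50003cc000e30000000000000000000000000000000000000000000000) (nat_lit 7)
theorem c107933 : QOK q107933 := cut [q16624] ⟨c16624, trivial⟩ (nd (nat_lit 207) (nat_lit 0) (cs (lf (nat_lit 0) (nat_lit 206)) (nd (nat_lit 210) (nat_lit 0) (cs (lf (nat_lit 11) (nat_lit 206)) (nd (nat_lit 184) (nat_lit 0) (cs (lf (nat_lit 22) (nat_lit 184)) (nd (nat_lit 211) (nat_lit 0) (cs (rf (nat_lit 0)) (lf (nat_lit 13) (nat_lit 207)))))))))) q107933 (by decide +kernel)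
def q107959 : Q := Q.p (nat_lit 0x3c000030000000000000000000000000000000000000000000000000000) (nat_lit 0x40000020001c0000600000800002000000000000000000000000000000000000) (nat_lit 5)
theorem c107959 : QOK q107959 := cut [q93199] ⟨c93199, trivial⟩ (nd (nat_lit 211) (nat_lit 0) (cs (lf (nat_lit 17) (nat_lit 208)) (nd (nat_lit 210) (nat_lit 0) (cs (lf (nat_lit 12) (nat_lit 207)) (rf (nat_lit 0)))))) q107959 (by decide +kernel)
def q108146 : Q := Q.p (nat_lit 0xc00006800000000000000000000000000000000000000000000000000000000000000) (nat_lit 0x1300001700000000000000000000000000000000000000000000000000000000000000) (nat_lit 4)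
theorem c108146 : QOK q108146 := cut [q11768] ⟨c11768, trivial⟩ (nd (nat_lit 273) (nat_lit 0) (cs (rf (nat_lit 0)) (lf (nat_lit 12) (nat_lit 250)))) q108146 (by decide +kernel)
def q108163 : Q := Q.p (nat_lit 0x100000e00000800000000000000000000000000000000000000000000000000000000000000) (nat_lit 0xc0003000000400002000008000000000000000000000000000000000000000000000000000) (nat_lit 4)
theorem c108163 : QOK q108163 := cut [q22077] ⟨c22077, trivial⟩ (nd (nat_lit 207) (nat_lit 0) (cs (lf (nat_lit 25) (nat_lit 207)) (rf (nat_lit 0)))) q108163 (by decide +kernel)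
def q108182 : Q := Q.p (nat_lit 0xe00002000008000000000000000000000000000000000000000000000000000000000) (nat_lit 0x170001180001f00016000008000020000000000000000000000000000000000000000000000) (nat_lit 8)
theorem c108182 : QOK q108182 := cut [q12673, q22195, q98852] ⟨c12673, c22195, c98852, trivial⟩ (nd (nat_lit 272) (nat_lit 0) (cs (rf (nat_lit 0)) (cs (rf (nat_lit 1)) (cs (rf (nat_lit 2)) (nd (nat_lit 293) (nat_lit 0) (cs (lf (nat_lit 10) (nat_lit 271)) (nd (nat_lit 250) (nat_lit 0) (cs (lf (nat_lit 23) (nat_lit 249)) (nd (nat_lit 251) (nat_lit 0) (cs (lf (nat_lit 18) (nat_lit 250)) (nd (nat_lit 232) (nat_lit 0) (cs (lf (nat_lit 14) (nat_lit 228)) (nd (nat_lit 229) (nat_lit 0) (cs (lf (nat_lit 8) (nat_lit 228)) (nd (nat_lit 207) (nat_lit 0) (cs (lf (nat_lit 36) (nat_lit 184)) (lf (nat_lit 29) (nat_lit 207)))))))))))))))))) q108182 (by decide +kernel)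
def q108188 : Q := Q.p (nat_lit 0x1e00006000000000000000000000000000000000000000000000000000000000000000) (nat_lit 0x39c000e000000000000000000000000000000000000000000000000000000000000000000000) (nat_lit 5)
theorem c108188 : QOK q108188 := cut [q108186] ⟨c108186, trivial⟩ (nd (nat_lit 295) (nat_lit 0) (cs (lf (nat_lit 11) (nat_lit 272)) (nd (nat_lit 277) (nat_lit 0) (cs (lf (nat_lit 10) (nat_lit 273)) (rf (nat_lit 0)))))) q108188 (by decide +kernel)
def q108217 : Q := Q.p (nat_lit 0x800002000008000020000000000000000000000000000000000000000000000000000) (nat_lit 0x8000030000170001d80007400005c000040000000000000000000000000000000000000000000000) (nat_lit 11)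
theorem c108217 : QOK q108217 := cut [q97337] ⟨c97337, trivial⟩ (nd (nat_lit 274) (nat_lit 0) (cs (lf (nat_lit 41) (nat_lit 208)) (nd (nat_lit 208) (nat_lit 0) (cs (lf (nat_lit 47) (nat_lit 186)) (nd (nat_lit 297) (nat_lit 0) (cs (lf (nat_lit 46) (nat_lit 208)) (nd (nat_lit 232) (nat_lit 0) (cs (lf (nat_lit 35) (nat_lit 209)) (nd (nat_lit 233) (nat_lit 0) (cs (lf (nat_lit 18) (nat_lit 208)) (nd (nat_lit 206) (nat_lit 0) (cs (lf (nat_lit 1) (nat_lit 206)) (nd (nat_lit 254) (nat_lit 0) (cs (lf (nat_lit 30) (nat_lit 231)) (nd (nat_lit 251) (nat_lit 0) (cs (lf (nat_lit 13) (nat_lit 229)) (rf (nat_lit 0)))))))))))))))))) q108217 (by decide +kernel)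
def q108221 : Q := Q.p (nat_lit 0x400002000008000020000000000000000000000000000000000000000000000000000) (nat_lit 0x10000050000100000000000c0000300000400000000000000000000000000000000000) (nat_lit 5)
theorem c108221 : QOK q108221 := cut [q107369] ⟨c107369, trivial⟩ (nd (nat_lit 187) (nat_lit 0) (cs (lf (nat_lit 40) (nat_lit 186)) (rf (nat_lit 0)))) q108221 (by decide +kernel)
def q108258 : Q := Q.p (nat_lit 0x200000800002000008000000000000000000000000000000000000000000000000000000000) (nat_lit 0x80000000000000001800074000050000000000000000000000000000000000000000000000000000) (nat_lit 5)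
theorem c108258 : QOK q108258 := cut [q87998] ⟨c87998, trivial⟩ (nd (nat_lit 230) (nat_lit 0) (cs (lf (nat_lit 47) (nat_lit 208)) (nd (nat_lit 252) (nat_lit 0) (cs (lf (nat_lit 42) (nat_lit 230)) (rf (nat_lit 0)))))) q108258 (by decide +kernel)
def q108263 : Q := Q.p (nat_lit 0x1800007800000000000000000000000000000000000000000000000000000000000000) (nat_lit 0x7000380000e0000000000000000000000000000000000000000000000000000000000) (nat_lit 5)
theorem c108263 : QOK q108263 := cut [q108262] ⟨c108262, trivial⟩ (nd (nat_lit 273) (nat_lit 0) (cs (lf (nat_lit 11) (nat_lit 250)) (rf (nat_lit 0)))) q108263 (by decide +kernel)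
def q108281 : Q := Q.p (nat_lit 0x200000800003000000000000000000000000000000000000000000000000000000000000000) (nat_lit 0x700001c0000000003000004c00014000000000000000000000000000000000000000000000000000000000) (nat_lit 7)
theorem c108281 : QOK q108281 := cut [q108279] ⟨c108279, trivial⟩ (nd (nat_lit 319) (nat_lit 0) (cs (lf (nat_lit 47) (nat_lit 230)) (nd (nat_lit 320) (nat_lit 0) (cs (lf (nat_lit 29) (nat_lit 253)) (rf (nat_lit 0)))))) q108281 (by decide +kernel)
def q108299 : Q := Q.p (nat_lit 0x380000800002000000000000000000000000000000000000000000000000000000000000000) (nat_lit 0x10000778001c600007c0005800002000008000000000000000000000000000000000000000000000000000) (nat_lit 9)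
theorem c108299 : QOK q108299 := cut [q89357, q89417, q108291, q108293, q108298] ⟨c89357, c89417, c108291, c108293, c108298, trivial⟩ (nd (nat_lit 272) (nat_lit 0) (cs (rf (nat_lit 0)) (cs (rf (nat_lit 1)) (cs (rf (nat_lit 2)) (cs (rf (nat_lit 3)) (rf (nat_lit 4))))))) q108299 (by decide +kernel)
def q108319 : Q := Q.p (nat_lit 0x80000200000800002000000000000000000000000000000000000000000000000000000000000000) (nat_lit 0x1000004000010000000000100000c000010000000000000000000000000000000000000000000000000000) (nat_lit 4)
theorem c108319 : QOK q108319 := cut [q108318] ⟨c108318, trivial⟩ (nd (nat_lit 318) (nat_lit 0) (cs (lf (nat_lit 41) (nat_lit 252)) (rf (nat_lit 0)))) q108319 (by decide +kernel)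
def q108327 : Q := Q.p (nat_lit 0x80000200000800002000000000000000000000000000000000000000000000000000000000000000) (nat_lit 0x20000000000000003000005c00014000000000000000000000000000000000000000000000000000000000) (nat_lit 5)
theorem c108327 : QOK q108327 := cut [q101734] ⟨c101734, trivial⟩ (nd (nat_lit 254) (nat_lit 0) (cs (lf (nat_lit 35) (nat_lit 231)) (nd (nat_lit 276) (nat_lit 0) (cs (lf (nat_lit 30) (nat_lit 253)) (rf (nat_lit 0)))))) q108327 (by decide +kernel)
def q108350 : Q := Q.p (nat_lit 0x200000800002000000000000000000000000000000000000000000000000000000000000000) (nat_lit 0x80000700003c00005c000170001d000018000040000000000000000000000000000000000000000000000000000) (nat_lit 11)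
theorem c108350 : QOK q108350 := cut [q89529, q89625, q108321, q22047] ⟨c89529, c89625, c108321, c22047, trivial⟩ (nd (nat_lit 319) (nat_lit 0) (cs (rf (nat_lit 0)) (cs (rf (nat_lit 1)) (cs (rf (nat_lit 2)) (nd (nat_lit 320) (nat_lit 0) (cs (lf (nat_lit 29) (nat_lit 253)) (nd (nat_lit 318) (nat_lit 0) (cs (lf (nat_lit 41) (nat_lit 252)) (nd (nat_lit 254) (nat_lit 0) (cs (lf (nat_lit 35) (nat_lit 231)) (nd (nat_lit 341) (nat_lit 0) (cs (lf (nat_lit 34) (nat_lit 253)) (nd (nat_lit 274) (nat_lit 0) (cs (lf (nat_lit 47) (nat_lit 252)) (nd (nat_lit 272) (nat_lit 0) (cs (lf (nat_lit 13) (nat_lit 250)) (nd (nat_lit 255) (nat_lit 0) (cs (lf (nat_lit 6) (nat_lit 252)) (nd (nat_lit 296) (nat_lit 0) (cs (lf (nat_lit 42) (nat_lit 274)) (rf (nat_lit 3)))))))))))))))))))))) q108350 (by decide +kernel)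
def q108359 : Q := Q.p (nat_lit 0x1e00002000000000000000000000000000000000000000000000000000000000000000) (nat_lit 0xe0000380000d0000200000dc00033000048000120000000000000000000000000000000000000000000000) (nat_lit 12)
theorem c108359 : QOK q108359 := cut [q83685] ⟨c83685, trivial⟩ (nd (nat_lit 254) (nat_lit 0) (cs (lf (nat_lit 17) (nat_lit 251)) (nd (nat_lit 251) (nat_lit 0) (cs (lf (nat_lit 23) (nat_lit 250)) (nd (nat_lit 298) (nat_lit 0) (cs (lf (nat_lit 5) (nat_lit 273)) (nd (nat_lit 320) (nat_lit 0) (cs (lf (nat_lit 42) (nat_lit 253)) (nd (nat_lit 252) (nat_lit 0) (cs (lf (nat_lit 5) (nat_lit 251)) (nd (nat_lit 232) (nat_lit 0) (cs (lf (nat_lit 17) (nat_lit 229)) (nd (nat_lit 188) (nat_lit 0) (cs (lf (nat_lit 37) (nat_lit 187)) (nd (nat_lit 321) (nat_lit 0) (cs (lf (nat_lit 29) (nat_lit 254)) (nd (nat_lit 319) (nat_lit 0) (cs (lf (nat_lit 41) (nat_lit 253)) (rf (nat_lit 0)))))))))))))))))))) q108359 (by decide +kernel)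
def q108362 : Q := Q.p (nat_lit 0x1800006800000000000000000000000000000000000000000000000000000000000000) (nat_lit 0x200002000001000030000040000100000000000000000000000000000000000000000000000) (nat_lit 4)
theorem c108362 : QOK q108362 := cut [q98880] ⟨c98880, trivial⟩ (nd (nat_lit 252) (nat_lit 0) (cs (lf (nat_lit 5) (nat_lit 251)) (rf (nat_lit 0)))) q108362 (by decide +kernel)
def q108365 : Q := Q.p (nat_lit 0xc00007000000000000000000000000000000000000000000000000000000000000000) (nat_lit 0x200000000018000006000010000040000000000000000000000000000000000000000000000) (nat_lit 4)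
theorem c108365 : QOK q108365 := cut [q99087] ⟨c99087, trivial⟩ (nd (nat_lit 255) (nat_lit 0) (cs (lf (nat_lit 6) (nat_lit 252)) (rf (nat_lit 0)))) q108365 (by decide +kernel)
def q108380 : Q := Q.p (nat_lit 0xc00003800000000000000000000000000000000000000000000000000000000000000) (nat_lit 0x20000700001c000070000040000100000000000000000000000000000000000000000000000) (nat_lit 5)
theorem c108380 : QOK q108380 := cut [q108366, q98880] ⟨c108366, c98880, trivial⟩ (nd (nat_lit 254) (nat_lit 0) (cs (rf (nat_lit 0)) (cs (nd (nat_lit 276) (nat_lit 0) (cs (lf (nat_lit 18) (nat_lit 251)) (rf (nat_lit 1)))) (nd (nat_lit 255) (nat_lit 0) (cs (lf (nat_lit 6) (nat_lit 252)) (nd (nat_lit 277) (nat_lit 0) (cs (lf (nat_lit 19) (nat_lit 251)) (lf (nat_lit 5) (nat_lit 252))))))))) q108380 (by decide +kernel)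
def q108404 : Q := Q.p (nat_lit 0xc00007000000000000000000000000000000000000000000000000000000000000000) (nat_lit 0x80000300000380000e00033800048000120000000000000000000000000000000000000000000000) (nat_lit 8)
theorem c108404 : QOK q108404 := cut [q108395, q83685, q108403] ⟨c108395, c83685, c108403, trivial⟩ (nd (nat_lit 251) (nat_lit 0) (cs (rf (nat_lit 0)) (cs (nd (nat_lit 273) (nat_lit 0) (cs (lf (nat_lit 12) (nat_lit 250)) (nd (nat_lit 232) (nat_lit 0) (cs (lf (nat_lit 17) (nat_lit 229)) (nd (nat_lit 188) (nat_lit 0) (cs (lf (nat_lit 37) (nat_lit 187)) (nd (nat_lit 297) (nat_lit 0) (cs (lf (nat_lit 30) (nat_lit 231)) (rf (nat_lit 1)))))))))) (rf (nat_lit 2))))) q108404 (by decide +kernel)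
def q108412 : Q := Q.p (nat_lit 0xc00007000000000000000000000000000000000000000000000000000000000000000) (nat_lit 0x80000200000380000e00037800058000160000000000000000000000000000000000000000000000) (nat_lit 9)
theorem c108412 : QOK q108412 := cut [q108395, q108403, q108410] ⟨c108395, c108403, c108410, trivial⟩ (nd (nat_lit 251) (nat_lit 0) (cs (rf (nat_lit 0)) (cs (rf (nat_lit 1)) (nd (nat_lit 273) (nat_lit 0) (cs (lf (nat_lit 11) (nat_lit 250)) (rf (nat_lit 2))))))) q108412 (by decide +kernel)
def q108441 : Q := Q.p (nat_lit 0x1c00003000000000000000000000000000000000000000000000000000000000000000) (nat_lit 0x80000200001e0000380000e00004000010000000000000000000000000000000000000000000000000000) (nat_lit 6)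
theorem c108441 : QOK q108441 := cut [q2180, q12665, q98386] ⟨c2180, c12665, c98386, trivial⟩ (nd (nat_lit 273) (nat_lit 0) (cs (rf (nat_lit 0)) (cs (rf (nat_lit 1)) (nd (nat_lit 295) (nat_lit 0) (cs (lf (nat_lit 11) (nat_lit 272)) (nd (nat_lit 250) (nat_lit 0) (cs (lf (nat_lit 22) (nat_lit 250)) (rf (nat_lit 2))))))))) q108441 (by decide +kernel)
def q108449 : Q := Q.p (nat_lit 0x1e00003800000000000000000000000000000000000000000000000000000000000000) (nat_lit 0x58000160000dc000000000000000300000c000030000000000000000000000000000000000000000000000) (nat_lit 9)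
theorem c108449 : QOK q108449 := cut [q108446] ⟨c108446, trivial⟩ (nd (nat_lit 298) (nat_lit 0) (cs (lf (nat_lit 5) (nat_lit 273)) (nd (nat_lit 320) (nat_lit 0) (cs (lf (nat_lit 42) (nat_lit 253)) (nd (nat_lit 295) (nat_lit 0) (cs (lf (nat_lit 11) (nat_lit 272)) (rf (nat_lit 0)))))))) q108449 (by decide +kernel)
def q108486 : Q := Q.p (nat_lit 0x1e00000000000000000000000000000000000000000000000000000000000000000000) (nat_lit 0x1cc0002000001c00000000000000000000000000000000000000000000000000000000000000) (nat_lit 5)
theorem c108486 : QOK q108486 := cut [q108484] ⟨c108484, trivial⟩ (nd (nat_lit 251) (nat_lit 0) (cs (lf (nat_lit 23) (nat_lit 250)) (nd (nat_lit 294) (nat_lit 0) (cs (lf (nat_lit 10) (nat_lit 272)) (rf (nat_lit 0)))))) q108486 (by decide +kernel)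
def q108508 : Q := Q.p (nat_lit 0x3c0000c000000000000000000000000000000000000000000000000000000000000000) (nat_lit 0xc0000300001c00000000000000060000180000600000000000000000000000000000000000000000000000) (nat_lit 7)
theorem c108508 : QOK q108508 := cut [q108505] ⟨c108505, trivial⟩ (nd (nat_lit 299) (nat_lit 0) (cs (lf (nat_lit 5) (nat_lit 274)) (nd (nat_lit 321) (nat_lit 0) (cs (lf (nat_lit 42) (nat_lit 254)) (nd (nat_lit 320) (nat_lit 0) (cs (lf (nat_lit 41) (nat_lit 254)) (rf (nat_lit 0)))))))) q108508 (by decide +kernel)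
def q108618 : Q := Q.p (nat_lit 0x20000080000e00002000000000000000000000000000000000000000000000000000000000000000) (nat_lit 0x700001c000050000160000000000c0000300000c000000000000000000000000000000000000000000000000000) (nat_lit 9)
theorem c108618 : QOK q108618 := cut [q55099, q55102, q55104] ⟨c55099, c55102, c55104, trivial⟩ (nd (nat_lit 340) (nat_lit 0) (cs (rf (nat_lit 0)) (cs (rf (nat_lit 1)) (cs (rf (nat_lit 2)) (nd (nat_lit 339) (nat_lit 0) (cs (lf (nat_lit 29) (nat_lit 273)) (nd (nat_lit 296) (nat_lit 0) (cs (lf (nat_lit 30) (nat_lit 273)) (nd (nat_lit 293) (nat_lit 0) (cs (lf (nat_lit 13) (nat_lit 271)) (nd (nat_lit 338) (nat_lit 0) (cs (lf (nat_lit 41) (nat_lit 272)) (nd (nat_lit 251) (nat_lit 0) (cs (lf (nat_lit 40) (nat_lit 250)) (nd (nat_lit 228) (nat_lit 0) (cs (lf (nat_lit 46) (nat_lit 228)) (nd (nat_lit 229) (nat_lit 0) (cs (lf (nat_lit 47) (nat_lit 206)) (lf (nat_lit 24) (nat_lit 207)))))))))))))))))))) q108618 (by decide +kernel)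
def q108642 : Q := Q.p (nat_lit 0x180000e00000000000000000000000000000000000000000000000000000000000000000000) (nat_lit 0x40000000003000000c00002000008000000000000000000000000000000000000000000000000000) (nat_lit 4)
theorem c108642 : QOK q108642 := cut [q108641] ⟨c108641, trivial⟩ (nd (nat_lit 276) (nat_lit 0) (cs (lf (nat_lit 6) (nat_lit 273)) (rf (nat_lit 0)))) q108642 (by decide +kernel)
def q108673 : Q := Q.p (nat_lit 0xe00002000000000000000000000000000000000000000000000000000000000000000) (nat_lit 0x1f80007180039f00000000000000000000000000000000000000000000000000000000000000) (nat_lit 8)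
theorem c108673 : QOK q108673 := cut [q14658, q22115, q54899] ⟨c14658, c22115, c54899, trivial⟩ (nd (nat_lit 250) (nat_lit 0) (cs (rf (nat_lit 0)) (cs (rf (nat_lit 1)) (nd (nat_lit 276) (nat_lit 0) (cs (lf (nat_lit 22) (nat_lit 250)) (nd (nat_lit 299) (nat_lit 0) (cs (lf (nat_lit 4) (nat_lit 273)) (nd (nat_lit 277) (nat_lit 0) (cs (lf (nat_lit 5) (nat_lit 274)) (nd (nat_lit 295) (nat_lit 0) (cs (lf (nat_lit 10) (nat_lit 273)) (rf (nat_lit 2))))))))))))) q108673 (by decide +kernel)
def q108693 : Q := Q.p (nat_lit 0x800003800000000000000000000000000000000000000000000000000000000000000) (nat_lit 0x5c000460003bc00000000000000000000000000000000000000000000000000000000) (nat_lit 6)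
theorem c108693 : QOK q108693 := cut [q1998, q2090, q89875] ⟨c1998, c2090, c89875, trivial⟩ (nd (nat_lit 250) (nat_lit 0) (cs (rf (nat_lit 0)) (cs (rf (nat_lit 1)) (rf (nat_lit 2))))) q108693 (by decide +kernel)
def q108731 : Q := Q.p (nat_lit 0x3c00003000000000000000000000000000000000000000000000000000000000000000) (nat_lit 0x40000020001c000066000080000200000000000000000000000000000000000000000000000) (nat_lit 6)
theorem c108731 : QOK q108731 := cut [q105254] ⟨c105254, trivial⟩ (nd (nat_lit 255) (nat_lit 0) (cs (lf (nat_lit 17) (nat_lit 252)) (nd (nat_lit 254) (nat_lit 0) (cs (lf (nat_lit 12) (nat_lit 251)) (nd (nat_lit 229) (nat_lit 0) (cs (lf (nat_lit 22) (nat_lit 229)) (rf (nat_lit 0)))))))) q108731 (by decide +kernel)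
def q108742 : Q := Q.p (nat_lit 0x3c00003000000000000000000000000000000000000000000000000000000000000000) (nat_lit 0x20000180000020001c0000760000c0000200000000000000000000000000000000000000000000000) (nat_lit 8)
theorem c108742 : QOK q108742 := cut [q81824] ⟨c81824, trivial⟩ (nd (nat_lit 255) (nat_lit 0) (cs (lf (nat_lit 17) (nat_lit 252)) (nd (nat_lit 254) (nat_lit 0) (cs (lf (nat_lit 12) (nat_lit 251)) (nd (nat_lit 229) (nat_lit 0) (cs (lf (nat_lit 22) (nat_lit 229)) (nd (nat_lit 233) (nat_lit 0) (cs (lf (nat_lit 17) (nat_lit 230)) (nd (nat_lit 189) (nat_lit 0) (cs (lf (nat_lit 37) (nat_lit 188)) (rf (nat_lit 0)))))))))))) q108742 (by decide +kernel)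
def q108824 : Q := Q.p (nat_lit 0x1800007800000000000000000000000000000000000000000000000000000000000000) (nat_lit 0x100000c00000700008000008000020000000000000000000000000000000000000000000000000000) (nat_lit 5)
theorem c108824 : QOK q108824 := cut [q94412] ⟨c94412, trivial⟩ (nd (nat_lit 273) (nat_lit 0) (cs (lf (nat_lit 11) (nat_lit 250)) (nd (nat_lit 274) (nat_lit 0) (cs (lf (nat_lit 17) (nat_lit 251)) (rf (nat_lit 0)))))) q108824 (by decide +kernel)
def q108839 : Q := Q.p (nat_lit 0x1c00007000000000000000000000000000000000000000000000000000000000000000) (nat_lit 0x48000120000dc0000300000000004000010000000000000000000000000000000000000000000000000000) (nat_lit 7)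
theorem c108839 : QOK q108839 := cut [q98386] ⟨c98386, trivial⟩ (nd (nat_lit 273) (nat_lit 0) (cs (lf (nat_lit 12) (nat_lit 250)) (nd (nat_lit 295) (nat_lit 0) (cs (lf (nat_lit 11) (nat_lit 272)) (nd (nat_lit 298) (nat_lit 0) (cs (lf (nat_lit 5) (nat_lit 273)) (nd (nat_lit 320) (nat_lit 0) (cs (lf (nat_lit 42) (nat_lit 253)) (rf (nat_lit 0)))))))))) q108839 (by decide +kernel)
def q108864 : Q := Q.p (nat_lit 0x800007800000000000000000000000000000000000000000000000000000000000000) (nat_lit 0x3400038000007000000000000000000000000000000000000000000000000000000000) (nat_lit 5)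
theorem c108864 : QOK q108864 := cut [q102914] ⟨c102914, trivial⟩ (nd (nat_lit 276) (nat_lit 0) (cs (lf (nat_lit 5) (nat_lit 251)) (rf (nat_lit 0)))) q108864 (by decide +kernel)
def q108913 : Q := Q.p (nat_lit 0x800003800000000000000000000000000000000000000000000000000000000000000) (nat_lit 0x7c0004600039c00000000000000000000000000000000000000000000000000000000) (nat_lit 6)
theorem c108913 : QOK q108913 := cut [q1998, q2090, q89927] ⟨c1998, c2090, c89927, trivial⟩ (nd (nat_lit 250) (nat_lit 0) (cs (rf (nat_lit 0)) (cs (rf (nat_lit 1)) (nd (nat_lit 227) (nat_lit 0) (cs (lf (nat_lit 22) (nat_lit 227)) (rf (nat_lit 2))))))) q108913 (by decide +kernel)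
def q108918 : Q := Q.p (nat_lit 0xa00003800000000000000000000000000000000000000000000000000000000000000) (nat_lit 0x350003c0000e0000000000000000000000000000000000000000000000000000000000) (nat_lit 6)
theorem c108918 : QOK q108918 := cut [q108916] ⟨c108916, trivial⟩ (nd (nat_lit 254) (nat_lit 0) (cs (lf (nat_lit 11) (nat_lit 250)) (nd (nat_lit 276) (nat_lit 0) (cs (lf (nat_lit 5) (nat_lit 251)) (rf (nat_lit 0)))))) q108918 (by decide +kernel)
def q108923 : Q := Q.p (nat_lit 0x800003800000000000000000000000000000000000000000000000000000000000000) (nat_lit 0x7c0004600003c00000000000000000000000000000000000000000000000000000000) (nat_lit 5)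
theorem c108923 : QOK q108923 := cut [q1998, q2090, q94045] ⟨c1998, c2090, c94045, trivial⟩ (nd (nat_lit 250) (nat_lit 0) (cs (rf (nat_lit 0)) (cs (rf (nat_lit 1)) (rf (nat_lit 2))))) q108923 (by decide +kernel)
def q108924 : Q := Q.p (nat_lit 0x800003800001000000000000000000000000000000000000000000000000000000000) (nat_lit 0x40000060001c800000000000000000000000000000000000000000000000000000000) (nat_lit 4)
theorem c108924 : QOK q108924 := cut [q26064] ⟨c26064, trivial⟩ (nd (nat_lit 250) (nat_lit 0) (cs (lf (nat_lit 23) (nat_lit 227)) (rf (nat_lit 0)))) q108924 (by decide +kernel)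
def q108970 : Q := Q.p (nat_lit 0x900003800000000000000000000000000000000000000000000000000000000000000) (nat_lit 0x48000060001c000000000000000000000000000000000000000000000000000000000) (nat_lit 4)
theorem c108970 : QOK q108970 := cut [q23550] ⟨c23550, trivial⟩ (nd (nat_lit 250) (nat_lit 0) (cs (lf (nat_lit 11) (nat_lit 249)) (rf (nat_lit 0)))) q108970 (by decide +kernel)
def q108981 : Q := Q.p (nat_lit 0x200003800000000000000000000000000000000000000000000000000000000000000) (nat_lit 0x750000c000000000000000000000000000000000000000000000000000000000000000) (nat_lit 4)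
theorem c108981 : QOK q108981 := cut [q98762] ⟨c98762, trivial⟩ (nd (nat_lit 254) (nat_lit 0) (cs (lf (nat_lit 11) (nat_lit 250)) (rf (nat_lit 0)))) q108981 (by decide +kernel)
def q108991 : Q := Q.p (nat_lit 0x800002000008000020000000000000000000000000000000000000000000000000000) (nat_lit 0x5000014000040000000000100000c0000100000000000000000000000000000000000000000) (nat_lit 5)
theorem c108991 : QOK q108991 := cut [q98358] ⟨c98358, trivial⟩ (nd (nat_lit 186) (nat_lit 0) (cs (lf (nat_lit 46) (nat_lit 186)) (nd (nat_lit 274) (nat_lit 0) (cs (lf (nat_lit 41) (nat_lit 208)) (rf (nat_lit 0)))))) q108991 (by decide +kernel)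
def q109000 : Q := Q.p (nat_lit 0x800002000008000020000000000000000000000000000000000000000000000000000) (nat_lit 0x10000040000100000100001c0000700001000000000000000000000000000000000000) (nat_lit 6)
theorem c109000 : QOK q109000 := cut [q97802] ⟨c97802, trivial⟩ (nd (nat_lit 186) (nat_lit 0) (cs (lf (nat_lit 46) (nat_lit 186)) (nd (nat_lit 187) (nat_lit 0) (cs (lf (nat_lit 47) (nat_lit 164)) (rf (nat_lit 0)))))) q109000 (by decide +kernel)
def q109004 : Q := Q.p (nat_lit 0x800002000008000000000000000000000000000000000000000000000000000000000) (nat_lit 0x400001c0000700001400004000010000060000100000000000000000000000000000000000000000000000) (nat_lit 5)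
theorem c109004 : QOK q109004 := cut [q81211, q82063, q98797] ⟨c81211, c82063, c98797, trivial⟩ (nd (nat_lit 297) (nat_lit 0) (cs (rf (nat_lit 0)) (cs (rf (nat_lit 1)) (rf (nat_lit 2))))) q109004 (by decide +kernel)
def q109033 : Q := Q.p (nat_lit 0x200000800002000038000000000000000000000000000000000000000000000000000000000) (nat_lit 0x14000050000240003d0000c0000300000400001000000000000000000000000000000000000000000) (nat_lit 9)
theorem c109033 : QOK q109033 := cut [q79388] ⟨c79388, trivial⟩ (nd (nat_lit 234) (nat_lit 0) (cs (lf (nat_lit 11) (nat_lit 230)) (nd (nat_lit 212) (nat_lit 0) (cs (lf (nat_lit 17) (nat_lit 209)) (nd (nat_lit 256) (nat_lit 0) (cs (lf (nat_lit 5) (nat_lit 231)) (nd (nat_lit 296) (nat_lit 0) (cs (lf (nat_lit 41) (nat_lit 230)) (nd (nat_lit 298) (nat_lit 0) (cs (lf (nat_lit 29) (nat_lit 231)) (nd (nat_lit 254) (nat_lit 0) (cs (lf (nat_lit 6) (nat_lit 231)) (rf (nat_lit 0)))))))))))))) q109033 (by decide +kernel)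
def q109037 : Q := Q.p (nat_lit 0x3c000000000000000000000000000000000000000000000000000000000) (nat_lit 0x1ce0000300000e000000000000000000000000000000000000000000000000000) (nat_lit 6)
theorem c109037 : QOK q109037 := cut [q109035] ⟨c109035, trivial⟩ (nd (nat_lit 255) (nat_lit 0) (cs (lf (nat_lit 5) (nat_lit 230)) (nd (nat_lit 229) (nat_lit 0) (cs (lf (nat_lit 4) (nat_lit 229)) (rf (nat_lit 0)))))) q109037 (by decide +kernel)
def q109056 : Q := Q.p (nat_lit 0x800002000008000000000000000000000000000000000000000000000000000000000) (nat_lit 0x400003000004000010000100000700001c0000500000000000000000000000000000000000000000) (nat_lit 5)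
theorem c109056 : QOK q109056 := cut [q96741, q99687, q108989] ⟨c96741, c99687, c108989, trivial⟩ (nd (nat_lit 209) (nat_lit 0) (cs (rf (nat_lit 0)) (cs (rf (nat_lit 1)) (rf (nat_lit 2))))) q109056 (by decide +kernel)
def q109062 : Q := Q.p (nat_lit 0x80000e000000000000000000000000000000000000000000000000000000000000000) (nat_lit 0x14000300000dc000000000000000000000000000000000000000000000000000000000) (nat_lit 5)
theorem c109062 : QOK q109062 := cut [q109060] ⟨c109060, trivial⟩ (nd (nat_lit 256) (nat_lit 0) (cs (lf (nat_lit 11) (nat_lit 252)) (nd (nat_lit 234) (nat_lit 0) (cs (lf (nat_lit 17) (nat_lit 231)) (rf (nat_lit 0)))))) q109062 (by decide +kernel)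
def q109085 : Q := Q.p (nat_lit 0x380000800006000000000000000000000000000000000000000000000000000000000000000) (nat_lit 0x10000778001c600007c0000000000000000000000000000000000000000000000000000000000000000000) (nat_lit 9)
theorem c109085 : QOK q109085 := cut [q89357, q89417, q108291] ⟨c89357, c89417, c108291, trivial⟩ (nd (nat_lit 272) (nat_lit 0) (cs (rf (nat_lit 0)) (cs (rf (nat_lit 1)) (cs (rf (nat_lit 2)) (nd (nat_lit 273) (nat_lit 0) (cs (lf (nat_lit 18) (nat_lit 272)) (lf (nat_lit 14) (nat_lit 250)))))))) q109085 (by decide +kernel)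
def q109088 : Q := Q.p (nat_lit 0x700001800004000000000000000000000000000000000000000000000000000000000000000) (nat_lit 0x8c0000700008000000000000000000000000000000000000000000000000000000000000000) (nat_lit 4)
theorem c109088 : QOK q109088 := cut [q109087] ⟨c109087, trivial⟩ (nd (nat_lit 295) (nat_lit 0) (cs (lf (nat_lit 12) (nat_lit 272)) (rf (nat_lit 0)))) q109088 (by decide +kernel)
def q109091 : Q := Q.p (nat_lit 0x600001800004000010000000000000000000000000000000000000000000000000000000000) (nat_lit 0x200003800000400000000020000080000000000000000000000000000000000000000000000000000) (nat_lit 4)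
theorem c109091 : QOK q109091 := cut [q80265] ⟨c80265, trivial⟩ (nd (nat_lit 211) (nat_lit 0) (cs (lf (nat_lit 34) (nat_lit 210)) (rf (nat_lit 0)))) q109091 (by decide +kernel)
def q109097 : Q := Q.p (nat_lit 0x300000800006000000000000000000000000000000000000000000000000000000000000000) (nat_lit 0x4000000000000000800001f000050000000000000000000000000000000000000000000000000000) (nat_lit 5)
theorem c109097 : QOK q109097 := cut [q80935] ⟨c80935, trivial⟩ (nd (nat_lit 231) (nat_lit 0) (cs (lf (nat_lit 41) (nat_lit 230)) (nd (nat_lit 232) (nat_lit 0) (cs (lf (nat_lit 35) (nat_lit 209)) (rf (nat_lit 0)))))) q109097 (by decide +kernel)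
def q109123 : Q := Q.p (nat_lit 0x80000e000000000000000000000000000000000000000000000000000000000000000) (nat_lit 0x10000f10000fe000000000000000000000000000000000000000000000000000000000) (nat_lit 6)
theorem c109123 : QOK q109123 := cut [q109060, q80860, q109122] ⟨c109060, c80860, c109122, trivial⟩ (nd (nat_lit 256) (nat_lit 0) (cs (rf (nat_lit 0)) (cs (nd (nat_lit 230) (nat_lit 0) (cs (lf (nat_lit 22) (nat_lit 230)) (nd (nat_lit 252) (nat_lit 0) (cs (lf (nat_lit 23) (nat_lit 229)) (rf (nat_lit 1)))))) (rf (nat_lit 2))))) q109123 (by decide +kernel)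
def q109129 : Q := Q.p (nat_lit 0x80000e000000000000000000000000000000000000000000000000000000000000000) (nat_lit 0x24000310000fc000340000500001000000000000000000000000000000000000000000) (nat_lit 9)
theorem c109129 : QOK q109129 := cut [q80863] ⟨c80863, trivial⟩ (nd (nat_lit 256) (nat_lit 0) (cs (lf (nat_lit 11) (nat_lit 252)) (nd (nat_lit 234) (nat_lit 0) (cs (lf (nat_lit 17) (nat_lit 231)) (nd (nat_lit 233) (nat_lit 0) (cs (lf (nat_lit 12) (nat_lit 230)) (nd (nat_lit 231) (nat_lit 0) (cs (lf (nat_lit 23) (nat_lit 230)) (nd (nat_lit 232) (nat_lit 0) (cs (lf (nat_lit 18) (nat_lit 231)) (nd (nat_lit 188) (nat_lit 0) (cs (lf (nat_lit 37) (nat_lit 187)) (rf (nat_lit 0)))))))))))))) q109129 (by decide +kernel)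
def q109170 : Q := Q.p (nat_lit 0x600000800006000010000000000000000000000000000000000000000000000000000000000) (nat_lit 0xe000039000017000018000e8000080000000000000000000000000000000000000000000000000000) (nat_lit 8)
theorem c109170 : QOK q109170 := cut [q109162, q109167] ⟨c109162, c109167, trivial⟩ (nd (nat_lit 299) (nat_lit 0) (cs (nd (nat_lit 276) (nat_lit 0) (cs (lf (nat_lit 29) (nat_lit 232)) (nd (nat_lit 300) (nat_lit 0) (cs (lf (nat_lit 18) (nat_lit 275)) (nd (nat_lit 322) (nat_lit 0) (cs (lf (nat_lit 5) (nat_lit 297)) (rf (nat_lit 0)))))))) (cs (rf (nat_lit 1)) (nd (nat_lit 276) (nat_lit 0) (cs (lf (nat_lit 29) (nat_lit 232)) (nd (nat_lit 273) (nat_lit 0) (cs (lf (nat_lit 1) (nat_lit 273)) (rf (nat_lit 0))))))))) q109170 (by decide +kernel)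
def q109225 : Q := Q.p (nat_lit 0x200000c00002000000000000000000000000000000000000000000000000000000000000000) (nat_lit 0x10000040000100001d00001300000000008000000000000000000000000000000000000000000000000000000000) (nat_lit 4)
theorem c109225 : QOK q109225 := cut [q14731, q90750] ⟨c14731, c90750, trivial⟩ (nd (nat_lit 298) (nat_lit 0) (cs (rf (nat_lit 0)) (rf (nat_lit 1)))) q109225 (by decide +kernel)
def q109271 : Q := Q.p (nat_lit 0x80000200001c000000000000000000000000000000000000000000000000000000000) (nat_lit 0x20000000000000002200001e000040000100000000000000000000000000000000000000000) (nat_lit 5)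
theorem c109271 : QOK q109271 := cut [q7954] ⟨c7954, trivial⟩ (nd (nat_lit 208) (nat_lit 0) (cs (lf (nat_lit 42) (nat_lit 208)) (nd (nat_lit 164) (nat_lit 0) (cs (lf (nat_lit 25) (nat_lit 164)) (rf (nat_lit 0)))))) q109271 (by decide +kernel)
def q109274 : Q := Q.p (nat_lit 0xc00001800006000018000000000000000000000000000000000000000000000000000000000) (nat_lit 0x30000000000010000e0000080000000000000000000000000000000000000000000000000000) (nat_lit 4)
theorem c109274 : QOK q109274 := cut [q100002] ⟨c100002, trivial⟩ (nd (nat_lit 300) (nat_lit 0) (cs (lf (nat_lit 18) (nat_lit 275)) (rf (nat_lit 0)))) q109274 (by decide +kernel)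
def q109284 : Q := Q.p (nat_lit 0x100001800002000008000000000000000000000000000000000000000000000000000000000) (nat_lit 0x400006c0006000000000010000040000000000000000000000000000000000000000000000000000) (nat_lit 5)
theorem c109284 : QOK q109284 := cut [q108302] ⟨c108302, trivial⟩ (nd (nat_lit 297) (nat_lit 0) (cs (lf (nat_lit 41) (nat_lit 230)) (nd (nat_lit 210) (nat_lit 0) (cs (lf (nat_lit 34) (nat_lit 209)) (rf (nat_lit 0)))))) q109284 (by decide +kernel)
def q109285 : Q := Q.p (nat_lit 0x100001c00000000000000000000000000000000000000000000000000000000000000000000) (nat_lit 0x100001c80002200018000020000080000000000000000000000000000000000000000000000000000) (nat_lit 6)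
theorem c109285 : QOK q109285 := cut [q14688] ⟨c14688, trivial⟩ (nd (nat_lit 277) (nat_lit 0) (cs (lf (nat_lit 11) (nat_lit 273)) (rf (nat_lit 0)))) q109285 (by decide +kernel)
def q109439 : Q := Q.p (nat_lit 0x400001a00001800000000000000000000000000000000000000000000000000000000000000) (nat_lit 0x200008c0000400000000004000010000000000000000000000000000000000000000000000000000) (nat_lit 4)
theorem c109439 : QOK q109439 := cut [q81451] ⟨c81451, trivial⟩ (nd (nat_lit 274) (nat_lit 0) (cs (lf (nat_lit 5) (nat_lit 273)) (rf (nat_lit 0)))) q109439 (by decide +kernel)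
def q109490 : Q := Q.p (nat_lit 0x200000c00002000008000000000000000000000000000000000000000000000000000000000) (nat_lit 0x80000200000c0000100000000005000010000040000000000000000000000000000000000000000000000000000) (nat_lit 5)
theorem c109490 : QOK q109490 := cut [q99706] ⟨c99706, trivial⟩ (nd (nat_lit 296) (nat_lit 0) (cs (lf (nat_lit 41) (nat_lit 230)) (rf (nat_lit 0)))) q109490 (by decide +kernel)
def q109503 : Q := Q.p (nat_lit 0x1c00002000000000000000000000000000000000000000000000000000000000000000) (nat_lit 0x100003c00006200039000020000080000000000000000000000000000000000000000000000000000) (nat_lit 6)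
theorem c109503 : QOK q109503 := cut [q14688, q24566, q54899] ⟨c14688, c24566, c54899, trivial⟩ (nd (nat_lit 277) (nat_lit 0) (cs (rf (nat_lit 0)) (cs (rf (nat_lit 1)) (rf (nat_lit 2))))) q109503 (by decide +kernel)
def q109525 : Q := Q.p (nat_lit 0x700000800002000000000000000000000000000000000000000000000000000000000000000) (nat_lit 0x10000000000040000000000c000030000040000000000000000000000000000000000000000000000) (nat_lit 4)
theorem c109525 : QOK q109525 := cut [q79735] ⟨c79735, trivial⟩ (nd (nat_lit 231) (nat_lit 0) (cs (lf (nat_lit 29) (nat_lit 231)) (rf (nat_lit 0)))) q109525 (by decide +kernel)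
def q109557 : Q := Q.p (nat_lit 0x200001800003000000000000000000000000000000000000000000000000000000000000000) (nat_lit 0xe0000f80000dc000070003cc000eb000000000000000000000000000000000000000000000000000000000) (nat_lit 11)
theorem c109557 : QOK q109557 := cut [q99799, q108916, q109548, q109553, q99424] ⟨c99799, c108916, c109548, c109553, c99424, trivial⟩ (nd (nat_lit 320) (nat_lit 0) (cs (nd (nat_lit 298) (nat_lit 0) (cs (lf (nat_lit 42) (nat_lit 253)) (lf (nat_lit 24) (nat_lit 231)))) (cs (nd (nat_lit 250) (nat_lit 0) (cs (lf (nat_lit 1) (nat_lit 250)) (nd (nat_lit 319) (nat_lit 0) (cs (lf (nat_lit 29) (nat_lit 253)) (rf (nat_lit 0)))))) (nd (nat_lit 273) (nat_lit 0) (cs (nd (nat_lit 251) (nat_lit 0) (cs (lf (nat_lit 0) (nat_lit 250)) (nd (nat_lit 254) (nat_lit 0) (cs (lf (nat_lit 11) (nat_lit 250)) (nd (nat_lit 228) (nat_lit 0) (cs (lf (nat_lit 22) (nat_lit 228)) (rf (nat_lit 1)))))))) (cs (nd (nat_lit 298) (nat_lit 0) (cs (lf (nat_lit 24) (nat_lit 231)) (rf (nat_lit 2)))) (cs (nd (nat_lit 298) (nat_lit 0) (cs (lf (nat_lit 24) (nat_lit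 231)) (rf (nat_lit 3)))) (nd (nat_lit 298) (nat_lit 0) (cs (lf (nat_lit 24) (nat_lit 231)) (rf (nat_lit 4))))))))))) q109557 (by decide +kernel)
def q109582 : Q := Q.p (nat_lit 0x200000800002000004000000000000000000000000000000000000000000000000000000000) (nat_lit 0x400001c0000700000c0000400001000005000000000000000000000000000000000000000000000000000000000000000) (nat_lit 7)
theorem c109582 : QOK q109582 := cut [q109581] ⟨c109581, trivial⟩ (nd (nat_lit 319) (nat_lit 0) (cs (lf (nat_lit 46) (nat_lit 230)) (rf (nat_lit 0)))) q109582 (by decide +kernel)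
def q109591 : Q := Q.p (nat_lit 0x200000800003000000000000000000000000000000000000000000000000000000000000000) (nat_lit 0x180001f00001e0001d80007000004c00004000000000000000000000000000000000000000000000000000000000) (nat_lit 12)
theorem c109591 : QOK q109591 := cut [q100313] ⟨c100313, trivial⟩ (nd (nat_lit 319) (nat_lit 0) (cs (lf (nat_lit 47) (nat_lit 230)) (nd (nat_lit 318) (nat_lit 0) (cs (lf (nat_lit 41) (nat_lit 252)) (nd (nat_lit 342) (nat_lit 0) (cs (lf (nat_lit 28) (nat_lit 253)) (nd (nat_lit 341) (nat_lit 0) (cs (lf (nat_lit 29) (nat_lit 275)) (nd (nat_lit 276) (nat_lit 0) (cs (lf (nat_lit 35) (nat_lit 253)) (nd (nat_lit 343) (nat_lit 0) (cs (lf (nat_lit 18) (nat_lit 318)) (nd (nat_lit 250) (nat_lit 0) (cs (lf (nat_lit 1) (nat_lit 250)) (nd (nat_lit 277) (nat_lit 0) (cs (lf (nat_lit 18) (nat_lit 252)) (rf (nat_lit 0)))))))))))))))))) q109591 (by decide +kernel)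
def q109612 : Q := Q.p (nat_lit 0x200003c00003000000000000000000000000000000000000000000000000000000000000000) (nat_lit 0x18000060001d80000000018000000000000000000000000000000000000000000000000000000000000000) (nat_lit 6)
theorem c109612 : QOK q109612 := cut [q81961] ⟨c81961, trivial⟩ (nd (nat_lit 299) (nat_lit 0) (cs (lf (nat_lit 5) (nat_lit 274)) (nd (nat_lit 296) (nat_lit 0) (cs (lf (nat_lit 11) (nat_lit 273)) (nd (nat_lit 255) (nat_lit 0) (cs (lf (nat_lit 17) (nat_lit 252)) (rf (nat_lit 0)))))))) q109612 (by decide +kernel)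
def q109649 : Q := Q.p (nat_lit 0x200000800003000008000000000000000000000000000000000000000000000000000000000) (nat_lit 0x500001c0000740001c0000778001dc000040000100000000000000000000000000000000000000000) (nat_lit 13)
theorem c109649 : QOK q109649 := cut [q97957] ⟨c97957, trivial⟩ (nd (nat_lit 230) (nat_lit 0) (cs (rf (nat_lit 0)) (nd (nat_lit 298) (nat_lit 0) (cs (lf (nat_lit 29) (nat_lit 231)) (nd (nat_lit 232) (nat_lit 0) (cs (lf (nat_lit 35) (nat_lit 209)) (nd (nat_lit 233) (nat_lit 0) (cs (lf (nat_lit 6) (nat_lit 230)) (nd (nat_lit 255) (nat_lit 0) (cs (lf (nat_lit 5) (nat_lit 230)) (nd (nat_lit 229) (nat_lit 0) (cs (lf (nat_lit 19) (nat_lit 229)) (nd (nat_lit 227) (nat_lit 0) (cs (lf (nat_lit 1) (nat_lit 227)) (nd (nat_lit 206) (nat_lit 0) (cs (lf (nat_lit 22) (nat_lit 206)) (nd (nat_lit 211) (nat_lit 0) (cs (lf (nat_lit 17) (nat_lit 208)) (nd (nat_lit 277) (nat_lit 0) (cs (lf (nat_lit 40) (nat_lit 210)) (nd (nat_lit 300) (nat_lit 0) (cs (lf (nat_lit 28) (nat_lit 211)) (nd (nat_lit 299) (nat_lit 0) (cs (lf (nat_lit 23) (nat_lit 274))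 (lf (nat_lit 29) (nat_lit 233)))))))))))))))))))))))))) q109649 (by decide +kernel)
def q109689 : Q := Q.p (nat_lit 0xc00002000008000000000000000000000000000000000000000000000000000000000) (nat_lit 0x500001000005000000000020000080000000000000000000000000000000000000000000000) (nat_lit 4)
theorem c109689 : QOK q109689 := cut [q96313] ⟨c96313, trivial⟩ (nd (nat_lit 209) (nat_lit 0) (cs (lf (nat_lit 41) (nat_lit 208)) (rf (nat_lit 0)))) q109689 (by decide +kernel)
def q109715 : Q := Q.p (nat_lit 0x400001800004000010000000000000000000000000000000000000000000000000000000000) (nat_lit 0x200003800002600000000000000000000000000000000000000000000000000000000000000000000) (nat_lit 4)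
theorem c109715 : QOK q109715 := cut [q100209] ⟨c100209, trivial⟩ (nd (nat_lit 299) (nat_lit 0) (cs (lf (nat_lit 29) (nat_lit 232)) (rf (nat_lit 0)))) q109715 (by decide +kernel)
def q109722 : Q := Q.p (nat_lit 0x7800004000000000000000000000000000000000000000000000000000000000) (nat_lit 0x20000080000700000000030000010000040000000000000000000000000000000000000000000000) (nat_lit 5)
theorem c109722 : QOK q109722 := cut [q89866] ⟨c89866, trivial⟩ (nd (nat_lit 273) (nat_lit 0) (cs (lf (nat_lit 11) (nat_lit 250)) (nd (nat_lit 232) (nat_lit 0) (cs (lf (nat_lit 17) (nat_lit 229)) (rf (nat_lit 0)))))) q109722 (by decide +kernel)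
def q109742 : Q := Q.p (nat_lit 0x180000b00000c000010000000000000000000000000000000000000000000000000000) (nat_lit 0x640000460001380000e000020000080000000000000000000000000000000000000000) (nat_lit 8)
theorem c109742 : QOK q109742 := cut [q109740] ⟨c109740, trivial⟩ (nd (nat_lit 277) (nat_lit 0) (cs (lf (nat_lit 18) (nat_lit 252)) (nd (nat_lit 229) (nat_lit 0) (cs (lf (nat_lit 19) (nat_lit 229)) (rf (nat_lit 0)))))) q109742 (by decide +kernel)
def q109744 : Q := Q.p (nat_lit 0x1800003000006000010000000000000000000000000000000000000000000000000000) (nat_lit 0x8000030000cc00000000000000000000000000000000000000000000000000000000000000) (nat_lit 4)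
theorem c109744 : QOK q109744 := cut [q93528] ⟨c93528, trivial⟩ (nd (nat_lit 251) (nat_lit 0) (cs (lf (nat_lit 0) (nat_lit 250)) (rf (nat_lit 0)))) q109744 (by decide +kernel)
def q109757 : Q := Q.p (nat_lit 0x280000e000000000000000000000000000000000000000000000000000000000) (nat_lit 0xd4000f0000380000000000000000000000000000000000000000000000000000) (nat_lit 6)
theorem c109757 : QOK q109757 := cut [q107013] ⟨c107013, trivial⟩ (nd (nat_lit 232) (nat_lit 0) (cs (lf (nat_lit 11) (nat_lit 228)) (nd (nat_lit 254) (nat_lit 0) (cs (lf (nat_lit 5) (nat_lit 229)) (rf (nat_lit 0)))))) q109757 (by decide +kernel)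
def q109858 : Q := Q.p (nat_lit 0x200000800003000000000000000000000000000000000000000000000000000000000000000) (nat_lit 0x300000c0000000003000004c00014000000000000000000000000000000000000000000000000000000000) (nat_lit 6)
theorem c109858 : QOK q109858 := cut [q108279] ⟨c108279, trivial⟩ (nd (nat_lit 319) (nat_lit 0) (cs (lf (nat_lit 47) (nat_lit 230)) (rf (nat_lit 0)))) q109858 (by decide +kernel)
def q109859 : Q := Q.p (nat_lit 0x200000800007000000000000000000000000000000000000000000000000000000000000000) (nat_lit 0x800000000000000088000f0000000000000000000000000000000000000000000000000000000000) (nat_lit 4)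
theorem c109859 : QOK q109859 := cut [q81677] ⟨c81677, trivial⟩ (nd (nat_lit 232) (nat_lit 0) (cs (lf (nat_lit 30) (nat_lit 231)) (rf (nat_lit 0)))) q109859 (by decide +kernel)
def q109880 : Q := Q.p (nat_lit 0x180000e000010000000000000000000000000000000000000000000000000000000000) (nat_lit 0x4000000000310000e0000080000200000000000000000000000000000000000000000000000) (nat_lit 5)
theorem c109880 : QOK q109880 := cut [q109879] ⟨c109879, trivial⟩ (nd (nat_lit 256) (nat_lit 0) (cs (lf (nat_lit 6) (nat_lit 253)) (rf (nat_lit 0)))) q109880 (by decide +kernel)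
def q109959 : Q := Q.p (nat_lit 0x8000030000080000c000000000000000000000000000000000000000000000000000000000000000) (nat_lit 0x200000000004c0007600000000000000000000000000000000000000000000000000000000000000000000) (nat_lit 5)
theorem c109959 : QOK q109959 := cut [q109957] ⟨c109957, trivial⟩ (nd (nat_lit 276) (nat_lit 0) (cs (lf (nat_lit 30) (nat_lit 253)) (nd (nat_lit 273) (nat_lit 0) (cs (lf (nat_lit 13) (nat_lit 251)) (rf (nat_lit 0)))))) q109959 (by decide +kernel)
def q110018 : Q := Q.p (nat_lit 0x40000380000c000000000000000000000000000000000000000000000000000000000) (nat_lit 0xc0000380000a00000000000000010000040000000000000000000000000000000000000000000000) (nat_lit 5)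
theorem c110018 : QOK q110018 := cut [q110017] ⟨c110017, trivial⟩ (nd (nat_lit 296) (nat_lit 0) (cs (lf (nat_lit 30) (nat_lit 230)) (rf (nat_lit 0)))) q110018 (by decide +kernel)
def q110039 : Q := Q.p (nat_lit 0x400003000004000010000000000000000000000000000000000000000000000000000) (nat_lit 0x80000b8000c000000000000000000000000000000000000000000000000000000000000000) (nat_lit 4)
theorem c110039 : QOK q110039 := cut [q83839] ⟨c83839, trivial⟩ (nd (nat_lit 273) (nat_lit 0) (cs (lf (nat_lit 41) (nat_lit 207)) (rf (nat_lit 0)))) q110039 (by decide +kernel)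
def q110040 : Q := Q.p (nat_lit 0x400001000004000010000000000000000000000000000000000000000000000000000) (nat_lit 0x200001800002000000000020000280000a0000000000000000000000000000000000000000000000) (nat_lit 5)
theorem c110040 : QOK q110040 := cut [q24772] ⟨c24772, trivial⟩ (nd (nat_lit 207) (nat_lit 0) (cs (lf (nat_lit 47) (nat_lit 185)) (rf (nat_lit 0)))) q110040 (by decide +kernel)
def q110050 : Q := Q.p (nat_lit 0x1000004000010000000000000000000000000000000000000000000000000000) (nat_lit 0x2000018000060000000000200002e0003e0000380000e00003000008000000000000000000000000) (nat_lit 9)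
theorem c110050 : QOK q110050 := cut [q79031, q110042, q4677, q6859, q21004, q419] ⟨c79031, c110042, c4677, c6859, c21004, c419, trivial⟩ (nd (nat_lit 187) (nat_lit 0) (cs (rf (nat_lit 0)) (cs (nd (nat_lit 274) (nat_lit 0) (cs (lf (nat_lit 34) (nat_lit 186)) (rf (nat_lit 1)))) (cs (nd (nat_lit 186) (nat_lit 0) (cs (lf (nat_lit 35) (nat_lit 164)) (rf (nat_lit 2)))) (nd (nat_lit 186) (nat_lit 0) (cs (lf (nat_lit 35) (nat_lit 164)) (nd (nat_lit 207) (nat_lit 0) (cs (rf (nat_lit 3)) (cs (nd (nat_lit 163) (nat_lit 0) (cs (lf (nat_lit 46) (nat_lit 163)) (nd (nat_lit 164) (nat_lit 0) (cs (lf (nat_lit 47) (nat_lit 141)) (rf (nat_lit 4)))))) (nd (nat_lit 185) (nat_lit 0) (cs (lf (nat_lit 47) (nat_lit 163)) (rf (nat_lit 5))))))))))))) q110050 (by decide +kernel)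
def q110059 : Q := Q.p (nat_lit 0xc0000300000c000020000000000000000000000000000000000000000000000000000) (nat_lit 0x40000720001c000002000040000100000000000000000000000000000000000000000000000) (nat_lit 6)
theorem c110059 : QOK q110059 := cut [q110057] ⟨c110057, trivial⟩ (nd (nat_lit 276) (nat_lit 0) (cs (lf (nat_lit 29) (nat_lit 209)) (nd (nat_lit 188) (nat_lit 0) (cs (lf (nat_lit 34) (nat_lit 187)) (rf (nat_lit 0)))))) q110059 (by decide +kernel)
def q110066 : Q := Q.p (nat_lit 0x3c00003000000000000000000000000000000000000000000000000000000000000000) (nat_lit 0x8000020000180000020001c000070000080000200000000000000000000000000000000000000000000000) (nat_lit 7)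
theorem c110066 : QOK q110066 := cut [q105233] ⟨c105233, trivial⟩ (nd (nat_lit 255) (nat_lit 0) (cs (lf (nat_lit 17) (nat_lit 252)) (nd (nat_lit 254) (nat_lit 0) (cs (lf (nat_lit 12) (nat_lit 251)) (rf (nat_lit 0)))))) q110066 (by decide +kernel)
def q110082 : Q := Q.p (nat_lit 0x80000300000c000000000000000000000000000000000000000000000000000000000) (nat_lit 0x1c0000780007000000000000000020000000000000000000000000000000000000000000000000000) (nat_lit 6)
theorem c110082 : QOK q110082 := cut [q110081] ⟨c110081, trivial⟩ (nd (nat_lit 297) (nat_lit 0) (cs (lf (nat_lit 42) (nat_lit 230)) (rf (nat_lit 0)))) q110082 (by decide +kernel)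
def q110104 : Q := Q.p (nat_lit 0x300000c000030000000000000000000000000000000000000000000000000000) (nat_lit 0x6000078000000000020001c0000100000000000000000000000000000000000000000000000) (nat_lit 6)
theorem c110104 : QOK q110104 := cut [q1402] ⟨c1402, trivial⟩ (nd (nat_lit 275) (nat_lit 0) (cs (lf (nat_lit 42) (nat_lit 208)) (nd (nat_lit 276) (nat_lit 0) (cs (lf (nat_lit 29) (nat_lit 209)) (nd (nat_lit 277) (nat_lit 0) (cs (lf (nat_lit 18) (nat_lit 252)) (rf (nat_lit 0)))))))) q110104 (by decide +kernel)
def q110154 : Q := Q.p (nat_lit 0x300001e000010000000000000000000000000000000000000000000000000000) (nat_lit 0x300000c0000300000c0000000000ec0000e0000380000000000000000000000000000000000000000) (nat_lit 10)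
theorem c110154 : QOK q110154 := cut [q101296] ⟨c101296, trivial⟩ (nd (nat_lit 254) (nat_lit 0) (cs (lf (nat_lit 5) (nat_lit 229)) (nd (nat_lit 206) (nat_lit 0) (cs (lf (nat_lit 22) (nat_lit 206)) (nd (nat_lit 186) (nat_lit 0) (cs (lf (nat_lit 24) (nat_lit 164)) (nd (nat_lit 210) (nat_lit 0) (cs (lf (nat_lit 17) (nat_lit 207)) (nd (nat_lit 163) (nat_lit 0) (cs (lf (nat_lit 46) (nat_lit 163)) (nd (nat_lit 187) (nat_lit 0) (cs (lf (nat_lit 35) (nat_lit 164)) (rf (nat_lit 0)))))))))))))) q110154 (by decide +kernel)
def q110175 : Q := Q.p (nat_lit 0x400001c000000000000000000000000000000000000000000000000000) (nat_lit 0xae00003000000000000000000000000000000000000000000000000000) (nat_lit 4)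
theorem c110175 : QOK q110175 := cut [q1414] ⟨c1414, trivial⟩ (nd (nat_lit 205) (nat_lit 0) (cs (lf (nat_lit 5) (nat_lit 205)) (rf (nat_lit 0)))) q110175 (by decide +kernel)
def q110218 : Q := Q.p (nat_lit 0x80000f000004000000000000000000000000000000000000000000000000000000000) (nat_lit 0x3f8001fc00077000000000780000c0000100000000000000000000000000000000000000000000000) (nat_lit 11)
theorem c110218 : QOK q110218 := cut [q79102, q96357, q93054, q107809] ⟨c79102, c96357, c93054, c107809, trivial⟩ (nd (nat_lit 297) (nat_lit 0) (cs (lf (nat_lit 42) (nat_lit 230)) (nd (nat_lit 296) (nat_lit 0) (cs (nd (nat_lit 277) (nat_lit 0) (cs (lf (nat_lit 5) (nat_lit 252)) (nd (nat_lit 233) (nat_lit 0) (cs (lf (nat_lit 17) (nat_lit 230)) (nd (nat_lit 231) (nat_lit 0) (cs (lf (nat_lit 41) (nat_lit 230)) (nd (nat_lit 210) (nat_lit 0) (cs (lf (nat_lit 34) (nat_lit 209)) (nd (nat_lit 298) (nat_lit 0) (cs (lf (nat_lit 29) (nat_lit 231)) (rf (nat_lit 0)))))))))))) (cs (nd (nat_lit 277) (nat_lit 0) (cs (lf (nat_lit 5) (nat_lit 252)) (nd (nat_lit 274) (nat_lit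 0) (cs (lf (nat_lit 11) (nat_lit 251)) (rf (nat_lit 1)))))) (cs (nd (nat_lit 233) (nat_lit 0) (cs (lf (nat_lit 17) (nat_lit 230)) (nd (nat_lit 231) (nat_lit 0) (cs (lf (nat_lit 41) (nat_lit 230)) (nd (nat_lit 298) (nat_lit 0) (cs (lf (nat_lit 29) (nat_lit 231)) (nd (nat_lit 273) (nat_lit 0) (cs (lf (nat_lit 10) (nat_lit 251)) (nd (nat_lit 210) (nat_lit 0) (cs (lf (nat_lit 34) (nat_lit 209)) (rf (nat_lit 2)))))))))))) (nd (nat_lit 231) (nat_lit 0) (cs (lf (nat_lit 41) (nat_lit 230)) (nd (nat_lit 298) (nat_lit 0) (cs (lf (nat_lit 29) (nat_lit 231)) (nd (nat_lit 233) (nat_lit 0) (cs (lf (nat_lit 17) (nat_lit 230)) (nd (nat_lit 277) (nat_lit 0) (cs (lf (nat_lit 5) (nat_lit 252)) (nd (nat_lit 232) (nat_lit 0) (cs (lf (nat_lit 35) (nat_lit 209)) (rf (nat_lit 3)))))))))))))))))) q110218 (by decide +kernel)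
def q110232 : Q := Q.p (nat_lit 0x400003000004000010000000000000000000000000000000000000000000000000000) (nat_lit 0x80000380000e0000180000800000000008000020000080000000000000000000000000000000000000000000000) (nat_lit 7)
theorem c110232 : QOK q110232 := cut [q110230] ⟨c110230, trivial⟩ (nd (nat_lit 209) (nat_lit 0) (cs (lf (nat_lit 35) (nat_lit 186)) (nd (nat_lit 296) (nat_lit 0) (cs (lf (nat_lit 34) (nat_lit 208)) (rf (nat_lit 0)))))) q110232 (by decide +kernel)
def q110243 : Q := Q.p (nat_lit 0xc00007000004000000000000000000000000000000000000000000000000000000000) (nat_lit 0x8000020001cc0007300000000000000010000000000000000000000000000000000000000000000000000) (nat_lit 7)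
theorem c110243 : QOK q110243 := cut [q110242] ⟨c110242, trivial⟩ (nd (nat_lit 273) (nat_lit 0) (cs (lf (nat_lit 12) (nat_lit 250)) (rf (nat_lit 0)))) q110243 (by decide +kernel)
def q110252 : Q := Q.p (nat_lit 0x800007000004000000000000000000000000000000000000000000000000000000000) (nat_lit 0x80000200001000000000018000070000180000200000000000000000000000000000000000000000) (nat_lit 6)
theorem c110252 : QOK q110252 := cut [q79095] ⟨c79095, trivial⟩ (nd (nat_lit 297) (nat_lit 0) (cs (lf (nat_lit 42) (nat_lit 230)) (nd (nat_lit 231) (nat_lit 0) (cs (rf (nat_lit 0)) (lf (nat_lit 47) (nat_lit 208)))))) q110252 (by decide +kernel)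
def q110276 : Q := Q.p (nat_lit 0xc00007000004000000000000000000000000000000000000000000000000000000000) (nat_lit 0x10000000000000000b800018000060000000000000000000000000000000000000000000000) (nat_lit 5)
theorem c110276 : QOK q110276 := cut [q100282] ⟨c100282, trivial⟩ (nd (nat_lit 208) (nat_lit 0) (cs (lf (nat_lit 24) (nat_lit 186)) (nd (nat_lit 207) (nat_lit 0) (cs (lf (nat_lit 47) (nat_lit 185)) (rf (nat_lit 0)))))) q110276 (by decide +kernel)
def q110299 : Q := Q.p (nat_lit 0x3000004000018000000000000000000000000000000000000000000000000000) (nat_lit 0x80000200000c0000000000b0000e4000780000200000800000000000000000000000000000000000) (nat_lit 6)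
theorem c110299 : QOK q110299 := cut [q1140, q1298, q10803, q1475, q1017, q4327] ⟨c1140, c1298, c10803, c1475, c1017, c4327, trivial⟩ (nd (nat_lit 275) (nat_lit 0) (cs (rf (nat_lit 0)) (cs (rf (nat_lit 1)) (nd (nat_lit 209) (nat_lit 0) (cs (rf (nat_lit 2)) (cs (nd (nat_lit 187) (nat_lit 0) (cs (lf (nat_lit 30) (nat_lit 186)) (rf (nat_lit 3)))) (nd (nat_lit 210) (nat_lit 0) (cs (rf (nat_lit 4)) (rf (nat_lit 5)))))))))) q110299 (by decide +kernel)
def q110304 : Q := Q.p (nat_lit 0x3000004000010000000000000000000000000000000000000000000000000000) (nat_lit 0x4000000000080000280000e0000380000a00000000000000000000000000000000000) (nat_lit 5)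
theorem c110304 : QOK q110304 := cut [q25, q79032] ⟨c25, c79032, trivial⟩ (nd (nat_lit 186) (nat_lit 0) (cs (rf (nat_lit 0)) (cs (rf (nat_lit 1)) (nd (nat_lit 185) (nat_lit 0) (cs (lf (nat_lit 47) (nat_lit 163)) (nd (nat_lit 187) (nat_lit 0) (cs (lf (nat_lit 35) (nat_lit 164)) (nd (nat_lit 274) (nat_lit 0) (cs (lf (nat_lit 34) (nat_lit 186)) (lf (nat_lit 46) (nat_lit 185))))))))))) q110304 (by decide +kernel)
def q110321 : Q := Q.p (nat_lit 0x300000c000030000000000000000000000000000000000000000000000000000) (nat_lit 0x1f00007e0001c000002000008000020000000000000000000000000000000000000000000000) (nat_lit 9)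
theorem c110321 : QOK q110321 := cut [q105271] ⟨c105271, trivial⟩ (nd (nat_lit 274) (nat_lit 0) (cs (lf (nat_lit 30) (nat_lit 208)) (nd (nat_lit 275) (nat_lit 0) (cs (lf (nat_lit 29) (nat_lit 208)) (nd (nat_lit 276) (nat_lit 0) (cs (lf (nat_lit 29) (nat_lit 209)) (nd (nat_lit 277) (nat_lit 0) (cs (lf (nat_lit 18) (nat_lit 252)) (nd (nat_lit 185) (nat_lit 0) (cs (lf (nat_lit 46) (nat_lit 185)) (rf (nat_lit 0)))))))))))) q110321 (by decide +kernel)
def q110327 : Q := Q.p (nat_lit 0x40000200000800003000000000000000000000000000000000000000000000000000000000000000) (nat_lit 0x10000070000180000000000400000000000000000000000000000000000000000000000000000000000000000000) (nat_lit 4)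
theorem c110327 : QOK q110327 := cut [q2611] ⟨c2611, trivial⟩ (nd (nat_lit 319) (nat_lit 0) (cs (lf (nat_lit 41) (nat_lit 252)) (rf (nat_lit 0)))) q110327 (by decide +kernel)
def q110392 : Q := Q.p (nat_lit 0x1c00003000000000000000000000000000000000000000000000000000000000000000) (nat_lit 0x40000100000ee0000380000000008000020000000000000000000000000000000000000000000000000000) (nat_lit 5)
theorem c110392 : QOK q110392 := cut [q12665, q15513] ⟨c12665, c15513, trivial⟩ (nd (nat_lit 273) (nat_lit 0) (cs (rf (nat_lit 0)) (rf (nat_lit 1)))) q110392 (by decide +kernel)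
def q110461 : Q := Q.p (nat_lit 0x200000800003000000000000000000000000000000000000000000000000000000000000000) (nat_lit 0x140000700001c0000500000400000000008000000000000000000000000000000000000000000000000000000000) (nat_lit 5)
theorem c110461 : QOK q110461 := cut [q2611, q2615, q89625] ⟨c2611, c2615, c89625, trivial⟩ (nd (nat_lit 319) (nat_lit 0) (cs (rf (nat_lit 0)) (cs (rf (nat_lit 1)) (rf (nat_lit 2))))) q110461 (by decide +kernel)
def q110503 : Q := Q.p (nat_lit 0x1000004000010000040000000000000000000000000000000000000000000000000000) (nat_lit 0xa0000380000e00000000000000008000020000080000000000000000000000000000000000000000000000) (nat_lit 6)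
theorem c110503 : QOK q110503 := cut [q102927] ⟨c102927, trivial⟩ (nd (nat_lit 209) (nat_lit 0) (cs (lf (nat_lit 47) (nat_lit 187)) (nd (nat_lit 298) (nat_lit 0) (cs (lf (nat_lit 46) (nat_lit 209)) (nd (nat_lit 319) (nat_lit 0) (cs (lf (nat_lit 40) (nat_lit 231)) (rf (nat_lit 0)))))))) q110503 (by decide +kernel)
def q110511 : Q := Q.p (nat_lit 0x7800000000000000000000000000000000000000000000000000000000000000) (nat_lit 0x7700008000003000000000000000000000000000000000000000000000000000000000) (nat_lit 5)
theorem c110511 : QOK q110511 := cut [q103009] ⟨c103009, trivial⟩ (nd (nat_lit 228) (nat_lit 0) (cs (lf (nat_lit 22) (nat_lit 228)) (rf (nat_lit 0)))) q110511 (by decide +kernel)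
def q110527 : Q := Q.p (nat_lit 0xf000000000000000000000000000000000000000000000000000000000000000) (nat_lit 0xe000100000e0000000000000000000000000000000000000000000000000000000000) (nat_lit 4)
theorem c110527 : QOK q110527 := cut [q105804] ⟨c105804, trivial⟩ (nd (nat_lit 234) (nat_lit 0) (cs (lf (nat_lit 16) (nat_lit 230)) (rf (nat_lit 0)))) q110527 (by decide +kernel)
def q110540 : Q := Q.p (nat_lit 0x7800000000000000000000000000000000000000000000000000000000000000) (nat_lit 0x300008000077000000000000000000000000000000000000000000000000000000000) (nat_lit 5)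
theorem c110540 : QOK q110540 := cut [q79259] ⟨c79259, trivial⟩ (nd (nat_lit 233) (nat_lit 0) (cs (lf (nat_lit 16) (nat_lit 229)) (nd (nat_lit 272) (nat_lit 0) (cs (lf (nat_lit 10) (nat_lit 250)) (rf (nat_lit 0)))))) q110540 (by decide +kernel)
def q110546 : Q := Q.p (nat_lit 0xf000000000000000000000000000000000000000000000000000000000000000) (nat_lit 0x100000ee000000000000000000000000000000000000000000000000000000000) (nat_lit 4)
theorem c110546 : QOK q110546 := cut [q80578] ⟨c80578, trivial⟩ (nd (nat_lit 234) (nat_lit 0) (cs (lf (nat_lit 16) (nat_lit 230)) (rf (nat_lit 0)))) q110546 (by decide +kernel)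
def q110564 : Q := Q.p (nat_lit 0x7800004000000000000000000000000000000000000000000000000000000000) (nat_lit 0x80003300000000003000010000040000000000000000000000000000000000000000000000) (nat_lit 5)
theorem c110564 : QOK q110564 := cut [q85550] ⟨c85550, trivial⟩ (nd (nat_lit 229) (nat_lit 0) (cs (lf (nat_lit 23) (nat_lit 228)) (nd (nat_lit 276) (nat_lit 0) (cs (lf (nat_lit 5) (nat_lit 251)) (rf (nat_lit 0)))))) q110564 (by decide +kernel)
def q110614 : Q := Q.p (nat_lit 0x800003800000000000000000000000000000000000000000000000000000000000000) (nat_lit 0x7c0004600003c00000000000000000000000000000000000000000000000000000000) (nat_lit 5)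
theorem c110614 : QOK q110614 := cut [q2090, q3763, q98539] ⟨c2090, c3763, c98539, trivial⟩ (nd (nat_lit 250) (nat_lit 0) (cs (rf (nat_lit 0)) (cs (rf (nat_lit 1)) (rf (nat_lit 2))))) q110614 (by decide +kernel)
def q110743 : Q := Q.p (nat_lit 0x300000c00001000000000000000000000000000000000000000000000000000000000000000) (nat_lit 0x738001ce0000380000000006000018000000000000000000000000000000000000000000000000000) (nat_lit 10)
theorem c110743 : QOK q110743 := cut [q99164] ⟨c99164, trivial⟩ (nd (nat_lit 230) (nat_lit 0) (cs (lf (nat_lit 24) (nat_lit 208)) (nd (nat_lit 207) (nat_lit 0) (cs (lf (nat_lit 46) (nat_lit 207)) (nd (nat_lit 295) (nat_lit 0) (cs (lf (nat_lit 41) (nat_lit 229)) (nd (nat_lit 294) (nat_lit 0) (cs (lf (nat_lit 12) (nat_lit 271)) (nd (nat_lit 315) (nat_lit 0) (cs (lf (nat_lit 10) (nat_lit 293)) (nd (nat_lit 272) (nat_lit 0) (cs (lf (nat_lit 23) (nat_lit 271)) (rf (nat_lit 0)))))))))))))) q110743 (by decide +kernel)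
def q110780 : Q := Q.p (nat_lit 0x7000004000000000000000000000000000000000000000000000000000000000) (nat_lit 0x48000120000fc000780003f2000090000240000000000000000000000000000000000000000000000) (nat_lit 13)
theorem c110780 : QOK q110780 := cut [q94594] ⟨c94594, trivial⟩ (nd (nat_lit 255) (nat_lit 0) (cs (lf (nat_lit 23) (nat_lit 229)) (nd (nat_lit 278) (nat_lit 0) (cs (lf (nat_lit 4) (nat_lit 252)) (nd (nat_lit 233) (nat_lit 0) (cs (lf (nat_lit 17) (nat_lit 230)) (nd (nat_lit 256) (nat_lit 0) (cs (lf (nat_lit 5) (nat_lit 253)) (nd (nat_lit 275) (nat_lit 0) (cs (lf (nat_lit 11) (nat_lit 252)) (nd (nat_lit 300) (nat_lit 0) (cs (lf (nat_lit 42) (nat_lit 233)) (nd (nat_lit 186) (nat_lit 0) (cs (lf (nat_lit 25) (nat_lit 186)) (nd (nat_lit 297) (nat_lit 0) (cs (lf (nat_lit 42) (nat_lit 230)) (rf (nat_lit 0)))))))))))))))))) q110780 (by decide +kernel)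
def q110781 : Q := Q.p (nat_lit 0x100000d000030000000000000000000000000000000000000000000000000000) (nat_lit 0x10000040000000000080000e000020000000000000000000000000000000000000000000000) (nat_lit 4)
theorem c110781 : QOK q110781 := cut [q98146] ⟨c98146, trivial⟩ (nd (nat_lit 274) (nat_lit 0) (cs (lf (nat_lit 30) (nat_lit 208)) (rf (nat_lit 0)))) q110781 (by decide +kernel)
def q110825 : Q := Q.p (nat_lit 0x1000007800004000000000000000000000000000000000000000000000000000000000) (nat_lit 0x40000000001800003a000020000080000000000000000000000000000000000000000000000) (nat_lit 5)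
theorem c110825 : QOK q110825 := cut [q105193] ⟨c105193, trivial⟩ (nd (nat_lit 232) (nat_lit 0) (cs (lf (nat_lit 17) (nat_lit 229)) (nd (nat_lit 255) (nat_lit 0) (cs (lf (nat_lit 23) (nat_lit 229)) (rf (nat_lit 0)))))) q110825 (by decide +kernel)
def q110840 : Q := Q.p (nat_lit 0xe000004000000000000000000000000000000000000000000000000000000000) (nat_lit 0x1c0000300001c8000000000000000000000000000000000000000000000000000000000) (nat_lit 5)
theorem c110840 : QOK q110840 := cut [q95394] ⟨c95394, trivial⟩ (nd (nat_lit 256) (nat_lit 0) (cs (lf (nat_lit 22) (nat_lit 230)) (rf (nat_lit 0)))) q110840 (by decide +kernel)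
def q110864 : Q := Q.p (nat_lit 0x3800000000000000000000000000000000000000000000000000000000000000) (nat_lit 0x7f0000c400078000000000000000000000000000000000000000000000000000000000) (nat_lit 5)
theorem c110864 : QOK q110864 := cut [q79020, q103009, q110037] ⟨c79020, c103009, c110037, trivial⟩ (nd (nat_lit 254) (nat_lit 0) (cs (rf (nat_lit 0)) (cs (rf (nat_lit 1)) (rf (nat_lit 2))))) q110864 (by decide +kernel)
def q110878 : Q := Q.p (nat_lit 0x3800004000000000000000000000000000000000000000000000000000000000) (nat_lit 0x38000460001b800000000000000000000000000000000000000000000000000000000) (nat_lit 5)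
theorem c110878 : QOK q110878 := cut [q3187, q98539] ⟨c3187, c98539, trivial⟩ (nd (nat_lit 250) (nat_lit 0) (cs (rf (nat_lit 0)) (rf (nat_lit 1)))) q110878 (by decide +kernel)
def q110920 : Q := Q.p (nat_lit 0x1800006000018000000000000000000000000000000000000000000000000000) (nat_lit 0x1000004000000000000000200000c0000300000000000000000000000000000000000000000) (nat_lit 4)
theorem c110920 : QOK q110920 := cut [q18740] ⟨c18740, trivial⟩ (nd (nat_lit 186) (nat_lit 0) (cs (lf (nat_lit 36) (nat_lit 163)) (rf (nat_lit 0)))) q110920 (by decide +kernel)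
def q111058 : Q := Q.p (nat_lit 0xc00007000018000000000000000000000000000000000000000000000000000000000) (nat_lit 0x40000130000000006400007c0001c0000000000000000000000000000000000000000000000) (nat_lit 8)
theorem c111058 : QOK q111058 := cut [q80317] ⟨c80317, trivial⟩ (nd (nat_lit 233) (nat_lit 0) (cs (lf (nat_lit 6) (nat_lit 230)) (nd (nat_lit 272) (nat_lit 0) (cs (lf (nat_lit 13) (nat_lit 250)) (nd (nat_lit 188) (nat_lit 0) (cs (lf (nat_lit 37) (nat_lit 187)) (nd (nat_lit 209) (nat_lit 0) (cs (lf (nat_lit 36) (nat_lit 186)) (nd (nat_lit 276) (nat_lit 0) (cs (lf (nat_lit 42) (nat_lit 209)) (rf (nat_lit 0)))))))))))) q111058 (by decide +kernel)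
def q111080 : Q := Q.p (nat_lit 0x200000800003000018000000000000000000000000000000000000000000000000000000000) (nat_lit 0x140000500001400000c00000000020000000000000000000000000000000000000000000000000000) (nat_lit 5)
theorem c111080 : QOK q111080 := cut [q82063] ⟨c82063, trivial⟩ (nd (nat_lit 250) (nat_lit 0) (cs (lf (nat_lit 13) (nat_lit 228)) (rf (nat_lit 0)))) q111080 (by decide +kernel)
def q111124 : Q := Q.p (nat_lit 0xf000004000000000000000000000000000000000000000000000000000000000) (nat_lit 0xe000010000068000000000000000000000000000000000000000000000000000000000) (nat_lit 4)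
theorem c111124 : QOK q111124 := cut [q87169] ⟨c87169, trivial⟩ (nd (nat_lit 233) (nat_lit 0) (cs (lf (nat_lit 17) (nat_lit 230)) (rf (nat_lit 0)))) q111124 (by decide +kernel)
def q111146 : Q := Q.p (nat_lit 0xf000000000000000000000000000000000000000000000000000000000000000) (nat_lit 0x40000900006e0003000007c000040000100000000000000000000000000000000000000000000000) (nat_lit 9)
theorem c111146 : QOK q111146 := cut [q111144] ⟨c111144, trivial⟩ (nd (nat_lit 277) (nat_lit 0) (cs (lf (nat_lit 5) (nat_lit 252)) (nd (nat_lit 233) (nat_lit 0) (cs (lf (nat_lit 17) (nat_lit 230)) (rf (nat_lit 0)))))) q111146 (by decide +kernel)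
def q111179 : Q := Q.p (nat_lit 0x200001800006000018000000000000000000000000000000000000000000000000000000000) (nat_lit 0x400001c0006000008000007000010000000000000000000000000000000000000000000000000000) (nat_lit 6)
theorem c111179 : QOK q111179 := cut [q80935] ⟨c80935, trivial⟩ (nd (nat_lit 296) (nat_lit 0) (cs (lf (nat_lit 41) (nat_lit 230)) (nd (nat_lit 294) (nat_lit 0) (cs (lf (nat_lit 13) (nat_lit 272)) (nd (nat_lit 277) (nat_lit 0) (cs (lf (nat_lit 6) (nat_lit 274)) (rf (nat_lit 0)))))))) q111179 (by decide +kernel)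
def q111224 : Q := Q.p (nat_lit 0x800002000008000020000000000000000000000000000000000000000000000000000) (nat_lit 0x2000000000000000060001d0000140000000000000000000000000000000000000000000000) (nat_lit 5)
theorem c111224 : QOK q111224 := cut [q96707] ⟨c96707, trivial⟩ (nd (nat_lit 210) (nat_lit 0) (cs (lf (nat_lit 35) (nat_lit 187)) (rf (nat_lit 0)))) q111224 (by decide +kernel)
def q111227 : Q := Q.p (nat_lit 0x800006000008000020000000000000000000000000000000000000000000000000000) (nat_lit 0x200000000018000017000010000040000000000000000000000000000000000000000000000) (nat_lit 5)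
theorem c111227 : QOK q111227 := cut [q107016] ⟨c107016, trivial⟩ (nd (nat_lit 208) (nat_lit 0) (cs (lf (nat_lit 47) (nat_lit 186)) (nd (nat_lit 230) (nat_lit 0) (cs (lf (nat_lit 42) (nat_lit 208)) (rf (nat_lit 0)))))) q111227 (by decide +kernel)
def q111229 : Q := Q.p (nat_lit 0x800006000018000000000000000000000000000000000000000000000000000000000) (nat_lit 0x80000200000000008000007000010000000000000000000000000000000000000000000000000000) (nat_lit 4)
theorem c111229 : QOK q111229 := cut [q80935] ⟨c80935, trivial⟩ (nd (nat_lit 297) (nat_lit 0) (cs (lf (nat_lit 30) (nat_lit 231)) (rf (nat_lit 0)))) q111229 (by decide +kernel)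
def q111234 : Q := Q.p (nat_lit 0x1800006000018000000000000000000000000000000000000000000000000000000000) (nat_lit 0x380000e4000380000040000c0000300000000000000000000000000000000000000000000000) (nat_lit 8)
theorem c111234 : QOK q111234 := cut [q111233] ⟨c111233, trivial⟩ (nd (nat_lit 210) (nat_lit 0) (cs (lf (nat_lit 36) (nat_lit 187)) (rf (nat_lit 0)))) q111234 (by decide +kernel)
def q111238 : Q := Q.p (nat_lit 0x1800006000008000000000000000000000000000000000000000000000000000000000) (nat_lit 0x3a0000e4000380000140000e0000380000000000000000000000000000000000000000000000) (nat_lit 10)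
theorem c111238 : QOK q111238 := cut [q111233] ⟨c111233, trivial⟩ (nd (nat_lit 209) (nat_lit 0) (cs (lf (nat_lit 24) (nat_lit 187)) (nd (nat_lit 210) (nat_lit 0) (cs (lf (nat_lit 35) (nat_lit 187)) (nd (nat_lit 232) (nat_lit 0) (cs (lf (nat_lit 30) (nat_lit 209)) (rf (nat_lit 0)))))))) q111238 (by decide +kernel)
def q111244 : Q := Q.p (nat_lit 0x1800006000010000040000000000000000000000000000000000000000000000000000) (nat_lit 0x10000040000380000e4000380000e0000180000600000000000000000000000000000000000000000000000) (nat_lit 10)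
theorem c111244 : QOK q111244 := cut [q79268] ⟨c79268, trivial⟩ (nd (nat_lit 189) (nat_lit 0) (cs (lf (nat_lit 34) (nat_lit 188)) (nd (nat_lit 277) (nat_lit 0) (cs (lf (nat_lit 29) (nat_lit 210)) (nd (nat_lit 278) (nat_lit 0) (cs (lf (nat_lit 18) (nat_lit 253)) (nd (nat_lit 256) (nat_lit 0) (cs (lf (nat_lit 17) (nat_lit 253)) (nd (nat_lit 255) (nat_lit 0) (cs (lf (nat_lit 11) (nat_lit 252)) (rf (nat_lit 0)))))))))))) q111244 (by decide +kernel)
def q111275 : Q := Q.p (nat_lit 0x3800006000000000000000000000000000000000000000000000000000000000000000) (nat_lit 0x20000380000c400030000040000100000000000000000000000000000000000000000000000000000) (nat_lit 6)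
theorem c111275 : QOK q111275 := cut [q109380] ⟨c109380, trivial⟩ (nd (nat_lit 278) (nat_lit 0) (cs (lf (nat_lit 18) (nat_lit 253)) (nd (nat_lit 256) (nat_lit 0) (cs (lf (nat_lit 17) (nat_lit 253)) (rf (nat_lit 0)))))) q111275 (by decide +kernel)
def q111310 : Q := Q.p (nat_lit 0x400001800006000000000000000000000000000000000000000000000000000000000000000) (nat_lit 0x400001000002000000000080000300000c0000100000000000000000000000000000000000000000000000) (nat_lit 5)
theorem c111310 : QOK q111310 := cut [q111308] ⟨c111308, trivial⟩ (nd (nat_lit 320) (nat_lit 0) (cs (lf (nat_lit 42) (nat_lit 253)) (nd (nat_lit 233) (nat_lit 0) (cs (lf (nat_lit 34) (nat_lit 232)) (rf (nat_lit 0)))))) q111310 (by decide +kernel)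
def q111470 : Q := Q.p (nat_lit 0x1000006000018000000000000000000000000000000000000000000000000000000000) (nat_lit 0x4000000000380000e700079c000200000800000000000000000000000000000000000000000) (nat_lit 7)
theorem c111470 : QOK q111470 := cut [q104438, q111466, q82120] ⟨c104438, c111466, c82120, trivial⟩ (nd (nat_lit 233) (nat_lit 0) (cs (rf (nat_lit 0)) (cs (rf (nat_lit 1)) (nd (nat_lit 211) (nat_lit 0) (cs (lf (nat_lit 30) (nat_lit 210)) (nd (nat_lit 212) (nat_lit 0) (cs (lf (nat_lit 12) (nat_lit 208)) (rf (nat_lit 2))))))))) q111470 (by decide +kernel)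
def q111497 : Q := Q.p (nat_lit 0x400001000006000000000000000000000000000000000000000000000000000000000000000) (nat_lit 0xa0000380000a00000000000000018000000000000000000000000000000000000000000000000000000000) (nat_lit 5)
theorem c111497 : QOK q111497 := cut [q99934] ⟨c99934, trivial⟩ (nd (nat_lit 320) (nat_lit 0) (cs (lf (nat_lit 47) (nat_lit 231)) (rf (nat_lit 0)))) q111497 (by decide +kernel)
def q111530 : Q := Q.p (nat_lit 0x600001800006000000000000000000000000000000000000000000000000000000000000000) (nat_lit 0x200001800000600000000018000060000000000000000000000000000000000000000000000000000) (nat_lit 5)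
theorem c111530 : QOK q111530 := cut [q79763] ⟨c79763, trivial⟩ (nd (nat_lit 232) (nat_lit 0) (cs (lf (nat_lit 36) (nat_lit 209)) (nd (nat_lit 209) (nat_lit 0) (cs (lf (nat_lit 25) (nat_lit 209)) (rf (nat_lit 0)))))) q111530 (by decide +kernel)
def q111587 : Q := Q.p (nat_lit 0x200000800006000000000000000000000000000000000000000000000000000000000000000) (nat_lit 0x40000700001c0000000000400001000014000000000000000000000000000000000000000000000000000000000) (nat_lit 6)
theorem c111587 : QOK q111587 := cut [q97679] ⟨c97679, trivial⟩ (nd (nat_lit 319) (nat_lit 0) (cs (lf (nat_lit 35) (nat_lit 231)) (nd (nat_lit 320) (nat_lit 0) (cs (lf (nat_lit 29) (nat_lit 253)) (rf (nat_lit 0)))))) q111587 (by decide +kernel)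
def q111588 : Q := Q.p (nat_lit 0x200000800002000000000000000000000000000000000000000000000000000000000000000) (nat_lit 0x40000700001c000050000040000100000c000010000000000000000000000000000000000000000000000000000) (nat_lit 5)
theorem c111588 : QOK q111588 := cut [q89625, q97679, q108332] ⟨c89625, c97679, c108332, trivial⟩ (nd (nat_lit 319) (nat_lit 0) (cs (rf (nat_lit 0)) (cs (rf (nat_lit 1)) (rf (nat_lit 2))))) q111588 (by decide +kernel)
def q111595 : Q := Q.p (nat_lit 0x400001800006000000000000000000000000000000000000000000000000000000000000000) (nat_lit 0xe00003800008000000000000000300000c0000300000000000000000000000000000000000000000000000) (nat_lit 7)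
theorem c111595 : QOK q111595 := cut [q106224] ⟨c106224, trivial⟩ (nd (nat_lit 320) (nat_lit 0) (cs (lf (nat_lit 42) (nat_lit 253)) (nd (nat_lit 319) (nat_lit 0) (cs (lf (nat_lit 41) (nat_lit 253)) (rf (nat_lit 0)))))) q111595 (by decide +kernel)
def q111598 : Q := Q.p (nat_lit 0x400007800000000000000000000000000000000000000000000000000000000000000) (nat_lit 0x40000100000000000000007000008000020000000000000000000000000000000000000000000000) (nat_lit 4)
theorem c111598 : QOK q111598 := cut [q91583] ⟨c91583, trivial⟩ (nd (nat_lit 229) (nat_lit 0) (cs (lf (nat_lit 23) (nat_lit 228)) (rf (nat_lit 0)))) q111598 (by decide +kernel)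
def q111628 : Q := Q.p (nat_lit 0x1800006000010000000000000000000000000000000000000000000000000000000000) (nat_lit 0x4000000000018000e80000c0000300000000000000000000000000000000000000000000000) (nat_lit 6)
theorem c111628 : QOK q111628 := cut [q111627] ⟨c111627, trivial⟩ (nd (nat_lit 210) (nat_lit 0) (cs (lf (nat_lit 36) (nat_lit 187)) (rf (nat_lit 0)))) q111628 (by decide +kernel)
def q111658 : Q := Q.p (nat_lit 0x1800006000000000000000000000000000000000000000000000000000000000000000) (nat_lit 0x300000c0003bc000e700031c00006000018000060000000000000000000000000000000000000000000000) (nat_lit 10)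
theorem c111658 : QOK q111658 := cut [q79958, q111212, q79442, q111623, q79170, q80993] ⟨c79958, c111212, c79442, c111623, c79170, c80993, trivial⟩ (nd (nat_lit 277) (nat_lit 0) (cs (rf (nat_lit 0)) (cs (rf (nat_lit 1)) (nd (nat_lit 274) (nat_lit 0) (cs (rf (nat_lit 2)) (cs (rf (nat_lit 3)) (nd (nat_lit 252) (nat_lit 0) (cs (rf (nat_lit 4)) (nd (nat_lit 296) (nat_lit 0) (cs (lf (nat_lit 11) (nat_lit 273)) (nd (nat_lit 318) (nat_lit 0) (cs (lf (nat_lit 30) (nat_lit 252)) (nd (nat_lit 319) (nat_lit 0) (cs (lf (nat_lit 29) (nat_lit 252)) (nd (nat_lit 230) (nat_lit 0) (cs (lf (nat_lit 28) (nat_lit 230)) (rf (nat_lit 5)))))))))))))))))) q111658 (by decide +kernel)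
def q111778 : Q := Q.p (nat_lit 0x200000800006000000000000000000000000000000000000000000000000000000000000000) (nat_lit 0x40000700001c000050000100000000000c0000300000c0000000000000000000000000000000000000000000000) (nat_lit 7)
theorem c111778 : QOK q111778 := cut [q89625, q111578, q79186] ⟨c89625, c111578, c79186, trivial⟩ (nd (nat_lit 319) (nat_lit 0) (cs (rf (nat_lit 0)) (cs (rf (nat_lit 1)) (nd (nat_lit 320) (nat_lit 0) (cs (lf (nat_lit 29) (nat_lit 253)) (nd (nat_lit 231) (nat_lit 0) (cs (lf (nat_lit 28) (nat_lit 231)) (nd (nat_lit 276) (nat_lit 0) (cs (lf (nat_lit 30) (nat_lit 253)) (nd (nat_lit 209) (nat_lit 0) (cs (lf (nat_lit 24) (nat_lit 187)) (rf (nat_lit 2))))))))))))) q111778 (by decide +kernel)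
def q111792 : Q := Q.p (nat_lit 0x1c00006800000000000000000000000000000000000000000000000000000000000000) (nat_lit 0x380000e000001000000000000000000000000000000000000000000000000000000000000000) (nat_lit 4)
theorem c111792 : QOK q111792 := cut [q108186] ⟨c108186, trivial⟩ (nd (nat_lit 277) (nat_lit 0) (cs (lf (nat_lit 22) (nat_lit 251)) (rf (nat_lit 0)))) q111792 (by decide +kernel)
def q111810 : Q := Q.p (nat_lit 0xe00001c00003000000000000000000000000000000000000000000000000000000000000000) (nat_lit 0x10000060000180006000000000000000000000000000000000000000000000000000000000000000000000) (nat_lit 4)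
theorem c111810 : QOK q111810 := cut [q81418] ⟨c81418, trivial⟩ (nd (nat_lit 277) (nat_lit 0) (cs (lf (nat_lit 18) (nat_lit 252)) (rf (nat_lit 0)))) q111810 (by decide +kernel)
def q111829 : Q := Q.p (nat_lit 0x300000c00006000008000000000000000000000000000000000000000000000000000000000) (nat_lit 0x80000700001c80007000000000000000000000000000000000000000000000000000000000000000000000) (nat_lit 6)
theorem c111829 : QOK q111829 := cut [q107840] ⟨c107840, trivial⟩ (nd (nat_lit 298) (nat_lit 0) (cs (lf (nat_lit 29) (nat_lit 231)) (rf (nat_lit 0)))) q111829 (by decide +kernel)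
def q111899 : Q := Q.p (nat_lit 0x200000800006000000000000000000000000000000000000000000000000000000000000000) (nat_lit 0x140000700001c0000500001000000000008000000000000000000000000000000000000000000000000000000000) (nat_lit 5)
theorem c111899 : QOK q111899 := cut [q89625, q99624, q111578] ⟨c89625, c99624, c111578, trivial⟩ (nd (nat_lit 319) (nat_lit 0) (cs (rf (nat_lit 0)) (cs (rf (nat_lit 1)) (rf (nat_lit 2))))) q111899 (by decide +kernel)
def q111943 : Q := Q.p (nat_lit 0xe000000000000000000000000000000000000000000000000000000000000000) (nat_lit 0x20000180001fc000300001ec000380000e00003800008000000000000000000000000000000000000) (nat_lit 10)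
theorem c111943 : QOK q111943 := cut [q80508, q81722, q111941, q95394] ⟨c80508, c81722, c111941, c95394, trivial⟩ (nd (nat_lit 256) (nat_lit 0) (cs (rf (nat_lit 0)) (cs (rf (nat_lit 1)) (cs (rf (nat_lit 2)) (nd (nat_lit 230) (nat_lit 0) (cs (lf (nat_lit 22) (nat_lit 230)) (rf (nat_lit 3)))))))) q111943 (by decide +kernel)
def q111959 : Q := Q.p (nat_lit 0xe000000000000000000000000000000000000000000000000000000000000000) (nat_lit 0xf000118000ef000000000000000000000000000000000000000000000000000000000) (nat_lit 5)
theorem c111959 : QOK q111959 := cut [q79223, q81927, q93924] ⟨c79223, c81927, c93924, trivial⟩ (nd (nat_lit 252) (nat_lit 0) (cs (rf (nat_lit 0)) (cs (rf (nat_lit 1)) (rf (nat_lit 2))))) q111959 (by decide +kernel)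
def q111960 : Q := Q.p (nat_lit 0xe000000000000000000000000000000000000000000000000000000000000000) (nat_lit 0x1e0000310001ee000000000000000000000000000000000000000000000000000000000) (nat_lit 5)
theorem c111960 : QOK q111960 := cut [q80540, q80542, q95394] ⟨c80540, c80542, c95394, trivial⟩ (nd (nat_lit 256) (nat_lit 0) (cs (rf (nat_lit 0)) (cs (rf (nat_lit 1)) (rf (nat_lit 2))))) q111960 (by decide +kernel)
def q111961 : Q := Q.p (nat_lit 0xe000000000000000000000000000000000000000000000000000000000000000) (nat_lit 0x1de000310001e0000000000000000000000000000000000000000000000000000000000) (nat_lit 5)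
theorem c111961 : QOK q111961 := cut [q80562, q81722, q95394] ⟨c80562, c81722, c95394, trivial⟩ (nd (nat_lit 256) (nat_lit 0) (cs (rf (nat_lit 0)) (cs (rf (nat_lit 1)) (rf (nat_lit 2))))) q111961 (by decide +kernel)
def q111962 : Q := Q.p (nat_lit 0xe000000000000000000000000000000000000000000000000000000000000000) (nat_lit 0xff00011800007000000000000000000000000000000000000000000000000000000000) (nat_lit 5)
theorem c111962 : QOK q111962 := cut [q80428, q81927, q98272] ⟨c80428, c81927, c98272, trivial⟩ (nd (nat_lit 252) (nat_lit 0) (cs (rf (nat_lit 0)) (cs (rf (nat_lit 1)) (rf (nat_lit 2))))) q111962 (by decide +kernel)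
def q111964 : Q := Q.p (nat_lit 0xf000000000000000000000000000000000000000000000000000000000000000) (nat_lit 0xe00001000000e000000000000000000000000000000000000000000000000000000000) (nat_lit 4)
theorem c111964 : QOK q111964 := cut [q80572] ⟨c80572, trivial⟩ (nd (nat_lit 278) (nat_lit 0) (cs (lf (nat_lit 4) (nat_lit 252)) (rf (nat_lit 0)))) q111964 (by decide +kernel)
def q111969 : Q := Q.p (nat_lit 0x1e000000000000000000000000000000000000000000000000000000000000000) (nat_lit 0x1c00002000001c000000000000000000000000000000000000000000000000000000000) (nat_lit 4)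
theorem c111969 : QOK q111969 := cut [q80641] ⟨c80641, trivial⟩ (nd (nat_lit 279) (nat_lit 0) (cs (lf (nat_lit 4) (nat_lit 253)) (rf (nat_lit 0)))) q111969 (by decide +kernel)
def q111983 : Q := Q.p (nat_lit 0xe000000000000000000000000000000000000000000000000000000000000000) (nat_lit 0x1ee000310001e0000000000000000000000000000000000000000000000000000000000) (nat_lit 5)
theorem c111983 : QOK q111983 := cut [q80562, q80685, q95394] ⟨c80562, c80685, c95394, trivial⟩ (nd (nat_lit 256) (nat_lit 0) (cs (rf (nat_lit 0)) (cs (rf (nat_lit 1)) (rf (nat_lit 2))))) q111983 (by decide +kernel)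
def q112018 : Q := Q.p (nat_lit 0x800006000008000020000000000000000000000000000000000000000000000000000) (nat_lit 0x20000080000600001000000000014000010000040000000000000000000000000000000000000000000000) (nat_lit 5)
theorem c112018 : QOK q112018 := cut [q80845] ⟨c80845, trivial⟩ (nd (nat_lit 276) (nat_lit 0) (cs (lf (nat_lit 29) (nat_lit 209)) (rf (nat_lit 0)))) q112018 (by decide +kernel)
def q112148 : Q := Q.p (nat_lit 0xe000000000000000000000000000000000000000000000000000000000000000) (nat_lit 0x20000080003fe000718001d8000140000400000000000000000000000000000000000000000000000) (nat_lit 11)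
theorem c112148 : QOK q112148 := cut [q80536, q80685, q81082, q95394] ⟨c80536, c80685, c81082, c95394, trivial⟩ (nd (nat_lit 256) (nat_lit 0) (cs (rf (nat_lit 0)) (cs (rf (nat_lit 1)) (cs (rf (nat_lit 2)) (rf (nat_lit 3)))))) q112148 (by decide +kernel)
def q112203 : Q := Q.p (nat_lit 0x800006000018000000000000000000000000000000000000000000000000000000000) (nat_lit 0x1800006000010000000000000000300000c0000300000000000000000000000000000000000000000) (nat_lit 6)
theorem c112203 : QOK q112203 := cut [q79467] ⟨c79467, trivial⟩ (nd (nat_lit 297) (nat_lit 0) (cs (lf (nat_lit 30) (nat_lit 231)) (nd (nat_lit 298) (nat_lit 0) (cs (lf (nat_lit 29) (nat_lit 231)) (nd (nat_lit 209) (nat_lit 0) (cs (lf (nat_lit 28) (nat_lit 209)) (rf (nat_lit 0)))))))) q112203 (by decide +kernel)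
def q112444 : Q := Q.p (nat_lit 0x400003000038000040000000000000000000000000000000000000000000000000000) (nat_lit 0x2000008000000000000000380000c0000000000000000000000000000000000000000000000) (nat_lit 4)
theorem c112444 : QOK q112444 := cut [q102422] ⟨c102422, trivial⟩ (nd (nat_lit 209) (nat_lit 0) (cs (lf (nat_lit 36) (nat_lit 186)) (rf (nat_lit 0)))) q112444 (by decide +kernel)
def q112508 : Q := Q.p (nat_lit 0x700001c000000000000000000000000000000000000000000000000000000000) (nat_lit 0x1000004000000000030000dc000120000480000000000000000000000000000000000000000) (nat_lit 7)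
theorem c112508 : QOK q112508 := cut [q80215] ⟨c80215, trivial⟩ (nd (nat_lit 229) (nat_lit 0) (cs (lf (nat_lit 0) (nat_lit 228)) (nd (nat_lit 210) (nat_lit 0) (cs (lf (nat_lit 17) (nat_lit 207)) (nd (nat_lit 166) (nat_lit 0) (cs (lf (nat_lit 37) (nat_lit 165)) (rf (nat_lit 0)))))))) q112508 (by decide +kernel)
def q112513 : Q := Q.p (nat_lit 0x7000010000000000000000000000000000000000000000000000000000000000) (nat_lit 0x7700008c0000b800000000000000000000000000000000000000000000000000000000) (nat_lit 5)
theorem c112513 : QOK q112513 := cut [q79231, q81084] ⟨c79231, c81084, trivial⟩ (nd (nat_lit 251) (nat_lit 0) (cs (rf (nat_lit 0)) (rf (nat_lit 1)))) q112513 (by decide +kernel)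
def q112556 : Q := Q.p (nat_lit 0x1000006000010000000000000000000000000000000000000000000000000000000000) (nat_lit 0x1800006000008000000000080000e0000380000a00000000000000000000000000000000000000000) (nat_lit 6)
theorem c112556 : QOK q112556 := cut [q90156, q104745, q80343] ⟨c90156, c104745, c80343, trivial⟩ (nd (nat_lit 297) (nat_lit 0) (cs (rf (nat_lit 0)) (cs (rf (nat_lit 1)) (nd (nat_lit 298) (nat_lit 0) (cs (lf (nat_lit 41) (nat_lit 231)) (rf (nat_lit 2))))))) q112556 (by decide +kernel)
def q112561 : Q := Q.p (nat_lit 0x300000c00007000000000000000000000000000000000000000000000000000000000000000) (nat_lit 0x200000e0000380000000004000010000000000000000000000000000000000000000000000000000) (nat_lit 5)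
theorem c112561 : QOK q112561 := cut [q99383] ⟨c99383, trivial⟩ (nd (nat_lit 272) (nat_lit 0) (cs (lf (nat_lit 13) (nat_lit 250)) (nd (nat_lit 230) (nat_lit 0) (cs (lf (nat_lit 24) (nat_lit 208)) (rf (nat_lit 0)))))) q112561 (by decide +kernel)
def q112570 : Q := Q.p (nat_lit 0xc0000100000c00007000000000000000000000000000000000000000000000000000000000000000) (nat_lit 0x80001200000e0000300000000004000000000000000000000000000000000000000000000000000000000) (nat_lit 5)
theorem c112570 : QOK q112570 := cut [q25425] ⟨c25425, trivial⟩ (nd (nat_lit 272) (nat_lit 0) (cs (rf (nat_lit 0)) (lf (nat_lit 13) (nat_lit 250)))) q112570 (by decide +kernel)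
def q112599 : Q := Q.p (nat_lit 0x700000c000030000000000000000000000000000000000000000000000000000) (nat_lit 0xe000078000000000130001c0000300000000000000000000000000000000000000000000000) (nat_lit 8)
theorem c112599 : QOK q112599 := cut [q106581] ⟨c106581, trivial⟩ (nd (nat_lit 275) (nat_lit 0) (cs (lf (nat_lit 42) (nat_lit 208)) (nd (nat_lit 276) (nat_lit 0) (cs (lf (nat_lit 29) (nat_lit 209)) (nd (nat_lit 277) (nat_lit 0) (cs (lf (nat_lit 18) (nat_lit 252)) (nd (nat_lit 228) (nat_lit 0) (cs (lf (nat_lit 1) (nat_lit 228)) (rf (nat_lit 0)))))))))) q112599 (by decide +kernel)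
def q112629 : Q := Q.p (nat_lit 0xf000000000000000000000000000000000000000000000000000000000000000) (nat_lit 0x380000c0003f000000000000000000000000000000000000000000000000000000000) (nat_lit 6)
theorem c112629 : QOK q112629 := cut [q79013] ⟨c79013, trivial⟩ (nd (nat_lit 229) (nat_lit 0) (cs (lf (nat_lit 22) (nat_lit 229)) (nd (nat_lit 251) (nat_lit 0) (cs (rf (nat_lit 0)) (lf (nat_lit 23) (nat_lit 228)))))) q112629 (by decide +kernel)
def q112669 : Q := Q.p (nat_lit 0x200000e000000000000000000000000000000000000000000000000000000000000000) (nat_lit 0x1f00007e0007f8001de000000000380001e0000780001000000000000000000000000000000000000000000) (nat_lit 11)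
theorem c112669 : QOK q112669 := cut [q80777, q80805, q80789, q81951, q112137, q112140, q112631, q80796, q112661, q90151, q13859] ⟨c80777, c80805, c80789, c81951, c112137, c112140, c112631, c80796, c112661, c90151, c13859, trivial⟩ (nd (nat_lit 299) (nat_lit 0) (cs (rf (nat_lit 0)) (cs (rf (nat_lit 1)) (cs (nd (nat_lit 320) (nat_lit 0) (cs (rf (nat_lit 2)) (cs (rf (nat_lit 3)) (cs (rf (nat_lit 4)) (cs (rf (nat_lit 5)) (nd (nat_lit 321) (nat_lit 0) (cs (lf (nat_lit 41) (nat_lit 254)) (nd (nat_lit 276) (nat_lit 0) (cs (lf (nat_lit 42) (nat_lit 254)) (nd (nat_lit 278) (nat_lit 0) (cs (lf (nat_lit 18) (nat_lit 253)) (nd (nat_lit 322) (nat_lit 0) (cs (lf (nat_lit 29) (nat_lit 255)) (nd (nat_lit 300) (nat_lit 0) (cs (lf (nat_lit 24) (nat_lit 233)) (rf (nat_lit 6))))))))))))))))) (nd (nat_lit 298) (nat_lit 0) (cs (nd (nat_lit 233) (nat_lit 0) (cs (lf (nat_lit 41) (nat_lit 232)) (nd (nat_lit 300) (nat_lit 0) (cs (lf (nat_lit 29) (nat_lit 233)) (nd (nat_lit 211) (nat_lit 0) (cs (lf (nat_lit 40) (nat_lit 210)) (lf (nat_lit 28) (nat_lit 211))))))))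 (cs (nd (nat_lit 233) (nat_lit 0) (cs (lf (nat_lit 41) (nat_lit 232)) (rf (nat_lit 7)))) (cs (nd (nat_lit 276) (nat_lit 0) (cs (nd (nat_lit 233) (nat_lit 0) (cs (lf (nat_lit 36) (nat_lit 210)) (nd (nat_lit 278) (nat_lit 0) (cs (lf (nat_lit 18) (nat_lit 253)) (nd (nat_lit 296) (nat_lit 0) (cs (lf (nat_lit 13) (nat_lit 274)) (nd (nat_lit 300) (nat_lit 0) (cs (lf (nat_lit 29) (nat_lit 233)) (rf (nat_lit 6)))))))))) (cs (nd (nat_lit 232) (nat_lit 0) (cs (lf (nat_lit 24) (nat_lit 210)) (nd (nat_lit 209) (nat_lit 0) (cs (lf (nat_lit 46) (nat_lit 209)) (nd (nat_lit 297) (nat_lit 0) (cs (lf (nat_lit 41) (nat_lit 231)) (nd (nat_lit 296) (nat_lit 0) (cs (lf (nat_lit 12) (nat_lit 273)) (nd (nat_lit 274) (nat_lit 0) (cs (lf (nat_lit 23) (nat_lit 273)) (nd (nat_lit 318) (nat_lit 0) (cs (lf (nat_lit 11) (nat_lit 295)) (nd (nat_lit 275) (nat_lit 0) (cs (lf (nat_lit 18) (nat_lit 274)) (lf (nat_lit 30) (nat_lit 252)))))))))))))))) (cs (nd (nat_lit 210) (nat_lit 0) (cs (lf (nat_lit 25) (nat_lit 210)) (nd (nat_lit 279) (nat_lit 0) (cs (nd (nat_lit 233) (nat_lit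 0) (cs (lf (nat_lit 36) (nat_lit 210)) (nd (nat_lit 300) (nat_lit 0) (cs (lf (nat_lit 29) (nat_lit 233)) (nd (nat_lit 301) (nat_lit 0) (cs (lf (nat_lit 17) (nat_lit 276)) (lf (nat_lit 18) (nat_lit 276)))))))) (lf (nat_lit 19) (nat_lit 253)))))) (nd (nat_lit 211) (nat_lit 0) (cs (lf (nat_lit 37) (nat_lit 210)) (rf (nat_lit 8)))))))) (cs (nd (nat_lit 276) (nat_lit 0) (cs (rf (nat_lit 9)) (rf (nat_lit 8)))) (nd (nat_lit 233) (nat_lit 0) (cs (lf (nat_lit 41) (nat_lit 232)) (nd (nat_lit 300) (nat_lit 0) (cs (lf (nat_lit 29) (nat_lit 233)) (nd (nat_lit 211) (nat_lit 0) (cs (lf (nat_lit 40) (nat_lit 210)) (rf (nat_lit 10))))))))))))))))) q112669 (by decide +kernel)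
def q112811 : Q := Q.p (nat_lit 0xc00007000000000000000000000000000000000000000000000000000000000000000) (nat_lit 0x200006000018000066000010000040000000000000000000000000000000000000000000000) (nat_lit 6)
theorem c112811 : QOK q112811 := cut [q99087] ⟨c99087, trivial⟩ (nd (nat_lit 255) (nat_lit 0) (cs (lf (nat_lit 6) (nat_lit 252)) (nd (nat_lit 277) (nat_lit 0) (cs (lf (nat_lit 5) (nat_lit 252)) (nd (nat_lit 233) (nat_lit 0) (cs (lf (nat_lit 17) (nat_lit 230)) (rf (nat_lit 0)))))))) q112811 (by decide +kernel)
def q112868 : Q := Q.p (nat_lit 0x1e00002000000000000000000000000000000000000000000000000000000000000000) (nat_lit 0x1c0000e00000d000000000000000000000000000000000000000000000000000000000000000) (nat_lit 5)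
theorem c112868 : QOK q112868 := cut [q99006] ⟨c99006, trivial⟩ (nd (nat_lit 299) (nat_lit 0) (cs (lf (nat_lit 4) (nat_lit 273)) (nd (nat_lit 254) (nat_lit 0) (cs (lf (nat_lit 17) (nat_lit 251)) (rf (nat_lit 0)))))) q112868 (by decide +kernel)
def q112882 : Q := Q.p (nat_lit 0x1e00002000000000000000000000000000000000000000000000000000000000000000) (nat_lit 0x380000600001d000000000000000000000000000000000000000000000000000000000000000) (nat_lit 5)
theorem c112882 : QOK q112882 := cut [q109699] ⟨c109699, trivial⟩ (nd (nat_lit 255) (nat_lit 0) (cs (lf (nat_lit 16) (nat_lit 251)) (nd (nat_lit 277) (nat_lit 0) (cs (lf (nat_lit 17) (nat_lit 252)) (rf (nat_lit 0)))))) q112882 (by decide +kernel)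
def q112947 : Q := Q.p (nat_lit 0x1800007800000000000000000000000000000000000000000000000000000000000000) (nat_lit 0x7000380000e0000000000000000000000000000000000000000000000000000000000) (nat_lit 5)
theorem c112947 : QOK q112947 := cut [q108916] ⟨c108916, trivial⟩ (nd (nat_lit 273) (nat_lit 0) (cs (lf (nat_lit 11) (nat_lit 250)) (rf (nat_lit 0)))) q112947 (by decide +kernel)
def q112952 : Q := Q.p (nat_lit 0x800007800000000000000000000000000000000000000000000000000000000000000) (nat_lit 0xe400018000007000000000000000000000000000000000000000000000000000000000) (nat_lit 5)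
theorem c112952 : QOK q112952 := cut [q112950] ⟨c112950, trivial⟩ (nd (nat_lit 229) (nat_lit 0) (cs (lf (nat_lit 23) (nat_lit 228)) (nd (nat_lit 255) (nat_lit 0) (cs (lf (nat_lit 22) (nat_lit 229)) (rf (nat_lit 0)))))) q112952 (by decide +kernel)
def q112993 : Q := Q.p (nat_lit 0x800003c00000000000000000000000000000000000000000000000000000000000000) (nat_lit 0xe78001c000077800008000020000000000000000000000000000000000000000000000) (nat_lit 10)
theorem c112993 : QOK q112993 := cut [q112950] ⟨c112950, trivial⟩ (nd (nat_lit 227) (nat_lit 0) (cs (lf (nat_lit 22) (nat_lit 227)) (nd (nat_lit 272) (nat_lit 0) (cs (lf (nat_lit 11) (nat_lit 249)) (nd (nat_lit 254) (nat_lit 0) (cs (lf (nat_lit 10) (nat_lit 250)) (nd (nat_lit 233) (nat_lit 0) (cs (lf (nat_lit 16) (nat_lit 229)) (nd (nat_lit 255) (nat_lit 0) (cs (lf (nat_lit 17) (nat_lit 230)) (nd (nat_lit 229) (nat_lit 0) (cs (lf (nat_lit 22) (nat_lit 229)) (nd (nat_lit 185) (nat_lit 0) (cs (lf (nat_lit 37) (nat_lit 184)) (rf (nat_lit 0)))))))))))))))) q112993 (by decide +kernel)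
def q113038 : Q := Q.p (nat_lit 0xc00003000004000010000000000000000000000000000000000000000000000000000) (nat_lit 0x100000600001800002000000000080000280000a0000000000000000000000000000000000000000000000) (nat_lit 6)
theorem c113038 : QOK q113038 := cut [q106528] ⟨c106528, trivial⟩ (nd (nat_lit 185) (nat_lit 0) (cs (lf (nat_lit 46) (nat_lit 185)) (nd (nat_lit 295) (nat_lit 0) (cs (lf (nat_lit 40) (nat_lit 207)) (nd (nat_lit 187) (nat_lit 0) (cs (lf (nat_lit 34) (nat_lit 186)) (rf (nat_lit 0)))))))) q113038 (by decide +kernel)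
def q113105 : Q := Q.p (nat_lit 0x200003800000000000000000000000000000000000000000000000000000000000000) (nat_lit 0x50000c000007000000000000000000000000000000000000000000000000000000000) (nat_lit 4)
theorem c113105 : QOK q113105 := cut [q94710] ⟨c94710, trivial⟩ (nd (nat_lit 254) (nat_lit 0) (cs (lf (nat_lit 11) (nat_lit 250)) (rf (nat_lit 0)))) q113105 (by decide +kernel)
def q113116 : Q := Q.p (nat_lit 0x800002000008000000000000000000000000000000000000000000000000000000000) (nat_lit 0x400001c0000700001400004000010000060000100000000000000000000000000000000000000000000000) (nat_lit 5)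
theorem c113116 : QOK q113116 := cut [q22016, q82063, q98797] ⟨c22016, c82063, c98797, trivial⟩ (nd (nat_lit 297) (nat_lit 0) (cs (rf (nat_lit 0)) (cs (rf (nat_lit 1)) (rf (nat_lit 2))))) q113116 (by decide +kernel)
def q113160 : Q := Q.p (nat_lit 0x200000800002000000000000000000000000000000000000000000000000000000000000000) (nat_lit 0x100000700001c000010000100000500001c000010000000000000000000000000000000000000000000000000000) (nat_lit 5)
theorem c113160 : QOK q113160 := cut [q98129, q113158] ⟨c98129, c113158, trivial⟩ (nd (nat_lit 319) (nat_lit 0) (cs (rf (nat_lit 0)) (rf (nat_lit 1)))) q113160 (by decide +kernel)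
def q113161 : Q := Q.p (nat_lit 0x200000800002000000000000000000000000000000000000000000000000000000000000000) (nat_lit 0x140000700001c0000500001000004000018000000000000000000000000000000000000000000000000000000000) (nat_lit 5)
theorem c113161 : QOK q113161 := cut [q89625, q98129, q113148] ⟨c89625, c98129, c113148, trivial⟩ (nd (nat_lit 319) (nat_lit 0) (cs (rf (nat_lit 0)) (cs (rf (nat_lit 1)) (rf (nat_lit 2))))) q113161 (by decide +kernel)
def q113176 : Q := Q.p (nat_lit 0x80000200000800002000000000000000000000000000000000000000000000000000000000000000) (nat_lit 0x100001c000070000100000100000400001000000000000000000000000000000000000000000000000000000000000000) (nat_lit 6)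
theorem c113176 : QOK q113176 := cut [q14364] ⟨c14364, trivial⟩ (nd (nat_lit 342) (nat_lit 0) (cs (lf (nat_lit 28) (nat_lit 253)) (nd (nat_lit 341) (nat_lit 0) (cs (lf (nat_lit 29) (nat_lit 275)) (nd (nat_lit 274) (nat_lit 0) (cs (lf (nat_lit 47) (nat_lit 252)) (rf (nat_lit 0)))))))) q113176 (by decide +kernel)
def q113186 : Q := Q.p (nat_lit 0x600000c00001000000000000000000000000000000000000000000000000000000000000000) (nat_lit 0x1800001300000000004000010000000000000000000000000000000000000000000000000000) (nat_lit 4)
theorem c113186 : QOK q113186 := cut [q22569] ⟨c22569, trivial⟩ (nd (nat_lit 208) (nat_lit 0) (cs (lf (nat_lit 25) (nat_lit 208)) (rf (nat_lit 0)))) q113186 (by decide +kernel)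
def q113190 : Q := Q.p (nat_lit 0x600000c00001000000000000000000000000000000000000000000000000000000000000000) (nat_lit 0x1900000300000000004000010000000000000000000000000000000000000000000000000000) (nat_lit 4)
theorem c113190 : QOK q113190 := cut [q14731] ⟨c14731, trivial⟩ (nd (nat_lit 208) (nat_lit 0) (cs (lf (nat_lit 25) (nat_lit 208)) (rf (nat_lit 0)))) q113190 (by decide +kernel)
def q113207 : Q := Q.p (nat_lit 0x300000c00003000000000000000000000000000000000000000000000000000000000000000) (nat_lit 0x320000ce000030000c00000f800018000000000000000000000000000000000000000000000000000) (nat_lit 10)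
theorem c113207 : QOK q113207 := cut [q99387] ⟨c99387, trivial⟩ (nd (nat_lit 230) (nat_lit 0) (cs (lf (nat_lit 24) (nat_lit 208)) (nd (nat_lit 295) (nat_lit 0) (cs (lf (nat_lit 41) (nat_lit 229)) (nd (nat_lit 293) (nat_lit 0) (cs (lf (nat_lit 13) (nat_lit 271)) (nd (nat_lit 229) (nat_lit 0) (cs (lf (nat_lit 47) (nat_lit 207)) (nd (nat_lit 227) (nat_lit 0) (cs (lf (nat_lit 1) (nat_lit 227)) (nd (nat_lit 254) (nat_lit 0) (cs (lf (nat_lit 18) (nat_lit 229)) (nd (nat_lit 273) (nat_lit 0) (cs (lf (nat_lit 12) (nat_lit 250)) (rf (nat_lit 0)))))))))))))))) q113207 (by decide +kernel)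
def q113298 : Q := Q.p (nat_lit 0x3800002000000000000000000000000000000000000000000000000000000000000000) (nat_lit 0x400007b8000c40003c000020000080000000000000000000000000000000000000000000000000000) (nat_lit 6)
theorem c113298 : QOK q113298 := cut [q113283, q15730, q15788, q113295] ⟨c113283, c15730, c15788, c113295, trivial⟩ (nd (nat_lit 278) (nat_lit 0) (cs (rf (nat_lit 0)) (cs (nd (nat_lit 296) (nat_lit 0) (cs (lf (nat_lit 10) (nat_lit 274)) (nd (nat_lit 274) (nat_lit 0) (cs (lf (nat_lit 11) (nat_lit 273)) (rf (nat_lit 1)))))) (cs (nd (nat_lit 296) (nat_lit 0) (cs (lf (nat_lit 10) (nat_lit 274)) (nd (nat_lit 274) (nat_lit 0) (cs (lf (nat_lit 11) (nat_lit 273)) (rf (nat_lit 2)))))) (nd (nat_lit 296) (nat_lit 0) (cs (lf (nat_lit 10) (nat_lit 274)) (nd (nat_lit 256) (nat_lit 0) (cs (lf (nat_lit 17) (nat_lit 253)) (rf (nat_lit 3)))))))))) q113298 (by decide +kernel)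
def q113304 : Q := Q.p (nat_lit 0x180000200000c000000000000000000000000000000000000000000000000000000000) (nat_lit 0x10000060000000001d8000730000c0000100000000000000000000000000000000000000000000000) (nat_lit 6)
theorem c113304 : QOK q113304 := cut [q102009, q107016, q81878, q113302] ⟨c102009, c107016, c81878, c113302, trivial⟩ (nd (nat_lit 254) (nat_lit 0) (cs (rf (nat_lit 0)) (cs (rf (nat_lit 1)) (nd (nat_lit 232) (nat_lit 0) (cs (rf (nat_lit 2)) (rf (nat_lit 3))))))) q113304 (by decide +kernel)
def q113327 : Q := Q.p (nat_lit 0x3800002000008000000000000000000000000000000000000000000000000000000000) (nat_lit 0x40000700000c40003c000024000080000000000000000000000000000000000000000000000000000) (nat_lit 6)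
theorem c113327 : QOK q113327 := cut [q113283, q113295] ⟨c113283, c113295, trivial⟩ (nd (nat_lit 278) (nat_lit 0) (cs (rf (nat_lit 0)) (cs (rf (nat_lit 1)) (nd (nat_lit 256) (nat_lit 0) (cs (lf (nat_lit 17) (nat_lit 253)) (nd (nat_lit 255) (nat_lit 0) (cs (lf (nat_lit 12) (nat_lit 252)) (nd (nat_lit 254) (nat_lit 0) (cs (lf (nat_lit 23) (nat_lit 230)) (lf (nat_lit 5) (nat_lit 253))))))))))) q113327 (by decide +kernel)
def q113381 : Q := Q.p (nat_lit 0xc0000300000400001000000000000000000000000000000000000000000000000000000000000000) (nat_lit 0x8000030000c00000000000800002000000000000000000000000000000000000000000000000000000000) (nat_lit 4)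
theorem c113381 : QOK q113381 := cut [q55442] ⟨c55442, trivial⟩ (nd (nat_lit 229) (nat_lit 0) (cs (lf (nat_lit 46) (nat_lit 229)) (rf (nat_lit 0)))) q113381 (by decide +kernel)
def q113408 : Q := Q.p (nat_lit 0x300000800006000000000000000000000000000000000000000000000000000000000000000) (nat_lit 0x40000400001000000000018000060000180000000000000000000000000000000000000000000000) (nat_lit 5)
theorem c113408 : QOK q113408 := cut [q81209] ⟨c81209, trivial⟩ (nd (nat_lit 231) (nat_lit 0) (cs (lf (nat_lit 41) (nat_lit 230)) (rf (nat_lit 0)))) q113408 (by decide +kernel)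
def q113437 : Q := Q.p (nat_lit 0x180000e000010000000000000000000000000000000000000000000000000000000000) (nat_lit 0x40000c0000310000e0000080000200000000000000000000000000000000000000000000000) (nat_lit 6)
theorem c113437 : QOK q113437 := cut [q109879] ⟨c109879, trivial⟩ (nd (nat_lit 256) (nat_lit 0) (cs (lf (nat_lit 6) (nat_lit 253)) (nd (nat_lit 278) (nat_lit 0) (cs (lf (nat_lit 5) (nat_lit 253)) (rf (nat_lit 0)))))) q113437 (by decide +kernel)
def q113474 : Q := Q.p (nat_lit 0x20000480001e000000000000000000000000000000000000000000000000000000000000000) (nat_lit 0x3000021c00030000040000000000000000000000000000000000000000000000000000) (nat_lit 5)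
theorem c113474 : QOK q113474 := cut [q108282] ⟨c108282, trivial⟩ (nd (nat_lit 252) (nat_lit 0) (cs (lf (nat_lit 4) (nat_lit 252)) (nd (nat_lit 276) (nat_lit 0) (cs (lf (nat_lit 6) (nat_lit 253)) (rf (nat_lit 0)))))) q113474 (by decide +kernel)
def q113505 : Q := Q.p (nat_lit 0x80000e000000000000000000000000000000000000000000000000000000000000000) (nat_lit 0x100000c4000110000e0000080000200000000000000000000000000000000000000000000000) (nat_lit 6)
theorem c113505 : QOK q113505 := cut [q98210] ⟨c98210, trivial⟩ (nd (nat_lit 256) (nat_lit 0) (cs (lf (nat_lit 11) (nat_lit 252)) (rf (nat_lit 0)))) q113505 (by decide +kernel)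
def q113526 : Q := Q.p (nat_lit 0x180000600001800006000000000000000000000000000000000000000000000000000000000000000) (nat_lit 0x90000e70000100000000000000000000000000000000000000000000000000000000000000000000000000) (nat_lit 5)
theorem c113526 : QOK q113526 := cut [q113525] ⟨c113525, trivial⟩ (nd (nat_lit 318) (nat_lit 0) (cs (lf (nat_lit 41) (nat_lit 252)) (rf (nat_lit 0)))) q113526 (by decide +kernel)
def q113544 : Q := Q.p (nat_lit 0x800012000038000000000000000000000000000000000000000000000000000000000) (nat_lit 0x240002c0000c0000340000500001000000000000000000000000000000000000000000) (nat_lit 7)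
theorem c113544 : QOK q113544 := cut [q79388] ⟨c79388, trivial⟩ (nd (nat_lit 234) (nat_lit 0) (cs (lf (nat_lit 5) (nat_lit 231)) (nd (nat_lit 212) (nat_lit 0) (cs (lf (nat_lit 17) (nat_lit 209)) (nd (nat_lit 254) (nat_lit 0) (cs (lf (nat_lit 6) (nat_lit 231)) (nd (nat_lit 188) (nat_lit 0) (cs (rf (nat_lit 0)) (lf (nat_lit 37) (nat_lit 187)))))))))) q113544 (by decide +kernel)
def q113545 : Q := Q.p (nat_lit 0x800012000038000000000000000000000000000000000000000000000000000000000) (nat_lit 0xc0000060001c0000100000400000000000000000000000000000000000000000) (nat_lit 5)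
theorem c113545 : QOK q113545 := cut [q97489] ⟨c97489, trivial⟩ (nd (nat_lit 230) (nat_lit 0) (cs (lf (nat_lit 4) (nat_lit 230)) (rf (nat_lit 0)))) q113545 (by decide +kernel)
def q113557 : Q := Q.p (nat_lit 0x300001800000c000000000000000000000000000000000000000000000000000000000) (nat_lit 0x400000000000000070000180000700001c00001000000000000000000000000000000000000) (nat_lit 7)
theorem c113557 : QOK q113557 := cut [q85782] ⟨c85782, trivial⟩ (nd (nat_lit 233) (nat_lit 0) (cs (lf (nat_lit 2) (nat_lit 230)) (nd (nat_lit 211) (nat_lit 0) (cs (lf (nat_lit 41) (nat_lit 210)) (nd (nat_lit 190) (nat_lit 0) (cs (lf (nat_lit 34) (nat_lit 189)) (nd (nat_lit 189) (nat_lit 0) (cs (lf (nat_lit 35) (nat_lit 167)) (rf (nat_lit 0)))))))))) q113557 (by decide +kernel)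
def q113578 : Q := Q.p (nat_lit 0x180000700000c000000000000000000000000000000000000000000000000000000000) (nat_lit 0x300003c00000700000c0003300001c000060000080000000000000000000000000000000000000000) (nat_lit 11)
theorem c113578 : QOK q113578 := cut [q81735] ⟨c81735, trivial⟩ (nd (nat_lit 251) (nat_lit 0) (cs (lf (nat_lit 0) (nat_lit 250)) (nd (nat_lit 298) (nat_lit 0) (cs (lf (nat_lit 42) (nat_lit 231)) (nd (nat_lit 272) (nat_lit 0) (cs (lf (nat_lit 10) (nat_lit 250)) (nd (nat_lit 232) (nat_lit 0) (cs (lf (nat_lit 6) (nat_lit 229)) (nd (nat_lit 299) (nat_lit 0) (cs (lf (nat_lit 29) (nat_lit 232)) (nd (nat_lit 300) (nat_lit 0) (cs (lf (nat_lit 18) (nat_lit 275)) (nd (nat_lit 229) (nat_lit 0) (cs (lf (nat_lit 23) (nat_lit 228)) (nd (nat_lit 186) (nat_lit 0) (cs (lf (nat_lit 25) (nat_lit 186)) (rf (nat_lit 0)))))))))))))))))) q113578 (by decide +kernel)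
def q113595 : Q := Q.p (nat_lit 0x300000e000008000000000000000000000000000000000000000000000000000000000) (nat_lit 0x100000400000000001800060000080000000000000000000000000000000000000000000000000000) (nat_lit 4)
theorem c113595 : QOK q113595 := cut [q97544] ⟨c97544, trivial⟩ (nd (nat_lit 252) (nat_lit 0) (cs (lf (nat_lit 0) (nat_lit 251)) (rf (nat_lit 0)))) q113595 (by decide +kernel)
def q113621 : Q := Q.p (nat_lit 0x800002000008000020000000000000000000000000000000000000000000000000000) (nat_lit 0x140000700001c000020000000000400007400005c000040000000000000000000000000000000000000000000000) (nat_lit 10)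
theorem c113621 : QOK q113621 := cut [q21929] ⟨c21929, trivial⟩ (nd (nat_lit 208) (nat_lit 0) (cs (lf (nat_lit 47) (nat_lit 186)) (nd (nat_lit 297) (nat_lit 0) (cs (lf (nat_lit 46) (nat_lit 208)) (nd (nat_lit 232) (nat_lit 0) (cs (lf (nat_lit 35) (nat_lit 209)) (nd (nat_lit 233) (nat_lit 0) (cs (lf (nat_lit 18) (nat_lit 208)) (nd (nat_lit 206) (nat_lit 0) (cs (lf (nat_lit 1) (nat_lit 206)) (nd (nat_lit 319) (nat_lit 0) (cs (rf (nat_lit 0)) (lf (nat_lit 34) (nat_lit 231)))))))))))))) q113621 (by decide +kernel)
def q113707 : Q := Q.p (nat_lit 0x700000c00000000000000000000000000000000000000000000000000000000000000000000) (nat_lit 0x2000008000060000188000700001c000020000080000000000000000000000000000000000000000000000000000) (nat_lit 8)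
theorem c113707 : QOK q113707 := cut [q109482] ⟨c109482, trivial⟩ (nd (nat_lit 299) (nat_lit 0) (cs (lf (nat_lit 18) (nat_lit 274)) (nd (nat_lit 277) (nat_lit 0) (cs (lf (nat_lit 17) (nat_lit 274)) (nd (nat_lit 276) (nat_lit 0) (cs (lf (nat_lit 12) (nat_lit 273)) (rf (nat_lit 0)))))))) q113707 (by decide +kernel)
def q113819 : Q := Q.p (nat_lit 0x800012000078000000000000000000000000000000000000000000000000000000000) (nat_lit 0xc0000870000c0000100000000000000000000000000000000000000000000000) (nat_lit 5)
theorem c113819 : QOK q113819 := cut [q112750] ⟨c112750, trivial⟩ (nd (nat_lit 230) (nat_lit 0) (cs (lf (nat_lit 4) (nat_lit 230)) (nd (nat_lit 254) (nat_lit 0) (cs (lf (nat_lit 6) (nat_lit 231)) (rf (nat_lit 0)))))) q113819 (by decide +kernel)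
def q113840 : Q := Q.p (nat_lit 0x80000e000038000000000000000000000000000000000000000000000000000000000) (nat_lit 0x240001980007600001800006000040000100000000000000000000000000000000000000000000000) (nat_lit 9)
theorem c113840 : QOK q113840 := cut [q113839] ⟨c113839, trivial⟩ (nd (nat_lit 229) (nat_lit 0) (cs (lf (nat_lit 1) (nat_lit 229)) (rf (nat_lit 0)))) q113840 (by decide +kernel)
def q113983 : Q := Q.p (nat_lit 0x200000800007000000000000000000000000000000000000000000000000000000000000000) (nat_lit 0x80000000000000008800007800010000040000000000000000000000000000000000000000000000) (nat_lit 5)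
theorem c113983 : QOK q113983 := cut [q81409] ⟨c81409, trivial⟩ (nd (nat_lit 230) (nat_lit 0) (cs (lf (nat_lit 42) (nat_lit 230)) (nd (nat_lit 186) (nat_lit 0) (cs (lf (nat_lit 25) (nat_lit 186)) (rf (nat_lit 0)))))) q113983 (by decide +kernel)
def q113999 : Q := Q.p (nat_lit 0xf000000000000000000000000000000000000000000000000000000000000000) (nat_lit 0x7000000800070000000000000000000000000000000000000000000000000000000000) (nat_lit 4)
theorem c113999 : QOK q113999 := cut [q113502] ⟨c113502, trivial⟩ (nd (nat_lit 277) (nat_lit 0) (cs (lf (nat_lit 5) (nat_lit 252)) (rf (nat_lit 0)))) q113999 (by decide +kernel)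
def q114019 : Q := Q.p (nat_lit 0x300000c000020000000000000000000000000000000000000000000000000000) (nat_lit 0xc0001f00007c000180000330000c0000100000000000000000000000000000000000000000000000) (nat_lit 10)
theorem c114019 : QOK q114019 := cut [q93588, q110053, q96291] ⟨c93588, c110053, c96291, trivial⟩ (nd (nat_lit 275) (nat_lit 0) (cs (rf (nat_lit 0)) (cs (rf (nat_lit 1)) (nd (nat_lit 274) (nat_lit 0) (cs (lf (nat_lit 30) (nat_lit 208)) (nd (nat_lit 276) (nat_lit 0) (cs (lf (nat_lit 29) (nat_lit 209)) (nd (nat_lit 277) (nat_lit 0) (cs (lf (nat_lit 18) (nat_lit 252)) (nd (nat_lit 299) (nat_lit 0) (cs (lf (nat_lit 5) (nat_lit 274)) (nd (nat_lit 255) (nat_lit 0) (cs (lf (nat_lit 17) (nat_lit 252)) (nd (nat_lit 210) (nat_lit 0) (cs (lf (nat_lit 35) (nat_lit 187)) (nd (nat_lit 232) (nat_lit 0) (cs (lf (nat_lit 45) (nat_lit 210)) (rf (nat_lit 2))))))))))))))))))) q114019 (by decide +kernel)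
def q114191 : Q := Q.p (nat_lit 0x400003000004000000000000000000000000000000000000000000000000000000000) (nat_lit 0x6000018000020000000000a000038000020000000000000000000000000000000000000000000000) (nat_lit 5)
theorem c114191 : QOK q114191 := cut [q4419, q89482] ⟨c4419, c89482, trivial⟩ (nd (nat_lit 296) (nat_lit 0) (cs (rf (nat_lit 0)) (rf (nat_lit 1)))) q114191 (by decide +kernel)
def q114275 : Q := Q.p (nat_lit 0x800007800000000000000000000000000000000000000000000000000000000000000) (nat_lit 0xe400018000070000000000000000000000000000000000000000000000000000000000) (nat_lit 5)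
theorem c114275 : QOK q114275 := cut [q112950] ⟨c112950, trivial⟩ (nd (nat_lit 233) (nat_lit 0) (cs (lf (nat_lit 16) (nat_lit 229)) (nd (nat_lit 255) (nat_lit 0) (cs (lf (nat_lit 17) (nat_lit 230)) (rf (nat_lit 0)))))) q114275 (by decide +kernel)
def q114322 : Q := Q.p (nat_lit 0xf000000000000000000000000000000000000000000000000000000000000000) (nat_lit 0x100000ee000000000000000000000000000000000000000000000000000000000) (nat_lit 4)
theorem c114322 : QOK q114322 := cut [q114321] ⟨c114321, trivial⟩ (nd (nat_lit 230) (nat_lit 0) (cs (lf (nat_lit 23) (nat_lit 229)) (rf (nat_lit 0)))) q114322 (by decide +kernel)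
def q114331 : Q := Q.p (nat_lit 0x7800006000000000000000000000000000000000000000000000000000000000) (nat_lit 0x6000018000070000000003800000c000010000000000000000000000000000000000000000000000) (nat_lit 7)
theorem c114331 : QOK q114331 := cut [q108939] ⟨c108939, trivial⟩ (nd (nat_lit 273) (nat_lit 0) (cs (lf (nat_lit 11) (nat_lit 250)) (nd (nat_lit 232) (nat_lit 0) (cs (lf (nat_lit 17) (nat_lit 229)) (rf (nat_lit 0)))))) q114331 (by decide +kernel)
def q114431 : Q := Q.p (nat_lit 0x800003800000000000000000000000000000000000000000000000000000000000000) (nat_lit 0x10e000070000fc00000000000000000000000000000000000000000000000000000000) (nat_lit 7)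
theorem c114431 : QOK q114431 := cut [q85544] ⟨c85544, trivial⟩ (nd (nat_lit 250) (nat_lit 0) (cs (lf (nat_lit 5) (nat_lit 250)) (rf (nat_lit 0)))) q114431 (by decide +kernel)
def q114581 : Q := Q.p (nat_lit 0x800003000008000020000000000000000000000000000000000000000000000000000) (nat_lit 0x1f00007400004000010000040000100000000000000000000000000000000000000000000000) (nat_lit 7)
theorem c114581 : QOK q114581 := cut [q88810] ⟨c88810, trivial⟩ (nd (nat_lit 276) (nat_lit 0) (cs (lf (nat_lit 29) (nat_lit 209)) (nd (nat_lit 274) (nat_lit 0) (cs (lf (nat_lit 41) (nat_lit 208)) (rf (nat_lit 0)))))) q114581 (by decide +kernel)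
def q114744 : Q := Q.p (nat_lit 0x800007800000000000000000000000000000000000000000000000000000000000000) (nat_lit 0x80000200001000000000030000040000100000000000000000000000000000000000000000000000) (nat_lit 4)
theorem c114744 : QOK q114744 := cut [q112814] ⟨c112814, trivial⟩ (nd (nat_lit 232) (nat_lit 0) (cs (lf (nat_lit 17) (nat_lit 229)) (rf (nat_lit 0)))) q114744 (by decide +kernel)
def q114746 : Q := Q.p (nat_lit 0x7800000000000000000000000000000000000000000000000000000000000000) (nat_lit 0x300008000077000000000000000000000000000000000000000000000000000000000) (nat_lit 5)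
theorem c114746 : QOK q114746 := cut [q85523] ⟨c85523, trivial⟩ (nd (nat_lit 229) (nat_lit 0) (cs (lf (nat_lit 23) (nat_lit 228)) (nd (nat_lit 272) (nat_lit 0) (cs (lf (nat_lit 10) (nat_lit 250)) (rf (nat_lit 0)))))) q114746 (by decide +kernel)
def q114838 : Q := Q.p (nat_lit 0x200001800007000000000000000000000000000000000000000000000000000000000000000) (nat_lit 0x88000f0000040000000000000000000000000000000000000000000000000000) (nat_lit 4)
theorem c114838 : QOK q114838 := cut [q81677] ⟨c81677, trivial⟩ (nd (nat_lit 232) (nat_lit 0) (cs (lf (nat_lit 36) (nat_lit 209)) (rf (nat_lit 0)))) q114838 (by decide +kernel)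
def q114843 : Q := Q.p (nat_lit 0x200001800007000000000000000000000000000000000000000000000000000000000000000) (nat_lit 0xc0000300000c000000000008000f00000c0000000000000000000000000000000000000000000000000000) (nat_lit 7)
theorem c114843 : QOK q114843 := cut [q114842] ⟨c114842, trivial⟩ (nd (nat_lit 232) (nat_lit 0) (cs (lf (nat_lit 36) (nat_lit 209)) (rf (nat_lit 0)))) q114843 (by decide +kernel)
def q114862 : Q := Q.p (nat_lit 0x200001800003000000000000000000000000000000000000000000000000000000000000000) (nat_lit 0x1dc0006600000800004000010000000000000000000000000000000000000000000000000000) (nat_lit 7)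
theorem c114862 : QOK q114862 := cut [q2187] ⟨c2187, trivial⟩ (nd (nat_lit 277) (nat_lit 0) (cs (lf (nat_lit 18) (nat_lit 252)) (nd (nat_lit 274) (nat_lit 0) (cs (lf (nat_lit 23) (nat_lit 251)) (nd (nat_lit 208) (nat_lit 0) (cs (rf (nat_lit 0)) (lf (nat_lit 25) (nat_lit 208)))))))) q114862 (by decide +kernel)
def q114865 : Q := Q.p (nat_lit 0x200003c00003000000000000000000000000000000000000000000000000000000000000000) (nat_lit 0x18000060001d80000000000000004000010000000000000000000000000000000000000000000000000000) (nat_lit 6)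
theorem c114865 : QOK q114865 := cut [q113384] ⟨c113384, trivial⟩ (nd (nat_lit 296) (nat_lit 0) (cs (lf (nat_lit 11) (nat_lit 273)) (nd (nat_lit 318) (nat_lit 0) (cs (lf (nat_lit 30) (nat_lit 252)) (nd (nat_lit 208) (nat_lit 0) (cs (lf (nat_lit 25) (nat_lit 208)) (rf (nat_lit 0)))))))) q114865 (by decide +kernel)
def q114904 : Q := Q.p (nat_lit 0x800003800000000000000000000000000000000000000000000000000000000000000) (nat_lit 0x7c0004600003c00000000000000000000000000000000000000000000000000000000) (nat_lit 5)
theorem c114904 : QOK q114904 := cut [q1998, q2068, q98539] ⟨c1998, c2068, c98539, trivial⟩ (nd (nat_lit 250) (nat_lit 0) (cs (rf (nat_lit 0)) (cs (rf (nat_lit 1)) (rf (nat_lit 2))))) q114904 (by decide +kernel)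
def q114947 : Q := Q.p (nat_lit 0x100000c00003000000000000000000000000000000000000000000000000000000000000000) (nat_lit 0x380000e0000080000000000800006000008000000000000000000000000000000000000000000000000000) (nat_lit 6)
theorem c114947 : QOK q114947 := cut [q87369] ⟨c87369, trivial⟩ (nd (nat_lit 318) (nat_lit 0) (cs (lf (nat_lit 30) (nat_lit 252)) (nd (nat_lit 319) (nat_lit 0) (cs (lf (nat_lit 29) (nat_lit 252)) (nd (nat_lit 229) (nat_lit 0) (cs (lf (nat_lit 46) (nat_lit 229)) (rf (nat_lit 0)))))))) q114947 (by decide +kernel)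
def q115024 : Q := Q.p (nat_lit 0x1e00002000008000000000000000000000000000000000000000000000000000000000) (nat_lit 0x1000005c000e00000d000000000000000000000000000000000000000000000000000000000000000) (nat_lit 6)
theorem c115024 : QOK q115024 := cut [q98838] ⟨c98838, trivial⟩ (nd (nat_lit 254) (nat_lit 0) (cs (lf (nat_lit 17) (nat_lit 251)) (nd (nat_lit 298) (nat_lit 0) (cs (lf (nat_lit 42) (nat_lit 231)) (rf (nat_lit 0)))))) q115024 (by decide +kernel)
def q115049 : Q := Q.p (nat_lit 0x3c00006000008000000000000000000000000000000000000000000000000000000000) (nat_lit 0x300001c00000000000000010000040000000000000000000000000000000000000000000000000000) (nat_lit 4)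
theorem c115049 : QOK q115049 := cut [q115048] ⟨c115048, trivial⟩ (nd (nat_lit 298) (nat_lit 0) (cs (lf (nat_lit 42) (nat_lit 231)) (rf (nat_lit 0)))) q115049 (by decide +kernel)
def q115081 : Q := Q.p (nat_lit 0xc00006000008000000000000000000000000000000000000000000000000000000000) (nat_lit 0x800006200019800076000040000100000000000000000000000000000000000000000000000) (nat_lit 8)
theorem c115081 : QOK q115081 := cut [q107518] ⟨c107518, trivial⟩ (nd (nat_lit 255) (nat_lit 0) (cs (lf (nat_lit 6) (nat_lit 252)) (nd (nat_lit 252) (nat_lit 0) (cs (lf (nat_lit 11) (nat_lit 251)) (nd (nat_lit 233) (nat_lit 0) (cs (lf (nat_lit 17) (nat_lit 230)) (nd (nat_lit 232) (nat_lit 0) (cs (lf (nat_lit 12) (nat_lit 229)) (nd (nat_lit 229) (nat_lit 0) (cs (lf (nat_lit 1) (nat_lit 229)) (rf (nat_lit 0)))))))))))) q115081 (by decide +kernel)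
def q115084 : Q := Q.p (nat_lit 0x1c00002000000000000000000000000000000000000000000000000000000000000000) (nat_lit 0x20000380000620003d000010000040000000000000000000000000000000000000000000000000000) (nat_lit 6)
theorem c115084 : QOK q115084 := cut [q14653, q24566, q101728] ⟨c14653, c24566, c101728, trivial⟩ (nd (nat_lit 277) (nat_lit 0) (cs (rf (nat_lit 0)) (cs (rf (nat_lit 1)) (rf (nat_lit 2))))) q115084 (by decide +kernel)
def q115095 : Q := Q.p (nat_lit 0xe00002000000000000000000000000000000000000000000000000000000000000000) (nat_lit 0xf0001180001f00000000000000000000000000000000000000000000000000000000000000) (nat_lit 5)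
theorem c115095 : QOK q115095 := cut [q13256, q22195] ⟨c13256, c22195, trivial⟩ (nd (nat_lit 272) (nat_lit 0) (cs (rf (nat_lit 0)) (cs (rf (nat_lit 1)) (nd (nat_lit 294) (nat_lit 0) (cs (lf (nat_lit 11) (nat_lit 271)) (nd (nat_lit 250) (nat_lit 0) (cs (lf (nat_lit 23) (nat_lit 249)) (nd (nat_lit 276) (nat_lit 0) (cs (lf (nat_lit 10) (nat_lit 272)) (lf (nat_lit 22) (nat_lit 250))))))))))) q115095 (by decide +kernel)
def q115170 : Q := Q.p (nat_lit 0x200000800002000000000000000000000000000000000000000000000000000000000000000) (nat_lit 0x100000700001c0000500001000004000018000040000000000000000000000000000000000000000000000000000) (nat_lit 5)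
theorem c115170 : QOK q115170 := cut [q88944, q89625, q98129] ⟨c88944, c89625, c98129, trivial⟩ (nd (nat_lit 319) (nat_lit 0) (cs (rf (nat_lit 0)) (cs (rf (nat_lit 1)) (rf (nat_lit 2))))) q115170 (by decide +kernel)
def q115228 : Q := Q.p (nat_lit 0xc0000300000c000000000000000000000000000000000000000000000000000000000) (nat_lit 0x60000180000200000000000000010000040000000000000000000000000000000000000000000000) (nat_lit 4)
theorem c115228 : QOK q115228 := cut [q57679] ⟨c57679, trivial⟩ (nd (nat_lit 208) (nat_lit 0) (cs (lf (nat_lit 24) (nat_lit 186)) (rf (nat_lit 0)))) q115228 (by decide +kernel)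
def q115380 : Q := Q.p (nat_lit 0x2000038000000000000000000000000000000000000000000000000000000000) (nat_lit 0x40000740003c40003c0000200000800000000000000000000000000000000000000000) (nat_lit 6)
theorem c115380 : QOK q115380 := cut [q96981, q97306, q101803] ⟨c96981, c97306, c101803, trivial⟩ (nd (nat_lit 234) (nat_lit 0) (cs (rf (nat_lit 0)) (cs (rf (nat_lit 1)) (rf (nat_lit 2))))) q115380 (by decide +kernel)
def q115386 : Q := Q.p (nat_lit 0xf00000c000000000000000000000000000000000000000000000000000000000) (nat_lit 0x380000e00070000000000000000000000000000000000000000000000000000000000) (nat_lit 5)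
theorem c115386 : QOK q115386 := cut [q105927] ⟨c105927, trivial⟩ (nd (nat_lit 233) (nat_lit 0) (cs (lf (nat_lit 17) (nat_lit 230)) (nd (nat_lit 251) (nat_lit 0) (cs (lf (nat_lit 16) (nat_lit 229)) (rf (nat_lit 0)))))) q115386 (by decide +kernel)
def q115430 : Q := Q.p (nat_lit 0x1800002000008000000000000000000000000000000000000000000000000000000000) (nat_lit 0x300003c0000e60007dc000740000c0000200000000000000000000000000000000000000000000000) (nat_lit 9)
theorem c115430 : QOK q115430 := cut [q16715, q99782, q113593, q113594, q108498, q115413, q97558, q109389, q17502, q99091, q113592] ⟨c16715, c99782, c113593, c113594, c108498, c115413, c97558, c109389, c17502, c99091, c113592, trivial⟩ (nd (nat_lit 277) (nat_lit 0) (cs (rf (nat_lit 0)) (cs (rf (nat_lit 1)) (cs (nd (nat_lit 255) (nat_lit 0) (cs (rf (nat_lit 2)) (cs (rf (nat_lit 3)) (cs (nd (nat_lit 254) (nat_lit 0) (cs (nd (nat_lit 274) (nat_lit 0) (cs (lf (nat_lit 12) (nat_lit 251)) (nd (nat_lit 251) (nat_lit 0) (cs (lf (nat_lit 1) (nat_lit 251)) (rf (nat_lit 4)))))) (cs (nd (nat_lit 274)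 (nat_lit 0) (cs (lf (nat_lit 12) (nat_lit 251)) (nd (nat_lit 298) (nat_lit 0) (cs (lf (nat_lit 42) (nat_lit 231)) (nd (nat_lit 211) (nat_lit 0) (cs (lf (nat_lit 37) (nat_lit 210)) (rf (nat_lit 4)))))))) (rf (nat_lit 5))))) (nd (nat_lit 254) (nat_lit 0) (cs (rf (nat_lit 6)) (rf (nat_lit 5)))))))) (nd (nat_lit 256) (nat_lit 0) (cs (rf (nat_lit 7)) (cs (nd (nat_lit 255) (nat_lit 0) (cs (rf (nat_lit 8)) (lf (nat_lit 12) (nat_lit 252)))) (cs (nd (nat_lit 278) (nat_lit 0) (cs (lf (nat_lit 17) (nat_lit 253)) (nd (nat_lit 254) (nat_lit 0) (cs (lf (nat_lit 18) (nat_lit 253)) (nd (nat_lit 298) (nat_lit 0) (cs (lf (nat_lit 42) (nat_lit 231)) (nd (nat_lit 300) (nat_lit 0) (cs (lf (nat_lit 5) (nat_lit 275)) (nd (nat_lit 299) (nat_lit 0) (cs (lf (nat_lit 0) (nat_lit 274)) (rf (nat_lit 9)))))))))))) (cs (nd (nat_lit 255) (nat_lit 0) (cs (lf (nat_lit 12) (nat_lit 252)) (rf (nat_lit 10)))) (nd (nat_lit 255) (nat_lit 0) (cs (lf (nat_lit 12) (nat_lit 252)) (nd (nat_lit 230) (nat_lit 0) (cs (lf (nat_lit 20) (nat_lit 230)) (nd (nat_lit 233) (nat_lit 0) (cs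 (lf (nat_lit 2) (nat_lit 230)) (nd (nat_lit 211) (nat_lit 0) (cs (lf (nat_lit 41) (nat_lit 210)) (nd (nat_lit 278) (nat_lit 0) (cs (lf (nat_lit 29) (nat_lit 211)) (lf (nat_lit 24) (nat_lit 189))))))))))))))))))))) q115430 (by decide +kernel)
def q115577 : Q := Q.p (nat_lit 0x200000800002000000000000000000000000000000000000000000000000000000000000000) (nat_lit 0x60000180001d0000170000500001c000070000180000000000000000000000000000000000000000000000) (nat_lit 9)
theorem c115577 : QOK q115577 := cut [q12650, q98797, q100729, q113871] ⟨c12650, c98797, c100729, c113871, trivial⟩ (nd (nat_lit 231) (nat_lit 0) (cs (rf (nat_lit 0)) (cs (rf (nat_lit 1)) (cs (rf (nat_lit 2)) (rf (nat_lit 3)))))) q115577 (by decide +kernel)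
def q115584 : Q := Q.p (nat_lit 0x380000e00000000000000000000000000000000000000000000000000000000000000000000) (nat_lit 0x4000000000300000cc00012000048000000000000000000000000000000000000000000000000000) (nat_lit 6)
theorem c115584 : QOK q115584 := cut [q108641] ⟨c108641, trivial⟩ (nd (nat_lit 276) (nat_lit 0) (cs (lf (nat_lit 6) (nat_lit 273)) (nd (nat_lit 254) (nat_lit 0) (cs (lf (nat_lit 17) (nat_lit 251)) (nd (nat_lit 210) (nat_lit 0) (cs (lf (nat_lit 37) (nat_lit 209)) (rf (nat_lit 0)))))))) q115584 (by decide +kernel)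
def q115728 : Q := Q.p (nat_lit 0x3000008000020000000000000000000000000000000000000000000000000000) (nat_lit 0x4000018000040000040000100001c0000700001400000000000000000000000000000000000) (nat_lit 6)
theorem c115728 : QOK q115728 := cut [q4090, q82299, q88755] ⟨c4090, c82299, c88755, trivial⟩ (nd (nat_lit 187) (nat_lit 0) (cs (rf (nat_lit 0)) (cs (rf (nat_lit 1)) (nd (nat_lit 166) (nat_lit 0) (cs (lf (nat_lit 34) (nat_lit 165)) (rf (nat_lit 2))))))) q115728 (by decide +kernel)
def q115747 : Q := Q.p (nat_lit 0x3800008000000000000000000000000000000000000000000000000000000000) (nat_lit 0x3c0004600007c00000000000000000000000000000000000000000000000000000000) (nat_lit 5)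
theorem c115747 : QOK q115747 := cut [q12246, q80611, q88839] ⟨c12246, c80611, c88839, trivial⟩ (nd (nat_lit 250) (nat_lit 0) (cs (rf (nat_lit 0)) (cs (rf (nat_lit 1)) (rf (nat_lit 2))))) q115747 (by decide +kernel)
def q115766 : Q := Q.p (nat_lit 0x1000006000010000000000000000000000000000000000000000000000000000000000) (nat_lit 0xa0000380000e00000800000000008000060000080000000000000000000000000000000000000000000000) (nat_lit 6)
theorem c115766 : QOK q115766 := cut [q81413, q92317, q81428] ⟨c81413, c92317, c81428, trivial⟩ (nd (nat_lit 298) (nat_lit 0) (cs (rf (nat_lit 0)) (cs (rf (nat_lit 1)) (nd (nat_lit 209) (nat_lit 0) (cs (lf (nat_lit 46) (nat_lit 209)) (nd (nat_lit 299) (nat_lit 0) (cs (lf (nat_lit 29) (nat_lit 232)) (rf (nat_lit 2))))))))) q115766 (by decide +kernel)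
def q115796 : Q := Q.p (nat_lit 0xf000000000000000000000000000000000000000000000000000000000000000) (nat_lit 0x40000100038e0007000039c000020000080000000000000000000000000000000000000000000000) (nat_lit 10)
theorem c115796 : QOK q115796 := cut [q115790] ⟨c115790, trivial⟩ (nd (nat_lit 274) (nat_lit 0) (cs (lf (nat_lit 11) (nat_lit 251)) (rf (nat_lit 0)))) q115796 (by decide +kernel)

end Crest.Agent.H3.Snaky.CR
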