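import Crest.Agent.H3.Snaky.Cert
import Crest.Agent.H3.Snaky.CR.CR0
import Crest.Agent.H3.Snaky.CR.CR1
import Crest.Agent.H3.Snaky.CR.CR2
import Crest.Agent.H3.Snaky.CR.CR20
import Crest.Agent.H3.Snaky.CR.CR21
import Crest.Agent.H3.Snaky.CR.CR22
import Crest.Agent.H3.Snaky.CR.CR39
import Crest.Agent.H3.Snaky.CR.CR40

set_option autoImplicit false
set_option maxRecDepth 100000

namespace Crest.Agent.H3.Snaky.CR

open T

def q19 : Q := Q.p (nat_lit 0x1000004000010000040000000000000000000000000000000000000000000000) (nat_lit 0x6000008000000000600000b8000280000000000000000000000000000000000000000) (nat_lit 6)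
theorem c19 : QOK q19 := cut [q17] ⟨c17, trivial⟩ (nd (nat_lit 251) (nat_lit 0) (cs (rf (nat_lit 0)) (lf (nat_lit 41) (nat_lit 185)))) q19 (by decide +kernel)
def q72 : Q := Q.p (nat_lit 0x70000040000000000000000000000000000000000000000000000) (nat_lit 0x7380018e000f98000000000000000000000000000000000000000000000) (nat_lit 9)
theorem c72 : QOK q72 := cut [q44, q57, q60, q62, q71] ⟨c44, c57, c60, c62, c71, trivial⟩ (nd (nat_lit 189) (nat_lit 0) (cs (rf (nat_lit 0)) (cs (rf (nat_lit 1)) (cs (rf (nat_lit 2)) (cs (nd (nat_lit 207) (nat_lit 0) (cs (nd (nat_lit 228) (nat_lit 0) (cs (lf (nat_lit 10) (nat_lit 206)) (nd (nat_lit 206) (nat_lit 0) (cs (lf (nat_lit 11) (nat_lit 205)) (nd (nat_lit 187) (nat_lit 0) (cs (lf (nat_lit 12) (nat_lit 183)) (nd (nat_lit 183) (nat_lit 0) (cs (rf (nat_lit 3)) (lf (nat_lit 22) (nat_lit 183)))))))))) (lf (nat_lit 16) (nat_lit 185)))) (rf (nat_lit 4))))))) q72 (by decide +kernel)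
def q104 : Q := Q.p (nat_lit 0x70000040000000000000000000000000000000000000000000000) (nat_lit 0x70000088000720000000000000000000000000000000000000000000000) (nat_lit 5)
theorem c104 : QOK q104 := cut [q102] ⟨c102, trivial⟩ (nd (nat_lit 211) (nat_lit 0) (cs (rf (nat_lit 0)) (lf (nat_lit 23) (nat_lit 185)))) q104 (by decide +kernel)
def q123 : Q := Q.p (nat_lit 0x2000000000038000040000000000000000000000000000000000000000000000) (nat_lit 0x8000000000380000c0000338000400000000000000000000000000000000000000000) (nat_lit 5)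
theorem c123 : QOK q123 := cut [q39, q109] ⟨c39, c109, trivial⟩ (nd (nat_lit 210) (nat_lit 0) (cs (rf (nat_lit 0)) (rf (nat_lit 1)))) q123 (by decide +kernel)
def q131 : Q := Q.p (nat_lit 0x8000038000040000000000000000000000000000000000000000000000) (nat_lit 0x11c0000700002e000000000000000000000000000000000000000000000) (nat_lit 6)
theorem c131 : QOK q131 := cut [q130] ⟨c130, trivial⟩ (nd (nat_lit 206) (nat_lit 0) (cs (lf (nat_lit 5) (nat_lit 206)) (rf (nat_lit 0)))) q131 (by decide +kernel)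
def q141 : Q := Q.p (nat_lit 0x3c000000000000000000000000000000000000000000000000000) (nat_lit 0x738000c0000700000000000000000000000000000000000000000000000) (nat_lit 6)
theorem c141 : QOK q141 := cut [q140] ⟨c140, trivial⟩ (nd (nat_lit 228) (nat_lit 0) (cs (lf (nat_lit 11) (nat_lit 205)) (rf (nat_lit 0)))) q141 (by decide +kernel)
def q156 : Q := Q.p (nat_lit 0x3c000040000000000000000000000000000000000000000000000) (nat_lit 0xe0000300003c000000000000000000000000000000000000000000000) (nat_lit 5)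
theorem c156 : QOK q156 := cut [q155] ⟨c155, trivial⟩ (nd (nat_lit 183) (nat_lit 0) (cs (lf (nat_lit 22) (nat_lit 183)) (rf (nat_lit 0)))) q156 (by decide +kernel)
def q171 : Q := Q.p (nat_lit 0x800003c000040000000000000000000000000000000000000000000000) (nat_lit 0x1c000c3000030000100000400000000000000000000000000000000000) (nat_lit 6)
theorem c171 : QOK q171 := cut [q170] ⟨c170, trivial⟩ (nd (nat_lit 142) (nat_lit 0) (cs (lf (nat_lit 25) (nat_lit 142)) (rf (nat_lit 0)))) q171 (by decide +kernel)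
def q179 : Q := Q.p (nat_lit 0x8000038000040000000000000000000000000000000000000000000000) (nat_lit 0x11c000c7000030000000000000000000000000000000000000000000000) (nat_lit 6)
theorem c179 : QOK q179 := cut [q170] ⟨c170, trivial⟩ (nd (nat_lit 206) (nat_lit 0) (cs (lf (nat_lit 5) (nat_lit 206)) (rf (nat_lit 0)))) q179 (by decide +kernel)
def q188 : Q := Q.p (nat_lit 0x2000000000070000040000000000000000000000000000000000000000000000) (nat_lit 0x80000000003b80000c000338000400000000000000000000000000000000000000000) (nat_lit 6)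
theorem c188 : QOK q188 := cut [q82, q109, q187] ⟨c82, c109, c187, trivial⟩ (nd (nat_lit 207) (nat_lit 0) (cs (rf (nat_lit 0)) (cs (rf (nat_lit 1)) (rf (nat_lit 2))))) q188 (by decide +kernel)
def q204 : Q := Q.p (nat_lit 0x2000000000070000040000000000000000000000000000000000000000000000) (nat_lit 0x48000100000f8000780003f20000000000000000000000000000000000000000000000) (nat_lit 10)
theorem c204 : QOK q204 := cut [q203] ⟨c203, trivial⟩ (nd (nat_lit 231) (nat_lit 0) (cs (lf (nat_lit 42) (nat_lit 186)) (rf (nat_lit 0)))) q204 (by decide +kernel)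
def q225 : Q := Q.p (nat_lit 0x30000000000f0000040000000000000000000000000000000000000000000000) (nat_lit 0xa00000c000fb00030c000d00000400000000000000000000000000000000000000000) (nat_lit 10)
theorem c225 : QOK q225 := cut [q224] ⟨c224, trivial⟩ (nd (nat_lit 231) (nat_lit 0) (cs (lf (nat_lit 42) (nat_lit 186)) (rf (nat_lit 0)))) q225 (by decide +kernel)
def q280 : Q := Q.p (nat_lit 0x3000000000030000040000000000000000000000000000000000000000000000) (nat_lit 0xc000000000180000c00001b0001e00001c00003000000000000000000000000000000) (nat_lit 10)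
theorem c280 : QOK q280 := cut [q277] ⟨c277, trivial⟩ (nd (nat_lit 231) (nat_lit 0) (cs (lf (nat_lit 42) (nat_lit 186)) (nd (nat_lit 187) (nat_lit 0) (cs (rf (nat_lit 0)) (lf (nat_lit 41) (nat_lit 186)))))) q280 (by decide +kernel)
def q286 : Q := Q.p (nat_lit 0x1000000000070000040000000000000000000000000000000000000000000000) (nat_lit 0x60000080003380000c0003b8000000000000000000000000000000000000000000000) (nat_lit 6)
theorem c286 : QOK q286 := cut [q87, q98, q284] ⟨c87, c98, c284, trivial⟩ (nd (nat_lit 207) (nat_lit 0) (cs (rf (nat_lit 0)) (cs (rf (nat_lit 1)) (nd (nat_lit 232) (nat_lit 0) (cs (lf (nat_lit 5) (nat_lit 207)) (rf (nat_lit 2))))))) q286 (by decide +kernel)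
def q325 : Q := Q.p (nat_lit 0x38000040000000000000000000000000000000000000000000000) (nat_lit 0x738001c60000b8000000000000000000000000000000000000000000000) (nat_lit 8)
theorem c325 : QOK q325 := cut [q136, q149, q318, q323] ⟨c136, c149, c318, c323, trivial⟩ (nd (nat_lit 184) (nat_lit 0) (cs (rf (nat_lit 0)) (cs (rf (nat_lit 1)) (cs (nd (nat_lit 206) (nat_lit 0) (cs (lf (nat_lit 23) (nat_lit 183)) (nd (nat_lit 187) (nat_lit 0) (cs (lf (nat_lit 12) (nat_lit 183)) (rf (nat_lit 2)))))) (nd (nat_lit 210) (nat_lit 0) (cs (lf (nat_lit 22) (nat_lit 184)) (rf (nat_lit 3)))))))) q325 (by decide +kernel)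
def q331 : Q := Q.p (nat_lit 0x3000008000038000040000000000000000000000000000000000000000000000) (nat_lit 0x4000000000038001c60000b8000000000000000000000000000000000000000000000) (nat_lit 7)
theorem c331 : QOK q331 := cut [q329] ⟨c329, trivial⟩ (nd (nat_lit 187) (nat_lit 0) (cs (lf (nat_lit 41) (nat_lit 186)) (nd (nat_lit 206) (nat_lit 0) (cs (lf (nat_lit 12) (nat_lit 183)) (rf (nat_lit 0)))))) q331 (by decide +kernel)
def q344 : Q := Q.p (nat_lit 0x2000000000038000040000000000000000000000000000000000000000000000) (nat_lit 0x800000000019c0000600001c000000000000000000000000000000000000000000000) (nat_lit 6)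
theorem c344 : QOK q344 := cut [q119] ⟨c119, trivial⟩ (nd (nat_lit 231) (nat_lit 0) (cs (lf (nat_lit 42) (nat_lit 186)) (rf (nat_lit 0)))) q344 (by decide +kernel)
def q414 : Q := Q.p (nat_lit 0x3000004000010000040000000000000000000000000000000000000000000000) (nat_lit 0x20000080001a000fe8001fb0007e80002000008000000000000000000000000000000) (nat_lit 12)
theorem c414 : QOK q414 := cut [q376, q387, q396, q409] ⟨c376, c387, c396, c409, trivial⟩ (nd (nat_lit 187) (nat_lit 0) (cs (lf (nat_lit 35) (nat_lit 164)) (nd (nat_lit 188) (nat_lit 0) (cs (rf (nat_lit 0)) (cs (rf (nat_lit 1)) (cs (rf (nat_lit 2)) (nd (nat_lit 163) (nat_lit 0) (cs (nd (nat_lit 251) (nat_lit 0) (cs (lf (nat_lit 41) (nat_lit 185)) (rf (nat_lit 3)))) (lf (nat_lit 46) (nat_lit 163)))))))))) q414 (by decide +kernel)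
def q424 : Q := Q.p (nat_lit 0x3000000000010000040000000000000000000000000000000000000000000000) (nat_lit 0xc0000000000400000c0003a0000280000000000000000000000000000000000000000) (nat_lit 6)
theorem c424 : QOK q424 := cut [q423] ⟨c423, trivial⟩ (nd (nat_lit 230) (nat_lit 0) (cs (lf (nat_lit 29) (nat_lit 186)) (rf (nat_lit 0)))) q424 (by decide +kernel)
def q435 : Q := Q.p (nat_lit 0x2000004000010000040000000000000000000000000000000000000000000000) (nat_lit 0xa00001800002000000000080000300000800000000000000000000000000000000000) (nat_lit 5)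
theorem c435 : QOK q435 := cut [q434] ⟨c434, trivial⟩ (nd (nat_lit 252) (nat_lit 0) (cs (lf (nat_lit 29) (nat_lit 186)) (rf (nat_lit 0)))) q435 (by decide +kernel)
def q437 : Q := Q.p (nat_lit 0x2000000000010000040000000000000000000000000000000000000000000000) (nat_lit 0x80000e0000180000e000028000080000300000c00002000000000000000000000000000000) (nat_lit 6)
theorem c437 : QOK q437 := cut [q8, q26, q30, q436] ⟨c8, c26, c30, c436, trivial⟩ (nd (nat_lit 230) (nat_lit 0) (cs (rf (nat_lit 0)) (cs (rf (nat_lit 1)) (cs (rf (nat_lit 2)) (rf (nat_lit 3)))))) q437 (by decide +kernel)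
def q443 : Q := Q.p (nat_lit 0x2000000000010000040000000000000000000000000000000000000000000000) (nat_lit 0x80000e0000180000e000008000020000380000e00002000000000000000000000000000000) (nat_lit 6)
theorem c443 : QOK q443 := cut [q8, q438, q442] ⟨c8, c438, c442, trivial⟩ (nd (nat_lit 230) (nat_lit 0) (cs (rf (nat_lit 0)) (cs (rf (nat_lit 1)) (rf (nat_lit 2))))) q443 (by decide +kernel)
def q547 : Q := Q.p (nat_lit 0x1c000040000100000000000000000000000000000000000000000) (nat_lit 0x2e0002300003e0002c0000100000400000000000000000000000000000) (nat_lit 7)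
theorem c547 : QOK q547 := cut [q155, q534, q537, q541] ⟨c155, c534, c537, c541, trivial⟩ (nd (nat_lit 183) (nat_lit 0) (cs (rf (nat_lit 0)) (cs (rf (nat_lit 1)) (cs (nd (nat_lit 184) (nat_lit 0) (cs (lf (nat_lit 18) (nat_lit 183)) (rf (nat_lit 2)))) (nd (nat_lit 184) (nat_lit 0) (cs (lf (nat_lit 18) (nat_lit 183)) (nd (nat_lit 165) (nat_lit 0) (cs (lf (nat_lit 14) (nat_lit 161)) (nd (nat_lit 162) (nat_lit 0) (cs (nd (nat_lit 140) (nat_lit 0) (cs (lf (nat_lit 29) (nat_lit 140)) (rf (nat_lit 3)))) (lf (nat_lit 8) (nat_lit 161)))))))))))) q547 (by decide +kernel)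
def q585 : Q := Q.p (nat_lit 0x180000e0000000000000000000000000000000000000000000000) (nat_lit 0x100000c0000310000e00000800002000000000000000000000000000000) (nat_lit 6)
theorem c585 : QOK q585 := cut [q584] ⟨c584, trivial⟩ (nd (nat_lit 188) (nat_lit 0) (cs (lf (nat_lit 6) (nat_lit 185)) (rf (nat_lit 0)))) q585 (by decide +kernel)
def q614 : Q := Q.p (nat_lit 0x2000000000010000040000100000000000000000000000000000000000000000) (nat_lit 0x80000e000008000000000080000600000800000000000000000000000000000) (nat_lit 5)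
theorem c614 : QOK q614 := cut [q613] ⟨c613, trivial⟩ (nd (nat_lit 230) (nat_lit 0) (cs (lf (nat_lit 28) (nat_lit 164)) (rf (nat_lit 0)))) q614 (by decide +kernel)
def q628 : Q := Q.p (nat_lit 0x10000040000100000000000000000000000000000000000000000) (nat_lit 0x6000008000020000600000f8000380000a000000000000000000000000) (nat_lit 7)
theorem c628 : QOK q628 := cut [q558, q617, q619, q626] ⟨c558, c617, c619, c626, trivial⟩ (nd (nat_lit 142) (nat_lit 0) (cs (rf (nat_lit 0)) (cs (rf (nat_lit 1)) (cs (rf (nat_lit 2)) (nd (nat_lit 207) (nat_lit 0) (cs (lf (nat_lit 41) (nat_lit 141)) (rf (nat_lit 3)))))))) q628 (by decide +kernel)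
def q659 : Q := Q.p (nat_lit 0x2000000000030000040000000000000000000000000000000000000000000000) (nat_lit 0x80000e0000180000c0000080007b0001e80001c00007000000000000000000000000000000) (nat_lit 10)
theorem c659 : QOK q659 := cut [q360, q430, q643, q358, q653, q658] ⟨c360, c430, c643, c358, c653, c658, trivial⟩ (nd (nat_lit 252) (nat_lit 0) (cs (rf (nat_lit 0)) (cs (rf (nat_lit 1)) (cs (nd (nat_lit 187) (nat_lit 0) (cs (rf (nat_lit 2)) (cs (nd (nat_lit 231) (nat_lit 0) (cs (lf (nat_lit 41) (nat_lit 186)) (rf (nat_lit 3)))) (nd (nat_lit 165) (nat_lit 0) (cs (rf (nat_lit 4)) (lf (nat_lit 31) (nat_lit 164))))))) (rf (nat_lit 5)))))) q659 (by decide +kernel)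
def q685 : Q := Q.p (nat_lit 0x38000000000000000000000000000000000000000000000000000) (nat_lit 0x40000100000fe000c700039c000000000000000000000000000000000000000000000) (nat_lit 9)
theorem c685 : QOK q685 := cut [q117, q668, q676, q684] ⟨c117, c668, c676, c684, trivial⟩ (nd (nat_lit 206) (nat_lit 0) (cs (rf (nat_lit 0)) (cs (nd (nat_lit 187) (nat_lit 0) (cs (lf (nat_lit 17) (nat_lit 184)) (rf (nat_lit 1)))) (cs (nd (nat_lit 187) (nat_lit 0) (cs (lf (nat_lit 17) (nat_lit 184)) (nd (nat_lit 183) (nat_lit 0) (cs (lf (nat_lit 22) (nat_lit 183)) (nd (nat_lit 205) (nat_lit 0) (cs (lf (nat_lit 23) (nat_lit 182)) (nd (nat_lit 230) (nat_lit 0) (cs (lf (nat_lit 5) (nat_lit 205)) (nd (nat_lit 252) (nat_lit 0) (cs (lf (nat_lit 30) (nat_lit 186)) (rf (nat_lit 2)))))))))))) (rf (nat_lit 3)))))) q685 (by decide +kernel)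
def q697 : Q := Q.p (nat_lit 0x78000000000000000000000000000000000000000000000000000) (nat_lit 0xe7000180000e00000000000000000000000000000000000000000000000) (nat_lit 6)
theorem c697 : QOK q697 := cut [q696] ⟨c696, trivial⟩ (nd (nat_lit 229) (nat_lit 0) (cs (lf (nat_lit 11) (nat_lit 206)) (rf (nat_lit 0)))) q697 (by decide +kernel)
def q726 : Q := Q.p (nat_lit 0x80000200000c000030000000000000000000000000000000000000000000000000000) (nat_lit 0x580003780001c00000000000000080000000000000000000000000000000000000000000000) (nat_lit 7)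
theorem c726 : QOK q726 := cut [q724] ⟨c724, trivial⟩ (nd (nat_lit 274) (nat_lit 0) (cs (lf (nat_lit 41) (nat_lit 208)) (nd (nat_lit 252) (nat_lit 0) (cs (lf (nat_lit 35) (nat_lit 186)) (rf (nat_lit 0)))))) q726 (by decide +kernel)
def q767 : Q := Q.p (nat_lit 0x2000008000030000080000000000000000000000000000000000000000000000) (nat_lit 0x100000700001c00001000004000000000000000000000000000000000000000000000000000000000) (nat_lit 5)
theorem c767 : QOK q767 := cut [q765] ⟨c765, trivial⟩ (nd (nat_lit 274) (nat_lit 0) (cs (rf (nat_lit 0)) (lf (nat_lit 40) (nat_lit 186)))) q767 (by decide +kernel)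
def q893 : Q := Q.p (nat_lit 0x3c000000000000000000000000000000000000000000000000000) (nat_lit 0x1c000078000000001b80007e0000f80000e00002800000000000000000000000) (nat_lit 12)
theorem c893 : QOK q893 := cut [q805, q864, q875, q891] ⟨c805, c864, c875, c891, trivial⟩ (nd (nat_lit 184) (nat_lit 0) (cs (lf (nat_lit 23) (nat_lit 183)) (nd (nat_lit 162) (nat_lit 0) (cs (rf (nat_lit 0)) (cs (rf (nat_lit 1)) (cs (nd (nat_lit 187) (nat_lit 0) (cs (lf (nat_lit 17) (nat_lit 184)) (nd (nat_lit 228) (nat_lit 0) (cs (lf (nat_lit 11) (nat_lit 205)) (nd (nat_lit 229) (nat_lit 0) (cs (nd (nat_lit 139) (nat_lit 0) (cs (nd (nat_lit 163) (nat_lit 0) (cs (nd (nat_lit 185) (nat_lit 0) (cs (rf (nat_lit 2)) (lf (nat_lit 41) (nat_lit 162)))) (lf (nat_lit 35) (nat_lit 140)))) (lf (nat_lit 46) (nat_lit 139)))) (lf (nat_lit 29) (nat_lit 162)))))))) (rf (nat_lit 3)))))))) q893 (by decide +kernel)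
def q1051 : Q := Q.p (nat_lit 0x800006000018000000000000000000000000000000000000000000000000000) (nat_lit 0x1c0000f00000700000000000000020000000000000000000000000000000000000000000000) (nat_lit 6)
theorem c1051 : QOK q1051 := cut [q1050] ⟨c1050, trivial⟩ (nd (nat_lit 273) (nat_lit 0) (cs (lf (nat_lit 30) (nat_lit 207)) (rf (nat_lit 0)))) q1051 (by decide +kernel)
def q1119 : Q := Q.p (nat_lit 0x2000038000000000000000000000000000000000000000000000000000) (nat_lit 0xe50001c0000e00000000000000000000000000000000000000000000000) (nat_lit 6)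
theorem c1119 : QOK q1119 := cut [q696] ⟨c696, trivial⟩ (nd (nat_lit 210) (nat_lit 0) (cs (lf (nat_lit 11) (nat_lit 206)) (rf (nat_lit 0)))) q1119 (by decide +kernel)
def q1129 : Q := Q.p (nat_lit 0x3c000000000000000000000000000000000000000000000000000) (nat_lit 0x100000fc000c3000030000080000200000000000000000000000000000000000) (nat_lit 8)
theorem c1129 : QOK q1129 := cut [q1125] ⟨c1125, trivial⟩ (nd (nat_lit 227) (nat_lit 0) (cs (lf (nat_lit 10) (nat_lit 205)) (nd (nat_lit 205) (nat_lit 0) (cs (lf (nat_lit 11) (nat_lit 204)) (nd (nat_lit 230) (nat_lit 0) (cs (lf (nat_lit 5) (nat_lit 205)) (nd (nat_lit 229) (nat_lit 0) (cs (lf (nat_lit 0) (nat_lit 204)) (rf (nat_lit 0)))))))))) q1129 (by decide +kernel)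
def q1247 : Q := Q.p (nat_lit 0x6000038000000000000000000000000000000000000000000000000000) (nat_lit 0x1c0000700001f0000800000400003c0001c0000700000000000000000000000000000000000) (nat_lit 7)
theorem c1247 : QOK q1247 := cut [q735, q1233, q1246] ⟨c735, c1233, c1246, trivial⟩ (nd (nat_lit 185) (nat_lit 0) (cs (rf (nat_lit 0)) (cs (nd (nat_lit 163) (nat_lit 0) (cs (lf (nat_lit 24) (nat_lit 141)) (nd (nat_lit 142) (nat_lit 0) (cs (nd (nat_lit 162) (nat_lit 0) (cs (lf (nat_lit 47) (nat_lit 140)) (rf (nat_lit 1)))) (lf (nat_lit 34) (nat_lit 141)))))) (rf (nat_lit 2))))) q1247 (by decide +kernel)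
def q1282 : Q := Q.p (nat_lit 0x3000034000000000000000000000000000000000000000000000000000) (nat_lit 0xc0000000000a0000180000e0000380000a00000000000000000000000000000) (nat_lit 6)
theorem c1282 : QOK q1282 := cut [q1270, q1274, q1281] ⟨c1270, c1274, c1281, trivial⟩ (nd (nat_lit 184) (nat_lit 0) (cs (rf (nat_lit 0)) (cs (rf (nat_lit 1)) (rf (nat_lit 2))))) q1282 (by decide +kernel)
def q1295 : Q := Q.p (nat_lit 0x7000034000000000000000000000000000000000000000000000000000) (nat_lit 0x80000e000080000080000180000e0000380000a00000000000000000000000000000) (nat_lit 6)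
theorem c1295 : QOK q1295 := cut [q1270, q1274] ⟨c1270, c1274, trivial⟩ (nd (nat_lit 184) (nat_lit 0) (cs (rf (nat_lit 0)) (cs (rf (nat_lit 1)) (nd (nat_lit 183) (nat_lit 0) (cs (lf (nat_lit 20) (nat_lit 183)) (nd (nat_lit 250) (nat_lit 0) (cs (nd (nat_lit 249) (nat_lit 0) (cs (lf (nat_lit 6) (nat_lit 227)) (lf (nat_lit 41) (nat_lit 183)))) (lf (nat_lit 47) (nat_lit 161))))))))) q1295 (by decide +kernel)
def q1313 : Q := Q.p (nat_lit 0xf00003000000000000000000000000000000000000000000000000000000000000000) (nat_lit 0x1c00007000000e00000000000000000000000000000000000000000000000000000000000000) (nat_lit 5)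
theorem c1313 : QOK q1313 := cut [q1312] ⟨c1312, trivial⟩ (nd (nat_lit 250) (nat_lit 0) (cs (lf (nat_lit 23) (nat_lit 249)) (rf (nat_lit 0)))) q1313 (by decide +kernel)
def q1333 : Q := Q.p (nat_lit 0x3000006000030000000000000000000000000000000000000000000000000000) (nat_lit 0x1c0000780000f80009c0000f00003c000080000000000000000000000000000000000000000) (nat_lit 9)
theorem c1333 : QOK q1333 := cut [q1026, q117, q794, q1074, q1331] ⟨c1026, c117, c794, c1074, c1331, trivial⟩ (nd (nat_lit 207) (nat_lit 0) (cs (rf (nat_lit 0)) (cs (nd (nat_lit 206) (nat_lit 0) (cs (rf (nat_lit 1)) (cs (rf (nat_lit 2)) (rf (nat_lit 3))))) (nd (nat_lit 227) (nat_lit 0) (cs (lf (nat_lit 1) (nat_lit 227)) (rf (nat_lit 4))))))) q1333 (by decide +kernel)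
def q1442 : Q := Q.p (nat_lit 0x3000004000030000000000000000000000000000000000000000000000000000) (nat_lit 0x1800007800008000030000c8000078000080000000000000000000000000000000000000000) (nat_lit 7)
theorem c1442 : QOK q1442 := cut [q1431, q1435] ⟨c1431, c1435, trivial⟩ (nd (nat_lit 273) (nat_lit 0) (cs (nd (nat_lit 274) (nat_lit 0) (cs (lf (nat_lit 41) (nat_lit 207)) (nd (nat_lit 271) (nat_lit 0) (cs (lf (nat_lit 13) (nat_lit 249)) (rf (nat_lit 0)))))) (cs (nd (nat_lit 186) (nat_lit 0) (cs (lf (nat_lit 40) (nat_lit 185)) (rf (nat_lit 1)))) (nd (nat_lit 251) (nat_lit 0) (cs (nd (nat_lit 295) (nat_lit 0) (cs (lf (nat_lit 33) (nat_lit 207)) (lf (nat_lit 39) (nat_lit 207)))) (lf (nat_lit 36) (nat_lit 185))))))) q1442 (by decide +kernel)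
def q1459 : Q := Q.p (nat_lit 0x78000000000000000000000000000000000000000000000000000) (nat_lit 0x800003000080000070000100000400000000000000000000000000000000000) (nat_lit 5)
theorem c1459 : QOK q1459 := cut [q1458] ⟨c1458, trivial⟩ (nd (nat_lit 229) (nat_lit 0) (cs (lf (nat_lit 11) (nat_lit 206)) (rf (nat_lit 0)))) q1459 (by decide +kernel)
def q1476 : Q := Q.p (nat_lit 0x2000000000038000000000000000000000000000000000000000000000000000) (nat_lit 0x80000000000b8001c60007e0000500000400000000000000000000000000000000000) (nat_lit 7)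
theorem c1476 : QOK q1476 := cut [q1468, q35, q1469, q742, q1473, q1475] ⟨c1468, c35, c1469, c742, c1473, c1475, trivial⟩ (nd (nat_lit 187) (nat_lit 0) (cs (rf (nat_lit 0)) (cs (nd (nat_lit 186) (nat_lit 0) (cs (rf (nat_lit 1)) (rf (nat_lit 2)))) (cs (nd (nat_lit 188) (nat_lit 0) (cs (rf (nat_lit 3)) (rf (nat_lit 4)))) (rf (nat_lit 5)))))) q1476 (by decide +kernel)
def q1504 : Q := Q.p (nat_lit 0x38000000000000000000000000000000000000000000000000000) (nat_lit 0x100000c00003c000c600077c0000c0000300000000000000000000000000000000000) (nat_lit 8)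
theorem c1504 : QOK q1504 := cut [q1483, q1486, q1491, q1496, q1500] ⟨c1483, c1486, c1491, c1496, c1500, trivial⟩ (nd (nat_lit 228) (nat_lit 0) (cs (nd (nat_lit 210) (nat_lit 0) (cs (lf (nat_lit 10) (nat_lit 206)) (rf (nat_lit 0)))) (cs (nd (nat_lit 206) (nat_lit 0) (cs (lf (nat_lit 11) (nat_lit 205)) (rf (nat_lit 1)))) (cs (rf (nat_lit 2)) (nd (nat_lit 206) (nat_lit 0) (cs (lf (nat_lit 11) (nat_lit 205)) (nd (nat_lit 250) (nat_lit 0) (cs (nd (nat_lit 183) (nat_lit 0) (cs (lf (nat_lit 22) (nat_lit 183)) (nd (nat_lit 205) (nat_lit 0) (cs (lf (nat_lit 23) (nat_lit 182)) (lf (nat_lit 42) (nat_lit 183)))))) (cs (rf (nat_lit 3)) (nd (nat_lit 184) (nat_lit 0) (cs (lf (nat_lit 23) (nat_lit 183)) (rf (nat_lit 4))))))))))))) q1504 (by decide +kernel)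
def q1508 : Q := Q.p (nat_lit 0x3c000000000000000000000000000000000000000000000000000) (nat_lit 0x1c000030000ee000000000000000000000000000000000000000000000) (nat_lit 6)
theorem c1508 : QOK q1508 := cut [q1506] ⟨c1506, trivial⟩ (nd (nat_lit 227) (nat_lit 0) (cs (lf (nat_lit 10) (nat_lit 205)) (nd (nat_lit 205) (nat_lit 0) (cs (lf (nat_lit 11) (nat_lit 204)) (rf (nat_lit 0)))))) q1508 (by decide +kernel)
def q1522 : Q := Q.p (nat_lit 0x3c000000000000000000000000000000000000000000000000000) (nat_lit 0xe000030000fc000000000000000000000000000000000000000000000) (nat_lit 6)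
theorem c1522 : QOK q1522 := cut [q1520] ⟨c1520, trivial⟩ (nd (nat_lit 183) (nat_lit 0) (cs (lf (nat_lit 22) (nat_lit 183)) (nd (nat_lit 205) (nat_lit 0) (cs (lf (nat_lit 23) (nat_lit 182)) (rf (nat_lit 0)))))) q1522 (by decide +kernel)
def q1527 : Q := Q.p (nat_lit 0x400001000004000010000000000000000000000000000000000000000000000) (nat_lit 0x2000008000020000000000000000e0000380000a00000000000000000000000000000) (nat_lit 6)
theorem c1527 : QOK q1527 := cut [q1525] ⟨c1525, trivial⟩ (nd (nat_lit 251) (nat_lit 0) (cs (rf (nat_lit 0)) (lf (nat_lit 29) (nat_lit 184)))) q1527 (by decide +kernel)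
def q1585 : Q := Q.p (nat_lit 0x2000008000030000000000000000000000000000000000000000000000000000) (nat_lit 0x4000010000040001c00007e00007c0001c00000000000000000000000000000000000) (nat_lit 9)
theorem c1585 : QOK q1585 := cut [q1568, q1577, q1580, q1584] ⟨c1568, c1577, c1580, c1584, trivial⟩ (nd (nat_lit 187) (nat_lit 0) (cs (rf (nat_lit 0)) (cs (rf (nat_lit 1)) (cs (rf (nat_lit 2)) (rf (nat_lit 3)))))) q1585 (by decide +kernel)
def q1594 : Q := Q.p (nat_lit 0x2000008000030000000000000000000000000000000000000000000000000000) (nat_lit 0x100000700001c00001000004000040000180000400000000000000000000000000000000000000000) (nat_lit 5)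
theorem c1594 : QOK q1594 := cut [q732, q1593] ⟨c732, c1593, trivial⟩ (nd (nat_lit 275) (nat_lit 0) (cs (rf (nat_lit 0)) (rf (nat_lit 1)))) q1594 (by decide +kernel)
def q1704 : Q := Q.p (nat_lit 0x20000000000300000c0000000000000000000000000000000000000000000000) (nat_lit 0xc000000000000000380007e00007800000000000000000000000000000) (nat_lit 8)
theorem c1704 : QOK q1704 := cut [q1703] ⟨c1703, trivial⟩ (nd (nat_lit 164) (nat_lit 0) (cs (lf (nat_lit 43) (nat_lit 164)) (rf (nat_lit 0)))) q1704 (by decide +kernel)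
def q1746 : Q := Q.p (nat_lit 0x38000020000000000000000000000000000000000000000000000) (nat_lit 0x100000700001c00007c000000000580007f0000f00001c00005000000000000000000000000) (nat_lit 12)
theorem c1746 : QOK q1746 := cut [q1615, q1621, q1658, q1623, q1723, q1726, q1745] ⟨c1615, c1621, c1658, c1623, c1723, c1726, c1745, trivial⟩ (nd (nat_lit 163) (nat_lit 0) (cs (rf (nat_lit 0)) (cs (rf (nat_lit 1)) (cs (rf (nat_lit 2)) (cs (nd (nat_lit 229) (nat_lit 0) (cs (rf (nat_lit 3)) (cs (nd (nat_lit 140) (nat_lit 0) (cs (lf (nat_lit 46) (nat_lit 140)) (rf (nat_lit 4)))) (cs (nd (nat_lit 142) (nat_lit 0) (cs (lf (nat_lit 34) (nat_lit 141)) (nd (nat_lit 140) (nat_lit 0) (cs (lf (nat_lit 46) (nat_lit 140)) (nd (nat_lit 228) (nat_lit 0) (cs (lf (nat_lit 41) (nat_lit 162)) (rf (nat_lit 5)))))))) (nd (nat_lit 230) (nat_lit 0) (cs (lf (nat_lit 29) (nat_lit 163)) (nd (nat_lit 140) (nat_lit 0) (cs (lf (nat_lit 46) (nat_lit 140)) (nd (nat_lit 164) (nat_lit 0) (cs (lf (nat_lit 35) (nat_lit 141))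 (nd (nat_lit 186) (nat_lit 0) (cs (lf (nat_lit 30) (nat_lit 163)) (nd (nat_lit 184) (nat_lit 0) (cs (lf (nat_lit 0) (nat_lit 183)) (nd (nat_lit 165) (nat_lit 0) (cs (lf (nat_lit 35) (nat_lit 142)) (lf (nat_lit 6) (nat_lit 162)))))))))))))))))) (rf (nat_lit 6))))))) q1746 (by decide +kernel)
def q1769 : Q := Q.p (nat_lit 0x2000038000020000000000000000000000000000000000000000000000) (nat_lit 0x100000700001c00005800000000040000180000600001800004000000000000000000000000) (nat_lit 7)
theorem c1769 : QOK q1769 := cut [q1615, q1623, q1723] ⟨c1615, c1623, c1723, trivial⟩ (nd (nat_lit 163) (nat_lit 0) (cs (rf (nat_lit 0)) (cs (rf (nat_lit 1)) (rf (nat_lit 2))))) q1769 (by decide +kernel)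
def q1803 : Q := Q.p (nat_lit 0x38000060000000000000000000000000000000000000000000000) (nat_lit 0x40000c40003800000c0000200000800000000000000000000000000000) (nat_lit 6)
theorem c1803 : QOK q1803 := cut [q1801] ⟨c1801, trivial⟩ (nd (nat_lit 210) (nat_lit 0) (cs (lf (nat_lit 18) (nat_lit 185)) (nd (nat_lit 188) (nat_lit 0) (cs (lf (nat_lit 17) (nat_lit 185)) (rf (nat_lit 0)))))) q1803 (by decide +kernel)
def q1852 : Q := Q.p (nat_lit 0x200000800002000038000000000000000000000000000000000000000000000000000) (nat_lit 0x1c0000d00000700005800000000020000000000000000000000000000000000000000000000) (nat_lit 7)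
theorem c1852 : QOK q1852 := cut [q1050] ⟨c1050, trivial⟩ (nd (nat_lit 230) (nat_lit 0) (cs (lf (nat_lit 30) (nat_lit 207)) (nd (nat_lit 227) (nat_lit 0) (cs (rf (nat_lit 0)) (lf (nat_lit 13) (nat_lit 205)))))) q1852 (by decide +kernel)
def q1931 : Q := Q.p (nat_lit 0x18000060000080000000000000000000000000000000000000000) (nat_lit 0x2000000000000000140003f00003c00000000000000000000000000000) (nat_lit 7)
theorem c1931 : QOK q1931 := cut [q1929] ⟨c1929, trivial⟩ (nd (nat_lit 141) (nat_lit 0) (cs (lf (nat_lit 24) (nat_lit 119)) (nd (nat_lit 118) (nat_lit 0) (cs (lf (nat_lit 46) (nat_lit 118)) (rf (nat_lit 0)))))) q1931 (by decide +kernel)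
def q1983 : Q := Q.p (nat_lit 0x3e000040000000000000000000000000000000000000000000000) (nat_lit 0x8000030000c1000020000100000400000000000000000000000000000000000) (nat_lit 5)
theorem c1983 : QOK q1983 := cut [q1982] ⟨c1982, trivial⟩ (nd (nat_lit 185) (nat_lit 0) (cs (lf (nat_lit 12) (nat_lit 182)) (rf (nat_lit 0)))) q1983 (by decide +kernel)
def q2039 : Q := Q.p (nat_lit 0x1e00003800000000000000000000000000000000000000000000000000000000000000) (nat_lit 0x5c0001f0000fc0000000000000000000000000000000000000000000000000000000000000000000000000) (nat_lit 8)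
theorem c2039 : QOK q2039 := cut [q2034] ⟨c2034, trivial⟩ (nd (nat_lit 298) (nat_lit 0) (cs (lf (nat_lit 5) (nat_lit 273)) (nd (nat_lit 320) (nat_lit 0) (cs (nd (nat_lit 295) (nat_lit 0) (cs (rf (nat_lit 0)) (lf (nat_lit 11) (nat_lit 272)))) (lf (nat_lit 42) (nat_lit 253)))))) q2039 (by decide +kernel)
def q2054 : Q := Q.p (nat_lit 0xe00003800000000000000000000000000000000000000000000000000000000000000) (nat_lit 0x740001f00007e0000180000000000000000000000000000000000000000000000000000000000000000000) (nat_lit 9)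
theorem c2054 : QOK q2054 := cut [q2050] ⟨c2050, trivial⟩ (nd (nat_lit 272) (nat_lit 0) (cs (lf (nat_lit 12) (nat_lit 249)) (nd (nat_lit 294) (nat_lit 0) (cs (lf (nat_lit 11) (nat_lit 271)) (nd (nat_lit 316) (nat_lit 0) (cs (rf (nat_lit 0)) (lf (nat_lit 30) (nat_lit 250)))))))) q2054 (by decide +kernel)
def q2066 : Q := Q.p (nat_lit 0x800003800000000000000000000000000000000000000000000000000000000000000) (nat_lit 0x11c0000600001c00000000000000000000000000000000000000000000000000000000) (nat_lit 5)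
theorem c2066 : QOK q2066 := cut [q2065] ⟨c2065, trivial⟩ (nd (nat_lit 250) (nat_lit 0) (cs (lf (nat_lit 5) (nat_lit 250)) (rf (nat_lit 0)))) q2066 (by decide +kernel)
def q2106 : Q := Q.p (nat_lit 0x38000060000000000000000000000000000000000000000000000) (nat_lit 0x100000400003800007000080000080000200000000000000000000000000000000000) (nat_lit 5)
theorem c2106 : QOK q2106 := cut [q2094, q2104] ⟨c2094, c2104, trivial⟩ (nd (nat_lit 206) (nat_lit 0) (cs (rf (nat_lit 0)) (rf (nat_lit 1)))) q2106 (by decide +kernel)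
def q2137 : Q := Q.p (nat_lit 0x300000f0000000000000000000000000000000000000000000000) (nat_lit 0x80007000006e0000800002000000000000000000000000000000) (nat_lit 6)
theorem c2137 : QOK q2137 := cut [q2135] ⟨c2135, trivial⟩ (nd (nat_lit 165) (nat_lit 0) (cs (lf (nat_lit 17) (nat_lit 162)) (nd (nat_lit 121) (nat_lit 0) (cs (lf (nat_lit 37) (nat_lit 120)) (rf (nat_lit 0)))))) q2137 (by decide +kernel)
def q2162 : Q := Q.p (nat_lit 0xf0000000000000000000000000000000000000000000000) (nat_lit 0x10000060001000000e0000200000800000000000000000000000000000) (nat_lit 5)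
theorem c2162 : QOK q2162 := cut [q2161] ⟨c2161, trivial⟩ (nd (nat_lit 206) (nat_lit 0) (cs (lf (nat_lit 11) (nat_lit 183)) (rf (nat_lit 0)))) q2162 (by decide +kernel)
def q2190 : Q := Q.p (nat_lit 0x1c00003000000000000000000000000000000000000000000000000000000000000000) (nat_lit 0x1dc0006200018000000000000000000000000000000000000000000000000000000000000000) (nat_lit 6)
theorem c2190 : QOK q2190 := cut [q2189] ⟨c2189, trivial⟩ (nd (nat_lit 277) (nat_lit 0) (cs (lf (nat_lit 18) (nat_lit 252)) (rf (nat_lit 0)))) q2190 (by decide +kernel)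
def q2199 : Q := Q.p (nat_lit 0x800002000000000030000000000000000000000000000000000000000000000000000) (nat_lit 0x5000014000010000080000400001c0000400000000000000000000000000000000000000000) (nat_lit 6)
theorem c2199 : QOK q2199 := cut [q1590] ⟨c1590, trivial⟩ (nd (nat_lit 231) (nat_lit 0) (cs (lf (nat_lit 47) (nat_lit 186)) (rf (nat_lit 0)))) q2199 (by decide +kernel)
def q2231 : Q := Q.p (nat_lit 0x300000f0000000000000000000000000000000000000000000000) (nat_lit 0x40000180000e0001000000e0000200000000000000000000000000000000000) (nat_lit 6)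
theorem c2231 : QOK q2231 := cut [q2132] ⟨c2132, trivial⟩ (nd (nat_lit 161) (nat_lit 0) (cs (rf (nat_lit 0)) (lf (nat_lit 22) (nat_lit 161)))) q2231 (by decide +kernel)
def q2273 : Q := Q.p (nat_lit 0x4000030000040000100000000000000000000000000000000000000000) (nat_lit 0x8000038000000003be000ef0007be0000000000000000000000000000000000) (nat_lit 12)
theorem c2273 : QOK q2273 := cut [q2246, q2257, q2263, q2270] ⟨c2246, c2257, c2263, c2270, trivial⟩ (nd (nat_lit 163) (nat_lit 0) (cs (lf (nat_lit 47) (nat_lit 141)) (nd (nat_lit 162) (nat_lit 0) (cs (nd (nat_lit 229) (nat_lit 0) (cs (lf (nat_lit 41) (nat_lit 163)) (rf (nat_lit 0)))) (cs (nd (nat_lit 229) (nat_lit 0) (cs (lf (nat_lit 41) (nat_lit 163)) (nd (nat_lit 165) (nat_lit 0) (cs (lf (nat_lit 35) (nat_lit 142)) (nd (nat_lit 227) (nat_lit 0) (cs (lf (nat_lit 13) (nat_lit 205)) (rf (nat_lit 1)))))))) (cs (nd (nat_lit 165) (nat_lit 0) (cs (lf (nat_lit 35) (nat_lit 142)) (nd (nat_lit 229) (nat_lit 0) (cs (lf (nat_lit 41) (nat_lit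 163)) (nd (nat_lit 139) (nat_lit 0) (cs (lf (nat_lit 22) (nat_lit 139)) (nd (nat_lit 227) (nat_lit 0) (cs (lf (nat_lit 13) (nat_lit 205)) (rf (nat_lit 2)))))))))) (nd (nat_lit 143) (nat_lit 0) (cs (lf (nat_lit 34) (nat_lit 142)) (rf (nat_lit 3)))))))))) q2273 (by decide +kernel)
def q2330 : Q := Q.p (nat_lit 0x2000008000030000000000000000000000000000000000000000000000000000) (nat_lit 0xc000010000000000080007c0000500000000000000000000000000000000000000000) (nat_lit 6)
theorem c2330 : QOK q2330 := cut [q2328] ⟨c2328, trivial⟩ (nd (nat_lit 186) (nat_lit 0) (cs (lf (nat_lit 42) (nat_lit 186)) (nd (nat_lit 187) (nat_lit 0) (cs (lf (nat_lit 47) (nat_lit 164)) (rf (nat_lit 0)))))) q2330 (by decide +kernel)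
def q2346 : Q := Q.p (nat_lit 0x2000008000030000000000000000000000000000000000000000000000000000) (nat_lit 0x100000700001c00000000004000040000140000000000000000000000000000000000000000000000) (nat_lit 6)
theorem c2346 : QOK q2346 := cut [q2202] ⟨c2202, trivial⟩ (nd (nat_lit 275) (nat_lit 0) (cs (lf (nat_lit 47) (nat_lit 186)) (rf (nat_lit 0)))) q2346 (by decide +kernel)
def q2359 : Q := Q.p (nat_lit 0x800002000008000020000000000000000000000000000000000000000000000000000) (nat_lit 0x500003400001c00000000000000080000000000000000000000000000000000000000000000) (nat_lit 5)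
theorem c2359 : QOK q2359 := cut [q2206] ⟨c2206, trivial⟩ (nd (nat_lit 276) (nat_lit 0) (cs (lf (nat_lit 29) (nat_lit 209)) (rf (nat_lit 0)))) q2359 (by decide +kernel)
def q2366 : Q := Q.p (nat_lit 0x2000008000030000000000000000000000000000000000000000000000000000) (nat_lit 0x7c0003f80001e00007c001ce0003bc000280000a00000000000000000000000000000000000) (nat_lit 10)
theorem c2366 : QOK q2366 := cut [q1405, q792, q674, q1125, q2354, q2356, q721] ⟨c1405, c792, c674, c1125, c2354, c2356, c721, trivial⟩ (nd (nat_lit 230) (nat_lit 0) (cs (rf (nat_lit 0)) (cs (nd (nat_lit 207) (nat_lit 0) (cs (rf (nat_lit 1)) (cs (nd (nat_lit 229) (nat_lit 0) (cs (rf (nat_lit 2)) (cs (rf (nat_lit 3)) (rf (nat_lit 4))))) (nd (nat_lit 206) (nat_lit 0) (cs (lf (nat_lit 0) (nat_lit 205)) (rf (nat_lit 5))))))) (nd (nat_lit 275) (nat_lit 0) (cs (lf (nat_lit 42) (nat_lit 208)) (nd (nat_lit 274) (nat_lit 0) (cs (lf (nat_lit 41) (nat_lit 208)) (nd (nat_lit 252) (nat_lit 0) (cs (lf (nat_lit 36) (nat_lit 186))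 (nd (nat_lit 273) (nat_lit 0) (cs (lf (nat_lit 41) (nat_lit 207)) (nd (nat_lit 271) (nat_lit 0) (cs (lf (nat_lit 13) (nat_lit 249)) (nd (nat_lit 185) (nat_lit 0) (cs (lf (nat_lit 46) (nat_lit 185)) (rf (nat_lit 6))))))))))))))))) q2366 (by decide +kernel)
def q2385 : Q := Q.p (nat_lit 0x2000008000030000040000000000000000000000000000000000000000000000) (nat_lit 0x6000018000e78001cc0007b80002c0000100000000000000000000000000000000000) (nat_lit 10)
theorem c2385 : QOK q2385 := cut [q39, q75, q87, q186, q37, q2368, q2384] ⟨c39, c75, c87, c186, c37, c2368, c2384, trivial⟩ (nd (nat_lit 210) (nat_lit 0) (cs (rf (nat_lit 0)) (cs (rf (nat_lit 1)) (cs (nd (nat_lit 207) (nat_lit 0) (cs (rf (nat_lit 2)) (cs (rf (nat_lit 3)) (cs (nd (nat_lit 185) (nat_lit 0) (cs (rf (nat_lit 4)) (nd (nat_lit 229) (nat_lit 0) (cs (lf (nat_lit 11) (nat_lit 206)) (nd (nat_lit 188) (nat_lit 0) (cs (lf (nat_lit 17) (nat_lit 185)) (nd (nat_lit 251) (nat_lit 0) (cs (lf (nat_lit 30) (nat_lit 185)) (nd (nat_lit 252)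 (nat_lit 0) (cs (lf (nat_lit 29) (nat_lit 185)) (nd (nat_lit 163) (nat_lit 0) (cs (lf (nat_lit 28) (nat_lit 163)) (rf (nat_lit 5)))))))))))))) (nd (nat_lit 188) (nat_lit 0) (cs (lf (nat_lit 17) (nat_lit 185)) (nd (nat_lit 187) (nat_lit 0) (cs (lf (nat_lit 12) (nat_lit 184)) (nd (nat_lit 252) (nat_lit 0) (cs (lf (nat_lit 41) (nat_lit 186)) (nd (nat_lit 230) (nat_lit 0) (cs (lf (nat_lit 36) (nat_lit 164)) (nd (nat_lit 185) (nat_lit 0) (cs (lf (nat_lit 47) (nat_lit 163)) (lf (nat_lit 23) (nat_lit 184)))))))))))))))) (rf (nat_lit 6)))))) q2385 (by decide +kernel)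
def q2397 : Q := Q.p (nat_lit 0x800002000008000010000000000000000000000000000000000000000000000000000) (nat_lit 0x500001c0000700000000000000014000040000000000000000000000000000000000000000000000000000) (nat_lit 6)
theorem c2397 : QOK q2397 := cut [q2396] ⟨c2396, trivial⟩ (nd (nat_lit 297) (nat_lit 0) (cs (lf (nat_lit 46) (nat_lit 208)) (rf (nat_lit 0)))) q2397 (by decide +kernel)
def q2451 : Q := Q.p (nat_lit 0x1c000040000000000000000000000000000000000000000000000) (nat_lit 0x1e0002300003e000000000000000000000000000000000000000000000) (nat_lit 5)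
theorem c2451 : QOK q2451 := cut [q128, q154, q2450] ⟨c128, c154, c2450, trivial⟩ (nd (nat_lit 205) (nat_lit 0) (cs (rf (nat_lit 0)) (cs (rf (nat_lit 1)) (rf (nat_lit 2))))) q2451 (by decide +kernel)
def q2457 : Q := Q.p (nat_lit 0x38000050000000000000000000000000000000000000000000000) (nat_lit 0x700001c0000ea0000000000000000000000000000000000000000000000) (nat_lit 6)
theorem c2457 : QOK q2457 := cut [q2456] ⟨c2456, trivial⟩ (nd (nat_lit 210) (nat_lit 0) (cs (lf (nat_lit 22) (nat_lit 184)) (rf (nat_lit 0)))) q2457 (by decide +kernel)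
def q2486 : Q := Q.p (nat_lit 0x100000c000010000040000000000000000000000000000000000000000) (nat_lit 0x20000080000380000e00000800000000000000000000000) (nat_lit 5)
theorem c2486 : QOK q2486 := cut [q2485] ⟨c2485, trivial⟩ (nd (nat_lit 141) (nat_lit 0) (cs (lf (nat_lit 34) (nat_lit 140)) (rf (nat_lit 0)))) q2486 (by decide +kernel)
def q2514 : Q := Q.p (nat_lit 0x3c00001000004000000000000000000000000000000000000000000000000000) (nat_lit 0x380000000002000000000018000060000080000000000000000000000000000000000) (nat_lit 5)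
theorem c2514 : QOK q2514 := cut [q2513] ⟨c2513, trivial⟩ (nd (nat_lit 271) (nat_lit 0) (cs (lf (nat_lit 10) (nat_lit 249)) (rf (nat_lit 0)))) q2514 (by decide +kernel)
def q2521 : Q := Q.p (nat_lit 0x200000800002000000000010000000000000000000000000000000000000000000000000000) (nat_lit 0x500001c000050000000000000001c000040000000000000000000000000000000000000000000000000000) (nat_lit 6)
theorem c2521 : QOK q2521 := cut [q2396] ⟨c2396, trivial⟩ (nd (nat_lit 231) (nat_lit 0) (cs (lf (nat_lit 46) (nat_lit 208)) (rf (nat_lit 0)))) q2521 (by decide +kernel)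
def q2567 : Q := Q.p (nat_lit 0x80000200000800002000000000000000000000000000000000000000000000000000000000000000) (nat_lit 0x4000018000060000140001d00001700001000018000040000000000000000000000000000000000000000000000000000) (nat_lit 8)
theorem c2567 : QOK q2567 := cut [q2553, q2558, q2562] ⟨c2553, c2558, c2562, trivial⟩ (nd (nat_lit 274) (nat_lit 0) (cs (rf (nat_lit 0)) (cs (rf (nat_lit 1)) (nd (nat_lit 341) (nat_lit 0) (cs (lf (nat_lit 47) (nat_lit 252)) (nd (nat_lit 296) (nat_lit 0) (cs (nd (nat_lit 231) (nat_lit 0) (cs (lf (nat_lit 41) (nat_lit 230)) (rf (nat_lit 2)))) (lf (nat_lit 42) (nat_lit 274))))))))) q2567 (by decide +kernel)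
def q2593 : Q := Q.p (nat_lit 0xe0000200000800002000000000000000000000000000000000000000000000000000000000000000) (nat_lit 0x4e0001100000e0000000001000004000000000000000000000000000000000000000000000000000000000) (nat_lit 6)
theorem c2593 : QOK q2593 := cut [q2591] ⟨c2591, trivial⟩ (nd (nat_lit 230) (nat_lit 0) (cs (rf (nat_lit 0)) (lf (nat_lit 46) (nat_lit 230)))) q2593 (by decide +kernel)
def q2628 : Q := Q.p (nat_lit 0x3000000000038000040000000000000000000000000000000000000000000000) (nat_lit 0xfc0000e0001bc00000000038000040000000000000000000000000000000000000000) (nat_lit 7)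
theorem c2628 : QOK q2628 := cut [q2624, q2003] ⟨c2624, c2003, trivial⟩ (nd (nat_lit 251) (nat_lit 0) (cs (nd (nat_lit 231) (nat_lit 0) (cs (lf (nat_lit 42) (nat_lit 186)) (rf (nat_lit 0)))) (nd (nat_lit 229) (nat_lit 0) (cs (lf (nat_lit 30) (nat_lit 185)) (nd (nat_lit 185) (nat_lit 0) (cs (lf (nat_lit 29) (nat_lit 185)) (rf (nat_lit 1)))))))) q2628 (by decide +kernel)
def q2649 : Q := Q.p (nat_lit 0x20000000000300000c0000000000000000000000000000000000000000000000) (nat_lit 0x8000008000720003e00000000000000000000000000000000000000000) (nat_lit 5)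
theorem c2649 : QOK q2649 := cut [q356, q2648] ⟨c356, c2648, trivial⟩ (nd (nat_lit 188) (nat_lit 0) (cs (rf (nat_lit 0)) (rf (nat_lit 1)))) q2649 (by decide +kernel)
def q2677 : Q := Q.p (nat_lit 0x38000040000000000000000000000000000000000000000000000) (nat_lit 0x400001c000c70000be000080000200000000000000000000000000000000000) (nat_lit 6)
theorem c2677 : QOK q2677 := cut [q130, q170, q1135] ⟨c130, c170, c1135, trivial⟩ (nd (nat_lit 206) (nat_lit 0) (cs (rf (nat_lit 0)) (cs (rf (nat_lit 1)) (cs (rf (nat_lit 2)) (nd (nat_lit 183) (nat_lit 0) (cs (lf (nat_lit 22) (nat_lit 183)) (nd (nat_lit 205) (nat_lit 0) (cs (lf (nat_lit 23) (nat_lit 182)) (lf (nat_lit 17) (nat_lit 183)))))))))) q2677 (by decide +kernel)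
def q2739 : Q := Q.p (nat_lit 0x300000e0000000000000000000000000000000000000000000000) (nat_lit 0x200000e000118000660000900002400000000000000000000000000000) (nat_lit 8)
theorem c2739 : QOK q2739 := cut [q2736] ⟨c2736, trivial⟩ (nd (nat_lit 184) (nat_lit 0) (cs (lf (nat_lit 0) (nat_lit 183)) (nd (nat_lit 165) (nat_lit 0) (cs (lf (nat_lit 17) (nat_lit 162)) (nd (nat_lit 121) (nat_lit 0) (cs (lf (nat_lit 37) (nat_lit 120)) (rf (nat_lit 0)))))))) q2739 (by decide +kernel)
def q2803 : Q := Q.p (nat_lit 0x10000040000100000400000000000000000000000000000000000) (nat_lit 0x20000280000a000020000000000300000c000020000000000000000000) (nat_lit 6)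
theorem c2803 : QOK q2803 := cut [q2802] ⟨c2802, trivial⟩ (nd (nat_lit 207) (nat_lit 0) (cs (lf (nat_lit 41) (nat_lit 141)) (rf (nat_lit 0)))) q2803 (by decide +kernel)
def q2926 : Q := Q.p (nat_lit 0x38000000000000000000000000000000000000000000000000000) (nat_lit 0x700000c40007f8000000000000000000000000000000000000000000000) (nat_lit 6)
theorem c2926 : QOK q2926 := cut [q98, q139, q1483, q2925] ⟨c98, c139, c1483, c2925, trivial⟩ (nd (nat_lit 210) (nat_lit 0) (cs (rf (nat_lit 0)) (cs (rf (nat_lit 1)) (cs (rf (nat_lit 2)) (rf (nat_lit 3)))))) q2926 (by decide +kernel)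
def q2932 : Q := Q.p (nat_lit 0x2000008000030000000000000000000000000000000000000000000000000000) (nat_lit 0x140000700001c0000100003000004c000180000400000000000000000000000000000000000000000) (nat_lit 6)
theorem c2932 : QOK q2932 := cut [q717, q1590, q2931] ⟨c717, c1590, c2931, trivial⟩ (nd (nat_lit 275) (nat_lit 0) (cs (rf (nat_lit 0)) (cs (rf (nat_lit 1)) (rf (nat_lit 2))))) q2932 (by decide +kernel)
def q2933 : Q := Q.p (nat_lit 0x2000008000038000000000000000000000000000000000000000000000000000) (nat_lit 0x10000370000c0000330000480000200000000000000000000000000000000000) (nat_lit 6)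
theorem c2933 : QOK q2933 := cut [q108, q738] ⟨c108, c738, trivial⟩ (nd (nat_lit 210) (nat_lit 0) (cs (rf (nat_lit 0)) (rf (nat_lit 1)))) q2933 (by decide +kernel)
def q2949 : Q := Q.p (nat_lit 0x2000008000030000000000000000000000000000000000000000000000000000) (nat_lit 0x140000700001c00001800017c0004e0000bc000000000000000000000000000000000000000000000) (nat_lit 7)
theorem c2949 : QOK q2949 := cut [q765, q119, q2935, q2938] ⟨c765, c119, c2935, c2938, trivial⟩ (nd (nat_lit 274) (nat_lit 0) (cs (rf (nat_lit 0)) (cs (nd (nat_lit 207) (nat_lit 0) (cs (rf (nat_lit 1)) (cs (rf (nat_lit 2)) (cs (rf (nat_lit 3)) (nd (nat_lit 252) (nat_lit 0) (cs (lf (nat_lit 36) (nat_lit 186)) (nd (nat_lit 185) (nat_lit 0) (cs (lf (nat_lit 44) (nat_lit 185)) (nd (nat_lit 229) (nat_lit 0) (cs (nd (nat_lit 210) (nat_lit 0) (cs (lf (nat_lit 23) (nat_lit 184)) (lf (nat_lit 11) (nat_lit 206)))) (lf (nat_lit 27) (nat_lit 185)))))))))))) (nd (nat_lit 296) (nat_lit 0) (cs (nd (nat_lit 252) (nat_lit 0) (cs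 (lf (nat_lit 30) (nat_lit 230)) (lf (nat_lit 36) (nat_lit 186)))) (lf (nat_lit 39) (nat_lit 208))))))) q2949 (by decide +kernel)
def q2956 : Q := Q.p (nat_lit 0xc00003000008000030000000000000000000000000000000000000000000000000000) (nat_lit 0x28000038000000001400000e000020000000000000000000000000000000000000000000000) (nat_lit 6)
theorem c2956 : QOK q2956 := cut [q2955] ⟨c2955, trivial⟩ (nd (nat_lit 230) (nat_lit 0) (cs (lf (nat_lit 29) (nat_lit 208)) (rf (nat_lit 0)))) q2956 (by decide +kernel)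
def q2978 : Q := Q.p (nat_lit 0x20000080000300000c0000000000000000000000000000000000000000000000) (nat_lit 0x600001c00034000000000020000280000000000000000000000000000000000000000) (nat_lit 6)
theorem c2978 : QOK q2978 := cut [q2976] ⟨c2976, trivial⟩ (nd (nat_lit 252) (nat_lit 0) (cs (lf (nat_lit 41) (nat_lit 186)) (nd (nat_lit 230) (nat_lit 0) (cs (lf (nat_lit 35) (nat_lit 164)) (rf (nat_lit 0)))))) q2978 (by decide +kernel)
def q2989 : Q := Q.p (nat_lit 0x800002000008000030000000000000000000000000000000000000000000000000000) (nat_lit 0x70000140000000003000004c000100000000000000000000000000000000000000000000000) (nat_lit 6)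
theorem c2989 : QOK q2989 := cut [q2988] ⟨c2988, trivial⟩ (nd (nat_lit 276) (nat_lit 0) (cs (lf (nat_lit 29) (nat_lit 209)) (rf (nat_lit 0)))) q2989 (by decide +kernel)
def q3138 : Q := Q.p (nat_lit 0x2000000000038000040000000000000000000000000000000000000000000000) (nat_lit 0x700001c00003c000c00000b80001f0000700001c00000000000000000000000000000) (nat_lit 10)
theorem c3138 : QOK q3138 := cut [q167, q1982, q90, q3126, q1663, q3129, q3131] ⟨c167, c1982, c90, c3126, c1663, c3129, c3131, trivial⟩ (nd (nat_lit 185) (nat_lit 0) (cs (rf (nat_lit 0)) (cs (rf (nat_lit 1)) (nd (nat_lit 229) (nat_lit 0) (cs (rf (nat_lit 2)) (cs (nd (nat_lit 183) (nat_lit 0) (cs (lf (nat_lit 1) (nat_lit 183)) (rf (nat_lit 3)))) (nd (nat_lit 163) (nat_lit 0) (cs (rf (nat_lit 4)) (cs (rf (nat_lit 5)) (nd (nat_lit 142) (nat_lit 0) (cs (lf (nat_lit 37) (nat_lit 141)) (nd (nat_lit 228) (nat_lit 0) (cs (lf (nat_lit 41) (nat_lit 162)) (nd (nat_lit 226) (nat_lit 0) (cs (lf (nat_lit 13) (nat_lit 204)) (nd (nat_lit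 184) (nat_lit 0) (cs (lf (nat_lit 0) (nat_lit 183)) (rf (nat_lit 6))))))))))))))))))) q3138 (by decide +kernel)
def q3160 : Q := Q.p (nat_lit 0x8000038000040000000000000000000000000000000000000000000000) (nat_lit 0xc00003c000c200003c0003f0001fc0001c00005000000000000000000000000) (nat_lit 11)
theorem c3160 : QOK q3160 := cut [q167, q1982, q1939, q3145, q3156, q3158] ⟨c167, c1982, c1939, c3145, c3156, c3158, trivial⟩ (nd (nat_lit 185) (nat_lit 0) (cs (rf (nat_lit 0)) (cs (rf (nat_lit 1)) (nd (nat_lit 163) (nat_lit 0) (cs (rf (nat_lit 2)) (cs (rf (nat_lit 3)) (cs (rf (nat_lit 4)) (rf (nat_lit 5))))))))) q3160 (by decide +kernel)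
def q3170 : Q := Q.p (nat_lit 0x2000008000038000040000000000000000000000000000000000000000000000) (nat_lit 0x600001c000330000c00001b8000600001800000000000000000000000000000000000) (nat_lit 9)
theorem c3170 : QOK q3170 := cut [q39, q3169] ⟨c39, c3169, trivial⟩ (nd (nat_lit 210) (nat_lit 0) (cs (rf (nat_lit 0)) (rf (nat_lit 1)))) q3170 (by decide +kernel)
def q3181 : Q := Q.p (nat_lit 0x3800000000010000040000000000000000000000000000000000000000000000) (nat_lit 0x19c0000600019c00020000000000000000000000000000000000000000000000000000) (nat_lit 5)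
theorem c3181 : QOK q3181 := cut [q2065] ⟨c2065, trivial⟩ (nd (nat_lit 250) (nat_lit 0) (cs (rf (nat_lit 0)) (nd (nat_lit 275) (nat_lit 0) (cs (lf (nat_lit 5) (nat_lit 250)) (nd (nat_lit 231) (nat_lit 0) (cs (lf (nat_lit 17) (nat_lit 228)) (lf (nat_lit 45) (nat_lit 186)))))))) q3181 (by decide +kernel)
def q3190 : Q := Q.p (nat_lit 0x3000000000018000040000000000000000000000000000000000000000000000) (nat_lit 0x80000780000e0001e0000600000b8000280000000000000000000000000000000000000000) (nat_lit 6)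
theorem c3190 : QOK q3190 := cut [q17, q367, q3189] ⟨c17, c367, c3189, trivial⟩ (nd (nat_lit 230) (nat_lit 0) (cs (rf (nat_lit 0)) (cs (rf (nat_lit 1)) (rf (nat_lit 2))))) q3190 (by decide +kernel)
def q3195 : Q := Q.p (nat_lit 0x2000000000018000040000000000000000000000000000000000000000000000) (nat_lit 0x80000000000e0000200000a0000100000c00003000008000000000000000000000000) (nat_lit 5)
theorem c3195 : QOK q3195 := cut [q524, q3194] ⟨c524, c3194, trivial⟩ (nd (nat_lit 164) (nat_lit 0) (cs (rf (nat_lit 0)) (rf (nat_lit 1)))) q3195 (by decide +kernel)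
def q3208 : Q := Q.p (nat_lit 0x1c000000000000000000000000000000000000000000000000000) (nat_lit 0x1e000230000fe000000000000000000000000000000000000000000000) (nat_lit 5)
theorem c3208 : QOK q3208 := cut [q1506, q1520, q2450] ⟨c1506, c1520, c2450, trivial⟩ (nd (nat_lit 205) (nat_lit 0) (cs (rf (nat_lit 0)) (cs (rf (nat_lit 1)) (rf (nat_lit 2))))) q3208 (by decide +kernel)
def q3216 : Q := Q.p (nat_lit 0x200000000001c000000000000000000000000000000000000000000000000000) (nat_lit 0x800000000019e000230000ee000000000000000000000000000000000000000000000) (nat_lit 7)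
theorem c3216 : QOK q3216 := cut [q1506, q1520, q3211, q3213] ⟨c1506, c1520, c3211, c3213, trivial⟩ (nd (nat_lit 205) (nat_lit 0) (cs (rf (nat_lit 0)) (cs (rf (nat_lit 1)) (cs (rf (nat_lit 2)) (nd (nat_lit 186) (nat_lit 0) (cs (lf (nat_lit 17) (nat_lit 183)) (nd (nat_lit 182) (nat_lit 0) (cs (lf (nat_lit 22) (nat_lit 182)) (rf (nat_lit 3)))))))))) q3216 (by decide +kernel)
def q3219 : Q := Q.p (nat_lit 0x200000000001c000000000000000000000000000000000000000000000000000) (nat_lit 0x8000004000198000600001f8000180000200000000000000000000000000000000000) (nat_lit 6)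
theorem c3219 : QOK q3219 := cut [q1135, q3218] ⟨c1135, c3218, trivial⟩ (nd (nat_lit 209) (nat_lit 0) (cs (rf (nat_lit 0)) (rf (nat_lit 1)))) q3219 (by decide +kernel)
def q3255 : Q := Q.p (nat_lit 0x1c000000000000000000000000000000000000000000000000000) (nat_lit 0x1c0000700003e000030000fe0001f0000df0003100008000000000000000000000000) (nat_lit 17)
theorem c3255 : QOK q3255 := cut [q1506, q1520, q3211, q3224, q3229, q524, q3252] ⟨c1506, c1520, c3211, c3224, c3229, c524, c3252, trivial⟩ (nd (nat_lit 205) (nat_lit 0) (cs (rf (nat_lit 0)) (cs (rf (nat_lit 1)) (cs (rf (nat_lit 2)) (nd (nat_lit 227) (nat_lit 0) (cs (lf (nat_lit 11) (nat_lit 204)) (nd (nat_lit 162) (nat_lit 0) (cs (rf (nat_lit 3)) (cs (nd (nat_lit 183) (nat_lit 0) (cs (lf (nat_lit 23) (nat_lit 182)) (nd (nat_lit 186) (nat_lit 0) (cs (lf (nat_lit 17) (nat_lit 183)) (rf (nat_lit 4)))))) (cs (nd (nat_lit 186) (nat_lit 0) (cs (lf (nat_lit 17) (nat_lit 183)) (nd (nat_lit 183) (nat_lit 0) (cs (lf (nat_lit 23) (nat_lit 182))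 (nd (nat_lit 249) (nat_lit 0) (cs (nd (nat_lit 250) (nat_lit 0) (cs (nd (nat_lit 161) (nat_lit 0) (cs (nd (nat_lit 138) (nat_lit 0) (cs (nd (nat_lit 248) (nat_lit 0) (cs (nd (nat_lit 139) (nat_lit 0) (cs (nd (nat_lit 136) (nat_lit 0) (cs (nd (nat_lit 164) (nat_lit 0) (cs (rf (nat_lit 5)) (lf (nat_lit 19) (nat_lit 138)))) (lf (nat_lit 1) (nat_lit 136)))) (lf (nat_lit 47) (nat_lit 116)))) (lf (nat_lit 41) (nat_lit 182)))) (lf (nat_lit 46) (nat_lit 138)))) (lf (nat_lit 28) (nat_lit 161)))) (lf (nat_lit 29) (nat_lit 183)))) (lf (nat_lit 34) (nat_lit 161)))))))) (rf (nat_lit 6)))))))))))) q3255 (by decide +kernel)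
def q3260 : Q := Q.p (nat_lit 0x200000000001c000000000000000000000000000000000000000000000000000) (nat_lit 0x800000000018e000230000fe000000000000000000000000000000000000000000000) (nat_lit 7)
theorem c3260 : QOK q3260 := cut [q1506, q1520, q3211, q3258] ⟨c1506, c1520, c3211, c3258, trivial⟩ (nd (nat_lit 205) (nat_lit 0) (cs (rf (nat_lit 0)) (cs (rf (nat_lit 1)) (cs (rf (nat_lit 2)) (nd (nat_lit 226) (nat_lit 0) (cs (lf (nat_lit 10) (nat_lit 204)) (rf (nat_lit 3)))))))) q3260 (by decide +kernel)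
def q3275 : Q := Q.p (nat_lit 0x200000800003c000000000000000000000000000000000000000000000000000) (nat_lit 0x800000000001c000c3000070000000000000000000000000000000000000000000000) (nat_lit 6)
theorem c3275 : QOK q3275 := cut [q3273] ⟨c3273, trivial⟩ (nd (nat_lit 227) (nat_lit 0) (cs (lf (nat_lit 10) (nat_lit 205)) (nd (nat_lit 205) (nat_lit 0) (cs (lf (nat_lit 11) (nat_lit 204)) (rf (nat_lit 0)))))) q3275 (by decide +kernel)
def q3294 : Q := Q.p (nat_lit 0x1c000000000000000000000000000000000000000000000000000) (nat_lit 0x20003be000620001bc000040000100000000000000000000000000000000000) (nat_lit 7)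
theorem c3294 : QOK q3294 := cut [q3282, q3286, q3293] ⟨c3282, c3286, c3293, trivial⟩ (nd (nat_lit 227) (nat_lit 0) (cs (rf (nat_lit 0)) (cs (nd (nat_lit 209) (nat_lit 0) (cs (lf (nat_lit 10) (nat_lit 205)) (nd (nat_lit 187) (nat_lit 0) (cs (lf (nat_lit 17) (nat_lit 184)) (rf (nat_lit 1)))))) (rf (nat_lit 2))))) q3294 (by decide +kernel)
def q3296 : Q := Q.p (nat_lit 0x200000000001c000000000000000000000000000000000000000000000000000) (nat_lit 0x800000000019e000230000de000000000000000000000000000000000000000000000) (nat_lit 6)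
theorem c3296 : QOK q3296 := cut [q3211, q3258, q3213] ⟨c3211, c3258, c3213, trivial⟩ (nd (nat_lit 205) (nat_lit 0) (cs (rf (nat_lit 0)) (cs (rf (nat_lit 1)) (nd (nat_lit 186) (nat_lit 0) (cs (lf (nat_lit 17) (nat_lit 183)) (rf (nat_lit 2))))))) q3296 (by decide +kernel)
def q3300 : Q := Q.p (nat_lit 0x1e000000000000000000000000000000000000000000000000000) (nat_lit 0xe00001800077000000000000000000000000000000000000000000000) (nat_lit 6)
theorem c3300 : QOK q3300 := cut [q3298] ⟨c3298, trivial⟩ (nd (nat_lit 226) (nat_lit 0) (cs (lf (nat_lit 10) (nat_lit 204)) (nd (nat_lit 204) (nat_lit 0) (cs (lf (nat_lit 11) (nat_lit 203)) (rf (nat_lit 0)))))) q3300 (by decide +kernel)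
def q3328 : Q := Q.p (nat_lit 0x200000000001c000000000000000000000000000000000000000000000000000) (nat_lit 0x80000080001f8000600001d8000140000500000000000000000000000000000000000) (nat_lit 7)
theorem c3328 : QOK q3328 := cut [q3218, q3323, q3325] ⟨c3218, c3323, c3325, trivial⟩ (nd (nat_lit 209) (nat_lit 0) (cs (rf (nat_lit 0)) (cs (nd (nat_lit 184) (nat_lit 0) (cs (lf (nat_lit 23) (nat_lit 183)) (rf (nat_lit 1)))) (nd (nat_lit 227) (nat_lit 0) (cs (lf (nat_lit 10) (nat_lit 205)) (nd (nat_lit 183) (nat_lit 0) (cs (lf (nat_lit 22) (nat_lit 183)) (rf (nat_lit 2))))))))) q3328 (by decide +kernel)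
def q3329 : Q := Q.p (nat_lit 0x2000004000010000040000000000000000000000000000000000000000000000) (nat_lit 0xa00001800002000000000000000380000e00002800000000000000000000000000000) (nat_lit 7)
theorem c3329 : QOK q3329 := cut [q1448] ⟨c1448, trivial⟩ (nd (nat_lit 252) (nat_lit 0) (cs (lf (nat_lit 29) (nat_lit 186)) (rf (nat_lit 0)))) q3329 (by decide +kernel)
def q3364 : Q := Q.p (nat_lit 0x1c000000000000000000000000000000000000000000000000000) (nat_lit 0x200000800007f000638000df000140000400000000000000000000000000000000000) (nat_lit 11)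
theorem c3364 : QOK q3364 := cut [q2450, q3211, q3341, q3348, q3353, q3362] ⟨c2450, c3211, c3341, c3348, c3353, c3362, trivial⟩ (nd (nat_lit 205) (nat_lit 0) (cs (rf (nat_lit 0)) (cs (rf (nat_lit 1)) (cs (nd (nat_lit 186) (nat_lit 0) (cs (lf (nat_lit 17) (nat_lit 183)) (rf (nat_lit 2)))) (cs (nd (nat_lit 186) (nat_lit 0) (cs (lf (nat_lit 17) (nat_lit 183)) (rf (nat_lit 3)))) (cs (nd (nat_lit 186) (nat_lit 0) (cs (lf (nat_lit 17) (nat_lit 183)) (rf (nat_lit 4)))) (nd (nat_lit 186) (nat_lit 0) (cs (lf (nat_lit 17) (nat_lit 183)) (rf (nat_lit 5)))))))))) q3364 (by decide +kernel)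
def q3365 : Q := Q.p (nat_lit 0x1c000000000000000000000000000000000000000000000000000) (nat_lit 0xfe0002300001e000000000000000000000000000000000000000000000) (nat_lit 5)
theorem c3365 : QOK q3365 := cut [q666, q671, q2450] ⟨c666, c671, c2450, trivial⟩ (nd (nat_lit 205) (nat_lit 0) (cs (rf (nat_lit 0)) (cs (rf (nat_lit 1)) (rf (nat_lit 2))))) q3365 (by decide +kernel)
def q3398 : Q := Q.p (nat_lit 0x200000100001c000000000000000000000000000000000000000000000000000) (nat_lit 0x380001e00002e000000000380000e0000280000000000000000000000000000000000) (nat_lit 6)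
theorem c3398 : QOK q3398 := cut [q1496, q3392, q2513, q3390] ⟨c1496, c3392, c2513, c3390, trivial⟩ (nd (nat_lit 250) (nat_lit 0) (cs (rf (nat_lit 0)) (cs (rf (nat_lit 1)) (nd (nat_lit 251) (nat_lit 0) (cs (rf (nat_lit 2)) (cs (rf (nat_lit 3)) (nd (nat_lit 184) (nat_lit 0) (cs (lf (nat_lit 29) (nat_lit 184)) (nd (nat_lit 249) (nat_lit 0) (cs (lf (nat_lit 41) (nat_lit 183)) (nd (nat_lit 227) (nat_lit 0) (cs (lf (nat_lit 19) (nat_lit 227)) (lf (nat_lit 36) (nat_lit 161)))))))))))))) q3398 (by decide +kernel)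
def q3438 : Q := Q.p (nat_lit 0x40000000001e000008000000000000000000000000000000000000000000000) (nat_lit 0xdc000000000000000700001c0000500000000000000000000000000000) (nat_lit 7)
theorem c3438 : QOK q3438 := cut [q3436] ⟨c3436, trivial⟩ (nd (nat_lit 227) (nat_lit 0) (cs (lf (nat_lit 11) (nat_lit 204)) (nd (nat_lit 230) (nat_lit 0) (cs (lf (nat_lit 5) (nat_lit 205)) (rf (nat_lit 0)))))) q3438 (by decide +kernel)
def q3446 : Q := Q.p (nat_lit 0x200000800001c000000000000000000000000000000000000000000000000000) (nat_lit 0x140000700001c00000000010000060000180000000000000000000000000000000000000000000000) (nat_lit 7)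
theorem c3446 : QOK q3446 := cut [q3445] ⟨c3445, trivial⟩ (nd (nat_lit 209) (nat_lit 0) (cs (lf (nat_lit 5) (nat_lit 206)) (rf (nat_lit 0)))) q3446 (by decide +kernel)
def q3464 : Q := Q.p (nat_lit 0x1c000000000000000000000000000000000000000000000000000) (nat_lit 0x7f00063c0003f000000000000000000000000000000000000000000000) (nat_lit 8)
theorem c3464 : QOK q3464 := cut [q2450, q3211, q3341, q3353, q3463] ⟨c2450, c3211, c3341, c3353, c3463, trivial⟩ (nd (nat_lit 205) (nat_lit 0) (cs (rf (nat_lit 0)) (cs (rf (nat_lit 1)) (cs (rf (nat_lit 2)) (cs (rf (nat_lit 3)) (cs (nd (nat_lit 226) (nat_lit 0) (cs (lf (nat_lit 10) (nat_lit 204)) (nd (nat_lit 204) (nat_lit 0) (cs (lf (nat_lit 11) (nat_lit 203)) (nd (nat_lit 229) (nat_lit 0) (cs (lf (nat_lit 5) (nat_lit 204)) (nd (nat_lit 203) (nat_lit 0) (cs (lf (nat_lit 4) (nat_lit 203)) (nd (nat_lit 184) (nat_lit 0) (cs (nd (nat_lit 183) (nat_lit 0) (cs (lf (nat_lit 18) (nat_lit 183)) (lf (nat_lit 12) (nat_lit 180)))) (lf (nat_lit 17) (nat_lit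 181)))))))))))) (rf (nat_lit 4)))))))) q3464 (by decide +kernel)
def q3481 : Q := Q.p (nat_lit 0x2000004000018000040000000000000000000000000000000000000000000000) (nat_lit 0x200000c0000380000f8000180000a000000000080000200000000000000000000000000000000000000000) (nat_lit 9)
theorem c3481 : QOK q3481 := cut [q3480] ⟨c3480, trivial⟩ (nd (nat_lit 252) (nat_lit 0) (cs (lf (nat_lit 29) (nat_lit 186)) (rf (nat_lit 0)))) q3481 (by decide +kernel)
def q3498 : Q := Q.p (nat_lit 0x2000000000018000060000000000000000000000000000000000000000000000) (nat_lit 0x700001c00003c000000000800001f0000700001c00000000000000000000000000000) (nat_lit 8)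
theorem c3498 : QOK q3498 := cut [q90, q3126, q1663, q3129, q3493] ⟨c90, c3126, c1663, c3129, c3493, trivial⟩ (nd (nat_lit 229) (nat_lit 0) (cs (rf (nat_lit 0)) (cs (rf (nat_lit 1)) (nd (nat_lit 163) (nat_lit 0) (cs (rf (nat_lit 2)) (cs (rf (nat_lit 3)) (nd (nat_lit 164) (nat_lit 0) (cs (lf (nat_lit 36) (nat_lit 141)) (nd (nat_lit 228) (nat_lit 0) (cs (lf (nat_lit 41) (nat_lit 162)) (nd (nat_lit 226) (nat_lit 0) (cs (lf (nat_lit 13) (nat_lit 204)) (rf (nat_lit 4)))))))))))))) q3498 (by decide +kernel)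
def q3503 : Q := Q.p (nat_lit 0x1c000070000000000000000000000000000000000000000000000) (nat_lit 0x2000000000180000660000900002400000000000000000000000000000) (nat_lit 6)
theorem c3503 : QOK q3503 := cut [q3502] ⟨c3502, trivial⟩ (nd (nat_lit 187) (nat_lit 0) (cs (lf (nat_lit 6) (nat_lit 184)) (rf (nat_lit 0)))) q3503 (by decide +kernel)
def q3507 : Q := Q.p (nat_lit 0x1c000070000000000000000000000000000000000000000000000) (nat_lit 0x80000200001c00003000000000040000100000000000000000000000000000000000) (nat_lit 5)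
theorem c3507 : QOK q3507 := cut [q3506] ⟨c3506, trivial⟩ (nd (nat_lit 205) (nat_lit 0) (cs (lf (nat_lit 12) (nat_lit 182)) (rf (nat_lit 0)))) q3507 (by decide +kernel)
def q3514 : Q := Q.p (nat_lit 0x18000078000000000000000000000000000000000000000000000) (nat_lit 0x200000c00007000080000070000100000000000000000000000000000000000) (nat_lit 6)
theorem c3514 : QOK q3514 := cut [q3512] ⟨c3512, trivial⟩ (nd (nat_lit 160) (nat_lit 0) (cs (rf (nat_lit 0)) (lf (nat_lit 22) (nat_lit 160)))) q3514 (by decide +kernel)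
def q3534 : Q := Q.p (nat_lit 0x2000000000018000078000000000000000000000000000000000000000000000) (nat_lit 0x380001e00001c00007000080000080000000000000000000000000000000000000000) (nat_lit 8)
theorem c3534 : QOK q3534 := cut [q3532] ⟨c3532, trivial⟩ (nd (nat_lit 205) (nat_lit 0) (cs (lf (nat_lit 11) (nat_lit 182)) (nd (nat_lit 206) (nat_lit 0) (cs (lf (nat_lit 17) (nat_lit 183)) (rf (nat_lit 0)))))) q3534 (by decide +kernel)
def q3543 : Q := Q.p (nat_lit 0x18000070000000000000000000000000000000000000000000000) (nat_lit 0x200000c0000700008c000040000100000000000000000000000000000000000) (nat_lit 6)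
theorem c3543 : QOK q3543 := cut [q3512] ⟨c3512, trivial⟩ (nd (nat_lit 183) (nat_lit 0) (cs (lf (nat_lit 0) (nat_lit 182)) (rf (nat_lit 0)))) q3543 (by decide +kernel)
def q3546 : Q := Q.p (nat_lit 0x200000000001c000070000000000000000000000000000000000000000000000) (nat_lit 0x380001e00001c0000300000c0000b0000000000000000000000000000000000000000) (nat_lit 9)
theorem c3546 : QOK q3546 := cut [q3532] ⟨c3532, trivial⟩ (nd (nat_lit 183) (nat_lit 0) (cs (lf (nat_lit 0) (nat_lit 182)) (nd (nat_lit 205) (nat_lit 0) (cs (lf (nat_lit 12) (nat_lit 182)) (nd (nat_lit 160) (nat_lit 0) (cs (lf (nat_lit 22) (nat_lit 160)) (rf (nat_lit 0)))))))) q3546 (by decide +kernel)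
def q3572 : Q := Q.p (nat_lit 0x200000000000c000030000040000000000000000000000000000000000000000) (nat_lit 0x300001e00001800000000000000080000380000e00000000000000000000000000000) (nat_lit 8)
theorem c3572 : QOK q3572 := cut [q3571] ⟨c3571, trivial⟩ (nd (nat_lit 140) (nat_lit 0) (cs (lf (nat_lit 24) (nat_lit 118)) (rf (nat_lit 0)))) q3572 (by decide +kernel)
def q3728 : Q := Q.p (nat_lit 0x2000018000060000180000000000000000000000000000000000000000) (nat_lit 0x400001c0000000001c000e700039c0000000000000000000000000000000000) (nat_lit 10)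
theorem c3728 : QOK q3728 := cut [q3725] ⟨c3725, trivial⟩ (nd (nat_lit 228) (nat_lit 0) (cs (lf (nat_lit 41) (nat_lit 162)) (nd (nat_lit 226) (nat_lit 0) (cs (lf (nat_lit 13) (nat_lit 204)) (nd (nat_lit 162) (nat_lit 0) (cs (lf (nat_lit 47) (nat_lit 140)) (rf (nat_lit 0)))))))) q3728 (by decide +kernel)
def q3770 : Q := Q.p (nat_lit 0x3c00000000004000000000000000000000000000000000000000000000000000) (nat_lit 0x2000000000198000000000380000e0000280000000000000000000000000000000000) (nat_lit 7)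
theorem c3770 : QOK q3770 := cut [q3768] ⟨c3768, trivial⟩ (nd (nat_lit 228) (nat_lit 0) (cs (lf (nat_lit 23) (nat_lit 227)) (nd (nat_lit 231) (nat_lit 0) (cs (lf (nat_lit 17) (nat_lit 228)) (rf (nat_lit 0)))))) q3770 (by decide +kernel)
def q3793 : Q := Q.p (nat_lit 0x3000000000018000040000000000000000000000000000000000000000000000) (nat_lit 0x200000c0000380000780000e0001e0000000000a0000280000000000000000000000000000000000000000) (nat_lit 9)
theorem c3793 : QOK q3793 := cut [q1823, q3189, q3480] ⟨c1823, c3189, c3480, trivial⟩ (nd (nat_lit 230) (nat_lit 0) (cs (rf (nat_lit 0)) (cs (rf (nat_lit 1)) (rf (nat_lit 2))))) q3793 (by decide +kernel)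
def q3798 : Q := Q.p (nat_lit 0x2000000000010000040000000000000000000000000000000000000000000000) (nat_lit 0x80000e0000180000c0000080000a0000380000e00002800000000000000000000000000000) (nat_lit 6)
theorem c3798 : QOK q3798 := cut [q26, q438, q3797] ⟨c26, c438, c3797, trivial⟩ (nd (nat_lit 230) (nat_lit 0) (cs (rf (nat_lit 0)) (cs (rf (nat_lit 1)) (rf (nat_lit 2))))) q3798 (by decide +kernel)
def q3799 : Q := Q.p (nat_lit 0x2000000000018000040000000000000000000000000000000000000000000000) (nat_lit 0xc0000100000c0000000000a0000380000e00002800000000000000000000000000000) (nat_lit 6)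
theorem c3799 : QOK q3799 := cut [q26, q1824, q3797] ⟨c26, c1824, c3797, trivial⟩ (nd (nat_lit 230) (nat_lit 0) (cs (rf (nat_lit 0)) (cs (rf (nat_lit 1)) (rf (nat_lit 2))))) q3799 (by decide +kernel)
def q3813 : Q := Q.p (nat_lit 0x2000000000018000040000180000000000000000000000000000000000000000) (nat_lit 0x80000e0000000000ae0002700009e0000000000000000000000000000000000) (nat_lit 9)
theorem c3813 : QOK q3813 := cut [q2246, q3803] ⟨c2246, c3803, trivial⟩ (nd (nat_lit 162) (nat_lit 0) (cs (rf (nat_lit 0)) (cs (nd (nat_lit 230) (nat_lit 0) (cs (lf (nat_lit 28) (nat_lit 164)) (nd (nat_lit 229) (nat_lit 0) (cs (lf (nat_lit 41) (nat_lit 163)) (nd (nat_lit 143) (nat_lit 0) (cs (lf (nat_lit 34) (nat_lit 142)) (rf (nat_lit 1)))))))) (nd (nat_lit 230) (nat_lit 0) (cs (lf (nat_lit 28) (nat_lit 164)) (nd (nat_lit 229) (nat_lit 0) (cs (lf (nat_lit 41) (nat_lit 163)) (nd (nat_lit 140) (nat_lit 0) (cs (nd (nat_lit 165) (nat_lit 0) (cs (lf (nat_lit 35) (nat_lit 142)) (lf (nat_lit 23) (nat_lit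 139)))) (lf (nat_lit 44) (nat_lit 140))))))))))) q3813 (by decide +kernel)
def q3826 : Q := Q.p (nat_lit 0x1c000010000000000000000000000000000000000000000000000) (nat_lit 0x800003800060000188000040000100000000000000000000000000000000000) (nat_lit 6)
theorem c3826 : QOK q3826 := cut [q3323] ⟨c3323, trivial⟩ (nd (nat_lit 209) (nat_lit 0) (cs (lf (nat_lit 23) (nat_lit 183)) (rf (nat_lit 0)))) q3826 (by decide +kernel)
def q3849 : Q := Q.p (nat_lit 0x200000100001c000010000000000000000000000000000000000000000000000) (nat_lit 0x20000080001f00006c000000000000000e0000380000a00000000000000000000000000000) (nat_lit 6)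
theorem c3849 : QOK q3849 := cut [q1274, q3842] ⟨c1274, c3842, trivial⟩ (nd (nat_lit 229) (nat_lit 0) (cs (rf (nat_lit 0)) (nd (nat_lit 227) (nat_lit 0) (cs (lf (nat_lit 12) (nat_lit 204)) (nd (nat_lit 230) (nat_lit 0) (cs (nd (nat_lit 249) (nat_lit 0) (cs (rf (nat_lit 1)) (lf (nat_lit 11) (nat_lit 226)))) (lf (nat_lit 4) (nat_lit 227)))))))) q3849 (by decide +kernel)
def q3877 : Q := Q.p (nat_lit 0x1c000010000040000000000000000000000000000000000000000) (nat_lit 0x500000000002c0001b0001f80001e00002800000000000000000000000) (nat_lit 9)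
theorem c3877 : QOK q3877 := cut [q859, q2485, q3870, q3871] ⟨c859, c2485, c3870, c3871, trivial⟩ (nd (nat_lit 141) (nat_lit 0) (cs (rf (nat_lit 0)) (cs (rf (nat_lit 1)) (cs (rf (nat_lit 2)) (nd (nat_lit 163) (nat_lit 0) (cs (lf (nat_lit 30) (nat_lit 140)) (nd (nat_lit 185) (nat_lit 0) (cs (lf (nat_lit 29) (nat_lit 141)) (nd (nat_lit 182) (nat_lit 0) (cs (lf (nat_lit 1) (nat_lit 182)) (nd (nat_lit 118) (nat_lit 0) (cs (lf (nat_lit 25) (nat_lit 118)) (nd (nat_lit 142) (nat_lit 0) (cs (lf (nat_lit 35) (nat_lit 119)) (rf (nat_lit 3)))))))))))))))) q3877 (by decide +kernel)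
def q3883 : Q := Q.p (nat_lit 0x1c000000000000000000000000000000000000000000000000000) (nat_lit 0x1e000230001ee000000000000000000000000000000000000000000000) (nat_lit 6)
theorem c3883 : QOK q3883 := cut [q1506, q1520, q3211, q3881] ⟨c1506, c1520, c3211, c3881, trivial⟩ (nd (nat_lit 205) (nat_lit 0) (cs (rf (nat_lit 0)) (cs (rf (nat_lit 1)) (cs (rf (nat_lit 2)) (nd (nat_lit 182) (nat_lit 0) (cs (lf (nat_lit 22) (nat_lit 182)) (rf (nat_lit 3)))))))) q3883 (by decide +kernel)
def q3889 : Q := Q.p (nat_lit 0x1c000040000000000000000000000000000000000000000000000) (nat_lit 0x770000380008e000000000000000000000000000000000000000000000) (nat_lit 7)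
theorem c3889 : QOK q3889 := cut [q3341] ⟨c3341, trivial⟩ (nd (nat_lit 205) (nat_lit 0) (cs (lf (nat_lit 17) (nat_lit 183)) (rf (nat_lit 0)))) q3889 (by decide +kernel)
def q3904 : Q := Q.p (nat_lit 0x1c000040000000000000000000000000000000000000000000000) (nat_lit 0x20000080000770002380003e000370000580000600000000000000000000000000000) (nat_lit 10)
theorem c3904 : QOK q3904 := cut [q534, q3891, q1774, q3892, q3901, q3903] ⟨c534, c3891, c1774, c3892, c3901, c3903, trivial⟩ (nd (nat_lit 183) (nat_lit 0) (cs (rf (nat_lit 0)) (cs (rf (nat_lit 1)) (cs (nd (nat_lit 229) (nat_lit 0) (cs (rf (nat_lit 2)) (cs (nd (nat_lit 184) (nat_lit 0) (cs (lf (nat_lit 18) (nat_lit 183)) (nd (nat_lit 140) (nat_lit 0) (cs (lf (nat_lit 25) (nat_lit 140)) (nd (nat_lit 164) (nat_lit 0) (cs (lf (nat_lit 36) (nat_lit 141)) (nd (nat_lit 185) (nat_lit 0) (cs (lf (nat_lit 17) (nat_lit 161)) (nd (nat_lit 161) (nat_lit 0) (cs (lf (nat_lit 23) (nat_lit 160)) (nd (nat_lit 205) (nat_lit 0) (cs (lf (nat_lit 12)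 (nat_lit 182)) (rf (nat_lit 3)))))))))))))) (rf (nat_lit 4))))) (rf (nat_lit 5)))))) q3904 (by decide +kernel)
def q3948 : Q := Q.p (nat_lit 0x200000300001c000000000000000000000000000000000000000000000000000) (nat_lit 0x20000080001700004c00000000010000040000000000000000000000000000000000000000) (nat_lit 6)
theorem c3948 : QOK q3948 := cut [q3947] ⟨c3947, trivial⟩ (nd (nat_lit 227) (nat_lit 0) (cs (lf (nat_lit 12) (nat_lit 204)) (rf (nat_lit 0)))) q3948 (by decide +kernel)
def q3956 : Q := Q.p (nat_lit 0x3000002000018000040000000000000000000000000000000000000000000000) (nat_lit 0xb00000f00005c000000000b00002c0000000000000000000000000000000000000000) (nat_lit 9)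
theorem c3956 : QOK q3956 := cut [q3951] ⟨c3951, trivial⟩ (nd (nat_lit 251) (nat_lit 0) (cs (lf (nat_lit 30) (nat_lit 185)) (nd (nat_lit 230) (nat_lit 0) (cs (lf (nat_lit 29) (nat_lit 186)) (nd (nat_lit 165) (nat_lit 0) (cs (lf (nat_lit 34) (nat_lit 164)) (nd (nat_lit 227) (nat_lit 0) (cs (lf (nat_lit 1) (nat_lit 227)) (nd (nat_lit 185) (nat_lit 0) (cs (lf (nat_lit 47) (nat_lit 163)) (rf (nat_lit 0)))))))))))) q3956 (by decide +kernel)
def q3991 : Q := Q.p (nat_lit 0x3000004000010000000000000000000000000000000000000000000000000000) (nat_lit 0xa000008000020000000000c0000300000800000000000000000000000000000000000) (nat_lit 5)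
theorem c3991 : QOK q3991 := cut [q434] ⟨c434, trivial⟩ (nd (nat_lit 186) (nat_lit 0) (cs (lf (nat_lit 29) (nat_lit 186)) (rf (nat_lit 0)))) q3991 (by decide +kernel)
def q4006 : Q := Q.p (nat_lit 0x300000400001c000000000000000000000000000000000000000000000000000) (nat_lit 0x40000100000c00003c0002300002e000000000000000000000000000000000000000000000) (nat_lit 8)
theorem c4006 : QOK q4006 := cut [q1418, q4003] ⟨c1418, c4003, trivial⟩ (nd (nat_lit 227) (nat_lit 0) (cs (rf (nat_lit 0)) (cs (rf (nat_lit 1)) (nd (nat_lit 228) (nat_lit 0) (cs (lf (nat_lit 6) (nat_lit 205)) (lf (nat_lit 2) (nat_lit 227))))))) q4006 (by decide +kernel)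
def q4031 : Q := Q.p (nat_lit 0x300000400001c000000000000000000000000000000000000000000000000000) (nat_lit 0xb00003e0001b80000e0003be000200001a0000280000200000000000000000000000000000000000) (nat_lit 12)
theorem c4031 : QOK q4031 := cut [q4010, q4015, q4029, q4030] ⟨c4010, c4015, c4029, c4030, trivial⟩ (nd (nat_lit 228) (nat_lit 0) (cs (rf (nat_lit 0)) (cs (rf (nat_lit 1)) (cs (rf (nat_lit 2)) (rf (nat_lit 3)))))) q4031 (by decide +kernel)
def q4044 : Q := Q.p (nat_lit 0xc00003000004000010000000000000000000000000000000000000000000000000000) (nat_lit 0x1ce0007380000e00000000000000000000000000000000000000000000000000000000000000) (nat_lit 8)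
theorem c4044 : QOK q4044 := cut [q1312] ⟨c1312, trivial⟩ (nd (nat_lit 273) (nat_lit 0) (cs (lf (nat_lit 41) (nat_lit 207)) (nd (nat_lit 272) (nat_lit 0) (cs (lf (nat_lit 12) (nat_lit 249)) (nd (nat_lit 250) (nat_lit 0) (cs (lf (nat_lit 23) (nat_lit 249)) (nd (nat_lit 293) (nat_lit 0) (cs (lf (nat_lit 10) (nat_lit 271)) (rf (nat_lit 0)))))))))) q4044 (by decide +kernel)
def q4052 : Q := Q.p (nat_lit 0x600003000004000018000000000000000000000000000000000000000000000000000) (nat_lit 0x1000004000010000080000080000a000020000080000000000000000000000000000000000000000000000) (nat_lit 5)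
theorem c4052 : QOK q4052 := cut [q4051] ⟨c4051, trivial⟩ (nd (nat_lit 187) (nat_lit 0) (cs (lf (nat_lit 34) (nat_lit 186)) (rf (nat_lit 0)))) q4052 (by decide +kernel)
def q4069 : Q := Q.p (nat_lit 0x2000004000018000000000000000000000000000000000000000000000000000) (nat_lit 0x40000100000780001e0003a0000260000e0000380000a00000000000000000000000000000000000) (nat_lit 9)
theorem c4069 : QOK q4069 := cut [q1411, q4059, q25, q434, q3189, q3988, q3995, q4061] ⟨c1411, c4059, c25, c434, c3189, c3988, c3995, c4061, trivial⟩ (nd (nat_lit 252) (nat_lit 0) (cs (rf (nat_lit 0)) (cs (rf (nat_lit 1)) (cs (nd (nat_lit 186) (nat_lit 0) (cs (rf (nat_lit 2)) (cs (rf (nat_lit 3)) (rf (nat_lit 4))))) (nd (nat_lit 231) (nat_lit 0) (cs (rf (nat_lit 5)) (cs (rf (nat_lit 6)) (nd (nat_lit 186) (nat_lit 0) (cs (lf (nat_lit 24) (nat_lit 164)) (nd (nat_lit 251) (nat_lit 0) (cs (lf (nat_lit 41) (nat_lit 185)) (nd (nat_lit 249) (nat_lit 0) (cs (lf (nat_lit 13) (nat_lit 227)) (nd (nat_lit 187) (nat_lit 0)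 (cs (lf (nat_lit 35) (nat_lit 164)) (nd (nat_lit 274) (nat_lit 0) (cs (rf (nat_lit 7)) (lf (nat_lit 37) (nat_lit 186))))))))))))))))))) q4069 (by decide +kernel)
def q4086 : Q := Q.p (nat_lit 0x2000000000038000040000000000000000000000000000000000000000000000) (nat_lit 0xc0000100000c000006000180000600001800006000000000000000000000000000000) (nat_lit 8)
theorem c4086 : QOK q4086 := cut [q4073, q4083, q4084] ⟨c4073, c4083, c4084, trivial⟩ (nd (nat_lit 187) (nat_lit 0) (cs (rf (nat_lit 0)) (cs (rf (nat_lit 1)) (nd (nat_lit 205) (nat_lit 0) (cs (lf (nat_lit 13) (nat_lit 183)) (rf (nat_lit 2))))))) q4086 (by decide +kernel)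
def q4102 : Q := Q.p (nat_lit 0x2000000000038000040000000000000000000000000000000000000000000000) (nat_lit 0x800000000078000044000000000100000400000000000000000000000000000000000) (nat_lit 5)
theorem c4102 : QOK q4102 := cut [q4101] ⟨c4101, trivial⟩ (nd (nat_lit 231) (nat_lit 0) (cs (lf (nat_lit 42) (nat_lit 186)) (rf (nat_lit 0)))) q4102 (by decide +kernel)
def q4104 : Q := Q.p (nat_lit 0x2000000000038000040000000000000000000000000000000000000000000000) (nat_lit 0x80000000001c00000600001c000000000000000000000000000000000000000000000) (nat_lit 5)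
theorem c4104 : QOK q4104 := cut [q2935] ⟨c2935, trivial⟩ (nd (nat_lit 231) (nat_lit 0) (cs (lf (nat_lit 42) (nat_lit 186)) (rf (nat_lit 0)))) q4104 (by decide +kernel)
def q4109 : Q := Q.p (nat_lit 0x40000100000c000010000040000000000000000000000000000000000000000) (nat_lit 0x80000200000000000000020000020000380000e00002000000000000000000000000) (nat_lit 6)
theorem c4109 : QOK q4109 := cut [q4108] ⟨c4108, trivial⟩ (nd (nat_lit 249) (nat_lit 0) (cs (lf (nat_lit 41) (nat_lit 183)) (rf (nat_lit 0)))) q4109 (by decide +kernel)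
def q4183 : Q := Q.p (nat_lit 0x2000004000018000000000000000000000000000000000000000000000000000) (nat_lit 0xe00001800002000000000060000380000e00003800000000000000000000000000000) (nat_lit 8)
theorem c4183 : QOK q4183 := cut [q1411, q1448, q3990] ⟨c1411, c1448, c3990, trivial⟩ (nd (nat_lit 252) (nat_lit 0) (cs (rf (nat_lit 0)) (cs (nd (nat_lit 186) (nat_lit 0) (cs (lf (nat_lit 29) (nat_lit 186)) (rf (nat_lit 1)))) (cs (rf (nat_lit 2)) (nd (nat_lit 186) (nat_lit 0) (cs (lf (nat_lit 29) (nat_lit 186)) (nd (nat_lit 251) (nat_lit 0) (cs (lf (nat_lit 41) (nat_lit 185)) (nd (nat_lit 164) (nat_lit 0) (cs (lf (nat_lit 40) (nat_lit 163)) (nd (nat_lit 143) (nat_lit 0) (cs (lf (nat_lit 34) (nat_lit 142)) (nd (nat_lit 142) (nat_lit 0) (cs (lf (nat_lit 35) (nat_lit 120)) (nd (nat_lit 185) (nat_lit 0) (cs (lf (nat_lit 42) (nat_lit 185)) (lf (nat_lit 36) (nat_lit 119)))))))))))))))))) q4183 (by decide +kernel)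
def q4190 : Q := Q.p (nat_lit 0x80000300000900002c000000000000000000000000000000000000000000000000000) (nat_lit 0x280004e0007380000c00000000040000120000000000000000000000000000000000000000000000) (nat_lit 9)
theorem c4190 : QOK q4190 := cut [q4189] ⟨c4189, trivial⟩ (nd (nat_lit 188) (nat_lit 0) (cs (lf (nat_lit 34) (nat_lit 187)) (rf (nat_lit 0)))) q4190 (by decide +kernel)
def q4260 : Q := Q.p (nat_lit 0x2000018000060000000000000000000000000000000000000000000000) (nat_lit 0x300000c0000000002000001c000040000000000000000000000000000000000000000) (nat_lit 5)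
theorem c4260 : QOK q4260 := cut [q4259] ⟨c4259, trivial⟩ (nd (nat_lit 251) (nat_lit 0) (cs (lf (nat_lit 30) (nat_lit 185)) (rf (nat_lit 0)))) q4260 (by decide +kernel)
def q4272 : Q := Q.p (nat_lit 0x300000d00003c000000000000000000000000000000000000000000000000000) (nat_lit 0x280006e0007b80000c00000000000000020000000000000000000000000000000000000000000000) (nat_lit 9)
theorem c4272 : QOK q4272 := cut [q4189] ⟨c4189, trivial⟩ (nd (nat_lit 275) (nat_lit 0) (cs (lf (nat_lit 42) (nat_lit 208)) (rf (nat_lit 0)))) q4272 (by decide +kernel)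
def q4300 : Q := Q.p (nat_lit 0x2000008000020000080000000000000000000000000000000000000000000000) (nat_lit 0x400001000004000000000000000700001c00005000000000000000000000000000000) (nat_lit 6)
theorem c4300 : QOK q4300 := cut [q4299] ⟨c4299, trivial⟩ (nd (nat_lit 252) (nat_lit 0) (cs (lf (nat_lit 41) (nat_lit 186)) (rf (nat_lit 0)))) q4300 (by decide +kernel)
def q4335 : Q := Q.p (nat_lit 0x2000004000018000000000000000000000000000000000000000000000000000) (nat_lit 0x80000380000f800010000380000240000e0000080000200000000000000000000000000000000000) (nat_lit 9)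
theorem c4335 : QOK q4335 := cut [q4040, q4059, q4333] ⟨c4040, c4059, c4333, trivial⟩ (nd (nat_lit 252) (nat_lit 0) (cs (rf (nat_lit 0)) (cs (rf (nat_lit 1)) (rf (nat_lit 2))))) q4335 (by decide +kernel)
def q4356 : Q := Q.p (nat_lit 0x2c0000000001c000070000000000000000000000000000000000000000000000) (nat_lit 0x1dc0001200004000000000180000600000800002000000000000000000000000000000) (nat_lit 8)
theorem c4356 : QOK q4356 := cut [q3764] ⟨c3764, trivial⟩ (nd (nat_lit 187) (nat_lit 0) (cs (lf (nat_lit 6) (nat_lit 184)) (nd (nat_lit 165) (nat_lit 0) (cs (lf (nat_lit 17) (nat_lit 162)) (nd (nat_lit 121) (nat_lit 0) (cs (lf (nat_lit 37) (nat_lit 120)) (nd (nat_lit 252) (nat_lit 0) (cs (lf (nat_lit 31) (nat_lit 164)) (rf (nat_lit 0)))))))))) q4356 (by decide +kernel)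
def q4384 : Q := Q.p (nat_lit 0x20000080000f0000040000000000000000000000000000000000000000000000) (nat_lit 0xf000030c000300000500000400000000000000000000000000000000000) (nat_lit 7)
theorem c4384 : QOK q4384 := cut [q4381] ⟨c4381, trivial⟩ (nd (nat_lit 142) (nat_lit 0) (cs (lf (nat_lit 25) (nat_lit 142)) (nd (nat_lit 234) (nat_lit 0) (cs (lf (nat_lit 4) (nat_lit 208)) (nd (nat_lit 212) (nat_lit 0) (cs (lf (nat_lit 5) (nat_lit 209)) (rf (nat_lit 0)))))))) q4384 (by decide +kernel)
def q4436 : Q := Q.p (nat_lit 0x2000000000018000040000000000000000000000000000000000000000000000) (nat_lit 0x40000380000f80001e0003e000026000020000080000000000000000000000000000000000000000) (nat_lit 8)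
theorem c4436 : QOK q4436 := cut [q438, q4417, q1823, q3189, q4423] ⟨c438, c4417, c1823, c3189, c4423, trivial⟩ (nd (nat_lit 230) (nat_lit 0) (cs (rf (nat_lit 0)) (cs (rf (nat_lit 1)) (nd (nat_lit 252) (nat_lit 0) (cs (rf (nat_lit 2)) (cs (rf (nat_lit 3)) (rf (nat_lit 4)))))))) q4436 (by decide +kernel)
def q4536 : Q := Q.p (nat_lit 0x180000e0000180000000000000000000000000000000000000000) (nat_lit 0x6000000000260003c00003000000000000000000000000000000) (nat_lit 6)
theorem c4536 : QOK q4536 := cut [q4534] ⟨c4534, trivial⟩ (nd (nat_lit 205) (nat_lit 0) (cs (lf (nat_lit 13) (nat_lit 183)) (nd (nat_lit 162) (nat_lit 0) (cs (lf (nat_lit 0) (nat_lit 161)) (rf (nat_lit 0)))))) q4536 (by decide +kernel)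
def q4583 : Q := Q.p (nat_lit 0x10000078000060000000000000000000000000000000000000000000000) (nat_lit 0x4000380000ec0001800006000000000000000000000000000000) (nat_lit 7)
theorem c4583 : QOK q4583 := cut [q4580] ⟨c4580, trivial⟩ (nd (nat_lit 188) (nat_lit 0) (cs (lf (nat_lit 17) (nat_lit 185)) (nd (nat_lit 187) (nat_lit 0) (cs (lf (nat_lit 12) (nat_lit 184)) (nd (nat_lit 162) (nat_lit 0) (cs (lf (nat_lit 22) (nat_lit 162)) (rf (nat_lit 0)))))))) q4583 (by decide +kernel)
def q4613 : Q := Q.p (nat_lit 0x38000060000000000000000000000000000000000000000000000) (nat_lit 0x800007c00040000000000380000fc0003c00008000000000000000000000000) (nat_lit 8)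
theorem c4613 : QOK q4613 := cut [q524, q4607, q4505] ⟨c524, c4607, c4505, trivial⟩ (nd (nat_lit 164) (nat_lit 0) (cs (rf (nat_lit 0)) (cs (nd (nat_lit 229) (nat_lit 0) (cs (lf (nat_lit 30) (nat_lit 163)) (rf (nat_lit 1)))) (nd (nat_lit 142) (nat_lit 0) (cs (lf (nat_lit 36) (nat_lit 119)) (nd (nat_lit 121) (nat_lit 0) (cs (lf (nat_lit 34) (nat_lit 120)) (nd (nat_lit 141) (nat_lit 0) (cs (lf (nat_lit 47) (nat_lit 119)) (nd (nat_lit 163) (nat_lit 0) (cs (lf (nat_lit 42) (nat_lit 141)) (rf (nat_lit 2))))))))))))) q4613 (by decide +kernel)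
def q4641 : Q := Q.p (nat_lit 0x78000100000400000000000000000000000000000000000000000) (nat_lit 0x3000000000008000020000380000e000020000000000000000000000000) (nat_lit 6)
theorem c4641 : QOK q4641 := cut [q4639] ⟨c4639, trivial⟩ (nd (nat_lit 232) (nat_lit 0) (cs (lf (nat_lit 5) (nat_lit 207)) (nd (nat_lit 143) (nat_lit 0) (cs (lf (nat_lit 46) (nat_lit 143)) (rf (nat_lit 0)))))) q4641 (by decide +kernel)
def q4706 : Q := Q.p (nat_lit 0x100001c0000000000000000000000000000000000000000000000) (nat_lit 0x20000188000220001c00001000004000000000000000000000000000000) (nat_lit 6)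
theorem c4706 : QOK q4706 := cut [q4705] ⟨c4705, trivial⟩ (nd (nat_lit 189) (nat_lit 0) (cs (lf (nat_lit 11) (nat_lit 185)) (rf (nat_lit 0)))) q4706 (by decide +kernel)
def q4723 : Q := Q.p (nat_lit 0x20000000000100001c0000000000000000000000000000000000000000000000) (nat_lit 0x180000680001e0000638003e00001000004000000000000000000000000000000) (nat_lit 9)
theorem c4723 : QOK q4723 := cut [q2647, q4714] ⟨c2647, c4714, trivial⟩ (nd (nat_lit 166) (nat_lit 0) (cs (rf (nat_lit 0)) (cs (nd (nat_lit 209) (nat_lit 0) (cs (lf (nat_lit 31) (nat_lit 165)) (rf (nat_lit 1)))) (nd (nat_lit 209) (nat_lit 0) (cs (lf (nat_lit 31) (nat_lit 165)) (nd (nat_lit 122) (nat_lit 0) (cs (lf (nat_lit 37) (nat_lit 121)) (nd (nat_lit 189) (nat_lit 0) (cs (lf (nat_lit 6) (nat_lit 186)) (nd (nat_lit 211) (nat_lit 0) (cs (lf (nat_lit 5) (nat_lit 186)) (nd (nat_lit 185) (nat_lit 0) (cs (lf (nat_lit 19) (nat_lit 185)) (nd (nat_lit 184) (nat_lit 0) (cs (lf (nat_lit 0) (nat_lit 183)) (lf (nat_lit 16) (nat_lit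 162))))))))))))))))) q4723 (by decide +kernel)
def q4768 : Q := Q.p (nat_lit 0x10000070000000000000000000000000000000000000000000000) (nat_lit 0x80000b80008c000078000100000400000000000000000000000000000) (nat_lit 6)
theorem c4768 : QOK q4768 := cut [q3581, q4752, q4767] ⟨c3581, c4752, c4767, trivial⟩ (nd (nat_lit 183) (nat_lit 0) (cs (rf (nat_lit 0)) (cs (rf (nat_lit 1)) (rf (nat_lit 2))))) q4768 (by decide +kernel)
def q4788 : Q := Q.p (nat_lit 0x2000004000010000040000000000000000000000000000000000000000000000) (nat_lit 0x80000200000c0000100000800000c0003a0000280000000000000000000000000000000000000000) (nat_lit 6)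
theorem c4788 : QOK q4788 := cut [q423, q4333] ⟨c423, c4333, trivial⟩ (nd (nat_lit 252) (nat_lit 0) (cs (rf (nat_lit 0)) (rf (nat_lit 1)))) q4788 (by decide +kernel)
def q4867 : Q := Q.p (nat_lit 0x10000040000100000000000000000000000000000000000000000) (nat_lit 0x8000060000280000a0000200000c0000380000e000008000000000000000000) (nat_lit 7)
theorem c4867 : QOK q4867 := cut [q617, q2831, q2906, q4866] ⟨c617, c2831, c2906, c4866, trivial⟩ (nd (nat_lit 142) (nat_lit 0) (cs (rf (nat_lit 0)) (cs (rf (nat_lit 1)) (cs (rf (nat_lit 2)) (rf (nat_lit 3)))))) q4867 (by decide +kernel)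
def q4917 : Q := Q.p (nat_lit 0x10000040000100000400000000000000000000000000000000000) (nat_lit 0x200002e0003a000020000000000100000e0000380000a0000000000000) (nat_lit 10)
theorem c4917 : QOK q4917 := cut [q4912] ⟨c4912, trivial⟩ (nd (nat_lit 207) (nat_lit 0) (cs (lf (nat_lit 41) (nat_lit 141)) (nd (nat_lit 120) (nat_lit 0) (cs (lf (nat_lit 40) (nat_lit 119)) (nd (nat_lit 187) (nat_lit 0) (cs (lf (nat_lit 29) (nat_lit 120)) (nd (nat_lit 205) (nat_lit 0) (cs (lf (nat_lit 13) (nat_lit 183)) (nd (nat_lit 188) (nat_lit 0) (cs (lf (nat_lit 6) (nat_lit 185)) (rf (nat_lit 0)))))))))))) q4917 (by decide +kernel)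
def q5027 : Q := Q.p (nat_lit 0x2000018000040000080000000000000000000000000000000000000000) (nat_lit 0x40000000001b0000070000300000800000000000000000000000000000) (nat_lit 5)
theorem c5027 : QOK q5027 := cut [q1799, q3486] ⟨c1799, c3486, trivial⟩ (nd (nat_lit 185) (nat_lit 0) (cs (rf (nat_lit 0)) (rf (nat_lit 1)))) q5027 (by decide +kernel)
def q5032 : Q := Q.p (nat_lit 0x2000018000060000000000000000000000000000000000000000000000) (nat_lit 0x40000000001900000f0000700001800004000000000000000000000000) (nat_lit 5)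
theorem c5032 : QOK q5032 := cut [q1615, q3486] ⟨c1615, c3486, trivial⟩ (nd (nat_lit 163) (nat_lit 0) (cs (rf (nat_lit 0)) (rf (nat_lit 1)))) q5032 (by decide +kernel)
def q5041 : Q := Q.p (nat_lit 0x2000000000018000040000100000000000000000000000000000000000000000) (nat_lit 0xc000000000020000080000e00003800008000000000000000000000000) (nat_lit 6)
theorem c5041 : QOK q5041 := cut [q5040] ⟨c5040, trivial⟩ (nd (nat_lit 230) (nat_lit 0) (cs (lf (nat_lit 28) (nat_lit 164)) (rf (nat_lit 0)))) q5041 (by decide +kernel)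
def q5055 : Q := Q.p (nat_lit 0x2000004000018000000000000000000000000000000000000000000000000000) (nat_lit 0x20000180000e0000f80000f80001800008000000000060000080000200000000000000000000000000000000000) (nat_lit 11)
theorem c5055 : QOK q5055 := cut [q4059, q4333, q5054] ⟨c4059, c4333, c5054, trivial⟩ (nd (nat_lit 252) (nat_lit 0) (cs (rf (nat_lit 0)) (cs (rf (nat_lit 1)) (rf (nat_lit 2))))) q5055 (by decide +kernel)
def q5204 : Q := Q.p (nat_lit 0x2000006000018000000000000000000000000000000000000000000000000000) (nat_lit 0x220000980000700039c000070000fc0001f00007c0000000000000000000000000000000000) (nat_lit 13)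
theorem c5204 : QOK q5204 := cut [q5157, q5161, q1079, q5162, q5171, q5173, q5174, q5185, q4940] ⟨c5157, c5161, c1079, c5162, c5171, c5173, c5174, c5185, c4940, trivial⟩ (nd (nat_lit 228) (nat_lit 0) (cs (rf (nat_lit 0)) (cs (rf (nat_lit 1)) (cs (nd (nat_lit 206) (nat_lit 0) (cs (rf (nat_lit 2)) (cs (nd (nat_lit 231) (nat_lit 0) (cs (lf (nat_lit 18) (nat_lit 206)) (nd (nat_lit 164) (nat_lit 0) (cs (lf (nat_lit 25) (nat_lit 164)) (nd (nat_lit 275) (nat_lit 0) (cs (lf (nat_lit 42) (nat_lit 208)) (rf (nat_lit 3)))))))) (rf (nat_lit 4))))) (cs (nd (nat_lit 206) (nat_lit 0) (cs (rf (nat_lit 4)) (cs (rf (nat_lit 5)) (cs (nd (nat_lit 226) (nat_lit 0) (cs (lf (nat_lit 13) (nat_lit 204)) (nd (nat_lit 205) (nat_lit 0) (cs (lf (nat_lit 0) (nat_lit 204)) (nd (nat_lit 186) (nat_lit 0) (cs (lf (nat_lit 17) (nat_lit 183)) (nd (nat_lit 164) (nat_lit 0) (cs (lf (nat_lit 36) (nat_lit 141)) (nd (nat_lit 183) (nat_lit 0) (cs (lf (nat_lit 23) (nat_lit 182)) (nd (nat_lit 250) (nat_lit 0) (cs (lf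 (nat_lit 42) (nat_lit 183)) (rf (nat_lit 6)))))))))))))) (rf (nat_lit 7)))))) (cs (nd (nat_lit 227) (nat_lit 0) (cs (lf (nat_lit 12) (nat_lit 204)) (nd (nat_lit 205) (nat_lit 0) (cs (lf (nat_lit 23) (nat_lit 204)) (nd (nat_lit 248) (nat_lit 0) (cs (lf (nat_lit 10) (nat_lit 226)) (nd (nat_lit 206) (nat_lit 0) (cs (lf (nat_lit 5) (nat_lit 205)) (nd (nat_lit 186) (nat_lit 0) (cs (lf (nat_lit 17) (nat_lit 183)) (nd (nat_lit 142) (nat_lit 0) (cs (lf (nat_lit 37) (nat_lit 141)) (nd (nat_lit 183) (nat_lit 0) (cs (lf (nat_lit 23) (nat_lit 182)) (nd (nat_lit 161) (nat_lit 0) (cs (lf (nat_lit 24) (nat_lit 139)) (nd (nat_lit 162) (nat_lit 0) (cs (lf (nat_lit 35) (nat_lit 139)) (nd (nat_lit 160) (nat_lit 0) (cs (lf (nat_lit 47) (nat_lit 138)) (nd (nat_lit 163) (nat_lit 0) (cs (lf (nat_lit 4) (nat_lit 160)) (lf (nat_lit 16) (nat_lit 138)))))))))))))))))))))))) (nd (nat_lit 227) (nat_lit 0) (cs (lf (nat_lit 12) (nat_lit 204)) (nd (nat_lit 205) (nat_lit 0) (cs (lf (nat_lit 23) (nat_lit 204))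 (nd (nat_lit 206) (nat_lit 0) (cs (lf (nat_lit 5) (nat_lit 205)) (nd (nat_lit 186) (nat_lit 0) (cs (lf (nat_lit 17) (nat_lit 183)) (nd (nat_lit 142) (nat_lit 0) (cs (lf (nat_lit 37) (nat_lit 141)) (rf (nat_lit 8)))))))))))))))))) q5204 (by decide +kernel)
def q5234 : Q := Q.p (nat_lit 0x6000018000000000000000000000000000000000000000000000000000) (nat_lit 0x3e0000f80000f80039c0000700003c0000fc0001c0000000000000000000000000000000000) (nat_lit 13)
theorem c5234 : QOK q5234 := cut [q5157, q5161, q1073, q1079, q5205, q5208, q5173, q5185, q5226, q4940] ⟨c5157, c5161, c1073, c1079, c5205, c5208, c5173, c5185, c5226, c4940, trivial⟩ (nd (nat_lit 228) (nat_lit 0) (cs (rf (nat_lit 0)) (cs (rf (nat_lit 1)) (cs (nd (nat_lit 206) (nat_lit 0) (cs (rf (nat_lit 2)) (cs (rf (nat_lit 3)) (rf (nat_lit 4))))) (cs (nd (nat_lit 227) (nat_lit 0) (cs (lf (nat_lit 12) (nat_lit 204)) (nd (nat_lit 248) (nat_lit 0) (cs (lf (nat_lit 10) (nat_lit 226)) (nd (nat_lit 205) (nat_lit 0) (cs (lf (nat_lit 23)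 (nat_lit 204)) (nd (nat_lit 206) (nat_lit 0) (cs (lf (nat_lit 5) (nat_lit 205)) (nd (nat_lit 183) (nat_lit 0) (cs (lf (nat_lit 23) (nat_lit 182)) (nd (nat_lit 161) (nat_lit 0) (cs (lf (nat_lit 24) (nat_lit 139)) (nd (nat_lit 160) (nat_lit 0) (cs (lf (nat_lit 47) (nat_lit 138)) (nd (nat_lit 162) (nat_lit 0) (cs (lf (nat_lit 35) (nat_lit 139)) (nd (nat_lit 184) (nat_lit 0) (cs (lf (nat_lit 29) (nat_lit 162)) (rf (nat_lit 5)))))))))))))))))))) (cs (nd (nat_lit 206) (nat_lit 0) (cs (rf (nat_lit 6)) (cs (rf (nat_lit 7)) (cs (rf (nat_lit 4)) (nd (nat_lit 205) (nat_lit 0) (cs (lf (nat_lit 0) (nat_lit 204)) (nd (nat_lit 227) (nat_lit 0) (cs (lf (nat_lit 12) (nat_lit 204)) (nd (nat_lit 182) (nat_lit 0) (cs (lf (nat_lit 22) (nat_lit 182)) (rf (nat_lit 8)))))))))))) (nd (nat_lit 227) (nat_lit 0) (cs (lf (nat_lit 12) (nat_lit 204)) (nd (nat_lit 205) (nat_lit 0) (cs (lf (nat_lit 23) (nat_lit 204)) (nd (nat_lit 206) (nat_lit 0) (cs (lf (nat_lit 5) (nat_lit 205)) (rf (nat_lit 9))))))))))))))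 q5234 (by decide +kernel)
def q5286 : Q := Q.p (nat_lit 0x2000006000018000000000000000000000000000000000000000000000000000) (nat_lit 0x200000cc0001b00019c0000700003e0001f80007c0000700000000000000000000000000000) (nat_lit 12)
theorem c5286 : QOK q5286 := cut [q735, q5130, q5255, q5260, q3435, q5267, q5269, q5275, q5282] ⟨c735, c5130, c5255, c5260, c3435, c5267, c5269, c5275, c5282, trivial⟩ (nd (nat_lit 185) (nat_lit 0) (cs (rf (nat_lit 0)) (cs (rf (nat_lit 1)) (nd (nat_lit 205) (nat_lit 0) (cs (nd (nat_lit 206) (nat_lit 0) (cs (lf (nat_lit 5) (nat_lit 205)) (lf (nat_lit 0) (nat_lit 204)))) (cs (nd (nat_lit 227) (nat_lit 0) (cs (nd (nat_lit 228) (nat_lit 0) (cs (lf (nat_lit 12) (nat_lit 204)) (lf (nat_lit 23) (nat_lit 204)))) (cs (nd (nat_lit 183) (nat_lit 0) (cs (nd (nat_lit 182) (nat_lit 0) (cs (rf (nat_lit 2)) (lf (nat_lit 2) (nat_lit 182)))) (cs (nd (nat_lit 161) (nat_lit 0) (cs (nd (nat_lit 252) (nat_lit 0) (cs (lf (nat_lit 42) (nat_lit 185)) (rf (nat_lit 3)))) (nd (nat_lit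 162) (nat_lit 0) (cs (lf (nat_lit 35) (nat_lit 139)) (nd (nat_lit 184) (nat_lit 0) (cs (lf (nat_lit 42) (nat_lit 162)) (lf (nat_lit 30) (nat_lit 161)))))))) (cs (nd (nat_lit 161) (nat_lit 0) (cs (rf (nat_lit 4)) (cs (nd (nat_lit 252) (nat_lit 0) (cs (lf (nat_lit 42) (nat_lit 185)) (rf (nat_lit 5)))) (nd (nat_lit 248) (nat_lit 0) (cs (lf (nat_lit 40) (nat_lit 160)) (nd (nat_lit 252) (nat_lit 0) (cs (lf (nat_lit 42) (nat_lit 185)) (nd (nat_lit 249) (nat_lit 0) (cs (lf (nat_lit 41) (nat_lit 182)) (rf (nat_lit 6))))))))))) (nd (nat_lit 252) (nat_lit 0) (cs (lf (nat_lit 42) (nat_lit 185)) (nd (nat_lit 184) (nat_lit 0) (cs (lf (nat_lit 0) (nat_lit 182)) (nd (nat_lit 162) (nat_lit 0) (cs (lf (nat_lit 42) (nat_lit 162)) (rf (nat_lit 7)))))))))))) (nd (nat_lit 252) (nat_lit 0) (cs (lf (nat_lit 42) (nat_lit 185)) (lf (nat_lit 1) (nat_lit 227))))))) (nd (nat_lit 252) (nat_lit 0) (cs (lf (nat_lit 42) (nat_lit 185)) (nd (nat_lit 206) (nat_lit 0) (cs (lf (nat_lit 5) (nat_lit 205)) (rf (nat_lit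 8)))))))))))) q5286 (by decide +kernel)
def q5354 : Q := Q.p (nat_lit 0x2000004000018000000000000000000000000000000000000000000000000000) (nat_lit 0x80000200000e00001800002000000000060000180000200000000000000000000000000000000000) (nat_lit 6)
theorem c5354 : QOK q5354 := cut [q1409, q1411, q5353] ⟨c1409, c1411, c5353, trivial⟩ (nd (nat_lit 252) (nat_lit 0) (cs (rf (nat_lit 0)) (cs (rf (nat_lit 1)) (rf (nat_lit 2))))) q5354 (by decide +kernel)
def q5355 : Q := Q.p (nat_lit 0x2000004000018000040000000000000000000000000000000000000000000000) (nat_lit 0x8000000000020000180000e00003800008000000000000000000000000) (nat_lit 6)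
theorem c5355 : QOK q5355 := cut [q5040] ⟨c5040, trivial⟩ (nd (nat_lit 164) (nat_lit 0) (cs (lf (nat_lit 28) (nat_lit 164)) (rf (nat_lit 0)))) q5355 (by decide +kernel)
def q5373 : Q := Q.p (nat_lit 0x2000000000038000000000000000000000000000000000000000000000000000) (nat_lit 0x8000000000380000440003b8000400001000000000000000000000000000000000000) (nat_lit 6)
theorem c5373 : QOK q5373 := cut [q98, q690, q4294] ⟨c98, c690, c4294, trivial⟩ (nd (nat_lit 210) (nat_lit 0) (cs (rf (nat_lit 0)) (cs (rf (nat_lit 1)) (rf (nat_lit 2))))) q5373 (by decide +kernel)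
def q5432 : Q := Q.p (nat_lit 0x800002000018000000000000000000000000000000000000000000000000000) (nat_lit 0x40000100000400006400007c0001c0000400000000000000000000000000000000000) (nat_lit 5)
theorem c5432 : QOK q5432 := cut [q5429, q5431] ⟨c5429, c5431, trivial⟩ (nd (nat_lit 185) (nat_lit 0) (cs (rf (nat_lit 0)) (rf (nat_lit 1)))) q5432 (by decide +kernel)
def q5445 : Q := Q.p (nat_lit 0x200002800002000018000000000000000000000000000000000000000000000000000) (nat_lit 0x3c0001d80001600004000020000080000000000000000000000000000000000000000000000) (nat_lit 8)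
theorem c5445 : QOK q5445 := cut [q5441] ⟨c5441, trivial⟩ (nd (nat_lit 274) (nat_lit 0) (cs (lf (nat_lit 29) (nat_lit 207)) (nd (nat_lit 272) (nat_lit 0) (cs (lf (nat_lit 41) (nat_lit 206)) (nd (nat_lit 230) (nat_lit 0) (cs (lf (nat_lit 30) (nat_lit 207)) (nd (nat_lit 252) (nat_lit 0) (cs (lf (nat_lit 12) (nat_lit 249)) (rf (nat_lit 0)))))))))) q5445 (by decide +kernel)
def q5473 : Q := Q.p (nat_lit 0x200002800002000008000000000000000000000000000000000000000000000000000) (nat_lit 0x1780005c0001380000000004000010000000000000000000000000000000000000000000000) (nat_lit 8)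
theorem c5473 : QOK q5473 := cut [q5470] ⟨c5470, trivial⟩ (nd (nat_lit 274) (nat_lit 0) (cs (lf (nat_lit 29) (nat_lit 207)) (nd (nat_lit 272) (nat_lit 0) (cs (lf (nat_lit 41) (nat_lit 206)) (nd (nat_lit 184) (nat_lit 0) (cs (lf (nat_lit 46) (nat_lit 184)) (rf (nat_lit 0)))))))) q5473 (by decide +kernel)
def q5476 : Q := Q.p (nat_lit 0x3800002000008000000000000000000000000000000000000000000000000000) (nat_lit 0x40001dc0000600001c00000000000000000000000000000000000000000000000000000000) (nat_lit 5)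
theorem c5476 : QOK q5476 := cut [q3764, q3765, q3782] ⟨c3764, c3765, c3782, trivial⟩ (nd (nat_lit 250) (nat_lit 0) (cs (rf (nat_lit 0)) (cs (rf (nat_lit 1)) (rf (nat_lit 2))))) q5476 (by decide +kernel)
def q5510 : Q := Q.p (nat_lit 0x800002000018000060000000000000000000000000000000000000000000000) (nat_lit 0x10000060001900000c0000300000800000000000000000000000000000) (nat_lit 6)
theorem c5510 : QOK q5510 := cut [q5508] ⟨c5508, trivial⟩ (nd (nat_lit 162) (nat_lit 0) (cs (lf (nat_lit 46) (nat_lit 162)) (nd (nat_lit 163) (nat_lit 0) (cs (lf (nat_lit 47) (nat_lit 140)) (rf (nat_lit 0)))))) q5510 (by decide +kernel)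
def q5553 : Q := Q.p (nat_lit 0x180000600001c0000000000000000000000000000000000000000) (nat_lit 0x80002300001c0000300001c0000400000000000000000000000000000) (nat_lit 7)
theorem c5553 : QOK q5553 := cut [q5552] ⟨c5552, trivial⟩ (nd (nat_lit 161) (nat_lit 0) (cs (lf (nat_lit 0) (nat_lit 160)) (rf (nat_lit 0)))) q5553 (by decide +kernel)
def q5698 : Q := Q.p (nat_lit 0x2000000000078000040000000000000000000000000000000000000000000000) (nat_lit 0x1f00001c0003b000000000030000000000000000000000000000000000000000000000) (nat_lit 8)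
theorem c5698 : QOK q5698 := cut [q5695] ⟨c5695, trivial⟩ (nd (nat_lit 229) (nat_lit 0) (cs (lf (nat_lit 11) (nat_lit 206)) (nd (nat_lit 251) (nat_lit 0) (cs (lf (nat_lit 30) (nat_lit 185)) (nd (nat_lit 275) (nat_lit 0) (cs (lf (nat_lit 44) (nat_lit 186)) (rf (nat_lit 0)))))))) q5698 (by decide +kernel)
def q5718 : Q := Q.p (nat_lit 0x38000060000000000e00000000000000000000000000000000000) (nat_lit 0x300000c0000080000670000180000700000000000000000000000000000) (nat_lit 8)
theorem c5718 : QOK q5718 := cut [q5714] ⟨c5714, trivial⟩ (nd (nat_lit 210) (nat_lit 0) (cs (lf (nat_lit 18) (nat_lit 185)) (nd (nat_lit 232) (nat_lit 0) (cs (lf (nat_lit 5) (nat_lit 207)) (nd (nat_lit 165) (nat_lit 0) (cs (rf (nat_lit 0)) (lf (nat_lit 26) (nat_lit 143)))))))) q5718 (by decide +kernel)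
def q5818 : Q := Q.p (nat_lit 0x18000060000080000000000000000000000000000000000000000) (nat_lit 0x2000000000000000140003e00003800000000000000000000000000000) (nat_lit 6)
theorem c5818 : QOK q5818 := cut [q1929] ⟨c1929, trivial⟩ (nd (nat_lit 141) (nat_lit 0) (cs (lf (nat_lit 24) (nat_lit 119)) (rf (nat_lit 0)))) q5818 (by decide +kernel)
def q5837 : Q := Q.p (nat_lit 0x38000060000180000000000000000000000000000000000000000) (nat_lit 0x300000c0000000000260003c00003000000000000000000000000000000) (nat_lit 7)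
theorem c5837 : QOK q5837 := cut [q5835] ⟨c5835, trivial⟩ (nd (nat_lit 210) (nat_lit 0) (cs (lf (nat_lit 18) (nat_lit 185)) (nd (nat_lit 232) (nat_lit 0) (cs (lf (nat_lit 5) (nat_lit 207)) (rf (nat_lit 0)))))) q5837 (by decide +kernel)
def q5859 : Q := Q.p (nat_lit 0x70000040000000000000000000000000000000000000000) (nat_lit 0x180000f800080000038000380000e00002800000000000000000000000) (nat_lit 6)
theorem c5859 : QOK q5859 := cut [q2312, q5856, q2497, q5857] ⟨c2312, c5856, c2497, c5857, trivial⟩ (nd (nat_lit 206) (nat_lit 0) (cs (rf (nat_lit 0)) (cs (rf (nat_lit 1)) (nd (nat_lit 140) (nat_lit 0) (cs (rf (nat_lit 2)) (rf (nat_lit 3))))))) q5859 (by decide +kernel)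
def q5883 : Q := Q.p (nat_lit 0x2000001000004000010000040000000000000000000000000000000000000000) (nat_lit 0x20000380001e00002000000000000000000000000000000000000000000000000000000000) (nat_lit 5)
theorem c5883 : QOK q5883 := cut [q5882] ⟨c5882, trivial⟩ (nd (nat_lit 251) (nat_lit 0) (cs (lf (nat_lit 28) (nat_lit 162)) (rf (nat_lit 0)))) q5883 (by decide +kernel)
def q5914 : Q := Q.p (nat_lit 0x200000000001c000040000000000000000000000000000000000000000000000) (nat_lit 0x800000400019800060000038000080000200000000000000000000000000000000000) (nat_lit 6)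
theorem c5914 : QOK q5914 := cut [q1135, q3119] ⟨c1135, c3119, trivial⟩ (nd (nat_lit 209) (nat_lit 0) (cs (rf (nat_lit 0)) (rf (nat_lit 1)))) q5914 (by decide +kernel)
def q5949 : Q := Q.p (nat_lit 0x3000004000018000070000000000000000000000000000000000000000000000) (nat_lit 0x300000f00003c00000000000000040000000000000000000000000000000000000000) (nat_lit 6)
theorem c5949 : QOK q5949 := cut [q5947] ⟨c5947, trivial⟩ (nd (nat_lit 251) (nat_lit 0) (cs (lf (nat_lit 41) (nat_lit 185)) (nd (nat_lit 229) (nat_lit 0) (cs (lf (nat_lit 47) (nat_lit 162)) (rf (nat_lit 0)))))) q5949 (by decide +kernel)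
def q5999 : Q := Q.p (nat_lit 0x18000060000000000000000000000000000000000000000000000) (nat_lit 0x600001a0000ec0000700009c0000f0001f00001c00005000000000000000000000000) (nat_lit 11)
theorem c5999 : QOK q5999 := cut [q1615, q1939, q3743, q282, q5989] ⟨c1615, c1939, c3743, c282, c5989, trivial⟩ (nd (nat_lit 163) (nat_lit 0) (cs (rf (nat_lit 0)) (cs (rf (nat_lit 1)) (nd (nat_lit 162) (nat_lit 0) (cs (rf (nat_lit 2)) (cs (nd (nat_lit 252) (nat_lit 0) (cs (lf (nat_lit 43) (nat_lit 163)) (nd (nat_lit 160) (nat_lit 0) (cs (lf (nat_lit 1) (nat_lit 160)) (nd (nat_lit 229) (nat_lit 0) (cs (rf (nat_lit 3)) (lf (nat_lit 47) (nat_lit 140)))))))) (cs (nd (nat_lit 230) (nat_lit 0) (cs (lf (nat_lit 42) (nat_lit 163)) (nd (nat_lit 161) (nat_lit 0) (cs (lf (nat_lit 0) (nat_lit 160)) (nd (nat_lit 184) (nat_lit 0) (cs (lf (nat_lit 18) (nat_lit 161)) (nd (nat_lit 118) (nat_lit 0) (cs (lf (nat_lit 25) (nat_lit 118)) (rf (nat_lit 4)))))))))) (nd (nat_lit 230) (nat_lit 0) (cs (lf (nat_lit 42) (nat_lit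 163)) (nd (nat_lit 161) (nat_lit 0) (cs (lf (nat_lit 0) (nat_lit 160)) (nd (nat_lit 184) (nat_lit 0) (cs (lf (nat_lit 18) (nat_lit 161)) (nd (nat_lit 229) (nat_lit 0) (cs (lf (nat_lit 42) (nat_lit 162)) (rf (nat_lit 4))))))))))))))))) q5999 (by decide +kernel)
def q6030 : Q := Q.p (nat_lit 0x2000000000018000060000000000000000000000000000000000000000000000) (nat_lit 0xf00001f0000fc00007000080000280000200000800000000000000000000000000000) (nat_lit 9)
theorem c6030 : QOK q6030 := cut [q3126, q5518, q5952, q6024, q5947] ⟨c3126, c5518, c5952, c6024, c5947, trivial⟩ (nd (nat_lit 229) (nat_lit 0) (cs (rf (nat_lit 0)) (cs (rf (nat_lit 1)) (cs (nd (nat_lit 230) (nat_lit 0) (cs (rf (nat_lit 2)) (nd (nat_lit 163) (nat_lit 0) (cs (lf (nat_lit 24) (nat_lit 141)) (nd (nat_lit 228) (nat_lit 0) (cs (lf (nat_lit 41) (nat_lit 162)) (nd (nat_lit 227) (nat_lit 0) (cs (lf (nat_lit 12) (nat_lit 204)) (nd (nat_lit 205) (nat_lit 0) (cs (lf (nat_lit 23) (nat_lit 204)) (nd (nat_lit 206) (nat_lit 0)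 (cs (lf (nat_lit 5) (nat_lit 205)) (lf (nat_lit 17) (nat_lit 183)))))))))))))) (cs (nd (nat_lit 251) (nat_lit 0) (cs (lf (nat_lit 30) (nat_lit 185)) (rf (nat_lit 3)))) (nd (nat_lit 251) (nat_lit 0) (cs (lf (nat_lit 30) (nat_lit 185)) (nd (nat_lit 252) (nat_lit 0) (cs (lf (nat_lit 29) (nat_lit 185)) (nd (nat_lit 230) (nat_lit 0) (cs (lf (nat_lit 29) (nat_lit 186)) (nd (nat_lit 165) (nat_lit 0) (cs (lf (nat_lit 34) (nat_lit 164)) (rf (nat_lit 4))))))))))))))) q6030 (by decide +kernel)
def q6059 : Q := Q.p (nat_lit 0x3c000040000000000000000000000000000000000000000000000) (nat_lit 0x738001c0000e80000000000000000000000000000000000000000000000) (nat_lit 7)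
theorem c6059 : QOK q6059 := cut [q2456] ⟨c2456, trivial⟩ (nd (nat_lit 228) (nat_lit 0) (cs (lf (nat_lit 11) (nat_lit 205)) (nd (nat_lit 210) (nat_lit 0) (cs (lf (nat_lit 10) (nat_lit 206)) (rf (nat_lit 0)))))) q6059 (by decide +kernel)
def q6126 : Q := Q.p (nat_lit 0x50000380000000000000000000000000000000000000000) (nat_lit 0xea0001c00007000000000000000000000000000000000000) (nat_lit 6)
theorem c6126 : QOK q6126 := cut [q6125] ⟨c6125, trivial⟩ (nd (nat_lit 166) (nat_lit 0) (cs (lf (nat_lit 10) (nat_lit 162)) (rf (nat_lit 0)))) q6126 (by decide +kernel)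
def q6169 : Q := Q.p (nat_lit 0x10000040000100000000000000000000000000000000000000000) (nat_lit 0xa0000280000a0000ee0003f8000f80000a000000000000000000000000) (nat_lit 11)
theorem c6169 : QOK q6169 := cut [q558, q617, q619, q6148, q6151, q6157, q6166] ⟨c558, c617, c619, c6148, c6151, c6157, c6166, trivial⟩ (nd (nat_lit 142) (nat_lit 0) (cs (rf (nat_lit 0)) (cs (rf (nat_lit 1)) (cs (rf (nat_lit 2)) (nd (nat_lit 143) (nat_lit 0) (cs (lf (nat_lit 35) (nat_lit 120)) (nd (nat_lit 162) (nat_lit 0) (cs (rf (nat_lit 3)) (cs (nd (nat_lit 207) (nat_lit 0) (cs (lf (nat_lit 41) (nat_lit 141)) (nd (nat_lit 209) (nat_lit 0) (cs (lf (nat_lit 29) (nat_lit 142)) (rf (nat_lit 4)))))) (cs (nd (nat_lit 207) (nat_lit 0) (cs (lf (nat_lit 41) (nat_lit 141)) (nd (nat_lit 209) (nat_lit 0) (cs (lf (nat_lit 29) (nat_lit 142)) (nd (nat_lit 141) (nat_lit 0) (cs (lf (nat_lit 47) (nat_lit 119)) (nd (nat_lit 144) (nat_lit 0) (cs (rf (nat_lit 5)) (lf (nat_lit 10) (nat_lit 140)))))))))) (rf (nat_lit 6))))))))))))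 q6169 (by decide +kernel)
def q6182 : Q := Q.p (nat_lit 0x18000020000080000000000000000000000000000000000000000) (nat_lit 0x1c00007c00020000018000740000500000000000000000000000000000000000) (nat_lit 6)
theorem c6182 : QOK q6182 := cut [q6173, q6181] ⟨c6173, c6181, trivial⟩ (nd (nat_lit 229) (nat_lit 0) (cs (rf (nat_lit 0)) (rf (nat_lit 1)))) q6182 (by decide +kernel)
def q6307 : Q := Q.p (nat_lit 0x2000018000020000080000000000000000000000000000000000000000) (nat_lit 0x400001c000000001df000778003df0000000000000000000000000000000000) (nat_lit 12)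
theorem c6307 : QOK q6307 := cut [q6285, q6290, q6297, q6304] ⟨c6285, c6290, c6297, c6304, trivial⟩ (nd (nat_lit 162) (nat_lit 0) (cs (lf (nat_lit 47) (nat_lit 140)) (nd (nat_lit 161) (nat_lit 0) (cs (rf (nat_lit 0)) (cs (nd (nat_lit 164) (nat_lit 0) (cs (lf (nat_lit 35) (nat_lit 141)) (nd (nat_lit 228) (nat_lit 0) (cs (lf (nat_lit 41) (nat_lit 162)) (nd (nat_lit 226) (nat_lit 0) (cs (lf (nat_lit 13) (nat_lit 204)) (nd (nat_lit 138) (nat_lit 0) (cs (lf (nat_lit 22) (nat_lit 138)) (nd (nat_lit 182) (nat_lit 0) (cs (lf (nat_lit 10) (nat_lit 160)) (rf (nat_lit 1)))))))))))) (cs (nd (nat_lit 164) (nat_lit 0) (cs (lf (nat_lit 35) (nat_lit 141)) (nd (nat_lit 228) (nat_lit 0) (cs (lf (nat_lit 41) (nat_lit 162)) (nd (nat_lit 138) (nat_lit 0) (cs (lf (nat_lit 22) (nat_lit 138)) (nd (nat_lit 226) (nat_lit 0) (cs (lf (nat_lit 13) (nat_lit 204)) (rf (nat_lit 2)))))))))) (nd (nat_lit 142) (nat_lit 0) (cs (lf (nat_lit 34) (nat_lit 141)) (rf (nat_lit 3)))))))))) q6307 (by decide +kernel)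
def q6340 : Q := Q.p (nat_lit 0x180000200000c0000000000000000000000000000000000000000) (nat_lit 0x300000f00003c000230001df0003380002f0000a00000000000000000000000000000) (nat_lit 12)
theorem c6340 : QOK q6340 := cut [q6285, q6304, q3484, q3749, q6184, q6312, q6326, q6330, q6336, q6339] ⟨c6285, c6304, c3484, c3749, c6184, c6312, c6326, c6330, c6336, c6339, trivial⟩ (nd (nat_lit 161) (nat_lit 0) (cs (rf (nat_lit 0)) (cs (rf (nat_lit 1)) (cs (nd (nat_lit 186) (nat_lit 0) (cs (rf (nat_lit 2)) (cs (nd (nat_lit 119) (nat_lit 0) (cs (lf (nat_lit 25) (nat_lit 119)) (nd (nat_lit 229) (nat_lit 0) (cs (rf (nat_lit 3)) (cs (rf (nat_lit 4)) (nd (nat_lit 183) (nat_lit 0) (cs (nd (nat_lit 228) (nat_lit 0) (cs (lf (nat_lit 41) (nat_lit 162)) (nd (nat_lit 226) (nat_lit 0) (cs (lf (nat_lit 13) (nat_lit 204)) (nd (nat_lit 182) (nat_lit 0) (cs (lf (nat_lit 6) (nat_lit 160)) (nd (nat_lit 180) (nat_lit 0) (cs (nd (nat_lit 204) (nat_lit 0) (cs (rf (nat_lit 5)) (lf (nat_lit 30) (nat_lit 160)))) (lf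 (nat_lit 13) (nat_lit 158)))))))))) (cs (nd (nat_lit 184) (nat_lit 0) (cs (lf (nat_lit 5) (nat_lit 183)) (nd (nat_lit 205) (nat_lit 0) (cs (lf (nat_lit 11) (nat_lit 182)) (nd (nat_lit 164) (nat_lit 0) (cs (lf (nat_lit 6) (nat_lit 161)) (nd (nat_lit 138) (nat_lit 0) (cs (lf (nat_lit 22) (nat_lit 138)) (nd (nat_lit 228) (nat_lit 0) (cs (lf (nat_lit 41) (nat_lit 162)) (nd (nat_lit 227) (nat_lit 0) (cs (lf (nat_lit 12) (nat_lit 204)) (lf (nat_lit 30) (nat_lit 161)))))))))))))) (rf (nat_lit 6)))))))))) (rf (nat_lit 7))))) (cs (rf (nat_lit 8)) (rf (nat_lit 9))))))) q6340 (by decide +kernel)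
def q6510 : Q := Q.p (nat_lit 0x18000020000000000000000000000000000000000000000000000) (nat_lit 0x100001c00007c000200000dc0000f0001f00001c00005000000000000000000000000) (nat_lit 9)
theorem c6510 : QOK q6510 := cut [q1615, q1621, q1939, q6509] ⟨c1615, c1621, c1939, c6509, trivial⟩ (nd (nat_lit 163) (nat_lit 0) (cs (rf (nat_lit 0)) (cs (rf (nat_lit 1)) (cs (rf (nat_lit 2)) (rf (nat_lit 3)))))) q6510 (by decide +kernel)
def q6595 : Q := Q.p (nat_lit 0x200000100001c000000000000000000000000000000000000000000000000000) (nat_lit 0x280000e0000380001e00000e000200000300000c0000200000000000000000000000000000000000) (nat_lit 7)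
theorem c6595 : QOK q6595 := cut [q3392, q4186, q6592] ⟨c3392, c4186, c6592, trivial⟩ (nd (nat_lit 250) (nat_lit 0) (cs (rf (nat_lit 0)) (cs (rf (nat_lit 1)) (nd (nat_lit 227) (nat_lit 0) (cs (lf (nat_lit 6) (nat_lit 205)) (nd (nat_lit 225) (nat_lit 0) (cs (lf (nat_lit 13) (nat_lit 203)) (rf (nat_lit 2))))))))) q6595 (by decide +kernel)
def q6621 : Q := Q.p (nat_lit 0x2000001000004000010000040000000000000000000000000000000000000000) (nat_lit 0x20000380001e00000000000000020000080000200000000000000000000000000000000000) (nat_lit 6)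
theorem c6621 : QOK q6621 := cut [q6619] ⟨c6619, trivial⟩ (nd (nat_lit 163) (nat_lit 0) (cs (lf (nat_lit 35) (nat_lit 140)) (nd (nat_lit 250) (nat_lit 0) (cs (lf (nat_lit 34) (nat_lit 162)) (rf (nat_lit 0)))))) q6621 (by decide +kernel)
def q6635 : Q := Q.p (nat_lit 0x1c000010000040000000000000000000000000000000000000000) (nat_lit 0x50000000000200000a0001f80001e00002800000000000000000000000) (nat_lit 8)
theorem c6635 : QOK q6635 := cut [q804, q863, q2497, q6634] ⟨c804, c863, c2497, c6634, trivial⟩ (nd (nat_lit 140) (nat_lit 0) (cs (rf (nat_lit 0)) (cs (rf (nat_lit 1)) (cs (rf (nat_lit 2)) (rf (nat_lit 3)))))) q6635 (by decide +kernel)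
def q6681 : Q := Q.p (nat_lit 0x200000100001c000000000000000000000000000000000000000000000000000) (nat_lit 0x20000380001e0000200002000003e0000e0000380000200000000000000000000000000000) (nat_lit 7)
theorem c6681 : QOK q6681 := cut [q2412, q3414, q4134, q6619] ⟨c2412, c3414, c4134, c6619, trivial⟩ (nd (nat_lit 184) (nat_lit 0) (cs (rf (nat_lit 0)) (cs (rf (nat_lit 1)) (nd (nat_lit 250) (nat_lit 0) (cs (rf (nat_lit 2)) (rf (nat_lit 3))))))) q6681 (by decide +kernel)
def q6706 : Q := Q.p (nat_lit 0x200000000003c000000000000000000000000000000000000000000000000000) (nat_lit 0x140000700001c00000000018000000000040000000000000000000000000000000000000000000000) (nat_lit 6)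
theorem c6706 : QOK q6706 := cut [q6705] ⟨c6705, trivial⟩ (nd (nat_lit 231) (nat_lit 0) (cs (lf (nat_lit 5) (nat_lit 206)) (rf (nat_lit 0)))) q6706 (by decide +kernel)
def q6769 : Q := Q.p (nat_lit 0x200000100001c000000000000000000000000000000000000000000000000000) (nat_lit 0x380001e00002e000020000300000c0000200000000000000000000000000000000000) (nat_lit 6)
theorem c6769 : QOK q6769 := cut [q1496, q3392, q3293, q6592] ⟨c1496, c3392, c3293, c6592, trivial⟩ (nd (nat_lit 250) (nat_lit 0) (cs (rf (nat_lit 0)) (cs (rf (nat_lit 1)) (nd (nat_lit 227) (nat_lit 0) (cs (rf (nat_lit 2)) (rf (nat_lit 3))))))) q6769 (by decide +kernel)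
def q6855 : Q := Q.p (nat_lit 0x18000040000100000000000000000000000000000000000000000) (nat_lit 0x2000020000080000200000c0000380000e000008000000000000000000) (nat_lit 7)
theorem c6855 : QOK q6855 := cut [q6854] ⟨c6854, trivial⟩ (nd (nat_lit 142) (nat_lit 0) (cs (lf (nat_lit 41) (nat_lit 141)) (rf (nat_lit 0)))) q6855 (by decide +kernel)
def q6901 : Q := Q.p (nat_lit 0x18000040000100000200000000000000000000000000000000000) (nat_lit 0x200000a000020000040000380000c000020000000000000000000) (nat_lit 6)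
theorem c6901 : QOK q6901 := cut [q2802] ⟨c2802, trivial⟩ (nd (nat_lit 142) (nat_lit 0) (cs (lf (nat_lit 47) (nat_lit 119)) (rf (nat_lit 0)))) q6901 (by decide +kernel)
def q6922 : Q := Q.p (nat_lit 0x2000008000018000040000000000000000000000000000000000000000000000) (nat_lit 0x800000000011c0002600001c000000000000000000000000000000000000000000000) (nat_lit 6)
theorem c6922 : QOK q6922 := cut [q119] ⟨c119, trivial⟩ (nd (nat_lit 209) (nat_lit 0) (cs (lf (nat_lit 42) (nat_lit 186)) (rf (nat_lit 0)))) q6922 (by decide +kernel)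
def q6936 : Q := Q.p (nat_lit 0x18000040000100000000000000000000000000000000000000000) (nat_lit 0x4000000000020000600000f8000380000a000000000000000000000000) (nat_lit 6)
theorem c6936 : QOK q6936 := cut [q522, q618, q626] ⟨c522, c618, c626, trivial⟩ (nd (nat_lit 142) (nat_lit 0) (cs (rf (nat_lit 0)) (cs (rf (nat_lit 1)) (rf (nat_lit 2))))) q6936 (by decide +kernel)
def q7028 : Q := Q.p (nat_lit 0x2000000000018000060000000000400000000000000000000000000000000000) (nat_lit 0x700001c00003800000000000000180000000000000000000000000000000000000000) (nat_lit 6)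
theorem c7028 : QOK q7028 := cut [q3126] ⟨c3126, trivial⟩ (nd (nat_lit 229) (nat_lit 0) (cs (lf (nat_lit 37) (nat_lit 141)) (rf (nat_lit 0)))) q7028 (by decide +kernel)
def q7093 : Q := Q.p (nat_lit 0x3800000000008000020000000000000000000000000000000000000000000000) (nat_lit 0x1dc0000600001c00004000000000000000000000000000000000000000000000000000) (nat_lit 5)
theorem c7093 : QOK q7093 := cut [q3764, q3765, q7092] ⟨c3764, c3765, c7092, trivial⟩ (nd (nat_lit 250) (nat_lit 0) (cs (rf (nat_lit 0)) (cs (rf (nat_lit 1)) (rf (nat_lit 2))))) q7093 (by decide +kernel)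
def q7114 : Q := Q.p (nat_lit 0x1c000030000000000000000000000000000000000000000000000) (nat_lit 0x80000200001c0000380000e000040000100000000000000000000000000000000000) (nat_lit 5)
theorem c7114 : QOK q7114 := cut [q3506, q7112] ⟨c3506, c7112, trivial⟩ (nd (nat_lit 205) (nat_lit 0) (cs (rf (nat_lit 0)) (nd (nat_lit 182) (nat_lit 0) (cs (lf (nat_lit 1) (nat_lit 182)) (rf (nat_lit 1)))))) q7114 (by decide +kernel)
def q7247 : Q := Q.p (nat_lit 0x18000020000080000000000000000000000000000000000000000) (nat_lit 0x100000700001c00007c00024000050000f00000c00000000000000000000000000000000000) (nat_lit 7)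
theorem c7247 : QOK q7247 := cut [q1723, q6173, q7120, q6175] ⟨c1723, c6173, c7120, c6175, trivial⟩ (nd (nat_lit 229) (nat_lit 0) (cs (rf (nat_lit 0)) (cs (rf (nat_lit 1)) (cs (rf (nat_lit 2)) (nd (nat_lit 230) (nat_lit 0) (cs (lf (nat_lit 29) (nat_lit 163)) (nd (nat_lit 164) (nat_lit 0) (cs (lf (nat_lit 35) (nat_lit 141)) (nd (nat_lit 186) (nat_lit 0) (cs (lf (nat_lit 30) (nat_lit 163)) (rf (nat_lit 3)))))))))))) q7247 (by decide +kernel)
def q7352 : Q := Q.p (nat_lit 0x2000000000018000040000100000000000000000000000000000000000000000) (nat_lit 0x180000e0000060003a0000200000800000000000000000000000000000000000) (nat_lit 7)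
theorem c7352 : QOK q7352 := cut [q7340] ⟨c7340, trivial⟩ (nd (nat_lit 230) (nat_lit 0) (cs (lf (nat_lit 28) (nat_lit 164)) (nd (nat_lit 229) (nat_lit 0) (cs (lf (nat_lit 41) (nat_lit 163)) (nd (nat_lit 165) (nat_lit 0) (cs (lf (nat_lit 35) (nat_lit 142)) (rf (nat_lit 0)))))))) q7352 (by decide +kernel)
def q7431 : Q := Q.p (nat_lit 0x800002000078000000000000000000000000000000000000000000000000000) (nat_lit 0xc0000700001400004000000000030000080000000000000000000000000000000000000000) (nat_lit 6)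
theorem c7431 : QOK q7431 := cut [q7430] ⟨c7430, trivial⟩ (nd (nat_lit 185) (nat_lit 0) (cs (lf (nat_lit 23) (nat_lit 184)) (rf (nat_lit 0)))) q7431 (by decide +kernel)
def q7437 : Q := Q.p (nat_lit 0x70000000000000000000000000000000000000000000000000000) (nat_lit 0x7780008c000078000000000000000000000000000000000000000000000) (nat_lit 5)
theorem c7437 : QOK q7437 := cut [q186, q2925, q4286] ⟨c186, c2925, c4286, trivial⟩ (nd (nat_lit 207) (nat_lit 0) (cs (rf (nat_lit 0)) (cs (rf (nat_lit 1)) (rf (nat_lit 2))))) q7437 (by decide +kernel)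
def q7451 : Q := Q.p (nat_lit 0x70000000000000000000000000000000000000000000000000000) (nat_lit 0x80003f0000788001ff0001d80003000008000000000000000000000000000000) (nat_lit 9)
theorem c7451 : QOK q7451 := cut [q231, q7416, q7443, q7444] ⟨c231, c7416, c7443, c7444, trivial⟩ (nd (nat_lit 211) (nat_lit 0) (cs (rf (nat_lit 0)) (cs (rf (nat_lit 1)) (cs (rf (nat_lit 2)) (nd (nat_lit 189) (nat_lit 0) (cs (lf (nat_lit 17) (nat_lit 186)) (nd (nat_lit 188) (nat_lit 0) (cs (lf (nat_lit 12) (nat_lit 185)) (nd (nat_lit 186) (nat_lit 0) (cs (lf (nat_lit 23) (nat_lit 185)) (nd (nat_lit 187) (nat_lit 0) (cs (lf (nat_lit 18) (nat_lit 186)) (nd (nat_lit 163) (nat_lit 0) (cs (rf (nat_lit 3)) (lf (nat_lit 22) (nat_lit 163)))))))))))))))) q7451 (by decide +kernel)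
def q7461 : Q := Q.p (nat_lit 0x2000008000020000080000000000000000000000000000000000000000000000) (nat_lit 0x400001000014000040000100000300001c00007000010000000000000000000000000) (nat_lit 8)
theorem c7461 : QOK q7461 := cut [q7459] ⟨c7459, trivial⟩ (nd (nat_lit 252) (nat_lit 0) (cs (lf (nat_lit 41) (nat_lit 186)) (nd (nat_lit 165) (nat_lit 0) (cs (lf (nat_lit 40) (nat_lit 164)) (rf (nat_lit 0)))))) q7461 (by decide +kernel)
def q7467 : Q := Q.p (nat_lit 0x8000038000000000000000000000000000000000000000000000000000) (nat_lit 0x7e000c700003c000000000000000000000000000000000000000000000) (nat_lit 7)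
theorem c7467 : QOK q7467 := cut [q668, q1123, q2937, q4318] ⟨c668, c1123, c2937, c4318, trivial⟩ (nd (nat_lit 206) (nat_lit 0) (cs (rf (nat_lit 0)) (cs (rf (nat_lit 1)) (cs (rf (nat_lit 2)) (rf (nat_lit 3)))))) q7467 (by decide +kernel)
def q7506 : Q := Q.p (nat_lit 0x700001e0000000000000000000000000000000000000000000000) (nat_lit 0x14000000000000000ec000380000e000000000000000000000000000000) (nat_lit 7)
theorem c7506 : QOK q7506 := cut [q7503] ⟨c7503, trivial⟩ (nd (nat_lit 166) (nat_lit 0) (cs (lf (nat_lit 17) (nat_lit 163)) (nd (nat_lit 144) (nat_lit 0) (cs (lf (nat_lit 36) (nat_lit 121)) (nd (nat_lit 162) (nat_lit 0) (cs (lf (nat_lit 22) (nat_lit 162)) (rf (nat_lit 0)))))))) q7506 (by decide +kernel)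
def q7519 : Q := Q.p (nat_lit 0x20000000000700000c0000000000000000000000000000000000000000000000) (nat_lit 0x18000000000000000380007c00007000000000000000000000000000000) (nat_lit 7)
theorem c7519 : QOK q7519 := cut [q7517] ⟨c7517, trivial⟩ (nd (nat_lit 164) (nat_lit 0) (cs (lf (nat_lit 43) (nat_lit 164)) (nd (nat_lit 142) (nat_lit 0) (cs (lf (nat_lit 24) (nat_lit 120)) (rf (nat_lit 0)))))) q7519 (by decide +kernel)
def q7553 : Q := Q.p (nat_lit 0x2000000000078000100000000000000000000000000000000000000000000000) (nat_lit 0x38000000000000000e0000380000a000000000000000000000000000000) (nat_lit 6)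
theorem c7553 : QOK q7553 := cut [q7552] ⟨c7552, trivial⟩ (nd (nat_lit 232) (nat_lit 0) (cs (lf (nat_lit 5) (nat_lit 207)) (rf (nat_lit 0)))) q7553 (by decide +kernel)
def q7571 : Q := Q.p (nat_lit 0x200000a000038000040000000000000000000000000000000000000000000000) (nat_lit 0x700001c000758000000000a0000680001800006000000000000000000000000000000) (nat_lit 6)
theorem c7571 : QOK q7571 := cut [q3957, q7564, q7569] ⟨c3957, c7564, c7569, trivial⟩ (nd (nat_lit 252) (nat_lit 0) (cs (rf (nat_lit 0)) (cs (nd (nat_lit 187) (nat_lit 0) (cs (lf (nat_lit 41) (nat_lit 186)) (rf (nat_lit 1)))) (nd (nat_lit 251) (nat_lit 0) (cs (lf (nat_lit 30) (nat_lit 185)) (rf (nat_lit 2))))))) q7571 (by decide +kernel)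
def q7591 : Q := Q.p (nat_lit 0x2000008000030000080000000000000000000000000000000000000000000000) (nat_lit 0x400001000004000000000040000600001c00007000004000000000000000000000000) (nat_lit 7)
theorem c7591 : QOK q7591 := cut [q7589] ⟨c7589, trivial⟩ (nd (nat_lit 252) (nat_lit 0) (cs (lf (nat_lit 41) (nat_lit 186)) (nd (nat_lit 165) (nat_lit 0) (cs (lf (nat_lit 40) (nat_lit 164)) (rf (nat_lit 0)))))) q7591 (by decide +kernel)
def q7612 : Q := Q.p (nat_lit 0x2000008000030000000000000000000000000000000000000000000000000000) (nat_lit 0x73c000ce0007fc000400000000000000000000000000000000000000000) (nat_lit 6)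
theorem c7612 : QOK q7612 := cut [q119, q792, q3019, q108, q1483, q2925] ⟨c119, c792, c3019, c108, c1483, c2925, trivial⟩ (nd (nat_lit 207) (nat_lit 0) (cs (rf (nat_lit 0)) (cs (rf (nat_lit 1)) (cs (rf (nat_lit 2)) (nd (nat_lit 210) (nat_lit 0) (cs (rf (nat_lit 3)) (cs (rf (nat_lit 4)) (rf (nat_lit 5))))))))) q7612 (by decide +kernel)
def q7615 : Q := Q.p (nat_lit 0x2000008000030000080000000000000000000000000000000000000000000000) (nat_lit 0x1c00007780005e0000000000000000000000000000000000000000) (nat_lit 8)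
theorem c7615 : QOK q7615 := cut [q2974] ⟨c2974, trivial⟩ (nd (nat_lit 186) (nat_lit 0) (cs (lf (nat_lit 47) (nat_lit 164)) (rf (nat_lit 0)))) q7615 (by decide +kernel)
def q7618 : Q := Q.p (nat_lit 0x2000008000030000080000000000000000000000000000000000000000000000) (nat_lit 0x400001000000000008000740000500000000000000000000000000000000000000000) (nat_lit 5)
theorem c7618 : QOK q7618 := cut [q2328] ⟨c2328, trivial⟩ (nd (nat_lit 186) (nat_lit 0) (cs (lf (nat_lit 47) (nat_lit 164)) (rf (nat_lit 0)))) q7618 (by decide +kernel)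
def q7734 : Q := Q.p (nat_lit 0x3c000000000000000000000000000000000000000000000000000) (nat_lit 0x20000380000e000038000000001b8000060000380000e00002000000000000000000000000) (nat_lit 10)
theorem c7734 : QOK q7734 := cut [q2020, q7723, q4108] ⟨c2020, c7723, c4108, trivial⟩ (nd (nat_lit 184) (nat_lit 0) (cs (lf (nat_lit 23) (nat_lit 183)) (nd (nat_lit 251) (nat_lit 0) (cs (rf (nat_lit 0)) (cs (nd (nat_lit 228) (nat_lit 0) (cs (lf (nat_lit 11) (nat_lit 205)) (nd (nat_lit 187) (nat_lit 0) (cs (lf (nat_lit 17) (nat_lit 184)) (rf (nat_lit 1)))))) (cs (nd (nat_lit 187) (nat_lit 0) (cs (lf (nat_lit 17) (nat_lit 184)) (nd (nat_lit 228) (nat_lit 0) (cs (lf (nat_lit 11) (nat_lit 205)) (nd (nat_lit 162) (nat_lit 0) (cs (lf (nat_lit 28) (nat_lit 162)) (rf (nat_lit 2)))))))) (nd (nat_lit 228) (nat_lit 0) (cs (lf (nat_lit 11) (nat_lit 205)) (nd (nat_lit 273) (nat_lit 0) (cs (lf (nat_lit 27) (nat_lit 184)) (lf (nat_lit 44) (nat_lit 184)))))))))))) q7734 (by decide +kernel)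
def q7751 : Q := Q.p (nat_lit 0x20000080000300000c0000000000000000000000000000000000000000000000) (nat_lit 0x64000190000760001c0000720001c00002000008000000000000000000000000000000) (nat_lit 12)
theorem c7751 : QOK q7751 := cut [q7749] ⟨c7749, trivial⟩ (nd (nat_lit 252) (nat_lit 0) (cs (lf (nat_lit 41) (nat_lit 186)) (nd (nat_lit 188) (nat_lit 0) (cs (lf (nat_lit 35) (nat_lit 165)) (rf (nat_lit 0)))))) q7751 (by decide +kernel)
def q7784 : Q := Q.p (nat_lit 0x2000000000070000040000000000000000000000000000000000000000000000) (nat_lit 0x1c0000000000b0000700001f8000780000a000000000000000000000000) (nat_lit 10)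
theorem c7784 : QOK q7784 := cut [q1668, q4389, q7776, q7777, q4454] ⟨c1668, c4389, c7776, c7777, c4454, trivial⟩ (nd (nat_lit 164) (nat_lit 0) (cs (rf (nat_lit 0)) (cs (rf (nat_lit 1)) (nd (nat_lit 143) (nat_lit 0) (cs (nd (nat_lit 121) (nat_lit 0) (cs (lf (nat_lit 33) (nat_lit 120)) (nd (nat_lit 165) (nat_lit 0) (cs (lf (nat_lit 30) (nat_lit 142)) (lf (nat_lit 36) (nat_lit 98)))))) (cs (rf (nat_lit 2)) (cs (nd (nat_lit 165) (nat_lit 0) (cs (lf (nat_lit 30) (nat_lit 142)) (nd (nat_lit 187) (nat_lit 0) (cs (lf (nat_lit 29) (nat_lit 143)) (nd (nat_lit 122) (nat_lit 0) (cs (lf (nat_lit 34) (nat_lit 121)) (nd (nat_lit 184) (nat_lit 0) (cs (lf (nat_lit 1) (nat_lit 184)) (rf (nat_lit 3)))))))))) (nd (nat_lit 165) (nat_lit 0) (cs (lf (nat_lit 30) (nat_lit 142)) (rf (nat_lit 4))))))))))) q7784 (by decide +kernel)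
def q7800 : Q := Q.p (nat_lit 0x2000000000070000040000000000000000000000000000000000000000000000) (nat_lit 0x80000080003b000008000330000500000400000000000000000000000000000000000) (nat_lit 5)
theorem c7800 : QOK q7800 := cut [q94, q109] ⟨c94, c109, trivial⟩ (nd (nat_lit 207) (nat_lit 0) (cs (rf (nat_lit 0)) (rf (nat_lit 1)))) q7800 (by decide +kernel)
def q7811 : Q := Q.p (nat_lit 0x70000040000000000000000000000000000000000000000000000) (nat_lit 0x7380018e000f80000000000000000000000000000000000000000000000) (nat_lit 8)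
theorem c7811 : QOK q7811 := cut [q44, q57, q60, q71, q323] ⟨c44, c57, c60, c71, c323, trivial⟩ (nd (nat_lit 189) (nat_lit 0) (cs (rf (nat_lit 0)) (cs (rf (nat_lit 1)) (cs (rf (nat_lit 2)) (cs (rf (nat_lit 3)) (nd (nat_lit 207) (nat_lit 0) (cs (lf (nat_lit 16) (nat_lit 185)) (rf (nat_lit 4))))))))) q7811 (by decide +kernel)
def q7825 : Q := Q.p (nat_lit 0x3000000000030000040000000000000000000000000000000000000000000000) (nat_lit 0xe00000c0003b8001ce0000a0000200000800000000000000000000000000000000000) (nat_lit 9)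
theorem c7825 : QOK q7825 := cut [q288, q1469, q294, q326] ⟨c288, c1469, c294, c326, trivial⟩ (nd (nat_lit 231) (nat_lit 0) (cs (lf (nat_lit 42) (nat_lit 186)) (nd (nat_lit 187) (nat_lit 0) (cs (lf (nat_lit 41) (nat_lit 186)) (nd (nat_lit 207) (nat_lit 0) (cs (rf (nat_lit 0)) (cs (rf (nat_lit 1)) (nd (nat_lit 210) (nat_lit 0) (cs (rf (nat_lit 2)) (rf (nat_lit 3))))))))))) q7825 (by decide +kernel)
def q7827 : Q := Q.p (nat_lit 0x2000000000070000040000000000000000000000000000000000000000000000) (nat_lit 0x80000000003b80000c000380000400000000000000000000000000000000000000000) (nat_lit 5)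
theorem c7827 : QOK q7827 := cut [q87, q109, q7826] ⟨c87, c109, c7826, trivial⟩ (nd (nat_lit 207) (nat_lit 0) (cs (rf (nat_lit 0)) (cs (rf (nat_lit 1)) (rf (nat_lit 2))))) q7827 (by decide +kernel)
def q7841 : Q := Q.p (nat_lit 0x78000040000000000000000000000000000000000000000000000) (nat_lit 0x31c000070003ae000000000000000000000000000000000000000000000) (nat_lit 8)
theorem c7841 : QOK q7841 := cut [q130] ⟨c130, trivial⟩ (nd (nat_lit 188) (nat_lit 0) (cs (lf (nat_lit 17) (nat_lit 185)) (nd (nat_lit 206) (nat_lit 0) (cs (lf (nat_lit 16) (nat_lit 184)) (nd (nat_lit 232) (nat_lit 0) (cs (lf (nat_lit 5) (nat_lit 207)) (rf (nat_lit 0)))))))) q7841 (by decide +kernel)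
def q7867 : Q := Q.p (nat_lit 0x2000000000078000000000000000000000000000000000000000000000000000) (nat_lit 0x3b000000000300000e0000380000a000000000000000000000000000000) (nat_lit 8)
theorem c7867 : QOK q7867 := cut [q7552] ⟨c7552, trivial⟩ (nd (nat_lit 232) (nat_lit 0) (cs (lf (nat_lit 5) (nat_lit 207)) (nd (nat_lit 228) (nat_lit 0) (cs (lf (nat_lit 10) (nat_lit 206)) (nd (nat_lit 188) (nat_lit 0) (cs (lf (nat_lit 17) (nat_lit 185)) (rf (nat_lit 0)))))))) q7867 (by decide +kernel)
def q7874 : Q := Q.p (nat_lit 0x3000002000018000040000000000000000000000000000000000000000000000) (nat_lit 0x1fc0000e00000000000000020000000000000000000000000000000000000000000000) (nat_lit 6)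
theorem c7874 : QOK q7874 := cut [q3764, q3776, q7872] ⟨c3764, c3776, c7872, trivial⟩ (nd (nat_lit 251) (nat_lit 0) (cs (lf (nat_lit 30) (nat_lit 185)) (nd (nat_lit 250) (nat_lit 0) (cs (rf (nat_lit 0)) (cs (rf (nat_lit 1)) (rf (nat_lit 2))))))) q7874 (by decide +kernel)
def q7894 : Q := Q.p (nat_lit 0x70000040000000000000000000000000000000000000000000000) (nat_lit 0xf0000188000f80000000000000000000000000000000000000000000000) (nat_lit 5)
theorem c7894 : QOK q7894 := cut [q102, q1860, q2454] ⟨c102, c1860, c2454, trivial⟩ (nd (nat_lit 211) (nat_lit 0) (cs (rf (nat_lit 0)) (cs (rf (nat_lit 1)) (rf (nat_lit 2))))) q7894 (by decide +kernel)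
def q7982 : Q := Q.p (nat_lit 0x2000000000010000140000000000000000000000000000000000000000000000) (nat_lit 0x140000700007e00039c001fee007ef003e3c000c0000380000e000028000000000000000000000000) (nat_lit 12)
theorem c7982 : QOK q7982 := cut [q512, q4659, q39, q4622, q5683, q173, q668, q7922, q7948, q203, q7550, q507, q7954, q7959, q7964, q7976, q6705, q207] ⟨c512, c4659, c39, c4622, c5683, c173, c668, c7922, c7948, c203, c7550, c507, c7954, c7959, c7964, c7976, c6705, c207, trivial⟩ (nd (nat_lit 231) (nat_lit 0) (cs (rf (nat_lit 0)) (cs (nd (nat_lit 210) (nat_lit 0) (cs (nd (nat_lit 166) (nat_lit 0) (cs (lf (nat_lit 39) (nat_lit 165)) (nd (nat_lit 144) (nat_lit 0) (cs (rf (nat_lit 1)) (lf (nat_lit 40) (nat_lit 143)))))) (cs (nd (nat_lit 209) (nat_lit 0) (cs (rf (nat_lit 2)) (cs (rf (nat_lit 3)) (cs (rf (nat_lit 4)) (nd (nat_lit 207) (nat_lit 0) (cs (lf (nat_lit 17) (nat_lit 185)) (nd (nat_lit 206) (nat_lit 0) (cs (rf (nat_lit 5)) (cs (rf (nat_lit 6)) (nd (nat_lit 144) (nat_lit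 0) (cs (lf (nat_lit 37) (nat_lit 143)) (nd (nat_lit 205) (nat_lit 0) (cs (lf (nat_lit 4) (nat_lit 205)) (rf (nat_lit 7))))))))))))))) (cs (nd (nat_lit 232) (nat_lit 0) (cs (lf (nat_lit 36) (nat_lit 165)) (nd (nat_lit 233) (nat_lit 0) (cs (nd (nat_lit 234) (nat_lit 0) (cs (lf (nat_lit 11) (nat_lit 230)) (nd (nat_lit 213) (nat_lit 0) (cs (nd (nat_lit 256) (nat_lit 0) (cs (nd (nat_lit 235) (nat_lit 0) (cs (nd (nat_lit 211) (nat_lit 0) (cs (nd (nat_lit 255) (nat_lit 0) (cs (lf (nat_lit 42) (nat_lit 188)) (nd (nat_lit 189) (nat_lit 0) (cs (lf (nat_lit 29) (nat_lit 189)) (lf (nat_lit 24) (nat_lit 167)))))) (lf (nat_lit 18) (nat_lit 210)))) (lf (nat_lit 17) (nat_lit 210)))) (lf (nat_lit 5) (nat_lit 231)))) (lf (nat_lit 16) (nat_lit 209)))))) (cs (nd (nat_lit 234) (nat_lit 0) (cs (lf (nat_lit 11) (nat_lit 230)) (nd (nat_lit 256) (nat_lit 0) (cs (lf (nat_lit 5) (nat_lit 231)) (nd (nat_lit 230) (nat_lit 0) (cs (lf (nat_lit 23) (nat_lit 207)) (lf (nat_lit 4) (nat_lit 230)))))))) (nd (nat_lit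 230) (nat_lit 0) (cs (lf (nat_lit 23) (nat_lit 207)) (rf (nat_lit 8))))))))) (nd (nat_lit 209) (nat_lit 0) (cs (rf (nat_lit 2)) (cs (rf (nat_lit 9)) (cs (rf (nat_lit 3)) (rf (nat_lit 10)))))))))) (cs (nd (nat_lit 230) (nat_lit 0) (cs (rf (nat_lit 11)) (cs (nd (nat_lit 232) (nat_lit 0) (cs (rf (nat_lit 12)) (cs (nd (nat_lit 275) (nat_lit 0) (cs (lf (nat_lit 42) (nat_lit 208)) (rf (nat_lit 13)))) (cs (nd (nat_lit 275) (nat_lit 0) (cs (lf (nat_lit 42) (nat_lit 208)) (rf (nat_lit 14)))) (nd (nat_lit 166) (nat_lit 0) (cs (lf (nat_lit 38) (nat_lit 165)) (nd (nat_lit 275) (nat_lit 0) (cs (lf (nat_lit 42) (nat_lit 208)) (nd (nat_lit 233) (nat_lit 0) (cs (lf (nat_lit 23) (nat_lit 207)) (nd (nat_lit 211) (nat_lit 0) (cs (lf (nat_lit 17) (nat_lit 208)) (nd (nat_lit 255) (nat_lit 0) (cs (lf (nat_lit 5) (nat_lit 230)) (lf (nat_lit 45) (nat_lit 166)))))))))))))))) (nd (nat_lit 232) (nat_lit 0) (cs (rf (nat_lit 12)) (cs (rf (nat_lit 13)) (cs (rf (nat_lit 14)) (nd (nat_lit 166) (nat_lit 0)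 (cs (lf (nat_lit 38) (nat_lit 165)) (rf (nat_lit 15))))))))))) (nd (nat_lit 209) (nat_lit 0) (cs (rf (nat_lit 16)) (nd (nat_lit 210) (nat_lit 0) (cs (rf (nat_lit 2)) (rf (nat_lit 17)))))))))) q7982 (by decide +kernel)
def q7995 : Q := Q.p (nat_lit 0x100001c0000000000000000000000000000000000000000000000) (nat_lit 0x10000140000ce000030000ee0000a00002000000000000000000000000000000) (nat_lit 6)
theorem c7995 : QOK q7995 := cut [q584, q4698, q7994] ⟨c584, c4698, c7994, trivial⟩ (nd (nat_lit 185) (nat_lit 0) (cs (rf (nat_lit 0)) (cs (rf (nat_lit 1)) (rf (nat_lit 2))))) q7995 (by decide +kernel)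
def q8026 : Q := Q.p (nat_lit 0x20000000000100001c0000000000000000000000000000000000000000000000) (nat_lit 0x100000c00002e000030000ee0001f00007800000000000000000000000000000) (nat_lit 10)
theorem c8026 : QOK q8026 := cut [q4698, q7062, q7994, q8025] ⟨c4698, c7062, c7994, c8025, trivial⟩ (nd (nat_lit 185) (nat_lit 0) (cs (rf (nat_lit 0)) (cs (rf (nat_lit 1)) (cs (rf (nat_lit 2)) (rf (nat_lit 3)))))) q8026 (by decide +kernel)
def q8029 : Q := Q.p (nat_lit 0x20000000000100001c0000000000000000000000000000000000000000000000) (nat_lit 0x280003a0000620001c00001000004000000000000000000000000000000) (nat_lit 6)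
theorem c8029 : QOK q8029 := cut [q4705, q4726, q8028] ⟨c4705, c4726, c8028, trivial⟩ (nd (nat_lit 189) (nat_lit 0) (cs (rf (nat_lit 0)) (cs (rf (nat_lit 1)) (rf (nat_lit 2))))) q8029 (by decide +kernel)
def q8031 : Q := Q.p (nat_lit 0x70000180000400000000000000000000000000000000000000000) (nat_lit 0x1400000000000000020000380000e000000000000000000000000000000) (nat_lit 5)
theorem c8031 : QOK q8031 := cut [q7503] ⟨c7503, trivial⟩ (nd (nat_lit 144) (nat_lit 0) (cs (lf (nat_lit 36) (nat_lit 121)) (rf (nat_lit 0)))) q8031 (by decide +kernel)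
def q8062 : Q := Q.p (nat_lit 0x700001c0000000000000000000000000000000000000000000000) (nat_lit 0x2000008000070000180000000000400001000000000000000000000000000000000000) (nat_lit 5)
theorem c8062 : QOK q8062 := cut [q8061] ⟨c8061, trivial⟩ (nd (nat_lit 211) (nat_lit 0) (cs (lf (nat_lit 18) (nat_lit 186)) (rf (nat_lit 0)))) q8062 (by decide +kernel)
def q8065 : Q := Q.p (nat_lit 0x20000000000300001c0000000000000000000000000000000000000000000000) (nat_lit 0x600001c0003c000000000000000600000000000000000000000000000000000000000) (nat_lit 6)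
theorem c8065 : QOK q8065 := cut [q2980] ⟨c2980, trivial⟩ (nd (nat_lit 231) (nat_lit 0) (cs (lf (nat_lit 35) (nat_lit 165)) (rf (nat_lit 0)))) q8065 (by decide +kernel)
def q8067 : Q := Q.p (nat_lit 0x20000000000300000c0000000000000000000000000000000000000000000000) (nat_lit 0xe00001c0003c000000000000000200000000000000000000000000000000000000000) (nat_lit 6)
theorem c8067 : QOK q8067 := cut [q2980] ⟨c2980, trivial⟩ (nd (nat_lit 231) (nat_lit 0) (cs (lf (nat_lit 42) (nat_lit 186)) (rf (nat_lit 0)))) q8067 (by decide +kernel)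
def q8160 : Q := Q.p (nat_lit 0x100001c0000000000000000000000000000000000000000000000) (nat_lit 0x40000ee0000300000e0000200000800000000000000000000000000000) (nat_lit 6)
theorem c8160 : QOK q8160 := cut [q4698, q4961, q8158] ⟨c4698, c4961, c8158, trivial⟩ (nd (nat_lit 185) (nat_lit 0) (cs (rf (nat_lit 0)) (cs (rf (nat_lit 1)) (cs (nd (nat_lit 162) (nat_lit 0) (cs (lf (nat_lit 22) (nat_lit 162)) (nd (nat_lit 210) (nat_lit 0) (cs (lf (nat_lit 5) (nat_lit 185)) (nd (nat_lit 184) (nat_lit 0) (cs (lf (nat_lit 23) (nat_lit 161)) (lf (nat_lit 4) (nat_lit 184)))))))) (nd (nat_lit 210) (nat_lit 0) (cs (lf (nat_lit 5) (nat_lit 185)) (rf (nat_lit 2)))))))) q8160 (by decide +kernel)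
def q8253 : Q := Q.p (nat_lit 0x300000c0000100000000000000000000000000000000000000000) (nat_lit 0x200000c000300000000000e00003800000000000000000000000000000) (nat_lit 6)
theorem c8253 : QOK q8253 := cut [q8251] ⟨c8251, trivial⟩ (nd (nat_lit 142) (nat_lit 0) (cs (lf (nat_lit 24) (nat_lit 120)) (nd (nat_lit 119) (nat_lit 0) (cs (lf (nat_lit 46) (nat_lit 119)) (rf (nat_lit 0)))))) q8253 (by decide +kernel)
def q8324 : Q := Q.p (nat_lit 0x300000c0000100000000000000000000000000000000000000000) (nat_lit 0x700001c0000718001ee0007f80007800000000000000000000000000000) (nat_lit 11)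
theorem c8324 : QOK q8324 := cut [q8266, q7523, q8311, q8322] ⟨c8266, c7523, c8311, c8322, trivial⟩ (nd (nat_lit 165) (nat_lit 0) (cs (rf (nat_lit 0)) (cs (nd (nat_lit 120) (nat_lit 0) (cs (lf (nat_lit 25) (nat_lit 120)) (nd (nat_lit 143) (nat_lit 0) (cs (lf (nat_lit 36) (nat_lit 120)) (nd (nat_lit 144) (nat_lit 0) (cs (lf (nat_lit 35) (nat_lit 121)) (nd (nat_lit 145) (nat_lit 0) (cs (lf (nat_lit 6) (nat_lit 142)) (nd (nat_lit 210) (nat_lit 0) (cs (lf (nat_lit 29) (nat_lit 143)) (nd (nat_lit 211) (nat_lit 0) (cs (lf (nat_lit 18) (nat_lit 186)) (nd (nat_lit 189) (nat_lit 0) (cs (lf (nat_lit 17) (nat_lit 186)) (nd (nat_lit 233) (nat_lit 0) (cs (lf (nat_lit 5) (nat_lit 208)) (rf (nat_lit 1)))))))))))))))))) (cs (nd (nat_lit 143) (nat_lit 0) (cs (lf (nat_lit 36) (nat_lit 120)) (nd (nat_lit 120) (nat_lit 0) (cs (lf (nat_lit 25) (nat_lit 120)) (nd (nat_lit 210) (nat_lit 0) (cs (lf (nat_lit 29) (nat_lit 143)) (nd (nat_lit 144) (nat_lit 0) (cs (lf (nat_lit 35) (nat_lit 121)) (nd (nat_lit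 163) (nat_lit 0) (cs (lf (nat_lit 12) (nat_lit 140)) (nd (nat_lit 145) (nat_lit 0) (cs (lf (nat_lit 6) (nat_lit 142)) (nd (nat_lit 189) (nat_lit 0) (cs (lf (nat_lit 19) (nat_lit 163)) (rf (nat_lit 2)))))))))))))))) (nd (nat_lit 121) (nat_lit 0) (cs (lf (nat_lit 37) (nat_lit 120)) (rf (nat_lit 3)))))))) q8324 (by decide +kernel)
def q8339 : Q := Q.p (nat_lit 0x300000c0000100000000000000000000000000000000000000000) (nat_lit 0x200000c000300000000000600001800000000000000000000000000000) (nat_lit 5)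
theorem c8339 : QOK q8339 := cut [q8338] ⟨c8338, trivial⟩ (nd (nat_lit 142) (nat_lit 0) (cs (lf (nat_lit 24) (nat_lit 120)) (rf (nat_lit 0)))) q8339 (by decide +kernel)
def q8340 : Q := Q.p (nat_lit 0x300000c0000100000000000000000000000000000000000000000) (nat_lit 0x200000c000300000000000c00003000000000000000000000000000000) (nat_lit 5)
theorem c8340 : QOK q8340 := cut [q8251] ⟨c8251, trivial⟩ (nd (nat_lit 142) (nat_lit 0) (cs (lf (nat_lit 24) (nat_lit 120)) (rf (nat_lit 0)))) q8340 (by decide +kernel)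
def q8377 : Q := Q.p (nat_lit 0x300000c0000300000000000000000000000000000000000000000) (nat_lit 0x200000e000000000080007e00007800000000000000000000000000000) (nat_lit 8)
theorem c8377 : QOK q8377 := cut [q8373] ⟨c8373, trivial⟩ (nd (nat_lit 143) (nat_lit 0) (cs (lf (nat_lit 36) (nat_lit 120)) (nd (nat_lit 142) (nat_lit 0) (cs (lf (nat_lit 24) (nat_lit 120)) (nd (nat_lit 207) (nat_lit 0) (cs (lf (nat_lit 41) (nat_lit 141)) (nd (nat_lit 205) (nat_lit 0) (cs (lf (nat_lit 13) (nat_lit 183)) (rf (nat_lit 0)))))))))) q8377 (by decide +kernel)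
def q8385 : Q := Q.p (nat_lit 0x300000c0000200000000000000000000000000000000000000000) (nat_lit 0x100000c0000030000000001800006000000000000000000000000000000) (nat_lit 5)
theorem c8385 : QOK q8385 := cut [q8384] ⟨c8384, trivial⟩ (nd (nat_lit 143) (nat_lit 0) (cs (lf (nat_lit 36) (nat_lit 120)) (rf (nat_lit 0)))) q8385 (by decide +kernel)
def q8387 : Q := Q.p (nat_lit 0x300000c0000200000000000000000000000000000000000000000) (nat_lit 0x100000c0000030000000000c00003000000000000000000000000000000) (nat_lit 5)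
theorem c8387 : QOK q8387 := cut [q8386] ⟨c8386, trivial⟩ (nd (nat_lit 143) (nat_lit 0) (cs (lf (nat_lit 36) (nat_lit 120)) (rf (nat_lit 0)))) q8387 (by decide +kernel)
def q8410 : Q := Q.p (nat_lit 0x300000c0000000000000000000000000000000000000000000000) (nat_lit 0x100001c6000738001fe0003f0000fc00000000000000000000000000000) (nat_lit 13)
theorem c8410 : QOK q8410 := cut [q8397, q8398, q7508, q7632, q326, q8407] ⟨c8397, c8398, c7508, c7632, c326, c8407, trivial⟩ (nd (nat_lit 185) (nat_lit 0) (cs (rf (nat_lit 0)) (cs (rf (nat_lit 1)) (nd (nat_lit 188) (nat_lit 0) (cs (rf (nat_lit 2)) (cs (rf (nat_lit 3)) (nd (nat_lit 210) (nat_lit 0) (cs (rf (nat_lit 4)) (rf (nat_lit 5)))))))))) q8410 (by decide +kernel)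
def q8427 : Q := Q.p (nat_lit 0x300000f0000000000000000000000000000000000000000000000) (nat_lit 0xe000700001c00000000000000000000000000000000000000000) (nat_lit 5)
theorem c8427 : QOK q8427 := cut [q8426] ⟨c8426, trivial⟩ (nd (nat_lit 206) (nat_lit 0) (cs (lf (nat_lit 11) (nat_lit 183)) (rf (nat_lit 0)))) q8427 (by decide +kernel)
def q8460 : Q := Q.p (nat_lit 0x380000c0000000000000000000000000000000000000000000000) (nat_lit 0x2000046000038000060000100000400000000000000000000000000000) (nat_lit 6)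
theorem c8460 : QOK q8460 := cut [q339] ⟨c339, trivial⟩ (nd (nat_lit 206) (nat_lit 0) (cs (lf (nat_lit 12) (nat_lit 183)) (rf (nat_lit 0)))) q8460 (by decide +kernel)
def q8476 : Q := Q.p (nat_lit 0x700001c0000000000000000000000000000000000000000000000) (nat_lit 0x1000000c000020003f00003f0000fc00000000000000000000000000000) (nat_lit 10)
theorem c8476 : QOK q8476 := cut [q2647, q8054, q8474] ⟨c2647, c8054, c8474, trivial⟩ (nd (nat_lit 166) (nat_lit 0) (cs (rf (nat_lit 0)) (cs (rf (nat_lit 1)) (nd (nat_lit 206) (nat_lit 0) (cs (lf (nat_lit 13) (nat_lit 184)) (rf (nat_lit 2))))))) q8476 (by decide +kernel)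
def q8508 : Q := Q.p (nat_lit 0x2000000000030000040000000000000000000000000000000000000000000000) (nat_lit 0x140000700001c000000000180000c8000fb8000400001000000000000000000000000000000000000) (nat_lit 6)
theorem c8508 : QOK q8508 := cut [q6705, q8507] ⟨c6705, c8507, trivial⟩ (nd (nat_lit 231) (nat_lit 0) (cs (rf (nat_lit 0)) (rf (nat_lit 1)))) q8508 (by decide +kernel)
def q8525 : Q := Q.p (nat_lit 0x20000000000300000c0000000000000000000000000000000000000000000000) (nat_lit 0xc00001000008000008000700000400000000000000000000000000000000000000000) (nat_lit 5)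
theorem c8525 : QOK q8525 := cut [q2328] ⟨c2328, trivial⟩ (nd (nat_lit 231) (nat_lit 0) (cs (lf (nat_lit 42) (nat_lit 186)) (rf (nat_lit 0)))) q8525 (by decide +kernel)
def q8579 : Q := Q.p (nat_lit 0x2000000000030000040000000000000000000000000000000000000000000000) (nat_lit 0x20000088000160000f8000ce0000b80000e0000380000a00000000000000000000000000000) (nat_lit 11)
theorem c8579 : QOK q8579 := cut [q4791, q39, q1281, q1288, q2660, q889, q8563, q8565, q8578] ⟨c4791, c39, c1281, c1288, c2660, c889, c8563, c8565, c8578, trivial⟩ (nd (nat_lit 230) (nat_lit 0) (cs (rf (nat_lit 0)) (cs (nd (nat_lit 210) (nat_lit 0) (cs (rf (nat_lit 1)) (cs (nd (nat_lit 228) (nat_lit 0) (cs (nd (nat_lit 229) (nat_lit 0) (cs (lf (nat_lit 9) (nat_lit 206)) (lf (nat_lit 12) (nat_lit 205)))) (cs (nd (nat_lit 231) (nat_lit 0) (cs (lf (nat_lit 42) (nat_lit 186)) (lf (nat_lit 13) (nat_lit 206)))) (nd (nat_lit 184) (nat_lit 0) (cs (nd (nat_lit 185) (nat_lit 0) (cs (lf (nat_lit 0) (nat_lit 183)) (lf (nat_lit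 3) (nat_lit 184)))) (cs (nd (nat_lit 185) (nat_lit 0) (cs (lf (nat_lit 21) (nat_lit 184)) (lf (nat_lit 3) (nat_lit 184)))) (nd (nat_lit 206) (nat_lit 0) (cs (rf (nat_lit 2)) (cs (nd (nat_lit 183) (nat_lit 0) (cs (lf (nat_lit 20) (nat_lit 183)) (rf (nat_lit 3)))) (cs (rf (nat_lit 4)) (nd (nat_lit 162) (nat_lit 0) (cs (rf (nat_lit 5)) (cs (nd (nat_lit 231) (nat_lit 0) (cs (lf (nat_lit 42) (nat_lit 186)) (rf (nat_lit 6)))) (nd (nat_lit 249) (nat_lit 0) (cs (lf (nat_lit 40) (nat_lit 161)) (nd (nat_lit 231) (nat_lit 0) (cs (lf (nat_lit 42) (nat_lit 186)) (rf (nat_lit 7))))))))))))))))))) (nd (nat_lit 231) (nat_lit 0) (cs (lf (nat_lit 42) (nat_lit 186)) (nd (nat_lit 229) (nat_lit 0) (cs (lf (nat_lit 6) (nat_lit 207)) (lf (nat_lit 12) (nat_lit 206))))))))) (rf (nat_lit 8))))) q8579 (by decide +kernel)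
def q8596 : Q := Q.p (nat_lit 0x1e00000000000000000000000000000000000) (nat_lit 0xe70000180000700000000000000000000000000000) (nat_lit 6)
theorem c8596 : QOK q8596 := cut [q8595] ⟨c8595, trivial⟩ (nd (nat_lit 166) (nat_lit 0) (cs (lf (nat_lit 5) (nat_lit 141)) (rf (nat_lit 0)))) q8596 (by decide +kernel)
def q8666 : Q := Q.p (nat_lit 0x1a0000600001a0000400000000000000000000000000000000000) (nat_lit 0x1000005c0002400001c0000100009c0002700001400000000000000000000000) (nat_lit 10)
theorem c8666 : QOK q8666 := cut [q8660, q8665] ⟨c8660, c8665, trivial⟩ (nd (nat_lit 183) (nat_lit 0) (cs (nd (nat_lit 230) (nat_lit 0) (cs (lf (nat_lit 42) (nat_lit 163)) (nd (nat_lit 206) (nat_lit 0) (cs (lf (nat_lit 23) (nat_lit 182)) (nd (nat_lit 121) (nat_lit 0) (cs (lf (nat_lit 34) (nat_lit 120)) (nd (nat_lit 226) (nat_lit 0) (cs (lf (nat_lit 10) (nat_lit 204)) (rf (nat_lit 0)))))))))) (rf (nat_lit 1)))) q8666 (by decide +kernel)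
def q8685 : Q := Q.p (nat_lit 0x1a0000600001a0000400000000000000000000000000000000000) (nat_lit 0x1000005c0000500000c0000000009c0002700001400000000000000000000000) (nat_lit 10)
theorem c8685 : QOK q8685 := cut [q8660] ⟨c8660, trivial⟩ (nd (nat_lit 121) (nat_lit 0) (cs (lf (nat_lit 34) (nat_lit 120)) (nd (nat_lit 206) (nat_lit 0) (cs (lf (nat_lit 12) (nat_lit 182)) (nd (nat_lit 230) (nat_lit 0) (cs (lf (nat_lit 42) (nat_lit 163)) (nd (nat_lit 226) (nat_lit 0) (cs (lf (nat_lit 10) (nat_lit 204)) (nd (nat_lit 183) (nat_lit 0) (cs (lf (nat_lit 23) (nat_lit 182)) (rf (nat_lit 0)))))))))))) q8685 (by decide +kernel)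
def q8818 : Q := Q.p (nat_lit 0x2000000000010000040000100000000000000000000000000000000000000000) (nat_lit 0x100000c0000000001800002e0000a00000000000000000000000000000000000) (nat_lit 6)
theorem c8818 : QOK q8818 := cut [q8817] ⟨c8817, trivial⟩ (nd (nat_lit 230) (nat_lit 0) (cs (lf (nat_lit 28) (nat_lit 164)) (rf (nat_lit 0)))) q8818 (by decide +kernel)
def q8834 : Q := Q.p (nat_lit 0x78000040000000000000000000000000000000000000000000000) (nat_lit 0x31c0000700033e000000000000000000000000000000000000000000000) (nat_lit 7)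
theorem c8834 : QOK q8834 := cut [q117, q130, q173, q8831] ⟨c117, c130, c173, c8831, trivial⟩ (nd (nat_lit 206) (nat_lit 0) (cs (rf (nat_lit 0)) (cs (rf (nat_lit 1)) (cs (rf (nat_lit 2)) (nd (nat_lit 232) (nat_lit 0) (cs (lf (nat_lit 5) (nat_lit 207)) (nd (nat_lit 188) (nat_lit 0) (cs (lf (nat_lit 17) (nat_lit 185)) (rf (nat_lit 3)))))))))) q8834 (by decide +kernel)
def q8869 : Q := Q.p (nat_lit 0x2000008000030000040000000000000000000000000000000000000000000000) (nat_lit 0x600001c00034000008000780000600000000000000000000000000000000000000000) (nat_lit 6)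
theorem c8869 : QOK q8869 := cut [q358, q2980] ⟨c358, c2980, trivial⟩ (nd (nat_lit 187) (nat_lit 0) (cs (rf (nat_lit 0)) (rf (nat_lit 1)))) q8869 (by decide +kernel)
def q8915 : Q := Q.p (nat_lit 0x4000090000340000d0000000000000000000000000000000000000000000000) (nat_lit 0x800002000000000000000080006f8001f80006800000000000000000000000000000) (nat_lit 10)
theorem c8915 : QOK q8915 := cut [q8890] ⟨c8890, trivial⟩ (nd (nat_lit 161) (nat_lit 0) (cs (lf (nat_lit 46) (nat_lit 161)) (nd (nat_lit 162) (nat_lit 0) (cs (lf (nat_lit 47) (nat_lit 139)) (nd (nat_lit 249) (nat_lit 0) (cs (lf (nat_lit 41) (nat_lit 183)) (nd (nat_lit 141) (nat_lit 0) (cs (lf (nat_lit 34) (nat_lit 140)) (nd (nat_lit 140) (nat_lit 0) (cs (lf (nat_lit 35) (nat_lit 118)) (rf (nat_lit 0)))))))))))) q8915 (by decide +kernel)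
def q8986 : Q := Q.p (nat_lit 0x100000000001c00000000000000000000000000000000000) (nat_lit 0x40000000003c0000600001f8000280000a0000000000000000000) (nat_lit 7)
theorem c8986 : QOK q8986 := cut [q8967, q8975, q8980, q8984] ⟨c8967, c8975, c8980, c8984, trivial⟩ (nd (nat_lit 145) (nat_lit 0) (cs (rf (nat_lit 0)) (cs (rf (nat_lit 1)) (cs (rf (nat_lit 2)) (nd (nat_lit 123) (nat_lit 0) (cs (lf (nat_lit 17) (nat_lit 120)) (rf (nat_lit 3)))))))) q8986 (by decide +kernel)
def q9041 : Q := Q.p (nat_lit 0x100000c0000000001c00000000000000000000000000000000000) (nat_lit 0x2000000000398000600003b000000000000000000000000000000) (nat_lit 7)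
theorem c9041 : QOK q9041 := cut [q9039] ⟨c9039, trivial⟩ (nd (nat_lit 164) (nat_lit 0) (cs (lf (nat_lit 35) (nat_lit 120)) (nd (nat_lit 120) (nat_lit 0) (cs (lf (nat_lit 29) (nat_lit 120)) (rf (nat_lit 0)))))) q9041 (by decide +kernel)
def q9082 : Q := Q.p (nat_lit 0x100000c0000200000800000000000000000000000000000000000) (nat_lit 0x20000080000700001ec000710001df000378000df00006000018000000000000000000) (nat_lit 12)
theorem c9082 : QOK q9082 := cut [q9064, q8276, q5714, q9067, q9075, q9080] ⟨c9064, c8276, c5714, c9067, c9075, c9080, trivial⟩ (nd (nat_lit 142) (nat_lit 0) (cs (rf (nat_lit 0)) (cs (nd (nat_lit 209) (nat_lit 0) (cs (lf (nat_lit 47) (nat_lit 120)) (rf (nat_lit 1)))) (cs (nd (nat_lit 141) (nat_lit 0) (cs (rf (nat_lit 2)) (cs (nd (nat_lit 119) (nat_lit 0) (cs (lf (nat_lit 44) (nat_lit 119)) (nd (nat_lit 144) (nat_lit 0) (cs (lf (nat_lit 23) (nat_lit 118)) (rf (nat_lit 3)))))) (rf (nat_lit 4))))) (nd (nat_lit 141) (nat_lit 0) (cs (rf (nat_lit 2)) (cs (rf (nat_lit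 4)) (rf (nat_lit 5))))))))) q9082 (by decide +kernel)
def q9169 : Q := Q.p (nat_lit 0x10000040000000000c00000000000000000000000000000000000) (nat_lit 0xc000030001cf80073c003ff80003000000000000000000000000) (nat_lit 11)
theorem c9169 : QOK q9169 := cut [q8959, q5713, q5770, q8228, q9094, q5749, q9099, q9102, q9117, q8178, q9126, q9131, q9143, q9147, q9153, q9159, q9166, q5780] ⟨c8959, c5713, c5770, c8228, c9094, c5749, c9099, c9102, c9117, c8178, c9126, c9131, c9143, c9147, c9153, c9159, c9166, c5780, trivial⟩ (nd (nat_lit 141) (nat_lit 0) (cs (rf (nat_lit 0)) (cs (nd (nat_lit 140) (nat_lit 0) (cs (rf (nat_lit 1)) (cs (rf (nat_lit 2)) (cs (rf (nat_lit 3)) (nd (nat_lit 117) (nat_lit 0) (cs (lf (nat_lit 22) (nat_lit 117)) (nd (nat_lit 162) (nat_lit 0) (cs (lf (nat_lit 11) (nat_lit 139)) (nd (nat_lit 121) (nat_lit 0) (cs (lf (nat_lit 17) (nat_lit 118)) (rf (nat_lit 4)))))))))))) (cs (nd (nat_lit 144) (nat_lit 0) (cs (rf (nat_lit 5)) (cs (nd (nat_lit 162) (nat_lit 0) (cs (lf (nat_lit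 10) (nat_lit 140)) (rf (nat_lit 6)))) (nd (nat_lit 122) (nat_lit 0) (cs (lf (nat_lit 17) (nat_lit 119)) (rf (nat_lit 7))))))) (cs (nd (nat_lit 140) (nat_lit 0) (cs (rf (nat_lit 1)) (cs (rf (nat_lit 2)) (cs (rf (nat_lit 3)) (rf (nat_lit 8)))))) (cs (nd (nat_lit 144) (nat_lit 0) (cs (rf (nat_lit 5)) (cs (rf (nat_lit 9)) (cs (rf (nat_lit 10)) (rf (nat_lit 11)))))) (cs (nd (nat_lit 140) (nat_lit 0) (cs (rf (nat_lit 1)) (cs (rf (nat_lit 12)) (cs (rf (nat_lit 13)) (cs (rf (nat_lit 14)) (cs (rf (nat_lit 15)) (rf (nat_lit 16)))))))) (nd (nat_lit 144) (nat_lit 0) (cs (rf (nat_lit 5)) (cs (rf (nat_lit 17)) (rf (nat_lit 6)))))))))))) q9169 (by decide +kernel)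
def q9173 : Q := Q.p (nat_lit 0x100000c0000000000c00000000000000000000000000000000000) (nat_lit 0x2800002000018000000000300000e0000380000a0000000000000) (nat_lit 8)
theorem c9173 : QOK q9173 := cut [q9172] ⟨c9172, trivial⟩ (nd (nat_lit 164) (nat_lit 0) (cs (lf (nat_lit 35) (nat_lit 120)) (rf (nat_lit 0)))) q9173 (by decide +kernel)
def q9200 : Q := Q.p (nat_lit 0x100001c0000000000000000000000000000000000000000000000) (nat_lit 0x200003a0000620003c00001000004000000000000000000000000000000) (nat_lit 6)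
theorem c9200 : QOK q9200 := cut [q4705, q8028, q9055] ⟨c4705, c8028, c9055, trivial⟩ (nd (nat_lit 189) (nat_lit 0) (cs (rf (nat_lit 0)) (cs (rf (nat_lit 1)) (rf (nat_lit 2))))) q9200 (by decide +kernel)
def q9226 : Q := Q.p (nat_lit 0x100001c0000400000000000000000000000000000000000000000) (nat_lit 0x300003e0000000003a0000380000e0000380000a0000000000000000000) (nat_lit 6)
theorem c9226 : QOK q9226 := cut [q9208, q8034, q9211, q9217, q9222, q9225] ⟨c9208, c8034, c9211, c9217, c9222, c9225, trivial⟩ (nd (nat_lit 144) (nat_lit 0) (cs (rf (nat_lit 0)) (cs (nd (nat_lit 210) (nat_lit 0) (cs (rf (nat_lit 1)) (nd (nat_lit 121) (nat_lit 0) (cs (lf (nat_lit 46) (nat_lit 121)) (rf (nat_lit 2)))))) (cs (rf (nat_lit 3)) (cs (rf (nat_lit 4)) (rf (nat_lit 5))))))) q9226 (by decide +kernel)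
def q9245 : Q := Q.p (nat_lit 0x100001c0000400001000000000000000000000000000000000000) (nat_lit 0x340000e000002000030000280000a000000000000000000000000000000) (nat_lit 6)
theorem c9245 : QOK q9245 := cut [q9242] ⟨c9242, trivial⟩ (nd (nat_lit 210) (nat_lit 0) (cs (nd (nat_lit 123) (nat_lit 0) (cs (lf (nat_lit 34) (nat_lit 122)) (rf (nat_lit 0)))) (nd (nat_lit 211) (nat_lit 0) (cs (lf (nat_lit 29) (nat_lit 144)) (lf (nat_lit 0) (nat_lit 185)))))) q9245 (by decide +kernel)
def q9338 : Q := Q.p (nat_lit 0x10000040000100000000000000000000000000000000000000000) (nat_lit 0x10000040000200000a0000680000f8000380000e000038000000000000000000) (nat_lit 8)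
theorem c9338 : QOK q9338 := cut [q558, q626, q4800, q4866, q4904, q4929] ⟨c558, c626, c4800, c4866, c4904, c4929, trivial⟩ (nd (nat_lit 142) (nat_lit 0) (cs (rf (nat_lit 0)) (cs (rf (nat_lit 1)) (cs (rf (nat_lit 2)) (cs (rf (nat_lit 3)) (cs (rf (nat_lit 4)) (rf (nat_lit 5)))))))) q9338 (by decide +kernel)
def q9340 : Q := Q.p (nat_lit 0x78000040000000000000000000000000000000000000000000000) (nat_lit 0x1c0000700003e000000000000000000000000000000000000000000000) (nat_lit 6)
theorem c9340 : QOK q9340 := cut [q117, q130, q173, q8831] ⟨c117, c130, c173, c8831, trivial⟩ (nd (nat_lit 206) (nat_lit 0) (cs (rf (nat_lit 0)) (cs (rf (nat_lit 1)) (cs (rf (nat_lit 2)) (rf (nat_lit 3)))))) q9340 (by decide +kernel)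
def q9380 : Q := Q.p (nat_lit 0x70000000000000000000000000000000000000000000000000000) (nat_lit 0xc0000300001c0003780000c0003f8000180000600000000000000000000000000000000000) (nat_lit 12)
theorem c9380 : QOK q9380 := cut [q82, q87, q98, q9365, q5380, q1848, q9377] ⟨c82, c87, c98, c9365, c5380, c1848, c9377, trivial⟩ (nd (nat_lit 207) (nat_lit 0) (cs (rf (nat_lit 0)) (cs (rf (nat_lit 1)) (cs (rf (nat_lit 2)) (nd (nat_lit 229) (nat_lit 0) (cs (lf (nat_lit 11) (nat_lit 206)) (nd (nat_lit 164) (nat_lit 0) (cs (rf (nat_lit 3)) (cs (nd (nat_lit 232) (nat_lit 0) (cs (lf (nat_lit 5) (nat_lit 207)) (nd (nat_lit 185) (nat_lit 0) (cs (lf (nat_lit 23) (nat_lit 184)) (nd (nat_lit 188) (nat_lit 0) (cs (lf (nat_lit 17) (nat_lit 185)) (nd (nat_lit 163) (nat_lit 0) (cs (lf (nat_lit 35) (nat_lit 141)) (rf (nat_lit 4)))))))))) (cs (nd (nat_lit 232) (nat_lit 0) (cs (lf (nat_lit 5) (nat_lit 207)) (nd (nat_lit 188) (nat_lit 0) (cs (lf (nat_lit 17) (nat_lit 185)) (nd (nat_lit 185) (nat_lit 0) (cs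 (lf (nat_lit 23) (nat_lit 184)) (nd (nat_lit 251) (nat_lit 0) (cs (lf (nat_lit 34) (nat_lit 163)) (nd (nat_lit 272) (nat_lit 0) (cs (lf (nat_lit 40) (nat_lit 184)) (nd (nat_lit 273) (nat_lit 0) (cs (lf (nat_lit 41) (nat_lit 206)) (rf (nat_lit 5)))))))))))))) (rf (nat_lit 6)))))))))))) q9380 (by decide +kernel)
def q9415 : Q := Q.p (nat_lit 0x2000000000070000000000000000000000000000000000000000000000000000) (nat_lit 0x80000000001c000000000ff8003fc001ff80000000000000000000000000000000000) (nat_lit 13)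
theorem c9415 : QOK q9415 := cut [q1563, q2961, q9390, q9393, q8352, q9406, q9412, q9413] ⟨c1563, c2961, c9390, c9393, c8352, c9406, c9412, c9413, trivial⟩ (nd (nat_lit 231) (nat_lit 0) (cs (rf (nat_lit 0)) (cs (rf (nat_lit 1)) (nd (nat_lit 166) (nat_lit 0) (cs (nd (nat_lit 164) (nat_lit 0) (cs (nd (nat_lit 165) (nat_lit 0) (cs (nd (nat_lit 187) (nat_lit 0) (cs (lf (nat_lit 35) (nat_lit 143)) (lf (nat_lit 47) (nat_lit 142)))) (cs (nd (nat_lit 144) (nat_lit 0) (cs (nd (nat_lit 145) (nat_lit 0) (cs (lf (nat_lit 12) (nat_lit 141)) (nd (nat_lit 146) (nat_lit 0) (cs (lf (nat_lit 6) (nat_lit 143)) (lf (nat_lit 9) (nat_lit 142)))))) (lf (nat_lit 32) (nat_lit 143)))) (cs (rf (nat_lit 2)) (nd (nat_lit 163) (nat_lit 0) (cs (rf (nat_lit 3)) (cs (nd (nat_lit 184) (nat_lit 0) (cs (lf (nat_lit 10) (nat_lit 162)) (nd (nat_lit 162) (nat_lit 0) (cs (lf (nat_lit 11) (nat_lit 161)) (rf (nat_lit 4)))))) (rf (nat_lit 5))))))))) (cs (nd (nat_lit 186) (nat_lit 0) (cs (lf (nat_lit 45) (nat_lit 164))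 (lf (nat_lit 27) (nat_lit 164)))) (nd (nat_lit 186) (nat_lit 0) (cs (lf (nat_lit 24) (nat_lit 142)) (lf (nat_lit 27) (nat_lit 164))))))) (cs (rf (nat_lit 6)) (rf (nat_lit 7)))))))) q9415 (by decide +kernel)
def q9462 : Q := Q.p (nat_lit 0x2000000000070000000000000000000000000000000000000000000000000000) (nat_lit 0x68000180001fe000380001fb8001fc0007f0000e000028000000000000000000000000) (nat_lit 16)
theorem c9462 : QOK q9462 := cut [q689, q1604, q8148, q42, q9419, q8061, q9426, q7768, q9436, q9461] ⟨c689, c1604, c8148, c42, c9419, c8061, c9426, c7768, c9436, c9461, trivial⟩ (nd (nat_lit 188) (nat_lit 0) (cs (rf (nat_lit 0)) (cs (nd (nat_lit 231) (nat_lit 0) (cs (lf (nat_lit 30) (nat_lit 187)) (nd (nat_lit 211) (nat_lit 0) (cs (rf (nat_lit 1)) (cs (rf (nat_lit 2)) (nd (nat_lit 189) (nat_lit 0) (cs (rf (nat_lit 3)) (nd (nat_lit 230) (nat_lit 0) (cs (lf (nat_lit 11) (nat_lit 207)) (rf (nat_lit 4))))))))))) (cs (nd (nat_lit 211) (nat_lit 0) (cs (rf (nat_lit 5)) (cs (nd (nat_lit 190)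 (nat_lit 0) (cs (lf (nat_lit 16) (nat_lit 186)) (nd (nat_lit 229) (nat_lit 0) (cs (lf (nat_lit 10) (nat_lit 207)) (nd (nat_lit 212) (nat_lit 0) (cs (lf (nat_lit 17) (nat_lit 187)) (nd (nat_lit 213) (nat_lit 0) (cs (lf (nat_lit 23) (nat_lit 187)) (rf (nat_lit 6)))))))))) (nd (nat_lit 166) (nat_lit 0) (cs (nd (nat_lit 144) (nat_lit 0) (cs (lf (nat_lit 29) (nat_lit 144)) (nd (nat_lit 123) (nat_lit 0) (cs (lf (nat_lit 34) (nat_lit 122)) (nd (nat_lit 122) (nat_lit 0) (cs (lf (nat_lit 40) (nat_lit 121)) (lf (nat_lit 35) (nat_lit 100)))))))) (cs (nd (nat_lit 165) (nat_lit 0) (cs (nd (nat_lit 143) (nat_lit 0) (cs (lf (nat_lit 42) (nat_lit 143)) (rf (nat_lit 7)))) (cs (nd (nat_lit 190) (nat_lit 0) (cs (lf (nat_lit 16) (nat_lit 186)) (nd (nat_lit 191) (nat_lit 0) (cs (nd (nat_lit 167) (nat_lit 0) (cs (nd (nat_lit 145) (nat_lit 0) (cs (lf (nat_lit 30) (nat_lit 144)) (nd (nat_lit 101) (nat_lit 0) (cs (lf (nat_lit 37) (nat_lit 100)) (nd (nat_lit 229) (nat_lit 0) (cs (lf (nat_lit 10) (nat_lit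 207)) (nd (nat_lit 164) (nat_lit 0) (cs (lf (nat_lit 17) (nat_lit 142)) (nd (nat_lit 141) (nat_lit 0) (cs (lf (nat_lit 22) (nat_lit 141)) (nd (nat_lit 163) (nat_lit 0) (cs (lf (nat_lit 23) (nat_lit 140)) (rf (nat_lit 8)))))))))))))) (lf (nat_lit 3) (nat_lit 165)))) (lf (nat_lit 15) (nat_lit 187)))))) (cs (nd (nat_lit 190) (nat_lit 0) (cs (lf (nat_lit 16) (nat_lit 186)) (nd (nat_lit 191) (nat_lit 0) (cs (lf (nat_lit 15) (nat_lit 187)) (nd (nat_lit 167) (nat_lit 0) (cs (lf (nat_lit 3) (nat_lit 165)) (nd (nat_lit 232) (nat_lit 0) (cs (lf (nat_lit 35) (nat_lit 144)) (lf (nat_lit 47) (nat_lit 143)))))))))) (nd (nat_lit 190) (nat_lit 0) (cs (lf (nat_lit 16) (nat_lit 186)) (nd (nat_lit 212) (nat_lit 0) (cs (lf (nat_lit 17) (nat_lit 187)) (nd (nat_lit 187) (nat_lit 0) (cs (lf (nat_lit 18) (nat_lit 187)) (nd (nat_lit 230) (nat_lit 0) (cs (lf (nat_lit 11) (nat_lit 207)) (lf (nat_lit 36) (nat_lit 142)))))))))))))) (nd (nat_lit 189) (nat_lit 0) (cs (lf (nat_lit 17) (nat_lit 186)) (nd (nat_lit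 233) (nat_lit 0) (cs (lf (nat_lit 24) (nat_lit 144)) (lf (nat_lit 42) (nat_lit 166)))))))))))) (rf (nat_lit 9)))))) q9462 (by decide +kernel)
def q9474 : Q := Q.p (nat_lit 0x2000000000070000000000000000000000000000000000000000000000000000) (nat_lit 0x8000000000e8000180000ee0000100000400000000000000000000000000000000000) (nat_lit 5)
theorem c9474 : QOK q9474 := cut [q694, q9473] ⟨c694, c9473, trivial⟩ (nd (nat_lit 211) (nat_lit 0) (cs (rf (nat_lit 0)) (rf (nat_lit 1)))) q9474 (by decide +kernel)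
def q9487 : Q := Q.p (nat_lit 0x2000008000070000080000000000000000000000000000000000000000000000) (nat_lit 0x2000008000076000180000740001d00002000008000000000000000000000000000000) (nat_lit 10)
theorem c9487 : QOK q9487 := cut [q9483] ⟨c9483, trivial⟩ (nd (nat_lit 186) (nat_lit 0) (cs (lf (nat_lit 47) (nat_lit 164)) (nd (nat_lit 188) (nat_lit 0) (cs (lf (nat_lit 35) (nat_lit 165)) (nd (nat_lit 211) (nat_lit 0) (cs (lf (nat_lit 18) (nat_lit 186)) (nd (nat_lit 229) (nat_lit 0) (cs (lf (nat_lit 10) (nat_lit 207)) (rf (nat_lit 0)))))))))) q9487 (by decide +kernel)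
def q9513 : Q := Q.p (nat_lit 0xe000030000000000000000000000000000000000000000000000000000) (nat_lit 0xe00071800008000000000000000000000000000000000000000000000000000) (nat_lit 5)
theorem c9513 : QOK q9513 := cut [q9512] ⟨c9512, trivial⟩ (nd (nat_lit 228) (nat_lit 0) (cs (lf (nat_lit 12) (nat_lit 205)) (rf (nat_lit 0)))) q9513 (by decide +kernel)
def q9553 : Q := Q.p (nat_lit 0x300000c0000000000000000000000000000000000000000000000) (nat_lit 0x100002400018e000738001ce0001200004000000000000000000000000000000) (nat_lit 7)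
theorem c9553 : QOK q9553 := cut [q356, q8140, q2969, q7994, q9551] ⟨c356, c8140, c2969, c7994, c9551, trivial⟩ (nd (nat_lit 188) (nat_lit 0) (cs (rf (nat_lit 0)) (cs (rf (nat_lit 1)) (nd (nat_lit 185) (nat_lit 0) (cs (rf (nat_lit 2)) (cs (rf (nat_lit 3)) (rf (nat_lit 4)))))))) q9553 (by decide +kernel)
def q9576 : Q := Q.p (nat_lit 0x300000c0000000000000000000000000000000000000000000000) (nat_lit 0x1000004000000000738001fe0007f8001f800020000080000000000000000000) (nat_lit 12)
theorem c9576 : QOK q9576 := cut [q9554, q9567, q9557, q9572, q9575] ⟨c9554, c9567, c9557, c9572, c9575, trivial⟩ (nd (nat_lit 164) (nat_lit 0) (cs (rf (nat_lit 0)) (cs (rf (nat_lit 1)) (cs (nd (nat_lit 142) (nat_lit 0) (cs (lf (nat_lit 24) (nat_lit 120)) (rf (nat_lit 2)))) (cs (rf (nat_lit 3)) (rf (nat_lit 4))))))) q9576 (by decide +kernel)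
def q9641 : Q := Q.p (nat_lit 0x300000c0000000000000000000000000000000000000000000000) (nat_lit 0x100002600018e000738001fe0007c00007000000000000000000000000000000) (nat_lit 11)
theorem c9641 : QOK q9641 := cut [q356, q8140, q2226, q2969, q2224, q1916, q7086, q8418] ⟨c356, c8140, c2226, c2969, c2224, c1916, c7086, c8418, trivial⟩ (nd (nat_lit 188) (nat_lit 0) (cs (rf (nat_lit 0)) (cs (rf (nat_lit 1)) (nd (nat_lit 185) (nat_lit 0) (cs (rf (nat_lit 2)) (cs (rf (nat_lit 3)) (nd (nat_lit 165) (nat_lit 0) (cs (rf (nat_lit 4)) (cs (nd (nat_lit 207) (nat_lit 0) (cs (lf (nat_lit 12) (nat_lit 184)) (nd (nat_lit 166) (nat_lit 0) (cs (lf (nat_lit 17) (nat_lit 163)) (nd (nat_lit 144) (nat_lit 0) (cs (lf (nat_lit 36) (nat_lit 121)) (nd (nat_lit 163) (nat_lit 0) (cs (lf (nat_lit 23) (nat_lit 162)) (nd (nat_lit 230) (nat_lit 0) (cs (lf (nat_lit 30) (nat_lit 164)) (nd (nat_lit 164) (nat_lit 0) (cs (lf (nat_lit 17) (nat_lit 141)) (rf (nat_lit 5)))))))))))))) (nd (nat_lit 207) (nat_lit 0) (cs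 (rf (nat_lit 6)) (rf (nat_lit 7))))))))))))) q9641 (by decide +kernel)
def q9645 : Q := Q.p (nat_lit 0x2000008000030000000000000000000000000000000000000000000000000000) (nat_lit 0x60000180000000003000004c000140000000000000000000000000000000000000000000000) (nat_lit 6)
theorem c9645 : QOK q9645 := cut [q9644] ⟨c9644, trivial⟩ (nd (nat_lit 275) (nat_lit 0) (cs (lf (nat_lit 47) (nat_lit 186)) (rf (nat_lit 0)))) q9645 (by decide +kernel)
def q9651 : Q := Q.p (nat_lit 0x2000008000030000000000000000000000000000000000000000000000000000) (nat_lit 0x8000000000f70001c8000f80000400000000000000000000000000000000000000000) (nat_lit 6)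
theorem c9651 : QOK q9651 := cut [q2961, q2964, q9650] ⟨c2961, c2964, c9650, trivial⟩ (nd (nat_lit 210) (nat_lit 0) (cs (rf (nat_lit 0)) (cs (rf (nat_lit 1)) (rf (nat_lit 2))))) q9651 (by decide +kernel)
def q9674 : Q := Q.p (nat_lit 0x8000070000000000000000000000000000000000000000000000000000) (nat_lit 0x1000017c0018e000038000080000200000000000000000000000000000000000) (nat_lit 6)
theorem c9674 : QOK q9674 := cut [q186, q738, q760, q2938] ⟨c186, c738, c760, c2938, trivial⟩ (nd (nat_lit 207) (nat_lit 0) (cs (rf (nat_lit 0)) (cs (rf (nat_lit 1)) (cs (rf (nat_lit 2)) (rf (nat_lit 3)))))) q9674 (by decide +kernel)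
def q9696 : Q := Q.p (nat_lit 0x200000c000010000040000000000000000000000000000000000000000000000) (nat_lit 0xa00001c000300000000000a0000280000000000000000000000000000000000000000) (nat_lit 6)
theorem c9696 : QOK q9696 := cut [q2976] ⟨c2976, trivial⟩ (nd (nat_lit 252) (nat_lit 0) (cs (lf (nat_lit 29) (nat_lit 186)) (nd (nat_lit 165) (nat_lit 0) (cs (lf (nat_lit 34) (nat_lit 164)) (rf (nat_lit 0)))))) q9696 (by decide +kernel)

end Crest.Agent.H3.Snaky.CR
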