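import Crest.Agent.H3.Snaky.Cert
import Crest.Agent.H3.Snaky.CR.CR0
import Crest.Agent.H3.Snaky.CR.CR1
import Crest.Agent.H3.Snaky.CR.CR2
import Crest.Agent.H3.Snaky.CR.CR3
import Crest.Agent.H3.Snaky.CR.CR4
import Crest.Agent.H3.Snaky.CR.CR5
import Crest.Agent.H3.Snaky.CR.CR6
import Crest.Agent.H3.Snaky.CR.CR20
import Crest.Agent.H3.Snaky.CR.CR21
import Crest.Agent.H3.Snaky.CR.CR22
import Crest.Agent.H3.Snaky.CR.CR23
import Crest.Agent.H3.Snaky.CR.CR24
import Crest.Agent.H3.Snaky.CR.CR25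
import Crest.Agent.H3.Snaky.CR.CR39
import Crest.Agent.H3.Snaky.CR.CR40
import Crest.Agent.H3.Snaky.CR.CR41
import Crest.Agent.H3.Snaky.CR.CR42

set_option autoImplicit false
set_option maxRecDepth 100000

namespace Crest.Agent.H3.Snaky.CR

open T

def q9724 : Q := Q.p (nat_lit 0x300000e0000000000000000000000000000000000000000000000) (nat_lit 0x10000040000080001180000e0000200000800000000000000000000000000000) (nat_lit 6)
theorem c9724 : QOK q9724 := cut [q9723] ⟨c9723, trivial⟩ (nd (nat_lit 184) (nat_lit 0) (cs (lf (nat_lit 0) (nat_lit 183)) (rf (nat_lit 0)))) q9724 (by decide +kernel)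
def q9836 : Q := Q.p (nat_lit 0x30000040000000000000000000000000000000000000000000000) (nat_lit 0x88000330000cb800fbc001ff8003f0000fc00028000000000000000000000000) (nat_lit 14)
theorem c9836 : QOK q9836 := cut [q1170, q2175, q4753, q4772, q2135, q8433, q8790, q7537, q1981, q4639, q9732, q4659, q8354, q9823, q7508, q7632, q8407] ⟨c1170, c2175, c4753, c4772, c2135, c8433, c8790, c7537, c1981, c4639, c9732, c4659, c8354, c9823, c7508, c7632, c8407, trivial⟩ (nd (nat_lit 185) (nat_lit 0) (cs (rf (nat_lit 0)) (cs (rf (nat_lit 1)) (cs (nd (nat_lit 184) (nat_lit 0) (cs (rf (nat_lit 2)) (cs (rf (nat_lit 3)) (nd (nat_lit 187) (nat_lit 0) (cs (rf (nat_lit 4)) (cs (nd (nat_lit 166) (nat_lit 0) (cs (lf (nat_lit 16) (nat_lit 162)) (rf (nat_lit 5)))) (nd (nat_lit 162) (nat_lit 0) (cs (lf (nat_lit 23) (nat_lit 161)) (rf (nat_lit 6)))))))))) (nd (nat_lit 210) (nat_lit 0) (cs (lf (nat_lit 18) (nat_lit 185)) (nd (nat_lit 188) (nat_lit 0) (cs (rf (nat_lit 7))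 (cs (nd (nat_lit 207) (nat_lit 0) (cs (lf (nat_lit 17) (nat_lit 185)) (rf (nat_lit 8)))) (cs (nd (nat_lit 166) (nat_lit 0) (cs (nd (nat_lit 143) (nat_lit 0) (cs (rf (nat_lit 9)) (nd (nat_lit 232) (nat_lit 0) (cs (lf (nat_lit 46) (nat_lit 143)) (rf (nat_lit 10)))))) (cs (nd (nat_lit 144) (nat_lit 0) (cs (rf (nat_lit 11)) (cs (nd (nat_lit 145) (nat_lit 0) (cs (lf (nat_lit 35) (nat_lit 122)) (nd (nat_lit 232) (nat_lit 0) (cs (lf (nat_lit 34) (nat_lit 144)) (rf (nat_lit 10)))))) (nd (nat_lit 143) (nat_lit 0) (cs (lf (nat_lit 47) (nat_lit 121)) (nd (nat_lit 165) (nat_lit 0) (cs (lf (nat_lit 42) (nat_lit 143)) (nd (nat_lit 164) (nat_lit 0) (cs (lf (nat_lit 6) (nat_lit 163)) (nd (nat_lit 163) (nat_lit 0) (cs (lf (nat_lit 12) (nat_lit 140)) (rf (nat_lit 12))))))))))))) (cs (nd (nat_lit 167) (nat_lit 0) (cs (lf (nat_lit 14) (nat_lit 163)) (nd (nat_lit 165) (nat_lit 0) (cs (lf (nat_lit 9) (nat_lit 163)) (nd (nat_lit 143) (nat_lit 0) (cs (lf (nat_lit 42)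 (nat_lit 143)) (nd (nat_lit 121) (nat_lit 0) (cs (lf (nat_lit 45) (nat_lit 121)) (lf (nat_lit 24) (nat_lit 99)))))))))) (cs (nd (nat_lit 187) (nat_lit 0) (cs (lf (nat_lit 17) (nat_lit 163)) (nd (nat_lit 163) (nat_lit 0) (cs (lf (nat_lit 23) (nat_lit 162)) (nd (nat_lit 144) (nat_lit 0) (cs (lf (nat_lit 36) (nat_lit 121)) (nd (nat_lit 119) (nat_lit 0) (cs (lf (nat_lit 25) (nat_lit 119)) (nd (nat_lit 143) (nat_lit 0) (cs (lf (nat_lit 47) (nat_lit 121)) (rf (nat_lit 13)))))))))))) (nd (nat_lit 167) (nat_lit 0) (cs (lf (nat_lit 14) (nat_lit 163)) (nd (nat_lit 164) (nat_lit 0) (cs (lf (nat_lit 8) (nat_lit 163)) (nd (nat_lit 232) (nat_lit 0) (cs (lf (nat_lit 35) (nat_lit 144)) (rf (nat_lit 10))))))))))))) (nd (nat_lit 187) (nat_lit 0) (cs (rf (nat_lit 14)) (cs (rf (nat_lit 15)) (rf (nat_lit 16))))))))))))))) q9836 (by decide +kernel)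
def q9892 : Q := Q.p (nat_lit 0x2000008000030000080000000000000000000000000000000000000000000000) (nat_lit 0x4000000000140000600001c00003000004000000000000000000000000) (nat_lit 6)
theorem c9892 : QOK q9892 := cut [q9890] ⟨c9890, trivial⟩ (nd (nat_lit 166) (nat_lit 0) (cs (lf (nat_lit 34) (nat_lit 165)) (nd (nat_lit 165) (nat_lit 0) (cs (lf (nat_lit 35) (nat_lit 143)) (rf (nat_lit 0)))))) q9892 (by decide +kernel)
def q10008 : Q := Q.p (nat_lit 0xf0000080000000000000000000000000000000000000000000000) (nat_lit 0x7000000000077800180000700001c000050000000000000000000000000) (nat_lit 9)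
theorem c10008 : QOK q10008 := cut [q75, q9962, q9964] ⟨c75, c9962, c9964, trivial⟩ (nd (nat_lit 189) (nat_lit 0) (cs (lf (nat_lit 17) (nat_lit 186)) (nd (nat_lit 233) (nat_lit 0) (cs (lf (nat_lit 5) (nat_lit 208)) (nd (nat_lit 186) (nat_lit 0) (cs (rf (nat_lit 0)) (nd (nat_lit 167) (nat_lit 0) (cs (rf (nat_lit 1)) (cs (rf (nat_lit 2)) (nd (nat_lit 168) (nat_lit 0) (cs (lf (nat_lit 35) (nat_lit 145)) (lf (nat_lit 14) (nat_lit 164))))))))))))) q10008 (by decide +kernel)
def q10068 : Q := Q.p (nat_lit 0x2000008000030000080000000000000000000000000000000000000000000000) (nat_lit 0x200000800007c0011e00077c003c6000778001ce0006000010000000000000000000000000000000) (nat_lit 14)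
theorem c10068 : QOK q10068 := cut [q2624, q10018, q10029, q10048, q10062] ⟨c2624, c10018, c10029, c10048, c10062, trivial⟩ (nd (nat_lit 188) (nat_lit 0) (cs (lf (nat_lit 35) (nat_lit 165)) (nd (nat_lit 189) (nat_lit 0) (cs (lf (nat_lit 6) (nat_lit 186)) (nd (nat_lit 252) (nat_lit 0) (cs (lf (nat_lit 41) (nat_lit 186)) (nd (nat_lit 251) (nat_lit 0) (cs (rf (nat_lit 0)) (cs (nd (nat_lit 233) (nat_lit 0) (cs (nd (nat_lit 232) (nat_lit 0) (cs (lf (nat_lit 18) (nat_lit 208)) (lf (nat_lit 9) (nat_lit 229)))) (cs (nd (nat_lit 230) (nat_lit 0) (cs (rf (nat_lit 1)) (lf (nat_lit 7) (nat_lit 229)))) (cs (nd (nat_lit 211) (nat_lit 0) (cs (nd (nat_lit 167) (nat_lit 0) (cs (nd (nat_lit 168) (nat_lit 0) (cs (lf (nat_lit 35) (nat_lit 145)) (lf (nat_lit 12) (nat_lit 164)))) (cs (nd (nat_lit 212) (nat_lit 0) (cs (nd (nat_lit 234) (nat_lit 0) (cs (lf (nat_lit 29) (nat_lit 167)) (lf (nat_lit 24) (nat_lit 145)))) (lf (nat_lit 0) (nat_lit 186)))) (rf (nat_lit 2)))))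 (cs (nd (nat_lit 210) (nat_lit 0) (cs (lf (nat_lit 5) (nat_lit 208)) (nd (nat_lit 230) (nat_lit 0) (cs (lf (nat_lit 11) (nat_lit 207)) (nd (nat_lit 186) (nat_lit 0) (cs (lf (nat_lit 41) (nat_lit 185)) (lf (nat_lit 23) (nat_lit 185)))))))) (cs (nd (nat_lit 210) (nat_lit 0) (cs (lf (nat_lit 5) (nat_lit 208)) (nd (nat_lit 212) (nat_lit 0) (cs (lf (nat_lit 18) (nat_lit 187)) (lf (nat_lit 11) (nat_lit 208)))))) (nd (nat_lit 186) (nat_lit 0) (cs (lf (nat_lit 5) (nat_lit 186)) (nd (nat_lit 185) (nat_lit 0) (cs (lf (nat_lit 19) (nat_lit 185)) (nd (nat_lit 230) (nat_lit 0) (cs (lf (nat_lit 47) (nat_lit 163)) (lf (nat_lit 41) (nat_lit 185)))))))))))) (nd (nat_lit 234) (nat_lit 0) (cs (nd (nat_lit 211) (nat_lit 0) (cs (lf (nat_lit 2) (nat_lit 208)) (nd (nat_lit 186) (nat_lit 0) (cs (lf (nat_lit 5) (nat_lit 186)) (nd (nat_lit 167) (nat_lit 0) (cs (lf (nat_lit 17) (nat_lit 164)) (lf (nat_lit 29) (nat_lit 167)))))))) (lf (nat_lit 20) (nat_lit 208))))))))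 (nd (nat_lit 230) (nat_lit 0) (cs (rf (nat_lit 1)) (cs (nd (nat_lit 250) (nat_lit 0) (cs (lf (nat_lit 12) (nat_lit 227)) (nd (nat_lit 228) (nat_lit 0) (cs (lf (nat_lit 23) (nat_lit 227)) (nd (nat_lit 271) (nat_lit 0) (cs (lf (nat_lit 10) (nat_lit 249)) (rf (nat_lit 3)))))))) (cs (nd (nat_lit 250) (nat_lit 0) (cs (lf (nat_lit 12) (nat_lit 227)) (nd (nat_lit 228) (nat_lit 0) (cs (lf (nat_lit 23) (nat_lit 227)) (nd (nat_lit 271) (nat_lit 0) (cs (lf (nat_lit 10) (nat_lit 249)) (nd (nat_lit 229) (nat_lit 0) (cs (lf (nat_lit 17) (nat_lit 206)) (nd (nat_lit 206) (nat_lit 0) (cs (lf (nat_lit 23) (nat_lit 205)) (nd (nat_lit 184) (nat_lit 0) (cs (lf (nat_lit 24) (nat_lit 162)) (nd (nat_lit 185) (nat_lit 0) (cs (lf (nat_lit 35) (nat_lit 162)) (nd (nat_lit 183) (nat_lit 0) (cs (lf (nat_lit 47) (nat_lit 161)) (lf (nat_lit 3) (nat_lit 183)))))))))))))))))) (nd (nat_lit 249) (nat_lit 0) (cs (lf (nat_lit 13) (nat_lit 227)) (rf (nat_lit 4))))))))))))))))) q10068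 (by decide +kernel)
def q10107 : Q := Q.p (nat_lit 0x18000078000000000000000000000000000000000000000000000000000) (nat_lit 0x7000380000e00000000000000000000000000000000000000000000000) (nat_lit 5)
theorem c10107 : QOK q10107 := cut [q10106] ⟨c10106, trivial⟩ (nd (nat_lit 229) (nat_lit 0) (cs (lf (nat_lit 11) (nat_lit 206)) (rf (nat_lit 0)))) q10107 (by decide +kernel)
def q10155 : Q := Q.p (nat_lit 0x200000f0000000000400000000000000000000000000000000000000000) (nat_lit 0x10000000000660001800007000010000000000000000000000000000000) (nat_lit 6)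
theorem c10155 : QOK q10155 := cut [q10154] ⟨c10154, trivial⟩ (nd (nat_lit 185) (nat_lit 0) (cs (lf (nat_lit 22) (nat_lit 185)) (rf (nat_lit 0)))) q10155 (by decide +kernel)
def q10319 : Q := Q.p (nat_lit 0x300000c0000000000000000000000000000000000000000000000) (nat_lit 0x2600018c000720003f00007e0003fc00020000080000000000000000000) (nat_lit 13)
theorem c10319 : QOK q10319 := cut [q356, q8140, q9616, q9591, q9612, q9613] ⟨c356, c8140, c9616, c9591, c9612, c9613, trivial⟩ (nd (nat_lit 188) (nat_lit 0) (cs (rf (nat_lit 0)) (cs (rf (nat_lit 1)) (nd (nat_lit 142) (nat_lit 0) (cs (rf (nat_lit 2)) (cs (nd (nat_lit 207) (nat_lit 0) (cs (lf (nat_lit 12) (nat_lit 184)) (nd (nat_lit 164) (nat_lit 0) (cs (lf (nat_lit 41) (nat_lit 141)) (nd (nat_lit 119) (nat_lit 0) (cs (lf (nat_lit 46) (nat_lit 119)) (rf (nat_lit 3)))))))) (cs (nd (nat_lit 143) (nat_lit 0) (cs (rf (nat_lit 4)) (cs (rf (nat_lit 5)) (nd (nat_lit 165) (nat_lit 0) (cs (lf (nat_lit 36) (nat_lit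 120)) (lf (nat_lit 41) (nat_lit 142))))))) (nd (nat_lit 207) (nat_lit 0) (cs (lf (nat_lit 12) (nat_lit 184)) (nd (nat_lit 164) (nat_lit 0) (cs (lf (nat_lit 41) (nat_lit 141)) (lf (nat_lit 24) (nat_lit 120))))))))))))) q10319 (by decide +kernel)
def q10338 : Q := Q.p (nat_lit 0x300000c0000000000000000000000000000000000000000000000) (nat_lit 0x600000e0001200007e0007f80007800002000000000000000000000000) (nat_lit 8)
theorem c10338 : QOK q10338 := cut [q8302, q9575, q4806, q10329] ⟨c8302, c9575, c4806, c10329, trivial⟩ (nd (nat_lit 164) (nat_lit 0) (cs (rf (nat_lit 0)) (cs (rf (nat_lit 1)) (nd (nat_lit 163) (nat_lit 0) (cs (rf (nat_lit 2)) (cs (nd (nat_lit 162) (nat_lit 0) (cs (lf (nat_lit 0) (nat_lit 161)) (nd (nat_lit 141) (nat_lit 0) (cs (lf (nat_lit 42) (nat_lit 141)) (nd (nat_lit 97) (nat_lit 0) (cs (nd (nat_lit 165) (nat_lit 0) (cs (lf (nat_lit 5) (nat_lit 162)) (rf (nat_lit 3)))) (lf (nat_lit 25) (nat_lit 97)))))))) (nd (nat_lit 162) (nat_lit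 0) (cs (lf (nat_lit 0) (nat_lit 161)) (nd (nat_lit 188) (nat_lit 0) (cs (lf (nat_lit 21) (nat_lit 162)) (lf (nat_lit 3) (nat_lit 162)))))))))))) q10338 (by decide +kernel)
def q10374 : Q := Q.p (nat_lit 0x2000008000030000080000000000000000000000000000000000000000000000) (nat_lit 0x14000040000140000300001c00006000010000000000000000000000000) (nat_lit 7)
theorem c10374 : QOK q10374 := cut [q10372] ⟨c10372, trivial⟩ (nd (nat_lit 164) (nat_lit 0) (cs (lf (nat_lit 46) (nat_lit 164)) (nd (nat_lit 165) (nat_lit 0) (cs (lf (nat_lit 47) (nat_lit 142)) (rf (nat_lit 0)))))) q10374 (by decide +kernel)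
def q10453 : Q := Q.p (nat_lit 0x300000c0000000000000000000000000000000000000000000000) (nat_lit 0x6000018000060000000003200003e0000e00003000000000000000000000000000000) (nat_lit 6)
theorem c10453 : QOK q10453 := cut [q6912, q10424, q4951, q10428] ⟨c6912, c10424, c4951, c10428, trivial⟩ (nd (nat_lit 230) (nat_lit 0) (cs (rf (nat_lit 0)) (cs (rf (nat_lit 1)) (nd (nat_lit 164) (nat_lit 0) (cs (rf (nat_lit 2)) (rf (nat_lit 3))))))) q10453 (by decide +kernel)
def q10491 : Q := Q.p (nat_lit 0x20000000000300000c0000000000000000000000000000000000000000000000) (nat_lit 0x8000040000738003f80000000000000000000000000000000000000000) (nat_lit 6)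
theorem c10491 : QOK q10491 := cut [q2648, q8144, q10490] ⟨c2648, c8144, c10490, trivial⟩ (nd (nat_lit 188) (nat_lit 0) (cs (rf (nat_lit 0)) (cs (rf (nat_lit 1)) (rf (nat_lit 2))))) q10491 (by decide +kernel)
def q10494 : Q := Q.p (nat_lit 0x20000000000300000c0000000000000000000000000000000000000000000000) (nat_lit 0x28000180000720003f80001000004000000000000000000000000000000) (nat_lit 7)
theorem c10494 : QOK q10494 := cut [q2648, q8140, q10490] ⟨c2648, c8140, c10490, trivial⟩ (nd (nat_lit 188) (nat_lit 0) (cs (rf (nat_lit 0)) (cs (rf (nat_lit 1)) (rf (nat_lit 2))))) q10494 (by decide +kernel)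
def q10513 : Q := Q.p (nat_lit 0x20000080000300000c0000000000000000000000000000000000000000000000) (nat_lit 0x1c00007380004e0000000000000000000000000000000000000000) (nat_lit 7)
theorem c10513 : QOK q10513 := cut [q10512] ⟨c10512, trivial⟩ (nd (nat_lit 188) (nat_lit 0) (cs (lf (nat_lit 35) (nat_lit 165)) (rf (nat_lit 0)))) q10513 (by decide +kernel)
def q10527 : Q := Q.p (nat_lit 0x2000000000030000080000000000000000000000000000000000000000000000) (nat_lit 0x40000100000c000000000040000700001c00007000014000000000000000000000000) (nat_lit 6)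
theorem c10527 : QOK q10527 := cut [q1948, q10496, q7587, q10401] ⟨c1948, c10496, c7587, c10401, trivial⟩ (nd (nat_lit 165) (nat_lit 0) (cs (rf (nat_lit 0)) (cs (rf (nat_lit 1)) (cs (nd (nat_lit 143) (nat_lit 0) (cs (rf (nat_lit 2)) (cs (rf (nat_lit 3)) (nd (nat_lit 121) (nat_lit 0) (cs (lf (nat_lit 40) (nat_lit 120)) (nd (nat_lit 122) (nat_lit 0) (cs (lf (nat_lit 35) (nat_lit 99)) (lf (nat_lit 34) (nat_lit 121))))))))) (nd (nat_lit 143) (nat_lit 0) (cs (lf (nat_lit 41) (nat_lit 142)) (nd (nat_lit 122) (nat_lit 0) (cs (lf (nat_lit 34) (nat_lit 121)) (nd (nat_lit 121) (nat_lit 0) (cs (lf (nat_lit 35) (nat_lit 99)) (lf (nat_lit 40) (nat_lit 120)))))))))))) q10527 (by decide +kernel)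
def q10587 : Q := Q.p (nat_lit 0x2000000000030000080000000000000000000000000000000000000000000000) (nat_lit 0x40000100000c000000000100001f00001f0001f00001c000030000040000000000000) (nat_lit 12)
theorem c10587 : QOK q10587 := cut [q1948, q10396, q796, q7758, q10569, q10575, q2204] ⟨c1948, c10396, c796, c7758, c10569, c10575, c2204, trivial⟩ (nd (nat_lit 165) (nat_lit 0) (cs (rf (nat_lit 0)) (cs (rf (nat_lit 1)) (cs (nd (nat_lit 230) (nat_lit 0) (cs (rf (nat_lit 2)) (lf (nat_lit 36) (nat_lit 142)))) (nd (nat_lit 142) (nat_lit 0) (cs (nd (nat_lit 120) (nat_lit 0) (cs (lf (nat_lit 45) (nat_lit 120)) (nd (nat_lit 164) (nat_lit 0) (cs (lf (nat_lit 24) (nat_lit 98)) (lf (nat_lit 42) (nat_lit 142)))))) (cs (nd (nat_lit 143) (nat_lit 0) (cs (lf (nat_lit 47) (nat_lit 120)) (nd (nat_lit 166) (nat_lit 0) (cs (rf (nat_lit 3)) (cs (nd (nat_lit 122) (nat_lit 0) (cs (lf (nat_lit 34) (nat_lit 121)) (nd (nat_lit 121) (nat_lit 0) (cs (lf (nat_lit 35) (nat_lit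 99)) (nd (nat_lit 140) (nat_lit 0) (cs (nd (nat_lit 123) (nat_lit 0) (cs (lf (nat_lit 6) (nat_lit 120)) (rf (nat_lit 4)))) (lf (nat_lit 1) (nat_lit 140)))))))) (cs (nd (nat_lit 144) (nat_lit 0) (cs (lf (nat_lit 35) (nat_lit 121)) (rf (nat_lit 5)))) (nd (nat_lit 122) (nat_lit 0) (cs (lf (nat_lit 34) (nat_lit 121)) (nd (nat_lit 121) (nat_lit 0) (cs (lf (nat_lit 35) (nat_lit 99)) (nd (nat_lit 167) (nat_lit 0) (cs (lf (nat_lit 18) (nat_lit 142)) (rf (nat_lit 4)))))))))))))) (cs (nd (nat_lit 231) (nat_lit 0) (cs (lf (nat_lit 46) (nat_lit 142)) (rf (nat_lit 6)))) (nd (nat_lit 143) (nat_lit 0) (cs (lf (nat_lit 47) (nat_lit 120)) (nd (nat_lit 144) (nat_lit 0) (cs (lf (nat_lit 35) (nat_lit 121)) (nd (nat_lit 166) (nat_lit 0) (cs (lf (nat_lit 30) (nat_lit 143)) (rf (nat_lit 5)))))))))))))))) q10587 (by decide +kernel)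
def q10654 : Q := Q.p (nat_lit 0x2000000000030000040000000000000000000000000000000000000000000000) (nat_lit 0x180000e000008000080000300000e0000380000e000020000000000000000000) (nat_lit 8)
theorem c10654 : QOK q10654 := cut [q517, q660, q1668, q558, q2906, q4800, q4904] ⟨c517, c660, c1668, c558, c2906, c4800, c4904, trivial⟩ (nd (nat_lit 164) (nat_lit 0) (cs (rf (nat_lit 0)) (cs (rf (nat_lit 1)) (cs (rf (nat_lit 2)) (nd (nat_lit 142) (nat_lit 0) (cs (rf (nat_lit 3)) (cs (rf (nat_lit 4)) (cs (rf (nat_lit 5)) (rf (nat_lit 6)))))))))) q10654 (by decide +kernel)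
def q10655 : Q := Q.p (nat_lit 0x2000000000030000040000000000000000000000000000000000000000000000) (nat_lit 0x1c0000c8000fb8000500001400000000000000000000000000000000000) (nat_lit 6)
theorem c10655 : QOK q10655 := cut [q1562, q8507] ⟨c1562, c8507, trivial⟩ (nd (nat_lit 231) (nat_lit 0) (cs (rf (nat_lit 0)) (rf (nat_lit 1)))) q10655 (by decide +kernel)
def q10661 : Q := Q.p (nat_lit 0x2000008000030000080000000000000000000000000000000000000000000000) (nat_lit 0x40000700001c00007000004000000000000000000000000) (nat_lit 6)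
theorem c10661 : QOK q10661 := cut [q1578, q4298, q7589, q10660] ⟨c1578, c4298, c7589, c10660, trivial⟩ (nd (nat_lit 165) (nat_lit 0) (cs (rf (nat_lit 0)) (cs (rf (nat_lit 1)) (cs (rf (nat_lit 2)) (rf (nat_lit 3)))))) q10661 (by decide +kernel)
def q10667 : Q := Q.p (nat_lit 0x2000008000030000080000000000000000000000000000000000000000000000) (nat_lit 0x600001c00073c001ce00075c000300000800000000000000000000000000000000000) (nat_lit 9)
theorem c10667 : QOK q10667 := cut [q119, q1468, q139, q7685, q10665] ⟨c119, c1468, c139, c7685, c10665, trivial⟩ (nd (nat_lit 207) (nat_lit 0) (cs (rf (nat_lit 0)) (cs (rf (nat_lit 1)) (nd (nat_lit 210) (nat_lit 0) (cs (rf (nat_lit 2)) (cs (rf (nat_lit 3)) (rf (nat_lit 4)))))))) q10667 (by decide +kernel)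
def q10672 : Q := Q.p (nat_lit 0x8000078000000000000000000000000000000000000000000000000000) (nat_lit 0xe4000180000700000000000000000000000000000000000000000000000) (nat_lit 5)
theorem c10672 : QOK q10672 := cut [q10671] ⟨c10671, trivial⟩ (nd (nat_lit 189) (nat_lit 0) (cs (lf (nat_lit 16) (nat_lit 185)) (rf (nat_lit 0)))) q10672 (by decide +kernel)
def q10789 : Q := Q.p (nat_lit 0x2000004000030000000000000000000000000000000000000000000000000000) (nat_lit 0x10000080000c80000f8000380000e00003800006000000000000000000000000) (nat_lit 8)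
theorem c10789 : QOK q10789 := cut [q3797, q8578, q7776] ⟨c3797, c8578, c7776, trivial⟩ (nd (nat_lit 186) (nat_lit 0) (cs (rf (nat_lit 0)) (cs (rf (nat_lit 1)) (cs (nd (nat_lit 164) (nat_lit 0) (cs (lf (nat_lit 28) (nat_lit 164)) (nd (nat_lit 143) (nat_lit 0) (cs (lf (nat_lit 34) (nat_lit 142)) (nd (nat_lit 142) (nat_lit 0) (cs (lf (nat_lit 35) (nat_lit 120)) (nd (nat_lit 120) (nat_lit 0) (cs (lf (nat_lit 28) (nat_lit 120)) (nd (nat_lit 185) (nat_lit 0) (cs (lf (nat_lit 41) (nat_lit 119)) (nd (nat_lit 163) (nat_lit 0) (cs (lf (nat_lit 42) (nat_lit 163)) (lf (nat_lit 36) (nat_lit 97)))))))))))))) (nd (nat_lit 164) (nat_lit 0) (cs (lf (nat_lit 28) (nat_lit 164)) (nd (nat_lit 143) (nat_lit 0) (cs (lf (nat_lit 34) (nat_lit 142)) (rf (nat_lit 2)))))))))) q10789 (by decide +kernel)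
def q10794 : Q := Q.p (nat_lit 0x6000038000000000000000000000000000000000000000000000000000) (nat_lit 0x380000c700001c000000000000000000000000000000000000000000000) (nat_lit 6)
theorem c10794 : QOK q10794 := cut [q10792] ⟨c10792, trivial⟩ (nd (nat_lit 210) (nat_lit 0) (cs (lf (nat_lit 6) (nat_lit 207)) (nd (nat_lit 232) (nat_lit 0) (cs (lf (nat_lit 5) (nat_lit 207)) (rf (nat_lit 0)))))) q10794 (by decide +kernel)
def q10823 : Q := Q.p (nat_lit 0x3000006000030000000000000000000000000000000000000000000000000000) (nat_lit 0x60000380000f80019c0000f8000bc0002c0000300000000000000000000000000000000000) (nat_lit 10)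
theorem c10823 : QOK q10823 := cut [q1267, q10810, q1074, q1347, q10807, q10815, q1076, q10791, q1079] ⟨c1267, c10810, c1074, c1347, c10807, c10815, c1076, c10791, c1079, trivial⟩ (nd (nat_lit 206) (nat_lit 0) (cs (nd (nat_lit 228) (nat_lit 0) (cs (lf (nat_lit 0) (nat_lit 227)) (rf (nat_lit 0)))) (cs (nd (nat_lit 228) (nat_lit 0) (cs (lf (nat_lit 12) (nat_lit 205)) (nd (nat_lit 231) (nat_lit 0) (cs (lf (nat_lit 23) (nat_lit 205)) (nd (nat_lit 165) (nat_lit 0) (cs (lf (nat_lit 37) (nat_lit 164)) (rf (nat_lit 1)))))))) (cs (nd (nat_lit 207) (nat_lit 0) (cs (rf (nat_lit 2)) (cs (rf (nat_lit 3)) (cs (rf (nat_lit 4)) (nd (nat_lit 183) (nat_lit 0) (cs (lf (nat_lit 22) (nat_lit 183)) (nd (nat_lit 228) (nat_lit 0) (cs (lf (nat_lit 12) (nat_lit 205)) (nd (nat_lit 231) (nat_lit 0) (cs (lf (nat_lit 5) (nat_lit 206)) (nd (nat_lit 165) (nat_lit 0) (cs (lf (nat_lit 37) (nat_lit 164)) (rf (nat_lit 5)))))))))))))) (cs (nd (nat_lit 207) (nat_lit 0) (cs (rf (nat_lit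 6)) (cs (rf (nat_lit 3)) (rf (nat_lit 7))))) (nd (nat_lit 207) (nat_lit 0) (cs (rf (nat_lit 8)) (cs (rf (nat_lit 7)) (rf (nat_lit 4)))))))))) q10823 (by decide +kernel)
def q10913 : Q := Q.p (nat_lit 0x2000004000030000000000000000000000000000000000000000000000000000) (nat_lit 0x200000e00003c0000780001f80003c000cf8000f80003c0000e0000380000a000000000000000000000000) (nat_lit 12)
theorem c10913 : QOK q10913 := cut [q1178, q3077, q2175, q9783, q10352, q448, q10862, q10877, q8578, q10824, q10885, q10062, q1081, q10890, q1082, q10901, q10904] ⟨c1178, c3077, c2175, c9783, c10352, c448, c10862, c10877, c8578, c10824, c10885, c10062, c1081, c10890, c1082, c10901, c10904, trivial⟩ (nd (nat_lit 229) (nat_lit 0) (cs (rf (nat_lit 0)) (cs (nd (nat_lit 186) (nat_lit 0) (cs (nd (nat_lit 228) (nat_lit 0) (cs (rf (nat_lit 1)) (nd (nat_lit 185) (nat_lit 0) (cs (rf (nat_lit 2)) (cs (rf (nat_lit 3)) (nd (nat_lit 210) (nat_lit 0) (cs (lf (nat_lit 6) (nat_lit 207))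 (nd (nat_lit 184) (nat_lit 0) (cs (lf (nat_lit 0) (nat_lit 183)) (nd (nat_lit 163) (nat_lit 0) (cs (lf (nat_lit 42) (nat_lit 163)) (nd (nat_lit 206) (nat_lit 0) (cs (lf (nat_lit 30) (nat_lit 162)) (rf (nat_lit 4))))))))))))))) (cs (nd (nat_lit 164) (nat_lit 0) (cs (lf (nat_lit 41) (nat_lit 163)) (rf (nat_lit 5)))) (cs (nd (nat_lit 210) (nat_lit 0) (cs (lf (nat_lit 6) (nat_lit 207)) (nd (nat_lit 227) (nat_lit 0) (cs (lf (nat_lit 13) (nat_lit 205)) (rf (nat_lit 6)))))) (cs (nd (nat_lit 210) (nat_lit 0) (cs (lf (nat_lit 6) (nat_lit 207)) (nd (nat_lit 227) (nat_lit 0) (cs (lf (nat_lit 13) (nat_lit 205)) (nd (nat_lit 164) (nat_lit 0) (cs (lf (nat_lit 41) (nat_lit 163)) (nd (nat_lit 143) (nat_lit 0) (cs (lf (nat_lit 34) (nat_lit 142)) (nd (nat_lit 142) (nat_lit 0) (cs (lf (nat_lit 35) (nat_lit 120)) (nd (nat_lit 187) (nat_lit 0) (cs (lf (nat_lit 24) (nat_lit 120)) (nd (nat_lit 185) (nat_lit 0) (cs (lf (nat_lit 0) (nat_lit 184)) (nd (nat_lit 252) (nat_lit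 0) (cs (lf (nat_lit 47) (nat_lit 163)) (lf (nat_lit 30) (nat_lit 186)))))))))))))))))) (nd (nat_lit 210) (nat_lit 0) (cs (lf (nat_lit 6) (nat_lit 207)) (nd (nat_lit 227) (nat_lit 0) (cs (lf (nat_lit 13) (nat_lit 205)) (rf (nat_lit 7))))))))))) (cs (nd (nat_lit 186) (nat_lit 0) (cs (rf (nat_lit 8)) (cs (rf (nat_lit 7)) (nd (nat_lit 210) (nat_lit 0) (cs (lf (nat_lit 6) (nat_lit 207)) (nd (nat_lit 164) (nat_lit 0) (cs (lf (nat_lit 41) (nat_lit 163)) (nd (nat_lit 143) (nat_lit 0) (cs (lf (nat_lit 34) (nat_lit 142)) (nd (nat_lit 142) (nat_lit 0) (cs (lf (nat_lit 35) (nat_lit 120)) (lf (nat_lit 40) (nat_lit 141))))))))))))) (nd (nat_lit 252) (nat_lit 0) (cs (rf (nat_lit 9)) (cs (nd (nat_lit 227) (nat_lit 0) (cs (lf (nat_lit 13) (nat_lit 205)) (rf (nat_lit 10)))) (cs (nd (nat_lit 251) (nat_lit 0) (cs (rf (nat_lit 11)) (cs (nd (nat_lit 250) (nat_lit 0) (cs (nd (nat_lit 227) (nat_lit 0) (cs (rf (nat_lit 12)) (lf (nat_lit 13) (nat_lit 205)))) (rf (nat_lit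 13)))) (nd (nat_lit 227) (nat_lit 0) (cs (lf (nat_lit 1) (nat_lit 227)) (nd (nat_lit 186) (nat_lit 0) (cs (lf (nat_lit 36) (nat_lit 163)) (nd (nat_lit 165) (nat_lit 0) (cs (lf (nat_lit 34) (nat_lit 164)) (nd (nat_lit 185) (nat_lit 0) (cs (lf (nat_lit 47) (nat_lit 163)) (nd (nat_lit 184) (nat_lit 0) (cs (lf (nat_lit 0) (nat_lit 183)) (nd (nat_lit 207) (nat_lit 0) (cs (rf (nat_lit 14)) (lf (nat_lit 47) (nat_lit 162))))))))))))))))) (nd (nat_lit 185) (nat_lit 0) (cs (nd (nat_lit 163) (nat_lit 0) (cs (lf (nat_lit 45) (nat_lit 163)) (lf (nat_lit 26) (nat_lit 163)))) (cs (nd (nat_lit 227) (nat_lit 0) (cs (lf (nat_lit 13) (nat_lit 205)) (nd (nat_lit 186) (nat_lit 0) (cs (lf (nat_lit 47) (nat_lit 163)) (rf (nat_lit 15)))))) (nd (nat_lit 227) (nat_lit 0) (cs (lf (nat_lit 13) (nat_lit 205)) (nd (nat_lit 274) (nat_lit 0) (cs (lf (nat_lit 46) (nat_lit 185)) (nd (nat_lit 295) (nat_lit 0) (cs (lf (nat_lit 40) (nat_lit 207)) (nd (nat_lit 296) (nat_lit 0) (cs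 (lf (nat_lit 41) (nat_lit 229)) (nd (nat_lit 318) (nat_lit 0) (cs (rf (nat_lit 16)) (lf (nat_lit 46) (nat_lit 229))))))))))))))))))))))) q10913 (by decide +kernel)
def q10944 : Q := Q.p (nat_lit 0x3800004000030000000000000000000000000000000000000000000000000000) (nat_lit 0x800003c000060001bc00046000010000000000000000000000000000000000000000000000) (nat_lit 7)
theorem c10944 : QOK q10944 := cut [q2065, q3187, q10048] ⟨c2065, c3187, c10048, trivial⟩ (nd (nat_lit 250) (nat_lit 0) (cs (rf (nat_lit 0)) (cs (rf (nat_lit 1)) (nd (nat_lit 228) (nat_lit 0) (cs (lf (nat_lit 23) (nat_lit 227)) (nd (nat_lit 231) (nat_lit 0) (cs (lf (nat_lit 17) (nat_lit 228)) (rf (nat_lit 2))))))))) q10944 (by decide +kernel)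
def q11001 : Q := Q.p (nat_lit 0x300000c000030000000000000000000000000000000000000000000000000000) (nat_lit 0x18000078000000001000000e000020000000000000000000000000000000000000000000000) (nat_lit 6)
theorem c11001 : QOK q11001 := cut [q2955] ⟨c2955, trivial⟩ (nd (nat_lit 274) (nat_lit 0) (cs (lf (nat_lit 30) (nat_lit 208)) (rf (nat_lit 0)))) q11001 (by decide +kernel)
def q11005 : Q := Q.p (nat_lit 0x300000c000010000000000000000000000000000000000000000000000000000) (nat_lit 0x200000c00030000000000060000180000000000000000000000000000000000000000) (nat_lit 5)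
theorem c11005 : QOK q11005 := cut [q2976] ⟨c2976, trivial⟩ (nd (nat_lit 186) (nat_lit 0) (cs (lf (nat_lit 24) (nat_lit 164)) (rf (nat_lit 0)))) q11005 (by decide +kernel)
def q11013 : Q := Q.p (nat_lit 0x3000004000030000000000000000000000000000000000000000000000000000) (nat_lit 0x20000080000380000f0000b8000c80000e0000380000800000000000000000000000000000000000) (nat_lit 7)
theorem c11013 : QOK q11013 := cut [q1178, q1251, q25, q434, q10062, q1058] ⟨c1178, c1251, c25, c434, c10062, c1058, trivial⟩ (nd (nat_lit 229) (nat_lit 0) (cs (rf (nat_lit 0)) (cs (rf (nat_lit 1)) (nd (nat_lit 186) (nat_lit 0) (cs (rf (nat_lit 2)) (cs (rf (nat_lit 3)) (nd (nat_lit 251) (nat_lit 0) (cs (rf (nat_lit 4)) (nd (nat_lit 250) (nat_lit 0) (cs (rf (nat_lit 5)) (nd (nat_lit 272) (nat_lit 0) (cs (lf (nat_lit 11) (nat_lit 249)) (nd (nat_lit 185) (nat_lit 0) (cs (lf (nat_lit 47) (nat_lit 163)) (lf (nat_lit 37) (nat_lit 184)))))))))))))))) q11013 (by decide +kernel)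
def q11161 : Q := Q.p (nat_lit 0x800002000018000000000000000000000000000000000000000000000000000) (nat_lit 0x400001c0000700001400004000000000020000080000200000000000000000000000000000000000) (nat_lit 6)
theorem c11161 : QOK q11161 := cut [q1845, q1850, q9858] ⟨c1845, c1850, c9858, trivial⟩ (nd (nat_lit 273) (nat_lit 0) (cs (rf (nat_lit 0)) (cs (rf (nat_lit 1)) (rf (nat_lit 2))))) q11161 (by decide +kernel)
def q11454 : Q := Q.p (nat_lit 0x1e000000000000000000000000000000000000000000000000000) (nat_lit 0x100000700005c0001f0000d80000100007f8001fc0007f8001f00005400000000000000000000000) (nat_lit 15)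
theorem c11454 : QOK q11454 := cut [q11356, q126, q1621, q8660, q11402, q11414, q11430, q11440, q11444, q11451] ⟨c11356, c126, c1621, c8660, c11402, c11414, c11430, c11440, c11444, c11451, trivial⟩ (nd (nat_lit 185) (nat_lit 0) (cs (rf (nat_lit 0)) (cs (nd (nat_lit 204) (nat_lit 0) (cs (rf (nat_lit 1)) (lf (nat_lit 17) (nat_lit 182)))) (nd (nat_lit 163) (nat_lit 0) (cs (rf (nat_lit 2)) (cs (nd (nat_lit 183) (nat_lit 0) (cs (lf (nat_lit 23) (nat_lit 182)) (nd (nat_lit 161) (nat_lit 0) (cs (rf (nat_lit 3)) (cs (nd (nat_lit 227) (nat_lit 0) (cs (nd (nat_lit 162) (nat_lit 0) (cs (lf (nat_lit 35) (nat_lit 139)) (nd (nat_lit 249) (nat_lit 0) (cs (lf (nat_lit 34) (nat_lit 161)) (nd (nat_lit 270) (nat_lit 0) (cs (lf (nat_lit 40) (nat_lit 182)) (nd (nat_lit 271) (nat_lit 0) (cs (lf (nat_lit 41) (nat_lit 204)) (nd (nat_lit 294) (nat_lit 0) (cs (nd (nat_lit 293) (nat_lit 0) (cs (lf (nat_lit 29) (nat_lit 227)) (lf (nat_lit 34) (nat_lit 205)))) (lf (nat_lit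 28) (nat_lit 205)))))))))))) (cs (nd (nat_lit 230) (nat_lit 0) (cs (lf (nat_lit 5) (nat_lit 205)) (nd (nat_lit 252) (nat_lit 0) (cs (lf (nat_lit 42) (nat_lit 185)) (nd (nat_lit 138) (nat_lit 0) (cs (lf (nat_lit 46) (nat_lit 138)) (nd (nat_lit 250) (nat_lit 0) (cs (lf (nat_lit 28) (nat_lit 161)) (nd (nat_lit 249) (nat_lit 0) (cs (lf (nat_lit 29) (nat_lit 183)) (rf (nat_lit 4)))))))))))) (cs (nd (nat_lit 162) (nat_lit 0) (cs (lf (nat_lit 35) (nat_lit 139)) (nd (nat_lit 228) (nat_lit 0) (cs (lf (nat_lit 29) (nat_lit 161)) (nd (nat_lit 230) (nat_lit 0) (cs (lf (nat_lit 5) (nat_lit 205)) (nd (nat_lit 252) (nat_lit 0) (cs (lf (nat_lit 42) (nat_lit 185)) (nd (nat_lit 160) (nat_lit 0) (cs (lf (nat_lit 47) (nat_lit 138)) (nd (nat_lit 159) (nat_lit 0) (cs (lf (nat_lit 4) (nat_lit 159)) (rf (nat_lit 5)))))))))))))) (nd (nat_lit 138) (nat_lit 0) (cs (lf (nat_lit 46) (nat_lit 138)) (nd (nat_lit 230) (nat_lit 0) (cs (lf (nat_lit 5) (nat_lit 205)) (nd (nat_lit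 252) (nat_lit 0) (cs (lf (nat_lit 42) (nat_lit 185)) (nd (nat_lit 162) (nat_lit 0) (cs (lf (nat_lit 35) (nat_lit 139)) (nd (nat_lit 249) (nat_lit 0) (cs (lf (nat_lit 34) (nat_lit 161)) (nd (nat_lit 250) (nat_lit 0) (cs (lf (nat_lit 29) (nat_lit 183)) (rf (nat_lit 4)))))))))))))))))) (cs (nd (nat_lit 139) (nat_lit 0) (cs (nd (nat_lit 230) (nat_lit 0) (cs (lf (nat_lit 5) (nat_lit 205)) (nd (nat_lit 252) (nat_lit 0) (cs (lf (nat_lit 42) (nat_lit 185)) (rf (nat_lit 6)))))) (nd (nat_lit 138) (nat_lit 0) (cs (lf (nat_lit 47) (nat_lit 116)) (nd (nat_lit 162) (nat_lit 0) (cs (lf (nat_lit 18) (nat_lit 138)) (nd (nat_lit 160) (nat_lit 0) (cs (lf (nat_lit 23) (nat_lit 137)) (lf (nat_lit 42) (nat_lit 138)))))))))) (cs (nd (nat_lit 230) (nat_lit 0) (cs (lf (nat_lit 5) (nat_lit 205)) (nd (nat_lit 252) (nat_lit 0) (cs (lf (nat_lit 42) (nat_lit 185)) (rf (nat_lit 7)))))) (nd (nat_lit 230) (nat_lit 0) (cs (lf (nat_lit 5) (nat_lit 205)) (nd (nat_lit 252) (nat_lit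 0) (cs (lf (nat_lit 42) (nat_lit 185)) (rf (nat_lit 8))))))))))))) (nd (nat_lit 141) (nat_lit 0) (cs (lf (nat_lit 41) (nat_lit 140)) (rf (nat_lit 9)))))))))) q11454 (by decide +kernel)
def q11458 : Q := Q.p (nat_lit 0x200000800001c000000000000000000000000000000000000000000000000000) (nat_lit 0x140000700001c00000000010000060000140000000000000000000000000000000000000000000000) (nat_lit 7)
theorem c11458 : QOK q11458 := cut [q11457] ⟨c11457, trivial⟩ (nd (nat_lit 209) (nat_lit 0) (cs (lf (nat_lit 5) (nat_lit 206)) (rf (nat_lit 0)))) q11458 (by decide +kernel)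
def q11464 : Q := Q.p (nat_lit 0x1c000000000000000000000000000000000000000000000000000) (nat_lit 0x1de0002300001e000000000000000000000000000000000000000000000) (nat_lit 5)
theorem c11464 : QOK q11464 := cut [q3211, q10540, q11463] ⟨c3211, c10540, c11463, trivial⟩ (nd (nat_lit 205) (nat_lit 0) (cs (rf (nat_lit 0)) (cs (nd (nat_lit 227) (nat_lit 0) (cs (lf (nat_lit 11) (nat_lit 204)) (nd (nat_lit 209) (nat_lit 0) (cs (lf (nat_lit 10) (nat_lit 205)) (rf (nat_lit 1)))))) (rf (nat_lit 2))))) q11464 (by decide +kernel)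
def q11472 : Q := Q.p (nat_lit 0x2000000000038000000000000000000000000000000000000000000000000000) (nat_lit 0x140000700001c00000000078000044000040000000000000000000000000000000000000000000000) (nat_lit 6)
theorem c11472 : QOK q11472 := cut [q4100, q6705] ⟨c4100, c6705, trivial⟩ (nd (nat_lit 231) (nat_lit 0) (cs (rf (nat_lit 0)) (rf (nat_lit 1)))) q11472 (by decide +kernel)
def q11503 : Q := Q.p (nat_lit 0xc00003000000000008000000000000000000000000000000000000000000000000000) (nat_lit 0x400001000013c0000e00002000000000020000000000000000000000000000000000000000000000) (nat_lit 5)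
theorem c11503 : QOK q11503 := cut [q1999, q11502] ⟨c1999, c11502, trivial⟩ (nd (nat_lit 251) (nat_lit 0) (cs (rf (nat_lit 0)) (rf (nat_lit 1)))) q11503 (by decide +kernel)
def q11627 : Q := Q.p (nat_lit 0xe00000800002000000000000000000000000000000000000000000000000000000000000000) (nat_lit 0x1e0000310000f000031000040000100000000000000000000000000000000000000000000000000000) (nat_lit 7)
theorem c11627 : QOK q11627 := cut [q11564, q11568, q11626] ⟨c11564, c11568, c11626, trivial⟩ (nd (nat_lit 300) (nat_lit 0) (cs (rf (nat_lit 0)) (cs (rf (nat_lit 1)) (rf (nat_lit 2))))) q11627 (by decide +kernel)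
def q11709 : Q := Q.p (nat_lit 0x780000800000000000000000000000000000000000000000000000000000000000000000000) (nat_lit 0xe30001800007400000000000000000000000000000000000000000000000000000000000000000000) (nat_lit 6)
theorem c11709 : QOK q11709 := cut [q11708] ⟨c11708, trivial⟩ (nd (nat_lit 316) (nat_lit 0) (cs (lf (nat_lit 10) (nat_lit 294)) (rf (nat_lit 0)))) q11709 (by decide +kernel)
def q11758 : Q := Q.p (nat_lit 0x780000800000000000000000000000000000000000000000000000000000000000000000000) (nat_lit 0xe70003800003000000000000000000000000000000000000000000000000000000000000000000000) (nat_lit 6)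
theorem c11758 : QOK q11758 := cut [q11757] ⟨c11757, trivial⟩ (nd (nat_lit 317) (nat_lit 0) (cs (lf (nat_lit 11) (nat_lit 294)) (rf (nat_lit 0)))) q11758 (by decide +kernel)
def q11811 : Q := Q.p (nat_lit 0x80000200000800002000000000000000000000000000000000000000000000000000000000000000) (nat_lit 0x3d0000f60001dc0000000000000000000000000000000000000000000000000000000000000000000000000) (nat_lit 8)
theorem c11811 : QOK q11811 := cut [q11791, q11797, q11800, q11809] ⟨c11791, c11797, c11800, c11809, trivial⟩ (nd (nat_lit 320) (nat_lit 0) (cs (lf (nat_lit 29) (nat_lit 253)) (nd (nat_lit 321) (nat_lit 0) (cs (rf (nat_lit 0)) (cs (rf (nat_lit 1)) (cs (nd (nat_lit 318) (nat_lit 0) (cs (lf (nat_lit 41) (nat_lit 252)) (nd (nat_lit 295) (nat_lit 0) (cs (nd (nat_lit 343) (nat_lit 0) (cs (rf (nat_lit 2)) (lf (nat_lit 5) (nat_lit 318)))) (lf (nat_lit 22) (nat_lit 295)))))) (rf (nat_lit 3)))))))) q11811 (by decide +kernel)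
def q11965 : Q := Q.p (nat_lit 0x10000200000300001c000000000000000000000000000000000000000000000000000) (nat_lit 0x7fc000ee0001bc000440006380004e000008000000000000000000000000000000000000000) (nat_lit 12)
theorem c11965 : QOK q11965 := cut [q11911, q11918, q11929, q126, q11939, q11945, q1193, q11954, q11959] ⟨c11911, c11918, c11929, c126, c11939, c11945, c1193, c11954, c11959, trivial⟩ (nd (nat_lit 273) (nat_lit 0) (cs (rf (nat_lit 0)) (cs (nd (nat_lit 271) (nat_lit 0) (cs (nd (nat_lit 274) (nat_lit 0) (cs (lf (nat_lit 16) (nat_lit 249)) (nd (nat_lit 248) (nat_lit 0) (cs (lf (nat_lit 22) (nat_lit 248)) (nd (nat_lit 292) (nat_lit 0) (cs (lf (nat_lit 10) (nat_lit 270)) (nd (nat_lit 270) (nat_lit 0) (cs (lf (nat_lit 23) (nat_lit 247)) (lf (nat_lit 11) (nat_lit 269)))))))))) (cs (nd (nat_lit 270) (nat_lit 0) (cs (nd (nat_lit 209) (nat_lit 0) (cs (lf (nat_lit 6) (nat_lit 206)) (nd (nat_lit 295) (nat_lit 0) (cs (nd (nat_lit 269) (nat_lit 0) (cs (rf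 (nat_lit 1)) (lf (nat_lit 4) (nat_lit 269)))) (lf (nat_lit 5) (nat_lit 270)))))) (cs (nd (nat_lit 204) (nat_lit 0) (cs (nd (nat_lit 205) (nat_lit 0) (cs (lf (nat_lit 0) (nat_lit 203)) (lf (nat_lit 5) (nat_lit 204)))) (cs (nd (nat_lit 295) (nat_lit 0) (cs (lf (nat_lit 5) (nat_lit 270)) (nd (nat_lit 209) (nat_lit 0) (cs (lf (nat_lit 6) (nat_lit 206)) (nd (nat_lit 291) (nat_lit 0) (cs (lf (nat_lit 10) (nat_lit 269)) (nd (nat_lit 248) (nat_lit 0) (cs (lf (nat_lit 23) (nat_lit 247)) (nd (nat_lit 226) (nat_lit 0) (cs (lf (nat_lit 29) (nat_lit 204)) (rf (nat_lit 2)))))))))))) (nd (nat_lit 247) (nat_lit 0) (cs (nd (nat_lit 205) (nat_lit 0) (cs (rf (nat_lit 3)) (lf (nat_lit 5) (nat_lit 204)))) (lf (nat_lit 22) (nat_lit 247))))))) (cs (nd (nat_lit 247) (nat_lit 0) (cs (lf (nat_lit 22) (nat_lit 247)) (nd (nat_lit 269) (nat_lit 0) (cs (rf (nat_lit 4)) (lf (nat_lit 23) (nat_lit 246)))))) (nd (nat_lit 209) (nat_lit 0) (cs (lf (nat_lit 6) (nat_lit 206)) (rf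 (nat_lit 5)))))))) (cs (nd (nat_lit 209) (nat_lit 0) (cs (lf (nat_lit 6) (nat_lit 206)) (nd (nat_lit 274) (nat_lit 0) (cs (lf (nat_lit 16) (nat_lit 249)) (nd (nat_lit 248) (nat_lit 0) (cs (lf (nat_lit 22) (nat_lit 248)) (nd (nat_lit 297) (nat_lit 0) (cs (lf (nat_lit 4) (nat_lit 271)) (nd (nat_lit 275) (nat_lit 0) (cs (rf (nat_lit 6)) (lf (nat_lit 5) (nat_lit 272)))))))))))) (cs (nd (nat_lit 274) (nat_lit 0) (cs (lf (nat_lit 16) (nat_lit 249)) (nd (nat_lit 209) (nat_lit 0) (cs (lf (nat_lit 6) (nat_lit 206)) (nd (nat_lit 296) (nat_lit 0) (cs (lf (nat_lit 5) (nat_lit 271)) (rf (nat_lit 7)))))))) (nd (nat_lit 209) (nat_lit 0) (cs (lf (nat_lit 6) (nat_lit 206)) (nd (nat_lit 274) (nat_lit 0) (cs (lf (nat_lit 16) (nat_lit 249)) (nd (nat_lit 296) (nat_lit 0) (cs (lf (nat_lit 5) (nat_lit 271)) (rf (nat_lit 8))))))))))))) (nd (nat_lit 251) (nat_lit 0) (cs (lf (nat_lit 41) (nat_lit 206)) (lf (nat_lit 35) (nat_lit 185))))))) q11965 (by decide +kernel)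
def q12045 : Q := Q.p (nat_lit 0x80001a000008000000000000000000000000000000000000000000000) (nat_lit 0x500001c0000700000000001000034000050000000000000000000000000000000000000000) (nat_lit 6)
theorem c12045 : QOK q12045 := cut [q3643, q12042] ⟨c3643, c12042, trivial⟩ (nd (nat_lit 249) (nat_lit 0) (cs (rf (nat_lit 0)) (cs (rf (nat_lit 1)) (nd (nat_lit 184) (nat_lit 0) (cs (lf (nat_lit 35) (nat_lit 161)) (nd (nat_lit 182) (nat_lit 0) (cs (lf (nat_lit 3) (nat_lit 182)) (lf (nat_lit 47) (nat_lit 160))))))))) q12045 (by decide +kernel)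
def q12181 : Q := Q.p (nat_lit 0x2000002000018000000000000000000000000000000000000000000000000000) (nat_lit 0x400001c0000700001c0000580006400007c0000c0000200000000000000000000000000000000000) (nat_lit 7)
theorem c12181 : QOK q12181 := cut [q5461, q9858, q5435] ⟨c5461, c9858, c5435, trivial⟩ (nd (nat_lit 251) (nat_lit 0) (cs (rf (nat_lit 0)) (cs (nd (nat_lit 273) (nat_lit 0) (cs (lf (nat_lit 35) (nat_lit 185)) (nd (nat_lit 272) (nat_lit 0) (cs (lf (nat_lit 41) (nat_lit 206)) (rf (nat_lit 1)))))) (nd (nat_lit 273) (nat_lit 0) (cs (lf (nat_lit 35) (nat_lit 185)) (rf (nat_lit 2))))))) q12181 (by decide +kernel)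
def q12349 : Q := Q.p (nat_lit 0x200000400001c000000000180000000000000000000000000000000000000000) (nat_lit 0x3e0001f80000f8003bc0000100003e000678001df0000000000000000000000000000000000) (nat_lit 13)
theorem c12349 : QOK q12349 := cut [q12284, q12289, q5161, q5173, q5294, q12296, q12312, q12295, q12325, q1073, q12331, q3701, q12346] ⟨c12284, c12289, c5161, c5173, c5294, c12296, c12312, c12295, c12325, c1073, c12331, c3701, c12346, trivial⟩ (nd (nat_lit 229) (nat_lit 0) (cs (nd (nat_lit 185) (nat_lit 0) (cs (lf (nat_lit 35) (nat_lit 141)) (rf (nat_lit 0)))) (cs (nd (nat_lit 185) (nat_lit 0) (cs (lf (nat_lit 35) (nat_lit 141)) (nd (nat_lit 231) (nat_lit 0) (cs (lf (nat_lit 18) (nat_lit 206)) (nd (nat_lit 275) (nat_lit 0) (cs (lf (nat_lit 42) (nat_lit 208)) (nd (nat_lit 140) (nat_lit 0) (cs (lf (nat_lit 46) (nat_lit 140)) (rf (nat_lit 1)))))))))) (cs (nd (nat_lit 228) (nat_lit 0) (cs (rf (nat_lit 2)) (cs (rf (nat_lit 3)) (cs (rf (nat_lit 4)) (nd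 (nat_lit 162) (nat_lit 0) (cs (nd (nat_lit 184) (nat_lit 0) (cs (lf (nat_lit 29) (nat_lit 162)) (lf (nat_lit 24) (nat_lit 140)))) (cs (nd (nat_lit 161) (nat_lit 0) (cs (nd (nat_lit 226) (nat_lit 0) (cs (lf (nat_lit 13) (nat_lit 204)) (nd (nat_lit 231) (nat_lit 0) (cs (lf (nat_lit 18) (nat_lit 206)) (nd (nat_lit 275) (nat_lit 0) (cs (lf (nat_lit 42) (nat_lit 208)) (nd (nat_lit 182) (nat_lit 0) (cs (lf (nat_lit 10) (nat_lit 160)) (nd (nat_lit 160) (nat_lit 0) (cs (lf (nat_lit 11) (nat_lit 159)) (nd (nat_lit 139) (nat_lit 0) (cs (rf (nat_lit 5)) (lf (nat_lit 31) (nat_lit 138)))))))))))))) (cs (nd (nat_lit 226) (nat_lit 0) (cs (lf (nat_lit 13) (nat_lit 204)) (nd (nat_lit 231) (nat_lit 0) (cs (lf (nat_lit 18) (nat_lit 206)) (nd (nat_lit 275) (nat_lit 0) (cs (lf (nat_lit 42) (nat_lit 208)) (nd (nat_lit 182) (nat_lit 0) (cs (lf (nat_lit 10) (nat_lit 160)) (nd (nat_lit 160) (nat_lit 0) (cs (lf (nat_lit 11) (nat_lit 159)) (nd (nat_lit 137) (nat_lit 0)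 (cs (lf (nat_lit 22) (nat_lit 137)) (nd (nat_lit 159) (nat_lit 0) (cs (lf (nat_lit 23) (nat_lit 136)) (lf (nat_lit 43) (nat_lit 137)))))))))))))))) (rf (nat_lit 6))))) (nd (nat_lit 231) (nat_lit 0) (cs (lf (nat_lit 18) (nat_lit 206)) (nd (nat_lit 275) (nat_lit 0) (cs (lf (nat_lit 42) (nat_lit 208)) (nd (nat_lit 226) (nat_lit 0) (cs (lf (nat_lit 13) (nat_lit 204)) (nd (nat_lit 184) (nat_lit 0) (cs (lf (nat_lit 29) (nat_lit 162)) (nd (nat_lit 165) (nat_lit 0) (cs (lf (nat_lit 11) (nat_lit 161)) (nd (nat_lit 161) (nat_lit 0) (cs (lf (nat_lit 47) (nat_lit 139)) (rf (nat_lit 7))))))))))))))))))))) (cs (nd (nat_lit 231) (nat_lit 0) (cs (lf (nat_lit 18) (nat_lit 206)) (nd (nat_lit 185) (nat_lit 0) (cs (lf (nat_lit 35) (nat_lit 141)) (nd (nat_lit 275) (nat_lit 0) (cs (lf (nat_lit 42) (nat_lit 208)) (rf (nat_lit 8)))))))) (cs (nd (nat_lit 228) (nat_lit 0) (cs (rf (nat_lit 9)) (cs (rf (nat_lit 3)) (cs (nd (nat_lit 231) (nat_lit 0) (cs (lf (nat_lit 18)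 (nat_lit 206)) (nd (nat_lit 227) (nat_lit 0) (cs (lf (nat_lit 12) (nat_lit 204)) (nd (nat_lit 275) (nat_lit 0) (cs (lf (nat_lit 42) (nat_lit 208)) (nd (nat_lit 249) (nat_lit 0) (cs (lf (nat_lit 11) (nat_lit 226)) (nd (nat_lit 271) (nat_lit 0) (cs (lf (nat_lit 30) (nat_lit 205)) (nd (nat_lit 162) (nat_lit 0) (cs (lf (nat_lit 37) (nat_lit 161)) (nd (nat_lit 140) (nat_lit 0) (cs (lf (nat_lit 44) (nat_lit 140)) (rf (nat_lit 10)))))))))))))))) (nd (nat_lit 226) (nat_lit 0) (cs (lf (nat_lit 13) (nat_lit 204)) (nd (nat_lit 185) (nat_lit 0) (cs (lf (nat_lit 41) (nat_lit 162)) (nd (nat_lit 231) (nat_lit 0) (cs (lf (nat_lit 18) (nat_lit 206)) (nd (nat_lit 275) (nat_lit 0) (cs (lf (nat_lit 42) (nat_lit 208)) (nd (nat_lit 162) (nat_lit 0) (cs (lf (nat_lit 47) (nat_lit 140)) (nd (nat_lit 184) (nat_lit 0) (cs (lf (nat_lit 29) (nat_lit 162)) (rf (nat_lit 11)))))))))))))))))) (nd (nat_lit 231) (nat_lit 0) (cs (lf (nat_lit 18) (nat_lit 206)) (nd (nat_lit 275)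 (nat_lit 0) (cs (lf (nat_lit 42) (nat_lit 208)) (rf (nat_lit 12)))))))))))) q12349 (by decide +kernel)
def q12364 : Q := Q.p (nat_lit 0x1c0000000000000000000000000000000000000000) (nat_lit 0xe000230001fe0000000000000000000000000000000000) (nat_lit 5)
theorem c12364 : QOK q12364 := cut [q3802, q12312, q12363] ⟨c3802, c12312, c12363, trivial⟩ (nd (nat_lit 161) (nat_lit 0) (cs (rf (nat_lit 0)) (cs (rf (nat_lit 1)) (rf (nat_lit 2))))) q12364 (by decide +kernel)
def q12659 : Q := Q.p (nat_lit 0x80000600001800000000010000000000000000000000000000000000000000000000000000) (nat_lit 0x1800006000010000000000000000300000c000050000000000000000000000000000000000000000000000) (nat_lit 6)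
theorem c12659 : QOK q12659 := cut [q12657] ⟨c12657, trivial⟩ (nd (nat_lit 317) (nat_lit 0) (cs (lf (nat_lit 30) (nat_lit 251)) (nd (nat_lit 318) (nat_lit 0) (cs (lf (nat_lit 29) (nat_lit 251)) (rf (nat_lit 0)))))) q12659 (by decide +kernel)
def q12683 : Q := Q.p (nat_lit 0xe00000000000000000000000000000000000000000000000000000000000000000000) (nat_lit 0x10000770001180000f00002000008000000000000000000000000000000000000000000000000000) (nat_lit 7)
theorem c12683 : QOK q12683 := cut [q1197, q12673, q12676, q12681] ⟨c1197, c12673, c12676, c12681, trivial⟩ (nd (nat_lit 272) (nat_lit 0) (cs (rf (nat_lit 0)) (cs (rf (nat_lit 1)) (cs (rf (nat_lit 2)) (nd (nat_lit 297) (nat_lit 0) (cs (lf (nat_lit 5) (nat_lit 272)) (rf (nat_lit 3)))))))) q12683 (by decide +kernel)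
def q12833 : Q := Q.p (nat_lit 0xe00002000000000010000000000000000000000000000000000000000000000000000) (nat_lit 0x140000740001f8000ff8003fe007ffc00f0c0038f0000700000c000050000000000000000000000000000000000000000000000) (nat_lit 15)
theorem c12833 : QOK q12833 := cut [q12687, q12695, q12705, q12714, q12717, q12719, q12728, q12743, q12751, q12762, q12769, q12775, q12784, q12803, q12808, q12812, q12819, q12832] ⟨c12687, c12695, c12705, c12714, c12717, c12719, c12728, c12743, c12751, c12762, c12769, c12775, c12784, c12803, c12808, c12812, c12819, c12832, trivial⟩ (nd (nat_lit 295) (nat_lit 0) (cs (nd (nat_lit 276) (nat_lit 0) (cs (lf (nat_lit 11) (nat_lit 272)) (nd (nat_lit 251) (nat_lit 0) (cs (lf (nat_lit 23) (nat_lit 250)) (nd (nat_lit 298) (nat_lit 0) (cs (lf (nat_lit 5) (nat_lit 273)) (nd (nat_lit 320) (nat_lit 0) (cs (lf (nat_lit 42) (nat_lit 253)) (rf (nat_lit 0)))))))))) (cs (nd (nat_lit 251) (nat_lit 0) (cs (rf (nat_lit 0)) (cs (nd (nat_lit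 317) (nat_lit 0) (cs (nd (nat_lit 340) (nat_lit 0) (cs (nd (nat_lit 316) (nat_lit 0) (cs (lf (nat_lit 41) (nat_lit 250)) (nd (nat_lit 339) (nat_lit 0) (cs (nd (nat_lit 296) (nat_lit 0) (cs (lf (nat_lit 30) (nat_lit 273)) (rf (nat_lit 1)))) (lf (nat_lit 29) (nat_lit 273)))))) (lf (nat_lit 28) (nat_lit 251)))) (cs (nd (nat_lit 228) (nat_lit 0) (cs (lf (nat_lit 46) (nat_lit 228)) (nd (nat_lit 338) (nat_lit 0) (cs (lf (nat_lit 40) (nat_lit 250)) (nd (nat_lit 339) (nat_lit 0) (cs (lf (nat_lit 41) (nat_lit 272)) (nd (nat_lit 361) (nat_lit 0) (cs (rf (nat_lit 2)) (lf (nat_lit 34) (nat_lit 273)))))))))) (cs (nd (nat_lit 316) (nat_lit 0) (cs (lf (nat_lit 41) (nat_lit 250)) (nd (nat_lit 315) (nat_lit 0) (cs (rf (nat_lit 3)) (cs (nd (nat_lit 293) (nat_lit 0) (cs (rf (nat_lit 4)) (cs (nd (nat_lit 228) (nat_lit 0) (cs (lf (nat_lit 46) (nat_lit 228)) (nd (nat_lit 318) (nat_lit 0) (cs (nd (nat_lit 297) (nat_lit 0) (cs (nd (nat_lit 319) (nat_lit 0) (cs (rf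 (nat_lit 5)) (lf (nat_lit 17) (nat_lit 294)))) (lf (nat_lit 16) (nat_lit 293)))) (lf (nat_lit 23) (nat_lit 292)))))) (cs (nd (nat_lit 228) (nat_lit 0) (cs (lf (nat_lit 46) (nat_lit 228)) (nd (nat_lit 296) (nat_lit 0) (cs (rf (nat_lit 6)) (lf (nat_lit 13) (nat_lit 271)))))) (nd (nat_lit 292) (nat_lit 0) (cs (lf (nat_lit 18) (nat_lit 292)) (lf (nat_lit 14) (nat_lit 270)))))))) (cs (nd (nat_lit 292) (nat_lit 0) (cs (nd (nat_lit 293) (nat_lit 0) (cs (lf (nat_lit 18) (nat_lit 292)) (lf (nat_lit 14) (nat_lit 270)))) (cs (nd (nat_lit 228) (nat_lit 0) (cs (lf (nat_lit 46) (nat_lit 228)) (nd (nat_lit 314) (nat_lit 0) (cs (nd (nat_lit 294) (nat_lit 0) (cs (rf (nat_lit 7)) (lf (nat_lit 12) (nat_lit 291)))) (lf (nat_lit 23) (nat_lit 291)))))) (cs (nd (nat_lit 293) (nat_lit 0) (cs (lf (nat_lit 18) (nat_lit 292)) (rf (nat_lit 8)))) (nd (nat_lit 293) (nat_lit 0) (cs (lf (nat_lit 14) (nat_lit 270)) (rf (nat_lit 8)))))))) (nd (nat_lit 228) (nat_lit 0) (cs (lf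 (nat_lit 46) (nat_lit 228)) (nd (nat_lit 296) (nat_lit 0) (cs (lf (nat_lit 12) (nat_lit 292)) (rf (nat_lit 6)))))))))))) (cs (nd (nat_lit 340) (nat_lit 0) (cs (lf (nat_lit 28) (nat_lit 251)) (nd (nat_lit 228) (nat_lit 0) (cs (lf (nat_lit 46) (nat_lit 228)) (nd (nat_lit 339) (nat_lit 0) (cs (lf (nat_lit 29) (nat_lit 273)) (rf (nat_lit 9)))))))) (cs (nd (nat_lit 318) (nat_lit 0) (cs (lf (nat_lit 29) (nat_lit 251)) (nd (nat_lit 319) (nat_lit 0) (cs (nd (nat_lit 228) (nat_lit 0) (cs (lf (nat_lit 46) (nat_lit 228)) (rf (nat_lit 10)))) (cs (nd (nat_lit 316) (nat_lit 0) (cs (rf (nat_lit 11)) (cs (nd (nat_lit 297) (nat_lit 0) (cs (lf (nat_lit 17) (nat_lit 294)) (nd (nat_lit 228) (nat_lit 0) (cs (lf (nat_lit 46) (nat_lit 228)) (rf (nat_lit 12)))))) (nd (nat_lit 293) (nat_lit 0) (cs (lf (nat_lit 22) (nat_lit 293)) (nd (nat_lit 250) (nat_lit 0) (cs (nd (nat_lit 249) (nat_lit 0) (cs (lf (nat_lit 0) (nat_lit 248)) (nd (nat_lit 315) (nat_lit 0) (cs (lf (nat_lit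 23) (nat_lit 292)) (nd (nat_lit 336) (nat_lit 0) (cs (nd (nat_lit 314) (nat_lit 0) (cs (lf (nat_lit 11) (nat_lit 313)) (lf (nat_lit 37) (nat_lit 248)))) (lf (nat_lit 10) (nat_lit 314)))))))) (lf (nat_lit 47) (nat_lit 228))))))))) (rf (nat_lit 13))))))) (nd (nat_lit 228) (nat_lit 0) (cs (lf (nat_lit 46) (nat_lit 228)) (rf (nat_lit 14)))))))))) (rf (nat_lit 15))))) (cs (nd (nat_lit 251) (nat_lit 0) (cs (rf (nat_lit 15)) (rf (nat_lit 16)))) (rf (nat_lit 17)))))) q12833 (by decide +kernel)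
def q12897 : Q := Q.p (nat_lit 0x300000e00002000000000000000000000000000000000000000000000000000000000000000) (nat_lit 0x180000fc0003f0000fc000380000f180038e000e0000280000000000000000000000000000000000000000000000000000) (nat_lit 14)
theorem c12897 : QOK q12897 := cut [q12839, q12841, q12846, q12851, q12858, q12870, q12865, q12881, q12886] ⟨c12839, c12841, c12846, c12851, c12858, c12870, c12865, c12881, c12886, trivial⟩ (nd (nat_lit 319) (nat_lit 0) (cs (rf (nat_lit 0)) (cs (rf (nat_lit 1)) (nd (nat_lit 320) (nat_lit 0) (cs (lf (nat_lit 29) (nat_lit 253)) (nd (nat_lit 318) (nat_lit 0) (cs (lf (nat_lit 30) (nat_lit 252)) (nd (nat_lit 300) (nat_lit 0) (cs (rf (nat_lit 2)) (cs (rf (nat_lit 3)) (nd (nat_lit 322) (nat_lit 0) (cs (lf (nat_lit 19) (nat_lit 296)) (nd (nat_lit 278) (nat_lit 0) (cs (rf (nat_lit 4)) (cs (rf (nat_lit 5)) (nd (nat_lit 344) (nat_lit 0) (cs (rf (nat_lit 6)) (cs (rf (nat_lit 7)) (nd (nat_lit 271) (nat_lit 0) (cs (lf (nat_lit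 1) (nat_lit 271)) (nd (nat_lit 345) (nat_lit 0) (cs (lf (nat_lit 29) (nat_lit 278)) (nd (nat_lit 323) (nat_lit 0) (cs (rf (nat_lit 8)) (lf (nat_lit 24) (nat_lit 256)))))))))))))))))))))))))) q12897 (by decide +kernel)
def q12938 : Q := Q.p (nat_lit 0x200000e00002000000000000000000000000000000000000000000000000000000000000000) (nat_lit 0x100000600001c0000700007c0001d80001000000000000000000000000000000000000000000000000000000000000000000000) (nat_lit 9)
theorem c12938 : QOK q12938 := cut [q2579, q12923, q12930, q12932, q12937] ⟨c2579, c12923, c12930, c12932, c12937, trivial⟩ (nd (nat_lit 319) (nat_lit 0) (cs (rf (nat_lit 0)) (cs (rf (nat_lit 1)) (cs (rf (nat_lit 2)) (cs (rf (nat_lit 3)) (rf (nat_lit 4))))))) q12938 (by decide +kernel)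
def q12989 : Q := Q.p (nat_lit 0xe00002000000000010000000000000000000000000000000000000000000000000000) (nat_lit 0x3e0000f80007f0000180000f0000380000e0000d8000000000000000000000000000000000000000000000) (nat_lit 16)
theorem c12989 : QOK q12989 := cut [q1197, q12673, q12676, q12960, q12964, q12970, q12986] ⟨c1197, c12673, c12676, c12960, c12964, c12970, c12986, trivial⟩ (nd (nat_lit 272) (nat_lit 0) (cs (rf (nat_lit 0)) (cs (rf (nat_lit 1)) (cs (rf (nat_lit 2)) (nd (nat_lit 250) (nat_lit 0) (cs (lf (nat_lit 23) (nat_lit 249)) (nd (nat_lit 317) (nat_lit 0) (cs (rf (nat_lit 3)) (cs (nd (nat_lit 294) (nat_lit 0) (cs (lf (nat_lit 11) (nat_lit 271)) (nd (nat_lit 297) (nat_lit 0) (cs (lf (nat_lit 5) (nat_lit 272)) (rf (nat_lit 4)))))) (cs (nd (nat_lit 294) (nat_lit 0) (cs (lf (nat_lit 11) (nat_lit 271)) (nd (nat_lit 297) (nat_lit 0) (cs (lf (nat_lit 5) (nat_lit 272)) (nd (nat_lit 228) (nat_lit 0) (cs (nd (nat_lit 205) (nat_lit 0) (cs (nd (nat_lit 207)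 (nat_lit 0) (cs (lf (nat_lit 34) (nat_lit 206)) (nd (nat_lit 206) (nat_lit 0) (cs (lf (nat_lit 47) (nat_lit 183)) (nd (nat_lit 251) (nat_lit 0) (cs (lf (nat_lit 24) (nat_lit 184)) (nd (nat_lit 316) (nat_lit 0) (cs (lf (nat_lit 30) (nat_lit 250)) (nd (nat_lit 186) (nat_lit 0) (cs (lf (nat_lit 17) (nat_lit 183)) (nd (nat_lit 315) (nat_lit 0) (cs (lf (nat_lit 41) (nat_lit 249)) (rf (nat_lit 5)))))))))))))) (lf (nat_lit 46) (nat_lit 205)))) (lf (nat_lit 28) (nat_lit 228)))))))) (rf (nat_lit 6)))))))))))) q12989 (by decide +kernel)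
def q13006 : Q := Q.p (nat_lit 0x80001c00000000000000000000000000000000000000000000000000000000000000000000) (nat_lit 0x3900006000038000000000000000000000000000000000000000000000000000000000000000) (nat_lit 5)
theorem c13006 : QOK q13006 := cut [q13005] ⟨c13005, trivial⟩ (nd (nat_lit 277) (nat_lit 0) (cs (lf (nat_lit 10) (nat_lit 273)) (rf (nat_lit 0)))) q13006 (by decide +kernel)
def q13063 : Q := Q.p (nat_lit 0x1c0000000000000000000000000000000000000000000000000000000000000000000000000000000) (nat_lit 0x3bc000620003c00000000000000000000000000000000000000000000000000000000000000000000000000) (nat_lit 5)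
theorem c13063 : QOK q13063 := cut [q13024, q13053, q13062] ⟨c13024, c13053, c13062, trivial⟩ (nd (nat_lit 321) (nat_lit 0) (cs (rf (nat_lit 0)) (cs (rf (nat_lit 1)) (rf (nat_lit 2))))) q13063 (by decide +kernel)
def q13099 : Q := Q.p (nat_lit 0x1c0000000000c00002000000000000000000000000000000000000000000000000000000000000000) (nat_lit 0x100003f8000600003c00007000019000040000000000000000000000000000000000000000000000000000000000) (nat_lit 8)
theorem c13099 : QOK q13099 := cut [q13062, q13084, q13089, q13098] ⟨c13062, c13084, c13089, c13098, trivial⟩ (nd (nat_lit 321) (nat_lit 0) (cs (rf (nat_lit 0)) (cs (nd (nat_lit 299) (nat_lit 0) (cs (lf (nat_lit 17) (nat_lit 296)) (nd (nat_lit 277) (nat_lit 0) (cs (nd (nat_lit 343) (nat_lit 0) (cs (lf (nat_lit 5) (nat_lit 318)) (nd (nat_lit 342) (nat_lit 0) (cs (lf (nat_lit 41) (nat_lit 276)) (lf (nat_lit 36) (nat_lit 254)))))) (cs (nd (nat_lit 343) (nat_lit 0) (cs (lf (nat_lit 5) (nat_lit 318)) (nd (nat_lit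 256) (nat_lit 0) (cs (nd (nat_lit 255) (nat_lit 0) (cs (lf (nat_lit 35) (nat_lit 233)) (lf (nat_lit 14) (nat_lit 252)))) (lf (nat_lit 34) (nat_lit 255)))))) (cs (nd (nat_lit 343) (nat_lit 0) (cs (lf (nat_lit 5) (nat_lit 318)) (nd (nat_lit 342) (nat_lit 0) (cs (lf (nat_lit 41) (nat_lit 276)) (nd (nat_lit 276) (nat_lit 0) (cs (rf (nat_lit 1)) (lf (nat_lit 44) (nat_lit 253)))))))) (nd (nat_lit 255) (nat_lit 0) (cs (rf (nat_lit 2)) (lf (nat_lit 41) (nat_lit 254)))))))))) (rf (nat_lit 3))))) q13099 (by decide +kernel)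
def q13129 : Q := Q.p (nat_lit 0x1c0000000000000000000000000000000000000000000000000000000000000000000000000000000) (nat_lit 0x1fe0002300000e0000000000000000000000000000000000000000000000000000000000000000000000000) (nat_lit 5)
theorem c13129 : QOK q13129 := cut [q13066, q13069, q13128] ⟨c13066, c13069, c13128, trivial⟩ (nd (nat_lit 317) (nat_lit 0) (cs (rf (nat_lit 0)) (cs (rf (nat_lit 1)) (rf (nat_lit 2))))) q13129 (by decide +kernel)
def q13148 : Q := Q.p (nat_lit 0x1e0000200000000000000000000000000000000000000000000000000000000000000000000000000) (nat_lit 0x38c000e00007cc0000000000000000000000000000000000000000000000000000000000000000000000000) (nat_lit 8)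
theorem c13148 : QOK q13148 := cut [q12801, q13024, q13146, q13147] ⟨c12801, c13024, c13146, c13147, trivial⟩ (nd (nat_lit 321) (nat_lit 0) (cs (rf (nat_lit 0)) (cs (rf (nat_lit 1)) (cs (rf (nat_lit 2)) (rf (nat_lit 3)))))) q13148 (by decide +kernel)
def q13232 : Q := Q.p (nat_lit 0x40000000000c00003000000000000000000000000000000000000000000000000000000000000000) (nat_lit 0x18000020000100001000000e00002000000000000000000000000000000000000000000000000000000000) (nat_lit 5)
theorem c13232 : QOK q13232 := cut [q13231] ⟨c13231, trivial⟩ (nd (nat_lit 296) (nat_lit 0) (cs (lf (nat_lit 30) (nat_lit 252)) (rf (nat_lit 0)))) q13232 (by decide +kernel)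
def q13235 : Q := Q.p (nat_lit 0x40000000000c00003000000000000000000000000000000000000000000000000000000000000000) (nat_lit 0x30000080000100001000000e00002000000000000000000000000000000000000000000000000000000000) (nat_lit 5)
theorem c13235 : QOK q13235 := cut [q13234] ⟨c13234, trivial⟩ (nd (nat_lit 296) (nat_lit 0) (cs (lf (nat_lit 30) (nat_lit 252)) (rf (nat_lit 0)))) q13235 (by decide +kernel)
def q13258 : Q := Q.p (nat_lit 0x1e00002000000000000000000000000000000000000000000000000000000000000000) (nat_lit 0xe0000180001700000000000000000000000000000000000000000000000000000000000000) (nat_lit 5)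
theorem c13258 : QOK q13258 := cut [q13257] ⟨c13257, trivial⟩ (nd (nat_lit 294) (nat_lit 0) (cs (lf (nat_lit 10) (nat_lit 272)) (rf (nat_lit 0)))) q13258 (by decide +kernel)
def q13317 : Q := Q.p (nat_lit 0x40000000001e00002000000000000000000000000000000000000000000000000000000000000000) (nat_lit 0x700003c0007f8001fc000fb8000d00000000000000000000000000000000000000000000000000000000000000000000000000) (nat_lit 12)
theorem c13317 : QOK q13317 := cut [q13268, q13309, q13277, q13293, q13294, q13312, q13298, q13306] ⟨c13268, c13309, c13277, c13293, c13294, c13312, c13298, c13306, trivial⟩ (nd (nat_lit 342) (nat_lit 0) (cs (rf (nat_lit 0)) (nd (nat_lit 340) (nat_lit 0) (cs (lf (nat_lit 32) (nat_lit 252)) (nd (nat_lit 341) (nat_lit 0) (cs (rf (nat_lit 1)) (cs (nd (nat_lit 339) (nat_lit 0) (cs (rf (nat_lit 2)) (cs (rf (nat_lit 3)) (cs (nd (nat_lit 364) (nat_lit 0) (cs (lf (nat_lit 5) (nat_lit 339)) (rf (nat_lit 4)))) (rf (nat_lit 5)))))) (nd (nat_lit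 343) (nat_lit 0) (cs (nd (nat_lit 361) (nat_lit 0) (cs (nd (nat_lit 339) (nat_lit 0) (cs (lf (nat_lit 11) (nat_lit 338)) (rf (nat_lit 6)))) (lf (nat_lit 10) (nat_lit 339)))) (rf (nat_lit 7))))))))))) q13317 (by decide +kernel)
def q13367 : Q := Q.p (nat_lit 0x600002800002000008000000000000000000000000000000000000000000000000000) (nat_lit 0x780001c0001380000000000000000000000000000000000000000000000000000000000000) (nat_lit 6)
theorem c13367 : QOK q13367 := cut [q5470] ⟨c5470, trivial⟩ (nd (nat_lit 272) (nat_lit 0) (cs (lf (nat_lit 41) (nat_lit 206)) (rf (nat_lit 0)))) q13367 (by decide +kernel)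
def q13426 : Q := Q.p (nat_lit 0x1c00002000000000000000000000000000000000000000000000000000000000000000) (nat_lit 0x3c00006200039c00000000000000000000000000000000000000000000000000000000000000) (nat_lit 5)
theorem c13426 : QOK q13426 := cut [q13005, q13254, q13425] ⟨c13005, c13254, c13425, trivial⟩ (nd (nat_lit 277) (nat_lit 0) (cs (rf (nat_lit 0)) (cs (rf (nat_lit 1)) (rf (nat_lit 2))))) q13426 (by decide +kernel)
def q13432 : Q := Q.p (nat_lit 0xc00003400000000010000000000000000000000000000000000000000000000000000) (nat_lit 0x800003800002000040000200000c0000000000000000000000000000000000000000000000) (nat_lit 5)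
theorem c13432 : QOK q13432 := cut [q13431] ⟨c13431, trivial⟩ (nd (nat_lit 230) (nat_lit 0) (cs (lf (nat_lit 24) (nat_lit 186)) (rf (nat_lit 0)))) q13432 (by decide +kernel)
def q13451 : Q := Q.p (nat_lit 0x1c00003000000000000000000000000000000000000000000000000000000000000000) (nat_lit 0x1ce0006380018000000000000000000000000000000000000000000000000000000000000000) (nat_lit 7)
theorem c13451 : QOK q13451 := cut [q13449] ⟨c13449, trivial⟩ (nd (nat_lit 277) (nat_lit 0) (cs (lf (nat_lit 18) (nat_lit 252)) (nd (nat_lit 255) (nat_lit 0) (cs (lf (nat_lit 17) (nat_lit 252)) (rf (nat_lit 0)))))) q13451 (by decide +kernel)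
def q13481 : Q := Q.p (nat_lit 0x200000e00000000000000010000000000000000000000000000000000000000000000000000) (nat_lit 0x470000180001700004000000000000000000000000000000000000000000000000000000000) (nat_lit 6)
theorem c13481 : QOK q13481 := cut [q13479] ⟨c13479, trivial⟩ (nd (nat_lit 230) (nat_lit 0) (cs (rf (nat_lit 0)) (lf (nat_lit 26) (nat_lit 208)))) q13481 (by decide +kernel)
def q13503 : Q := Q.p (nat_lit 0x800001c00002000000000000000000000000000000000000000000000000000000000000000) (nat_lit 0x470000380001e00000000000000000000000000000000000000000000000000000000000000) (nat_lit 6)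
theorem c13503 : QOK q13503 := cut [q13240] ⟨c13240, trivial⟩ (nd (nat_lit 273) (nat_lit 0) (cs (lf (nat_lit 4) (nat_lit 273)) (rf (nat_lit 0)))) q13503 (by decide +kernel)
def q13521 : Q := Q.p (nat_lit 0x2c0000800000c00003800000000000000000000000000000000000000000000000000000000000000) (nat_lit 0x500001c0000520000300007000018000042000000000000000000000000000000000000000000000000000000000) (nat_lit 7)
theorem c13521 : QOK q13521 := cut [q13509, q13519] ⟨c13509, c13519, trivial⟩ (nd (nat_lit 343) (nat_lit 0) (cs (nd (nat_lit 229) (nat_lit 0) (cs (lf (nat_lit 43) (nat_lit 229)) (nd (nat_lit 320) (nat_lit 0) (cs (lf (nat_lit 5) (nat_lit 318)) (rf (nat_lit 0)))))) (cs (nd (nat_lit 277) (nat_lit 0) (cs (nd (nat_lit 342) (nat_lit 0) (cs (lf (nat_lit 41) (nat_lit 276)) (nd (nat_lit 320) (nat_lit 0) (cs (lf (nat_lit 26) (nat_lit 253)) (lf (nat_lit 36) (nat_lit 254)))))) (lf (nat_lit 19) (nat_lit 251)))) (nd (nat_lit 229) (nat_lit 0) (cs (lf (nat_lit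 43) (nat_lit 229)) (rf (nat_lit 1))))))) q13521 (by decide +kernel)
def q13604 : Q := Q.p (nat_lit 0x40000800000c00003800000000000000000000000000000000000000000000000000000000000000) (nat_lit 0x40000700003fc0007a0001200007000018000060000100000000000000000000000000000000000000000000000000000) (nat_lit 10)
theorem c13604 : QOK q13604 := cut [q13569, q13567, q13574, q13519, q13573, q13518, q13527, q13062, q13603] ⟨c13569, c13567, c13574, c13519, c13573, c13518, c13527, c13062, c13603, trivial⟩ (nd (nat_lit 319) (nat_lit 0) (cs (rf (nat_lit 0)) (cs (nd (nat_lit 277) (nat_lit 0) (cs (lf (nat_lit 19) (nat_lit 251)) (nd (nat_lit 297) (nat_lit 0) (cs (lf (nat_lit 41) (nat_lit 252)) (rf (nat_lit 1)))))) (cs (nd (nat_lit 321) (nat_lit 0) (cs (nd (nat_lit 320) (nat_lit 0) (cs (lf (nat_lit 17) (nat_lit 296)) (rf (nat_lit 2)))) (cs (nd (nat_lit 343) (nat_lit 0) (cs (rf (nat_lit 3)) (cs (nd (nat_lit 277) (nat_lit 0) (cs (lf (nat_lit 19) (nat_lit 251)) (nd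 (nat_lit 342) (nat_lit 0) (cs (lf (nat_lit 41) (nat_lit 276)) (nd (nat_lit 320) (nat_lit 0) (cs (lf (nat_lit 36) (nat_lit 254)) (lf (nat_lit 0) (nat_lit 317)))))))) (nd (nat_lit 320) (nat_lit 0) (cs (lf (nat_lit 5) (nat_lit 318)) (rf (nat_lit 4))))))) (cs (nd (nat_lit 277) (nat_lit 0) (cs (lf (nat_lit 19) (nat_lit 251)) (nd (nat_lit 320) (nat_lit 0) (cs (lf (nat_lit 17) (nat_lit 296)) (nd (nat_lit 255) (nat_lit 0) (cs (lf (nat_lit 41) (nat_lit 254)) (nd (nat_lit 234) (nat_lit 0) (cs (lf (nat_lit 34) (nat_lit 233)) (nd (nat_lit 212) (nat_lit 0) (cs (nd (nat_lit 340) (nat_lit 0) (cs (lf (nat_lit 11) (nat_lit 317)) (nd (nat_lit 322) (nat_lit 0) (cs (lf (nat_lit 10) (nat_lit 318)) (lf (nat_lit 29) (nat_lit 255)))))) (lf (nat_lit 33) (nat_lit 211)))))))))))) (cs (nd (nat_lit 277) (nat_lit 0) (cs (lf (nat_lit 19) (nat_lit 251)) (nd (nat_lit 343) (nat_lit 0) (cs (rf (nat_lit 5)) (cs (rf (nat_lit 6)) (nd (nat_lit 342) (nat_lit 0) (cs (lf (nat_lit 41)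 (nat_lit 276)) (nd (nat_lit 344) (nat_lit 0) (cs (lf (nat_lit 29) (nat_lit 277)) (lf (nat_lit 21) (nat_lit 318))))))))))) (cs (nd (nat_lit 277) (nat_lit 0) (cs (lf (nat_lit 19) (nat_lit 251)) (nd (nat_lit 320) (nat_lit 0) (cs (lf (nat_lit 17) (nat_lit 296)) (nd (nat_lit 339) (nat_lit 0) (cs (lf (nat_lit 10) (nat_lit 317)) (nd (nat_lit 317) (nat_lit 0) (cs (lf (nat_lit 11) (nat_lit 316)) (nd (nat_lit 342) (nat_lit 0) (cs (lf (nat_lit 5) (nat_lit 317)) (lf (nat_lit 36) (nat_lit 254)))))))))))) (nd (nat_lit 276) (nat_lit 0) (cs (lf (nat_lit 18) (nat_lit 251)) (nd (nat_lit 320) (nat_lit 0) (cs (lf (nat_lit 17) (nat_lit 296)) (rf (nat_lit 7)))))))))))) (rf (nat_lit 8)))))) q13604 (by decide +kernel)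
def q13622 : Q := Q.p (nat_lit 0xc00003800000000010000000000000000000000000000000000000000000000000000) (nat_lit 0x1800006000038000060000380002e00001e000060000080000000000000000000000000000000000) (nat_lit 9)
theorem c13622 : QOK q13622 := cut [q2513, q13606, q13608, q13616] ⟨c2513, c13606, c13608, c13616, trivial⟩ (nd (nat_lit 250) (nat_lit 0) (cs (lf (nat_lit 0) (nat_lit 249)) (nd (nat_lit 228) (nat_lit 0) (cs (lf (nat_lit 23) (nat_lit 227)) (nd (nat_lit 206) (nat_lit 0) (cs (rf (nat_lit 0)) (cs (nd (nat_lit 272) (nat_lit 0) (cs (lf (nat_lit 11) (nat_lit 249)) (nd (nat_lit 294) (nat_lit 0) (cs (rf (nat_lit 1)) (rf (nat_lit 2)))))) (cs (nd (nat_lit 272) (nat_lit 0) (cs (lf (nat_lit 11) (nat_lit 249)) (nd (nat_lit 183) (nat_lit 0) (cs (lf (nat_lit 46) (nat_lit 183)) (nd (nat_lit 184) (nat_lit 0) (cs (lf (nat_lit 47) (nat_lit 161)) (nd (nat_lit 207) (nat_lit 0) (cs (lf (nat_lit 18) (nat_lit 183)) (nd (nat_lit 229) (nat_lit 0) (cs (lf (nat_lit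 30) (nat_lit 206)) (lf (nat_lit 24) (nat_lit 162)))))))))))) (nd (nat_lit 271) (nat_lit 0) (cs (lf (nat_lit 10) (nat_lit 249)) (nd (nat_lit 184) (nat_lit 0) (cs (lf (nat_lit 29) (nat_lit 184)) (nd (nat_lit 183) (nat_lit 0) (cs (lf (nat_lit 47) (nat_lit 161)) (rf (nat_lit 3)))))))))))))))) q13622 (by decide +kernel)
def q13913 : Q := Q.p (nat_lit 0x800000c00003000000000010000000000000000000000000000000000000000000000000000) (nat_lit 0x500005c0001f0001ff8003fe001f10003f0000f88001f78001e80007c0001000000000000000000000000000000000000000000) (nat_lit 15)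
theorem c13913 : QOK q13913 := cut [q13624, q13677, q13703, q13518, q13628, q13688, q13705, q13642, q13837, q13842, q13852, q13857, q13867, q13871, q13881, q13637, q13890, q13527, q13877, q13897, q13905, q13539, q13912] ⟨c13624, c13677, c13703, c13518, c13628, c13688, c13705, c13642, c13837, c13842, c13852, c13857, c13867, c13871, c13881, c13637, c13890, c13527, c13877, c13897, c13905, c13539, c13912, trivial⟩ (nd (nat_lit 277) (nat_lit 0) (cs (rf (nat_lit 0)) (cs (nd (nat_lit 230) (nat_lit 0) (cs (lf (nat_lit 24) (nat_lit 186)) (nd (nat_lit 321) (nat_lit 0) (cs (rf (nat_lit 1)) (cs (rf (nat_lit 2)) (cs (nd (nat_lit 343) (nat_lit 0) (cs (rf (nat_lit 3)) (cs (nd (nat_lit 187) (nat_lit 0) (cs (lf (nat_lit 34) (nat_lit 186)) (rf (nat_lit 4)))) (cs (rf (nat_lit 5)) (nd (nat_lit 187) (nat_lit 0) (cs (lf (nat_lit 34) (nat_lit 186)) (nd (nat_lit 364) (nat_lit 0) (cs (lf (nat_lit 40) (nat_lit 276)) (nd (nat_lit 256) (nat_lit 0) (cs (lf (nat_lit 34)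 (nat_lit 255)) (rf (nat_lit 6)))))))))))) (cs (nd (nat_lit 256) (nat_lit 0) (cs (nd (nat_lit 278) (nat_lit 0) (cs (nd (nat_lit 234) (nat_lit 0) (cs (lf (nat_lit 33) (nat_lit 233)) (lf (nat_lit 39) (nat_lit 233)))) (lf (nat_lit 30) (nat_lit 255)))) (cs (nd (nat_lit 209) (nat_lit 0) (cs (lf (nat_lit 35) (nat_lit 186)) (nd (nat_lit 255) (nat_lit 0) (cs (lf (nat_lit 35) (nat_lit 233)) (rf (nat_lit 7)))))) (cs (rf (nat_lit 8)) (cs (nd (nat_lit 187) (nat_lit 0) (cs (lf (nat_lit 34) (nat_lit 186)) (nd (nat_lit 234) (nat_lit 0) (cs (lf (nat_lit 33) (nat_lit 233)) (nd (nat_lit 278) (nat_lit 0) (cs (lf (nat_lit 36) (nat_lit 211)) (lf (nat_lit 30) (nat_lit 255)))))))) (nd (nat_lit 187) (nat_lit 0) (cs (lf (nat_lit 34) (nat_lit 186)) (rf (nat_lit 9))))))))) (cs (nd (nat_lit 343) (nat_lit 0) (cs (rf (nat_lit 10)) (cs (nd (nat_lit 187) (nat_lit 0) (cs (lf (nat_lit 34) (nat_lit 186)) (rf (nat_lit 11)))) (cs (nd (nat_lit 187) (nat_lit 0) (cs (lf (nat_lit 34)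 (nat_lit 186)) (rf (nat_lit 12)))) (cs (nd (nat_lit 342) (nat_lit 0) (cs (lf (nat_lit 41) (nat_lit 276)) (nd (nat_lit 320) (nat_lit 0) (cs (lf (nat_lit 36) (nat_lit 254)) (nd (nat_lit 187) (nat_lit 0) (cs (lf (nat_lit 34) (nat_lit 186)) (nd (nat_lit 344) (nat_lit 0) (cs (lf (nat_lit 29) (nat_lit 277)) (rf (nat_lit 13)))))))))) (rf (nat_lit 14))))))) (cs (nd (nat_lit 344) (nat_lit 0) (cs (nd (nat_lit 209) (nat_lit 0) (cs (lf (nat_lit 35) (nat_lit 186)) (nd (nat_lit 255) (nat_lit 0) (cs (lf (nat_lit 28) (nat_lit 255)) (rf (nat_lit 15)))))) (cs (nd (nat_lit 187) (nat_lit 0) (cs (lf (nat_lit 34) (nat_lit 186)) (nd (nat_lit 343) (nat_lit 0) (cs (lf (nat_lit 29) (nat_lit 277)) (nd (nat_lit 342) (nat_lit 0) (cs (lf (nat_lit 41) (nat_lit 276)) (nd (nat_lit 320) (nat_lit 0) (cs (lf (nat_lit 36) (nat_lit 254)) (rf (nat_lit 13)))))))))) (nd (nat_lit 366) (nat_lit 0) (cs (lf (nat_lit 27) (nat_lit 277)) (rf (nat_lit 16))))))) (cs (nd (nat_lit 343) (nat_lit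 0) (cs (rf (nat_lit 17)) (cs (nd (nat_lit 318) (nat_lit 0) (cs (rf (nat_lit 18)) (nd (nat_lit 187) (nat_lit 0) (cs (lf (nat_lit 34) (nat_lit 186)) (rf (nat_lit 19)))))) (cs (nd (nat_lit 187) (nat_lit 0) (cs (lf (nat_lit 34) (nat_lit 186)) (nd (nat_lit 364) (nat_lit 0) (cs (lf (nat_lit 40) (nat_lit 276)) (rf (nat_lit 6)))))) (rf (nat_lit 20)))))) (cs (nd (nat_lit 343) (nat_lit 0) (cs (rf (nat_lit 17)) (cs (rf (nat_lit 21)) (cs (rf (nat_lit 10)) (rf (nat_lit 20)))))) (nd (nat_lit 343) (nat_lit 0) (cs (rf (nat_lit 3)) (cs (rf (nat_lit 17)) (rf (nat_lit 14)))))))))))))))) (cs (nd (nat_lit 276) (nat_lit 0) (cs (lf (nat_lit 18) (nat_lit 252)) (lf (nat_lit 5) (nat_lit 274)))) (rf (nat_lit 22)))))) q13913 (by decide +kernel)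
def q13931 : Q := Q.p (nat_lit 0xa00000c00002000000000010000000000000000000000000000000000000000000000000000) (nat_lit 0x700001e0000500000300001000004000000000000000000000000000000000000000000000000000000000) (nat_lit 7)
theorem c13931 : QOK q13931 := cut [q13921, q13923, q13927, q13930] ⟨c13921, c13923, c13927, c13930, trivial⟩ (nd (nat_lit 318) (nat_lit 0) (cs (rf (nat_lit 0)) (cs (nd (nat_lit 230) (nat_lit 0) (cs (lf (nat_lit 26) (nat_lit 208)) (nd (nat_lit 296) (nat_lit 0) (cs (lf (nat_lit 30) (nat_lit 252)) (rf (nat_lit 1)))))) (cs (nd (nat_lit 252) (nat_lit 0) (cs (lf (nat_lit 25) (nat_lit 208)) (nd (nat_lit 319) (nat_lit 0) (cs (lf (nat_lit 42) (nat_lit 252)) (rf (nat_lit 2)))))) (rf (nat_lit 3)))))) q13931 (by decide +kernel)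
def q13937 : Q := Q.p (nat_lit 0xa00000c00002000000000010000000000000000000000000000000000000000000000000000) (nat_lit 0x700001e0001400000300001000004000000000000000000000000000000000000000000000000000000000) (nat_lit 7)
theorem c13937 : QOK q13937 := cut [q13935] ⟨c13935, trivial⟩ (nd (nat_lit 298) (nat_lit 0) (cs (lf (nat_lit 18) (nat_lit 274)) (nd (nat_lit 272) (nat_lit 0) (cs (lf (nat_lit 1) (nat_lit 272)) (rf (nat_lit 0)))))) q13937 (by decide +kernel)
def q13996 : Q := Q.p (nat_lit 0x400001800002c00001000000000000000000000000000000000000000000000000000000000000000) (nat_lit 0x300002f0003bc000e30003c0000f80003e0000000000000000000000000000000000000000000000000000000000) (nat_lit 12)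
theorem c13996 : QOK q13996 := cut [q13971, q13992, q13995] ⟨c13971, c13992, c13995, trivial⟩ (nd (nat_lit 321) (nat_lit 0) (cs (nd (nat_lit 255) (nat_lit 0) (cs (lf (nat_lit 24) (nat_lit 233)) (nd (nat_lit 320) (nat_lit 0) (cs (lf (nat_lit 41) (nat_lit 254)) (nd (nat_lit 234) (nat_lit 0) (cs (lf (nat_lit 34) (nat_lit 233)) (nd (nat_lit 319) (nat_lit 0) (cs (lf (nat_lit 12) (nat_lit 296)) (nd (nat_lit 297) (nat_lit 0) (cs (lf (nat_lit 42) (nat_lit 252)) (lf (nat_lit 23) (nat_lit 296)))))))))))) (cs (rf (nat_lit 0)) (cs (rf (nat_lit 1)) (rf (nat_lit 2)))))) q13996 (by decide +kernel)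
def q14029 : Q := Q.p (nat_lit 0x400001800002800003000000000010000000000000000000000000000000000000000000000000000) (nat_lit 0x80000300002f0003b8000e00003c0000f80003e4000000000040000000000000000000000000000000000000000000000) (nat_lit 12)
theorem c14029 : QOK q14029 := cut [q13971, q13992, q13995] ⟨c13971, c13992, c13995, trivial⟩ (nd (nat_lit 321) (nat_lit 0) (cs (rf (nat_lit 0)) (cs (rf (nat_lit 1)) (cs (rf (nat_lit 2)) (nd (nat_lit 186) (nat_lit 0) (cs (lf (nat_lit 26) (nat_lit 186)) (nd (nat_lit 255) (nat_lit 0) (cs (lf (nat_lit 24) (nat_lit 233)) (nd (nat_lit 342) (nat_lit 0) (cs (lf (nat_lit 40) (nat_lit 254)) (nd (nat_lit 234) (nat_lit 0) (cs (lf (nat_lit 34) (nat_lit 233)) (nd (nat_lit 343) (nat_lit 0) (cs (lf (nat_lit 41) (nat_lit 276)) (nd (nat_lit 365) (nat_lit 0) (cs (lf (nat_lit 30) (nat_lit 299)) (lf (nat_lit 35) (nat_lit 277)))))))))))))))))) q14029 (by decide +kernel)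
def q14190 : Q := Q.p (nat_lit 0x40000100000400000000000000000000000000000000000000000000000000000000000000) (nat_lit 0x280000e000038000020000080000200001800002000000000000000000000000000000000000000000000000000) (nat_lit 5)
theorem c14190 : QOK q14190 := cut [q14121, q14124, q14184] ⟨c14121, c14124, c14184, trivial⟩ (nd (nat_lit 316) (nat_lit 0) (cs (rf (nat_lit 0)) (cs (rf (nat_lit 1)) (rf (nat_lit 2))))) q14190 (by decide +kernel)
def q14250 : Q := Q.p (nat_lit 0x40000d00000400000000010000000000000000000000000000000000000000000000000000) (nat_lit 0x20000380001f0001bc0000f00003c0003e0002f800018000060000000000000000000000000000000000000000) (nat_lit 11)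
theorem c14250 : QOK q14250 := cut [q14195, q14200, q14210, q14221, q14235, q14241, q14249] ⟨c14195, c14200, c14210, c14221, c14235, c14241, c14249, trivial⟩ (nd (nat_lit 228) (nat_lit 0) (cs (rf (nat_lit 0)) (cs (rf (nat_lit 1)) (cs (nd (nat_lit 293) (nat_lit 0) (cs (lf (nat_lit 41) (nat_lit 227)) (nd (nat_lit 271) (nat_lit 0) (cs (lf (nat_lit 36) (nat_lit 205)) (nd (nat_lit 292) (nat_lit 0) (cs (nd (nat_lit 295) (nat_lit 0) (cs (lf (nat_lit 15) (nat_lit 271)) (nd (nat_lit 313) (nat_lit 0) (cs (nd (nat_lit 291) (nat_lit 0) (cs (lf (nat_lit 12) (nat_lit 268)) (lf (nat_lit 11) (nat_lit 290)))) (lf (nat_lit 10) (nat_lit 291)))))) (cs (nd (nat_lit 295) (nat_lit 0) (cs (lf (nat_lit 15) (nat_lit 271)) (nd (nat_lit 314) (nat_lit 0) (cs (nd (nat_lit 270) (nat_lit 0) (cs (rf (nat_lit 2)) (lf (nat_lit 23) (nat_lit 269)))) (lf (nat_lit 11) (nat_lit 291)))))) (cs (nd (nat_lit 270) (nat_lit 0) (cs (nd (nat_lit 291) (nat_lit 0) (cs (lf (nat_lit 12) (nat_lit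 268)) (rf (nat_lit 3)))) (cs (nd (nat_lit 269) (nat_lit 0) (cs (nd (nat_lit 247) (nat_lit 0) (cs (lf (nat_lit 23) (nat_lit 246)) (nd (nat_lit 229) (nat_lit 0) (cs (lf (nat_lit 35) (nat_lit 206)) (nd (nat_lit 248) (nat_lit 0) (cs (nd (nat_lit 226) (nat_lit 0) (cs (lf (nat_lit 24) (nat_lit 204)) (lf (nat_lit 8) (nat_lit 225)))) (lf (nat_lit 14) (nat_lit 225)))))))) (lf (nat_lit 0) (nat_lit 268)))) (nd (nat_lit 269) (nat_lit 0) (cs (lf (nat_lit 0) (nat_lit 268)) (nd (nat_lit 291) (nat_lit 0) (cs (lf (nat_lit 12) (nat_lit 268)) (rf (nat_lit 4))))))))) (nd (nat_lit 291) (nat_lit 0) (cs (lf (nat_lit 12) (nat_lit 268)) (nd (nat_lit 295) (nat_lit 0) (cs (lf (nat_lit 15) (nat_lit 271)) (rf (nat_lit 5)))))))))))))) (rf (nat_lit 6)))))) q14250 (by decide +kernel)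
def q14319 : Q := Q.p (nat_lit 0x40000300000400001000000000000000000000000000000000000000000000000000000000000000) (nat_lit 0x8000038000c80000000000800002000000000000000000000000000000000000000000000000000000000) (nat_lit 5)
theorem c14319 : QOK q14319 := cut [q14318] ⟨c14318, trivial⟩ (nd (nat_lit 229) (nat_lit 0) (cs (lf (nat_lit 46) (nat_lit 229)) (rf (nat_lit 0)))) q14319 (by decide +kernel)
def q14360 : Q := Q.p (nat_lit 0x300000c00003000000000000000000000000000000000000000000000000000000000000000) (nat_lit 0x18000060000c00000380000e00002000000000000000000000000000000000000000000000000000000000) (nat_lit 7)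
theorem c14360 : QOK q14360 := cut [q14357] ⟨c14357, trivial⟩ (nd (nat_lit 318) (nat_lit 0) (cs (lf (nat_lit 30) (nat_lit 252)) (nd (nat_lit 317) (nat_lit 0) (cs (lf (nat_lit 41) (nat_lit 251)) (nd (nat_lit 298) (nat_lit 0) (cs (lf (nat_lit 6) (nat_lit 295)) (rf (nat_lit 0)))))))) q14360 (by decide +kernel)
def q14452 : Q := Q.p (nat_lit 0x200000e00002000000000010000000000000000000000000000000000000000000000000000) (nat_lit 0x3a0000f80001f0000180000f0000780000e000018000020000000000000000000000000000000000000000) (nat_lit 13)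
theorem c14452 : QOK q14452 := cut [q1195, q1203, q12673, q14434, q12970, q14448] ⟨c1195, c1203, c12673, c14434, c12970, c14448, trivial⟩ (nd (nat_lit 272) (nat_lit 0) (cs (rf (nat_lit 0)) (cs (rf (nat_lit 1)) (cs (rf (nat_lit 2)) (nd (nat_lit 250) (nat_lit 0) (cs (lf (nat_lit 23) (nat_lit 249)) (nd (nat_lit 228) (nat_lit 0) (cs (rf (nat_lit 3)) (cs (nd (nat_lit 294) (nat_lit 0) (cs (lf (nat_lit 11) (nat_lit 271)) (nd (nat_lit 205) (nat_lit 0) (cs (lf (nat_lit 46) (nat_lit 205)) (nd (nat_lit 229) (nat_lit 0) (cs (lf (nat_lit 35) (nat_lit 206)) (nd (nat_lit 183) (nat_lit 0) (cs (lf (nat_lit 45) (nat_lit 183)) (nd (nat_lit 316) (nat_lit 0) (cs (nd (nat_lit 315) (nat_lit 0) (cs (lf (nat_lit 41) (nat_lit 249)) (nd (nat_lit 317) (nat_lit 0) (cs (lf (nat_lit 29) (nat_lit 250)) (rf (nat_lit 4)))))) (lf (nat_lit 34) (nat_lit 228)))))))))))) (cs (nd (nat_lit 294) (nat_lit 0) (cs (lf (nat_lit 11) (nat_lit 271)) (nd (nat_lit 295) (nat_lit 0) (cs (lf (nat_lit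 29) (nat_lit 228)) (nd (nat_lit 205) (nat_lit 0) (cs (lf (nat_lit 46) (nat_lit 205)) (nd (nat_lit 229) (nat_lit 0) (cs (lf (nat_lit 35) (nat_lit 206)) (nd (nat_lit 251) (nat_lit 0) (cs (lf (nat_lit 34) (nat_lit 207)) (lf (nat_lit 41) (nat_lit 228)))))))))))) (nd (nat_lit 294) (nat_lit 0) (cs (lf (nat_lit 11) (nat_lit 271)) (rf (nat_lit 5)))))))))))))) q14452 (by decide +kernel)
def q14529 : Q := Q.p (nat_lit 0x200000c00002000000000010000000000000000000000000000000000000000000000000000) (nat_lit 0x100001c0000780007bf0005f80003f0001f0000700000c000050000000000000000000000000000000000000000000000) (nat_lit 10)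
theorem c14529 : QOK q14529 := cut [q13048, q14366, q14474, q13479, q14471, q14485, q12834, q14491, q14492, q14498, q14503, q14508, q14502, q14518, q13404, q14483, q12686] ⟨c13048, c14366, c14474, c13479, c14471, c14485, c12834, c14491, c14492, c14498, c14503, c14508, c14502, c14518, c13404, c14483, c12686, trivial⟩ (nd (nat_lit 319) (nat_lit 0) (cs (rf (nat_lit 0)) (cs (rf (nat_lit 1)) (nd (nat_lit 295) (nat_lit 0) (cs (nd (nat_lit 320) (nat_lit 0) (cs (lf (nat_lit 29) (nat_lit 253)) (rf (nat_lit 2)))) (cs (nd (nat_lit 273) (nat_lit 0) (cs (rf (nat_lit 3)) (cs (rf (nat_lit 4)) (rf (nat_lit 5))))) (cs (nd (nat_lit 273) (nat_lit 0) (cs (rf (nat_lit 6)) (cs (rf (nat_lit 4)) (rf (nat_lit 5))))) (cs (nd (nat_lit 273) (nat_lit 0) (cs (rf (nat_lit 5)) (cs (rf (nat_lit 7)) (nd (nat_lit 252) (nat_lit 0) (cs (lf (nat_lit 37) (nat_lit 207)) (nd (nat_lit 317) (nat_lit 0) (cs (lf (nat_lit 30) (nat_lit 251)) (nd (nat_lit 272) (nat_lit 0) (cs (lf (nat_lit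 12) (nat_lit 249)) (nd (nat_lit 250) (nat_lit 0) (cs (lf (nat_lit 23) (nat_lit 249)) (rf (nat_lit 8))))))))))))) (nd (nat_lit 294) (nat_lit 0) (cs (nd (nat_lit 293) (nat_lit 0) (cs (lf (nat_lit 15) (nat_lit 271)) (rf (nat_lit 9)))) (cs (nd (nat_lit 296) (nat_lit 0) (cs (lf (nat_lit 12) (nat_lit 271)) (nd (nat_lit 230) (nat_lit 0) (cs (lf (nat_lit 26) (nat_lit 208)) (rf (nat_lit 10)))))) (cs (nd (nat_lit 230) (nat_lit 0) (cs (lf (nat_lit 46) (nat_lit 230)) (nd (nat_lit 293) (nat_lit 0) (cs (lf (nat_lit 15) (nat_lit 271)) (nd (nat_lit 292) (nat_lit 0) (cs (rf (nat_lit 11)) (lf (nat_lit 16) (nat_lit 270)))))))) (cs (nd (nat_lit 272) (nat_lit 0) (cs (nd (nat_lit 230) (nat_lit 0) (cs (lf (nat_lit 26) (nat_lit 208)) (nd (nat_lit 296) (nat_lit 0) (cs (lf (nat_lit 23) (nat_lit 271)) (rf (nat_lit 12)))))) (cs (rf (nat_lit 13)) (nd (nat_lit 271) (nat_lit 0) (cs (lf (nat_lit 19) (nat_lit 271)) (nd (nat_lit 252) (nat_lit 0) (cs (lf (nat_lit 47) (nat_lit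 230)) (lf (nat_lit 14) (nat_lit 249))))))))) (nd (nat_lit 273) (nat_lit 0) (cs (rf (nat_lit 3)) (cs (rf (nat_lit 4)) (nd (nat_lit 251) (nat_lit 0) (cs (rf (nat_lit 14)) (cs (rf (nat_lit 15)) (nd (nat_lit 292) (nat_lit 0) (cs (nd (nat_lit 229) (nat_lit 0) (cs (rf (nat_lit 16)) (lf (nat_lit 41) (nat_lit 228)))) (lf (nat_lit 13) (nat_lit 270))))))))))))))))))))))) q14529 (by decide +kernel)
def q14557 : Q := Q.p (nat_lit 0x200000c00002000000000010000000000000000000000000000000000000000000000000000) (nat_lit 0x400001c0003f00007e0001d00000300001000004000000000000000000000000000000000000000000000000000000000) (nat_lit 9)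
theorem c14557 : QOK q14557 := cut [q12932, q13048, q13915, q13926, q2598, q13932] ⟨c12932, c13048, c13915, c13926, c2598, c13932, trivial⟩ (nd (nat_lit 319) (nat_lit 0) (cs (rf (nat_lit 0)) (cs (rf (nat_lit 1)) (nd (nat_lit 320) (nat_lit 0) (cs (lf (nat_lit 29) (nat_lit 253)) (nd (nat_lit 299) (nat_lit 0) (cs (nd (nat_lit 230) (nat_lit 0) (cs (lf (nat_lit 26) (nat_lit 208)) (rf (nat_lit 2)))) (cs (nd (nat_lit 318) (nat_lit 0) (cs (lf (nat_lit 41) (nat_lit 252)) (rf (nat_lit 3)))) (cs (nd (nat_lit 318) (nat_lit 0) (cs (lf (nat_lit 41) (nat_lit 252)) (nd (nat_lit 321) (nat_lit 0) (cs (lf (nat_lit 17) (nat_lit 296)) (nd (nat_lit 230) (nat_lit 0) (cs (lf (nat_lit 46) (nat_lit 230)) (rf (nat_lit 4)))))))) (nd (nat_lit 230) (nat_lit 0) (cs (lf (nat_lit 26) (nat_lit 208)) (nd (nat_lit 298) (nat_lit 0) (cs (lf (nat_lit 18) (nat_lit 274)) (rf (nat_lit 5))))))))))))))) q14557 (by decide +kernel)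
def q14582 : Q := Q.p (nat_lit 0x200000c00002000000000010000000000000000000000000000000000000000000000000000) (nat_lit 0x400001c0003ff0007f80039f0000180001e00007800000000000000000000000000000000000000000000000000000000) (nat_lit 12)
theorem c14582 : QOK q14582 := cut [q12932, q13048, q13150, q14340, q14420, q14566, q12842, q14415] ⟨c12932, c13048, c13150, c14340, c14420, c14566, c12842, c14415, trivial⟩ (nd (nat_lit 319) (nat_lit 0) (cs (rf (nat_lit 0)) (cs (rf (nat_lit 1)) (nd (nat_lit 318) (nat_lit 0) (cs (lf (nat_lit 41) (nat_lit 252)) (nd (nat_lit 317) (nat_lit 0) (cs (rf (nat_lit 2)) (cs (nd (nat_lit 252) (nat_lit 0) (cs (lf (nat_lit 25) (nat_lit 208)) (nd (nat_lit 296) (nat_lit 0) (cs (lf (nat_lit 41) (nat_lit 251)) (nd (nat_lit 251) (nat_lit 0) (cs (lf (nat_lit 47) (nat_lit 229)) (nd (nat_lit 315) (nat_lit 0) (cs (lf (nat_lit 13) (nat_lit 293)) (rf (nat_lit 3)))))))))) (cs (nd (nat_lit 230) (nat_lit 0) (cs (lf (nat_lit 26) (nat_lit 208))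 (nd (nat_lit 320) (nat_lit 0) (cs (lf (nat_lit 29) (nat_lit 253)) (nd (nat_lit 294) (nat_lit 0) (cs (lf (nat_lit 22) (nat_lit 294)) (nd (nat_lit 316) (nat_lit 0) (cs (lf (nat_lit 23) (nat_lit 293)) (rf (nat_lit 4)))))))))) (cs (nd (nat_lit 230) (nat_lit 0) (cs (lf (nat_lit 26) (nat_lit 208)) (nd (nat_lit 320) (nat_lit 0) (cs (lf (nat_lit 29) (nat_lit 253)) (nd (nat_lit 338) (nat_lit 0) (cs (lf (nat_lit 10) (nat_lit 316)) (nd (nat_lit 316) (nat_lit 0) (cs (lf (nat_lit 11) (nat_lit 315)) (nd (nat_lit 315) (nat_lit 0) (cs (lf (nat_lit 16) (nat_lit 293)) (rf (nat_lit 5)))))))))))) (cs (nd (nat_lit 320) (nat_lit 0) (cs (lf (nat_lit 29) (nat_lit 253)) (nd (nat_lit 338) (nat_lit 0) (cs (lf (nat_lit 10) (nat_lit 316)) (nd (nat_lit 316) (nat_lit 0) (cs (lf (nat_lit 11) (nat_lit 315)) (nd (nat_lit 296) (nat_lit 0) (cs (lf (nat_lit 12) (nat_lit 293)) (rf (nat_lit 6)))))))))) (nd (nat_lit 230) (nat_lit 0) (cs (lf (nat_lit 46) (nat_lit 230)) (nd (nat_lit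 320) (nat_lit 0) (cs (lf (nat_lit 29) (nat_lit 253)) (nd (nat_lit 338) (nat_lit 0) (cs (lf (nat_lit 10) (nat_lit 316)) (nd (nat_lit 295) (nat_lit 0) (cs (lf (nat_lit 23) (nat_lit 294)) (rf (nat_lit 7))))))))))))))))))))) q14582 (by decide +kernel)
def q14608 : Q := Q.p (nat_lit 0x200000e00002000000000010000000000000000000000000000000000000000000000000000) (nat_lit 0x400001c00007f0000f80005f0000000001000004000000000000000000000000000000000000000000000000000000000) (nat_lit 8)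
theorem c14608 : QOK q14608 := cut [q12932, q13048, q13153, q14604] ⟨c12932, c13048, c13153, c14604, trivial⟩ (nd (nat_lit 319) (nat_lit 0) (cs (rf (nat_lit 0)) (cs (rf (nat_lit 1)) (nd (nat_lit 318) (nat_lit 0) (cs (lf (nat_lit 41) (nat_lit 252)) (nd (nat_lit 317) (nat_lit 0) (cs (rf (nat_lit 2)) (nd (nat_lit 252) (nat_lit 0) (cs (lf (nat_lit 47) (nat_lit 230)) (rf (nat_lit 3))))))))))) q14608 (by decide +kernel)
def q14708 : Q := Q.p (nat_lit 0xe00003000000000000000000000000000000000000000000000000000000000000000) (nat_lit 0x200000e0001180000600001000004000000000000000000000000000000000000000000000000000) (nat_lit 6)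
theorem c14708 : QOK q14708 := cut [q14707] ⟨c14707, trivial⟩ (nd (nat_lit 272) (nat_lit 0) (cs (lf (nat_lit 12) (nat_lit 249)) (rf (nat_lit 0)))) q14708 (by decide +kernel)
def q14769 : Q := Q.p (nat_lit 0xe00003800000000000000000000000000000000000000000000000000000000000000) (nat_lit 0x20000080000000000600003800004000010000000000000000000000000000000000000000000000) (nat_lit 5)
theorem c14769 : QOK q14769 := cut [q14768] ⟨c14768, trivial⟩ (nd (nat_lit 250) (nat_lit 0) (cs (lf (nat_lit 0) (nat_lit 249)) (rf (nat_lit 0)))) q14769 (by decide +kernel)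
def q14819 : Q := Q.p (nat_lit 0xc00003000004000010000000000000000000000000000000000000000000000000000) (nat_lit 0x100000e0001380000e00002000028000080000000000000000000000000000000000000000000000) (nat_lit 8)
theorem c14819 : QOK q14819 := cut [q13470] ⟨c13470, trivial⟩ (nd (nat_lit 187) (nat_lit 0) (cs (lf (nat_lit 34) (nat_lit 186)) (nd (nat_lit 273) (nat_lit 0) (cs (lf (nat_lit 41) (nat_lit 207)) (rf (nat_lit 0)))))) q14819 (by decide +kernel)
def q14866 : Q := Q.p (nat_lit 0xe00003000000000000000000000000000000000000000000000000000000000000000) (nat_lit 0xe0007180000800000000000000000000000000000000000000000000000000000000000000) (nat_lit 5)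
theorem c14866 : QOK q14866 := cut [q14865] ⟨c14865, trivial⟩ (nd (nat_lit 272) (nat_lit 0) (cs (lf (nat_lit 12) (nat_lit 249)) (rf (nat_lit 0)))) q14866 (by decide +kernel)
def q14899 : Q := Q.p (nat_lit 0xf00003000000000000000000000000000000000000000000000000000000000000000) (nat_lit 0x80001000000e00001800004000010000000000000000000000000000000000000000000000) (nat_lit 5)
theorem c14899 : QOK q14899 := cut [q14898] ⟨c14898, trivial⟩ (nd (nat_lit 250) (nat_lit 0) (cs (lf (nat_lit 23) (nat_lit 249)) (rf (nat_lit 0)))) q14899 (by decide +kernel)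
def q14911 : Q := Q.p (nat_lit 0x100000c00003000000000000000000000000000000000000000000000000000000000000000) (nat_lit 0x300000c0000000001000000e00002000000000000000000000000000000000000000000000000000000000) (nat_lit 5)
theorem c14911 : QOK q14911 := cut [q13234] ⟨c13234, trivial⟩ (nd (nat_lit 318) (nat_lit 0) (cs (lf (nat_lit 30) (nat_lit 252)) (rf (nat_lit 0)))) q14911 (by decide +kernel)
def q14914 : Q := Q.p (nat_lit 0x300000c00003000000000000000000000000000000000000000000000000000000000000000) (nat_lit 0x600007800004c0000000000000000000000000000000000000000000000000000000000000000000000000) (nat_lit 5)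
theorem c14914 : QOK q14914 := cut [q14913] ⟨c14913, trivial⟩ (nd (nat_lit 319) (nat_lit 0) (cs (lf (nat_lit 42) (nat_lit 252)) (rf (nat_lit 0)))) q14914 (by decide +kernel)
def q14971 : Q := Q.p (nat_lit 0x240000d00001400000000010000000000000000000000000000000000000000000000000000) (nat_lit 0x200003e00009800002000008000020000380002e000018000060000000000000000000000000000000000000000) (nat_lit 9)
theorem c14971 : QOK q14971 := cut [q14195, q14200, q14249] ⟨c14195, c14200, c14249, trivial⟩ (nd (nat_lit 228) (nat_lit 0) (cs (rf (nat_lit 0)) (cs (rf (nat_lit 1)) (cs (rf (nat_lit 2)) (nd (nat_lit 341) (nat_lit 0) (cs (lf (nat_lit 43) (nat_lit 252)) (nd (nat_lit 207) (nat_lit 0) (cs (lf (nat_lit 34) (nat_lit 206)) (nd (nat_lit 315) (nat_lit 0) (cs (lf (nat_lit 40) (nat_lit 227)) (nd (nat_lit 316) (nat_lit 0) (cs (lf (nat_lit 41) (nat_lit 249)) (nd (nat_lit 249) (nat_lit 0) (cs (lf (nat_lit 47) (nat_lit 227)) (nd (nat_lit 338) (nat_lit 0) (cs (lf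 (nat_lit 46) (nat_lit 249)) (nd (nat_lit 339) (nat_lit 0) (cs (lf (nat_lit 29) (nat_lit 272)) (lf (nat_lit 19) (nat_lit 315)))))))))))))))))))) q14971 (by decide +kernel)
def q15066 : Q := Q.p (nat_lit 0x40000d00000000000000000000000000000000000000000000000000000000000000000000) (nat_lit 0x10000020001200000e00002000008000000000000000000000000000000000000000000000000000) (nat_lit 5)
theorem c15066 : QOK q15066 := cut [q15065] ⟨c15065, trivial⟩ (nd (nat_lit 273) (nat_lit 0) (cs (lf (nat_lit 11) (nat_lit 271)) (rf (nat_lit 0)))) q15066 (by decide +kernel)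
def q15078 : Q := Q.p (nat_lit 0x3c0000c00003000000000000000000000000000000000000000000000000000000000000000) (nat_lit 0x18000400000380000e00001800006000000000000000000000000000000000000000000000000000) (nat_lit 7)
theorem c15078 : QOK q15078 := cut [q15076] ⟨c15076, trivial⟩ (nd (nat_lit 272) (nat_lit 0) (cs (lf (nat_lit 23) (nat_lit 271)) (nd (nat_lit 315) (nat_lit 0) (cs (lf (nat_lit 10) (nat_lit 293)) (rf (nat_lit 0)))))) q15078 (by decide +kernel)
def q15142 : Q := Q.p (nat_lit 0x800003800000000078000000000000000000000000000000000000000000000000000) (nat_lit 0x15c0000600030000000000000000000000000000000000000000000000000000000000) (nat_lit 5)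
theorem c15142 : QOK q15142 := cut [q1999] ⟨c1999, trivial⟩ (nd (nat_lit 232) (nat_lit 0) (cs (lf (nat_lit 5) (nat_lit 207)) (rf (nat_lit 0)))) q15142 (by decide +kernel)
def q15260 : Q := Q.p (nat_lit 0xc0000000007c000000000000000000000000000000000000000000000000000) (nat_lit 0x280000e0000780007f8000380030e0000300031c000000000000000000000000000000000000000000000) (nat_lit 12)
theorem c15260 : QOK q15260 := cut [q15232, q15253] ⟨c15232, c15253, trivial⟩ (nd (nat_lit 183) (nat_lit 0) (cs (lf (nat_lit 22) (nat_lit 183)) (nd (nat_lit 205) (nat_lit 0) (cs (lf (nat_lit 23) (nat_lit 182)) (nd (nat_lit 226) (nat_lit 0) (cs (lf (nat_lit 10) (nat_lit 204)) (nd (nat_lit 248) (nat_lit 0) (cs (nd (nat_lit 204) (nat_lit 0) (cs (lf (nat_lit 11) (nat_lit 203)) (lf (nat_lit 30) (nat_lit 182)))) (cs (nd (nat_lit 225) (nat_lit 0) (cs (lf (nat_lit 20) (nat_lit 225)) (lf (nat_lit 9) (nat_lit 203)))) (cs (nd (nat_lit 270) (nat_lit 0) (cs (lf (nat_lit 33) (nat_lit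 182)) (nd (nat_lit 292) (nat_lit 0) (cs (nd (nat_lit 232) (nat_lit 0) (cs (lf (nat_lit 5) (nat_lit 207)) (rf (nat_lit 0)))) (cs (nd (nat_lit 188) (nat_lit 0) (cs (lf (nat_lit 17) (nat_lit 185)) (nd (nat_lit 291) (nat_lit 0) (cs (lf (nat_lit 41) (nat_lit 225)) (nd (nat_lit 249) (nat_lit 0) (cs (lf (nat_lit 11) (nat_lit 247)) (nd (nat_lit 273) (nat_lit 0) (cs (nd (nat_lit 272) (nat_lit 0) (cs (lf (nat_lit 0) (nat_lit 247)) (lf (nat_lit 8) (nat_lit 269)))) (lf (nat_lit 5) (nat_lit 248)))))))))) (nd (nat_lit 232) (nat_lit 0) (cs (lf (nat_lit 5) (nat_lit 207)) (nd (nat_lit 293) (nat_lit 0) (cs (lf (nat_lit 29) (nat_lit 226)) (nd (nat_lit 269) (nat_lit 0) (cs (lf (nat_lit 8) (nat_lit 247)) (nd (nat_lit 271) (nat_lit 0) (cs (nd (nat_lit 268) (nat_lit 0) (cs (lf (nat_lit 0) (nat_lit 267)) (lf (nat_lit 5) (nat_lit 268)))) (lf (nat_lit 15) (nat_lit 247))))))))))))))) (nd (nat_lit 188) (nat_lit 0) (cs (lf (nat_lit 17) (nat_lit 185)) (nd (nat_lit 232) (nat_lit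 0) (cs (lf (nat_lit 5) (nat_lit 207)) (nd (nat_lit 249) (nat_lit 0) (cs (lf (nat_lit 23) (nat_lit 225)) (rf (nat_lit 1)))))))))))))))))) q15260 (by decide +kernel)
def q15333 : Q := Q.p (nat_lit 0x800002c00000000000000000000000000000000000000000000000000000000000000) (nat_lit 0x11c0001200001c00000000000000000000000000000000000000000000000000000000) (nat_lit 5)
theorem c15333 : QOK q15333 := cut [q2065] ⟨c2065, trivial⟩ (nd (nat_lit 252) (nat_lit 0) (cs (lf (nat_lit 5) (nat_lit 250)) (rf (nat_lit 0)))) q15333 (by decide +kernel)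
def q15364 : Q := Q.p (nat_lit 0x200003800000000018000000000000000000000000000000000000000000000000000) (nat_lit 0x400005c0000000002000004000050000000000000000000000000000000000000000000000) (nat_lit 5)
theorem c15364 : QOK q15364 := cut [q15363] ⟨c15363, trivial⟩ (nd (nat_lit 229) (nat_lit 0) (cs (lf (nat_lit 35) (nat_lit 185)) (rf (nat_lit 0)))) q15364 (by decide +kernel)
def q15457 : Q := Q.p (nat_lit 0x70000000000000000000000000000000000000000000000000000) (nat_lit 0x80000f7000188000f00000400001000000000000000000000000000000000000) (nat_lit 6)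
theorem c15457 : QOK q15457 := cut [q2382, q7439, q15139, q15426] ⟨c2382, c7439, c15139, c15426, trivial⟩ (nd (nat_lit 211) (nat_lit 0) (cs (rf (nat_lit 0)) (cs (rf (nat_lit 1)) (cs (rf (nat_lit 2)) (rf (nat_lit 3)))))) q15457 (by decide +kernel)
def q15493 : Q := Q.p (nat_lit 0x800002000028000030000000000000000000000000000000000000000000000000000) (nat_lit 0x1780004e00011c000000000000000000000000000000000000000000000) (nat_lit 7)
theorem c15493 : QOK q15493 := cut [q15490] ⟨c15490, trivial⟩ (nd (nat_lit 210) (nat_lit 0) (cs (lf (nat_lit 35) (nat_lit 187)) (nd (nat_lit 207) (nat_lit 0) (cs (lf (nat_lit 4) (nat_lit 207)) (nd (nat_lit 228) (nat_lit 0) (cs (lf (nat_lit 10) (nat_lit 206)) (rf (nat_lit 0)))))))) q15493 (by decide +kernel)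
def q15516 : Q := Q.p (nat_lit 0x1e00002000000000000000000000000000000000000000000000000000000000000000) (nat_lit 0xe0006180001800000000000000000000000000000000000000000000000000000000000000) (nat_lit 5)
theorem c15516 : QOK q15516 := cut [q15515] ⟨c15515, trivial⟩ (nd (nat_lit 294) (nat_lit 0) (cs (lf (nat_lit 10) (nat_lit 272)) (rf (nat_lit 0)))) q15516 (by decide +kernel)
def q15518 : Q := Q.p (nat_lit 0x1e00000000000000000000000000000000000000000000000000000000000000000000) (nat_lit 0x3800006000039c00000000000000000000000000000000000000000000000000000000000000) (nat_lit 6)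
theorem c15518 : QOK q15518 := cut [q13005] ⟨c13005, trivial⟩ (nd (nat_lit 251) (nat_lit 0) (cs (lf (nat_lit 23) (nat_lit 250)) (nd (nat_lit 277) (nat_lit 0) (cs (rf (nat_lit 0)) (lf (nat_lit 22) (nat_lit 251)))))) q15518 (by decide +kernel)
def q15527 : Q := Q.p (nat_lit 0x200000800003c00008000000000000000000000000000000000000000000000000000000000000000) (nat_lit 0x60000180000500000400000000001800020000080000000000000000000000000000000000000000000000000000) (nat_lit 6)
theorem c15527 : QOK q15527 := cut [q15526] ⟨c15526, trivial⟩ (nd (nat_lit 251) (nat_lit 0) (cs (lf (nat_lit 22) (nat_lit 251)) (rf (nat_lit 0)))) q15527 (by decide +kernel)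
def q15557 : Q := Q.p (nat_lit 0x58000000000000001800002000000000000000000000000000000000000000000000000000000000000000) (nat_lit 0x3b800024000380000600000000000000000000000000000000000000000000000000000000000000000000000000) (nat_lit 7)
theorem c15557 : QOK q15557 := cut [q15555] ⟨c15555, trivial⟩ (nd (nat_lit 320) (nat_lit 0) (cs (lf (nat_lit 44) (nat_lit 253)) (nd (nat_lit 297) (nat_lit 0) (cs (lf (nat_lit 27) (nat_lit 253)) (rf (nat_lit 0)))))) q15557 (by decide +kernel)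
def q15590 : Q := Q.p (nat_lit 0x78000000000000001c00000800000000000000000000000000000000000000000000000000000000000000) (nat_lit 0x1f80000600009c000200002000001000000000000000000000000000000000000000000000000000000000000000) (nat_lit 8)
theorem c15590 : QOK q15590 := cut [q15588] ⟨c15588, trivial⟩ (nd (nat_lit 252) (nat_lit 0) (cs (lf (nat_lit 18) (nat_lit 251)) (nd (nat_lit 297) (nat_lit 0) (cs (lf (nat_lit 43) (nat_lit 252)) (rf (nat_lit 0)))))) q15590 (by decide +kernel)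
def q15629 : Q := Q.p (nat_lit 0x1c00002000000000000000000000000000000000000000000000000000000000000000) (nat_lit 0x40000100003ee0000300000e00008000020000000000000000000000000000000000000000000000000000) (nat_lit 8)
theorem c15629 : QOK q15629 := cut [q15107, q15512, q15626] ⟨c15107, c15512, c15626, trivial⟩ (nd (nat_lit 298) (nat_lit 0) (cs (rf (nat_lit 0)) (cs (rf (nat_lit 1)) (nd (nat_lit 209) (nat_lit 0) (cs (lf (nat_lit 25) (nat_lit 209)) (nd (nat_lit 320) (nat_lit 0) (cs (lf (nat_lit 42) (nat_lit 253)) (rf (nat_lit 2))))))))) q15629 (by decide +kernel)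
def q15635 : Q := Q.p (nat_lit 0x40000e00002000000000000000000000000000000000000000000000000000000000000000) (nat_lit 0x1c80007000001800000000000000000000000000000000000000000000000000000000000000) (nat_lit 5)
theorem c15635 : QOK q15635 := cut [q15634] ⟨c15634, trivial⟩ (nd (nat_lit 276) (nat_lit 0) (cs (lf (nat_lit 10) (nat_lit 272)) (rf (nat_lit 0)))) q15635 (by decide +kernel)
def q15707 : Q := Q.p (nat_lit 0xe00000000000000010000000000000000000000000000000000000000000000000000) (nat_lit 0xe0000380001f0001100000f0000380000e000058000000000000000000000000000000000000000000000) (nat_lit 11)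
theorem c15707 : QOK q15707 := cut [q12947, q12811, q15693, q14138, q15065, q15704, q15706] ⟨c12947, c12811, c15693, c14138, c15065, c15704, c15706, trivial⟩ (nd (nat_lit 294) (nat_lit 0) (cs (nd (nat_lit 251) (nat_lit 0) (cs (rf (nat_lit 0)) (cs (nd (nat_lit 295) (nat_lit 0) (cs (lf (nat_lit 6) (nat_lit 272)) (nd (nat_lit 229) (nat_lit 0) (cs (rf (nat_lit 1)) (lf (nat_lit 41) (nat_lit 228)))))) (nd (nat_lit 316) (nat_lit 0) (cs (nd (nat_lit 229) (nat_lit 0) (cs (rf (nat_lit 1)) (lf (nat_lit 39) (nat_lit 228)))) (cs (nd (nat_lit 272) (nat_lit 0) (cs (lf (nat_lit 30) (nat_lit 250)) (rf (nat_lit 2)))) (nd (nat_lit 272) (nat_lit 0) (cs (lf (nat_lit 30) (nat_lit 250)) (nd (nat_lit 250) (nat_lit 0) (cs (lf (nat_lit 23) (nat_lit 249)) (nd (nat_lit 315) (nat_lit 0) (cs (lf (nat_lit 41) (nat_lit 249)) (nd (nat_lit 317) (nat_lit 0) (cs (lf (nat_lit 29) (nat_lit 250)) (nd (nat_lit 228) (nat_lit 0) (cs (lf (nat_lit 43) (nat_lit 228)) (nd (nat_lit 206)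 (nat_lit 0) (cs (lf (nat_lit 24) (nat_lit 184)) (rf (nat_lit 3)))))))))))))))))))) (cs (nd (nat_lit 272) (nat_lit 0) (cs (lf (nat_lit 11) (nat_lit 271)) (rf (nat_lit 4)))) (cs (rf (nat_lit 5)) (rf (nat_lit 6)))))) q15707 (by decide +kernel)
def q15712 : Q := Q.p (nat_lit 0x200000c00002000008000000000000000000000000000000000000000000000000000000000) (nat_lit 0x40000700001c0000400000000001000010000040000000000000000000000000000000000000000000000000000) (nat_lit 6)
theorem c15712 : QOK q15712 := cut [q15711] ⟨c15711, trivial⟩ (nd (nat_lit 210) (nat_lit 0) (cs (lf (nat_lit 34) (nat_lit 209)) (rf (nat_lit 0)))) q15712 (by decide +kernel)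
def q15716 : Q := Q.p (nat_lit 0x200000c00002000008000000000000000000000000000000000000000000000000000000000) (nat_lit 0x100000c000070000180000500000000001000000000000000000000000000000000000000000000000000000000000000) (nat_lit 6)
theorem c15716 : QOK q15716 := cut [q15715] ⟨c15715, trivial⟩ (nd (nat_lit 320) (nat_lit 0) (cs (lf (nat_lit 28) (nat_lit 231)) (rf (nat_lit 0)))) q15716 (by decide +kernel)
def q15809 : Q := Q.p (nat_lit 0x40000d00002400001000010000000000000000000000000000000000000000000000000000) (nat_lit 0x800002000008000100000a80006c0001c0000400000000000000000000000000000000000000000) (nat_lit 5)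
theorem c15809 : QOK q15809 := cut [q15537, q4155] ⟨c15537, c4155, trivial⟩ (nd (nat_lit 209) (nat_lit 0) (cs (rf (nat_lit 0)) (nd (nat_lit 207) (nat_lit 0) (cs (lf (nat_lit 34) (nat_lit 206)) (nd (nat_lit 206) (nat_lit 0) (cs (lf (nat_lit 11) (nat_lit 205)) (rf (nat_lit 1)))))))) q15809 (by decide +kernel)
def q15992 : Q := Q.p (nat_lit 0x200000c00002000008000000000000000000000000000000000000000000000000000000000) (nat_lit 0x140000d00000300000000010000040000000000000000000000000000000000000000000000000000) (nat_lit 5)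
theorem c15992 : QOK q15992 := cut [q15991] ⟨c15991, trivial⟩ (nd (nat_lit 210) (nat_lit 0) (cs (lf (nat_lit 34) (nat_lit 209)) (rf (nat_lit 0)))) q15992 (by decide +kernel)
def q16057 : Q := Q.p (nat_lit 0x2000008000030000000000000000000000000000000000000000000000000000) (nat_lit 0x140000700001c0000100003000004c000180000400000000000000000000000000000000000000000) (nat_lit 6)
theorem c16057 : QOK q16057 := cut [q717, q2931, q15536] ⟨c717, c2931, c15536, trivial⟩ (nd (nat_lit 275) (nat_lit 0) (cs (rf (nat_lit 0)) (cs (rf (nat_lit 1)) (nd (nat_lit 276) (nat_lit 0) (cs (lf (nat_lit 29) (nat_lit 209)) (nd (nat_lit 274) (nat_lit 0) (cs (lf (nat_lit 41) (nat_lit 208)) (rf (nat_lit 2))))))))) q16057 (by decide +kernel)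
def q16122 : Q := Q.p (nat_lit 0x200000800003c000000000000000000000000000000000000000000000000000) (nat_lit 0x4000010000020000420001f8000060000100000400000000000000000000000000000) (nat_lit 8)
theorem c16122 : QOK q16122 := cut [q339] ⟨c339, trivial⟩ (nd (nat_lit 187) (nat_lit 0) (cs (lf (nat_lit 17) (nat_lit 184)) (nd (nat_lit 186) (nat_lit 0) (cs (lf (nat_lit 12) (nat_lit 183)) (nd (nat_lit 252) (nat_lit 0) (cs (lf (nat_lit 41) (nat_lit 186)) (rf (nat_lit 0)))))))) q16122 (by decide +kernel)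
def q16243 : Q := Q.p (nat_lit 0x200000800003c000040000000000000000000000000000000000000000000000) (nat_lit 0x4000010000020000420000b8000660000900002400000000000000000000000000000) (nat_lit 9)
theorem c16243 : QOK q16243 := cut [q3502] ⟨c3502, trivial⟩ (nd (nat_lit 187) (nat_lit 0) (cs (lf (nat_lit 12) (nat_lit 183)) (nd (nat_lit 184) (nat_lit 0) (cs (lf (nat_lit 23) (nat_lit 183)) (nd (nat_lit 252) (nat_lit 0) (cs (lf (nat_lit 41) (nat_lit 186)) (nd (nat_lit 185) (nat_lit 0) (cs (lf (nat_lit 5) (nat_lit 184)) (rf (nat_lit 0)))))))))) q16243 (by decide +kernel)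
def q16277 : Q := Q.p (nat_lit 0x2000000000004000070000040000000000000000000000000000000000000000) (nat_lit 0x200001e0000380000b800000000000000100000400000000000000000000000000000) (nat_lit 6)
theorem c16277 : QOK q16277 := cut [q5857, q16272, q16276] ⟨c5857, c16272, c16276, trivial⟩ (nd (nat_lit 140) (nat_lit 0) (cs (rf (nat_lit 0)) (cs (rf (nat_lit 1)) (rf (nat_lit 2))))) q16277 (by decide +kernel)
def q16422 : Q := Q.p (nat_lit 0x2000000000070000000000000000000000000000000000000000000000000000) (nat_lit 0x140000700001c00001000018000000000ff8007fc001ff80003f0001f00001c000000000000000000) (nat_lit 16)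
theorem c16422 : QOK q16422 := cut [q6705, q16138, q9412, q9413, q16360, q9895, q16363, q9393, q16366, q16368, q6414, q3621, q16398, q9406, q16406, q10658, q9390, q3047, q4296] ⟨c6705, c16138, c9412, c9413, c16360, c9895, c16363, c9393, c16366, c16368, c6414, c3621, c16398, c9406, c16406, c10658, c9390, c3047, c4296, trivial⟩ (nd (nat_lit 231) (nat_lit 0) (cs (rf (nat_lit 0)) (cs (rf (nat_lit 1)) (nd (nat_lit 166) (nat_lit 0) (cs (rf (nat_lit 2)) (cs (rf (nat_lit 3)) (cs (rf (nat_lit 4)) (nd (nat_lit 165) (nat_lit 0) (cs (nd (nat_lit 187) (nat_lit 0) (cs (lf (nat_lit 35) (nat_lit 143)) (rf (nat_lit 5)))) (cs (nd (nat_lit 164) (nat_lit 0) (cs (rf (nat_lit 6)) (cs (nd (nat_lit 163) (nat_lit 0) (cs (rf (nat_lit 7)) (cs (rf (nat_lit 8)) (cs (rf (nat_lit 9)) (nd (nat_lit 185) (nat_lit 0) (cs (lf (nat_lit 11) (nat_lit 162)) (nd (nat_lit 140) (nat_lit 0) (cs (lf (nat_lit 22) (nat_lit 140)) (rf (nat_lit 10)))))))))) (cs (nd (nat_lit 142) (nat_lit 0)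 (cs (lf (nat_lit 26) (nat_lit 142)) (nd (nat_lit 163) (nat_lit 0) (cs (rf (nat_lit 7)) (cs (rf (nat_lit 8)) (cs (rf (nat_lit 9)) (nd (nat_lit 144) (nat_lit 0) (cs (lf (nat_lit 17) (nat_lit 141)) (nd (nat_lit 141) (nat_lit 0) (cs (rf (nat_lit 11)) (nd (nat_lit 119) (nat_lit 0) (cs (nd (nat_lit 118) (nat_lit 0) (cs (nd (nat_lit 117) (nat_lit 0) (cs (lf (nat_lit 0) (nat_lit 116)) (nd (nat_lit 97) (nat_lit 0) (cs (nd (nat_lit 74) (nat_lit 0) (cs (nd (nat_lit 98) (nat_lit 0) (cs (nd (nat_lit 99) (nat_lit 0) (cs (lf (nat_lit 6) (nat_lit 96)) (lf (nat_lit 15) (nat_lit 95)))) (lf (nat_lit 35) (nat_lit 75)))) (lf (nat_lit 46) (nat_lit 74)))) (lf (nat_lit 24) (nat_lit 75)))))) (lf (nat_lit 19) (nat_lit 118)))) (cs (nd (nat_lit 97) (nat_lit 0) (cs (lf (nat_lit 24) (nat_lit 75)) (nd (nat_lit 185) (nat_lit 0) (cs (lf (nat_lit 11) (nat_lit 162)) (nd (nat_lit 98) (nat_lit 0) (cs (lf (nat_lit 35) (nat_lit 75)) (lf (nat_lit 37) (nat_lit 97)))))))) (nd (nat_lit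 118) (nat_lit 0) (cs (lf (nat_lit 19) (nat_lit 118)) (nd (nat_lit 185) (nat_lit 0) (cs (lf (nat_lit 47) (nat_lit 96)) (lf (nat_lit 11) (nat_lit 162))))))))))))))))))) (cs (nd (nat_lit 186) (nat_lit 0) (cs (lf (nat_lit 24) (nat_lit 142)) (nd (nat_lit 167) (nat_lit 0) (cs (lf (nat_lit 11) (nat_lit 163)) (nd (nat_lit 145) (nat_lit 0) (cs (lf (nat_lit 17) (nat_lit 142)) (nd (nat_lit 144) (nat_lit 0) (cs (lf (nat_lit 12) (nat_lit 141)) (rf (nat_lit 12)))))))))) (cs (nd (nat_lit 163) (nat_lit 0) (cs (rf (nat_lit 7)) (cs (rf (nat_lit 8)) (cs (rf (nat_lit 9)) (nd (nat_lit 184) (nat_lit 0) (cs (lf (nat_lit 10) (nat_lit 162)) (rf (nat_lit 13)))))))) (nd (nat_lit 142) (nat_lit 0) (cs (lf (nat_lit 26) (nat_lit 142)) (nd (nat_lit 141) (nat_lit 0) (cs (lf (nat_lit 18) (nat_lit 141)) (rf (nat_lit 14)))))))))))) (cs (nd (nat_lit 187) (nat_lit 0) (cs (lf (nat_lit 35) (nat_lit 143)) (nd (nat_lit 143) (nat_lit 0) (cs (lf (nat_lit 29) (nat_lit 143)) (rf (nat_lit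 15)))))) (cs (nd (nat_lit 164) (nat_lit 0) (cs (rf (nat_lit 16)) (cs (rf (nat_lit 6)) (cs (nd (nat_lit 186) (nat_lit 0) (cs (lf (nat_lit 45) (nat_lit 164)) (nd (nat_lit 167) (nat_lit 0) (cs (lf (nat_lit 11) (nat_lit 163)) (nd (nat_lit 146) (nat_lit 0) (cs (lf (nat_lit 16) (nat_lit 142)) (nd (nat_lit 168) (nat_lit 0) (cs (rf (nat_lit 17)) (lf (nat_lit 17) (nat_lit 143)))))))))) (nd (nat_lit 187) (nat_lit 0) (cs (lf (nat_lit 47) (nat_lit 142)) (lf (nat_lit 46) (nat_lit 164)))))))) (nd (nat_lit 187) (nat_lit 0) (cs (lf (nat_lit 35) (nat_lit 143)) (nd (nat_lit 143) (nat_lit 0) (cs (lf (nat_lit 29) (nat_lit 143)) (rf (nat_lit 18)))))))))))))))))) q16422 (by decide +kernel)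
def q16541 : Q := Q.p (nat_lit 0x80000f0000000000c00001000000000000000000000000000000000000) (nat_lit 0x40000700001d0000700001a6000720001e80007c0001c0000500000000000000000000) (nat_lit 12)
theorem c16541 : QOK q16541 := cut [q16475, q9426, q16477] ⟨c16475, c9426, c16477, trivial⟩ (nd (nat_lit 145) (nat_lit 0) (cs (rf (nat_lit 0)) (cs (nd (nat_lit 169) (nat_lit 0) (cs (nd (nat_lit 168) (nat_lit 0) (cs (lf (nat_lit 23) (nat_lit 143)) (lf (nat_lit 18) (nat_lit 144)))) (cs (nd (nat_lit 147) (nat_lit 0) (cs (nd (nat_lit 146) (nat_lit 0) (cs (lf (nat_lit 5) (nat_lit 144)) (lf (nat_lit 11) (nat_lit 143)))) (cs (nd (nat_lit 213) (nat_lit 0) (cs (nd (nat_lit 212) (nat_lit 0) (cs (lf (nat_lit 10) (nat_lit 209)) (rf (nat_lit 1)))) (cs (nd (nat_lit 191) (nat_lit 0) (cs (nd (nat_lit 185) (nat_lit 0) (cs (lf (nat_lit 22) (nat_lit 185)) (nd (nat_lit 236) (nat_lit 0) (cs (lf (nat_lit 28) (nat_lit 147)) (nd (nat_lit 235) (nat_lit 0) (cs (lf (nat_lit 29) (nat_lit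 169)) (nd (nat_lit 256) (nat_lit 0) (cs (nd (nat_lit 170) (nat_lit 0) (cs (nd (nat_lit 257) (nat_lit 0) (cs (lf (nat_lit 34) (nat_lit 169)) (lf (nat_lit 41) (nat_lit 190)))) (lf (nat_lit 35) (nat_lit 147)))) (lf (nat_lit 40) (nat_lit 168)))))))))) (cs (nd (nat_lit 185) (nat_lit 0) (cs (lf (nat_lit 22) (nat_lit 185)) (nd (nat_lit 214) (nat_lit 0) (cs (lf (nat_lit 29) (nat_lit 147)) (nd (nat_lit 125) (nat_lit 0) (cs (lf (nat_lit 28) (nat_lit 125)) (nd (nat_lit 104) (nat_lit 0) (cs (nd (nat_lit 103) (nat_lit 0) (cs (nd (nat_lit 102) (nat_lit 0) (cs (lf (nat_lit 47) (nat_lit 80)) (lf (nat_lit 46) (nat_lit 102)))) (lf (nat_lit 35) (nat_lit 81)))) (lf (nat_lit 34) (nat_lit 103)))))))))) (nd (nat_lit 126) (nat_lit 0) (cs (lf (nat_lit 34) (nat_lit 125)) (nd (nat_lit 125) (nat_lit 0) (cs (lf (nat_lit 35) (nat_lit 103)) (nd (nat_lit 124) (nat_lit 0) (cs (lf (nat_lit 9) (nat_lit 122)) (lf (nat_lit 47) (nat_lit 102))))))))))) (cs (nd (nat_lit 185) (nat_lit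 0) (cs (lf (nat_lit 22) (nat_lit 185)) (nd (nat_lit 212) (nat_lit 0) (cs (lf (nat_lit 10) (nat_lit 209)) (nd (nat_lit 191) (nat_lit 0) (cs (lf (nat_lit 17) (nat_lit 188)) (lf (nat_lit 41) (nat_lit 146)))))))) (nd (nat_lit 212) (nat_lit 0) (cs (lf (nat_lit 10) (nat_lit 209)) (nd (nat_lit 191) (nat_lit 0) (cs (lf (nat_lit 17) (nat_lit 188)) (nd (nat_lit 236) (nat_lit 0) (cs (lf (nat_lit 4) (nat_lit 210)) (lf (nat_lit 28) (nat_lit 147)))))))))))) (nd (nat_lit 146) (nat_lit 0) (cs (lf (nat_lit 6) (nat_lit 144)) (lf (nat_lit 11) (nat_lit 143))))))) (nd (nat_lit 185) (nat_lit 0) (cs (lf (nat_lit 22) (nat_lit 185)) (nd (nat_lit 168) (nat_lit 0) (cs (lf (nat_lit 23) (nat_lit 143)) (nd (nat_lit 191) (nat_lit 0) (cs (nd (nat_lit 147) (nat_lit 0) (cs (lf (nat_lit 17) (nat_lit 144)) (nd (nat_lit 146) (nat_lit 0) (cs (nd (nat_lit 124) (nat_lit 0) (cs (lf (nat_lit 42) (nat_lit 124)) (lf (nat_lit 24) (nat_lit 102)))) (lf (nat_lit 12) (nat_lit 143)))))) (lf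 (nat_lit 5) (nat_lit 166))))))))))) (nd (nat_lit 185) (nat_lit 0) (cs (lf (nat_lit 22) (nat_lit 185)) (nd (nat_lit 189) (nat_lit 0) (cs (lf (nat_lit 47) (nat_lit 122)) (rf (nat_lit 2))))))))) q16541 (by decide +kernel)
def q16735 : Q := Q.p (nat_lit 0x800002000000000078000000000000000000000000000000000000000000000000000) (nat_lit 0x40000100007dc000f600079c0007b000180000eb0001000004000000000000000000000000000000000000) (nat_lit 14)
theorem c16735 : QOK q16735 := cut [q16708, q16715, q2187, q16724, q16726, q16729] ⟨c16708, c16715, c2187, c16724, c16726, c16729, trivial⟩ (nd (nat_lit 233) (nat_lit 0) (cs (lf (nat_lit 4) (nat_lit 207)) (nd (nat_lit 211) (nat_lit 0) (cs (lf (nat_lit 5) (nat_lit 208)) (nd (nat_lit 276) (nat_lit 0) (cs (nd (nat_lit 231) (nat_lit 0) (cs (lf (nat_lit 29) (nat_lit 209)) (nd (nat_lit 274) (nat_lit 0) (cs (lf (nat_lit 41) (nat_lit 208)) (nd (nat_lit 252) (nat_lit 0) (cs (lf (nat_lit 36) (nat_lit 186)) (nd (nat_lit 185)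 (nat_lit 0) (cs (lf (nat_lit 23) (nat_lit 184)) (nd (nat_lit 229) (nat_lit 0) (cs (lf (nat_lit 11) (nat_lit 206)) (lf (nat_lit 27) (nat_lit 185)))))))))))) (cs (nd (nat_lit 184) (nat_lit 0) (cs (lf (nat_lit 22) (nat_lit 184)) (nd (nat_lit 189) (nat_lit 0) (cs (lf (nat_lit 17) (nat_lit 186)) (nd (nat_lit 228) (nat_lit 0) (cs (lf (nat_lit 10) (nat_lit 206)) (nd (nat_lit 298) (nat_lit 0) (cs (lf (nat_lit 25) (nat_lit 209)) (nd (nat_lit 320) (nat_lit 0) (cs (lf (nat_lit 42) (nat_lit 253)) (nd (nat_lit 277) (nat_lit 0) (cs (lf (nat_lit 38) (nat_lit 210)) (rf (nat_lit 0)))))))))))))) (cs (nd (nat_lit 190) (nat_lit 0) (cs (lf (nat_lit 16) (nat_lit 186)) (nd (nat_lit 212) (nat_lit 0) (cs (lf (nat_lit 17) (nat_lit 187)) (nd (nat_lit 146) (nat_lit 0) (cs (nd (nat_lit 277) (nat_lit 0) (cs (rf (nat_lit 1)) (lf (nat_lit 31) (nat_lit 189)))) (lf (nat_lit 37) (nat_lit 145)))))))) (nd (nat_lit 277) (nat_lit 0) (cs (nd (nat_lit 298) (nat_lit 0) (cs (lf (nat_lit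 25) (nat_lit 209)) (lf (nat_lit 38) (nat_lit 210)))) (cs (nd (nat_lit 274) (nat_lit 0) (cs (rf (nat_lit 2)) (cs (nd (nat_lit 189) (nat_lit 0) (cs (lf (nat_lit 17) (nat_lit 186)) (rf (nat_lit 3)))) (rf (nat_lit 4))))) (nd (nat_lit 184) (nat_lit 0) (cs (lf (nat_lit 22) (nat_lit 184)) (nd (nat_lit 228) (nat_lit 0) (cs (lf (nat_lit 10) (nat_lit 206)) (rf (nat_lit 5))))))))))))))))) q16735 (by decide +kernel)
def q16877 : Q := Q.p (nat_lit 0x200000800002000000000078000000000000000000000000000000000000000000000000000) (nat_lit 0x700003e0000fe0007f8001df000f300019c00073800180000e30001000004000000000000000000000000000000000000) (nat_lit 14)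
theorem c16877 : QOK q16877 := cut [q2578, q2614, q16769, q16778, q16841, q2609, q14367, q16876] ⟨c2578, c2614, c16769, c16778, c16841, c2609, c14367, c16876, trivial⟩ (nd (nat_lit 319) (nat_lit 0) (cs (nd (nat_lit 340) (nat_lit 0) (cs (lf (nat_lit 40) (nat_lit 252)) (nd (nat_lit 232) (nat_lit 0) (cs (lf (nat_lit 5) (nat_lit 207)) (rf (nat_lit 0)))))) (cs (nd (nat_lit 341) (nat_lit 0) (cs (rf (nat_lit 1)) (cs (nd (nat_lit 364) (nat_lit 0) (cs (lf (nat_lit 28) (nat_lit 275)) (nd (nat_lit 233) (nat_lit 0) (cs (lf (nat_lit 4) (nat_lit 207)) (nd (nat_lit 363) (nat_lit 0) (cs (lf (nat_lit 29) (nat_lit 297)) (nd (nat_lit 362) (nat_lit 0) (cs (lf (nat_lit 41) (nat_lit 296)) (nd (nat_lit 211) (nat_lit 0) (cs (lf (nat_lit 5) (nat_lit 208)) (nd (nat_lit 276) (nat_lit 0) (cs (lf (nat_lit 34) (nat_lit 275)) (nd (nat_lit 184) (nat_lit 0) (cs (lf (nat_lit 22) (nat_lit 184)) (rf (nat_lit 2)))))))))))))))) (nd (nat_lit 228) (nat_lit 0) (cs (lf (nat_lit 10)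 (nat_lit 206)) (nd (nat_lit 364) (nat_lit 0) (cs (lf (nat_lit 28) (nat_lit 275)) (nd (nat_lit 363) (nat_lit 0) (cs (lf (nat_lit 29) (nat_lit 297)) (nd (nat_lit 318) (nat_lit 0) (cs (lf (nat_lit 41) (nat_lit 252)) (nd (nat_lit 232) (nat_lit 0) (cs (lf (nat_lit 5) (nat_lit 207)) (nd (nat_lit 296) (nat_lit 0) (cs (lf (nat_lit 42) (nat_lit 296)) (nd (nat_lit 184) (nat_lit 0) (cs (lf (nat_lit 22) (nat_lit 184)) (rf (nat_lit 3))))))))))))))))))) (cs (rf (nat_lit 4)) (cs (nd (nat_lit 341) (nat_lit 0) (cs (rf (nat_lit 5)) (nd (nat_lit 362) (nat_lit 0) (cs (lf (nat_lit 40) (nat_lit 274)) (nd (nat_lit 228) (nat_lit 0) (cs (lf (nat_lit 10) (nat_lit 206)) (nd (nat_lit 363) (nat_lit 0) (cs (lf (nat_lit 41) (nat_lit 296)) (nd (nat_lit 276) (nat_lit 0) (cs (lf (nat_lit 34) (nat_lit 275)) (nd (nat_lit 233) (nat_lit 0) (cs (lf (nat_lit 4) (nat_lit 207)) (nd (nat_lit 184) (nat_lit 0) (cs (lf (nat_lit 22) (nat_lit 184)) (nd (nat_lit 211) (nat_lit 0) (cs (lf (nat_lit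 5) (nat_lit 208)) (rf (nat_lit 2)))))))))))))))))) (cs (nd (nat_lit 320) (nat_lit 0) (cs (lf (nat_lit 29) (nat_lit 253)) (nd (nat_lit 296) (nat_lit 0) (cs (nd (nat_lit 228) (nat_lit 0) (cs (lf (nat_lit 10) (nat_lit 206)) (nd (nat_lit 321) (nat_lit 0) (cs (lf (nat_lit 18) (nat_lit 296)) (rf (nat_lit 6)))))) (cs (nd (nat_lit 321) (nat_lit 0) (cs (lf (nat_lit 18) (nat_lit 296)) (nd (nat_lit 233) (nat_lit 0) (cs (lf (nat_lit 4) (nat_lit 207)) (nd (nat_lit 211) (nat_lit 0) (cs (lf (nat_lit 5) (nat_lit 208)) (nd (nat_lit 190) (nat_lit 0) (cs (lf (nat_lit 16) (nat_lit 186)) (nd (nat_lit 212) (nat_lit 0) (cs (lf (nat_lit 17) (nat_lit 187)) (nd (nat_lit 277) (nat_lit 0) (cs (lf (nat_lit 31) (nat_lit 189)) (nd (nat_lit 278) (nat_lit 0) (cs (lf (nat_lit 8) (nat_lit 274)) (nd (nat_lit 299) (nat_lit 0) (cs (nd (nat_lit 300) (nat_lit 0) (cs (lf (nat_lit 12) (nat_lit 296)) (nd (nat_lit 343) (nat_lit 0) (cs (lf (nat_lit 35) (nat_lit 255)) (lf (nat_lit 30) (nat_lit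 277)))))) (lf (nat_lit 14) (nat_lit 274)))))))))))))))))) (nd (nat_lit 228) (nat_lit 0) (cs (lf (nat_lit 10) (nat_lit 206)) (nd (nat_lit 295) (nat_lit 0) (cs (lf (nat_lit 0) (nat_lit 294)) (nd (nat_lit 184) (nat_lit 0) (cs (lf (nat_lit 22) (nat_lit 184)) (nd (nat_lit 233) (nat_lit 0) (cs (lf (nat_lit 4) (nat_lit 207)) (nd (nat_lit 211) (nat_lit 0) (cs (lf (nat_lit 5) (nat_lit 208)) (nd (nat_lit 190) (nat_lit 0) (cs (lf (nat_lit 16) (nat_lit 186)) (nd (nat_lit 212) (nat_lit 0) (cs (lf (nat_lit 17) (nat_lit 187)) (nd (nat_lit 146) (nat_lit 0) (cs (lf (nat_lit 37) (nat_lit 145)) (nd (nat_lit 277) (nat_lit 0) (cs (lf (nat_lit 31) (nat_lit 189)) (nd (nat_lit 276) (nat_lit 0) (cs (lf (nat_lit 6) (nat_lit 274)) (lf (nat_lit 15) (nat_lit 273))))))))))))))))))))))))))) (rf (nat_lit 7)))))))) q16877 (by decide +kernel)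
def q16943 : Q := Q.p (nat_lit 0x800002000000000078000000000000000000000000000000000000000000000000000) (nat_lit 0xe0000380003e0000fec001f700079c0007b000180000eb0001000004000000000000000000000000000000000000) (nat_lit 15)
theorem c16943 : QOK q16943 := cut [q16708, q16715, q16724, q16883, q16886, q16707, q16924, q16930] ⟨c16708, c16715, c16724, c16883, c16886, c16707, c16924, c16930, trivial⟩ (nd (nat_lit 233) (nat_lit 0) (cs (lf (nat_lit 4) (nat_lit 207)) (nd (nat_lit 211) (nat_lit 0) (cs (lf (nat_lit 5) (nat_lit 208)) (nd (nat_lit 190) (nat_lit 0) (cs (lf (nat_lit 16) (nat_lit 186)) (nd (nat_lit 212) (nat_lit 0) (cs (lf (nat_lit 17) (nat_lit 187)) (nd (nat_lit 277) (nat_lit 0) (cs (lf (nat_lit 31) (nat_lit 189)) (nd (nat_lit 276) (nat_lit 0) (cs (rf (nat_lit 0)) (cs (rf (nat_lit 1)) (cs (nd (nat_lit 274) (nat_lit 0) (cs (rf (nat_lit 2)) (cs (nd (nat_lit 184) (nat_lit 0) (cs (lf (nat_lit 22) (nat_lit 184)) (nd (nat_lit 299) (nat_lit 0) (cs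 (lf (nat_lit 5) (nat_lit 274)) (rf (nat_lit 3)))))) (nd (nat_lit 252) (nat_lit 0) (cs (lf (nat_lit 23) (nat_lit 251)) (rf (nat_lit 4))))))) (nd (nat_lit 278) (nat_lit 0) (cs (rf (nat_lit 5)) (cs (nd (nat_lit 300) (nat_lit 0) (cs (lf (nat_lit 5) (nat_lit 275)) (nd (nat_lit 322) (nat_lit 0) (cs (nd (nat_lit 184) (nat_lit 0) (cs (lf (nat_lit 22) (nat_lit 184)) (nd (nat_lit 299) (nat_lit 0) (cs (nd (nat_lit 256) (nat_lit 0) (cs (lf (nat_lit 17) (nat_lit 253)) (nd (nat_lit 323) (nat_lit 0) (cs (lf (nat_lit 29) (nat_lit 256)) (nd (nat_lit 298) (nat_lit 0) (cs (lf (nat_lit 25) (nat_lit 209)) (lf (nat_lit 0) (nat_lit 297)))))))) (lf (nat_lit 0) (nat_lit 274)))))) (cs (nd (nat_lit 256) (nat_lit 0) (cs (lf (nat_lit 17) (nat_lit 253)) (nd (nat_lit 343) (nat_lit 0) (cs (lf (nat_lit 40) (nat_lit 255)) (nd (nat_lit 345) (nat_lit 0) (cs (lf (nat_lit 28) (nat_lit 256)) (nd (nat_lit 344) (nat_lit 0) (cs (lf (nat_lit 29) (nat_lit 278)) (lf (nat_lit 41) (nat_lit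 277)))))))))) (cs (nd (nat_lit 256) (nat_lit 0) (cs (lf (nat_lit 17) (nat_lit 253)) (nd (nat_lit 343) (nat_lit 0) (cs (lf (nat_lit 40) (nat_lit 255)) (nd (nat_lit 231) (nat_lit 0) (cs (lf (nat_lit 29) (nat_lit 209)) (nd (nat_lit 344) (nat_lit 0) (cs (lf (nat_lit 41) (nat_lit 277)) (nd (nat_lit 299) (nat_lit 0) (cs (lf (nat_lit 42) (nat_lit 277)) (lf (nat_lit 0) (nat_lit 274)))))))))))) (nd (nat_lit 299) (nat_lit 0) (cs (lf (nat_lit 0) (nat_lit 274)) (nd (nat_lit 184) (nat_lit 0) (cs (lf (nat_lit 22) (nat_lit 184)) (nd (nat_lit 298) (nat_lit 0) (cs (lf (nat_lit 25) (nat_lit 209)) (nd (nat_lit 323) (nat_lit 0) (cs (lf (nat_lit 0) (nat_lit 297)) (nd (nat_lit 324) (nat_lit 0) (cs (lf (nat_lit 18) (nat_lit 299)) (lf (nat_lit 21) (nat_lit 298)))))))))))))))))) (cs (nd (nat_lit 184) (nat_lit 0) (cs (lf (nat_lit 22) (nat_lit 184)) (nd (nat_lit 300) (nat_lit 0) (cs (lf (nat_lit 5) (nat_lit 275)) (nd (nat_lit 299) (nat_lit 0) (cs (lf (nat_lit 0) (nat_lit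 274)) (nd (nat_lit 146) (nat_lit 0) (cs (lf (nat_lit 37) (nat_lit 145)) (nd (nat_lit 228) (nat_lit 0) (cs (lf (nat_lit 10) (nat_lit 206)) (nd (nat_lit 298) (nat_lit 0) (cs (lf (nat_lit 25) (nat_lit 209)) (nd (nat_lit 279) (nat_lit 0) (cs (lf (nat_lit 11) (nat_lit 275)) (lf (nat_lit 6) (nat_lit 276)))))))))))))))) (cs (nd (nat_lit 184) (nat_lit 0) (cs (lf (nat_lit 22) (nat_lit 184)) (nd (nat_lit 256) (nat_lit 0) (cs (lf (nat_lit 17) (nat_lit 253)) (nd (nat_lit 146) (nat_lit 0) (cs (lf (nat_lit 37) (nat_lit 145)) (nd (nat_lit 298) (nat_lit 0) (cs (lf (nat_lit 25) (nat_lit 209)) (nd (nat_lit 279) (nat_lit 0) (cs (lf (nat_lit 11) (nat_lit 275)) (rf (nat_lit 6)))))))))))) (nd (nat_lit 228) (nat_lit 0) (cs (lf (nat_lit 10) (nat_lit 206)) (nd (nat_lit 256) (nat_lit 0) (cs (lf (nat_lit 17) (nat_lit 253)) (nd (nat_lit 146) (nat_lit 0) (cs (lf (nat_lit 37) (nat_lit 145)) (nd (nat_lit 298) (nat_lit 0) (cs (lf (nat_lit 25) (nat_lit 209)) (nd (nat_lit 279)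 (nat_lit 0) (cs (lf (nat_lit 11) (nat_lit 275)) (nd (nat_lit 299) (nat_lit 0) (cs (lf (nat_lit 6) (nat_lit 276)) (rf (nat_lit 7))))))))))))))))))))))))))))))))) q16943 (by decide +kernel)
def q17093 : Q := Q.p (nat_lit 0x100000800002000000000078000000000000000000000000000000000000000000000000000) (nat_lit 0x20000080000f80003f8001ee0007780039e00003800002000030000000000000000000000000000000000000000000000) (nat_lit 13)
theorem c17093 : QOK q17093 := cut [q15974, q13164, q15957, q17053, q14848, q17059, q17064, q15936, q17066, q17081, q17092] ⟨c15974, c13164, c15957, c17053, c14848, c17059, c17064, c15936, c17066, c17081, c17092, trivial⟩ (nd (nat_lit 274) (nat_lit 0) (cs (nd (nat_lit 318) (nat_lit 0) (cs (lf (nat_lit 30) (nat_lit 252)) (nd (nat_lit 295) (nat_lit 0) (cs (rf (nat_lit 0)) (cs (nd (nat_lit 276) (nat_lit 0) (cs (lf (nat_lit 6) (nat_lit 273)) (nd (nat_lit 184) (nat_lit 0) (cs (lf (nat_lit 22) (nat_lit 184)) (nd (nat_lit 229) (nat_lit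 0) (cs (lf (nat_lit 11) (nat_lit 206)) (nd (nat_lit 252) (nat_lit 0) (cs (lf (nat_lit 46) (nat_lit 229)) (nd (nat_lit 319) (nat_lit 0) (cs (lf (nat_lit 29) (nat_lit 252)) (nd (nat_lit 320) (nat_lit 0) (cs (rf (nat_lit 1)) (lf (nat_lit 18) (nat_lit 295)))))))))))))) (cs (nd (nat_lit 294) (nat_lit 0) (cs (lf (nat_lit 12) (nat_lit 271)) (nd (nat_lit 276) (nat_lit 0) (cs (lf (nat_lit 6) (nat_lit 273)) (nd (nat_lit 184) (nat_lit 0) (cs (lf (nat_lit 22) (nat_lit 184)) (nd (nat_lit 229) (nat_lit 0) (cs (lf (nat_lit 11) (nat_lit 206)) (nd (nat_lit 252) (nat_lit 0) (cs (lf (nat_lit 46) (nat_lit 229)) (nd (nat_lit 317) (nat_lit 0) (cs (lf (nat_lit 41) (nat_lit 251)) (nd (nat_lit 319) (nat_lit 0) (cs (lf (nat_lit 29) (nat_lit 252)) (lf (nat_lit 18) (nat_lit 294)))))))))))))))) (nd (nat_lit 293) (nat_lit 0) (cs (lf (nat_lit 13) (nat_lit 271)) (nd (nat_lit 184) (nat_lit 0) (cs (lf (nat_lit 22) (nat_lit 184)) (nd (nat_lit 229) (nat_lit 0) (cs (lf (nat_lit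 11) (nat_lit 206)) (nd (nat_lit 252) (nat_lit 0) (cs (lf (nat_lit 46) (nat_lit 229)) (nd (nat_lit 319) (nat_lit 0) (cs (lf (nat_lit 29) (nat_lit 252)) (nd (nat_lit 320) (nat_lit 0) (cs (lf (nat_lit 18) (nat_lit 295)) (nd (nat_lit 297) (nat_lit 0) (cs (lf (nat_lit 29) (nat_lit 253)) (nd (nat_lit 317) (nat_lit 0) (cs (lf (nat_lit 41) (nat_lit 251)) (nd (nat_lit 298) (nat_lit 0) (cs (lf (nat_lit 11) (nat_lit 294)) (lf (nat_lit 17) (nat_lit 295)))))))))))))))))))))))))) (cs (nd (nat_lit 295) (nat_lit 0) (cs (rf (nat_lit 2)) (cs (nd (nat_lit 318) (nat_lit 0) (cs (lf (nat_lit 30) (nat_lit 252)) (nd (nat_lit 319) (nat_lit 0) (cs (nd (nat_lit 320) (nat_lit 0) (cs (lf (nat_lit 18) (nat_lit 295)) (nd (nat_lit 276) (nat_lit 0) (cs (lf (nat_lit 6) (nat_lit 273)) (rf (nat_lit 3)))))) (cs (nd (nat_lit 252) (nat_lit 0) (cs (lf (nat_lit 29) (nat_lit 252)) (nd (nat_lit 317) (nat_lit 0) (cs (lf (nat_lit 41) (nat_lit 251)) (rf (nat_lit 4)))))) (nd (nat_lit 276)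 (nat_lit 0) (cs (lf (nat_lit 6) (nat_lit 273)) (rf (nat_lit 5))))))))) (rf (nat_lit 6))))) (cs (nd (nat_lit 294) (nat_lit 0) (cs (rf (nat_lit 7)) (cs (nd (nat_lit 318) (nat_lit 0) (cs (lf (nat_lit 30) (nat_lit 252)) (nd (nat_lit 293) (nat_lit 0) (cs (lf (nat_lit 14) (nat_lit 271)) (nd (nat_lit 272) (nat_lit 0) (cs (lf (nat_lit 8) (nat_lit 271)) (nd (nat_lit 184) (nat_lit 0) (cs (lf (nat_lit 22) (nat_lit 184)) (nd (nat_lit 228) (nat_lit 0) (cs (lf (nat_lit 10) (nat_lit 206)) (nd (nat_lit 250) (nat_lit 0) (cs (lf (nat_lit 41) (nat_lit 227)) (nd (nat_lit 227) (nat_lit 0) (cs (lf (nat_lit 47) (nat_lit 205)) (nd (nat_lit 316) (nat_lit 0) (cs (lf (nat_lit 46) (nat_lit 227)) (rf (nat_lit 8)))))))))))))))))) (cs (nd (nat_lit 318) (nat_lit 0) (cs (lf (nat_lit 30) (nat_lit 252)) (nd (nat_lit 184) (nat_lit 0) (cs (lf (nat_lit 22) (nat_lit 184)) (nd (nat_lit 229) (nat_lit 0) (cs (lf (nat_lit 11) (nat_lit 206)) (nd (nat_lit 273) (nat_lit 0) (cs (lf (nat_lit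 26) (nat_lit 207)) (nd (nat_lit 272) (nat_lit 0) (cs (lf (nat_lit 11) (nat_lit 271)) (nd (nat_lit 297) (nat_lit 0) (cs (lf (nat_lit 5) (nat_lit 272)) (lf (nat_lit 0) (nat_lit 271)))))))))))))) (nd (nat_lit 318) (nat_lit 0) (cs (lf (nat_lit 30) (nat_lit 252)) (nd (nat_lit 184) (nat_lit 0) (cs (lf (nat_lit 22) (nat_lit 184)) (nd (nat_lit 229) (nat_lit 0) (cs (lf (nat_lit 11) (nat_lit 206)) (nd (nat_lit 273) (nat_lit 0) (cs (lf (nat_lit 26) (nat_lit 207)) (nd (nat_lit 276) (nat_lit 0) (cs (lf (nat_lit 10) (nat_lit 272)) (nd (nat_lit 299) (nat_lit 0) (cs (lf (nat_lit 4) (nat_lit 273)) (nd (nat_lit 277) (nat_lit 0) (cs (lf (nat_lit 5) (nat_lit 274)) (rf (nat_lit 9)))))))))))))))))))) (rf (nat_lit 10)))))) q17093 (by decide +kernel)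
def q17153 : Q := Q.p (nat_lit 0x2400001000004000000000000000000000000000000000000000000000000000) (nat_lit 0x20000380000f00007e0001a00002f00003c0000c000000000000000000000000000000000000000000000) (nat_lit 11)
theorem c17153 : QOK q17153 := cut [q17122, q17150, q17152] ⟨c17122, c17150, c17152, trivial⟩ (nd (nat_lit 272) (nat_lit 0) (cs (rf (nat_lit 0)) (cs (nd (nat_lit 295) (nat_lit 0) (cs (lf (nat_lit 28) (nat_lit 206)) (nd (nat_lit 294) (nat_lit 0) (cs (lf (nat_lit 29) (nat_lit 228)) (nd (nat_lit 315) (nat_lit 0) (cs (lf (nat_lit 40) (nat_lit 227)) (nd (nat_lit 316) (nat_lit 0) (cs (lf (nat_lit 41) (nat_lit 249)) (nd (nat_lit 251) (nat_lit 0) (cs (lf (nat_lit 35) (nat_lit 228)) (nd (nat_lit 227) (nat_lit 0) (cs (lf (nat_lit 19) (nat_lit 227)) (lf (nat_lit 46) (nat_lit 227)))))))))))))) (cs (rf (nat_lit 1)) (rf (nat_lit 2)))))) q17153 (by decide +kernel)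
def q17168 : Q := Q.p (nat_lit 0x400001000004000000000000000000000000000000000000000000000000000) (nat_lit 0x200001800002000008000020000380000e0000280000000000000000000000000000000000) (nat_lit 6)
theorem c17168 : QOK q17168 := cut [q3767, q17131, q17164, q17167] ⟨c3767, c17131, c17164, c17167, trivial⟩ (nd (nat_lit 184) (nat_lit 0) (cs (rf (nat_lit 0)) (cs (rf (nat_lit 1)) (cs (rf (nat_lit 2)) (rf (nat_lit 3)))))) q17168 (by decide +kernel)
def q17294 : Q := Q.p (nat_lit 0x780001000004800010000000000000000000000000000000000000000000000) (nat_lit 0x4000000000070000000002300008c000010000000000000000000000000000000000) (nat_lit 6)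
theorem c17294 : QOK q17294 := cut [q17292] ⟨c17292, trivial⟩ (nd (nat_lit 163) (nat_lit 0) (cs (lf (nat_lit 34) (nat_lit 162)) (nd (nat_lit 225) (nat_lit 0) (cs (lf (nat_lit 23) (nat_lit 224)) (rf (nat_lit 0)))))) q17294 (by decide +kernel)
def q17316 : Q := Q.p (nat_lit 0x400001000004000010000000000000000000000000000000000000000000000) (nat_lit 0x2000008000020000200000e0000380000200000000000000000000000000000) (nat_lit 6)
theorem c17316 : QOK q17316 := cut [q17314] ⟨c17314, trivial⟩ (nd (nat_lit 163) (nat_lit 0) (cs (lf (nat_lit 34) (nat_lit 162)) (nd (nat_lit 162) (nat_lit 0) (cs (lf (nat_lit 35) (nat_lit 140)) (rf (nat_lit 0)))))) q17316 (by decide +kernel)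
def q17406 : Q := Q.p (nat_lit 0x100000400001000004000000000000000000000000000000000000000000000000000) (nat_lit 0x20000380000e0000200000200000800002000000000000000000000000000000000000000000000000000) (nat_lit 6)
theorem c17406 : QOK q17406 := cut [q17404] ⟨c17404, trivial⟩ (nd (nat_lit 295) (nat_lit 0) (cs (lf (nat_lit 28) (nat_lit 206)) (nd (nat_lit 294) (nat_lit 0) (cs (lf (nat_lit 29) (nat_lit 228)) (rf (nat_lit 0)))))) q17406 (by decide +kernel)
def q17478 : Q := Q.p (nat_lit 0x100000400001000004000000000000000000000000000000000000000000000000000) (nat_lit 0x20000280000a000020000000000300000c0000200000000000000000000000000000000000) (nat_lit 6)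
theorem c17478 : QOK q17478 := cut [q17205] ⟨c17205, trivial⟩ (nd (nat_lit 271) (nat_lit 0) (cs (lf (nat_lit 41) (nat_lit 205)) (rf (nat_lit 0)))) q17478 (by decide +kernel)
def q17550 : Q := Q.p (nat_lit 0x2400000000034000010000000000000000000000000000000000000000000000) (nat_lit 0x1400007e0001fc0001a00018c000020001c0000700001400000000000000000000000000000000000) (nat_lit 9)
theorem c17550 : QOK q17550 := cut [q1595, q6705, q17533, q1208, q17541, q17544, q17549] ⟨c1595, c6705, c17533, c1208, c17541, c17544, c17549, trivial⟩ (nd (nat_lit 231) (nat_lit 0) (cs (rf (nat_lit 0)) (cs (rf (nat_lit 1)) (cs (nd (nat_lit 274) (nat_lit 0) (cs (nd (nat_lit 252) (nat_lit 0) (cs (lf (nat_lit 36) (nat_lit 186)) (nd (nat_lit 296) (nat_lit 0) (cs (lf (nat_lit 30) (nat_lit 230)) (rf (nat_lit 2)))))) (cs (nd (nat_lit 275) (nat_lit 0) (cs (lf (nat_lit 41) (nat_lit 208)) (nd (nat_lit 276) (nat_lit 0) (cs (lf (nat_lit 29) (nat_lit 209)) (nd (nat_lit 273) (nat_lit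 0) (cs (lf (nat_lit 22) (nat_lit 250)) (nd (nat_lit 272) (nat_lit 0) (cs (lf (nat_lit 23) (nat_lit 249)) (rf (nat_lit 3)))))))))) (cs (nd (nat_lit 252) (nat_lit 0) (cs (lf (nat_lit 36) (nat_lit 186)) (nd (nat_lit 251) (nat_lit 0) (cs (lf (nat_lit 17) (nat_lit 228)) (rf (nat_lit 4)))))) (nd (nat_lit 252) (nat_lit 0) (cs (lf (nat_lit 36) (nat_lit 186)) (rf (nat_lit 5)))))))) (rf (nat_lit 6)))))) q17550 (by decide +kernel)
def q17640 : Q := Q.p (nat_lit 0x2000001000004000010000040000000000000000000000000000000000000000) (nat_lit 0x20000380001e00002000000000000000020000180000200000000000000000000000000000) (nat_lit 7)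
theorem c17640 : QOK q17640 := cut [q5882] ⟨c5882, trivial⟩ (nd (nat_lit 139) (nat_lit 0) (cs (lf (nat_lit 46) (nat_lit 139)) (nd (nat_lit 251) (nat_lit 0) (cs (lf (nat_lit 28) (nat_lit 162)) (nd (nat_lit 117) (nat_lit 0) (cs (lf (nat_lit 45) (nat_lit 117)) (rf (nat_lit 0)))))))) q17640 (by decide +kernel)
def q17645 : Q := Q.p (nat_lit 0x1000004000010000000000000000000000000000000000000000000000) (nat_lit 0x800006000008000020000200000e0000380000a00000000000000000000000000000) (nat_lit 6)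
theorem c17645 : QOK q17645 := cut [q1273, q17314, q17344, q17643] ⟨c1273, c17314, c17344, c17643, trivial⟩ (nd (nat_lit 162) (nat_lit 0) (cs (rf (nat_lit 0)) (cs (rf (nat_lit 1)) (cs (rf (nat_lit 2)) (nd (nat_lit 139) (nat_lit 0) (cs (lf (nat_lit 46) (nat_lit 139)) (rf (nat_lit 3)))))))) q17645 (by decide +kernel)
def q17771 : Q := Q.p (nat_lit 0x2000001000004000010000000000000000000000000000000000000000000000) (nat_lit 0xa0001f80001e000008000020000280000a0000000000000000000000000000000000000000) (nat_lit 7)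
theorem c17771 : QOK q17771 := cut [q10250, q17164, q17184] ⟨c10250, c17164, c17184, trivial⟩ (nd (nat_lit 250) (nat_lit 0) (cs (rf (nat_lit 0)) (cs (rf (nat_lit 1)) (rf (nat_lit 2))))) q17771 (by decide +kernel)
def q17775 : Q := Q.p (nat_lit 0x2000001000004000010000000000000000000000000000000000000000000000) (nat_lit 0x1e80001e000028000000000200000c0000200000000000000000000000000000000000) (nat_lit 7)
theorem c17775 : QOK q17775 := cut [q17167, q17184, q17189, q17204] ⟨c17167, c17184, c17189, c17204, trivial⟩ (nd (nat_lit 250) (nat_lit 0) (cs (rf (nat_lit 0)) (cs (rf (nat_lit 1)) (cs (rf (nat_lit 2)) (rf (nat_lit 3)))))) q17775 (by decide +kernel)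
def q17849 : Q := Q.p (nat_lit 0x2000000000034000010000000000000000000000000000000000000000000000) (nat_lit 0xa00001e0000b8000000001ee0007f8001fe0007e0000380000a000000000000000000) (nat_lit 12)
theorem c17849 : QOK q17849 := cut [q35, q3734, q5856, q2497, q17780, q17783, q16280, q17796, q17798, q17800, q17805, q17809, q17813, q17819, q17822, q17828, q17830, q17588, q17694, q2158, q4572] ⟨c35, c3734, c5856, c2497, c17780, c17783, c16280, c17796, c17798, c17800, c17805, c17809, c17813, c17819, c17822, c17828, c17830, c17588, c17694, c2158, c4572, trivial⟩ (nd (nat_lit 186) (nat_lit 0) (cs (rf (nat_lit 0)) (cs (nd (nat_lit 185) (nat_lit 0) (cs (lf (nat_lit 0) (nat_lit 183)) (nd (nat_lit 162) (nat_lit 0) (cs (rf (nat_lit 1)) (cs (rf (nat_lit 2)) (cs (nd (nat_lit 140) (nat_lit 0) (cs (rf (nat_lit 3)) (cs (nd (nat_lit 231) (nat_lit 0) (cs (lf (nat_lit 42) (nat_lit 186)) (rf (nat_lit 4)))) (cs (nd (nat_lit 231) (nat_lit 0) (cs (lf (nat_lit 42) (nat_lit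 186)) (nd (nat_lit 117) (nat_lit 0) (cs (lf (nat_lit 46) (nat_lit 117)) (nd (nat_lit 118) (nat_lit 0) (cs (lf (nat_lit 47) (nat_lit 95)) (rf (nat_lit 5)))))))) (nd (nat_lit 141) (nat_lit 0) (cs (lf (nat_lit 35) (nat_lit 118)) (nd (nat_lit 163) (nat_lit 0) (cs (lf (nat_lit 30) (nat_lit 140)) (nd (nat_lit 187) (nat_lit 0) (cs (lf (nat_lit 18) (nat_lit 162)) (nd (nat_lit 165) (nat_lit 0) (cs (lf (nat_lit 17) (nat_lit 162)) (nd (nat_lit 143) (nat_lit 0) (cs (lf (nat_lit 36) (nat_lit 120)) (nd (nat_lit 142) (nat_lit 0) (cs (lf (nat_lit 47) (nat_lit 120)) (lf (nat_lit 6) (nat_lit 140)))))))))))))))))) (nd (nat_lit 141) (nat_lit 0) (cs (rf (nat_lit 6)) (cs (nd (nat_lit 231) (nat_lit 0) (cs (lf (nat_lit 42) (nat_lit 186)) (rf (nat_lit 7)))) (cs (nd (nat_lit 231) (nat_lit 0) (cs (lf (nat_lit 42) (nat_lit 186)) (rf (nat_lit 8)))) (rf (nat_lit 9)))))))))))) (cs (nd (nat_lit 183) (nat_lit 0) (cs (lf (nat_lit 2) (nat_lit 183)) (nd (nat_lit 162) (nat_lit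 0) (cs (rf (nat_lit 10)) (cs (rf (nat_lit 11)) (cs (nd (nat_lit 140) (nat_lit 0) (cs (rf (nat_lit 3)) (cs (nd (nat_lit 231) (nat_lit 0) (cs (lf (nat_lit 42) (nat_lit 186)) (nd (nat_lit 142) (nat_lit 0) (cs (lf (nat_lit 25) (nat_lit 142)) (rf (nat_lit 12)))))) (cs (nd (nat_lit 231) (nat_lit 0) (cs (lf (nat_lit 42) (nat_lit 186)) (nd (nat_lit 142) (nat_lit 0) (cs (lf (nat_lit 25) (nat_lit 142)) (rf (nat_lit 13)))))) (nd (nat_lit 139) (nat_lit 0) (cs (lf (nat_lit 47) (nat_lit 117)) (rf (nat_lit 14)))))))) (cs (nd (nat_lit 139) (nat_lit 0) (cs (rf (nat_lit 14)) (cs (rf (nat_lit 15)) (rf (nat_lit 16))))) (nd (nat_lit 139) (nat_lit 0) (cs (rf (nat_lit 14)) (cs (rf (nat_lit 16)) (nd (nat_lit 231) (nat_lit 0) (cs (lf (nat_lit 42) (nat_lit 186)) (nd (nat_lit 140) (nat_lit 0) (cs (lf (nat_lit 47) (nat_lit 117)) (nd (nat_lit 141) (nat_lit 0) (cs (lf (nat_lit 35) (nat_lit 118)) (nd (nat_lit 228) (nat_lit 0) (cs (lf (nat_lit 34) (nat_lit 140)) (rf (nat_lit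 17)))))))))))))))))))) (cs (nd (nat_lit 185) (nat_lit 0) (cs (lf (nat_lit 0) (nat_lit 183)) (nd (nat_lit 231) (nat_lit 0) (cs (lf (nat_lit 42) (nat_lit 186)) (nd (nat_lit 187) (nat_lit 0) (cs (lf (nat_lit 47) (nat_lit 164)) (rf (nat_lit 18)))))))) (nd (nat_lit 185) (nat_lit 0) (cs (lf (nat_lit 0) (nat_lit 183)) (nd (nat_lit 162) (nat_lit 0) (cs (rf (nat_lit 1)) (cs (rf (nat_lit 2)) (cs (nd (nat_lit 163) (nat_lit 0) (cs (rf (nat_lit 19)) (nd (nat_lit 187) (nat_lit 0) (cs (lf (nat_lit 18) (nat_lit 162)) (nd (nat_lit 165) (nat_lit 0) (cs (lf (nat_lit 17) (nat_lit 162)) (nd (nat_lit 143) (nat_lit 0) (cs (lf (nat_lit 36) (nat_lit 120)) (rf (nat_lit 20)))))))))) (nd (nat_lit 141) (nat_lit 0) (cs (rf (nat_lit 6)) (cs (rf (nat_lit 7)) (cs (rf (nat_lit 8)) (rf (nat_lit 9))))))))))))))))) q17849 (by decide +kernel)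
def q18019 : Q := Q.p (nat_lit 0x2000000000034000010000000000000000000000000000000000000000000000) (nat_lit 0x120001f80001fe001bf00003e000ef00017e000ff0000fc0003f00003400000000000000000) (nat_lit 14)
theorem c18019 : QOK q18019 := cut [q17523, q1279, q1288, q17189, q17561, q17584, q17662, q17879, q1271, q2497, q17813, q17886, q17913, q17896, q17907, q17920, q1277, q17998, q18006, q18007, q1287] ⟨c17523, c1279, c1288, c17189, c17561, c17584, c17662, c17879, c1271, c2497, c17813, c17886, c17913, c17896, c17907, c17920, c1277, c17998, c18006, c18007, c1287, trivial⟩ (nd (nat_lit 183) (nat_lit 0) (cs (rf (nat_lit 0)) (cs (nd (nat_lit 228) (nat_lit 0) (cs (rf (nat_lit 1)) (cs (rf (nat_lit 2)) (cs (nd (nat_lit 250) (nat_lit 0) (cs (rf (nat_lit 3)) (cs (rf (nat_lit 4)) (rf (nat_lit 5))))) (nd (nat_lit 162) (nat_lit 0) (cs (nd (nat_lit 227) (nat_lit 0) (cs (lf (nat_lit 41) (nat_lit 161)) (rf (nat_lit 6)))) (cs (nd (nat_lit 227) (nat_lit 0) (cs (lf (nat_lit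 41) (nat_lit 161)) (nd (nat_lit 140) (nat_lit 0) (cs (lf (nat_lit 40) (nat_lit 139)) (nd (nat_lit 119) (nat_lit 0) (cs (lf (nat_lit 34) (nat_lit 118)) (nd (nat_lit 118) (nat_lit 0) (cs (lf (nat_lit 35) (nat_lit 96)) (nd (nat_lit 229) (nat_lit 0) (cs (lf (nat_lit 29) (nat_lit 162)) (nd (nat_lit 95) (nat_lit 0) (cs (lf (nat_lit 46) (nat_lit 95)) (rf (nat_lit 7)))))))))))))) (cs (nd (nat_lit 140) (nat_lit 0) (cs (rf (nat_lit 8)) (cs (rf (nat_lit 9)) (cs (rf (nat_lit 10)) (nd (nat_lit 229) (nat_lit 0) (cs (lf (nat_lit 29) (nat_lit 162)) (nd (nat_lit 161) (nat_lit 0) (cs (lf (nat_lit 47) (nat_lit 139)) (nd (nat_lit 227) (nat_lit 0) (cs (lf (nat_lit 41) (nat_lit 161)) (rf (nat_lit 11)))))))))))) (cs (rf (nat_lit 12)) (nd (nat_lit 227) (nat_lit 0) (cs (lf (nat_lit 41) (nat_lit 161)) (nd (nat_lit 226) (nat_lit 0) (cs (nd (nat_lit 229) (nat_lit 0) (cs (lf (nat_lit 29) (nat_lit 162)) (rf (nat_lit 13)))) (cs (nd (nat_lit 229) (nat_lit 0) (cs (lf (nat_lit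 29) (nat_lit 162)) (nd (nat_lit 203) (nat_lit 0) (cs (lf (nat_lit 22) (nat_lit 203)) (nd (nat_lit 225) (nat_lit 0) (cs (lf (nat_lit 23) (nat_lit 202)) (nd (nat_lit 246) (nat_lit 0) (cs (nd (nat_lit 224) (nat_lit 0) (cs (lf (nat_lit 16) (nat_lit 202)) (lf (nat_lit 11) (nat_lit 223)))) (lf (nat_lit 10) (nat_lit 224)))))))))) (cs (nd (nat_lit 161) (nat_lit 0) (cs (lf (nat_lit 47) (nat_lit 139)) (nd (nat_lit 229) (nat_lit 0) (cs (lf (nat_lit 29) (nat_lit 162)) (rf (nat_lit 14)))))) (nd (nat_lit 161) (nat_lit 0) (cs (lf (nat_lit 47) (nat_lit 139)) (nd (nat_lit 205) (nat_lit 0) (cs (lf (nat_lit 41) (nat_lit 160)) (nd (nat_lit 160) (nat_lit 0) (cs (lf (nat_lit 47) (nat_lit 138)) (nd (nat_lit 224) (nat_lit 0) (cs (lf (nat_lit 13) (nat_lit 202)) (rf (nat_lit 15))))))))))))))))))))))))) (nd (nat_lit 161) (nat_lit 0) (cs (nd (nat_lit 228) (nat_lit 0) (cs (rf (nat_lit 16)) (lf (nat_lit 42) (nat_lit 161)))) (cs (rf (nat_lit 17)) (cs (nd (nat_lit 139) (nat_lit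 0) (cs (lf (nat_lit 24) (nat_lit 117)) (nd (nat_lit 205) (nat_lit 0) (cs (nd (nat_lit 185) (nat_lit 0) (cs (lf (nat_lit 3) (nat_lit 183)) (nd (nat_lit 116) (nat_lit 0) (cs (lf (nat_lit 46) (nat_lit 116)) (nd (nat_lit 140) (nat_lit 0) (cs (lf (nat_lit 35) (nat_lit 117)) (nd (nat_lit 162) (nat_lit 0) (cs (lf (nat_lit 41) (nat_lit 139)) (nd (nat_lit 160) (nat_lit 0) (cs (lf (nat_lit 0) (nat_lit 159)) (nd (nat_lit 141) (nat_lit 0) (cs (lf (nat_lit 35) (nat_lit 118)) (lf (nat_lit 6) (nat_lit 138)))))))))))))) (cs (rf (nat_lit 18)) (nd (nat_lit 204) (nat_lit 0) (cs (lf (nat_lit 41) (nat_lit 138)) (nd (nat_lit 202) (nat_lit 0) (cs (nd (nat_lit 116) (nat_lit 0) (cs (lf (nat_lit 46) (nat_lit 116)) (nd (nat_lit 140) (nat_lit 0) (cs (lf (nat_lit 35) (nat_lit 117)) (nd (nat_lit 162) (nat_lit 0) (cs (lf (nat_lit 30) (nat_lit 139)) (rf (nat_lit 19)))))))) (lf (nat_lit 13) (nat_lit 180))))))))))) (nd (nat_lit 185) (nat_lit 0) (cs (lf (nat_lit 3) (nat_lit 183))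 (nd (nat_lit 228) (nat_lit 0) (cs (lf (nat_lit 42) (nat_lit 161)) (rf (nat_lit 20))))))))))))) q18019 (by decide +kernel)
def q18037 : Q := Q.p (nat_lit 0x2000000000034000010000000000000000000000000000000000000000000000) (nat_lit 0x20000b80001e0007b0000020001ee0007e0001f80007e00002000000000000000000000000) (nat_lit 14)
theorem c18037 : QOK q18037 := cut [q35, q17697, q17746, q17805, q17809, q17830, q17912, q17584, q18033] ⟨c35, c17697, c17746, c17805, c17809, c17830, c17912, c17584, c18033, trivial⟩ (nd (nat_lit 186) (nat_lit 0) (cs (rf (nat_lit 0)) (cs (rf (nat_lit 1)) (cs (rf (nat_lit 2)) (nd (nat_lit 183) (nat_lit 0) (cs (lf (nat_lit 2) (nat_lit 183)) (nd (nat_lit 162) (nat_lit 0) (cs (rf (nat_lit 3)) (cs (rf (nat_lit 4)) (cs (nd (nat_lit 139) (nat_lit 0) (cs (rf (nat_lit 5)) (cs (rf (nat_lit 6)) (nd (nat_lit 231) (nat_lit 0) (cs (lf (nat_lit 42) (nat_lit 186)) (nd (nat_lit 142) (nat_lit 0) (cs (lf (nat_lit 25) (nat_lit 142)) (nd (nat_lit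 228) (nat_lit 0) (cs (lf (nat_lit 46) (nat_lit 139)) (nd (nat_lit 251) (nat_lit 0) (cs (lf (nat_lit 28) (nat_lit 162)) (nd (nat_lit 250) (nat_lit 0) (cs (lf (nat_lit 29) (nat_lit 184)) (nd (nat_lit 232) (nat_lit 0) (cs (lf (nat_lit 14) (nat_lit 228)) (nd (nat_lit 233) (nat_lit 0) (cs (lf (nat_lit 18) (nat_lit 208)) (rf (nat_lit 7))))))))))))))))))) (nd (nat_lit 139) (nat_lit 0) (cs (rf (nat_lit 6)) (cs (nd (nat_lit 228) (nat_lit 0) (cs (lf (nat_lit 46) (nat_lit 139)) (nd (nat_lit 251) (nat_lit 0) (cs (lf (nat_lit 28) (nat_lit 162)) (nd (nat_lit 141) (nat_lit 0) (cs (lf (nat_lit 34) (nat_lit 140)) (nd (nat_lit 119) (nat_lit 0) (cs (lf (nat_lit 33) (nat_lit 118)) (nd (nat_lit 250) (nat_lit 0) (cs (lf (nat_lit 29) (nat_lit 184)) (rf (nat_lit 7)))))))))))) (rf (nat_lit 8))))))))))))))) q18037 (by decide +kernel)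
def q18102 : Q := Q.p (nat_lit 0x200000000003c000000000000000000000000000000000000000000000000000) (nat_lit 0x100000750001fc0001700018c0000200019c000000000000000000000000000000000000000000000) (nat_lit 14)
theorem c18102 : QOK q18102 := cut [q6698] ⟨c6698, trivial⟩ (nd (nat_lit 231) (nat_lit 0) (cs (lf (nat_lit 5) (nat_lit 206)) (nd (nat_lit 183) (nat_lit 0) (cs (lf (nat_lit 22) (nat_lit 183)) (nd (nat_lit 205) (nat_lit 0) (cs (lf (nat_lit 23) (nat_lit 182)) (nd (nat_lit 227) (nat_lit 0) (cs (lf (nat_lit 11) (nat_lit 204)) (rf (nat_lit 0)))))))))) q18102 (by decide +kernel)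
def q18179 : Q := Q.p (nat_lit 0x4000010000040000180000000000000000000000000000000000000000) (nat_lit 0x8000138000e800039e000e700079e0008000020000000000000000000000000) (nat_lit 14)
theorem c18179 : QOK q18179 := cut [q5675, q3803, q18170, q18178] ⟨c5675, c3803, c18170, c18178, trivial⟩ (nd (nat_lit 162) (nat_lit 0) (cs (rf (nat_lit 0)) (cs (nd (nat_lit 229) (nat_lit 0) (cs (lf (nat_lit 41) (nat_lit 163)) (rf (nat_lit 1)))) (cs (nd (nat_lit 229) (nat_lit 0) (cs (lf (nat_lit 41) (nat_lit 163)) (nd (nat_lit 165) (nat_lit 0) (cs (lf (nat_lit 35) (nat_lit 142)) (nd (nat_lit 183) (nat_lit 0) (cs (lf (nat_lit 10) (nat_lit 161)) (nd (nat_lit 139) (nat_lit 0) (cs (lf (nat_lit 22) (nat_lit 139)) (nd (nat_lit 188) (nat_lit 0) (cs (lf (nat_lit 4) (nat_lit 162)) (nd (nat_lit 166) (nat_lit 0) (cs (lf (nat_lit 5) (nat_lit 163)) (nd (nat_lit 145) (nat_lit 0) (cs (lf (nat_lit 16) (nat_lit 141)) (rf (nat_lit 2)))))))))))))))) (rf (nat_lit 3)))))) q18179 (by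 decide +kernel)
def q18252 : Q := Q.p (nat_lit 0x3800000000010000040000000000000000000000000000000000000000000000) (nat_lit 0x7e0001fe0003f80007f0000780005e00004000010000000000000000000000000000000000000000000000) (nat_lit 13)
theorem c18252 : QOK q18252 := cut [q2623, q18195, q18199, q18202, q18210, q12900, q18214, q18218, q18223, q18230, q18238, q18241, q9769] ⟨c2623, c18195, c18199, c18202, c18210, c12900, c18214, c18218, c18223, c18230, c18238, c18241, c9769, trivial⟩ (nd (nat_lit 273) (nat_lit 0) (cs (lf (nat_lit 38) (nat_lit 185)) (nd (nat_lit 250) (nat_lit 0) (cs (rf (nat_lit 0)) (cs (rf (nat_lit 1)) (cs (nd (nat_lit 227) (nat_lit 0) (cs (lf (nat_lit 22) (nat_lit 227)) (rf (nat_lit 2)))) (cs (nd (nat_lit 272) (nat_lit 0) (cs (lf (nat_lit 11) (nat_lit 249)) (nd (nat_lit 294) (nat_lit 0) (cs (nd (nat_lit 316) (nat_lit 0) (cs (lf (nat_lit 30) (nat_lit 250)) (nd (nat_lit 317) (nat_lit 0) (cs (lf (nat_lit 29) (nat_lit 250)) (nd (nat_lit 315)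 (nat_lit 0) (cs (lf (nat_lit 41) (nat_lit 249)) (nd (nat_lit 293) (nat_lit 0) (cs (rf (nat_lit 3)) (lf (nat_lit 36) (nat_lit 227)))))))))) (cs (rf (nat_lit 4)) (cs (nd (nat_lit 295) (nat_lit 0) (cs (rf (nat_lit 5)) (cs (rf (nat_lit 6)) (rf (nat_lit 7))))) (cs (nd (nat_lit 316) (nat_lit 0) (cs (lf (nat_lit 30) (nat_lit 250)) (rf (nat_lit 8)))) (cs (nd (nat_lit 316) (nat_lit 0) (cs (lf (nat_lit 30) (nat_lit 250)) (nd (nat_lit 317) (nat_lit 0) (cs (lf (nat_lit 29) (nat_lit 250)) (nd (nat_lit 295) (nat_lit 0) (cs (lf (nat_lit 47) (nat_lit 228)) (rf (nat_lit 9)))))))) (nd (nat_lit 295) (nat_lit 0) (cs (rf (nat_lit 7)) (cs (rf (nat_lit 10)) (cs (nd (nat_lit 316) (nat_lit 0) (cs (lf (nat_lit 30) (nat_lit 250)) (nd (nat_lit 317) (nat_lit 0) (cs (lf (nat_lit 29) (nat_lit 250)) (rf (nat_lit 9)))))) (nd (nat_lit 316) (nat_lit 0) (cs (lf (nat_lit 30) (nat_lit 250)) (nd (nat_lit 315) (nat_lit 0) (cs (lf (nat_lit 41) (nat_lit 249)) (nd (nat_lit 313) (nat_lit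 0) (cs (lf (nat_lit 13) (nat_lit 291)) (rf (nat_lit 11)))))))))))))))))))) (nd (nat_lit 271) (nat_lit 0) (cs (lf (nat_lit 10) (nat_lit 249)) (nd (nat_lit 249) (nat_lit 0) (cs (lf (nat_lit 11) (nat_lit 248)) (nd (nat_lit 248) (nat_lit 0) (cs (rf (nat_lit 12)) (lf (nat_lit 5) (nat_lit 248))))))))))))))) q18252 (by decide +kernel)
def q18253 : Q := Q.p (nat_lit 0x3800000000010000040000000000000000000000000000000000000000000000) (nat_lit 0x1dc0000600004000000000000000000000000000000000000000000000000000000000) (nat_lit 5)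
theorem c18253 : QOK q18253 := cut [q1999] ⟨c1999, trivial⟩ (nd (nat_lit 275) (nat_lit 0) (cs (lf (nat_lit 26) (nat_lit 186)) (rf (nat_lit 0)))) q18253 (by decide +kernel)
def q18283 : Q := Q.p (nat_lit 0x3800000000000000000000000000000000000000000000000000000000000000) (nat_lit 0x280006e0001b80007e0001fc0000600001c00004000010000000000000000000000000000000000000000000000) (nat_lit 13)
theorem c18283 : QOK q18283 := cut [q2623, q3764, q18255, q18258, q14896, q18266, q18269, q18276] ⟨c2623, c3764, c18255, c18258, c14896, c18266, c18269, c18276, trivial⟩ (nd (nat_lit 250) (nat_lit 0) (cs (rf (nat_lit 0)) (cs (rf (nat_lit 1)) (cs (rf (nat_lit 2)) (nd (nat_lit 228) (nat_lit 0) (cs (lf (nat_lit 23) (nat_lit 227)) (nd (nat_lit 272) (nat_lit 0) (cs (lf (nat_lit 11) (nat_lit 249)) (nd (nat_lit 294) (nat_lit 0) (cs (nd (nat_lit 315) (nat_lit 0) (cs (lf (nat_lit 40) (nat_lit 227)) (nd (nat_lit 316) (nat_lit 0) (cs (lf (nat_lit 41) (nat_lit 249)) (rf (nat_lit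 3)))))) (cs (nd (nat_lit 275) (nat_lit 0) (cs (lf (nat_lit 5) (nat_lit 250)) (nd (nat_lit 293) (nat_lit 0) (cs (lf (nat_lit 41) (nat_lit 227)) (nd (nat_lit 273) (nat_lit 0) (cs (rf (nat_lit 4)) (lf (nat_lit 7) (nat_lit 271)))))))) (cs (nd (nat_lit 315) (nat_lit 0) (cs (lf (nat_lit 40) (nat_lit 227)) (nd (nat_lit 275) (nat_lit 0) (cs (lf (nat_lit 5) (nat_lit 250)) (rf (nat_lit 5)))))) (cs (nd (nat_lit 295) (nat_lit 0) (cs (lf (nat_lit 29) (nat_lit 228)) (nd (nat_lit 273) (nat_lit 0) (cs (lf (nat_lit 24) (nat_lit 206)) (nd (nat_lit 316) (nat_lit 0) (cs (lf (nat_lit 30) (nat_lit 250)) (nd (nat_lit 275) (nat_lit 0) (cs (lf (nat_lit 5) (nat_lit 250)) (nd (nat_lit 274) (nat_lit 0) (cs (lf (nat_lit 11) (nat_lit 271)) (rf (nat_lit 6)))))))))))) (nd (nat_lit 275) (nat_lit 0) (cs (lf (nat_lit 5) (nat_lit 250)) (nd (nat_lit 317) (nat_lit 0) (cs (lf (nat_lit 28) (nat_lit 228)) (nd (nat_lit 316) (nat_lit 0) (cs (lf (nat_lit 29) (nat_lit 250)) (rf (nat_lit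 7))))))))))))))))))))) q18283 (by decide +kernel)
def q18287 : Q := Q.p (nat_lit 0x280000100003c000000000000000000000000000000000000000000000000000) (nat_lit 0x20000380001600000000000000018000000000000000000000000000000000000000000000) (nat_lit 5)
theorem c18287 : QOK q18287 := cut [q5882] ⟨c5882, trivial⟩ (nd (nat_lit 184) (nat_lit 0) (cs (lf (nat_lit 23) (nat_lit 183)) (rf (nat_lit 0)))) q18287 (by decide +kernel)
def q18295 : Q := Q.p (nat_lit 0x280000100001c000040000000000000000000000000000000000000000000000) (nat_lit 0x60000380001600002c00000000010000040000000000000000000000000000000000000000) (nat_lit 7)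
theorem c18295 : QOK q18295 := cut [q18294] ⟨c18294, trivial⟩ (nd (nat_lit 229) (nat_lit 0) (cs (lf (nat_lit 30) (nat_lit 185)) (rf (nat_lit 0)))) q18295 (by decide +kernel)
def q18380 : Q := Q.p (nat_lit 0x10000040000100000400000000000000000000000000000000000) (nat_lit 0x2000008000000000ef8003bc001ef80000000000000000000000000000) (nat_lit 11)
theorem c18380 : QOK q18380 := cut [q18362, q18373, q18378] ⟨c18362, c18373, c18378, trivial⟩ (nd (nat_lit 141) (nat_lit 0) (cs (lf (nat_lit 47) (nat_lit 119)) (nd (nat_lit 140) (nat_lit 0) (cs (rf (nat_lit 0)) (cs (nd (nat_lit 143) (nat_lit 0) (cs (lf (nat_lit 35) (nat_lit 120)) (nd (nat_lit 207) (nat_lit 0) (cs (lf (nat_lit 41) (nat_lit 141)) (nd (nat_lit 117) (nat_lit 0) (cs (lf (nat_lit 22) (nat_lit 117)) (nd (nat_lit 161) (nat_lit 0) (cs (lf (nat_lit 10) (nat_lit 139)) (nd (nat_lit 166) (nat_lit 0) (cs (lf (nat_lit 4) (nat_lit 140)) (nd (nat_lit 144) (nat_lit 0) (cs (lf (nat_lit 5) (nat_lit 141))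 (nd (nat_lit 123) (nat_lit 0) (cs (lf (nat_lit 16) (nat_lit 119)) (nd (nat_lit 145) (nat_lit 0) (cs (lf (nat_lit 11) (nat_lit 141)) (lf (nat_lit 17) (nat_lit 120)))))))))))))))))) (cs (nd (nat_lit 143) (nat_lit 0) (cs (lf (nat_lit 35) (nat_lit 120)) (nd (nat_lit 207) (nat_lit 0) (cs (lf (nat_lit 41) (nat_lit 141)) (rf (nat_lit 1)))))) (rf (nat_lit 2)))))))) q18380 (by decide +kernel)
def q18381 : Q := Q.p (nat_lit 0x40000100000400001000000000000000000000000000000) (nat_lit 0x2000008000020000000000000000e0000380000a0000000000000) (nat_lit 6)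
theorem c18381 : QOK q18381 := cut [q4912] ⟨c4912, trivial⟩ (nd (nat_lit 187) (nat_lit 0) (cs (lf (nat_lit 29) (nat_lit 120)) (rf (nat_lit 0)))) q18381 (by decide +kernel)
def q18391 : Q := Q.p (nat_lit 0xc0000100000400000000000000000000000000000000000) (nat_lit 0x2000000000020000000000100000e0000380000a0000000000000) (nat_lit 6)
theorem c18391 : QOK q18391 := cut [q4912] ⟨c4912, trivial⟩ (nd (nat_lit 120) (nat_lit 0) (cs (lf (nat_lit 29) (nat_lit 120)) (rf (nat_lit 0)))) q18391 (by decide +kernel)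
def q18457 : Q := Q.p (nat_lit 0x2000000000010000040000100000200000000000000000000000000000000000) (nat_lit 0x80000e00001800004000020000080000280000000000000000000000000000000000000000) (nat_lit 6)
theorem c18457 : QOK q18457 := cut [q18184] ⟨c18184, trivial⟩ (nd (nat_lit 230) (nat_lit 0) (cs (lf (nat_lit 46) (nat_lit 141)) (rf (nat_lit 0)))) q18457 (by decide +kernel)
def q18608 : Q := Q.p (nat_lit 0x2000001000014000050000000000000000000000000000000000000000000000) (nat_lit 0x1a00001c000068000000000000000e0000380000a00000000000000000000000000000) (nat_lit 6)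
theorem c18608 : QOK q18608 := cut [q1525, q18602] ⟨c1525, c18602, trivial⟩ (nd (nat_lit 251) (nat_lit 0) (cs (rf (nat_lit 0)) (nd (nat_lit 250) (nat_lit 0) (cs (lf (nat_lit 29) (nat_lit 184)) (rf (nat_lit 1)))))) q18608 (by decide +kernel)
def q18646 : Q := Q.p (nat_lit 0x2000001000014000050000000000000000000000000000000000000000000000) (nat_lit 0xe0001f80001e00006800002000008000040000100000000000000000000000000000000000) (nat_lit 10)
theorem c18646 : QOK q18646 := cut [q17691, q18570, q18632, q18635] ⟨c17691, c18570, c18632, c18635, trivial⟩ (nd (nat_lit 250) (nat_lit 0) (cs (rf (nat_lit 0)) (cs (rf (nat_lit 1)) (cs (rf (nat_lit 2)) (cs (nd (nat_lit 271) (nat_lit 0) (cs (lf (nat_lit 40) (nat_lit 183)) (nd (nat_lit 272) (nat_lit 0) (cs (lf (nat_lit 41) (nat_lit 205)) (nd (nat_lit 205) (nat_lit 0) (cs (lf (nat_lit 47) (nat_lit 183)) (nd (nat_lit 227) (nat_lit 0) (cs (lf (nat_lit 42) (nat_lit 205)) (nd (nat_lit 140) (nat_lit 0) (cs (lf (nat_lit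 37) (nat_lit 139)) (nd (nat_lit 273) (nat_lit 0) (cs (lf (nat_lit 29) (nat_lit 206)) (nd (nat_lit 252) (nat_lit 0) (cs (lf (nat_lit 15) (nat_lit 249)) (rf (nat_lit 3)))))))))))))))) (nd (nat_lit 249) (nat_lit 0) (cs (lf (nat_lit 41) (nat_lit 183)) (nd (nat_lit 227) (nat_lit 0) (cs (lf (nat_lit 36) (nat_lit 161)) (nd (nat_lit 252) (nat_lit 0) (cs (lf (nat_lit 20) (nat_lit 227)) (rf (nat_lit 3))))))))))))) q18646 (by decide +kernel)
def q18655 : Q := Q.p (nat_lit 0x2000001000004000010000000000000000000000000000000000000000000000) (nat_lit 0x20000380001e000020000000000000000e0000380000a00000000000000000000000000000) (nat_lit 6)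
theorem c18655 : QOK q18655 := cut [q1525, q5882] ⟨c1525, c5882, trivial⟩ (nd (nat_lit 251) (nat_lit 0) (cs (rf (nat_lit 0)) (rf (nat_lit 1)))) q18655 (by decide +kernel)
def q18662 : Q := Q.p (nat_lit 0x100001c000000000000000000000000000000000000000000000000000) (nat_lit 0x728000e0000700000000000000000000000000000000000000000000000) (nat_lit 6)
theorem c18662 : QOK q18662 := cut [q140] ⟨c140, trivial⟩ (nd (nat_lit 209) (nat_lit 0) (cs (lf (nat_lit 11) (nat_lit 205)) (rf (nat_lit 0)))) q18662 (by decide +kernel)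
def q18665 : Q := Q.p (nat_lit 0x16000050000000000000000000000000000000000000000000000) (nat_lit 0x80000200001c00008000080000040000100000000000000000000000000000000000) (nat_lit 5)
theorem c18665 : QOK q18665 := cut [q3506] ⟨c3506, trivial⟩ (nd (nat_lit 207) (nat_lit 0) (cs (lf (nat_lit 17) (nat_lit 183)) (rf (nat_lit 0)))) q18665 (by decide +kernel)
def q18704 : Q := Q.p (nat_lit 0x2000000000016000050000000000000000000000000000000000000000000000) (nat_lit 0x20001b80001e00005b00001c0000f0000fc001ff8007f80002800000000000000000000000) (nat_lit 12)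
theorem c18704 : QOK q18704 := cut [q18479, q18529, q18531, q18478, q18530, q18674, q6619, q18632, q18682, q6338, q18690] ⟨c18479, c18529, c18531, c18478, c18530, c18674, c6619, c18632, c18682, c6338, c18690, trivial⟩ (nd (nat_lit 162) (nat_lit 0) (cs (rf (nat_lit 0)) (cs (rf (nat_lit 1)) (cs (rf (nat_lit 2)) (cs (nd (nat_lit 140) (nat_lit 0) (cs (rf (nat_lit 3)) (cs (rf (nat_lit 4)) (rf (nat_lit 5))))) (nd (nat_lit 228) (nat_lit 0) (cs (nd (nat_lit 141) (nat_lit 0) (cs (lf (nat_lit 34) (nat_lit 140)) (nd (nat_lit 161) (nat_lit 0) (cs (lf (nat_lit 47) (nat_lit 139)) (nd (nat_lit 250) (nat_lit 0) (cs (lf (nat_lit 46) (nat_lit 161)) (rf (nat_lit 6)))))))) (cs (nd (nat_lit 141) (nat_lit 0) (cs (lf (nat_lit 34) (nat_lit 140)) (nd (nat_lit 161) (nat_lit 0) (cs (lf (nat_lit 47) (nat_lit 139)) (nd (nat_lit 250) (nat_lit 0) (cs (lf (nat_lit 46) (nat_lit 161)) (rf (nat_lit 7)))))))) (cs (rf (nat_lit 8)) (nd (nat_lit 161) (nat_lit 0) (cs (lf (nat_lit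 47) (nat_lit 139)) (nd (nat_lit 160) (nat_lit 0) (cs (nd (nat_lit 227) (nat_lit 0) (cs (lf (nat_lit 41) (nat_lit 161)) (nd (nat_lit 138) (nat_lit 0) (cs (lf (nat_lit 44) (nat_lit 138)) (nd (nat_lit 163) (nat_lit 0) (cs (lf (nat_lit 35) (nat_lit 140)) (lf (nat_lit 23) (nat_lit 137)))))))) (cs (nd (nat_lit 163) (nat_lit 0) (cs (lf (nat_lit 35) (nat_lit 140)) (rf (nat_lit 9)))) (cs (nd (nat_lit 163) (nat_lit 0) (cs (lf (nat_lit 35) (nat_lit 140)) (nd (nat_lit 227) (nat_lit 0) (cs (lf (nat_lit 41) (nat_lit 161)) (rf (nat_lit 10)))))) (nd (nat_lit 227) (nat_lit 0) (cs (lf (nat_lit 41) (nat_lit 161)) (nd (nat_lit 138) (nat_lit 0) (cs (lf (nat_lit 44) (nat_lit 138)) (nd (nat_lit 204) (nat_lit 0) (cs (nd (nat_lit 203) (nat_lit 0) (cs (lf (nat_lit 0) (nat_lit 202)) (nd (nat_lit 181) (nat_lit 0) (cs (lf (nat_lit 23) (nat_lit 180)) (nd (nat_lit 225) (nat_lit 0) (cs (lf (nat_lit 11) (nat_lit 202)) (lf (nat_lit 33) (nat_lit 137)))))))) (lf (nat_lit 26) (nat_lit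 138))))))))))))))))))))))) q18704 (by decide +kernel)
def q18709 : Q := Q.p (nat_lit 0x3c000040000000000000000000000000000000000000000000000) (nat_lit 0x738001c0000180000000000000000000000000000000000000000000000) (nat_lit 6)
theorem c18709 : QOK q18709 := cut [q318] ⟨c318, trivial⟩ (nd (nat_lit 187) (nat_lit 0) (cs (rf (nat_lit 0)) (lf (nat_lit 17) (nat_lit 184)))) q18709 (by decide +kernel)
def q18725 : Q := Q.p (nat_lit 0x10000070000000000000000000000000000000000000000000000) (nat_lit 0x10000040000e8000380001ee0000a00002800000000000000000000000000000) (nat_lit 8)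
theorem c18725 : QOK q18725 := cut [q8755, q9541, q18722, q9723] ⟨c8755, c9541, c18722, c9723, trivial⟩ (nd (nat_lit 187) (nat_lit 0) (cs (rf (nat_lit 0)) (cs (nd (nat_lit 165) (nat_lit 0) (cs (lf (nat_lit 17) (nat_lit 162)) (nd (nat_lit 121) (nat_lit 0) (cs (lf (nat_lit 37) (nat_lit 120)) (nd (nat_lit 230) (nat_lit 0) (cs (lf (nat_lit 30) (nat_lit 164)) (rf (nat_lit 1)))))))) (cs (nd (nat_lit 161) (nat_lit 0) (cs (lf (nat_lit 22) (nat_lit 161)) (rf (nat_lit 2)))) (nd (nat_lit 209) (nat_lit 0) (cs (lf (nat_lit 5) (nat_lit 184)) (rf (nat_lit 3)))))))) q18725 (by decide +kernel)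
def q18728 : Q := Q.p (nat_lit 0x10000070000020000000000000000000000000000000000000000) (nat_lit 0x1c8000380000e40000000000000000000000000000000000000000) (nat_lit 6)
theorem c18728 : QOK q18728 := cut [q18727] ⟨c18727, trivial⟩ (nd (nat_lit 187) (nat_lit 0) (cs (lf (nat_lit 22) (nat_lit 161)) (rf (nat_lit 0)))) q18728 (by decide +kernel)
def q18832 : Q := Q.p (nat_lit 0x200000000001c000050000000000000000000000000000000000000000000000) (nat_lit 0x80000f80001a00077e000e3000720000000000000000000000000000000000000000000000) (nat_lit 9)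
theorem c18832 : QOK q18832 := cut [q18828] ⟨c18828, trivial⟩ (nd (nat_lit 227) (nat_lit 0) (cs (nd (nat_lit 205) (nat_lit 0) (cs (lf (nat_lit 11) (nat_lit 204)) (nd (nat_lit 204) (nat_lit 0) (cs (lf (nat_lit 16) (nat_lit 182)) (nd (nat_lit 230) (nat_lit 0) (cs (lf (nat_lit 4) (nat_lit 204)) (nd (nat_lit 252) (nat_lit 0) (cs (lf (nat_lit 29) (nat_lit 186)) (nd (nat_lit 273) (nat_lit 0) (cs (lf (nat_lit 40) (nat_lit 185)) (nd (nat_lit 274) (nat_lit 0) (cs (lf (nat_lit 41) (nat_lit 207)) (nd (nat_lit 271) (nat_lit 0) (cs (lf (nat_lit 13) (nat_lit 249)) (lf (nat_lit 31) (nat_lit 183)))))))))))))))) (cs (nd (nat_lit 209) (nat_lit 0) (cs (lf (nat_lit 10) (nat_lit 205)) (rf (nat_lit 0)))) (nd (nat_lit 226) (nat_lit 0) (cs (lf (nat_lit 9) (nat_lit 204)) (nd (nat_lit 228) (nat_lit 0) (cs (lf (nat_lit 6) (nat_lit 205)) (lf (nat_lit 12) (nat_lit 203))))))))) q18832 (by decide +kernel)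
def q18905 : Q := Q.p (nat_lit 0x100000f0000000000000000000000000000000000000000000000) (nat_lit 0x10000050000060001000006e0000a00002800000000000000000000000000000) (nat_lit 8)
theorem c18905 : QOK q18905 := cut [q2161] ⟨c2161, trivial⟩ (nd (nat_lit 165) (nat_lit 0) (cs (lf (nat_lit 17) (nat_lit 162)) (nd (nat_lit 121) (nat_lit 0) (cs (lf (nat_lit 37) (nat_lit 120)) (nd (nat_lit 206) (nat_lit 0) (cs (lf (nat_lit 11) (nat_lit 183)) (nd (nat_lit 230) (nat_lit 0) (cs (rf (nat_lit 0)) (lf (nat_lit 30) (nat_lit 164)))))))))) q18905 (by decide +kernel)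
def q18931 : Q := Q.p (nat_lit 0x70000000000000000000000000000000000000000000000) (nat_lit 0x20000180000780018c000ef8000180000600000000000000000000000000000) (nat_lit 8)
theorem c18931 : QOK q18931 := cut [q18915, q3580, q18920, q18922, q18924, q18928] ⟨c18915, c3580, c18920, c18922, c18924, c18928, trivial⟩ (nd (nat_lit 205) (nat_lit 0) (cs (nd (nat_lit 187) (nat_lit 0) (cs (lf (nat_lit 10) (nat_lit 183)) (rf (nat_lit 0)))) (cs (nd (nat_lit 183) (nat_lit 0) (cs (lf (nat_lit 11) (nat_lit 182)) (rf (nat_lit 1)))) (cs (rf (nat_lit 2)) (nd (nat_lit 183) (nat_lit 0) (cs (lf (nat_lit 11) (nat_lit 182)) (nd (nat_lit 227) (nat_lit 0) (cs (rf (nat_lit 3)) (cs (rf (nat_lit 4)) (rf (nat_lit 5))))))))))) q18931 (by decide +kernel)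
def q18980 : Q := Q.p (nat_lit 0x14000018000000000000000000000000000000000000000000000) (nat_lit 0x200003c0000fc0007f0000bc000070000fc0003f0000fc0002800000000000000000000000) (nat_lit 15)
theorem c18980 : QOK q18980 := cut [q18479, q18482, q18485, q18489, q18529, q18531, q18959, q3279, q18963, q18967, q18975, q18979] ⟨c18479, c18482, c18485, c18489, c18529, c18531, c18959, c3279, c18963, c18967, c18975, c18979, trivial⟩ (nd (nat_lit 205) (nat_lit 0) (cs (nd (nat_lit 162) (nat_lit 0) (cs (rf (nat_lit 0)) (cs (nd (nat_lit 139) (nat_lit 0) (cs (nd (nat_lit 117) (nat_lit 0) (cs (lf (nat_lit 45) (nat_lit 117)) (nd (nat_lit 161) (nat_lit 0) (cs (lf (nat_lit 42) (nat_lit 139)) (lf (nat_lit 24) (nat_lit 95)))))) (cs (nd (nat_lit 140) (nat_lit 0) (cs (lf (nat_lit 47) (nat_lit 117)) (rf (nat_lit 1)))) (cs (nd (nat_lit 161) (nat_lit 0) (cs (lf (nat_lit 42) (nat_lit 139)) (rf (nat_lit 2)))) (nd (nat_lit 228) (nat_lit 0) (cs (lf (nat_lit 46) (nat_lit 139))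 (nd (nat_lit 141) (nat_lit 0) (cs (lf (nat_lit 34) (nat_lit 140)) (nd (nat_lit 119) (nat_lit 0) (cs (lf (nat_lit 33) (nat_lit 118)) (rf (nat_lit 3)))))))))))) (cs (nd (nat_lit 228) (nat_lit 0) (cs (rf (nat_lit 3)) (cs (nd (nat_lit 139) (nat_lit 0) (cs (lf (nat_lit 46) (nat_lit 139)) (nd (nat_lit 227) (nat_lit 0) (cs (lf (nat_lit 41) (nat_lit 161)) (nd (nat_lit 141) (nat_lit 0) (cs (lf (nat_lit 34) (nat_lit 140)) (nd (nat_lit 229) (nat_lit 0) (cs (lf (nat_lit 29) (nat_lit 162)) (nd (nat_lit 204) (nat_lit 0) (cs (lf (nat_lit 0) (nat_lit 203)) (lf (nat_lit 18) (nat_lit 204)))))))))))) (cs (nd (nat_lit 227) (nat_lit 0) (cs (lf (nat_lit 41) (nat_lit 161)) (nd (nat_lit 141) (nat_lit 0) (cs (lf (nat_lit 34) (nat_lit 140)) (nd (nat_lit 161) (nat_lit 0) (cs (lf (nat_lit 47) (nat_lit 139)) (nd (nat_lit 183) (nat_lit 0) (cs (lf (nat_lit 29) (nat_lit 161)) (nd (nat_lit 160) (nat_lit 0) (cs (lf (nat_lit 47) (nat_lit 138)) (nd (nat_lit 226) (nat_lit 0) (cs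 (lf (nat_lit 41) (nat_lit 160)) (nd (nat_lit 158) (nat_lit 0) (cs (nd (nat_lit 225) (nat_lit 0) (cs (lf (nat_lit 12) (nat_lit 202)) (nd (nat_lit 203) (nat_lit 0) (cs (lf (nat_lit 23) (nat_lit 202)) (nd (nat_lit 247) (nat_lit 0) (cs (lf (nat_lit 11) (nat_lit 224)) (nd (nat_lit 181) (nat_lit 0) (cs (lf (nat_lit 46) (nat_lit 158)) (lf (nat_lit 34) (nat_lit 159)))))))))) (lf (nat_lit 1) (nat_lit 158)))))))))))))))) (nd (nat_lit 229) (nat_lit 0) (cs (lf (nat_lit 29) (nat_lit 162)) (nd (nat_lit 204) (nat_lit 0) (cs (lf (nat_lit 0) (nat_lit 203)) (nd (nat_lit 141) (nat_lit 0) (cs (lf (nat_lit 34) (nat_lit 140)) (nd (nat_lit 227) (nat_lit 0) (cs (lf (nat_lit 18) (nat_lit 204)) (nd (nat_lit 161) (nat_lit 0) (cs (lf (nat_lit 47) (nat_lit 139)) (nd (nat_lit 183) (nat_lit 0) (cs (lf (nat_lit 29) (nat_lit 161)) (nd (nat_lit 226) (nat_lit 0) (cs (lf (nat_lit 41) (nat_lit 160)) (nd (nat_lit 224) (nat_lit 0) (cs (lf (nat_lit 13) (nat_lit 202)) (nd (nat_lit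 160) (nat_lit 0) (cs (lf (nat_lit 47) (nat_lit 138)) (nd (nat_lit 159) (nat_lit 0) (cs (lf (nat_lit 0) (nat_lit 158)) (nd (nat_lit 137) (nat_lit 0) (cs (lf (nat_lit 23) (nat_lit 136)) (lf (nat_lit 44) (nat_lit 137)))))))))))))))))))))))))))) (cs (rf (nat_lit 4)) (rf (nat_lit 5))))))) (cs (rf (nat_lit 6)) (cs (nd (nat_lit 227) (nat_lit 0) (cs (rf (nat_lit 7)) (cs (rf (nat_lit 8)) (nd (nat_lit 207) (nat_lit 0) (cs (lf (nat_lit 11) (nat_lit 204)) (rf (nat_lit 9))))))) (cs (rf (nat_lit 10)) (rf (nat_lit 11))))))) q18980 (by decide +kernel)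
def q19006 : Q := Q.p (nat_lit 0x10000078000000000000000000000000000000000000000000000) (nat_lit 0x780000f0000000000f0000fc0001f00001c00005000000000000000000) (nat_lit 12)
theorem c19006 : QOK q19006 := cut [q18988, q8658, q19003] ⟨c18988, c8658, c19003, trivial⟩ (nd (nat_lit 161) (nat_lit 0) (cs (lf (nat_lit 23) (nat_lit 160)) (nd (nat_lit 139) (nat_lit 0) (cs (rf (nat_lit 0)) (cs (nd (nat_lit 205) (nat_lit 0) (cs (lf (nat_lit 11) (nat_lit 182)) (rf (nat_lit 1)))) (cs (nd (nat_lit 205) (nat_lit 0) (cs (lf (nat_lit 11) (nat_lit 182)) (nd (nat_lit 206) (nat_lit 0) (cs (lf (nat_lit 29) (nat_lit 139)) (nd (nat_lit 116) (nat_lit 0) (cs (lf (nat_lit 46) (nat_lit 116)) (nd (nat_lit 140) (nat_lit 0) (cs (lf (nat_lit 35) (nat_lit 117)) (nd (nat_lit 162) (nat_lit 0) (cs (lf (nat_lit 41) (nat_lit 139)) (nd (nat_lit 207) (nat_lit 0) (cs (lf (nat_lit 29) (nat_lit 140)) (nd (nat_lit 141) (nat_lit 0) (cs (lf (nat_lit 35) (nat_lit 118)) (nd (nat_lit 142) (nat_lit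 0) (cs (lf (nat_lit 6) (nat_lit 139)) (nd (nat_lit 163) (nat_lit 0) (cs (lf (nat_lit 29) (nat_lit 141)) (lf (nat_lit 35) (nat_lit 119)))))))))))))))))))) (nd (nat_lit 204) (nat_lit 0) (cs (lf (nat_lit 10) (nat_lit 182)) (rf (nat_lit 2)))))))))) q19006 (by decide +kernel)
def q19072 : Q := Q.p (nat_lit 0x2000000000010000070000000000000000000000000000000000000000000000) (nat_lit 0x300001f00007c001cc00038c000ef8001fe0007f8000380000a000000000000000000) (nat_lit 14)
theorem c19072 : QOK q19072 := cut [q3734, q19014, q2146, q6989, q9722, q18727, q9715, q5888, q19045, q18674, q19047, q19050, q3568, q19060, q19067, q19070] ⟨c3734, c19014, c2146, c6989, c9722, c18727, c9715, c5888, c19045, c18674, c19047, c19050, c3568, c19060, c19067, c19070, trivial⟩ (nd (nat_lit 162) (nat_lit 0) (cs (rf (nat_lit 0)) (cs (rf (nat_lit 1)) (cs (nd (nat_lit 207) (nat_lit 0) (cs (rf (nat_lit 2)) (cs (nd (nat_lit 182) (nat_lit 0) (cs (lf (nat_lit 1) (nat_lit 182)) (rf (nat_lit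 3)))) (cs (nd (nat_lit 140) (nat_lit 0) (cs (lf (nat_lit 24) (nat_lit 118)) (nd (nat_lit 187) (nat_lit 0) (cs (rf (nat_lit 4)) (cs (rf (nat_lit 5)) (nd (nat_lit 182) (nat_lit 0) (cs (lf (nat_lit 1) (nat_lit 182)) (nd (nat_lit 165) (nat_lit 0) (cs (lf (nat_lit 17) (nat_lit 162)) (nd (nat_lit 230) (nat_lit 0) (cs (lf (nat_lit 30) (nat_lit 164)) (nd (nat_lit 141) (nat_lit 0) (cs (lf (nat_lit 25) (nat_lit 141)) (nd (nat_lit 119) (nat_lit 0) (cs (lf (nat_lit 30) (nat_lit 118)) (nd (nat_lit 75) (nat_lit 0) (cs (lf (nat_lit 37) (nat_lit 74)) (nd (nat_lit 121) (nat_lit 0) (cs (lf (nat_lit 37) (nat_lit 120)) (nd (nat_lit 120) (nat_lit 0) (cs (nd (nat_lit 139) (nat_lit 0) (cs (lf (nat_lit 12) (nat_lit 116)) (lf (nat_lit 15) (nat_lit 117)))) (lf (nat_lit 6) (nat_lit 118))))))))))))))))))))))) (nd (nat_lit 163) (nat_lit 0) (cs (rf (nat_lit 6)) (cs (nd (nat_lit 182) (nat_lit 0) (cs (lf (nat_lit 1) (nat_lit 182)) (nd (nat_lit 230) (nat_lit 0) (cs (lf (nat_lit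 42) (nat_lit 163)) (nd (nat_lit 187) (nat_lit 0) (cs (lf (nat_lit 18) (nat_lit 162)) (nd (nat_lit 165) (nat_lit 0) (cs (lf (nat_lit 17) (nat_lit 162)) (nd (nat_lit 121) (nat_lit 0) (cs (lf (nat_lit 37) (nat_lit 120)) (nd (nat_lit 229) (nat_lit 0) (cs (lf (nat_lit 42) (nat_lit 162)) (nd (nat_lit 228) (nat_lit 0) (cs (lf (nat_lit 41) (nat_lit 162)) (nd (nat_lit 227) (nat_lit 0) (cs (lf (nat_lit 12) (nat_lit 204)) (nd (nat_lit 249) (nat_lit 0) (cs (lf (nat_lit 11) (nat_lit 226)) (lf (nat_lit 38) (nat_lit 161)))))))))))))))))))) (nd (nat_lit 229) (nat_lit 0) (cs (lf (nat_lit 42) (nat_lit 162)) (nd (nat_lit 182) (nat_lit 0) (cs (lf (nat_lit 1) (nat_lit 182)) (nd (nat_lit 228) (nat_lit 0) (cs (lf (nat_lit 41) (nat_lit 162)) (nd (nat_lit 141) (nat_lit 0) (cs (lf (nat_lit 24) (nat_lit 119)) (lf (nat_lit 31) (nat_lit 140))))))))))))))))) (nd (nat_lit 140) (nat_lit 0) (cs (rf (nat_lit 7)) (cs (rf (nat_lit 8)) (cs (nd (nat_lit 206) (nat_lit 0) (cs (rf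 (nat_lit 9)) (cs (nd (nat_lit 207) (nat_lit 0) (cs (lf (nat_lit 29) (nat_lit 140)) (nd (nat_lit 182) (nat_lit 0) (cs (lf (nat_lit 1) (nat_lit 182)) (rf (nat_lit 10)))))) (cs (nd (nat_lit 207) (nat_lit 0) (cs (lf (nat_lit 29) (nat_lit 140)) (nd (nat_lit 182) (nat_lit 0) (cs (lf (nat_lit 1) (nat_lit 182)) (nd (nat_lit 141) (nat_lit 0) (cs (lf (nat_lit 35) (nat_lit 118)) (rf (nat_lit 11)))))))) (cs (nd (nat_lit 119) (nat_lit 0) (cs (lf (nat_lit 34) (nat_lit 118)) (nd (nat_lit 207) (nat_lit 0) (cs (lf (nat_lit 29) (nat_lit 140)) (nd (nat_lit 182) (nat_lit 0) (cs (lf (nat_lit 1) (nat_lit 182)) (nd (nat_lit 139) (nat_lit 0) (cs (lf (nat_lit 47) (nat_lit 117)) (nd (nat_lit 228) (nat_lit 0) (cs (lf (nat_lit 46) (nat_lit 139)) (rf (nat_lit 12)))))))))))) (nd (nat_lit 117) (nat_lit 0) (cs (lf (nat_lit 46) (nat_lit 117)) (nd (nat_lit 207) (nat_lit 0) (cs (lf (nat_lit 29) (nat_lit 140)) (nd (nat_lit 182) (nat_lit 0) (cs (lf (nat_lit 1) (nat_lit 182)) (rf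 (nat_lit 13))))))))))))) (cs (rf (nat_lit 14)) (rf (nat_lit 15))))))))))) q19072 (by decide +kernel)
def q19074 : Q := Q.p (nat_lit 0x100000f0000000000000000000000000000000000000000000000) (nat_lit 0x40000180006e000100000080000200000000000000000000000000000000000) (nat_lit 6)
theorem c19074 : QOK q19074 := cut [q2132] ⟨c2132, trivial⟩ (nd (nat_lit 209) (nat_lit 0) (cs (lf (nat_lit 5) (nat_lit 184)) (rf (nat_lit 0)))) q19074 (by decide +kernel)
def q19076 : Q := Q.p (nat_lit 0x12000070000000000000000000000000000000000000000000000) (nat_lit 0x1cc000380000e00000000000000000000000000000000000000000) (nat_lit 6)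
theorem c19076 : QOK q19076 := cut [q18727] ⟨c18727, trivial⟩ (nd (nat_lit 187) (nat_lit 0) (cs (lf (nat_lit 10) (nat_lit 183)) (rf (nat_lit 0)))) q19076 (by decide +kernel)
def q19099 : Q := Q.p (nat_lit 0x4000030000040000100000000000000000000000000000000000) (nat_lit 0x80000080000e00003800008000000000000000000) (nat_lit 5)
theorem c19099 : QOK q19099 := cut [q19098] ⟨c19098, trivial⟩ (nd (nat_lit 117) (nat_lit 0) (cs (lf (nat_lit 46) (nat_lit 117)) (rf (nat_lit 0)))) q19099 (by decide +kernel)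
def q19108 : Q := Q.p (nat_lit 0x1000004000010000040000000000000000000000000000000000000000) (nat_lit 0x800002000008000000000000000380000e00002800000000000000000000000) (nat_lit 6)
theorem c19108 : QOK q19108 := cut [q19107] ⟨c19107, trivial⟩ (nd (nat_lit 229) (nat_lit 0) (cs (lf (nat_lit 29) (nat_lit 162)) (rf (nat_lit 0)))) q19108 (by decide +kernel)
def q19109 : Q := Q.p (nat_lit 0x3800010000000000000000000000000000000000000000000000000000) (nat_lit 0x1c0000600009c00000000000000000000000000000000000000000000000000) (nat_lit 5)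
theorem c19109 : QOK q19109 := cut [q17896] ⟨c17896, trivial⟩ (nd (nat_lit 226) (nat_lit 0) (cs (lf (nat_lit 16) (nat_lit 204)) (rf (nat_lit 0)))) q19109 (by decide +kernel)
def q19138 : Q := Q.p (nat_lit 0x100000f0000000000000000000000000000000000000000000000) (nat_lit 0x380006e0000000000e0000380000e0000380000a000000000000000000) (nat_lit 9)
theorem c19138 : QOK q19138 := cut [q5888, q19045, q19067, q19070, q16301] ⟨c5888, c19045, c19067, c19070, c16301, trivial⟩ (nd (nat_lit 162) (nat_lit 0) (cs (lf (nat_lit 23) (nat_lit 161)) (nd (nat_lit 140) (nat_lit 0) (cs (rf (nat_lit 0)) (cs (rf (nat_lit 1)) (cs (rf (nat_lit 2)) (cs (rf (nat_lit 3)) (nd (nat_lit 206) (nat_lit 0) (cs (lf (nat_lit 11) (nat_lit 183)) (nd (nat_lit 209) (nat_lit 0) (cs (lf (nat_lit 5) (nat_lit 184)) (rf (nat_lit 4))))))))))))) q19138 (by decide +kernel)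
def q19145 : Q := Q.p (nat_lit 0x10000070000000000000000000000000000000000000000000000) (nat_lit 0x10000040001ee000380000e60000800002000000000000000000000000000000) (nat_lit 6)
theorem c19145 : QOK q19145 := cut [q18714, q18727, q19143] ⟨c18714, c18727, c19143, trivial⟩ (nd (nat_lit 187) (nat_lit 0) (cs (rf (nat_lit 0)) (cs (rf (nat_lit 1)) (nd (nat_lit 161) (nat_lit 0) (cs (lf (nat_lit 22) (nat_lit 161)) (rf (nat_lit 2))))))) q19145 (by decide +kernel)
def q19165 : Q := Q.p (nat_lit 0x100000e0000000000000000000000000000000000000000000000) (nat_lit 0x10000040001c0000300001dc0000200000800000000000000000000000000000) (nat_lit 6)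
theorem c19165 : QOK q19165 := cut [q19158, q19161, q8748] ⟨c19158, c19161, c8748, trivial⟩ (nd (nat_lit 188) (nat_lit 0) (cs (rf (nat_lit 0)) (cs (rf (nat_lit 1)) (nd (nat_lit 163) (nat_lit 0) (cs (lf (nat_lit 23) (nat_lit 162)) (nd (nat_lit 166) (nat_lit 0) (cs (lf (nat_lit 17) (nat_lit 163)) (nd (nat_lit 164) (nat_lit 0) (cs (lf (nat_lit 18) (nat_lit 163)) (rf (nat_lit 2))))))))))) q19165 (by decide +kernel)
def q19170 : Q := Q.p (nat_lit 0x1e0000000000000000000000000000000000000000000000) (nat_lit 0xe7000018000070000000000000000000000000000000000000000) (nat_lit 6)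
theorem c19170 : QOK q19170 := cut [q19169] ⟨c19169, trivial⟩ (nd (nat_lit 210) (nat_lit 0) (cs (lf (nat_lit 5) (nat_lit 185)) (rf (nat_lit 0)))) q19170 (by decide +kernel)
def q19495 : Q := Q.p (nat_lit 0x100001e0000000000000000000000000000000000000000000000) (nat_lit 0x27000018000ce0000000000000000000000000000000000000000) (nat_lit 6)
theorem c19495 : QOK q19495 := cut [q19493] ⟨c19493, trivial⟩ (nd (nat_lit 162) (nat_lit 0) (cs (lf (nat_lit 22) (nat_lit 162)) (nd (nat_lit 166) (nat_lit 0) (cs (lf (nat_lit 17) (nat_lit 163)) (rf (nat_lit 0)))))) q19495 (by decide +kernel)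
def q19507 : Q := Q.p (nat_lit 0x100001e0000000000000000000000000000000000000000000000) (nat_lit 0x270000180000e0000000000000000000000000000000000000000) (nat_lit 5)
theorem c19507 : QOK q19507 := cut [q19493] ⟨c19493, trivial⟩ (nd (nat_lit 162) (nat_lit 0) (cs (lf (nat_lit 22) (nat_lit 162)) (rf (nat_lit 0)))) q19507 (by decide +kernel)
def q19626 : Q := Q.p (nat_lit 0x100001e0000000000800000000000000000000000000000000000) (nat_lit 0xfe0001e000074e000f7e007ff0003e0000bc000000000000000000) (nat_lit 13)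
theorem c19626 : QOK q19626 := cut [q19517, q19518, q19523, q19526, q19537, q19544, q19545, q19548, q9020, q19426, q9235, q19519, q19573, q19581, q19583, q19597, q19599, q19609] ⟨c19517, c19518, c19523, c19526, c19537, c19544, c19545, c19548, c9020, c19426, c9235, c19519, c19573, c19581, c19583, c19597, c19599, c19609, trivial⟩ (nd (nat_lit 144) (nat_lit 0) (cs (rf (nat_lit 0)) (cs (rf (nat_lit 1)) (cs (rf (nat_lit 2)) (cs (nd (nat_lit 122) (nat_lit 0) (cs (nd (nat_lit 166) (nat_lit 0) (cs (lf (nat_lit 41) (nat_lit 121)) (nd (nat_lit 189) (nat_lit 0) (cs (nd (nat_lit 99) (nat_lit 0) (cs (lf (nat_lit 46) (nat_lit 99)) (nd (nat_lit 77) (nat_lit 0) (cs (rf (nat_lit 3)) (lf (nat_lit 45) (nat_lit 77)))))) (lf (nat_lit 29) (nat_lit 122)))))) (cs (nd (nat_lit 166) (nat_lit 0) (cs (lf (nat_lit 41) (nat_lit 121)) (nd (nat_lit 189) (nat_lit 0) (cs (lf (nat_lit 29) (nat_lit 122)) (nd (nat_lit 162) (nat_lit 0) (cs (lf (nat_lit 22) (nat_lit 162)) (rf (nat_lit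 3)))))))) (cs (rf (nat_lit 4)) (cs (rf (nat_lit 5)) (nd (nat_lit 162) (nat_lit 0) (cs (lf (nat_lit 22) (nat_lit 162)) (rf (nat_lit 6))))))))) (cs (nd (nat_lit 123) (nat_lit 0) (cs (nd (nat_lit 210) (nat_lit 0) (cs (lf (nat_lit 5) (nat_lit 185)) (nd (nat_lit 145) (nat_lit 0) (cs (lf (nat_lit 32) (nat_lit 122)) (rf (nat_lit 7)))))) (cs (nd (nat_lit 163) (nat_lit 0) (cs (lf (nat_lit 23) (nat_lit 162)) (nd (nat_lit 141) (nat_lit 0) (cs (lf (nat_lit 24) (nat_lit 119)) (nd (nat_lit 122) (nat_lit 0) (cs (rf (nat_lit 8)) (lf (nat_lit 13) (nat_lit 119)))))))) (cs (nd (nat_lit 162) (nat_lit 0) (cs (lf (nat_lit 22) (nat_lit 162)) (nd (nat_lit 210) (nat_lit 0) (cs (lf (nat_lit 5) (nat_lit 185)) (nd (nat_lit 145) (nat_lit 0) (cs (lf (nat_lit 32) (nat_lit 122)) (rf (nat_lit 9)))))))) (cs (nd (nat_lit 162) (nat_lit 0) (cs (lf (nat_lit 22) (nat_lit 162)) (nd (nat_lit 211) (nat_lit 0) (cs (lf (nat_lit 4) (nat_lit 185)) (nd (nat_lit 189) (nat_lit 0) (cs (lf (nat_lit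 5) (nat_lit 186)) (nd (nat_lit 190) (nat_lit 0) (cs (lf (nat_lit 10) (nat_lit 186)) (nd (nat_lit 168) (nat_lit 0) (cs (lf (nat_lit 17) (nat_lit 165)) (nd (nat_lit 124) (nat_lit 0) (cs (lf (nat_lit 37) (nat_lit 123)) (nd (nat_lit 142) (nat_lit 0) (cs (lf (nat_lit 15) (nat_lit 120)) (nd (nat_lit 122) (nat_lit 0) (cs (lf (nat_lit 12) (nat_lit 119)) (lf (nat_lit 6) (nat_lit 121)))))))))))))))))) (nd (nat_lit 162) (nat_lit 0) (cs (lf (nat_lit 22) (nat_lit 162)) (nd (nat_lit 210) (nat_lit 0) (cs (lf (nat_lit 5) (nat_lit 185)) (nd (nat_lit 166) (nat_lit 0) (cs (lf (nat_lit 34) (nat_lit 122)) (rf (nat_lit 10))))))))))))) (cs (nd (nat_lit 119) (nat_lit 0) (cs (rf (nat_lit 11)) (cs (nd (nat_lit 120) (nat_lit 0) (cs (rf (nat_lit 12)) (cs (nd (nat_lit 125) (nat_lit 0) (cs (rf (nat_lit 13)) (nd (nat_lit 162) (nat_lit 0) (cs (lf (nat_lit 22) (nat_lit 162)) (nd (nat_lit 145) (nat_lit 0) (cs (lf (nat_lit 21) (nat_lit 119)) (rf (nat_lit 14)))))))) (cs (rf (nat_lit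 15)) (nd (nat_lit 210) (nat_lit 0) (cs (lf (nat_lit 5) (nat_lit 185)) (nd (nat_lit 162) (nat_lit 0) (cs (lf (nat_lit 22) (nat_lit 162)) (rf (nat_lit 16)))))))))) (rf (nat_lit 17))))) (nd (nat_lit 163) (nat_lit 0) (cs (lf (nat_lit 23) (nat_lit 162)) (nd (nat_lit 119) (nat_lit 0) (cs (lf (nat_lit 25) (nat_lit 119)) (nd (nat_lit 210) (nat_lit 0) (cs (lf (nat_lit 5) (nat_lit 185)) (nd (nat_lit 166) (nat_lit 0) (cs (lf (nat_lit 47) (nat_lit 121)) (nd (nat_lit 122) (nat_lit 0) (cs (lf (nat_lit 41) (nat_lit 121)) (nd (nat_lit 101) (nat_lit 0) (cs (lf (nat_lit 34) (nat_lit 100)) (nd (nat_lit 100) (nat_lit 0) (cs (lf (nat_lit 35) (nat_lit 78)) (nd (nat_lit 99) (nat_lit 0) (cs (lf (nat_lit 47) (nat_lit 77)) (nd (nat_lit 98) (nat_lit 0) (cs (nd (nat_lit 97) (nat_lit 0) (cs (nd (nat_lit 75) (nat_lit 0) (cs (lf (nat_lit 22) (nat_lit 75)) (lf (nat_lit 23) (nat_lit 74)))) (lf (nat_lit 11) (nat_lit 96)))) (lf (nat_lit 10) (nat_lit 97)))))))))))))))))))))))))))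 q19626 (by decide +kernel)
def q19722 : Q := Q.p (nat_lit 0x1c0000000000000000000000000000000000000000000000) (nat_lit 0x60000180000700003c0000220003e0000700001c000050000000000000000000000000) (nat_lit 11)
theorem c19722 : QOK q19722 := cut [q8001, q9961, q19295, q8002, q19718, q19719, q19721] ⟨c8001, c9961, c19295, c8002, c19718, c19719, c19721, trivial⟩ (nd (nat_lit 167) (nat_lit 0) (cs (nd (nat_lit 211) (nat_lit 0) (cs (rf (nat_lit 0)) (cs (nd (nat_lit 185) (nat_lit 0) (cs (lf (nat_lit 16) (nat_lit 163)) (lf (nat_lit 4) (nat_lit 185)))) (cs (nd (nat_lit 189) (nat_lit 0) (cs (lf (nat_lit 5) (nat_lit 186)) (nd (nat_lit 145) (nat_lit 0) (cs (rf (nat_lit 1)) (cs (rf (nat_lit 2)) (nd (nat_lit 124) (nat_lit 0) (cs (lf (nat_lit 34) (nat_lit 123)) (nd (nat_lit 210) (nat_lit 0) (cs (lf (nat_lit 41) (nat_lit 144)) (nd (nat_lit 144) (nat_lit 0) (cs (lf (nat_lit 47) (nat_lit 122)) (nd (nat_lit 233) (nat_lit 0) (cs (lf (nat_lit 25) (nat_lit 144)) (nd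 (nat_lit 255) (nat_lit 0) (cs (lf (nat_lit 42) (nat_lit 188)) (nd (nat_lit 256) (nat_lit 0) (cs (lf (nat_lit 29) (nat_lit 189)) (lf (nat_lit 28) (nat_lit 167))))))))))))))))))) (nd (nat_lit 189) (nat_lit 0) (cs (lf (nat_lit 5) (nat_lit 186)) (rf (nat_lit 3)))))))) (cs (rf (nat_lit 4)) (cs (rf (nat_lit 5)) (rf (nat_lit 6)))))) q19722 (by decide +kernel)
def q19777 : Q := Q.p (nat_lit 0x100001e0000000000000000000000000000000000000000000000) (nat_lit 0xe0000000000fc0003e0000e800038000080000000000000000000) (nat_lit 9)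
theorem c19777 : QOK q19777 := cut [q19776] ⟨c19776, trivial⟩ (nd (nat_lit 166) (nat_lit 0) (cs (lf (nat_lit 17) (nat_lit 163)) (rf (nat_lit 0)))) q19777 (by decide +kernel)
def q19833 : Q := Q.p (nat_lit 0x100000c0001800002800000000000000000000000000000000000) (nat_lit 0x20000000000100001600003800002000000000000000000000000) (nat_lit 5)
theorem c19833 : QOK q19833 := cut [q8950] ⟨c8950, trivial⟩ (nd (nat_lit 142) (nat_lit 0) (cs (rf (nat_lit 0)) (lf (nat_lit 2) (nat_lit 142)))) q19833 (by decide +kernel)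
def q19916 : Q := Q.p (nat_lit 0x40000100002c0000800000000000000000000000000000000000000000) (nat_lit 0x500001e0000420001300007e0001fc00072000140000000000000000000) (nat_lit 11)
theorem c19916 : QOK q19916 := cut [q9184, q19512, q19835, q8950, q19882, q19884, q19890, q19894, q19842] ⟨c9184, c19512, c19835, c8950, c19882, c19884, c19890, c19894, c19842, trivial⟩ (nd (nat_lit 143) (nat_lit 0) (cs (rf (nat_lit 0)) (cs (rf (nat_lit 1)) (cs (rf (nat_lit 2)) (nd (nat_lit 142) (nat_lit 0) (cs (rf (nat_lit 3)) (cs (nd (nat_lit 145) (nat_lit 0) (cs (rf (nat_lit 4)) (cs (nd (nat_lit 144) (nat_lit 0) (cs (lf (nat_lit 5) (nat_lit 142)) (nd (nat_lit 119) (nat_lit 0) (cs (lf (nat_lit 22) (nat_lit 119)) (nd (nat_lit 118) (nat_lit 0) (cs (lf (nat_lit 21) (nat_lit 118)) (rf (nat_lit 5)))))))) (cs (rf (nat_lit 6)) (rf (nat_lit 7)))))) (cs (nd (nat_lit 145) (nat_lit 0) (cs (rf (nat_lit 4)) (cs (rf (nat_lit 7)) (nd (nat_lit 121) (nat_lit 0) (cs (lf (nat_lit 32)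 (nat_lit 120)) (nd (nat_lit 144) (nat_lit 0) (cs (lf (nat_lit 5) (nat_lit 142)) (nd (nat_lit 120) (nat_lit 0) (cs (lf (nat_lit 23) (nat_lit 119)) (lf (nat_lit 18) (nat_lit 120))))))))))) (cs (nd (nat_lit 145) (nat_lit 0) (cs (nd (nat_lit 144) (nat_lit 0) (cs (lf (nat_lit 5) (nat_lit 142)) (nd (nat_lit 123) (nat_lit 0) (cs (lf (nat_lit 17) (nat_lit 120)) (nd (nat_lit 122) (nat_lit 0) (cs (lf (nat_lit 12) (nat_lit 119)) (lf (nat_lit 42) (nat_lit 122)))))))) (cs (nd (nat_lit 123) (nat_lit 0) (cs (rf (nat_lit 8)) (cs (nd (nat_lit 121) (nat_lit 0) (cs (lf (nat_lit 32) (nat_lit 120)) (nd (nat_lit 122) (nat_lit 0) (cs (lf (nat_lit 6) (nat_lit 120)) (lf (nat_lit 47) (nat_lit 100)))))) (nd (nat_lit 121) (nat_lit 0) (cs (lf (nat_lit 32) (nat_lit 120)) (nd (nat_lit 190) (nat_lit 0) (cs (lf (nat_lit 29) (nat_lit 123)) (nd (nat_lit 101) (nat_lit 0) (cs (lf (nat_lit 28) (nat_lit 101)) (nd (nat_lit 102) (nat_lit 0) (cs (lf (nat_lit 34) (nat_lit 101)) (lf (nat_lit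 35) (nat_lit 79))))))))))))) (nd (nat_lit 164) (nat_lit 0) (cs (lf (nat_lit 35) (nat_lit 120)) (nd (nat_lit 119) (nat_lit 0) (cs (lf (nat_lit 46) (nat_lit 119)) (nd (nat_lit 120) (nat_lit 0) (cs (lf (nat_lit 47) (nat_lit 97)) (lf (nat_lit 19) (nat_lit 119))))))))))) (nd (nat_lit 145) (nat_lit 0) (cs (rf (nat_lit 4)) (cs (rf (nat_lit 6)) (cs (rf (nat_lit 7)) (nd (nat_lit 121) (nat_lit 0) (cs (lf (nat_lit 32) (nat_lit 120)) (nd (nat_lit 144) (nat_lit 0) (cs (lf (nat_lit 5) (nat_lit 142)) (rf (nat_lit 5))))))))))))))))))) q19916 (by decide +kernel)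
def q20000 : Q := Q.p (nat_lit 0x1e0000100000000000000000000000000000000000000000) (nat_lit 0x700001c0000f8000000000000000000000000000000000000000) (nat_lit 6)
theorem c20000 : QOK q20000 := cut [q4891, q19155, q19993] ⟨c4891, c19155, c19993, trivial⟩ (nd (nat_lit 184) (nat_lit 0) (cs (rf (nat_lit 0)) (cs (rf (nat_lit 1)) (cs (rf (nat_lit 2)) (nd (nat_lit 205) (nat_lit 0) (cs (lf (nat_lit 10) (nat_lit 183)) (nd (nat_lit 183) (nat_lit 0) (cs (lf (nat_lit 11) (nat_lit 182)) (nd (nat_lit 163) (nat_lit 0) (cs (lf (nat_lit 23) (nat_lit 162)) (lf (nat_lit 12) (nat_lit 160)))))))))))) q20000 (by decide +kernel)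
def q20051 : Q := Q.p (nat_lit 0x100001c0000100000000000000000000000000000000000000000) (nat_lit 0x300003e0000030003ee0007c0000e0000380000e0000000000000000000) (nat_lit 10)
theorem c20051 : QOK q20051 := cut [q2647, q4891, q9208, q9225, q20007, q10320, q9211, q18428, q9219, q19977, q20045, q20049] ⟨c2647, c4891, c9208, c9225, c20007, c10320, c9211, c18428, c9219, c19977, c20045, c20049, trivial⟩ (nd (nat_lit 166) (nat_lit 0) (cs (rf (nat_lit 0)) (cs (nd (nat_lit 185) (nat_lit 0) (cs (lf (nat_lit 17) (nat_lit 163)) (nd (nat_lit 210) (nat_lit 0) (cs (lf (nat_lit 5) (nat_lit 185)) (nd (nat_lit 184) (nat_lit 0) (cs (rf (nat_lit 1)) (lf (nat_lit 4) (nat_lit 184)))))))) (cs (nd (nat_lit 144) (nat_lit 0) (cs (rf (nat_lit 2)) (cs (rf (nat_lit 3)) (cs (rf (nat_lit 4)) (cs (nd (nat_lit 165) (nat_lit 0) (cs (rf (nat_lit 5)) (cs (nd (nat_lit 143) (nat_lit 0) (cs (lf (nat_lit 36) (nat_lit 120)) (nd (nat_lit 162) (nat_lit 0) (cs (nd (nat_lit 167) (nat_lit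 0) (cs (lf (nat_lit 6) (nat_lit 164)) (nd (nat_lit 210) (nat_lit 0) (cs (lf (nat_lit 42) (nat_lit 143)) (rf (nat_lit 6)))))) (lf (nat_lit 1) (nat_lit 162)))))) (nd (nat_lit 121) (nat_lit 0) (cs (lf (nat_lit 37) (nat_lit 120)) (nd (nat_lit 167) (nat_lit 0) (cs (lf (nat_lit 6) (nat_lit 164)) (nd (nat_lit 145) (nat_lit 0) (cs (lf (nat_lit 17) (nat_lit 142)) (rf (nat_lit 7))))))))))) (nd (nat_lit 121) (nat_lit 0) (cs (rf (nat_lit 8)) (nd (nat_lit 143) (nat_lit 0) (cs (lf (nat_lit 33) (nat_lit 120)) (lf (nat_lit 42) (nat_lit 121))))))))))) (nd (nat_lit 165) (nat_lit 0) (cs (nd (nat_lit 143) (nat_lit 0) (cs (lf (nat_lit 36) (nat_lit 120)) (nd (nat_lit 144) (nat_lit 0) (cs (rf (nat_lit 9)) (nd (nat_lit 163) (nat_lit 0) (cs (lf (nat_lit 12) (nat_lit 140)) (nd (nat_lit 145) (nat_lit 0) (cs (lf (nat_lit 6) (nat_lit 142)) (lf (nat_lit 9) (nat_lit 141)))))))))) (cs (nd (nat_lit 184) (nat_lit 0) (cs (lf (nat_lit 13) (nat_lit 162)) (rf (nat_lit 10)))) (rf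 (nat_lit 11))))))))) q20051 (by decide +kernel)
def q20095 : Q := Q.p (nat_lit 0x6000010000000000780002000000000000000000000000000000000000) (nat_lit 0x118000e8000300000800004000008000020000000000000000000000000) (nat_lit 7)
theorem c20095 : QOK q20095 := cut [q18170] ⟨c18170, trivial⟩ (nd (nat_lit 188) (nat_lit 0) (cs (lf (nat_lit 5) (nat_lit 163)) (rf (nat_lit 0)))) q20095 (by decide +kernel)
def q20101 : Q := Q.p (nat_lit 0x60000100000100007c0000000000000000000000000000000000000000) (nat_lit 0x18000ec0000000000200031c0000200000800000000000000000000000) (nat_lit 8)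
theorem c20101 : QOK q20101 := cut [q472] ⟨c472, trivial⟩ (nd (nat_lit 139) (nat_lit 0) (cs (lf (nat_lit 22) (nat_lit 139)) (nd (nat_lit 161) (nat_lit 0) (cs (lf (nat_lit 23) (nat_lit 138)) (nd (nat_lit 144) (nat_lit 0) (cs (rf (nat_lit 0)) (lf (nat_lit 17) (nat_lit 141)))))))) q20101 (by decide +kernel)
def q20108 : Q := Q.p (nat_lit 0x40000700000000000000000000000000000000000000000) (nat_lit 0xe2000180000e000000000000000000000000000000000000) (nat_lit 5)
theorem c20108 : QOK q20108 := cut [q20107] ⟨c20107, trivial⟩ (nd (nat_lit 167) (nat_lit 0) (cs (lf (nat_lit 11) (nat_lit 163)) (rf (nat_lit 0)))) q20108 (by decide +kernel)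
def q20118 : Q := Q.p (nat_lit 0x10000040000100000000000000000000000000000000000000000) (nat_lit 0x800006000008000020000200000e0000380000a000000000000000000000000) (nat_lit 5)
theorem c20118 : QOK q20118 := cut [q619, q18163, q18166] ⟨c619, c18163, c18166, trivial⟩ (nd (nat_lit 142) (nat_lit 0) (cs (rf (nat_lit 0)) (cs (rf (nat_lit 1)) (rf (nat_lit 2))))) q20118 (by decide +kernel)
def q20128 : Q := Q.p (nat_lit 0x2000000000010000040000100000000000000000000000000000000000000000) (nat_lit 0xa00001800006000000000020000680000f80002800002000000000000000000000000) (nat_lit 7)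
theorem c20128 : QOK q20128 := cut [q2880, q2882, q5534, q20127] ⟨c2880, c2882, c5534, c20127, trivial⟩ (nd (nat_lit 141) (nat_lit 0) (cs (rf (nat_lit 0)) (cs (rf (nat_lit 1)) (cs (nd (nat_lit 230) (nat_lit 0) (cs (lf (nat_lit 46) (nat_lit 141)) (nd (nat_lit 143) (nat_lit 0) (cs (lf (nat_lit 34) (nat_lit 142)) (nd (nat_lit 121) (nat_lit 0) (cs (lf (nat_lit 33) (nat_lit 120)) (rf (nat_lit 2)))))))) (rf (nat_lit 3)))))) q20128 (by decide +kernel)
def q20150 : Q := Q.p (nat_lit 0x2000000000010000040000100000800000000000000000000000000000000000) (nat_lit 0x80000e00001800004000008000020000280000000000000000000000000000000000000000) (nat_lit 6)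
theorem c20150 : QOK q20150 := cut [q20149] ⟨c20149, trivial⟩ (nd (nat_lit 230) (nat_lit 0) (cs (lf (nat_lit 34) (nat_lit 142)) (rf (nat_lit 0)))) q20150 (by decide +kernel)
def q20253 : Q := Q.p (nat_lit 0x3800000000010000040000000000000000000000000000000000000000000000) (nat_lit 0x1600005c0000700077e001ef0003be000360000f0000380000a000000000000000000000000) (nat_lit 12)
theorem c20253 : QOK q20253 := cut [q20203, q2082, q18189, q1827, q530, q18355, q3356, q18294, q18297, q3282, q2623, q1804, q20232, q419, q20250] ⟨c20203, c2082, c18189, c1827, c530, c18355, c3356, c18294, c18297, c3282, c2623, c1804, c20232, c419, c20250, trivial⟩ (nd (nat_lit 229) (nat_lit 0) (cs (nd (nat_lit 230) (nat_lit 0) (cs (lf (nat_lit 36) (nat_lit 163)) (nd (nat_lit 187) (nat_lit 0) (cs (lf (nat_lit 35) (nat_lit 164)) (nd (nat_lit 209) (nat_lit 0) (cs (lf (nat_lit 30) (nat_lit 186)) (nd (nat_lit 210) (nat_lit 0) (cs (lf (nat_lit 6) (nat_lit 207)) (nd (nat_lit 250)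 (nat_lit 0) (cs (rf (nat_lit 0)) (cs (nd (nat_lit 228) (nat_lit 0) (cs (lf (nat_lit 12) (nat_lit 205)) (nd (nat_lit 272) (nat_lit 0) (cs (lf (nat_lit 11) (nat_lit 249)) (nd (nat_lit 184) (nat_lit 0) (cs (lf (nat_lit 1) (nat_lit 184)) (nd (nat_lit 206) (nat_lit 0) (cs (rf (nat_lit 1)) (lf (nat_lit 24) (nat_lit 162)))))))))) (nd (nat_lit 249) (nat_lit 0) (cs (lf (nat_lit 12) (nat_lit 226)) (nd (nat_lit 227) (nat_lit 0) (cs (lf (nat_lit 23) (nat_lit 226)) (lf (nat_lit 13) (nat_lit 205))))))))))))))))) (cs (nd (nat_lit 164) (nat_lit 0) (cs (lf (nat_lit 39) (nat_lit 163)) (rf (nat_lit 2)))) (cs (nd (nat_lit 207) (nat_lit 0) (cs (rf (nat_lit 3)) (nd (nat_lit 206) (nat_lit 0) (cs (rf (nat_lit 4)) (cs (rf (nat_lit 5)) (cs (nd (nat_lit 228) (nat_lit 0) (cs (rf (nat_lit 6)) (cs (rf (nat_lit 7)) (rf (nat_lit 8))))) (nd (nat_lit 227) (nat_lit 0) (cs (rf (nat_lit 9)) (cs (nd (nat_lit 228) (nat_lit 0) (cs (lf (nat_lit 6) (nat_lit 205)) (lf (nat_lit 21) (nat_lit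 227)))) (nd (nat_lit 226) (nat_lit 0) (cs (lf (nat_lit 9) (nat_lit 204)) (lf (nat_lit 2) (nat_lit 226))))))))))))) (nd (nat_lit 250) (nat_lit 0) (cs (rf (nat_lit 10)) (cs (nd (nat_lit 271) (nat_lit 0) (cs (lf (nat_lit 10) (nat_lit 249)) (nd (nat_lit 249) (nat_lit 0) (cs (lf (nat_lit 11) (nat_lit 248)) (nd (nat_lit 230) (nat_lit 0) (cs (lf (nat_lit 12) (nat_lit 226)) (nd (nat_lit 187) (nat_lit 0) (cs (lf (nat_lit 35) (nat_lit 164)) (nd (nat_lit 209) (nat_lit 0) (cs (lf (nat_lit 30) (nat_lit 186)) (nd (nat_lit 210) (nat_lit 0) (cs (lf (nat_lit 6) (nat_lit 207)) (nd (nat_lit 207) (nat_lit 0) (cs (lf (nat_lit 11) (nat_lit 206)) (rf (nat_lit 11)))))))))))))))) (cs (nd (nat_lit 271) (nat_lit 0) (cs (lf (nat_lit 10) (nat_lit 249)) (nd (nat_lit 249) (nat_lit 0) (cs (lf (nat_lit 11) (nat_lit 248)) (nd (nat_lit 230) (nat_lit 0) (cs (lf (nat_lit 12) (nat_lit 226)) (nd (nat_lit 226) (nat_lit 0) (cs (lf (nat_lit 22) (nat_lit 226)) (rf (nat_lit 12))))))))))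 (cs (nd (nat_lit 227) (nat_lit 0) (cs (lf (nat_lit 22) (nat_lit 227)) (nd (nat_lit 249) (nat_lit 0) (cs (lf (nat_lit 23) (nat_lit 226)) (nd (nat_lit 230) (nat_lit 0) (cs (lf (nat_lit 12) (nat_lit 226)) (nd (nat_lit 270) (nat_lit 0) (cs (lf (nat_lit 10) (nat_lit 248)) (rf (nat_lit 12)))))))))) (cs (nd (nat_lit 227) (nat_lit 0) (cs (lf (nat_lit 22) (nat_lit 227)) (nd (nat_lit 249) (nat_lit 0) (cs (lf (nat_lit 23) (nat_lit 226)) (nd (nat_lit 230) (nat_lit 0) (cs (lf (nat_lit 12) (nat_lit 226)) (nd (nat_lit 187) (nat_lit 0) (cs (lf (nat_lit 35) (nat_lit 164)) (nd (nat_lit 209) (nat_lit 0) (cs (lf (nat_lit 30) (nat_lit 186)) (nd (nat_lit 210) (nat_lit 0) (cs (lf (nat_lit 6) (nat_lit 207)) (nd (nat_lit 185) (nat_lit 0) (cs (lf (nat_lit 0) (nat_lit 184)) (nd (nat_lit 207) (nat_lit 0) (cs (rf (nat_lit 13)) (lf (nat_lit 41) (nat_lit 184)))))))))))))))))) (nd (nat_lit 228) (nat_lit 0) (cs (lf (nat_lit 23) (nat_lit 227)) (rf (nat_lit 14)))))))))))))) q20253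 (by decide +kernel)
def q20273 : Q := Q.p (nat_lit 0x3c000040000000000000000000000000000000000000000000000) (nat_lit 0x718001c0000f80000000000000000000000000000000000000000000000) (nat_lit 6)
theorem c20273 : QOK q20273 := cut [q85, q139, q2456, q5653] ⟨c85, c139, c2456, c5653, trivial⟩ (nd (nat_lit 210) (nat_lit 0) (cs (rf (nat_lit 0)) (cs (rf (nat_lit 1)) (cs (rf (nat_lit 2)) (nd (nat_lit 227) (nat_lit 0) (cs (lf (nat_lit 10) (nat_lit 205)) (rf (nat_lit 3)))))))) q20273 (by decide +kernel)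
def q20282 : Q := Q.p (nat_lit 0x1c000040000000000000000000000000000000000000000000000) (nat_lit 0x1e0002300003e000000000000000000000000000000000000000000000) (nat_lit 5)
theorem c20282 : QOK q20282 := cut [q2450, q7922, q20281] ⟨c2450, c7922, c20281, trivial⟩ (nd (nat_lit 205) (nat_lit 0) (cs (rf (nat_lit 0)) (cs (rf (nat_lit 1)) (rf (nat_lit 2))))) q20282 (by decide +kernel)
def q20316 : Q := Q.p (nat_lit 0x2000000000018000060000000000000000000000000000000000000000000000) (nat_lit 0x700001c00003c00064000000000180000600001800000000000000000000000000000) (nat_lit 6)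
theorem c20316 : QOK q20316 := cut [q90, q3126, q3129, q20314] ⟨c90, c3126, c3129, c20314, trivial⟩ (nd (nat_lit 229) (nat_lit 0) (cs (rf (nat_lit 0)) (cs (rf (nat_lit 1)) (nd (nat_lit 163) (nat_lit 0) (cs (rf (nat_lit 2)) (rf (nat_lit 3))))))) q20316 (by decide +kernel)
def q20322 : Q := Q.p (nat_lit 0x1c000060000000000000000000000000000000000000000000000) (nat_lit 0x1000004000738001e0000380000080000200000000000000000000000000000000000) (nat_lit 7)
theorem c20322 : QOK q20322 := cut [q2103, q18297, q20317] ⟨c2103, c18297, c20317, trivial⟩ (nd (nat_lit 228) (nat_lit 0) (cs (rf (nat_lit 0)) (cs (rf (nat_lit 1)) (nd (nat_lit 188) (nat_lit 0) (cs (nd (nat_lit 250) (nat_lit 0) (cs (lf (nat_lit 30) (nat_lit 184)) (nd (nat_lit 141) (nat_lit 0) (cs (lf (nat_lit 37) (nat_lit 140)) (rf (nat_lit 2)))))) (lf (nat_lit 7) (nat_lit 184))))))) q20322 (by decide +kernel)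
def q20374 : Q := Q.p (nat_lit 0x2000002000018000060000000000000000000000000000000000000000000000) (nat_lit 0x7e0001f80001f00000000000000000000000000000000000000000000000000000000) (nat_lit 9)
theorem c20374 : QOK q20374 := cut [q20373] ⟨c20373, trivial⟩ (nd (nat_lit 251) (nat_lit 0) (cs (lf (nat_lit 30) (nat_lit 185)) (rf (nat_lit 0)))) q20374 (by decide +kernel)
def q20440 : Q := Q.p (nat_lit 0x1c000060000000000000000000000000000000000000000000000) (nat_lit 0x1000004000118000e0000380001ff0003f8001ff0003c0000d0000000000000000000) (nat_lit 12)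
theorem c20440 : QOK q20440 := cut [q5701, q5702, q5709, q20393, q18327, q19976, q20402, q16668, q8235, q20416, q265, q5802, q419, q5714, q20437] ⟨c5701, c5702, c5709, c20393, c18327, c19976, c20402, c16668, c8235, c20416, c265, c5802, c419, c5714, c20437, trivial⟩ (nd (nat_lit 141) (nat_lit 0) (cs (nd (nat_lit 163) (nat_lit 0) (cs (lf (nat_lit 24) (nat_lit 119)) (lf (nat_lit 41) (nat_lit 140)))) (cs (nd (nat_lit 142) (nat_lit 0) (cs (rf (nat_lit 0)) (cs (nd (nat_lit 143) (nat_lit 0) (cs (rf (nat_lit 1)) (cs (nd (nat_lit 187) (nat_lit 0) (cs (lf (nat_lit 6) (nat_lit 184)) (rf (nat_lit 2)))) (rf (nat_lit 3))))) (cs (nd (nat_lit 143) (nat_lit 0) (cs (rf (nat_lit 3)) (cs (nd (nat_lit 144) (nat_lit 0) (cs (rf (nat_lit 4)) (cs (nd (nat_lit 187) (nat_lit 0) (cs (lf (nat_lit 6) (nat_lit 184)) (nd (nat_lit 122) (nat_lit 0) (cs (lf (nat_lit 17) (nat_lit 119)) (nd (nat_lit 118) (nat_lit 0) (cs (lf (nat_lit 22) (nat_lit 118)) (nd (nat_lit 117) (nat_lit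 0) (cs (lf (nat_lit 21) (nat_lit 117)) (nd (nat_lit 165) (nat_lit 0) (cs (lf (nat_lit 30) (nat_lit 121)) (rf (nat_lit 5)))))))))))) (cs (rf (nat_lit 6)) (nd (nat_lit 187) (nat_lit 0) (cs (lf (nat_lit 6) (nat_lit 184)) (nd (nat_lit 119) (nat_lit 0) (cs (lf (nat_lit 23) (nat_lit 118)) (nd (nat_lit 122) (nat_lit 0) (cs (lf (nat_lit 17) (nat_lit 119)) (nd (nat_lit 145) (nat_lit 0) (cs (lf (nat_lit 22) (nat_lit 119)) (nd (nat_lit 167) (nat_lit 0) (cs (lf (nat_lit 5) (nat_lit 142)) (nd (nat_lit 211) (nat_lit 0) (cs (lf (nat_lit 43) (nat_lit 122)) (nd (nat_lit 209) (nat_lit 0) (cs (lf (nat_lit 19) (nat_lit 185)) (lf (nat_lit 32) (nat_lit 121)))))))))))))))))))) (cs (nd (nat_lit 144) (nat_lit 0) (cs (rf (nat_lit 7)) (cs (rf (nat_lit 6)) (nd (nat_lit 166) (nat_lit 0) (cs (lf (nat_lit 5) (nat_lit 141)) (nd (nat_lit 140) (nat_lit 0) (cs (lf (nat_lit 4) (nat_lit 140)) (rf (nat_lit 8))))))))) (cs (nd (nat_lit 144) (nat_lit 0) (cs (rf (nat_lit 7)) (cs (nd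 (nat_lit 187) (nat_lit 0) (cs (lf (nat_lit 6) (nat_lit 184)) (rf (nat_lit 9)))) (nd (nat_lit 166) (nat_lit 0) (cs (lf (nat_lit 5) (nat_lit 141)) (nd (nat_lit 122) (nat_lit 0) (cs (lf (nat_lit 17) (nat_lit 119)) (nd (nat_lit 121) (nat_lit 0) (cs (lf (nat_lit 12) (nat_lit 118)) (nd (nat_lit 188) (nat_lit 0) (cs (lf (nat_lit 47) (nat_lit 99)) (lf (nat_lit 7) (nat_lit 184))))))))))))) (nd (nat_lit 187) (nat_lit 0) (cs (lf (nat_lit 6) (nat_lit 184)) (nd (nat_lit 165) (nat_lit 0) (cs (lf (nat_lit 36) (nat_lit 120)) (nd (nat_lit 209) (nat_lit 0) (cs (rf (nat_lit 10)) (lf (nat_lit 47) (nat_lit 120))))))))))))) (nd (nat_lit 143) (nat_lit 0) (cs (rf (nat_lit 11)) (cs (rf (nat_lit 3)) (nd (nat_lit 187) (nat_lit 0) (cs (rf (nat_lit 12)) (nd (nat_lit 120) (nat_lit 0) (cs (nd (nat_lit 165) (nat_lit 0) (cs (lf (nat_lit 42) (nat_lit 120)) (nd (nat_lit 76) (nat_lit 0) (cs (rf (nat_lit 13)) (lf (nat_lit 25) (nat_lit 76)))))) (lf (nat_lit 38) (nat_lit 119)))))))))))))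 (nd (nat_lit 188) (nat_lit 0) (cs (lf (nat_lit 7) (nat_lit 184)) (nd (nat_lit 228) (nat_lit 0) (cs (lf (nat_lit 37) (nat_lit 140)) (rf (nat_lit 14))))))))) q20440 (by decide +kernel)
def q20442 : Q := Q.p (nat_lit 0x18000060000080000000000000000000000000000000000000000) (nat_lit 0x2000000000000000060001f00001c00000000000000000000000000000) (nat_lit 6)
theorem c20442 : QOK q20442 := cut [q16249] ⟨c16249, trivial⟩ (nd (nat_lit 141) (nat_lit 0) (cs (lf (nat_lit 24) (nat_lit 119)) (rf (nat_lit 0)))) q20442 (by decide +kernel)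
def q20455 : Q := Q.p (nat_lit 0x18000060000080000000000000000000000000000000000000000) (nat_lit 0x760003fc0003c00000000000000000000000000000) (nat_lit 7)
theorem c20455 : QOK q20455 := cut [q5832, q5835, q4505, q16260] ⟨c5832, c5835, c4505, c16260, trivial⟩ (nd (nat_lit 164) (nat_lit 0) (cs (rf (nat_lit 0)) (cs (rf (nat_lit 1)) (cs (nd (nat_lit 141) (nat_lit 0) (cs (lf (nat_lit 24) (nat_lit 119)) (nd (nat_lit 142) (nat_lit 0) (cs (lf (nat_lit 36) (nat_lit 119)) (nd (nat_lit 121) (nat_lit 0) (cs (lf (nat_lit 34) (nat_lit 120)) (rf (nat_lit 2)))))))) (nd (nat_lit 141) (nat_lit 0) (cs (lf (nat_lit 24) (nat_lit 119)) (nd (nat_lit 118) (nat_lit 0) (cs (lf (nat_lit 46) (nat_lit 118)) (rf (nat_lit 3)))))))))) q20455 (by decide +kernel)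
def q20468 : Q := Q.p (nat_lit 0x1c000070000000000000000000000000000000000000000000000) (nat_lit 0x300000c00003800060000000000140000000000000000000000000000000000000000) (nat_lit 6)
theorem c20468 : QOK q20468 := cut [q20466] ⟨c20466, trivial⟩ (nd (nat_lit 209) (nat_lit 0) (cs (lf (nat_lit 18) (nat_lit 184)) (nd (nat_lit 228) (nat_lit 0) (cs (lf (nat_lit 11) (nat_lit 205)) (rf (nat_lit 0)))))) q20468 (by decide +kernel)
def q20493 : Q := Q.p (nat_lit 0x200000100000c000030000000000000000000000000000000000000000000000) (nat_lit 0x1f80001e00000800000000000000000000000000000000000000000000000000000000) (nat_lit 6)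
theorem c20493 : QOK q20493 := cut [q17567] ⟨c17567, trivial⟩ (nd (nat_lit 250) (nat_lit 0) (cs (lf (nat_lit 30) (nat_lit 184)) (rf (nat_lit 0)))) q20493 (by decide +kernel)
def q20515 : Q := Q.p (nat_lit 0x18000060000180000000000000000000000000000000000000000) (nat_lit 0x80000200002000001c0002700001c0000000000000000000000000000000000) (nat_lit 7)
theorem c20515 : QOK q20515 := cut [q20165] ⟨c20165, trivial⟩ (nd (nat_lit 229) (nat_lit 0) (cs (lf (nat_lit 30) (nat_lit 163)) (rf (nat_lit 0)))) q20515 (by decide +kernel)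
def q20517 : Q := Q.p (nat_lit 0x18000060000080000000000000000000000000000000000000000) (nat_lit 0x200000800002000000000000000140000300000c00000000000000000000000000000) (nat_lit 5)
theorem c20517 : QOK q20517 := cut [q8172] ⟨c8172, trivial⟩ (nd (nat_lit 141) (nat_lit 0) (cs (lf (nat_lit 24) (nat_lit 119)) (rf (nat_lit 0)))) q20517 (by decide +kernel)
def q20525 : Q := Q.p (nat_lit 0x18000060000080000000000000000000000000000000000000000) (nat_lit 0x200000c00003c00064000000000100000000000000000000000000000000000000000) (nat_lit 5)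
theorem c20525 : QOK q20525 := cut [q3749, q20314] ⟨c3749, c20314, trivial⟩ (nd (nat_lit 229) (nat_lit 0) (cs (rf (nat_lit 0)) (rf (nat_lit 1)))) q20525 (by decide +kernel)
def q20539 : Q := Q.p (nat_lit 0x18000060000080000000000000000000000000000000000000000) (nat_lit 0x200002000001c000370003dc0003400001000000000000000000000000) (nat_lit 7)
theorem c20539 : QOK q20539 := cut [q5835, q16253, q20538] ⟨c5835, c16253, c20538, trivial⟩ (nd (nat_lit 164) (nat_lit 0) (cs (rf (nat_lit 0)) (cs (rf (nat_lit 1)) (rf (nat_lit 2))))) q20539 (by decide +kernel)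
def q20608 : Q := Q.p (nat_lit 0x10000060000000000000000000000000000000000000000000000) (nat_lit 0x80000e000038001ef80079c000ef8000980002e00003800008000000000000000000) (nat_lit 14)
theorem c20608 : QOK q20608 := cut [q4753, q4772, q4774, q18473, q18719, q18907, q18915, q2145, q19098, q20604] ⟨c4753, c4772, c4774, c18473, c18719, c18907, c18915, c2145, c19098, c20604, trivial⟩ (nd (nat_lit 184) (nat_lit 0) (cs (rf (nat_lit 0)) (cs (rf (nat_lit 1)) (cs (rf (nat_lit 2)) (cs (rf (nat_lit 3)) (nd (nat_lit 187) (nat_lit 0) (cs (rf (nat_lit 4)) (cs (rf (nat_lit 5)) (cs (rf (nat_lit 6)) (nd (nat_lit 162) (nat_lit 0) (cs (lf (nat_lit 23) (nat_lit 161)) (nd (nat_lit 229) (nat_lit 0) (cs (nd (nat_lit 209) (nat_lit 0) (cs (lf (nat_lit 5) (nat_lit 184)) (nd (nat_lit 207) (nat_lit 0) (cs (lf (nat_lit 42) (nat_lit 162)) (rf (nat_lit 7)))))) (cs (nd (nat_lit 209) (nat_lit 0) (cs (lf (nat_lit 5) (nat_lit 184)) (nd (nat_lit 206) (nat_lit 0) (cs (lf (nat_lit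 11) (nat_lit 183)) (nd (nat_lit 165) (nat_lit 0) (cs (lf (nat_lit 17) (nat_lit 162)) (nd (nat_lit 121) (nat_lit 0) (cs (lf (nat_lit 37) (nat_lit 120)) (nd (nat_lit 228) (nat_lit 0) (cs (lf (nat_lit 29) (nat_lit 162)) (nd (nat_lit 249) (nat_lit 0) (cs (lf (nat_lit 40) (nat_lit 161)) (nd (nat_lit 250) (nat_lit 0) (cs (lf (nat_lit 41) (nat_lit 183)) (lf (nat_lit 35) (nat_lit 162)))))))))))))))) (cs (nd (nat_lit 206) (nat_lit 0) (cs (lf (nat_lit 11) (nat_lit 183)) (nd (nat_lit 140) (nat_lit 0) (cs (lf (nat_lit 28) (nat_lit 140)) (nd (nat_lit 209) (nat_lit 0) (cs (lf (nat_lit 5) (nat_lit 184)) (nd (nat_lit 117) (nat_lit 0) (cs (lf (nat_lit 46) (nat_lit 117)) (nd (nat_lit 165) (nat_lit 0) (cs (lf (nat_lit 17) (nat_lit 162)) (nd (nat_lit 121) (nat_lit 0) (cs (lf (nat_lit 37) (nat_lit 120)) (rf (nat_lit 8)))))))))))))) (rf (nat_lit 9))))))))))))))))) q20608 (by decide +kernel)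
def q20658 : Q := Q.p (nat_lit 0x4000070000000000000000000000000000000000000000000000) (nat_lit 0x10000620001800000e0000200000800000000000000000000000000000) (nat_lit 6)
theorem c20658 : QOK q20658 := cut [q2161] ⟨c2161, trivial⟩ (nd (nat_lit 187) (nat_lit 0) (cs (lf (nat_lit 11) (nat_lit 183)) (nd (nat_lit 209) (nat_lit 0) (cs (lf (nat_lit 5) (nat_lit 184)) (rf (nat_lit 0)))))) q20658 (by decide +kernel)
def q20660 : Q := Q.p (nat_lit 0x14000070000000000000000000000000000000000000000000000) (nat_lit 0x6a000780001c00000000000000000000000000000000000000000) (nat_lit 6)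
theorem c20660 : QOK q20660 := cut [q8426] ⟨c8426, trivial⟩ (nd (nat_lit 187) (nat_lit 0) (cs (lf (nat_lit 11) (nat_lit 183)) (nd (nat_lit 209) (nat_lit 0) (cs (lf (nat_lit 5) (nat_lit 184)) (rf (nat_lit 0)))))) q20660 (by decide +kernel)
def q20664 : Q := Q.p (nat_lit 0x14000070000000000000000000000000000000000000000000000) (nat_lit 0x4000038000680001800000e0000300000400000000000000000000000000000) (nat_lit 5)
theorem c20664 : QOK q20664 := cut [q3313, q20663] ⟨c3313, c20663, trivial⟩ (nd (nat_lit 207) (nat_lit 0) (cs (rf (nat_lit 0)) (rf (nat_lit 1)))) q20664 (by decide +kernel)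
def q20774 : Q := Q.p (nat_lit 0x10000060000000000000000000000000000000000000000000000) (nat_lit 0xe00003c0002f80019c0007f8001f80003e0000380000a000000000000000000) (nat_lit 13)
theorem c20774 : QOK q20774 := cut [q4753, q4772, q4774, q20671, q3734, q20720, q19045, q19067, q19070, q19047, q20723, q7171, q8711, q5888, q20722, q20743, q20753] ⟨c4753, c4772, c4774, c20671, c3734, c20720, c19045, c19067, c19070, c19047, c20723, c7171, c8711, c5888, c20722, c20743, c20753, trivial⟩ (nd (nat_lit 184) (nat_lit 0) (cs (rf (nat_lit 0)) (cs (rf (nat_lit 1)) (cs (rf (nat_lit 2)) (cs (rf (nat_lit 3)) (nd (nat_lit 162) (nat_lit 0) (cs (rf (nat_lit 4)) (cs (nd (nat_lit 187) (nat_lit 0) (cs (lf (nat_lit 23) (nat_lit 161)) (rf (nat_lit 5)))) (cs (nd (nat_lit 140) (nat_lit 0) (cs (rf (nat_lit 6)) (cs (rf (nat_lit 7)) (cs (rf (nat_lit 8)) (nd (nat_lit 206) (nat_lit 0) (cs (rf (nat_lit 9)) (rf (nat_lit 10)))))))) (nd (nat_lit 163) (nat_lit 0) (cs (nd (nat_lit 187)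 (nat_lit 0) (cs (lf (nat_lit 18) (nat_lit 162)) (nd (nat_lit 165) (nat_lit 0) (cs (lf (nat_lit 17) (nat_lit 162)) (nd (nat_lit 121) (nat_lit 0) (cs (lf (nat_lit 37) (nat_lit 120)) (nd (nat_lit 206) (nat_lit 0) (cs (lf (nat_lit 11) (nat_lit 183)) (nd (nat_lit 228) (nat_lit 0) (cs (lf (nat_lit 30) (nat_lit 162)) (nd (nat_lit 229) (nat_lit 0) (cs (lf (nat_lit 29) (nat_lit 162)) (nd (nat_lit 140) (nat_lit 0) (cs (rf (nat_lit 11)) (lf (nat_lit 28) (nat_lit 140)))))))))))))))) (cs (nd (nat_lit 119) (nat_lit 0) (cs (lf (nat_lit 25) (nat_lit 119)) (nd (nat_lit 187) (nat_lit 0) (cs (lf (nat_lit 18) (nat_lit 162)) (nd (nat_lit 165) (nat_lit 0) (cs (lf (nat_lit 17) (nat_lit 162)) (nd (nat_lit 143) (nat_lit 0) (cs (lf (nat_lit 36) (nat_lit 120)) (nd (nat_lit 164) (nat_lit 0) (cs (lf (nat_lit 17) (nat_lit 140)) (rf (nat_lit 12)))))))))))) (cs (nd (nat_lit 140) (nat_lit 0) (cs (rf (nat_lit 13)) (cs (rf (nat_lit 8)) (nd (nat_lit 141) (nat_lit 0) (cs (lf (nat_lit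 24) (nat_lit 119)) (nd (nat_lit 207) (nat_lit 0) (cs (lf (nat_lit 42) (nat_lit 140)) (nd (nat_lit 120) (nat_lit 0) (cs (lf (nat_lit 34) (nat_lit 119)) (nd (nat_lit 206) (nat_lit 0) (cs (lf (nat_lit 41) (nat_lit 140)) (rf (nat_lit 14))))))))))))) (cs (nd (nat_lit 119) (nat_lit 0) (cs (lf (nat_lit 25) (nat_lit 119)) (nd (nat_lit 187) (nat_lit 0) (cs (lf (nat_lit 18) (nat_lit 162)) (nd (nat_lit 165) (nat_lit 0) (cs (lf (nat_lit 17) (nat_lit 162)) (nd (nat_lit 205) (nat_lit 0) (cs (lf (nat_lit 10) (nat_lit 183)) (nd (nat_lit 143) (nat_lit 0) (cs (lf (nat_lit 36) (nat_lit 120)) (nd (nat_lit 164) (nat_lit 0) (cs (lf (nat_lit 17) (nat_lit 140)) (nd (nat_lit 140) (nat_lit 0) (cs (lf (nat_lit 23) (nat_lit 139)) (rf (nat_lit 15)))))))))))))))) (nd (nat_lit 119) (nat_lit 0) (cs (lf (nat_lit 25) (nat_lit 119)) (nd (nat_lit 187) (nat_lit 0) (cs (lf (nat_lit 18) (nat_lit 162)) (nd (nat_lit 165) (nat_lit 0) (cs (lf (nat_lit 17) (nat_lit 162)) (nd (nat_lit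 121) (nat_lit 0) (cs (lf (nat_lit 37) (nat_lit 120)) (nd (nat_lit 206) (nat_lit 0) (cs (lf (nat_lit 11) (nat_lit 183)) (nd (nat_lit 228) (nat_lit 0) (cs (lf (nat_lit 30) (nat_lit 162)) (rf (nat_lit 16)))))))))))))))))))))))))))) q20774 (by decide +kernel)
def q20779 : Q := Q.p (nat_lit 0x4000010000140000180000000000000000000000000000000000000000) (nat_lit 0x220000e00007800000000000000000000000000000000000) (nat_lit 5)
theorem c20779 : QOK q20779 := cut [q20778] ⟨c20778, trivial⟩ (nd (nat_lit 165) (nat_lit 0) (cs (lf (nat_lit 35) (nat_lit 142)) (rf (nat_lit 0)))) q20779 (by decide +kernel)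
def q20783 : Q := Q.p (nat_lit 0x140000380000000000000000000000000000000000000000) (nat_lit 0xae0000700001c0000000000000000000000000000000000) (nat_lit 6)
theorem c20783 : QOK q20783 := cut [q20782] ⟨c20782, trivial⟩ (nd (nat_lit 162) (nat_lit 0) (cs (lf (nat_lit 4) (nat_lit 162)) (rf (nat_lit 0)))) q20783 (by decide +kernel)
def q20851 : Q := Q.p (nat_lit 0x20000000000100001e0000000000000000000000000000000000000000000000) (nat_lit 0x700001c000078000ee0000000001c0000400000000000000000000000000000000000) (nat_lit 8)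
theorem c20851 : QOK q20851 := cut [q7338, q90, q3126, q20845] ⟨c7338, c90, c3126, c20845, trivial⟩ (nd (nat_lit 207) (nat_lit 0) (cs (rf (nat_lit 0)) (nd (nat_lit 229) (nat_lit 0) (cs (rf (nat_lit 1)) (cs (rf (nat_lit 2)) (nd (nat_lit 163) (nat_lit 0) (cs (lf (nat_lit 23) (nat_lit 162)) (nd (nat_lit 142) (nat_lit 0) (cs (lf (nat_lit 37) (nat_lit 141)) (nd (nat_lit 230) (nat_lit 0) (cs (lf (nat_lit 29) (nat_lit 163)) (nd (nat_lit 210) (nat_lit 0) (cs (lf (nat_lit 5) (nat_lit 185)) (rf (nat_lit 3))))))))))))))) q20851 (by decide +kernel)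
def q20873 : Q := Q.p (nat_lit 0x100000c0000200000000000000000000000000000000000000000) (nat_lit 0x100001c00007c0006e000130001dc0000500000000000000000000000000000000000) (nat_lit 8)
theorem c20873 : QOK q20873 := cut [q9274, q9292, q7086, q90, q20164, q5376, q5022] ⟨c9274, c9292, c7086, c90, c20164, c5376, c5022, trivial⟩ (nd (nat_lit 185) (nat_lit 0) (cs (rf (nat_lit 0)) (cs (rf (nat_lit 1)) (nd (nat_lit 207) (nat_lit 0) (cs (rf (nat_lit 2)) (cs (nd (nat_lit 229) (nat_lit 0) (cs (rf (nat_lit 3)) (nd (nat_lit 163) (nat_lit 0) (cs (rf (nat_lit 4)) (nd (nat_lit 162) (nat_lit 0) (cs (lf (nat_lit 47) (nat_lit 140)) (lf (nat_lit 18) (nat_lit 162)))))))) (nd (nat_lit 229) (nat_lit 0) (cs (rf (nat_lit 3)) (nd (nat_lit 228) (nat_lit 0) (cs (rf (nat_lit 5)) (cs (nd (nat_lit 206) (nat_lit 0) (cs (lf (nat_lit 12) (nat_lit 183)) (nd (nat_lit 250) (nat_lit 0) (cs (lf (nat_lit 30) (nat_lit 184)) (lf (nat_lit 36) (nat_lit 162)))))) (nd (nat_lit 163) (nat_lit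 0) (cs (lf (nat_lit 41) (nat_lit 162)) (nd (nat_lit 230) (nat_lit 0) (cs (lf (nat_lit 42) (nat_lit 163)) (rf (nat_lit 6))))))))))))))))) q20873 (by decide +kernel)
def q20940 : Q := Q.p (nat_lit 0x100001c0000000000000000000000000000000000000000000000) (nat_lit 0x60000638003fe0000000000000000000000000000000000000000) (nat_lit 7)
theorem c20940 : QOK q20940 := cut [q19499, q19721, q20936] ⟨c19499, c19721, c20936, trivial⟩ (nd (nat_lit 167) (nat_lit 0) (cs (rf (nat_lit 0)) (cs (rf (nat_lit 1)) (nd (nat_lit 189) (nat_lit 0) (cs (lf (nat_lit 17) (nat_lit 164)) (nd (nat_lit 163) (nat_lit 0) (cs (lf (nat_lit 22) (nat_lit 163)) (nd (nat_lit 209) (nat_lit 0) (cs (lf (nat_lit 6) (nat_lit 186)) (rf (nat_lit 2))))))))))) q20940 (by decide +kernel)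
def q21273 : Q := Q.p (nat_lit 0x1000004000040000180000200000000000000000000000000000000000) (nat_lit 0x9e0000700000e0000800002000000000000000000000000) (nat_lit 7)
theorem c21273 : QOK q21273 := cut [q3803] ⟨c3803, trivial⟩ (nd (nat_lit 97) (nat_lit 0) (cs (lf (nat_lit 25) (nat_lit 97)) (nd (nat_lit 162) (nat_lit 0) (cs (rf (nat_lit 0)) (lf (nat_lit 32) (nat_lit 140)))))) q21273 (by decide +kernel)
def q21470 : Q := Q.p (nat_lit 0x2000000000010000060000000000000000000000000000000000000000000000) (nat_lit 0x8000016000078000e7c0039e001dfc0007e0000f80003800000000000000000000000) (nat_lit 14)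
theorem c21470 : QOK q21470 := cut [q4772, q18911, q8623, q19272, q21395, q20161, q9495, q3130, q9496, q21414, q21418, q21435, q21439, q21442, q4771, q20670, q17223] ⟨c4772, c18911, c8623, c19272, c21395, c20161, c9495, c3130, c9496, c21414, c21418, c21435, c21439, c21442, c4771, c20670, c17223, trivial⟩ (nd (nat_lit 184) (nat_lit 0) (cs (rf (nat_lit 0)) (cs (rf (nat_lit 1)) (cs (nd (nat_lit 163) (nat_lit 0) (cs (rf (nat_lit 2)) (cs (nd (nat_lit 187) (nat_lit 0) (cs (rf (nat_lit 3)) (cs (nd (nat_lit 230) (nat_lit 0) (cs (lf (nat_lit 42) (nat_lit 163)) (nd (nat_lit 205) (nat_lit 0) (cs (lf (nat_lit 10) (nat_lit 183)) (rf (nat_lit 4)))))) (nd (nat_lit 206) (nat_lit 0) (cs (lf (nat_lit 11) (nat_lit 183)) (nd (nat_lit 228) (nat_lit 0) (cs (lf (nat_lit 30) (nat_lit 162)) (nd (nat_lit 230) (nat_lit 0) (cs (rf (nat_lit 5)) (nd (nat_lit 209) (nat_lit 0) (cs (lf (nat_lit 5) (nat_lit 184)) (nd (nat_lit 162) (nat_lit 0) (cs (lf (nat_lit 23) (nat_lit 161))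 (rf (nat_lit 6))))))))))))))) (cs (nd (nat_lit 162) (nat_lit 0) (cs (rf (nat_lit 7)) (cs (nd (nat_lit 230) (nat_lit 0) (cs (lf (nat_lit 42) (nat_lit 163)) (nd (nat_lit 119) (nat_lit 0) (cs (lf (nat_lit 25) (nat_lit 119)) (nd (nat_lit 187) (nat_lit 0) (cs (lf (nat_lit 18) (nat_lit 162)) (nd (nat_lit 206) (nat_lit 0) (cs (lf (nat_lit 11) (nat_lit 183)) (nd (nat_lit 209) (nat_lit 0) (cs (lf (nat_lit 5) (nat_lit 184)) (rf (nat_lit 8)))))))))))) (nd (nat_lit 140) (nat_lit 0) (cs (nd (nat_lit 160) (nat_lit 0) (cs (lf (nat_lit 1) (nat_lit 160)) (nd (nat_lit 230) (nat_lit 0) (cs (lf (nat_lit 42) (nat_lit 163)) (rf (nat_lit 9)))))) (cs (nd (nat_lit 141) (nat_lit 0) (cs (lf (nat_lit 24) (nat_lit 119)) (nd (nat_lit 160) (nat_lit 0) (cs (lf (nat_lit 1) (nat_lit 160)) (nd (nat_lit 206) (nat_lit 0) (cs (lf (nat_lit 30) (nat_lit 140)) (nd (nat_lit 205) (nat_lit 0) (cs (lf (nat_lit 41) (nat_lit 139)) (nd (nat_lit 203) (nat_lit 0) (cs (lf (nat_lit 13) (nat_lit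 181)) (nd (nat_lit 230) (nat_lit 0) (cs (lf (nat_lit 42) (nat_lit 163)) (rf (nat_lit 10)))))))))))))) (cs (nd (nat_lit 160) (nat_lit 0) (cs (lf (nat_lit 1) (nat_lit 160)) (nd (nat_lit 230) (nat_lit 0) (cs (lf (nat_lit 42) (nat_lit 163)) (rf (nat_lit 11)))))) (rf (nat_lit 12))))))))) (nd (nat_lit 187) (nat_lit 0) (cs (rf (nat_lit 4)) (nd (nat_lit 141) (nat_lit 0) (cs (lf (nat_lit 24) (nat_lit 119)) (nd (nat_lit 162) (nat_lit 0) (cs (lf (nat_lit 23) (nat_lit 161)) (rf (nat_lit 13)))))))))))) (nd (nat_lit 183) (nat_lit 0) (cs (rf (nat_lit 14)) (cs (rf (nat_lit 15)) (cs (nd (nat_lit 204) (nat_lit 0) (cs (lf (nat_lit 10) (nat_lit 182)) (nd (nat_lit 182) (nat_lit 0) (cs (lf (nat_lit 11) (nat_lit 181)) (nd (nat_lit 163) (nat_lit 0) (cs (lf (nat_lit 17) (nat_lit 160)) (nd (nat_lit 181) (nat_lit 0) (cs (rf (nat_lit 16)) (lf (nat_lit 16) (nat_lit 159)))))))))) (cs (nd (nat_lit 160) (nat_lit 0) (cs (lf (nat_lit 22) (nat_lit 160)) (nd (nat_lit 182) (nat_lit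 0) (cs (lf (nat_lit 23) (nat_lit 159)) (nd (nat_lit 163) (nat_lit 0) (cs (lf (nat_lit 17) (nat_lit 160)) (nd (nat_lit 181) (nat_lit 0) (cs (lf (nat_lit 16) (nat_lit 159)) (nd (nat_lit 203) (nat_lit 0) (cs (lf (nat_lit 11) (nat_lit 180)) (lf (nat_lit 10) (nat_lit 181)))))))))))) (cs (nd (nat_lit 204) (nat_lit 0) (cs (lf (nat_lit 10) (nat_lit 182)) (nd (nat_lit 182) (nat_lit 0) (cs (lf (nat_lit 11) (nat_lit 181)) (nd (nat_lit 163) (nat_lit 0) (cs (lf (nat_lit 17) (nat_lit 160)) (nd (nat_lit 162) (nat_lit 0) (cs (lf (nat_lit 12) (nat_lit 159)) (nd (nat_lit 187) (nat_lit 0) (cs (lf (nat_lit 23) (nat_lit 161)) (lf (nat_lit 18) (nat_lit 162)))))))))))) (nd (nat_lit 160) (nat_lit 0) (cs (lf (nat_lit 22) (nat_lit 160)) (nd (nat_lit 182) (nat_lit 0) (cs (lf (nat_lit 23) (nat_lit 159)) (nd (nat_lit 163) (nat_lit 0) (cs (lf (nat_lit 17) (nat_lit 160)) (nd (nat_lit 230) (nat_lit 0) (cs (lf (nat_lit 42) (nat_lit 163)) (nd (nat_lit 141) (nat_lit 0) (cs (lf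 (nat_lit 24) (nat_lit 119)) (nd (nat_lit 162) (nat_lit 0) (cs (lf (nat_lit 12) (nat_lit 159)) (nd (nat_lit 187) (nat_lit 0) (cs (lf (nat_lit 18) (nat_lit 162)) (rf (nat_lit 13)))))))))))))))))))))))))) q21470 (by decide +kernel)
def q21495 : Q := Q.p (nat_lit 0x2000000000010000060000000000000000000000000000000000000000000000) (nat_lit 0xa00001a000078003ef80079c001d78000380000e00002800000000000000000000000) (nat_lit 11)
theorem c21495 : QOK q21495 := cut [q4753, q4772, q4774, q20671, q18722, q19161, q19172, q20656, q7508, q20604, q21474, q19107, q20307, q9045, q21491] ⟨c4753, c4772, c4774, c20671, c18722, c19161, c19172, c20656, c7508, c20604, c21474, c19107, c20307, c9045, c21491, trivial⟩ (nd (nat_lit 184) (nat_lit 0) (cs (rf (nat_lit 0)) (cs (rf (nat_lit 1)) (cs (rf (nat_lit 2)) (cs (rf (nat_lit 3)) (nd (nat_lit 187) (nat_lit 0) (cs (rf (nat_lit 4)) (cs (nd (nat_lit 188) (nat_lit 0) (cs (rf (nat_lit 5)) (cs (rf (nat_lit 6)) (cs (rf (nat_lit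 7)) (nd (nat_lit 161) (nat_lit 0) (cs (lf (nat_lit 22) (nat_lit 161)) (nd (nat_lit 209) (nat_lit 0) (cs (lf (nat_lit 5) (nat_lit 184)) (rf (nat_lit 8)))))))))) (cs (nd (nat_lit 162) (nat_lit 0) (cs (lf (nat_lit 23) (nat_lit 161)) (nd (nat_lit 229) (nat_lit 0) (cs (rf (nat_lit 9)) (cs (nd (nat_lit 209) (nat_lit 0) (cs (lf (nat_lit 5) (nat_lit 184)) (nd (nat_lit 206) (nat_lit 0) (cs (lf (nat_lit 11) (nat_lit 183)) (nd (nat_lit 228) (nat_lit 0) (cs (lf (nat_lit 29) (nat_lit 162)) (rf (nat_lit 10)))))))) (cs (nd (nat_lit 209) (nat_lit 0) (cs (lf (nat_lit 5) (nat_lit 184)) (nd (nat_lit 206) (nat_lit 0) (cs (lf (nat_lit 11) (nat_lit 183)) (rf (nat_lit 11)))))) (nd (nat_lit 209) (nat_lit 0) (cs (lf (nat_lit 5) (nat_lit 184)) (nd (nat_lit 251) (nat_lit 0) (cs (rf (nat_lit 12)) (lf (nat_lit 44) (nat_lit 162)))))))))))) (cs (nd (nat_lit 161) (nat_lit 0) (cs (lf (nat_lit 22) (nat_lit 161)) (nd (nat_lit 206) (nat_lit 0) (cs (lf (nat_lit 11) (nat_lit 183))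 (nd (nat_lit 188) (nat_lit 0) (cs (lf (nat_lit 10) (nat_lit 184)) (nd (nat_lit 167) (nat_lit 0) (cs (lf (nat_lit 16) (nat_lit 163)) (nd (nat_lit 189) (nat_lit 0) (cs (lf (nat_lit 17) (nat_lit 164)) (rf (nat_lit 13)))))))))))) (nd (nat_lit 161) (nat_lit 0) (cs (lf (nat_lit 22) (nat_lit 161)) (nd (nat_lit 206) (nat_lit 0) (cs (lf (nat_lit 11) (nat_lit 183)) (rf (nat_lit 14)))))))))))))))) q21495 (by decide +kernel)
def q21504 : Q := Q.p (nat_lit 0x1000014000010000000000000000000000000000000000000000000000) (nat_lit 0x200002e0002a000000000060000180000200000000000000000000000000000) (nat_lit 5)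
theorem c21504 : QOK q21504 := cut [q18583, q21503] ⟨c18583, c21503, trivial⟩ (nd (nat_lit 227) (nat_lit 0) (cs (rf (nat_lit 0)) (rf (nat_lit 1)))) q21504 (by decide +kernel)
def q21529 : Q := Q.p (nat_lit 0x4000010000040000100000000000000000000000000000000000000000) (nat_lit 0x800002000008000000000000000e0000380000a000000000000000000000000) (nat_lit 6)
theorem c21529 : QOK q21529 := cut [q18189] ⟨c18189, trivial⟩ (nd (nat_lit 229) (nat_lit 0) (cs (lf (nat_lit 41) (nat_lit 163)) (rf (nat_lit 0)))) q21529 (by decide +kernel)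
def q21554 : Q := Q.p (nat_lit 0x14000030000000000000000000000000000000000000000000000) (nat_lit 0x180000600001e0002a0000000000e0000380000a00000000000000000000000000000) (nat_lit 8)
theorem c21554 : QOK q21554 := cut [q2663, q19097, q21503, q6590, q21548, q889, q8563, q18625, q21550] ⟨c2663, c19097, c21503, c6590, c21548, c889, c8563, c18625, c21550, trivial⟩ (nd (nat_lit 228) (nat_lit 0) (cs (rf (nat_lit 0)) (cs (rf (nat_lit 1)) (cs (nd (nat_lit 227) (nat_lit 0) (cs (rf (nat_lit 2)) (cs (nd (nat_lit 207) (nat_lit 0) (cs (lf (nat_lit 6) (nat_lit 205)) (nd (nat_lit 250) (nat_lit 0) (cs (lf (nat_lit 30) (nat_lit 184)) (rf (nat_lit 3)))))) (rf (nat_lit 4))))) (nd (nat_lit 162) (nat_lit 0) (cs (rf (nat_lit 5)) (cs (rf (nat_lit 6)) (cs (rf (nat_lit 7)) (nd (nat_lit 139) (nat_lit 0) (cs (lf (nat_lit 46) (nat_lit 139)) (nd (nat_lit 141) (nat_lit 0) (cs (lf (nat_lit 34) (nat_lit 140)) (rf (nat_lit 8)))))))))))))) q21554 (by decide +kernel)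
def q21604 : Q := Q.p (nat_lit 0x18000070000000000000000000000000000000000000000000000) (nat_lit 0x80000300008c000070000100000400000000000000000000000000000) (nat_lit 6)
theorem c21604 : QOK q21604 := cut [q3581] ⟨c3581, trivial⟩ (nd (nat_lit 183) (nat_lit 0) (cs (lf (nat_lit 0) (nat_lit 182)) (rf (nat_lit 0)))) q21604 (by decide +kernel)
def q21723 : Q := Q.p (nat_lit 0x2000000000010000060000000000000000000000000000000000000000000000) (nat_lit 0x80000f00001f80007e000efc00390001df0000f0000380000c000000000000000000000000) (nat_lit 15)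
theorem c21723 : QOK q21723 := cut [q21545, q21576, q1173, q8576, q19272, q21051, q3738, q3937, q21701, q21530, q21579, q17893, q4961, q21393] ⟨c21545, c21576, c1173, c8576, c19272, c21051, c3738, c3937, c21701, c21530, c21579, c17893, c4961, c21393, trivial⟩ (nd (nat_lit 230) (nat_lit 0) (cs (rf (nat_lit 0)) (cs (rf (nat_lit 1)) (nd (nat_lit 163) (nat_lit 0) (cs (rf (nat_lit 2)) (cs (rf (nat_lit 3)) (nd (nat_lit 187) (nat_lit 0) (cs (rf (nat_lit 4)) (cs (rf (nat_lit 5)) (cs (nd (nat_lit 162) (nat_lit 0) (cs (rf (nat_lit 6)) (cs (rf (nat_lit 7)) (nd (nat_lit 206) (nat_lit 0) (cs (rf (nat_lit 8)) (cs (nd (nat_lit 184) (nat_lit 0) (cs (lf (nat_lit 11) (nat_lit 183)) (nd (nat_lit 228) (nat_lit 0) (cs (lf (nat_lit 30) (nat_lit 162)) (nd (nat_lit 227) (nat_lit 0) (cs (lf (nat_lit 41) (nat_lit 161)) (nd (nat_lit 209) (nat_lit 0) (cs (lf (nat_lit 5) (nat_lit 184)) (lf (nat_lit 14) (nat_lit 205)))))))))) (cs (nd (nat_lit 229) (nat_lit 0) (cs (rf (nat_lit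 9)) (cs (rf (nat_lit 10)) (nd (nat_lit 251) (nat_lit 0) (cs (lf (nat_lit 36) (nat_lit 163)) (nd (nat_lit 273) (nat_lit 0) (cs (lf (nat_lit 30) (nat_lit 207)) (nd (nat_lit 228) (nat_lit 0) (cs (lf (nat_lit 25) (nat_lit 162)) (nd (nat_lit 227) (nat_lit 0) (cs (lf (nat_lit 17) (nat_lit 205)) (nd (nat_lit 248) (nat_lit 0) (cs (lf (nat_lit 10) (nat_lit 226)) (nd (nat_lit 226) (nat_lit 0) (cs (lf (nat_lit 11) (nat_lit 225)) (nd (nat_lit 225) (nat_lit 0) (cs (rf (nat_lit 11)) (lf (nat_lit 4) (nat_lit 225))))))))))))))))))) (nd (nat_lit 207) (nat_lit 0) (cs (lf (nat_lit 12) (nat_lit 183)) (nd (nat_lit 229) (nat_lit 0) (cs (lf (nat_lit 47) (nat_lit 140)) (nd (nat_lit 164) (nat_lit 0) (cs (lf (nat_lit 30) (nat_lit 163)) (lf (nat_lit 35) (nat_lit 141))))))))))))))) (nd (nat_lit 188) (nat_lit 0) (cs (rf (nat_lit 12)) (rf (nat_lit 13)))))))))))))) q21723 (by decide +kernel)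
def q21773 : Q := Q.p (nat_lit 0x100000000001c00000000000000000000000000000000000) (nat_lit 0x40000000003c0000600003f8000280000a0000000000000000000) (nat_lit 7)
theorem c21773 : QOK q21773 := cut [q8975, q8980, q18313] ⟨c8975, c8980, c18313, trivial⟩ (nd (nat_lit 145) (nat_lit 0) (cs (rf (nat_lit 0)) (cs (rf (nat_lit 1)) (rf (nat_lit 2))))) q21773 (by decide +kernel)
def q21810 : Q := Q.p (nat_lit 0x10000040000000000e00000000000000000000000000000000000) (nat_lit 0x20001cc000300001dc00000000000000000000000000000) (nat_lit 6)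
theorem c21810 : QOK q21810 := cut [q9102, q20416, q21809] ⟨c9102, c20416, c21809, trivial⟩ (nd (nat_lit 144) (nat_lit 0) (cs (rf (nat_lit 0)) (cs (rf (nat_lit 1)) (rf (nat_lit 2))))) q21810 (by decide +kernel)
def q21848 : Q := Q.p (nat_lit 0x100001c0000000000000000000000000000000000000000000000) (nat_lit 0x10000040000ee0000300001f0000200000800000000000000000000000000000) (nat_lit 6)
theorem c21848 : QOK q21848 := cut [q4961, q19158, q19273] ⟨c4961, c19158, c19273, trivial⟩ (nd (nat_lit 185) (nat_lit 0) (cs (rf (nat_lit 0)) (cs (rf (nat_lit 1)) (rf (nat_lit 2))))) q21848 (by decide +kernel)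
def q21930 : Q := Q.p (nat_lit 0x200000800002000000000000000000000000000000000000000000000000000000000000000) (nat_lit 0x80000340001f00007f0001dc0001400001000004000000000000000000000000000000000000000000000000000000000) (nat_lit 11)
theorem c21930 : QOK q21930 := cut [q2613, q21909, q21914, q21918, q21924, q14474, q21929] ⟨c2613, c21909, c21914, c21918, c21924, c14474, c21929, trivial⟩ (nd (nat_lit 319) (nat_lit 0) (cs (rf (nat_lit 0)) (cs (rf (nat_lit 1)) (cs (nd (nat_lit 320) (nat_lit 0) (cs (lf (nat_lit 29) (nat_lit 253)) (nd (nat_lit 295) (nat_lit 0) (cs (rf (nat_lit 2)) (cs (rf (nat_lit 3)) (cs (rf (nat_lit 4)) (nd (nat_lit 230) (nat_lit 0) (cs (lf (nat_lit 46) (nat_lit 230)) (rf (nat_lit 5)))))))))) (rf (nat_lit 6)))))) q21930 (by decide +kernel)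
def q21931 : Q := Q.p (nat_lit 0x200000800002000004000000000000000000000000000000000000000000000000000000000) (nat_lit 0x140000700001c0000000000000001000000000000000000000000000000000000000000000000000000000000000) (nat_lit 5)
theorem c21931 : QOK q21931 := cut [q2579] ⟨c2579, trivial⟩ (nd (nat_lit 319) (nat_lit 0) (cs (rf (nat_lit 0)) (lf (nat_lit 46) (nat_lit 230)))) q21931 (by decide +kernel)
def q21989 : Q := Q.p (nat_lit 0x800002000008000038000000000000000000000000000000000000000000000000000) (nat_lit 0x400001000000000011c0000600001c000000000000000000000000000000000000000000000) (nat_lit 6)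
theorem c21989 : QOK q21989 := cut [q119] ⟨c119, trivial⟩ (nd (nat_lit 276) (nat_lit 0) (cs (rf (nat_lit 0)) (lf (nat_lit 29) (nat_lit 209)))) q21989 (by decide +kernel)
def q21994 : Q := Q.p (nat_lit 0x800002000008000038000000000000000000000000000000000000000000000000000) (nat_lit 0x400001000000000003800044000138000000000000000000000000000000000000000000000) (nat_lit 6)
theorem c21994 : QOK q21994 := cut [q16145] ⟨c16145, trivial⟩ (nd (nat_lit 210) (nat_lit 0) (cs (lf (nat_lit 35) (nat_lit 187)) (nd (nat_lit 276) (nat_lit 0) (cs (lf (nat_lit 29) (nat_lit 209)) (rf (nat_lit 0)))))) q21994 (by decide +kernel)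
def q22014 : Q := Q.p (nat_lit 0x200000800002000000000000000000000000000000000000000000000000000000000000000) (nat_lit 0x140003f0000fe0001dc0000400001000004000000000000000000000000000000000000000000000000000000000) (nat_lit 10)
theorem c22014 : QOK q22014 := cut [q2613, q21909, q21929, q11791, q14754, q22009, q11797] ⟨c2613, c21909, c21929, c11791, c14754, c22009, c11797, trivial⟩ (nd (nat_lit 319) (nat_lit 0) (cs (rf (nat_lit 0)) (cs (rf (nat_lit 1)) (cs (rf (nat_lit 2)) (nd (nat_lit 320) (nat_lit 0) (cs (lf (nat_lit 29) (nat_lit 253)) (nd (nat_lit 321) (nat_lit 0) (cs (rf (nat_lit 3)) (cs (rf (nat_lit 4)) (cs (nd (nat_lit 230) (nat_lit 0) (cs (lf (nat_lit 46) (nat_lit 230)) (rf (nat_lit 5)))) (nd (nat_lit 230) (nat_lit 0) (cs (lf (nat_lit 46) (nat_lit 230)) (rf (nat_lit 6)))))))))))))) q22014 (by decide +kernel)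
def q22018 : Q := Q.p (nat_lit 0x300000c00002000000000000000000000000000000000000000000000000000000000000000) (nat_lit 0x100000c00000300000000018000060000000000000000000000000000000000000000000000000000) (nat_lit 5)
theorem c22018 : QOK q22018 := cut [q2562] ⟨c2562, trivial⟩ (nd (nat_lit 231) (nat_lit 0) (cs (rf (nat_lit 0)) (lf (nat_lit 36) (nat_lit 208)))) q22018 (by decide +kernel)
def q22071 : Q := Q.p (nat_lit 0x140000f00002000000000000000000000000000000000000000000000000000000000000000) (nat_lit 0x10000000001000000e0000a000028000000000000000000000000000000000000000000000000000) (nat_lit 5)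
theorem c22071 : QOK q22071 := cut [q15065] ⟨c15065, trivial⟩ (nd (nat_lit 209) (nat_lit 0) (cs (lf (nat_lit 37) (nat_lit 208)) (rf (nat_lit 0)))) q22071 (by decide +kernel)
def q22119 : Q := Q.p (nat_lit 0xe00000400000000000000000000000000000000000000000000000000000000000000) (nat_lit 0x1dc0003000000800000000000000000000000000000000000000000000000000000000000000) (nat_lit 5)
theorem c22119 : QOK q22119 := cut [q22118] ⟨c22118, trivial⟩ (nd (nat_lit 276) (nat_lit 0) (cs (lf (nat_lit 22) (nat_lit 250)) (rf (nat_lit 0)))) q22119 (by decide +kernel)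
def q22147 : Q := Q.p (nat_lit 0x300000e00000000000000000000000000000000000000000000000000000000000000000000) (nat_lit 0x40000180000e0001180000e00002000000000000000000000000000000000000000000000000000000000) (nat_lit 7)
theorem c22147 : QOK q22147 := cut [q13014] ⟨c13014, trivial⟩ (nd (nat_lit 272) (nat_lit 0) (cs (lf (nat_lit 0) (nat_lit 271)) (nd (nat_lit 249) (nat_lit 0) (cs (lf (nat_lit 22) (nat_lit 249)) (rf (nat_lit 0)))))) q22147 (by decide +kernel)
def q22156 : Q := Q.p (nat_lit 0xf0000000000000000000000000000000000000000000000000000) (nat_lit 0x7380000c000038000000000000000000000000000000000000000000000) (nat_lit 6)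
theorem c22156 : QOK q22156 := cut [q22155] ⟨c22155, trivial⟩ (nd (nat_lit 233) (nat_lit 0) (cs (lf (nat_lit 5) (nat_lit 208)) (rf (nat_lit 0)))) q22156 (by decide +kernel)
def q22226 : Q := Q.p (nat_lit 0xc00002000008000010000000000000000000000000000000000000000000000000000) (nat_lit 0x200006f0001380001f0003780004e000038000000000000000000000000000000000000000000000) (nat_lit 12)
theorem c22226 : QOK q22226 := cut [q22145, q22191, q12673, q22195, q22198, q22120, q22204, q22214, q22222] ⟨c22145, c22191, c12673, c22195, c22198, c22120, c22204, c22214, c22222, trivial⟩ (nd (nat_lit 273) (nat_lit 0) (cs (rf (nat_lit 0)) (cs (nd (nat_lit 230) (nat_lit 0) (cs (lf (nat_lit 42) (nat_lit 208)) (nd (nat_lit 252) (nat_lit 0) (cs (lf (nat_lit 41) (nat_lit 207)) (rf (nat_lit 1)))))) (cs (nd (nat_lit 272) (nat_lit 0) (cs (rf (nat_lit 2)) (cs (nd (nat_lit 297) (nat_lit 0) (cs (lf (nat_lit 5) (nat_lit 272)) (nd (nat_lit 210) (nat_lit 0) (cs (lf (nat_lit 34)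 (nat_lit 209)) (rf (nat_lit 3)))))) (nd (nat_lit 297) (nat_lit 0) (cs (lf (nat_lit 5) (nat_lit 272)) (nd (nat_lit 232) (nat_lit 0) (cs (lf (nat_lit 35) (nat_lit 209)) (nd (nat_lit 250) (nat_lit 0) (cs (lf (nat_lit 23) (nat_lit 249)) (rf (nat_lit 4))))))))))) (cs (nd (nat_lit 250) (nat_lit 0) (cs (rf (nat_lit 5)) (cs (rf (nat_lit 6)) (cs (nd (nat_lit 251) (nat_lit 0) (cs (lf (nat_lit 18) (nat_lit 250)) (nd (nat_lit 232) (nat_lit 0) (cs (lf (nat_lit 14) (nat_lit 228)) (nd (nat_lit 230) (nat_lit 0) (cs (nd (nat_lit 207) (nat_lit 0) (cs (lf (nat_lit 18) (nat_lit 207)) (nd (nat_lit 206) (nat_lit 0) (cs (lf (nat_lit 0) (nat_lit 205)) (nd (nat_lit 228) (nat_lit 0) (cs (lf (nat_lit 24) (nat_lit 184)) (nd (nat_lit 272) (nat_lit 0) (cs (lf (nat_lit 35) (nat_lit 184)) (lf (nat_lit 29) (nat_lit 206)))))))))) (lf (nat_lit 9) (nat_lit 228)))))))) (rf (nat_lit 7)))))) (nd (nat_lit 230) (nat_lit 0) (cs (lf (nat_lit 42) (nat_lit 208)) (nd (nat_lit 252) (nat_lit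 0) (cs (lf (nat_lit 41) (nat_lit 207)) (nd (nat_lit 185) (nat_lit 0) (cs (lf (nat_lit 46) (nat_lit 185)) (rf (nat_lit 8))))))))))))) q22226 (by decide +kernel)
def q22235 : Q := Q.p (nat_lit 0xc00003000008000010000000000000000000000000000000000000000000000000000) (nat_lit 0x80000200000c0003380000e0003600000e000020000000000000000000000000000000000000000000000) (nat_lit 7)
theorem c22235 : QOK q22235 := cut [q22191, q22229, q22233] ⟨c22191, c22229, c22233, trivial⟩ (nd (nat_lit 273) (nat_lit 0) (cs (nd (nat_lit 230) (nat_lit 0) (cs (lf (nat_lit 41) (nat_lit 207)) (rf (nat_lit 0)))) (cs (nd (nat_lit 272) (nat_lit 0) (cs (lf (nat_lit 12) (nat_lit 249)) (rf (nat_lit 1)))) (nd (nat_lit 271) (nat_lit 0) (cs (lf (nat_lit 13) (nat_lit 249)) (rf (nat_lit 2))))))) q22235 (by decide +kernel)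
def q22237 : Q := Q.p (nat_lit 0xc00003000008000000000000000000000000000000000000000000000000000000000) (nat_lit 0x400007000000800000000060000180000000000000000000000000000000000000000000000) (nat_lit 5)
theorem c22237 : QOK q22237 := cut [q22236] ⟨c22236, trivial⟩ (nd (nat_lit 209) (nat_lit 0) (cs (lf (nat_lit 36) (nat_lit 186)) (rf (nat_lit 0)))) q22237 (by decide +kernel)
def q22250 : Q := Q.p (nat_lit 0xc0000300000c000010000000000000000000000000000000000000000000000000000) (nat_lit 0xe0001380000e0000380000e000038000000000000000000000000000000000000000000000) (nat_lit 10)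
theorem c22250 : QOK q22250 := cut [q22222] ⟨c22222, trivial⟩ (nd (nat_lit 185) (nat_lit 0) (cs (lf (nat_lit 46) (nat_lit 185)) (nd (nat_lit 273) (nat_lit 0) (cs (lf (nat_lit 41) (nat_lit 207)) (rf (nat_lit 0)))))) q22250 (by decide +kernel)
def q22273 : Q := Q.p (nat_lit 0x40000300000c000010000000000000000000000000000000000000000000000000000) (nat_lit 0x8000038000000003200000e000020000000000000000000000000000000000000000000000) (nat_lit 6)
theorem c22273 : QOK q22273 := cut [q22271] ⟨c22271, trivial⟩ (nd (nat_lit 273) (nat_lit 0) (cs (lf (nat_lit 41) (nat_lit 207)) (nd (nat_lit 271) (nat_lit 0) (cs (lf (nat_lit 13) (nat_lit 249)) (rf (nat_lit 0)))))) q22273 (by decide +kernel)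
def q22285 : Q := Q.p (nat_lit 0xc00003000000000020000000000000000000000000000000000000000000000000000) (nat_lit 0x500003000000c00008000040000100000000000000000000000000000000000000000000000) (nat_lit 5)
theorem c22285 : QOK q22285 := cut [q22284] ⟨c22284, trivial⟩ (nd (nat_lit 231) (nat_lit 0) (cs (lf (nat_lit 41) (nat_lit 208)) (rf (nat_lit 0)))) q22285 (by decide +kernel)
def q22313 : Q := Q.p (nat_lit 0x400001000004000010000000000000000000000000000000000000000000000000000) (nat_lit 0x1000000000000000030000e80000a0000000000000000000000000000000000000000000000) (nat_lit 5)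
theorem c22313 : QOK q22313 := cut [q1431] ⟨c1431, trivial⟩ (nd (nat_lit 209) (nat_lit 0) (cs (lf (nat_lit 35) (nat_lit 186)) (rf (nat_lit 0)))) q22313 (by decide +kernel)
def q22334 : Q := Q.p (nat_lit 0x400001000000000030000000000000000000000000000000000000000000000000000) (nat_lit 0x1000000000000000070000c80000a0000000000000000000000000000000000000000000000) (nat_lit 5)
theorem c22334 : QOK q22334 := cut [q1431] ⟨c1431, trivial⟩ (nd (nat_lit 230) (nat_lit 0) (cs (lf (nat_lit 35) (nat_lit 186)) (rf (nat_lit 0)))) q22334 (by decide +kernel)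
def q22337 : Q := Q.p (nat_lit 0xc00003000004000010000000000000000000000000000000000000000000000000000) (nat_lit 0x500003000000c00008000060000180000000000000000000000000000000000000000000000) (nat_lit 6)
theorem c22337 : QOK q22337 := cut [q22284] ⟨c22284, trivial⟩ (nd (nat_lit 209) (nat_lit 0) (cs (lf (nat_lit 35) (nat_lit 186)) (nd (nat_lit 231) (nat_lit 0) (cs (lf (nat_lit 30) (nat_lit 208)) (rf (nat_lit 0)))))) q22337 (by decide +kernel)
def q22344 : Q := Q.p (nat_lit 0x1e00001800000000000000000000000000000000000000000000000000000000000000) (nat_lit 0x180000600001c000000000000000300000c000030000000000000000000000000000000000000000000000) (nat_lit 7)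
theorem c22344 : QOK q22344 := cut [q22305] ⟨c22305, trivial⟩ (nd (nat_lit 295) (nat_lit 0) (cs (lf (nat_lit 11) (nat_lit 272)) (rf (nat_lit 0)))) q22344 (by decide +kernel)
def q22353 : Q := Q.p (nat_lit 0xc00003000004000010000000000000000000000000000000000000000000000000000) (nat_lit 0x18000060000180000000000000002000008000020000000000000000000000000000000000000000000000) (nat_lit 5)
theorem c22353 : QOK q22353 := cut [q22352] ⟨c22352, trivial⟩ (nd (nat_lit 207) (nat_lit 0) (cs (lf (nat_lit 47) (nat_lit 185)) (rf (nat_lit 0)))) q22353 (by decide +kernel)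
def q22393 : Q := Q.p (nat_lit 0xc00002000000000010000000000000000000000000000000000000000000000000000) (nat_lit 0x200001c000070003fe0007380039e0000bc0006e0003bc000000000000000000000000000000000000000000000) (nat_lit 16)
theorem c22393 : QOK q22393 := cut [q15829, q15996, q12991, q15625, q117, q11700, q16011, q22368, q22375, q22377, q22379, q22386, q22390] ⟨c15829, c15996, c12991, c15625, c117, c11700, c16011, c22368, c22375, c22377, c22379, c22386, c22390, trivial⟩ (nd (nat_lit 296) (nat_lit 0) (cs (rf (nat_lit 0)) (cs (rf (nat_lit 1)) (cs (nd (nat_lit 276) (nat_lit 0) (cs (nd (nat_lit 273) (nat_lit 0) (cs (rf (nat_lit 2)) (cs (rf (nat_lit 3)) (cs (nd (nat_lit 251) (nat_lit 0) (cs (lf (nat_lit 23) (nat_lit 250)) (nd (nat_lit 207) (nat_lit 0) (cs (lf (nat_lit 25) (nat_lit 207)) (nd (nat_lit 209) (nat_lit 0) (cs (lf (nat_lit 37) (nat_lit 208)) (nd (nat_lit 206) (nat_lit 0) (cs (rf (nat_lit 4)) (cs (nd (nat_lit 188) (nat_lit 0) (cs (lf (nat_lit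 16) (nat_lit 184)) (nd (nat_lit 295) (nat_lit 0) (cs (lf (nat_lit 11) (nat_lit 272)) (nd (nat_lit 317) (nat_lit 0) (cs (rf (nat_lit 5)) (nd (nat_lit 189) (nat_lit 0) (cs (lf (nat_lit 15) (nat_lit 185)) (nd (nat_lit 227) (nat_lit 0) (cs (lf (nat_lit 10) (nat_lit 205)) (nd (nat_lit 205) (nat_lit 0) (cs (lf (nat_lit 11) (nat_lit 204)) (rf (nat_lit 6)))))))))))))) (nd (nat_lit 294) (nat_lit 0) (cs (lf (nat_lit 10) (nat_lit 272)) (rf (nat_lit 7))))))))))))) (rf (nat_lit 8)))))) (cs (rf (nat_lit 9)) (cs (nd (nat_lit 209) (nat_lit 0) (cs (lf (nat_lit 37) (nat_lit 208)) (rf (nat_lit 10)))) (rf (nat_lit 11)))))) (nd (nat_lit 276) (nat_lit 0) (cs (rf (nat_lit 9)) (cs (rf (nat_lit 10)) (nd (nat_lit 273) (nat_lit 0) (cs (rf (nat_lit 2)) (cs (rf (nat_lit 8)) (rf (nat_lit 12)))))))))))) q22393 (by decide +kernel)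
def q22408 : Q := Q.p (nat_lit 0xf00000000000000000000000000000000000000000000000000000000000000000000) (nat_lit 0x10000060001000000e00002000008000000000000000000000000000000000000000000000000000) (nat_lit 5)
theorem c22408 : QOK q22408 := cut [q15065] ⟨c15065, trivial⟩ (nd (nat_lit 294) (nat_lit 0) (cs (lf (nat_lit 11) (nat_lit 271)) (rf (nat_lit 0)))) q22408 (by decide +kernel)
def q22490 : Q := Q.p (nat_lit 0x4000070000000000000000000000000000000000000000000000000000) (nat_lit 0x8000062000088000700000400001000000000000000000000000000000000000) (nat_lit 6)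
theorem c22490 : QOK q22490 := cut [q15139] ⟨c15139, trivial⟩ (nd (nat_lit 211) (nat_lit 0) (cs (lf (nat_lit 11) (nat_lit 207)) (rf (nat_lit 0)))) q22490 (by decide +kernel)
def q22508 : Q := Q.p (nat_lit 0xc00003000000000010000000000000000000000000000000000000000000000000000) (nat_lit 0x700003000000c0000c000020000080000000000000000000000000000000000000000000000) (nat_lit 6)
theorem c22508 : QOK q22508 := cut [q22507] ⟨c22507, trivial⟩ (nd (nat_lit 230) (nat_lit 0) (cs (lf (nat_lit 29) (nat_lit 208)) (rf (nat_lit 0)))) q22508 (by decide +kernel)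
def q22533 : Q := Q.p (nat_lit 0xe00000800002000008000000000000000000000000000000000000000000000000000000000) (nat_lit 0xe40003180007000000000010000040000000000000000000000000000000000000000000000000000) (nat_lit 7)
theorem c22533 : QOK q22533 := cut [q22531] ⟨c22531, trivial⟩ (nd (nat_lit 210) (nat_lit 0) (cs (lf (nat_lit 34) (nat_lit 209)) (nd (nat_lit 296) (nat_lit 0) (cs (lf (nat_lit 41) (nat_lit 230)) (rf (nat_lit 0)))))) q22533 (by decide +kernel)
def q22547 : Q := Q.p (nat_lit 0x200001e000000000000000000000000000000000000000000000000000000000) (nat_lit 0x1e00001800007000000000000000000000000000000000000000000000000000) (nat_lit 5)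
theorem c22547 : QOK q22547 := cut [q22546] ⟨c22546, trivial⟩ (nd (nat_lit 250) (nat_lit 0) (cs (lf (nat_lit 10) (nat_lit 228)) (rf (nat_lit 0)))) q22547 (by decide +kernel)
def q22580 : Q := Q.p (nat_lit 0x200000800002000008000000000000000000000000000000000000000000000000000000000) (nat_lit 0x100000500001400001000000000060000180000400000000000000000000000000000000000000000) (nat_lit 6)
theorem c22580 : QOK q22580 := cut [q1593] ⟨c1593, trivial⟩ (nd (nat_lit 298) (nat_lit 0) (cs (lf (nat_lit 29) (nat_lit 231)) (nd (nat_lit 209) (nat_lit 0) (cs (lf (nat_lit 28) (nat_lit 209)) (rf (nat_lit 0)))))) q22580 (by decide +kernel)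
def q22622 : Q := Q.p (nat_lit 0x1c00002000000000010000000000000000000000000000000000000000000000000000) (nat_lit 0x100003c00006000039c0007b8001ec000738001000000000000000000000000000000000000000000) (nat_lit 14)
theorem c22622 : QOK q22622 := cut [q13254, q22188, q14255, q22155, q700] ⟨c13254, c22188, c14255, c22155, c700, trivial⟩ (nd (nat_lit 277) (nat_lit 0) (cs (rf (nat_lit 0)) (cs (rf (nat_lit 1)) (nd (nat_lit 255) (nat_lit 0) (cs (lf (nat_lit 17) (nat_lit 252)) (nd (nat_lit 233) (nat_lit 0) (cs (rf (nat_lit 2)) (cs (nd (nat_lit 251) (nat_lit 0) (cs (lf (nat_lit 22) (nat_lit 251)) (nd (nat_lit 211) (nat_lit 0) (cs (lf (nat_lit 41) (nat_lit 210)) (nd (nat_lit 190) (nat_lit 0) (cs (lf (nat_lit 34) (nat_lit 189)) (nd (nat_lit 168) (nat_lit 0) (cs (lf (nat_lit 33) (nat_lit 167)) (nd (nat_lit 210) (nat_lit 0) (cs (lf (nat_lit 47) (nat_lit 188)) (nd (nat_lit 209) (nat_lit 0) (cs (lf (nat_lit 5) (nat_lit 208)) (rf (nat_lit 3)))))))))))))) (nd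 (nat_lit 252) (nat_lit 0) (cs (rf (nat_lit 4)) (nd (nat_lit 299) (nat_lit 0) (cs (lf (nat_lit 5) (nat_lit 274)) (nd (nat_lit 234) (nat_lit 0) (cs (lf (nat_lit 35) (nat_lit 211)) (nd (nat_lit 232) (nat_lit 0) (cs (lf (nat_lit 9) (nat_lit 230)) (lf (nat_lit 47) (nat_lit 210)))))))))))))))))) q22622 (by decide +kernel)
def q22628 : Q := Q.p (nat_lit 0x38000000000000000000000000000000000000000000000000000) (nat_lit 0x738000c4000738000000000000000000000000000000000000000000000) (nat_lit 5)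
theorem c22628 : QOK q22628 := cut [q16145, q22627] ⟨c16145, c22627, trivial⟩ (nd (nat_lit 210) (nat_lit 0) (cs (rf (nat_lit 0)) (rf (nat_lit 1)))) q22628 (by decide +kernel)
def q22764 : Q := Q.p (nat_lit 0x58000000000000000000000000000000000000000000000000000000000000000000000000000000000000) (nat_lit 0xffc001a6000e1c000000000000000000000000000000000000000000000000000000000000000000000000000000) (nat_lit 7)
theorem c22764 : QOK q22764 := cut [q15588, q22744, q22752, q22758] ⟨c15588, c22744, c22752, c22758, trivial⟩ (nd (nat_lit 341) (nat_lit 0) (cs (rf (nat_lit 0)) (cs (rf (nat_lit 1)) (cs (rf (nat_lit 2)) (rf (nat_lit 3)))))) q22764 (by decide +kernel)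
def q22820 : Q := Q.p (nat_lit 0xf00000000000000000000000000000000000000000000000000000000000000000000) (nat_lit 0x18000060000380000e0000000000e0000380000e0000380000a0000000000000000000000000000000000000000) (nat_lit 10)
theorem c22820 : QOK q22820 := cut [q22805, q22817, q14434] ⟨c22805, c22817, c14434, trivial⟩ (nd (nat_lit 250) (nat_lit 0) (cs (lf (nat_lit 23) (nat_lit 249)) (nd (nat_lit 228) (nat_lit 0) (cs (rf (nat_lit 0)) (cs (nd (nat_lit 294) (nat_lit 0) (cs (lf (nat_lit 11) (nat_lit 271)) (nd (nat_lit 295) (nat_lit 0) (cs (lf (nat_lit 29) (nat_lit 228)) (nd (nat_lit 205) (nat_lit 0) (cs (lf (nat_lit 46) (nat_lit 205)) (nd (nat_lit 229) (nat_lit 0) (cs (lf (nat_lit 35) (nat_lit 206)) (nd (nat_lit 316) (nat_lit 0) (cs (nd (nat_lit 337) (nat_lit 0) (cs (lf (nat_lit 40) (nat_lit 249)) (nd (nat_lit 338) (nat_lit 0) (cs (lf (nat_lit 41) (nat_lit 271)) (lf (nat_lit 30) (nat_lit 272)))))) (lf (nat_lit 37) (nat_lit 228)))))))))))) (cs (rf (nat_lit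 1)) (nd (nat_lit 293) (nat_lit 0) (cs (lf (nat_lit 10) (nat_lit 271)) (rf (nat_lit 2)))))))))) q22820 (by decide +kernel)
def q22828 : Q := Q.p (nat_lit 0x1000038000000000000000000000000000000000000000000000000000) (nat_lit 0x720000c0000700000000000000000000000000000000000000000000000) (nat_lit 5)
theorem c22828 : QOK q22828 := cut [q22627] ⟨c22627, trivial⟩ (nd (nat_lit 210) (nat_lit 0) (cs (lf (nat_lit 10) (nat_lit 206)) (rf (nat_lit 0)))) q22828 (by decide +kernel)
def q22857 : Q := Q.p (nat_lit 0x100001c00000000000000000000000000000000000000000000000000000000000000000000) (nat_lit 0x3880006000038000000000000000000000000000000000000000000000000000000000000000) (nat_lit 5)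
theorem c22857 : QOK q22857 := cut [q13005] ⟨c13005, trivial⟩ (nd (nat_lit 277) (nat_lit 0) (cs (rf (nat_lit 0)) (lf (nat_lit 11) (nat_lit 273)))) q22857 (by decide +kernel)
def q22918 : Q := Q.p (nat_lit 0x200000c00002000000000000000000000000000000000000000000000000000000000000000) (nat_lit 0x100000c000070000180000500000000001000018000060000180000000000000000000000000000000000000000000000) (nat_lit 7)
theorem c22918 : QOK q22918 := cut [q15715, q22915, q22052] ⟨c15715, c22915, c22052, trivial⟩ (nd (nat_lit 320) (nat_lit 0) (cs (rf (nat_lit 0)) (cs (rf (nat_lit 1)) (nd (nat_lit 319) (nat_lit 0) (cs (lf (nat_lit 29) (nat_lit 253)) (nd (nat_lit 231) (nat_lit 0) (cs (lf (nat_lit 28) (nat_lit 231)) (rf (nat_lit 2))))))))) q22918 (by decide +kernel)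
def q22927 : Q := Q.p (nat_lit 0x80000200000800002000000000000000000000000000000000000000000000000000000000000000) (nat_lit 0x3d0000f60001dc0000000000000000000000000000000000000000000000000000000000000000000000000) (nat_lit 8)
theorem c22927 : QOK q22927 := cut [q11791, q11797, q11809, q22009] ⟨c11791, c11797, c11809, c22009, trivial⟩ (nd (nat_lit 320) (nat_lit 0) (cs (lf (nat_lit 29) (nat_lit 253)) (nd (nat_lit 321) (nat_lit 0) (cs (rf (nat_lit 0)) (cs (rf (nat_lit 1)) (cs (rf (nat_lit 2)) (rf (nat_lit 3)))))))) q22927 (by decide +kernel)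
def q22946 : Q := Q.p (nat_lit 0x140000d00002400001000010000000000000000000000000000000000000000000000000000) (nat_lit 0x800002000000000000007a0000ec000730000000000000000000000000000000000000000000000) (nat_lit 9)
theorem c22946 : QOK q22946 := cut [q22945] ⟨c22945, trivial⟩ (nd (nat_lit 209) (nat_lit 0) (cs (lf (nat_lit 37) (nat_lit 208)) (rf (nat_lit 0)))) q22946 (by decide +kernel)
def q23140 : Q := Q.p (nat_lit 0x140000d00000000000000000000000000000000000000000000000000000000000000000000) (nat_lit 0x80000200001980002a0000080001000000000000000000000000000000000000000000000000000000000000000) (nat_lit 6)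
theorem c23140 : QOK q23140 := cut [q15922] ⟨c15922, trivial⟩ (nd (nat_lit 295) (nat_lit 0) (cs (lf (nat_lit 12) (nat_lit 271)) (rf (nat_lit 0)))) q23140 (by decide +kernel)
def q23144 : Q := Q.p (nat_lit 0x100000c00002000000000000000000000000000000000000000000000000000000000000000) (nat_lit 0x20000080000300003e00002e0003200001c00002000000000000000000000000000000000000000000000000000000000) (nat_lit 6)
theorem c23144 : QOK q23144 := cut [q15957, q15972, q17064] ⟨c15957, c15972, c17064, trivial⟩ (nd (nat_lit 295) (nat_lit 0) (cs (rf (nat_lit 0)) (cs (rf (nat_lit 1)) (rf (nat_lit 2))))) q23144 (by decide +kernel)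
def q23164 : Q := Q.p (nat_lit 0x100000c00002000000000000000000000000000000000000000000000000000000000000000) (nat_lit 0x200000a0000780003f0000ee0003300001000000000000000000000000000000000000000000000000000000000000000) (nat_lit 8)
theorem c23164 : QOK q23164 := cut [q15957, q17064, q11761, q14833] ⟨c15957, c17064, c11761, c14833, trivial⟩ (nd (nat_lit 295) (nat_lit 0) (cs (rf (nat_lit 0)) (cs (rf (nat_lit 1)) (nd (nat_lit 317) (nat_lit 0) (cs (nd (nat_lit 318) (nat_lit 0) (cs (lf (nat_lit 30) (nat_lit 252)) (rf (nat_lit 2)))) (cs (nd (nat_lit 276) (nat_lit 0) (cs (lf (nat_lit 6) (nat_lit 273)) (nd (nat_lit 339) (nat_lit 0) (cs (lf (nat_lit 30) (nat_lit 273)) (nd (nat_lit 273) (nat_lit 0) (cs (lf (nat_lit 35) (nat_lit 251)) (nd (nat_lit 298) (nat_lit 0) (cs (lf (nat_lit 5) (nat_lit 273)) (nd (nat_lit 297) (nat_lit 0) (cs (lf (nat_lit 23) (nat_lit 272)) (lf (nat_lit 11) (nat_lit 294)))))))))))) (nd (nat_lit 298) (nat_lit 0) (cs (nd (nat_lit 318)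 (nat_lit 0) (cs (lf (nat_lit 30) (nat_lit 252)) (nd (nat_lit 297) (nat_lit 0) (cs (lf (nat_lit 11) (nat_lit 294)) (lf (nat_lit 6) (nat_lit 295)))))) (cs (nd (nat_lit 318) (nat_lit 0) (cs (lf (nat_lit 30) (nat_lit 252)) (nd (nat_lit 276) (nat_lit 0) (cs (lf (nat_lit 6) (nat_lit 273)) (nd (nat_lit 299) (nat_lit 0) (cs (lf (nat_lit 0) (nat_lit 273)) (nd (nat_lit 320) (nat_lit 0) (cs (lf (nat_lit 42) (nat_lit 253)) (lf (nat_lit 14) (nat_lit 295)))))))))) (nd (nat_lit 276) (nat_lit 0) (cs (lf (nat_lit 6) (nat_lit 273)) (rf (nat_lit 3))))))))))))) q23164 (by decide +kernel)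
def q23235 : Q := Q.p (nat_lit 0x200000c00002000000000000000000000000000000000000000000000000000000000000000) (nat_lit 0x200000c0003f00007e0001d00001300001000000000000000000000000000000000000000000000000000000000000000) (nat_lit 8)
theorem c23235 : QOK q23235 := cut [q15709, q13927, q22413, q14398, q21910] ⟨c15709, c13927, c22413, c14398, c21910, trivial⟩ (nd (nat_lit 319) (nat_lit 0) (cs (rf (nat_lit 0)) (cs (nd (nat_lit 318) (nat_lit 0) (cs (lf (nat_lit 41) (nat_lit 252)) (nd (nat_lit 299) (nat_lit 0) (cs (rf (nat_lit 1)) (cs (rf (nat_lit 2)) (nd (nat_lit 320) (nat_lit 0) (cs (lf (nat_lit 29) (nat_lit 253)) (rf (nat_lit 3))))))))) (nd (nat_lit 320) (nat_lit 0) (cs (lf (nat_lit 29) (nat_lit 253)) (nd (nat_lit 341) (nat_lit 0) (cs (lf (nat_lit 47) (nat_lit 252)) (nd (nat_lit 363) (nat_lit 0) (cs (lf (nat_lit 46) (nat_lit 274)) (rf (nat_lit 4))))))))))) q23235 (by decide +kernel)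
def q23277 : Q := Q.p (nat_lit 0x1c00000000000000000000000000000000000000000000000000000000000000000000) (nat_lit 0x3fe0006300038e00000000000000000000000000000000000000000000000000000000000000) (nat_lit 7)
theorem c23277 : QOK q23277 := cut [q22171, q22188, q23274] ⟨c22171, c22188, c23274, trivial⟩ (nd (nat_lit 277) (nat_lit 0) (cs (rf (nat_lit 0)) (cs (rf (nat_lit 1)) (nd (nat_lit 256) (nat_lit 0) (cs (lf (nat_lit 16) (nat_lit 252)) (nd (nat_lit 296) (nat_lit 0) (cs (lf (nat_lit 11) (nat_lit 273)) (rf (nat_lit 2))))))))) q23277 (by decide +kernel)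
def q23284 : Q := Q.p (nat_lit 0xe00000000000000000000000000000000000000000000000000000000000000000000) (nat_lit 0xef0001180000f00000000000000000000000000000000000000000000000000000000000000) (nat_lit 5)
theorem c23284 : QOK q23284 := cut [q12673, q12941, q23283] ⟨c12673, c12941, c23283, trivial⟩ (nd (nat_lit 272) (nat_lit 0) (cs (rf (nat_lit 0)) (cs (rf (nat_lit 1)) (rf (nat_lit 2))))) q23284 (by decide +kernel)
def q23289 : Q := Q.p (nat_lit 0xe00000000000000000000000000000000000000000000000000000000000000000000) (nat_lit 0xf70001180000f00000000000000000000000000000000000000000000000000000000000000) (nat_lit 5)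
theorem c23289 : QOK q23289 := cut [q1197, q12673, q12941] ⟨c1197, c12673, c12941, trivial⟩ (nd (nat_lit 272) (nat_lit 0) (cs (rf (nat_lit 0)) (cs (rf (nat_lit 1)) (rf (nat_lit 2))))) q23289 (by decide +kernel)
def q23401 : Q := Q.p (nat_lit 0x780000800000000000000000000000000000000000000000000000000000000000000000000) (nat_lit 0x67000380001d700000000000000000000000000000000000000000000000000000000000000000000) (nat_lit 8)
theorem c23401 : QOK q23401 := cut [q23400] ⟨c23400, trivial⟩ (nd (nat_lit 272) (nat_lit 0) (cs (lf (nat_lit 22) (nat_lit 272)) (rf (nat_lit 0)))) q23401 (by decide +kernel)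
def q23422 : Q := Q.p (nat_lit 0x80000380000800000000000000000000000000000000000000000000000000000000000000000000) (nat_lit 0x8000078000460000580000400001000000000000000000000000000000000000000000000000000000000) (nat_lit 6)
theorem c23422 : QOK q23422 := cut [q14503, q23421] ⟨c14503, c23421, trivial⟩ (nd (nat_lit 294) (nat_lit 0) (cs (rf (nat_lit 0)) (rf (nat_lit 1)))) q23422 (by decide +kernel)
def q23535 : Q := Q.p (nat_lit 0x800002400001000004000000000000000000000000000000000000000000000000000) (nat_lit 0x1680001a00002800000000010000040000000000000000000000000000000000000000) (nat_lit 5)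
theorem c23535 : QOK q23535 := cut [q15320, q23533, q23534] ⟨c15320, c23533, c23534, trivial⟩ (nd (nat_lit 251) (nat_lit 0) (cs (rf (nat_lit 0)) (cs (rf (nat_lit 1)) (rf (nat_lit 2))))) q23535 (by decide +kernel)
def q23564 : Q := Q.p (nat_lit 0x40000100001c000000000000000000000000000000000000000000000000000) (nat_lit 0x8000020000080000000003c0000e0000280000000000000000000000000000000000) (nat_lit 5)
theorem c23564 : QOK q23564 := cut [q3386, q3767, q14145, q23562] ⟨c3386, c3767, c14145, c23562, trivial⟩ (nd (nat_lit 184) (nat_lit 0) (cs (rf (nat_lit 0)) (cs (rf (nat_lit 1)) (cs (rf (nat_lit 2)) (nd (nat_lit 249) (nat_lit 0) (cs (lf (nat_lit 41) (nat_lit 183)) (rf (nat_lit 3)))))))) q23564 (by decide +kernel)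
def q23595 : Q := Q.p (nat_lit 0x3c00000000004000000000000000000000000000000000000000000000000000) (nat_lit 0x20000000001b8000000000300000c0000200000000000000000000000000000000000) (nat_lit 6)
theorem c23595 : QOK q23595 := cut [q23594] ⟨c23594, trivial⟩ (nd (nat_lit 231) (nat_lit 0) (cs (lf (nat_lit 17) (nat_lit 228)) (rf (nat_lit 0)))) q23595 (by decide +kernel)
def q23599 : Q := Q.p (nat_lit 0x240000100000c000000000000000000000000000000000000000000000000000) (nat_lit 0xa0000780001800000000000000020000000000000000000000000000000000000000000000) (nat_lit 5)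
theorem c23599 : QOK q23599 := cut [q23598] ⟨c23598, trivial⟩ (nd (nat_lit 272) (nat_lit 0) (cs (lf (nat_lit 35) (nat_lit 184)) (rf (nat_lit 0)))) q23599 (by decide +kernel)
def q23600 : Q := Q.p (nat_lit 0xc00001000004000000000000000000000000000000000000000000000000000) (nat_lit 0x280000200000800000000018000060000080000000000000000000000000000000000) (nat_lit 5)
theorem c23600 : QOK q23600 := cut [q14145] ⟨c14145, trivial⟩ (nd (nat_lit 184) (nat_lit 0) (cs (lf (nat_lit 29) (nat_lit 184)) (rf (nat_lit 0)))) q23600 (by decide +kernel)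
def q23605 : Q := Q.p (nat_lit 0x800002400001000004000000000000000000000000000000000000000000000000000) (nat_lit 0x1200001800002800000000018000060000080000000000000000000000000000000000) (nat_lit 5)
theorem c23605 : QOK q23605 := cut [q2513, q15320] ⟨c2513, c15320, trivial⟩ (nd (nat_lit 251) (nat_lit 0) (cs (rf (nat_lit 0)) (rf (nat_lit 1)))) q23605 (by decide +kernel)
def q23651 : Q := Q.p (nat_lit 0x80000240000000001c000000000000000000000000000000000000000000000000000) (nat_lit 0x100000e00017e0001b8000fe00000000020000000000000000000000000000000000000000000000) (nat_lit 11)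
theorem c23651 : QOK q23651 := cut [q23068, q23609, q17120, q23629, q23634, q23640, q23647, q23598] ⟨c23068, c23609, c17120, c23629, c23634, c23640, c23647, c23598, trivial⟩ (nd (nat_lit 272) (nat_lit 0) (cs (nd (nat_lit 251) (nat_lit 0) (cs (rf (nat_lit 0)) (rf (nat_lit 1)))) (cs (nd (nat_lit 185) (nat_lit 0) (cs (lf (nat_lit 32) (nat_lit 184)) (nd (nat_lit 251) (nat_lit 0) (cs (lf (nat_lit 38) (nat_lit 184)) (nd (nat_lit 252) (nat_lit 0) (cs (lf (nat_lit 5) (nat_lit 250)) (nd (nat_lit 274) (nat_lit 0) (cs (lf (nat_lit 44) (nat_lit 185)) (lf (nat_lit 0) (nat_lit 249)))))))))) (cs (nd (nat_lit 273) (nat_lit 0) (cs (nd (nat_lit 228) (nat_lit 0) (cs (lf (nat_lit 29) (nat_lit 206)) (rf (nat_lit 2)))) (cs (nd (nat_lit 228) (nat_lit 0) (cs (lf (nat_lit 29) (nat_lit 206)) (nd (nat_lit 229) (nat_lit 0) (cs (lf (nat_lit 30) (nat_lit 206)) (nd (nat_lit 226) (nat_lit 0) (cs (lf (nat_lit 13) (nat_lit 204)) (nd (nat_lit 274) (nat_lit 0) (cs (lf (nat_lit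 23) (nat_lit 249)) (nd (nat_lit 271) (nat_lit 0) (cs (lf (nat_lit 41) (nat_lit 205)) (lf (nat_lit 16) (nat_lit 249)))))))))))) (cs (nd (nat_lit 228) (nat_lit 0) (cs (lf (nat_lit 29) (nat_lit 206)) (nd (nat_lit 229) (nat_lit 0) (cs (lf (nat_lit 30) (nat_lit 206)) (nd (nat_lit 226) (nat_lit 0) (cs (lf (nat_lit 13) (nat_lit 204)) (nd (nat_lit 271) (nat_lit 0) (cs (lf (nat_lit 41) (nat_lit 205)) (nd (nat_lit 251) (nat_lit 0) (cs (lf (nat_lit 7) (nat_lit 249)) (nd (nat_lit 270) (nat_lit 0) (cs (lf (nat_lit 12) (nat_lit 247)) (nd (nat_lit 248) (nat_lit 0) (cs (lf (nat_lit 23) (nat_lit 247)) (nd (nat_lit 249) (nat_lit 0) (cs (lf (nat_lit 23) (nat_lit 225)) (lf (nat_lit 17) (nat_lit 226)))))))))))))))))) (cs (nd (nat_lit 274) (nat_lit 0) (cs (lf (nat_lit 23) (nat_lit 249)) (nd (nat_lit 251) (nat_lit 0) (cs (lf (nat_lit 18) (nat_lit 250)) (rf (nat_lit 3)))))) (nd (nat_lit 228) (nat_lit 0) (cs (lf (nat_lit 29) (nat_lit 206)) (nd (nat_lit 229) (nat_lit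 0) (cs (lf (nat_lit 30) (nat_lit 206)) (nd (nat_lit 226) (nat_lit 0) (cs (lf (nat_lit 13) (nat_lit 204)) (rf (nat_lit 4))))))))))))) (cs (nd (nat_lit 228) (nat_lit 0) (cs (lf (nat_lit 35) (nat_lit 184)) (nd (nat_lit 271) (nat_lit 0) (cs (lf (nat_lit 41) (nat_lit 205)) (nd (nat_lit 229) (nat_lit 0) (cs (lf (nat_lit 30) (nat_lit 206)) (nd (nat_lit 226) (nat_lit 0) (cs (lf (nat_lit 13) (nat_lit 204)) (rf (nat_lit 5)))))))))) (cs (nd (nat_lit 228) (nat_lit 0) (cs (lf (nat_lit 35) (nat_lit 184)) (nd (nat_lit 271) (nat_lit 0) (cs (lf (nat_lit 41) (nat_lit 205)) (rf (nat_lit 6)))))) (nd (nat_lit 228) (nat_lit 0) (cs (lf (nat_lit 35) (nat_lit 184)) (rf (nat_lit 7)))))))))) q23651 (by decide +kernel)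
def q23813 : Q := Q.p (nat_lit 0xf000000000000000000000000000000000000000000000000000) (nat_lit 0x700000c0003b800000000000000000000000000000000000000000000) (nat_lit 6)
theorem c23813 : QOK q23813 := cut [q23811] ⟨c23811, trivial⟩ (nd (nat_lit 225) (nat_lit 0) (cs (lf (nat_lit 10) (nat_lit 203)) (nd (nat_lit 203) (nat_lit 0) (cs (lf (nat_lit 11) (nat_lit 202)) (rf (nat_lit 0)))))) q23813 (by decide +kernel)
def q23825 : Q := Q.p (nat_lit 0x80000240000000001e000000000000000000000000000000000000000000000000000) (nat_lit 0x15c0001a0001d000000000030000080000200000000000000000000000000000000000) (nat_lit 6)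
theorem c23825 : QOK q23825 := cut [q2279, q907] ⟨c2279, c907, trivial⟩ (nd (nat_lit 252) (nat_lit 0) (cs (rf (nat_lit 0)) (cs (nd (nat_lit 230) (nat_lit 0) (cs (lf (nat_lit 5) (nat_lit 205)) (nd (nat_lit 185) (nat_lit 0) (cs (lf (nat_lit 42) (nat_lit 185)) (nd (nat_lit 228) (nat_lit 0) (cs (rf (nat_lit 1)) (lf (nat_lit 30) (nat_lit 184)))))))) (nd (nat_lit 251) (nat_lit 0) (cs (lf (nat_lit 5) (nat_lit 250)) (nd (nat_lit 231) (nat_lit 0) (cs (lf (nat_lit 17) (nat_lit 228)) (lf (nat_lit 4) (nat_lit 205))))))))) q23825 (by decide +kernel)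
def q23836 : Q := Q.p (nat_lit 0x40000000001e000008000000000000000000000000000000000000000000000) (nat_lit 0xd8000000000100000380007c0000700001400000000000000000000000) (nat_lit 8)
theorem c23836 : QOK q23836 := cut [q23835] ⟨c23835, trivial⟩ (nd (nat_lit 161) (nat_lit 0) (cs (nd (nat_lit 228) (nat_lit 0) (cs (lf (nat_lit 24) (nat_lit 139)) (lf (nat_lit 45) (nat_lit 161)))) (cs (nd (nat_lit 228) (nat_lit 0) (cs (lf (nat_lit 45) (nat_lit 161)) (lf (nat_lit 27) (nat_lit 161)))) (cs (nd (nat_lit 228) (nat_lit 0) (cs (lf (nat_lit 24) (nat_lit 139)) (lf (nat_lit 27) (nat_lit 161)))) (rf (nat_lit 0)))))) q23836 (by decide +kernel)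
def q23905 : Q := Q.p (nat_lit 0x200000000001c000000000000000000000000000000000000000000000000000) (nat_lit 0xb00007c000170000fe0000300002e0000700001c0000700001400000000000000000000000) (nat_lit 15)
theorem c23905 : QOK q23905 := cut [q18354, q23522, q23523, q8660, q23897, q23902] ⟨c18354, c23522, c23523, c8660, c23897, c23902, trivial⟩ (nd (nat_lit 205) (nat_lit 0) (cs (rf (nat_lit 0)) (cs (rf (nat_lit 1)) (cs (rf (nat_lit 2)) (nd (nat_lit 183) (nat_lit 0) (cs (lf (nat_lit 23) (nat_lit 182)) (nd (nat_lit 161) (nat_lit 0) (cs (rf (nat_lit 3)) (cs (nd (nat_lit 227) (nat_lit 0) (cs (lf (nat_lit 11) (nat_lit 204)) (nd (nat_lit 230) (nat_lit 0) (cs (lf (nat_lit 5) (nat_lit 205)) (nd (nat_lit 138) (nat_lit 0) (cs (lf (nat_lit 46) (nat_lit 138)) (nd (nat_lit 140) (nat_lit 0) (cs (lf (nat_lit 34) (nat_lit 139)) (nd (nat_lit 139) (nat_lit 0) (cs (lf (nat_lit 47) (nat_lit 116)) (lf (nat_lit 35) (nat_lit 117)))))))))))) (cs (nd (nat_lit 230) (nat_lit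 0) (cs (lf (nat_lit 5) (nat_lit 205)) (nd (nat_lit 227) (nat_lit 0) (cs (lf (nat_lit 11) (nat_lit 204)) (nd (nat_lit 140) (nat_lit 0) (cs (lf (nat_lit 34) (nat_lit 139)) (nd (nat_lit 138) (nat_lit 0) (cs (lf (nat_lit 46) (nat_lit 138)) (rf (nat_lit 4)))))))))) (rf (nat_lit 5)))))))))))) q23905 (by decide +kernel)
def q23910 : Q := Q.p (nat_lit 0x100000c000018000040000000000000000000000000000000000000000) (nat_lit 0x8000020000000000200003a0000e80000000000000000000000000000000000) (nat_lit 6)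
theorem c23910 : QOK q23910 := cut [q23909] ⟨c23909, trivial⟩ (nd (nat_lit 161) (nat_lit 0) (cs (lf (nat_lit 47) (nat_lit 139)) (rf (nat_lit 0)))) q23910 (by decide +kernel)
def q23940 : Q := Q.p (nat_lit 0x80000200000000000c000010000040000000000000000000000000000000000000000) (nat_lit 0x17c0001e00003000000000028000020000080000000000000000000000000000000000) (nat_lit 6)
theorem c23940 : QOK q23940 := cut [q2419, q15215, q2511, q23939] ⟨c2419, c15215, c2511, c23939, trivial⟩ (nd (nat_lit 251) (nat_lit 0) (cs (rf (nat_lit 0)) (cs (nd (nat_lit 250) (nat_lit 0) (cs (rf (nat_lit 1)) (nd (nat_lit 228) (nat_lit 0) (cs (lf (nat_lit 29) (nat_lit 184)) (rf (nat_lit 2)))))) (rf (nat_lit 3))))) q23940 (by decide +kernel)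
def q23941 : Q := Q.p (nat_lit 0x1c000010000040000000000000000000000000000000000000000) (nat_lit 0x50000000000200000a0001f80001e00002800000000000000000000000) (nat_lit 8)
theorem c23941 : QOK q23941 := cut [q863, q2497, q6634, q18104] ⟨c863, c2497, c6634, c18104, trivial⟩ (nd (nat_lit 140) (nat_lit 0) (cs (rf (nat_lit 0)) (cs (rf (nat_lit 1)) (cs (rf (nat_lit 2)) (rf (nat_lit 3)))))) q23941 (by decide +kernel)
def q23944 : Q := Q.p (nat_lit 0x800002000001000004000010000040000000000000000000000000000000000000000) (nat_lit 0x1680001e00002000000000000000000000000000000000000000000000000000000000) (nat_lit 5)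
theorem c23944 : QOK q23944 := cut [q15396] ⟨c15396, trivial⟩ (nd (nat_lit 251) (nat_lit 0) (cs (lf (nat_lit 28) (nat_lit 162)) (rf (nat_lit 0)))) q23944 (by decide +kernel)
def q23956 : Q := Q.p (nat_lit 0x80000280000000001c000010000000000000000000000000000000000000000000000) (nat_lit 0x17c000170001e000003000000000000000000000000000000000000000000000000000) (nat_lit 6)
theorem c23956 : QOK q23956 := cut [q23544, q15267, q1079, q3762] ⟨c23544, c15267, c1079, c3762, trivial⟩ (nd (nat_lit 250) (nat_lit 0) (cs (rf (nat_lit 0)) (cs (nd (nat_lit 273) (nat_lit 0) (cs (lf (nat_lit 44) (nat_lit 184)) (rf (nat_lit 1)))) (cs (nd (nat_lit 249) (nat_lit 0) (cs (nd (nat_lit 229) (nat_lit 0) (cs (lf (nat_lit 42) (nat_lit 184)) (nd (nat_lit 230) (nat_lit 0) (cs (lf (nat_lit 12) (nat_lit 226)) (rf (nat_lit 2)))))) (nd (nat_lit 252) (nat_lit 0) (cs (lf (nat_lit 4) (nat_lit 249)) (rf (nat_lit 3)))))) (nd (nat_lit 276) (nat_lit 0) (cs (lf (nat_lit 2) (nat_lit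 250)) (nd (nat_lit 273) (nat_lit 0) (cs (lf (nat_lit 44) (nat_lit 184)) (lf (nat_lit 20) (nat_lit 250)))))))))) q23956 (by decide +kernel)
def q24058 : Q := Q.p (nat_lit 0xc000010000040000000000000000000000000000000000000000) (nat_lit 0x40000100000200000e0001a00003e0000e0000380000a000000000000000000) (nat_lit 9)
theorem c24058 : QOK q24058 := cut [q24037, q24043, q24047, q24054, q24057] ⟨c24037, c24043, c24047, c24054, c24057, trivial⟩ (nd (nat_lit 140) (nat_lit 0) (cs (rf (nat_lit 0)) (cs (rf (nat_lit 1)) (cs (rf (nat_lit 2)) (cs (rf (nat_lit 3)) (rf (nat_lit 4))))))) q24058 (by decide +kernel)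
def q24117 : Q := Q.p (nat_lit 0xc000010000040000000000000000000000000000000000000000) (nat_lit 0x10000000000200001800003e0000e00002800000000000000000000000) (nat_lit 6)
theorem c24117 : QOK q24117 := cut [q863, q18104, q24057] ⟨c863, c18104, c24057, trivial⟩ (nd (nat_lit 140) (nat_lit 0) (cs (rf (nat_lit 0)) (cs (rf (nat_lit 1)) (rf (nat_lit 2))))) q24117 (by decide +kernel)
def q24199 : Q := Q.p (nat_lit 0x80000200000000001c000030000080000000000000000000000000000000000000000) (nat_lit 0x17c0001e0000e00000380000e000100000400000000000000000000000000000000000) (nat_lit 7)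
theorem c24199 : QOK q24199 := cut [q2098, q1999, q24198] ⟨c2098, c1999, c24198, trivial⟩ (nd (nat_lit 252) (nat_lit 0) (cs (nd (nat_lit 230) (nat_lit 0) (cs (lf (nat_lit 42) (nat_lit 185)) (lf (nat_lit 27) (nat_lit 163)))) (cs (nd (nat_lit 182) (nat_lit 0) (cs (lf (nat_lit 1) (nat_lit 182)) (nd (nat_lit 229) (nat_lit 0) (cs (lf (nat_lit 28) (nat_lit 163)) (nd (nat_lit 142) (nat_lit 0) (cs (lf (nat_lit 34) (nat_lit 141)) (nd (nat_lit 251) (nat_lit 0) (cs (lf (nat_lit 42) (nat_lit 184)) (rf (nat_lit 0)))))))))) (cs (nd (nat_lit 251) (nat_lit 0) (cs (rf (nat_lit 1)) (cs (nd (nat_lit 182) (nat_lit 0) (cs (lf (nat_lit 1) (nat_lit 182)) (nd (nat_lit 250) (nat_lit 0) (cs (lf (nat_lit 5) (nat_lit 250)) (nd (nat_lit 229) (nat_lit 0) (cs (lf (nat_lit 42) (nat_lit 184)) (lf (nat_lit 41) (nat_lit 184)))))))) (nd (nat_lit 229) (nat_lit 0) (cs (lf (nat_lit 29) (nat_lit 185)) (lf (nat_lit 42) (nat_lit 184))))))) (rf (nat_lit 2)))))) q24199 (by decide +kernel)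
def q24305 : Q := Q.p (nat_lit 0x80000200000000001c000030000000000000000000000000000000000000000000000) (nat_lit 0x1700001c0000260000380000e0007f8001fe0001f80000800000000000000000000000) (nat_lit 14)
theorem c24305 : QOK q24305 := cut [q24204, q24269, q24086, q24055, q24137, q24295, q12330] ⟨c24204, c24269, c24086, c24055, c24137, c24295, c12330, trivial⟩ (nd (nat_lit 163) (nat_lit 0) (cs (rf (nat_lit 0)) (cs (rf (nat_lit 1)) (cs (nd (nat_lit 162) (nat_lit 0) (cs (rf (nat_lit 2)) (nd (nat_lit 229) (nat_lit 0) (cs (lf (nat_lit 42) (nat_lit 162)) (lf (nat_lit 24) (nat_lit 140)))))) (cs (nd (nat_lit 182) (nat_lit 0) (cs (lf (nat_lit 1) (nat_lit 182)) (nd (nat_lit 141) (nat_lit 0) (cs (lf (nat_lit 36) (nat_lit 118)) (nd (nat_lit 120) (nat_lit 0) (cs (lf (nat_lit 34) (nat_lit 119)) (nd (nat_lit 140) (nat_lit 0) (cs (lf (nat_lit 47) (nat_lit 118)) (nd (nat_lit 162) (nat_lit 0) (cs (lf (nat_lit 42) (nat_lit 140)) (nd (nat_lit 139) (nat_lit 0) (cs (lf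 (nat_lit 47) (nat_lit 117)) (nd (nat_lit 138) (nat_lit 0) (cs (lf (nat_lit 0) (nat_lit 137)) (nd (nat_lit 115) (nat_lit 0) (cs (lf (nat_lit 22) (nat_lit 115)) (nd (nat_lit 160) (nat_lit 0) (cs (lf (nat_lit 11) (nat_lit 137)) (nd (nat_lit 161) (nat_lit 0) (cs (lf (nat_lit 11) (nat_lit 159)) (nd (nat_lit 204) (nat_lit 0) (cs (lf (nat_lit 30) (nat_lit 138)) (nd (nat_lit 203) (nat_lit 0) (cs (lf (nat_lit 14) (nat_lit 181)) (lf (nat_lit 41) (nat_lit 137)))))))))))))))))))))))))) (cs (nd (nat_lit 182) (nat_lit 0) (cs (lf (nat_lit 1) (nat_lit 182)) (nd (nat_lit 141) (nat_lit 0) (cs (lf (nat_lit 36) (nat_lit 118)) (nd (nat_lit 140) (nat_lit 0) (cs (lf (nat_lit 47) (nat_lit 118)) (nd (nat_lit 162) (nat_lit 0) (cs (lf (nat_lit 42) (nat_lit 140)) (rf (nat_lit 3)))))))))) (nd (nat_lit 162) (nat_lit 0) (cs (rf (nat_lit 2)) (cs (nd (nat_lit 141) (nat_lit 0) (cs (lf (nat_lit 36) (nat_lit 118)) (nd (nat_lit 182) (nat_lit 0) (cs (lf (nat_lit 1) (nat_lit 182))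 (nd (nat_lit 120) (nat_lit 0) (cs (lf (nat_lit 34) (nat_lit 119)) (nd (nat_lit 140) (nat_lit 0) (cs (lf (nat_lit 47) (nat_lit 118)) (rf (nat_lit 3)))))))))) (cs (nd (nat_lit 141) (nat_lit 0) (cs (lf (nat_lit 36) (nat_lit 118)) (nd (nat_lit 140) (nat_lit 0) (cs (lf (nat_lit 24) (nat_lit 118)) (rf (nat_lit 4)))))) (cs (nd (nat_lit 118) (nat_lit 0) (cs (lf (nat_lit 25) (nat_lit 118)) (nd (nat_lit 182) (nat_lit 0) (cs (lf (nat_lit 1) (nat_lit 182)) (rf (nat_lit 5)))))) (nd (nat_lit 119) (nat_lit 0) (cs (nd (nat_lit 182) (nat_lit 0) (cs (lf (nat_lit 1) (nat_lit 182)) (nd (nat_lit 140) (nat_lit 0) (cs (lf (nat_lit 24) (nat_lit 118)) (nd (nat_lit 139) (nat_lit 0) (cs (lf (nat_lit 47) (nat_lit 117)) (nd (nat_lit 164) (nat_lit 0) (cs (lf (nat_lit 18) (nat_lit 139)) (rf (nat_lit 6)))))))))) (lf (nat_lit 37) (nat_lit 118))))))))))))))) q24305 (by decide +kernel)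
def q24309 : Q := Q.p (nat_lit 0x80000280000000000c000010000000000000000000000000000000000000000000000) (nat_lit 0x170000160001d000000000020000080000000000000000000000000000000000000000) (nat_lit 5)
theorem c24309 : QOK q24309 := cut [q23551, q23924] ⟨c23551, c23924, trivial⟩ (nd (nat_lit 250) (nat_lit 0) (cs (rf (nat_lit 0)) (nd (nat_lit 228) (nat_lit 0) (cs (lf (nat_lit 29) (nat_lit 184)) (rf (nat_lit 1)))))) q24309 (by decide +kernel)
def q24431 : Q := Q.p (nat_lit 0x1e000000000000000000000000000000000000000000000000000) (nat_lit 0xe700001800007000000000000000000000000000000000000000000000) (nat_lit 6)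
theorem c24431 : QOK q24431 := cut [q4170] ⟨c4170, trivial⟩ (nd (nat_lit 230) (nat_lit 0) (cs (lf (nat_lit 5) (nat_lit 205)) (rf (nat_lit 0)))) q24431 (by decide +kernel)
def q24463 : Q := Q.p (nat_lit 0x200000000001e000000000000000000000000000000000000000000000000000) (nat_lit 0x1c0000fc0000000003c0000fc0007c0000700001400000000000000000000000) (nat_lit 12)
theorem c24463 : QOK q24463 := cut [q8660, q23835, q23902, q24393] ⟨c8660, c23835, c23902, c24393, trivial⟩ (nd (nat_lit 183) (nat_lit 0) (cs (lf (nat_lit 23) (nat_lit 182)) (nd (nat_lit 161) (nat_lit 0) (cs (rf (nat_lit 0)) (cs (rf (nat_lit 1)) (cs (rf (nat_lit 2)) (nd (nat_lit 230) (nat_lit 0) (cs (lf (nat_lit 5) (nat_lit 205)) (nd (nat_lit 227) (nat_lit 0) (cs (lf (nat_lit 11) (nat_lit 204)) (rf (nat_lit 3)))))))))))) q24463 (by decide +kernel)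
def q24468 : Q := Q.p (nat_lit 0x1e000000000000000000000000000000000000000000000000000) (nat_lit 0x180000600001c0000000001c0000700001c0000500000000000000000000000000000) (nat_lit 8)
theorem c24468 : QOK q24468 := cut [q3425, q23526, q3436] ⟨c3425, c23526, c3436, trivial⟩ (nd (nat_lit 183) (nat_lit 0) (cs (lf (nat_lit 23) (nat_lit 182)) (nd (nat_lit 250) (nat_lit 0) (cs (rf (nat_lit 0)) (cs (rf (nat_lit 1)) (nd (nat_lit 227) (nat_lit 0) (cs (lf (nat_lit 11) (nat_lit 204)) (rf (nat_lit 2))))))))) q24468 (by decide +kernel)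
def q24525 : Q := Q.p (nat_lit 0xc00002000000000038000000000000000000000000000000000000000000000000000) (nat_lit 0x400003000001e0000e0000000000a0000000000000000000000000000000000000000000000) (nat_lit 5)
theorem c24525 : QOK q24525 := cut [q11501, q22283, q24524] ⟨c11501, c22283, c24524, trivial⟩ (nd (nat_lit 252) (nat_lit 0) (cs (rf (nat_lit 0)) (cs (rf (nat_lit 1)) (rf (nat_lit 2))))) q24525 (by decide +kernel)

end Crest.Agent.H3.Snaky.CR
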