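import Crest.Agent.H3.Snaky.Cert
import Crest.Agent.H3.Snaky.CR.CR0
import Crest.Agent.H3.Snaky.CR.CR1
import Crest.Agent.H3.Snaky.CR.CR2
import Crest.Agent.H3.Snaky.CR.CR3
import Crest.Agent.H3.Snaky.CR.CR4
import Crest.Agent.H3.Snaky.CR.CR5
import Crest.Agent.H3.Snaky.CR.CR6
import Crest.Agent.H3.Snaky.CR.CR7
import Crest.Agent.H3.Snaky.CR.CR8
import Crest.Agent.H3.Snaky.CR.CR9
import Crest.Agent.H3.Snaky.CR.CR20
import Crest.Agent.H3.Snaky.CR.CR21
import Crest.Agent.H3.Snaky.CR.CR22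
import Crest.Agent.H3.Snaky.CR.CR23
import Crest.Agent.H3.Snaky.CR.CR24
import Crest.Agent.H3.Snaky.CR.CR25
import Crest.Agent.H3.Snaky.CR.CR26
import Crest.Agent.H3.Snaky.CR.CR27
import Crest.Agent.H3.Snaky.CR.CR39
import Crest.Agent.H3.Snaky.CR.CR40
import Crest.Agent.H3.Snaky.CR.CR41
import Crest.Agent.H3.Snaky.CR.CR42
import Crest.Agent.H3.Snaky.CR.CR43
import Crest.Agent.H3.Snaky.CR.CR44

set_option autoImplicit false
set_option maxRecDepth 100000

namespace Crest.Agent.H3.Snaky.CR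

open T

def q24555 : Q := Q.p (nat_lit 0x800002000000000038000000000000000000000000000000000000000000000000000) (nat_lit 0x1500001c000770000c00007300001c0000700001c00005000000000000000000000000) (nat_lit 12)
theorem c24555 : QOK q24555 := cut [q22627, q24538, q1621, q24540, q1749, q5380, q4284] ⟨c22627, c24538, c1621, c24540, c1749, c5380, c4284, trivial⟩ (nd (nat_lit 210) (nat_lit 0) (cs (rf (nat_lit 0)) (cs (nd (nat_lit 184) (nat_lit 0) (cs (lf (nat_lit 22) (nat_lit 184)) (rf (nat_lit 1)))) (cs (nd (nat_lit 185) (nat_lit 0) (cs (lf (nat_lit 23) (nat_lit 184)) (nd (nat_lit 163) (nat_lit 0) (cs (rf (nat_lit 2)) (cs (nd (nat_lit 229) (nat_lit 0) (cs (lf (nat_lit 11) (nat_lit 206)) (nd (nat_lit 188) (nat_lit 0) (cs (lf (nat_lit 17) (nat_lit 185)) (nd (nat_lit 140) (nat_lit 0) (cs (lf (nat_lit 46) (nat_lit 140)) (nd (nat_lit 142) (nat_lit 0) (cs (lf (nat_lit 34) (nat_lit 141)) (nd (nat_lit 232) (nat_lit 0) (cs (lf (nat_lit 5)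 (nat_lit 207)) (nd (nat_lit 252) (nat_lit 0) (cs (lf (nat_lit 28) (nat_lit 163)) (rf (nat_lit 3)))))))))))))) (cs (nd (nat_lit 229) (nat_lit 0) (cs (lf (nat_lit 11) (nat_lit 206)) (nd (nat_lit 188) (nat_lit 0) (cs (lf (nat_lit 17) (nat_lit 185)) (rf (nat_lit 4)))))) (nd (nat_lit 229) (nat_lit 0) (cs (lf (nat_lit 11) (nat_lit 206)) (rf (nat_lit 5)))))))))) (nd (nat_lit 189) (nat_lit 0) (cs (lf (nat_lit 16) (nat_lit 185)) (nd (nat_lit 184) (nat_lit 0) (cs (lf (nat_lit 22) (nat_lit 184)) (nd (nat_lit 211) (nat_lit 0) (cs (lf (nat_lit 17) (nat_lit 186)) (rf (nat_lit 6)))))))))))) q24555 (by decide +kernel)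
def q24562 : Q := Q.p (nat_lit 0x800002000000000038000000000000000000000000000000000000000000000000000) (nat_lit 0x7f0000c0000300000000000000000000000000000000000000000000000) (nat_lit 5)
theorem c24562 : QOK q24562 := cut [q1017, q24538] ⟨c1017, c24538, trivial⟩ (nd (nat_lit 210) (nat_lit 0) (cs (rf (nat_lit 0)) (rf (nat_lit 1)))) q24562 (by decide +kernel)
def q24654 : Q := Q.p (nat_lit 0x800002400001000004000000000000000000000000000000000000000000000000000) (nat_lit 0xa0001780001a00000000000000010000000000000000000000000000000000000000000000) (nat_lit 5)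
theorem c24654 : QOK q24654 := cut [q23734, q23737, q23741, q23742] ⟨c23734, c23737, c23741, c23742, trivial⟩ (nd (nat_lit 273) (nat_lit 0) (cs (rf (nat_lit 0)) (cs (rf (nat_lit 1)) (cs (rf (nat_lit 2)) (rf (nat_lit 3)))))) q24654 (by decide +kernel)
def q24671 : Q := Q.p (nat_lit 0x1c000000000000000000000000000000000000000000000000000) (nat_lit 0x80000600001e000630003be000060000180000000000000000000000000000000000) (nat_lit 8)
theorem c24671 : QOK q24671 := cut [q3282, q22368, q24666, q15313, q23759, q24668] ⟨c3282, c22368, c24666, c15313, c23759, c24668, trivial⟩ (nd (nat_lit 227) (nat_lit 0) (cs (rf (nat_lit 0)) (cs (nd (nat_lit 209) (nat_lit 0) (cs (lf (nat_lit 10) (nat_lit 205)) (rf (nat_lit 1)))) (cs (rf (nat_lit 2)) (nd (nat_lit 205) (nat_lit 0) (cs (lf (nat_lit 11) (nat_lit 204)) (nd (nat_lit 249) (nat_lit 0) (cs (rf (nat_lit 3)) (cs (rf (nat_lit 4)) (rf (nat_lit 5))))))))))) q24671 (by decide +kernel)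
def q24691 : Q := Q.p (nat_lit 0x800002000000000038000000000000000000000000000000000000000000000000000) (nat_lit 0x7e0001c4000fb8000000000000000000000000000000000000000000000) (nat_lit 9)
theorem c24691 : QOK q24691 := cut [q22087, q22627, q2453] ⟨c22087, c22627, c2453, trivial⟩ (nd (nat_lit 210) (nat_lit 0) (cs (rf (nat_lit 0)) (cs (rf (nat_lit 1)) (cs (nd (nat_lit 184) (nat_lit 0) (cs (lf (nat_lit 22) (nat_lit 184)) (nd (nat_lit 183) (nat_lit 0) (cs (lf (nat_lit 21) (nat_lit 183)) (nd (nat_lit 233) (nat_lit 0) (cs (lf (nat_lit 4) (nat_lit 207)) (nd (nat_lit 211) (nat_lit 0) (cs (lf (nat_lit 5) (nat_lit 208)) (nd (nat_lit 230) (nat_lit 0) (cs (lf (nat_lit 11) (nat_lit 207)) (nd (nat_lit 212) (nat_lit 0) (cs (lf (nat_lit 10) (nat_lit 208)) (rf (nat_lit 2)))))))))))))) (nd (nat_lit 232) (nat_lit 0) (cs (lf (nat_lit 5) (nat_lit 207)) (nd (nat_lit 231) (nat_lit 0) (cs (lf (nat_lit 0) (nat_lit 206)) (lf (nat_lit 35) (nat_lit 187))))))))))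 q24691 (by decide +kernel)
def q24706 : Q := Q.p (nat_lit 0xc00002000000000038000000000000000000000000000000000000000000000000000) (nat_lit 0x10000000000000001c00000600001c000000000000000000000000000000000000000000000) (nat_lit 5)
theorem c24706 : QOK q24706 := cut [q2935] ⟨c2935, trivial⟩ (nd (nat_lit 231) (nat_lit 0) (cs (lf (nat_lit 41) (nat_lit 208)) (rf (nat_lit 0)))) q24706 (by decide +kernel)
def q24752 : Q := Q.p (nat_lit 0x1c00003000000000038000000000000000000000000000000000000000000000000000) (nat_lit 0xc0000200004400003c000000000000000000000000000000000000000000000) (nat_lit 5)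
theorem c24752 : QOK q24752 := cut [q2025] ⟨c2025, trivial⟩ (nd (nat_lit 251) (nat_lit 0) (cs (lf (nat_lit 0) (nat_lit 250)) (rf (nat_lit 0)))) q24752 (by decide +kernel)
def q24755 : Q := Q.p (nat_lit 0x40000100000c00003000000000000000000000000000000000000000000000000000000000000000) (nat_lit 0x280000a0000000001000000e00002000000000000000000000000000000000000000000000000000000000) (nat_lit 5)
theorem c24755 : QOK q24755 := cut [q13231] ⟨c13231, trivial⟩ (nd (nat_lit 319) (nat_lit 0) (cs (lf (nat_lit 29) (nat_lit 252)) (rf (nat_lit 0)))) q24755 (by decide +kernel)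
def q24804 : Q := Q.p (nat_lit 0x2c00002000000000000000000000000000000000000000000000000000000000000000) (nat_lit 0x1ce0005380001e00000000000000000000000000000000000000000000000000000000000000) (nat_lit 7)
theorem c24804 : QOK q24804 := cut [q13254, q22171, q22177] ⟨c13254, c22171, c22177, trivial⟩ (nd (nat_lit 276) (nat_lit 0) (cs (rf (nat_lit 0)) (cs (rf (nat_lit 1)) (rf (nat_lit 2))))) q24804 (by decide +kernel)
def q24954 : Q := Q.p (nat_lit 0xe000018000000000000000000000000000000000000000000000) (nat_lit 0x2000028000000000200000fc000ff0000f00000000000000000000000000000) (nat_lit 8)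
theorem c24954 : QOK q24954 := cut [q24937, q24943, q24947, q24388] ⟨c24937, c24943, c24947, c24388, trivial⟩ (nd (nat_lit 161) (nat_lit 0) (cs (rf (nat_lit 0)) (cs (rf (nat_lit 1)) (cs (nd (nat_lit 139) (nat_lit 0) (cs (lf (nat_lit 24) (nat_lit 117)) (rf (nat_lit 2)))) (cs (nd (nat_lit 162) (nat_lit 0) (cs (nd (nat_lit 227) (nat_lit 0) (cs (lf (nat_lit 30) (nat_lit 161)) (rf (nat_lit 3)))) (nd (nat_lit 140) (nat_lit 0) (cs (lf (nat_lit 29) (nat_lit 140)) (lf (nat_lit 36) (nat_lit 117)))))) (nd (nat_lit 139) (nat_lit 0) (cs (lf (nat_lit 24) (nat_lit 117)) (nd (nat_lit 140) (nat_lit 0) (cs (lf (nat_lit 35) (nat_lit 117)) (nd (nat_lit 162) (nat_lit 0) (cs (lf (nat_lit 29) (nat_lit 140)) (lf (nat_lit 30) (nat_lit 139))))))))))))) q24954 (by decide +kernel)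
def q24996 : Q := Q.p (nat_lit 0x80000200000000001c000000000000000000000000000000000000000000000000000) (nat_lit 0x1c00017c0001e00077f800e3c003af8000a0000280000000000000000000000000000000000) (nat_lit 13)
theorem c24996 : QOK q24996 := cut [q3341, q3353, q3463, q18354, q20386, q6837, q3969, q24961, q3343, q5492, q1496, q15215, q24978] ⟨c3341, c3353, c3463, c18354, c20386, c6837, c3969, c24961, c3343, c5492, c1496, c15215, c24978, trivial⟩ (nd (nat_lit 205) (nat_lit 0) (cs (rf (nat_lit 0)) (cs (rf (nat_lit 1)) (cs (rf (nat_lit 2)) (cs (rf (nat_lit 3)) (cs (rf (nat_lit 4)) (nd (nat_lit 229) (nat_lit 0) (cs (rf (nat_lit 5)) (cs (nd (nat_lit 204) (nat_lit 0) (cs (lf (nat_lit 5) (nat_lit 204)) (rf (nat_lit 6)))) (cs (nd (nat_lit 227) (nat_lit 0) (cs (lf (nat_lit 11) (nat_lit 204)) (rf (nat_lit 7)))) (nd (nat_lit 228) (nat_lit 0) (cs (rf (nat_lit 8)) (cs (nd (nat_lit 204) (nat_lit 0) (cs (lf (nat_lit 0) (nat_lit 203)) (nd (nat_lit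 251) (nat_lit 0) (cs (nd (nat_lit 225) (nat_lit 0) (cs (lf (nat_lit 10) (nat_lit 203)) (nd (nat_lit 273) (nat_lit 0) (cs (lf (nat_lit 42) (nat_lit 206)) (nd (nat_lit 272) (nat_lit 0) (cs (lf (nat_lit 41) (nat_lit 206)) (nd (nat_lit 250) (nat_lit 0) (cs (lf (nat_lit 36) (nat_lit 184)) (lf (nat_lit 47) (nat_lit 183)))))))))) (cs (nd (nat_lit 209) (nat_lit 0) (cs (lf (nat_lit 6) (nat_lit 206)) (nd (nat_lit 187) (nat_lit 0) (cs (lf (nat_lit 17) (nat_lit 184)) (nd (nat_lit 225) (nat_lit 0) (cs (lf (nat_lit 10) (nat_lit 203)) (nd (nat_lit 273) (nat_lit 0) (cs (lf (nat_lit 42) (nat_lit 206)) (rf (nat_lit 9)))))))))) (cs (nd (nat_lit 209) (nat_lit 0) (cs (lf (nat_lit 6) (nat_lit 206)) (nd (nat_lit 187) (nat_lit 0) (cs (lf (nat_lit 17) (nat_lit 184)) (nd (nat_lit 225) (nat_lit 0) (cs (lf (nat_lit 10) (nat_lit 203)) (nd (nat_lit 273) (nat_lit 0) (cs (lf (nat_lit 42) (nat_lit 206)) (nd (nat_lit 274) (nat_lit 0) (cs (lf (nat_lit 29) (nat_lit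 207)) (nd (nat_lit 185) (nat_lit 0) (cs (lf (nat_lit 28) (nat_lit 185)) (nd (nat_lit 250) (nat_lit 0) (cs (lf (nat_lit 18) (nat_lit 250)) (lf (nat_lit 36) (nat_lit 162)))))))))))))))) (cs (nd (nat_lit 250) (nat_lit 0) (cs (rf (nat_lit 10)) (cs (rf (nat_lit 11)) (nd (nat_lit 209) (nat_lit 0) (cs (lf (nat_lit 6) (nat_lit 206)) (nd (nat_lit 187) (nat_lit 0) (cs (lf (nat_lit 17) (nat_lit 184)) (nd (nat_lit 252) (nat_lit 0) (cs (lf (nat_lit 5) (nat_lit 250)) (rf (nat_lit 12))))))))))) (nd (nat_lit 209) (nat_lit 0) (cs (lf (nat_lit 6) (nat_lit 206)) (nd (nat_lit 187) (nat_lit 0) (cs (lf (nat_lit 17) (nat_lit 184)) (nd (nat_lit 225) (nat_lit 0) (cs (lf (nat_lit 10) (nat_lit 203)) (nd (nat_lit 273) (nat_lit 0) (cs (lf (nat_lit 42) (nat_lit 206)) (nd (nat_lit 274) (nat_lit 0) (cs (lf (nat_lit 29) (nat_lit 207)) (nd (nat_lit 272) (nat_lit 0) (cs (lf (nat_lit 41) (nat_lit 206)) (nd (nat_lit 250) (nat_lit 0) (cs (lf (nat_lit 18) (nat_lit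 250)) (lf (nat_lit 47) (nat_lit 183))))))))))))))))))))))) (nd (nat_lit 226) (nat_lit 0) (cs (lf (nat_lit 10) (nat_lit 204)) (nd (nat_lit 204) (nat_lit 0) (cs (lf (nat_lit 11) (nat_lit 203)) (lf (nat_lit 0) (nat_lit 203))))))))))))))))))) q24996 (by decide +kernel)
def q25029 : Q := Q.p (nat_lit 0x800002400001000004000000000000000000000000000000000000000000000000000) (nat_lit 0x16e0001b800060000000000300000c0000200000000000000000000000000000000000) (nat_lit 7)
theorem c25029 : QOK q25029 := cut [q2074, q23534] ⟨c2074, c23534, trivial⟩ (nd (nat_lit 251) (nat_lit 0) (cs (rf (nat_lit 0)) (cs (rf (nat_lit 1)) (nd (nat_lit 252) (nat_lit 0) (cs (lf (nat_lit 5) (nat_lit 250)) (nd (nat_lit 249) (nat_lit 0) (cs (lf (nat_lit 4) (nat_lit 249)) (nd (nat_lit 270) (nat_lit 0) (cs (lf (nat_lit 10) (nat_lit 248)) (nd (nat_lit 248) (nat_lit 0) (cs (lf (nat_lit 11) (nat_lit 247)) (nd (nat_lit 229) (nat_lit 0) (cs (lf (nat_lit 12) (nat_lit 225))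 (lf (nat_lit 17) (nat_lit 226))))))))))))))) q25029 (by decide +kernel)
def q25035 : Q := Q.p (nat_lit 0x1e000000000000000000000000000000000000000000000000000) (nat_lit 0x800007e00061800198000040000100000000000000000000000000000000000) (nat_lit 9)
theorem c25035 : QOK q25035 := cut [q5406] ⟨c5406, trivial⟩ (nd (nat_lit 226) (nat_lit 0) (cs (lf (nat_lit 10) (nat_lit 204)) (nd (nat_lit 204) (nat_lit 0) (cs (lf (nat_lit 11) (nat_lit 203)) (nd (nat_lit 229) (nat_lit 0) (cs (lf (nat_lit 5) (nat_lit 204)) (nd (nat_lit 228) (nat_lit 0) (cs (lf (nat_lit 0) (nat_lit 203)) (rf (nat_lit 0)))))))))) q25035 (by decide +kernel)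
def q25043 : Q := Q.p (nat_lit 0x800002000000000038000000000000000000000000000000000000000000000000000) (nat_lit 0xb800044000338000000000000000000000000000000000000000000000) (nat_lit 5)
theorem c25043 : QOK q25043 := cut [q1017, q16145] ⟨c1017, c16145, trivial⟩ (nd (nat_lit 210) (nat_lit 0) (cs (rf (nat_lit 0)) (rf (nat_lit 1)))) q25043 (by decide +kernel)
def q25067 : Q := Q.p (nat_lit 0x800002000000000038000000000000000000000000000000000000000000000000000) (nat_lit 0x7b8000c4000700000000000000000000000000000000000000000000000) (nat_lit 5)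
theorem c25067 : QOK q25067 := cut [q1017, q22627, q25064] ⟨c1017, c22627, c25064, trivial⟩ (nd (nat_lit 210) (nat_lit 0) (cs (rf (nat_lit 0)) (cs (rf (nat_lit 1)) (nd (nat_lit 228) (nat_lit 0) (cs (lf (nat_lit 10) (nat_lit 206)) (nd (nat_lit 232) (nat_lit 0) (cs (lf (nat_lit 5) (nat_lit 207)) (rf (nat_lit 2))))))))) q25067 (by decide +kernel)
def q25070 : Q := Q.p (nat_lit 0x38000000000000000000000000000000000000000000000000000) (nat_lit 0x778000c4000780000000000000000000000000000000000000000000000) (nat_lit 5)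
theorem c25070 : QOK q25070 := cut [q15141, q22627, q24538] ⟨c15141, c22627, c24538, trivial⟩ (nd (nat_lit 210) (nat_lit 0) (cs (rf (nat_lit 0)) (cs (rf (nat_lit 1)) (rf (nat_lit 2))))) q25070 (by decide +kernel)
def q25197 : Q := Q.p (nat_lit 0x20000080000200000000000000010000000000000000000000000000000000000000000000000000) (nat_lit 0x40000500001c000050000040000000000c00007000004000000000000000000000000000000000000000000000000000) (nat_lit 7)
theorem c25197 : QOK q25197 := cut [q25189, q25191] ⟨c25189, c25191, trivial⟩ (nd (nat_lit 338) (nat_lit 0) (cs (rf (nat_lit 0)) (cs (nd (nat_lit 339) (nat_lit 0) (cs (lf (nat_lit 41) (nat_lit 272)) (rf (nat_lit 1)))) (nd (nat_lit 360) (nat_lit 0) (cs (nd (nat_lit 316) (nat_lit 0) (cs (lf (nat_lit 30) (nat_lit 294)) (lf (nat_lit 33) (nat_lit 272)))) (lf (nat_lit 39) (nat_lit 272))))))) q25197 (by decide +kernel)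
def q25205 : Q := Q.p (nat_lit 0x8000020000080000200000000000000010000000000000000000000000000000000000000000000000000) (nat_lit 0x1000004000010000000000000000c00007000004000000000000000000000000000000000000000000000000000) (nat_lit 5)
theorem c25205 : QOK q25205 := cut [q25189] ⟨c25189, trivial⟩ (nd (nat_lit 338) (nat_lit 0) (cs (lf (nat_lit 41) (nat_lit 272)) (rf (nat_lit 0)))) q25205 (by decide +kernel)
def q25311 : Q := Q.p (nat_lit 0x200000e00002000000000000000000000000000000000000000000000000000000000000000) (nat_lit 0x100000600001c0000700007c0001d80001000000000000000000000000000000000000000000000000000000000000000000000) (nat_lit 9)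
theorem c25311 : QOK q25311 := cut [q12923, q12930, q12937, q21929, q23320] ⟨c12923, c12930, c12937, c21929, c23320, trivial⟩ (nd (nat_lit 319) (nat_lit 0) (cs (rf (nat_lit 0)) (cs (rf (nat_lit 1)) (cs (rf (nat_lit 2)) (cs (rf (nat_lit 3)) (rf (nat_lit 4))))))) q25311 (by decide +kernel)
def q25411 : Q := Q.p (nat_lit 0x40000100000400001000000000000000000000000000000000000000000000000000000000000000) (nat_lit 0x280000a0000080000000000800006000008000000000000000000000000000000000000000000000000000) (nat_lit 5)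
theorem c25411 : QOK q25411 := cut [q25410] ⟨c25410, trivial⟩ (nd (nat_lit 319) (nat_lit 0) (cs (lf (nat_lit 29) (nat_lit 252)) (rf (nat_lit 0)))) q25411 (by decide +kernel)
def q25414 : Q := Q.p (nat_lit 0x1c0000000000000000000000000000000000000000000000000000000000000000000000000000000) (nat_lit 0x80000200003bc000620001c00001000000000000000000000000000000000000000000000000000000000000000000000) (nat_lit 6)
theorem c25414 : QOK q25414 := cut [q13053, q13062, q21921] ⟨c13053, c13062, c21921, trivial⟩ (nd (nat_lit 321) (nat_lit 0) (cs (rf (nat_lit 0)) (cs (rf (nat_lit 1)) (rf (nat_lit 2))))) q25414 (by decide +kernel)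
def q25552 : Q := Q.p (nat_lit 0xe00003000000000000000000000000000000000000000000000000000000000000000) (nat_lit 0x80001180000e00001800004000010000000000000000000000000000000000000000000000) (nat_lit 6)
theorem c25552 : QOK q25552 := cut [q25551] ⟨c25551, trivial⟩ (nd (nat_lit 272) (nat_lit 0) (cs (lf (nat_lit 12) (nat_lit 249)) (rf (nat_lit 0)))) q25552 (by decide +kernel)
def q25611 : Q := Q.p (nat_lit 0xc00003000000000010000000000000000000000000000000000000000000000000000) (nat_lit 0x140003f0000fe0007e00007300018e000240000a80000a0000000000000000000000000000000000000000000000) (nat_lit 12)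
theorem c25611 : QOK q25611 := cut [q700, q2611, q21908, q25603, q14689] ⟨c700, c2611, c21908, c25603, c14689, trivial⟩ (nd (nat_lit 276) (nat_lit 0) (cs (rf (nat_lit 0)) (cs (nd (nat_lit 297) (nat_lit 0) (cs (lf (nat_lit 25) (nat_lit 208)) (nd (nat_lit 319) (nat_lit 0) (cs (rf (nat_lit 1)) (cs (rf (nat_lit 2)) (nd (nat_lit 320) (nat_lit 0) (cs (lf (nat_lit 29) (nat_lit 253)) (nd (nat_lit 318) (nat_lit 0) (cs (lf (nat_lit 41) (nat_lit 252)) (rf (nat_lit 3))))))))))) (nd (nat_lit 230) (nat_lit 0) (cs (lf (nat_lit 29) (nat_lit 208)) (nd (nat_lit 187) (nat_lit 0) (cs (lf (nat_lit 34) (nat_lit 186)) (nd (nat_lit 185) (nat_lit 0) (cs (lf (nat_lit 46) (nat_lit 185)) (rf (nat_lit 4))))))))))) q25611 (by decide +kernel)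
def q25614 : Q := Q.p (nat_lit 0x400001000000000018000000000000000000000000000000000000000000000000000) (nat_lit 0x1000000000000000070000e00000a0000000000000000000000000000000000000000000000) (nat_lit 5)
theorem c25614 : QOK q25614 := cut [q25613] ⟨c25613, trivial⟩ (nd (nat_lit 230) (nat_lit 0) (cs (lf (nat_lit 47) (nat_lit 185)) (rf (nat_lit 0)))) q25614 (by decide +kernel)
def q25675 : Q := Q.p (nat_lit 0xc0000000001c00003000000000000000000000000000000000000000000000000000000000000000) (nat_lit 0x3e0000f20007e00000300000e00000000000000000000000000000000000000000000000000000000000000) (nat_lit 9)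
theorem c25675 : QOK q25675 := cut [q25603] ⟨c25603, trivial⟩ (nd (nat_lit 297) (nat_lit 0) (cs (lf (nat_lit 42) (nat_lit 252)) (nd (nat_lit 320) (nat_lit 0) (cs (lf (nat_lit 29) (nat_lit 253)) (rf (nat_lit 0)))))) q25675 (by decide +kernel)
def q25707 : Q := Q.p (nat_lit 0x100000c00003000000000000000000000000000000000000000000000000000000000000000) (nat_lit 0x380001e00000e0000000000000004000000000000000000000000000000000000000000000000000000000) (nat_lit 6)
theorem c25707 : QOK q25707 := cut [q25426] ⟨c25426, trivial⟩ (nd (nat_lit 318) (nat_lit 0) (cs (lf (nat_lit 30) (nat_lit 252)) (rf (nat_lit 0)))) q25707 (by decide +kernel)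
def q25766 : Q := Q.p (nat_lit 0x100000d00001400000000010000000000000000000000000000000000000000000000000000) (nat_lit 0x280000e0000380000e0000000000a0000380002e000038000020000000000000000000000000000000000000000) (nat_lit 8)
theorem c25766 : QOK q25766 := cut [q25756, q25762, q25764] ⟨c25756, c25762, c25764, trivial⟩ (nd (nat_lit 294) (nat_lit 0) (cs (nd (nat_lit 249) (nat_lit 0) (cs (lf (nat_lit 2) (nat_lit 249)) (nd (nat_lit 316) (nat_lit 0) (cs (lf (nat_lit 47) (nat_lit 227)) (rf (nat_lit 0)))))) (cs (rf (nat_lit 1)) (nd (nat_lit 293) (nat_lit 0) (cs (lf (nat_lit 14) (nat_lit 271)) (rf (nat_lit 2))))))) q25766 (by decide +kernel)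
def q25863 : Q := Q.p (nat_lit 0x100000c00003000000000010000000000000000000000000000000000000000000000000000) (nat_lit 0x1fe0007f8001e60000380000e0000380002e0000380000a0000000000000000000000000000000000000000) (nat_lit 15)
theorem c25863 : QOK q25863 := cut [q14310, q15961, q25805, q25810, q3781, q2085, q25816, q23205, q14920, q2082, q25839, q14798, q25847, q25851] ⟨c14310, c15961, c25805, c25810, c3781, c2085, c25816, c23205, c14920, c2082, c25839, c14798, c25847, c25851, trivial⟩ (nd (nat_lit 272) (nat_lit 0) (cs (rf (nat_lit 0)) (cs (nd (nat_lit 251) (nat_lit 0) (cs (rf (nat_lit 1)) (cs (nd (nat_lit 207) (nat_lit 0) (cs (nd (nat_lit 229) (nat_lit 0) (cs (lf (nat_lit 24) (nat_lit 185)) (lf (nat_lit 27) (nat_lit 207)))) (cs (nd (nat_lit 250) (nat_lit 0) (cs (lf (nat_lit 0) (nat_lit 249)) (nd (nat_lit 228) (nat_lit 0) (cs (lf (nat_lit 23) (nat_lit 227)) (nd (nat_lit 206) (nat_lit 0) (cs (lf (nat_lit 35) (nat_lit 184)) (nd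 (nat_lit 184) (nat_lit 0) (cs (lf (nat_lit 29) (nat_lit 184)) (rf (nat_lit 2)))))))))) (cs (nd (nat_lit 250) (nat_lit 0) (cs (lf (nat_lit 0) (nat_lit 249)) (nd (nat_lit 185) (nat_lit 0) (cs (lf (nat_lit 26) (nat_lit 185)) (rf (nat_lit 3)))))) (nd (nat_lit 250) (nat_lit 0) (cs (lf (nat_lit 0) (nat_lit 249)) (nd (nat_lit 229) (nat_lit 0) (cs (rf (nat_lit 4)) (lf (nat_lit 27) (nat_lit 207)))))))))) (nd (nat_lit 250) (nat_lit 0) (cs (lf (nat_lit 0) (nat_lit 249)) (nd (nat_lit 228) (nat_lit 0) (cs (lf (nat_lit 23) (nat_lit 227)) (nd (nat_lit 206) (nat_lit 0) (cs (rf (nat_lit 5)) (cs (nd (nat_lit 184) (nat_lit 0) (cs (lf (nat_lit 29) (nat_lit 184)) (rf (nat_lit 6)))) (cs (nd (nat_lit 318) (nat_lit 0) (cs (lf (nat_lit 30) (nat_lit 252)) (nd (nat_lit 317) (nat_lit 0) (cs (lf (nat_lit 41) (nat_lit 251)) (nd (nat_lit 297) (nat_lit 0) (cs (nd (nat_lit 298) (nat_lit 0) (cs (lf (nat_lit 1) (nat_lit 272)) (lf (nat_lit 6) (nat_lit 295))))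 (cs (nd (nat_lit 316) (nat_lit 0) (cs (lf (nat_lit 12) (nat_lit 293)) (nd (nat_lit 185) (nat_lit 0) (cs (lf (nat_lit 34) (nat_lit 184)) (nd (nat_lit 183) (nat_lit 0) (cs (lf (nat_lit 46) (nat_lit 183)) (nd (nat_lit 319) (nat_lit 0) (cs (lf (nat_lit 29) (nat_lit 252)) (rf (nat_lit 7)))))))))) (nd (nat_lit 315) (nat_lit 0) (cs (lf (nat_lit 13) (nat_lit 293)) (nd (nat_lit 293) (nat_lit 0) (cs (nd (nat_lit 299) (nat_lit 0) (cs (rf (nat_lit 8)) (lf (nat_lit 7) (nat_lit 295)))) (lf (nat_lit 39) (nat_lit 227))))))))))))) (nd (nat_lit 318) (nat_lit 0) (cs (lf (nat_lit 30) (nat_lit 252)) (nd (nat_lit 319) (nat_lit 0) (cs (lf (nat_lit 29) (nat_lit 252)) (nd (nat_lit 317) (nat_lit 0) (cs (lf (nat_lit 41) (nat_lit 251)) (nd (nat_lit 184) (nat_lit 0) (cs (lf (nat_lit 29) (nat_lit 184)) (rf (nat_lit 9))))))))))))))))))))) (cs (nd (nat_lit 318) (nat_lit 0) (cs (lf (nat_lit 30) (nat_lit 252)) (nd (nat_lit 319) (nat_lit 0) (cs (lf (nat_lit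 29) (nat_lit 252)) (rf (nat_lit 10)))))) (cs (nd (nat_lit 318) (nat_lit 0) (cs (lf (nat_lit 30) (nat_lit 252)) (nd (nat_lit 319) (nat_lit 0) (cs (lf (nat_lit 29) (nat_lit 252)) (nd (nat_lit 251) (nat_lit 0) (cs (lf (nat_lit 47) (nat_lit 229)) (nd (nat_lit 317) (nat_lit 0) (cs (lf (nat_lit 41) (nat_lit 251)) (nd (nat_lit 273) (nat_lit 0) (cs (lf (nat_lit 12) (nat_lit 249)) (rf (nat_lit 11)))))))))))) (nd (nat_lit 297) (nat_lit 0) (cs (rf (nat_lit 12)) (cs (rf (nat_lit 13)) (nd (nat_lit 271) (nat_lit 0) (cs (lf (nat_lit 14) (nat_lit 249)) (nd (nat_lit 319) (nat_lit 0) (cs (lf (nat_lit 42) (nat_lit 252)) (nd (nat_lit 318) (nat_lit 0) (cs (lf (nat_lit 30) (nat_lit 252)) (nd (nat_lit 320) (nat_lit 0) (cs (lf (nat_lit 29) (nat_lit 253)) (nd (nat_lit 317) (nat_lit 0) (cs (lf (nat_lit 41) (nat_lit 251)) (nd (nat_lit 321) (nat_lit 0) (cs (lf (nat_lit 18) (nat_lit 296)) (nd (nat_lit 316) (nat_lit 0) (cs (lf (nat_lit 12) (nat_lit 293))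 (nd (nat_lit 343) (nat_lit 0) (cs (lf (nat_lit 5) (nat_lit 318)) (nd (nat_lit 338) (nat_lit 0) (cs (lf (nat_lit 11) (nat_lit 315)) (nd (nat_lit 294) (nat_lit 0) (cs (lf (nat_lit 23) (nat_lit 293)) (lf (nat_lit 47) (nat_lit 249)))))))))))))))))))))))))))))) q25863 (by decide +kernel)
def q25883 : Q := Q.p (nat_lit 0x300000c00003000000000000000000000000000000000000000000000000000000000000000) (nat_lit 0x18000078000c80000000000000000000000000000000000000000000000000000000000000000000000000) (nat_lit 5)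
theorem c25883 : QOK q25883 := cut [q14318] ⟨c14318, trivial⟩ (nd (nat_lit 318) (nat_lit 0) (cs (lf (nat_lit 30) (nat_lit 252)) (rf (nat_lit 0)))) q25883 (by decide +kernel)
def q25896 : Q := Q.p (nat_lit 0x600000c00002000000000010000000000000000000000000000000000000000000000000000) (nat_lit 0x700001e0001800000000001000004000000000000000000000000000000000000000000000000000000000) (nat_lit 6)
theorem c25896 : QOK q25896 := cut [q13935] ⟨c13935, trivial⟩ (nd (nat_lit 299) (nat_lit 0) (cs (lf (nat_lit 18) (nat_lit 274)) (rf (nat_lit 0)))) q25896 (by decide +kernel)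
def q25903 : Q := Q.p (nat_lit 0x200000c00002000000000000000000000000000000000000000000000000000000000000000) (nat_lit 0x100000600001c0003fc000ff0001dc0001300000000000000000000000000000000000000000000000000000000000000000000) (nat_lit 12)
theorem c25903 : QOK q25903 := cut [q14731, q22569, q12921, q21929, q23320, q23470, q14726, q23346, q23438] ⟨c14731, c22569, c12921, c21929, c23320, c23470, c14726, c23346, c23438, trivial⟩ (nd (nat_lit 298) (nat_lit 0) (cs (rf (nat_lit 0)) (cs (rf (nat_lit 1)) (cs (nd (nat_lit 319) (nat_lit 0) (cs (rf (nat_lit 2)) (cs (rf (nat_lit 3)) (cs (rf (nat_lit 4)) (cs (rf (nat_lit 5)) (nd (nat_lit 320) (nat_lit 0) (cs (rf (nat_lit 6)) (rf (nat_lit 7))))))))) (nd (nat_lit 319) (nat_lit 0) (cs (rf (nat_lit 2)) (cs (rf (nat_lit 3)) (rf (nat_lit 8))))))))) q25903 (by decide +kernel)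
def q25913 : Q := Q.p (nat_lit 0x180000280000c00000000000000010000000000000000000000000000000000000000000000000000) (nat_lit 0x170001300001000004000000000000000000000000000000000000000000000000000000000) (nat_lit 5)
theorem c25913 : QOK q25913 := cut [q14715] ⟨c14715, trivial⟩ (nd (nat_lit 230) (nat_lit 0) (cs (lf (nat_lit 26) (nat_lit 208)) (rf (nat_lit 0)))) q25913 (by decide +kernel)
def q26057 : Q := Q.p (nat_lit 0x800002000008000014000000000000000000000000000000000000000000000000000) (nat_lit 0x100000600001000000000011c0006a00019c000400000000000000000000000000000000000000000) (nat_lit 6)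
theorem c26057 : QOK q26057 := cut [q26053, q117, q26056] ⟨c26053, c117, c26056, trivial⟩ (nd (nat_lit 209) (nat_lit 0) (cs (rf (nat_lit 0)) (cs (nd (nat_lit 207) (nat_lit 0) (cs (rf (nat_lit 1)) (lf (nat_lit 5) (nat_lit 206)))) (rf (nat_lit 2))))) q26057 (by decide +kernel)
def q26108 : Q := Q.p (nat_lit 0x100000400001000004000000000000000000000000000000000000000000000000000) (nat_lit 0x200000800002000000000000000380000e0000280000000000000000000000000000000000) (nat_lit 6)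
theorem c26108 : QOK q26108 := cut [q17155] ⟨c17155, trivial⟩ (nd (nat_lit 271) (nat_lit 0) (cs (lf (nat_lit 41) (nat_lit 205)) (rf (nat_lit 0)))) q26108 (by decide +kernel)
def q26116 : Q := Q.p (nat_lit 0x100000400001000004000000000000000000000000000000000000000000000000000) (nat_lit 0x800002000008000020000380000e0000200000000000000000000000000000000000) (nat_lit 6)
theorem c26116 : QOK q26116 := cut [q3386] ⟨c3386, trivial⟩ (nd (nat_lit 183) (nat_lit 0) (cs (lf (nat_lit 46) (nat_lit 183)) (nd (nat_lit 184) (nat_lit 0) (cs (lf (nat_lit 47) (nat_lit 161)) (rf (nat_lit 0)))))) q26116 (by decide +kernel)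
def q26166 : Q := Q.p (nat_lit 0x100000200000800002400000000004000000000000000000000000000000000000000000000000000) (nat_lit 0x600007e0006f80000f0001780001200001800002000018000020000000000000000000000000000000000000000) (nat_lit 12)
theorem c26166 : QOK q26166 := cut [q14138, q26144, q17127, q26151] ⟨c14138, c26144, c17127, c26151, trivial⟩ (nd (nat_lit 319) (nat_lit 0) (cs (lf (nat_lit 29) (nat_lit 253)) (nd (nat_lit 340) (nat_lit 0) (cs (lf (nat_lit 40) (nat_lit 252)) (nd (nat_lit 341) (nat_lit 0) (cs (lf (nat_lit 41) (nat_lit 274)) (nd (nat_lit 339) (nat_lit 0) (cs (lf (nat_lit 12) (nat_lit 316)) (nd (nat_lit 272) (nat_lit 0) (cs (nd (nat_lit 274) (nat_lit 0) (cs (lf (nat_lit 47) (nat_lit 252)) (nd (nat_lit 321) (nat_lit 0) (cs (lf (nat_lit 6) (nat_lit 318)) (nd (nat_lit 273) (nat_lit 0) (cs (lf (nat_lit 23) (nat_lit 249)) (nd (nat_lit 295) (nat_lit 0) (cs (lf (nat_lit 25) (nat_lit 206)) (lf (nat_lit 43) (nat_lit 250))))))))))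 (cs (nd (nat_lit 321) (nat_lit 0) (cs (lf (nat_lit 6) (nat_lit 318)) (nd (nat_lit 274) (nat_lit 0) (cs (lf (nat_lit 47) (nat_lit 252)) (nd (nat_lit 273) (nat_lit 0) (cs (lf (nat_lit 23) (nat_lit 249)) (nd (nat_lit 295) (nat_lit 0) (cs (lf (nat_lit 43) (nat_lit 250)) (nd (nat_lit 294) (nat_lit 0) (cs (lf (nat_lit 11) (nat_lit 271)) (lf (nat_lit 6) (nat_lit 272)))))))))))) (cs (nd (nat_lit 294) (nat_lit 0) (cs (nd (nat_lit 252) (nat_lit 0) (cs (lf (nat_lit 46) (nat_lit 252)) (nd (nat_lit 316) (nat_lit 0) (cs (lf (nat_lit 28) (nat_lit 250)) (nd (nat_lit 315) (nat_lit 0) (cs (lf (nat_lit 41) (nat_lit 249)) (nd (nat_lit 228) (nat_lit 0) (cs (lf (nat_lit 40) (nat_lit 227)) (rf (nat_lit 0)))))))))) (cs (nd (nat_lit 317) (nat_lit 0) (cs (lf (nat_lit 27) (nat_lit 250)) (rf (nat_lit 1)))) (nd (nat_lit 321) (nat_lit 0) (cs (lf (nat_lit 6) (nat_lit 318)) (nd (nat_lit 274) (nat_lit 0) (cs (lf (nat_lit 47) (nat_lit 252)) (nd (nat_lit 273)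 (nat_lit 0) (cs (lf (nat_lit 11) (nat_lit 271)) (nd (nat_lit 295) (nat_lit 0) (cs (lf (nat_lit 6) (nat_lit 272)) (lf (nat_lit 25) (nat_lit 206))))))))))))) (cs (nd (nat_lit 274) (nat_lit 0) (cs (lf (nat_lit 47) (nat_lit 252)) (nd (nat_lit 273) (nat_lit 0) (cs (lf (nat_lit 23) (nat_lit 249)) (nd (nat_lit 293) (nat_lit 0) (cs (lf (nat_lit 10) (nat_lit 271)) (nd (nat_lit 271) (nat_lit 0) (cs (lf (nat_lit 11) (nat_lit 270)) (lf (nat_lit 37) (nat_lit 205)))))))))) (nd (nat_lit 228) (nat_lit 0) (cs (rf (nat_lit 2)) (cs (nd (nat_lit 205) (nat_lit 0) (cs (lf (nat_lit 47) (nat_lit 183)) (nd (nat_lit 294) (nat_lit 0) (cs (lf (nat_lit 46) (nat_lit 205)) (rf (nat_lit 3)))))) (nd (nat_lit 293) (nat_lit 0) (cs (lf (nat_lit 40) (nat_lit 205)) (nd (nat_lit 294) (nat_lit 0) (cs (lf (nat_lit 41) (nat_lit 227)) (rf (nat_lit 3)))))))))))))))))))))) q26166 (by decide +kernel)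
def q26181 : Q := Q.p (nat_lit 0x800000400001000004000000000000000000000000000000000000000000000000000) (nat_lit 0x80000780000a000008000000000380000e0000280000000000000000000000000000000000) (nat_lit 7)
theorem c26181 : QOK q26181 := cut [q3386, q3767, q14145, q26180] ⟨c3386, c3767, c14145, c26180, trivial⟩ (nd (nat_lit 184) (nat_lit 0) (cs (rf (nat_lit 0)) (cs (rf (nat_lit 1)) (cs (rf (nat_lit 2)) (rf (nat_lit 3)))))) q26181 (by decide +kernel)
def q26258 : Q := Q.p (nat_lit 0x400001000004000000000000000000000000000000000000000000000000000) (nat_lit 0x180000e0000b80006f8000bc000ef8000380003e0000e80002a0000000000000000000000000000000000) (nat_lit 12)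
theorem c26258 : QOK q26258 := cut [q26197, q26200, q26203, q26206, q26212, q26217, q26229, q26234, q26237, q26247, q3767, q10228] ⟨c26197, c26200, c26203, c26206, c26212, c26217, c26229, c26234, c26237, c26247, c3767, c10228, trivial⟩ (nd (nat_lit 249) (nat_lit 0) (cs (rf (nat_lit 0)) (cs (nd (nat_lit 248) (nat_lit 0) (cs (rf (nat_lit 1)) (cs (nd (nat_lit 226) (nat_lit 0) (cs (nd (nat_lit 271) (nat_lit 0) (cs (rf (nat_lit 2)) (cs (nd (nat_lit 270) (nat_lit 0) (cs (rf (nat_lit 3)) (nd (nat_lit 204) (nat_lit 0) (cs (lf (nat_lit 24) (nat_lit 182)) (rf (nat_lit 4)))))) (rf (nat_lit 5))))) (cs (nd (nat_lit 271) (nat_lit 0) (cs (rf (nat_lit 2)) (cs (rf (nat_lit 5)) (nd (nat_lit 204) (nat_lit 0) (cs (lf (nat_lit 24) (nat_lit 182)) (nd (nat_lit 203) (nat_lit 0) (cs (nd (nat_lit 229) (nat_lit 0) (cs (lf (nat_lit 20) (nat_lit 203)) (lf (nat_lit 2) (nat_lit 203)))) (rf (nat_lit 6))))))))) (nd (nat_lit 251) (nat_lit 0) (cs (lf (nat_lit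 23) (nat_lit 225)) (rf (nat_lit 7))))))) (cs (rf (nat_lit 8)) (rf (nat_lit 9)))))) (cs (nd (nat_lit 184) (nat_lit 0) (cs (lf (nat_lit 41) (nat_lit 183)) (rf (nat_lit 10)))) (nd (nat_lit 248) (nat_lit 0) (cs (rf (nat_lit 1)) (cs (rf (nat_lit 8)) (cs (rf (nat_lit 9)) (nd (nat_lit 251) (nat_lit 0) (cs (rf (nat_lit 7)) (cs (nd (nat_lit 183) (nat_lit 0) (cs (nd (nat_lit 229) (nat_lit 0) (cs (lf (nat_lit 17) (nat_lit 226)) (nd (nat_lit 184) (nat_lit 0) (cs (lf (nat_lit 47) (nat_lit 161)) (lf (nat_lit 24) (nat_lit 162)))))) (nd (nat_lit 226) (nat_lit 0) (cs (lf (nat_lit 23) (nat_lit 225)) (nd (nat_lit 270) (nat_lit 0) (cs (lf (nat_lit 11) (nat_lit 247)) (rf (nat_lit 11)))))))) (nd (nat_lit 273) (nat_lit 0) (cs (lf (nat_lit 24) (nat_lit 184)) (lf (nat_lit 5) (nat_lit 248))))))))))))))) q26258 (by decide +kernel)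
def q26276 : Q := Q.p (nat_lit 0x400001000004000000000000000000000000000000000000000000000000000) (nat_lit 0x200001800002000008000020000380000e0000280000000000000000000000000000000000) (nat_lit 6)
theorem c26276 : QOK q26276 := cut [q3386, q3767, q14145, q17164] ⟨c3386, c3767, c14145, c17164, trivial⟩ (nd (nat_lit 184) (nat_lit 0) (cs (rf (nat_lit 0)) (cs (rf (nat_lit 1)) (cs (rf (nat_lit 2)) (rf (nat_lit 3)))))) q26276 (by decide +kernel)
def q26369 : Q := Q.p (nat_lit 0x800002000008000014000000000000000000000000000000000000000000000000000) (nat_lit 0x100000600007600001c0001200006a0001be000440000100000000000000000000000000000000000) (nat_lit 11)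
theorem c26369 : QOK q26369 := cut [q26053, q26056, q6790, q2020, q26368] ⟨c26053, c26056, c6790, c2020, c26368, trivial⟩ (nd (nat_lit 209) (nat_lit 0) (cs (rf (nat_lit 0)) (cs (rf (nat_lit 1)) (cs (nd (nat_lit 207) (nat_lit 0) (cs (lf (nat_lit 5) (nat_lit 206)) (nd (nat_lit 276) (nat_lit 0) (cs (lf (nat_lit 29) (nat_lit 209)) (nd (nat_lit 184) (nat_lit 0) (cs (rf (nat_lit 2)) (nd (nat_lit 187) (nat_lit 0) (cs (lf (nat_lit 17) (nat_lit 184)) (nd (nat_lit 252) (nat_lit 0) (cs (lf (nat_lit 41) (nat_lit 186)) (nd (nat_lit 251) (nat_lit 0) (cs (lf (nat_lit 0) (nat_lit 250)) (nd (nat_lit 277) (nat_lit 0) (cs (lf (nat_lit 18) (nat_lit 252)) (rf (nat_lit 3)))))))))))))))) (rf (nat_lit 4)))))) q26369 (by decide +kernel)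
def q26371 : Q := Q.p (nat_lit 0x800002000008000014000000000000000000000000000000000000000000000000000) (nat_lit 0x14e0006b00018e000000000000000000000000000000000000000000000) (nat_lit 6)
theorem c26371 : QOK q26371 := cut [q24661, q26370] ⟨c24661, c26370, trivial⟩ (nd (nat_lit 207) (nat_lit 0) (cs (rf (nat_lit 0)) (rf (nat_lit 1)))) q26371 (by decide +kernel)
def q26469 : Q := Q.p (nat_lit 0x200000180001e000000000000000000000000000000000000000000000000000) (nat_lit 0x8000130000e000000000010000040000000000000000000000000000000000000000) (nat_lit 5)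
theorem c26469 : QOK q26469 := cut [q26468] ⟨c26468, trivial⟩ (nd (nat_lit 230) (nat_lit 0) (cs (lf (nat_lit 5) (nat_lit 205)) (rf (nat_lit 0)))) q26469 (by decide +kernel)
def q26563 : Q := Q.p (nat_lit 0x800002400001800006000000000000000000000000000000000000000000000000000) (nat_lit 0xe0001780001a00000000008000020000000000000000000000000000000000000000000000) (nat_lit 7)
theorem c26563 : QOK q26563 := cut [q26561] ⟨c26561, trivial⟩ (nd (nat_lit 272) (nat_lit 0) (cs (lf (nat_lit 42) (nat_lit 205)) (nd (nat_lit 185) (nat_lit 0) (cs (lf (nat_lit 34) (nat_lit 184)) (rf (nat_lit 0)))))) q26563 (by decide +kernel)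
def q26615 : Q := Q.p (nat_lit 0x400001000016000000000000000000000000000000000000000000000000000) (nat_lit 0x2c0000bc0000f0000800003f0000f0000280000000000000000000000000000000000) (nat_lit 12)
theorem c26615 : QOK q26615 := cut [q3386, q3767, q14145, q26606] ⟨c3386, c3767, c14145, c26606, trivial⟩ (nd (nat_lit 184) (nat_lit 0) (cs (rf (nat_lit 0)) (cs (rf (nat_lit 1)) (cs (rf (nat_lit 2)) (nd (nat_lit 251) (nat_lit 0) (cs (lf (nat_lit 29) (nat_lit 184)) (nd (nat_lit 249) (nat_lit 0) (cs (lf (nat_lit 41) (nat_lit 183)) (nd (nat_lit 183) (nat_lit 0) (cs (lf (nat_lit 47) (nat_lit 161)) (nd (nat_lit 163) (nat_lit 0) (cs (lf (nat_lit 34) (nat_lit 162)) (nd (nat_lit 182) (nat_lit 0) (cs (lf (nat_lit 19) (nat_lit 182)) (nd (nat_lit 180) (nat_lit 0) (cs (lf (nat_lit 1) (nat_lit 180)) (nd (nat_lit 227) (nat_lit 0) (cs (lf (nat_lit 47) (nat_lit 160)) (nd (nat_lit 225) (nat_lit 0) (cs (lf (nat_lit 1) (nat_lit 225)) (rf (nat_lit 3))))))))))))))))))))))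 q26615 (by decide +kernel)
def q26638 : Q := Q.p (nat_lit 0x800002400001000006000000000000000000000000000000000000000000000000000) (nat_lit 0xa0001780001a00000000000000008000000000000000000000000000000000000000000000) (nat_lit 6)
theorem c26638 : QOK q26638 := cut [q26561] ⟨c26561, trivial⟩ (nd (nat_lit 272) (nat_lit 0) (cs (lf (nat_lit 47) (nat_lit 183)) (rf (nat_lit 0)))) q26638 (by decide +kernel)
def q26648 : Q := Q.p (nat_lit 0x1800007000000000000000000000000000000000000000000000000000) (nat_lit 0x700001e00003c000040000000001f0000780000c0000000000000000000000000000000000) (nat_lit 9)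
theorem c26648 : QOK q26648 := cut [q21655, q26526, q26647] ⟨c21655, c26526, c26647, trivial⟩ (nd (nat_lit 249) (nat_lit 0) (cs (rf (nat_lit 0)) (cs (rf (nat_lit 1)) (rf (nat_lit 2))))) q26648 (by decide +kernel)
def q26767 : Q := Q.p (nat_lit 0x800002000001000016000000000000000000000000000000000000000000000000000) (nat_lit 0x810002fc0017f0001fc000ef80001c000378000dc000370000100000000000000000000000000000) (nat_lit 15)
theorem c26767 : QOK q26767 := cut [q26583, q26650, q26662, q3968, q26734, q24372, q26739] ⟨c26583, c26650, c26662, c3968, c26734, c24372, c26739, trivial⟩ (nd (nat_lit 204) (nat_lit 0) (cs (nd (nat_lit 227) (nat_lit 0) (cs (rf (nat_lit 0)) (cs (rf (nat_lit 1)) (nd (nat_lit 226) (nat_lit 0) (cs (rf (nat_lit 2)) (cs (nd (nat_lit 229) (nat_lit 0) (cs (lf (nat_lit 18) (nat_lit 204)) (nd (nat_lit 248) (nat_lit 0) (cs (lf (nat_lit 11) (nat_lit 225)) (nd (nat_lit 270) (nat_lit 0) (cs (nd (nat_lit 271) (nat_lit 0)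 (cs (lf (nat_lit 29) (nat_lit 204)) (nd (nat_lit 249) (nat_lit 0) (cs (lf (nat_lit 47) (nat_lit 182)) (lf (nat_lit 35) (nat_lit 183)))))) (lf (nat_lit 30) (nat_lit 204)))))))) (cs (nd (nat_lit 225) (nat_lit 0) (cs (lf (nat_lit 12) (nat_lit 202)) (nd (nat_lit 229) (nat_lit 0) (cs (lf (nat_lit 18) (nat_lit 204)) (nd (nat_lit 250) (nat_lit 0) (cs (lf (nat_lit 5) (nat_lit 225)) (nd (nat_lit 272) (nat_lit 0) (cs (lf (nat_lit 42) (nat_lit 205)) (nd (nat_lit 271) (nat_lit 0) (cs (lf (nat_lit 41) (nat_lit 205)) (nd (nat_lit 249) (nat_lit 0) (cs (lf (nat_lit 47) (nat_lit 182)) (lf (nat_lit 36) (nat_lit 183)))))))))))))) (nd (nat_lit 224) (nat_lit 0) (cs (lf (nat_lit 13) (nat_lit 202)) (nd (nat_lit 229) (nat_lit 0) (cs (lf (nat_lit 18) (nat_lit 204)) (nd (nat_lit 248) (nat_lit 0) (cs (lf (nat_lit 11) (nat_lit 225)) (nd (nat_lit 270) (nat_lit 0) (cs (lf (nat_lit 30) (nat_lit 204)) (nd (nat_lit 271) (nat_lit 0) (cs (lf (nat_lit 29) (nat_lit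 204)) (nd (nat_lit 184) (nat_lit 0) (cs (lf (nat_lit 31) (nat_lit 183)) (nd (nat_lit 162) (nat_lit 0) (cs (lf (nat_lit 29) (nat_lit 162)) (lf (nat_lit 36) (nat_lit 139))))))))))))))))))))))) (cs (nd (nat_lit 203) (nat_lit 0) (cs (rf (nat_lit 3)) (lf (nat_lit 5) (nat_lit 203)))) (cs (nd (nat_lit 203) (nat_lit 0) (cs (lf (nat_lit 5) (nat_lit 203)) (rf (nat_lit 4)))) (nd (nat_lit 203) (nat_lit 0) (cs (rf (nat_lit 3)) (cs (rf (nat_lit 5)) (cs (rf (nat_lit 4)) (nd (nat_lit 225) (nat_lit 0) (cs (lf (nat_lit 11) (nat_lit 202)) (nd (nat_lit 247) (nat_lit 0) (cs (rf (nat_lit 6)) (cs (nd (nat_lit 184) (nat_lit 0) (cs (lf (nat_lit 17) (nat_lit 181)) (nd (nat_lit 181) (nat_lit 0) (cs (lf (nat_lit 23) (nat_lit 180)) (nd (nat_lit 248) (nat_lit 0) (cs (lf (nat_lit 29) (nat_lit 181)) (nd (nat_lit 159) (nat_lit 0) (cs (lf (nat_lit 28) (nat_lit 159)) (nd (nat_lit 138) (nat_lit 0) (cs (nd (nat_lit 116) (nat_lit 0) (cs (lf (nat_lit 33) (nat_lit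 115)) (nd (nat_lit 136) (nat_lit 0) (cs (lf (nat_lit 46) (nat_lit 136)) (nd (nat_lit 246) (nat_lit 0) (cs (lf (nat_lit 41) (nat_lit 180)) (nd (nat_lit 249) (nat_lit 0) (cs (lf (nat_lit 16) (nat_lit 224)) (nd (nat_lit 271) (nat_lit 0) (cs (lf (nat_lit 39) (nat_lit 183)) (lf (nat_lit 5) (nat_lit 246)))))))))))) (lf (nat_lit 34) (nat_lit 137)))))))))))) (nd (nat_lit 180) (nat_lit 0) (cs (lf (nat_lit 22) (nat_lit 180)) (nd (nat_lit 184) (nat_lit 0) (cs (lf (nat_lit 17) (nat_lit 181)) (nd (nat_lit 269) (nat_lit 0) (cs (nd (nat_lit 290) (nat_lit 0) (cs (nd (nat_lit 270) (nat_lit 0) (cs (lf (nat_lit 29) (nat_lit 203)) (nd (nat_lit 291) (nat_lit 0) (cs (nd (nat_lit 271) (nat_lit 0) (cs (nd (nat_lit 249) (nat_lit 0) (cs (lf (nat_lit 39) (nat_lit 183)) (lf (nat_lit 32) (nat_lit 183)))) (lf (nat_lit 6) (nat_lit 268)))) (lf (nat_lit 41) (nat_lit 224)))))) (lf (nat_lit 40) (nat_lit 202)))) (lf (nat_lit 35) (nat_lit 181)))))))))))))))))))))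 q26767 (by decide +kernel)
def q26772 : Q := Q.p (nat_lit 0x800002400001000016000000000000000000000000000000000000000000000000000) (nat_lit 0x80000200001400001a0001ec00000000000000000000000000000000000000000000000000000000) (nat_lit 5)
theorem c26772 : QOK q26772 := cut [q2281, q26173, q1140] ⟨c2281, c26173, c1140, trivial⟩ (nd (nat_lit 252) (nat_lit 0) (cs (rf (nat_lit 0)) (cs (rf (nat_lit 1)) (nd (nat_lit 230) (nat_lit 0) (cs (rf (nat_lit 2)) (nd (nat_lit 229) (nat_lit 0) (cs (lf (nat_lit 0) (nat_lit 227)) (lf (nat_lit 18) (nat_lit 205))))))))) q26772 (by decide +kernel)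
def q26887 : Q := Q.p (nat_lit 0x7000004000000000000000000000000000000000000000000000) (nat_lit 0x80000380000c0003b800010000040000000000000000000000000000000000) (nat_lit 6)
theorem c26887 : QOK q26887 := cut [q3968, q23811, q26654, q26886] ⟨c3968, c23811, c26654, c26886, trivial⟩ (nd (nat_lit 203) (nat_lit 0) (cs (rf (nat_lit 0)) (cs (rf (nat_lit 1)) (cs (rf (nat_lit 2)) (rf (nat_lit 3)))))) q26887 (by decide +kernel)
def q27121 : Q := Q.p (nat_lit 0x7000004000000000000000000000000000000000000000000000) (nat_lit 0x300001c0000080003bc000ff0007fc000f80002a00000000000000000000000) (nat_lit 13)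
theorem c27121 : QOK q27121 := cut [q27025, q27030, q27066, q27067, q26861, q27091] ⟨c27025, c27030, c27066, c27067, c26861, c27091, trivial⟩ (nd (nat_lit 160) (nat_lit 0) (cs (rf (nat_lit 0)) (cs (rf (nat_lit 1)) (cs (rf (nat_lit 2)) (cs (rf (nat_lit 3)) (nd (nat_lit 181) (nat_lit 0) (cs (rf (nat_lit 4)) (cs (nd (nat_lit 159) (nat_lit 0) (cs (nd (nat_lit 137) (nat_lit 0) (cs (lf (nat_lit 42) (nat_lit 137)) (lf (nat_lit 24) (nat_lit 115)))) (cs (nd (nat_lit 184) (nat_lit 0) (cs (nd (nat_lit 183) (nat_lit 0) (cs (lf (nat_lit 23) (nat_lit 158)) (lf (nat_lit 18) (nat_lit 159)))) (cs (nd (nat_lit 115) (nat_lit 0) (cs (nd (nat_lit 185) (nat_lit 0) (cs (lf (nat_lit 12) (nat_lit 181)) (nd (nat_lit 162) (nat_lit 0) (cs (rf (nat_lit 5)) (lf (nat_lit 2) (nat_lit 159)))))) (lf (nat_lit 25) (nat_lit 115)))) (nd (nat_lit 158) (nat_lit 0) (cs (lf (nat_lit 19) (nat_lit 158)) (nd (nat_lit 157) (nat_lit 0) (cs (nd (nat_lit 115) (nat_lit 0)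 (cs (lf (nat_lit 25) (nat_lit 115)) (nd (nat_lit 178) (nat_lit 0) (cs (nd (nat_lit 135) (nat_lit 0) (cs (nd (nat_lit 161) (nat_lit 0) (cs (nd (nat_lit 139) (nat_lit 0) (cs (nd (nat_lit 162) (nat_lit 0) (cs (lf (nat_lit 42) (nat_lit 139)) (lf (nat_lit 6) (nat_lit 159)))) (lf (nat_lit 17) (nat_lit 136)))) (lf (nat_lit 22) (nat_lit 135)))) (lf (nat_lit 23) (nat_lit 134)))) (lf (nat_lit 10) (nat_lit 156)))))) (lf (nat_lit 0) (nat_lit 156))))))))) (nd (nat_lit 226) (nat_lit 0) (cs (nd (nat_lit 227) (nat_lit 0) (cs (lf (nat_lit 29) (nat_lit 160)) (nd (nat_lit 161) (nat_lit 0) (cs (lf (nat_lit 35) (nat_lit 138)) (nd (nat_lit 162) (nat_lit 0) (cs (lf (nat_lit 6) (nat_lit 159)) (nd (nat_lit 140) (nat_lit 0) (cs (lf (nat_lit 17) (nat_lit 137)) (lf (nat_lit 32) (nat_lit 139)))))))))) (lf (nat_lit 42) (nat_lit 159))))))) (cs (nd (nat_lit 180) (nat_lit 0) (cs (lf (nat_lit 21) (nat_lit 180)) (lf (nat_lit 3) (nat_lit 180)))) (nd (nat_lit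 180) (nat_lit 0) (cs (lf (nat_lit 0) (nat_lit 179)) (lf (nat_lit 3) (nat_lit 180))))))))))))) q27121 (by decide +kernel)
def q27213 : Q := Q.p (nat_lit 0x600001c000000000000000000000000000000000000000000000) (nat_lit 0x20000180000700001c0000300001c000060000080000000000000000000000000000) (nat_lit 7)
theorem c27213 : QOK q27213 := cut [q27199, q27205] ⟨c27199, c27205, trivial⟩ (nd (nat_lit 204) (nat_lit 0) (cs (rf (nat_lit 0)) (cs (nd (nat_lit 203) (nat_lit 0) (cs (lf (nat_lit 12) (nat_lit 180)) (nd (nat_lit 181) (nat_lit 0) (cs (lf (nat_lit 23) (nat_lit 180)) (nd (nat_lit 224) (nat_lit 0) (cs (lf (nat_lit 10) (nat_lit 202)) (nd (nat_lit 159) (nat_lit 0) (cs (lf (nat_lit 23) (nat_lit 158)) (nd (nat_lit 137) (nat_lit 0) (cs (lf (nat_lit 29) (nat_lit 137)) (lf (nat_lit 24) (nat_lit 115)))))))))))) (cs (nd (nat_lit 181) (nat_lit 0) (cs (lf (nat_lit 0) (nat_lit 180)) (nd (nat_lit 203) (nat_lit 0) (cs (lf (nat_lit 12) (nat_lit 180))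 (rf (nat_lit 1)))))) (nd (nat_lit 181) (nat_lit 0) (cs (lf (nat_lit 0) (nat_lit 180)) (nd (nat_lit 159) (nat_lit 0) (cs (lf (nat_lit 23) (nat_lit 158)) (nd (nat_lit 137) (nat_lit 0) (cs (lf (nat_lit 24) (nat_lit 115)) (nd (nat_lit 226) (nat_lit 0) (cs (lf (nat_lit 42) (nat_lit 159)) (lf (nat_lit 45) (nat_lit 137)))))))))))))) q27213 (by decide +kernel)
def q27319 : Q := Q.p (nat_lit 0x6000018000000000000000000000000000000000000000000000) (nat_lit 0x200001c0001f0000fe0000f00001c000270000ec0001b0000640000000000000000000000000000) (nat_lit 13)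
theorem c27319 : QOK q27319 := cut [q20529, q27264, q27269, q27280, q27291, q27296, q18960] ⟨c20529, c27264, c27269, c27280, c27291, c27296, c18960, trivial⟩ (nd (nat_lit 227) (nat_lit 0) (cs (rf (nat_lit 0)) (cs (nd (nat_lit 181) (nat_lit 0) (cs (nd (nat_lit 162) (nat_lit 0) (cs (lf (nat_lit 36) (nat_lit 139)) (nd (nat_lit 182) (nat_lit 0) (cs (lf (nat_lit 17) (nat_lit 159)) (rf (nat_lit 1)))))) (cs (nd (nat_lit 203) (nat_lit 0) (cs (nd (nat_lit 225) (nat_lit 0) (cs (nd (nat_lit 224) (nat_lit 0) (cs (nd (nat_lit 159) (nat_lit 0) (cs (lf (nat_lit 41) (nat_lit 158)) (rf (nat_lit 2)))) (lf (nat_lit 14) (nat_lit 202)))) (cs (nd (nat_lit 247) (nat_lit 0) (cs (nd (nat_lit 248) (nat_lit 0) (cs (lf (nat_lit 29) (nat_lit 181)) (nd (nat_lit 226) (nat_lit 0) (cs (lf (nat_lit 36) (nat_lit 160)) (lf (nat_lit 24) (nat_lit 159)))))) (nd (nat_lit 140) (nat_lit 0) (cs (lf (nat_lit 37) (nat_lit 139)) (rf (nat_lit 3)))))) (cs (nd (nat_lit 247)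 (nat_lit 0) (cs (rf (nat_lit 3)) (cs (nd (nat_lit 140) (nat_lit 0) (cs (lf (nat_lit 37) (nat_lit 139)) (nd (nat_lit 180) (nat_lit 0) (cs (lf (nat_lit 47) (nat_lit 158)) (nd (nat_lit 270) (nat_lit 0) (cs (nd (nat_lit 269) (nat_lit 0) (cs (lf (nat_lit 29) (nat_lit 203)) (lf (nat_lit 46) (nat_lit 180)))) (lf (nat_lit 28) (nat_lit 181)))))))) (cs (nd (nat_lit 248) (nat_lit 0) (cs (lf (nat_lit 29) (nat_lit 181)) (nd (nat_lit 140) (nat_lit 0) (cs (lf (nat_lit 37) (nat_lit 139)) (rf (nat_lit 4)))))) (nd (nat_lit 140) (nat_lit 0) (cs (lf (nat_lit 37) (nat_lit 139)) (nd (nat_lit 246) (nat_lit 0) (cs (lf (nat_lit 41) (nat_lit 180)) (nd (nat_lit 224) (nat_lit 0) (cs (nd (nat_lit 270) (nat_lit 0) (cs (lf (nat_lit 28) (nat_lit 181)) (nd (nat_lit 269) (nat_lit 0) (cs (lf (nat_lit 29) (nat_lit 203)) (rf (nat_lit 5)))))) (lf (nat_lit 36) (nat_lit 158)))))))))))) (nd (nat_lit 140) (nat_lit 0) (cs (lf (nat_lit 37) (nat_lit 139)) (nd (nat_lit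 226) (nat_lit 0) (cs (lf (nat_lit 12) (nat_lit 202)) (rf (nat_lit 6)))))))))) (cs (nd (nat_lit 204) (nat_lit 0) (cs (lf (nat_lit 23) (nat_lit 180)) (lf (nat_lit 17) (nat_lit 181)))) (nd (nat_lit 204) (nat_lit 0) (cs (lf (nat_lit 12) (nat_lit 180)) (lf (nat_lit 17) (nat_lit 181))))))) (cs (nd (nat_lit 182) (nat_lit 0) (cs (lf (nat_lit 0) (nat_lit 180)) (rf (nat_lit 1)))) (nd (nat_lit 182) (nat_lit 0) (cs (lf (nat_lit 0) (nat_lit 180)) (nd (nat_lit 162) (nat_lit 0) (cs (lf (nat_lit 36) (nat_lit 139)) (lf (nat_lit 17) (nat_lit 159)))))))))) (nd (nat_lit 249) (nat_lit 0) (cs (lf (nat_lit 30) (nat_lit 183)) (nd (nat_lit 250) (nat_lit 0) (cs (lf (nat_lit 29) (nat_lit 183)) (nd (nat_lit 248) (nat_lit 0) (cs (lf (nat_lit 41) (nat_lit 182)) (nd (nat_lit 226) (nat_lit 0) (cs (lf (nat_lit 36) (nat_lit 160)) (nd (nat_lit 225) (nat_lit 0) (cs (lf (nat_lit 12) (nat_lit 202)) (lf (nat_lit 18) (nat_lit 225))))))))))))))) q27319 (by decide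 +kernel)
def q27348 : Q := Q.p (nat_lit 0x4000010000040000000000000000000000000000000000000000) (nat_lit 0x18000020000080001800003e0000e00002800000000000000000000000) (nat_lit 6)
theorem c27348 : QOK q27348 := cut [q24057, q27346, q27347] ⟨c24057, c27346, c27347, trivial⟩ (nd (nat_lit 140) (nat_lit 0) (cs (rf (nat_lit 0)) (cs (rf (nat_lit 1)) (rf (nat_lit 2))))) q27348 (by decide +kernel)
def q27416 : Q := Q.p (nat_lit 0x800002000001000004000010000000000000000000000000000000000000000000000) (nat_lit 0x80001780001e000020000080000200000e0000380000200000000000000000000000000000) (nat_lit 8)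
theorem c27416 : QOK q27416 := cut [q17204, q23725, q23798, q27415] ⟨c17204, c23725, c23798, c27415, trivial⟩ (nd (nat_lit 250) (nat_lit 0) (cs (rf (nat_lit 0)) (cs (rf (nat_lit 1)) (cs (nd (nat_lit 185) (nat_lit 0) (cs (lf (nat_lit 35) (nat_lit 162)) (nd (nat_lit 249) (nat_lit 0) (cs (lf (nat_lit 41) (nat_lit 183)) (nd (nat_lit 272) (nat_lit 0) (cs (lf (nat_lit 34) (nat_lit 184)) (rf (nat_lit 2)))))))) (rf (nat_lit 3)))))) q27416 (by decide +kernel)
def q27418 : Q := Q.p (nat_lit 0x800002000001000014000010000000000000000000000000000000000000000000000) (nat_lit 0x1780001e00000800068000020000080000000000000000000000000000000000000000) (nat_lit 6)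
theorem c27418 : QOK q27418 := cut [q23603, q23725, q21512] ⟨c23603, c23725, c21512, trivial⟩ (nd (nat_lit 250) (nat_lit 0) (cs (rf (nat_lit 0)) (cs (rf (nat_lit 1)) (nd (nat_lit 185) (nat_lit 0) (cs (lf (nat_lit 35) (nat_lit 162)) (rf (nat_lit 2))))))) q27418 (by decide +kernel)
def q27438 : Q := Q.p (nat_lit 0x800002000000000014000010000000000000000000000000000000000000000000000) (nat_lit 0x17c0001f00007e0006bc003af0000b00000c0000300000000000000000000000000000) (nat_lit 15)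
theorem c27438 : QOK q27438 := cut [q6790, q24929, q4164, q23725, q23924, q3353, q2411, q18967, q27431, q24184] ⟨c6790, c24929, c4164, c23725, c23924, c3353, c2411, c18967, c27431, c24184, trivial⟩ (nd (nat_lit 207) (nat_lit 0) (cs (rf (nat_lit 0)) (cs (rf (nat_lit 1)) (cs (nd (nat_lit 228) (nat_lit 0) (cs (rf (nat_lit 2)) (nd (nat_lit 250) (nat_lit 0) (cs (rf (nat_lit 3)) (rf (nat_lit 4)))))) (nd (nat_lit 205) (nat_lit 0) (cs (rf (nat_lit 5)) (cs (nd (nat_lit 226) (nat_lit 0) (cs (lf (nat_lit 10) (nat_lit 204)) (nd (nat_lit 204) (nat_lit 0) (cs (lf (nat_lit 11) (nat_lit 203)) (nd (nat_lit 203) (nat_lit 0) (cs (lf (nat_lit 17) (nat_lit 181)) (nd (nat_lit 183) (nat_lit 0) (cs (lf (nat_lit 12) (nat_lit 180)) (nd (nat_lit 139) (nat_lit 0) (cs (nd (nat_lit 248) (nat_lit 0) (cs (lf (nat_lit 30) (nat_lit 182)) (nd (nat_lit 180) (nat_lit 0) (cs (lf (nat_lit 22) (nat_lit 180)) (nd (nat_lit 228) (nat_lit 0) (cs (lf (nat_lit 5) (nat_lit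 203)) (nd (nat_lit 250) (nat_lit 0) (cs (lf (nat_lit 42) (nat_lit 183)) (rf (nat_lit 3)))))))))) (lf (nat_lit 37) (nat_lit 138)))))))))))) (cs (nd (nat_lit 183) (nat_lit 0) (cs (rf (nat_lit 6)) (nd (nat_lit 227) (nat_lit 0) (cs (lf (nat_lit 11) (nat_lit 204)) (rf (nat_lit 7)))))) (cs (rf (nat_lit 8)) (nd (nat_lit 182) (nat_lit 0) (cs (lf (nat_lit 22) (nat_lit 182)) (nd (nat_lit 226) (nat_lit 0) (cs (lf (nat_lit 10) (nat_lit 204)) (nd (nat_lit 204) (nat_lit 0) (cs (lf (nat_lit 11) (nat_lit 203)) (nd (nat_lit 185) (nat_lit 0) (cs (lf (nat_lit 12) (nat_lit 181)) (nd (nat_lit 229) (nat_lit 0) (cs (lf (nat_lit 5) (nat_lit 204)) (rf (nat_lit 9))))))))))))))))))))) q27438 (by decide +kernel)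
def q27504 : Q := Q.p (nat_lit 0x1c000010000000000000000000000000000000000000000000000) (nat_lit 0x80000200007f0000380002e000040000100000000000000000000000000000000000) (nat_lit 6)
theorem c27504 : QOK q27504 := cut [q3506, q6644, q27431] ⟨c3506, c6644, c27431, trivial⟩ (nd (nat_lit 205) (nat_lit 0) (cs (rf (nat_lit 0)) (cs (rf (nat_lit 1)) (rf (nat_lit 2))))) q27504 (by decide +kernel)
def q27509 : Q := Q.p (nat_lit 0x1000014000010000000000000000000000000000000000000000000000) (nat_lit 0x200000e0002a0000000000e0000380000a00000000000000000000000000000) (nat_lit 5)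
theorem c27509 : QOK q27509 := cut [q1273, q21550] ⟨c1273, c21550, trivial⟩ (nd (nat_lit 162) (nat_lit 0) (cs (rf (nat_lit 0)) (rf (nat_lit 1)))) q27509 (by decide +kernel)
def q27557 : Q := Q.p (nat_lit 0x800002000008000014000000000000000000000000000000000000000000000000000) (nat_lit 0x100000600001500001c00013e0006a0001a0000480000200000000000000000000000000000000000) (nat_lit 10)
theorem c27557 : QOK q27557 := cut [q26053, q26056, q26368, q4164, q1496] ⟨c26053, c26056, c26368, c4164, c1496, trivial⟩ (nd (nat_lit 209) (nat_lit 0) (cs (rf (nat_lit 0)) (cs (rf (nat_lit 1)) (cs (rf (nat_lit 2)) (nd (nat_lit 207) (nat_lit 0) (cs (lf (nat_lit 5) (nat_lit 206)) (nd (nat_lit 276) (nat_lit 0) (cs (lf (nat_lit 29) (nat_lit 209)) (nd (nat_lit 228) (nat_lit 0) (cs (rf (nat_lit 3)) (nd (nat_lit 187) (nat_lit 0) (cs (lf (nat_lit 17) (nat_lit 184)) (nd (nat_lit 252) (nat_lit 0) (cs (lf (nat_lit 41) (nat_lit 186)) (nd (nat_lit 250) (nat_lit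 0) (cs (lf (nat_lit 1) (nat_lit 250)) (rf (nat_lit 4)))))))))))))))))) q27557 (by decide +kernel)
def q27635 : Q := Q.p (nat_lit 0x800002400001000004000000000000000000000000000000000000000000000000000) (nat_lit 0x1680001a000000000000000380000e0000280000000000000000000000000000000000) (nat_lit 5)
theorem c27635 : QOK q27635 := cut [q3767, q23725] ⟨c3767, c23725, trivial⟩ (nd (nat_lit 184) (nat_lit 0) (cs (rf (nat_lit 0)) (rf (nat_lit 1)))) q27635 (by decide +kernel)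
def q27698 : Q := Q.p (nat_lit 0x80000200000100001c000000000000000000000000000000000000000000000000000) (nat_lit 0xf00007c0001fc0002f80003c0002f000020000080000000000000000000000000000000000) (nat_lit 9)
theorem c27698 : QOK q27698 := cut [q18354, q24375, q27140, q27681, q4163, q24425, q23794, q4939, q3997, q27688, q27694] ⟨c18354, c24375, c27140, c27681, c4163, c24425, c23794, c4939, c3997, c27688, c27694, trivial⟩ (nd (nat_lit 205) (nat_lit 0) (cs (rf (nat_lit 0)) (cs (rf (nat_lit 1)) (cs (nd (nat_lit 182) (nat_lit 0) (cs (lf (nat_lit 22) (nat_lit 182)) (nd (nat_lit 204) (nat_lit 0) (cs (lf (nat_lit 23) (nat_lit 181)) (nd (nat_lit 203) (nat_lit 0) (cs (lf (nat_lit 5) (nat_lit 203)) (rf (nat_lit 2)))))))) (cs (rf (nat_lit 3)) (cs (nd (nat_lit 227) (nat_lit 0) (cs (rf (nat_lit 4)) (nd (nat_lit 249) (nat_lit 0) (cs (rf (nat_lit 5)) (cs (nd (nat_lit 271) (nat_lit 0) (cs (lf (nat_lit 30) (nat_lit 205)) (nd (nat_lit 272) (nat_lit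 0) (cs (lf (nat_lit 29) (nat_lit 205)) (rf (nat_lit 6)))))) (cs (nd (nat_lit 271) (nat_lit 0) (cs (lf (nat_lit 30) (nat_lit 205)) (nd (nat_lit 270) (nat_lit 0) (cs (lf (nat_lit 41) (nat_lit 204)) (nd (nat_lit 183) (nat_lit 0) (cs (lf (nat_lit 40) (nat_lit 182)) (rf (nat_lit 7)))))))) (nd (nat_lit 250) (nat_lit 0) (cs (rf (nat_lit 8)) (nd (nat_lit 251) (nat_lit 0) (cs (lf (nat_lit 19) (nat_lit 227)) (nd (nat_lit 183) (nat_lit 0) (cs (lf (nat_lit 24) (nat_lit 161)) (rf (nat_lit 9)))))))))))))) (nd (nat_lit 227) (nat_lit 0) (cs (lf (nat_lit 11) (nat_lit 204)) (nd (nat_lit 182) (nat_lit 0) (cs (lf (nat_lit 22) (nat_lit 182)) (nd (nat_lit 204) (nat_lit 0) (cs (lf (nat_lit 23) (nat_lit 181)) (rf (nat_lit 10)))))))))))))) q27698 (by decide +kernel)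
def q27967 : Q := Q.p (nat_lit 0x1c0000000000200000800000000000000000000000000000000000000000000000000000000000000000000) (nat_lit 0x200001b8000620001f00001400004000000000000000000000000000000000000000000000000000000000000000000000) (nat_lit 6)
theorem c27967 : QOK q27967 := cut [q27955, q27966] ⟨c27955, c27966, trivial⟩ (nd (nat_lit 345) (nat_lit 0) (cs (rf (nat_lit 0)) (rf (nat_lit 1)))) q27967 (by decide +kernel)
def q28039 : Q := Q.p (nat_lit 0x3c0000000000200000800000000000000000000000000000000000000000000000000000000000000000000) (nat_lit 0x1ce000030000060000100000000000000000000000000000000000000000000000000000000000000000000000000) (nat_lit 6)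
theorem c28039 : QOK q28039 := cut [q28038] ⟨c28038, trivial⟩ (nd (nat_lit 367) (nat_lit 0) (cs (lf (nat_lit 5) (nat_lit 342)) (rf (nat_lit 0)))) q28039 (by decide +kernel)
def q28066 : Q := Q.p (nat_lit 0x1c0000000000200000800000000000000000000000000000000000000000000000000000000000000000000) (nat_lit 0x1fe000630000360000500000000000000000000000000000000000000000000000000000000000000000000000000) (nat_lit 6)
theorem c28066 : QOK q28066 := cut [q28038, q27966, q28065] ⟨c28038, c27966, c28065, trivial⟩ (nd (nat_lit 367) (nat_lit 0) (cs (rf (nat_lit 0)) (cs (nd (nat_lit 345) (nat_lit 0) (cs (lf (nat_lit 5) (nat_lit 342)) (rf (nat_lit 1)))) (rf (nat_lit 2))))) q28066 (by decide +kernel)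
def q28068 : Q := Q.p (nat_lit 0x1c0000000000200000800000000000000000000000000000000000000000000000000000000000000000000) (nat_lit 0x3e000630003f60000500000000000000000000000000000000000000000000000000000000000000000000000000) (nat_lit 6)
theorem c28068 : QOK q28068 := cut [q28037, q28042, q28067] ⟨c28037, c28042, c28067, trivial⟩ (nd (nat_lit 323) (nat_lit 0) (cs (rf (nat_lit 0)) (cs (rf (nat_lit 1)) (rf (nat_lit 2))))) q28068 (by decide +kernel)
def q28098 : Q := Q.p (nat_lit 0x1c0000000000200000800000000000000000000000000000000000000000000000000000000000000000000) (nat_lit 0x200003b0000620003f00001400004000000000000000000000000000000000000000000000000000000000000000000000) (nat_lit 6)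
theorem c28098 : QOK q28098 := cut [q27955] ⟨c27955, trivial⟩ (nd (nat_lit 345) (nat_lit 0) (cs (rf (nat_lit 0)) (cs (nd (nat_lit 324) (nat_lit 0) (cs (lf (nat_lit 16) (nat_lit 320)) (nd (nat_lit 346) (nat_lit 0) (cs (lf (nat_lit 17) (nat_lit 321)) (nd (nat_lit 320) (nat_lit 0) (cs (lf (nat_lit 22) (nat_lit 320)) (nd (nat_lit 364) (nat_lit 0) (cs (lf (nat_lit 10) (nat_lit 342)) (lf (nat_lit 45) (nat_lit 275)))))))))) (nd (nat_lit 368) (nat_lit 0) (cs (lf (nat_lit 4) (nat_lit 342)) (nd (nat_lit 346) (nat_lit 0) (cs (lf (nat_lit 5) (nat_lit 343)) (nd (nat_lit 364) (nat_lit 0) (cs (lf (nat_lit 10) (nat_lit 342)) (nd (nat_lit 320) (nat_lit 0) (cs (lf (nat_lit 22) (nat_lit 320)) (lf (nat_lit 45) (nat_lit 275))))))))))))) q28098 (by decide +kernel)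
def q28276 : Q := Q.p (nat_lit 0xc0000000000f00000800000000000000000000000000000000000000000000000000000000000000000000) (nat_lit 0x40a003df800f3e00fa5800f0c00ff3800e0000280000800000000000000000000000000000000000000000000000000000) (nat_lit 12)
theorem c28276 : QOK q28276 := cut [q28143, q28145, q28164, q28165, q28168, q28170, q28256, q28244, q28270] ⟨c28143, c28145, c28164, c28165, c28168, c28170, c28256, c28244, c28270, trivial⟩ (nd (nat_lit 301) (nat_lit 0) (cs (nd (nat_lit 300) (nat_lit 0) (cs (lf (nat_lit 22) (nat_lit 275)) (rf (nat_lit 0)))) (cs (nd (nat_lit 276) (nat_lit 0) (cs (lf (nat_lit 19) (nat_lit 275)) (rf (nat_lit 1)))) (cs (rf (nat_lit 2)) (nd (nat_lit 324) (nat_lit 0) (cs (nd (nat_lit 300) (nat_lit 0) (cs (lf (nat_lit 4) (nat_lit 298)) (nd (nat_lit 280) (nat_lit 0) (cs (lf (nat_lit 16) (nat_lit 276)) (rf (nat_lit 3)))))) (cs (nd (nat_lit 302) (nat_lit 0) (cs (nd (nat_lit 300) (nat_lit 0) (cs (lf (nat_lit 5)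 (nat_lit 299)) (rf (nat_lit 4)))) (cs (nd (nat_lit 278) (nat_lit 0) (cs (lf (nat_lit 16) (nat_lit 274)) (nd (nat_lit 279) (nat_lit 0) (cs (lf (nat_lit 15) (nat_lit 275)) (nd (nat_lit 346) (nat_lit 0) (cs (rf (nat_lit 5)) (lf (nat_lit 42) (nat_lit 279)))))))) (cs (nd (nat_lit 281) (nat_lit 0) (cs (nd (nat_lit 300) (nat_lit 0) (cs (lf (nat_lit 5) (nat_lit 299)) (lf (nat_lit 16) (nat_lit 277)))) (cs (nd (nat_lit 277) (nat_lit 0) (cs (lf (nat_lit 17) (nat_lit 274)) (nd (nat_lit 280) (nat_lit 0) (cs (nd (nat_lit 282) (nat_lit 0) (cs (nd (nat_lit 259) (nat_lit 0) (cs (nd (nat_lit 237) (nat_lit 0) (cs (lf (nat_lit 36) (nat_lit 214)) (lf (nat_lit 39) (nat_lit 236)))) (lf (nat_lit 30) (nat_lit 258)))) (lf (nat_lit 6) (nat_lit 279)))) (lf (nat_lit 13) (nat_lit 277)))))) (cs (nd (nat_lit 277) (nat_lit 0) (cs (lf (nat_lit 17) (nat_lit 274)) (nd (nat_lit 321) (nat_lit 0) (cs (lf (nat_lit 41) (nat_lit 276)) (nd (nat_lit 344) (nat_lit 0)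 (cs (lf (nat_lit 29) (nat_lit 277)) (nd (nat_lit 325) (nat_lit 0) (cs (nd (nat_lit 326) (nat_lit 0) (cs (nd (nat_lit 346) (nat_lit 0) (cs (nd (nat_lit 303) (nat_lit 0) (cs (lf (nat_lit 36) (nat_lit 258)) (lf (nat_lit 30) (nat_lit 280)))) (lf (nat_lit 14) (nat_lit 321)))) (lf (nat_lit 18) (nat_lit 301)))) (lf (nat_lit 1) (nat_lit 299)))))))))) (nd (nat_lit 259) (nat_lit 0) (cs (nd (nat_lit 277) (nat_lit 0) (cs (lf (nat_lit 17) (nat_lit 274)) (nd (nat_lit 321) (nat_lit 0) (cs (lf (nat_lit 41) (nat_lit 276)) (nd (nat_lit 344) (nat_lit 0) (cs (lf (nat_lit 29) (nat_lit 277)) (nd (nat_lit 346) (nat_lit 0) (cs (nd (nat_lit 303) (nat_lit 0) (cs (lf (nat_lit 30) (nat_lit 280)) (lf (nat_lit 39) (nat_lit 258)))) (lf (nat_lit 33) (nat_lit 258)))))))))) (cs (nd (nat_lit 280) (nat_lit 0) (cs (lf (nat_lit 30) (nat_lit 258)) (nd (nat_lit 237) (nat_lit 0) (cs (lf (nat_lit 36) (nat_lit 214)) (lf (nat_lit 33) (nat_lit 236)))))) (cs (nd (nat_lit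 277) (nat_lit 0) (cs (lf (nat_lit 17) (nat_lit 274)) (nd (nat_lit 321) (nat_lit 0) (cs (lf (nat_lit 41) (nat_lit 276)) (nd (nat_lit 344) (nat_lit 0) (cs (lf (nat_lit 29) (nat_lit 277)) (nd (nat_lit 303) (nat_lit 0) (cs (nd (nat_lit 346) (nat_lit 0) (cs (lf (nat_lit 30) (nat_lit 280)) (lf (nat_lit 39) (nat_lit 258)))) (lf (nat_lit 36) (nat_lit 236)))))))))) (nd (nat_lit 237) (nat_lit 0) (cs (lf (nat_lit 39) (nat_lit 236)) (nd (nat_lit 280) (nat_lit 0) (cs (lf (nat_lit 36) (nat_lit 214)) (lf (nat_lit 33) (nat_lit 236)))))))))))))) (cs (rf (nat_lit 6)) (nd (nat_lit 277) (nat_lit 0) (cs (lf (nat_lit 17) (nat_lit 274)) (nd (nat_lit 321) (nat_lit 0) (cs (lf (nat_lit 41) (nat_lit 276)) (nd (nat_lit 344) (nat_lit 0) (cs (lf (nat_lit 29) (nat_lit 277)) (nd (nat_lit 325) (nat_lit 0) (cs (lf (nat_lit 1) (nat_lit 299)) (nd (nat_lit 326) (nat_lit 0) (cs (lf (nat_lit 18) (nat_lit 301)) (nd (nat_lit 346) (nat_lit 0) (cs (lf (nat_lit 14)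 (nat_lit 321)) (rf (nat_lit 7))))))))))))))))))) (cs (nd (nat_lit 277) (nat_lit 0) (cs (lf (nat_lit 17) (nat_lit 274)) (nd (nat_lit 321) (nat_lit 0) (cs (lf (nat_lit 41) (nat_lit 276)) (nd (nat_lit 344) (nat_lit 0) (cs (lf (nat_lit 29) (nat_lit 277)) (nd (nat_lit 323) (nat_lit 0) (cs (lf (nat_lit 15) (nat_lit 320)) (lf (nat_lit 2) (nat_lit 298)))))))))) (nd (nat_lit 277) (nat_lit 0) (cs (lf (nat_lit 17) (nat_lit 274)) (nd (nat_lit 321) (nat_lit 0) (cs (lf (nat_lit 41) (nat_lit 276)) (nd (nat_lit 344) (nat_lit 0) (cs (lf (nat_lit 29) (nat_lit 277)) (nd (nat_lit 345) (nat_lit 0) (cs (lf (nat_lit 16) (nat_lit 320)) (rf (nat_lit 8)))))))))))))))))) q28276 (by decide +kernel)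
def q28280 : Q := Q.p (nat_lit 0xf00000000000000000000000000000000000000000000000000000000000000000000000000) (nat_lit 0x380000c0007380000000000000000000000000000000000000000000000000000000000000000000) (nat_lit 6)
theorem c28280 : QOK q28280 := cut [q28279] ⟨c28279, trivial⟩ (nd (nat_lit 277) (nat_lit 0) (cs (lf (nat_lit 17) (nat_lit 274)) (rf (nat_lit 0)))) q28280 (by decide +kernel)
def q28305 : Q := Q.p (nat_lit 0xe00000800002000000000000000000000000000000000000000000000000000000000000000) (nat_lit 0x100001c0000310001f000039000060000100000000000000000000000000000000000000000000000000000) (nat_lit 9)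
theorem c28305 : QOK q28305 := cut [q28299, q28302, q28303, q28289] ⟨c28299, c28302, c28303, c28289, trivial⟩ (nd (nat_lit 278) (nat_lit 0) (cs (rf (nat_lit 0)) (cs (rf (nat_lit 1)) (cs (rf (nat_lit 2)) (nd (nat_lit 277) (nat_lit 0) (cs (lf (nat_lit 12) (nat_lit 274)) (rf (nat_lit 3)))))))) q28305 (by decide +kernel)
def q28308 : Q := Q.p (nat_lit 0x780001800000000000000000000000000000000000000000000000000000000000000000000) (nat_lit 0xe70003800000300000000000000000000000000000000000000000000000000000000000000000000) (nat_lit 6)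
theorem c28308 : QOK q28308 := cut [q28307] ⟨c28307, trivial⟩ (nd (nat_lit 272) (nat_lit 0) (cs (lf (nat_lit 22) (nat_lit 272)) (rf (nat_lit 0)))) q28308 (by decide +kernel)
def q28406 : Q := Q.p (nat_lit 0x3c0000000000200000800000000000000000000000000000000000000000000000000000000000000000000) (nat_lit 0xe000030001c60000100000000000000000000000000000000000000000000000000000000000000000000000000) (nat_lit 6)
theorem c28406 : QOK q28406 := cut [q28042] ⟨c28042, trivial⟩ (nd (nat_lit 323) (nat_lit 0) (cs (lf (nat_lit 17) (nat_lit 320)) (rf (nat_lit 0)))) q28406 (by decide +kernel)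
def q28474 : Q := Q.p (nat_lit 0x40000c0000200000200000800000000000000000000000000000000000000000000000000000000000000000000) (nat_lit 0x200003800057c0005e00073c0000000000000000000000000000000000000000000000000000000000000000000) (nat_lit 8)
theorem c28474 : QOK q28474 := cut [q11728, q28469, q28471] ⟨c11728, c28469, c28471, trivial⟩ (nd (nat_lit 340) (nat_lit 0) (cs (nd (nat_lit 341) (nat_lit 0) (cs (lf (nat_lit 11) (nat_lit 339)) (lf (nat_lit 17) (nat_lit 318)))) (nd (nat_lit 296) (nat_lit 0) (cs (lf (nat_lit 32) (nat_lit 274)) (nd (nat_lit 295) (nat_lit 0) (cs (rf (nat_lit 0)) (cs (nd (nat_lit 298) (nat_lit 0) (cs (lf (nat_lit 4) (nat_lit 295)) (rf (nat_lit 1)))) (rf (nat_lit 2))))))))) q28474 (by decide +kernel)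
def q28563 : Q := Q.p (nat_lit 0x1c0000400001200000800002000000000000000000000000000000000000000000000000000000000000000) (nat_lit 0x80000e0000380000c0000000000300002d0000f0000390000a0000000000000000000000000000000000000000000000000000000000) (nat_lit 11)
theorem c28563 : QOK q28563 := cut [q28000, q28490, q28549, q28562] ⟨c28000, c28490, c28549, c28562, trivial⟩ (nd (nat_lit 278) (nat_lit 0) (cs (rf (nat_lit 0)) (cs (rf (nat_lit 1)) (cs (nd (nat_lit 255) (nat_lit 0) (cs (lf (nat_lit 46) (nat_lit 255)) (nd (nat_lit 279) (nat_lit 0) (cs (lf (nat_lit 35) (nat_lit 256)) (nd (nat_lit 298) (nat_lit 0) (cs (nd (nat_lit 276) (nat_lit 0) (cs (lf (nat_lit 43) (nat_lit 253)) (nd (nat_lit 366) (nat_lit 0) (cs (lf (nat_lit 34) (nat_lit 278)) (nd (nat_lit 389) (nat_lit 0) (cs (nd (nat_lit 388) (nat_lit 0) (cs (lf (nat_lit 29) (nat_lit 322)) (rf (nat_lit 2)))) (lf (nat_lit 28) (nat_lit 300)))))))) (lf (nat_lit 14) (nat_lit 275)))))))) (rf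 (nat_lit 3)))))) q28563 (by decide +kernel)
def q28564 : Q := Q.p (nat_lit 0x180000400001200000800002000000000000000000000000000000000000000000000000000000000000000) (nat_lit 0x2000000000000000010000f000039000080000000000000000000000000000000000000000000000000000000000) (nat_lit 6)
theorem c28564 : QOK q28564 := cut [q28562] ⟨c28562, trivial⟩ (nd (nat_lit 278) (nat_lit 0) (cs (lf (nat_lit 41) (nat_lit 277)) (rf (nat_lit 0)))) q28564 (by decide +kernel)
def q28647 : Q := Q.p (nat_lit 0x1c0000000000200000800000000000000000000000000000000000000000000000000000000000000000000) (nat_lit 0x200003ee000230001c60001100004000000000000000000000000000000000000000000000000000000000000000000000) (nat_lit 6)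
theorem c28647 : QOK q28647 := cut [q28038, q27950, q28646] ⟨c28038, c27950, c28646, trivial⟩ (nd (nat_lit 367) (nat_lit 0) (cs (rf (nat_lit 0)) (cs (nd (nat_lit 345) (nat_lit 0) (cs (lf (nat_lit 5) (nat_lit 342)) (nd (nat_lit 323) (nat_lit 0) (cs (lf (nat_lit 17) (nat_lit 320)) (nd (nat_lit 322) (nat_lit 0) (cs (rf (nat_lit 1)) (lf (nat_lit 12) (nat_lit 319)))))))) (rf (nat_lit 2))))) q28647 (by decide +kernel)
def q28739 : Q := Q.p (nat_lit 0xe00000800002000000000000000000000000000000000000000000000000000000000000000) (nat_lit 0x1c0000310001f0000390000e0000380000000000000000000000000000000000000000000000000000) (nat_lit 10)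
theorem c28739 : QOK q28739 := cut [q28299, q28302, q28303] ⟨c28299, c28302, c28303, trivial⟩ (nd (nat_lit 278) (nat_lit 0) (cs (rf (nat_lit 0)) (cs (rf (nat_lit 1)) (cs (rf (nat_lit 2)) (nd (nat_lit 277) (nat_lit 0) (cs (lf (nat_lit 12) (nat_lit 274)) (nd (nat_lit 276) (nat_lit 0) (cs (lf (nat_lit 23) (nat_lit 252)) (nd (nat_lit 256) (nat_lit 0) (cs (lf (nat_lit 17) (nat_lit 253)) (nd (nat_lit 234) (nat_lit 0) (cs (lf (nat_lit 36) (nat_lit 211)) (nd (nat_lit 300) (nat_lit 0) (cs (lf (nat_lit 18) (nat_lit 275)) (nd (nat_lit 213) (nat_lit 0) (cs (lf (nat_lit 34) (nat_lit 212)) (nd (nat_lit 322) (nat_lit 0) (cs (lf (nat_lit 5) (nat_lit 297)) (nd (nat_lit 233) (nat_lit 0) (cs (lf (nat_lit 25) (nat_lit 233)) (lf (nat_lit 47) (nat_lit 211)))))))))))))))))))))) q28739 (by decide +kernel)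
def q28792 : Q := Q.p (nat_lit 0x600000600000000000000000000000000000000000000000000000000000000000000000000000000) (nat_lit 0x1380009c0000380000000000000000000000000000000000000000000000000000000000000000000) (nat_lit 6)
theorem c28792 : QOK q28792 := cut [q28791] ⟨c28791, trivial⟩ (nd (nat_lit 296) (nat_lit 0) (cs (lf (nat_lit 3) (nat_lit 296)) (rf (nat_lit 0)))) q28792 (by decide +kernel)
def q28963 : Q := Q.p (nat_lit 0x3c0000000000200000800000000000000000000000000000000000000000000000000000000000000000000) (nat_lit 0xe0000380000f80007e000420000100000400000000000000000000000000000000000000000000000000000000000000000000000000) (nat_lit 8)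
theorem c28963 : QOK q28963 := cut [q28338, q28961] ⟨c28338, c28961, trivial⟩ (nd (nat_lit 364) (nat_lit 0) (cs (rf (nat_lit 0)) (nd (nat_lit 365) (nat_lit 0) (cs (lf (nat_lit 6) (nat_lit 342)) (rf (nat_lit 1)))))) q28963 (by decide +kernel)
def q29006 : Q := Q.p (nat_lit 0x1c0000000000000000000000000000000000000000000000000000000000000000000000000000000000000) (nat_lit 0x280007f7000e38007c70001000004000000000000000000000000000000000000000000000000000000000000000000000) (nat_lit 9)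
theorem c29006 : QOK q29006 := cut [q27955, q28987, q28996, q29001] ⟨c27955, c28987, c28996, c29001, trivial⟩ (nd (nat_lit 345) (nat_lit 0) (cs (rf (nat_lit 0)) (cs (rf (nat_lit 1)) (cs (nd (nat_lit 368) (nat_lit 0) (cs (lf (nat_lit 4) (nat_lit 342)) (nd (nat_lit 346) (nat_lit 0) (cs (lf (nat_lit 5) (nat_lit 343)) (nd (nat_lit 325) (nat_lit 0) (cs (lf (nat_lit 16) (nat_lit 321)) (nd (nat_lit 365) (nat_lit 0) (cs (lf (nat_lit 11) (nat_lit 342)) (nd (nat_lit 347) (nat_lit 0) (cs (lf (nat_lit 17) (nat_lit 322)) (lf (nat_lit 10) (nat_lit 343)))))))))))) (cs (nd (nat_lit 323) (nat_lit 0) (cs (lf (nat_lit 17) (nat_lit 320)) (nd (nat_lit 341) (nat_lit 0) (cs (lf (nat_lit 16) (nat_lit 319)) (nd (nat_lit 366) (nat_lit 0) (cs (lf (nat_lit 5) (nat_lit 341)) (rf (nat_lit 2)))))))) (nd (nat_lit 368) (nat_lit 0) (cs (lf (nat_lit 4) (nat_lit 342)) (nd (nat_lit 346) (nat_lit 0) (cs (lf (nat_lit 5) (nat_lit 343)) (nd (nat_lit 365) (nat_lit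 0) (cs (lf (nat_lit 11) (nat_lit 342)) (nd (nat_lit 366) (nat_lit 0) (cs (lf (nat_lit 6) (nat_lit 343)) (rf (nat_lit 3))))))))))))))) q29006 (by decide +kernel)
def q29093 : Q := Q.p (nat_lit 0x1c0000000000200000800000000000000000000000000000000000000000000000000000000000000000000) (nat_lit 0x100003f8000600003d00007c0001d000060000100000000000000000000000000000000000000000000000000000000000) (nat_lit 11)
theorem c29093 : QOK q29093 := cut [q28054, q28093, q28334, q29092] ⟨c28054, c28093, c28334, c29092, trivial⟩ (nd (nat_lit 345) (nat_lit 0) (cs (rf (nat_lit 0)) (cs (rf (nat_lit 1)) (cs (rf (nat_lit 2)) (rf (nat_lit 3)))))) q29093 (by decide +kernel)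
def q29152 : Q := Q.p (nat_lit 0xc0000300000200000800002000000000000000000000000000000000000000000000000000000000000000) (nat_lit 0x700001c000036000138000c60001900007000019000000000000000000000000000000000000000000000000000000000000000) (nat_lit 11)
theorem c29152 : QOK q29152 := cut [q29132, q29136, q29137, q29140, q29142, q29144] ⟨c29132, c29136, c29137, c29140, c29142, c29144, trivial⟩ (nd (nat_lit 341) (nat_lit 0) (cs (rf (nat_lit 0)) (cs (rf (nat_lit 1)) (nd (nat_lit 322) (nat_lit 0) (cs (lf (nat_lit 6) (nat_lit 319)) (nd (nat_lit 365) (nat_lit 0) (cs (rf (nat_lit 2)) (cs (nd (nat_lit 278) (nat_lit 0) (cs (rf (nat_lit 3)) (rf (nat_lit 4)))) (nd (nat_lit 387) (nat_lit 0) (cs (lf (nat_lit 42) (nat_lit 320)) (nd (nat_lit 386) (nat_lit 0) (cs (lf (nat_lit 41) (nat_lit 320)) (nd (nat_lit 299) (nat_lit 0) (cs (nd (nat_lit 388) (nat_lit 0) (cs (lf (nat_lit 29) (nat_lit 321)) (rf (nat_lit 5)))) (lf (nat_lit 31) (nat_lit 298))))))))))))))))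 q29152 (by decide +kernel)
def q29185 : Q := Q.p (nat_lit 0xc0000200000200000800002000000000000000000000000000000000000000000000000000000000000000) (nat_lit 0x20000130001d00003d0003f000039000080000200000000000000000000000000000000000000000000000000000) (nat_lit 9)
theorem c29185 : QOK q29185 := cut [q29158, q28594, q29160, q29175, q29179, q29182, q29184] ⟨c29158, c28594, c29160, c29175, c29179, c29182, c29184, trivial⟩ (nd (nat_lit 322) (nat_lit 0) (cs (nd (nat_lit 299) (nat_lit 0) (cs (nd (nat_lit 340) (nat_lit 0) (cs (lf (nat_lit 13) (nat_lit 318)) (rf (nat_lit 0)))) (cs (nd (nat_lit 277) (nat_lit 0) (cs (rf (nat_lit 1)) (rf (nat_lit 2)))) (cs (rf (nat_lit 3)) (nd (nat_lit 340) (nat_lit 0) (cs (lf (nat_lit 13) (nat_lit 318)) (rf (nat_lit 4)))))))) (cs (rf (nat_lit 5)) (rf (nat_lit 6))))) q29185 (by decide +kernel)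
def q29246 : Q := Q.p (nat_lit 0xc0000200000200000800002000000000000000000000000000000000000000000000000000000000000000) (nat_lit 0x1000004000030000130001c00003d0000f000011000000000000000000000000000000000000000000000000000000000000000) (nat_lit 7)
theorem c29246 : QOK q29246 := cut [q29235, q29179, q29182, q29245] ⟨c29235, c29179, c29182, c29245, trivial⟩ (nd (nat_lit 299) (nat_lit 0) (cs (rf (nat_lit 0)) (cs (nd (nat_lit 322) (nat_lit 0) (cs (rf (nat_lit 1)) (rf (nat_lit 2)))) (rf (nat_lit 3))))) q29246 (by decide +kernel)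
def q29472 : Q := Q.p (nat_lit 0xc0000200000200000800000000000000000000000000000000000000000000000000000000000000000000) (nat_lit 0x1000004000030000130001d00003d0003e000038000080000200000000000000000000000000000000000000000000000000000) (nat_lit 9)
theorem c29472 : QOK q29472 := cut [q29182, q29184, q29175, q29245, q28908, q29470] ⟨c29182, c29184, c29175, c29245, c28908, c29470, trivial⟩ (nd (nat_lit 322) (nat_lit 0) (cs (rf (nat_lit 0)) (cs (rf (nat_lit 1)) (nd (nat_lit 299) (nat_lit 0) (cs (rf (nat_lit 2)) (cs (rf (nat_lit 3)) (cs (nd (nat_lit 340) (nat_lit 0) (cs (lf (nat_lit 13) (nat_lit 318)) (nd (nat_lit 298) (nat_lit 0) (cs (lf (nat_lit 0) (nat_lit 296)) (nd (nat_lit 364) (nat_lit 0) (cs (lf (nat_lit 44) (nat_lit 275)) (rf (nat_lit 4)))))))) (rf (nat_lit 5))))))))) q29472 (by decide +kernel)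
def q29474 : Q := Q.p (nat_lit 0xc0000200000200000800002000000000000000000000000000000000000000000000000000000000000000) (nat_lit 0x1000004000030000000001d00001d00007000011000000000000000000000000000000000000000000000000000000000000000) (nat_lit 5)
theorem c29474 : QOK q29474 := cut [q29235, q29245, q28725, q29157] ⟨c29235, c29245, c28725, c29157, trivial⟩ (nd (nat_lit 299) (nat_lit 0) (cs (rf (nat_lit 0)) (cs (rf (nat_lit 1)) (nd (nat_lit 298) (nat_lit 0) (cs (rf (nat_lit 2)) (rf (nat_lit 3))))))) q29474 (by decide +kernel)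
def q29550 : Q := Q.p (nat_lit 0x100000c0000000000200000800002000000000000000000000000000000000000000000000000000000000000000) (nat_lit 0x180000f8000f80003f8003ce000720003b00000c00001000000000000000000000000000000000000000000000000000000000000000000000) (nat_lit 13)
theorem c29550 : QOK q29550 := cut [q29501, q29231, q11848, q28335, q29523, q29549] ⟨c29501, c29231, c11848, c28335, c29523, c29549, trivial⟩ (nd (nat_lit 386) (nat_lit 0) (cs (rf (nat_lit 0)) (cs (nd (nat_lit 363) (nat_lit 0) (cs (rf (nat_lit 1)) (cs (nd (nat_lit 320) (nat_lit 0) (cs (rf (nat_lit 2)) (nd (nat_lit 387) (nat_lit 0) (cs (lf (nat_lit 29) (nat_lit 320)) (nd (nat_lit 388) (nat_lit 0) (cs (lf (nat_lit 18) (nat_lit 363)) (nd (nat_lit 344) (nat_lit 0) (cs (rf (nat_lit 3)) (nd (nat_lit 321) (nat_lit 0) (cs (lf (nat_lit 35) (nat_lit 298)) (nd (nat_lit 385) (nat_lit 0) (cs (lf (nat_lit 41) (nat_lit 319)) (nd (nat_lit 410) (nat_lit 0) (cs (lf (nat_lit 5) (nat_lit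 385)) (lf (nat_lit 44) (nat_lit 321)))))))))))))))) (rf (nat_lit 4))))) (cs (nd (nat_lit 408) (nat_lit 0) (cs (nd (nat_lit 409) (nat_lit 0) (cs (lf (nat_lit 29) (nat_lit 342)) (nd (nat_lit 429) (nat_lit 0) (cs (nd (nat_lit 430) (nat_lit 0) (cs (nd (nat_lit 427) (nat_lit 0) (cs (nd (nat_lit 410) (nat_lit 0) (cs (nd (nat_lit 363) (nat_lit 0) (cs (nd (nat_lit 344) (nat_lit 0) (cs (lf (nat_lit 6) (nat_lit 341)) (nd (nat_lit 361) (nat_lit 0) (cs (nd (nat_lit 385) (nat_lit 0) (cs (nd (nat_lit 384) (nat_lit 0) (cs (lf (nat_lit 3) (nat_lit 384)) (lf (nat_lit 0) (nat_lit 383)))) (lf (nat_lit 42) (nat_lit 363)))) (lf (nat_lit 13) (nat_lit 339)))))) (lf (nat_lit 47) (nat_lit 341)))) (lf (nat_lit 6) (nat_lit 407)))) (lf (nat_lit 13) (nat_lit 405)))) (lf (nat_lit 41) (nat_lit 363)))) (lf (nat_lit 40) (nat_lit 341)))))) (lf (nat_lit 35) (nat_lit 320)))) (rf (nat_lit 5)))))) q29550 (by decide +kernel)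
def q29671 : Q := Q.p (nat_lit 0x100000c0000000000200000800000000000000000000000000000000000000000000000000000000000000000000) (nat_lit 0xb00003fc001fe0003fc001ee00033c000270000980002000000000000000000000000000000000000000000000000000000000000000000000) (nat_lit 12)
theorem c29671 : QOK q29671 := cut [q29231, q29498, q28993, q29599, q29607, q28411, q29648, q29208, q29664, q29670] ⟨c29231, c29498, c28993, c29599, c29607, c28411, c29648, c29208, c29664, c29670, trivial⟩ (nd (nat_lit 363) (nat_lit 0) (cs (rf (nat_lit 0)) (cs (nd (nat_lit 386) (nat_lit 0) (cs (rf (nat_lit 1)) (cs (nd (nat_lit 344) (nat_lit 0) (cs (lf (nat_lit 6) (nat_lit 341)) (nd (nat_lit 366) (nat_lit 0) (cs (nd (nat_lit 341) (nat_lit 0) (cs (lf (nat_lit 5) (nat_lit 341)) (nd (nat_lit 340) (nat_lit 0) (cs (nd (nat_lit 339) (nat_lit 0) (cs (rf (nat_lit 2)) (lf (nat_lit 0) (nat_lit 338)))) (lf (nat_lit 19) (nat_lit 340)))))) (cs (nd (nat_lit 388) (nat_lit 0) (cs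 (rf (nat_lit 3)) (cs (nd (nat_lit 387) (nat_lit 0) (cs (lf (nat_lit 18) (nat_lit 363)) (nd (nat_lit 367) (nat_lit 0) (cs (lf (nat_lit 0) (nat_lit 341)) (lf (nat_lit 12) (nat_lit 363)))))) (nd (nat_lit 341) (nat_lit 0) (cs (lf (nat_lit 5) (nat_lit 341)) (rf (nat_lit 4))))))) (nd (nat_lit 388) (nat_lit 0) (cs (rf (nat_lit 5)) (cs (rf (nat_lit 3)) (nd (nat_lit 389) (nat_lit 0) (cs (lf (nat_lit 20) (nat_lit 363)) (lf (nat_lit 2) (nat_lit 363)))))))))))) (cs (nd (nat_lit 344) (nat_lit 0) (cs (lf (nat_lit 6) (nat_lit 341)) (nd (nat_lit 408) (nat_lit 0) (cs (lf (nat_lit 35) (nat_lit 320)) (nd (nat_lit 409) (nat_lit 0) (cs (lf (nat_lit 29) (nat_lit 342)) (nd (nat_lit 407) (nat_lit 0) (cs (lf (nat_lit 41) (nat_lit 341)) (nd (nat_lit 430) (nat_lit 0) (cs (lf (nat_lit 47) (nat_lit 341)) (nd (nat_lit 385) (nat_lit 0) (cs (lf (nat_lit 42) (nat_lit 363)) (nd (nat_lit 384) (nat_lit 0) (cs (lf (nat_lit 0) (nat_lit 383)) (lf (nat_lit 18) (nat_lit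 384)))))))))))))))) (rf (nat_lit 6)))))) (cs (nd (nat_lit 362) (nat_lit 0) (cs (lf (nat_lit 12) (nat_lit 339)) (nd (nat_lit 365) (nat_lit 0) (cs (rf (nat_lit 7)) (cs (nd (nat_lit 387) (nat_lit 0) (cs (lf (nat_lit 5) (nat_lit 362)) (nd (nat_lit 409) (nat_lit 0) (cs (lf (nat_lit 42) (nat_lit 342)) (nd (nat_lit 408) (nat_lit 0) (cs (lf (nat_lit 41) (nat_lit 342)) (nd (nat_lit 386) (nat_lit 0) (cs (lf (nat_lit 35) (nat_lit 320)) (nd (nat_lit 407) (nat_lit 0) (cs (lf (nat_lit 41) (nat_lit 341)) (nd (nat_lit 405) (nat_lit 0) (cs (nd (nat_lit 410) (nat_lit 0) (cs (lf (nat_lit 29) (nat_lit 343)) (nd (nat_lit 411) (nat_lit 0) (cs (lf (nat_lit 23) (nat_lit 385)) (lf (nat_lit 18) (nat_lit 386)))))) (lf (nat_lit 13) (nat_lit 383)))))))))))))) (nd (nat_lit 339) (nat_lit 0) (cs (rf (nat_lit 8)) (lf (nat_lit 22) (nat_lit 339))))))))) (rf (nat_lit 9)))))) q29671 (by decide +kernel)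
def q29682 : Q := Q.p (nat_lit 0x100000c0000000000200000800002000000000000000000000000000000000000000000000000000000000000000) (nat_lit 0xa0000780007f8003e8000330000300000c00003000000000000000000000000000000000000000000000000000000000000000000000) (nat_lit 11)
theorem c29682 : QOK q29682 := cut [q29498, q29549, q11848, q29559, q29569] ⟨c29498, c29549, c11848, c29559, c29569, trivial⟩ (nd (nat_lit 386) (nat_lit 0) (cs (rf (nat_lit 0)) (cs (rf (nat_lit 1)) (nd (nat_lit 320) (nat_lit 0) (cs (rf (nat_lit 2)) (nd (nat_lit 385) (nat_lit 0) (cs (lf (nat_lit 41) (nat_lit 319)) (nd (nat_lit 366) (nat_lit 0) (cs (nd (nat_lit 299) (nat_lit 0) (cs (nd (nat_lit 365) (nat_lit 0) (cs (lf (nat_lit 6) (nat_lit 363)) (nd (nat_lit 384) (nat_lit 0) (cs (lf (nat_lit 12) (nat_lit 361)) (lf (nat_lit 15) (nat_lit 362)))))) (lf (nat_lit 34) (nat_lit 298)))) (cs (rf (nat_lit 3)) (cs (rf (nat_lit 4)) (nd (nat_lit 387) (nat_lit 0) (cs (lf (nat_lit 29)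 (nat_lit 320)) (nd (nat_lit 365) (nat_lit 0) (cs (lf (nat_lit 12) (nat_lit 362)) (nd (nat_lit 340) (nat_lit 0) (cs (lf (nat_lit 1) (nat_lit 340)) (nd (nat_lit 321) (nat_lit 0) (cs (lf (nat_lit 35) (nat_lit 298)) (nd (nat_lit 388) (nat_lit 0) (cs (lf (nat_lit 29) (nat_lit 321)) (nd (nat_lit 389) (nat_lit 0) (cs (lf (nat_lit 18) (nat_lit 364)) (lf (nat_lit 23) (nat_lit 363))))))))))))))))))))))))) q29682 (by decide +kernel)
def q29708 : Q := Q.p (nat_lit 0x40000100000c0000100000200000800000000000000000000000000000000000000000000000000000000000000000000) (nat_lit 0x60000380003ee000738003a6000290000a000000000000000000000000000000000000000000000000000000000000000000000) (nat_lit 11)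
theorem c29708 : QOK q29708 := cut [q28335, q29590] ⟨c28335, c29590, trivial⟩ (nd (nat_lit 344) (nat_lit 0) (cs (rf (nat_lit 0)) (cs (rf (nat_lit 1)) (nd (nat_lit 387) (nat_lit 0) (cs (lf (nat_lit 29) (nat_lit 320)) (nd (nat_lit 388) (nat_lit 0) (cs (nd (nat_lit 363) (nat_lit 0) (cs (lf (nat_lit 18) (nat_lit 363)) (nd (nat_lit 362) (nat_lit 0) (cs (lf (nat_lit 9) (nat_lit 340)) (lf (nat_lit 0) (nat_lit 361)))))) (nd (nat_lit 321) (nat_lit 0) (cs (lf (nat_lit 35) (nat_lit 298)) (nd (nat_lit 410) (nat_lit 0) (cs (lf (nat_lit 26) (nat_lit 321)) (lf (nat_lit 44) (nat_lit 321))))))))))))) q29708 (by decide +kernel)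
def q29767 : Q := Q.p (nat_lit 0x100000c0000000000200000800000000000000000000000000000000000000000000000000000000000000000000) (nat_lit 0x1fc000fe0003fc001ee00033c000170000580000000000000000000000000000000000000000000000000000000000000000000000000) (nat_lit 12)
theorem c29767 : QOK q29767 := cut [q29231, q29670, q29549, q29648, q29646, q29737, q28961, q29208, q29664] ⟨c29231, c29670, c29549, c29648, c29646, c29737, c28961, c29208, c29664, trivial⟩ (nd (nat_lit 363) (nat_lit 0) (cs (rf (nat_lit 0)) (cs (rf (nat_lit 1)) (cs (nd (nat_lit 386) (nat_lit 0) (cs (rf (nat_lit 2)) (cs (rf (nat_lit 3)) (cs (nd (nat_lit 344) (nat_lit 0) (cs (lf (nat_lit 6) (nat_lit 341)) (nd (nat_lit 320) (nat_lit 0) (cs (lf (nat_lit 45) (nat_lit 275)) (nd (nat_lit 409) (nat_lit 0) (cs (lf (nat_lit 28) (nat_lit 320)) (nd (nat_lit 408) (nat_lit 0) (cs (lf (nat_lit 29) (nat_lit 342)) (rf (nat_lit 4)))))))))) (cs (nd (nat_lit 366) (nat_lit 0) (cs (nd (nat_lit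 344) (nat_lit 0) (cs (lf (nat_lit 6) (nat_lit 341)) (nd (nat_lit 341) (nat_lit 0) (cs (lf (nat_lit 5) (nat_lit 341)) (nd (nat_lit 340) (nat_lit 0) (cs (lf (nat_lit 4) (nat_lit 340)) (nd (nat_lit 317) (nat_lit 0) (cs (lf (nat_lit 22) (nat_lit 317)) (nd (nat_lit 339) (nat_lit 0) (cs (lf (nat_lit 23) (nat_lit 316)) (lf (nat_lit 0) (nat_lit 338)))))))))))) (cs (nd (nat_lit 320) (nat_lit 0) (cs (lf (nat_lit 45) (nat_lit 275)) (nd (nat_lit 344) (nat_lit 0) (cs (lf (nat_lit 6) (nat_lit 341)) (nd (nat_lit 385) (nat_lit 0) (cs (lf (nat_lit 41) (nat_lit 319)) (nd (nat_lit 365) (nat_lit 0) (cs (lf (nat_lit 11) (nat_lit 362)) (nd (nat_lit 340) (nat_lit 0) (cs (nd (nat_lit 388) (nat_lit 0) (cs (lf (nat_lit 5) (nat_lit 363)) (nd (nat_lit 387) (nat_lit 0) (cs (lf (nat_lit 42) (nat_lit 320)) (rf (nat_lit 5)))))) (lf (nat_lit 22) (nat_lit 340)))))))))))) (nd (nat_lit 320) (nat_lit 0) (cs (lf (nat_lit 45) (nat_lit 275)) (nd (nat_lit 387) (nat_lit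 0) (cs (lf (nat_lit 29) (nat_lit 320)) (nd (nat_lit 388) (nat_lit 0) (cs (lf (nat_lit 18) (nat_lit 363)) (nd (nat_lit 385) (nat_lit 0) (cs (lf (nat_lit 41) (nat_lit 319)) (lf (nat_lit 17) (nat_lit 363))))))))))))) (nd (nat_lit 344) (nat_lit 0) (cs (lf (nat_lit 6) (nat_lit 341)) (nd (nat_lit 320) (nat_lit 0) (cs (lf (nat_lit 45) (nat_lit 275)) (nd (nat_lit 407) (nat_lit 0) (cs (lf (nat_lit 40) (nat_lit 319)) (nd (nat_lit 408) (nat_lit 0) (cs (lf (nat_lit 41) (nat_lit 341)) (rf (nat_lit 4))))))))))))))) (nd (nat_lit 362) (nat_lit 0) (cs (lf (nat_lit 12) (nat_lit 339)) (nd (nat_lit 365) (nat_lit 0) (cs (rf (nat_lit 6)) (cs (rf (nat_lit 7)) (cs (rf (nat_lit 8)) (nd (nat_lit 298) (nat_lit 0) (cs (lf (nat_lit 44) (nat_lit 275)) (nd (nat_lit 387) (nat_lit 0) (cs (lf (nat_lit 5) (nat_lit 362)) (nd (nat_lit 409) (nat_lit 0) (cs (lf (nat_lit 42) (nat_lit 342)) (nd (nat_lit 340) (nat_lit 0) (cs (lf (nat_lit 23) (nat_lit 339)) (nd (nat_lit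 410) (nat_lit 0) (cs (lf (nat_lit 29) (nat_lit 343)) (nd (nat_lit 318) (nat_lit 0) (cs (lf (nat_lit 33) (nat_lit 274)) (nd (nat_lit 341) (nat_lit 0) (cs (lf (nat_lit 23) (nat_lit 317)) (lf (nat_lit 18) (nat_lit 340)))))))))))))))))))))))))) q29767 (by decide +kernel)
def q29867 : Q := Q.p (nat_lit 0xc0000000000e00000800000000000000000000000000000000000000000000000000000000000000000000) (nat_lit 0x200003ff0003380004700031c001f380000400001000000000000000000000000000000000000000000000000000000000) (nat_lit 12)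
theorem c29867 : QOK q29867 := cut [q28119, q28132, q28646, q11623, q28542, q29838, q29852, q23396, q29854] ⟨c28119, c28132, c28646, c11623, c28542, c29838, c29852, c23396, c29854, trivial⟩ (nd (nat_lit 296) (nat_lit 0) (cs (rf (nat_lit 0)) (cs (nd (nat_lit 362) (nat_lit 0) (cs (rf (nat_lit 1)) (cs (nd (nat_lit 344) (nat_lit 0) (cs (nd (nat_lit 363) (nat_lit 0) (cs (lf (nat_lit 9) (nat_lit 340)) (nd (nat_lit 364) (nat_lit 0) (cs (lf (nat_lit 6) (nat_lit 341)) (lf (nat_lit 12) (nat_lit 339)))))) (cs (nd (nat_lit 278) (nat_lit 0) (cs (lf (nat_lit 16) (nat_lit 274)) (nd (nat_lit 317) (nat_lit 0) (cs (lf (nat_lit 10) (nat_lit 295)) (nd (nat_lit 300) (nat_lit 0) (cs (lf (nat_lit 17) (nat_lit 275)) (nd (nat_lit 276) (nat_lit 0) (cs (lf (nat_lit 18) (nat_lit 275)) (nd (nat_lit 322) (nat_lit 0) (cs (lf (nat_lit 41) (nat_lit 277)) (nd (nat_lit 367) (nat_lit 0) (cs (nd (nat_lit 366) (nat_lit 0) (cs (lf (nat_lit 29) (nat_lit 300)) (lf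 (nat_lit 0) (nat_lit 341)))) (lf (nat_lit 28) (nat_lit 278)))))))))))))) (cs (nd (nat_lit 277) (nat_lit 0) (cs (lf (nat_lit 17) (nat_lit 274)) (nd (nat_lit 317) (nat_lit 0) (cs (lf (nat_lit 10) (nat_lit 295)) (nd (nat_lit 363) (nat_lit 0) (cs (lf (nat_lit 9) (nat_lit 340)) (nd (nat_lit 364) (nat_lit 0) (cs (lf (nat_lit 12) (nat_lit 339)) (lf (nat_lit 15) (nat_lit 340)))))))))) (nd (nat_lit 364) (nat_lit 0) (cs (nd (nat_lit 367) (nat_lit 0) (cs (rf (nat_lit 2)) (cs (nd (nat_lit 278) (nat_lit 0) (cs (lf (nat_lit 16) (nat_lit 274)) (nd (nat_lit 317) (nat_lit 0) (cs (lf (nat_lit 10) (nat_lit 295)) (nd (nat_lit 300) (nat_lit 0) (cs (lf (nat_lit 17) (nat_lit 275)) (nd (nat_lit 322) (nat_lit 0) (cs (lf (nat_lit 41) (nat_lit 277)) (lf (nat_lit 28) (nat_lit 278)))))))))) (cs (nd (nat_lit 300) (nat_lit 0) (cs (rf (nat_lit 3)) (cs (nd (nat_lit 317) (nat_lit 0) (cs (lf (nat_lit 10) (nat_lit 295)) (nd (nat_lit 301) (nat_lit 0) (cs (lf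 (nat_lit 22) (nat_lit 275)) (nd (nat_lit 279) (nat_lit 0) (cs (lf (nat_lit 17) (nat_lit 276)) (nd (nat_lit 366) (nat_lit 0) (cs (rf (nat_lit 4)) (lf (nat_lit 32) (nat_lit 278)))))))))) (nd (nat_lit 276) (nat_lit 0) (cs (lf (nat_lit 18) (nat_lit 275)) (nd (nat_lit 317) (nat_lit 0) (cs (lf (nat_lit 10) (nat_lit 295)) (nd (nat_lit 277) (nat_lit 0) (cs (lf (nat_lit 6) (nat_lit 274)) (nd (nat_lit 366) (nat_lit 0) (cs (rf (nat_lit 4)) (lf (nat_lit 44) (nat_lit 277))))))))))))) (nd (nat_lit 317) (nat_lit 0) (cs (lf (nat_lit 10) (nat_lit 295)) (nd (nat_lit 278) (nat_lit 0) (cs (lf (nat_lit 16) (nat_lit 274)) (nd (nat_lit 345) (nat_lit 0) (cs (lf (nat_lit 5) (nat_lit 342)) (nd (nat_lit 300) (nat_lit 0) (cs (lf (nat_lit 17) (nat_lit 275)) (lf (nat_lit 26) (nat_lit 278)))))))))))))) (cs (rf (nat_lit 5)) (nd (nat_lit 363) (nat_lit 0) (cs (lf (nat_lit 6) (nat_lit 341)) (lf (nat_lit 12) (nat_lit 339))))))))))) (rf (nat_lit 6))))) (cs (nd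 (nat_lit 300) (nat_lit 0) (cs (rf (nat_lit 3)) (cs (rf (nat_lit 7)) (rf (nat_lit 8))))) (nd (nat_lit 362) (nat_lit 0) (cs (rf (nat_lit 1)) (cs (rf (nat_lit 6)) (nd (nat_lit 317) (nat_lit 0) (cs (lf (nat_lit 10) (nat_lit 295)) (nd (nat_lit 295) (nat_lit 0) (cs (lf (nat_lit 11) (nat_lit 294)) (nd (nat_lit 272) (nat_lit 0) (cs (lf (nat_lit 22) (nat_lit 272)) (nd (nat_lit 294) (nat_lit 0) (cs (lf (nat_lit 23) (nat_lit 271)) (nd (nat_lit 277) (nat_lit 0) (cs (lf (nat_lit 17) (nat_lit 274)) (nd (nat_lit 228) (nat_lit 0) (cs (lf (nat_lit 25) (nat_lit 228)) (nd (nat_lit 361) (nat_lit 0) (cs (nd (nat_lit 363) (nat_lit 0) (cs (lf (nat_lit 15) (nat_lit 339)) (nd (nat_lit 341) (nat_lit 0) (cs (lf (nat_lit 12) (nat_lit 338)) (lf (nat_lit 6) (nat_lit 340)))))) (lf (nat_lit 43) (nat_lit 272))))))))))))))))))))))) q29867 (by decide +kernel)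
def q29948 : Q := Q.p (nat_lit 0x1c0000000000200000000000000000000000000000000000000000000000000000000000000000000000000) (nat_lit 0x20000380000f80003e0003fe000230000600003c0000e000038000020000000000000000000000000000000000000000000000000000000000) (nat_lit 11)
theorem c29948 : QOK q29948 := cut [q28312, q28528, q28530, q28411, q28514, q28515, q28419, q29937, q29945] ⟨c28312, c28528, c28530, c28411, c28514, c28515, c28419, c29937, c29945, trivial⟩ (nd (nat_lit 366) (nat_lit 0) (cs (rf (nat_lit 0)) (cs (rf (nat_lit 1)) (cs (rf (nat_lit 2)) (nd (nat_lit 388) (nat_lit 0) (cs (rf (nat_lit 3)) (cs (rf (nat_lit 4)) (cs (rf (nat_lit 5)) (nd (nat_lit 322) (nat_lit 0) (cs (rf (nat_lit 6)) (cs (nd (nat_lit 389) (nat_lit 0) (cs (lf (nat_lit 29) (nat_lit 322)) (nd (nat_lit 387) (nat_lit 0) (cs (lf (nat_lit 41) (nat_lit 321)) (nd (nat_lit 321) (nat_lit 0) (cs (lf (nat_lit 47) (nat_lit 299)) (nd (nat_lit 341) (nat_lit 0) (cs (lf (nat_lit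 12) (nat_lit 318)) (nd (nat_lit 363) (nat_lit 0) (cs (lf (nat_lit 11) (nat_lit 340)) (nd (nat_lit 364) (nat_lit 0) (cs (lf (nat_lit 6) (nat_lit 341)) (lf (nat_lit 2) (nat_lit 363)))))))))))))) (cs (nd (nat_lit 389) (nat_lit 0) (cs (lf (nat_lit 29) (nat_lit 322)) (rf (nat_lit 7)))) (rf (nat_lit 8)))))))))))))) q29948 (by decide +kernel)
def q30065 : Q := Q.p (nat_lit 0x80000200000c0000000000200000800000000000000000000000000000000000000000000000000000000000000000000) (nat_lit 0x4e000330003f60001500004000000000000000000000000000000000000000000000000000000000000000000000) (nat_lit 7)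
theorem c30065 : QOK q30065 := cut [q27996, q28033, q28125, q30055, q30057, q30060, q30062] ⟨c27996, c28033, c28125, c30055, c30057, c30060, c30062, trivial⟩ (nd (nat_lit 322) (nat_lit 0) (cs (nd (nat_lit 300) (nat_lit 0) (cs (lf (nat_lit 33) (nat_lit 299)) (nd (nat_lit 344) (nat_lit 0) (cs (lf (nat_lit 36) (nat_lit 277)) (lf (nat_lit 39) (nat_lit 299)))))) (cs (nd (nat_lit 344) (nat_lit 0) (cs (rf (nat_lit 0)) (rf (nat_lit 1)))) (cs (nd (nat_lit 323) (nat_lit 0) (cs (rf (nat_lit 2)) (cs (rf (nat_lit 3)) (cs (nd (nat_lit 321) (nat_lit 0) (cs (lf (nat_lit 6) (nat_lit 320)) (rf (nat_lit 4)))) (rf (nat_lit 5)))))) (nd (nat_lit 321) (nat_lit 0) (cs (lf (nat_lit 35) (nat_lit 299)) (nd (nat_lit 320) (nat_lit 0) (cs (lf (nat_lit 47) (nat_lit 298)) (rf (nat_lit 6)))))))))) q30065 (by decide +kernel)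
def q30189 : Q := Q.p (nat_lit 0xc0000200000c0000000000000000000000000000000000000000000000000000000000000000000000000000000000000) (nat_lit 0x5000010000000000020001f00001400000000000000000000000000000000000000000000000000000000000000000000000000) (nat_lit 6)
theorem c30189 : QOK q30189 := cut [q30185] ⟨c30185, trivial⟩ (nd (nat_lit 321) (nat_lit 0) (cs (lf (nat_lit 41) (nat_lit 320)) (nd (nat_lit 388) (nat_lit 0) (cs (lf (nat_lit 29) (nat_lit 321)) (rf (nat_lit 0)))))) q30189 (by decide +kernel)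
def q30316 : Q := Q.p (nat_lit 0x200000c0000000000200000800002000000000000000000000000000000000000000000000000000000000000000) (nat_lit 0x500003e0001fe0007f8001de000700001f00003400001000000000000000000000000000000000000000000000000000000000000000000000) (nat_lit 13)
theorem c30316 : QOK q30316 := cut [q30050, q30206, q30209, q30245, q30174, q30194, q29348, q30281, q30164, q30286, q29641, q30165, q30290, q30296, q30307] ⟨c30050, c30206, c30209, c30245, c30174, c30194, c29348, c30281, c30164, c30286, c29641, c30165, c30290, c30296, c30307, trivial⟩ (nd (nat_lit 387) (nat_lit 0) (cs (rf (nat_lit 0)) (cs (rf (nat_lit 1)) (cs (rf (nat_lit 2)) (nd (nat_lit 388) (nat_lit 0) (cs (nd (nat_lit 364) (nat_lit 0) (cs (rf (nat_lit 3)) (cs (nd (nat_lit 321) (nat_lit 0) (cs (lf (nat_lit 29) (nat_lit 321)) (nd (nat_lit 320) (nat_lit 0) (cs (lf (nat_lit 47) (nat_lit 298)) (nd (nat_lit 363) (nat_lit 0) (cs (lf (nat_lit 0) (nat_lit 362)) (nd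 (nat_lit 389) (nat_lit 0) (cs (lf (nat_lit 18) (nat_lit 364)) (nd (nat_lit 345) (nat_lit 0) (cs (lf (nat_lit 7) (nat_lit 341)) (nd (nat_lit 322) (nat_lit 0) (cs (lf (nat_lit 35) (nat_lit 299)) (nd (nat_lit 323) (nat_lit 0) (cs (lf (nat_lit 5) (nat_lit 320)) (lf (nat_lit 6) (nat_lit 320)))))))))))))))) (cs (nd (nat_lit 386) (nat_lit 0) (cs (rf (nat_lit 4)) (rf (nat_lit 5)))) (nd (nat_lit 321) (nat_lit 0) (cs (lf (nat_lit 29) (nat_lit 321)) (nd (nat_lit 386) (nat_lit 0) (cs (lf (nat_lit 41) (nat_lit 320)) (nd (nat_lit 300) (nat_lit 0) (cs (lf (nat_lit 34) (nat_lit 299)) (nd (nat_lit 362) (nat_lit 0) (cs (nd (nat_lit 320) (nat_lit 0) (cs (lf (nat_lit 45) (nat_lit 275)) (rf (nat_lit 6)))) (lf (nat_lit 1) (nat_lit 362)))))))))))))) (cs (nd (nat_lit 410) (nat_lit 0) (cs (lf (nat_lit 24) (nat_lit 321)) (nd (nat_lit 432) (nat_lit 0) (cs (lf (nat_lit 42) (nat_lit 365)) (lf (nat_lit 45) (nat_lit 343)))))) (cs (nd (nat_lit 364) (nat_lit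 0) (cs (nd (nat_lit 386) (nat_lit 0) (cs (rf (nat_lit 5)) (rf (nat_lit 7)))) (cs (nd (nat_lit 386) (nat_lit 0) (cs (rf (nat_lit 8)) (rf (nat_lit 5)))) (rf (nat_lit 9))))) (nd (nat_lit 364) (nat_lit 0) (cs (rf (nat_lit 3)) (cs (rf (nat_lit 9)) (cs (nd (nat_lit 386) (nat_lit 0) (cs (nd (nat_lit 408) (nat_lit 0) (cs (lf (nat_lit 30) (nat_lit 342)) (nd (nat_lit 407) (nat_lit 0) (cs (lf (nat_lit 41) (nat_lit 341)) (nd (nat_lit 388) (nat_lit 0) (cs (lf (nat_lit 6) (nat_lit 385)) (rf (nat_lit 10)))))))) (cs (rf (nat_lit 11)) (cs (rf (nat_lit 7)) (rf (nat_lit 12)))))) (nd (nat_lit 366) (nat_lit 0) (cs (nd (nat_lit 410) (nat_lit 0) (cs (lf (nat_lit 42) (nat_lit 343)) (nd (nat_lit 362) (nat_lit 0) (cs (lf (nat_lit 1) (nat_lit 362)) (rf (nat_lit 13)))))) (cs (nd (nat_lit 298) (nat_lit 0) (cs (nd (nat_lit 410) (nat_lit 0) (cs (lf (nat_lit 42) (nat_lit 343)) (rf (nat_lit 13)))) (lf (nat_lit 25) (nat_lit 298)))) (cs (rf (nat_lit 14)) (nd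 (nat_lit 363) (nat_lit 0) (cs (lf (nat_lit 0) (nat_lit 362)) (nd (nat_lit 298) (nat_lit 0) (cs (lf (nat_lit 44) (nat_lit 275)) (nd (nat_lit 385) (nat_lit 0) (cs (lf (nat_lit 11) (nat_lit 362)) (nd (nat_lit 367) (nat_lit 0) (cs (lf (nat_lit 18) (nat_lit 342)) (lf (nat_lit 10) (nat_lit 363)))))))))))))))))))))))))) q30316 (by decide +kernel)
def q30352 : Q := Q.p (nat_lit 0x600000c0000000000000000000000000000000000000000000000000000000000000000000000000000000000000) (nat_lit 0x400001000077000198000700001a00002000008000000000000000000000000000000000000000000000000000000000000000000000) (nat_lit 7)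
theorem c30352 : QOK q30352 := cut [q30337, q30342, q30347] ⟨c30337, c30342, c30347, trivial⟩ (nd (nat_lit 367) (nat_lit 0) (cs (lf (nat_lit 18) (nat_lit 342)) (nd (nat_lit 364) (nat_lit 0) (cs (rf (nat_lit 0)) (cs (rf (nat_lit 1)) (nd (nat_lit 345) (nat_lit 0) (cs (lf (nat_lit 17) (nat_lit 342)) (nd (nat_lit 389) (nat_lit 0) (cs (lf (nat_lit 5) (nat_lit 364)) (nd (nat_lit 386) (nat_lit 0) (cs (lf (nat_lit 11) (nat_lit 363)) (rf (nat_lit 2))))))))))))) q30352 (by decide +kernel)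
def q30411 : Q := Q.p (nat_lit 0x80000200000c0000000000200000800000000000000000000000000000000000000000000000000000000000000000000) (nat_lit 0x100001c000070000000001de000730000460000100000000000000000000000000000000000000000000000000000000000000000000000000) (nat_lit 10)
theorem c30411 : QOK q30411 := cut [q30068, q30204, q30044, q30402, q28038] ⟨c30068, c30204, c30044, c30402, c28038, trivial⟩ (nd (nat_lit 409) (nat_lit 0) (cs (rf (nat_lit 0)) (cs (nd (nat_lit 410) (nat_lit 0) (cs (lf (nat_lit 29) (nat_lit 343)) (rf (nat_lit 1)))) (nd (nat_lit 367) (nat_lit 0) (cs (nd (nat_lit 366) (nat_lit 0) (cs (lf (nat_lit 18) (nat_lit 342)) (rf (nat_lit 2)))) (cs (nd (nat_lit 408) (nat_lit 0) (cs (lf (nat_lit 41) (nat_lit 342)) (nd (nat_lit 410) (nat_lit 0) (cs (lf (nat_lit 29) (nat_lit 343)) (nd (nat_lit 344) (nat_lit 0) (cs (lf (nat_lit 35) (nat_lit 321)) (nd (nat_lit 345) (nat_lit 0) (cs (lf (nat_lit 5) (nat_lit 342)) (rf (nat_lit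 3)))))))))) (nd (nat_lit 408) (nat_lit 0) (cs (lf (nat_lit 41) (nat_lit 342)) (nd (nat_lit 410) (nat_lit 0) (cs (lf (nat_lit 29) (nat_lit 343)) (nd (nat_lit 344) (nat_lit 0) (cs (rf (nat_lit 4)) (lf (nat_lit 35) (nat_lit 321)))))))))))))) q30411 (by decide +kernel)
def q30445 : Q := Q.p (nat_lit 0xc0000200000200000800002000000000010000000000000000000000000000000000000000000000000000) (nat_lit 0x10000140001f0000130000100001d000070000190000700001e0000100000000000000000000000000000000000000000000000) (nat_lit 9)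
theorem c30445 : QOK q30445 := cut [q29235, q29245, q29476, q30433, q28594, q13532] ⟨c29235, c29245, c29476, c30433, c28594, c13532, trivial⟩ (nd (nat_lit 299) (nat_lit 0) (cs (rf (nat_lit 0)) (cs (rf (nat_lit 1)) (cs (nd (nat_lit 365) (nat_lit 0) (cs (rf (nat_lit 2)) (rf (nat_lit 3)))) (nd (nat_lit 277) (nat_lit 0) (cs (rf (nat_lit 4)) (cs (nd (nat_lit 255) (nat_lit 0) (cs (lf (nat_lit 40) (nat_lit 254)) (nd (nat_lit 234) (nat_lit 0) (cs (lf (nat_lit 34) (nat_lit 233)) (nd (nat_lit 233) (nat_lit 0) (cs (lf (nat_lit 35) (nat_lit 211)) (nd (nat_lit 344) (nat_lit 0) (cs (lf (nat_lit 29) (nat_lit 277)) (rf (nat_lit 5)))))))))) (nd (nat_lit 255) (nat_lit 0) (cs (lf (nat_lit 40) (nat_lit 254)) (nd (nat_lit 366) (nat_lit 0) (cs (lf (nat_lit 28) (nat_lit 277)) (nd (nat_lit 365) (nat_lit 0) (cs (lf (nat_lit 29) (nat_lit 299)) (nd (nat_lit 278) (nat_lit 0) (cs (lf (nat_lit 34) (nat_lit 277)) (nd (nat_lit 298) (nat_lit 0) (cs (lf (nat_lit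 47) (nat_lit 276)) (lf (nat_lit 12) (nat_lit 274))))))))))))))))))) q30445 (by decide +kernel)
def q30592 : Q := Q.p (nat_lit 0xe0000300000000000000000000000000000000000000000000000000000000000000000000000000000000) (nat_lit 0x40000100000ec000700001c00000800002000000000000000000000000000000000000000000000000000000000000000000000) (nat_lit 6)
theorem c30592 : QOK q30592 := cut [q30588, q30590] ⟨c30588, c30590, trivial⟩ (nd (nat_lit 344) (nat_lit 0) (cs (rf (nat_lit 0)) (nd (nat_lit 362) (nat_lit 0) (cs (lf (nat_lit 10) (nat_lit 340)) (rf (nat_lit 1)))))) q30592 (by decide +kernel)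
def q30618 : Q := Q.p (nat_lit 0xc0000300000200000800002000000000000000000000000000000000000000000000000000000000000000) (nat_lit 0x60000180001ee000738001c60000580001000000000000000000000000000000000000000000000000000000000000000000000) (nat_lit 9)
theorem c30618 : QOK q30618 := cut [q30449, q30466, q30611, q30617] ⟨c30449, c30466, c30611, c30617, trivial⟩ (nd (nat_lit 344) (nat_lit 0) (cs (rf (nat_lit 0)) (cs (rf (nat_lit 1)) (cs (nd (nat_lit 298) (nat_lit 0) (cs (lf (nat_lit 45) (nat_lit 253)) (nd (nat_lit 387) (nat_lit 0) (cs (nd (nat_lit 295) (nat_lit 0) (cs (lf (nat_lit 1) (nat_lit 295)) (nd (nat_lit 322) (nat_lit 0) (cs (lf (nat_lit 18) (nat_lit 297)) (nd (nat_lit 341) (nat_lit 0) (cs (lf (nat_lit 12) (nat_lit 318)) (nd (nat_lit 366) (nat_lit 0) (cs (lf (nat_lit 5) (nat_lit 341)) (nd (nat_lit 388) (nat_lit 0) (cs (lf (nat_lit 42) (nat_lit 321)) (lf (nat_lit 41) (nat_lit 321)))))))))))) (lf (nat_lit 43) (nat_lit 298))))))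 (cs (rf (nat_lit 2)) (rf (nat_lit 3))))))) q30618 (by decide +kernel)
def q30624 : Q := Q.p (nat_lit 0xc0000300000200000800002000000000000000000000000000000000000000000000000000000000000000) (nat_lit 0x40000100003ee000738001c00000c00003000000000000000000000000000000000000000000000000000000000000000000000) (nat_lit 9)
theorem c30624 : QOK q30624 := cut [q30509, q30611, q30617, q30613] ⟨c30509, c30611, c30617, c30613, trivial⟩ (nd (nat_lit 344) (nat_lit 0) (cs (rf (nat_lit 0)) (cs (rf (nat_lit 1)) (cs (rf (nat_lit 2)) (nd (nat_lit 276) (nat_lit 0) (cs (lf (nat_lit 44) (nat_lit 253)) (nd (nat_lit 345) (nat_lit 0) (cs (lf (nat_lit 18) (nat_lit 320)) (nd (nat_lit 323) (nat_lit 0) (cs (lf (nat_lit 17) (nat_lit 320)) (nd (nat_lit 367) (nat_lit 0) (cs (lf (nat_lit 5) (nat_lit 342)) (nd (nat_lit 341) (nat_lit 0) (cs (lf (nat_lit 4) (nat_lit 341)) (rf (nat_lit 3)))))))))))))))) q30624 (by decide +kernel)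
def q30639 : Q := Q.p (nat_lit 0xc0000300000200000800002000000000000000000000000000000000000000000000000000000000000000) (nat_lit 0x300001c0001f0000130000000000900007000019000000000000000000000000000000000000000000000000000000000000000) (nat_lit 6)
theorem c30639 : QOK q30639 := cut [q29144, q30433, q30634] ⟨c29144, c30433, c30634, trivial⟩ (nd (nat_lit 299) (nat_lit 0) (cs (rf (nat_lit 0)) (nd (nat_lit 365) (nat_lit 0) (cs (rf (nat_lit 1)) (rf (nat_lit 2)))))) q30639 (by decide +kernel)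
def q30698 : Q := Q.p (nat_lit 0x1c0000000000200000800002000000000000000000000000000000000000000000000000000000000000000) (nat_lit 0x80000300001dc000220001f00003c0000d000000000000000000000000000000000000000000000000000000000000000000000) (nat_lit 8)
theorem c30698 : QOK q30698 := cut [q27959, q28058, q28656] ⟨c27959, c28058, c28656, trivial⟩ (nd (nat_lit 345) (nat_lit 0) (cs (rf (nat_lit 0)) (cs (rf (nat_lit 1)) (rf (nat_lit 2))))) q30698 (by decide +kernel)
def q30710 : Q := Q.p (nat_lit 0x1c0000000000200000000000000000000000000000000000000000000000000000000000000000000000000) (nat_lit 0x20000380000e0000380000ee000030001e00003c0000e000038000020000000000000000000000000000000000000000000000000000000000) (nat_lit 11)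
theorem c30710 : QOK q30710 := cut [q28530, q30699, q28411, q28514, q28515, q28419, q29937, q29945, q30702] ⟨c28530, c30699, c28411, c28514, c28515, c28419, c29937, c29945, c30702, trivial⟩ (nd (nat_lit 366) (nat_lit 0) (cs (rf (nat_lit 0)) (cs (rf (nat_lit 1)) (nd (nat_lit 388) (nat_lit 0) (cs (rf (nat_lit 2)) (cs (rf (nat_lit 3)) (cs (rf (nat_lit 4)) (nd (nat_lit 322) (nat_lit 0) (cs (rf (nat_lit 5)) (cs (rf (nat_lit 6)) (cs (rf (nat_lit 7)) (cs (nd (nat_lit 389) (nat_lit 0) (cs (lf (nat_lit 29) (nat_lit 322)) (nd (nat_lit 387) (nat_lit 0) (cs (lf (nat_lit 41) (nat_lit 321)) (rf (nat_lit 8)))))) (nd (nat_lit 299) (nat_lit 0) (cs (lf (nat_lit 46) (nat_lit 299)) (nd (nat_lit 387) (nat_lit 0) (cs (lf (nat_lit 41) (nat_lit 321)) (nd (nat_lit 300) (nat_lit 0) (cs (lf (nat_lit 47) (nat_lit 277)) (lf (nat_lit 40) (nat_lit 299)))))))))))))))))))) q30710 (by decide +kernel)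
def q30738 : Q := Q.p (nat_lit 0xc0000300000200000800002000000000000000000000000000000000000000000000000000000000000000) (nat_lit 0x780001f00007c00073000180000790000f000019000000000000000000000000000000000000000000000000000000000000000) (nat_lit 12)
theorem c30738 : QOK q30738 := cut [q29144, q29245, q30634, q30734] ⟨c29144, c29245, c30634, c30734, trivial⟩ (nd (nat_lit 299) (nat_lit 0) (cs (rf (nat_lit 0)) (cs (rf (nat_lit 1)) (nd (nat_lit 365) (nat_lit 0) (cs (rf (nat_lit 2)) (cs (nd (nat_lit 388) (nat_lit 0) (cs (lf (nat_lit 28) (nat_lit 299)) (nd (nat_lit 387) (nat_lit 0) (cs (lf (nat_lit 29) (nat_lit 321)) (lf (nat_lit 42) (nat_lit 320)))))) (nd (nat_lit 363) (nat_lit 0) (cs (nd (nat_lit 366) (nat_lit 0) (cs (lf (nat_lit 29) (nat_lit 299)) (nd (nat_lit 300) (nat_lit 0) (cs (lf (nat_lit 35) (nat_lit 277)) (nd (nat_lit 341) (nat_lit 0) (cs (lf (nat_lit 0) (nat_lit 340)) (nd (nat_lit 301) (nat_lit 0) (cs (lf (nat_lit 6)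 (nat_lit 298)) (nd (nat_lit 385) (nat_lit 0) (cs (lf (nat_lit 30) (nat_lit 319)) (nd (nat_lit 344) (nat_lit 0) (cs (lf (nat_lit 11) (nat_lit 340)) (nd (nat_lit 345) (nat_lit 0) (cs (lf (nat_lit 18) (nat_lit 320)) (nd (nat_lit 323) (nat_lit 0) (cs (lf (nat_lit 36) (nat_lit 278)) (lf (nat_lit 17) (nat_lit 320)))))))))))))))))) (cs (nd (nat_lit 278) (nat_lit 0) (cs (lf (nat_lit 34) (nat_lit 277)) (nd (nat_lit 366) (nat_lit 0) (cs (lf (nat_lit 29) (nat_lit 299)) (nd (nat_lit 341) (nat_lit 0) (cs (lf (nat_lit 0) (nat_lit 340)) (nd (nat_lit 385) (nat_lit 0) (cs (lf (nat_lit 30) (nat_lit 319)) (nd (nat_lit 364) (nat_lit 0) (cs (lf (nat_lit 30) (nat_lit 298)) (lf (nat_lit 11) (nat_lit 362)))))))))))) (nd (nat_lit 364) (nat_lit 0) (cs (lf (nat_lit 41) (nat_lit 298)) (rf (nat_lit 3))))))))))))) q30738 (by decide +kernel)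
def q30746 : Q := Q.p (nat_lit 0x200000c0000300000200000800002000000000000000000000000000000000000000000000000000000000000000) (nat_lit 0x700001c000040000000000000000900007000019000000000000000000000000000000000000000000000000000000000000000) (nat_lit 8)
theorem c30746 : QOK q30746 := cut [q29144] ⟨c29144, trivial⟩ (nd (nat_lit 387) (nat_lit 0) (cs (lf (nat_lit 42) (nat_lit 320)) (nd (nat_lit 386) (nat_lit 0) (cs (lf (nat_lit 41) (nat_lit 320)) (nd (nat_lit 388) (nat_lit 0) (cs (lf (nat_lit 29) (nat_lit 321)) (nd (nat_lit 299) (nat_lit 0) (cs (lf (nat_lit 28) (nat_lit 299)) (rf (nat_lit 0)))))))))) q30746 (by decide +kernel)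
def q30777 : Q := Q.p (nat_lit 0xc0000300000200000800002000000000000000000000000000000000000000000000000000000000000000) (nat_lit 0x380001f80007e000038000460001900007000019000000000000000000000000000000000000000000000000000000000000000) (nat_lit 11)
theorem c30777 : QOK q30777 := cut [q29144, q29245, q30627, q30634, q28908, q30555] ⟨c29144, c29245, c30627, c30634, c28908, c30555, trivial⟩ (nd (nat_lit 299) (nat_lit 0) (cs (rf (nat_lit 0)) (cs (rf (nat_lit 1)) (nd (nat_lit 365) (nat_lit 0) (cs (rf (nat_lit 2)) (cs (rf (nat_lit 3)) (nd (nat_lit 364) (nat_lit 0) (cs (rf (nat_lit 4)) (nd (nat_lit 363) (nat_lit 0) (cs (nd (nat_lit 366) (nat_lit 0) (cs (lf (nat_lit 29) (nat_lit 299)) (rf (nat_lit 5)))) (cs (nd (nat_lit 366) (nat_lit 0) (cs (lf (nat_lit 29) (nat_lit 299)) (nd (nat_lit 278) (nat_lit 0) (cs (lf (nat_lit 34) (nat_lit 277)) (nd (nat_lit 384) (nat_lit 0) (cs (lf (nat_lit 10) (nat_lit 362)) (nd (nat_lit 362) (nat_lit 0)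 (cs (lf (nat_lit 12) (nat_lit 339)) (lf (nat_lit 11) (nat_lit 361)))))))))) (cs (nd (nat_lit 278) (nat_lit 0) (cs (lf (nat_lit 34) (nat_lit 277)) (nd (nat_lit 362) (nat_lit 0) (cs (lf (nat_lit 12) (nat_lit 339)) (nd (nat_lit 340) (nat_lit 0) (cs (lf (nat_lit 23) (nat_lit 339)) (nd (nat_lit 383) (nat_lit 0) (cs (lf (nat_lit 10) (nat_lit 361)) (nd (nat_lit 318) (nat_lit 0) (cs (lf (nat_lit 33) (nat_lit 274)) (nd (nat_lit 341) (nat_lit 0) (cs (lf (nat_lit 17) (nat_lit 318)) (lf (nat_lit 23) (nat_lit 317)))))))))))))) (nd (nat_lit 362) (nat_lit 0) (cs (lf (nat_lit 12) (nat_lit 339)) (nd (nat_lit 366) (nat_lit 0) (cs (lf (nat_lit 29) (nat_lit 299)) (nd (nat_lit 340) (nat_lit 0) (cs (lf (nat_lit 1) (nat_lit 340)) (lf (nat_lit 23) (nat_lit 339)))))))))))))))))))) q30777 (by decide +kernel)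
def q30819 : Q := Q.p (nat_lit 0xc0000300000200000800002000000000000000000000000000000000000000000000000000000000000000) (nat_lit 0xfe0007e00007e000738001c6000710000f000039000000000000000000000000000000000000000000000000000000000000000) (nat_lit 13)
theorem c30819 : QOK q30819 := cut [q29132, q29136, q30479, q30651, q30062, q30670, q30800] ⟨c29132, c29136, c30479, c30651, c30062, c30670, c30800, trivial⟩ (nd (nat_lit 341) (nat_lit 0) (cs (rf (nat_lit 0)) (cs (rf (nat_lit 1)) (nd (nat_lit 344) (nat_lit 0) (cs (rf (nat_lit 2)) (cs (rf (nat_lit 3)) (nd (nat_lit 322) (nat_lit 0) (cs (rf (nat_lit 4)) (nd (nat_lit 363) (nat_lit 0) (cs (lf (nat_lit 11) (nat_lit 340)) (nd (nat_lit 407) (nat_lit 0) (cs (lf (nat_lit 31) (nat_lit 319)) (nd (nat_lit 300) (nat_lit 0) (cs (rf (nat_lit 5)) (nd (nat_lit 387) (nat_lit 0) (cs (lf (nat_lit 31) (nat_lit 299)) (nd (nat_lit 388) (nat_lit 0) (cs (nd (nat_lit 366) (nat_lit 0) (cs (lf (nat_lit 42)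 (nat_lit 321)) (lf (nat_lit 41) (nat_lit 321)))) (cs (nd (nat_lit 366) (nat_lit 0) (cs (lf (nat_lit 42) (nat_lit 321)) (rf (nat_lit 6)))) (cs (nd (nat_lit 366) (nat_lit 0) (cs (lf (nat_lit 41) (nat_lit 321)) (rf (nat_lit 6)))) (nd (nat_lit 408) (nat_lit 0) (cs (nd (nat_lit 386) (nat_lit 0) (cs (lf (nat_lit 6) (nat_lit 385)) (lf (nat_lit 32) (nat_lit 320)))) (cs (nd (nat_lit 409) (nat_lit 0) (cs (lf (nat_lit 12) (nat_lit 384)) (nd (nat_lit 389) (nat_lit 0) (cs (lf (nat_lit 15) (nat_lit 385)) (lf (nat_lit 6) (nat_lit 386)))))) (nd (nat_lit 406) (nat_lit 0) (cs (nd (nat_lit 386) (nat_lit 0) (cs (lf (nat_lit 32) (nat_lit 320)) (lf (nat_lit 12) (nat_lit 383)))) (lf (nat_lit 15) (nat_lit 384))))))))))))))))))))))))))) q30819 (by decide +kernel)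
def q30879 : Q := Q.p (nat_lit 0xc0000300000200000800002000000000000000000000000000000000000000000000000000000000000000) (nat_lit 0x7e0003f80007e000738001c6000690000f000039000000000000000000000000000000000000000000000000000000000000000) (nat_lit 13)
theorem c30879 : QOK q30879 := cut [q30479, q27995, q29132, q30842, q30062, q30841, q30853, q30864, q29221, q30463] ⟨c30479, c27995, c29132, c30842, c30062, c30841, c30853, c30864, c29221, c30463, trivial⟩ (nd (nat_lit 344) (nat_lit 0) (cs (rf (nat_lit 0)) (cs (nd (nat_lit 341) (nat_lit 0) (cs (rf (nat_lit 1)) (cs (rf (nat_lit 2)) (nd (nat_lit 386) (nat_lit 0) (cs (rf (nat_lit 3)) (cs (nd (nat_lit 322) (nat_lit 0) (cs (rf (nat_lit 4)) (nd (nat_lit 387) (nat_lit 0) (cs (rf (nat_lit 5)) (cs (nd (nat_lit 362) (nat_lit 0) (cs (lf (nat_lit 10) (nat_lit 340)) (nd (nat_lit 365) (nat_lit 0) (cs (lf (nat_lit 41) (nat_lit 320)) (rf (nat_lit 6)))))) (cs (nd (nat_lit 362) (nat_lit 0) (cs (lf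 (nat_lit 10) (nat_lit 340)) (nd (nat_lit 365) (nat_lit 0) (cs (lf (nat_lit 30) (nat_lit 321)) (rf (nat_lit 6)))))) (nd (nat_lit 365) (nat_lit 0) (cs (lf (nat_lit 41) (nat_lit 320)) (lf (nat_lit 30) (nat_lit 321)))))))))) (cs (nd (nat_lit 362) (nat_lit 0) (cs (lf (nat_lit 10) (nat_lit 340)) (nd (nat_lit 299) (nat_lit 0) (cs (lf (nat_lit 31) (nat_lit 298)) (nd (nat_lit 277) (nat_lit 0) (cs (lf (nat_lit 36) (nat_lit 254)) (lf (nat_lit 29) (nat_lit 277)))))))) (nd (nat_lit 364) (nat_lit 0) (cs (lf (nat_lit 30) (nat_lit 320)) (nd (nat_lit 387) (nat_lit 0) (cs (lf (nat_lit 29) (nat_lit 320)) (nd (nat_lit 385) (nat_lit 0) (cs (lf (nat_lit 41) (nat_lit 319)) (nd (nat_lit 322) (nat_lit 0) (cs (lf (nat_lit 6) (nat_lit 319)) (nd (nat_lit 362) (nat_lit 0) (cs (lf (nat_lit 10) (nat_lit 340)) (nd (nat_lit 384) (nat_lit 0) (cs (lf (nat_lit 23) (nat_lit 361)) (rf (nat_lit 7))))))))))))))))))))) (cs (nd (nat_lit 345) (nat_lit 0) (cs (lf (nat_lit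 18) (nat_lit 320)) (nd (nat_lit 323) (nat_lit 0) (cs (lf (nat_lit 17) (nat_lit 320)) (nd (nat_lit 364) (nat_lit 0) (cs (lf (nat_lit 11) (nat_lit 341)) (rf (nat_lit 8)))))))) (nd (nat_lit 345) (nat_lit 0) (cs (lf (nat_lit 18) (nat_lit 320)) (nd (nat_lit 363) (nat_lit 0) (cs (lf (nat_lit 10) (nat_lit 341)) (nd (nat_lit 341) (nat_lit 0) (cs (lf (nat_lit 11) (nat_lit 340)) (rf (nat_lit 9)))))))))))) q30879 (by decide +kernel)
def q30888 : Q := Q.p (nat_lit 0xc0000300000200000800002000000000000000000000000000000000000000000000000000000000000000) (nat_lit 0x18000060000700001800001d0001f000019000000000000000000000000000000000000000000000000000000000000000) (nat_lit 9)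
theorem c30888 : QOK q30888 := cut [q30574, q30585, q30882, q28594] ⟨c30574, c30585, c30882, c28594, trivial⟩ (nd (nat_lit 277) (nat_lit 0) (cs (rf (nat_lit 0)) (cs (rf (nat_lit 1)) (cs (nd (nat_lit 299) (nat_lit 0) (cs (lf (nat_lit 36) (nat_lit 254)) (nd (nat_lit 344) (nat_lit 0) (cs (lf (nat_lit 29) (nat_lit 277)) (nd (nat_lit 345) (nat_lit 0) (cs (lf (nat_lit 18) (nat_lit 320)) (nd (nat_lit 323) (nat_lit 0) (cs (lf (nat_lit 17) (nat_lit 320)) (rf (nat_lit 2)))))))))) (nd (nat_lit 299) (nat_lit 0) (cs (lf (nat_lit 36) (nat_lit 254)) (rf (nat_lit 3)))))))) q30888 (by decide +kernel)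
def q30928 : Q := Q.p (nat_lit 0xc0000300000200000800000000000000000000000000000000000000000000000000000000000000000000) (nat_lit 0x1800006e000738000c6000fd0003e000038000000000000000000000000000000000000000000000000000000000000000) (nat_lit 13)
theorem c30928 : QOK q30928 := cut [q29132, q29136, q29951, q30882, q30682] ⟨c29132, c29136, c29951, c30882, c30682, trivial⟩ (nd (nat_lit 341) (nat_lit 0) (cs (rf (nat_lit 0)) (cs (rf (nat_lit 1)) (nd (nat_lit 299) (nat_lit 0) (cs (nd (nat_lit 322) (nat_lit 0) (cs (lf (nat_lit 6) (nat_lit 319)) (nd (nat_lit 298) (nat_lit 0) (cs (lf (nat_lit 0) (nat_lit 296)) (nd (nat_lit 365) (nat_lit 0) (cs (lf (nat_lit 42) (nat_lit 298)) (nd (nat_lit 277) (nat_lit 0) (cs (lf (nat_lit 36) (nat_lit 254)) (rf (nat_lit 2)))))))))) (cs (nd (nat_lit 322) (nat_lit 0) (cs (lf (nat_lit 6) (nat_lit 319)) (nd (nat_lit 298) (nat_lit 0) (cs (lf (nat_lit 0) (nat_lit 296)) (nd (nat_lit 365) (nat_lit 0) (cs (lf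 (nat_lit 42) (nat_lit 298)) (nd (nat_lit 300) (nat_lit 0) (cs (lf (nat_lit 35) (nat_lit 277)) (nd (nat_lit 366) (nat_lit 0) (cs (lf (nat_lit 29) (nat_lit 299)) (nd (nat_lit 301) (nat_lit 0) (cs (lf (nat_lit 6) (nat_lit 298)) (nd (nat_lit 279) (nat_lit 0) (cs (lf (nat_lit 17) (nat_lit 276)) (lf (nat_lit 31) (nat_lit 278)))))))))))))))) (cs (nd (nat_lit 277) (nat_lit 0) (cs (lf (nat_lit 36) (nat_lit 254)) (nd (nat_lit 344) (nat_lit 0) (cs (lf (nat_lit 29) (nat_lit 277)) (nd (nat_lit 362) (nat_lit 0) (cs (lf (nat_lit 10) (nat_lit 340)) (nd (nat_lit 345) (nat_lit 0) (cs (lf (nat_lit 18) (nat_lit 320)) (rf (nat_lit 3)))))))))) (cs (nd (nat_lit 322) (nat_lit 0) (cs (lf (nat_lit 6) (nat_lit 319)) (nd (nat_lit 277) (nat_lit 0) (cs (lf (nat_lit 36) (nat_lit 254)) (nd (nat_lit 344) (nat_lit 0) (cs (lf (nat_lit 29) (nat_lit 277)) (nd (nat_lit 362) (nat_lit 0) (cs (lf (nat_lit 10) (nat_lit 340)) (nd (nat_lit 345) (nat_lit 0) (cs (lf (nat_lit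 18) (nat_lit 320)) (nd (nat_lit 278) (nat_lit 0) (cs (lf (nat_lit 35) (nat_lit 255)) (nd (nat_lit 300) (nat_lit 0) (cs (lf (nat_lit 30) (nat_lit 277)) (nd (nat_lit 302) (nat_lit 0) (cs (lf (nat_lit 7) (nat_lit 298)) (nd (nat_lit 279) (nat_lit 0) (cs (lf (nat_lit 35) (nat_lit 256)) (nd (nat_lit 280) (nat_lit 0) (cs (lf (nat_lit 5) (nat_lit 277)) (lf (nat_lit 6) (nat_lit 277)))))))))))))))))))))) (nd (nat_lit 322) (nat_lit 0) (cs (lf (nat_lit 6) (nat_lit 319)) (nd (nat_lit 298) (nat_lit 0) (cs (lf (nat_lit 0) (nat_lit 296)) (nd (nat_lit 365) (nat_lit 0) (cs (lf (nat_lit 42) (nat_lit 298)) (rf (nat_lit 4)))))))))))))))) q30928 (by decide +kernel)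
def q31015 : Q := Q.p (nat_lit 0xc0000200000000000000000000000000000000000000000000000000000000000000000000000000000000) (nat_lit 0x1700005e0003ef000f38001d00003c0000e000010000000000000000000000000000000000000000000000000000000000000000) (nat_lit 13)
theorem c31015 : QOK q31015 := cut [q30989, q30991, q30590, q29182, q29285, q29344] ⟨c30989, c30991, c30590, c29182, c29285, c29344, trivial⟩ (nd (nat_lit 365) (nat_lit 0) (cs (rf (nat_lit 0)) (cs (nd (nat_lit 341) (nat_lit 0) (cs (nd (nat_lit 340) (nat_lit 0) (cs (lf (nat_lit 5) (nat_lit 340)) (rf (nat_lit 1)))) (cs (nd (nat_lit 344) (nat_lit 0) (cs (rf (nat_lit 2)) (cs (nd (nat_lit 323) (nat_lit 0) (cs (lf (nat_lit 16) (nat_lit 319)) (nd (nat_lit 345) (nat_lit 0) (cs (lf (nat_lit 17) (nat_lit 320)) (nd (nat_lit 362) (nat_lit 0) (cs (lf (nat_lit 10) (nat_lit 340)) (nd (nat_lit 368) (nat_lit 0) (cs (lf (nat_lit 4) (nat_lit 342)) (nd (nat_lit 346) (nat_lit 0) (cs (lf (nat_lit 23)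 (nat_lit 320)) (lf (nat_lit 5) (nat_lit 343)))))))))))) (nd (nat_lit 362) (nat_lit 0) (cs (lf (nat_lit 10) (nat_lit 340)) (nd (nat_lit 323) (nat_lit 0) (cs (lf (nat_lit 16) (nat_lit 319)) (nd (nat_lit 345) (nat_lit 0) (cs (lf (nat_lit 17) (nat_lit 320)) (nd (nat_lit 346) (nat_lit 0) (cs (lf (nat_lit 23) (nat_lit 320)) (nd (nat_lit 368) (nat_lit 0) (cs (lf (nat_lit 5) (nat_lit 343)) (nd (nat_lit 390) (nat_lit 0) (cs (nd (nat_lit 279) (nat_lit 0) (cs (lf (nat_lit 25) (nat_lit 279)) (nd (nat_lit 366) (nat_lit 0) (cs (lf (nat_lit 6) (nat_lit 343)) (nd (nat_lit 299) (nat_lit 0) (cs (lf (nat_lit 29) (nat_lit 299)) (lf (nat_lit 24) (nat_lit 277)))))))) (lf (nat_lit 42) (nat_lit 323))))))))))))))))) (cs (nd (nat_lit 322) (nat_lit 0) (cs (lf (nat_lit 12) (nat_lit 318)) (nd (nat_lit 323) (nat_lit 0) (cs (lf (nat_lit 9) (nat_lit 319)) (lf (nat_lit 6) (nat_lit 320)))))) (nd (nat_lit 340) (nat_lit 0) (cs (lf (nat_lit 5) (nat_lit 340))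 (lf (nat_lit 17) (nat_lit 318)))))))) (cs (nd (nat_lit 322) (nat_lit 0) (cs (rf (nat_lit 3)) (rf (nat_lit 4)))) (nd (nat_lit 387) (nat_lit 0) (cs (rf (nat_lit 5)) (nd (nat_lit 322) (nat_lit 0) (cs (lf (nat_lit 35) (nat_lit 299)) (rf (nat_lit 3)))))))))) q31015 (by decide +kernel)
def q31037 : Q := Q.p (nat_lit 0xc0000200000a00000000000000000000000000000000000000000000000000000000000000000000000000) (nat_lit 0x4000010000050000150001e000018000000000000000000000000000000000000000000000000000000000000000) (nat_lit 5)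
theorem c31037 : QOK q31037 := cut [q30882] ⟨c30882, trivial⟩ (nd (nat_lit 277) (nat_lit 0) (cs (rf (nat_lit 0)) (nd (nat_lit 344) (nat_lit 0) (cs (lf (nat_lit 29) (nat_lit 277)) (nd (nat_lit 255) (nat_lit 0) (cs (lf (nat_lit 28) (nat_lit 255)) (lf (nat_lit 40) (nat_lit 254)))))))) q31037 (by decide +kernel)
def q31124 : Q := Q.p (nat_lit 0xc0000200000200000800000000000000000000000000000000000000000000000000000000000000000000) (nat_lit 0x40000700005e0001f000063000fd0003fd0003e0000780001c0000000000000000000000000000000000000000000000000000000000) (nat_lit 13)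
theorem c31124 : QOK q31124 := cut [q29245, q31039, q31110, q13978, q30989] ⟨c29245, c31039, c31110, c13978, c30989, trivial⟩ (nd (nat_lit 299) (nat_lit 0) (cs (rf (nat_lit 0)) (cs (rf (nat_lit 1)) (cs (nd (nat_lit 300) (nat_lit 0) (cs (nd (nat_lit 278) (nat_lit 0) (cs (lf (nat_lit 30) (nat_lit 277)) (nd (nat_lit 256) (nat_lit 0) (cs (lf (nat_lit 36) (nat_lit 233)) (lf (nat_lit 33) (nat_lit 255)))))) (cs (rf (nat_lit 2)) (nd (nat_lit 322) (nat_lit 0) (cs (rf (nat_lit 3)) (nd (nat_lit 278) (nat_lit 0) (cs (lf (nat_lit 36) (nat_lit 255)) (nd (nat_lit 298) (nat_lit 0) (cs (lf (nat_lit 17) (nat_lit 275)) (lf (nat_lit 0) (nat_lit 296))))))))))) (nd (nat_lit 365) (nat_lit 0) (cs (rf (nat_lit 4)) (cs (nd (nat_lit 364) (nat_lit 0) (cs (lf (nat_lit 41) (nat_lit 298)) (nd (nat_lit 298) (nat_lit 0) (cs (lf (nat_lit 44) (nat_lit 275)) (nd (nat_lit 300) (nat_lit 0) (cs (lf (nat_lit 35) (nat_lit 277)) (nd (nat_lit 322) (nat_lit 0) (cs (lf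 (nat_lit 30) (nat_lit 299)) (lf (nat_lit 0) (nat_lit 296)))))))))) (nd (nat_lit 278) (nat_lit 0) (cs (lf (nat_lit 34) (nat_lit 277)) (nd (nat_lit 366) (nat_lit 0) (cs (lf (nat_lit 29) (nat_lit 299)) (nd (nat_lit 341) (nat_lit 0) (cs (lf (nat_lit 0) (nat_lit 340)) (nd (nat_lit 367) (nat_lit 0) (cs (lf (nat_lit 18) (nat_lit 342)) (lf (nat_lit 21) (nat_lit 341))))))))))))))))) q31124 (by decide +kernel)
def q31228 : Q := Q.p (nat_lit 0x70000000000200000800000000000000000000000000000000000000000000000000000000000000000000) (nat_lit 0xee000180000680000000000000000000000000000000000000000000000000000000000000000000000000000000) (nat_lit 6)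
theorem c31228 : QOK q31228 := cut [q31227] ⟨c31227, trivial⟩ (nd (nat_lit 362) (nat_lit 0) (cs (lf (nat_lit 38) (nat_lit 274)) (rf (nat_lit 0)))) q31228 (by decide +kernel)
def q31235 : Q := Q.p (nat_lit 0x70000000000000000000000000000000000000000000000000000000000000000000000000000000000000) (nat_lit 0x400007f000188000e00000800002000000000000000000000000000000000000000000000000000000000000000000000) (nat_lit 6)
theorem c31235 : QOK q31235 := cut [q25486, q31230, q31232] ⟨c25486, c31230, c31232, trivial⟩ (nd (nat_lit 343) (nat_lit 0) (cs (rf (nat_lit 0)) (cs (rf (nat_lit 1)) (nd (nat_lit 365) (nat_lit 0) (cs (lf (nat_lit 5) (nat_lit 340)) (nd (nat_lit 364) (nat_lit 0) (cs (lf (nat_lit 0) (nat_lit 339)) (rf (nat_lit 2))))))))) q31235 (by decide +kernel)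
def q31268 : Q := Q.p (nat_lit 0x70000000000200000800000000000000000000000000000000000000000000000000000000000000000000) (nat_lit 0xee000180000e60000100000000000000000000000000000000000000000000000000000000000000000000000000) (nat_lit 6)
theorem c31268 : QOK q31268 := cut [q29134, q31230, q31266] ⟨c29134, c31230, c31266, trivial⟩ (nd (nat_lit 343) (nat_lit 0) (cs (rf (nat_lit 0)) (cs (rf (nat_lit 1)) (nd (nat_lit 317) (nat_lit 0) (cs (lf (nat_lit 22) (nat_lit 317)) (rf (nat_lit 2))))))) q31268 (by decide +kernel)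
def q31500 : Q := Q.p (nat_lit 0x40000c00000200000800002000000000000000000000000000000000000000000000000000000000000000) (nat_lit 0x100001c0000f2000730001fd0003f0000f90001e0000280000000000000000000000000000000000000000000000000000) (nat_lit 14)
theorem c31500 : QOK q31500 := cut [q28638, q31327, q31326, q31415, q30057, q31438, q31447, q31448, q31452, q31460, q31331, q31446, q31442, q31487, q28559] ⟨c28638, c31327, c31326, c31415, c30057, c31438, c31447, c31448, c31452, c31460, c31331, c31446, c31442, c31487, c28559, trivial⟩ (nd (nat_lit 300) (nat_lit 0) (cs (rf (nat_lit 0)) (cs (rf (nat_lit 1)) (cs (nd (nat_lit 278) (nat_lit 0) (cs (rf (nat_lit 2)) (cs (rf (nat_lit 3)) (cs (nd (nat_lit 301) (nat_lit 0) (cs (nd (nat_lit 276) (nat_lit 0) (cs (nd (nat_lit 320) (nat_lit 0) (cs (lf (nat_lit 44) (nat_lit 253)) (nd (nat_lit 321) (nat_lit 0) (cs (lf (nat_lit 17) (nat_lit 298)) (lf (nat_lit 11) (nat_lit 319)))))) (lf (nat_lit 2) (nat_lit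 275)))) (cs (nd (nat_lit 256) (nat_lit 0) (cs (nd (nat_lit 233) (nat_lit 0) (cs (lf (nat_lit 46) (nat_lit 233)) (nd (nat_lit 257) (nat_lit 0) (cs (lf (nat_lit 35) (nat_lit 234)) (nd (nat_lit 279) (nat_lit 0) (cs (lf (nat_lit 30) (nat_lit 256)) (nd (nat_lit 236) (nat_lit 0) (cs (nd (nat_lit 324) (nat_lit 0) (cs (nd (nat_lit 325) (nat_lit 0) (cs (lf (nat_lit 18) (nat_lit 300)) (nd (nat_lit 303) (nat_lit 0) (cs (nd (nat_lit 321) (nat_lit 0) (cs (rf (nat_lit 4)) (lf (nat_lit 16) (nat_lit 299)))) (lf (nat_lit 17) (nat_lit 300)))))) (lf (nat_lit 29) (nat_lit 257)))) (lf (nat_lit 34) (nat_lit 235)))))))))) (lf (nat_lit 24) (nat_lit 234)))) (nd (nat_lit 234) (nat_lit 0) (cs (lf (nat_lit 25) (nat_lit 234)) (rf (nat_lit 5))))))) (cs (rf (nat_lit 6)) (rf (nat_lit 7))))))) (cs (nd (nat_lit 278) (nat_lit 0) (cs (rf (nat_lit 2)) (cs (rf (nat_lit 3)) (cs (rf (nat_lit 6)) (cs (rf (nat_lit 7)) (nd (nat_lit 301) (nat_lit 0) (cs (rf (nat_lit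 5)) (cs (nd (nat_lit 234) (nat_lit 0) (cs (lf (nat_lit 25) (nat_lit 234)) (nd (nat_lit 277) (nat_lit 0) (cs (lf (nat_lit 1) (nat_lit 275)) (rf (nat_lit 8)))))) (cs (nd (nat_lit 256) (nat_lit 0) (cs (lf (nat_lit 24) (nat_lit 234)) (nd (nat_lit 233) (nat_lit 0) (cs (lf (nat_lit 46) (nat_lit 233)) (rf (nat_lit 9)))))) (cs (nd (nat_lit 256) (nat_lit 0) (cs (lf (nat_lit 24) (nat_lit 234)) (nd (nat_lit 277) (nat_lit 0) (cs (lf (nat_lit 1) (nat_lit 275)) (nd (nat_lit 257) (nat_lit 0) (cs (lf (nat_lit 35) (nat_lit 234)) (nd (nat_lit 233) (nat_lit 0) (cs (lf (nat_lit 46) (nat_lit 233)) (nd (nat_lit 258) (nat_lit 0) (cs (lf (nat_lit 6) (nat_lit 255)) (nd (nat_lit 236) (nat_lit 0) (cs (lf (nat_lit 32) (nat_lit 235)) (nd (nat_lit 302) (nat_lit 0) (cs (lf (nat_lit 18) (nat_lit 277)) (lf (nat_lit 38) (nat_lit 235)))))))))))))))) (nd (nat_lit 256) (nat_lit 0) (cs (lf (nat_lit 24) (nat_lit 234)) (nd (nat_lit 276) (nat_lit 0) (cs (lf (nat_lit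 2) (nat_lit 275)) (rf (nat_lit 9)))))))))))))))) (cs (nd (nat_lit 299) (nat_lit 0) (cs (lf (nat_lit 1) (nat_lit 297)) (nd (nat_lit 325) (nat_lit 0) (cs (lf (nat_lit 19) (nat_lit 299)) (nd (nat_lit 278) (nat_lit 0) (cs (rf (nat_lit 2)) (cs (rf (nat_lit 3)) (cs (rf (nat_lit 7)) (cs (nd (nat_lit 344) (nat_lit 0) (cs (rf (nat_lit 10)) (cs (rf (nat_lit 11)) (nd (nat_lit 345) (nat_lit 0) (cs (lf (nat_lit 29) (nat_lit 278)) (nd (nat_lit 255) (nat_lit 0) (cs (lf (nat_lit 46) (nat_lit 255)) (nd (nat_lit 279) (nat_lit 0) (cs (lf (nat_lit 35) (nat_lit 256)) (nd (nat_lit 280) (nat_lit 0) (cs (lf (nat_lit 6) (nat_lit 277)) (nd (nat_lit 301) (nat_lit 0) (cs (lf (nat_lit 35) (nat_lit 257)) (rf (nat_lit 12))))))))))))))) (rf (nat_lit 13))))))))))) (nd (nat_lit 299) (nat_lit 0) (cs (lf (nat_lit 1) (nat_lit 297)) (nd (nat_lit 324) (nat_lit 0) (cs (lf (nat_lit 18) (nat_lit 299)) (nd (nat_lit 278) (nat_lit 0) (cs (rf (nat_lit 2)) (cs (rf (nat_lit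 3)) (cs (rf (nat_lit 7)) (cs (rf (nat_lit 13)) (nd (nat_lit 344) (nat_lit 0) (cs (rf (nat_lit 14)) (nd (nat_lit 345) (nat_lit 0) (cs (lf (nat_lit 29) (nat_lit 278)) (nd (nat_lit 279) (nat_lit 0) (cs (lf (nat_lit 35) (nat_lit 256)) (nd (nat_lit 280) (nat_lit 0) (cs (lf (nat_lit 6) (nat_lit 277)) (nd (nat_lit 258) (nat_lit 0) (cs (lf (nat_lit 32) (nat_lit 257)) (lf (nat_lit 38) (nat_lit 257))))))))))))))))))))))))))) q31500 (by decide +kernel)
def q31569 : Q := Q.p (nat_lit 0x40000c00000200000800002000000000000000000000000000000000000000000000000000000000000000) (nat_lit 0x1300006c0003fa001f20003fd0007f0000f9000200000000000000000000000000000000000000000000000000000000000) (nat_lit 13)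
theorem c31569 : QOK q31569 := cut [q31318, q31521, q31405, q31547] ⟨c31318, c31521, c31405, c31547, trivial⟩ (nd (nat_lit 324) (nat_lit 0) (cs (nd (nat_lit 321) (nat_lit 0) (cs (rf (nat_lit 0)) (lf (nat_lit 10) (nat_lit 320)))) (cs (nd (nat_lit 343) (nat_lit 0) (cs (lf (nat_lit 9) (nat_lit 320)) (nd (nat_lit 344) (nat_lit 0) (cs (lf (nat_lit 12) (nat_lit 319)) (lf (nat_lit 15) (nat_lit 320)))))) (cs (nd (nat_lit 325) (nat_lit 0) (cs (rf (nat_lit 1)) (cs (nd (nat_lit 347) (nat_lit 0) (cs (lf (nat_lit 5) (nat_lit 322)) (nd (nat_lit 321) (nat_lit 0) (cs (lf (nat_lit 4) (nat_lit 321)) (nd (nat_lit 299) (nat_lit 0) (cs (lf (nat_lit 22) (nat_lit 299)) (lf (nat_lit 23) (nat_lit 298)))))))) (cs (nd (nat_lit 303) (nat_lit 0) (cs (lf (nat_lit 17) (nat_lit 300)) (nd (nat_lit 302) (nat_lit 0) (cs (nd (nat_lit 300) (nat_lit 0) (cs (lf (nat_lit 23) (nat_lit 299)) (nd (nat_lit 301) (nat_lit 0) (cs (lf (nat_lit 18) (nat_lit 300)) (nd (nat_lit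 277) (nat_lit 0) (cs (lf (nat_lit 22) (nat_lit 277)) (nd (nat_lit 281) (nat_lit 0) (cs (lf (nat_lit 17) (nat_lit 278)) (nd (nat_lit 259) (nat_lit 0) (cs (lf (nat_lit 36) (nat_lit 236)) (lf (nat_lit 41) (nat_lit 258)))))))))))) (lf (nat_lit 12) (nat_lit 299)))))) (nd (nat_lit 347) (nat_lit 0) (cs (lf (nat_lit 5) (nat_lit 322)) (nd (nat_lit 303) (nat_lit 0) (cs (lf (nat_lit 17) (nat_lit 300)) (nd (nat_lit 302) (nat_lit 0) (cs (lf (nat_lit 12) (nat_lit 299)) (nd (nat_lit 280) (nat_lit 0) (cs (lf (nat_lit 24) (nat_lit 258)) (lf (nat_lit 42) (nat_lit 280)))))))))))))) (nd (nat_lit 325) (nat_lit 0) (cs (rf (nat_lit 1)) (cs (nd (nat_lit 344) (nat_lit 0) (cs (nd (nat_lit 279) (nat_lit 0) (cs (nd (nat_lit 301) (nat_lit 0) (cs (lf (nat_lit 36) (nat_lit 256)) (nd (nat_lit 366) (nat_lit 0) (cs (lf (nat_lit 30) (nat_lit 300)) (lf (nat_lit 39) (nat_lit 278)))))) (cs (nd (nat_lit 300) (nat_lit 0) (cs (lf (nat_lit 23) (nat_lit 299)) (nd (nat_lit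 347) (nat_lit 0) (cs (lf (nat_lit 5) (nat_lit 322)) (nd (nat_lit 278) (nat_lit 0) (cs (lf (nat_lit 35) (nat_lit 256)) (rf (nat_lit 2)))))))) (cs (nd (nat_lit 303) (nat_lit 0) (cs (lf (nat_lit 17) (nat_lit 300)) (nd (nat_lit 347) (nat_lit 0) (cs (lf (nat_lit 5) (nat_lit 322)) (nd (nat_lit 300) (nat_lit 0) (cs (lf (nat_lit 23) (nat_lit 299)) (nd (nat_lit 366) (nat_lit 0) (cs (lf (nat_lit 34) (nat_lit 278)) (rf (nat_lit 3)))))))))) (nd (nat_lit 300) (nat_lit 0) (cs (lf (nat_lit 23) (nat_lit 299)) (nd (nat_lit 301) (nat_lit 0) (cs (lf (nat_lit 36) (nat_lit 256)) (lf (nat_lit 30) (nat_lit 278)))))))))) (lf (nat_lit 11) (nat_lit 321)))) (cs (nd (nat_lit 300) (nat_lit 0) (cs (lf (nat_lit 23) (nat_lit 299)) (nd (nat_lit 348) (nat_lit 0) (cs (lf (nat_lit 4) (nat_lit 322)) (nd (nat_lit 326) (nat_lit 0) (cs (lf (nat_lit 5) (nat_lit 323)) (lf (nat_lit 22) (nat_lit 300)))))))) (nd (nat_lit 304) (nat_lit 0) (cs (nd (nat_lit 299) (nat_lit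 0) (cs (lf (nat_lit 22) (nat_lit 299)) (nd (nat_lit 326) (nat_lit 0) (cs (nd (nat_lit 344) (nat_lit 0) (cs (lf (nat_lit 11) (nat_lit 321)) (lf (nat_lit 10) (nat_lit 322)))) (lf (nat_lit 17) (nat_lit 301)))))) (lf (nat_lit 16) (nat_lit 300)))))))))))) q31569 (by decide +kernel)
def q31603 : Q := Q.p (nat_lit 0x1c0000400000200000800002000000000000000000000000000000000000000000000000000000000000000) (nat_lit 0x280007fe000ff0007ee0002300002e0000900002000000000000000000000000000000000000000000000000000000000000000000000) (nat_lit 12)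
theorem c31603 : QOK q31603 := cut [q31016, q28537, q28549, q29891, q28026, q28459, q28461, q28517] ⟨c31016, c28537, c28549, c29891, c28026, c28459, c28461, c28517, trivial⟩ (nd (nat_lit 366) (nat_lit 0) (cs (rf (nat_lit 0)) (cs (nd (nat_lit 388) (nat_lit 0) (cs (rf (nat_lit 1)) (cs (rf (nat_lit 2)) (cs (rf (nat_lit 3)) (nd (nat_lit 387) (nat_lit 0) (cs (lf (nat_lit 41) (nat_lit 321)) (nd (nat_lit 321) (nat_lit 0) (cs (rf (nat_lit 4)) (nd (nat_lit 389) (nat_lit 0) (cs (lf (nat_lit 29) (nat_lit 322)) (nd (nat_lit 362) (nat_lit 0) (cs (nd (nat_lit 390) (nat_lit 0) (cs (nd (nat_lit 386) (nat_lit 0) (cs (rf (nat_lit 5)) (cs (rf (nat_lit 6)) (rf (nat_lit 7))))) (nd (nat_lit 413) (nat_lit 0) (cs (lf (nat_lit 4) (nat_lit 387)) (nd (nat_lit 369) (nat_lit 0) (cs (nd (nat_lit 391) (nat_lit 0) (cs (lf (nat_lit 5) (nat_lit 388)) (lf (nat_lit 17) (nat_lit 366)))) (lf (nat_lit 16) (nat_lit 365)))))))) (nd (nat_lit 340) (nat_lit 0) (cs (lf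 (nat_lit 13) (nat_lit 318)) (nd (nat_lit 318) (nat_lit 0) (cs (lf (nat_lit 39) (nat_lit 252)) (lf (nat_lit 33) (nat_lit 274)))))))))))))))))) (nd (nat_lit 388) (nat_lit 0) (cs (rf (nat_lit 1)) (cs (rf (nat_lit 2)) (cs (rf (nat_lit 3)) (nd (nat_lit 387) (nat_lit 0) (cs (lf (nat_lit 41) (nat_lit 321)) (nd (nat_lit 368) (nat_lit 0) (cs (nd (nat_lit 367) (nat_lit 0) (cs (lf (nat_lit 21) (nat_lit 342)) (lf (nat_lit 3) (nat_lit 342)))) (cs (nd (nat_lit 299) (nat_lit 0) (cs (lf (nat_lit 46) (nat_lit 299)) (nd (nat_lit 389) (nat_lit 0) (cs (lf (nat_lit 29) (nat_lit 322)) (nd (nat_lit 390) (nat_lit 0) (cs (lf (nat_lit 17) (nat_lit 365)) (nd (nat_lit 413) (nat_lit 0) (cs (lf (nat_lit 4) (nat_lit 387)) (nd (nat_lit 391) (nat_lit 0) (cs (lf (nat_lit 5) (nat_lit 388)) (lf (nat_lit 23) (nat_lit 365)))))))))))) (nd (nat_lit 367) (nat_lit 0) (cs (lf (nat_lit 3) (nat_lit 342)) (lf (nat_lit 6) (nat_lit 365)))))))))))))))) q31603 (by decide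 +kernel)
def q31667 : Q := Q.p (nat_lit 0x100000400001200000800002000000000000000000000000000000000000000000000000000000000000000) (nat_lit 0x20000180000e0000200000200002d0003f000029000000000000000000000000000000000000000000000000000000000000000) (nat_lit 9)
theorem c31667 : QOK q31667 := cut [q28559, q31665] ⟨c28559, c31665, trivial⟩ (nd (nat_lit 278) (nat_lit 0) (cs (rf (nat_lit 0)) (nd (nat_lit 345) (nat_lit 0) (cs (lf (nat_lit 29) (nat_lit 278)) (rf (nat_lit 1)))))) q31667 (by decide +kernel)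
def q31714 : Q := Q.p (nat_lit 0x100000400000200000800002000000000000000000000000000000000000000000000000000000000000000) (nat_lit 0x280000e0000380000e0000200000a00003d0003f000039000080000000000000000000000000000000000000000000000000000000000) (nat_lit 9)
theorem c31714 : QOK q31714 := cut [q28688, q29893, q28559, q31630, q28546, q31547, q31703, q31655, q31660, q31665] ⟨c28688, c29893, c28559, c31630, c28546, c31547, c31703, c31655, c31660, c31665, trivial⟩ (nd (nat_lit 300) (nat_lit 0) (cs (nd (nat_lit 366) (nat_lit 0) (cs (rf (nat_lit 0)) (cs (rf (nat_lit 1)) (nd (nat_lit 365) (nat_lit 0) (cs (lf (nat_lit 41) (nat_lit 299)) (nd (nat_lit 389) (nat_lit 0) (cs (lf (nat_lit 28) (nat_lit 300)) (nd (nat_lit 301) (nat_lit 0) (cs (lf (nat_lit 35) (nat_lit 278)) (nd (nat_lit 388) (nat_lit 0) (cs (lf (nat_lit 29) (nat_lit 322)) (lf (nat_lit 34) (nat_lit 300))))))))))))) (cs (nd (nat_lit 278) (nat_lit 0) (cs (rf (nat_lit 2)) (nd (nat_lit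 345) (nat_lit 0) (cs (lf (nat_lit 29) (nat_lit 278)) (nd (nat_lit 256) (nat_lit 0) (cs (lf (nat_lit 28) (nat_lit 256)) (rf (nat_lit 3)))))))) (cs (nd (nat_lit 366) (nat_lit 0) (cs (rf (nat_lit 4)) (cs (rf (nat_lit 5)) (nd (nat_lit 367) (nat_lit 0) (cs (lf (nat_lit 29) (nat_lit 300)) (nd (nat_lit 278) (nat_lit 0) (cs (lf (nat_lit 28) (nat_lit 278)) (rf (nat_lit 6))))))))) (cs (nd (nat_lit 366) (nat_lit 0) (cs (rf (nat_lit 7)) (cs (rf (nat_lit 6)) (nd (nat_lit 367) (nat_lit 0) (cs (lf (nat_lit 29) (nat_lit 300)) (nd (nat_lit 278) (nat_lit 0) (cs (lf (nat_lit 28) (nat_lit 278)) (nd (nat_lit 279) (nat_lit 0) (cs (lf (nat_lit 35) (nat_lit 256)) (nd (nat_lit 387) (nat_lit 0) (cs (lf (nat_lit 40) (nat_lit 299)) (nd (nat_lit 299) (nat_lit 0) (cs (lf (nat_lit 13) (nat_lit 275)) (rf (nat_lit 8))))))))))))))) (nd (nat_lit 278) (nat_lit 0) (cs (rf (nat_lit 2)) (rf (nat_lit 9))))))))) q31714 (by decide +kernel)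
def q31762 : Q := Q.p (nat_lit 0x140000400000200000800002000000000000000000000000000000000000000000000000000000000000000) (nat_lit 0x80000200007ae001eb0007ae001fd0003f0001f9000084000000000000000000000000000000000000000000000000000000000) (nat_lit 14)
theorem c31762 : QOK q31762 := cut [q27991, q27996, q31725, q31607, q31616, q28680, q28377] ⟨c27991, c27996, c31725, c31607, c31616, c28680, c28377, trivial⟩ (nd (nat_lit 343) (nat_lit 0) (cs (rf (nat_lit 0)) (cs (rf (nat_lit 1)) (cs (rf (nat_lit 2)) (nd (nat_lit 345) (nat_lit 0) (cs (rf (nat_lit 3)) (cs (rf (nat_lit 4)) (cs (nd (nat_lit 367) (nat_lit 0) (cs (lf (nat_lit 5) (nat_lit 342)) (nd (nat_lit 389) (nat_lit 0) (cs (lf (nat_lit 42) (nat_lit 322)) (nd (nat_lit 300) (nat_lit 0) (cs (lf (nat_lit 24) (nat_lit 278)) (lf (nat_lit 45) (nat_lit 300)))))))) (nd (nat_lit 323) (nat_lit 0) (cs (lf (nat_lit 17) (nat_lit 320)) (nd (nat_lit 278) (nat_lit 0) (cs (rf (nat_lit 5)) (cs (nd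 (nat_lit 279) (nat_lit 0) (cs (nd (nat_lit 301) (nat_lit 0) (cs (lf (nat_lit 47) (nat_lit 256)) (lf (nat_lit 36) (nat_lit 256)))) (cs (nd (nat_lit 277) (nat_lit 0) (cs (rf (nat_lit 6)) (nd (nat_lit 280) (nat_lit 0) (cs (nd (nat_lit 299) (nat_lit 0) (cs (nd (nat_lit 321) (nat_lit 0) (cs (lf (nat_lit 35) (nat_lit 255)) (lf (nat_lit 24) (nat_lit 255)))) (lf (nat_lit 11) (nat_lit 276)))) (cs (nd (nat_lit 303) (nat_lit 0) (cs (nd (nat_lit 258) (nat_lit 0) (cs (lf (nat_lit 17) (nat_lit 255)) (nd (nat_lit 281) (nat_lit 0) (cs (nd (nat_lit 255) (nat_lit 0) (cs (nd (nat_lit 347) (nat_lit 0) (cs (nd (nat_lit 346) (nat_lit 0) (cs (lf (nat_lit 18) (nat_lit 322)) (lf (nat_lit 23) (nat_lit 321)))) (lf (nat_lit 43) (nat_lit 258)))) (lf (nat_lit 22) (nat_lit 255)))) (lf (nat_lit 5) (nat_lit 278)))))) (lf (nat_lit 4) (nat_lit 277)))) (nd (nat_lit 298) (nat_lit 0) (cs (lf (nat_lit 10) (nat_lit 276)) (nd (nat_lit 303) (nat_lit 0) (cs (lf (nat_lit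 4) (nat_lit 277)) (nd (nat_lit 259) (nat_lit 0) (cs (nd (nat_lit 281) (nat_lit 0) (cs (lf (nat_lit 5) (nat_lit 278)) (lf (nat_lit 17) (nat_lit 256)))) (lf (nat_lit 16) (nat_lit 255))))))))))))) (nd (nat_lit 301) (nat_lit 0) (cs (lf (nat_lit 36) (nat_lit 256)) (nd (nat_lit 280) (nat_lit 0) (cs (lf (nat_lit 35) (nat_lit 257)) (nd (nat_lit 302) (nat_lit 0) (cs (lf (nat_lit 30) (nat_lit 279)) (nd (nat_lit 277) (nat_lit 0) (cs (lf (nat_lit 5) (nat_lit 277)) (lf (nat_lit 0) (nat_lit 276))))))))))))) (nd (nat_lit 300) (nat_lit 0) (cs (lf (nat_lit 29) (nat_lit 278)) (lf (nat_lit 41) (nat_lit 277))))))))))))))))) q31762 (by decide +kernel)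
def q31828 : Q := Q.p (nat_lit 0x140000400000200000800002000000000000000000000000000000000000000000000000000000000000000) (nat_lit 0x280000e0001f80007c0001ea0007a0000fd0001f0000790000e0000200000000000000000000000000000000000000000000000000000) (nat_lit 13)
theorem c31828 : QOK q31828 := cut [q31340, q31379, q28688, q31547, q31655, q29891, q31700, q30459, q31380, q31399, q31401, q29927, q31785, q27990] ⟨c31340, c31379, c28688, c31547, c31655, c29891, c31700, c30459, c31380, c31399, c31401, c29927, c31785, c27990, trivial⟩ (nd (nat_lit 323) (nat_lit 0) (cs (rf (nat_lit 0)) (cs (nd (nat_lit 366) (nat_lit 0) (cs (nd (nat_lit 341) (nat_lit 0) (cs (lf (nat_lit 14) (nat_lit 319)) (nd (nat_lit 301) (nat_lit 0) (cs (lf (nat_lit 30) (nat_lit 300)) (rf (nat_lit 1)))))) (cs (nd (nat_lit 300) (nat_lit 0) (cs (rf (nat_lit 2)) (cs (rf (nat_lit 3)) (rf (nat_lit 4))))) (cs (nd (nat_lit 388) (nat_lit 0) (cs (rf (nat_lit 5)) (cs (nd (nat_lit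 341) (nat_lit 0) (cs (lf (nat_lit 14) (nat_lit 319)) (nd (nat_lit 389) (nat_lit 0) (cs (lf (nat_lit 29) (nat_lit 322)) (nd (nat_lit 300) (nat_lit 0) (cs (lf (nat_lit 28) (nat_lit 300)) (rf (nat_lit 6)))))))) (nd (nat_lit 345) (nat_lit 0) (cs (lf (nat_lit 30) (nat_lit 322)) (nd (nat_lit 341) (nat_lit 0) (cs (lf (nat_lit 14) (nat_lit 319)) (nd (nat_lit 387) (nat_lit 0) (cs (lf (nat_lit 41) (nat_lit 321)) (nd (nat_lit 299) (nat_lit 0) (cs (lf (nat_lit 46) (nat_lit 299)) (nd (nat_lit 300) (nat_lit 0) (cs (lf (nat_lit 47) (nat_lit 277)) (lf (nat_lit 1) (nat_lit 297))))))))))))))) (nd (nat_lit 341) (nat_lit 0) (cs (lf (nat_lit 14) (nat_lit 319)) (nd (nat_lit 301) (nat_lit 0) (cs (lf (nat_lit 30) (nat_lit 300)) (nd (nat_lit 279) (nat_lit 0) (cs (lf (nat_lit 36) (nat_lit 256)) (lf (nat_lit 33) (nat_lit 278)))))))))))) (cs (nd (nat_lit 301) (nat_lit 0) (cs (rf (nat_lit 7)) (cs (rf (nat_lit 8)) (cs (rf (nat_lit 9)) (cs (rf (nat_lit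 10)) (nd (nat_lit 300) (nat_lit 0) (cs (rf (nat_lit 11)) (cs (rf (nat_lit 12)) (nd (nat_lit 366) (nat_lit 0) (cs (lf (nat_lit 30) (nat_lit 300)) (nd (nat_lit 367) (nat_lit 0) (cs (lf (nat_lit 29) (nat_lit 300)) (nd (nat_lit 345) (nat_lit 0) (cs (lf (nat_lit 47) (nat_lit 278)) (nd (nat_lit 368) (nat_lit 0) (cs (lf (nat_lit 29) (nat_lit 301)) (nd (nat_lit 369) (nat_lit 0) (cs (lf (nat_lit 18) (nat_lit 344)) (nd (nat_lit 391) (nat_lit 0) (cs (nd (nat_lit 347) (nat_lit 0) (cs (lf (nat_lit 17) (nat_lit 344)) (nd (nat_lit 321) (nat_lit 0) (cs (nd (nat_lit 302) (nat_lit 0) (cs (lf (nat_lit 35) (nat_lit 279)) (lf (nat_lit 6) (nat_lit 299)))) (lf (nat_lit 19) (nat_lit 321)))))) (lf (nat_lit 5) (nat_lit 366)))))))))))))))))))))) (nd (nat_lit 343) (nat_lit 0) (cs (lf (nat_lit 12) (nat_lit 319)) (rf (nat_lit 13)))))))) q31828 (by decide +kernel)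
def q31916 : Q := Q.p (nat_lit 0x140000400000200000800002000000000000000000000000000000000000000000000000000000000000000) (nat_lit 0x4000230000ec0002b00001f0003d0000f000039c00084000000000000000000000000000000000000000000000000000000000) (nat_lit 13)
theorem c31916 : QOK q31916 := cut [q31890, q31904] ⟨c31890, c31904, trivial⟩ (nd (nat_lit 278) (nat_lit 0) (cs (nd (nat_lit 319) (nat_lit 0) (cs (lf (nat_lit 28) (nat_lit 253)) (nd (nat_lit 252) (nat_lit 0) (cs (lf (nat_lit 47) (nat_lit 230)) (nd (nat_lit 276) (nat_lit 0) (cs (lf (nat_lit 19) (nat_lit 252)) (rf (nat_lit 0)))))))) (cs (nd (nat_lit 319) (nat_lit 0) (cs (lf (nat_lit 28) (nat_lit 253)) (nd (nat_lit 230) (nat_lit 0) (cs (lf (nat_lit 46) (nat_lit 230)) (nd (nat_lit 318) (nat_lit 0) (cs (lf (nat_lit 41) (nat_lit 252)) (nd (nat_lit 343) (nat_lit 0) (cs (lf (nat_lit 21) (nat_lit 318)) (nd (nat_lit 300) (nat_lit 0) (cs (lf (nat_lit 41) (nat_lit 277)) (nd (nat_lit 298) (nat_lit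 0) (cs (lf (nat_lit 7) (nat_lit 296)) (nd (nat_lit 316) (nat_lit 0) (cs (lf (nat_lit 13) (nat_lit 294)) (nd (nat_lit 279) (nat_lit 0) (cs (lf (nat_lit 35) (nat_lit 256)) (nd (nat_lit 366) (nat_lit 0) (cs (lf (nat_lit 34) (nat_lit 278)) (nd (nat_lit 367) (nat_lit 0) (cs (lf (nat_lit 29) (nat_lit 300)) (lf (nat_lit 28) (nat_lit 278)))))))))))))))))))))) (cs (rf (nat_lit 1)) (nd (nat_lit 319) (nat_lit 0) (cs (lf (nat_lit 28) (nat_lit 253)) (nd (nat_lit 318) (nat_lit 0) (cs (lf (nat_lit 41) (nat_lit 252)) (nd (nat_lit 343) (nat_lit 0) (cs (lf (nat_lit 21) (nat_lit 318)) (nd (nat_lit 300) (nat_lit 0) (cs (lf (nat_lit 41) (nat_lit 277)) (nd (nat_lit 257) (nat_lit 0) (cs (lf (nat_lit 34) (nat_lit 256)) (nd (nat_lit 235) (nat_lit 0) (cs (lf (nat_lit 33) (nat_lit 234)) (nd (nat_lit 345) (nat_lit 0) (cs (lf (nat_lit 29) (nat_lit 278)) (nd (nat_lit 298) (nat_lit 0) (cs (lf (nat_lit 7) (nat_lit 296)) (nd (nat_lit 316) (nat_lit 0) (cs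 (lf (nat_lit 13) (nat_lit 294)) (nd (nat_lit 277) (nat_lit 0) (cs (lf (nat_lit 47) (nat_lit 255)) (nd (nat_lit 276) (nat_lit 0) (cs (lf (nat_lit 11) (nat_lit 274)) (lf (nat_lit 5) (nat_lit 275)))))))))))))))))))))))))))) q31916 (by decide +kernel)
def q32029 : Q := Q.p (nat_lit 0x40000200000800002000000000000000000000000000000000000000000000000000000000000000) (nat_lit 0x280007e0001fc0003f8000180000a0000180000000000000000000000000000000000000000000000000000000000000000000000000) (nat_lit 12)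
theorem c32029 : QOK q32029 := cut [q31202] ⟨c31202, trivial⟩ (nd (nat_lit 340) (nat_lit 0) (cs (lf (nat_lit 39) (nat_lit 252)) (rf (nat_lit 0)))) q32029 (by decide +kernel)
def q32035 : Q := Q.p (nat_lit 0x40000200000800002000000000000000000000000000000000000000000000000000000000000000) (nat_lit 0x100000500001000000000018000060000100000000000000000000000000000000000000000000000) (nat_lit 5)
theorem c32035 : QOK q32035 := cut [q32034] ⟨c32034, trivial⟩ (nd (nat_lit 231) (nat_lit 0) (cs (lf (nat_lit 40) (nat_lit 230)) (rf (nat_lit 0)))) q32035 (by decide +kernel)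
def q32085 : Q := Q.p (nat_lit 0x40000700000000000000000000000000000000000000000) (nat_lit 0x80000e8000188000f000004000010000000000000000000000000) (nat_lit 6)
theorem c32085 : QOK q32085 := cut [q3049, q32082, q32084] ⟨c3049, c32082, c32084, trivial⟩ (nd (nat_lit 167) (nat_lit 0) (cs (rf (nat_lit 0)) (cs (rf (nat_lit 1)) (rf (nat_lit 2))))) q32085 (by decide +kernel)
def q32147 : Q := Q.p (nat_lit 0x40000700000000000000000000000000000000000000000) (nat_lit 0x80000620000880007000004000010000000000000000000000000) (nat_lit 6)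
theorem c32147 : QOK q32147 := cut [q32082] ⟨c32082, trivial⟩ (nd (nat_lit 167) (nat_lit 0) (cs (lf (nat_lit 11) (nat_lit 163)) (rf (nat_lit 0)))) q32147 (by decide +kernel)
def q32221 : Q := Q.p (nat_lit 0x10000040000100000000000000000000000000000000000000000) (nat_lit 0x200000e0003b0000ee0003f8000ff0000a800002000000000000000000) (nat_lit 16)
theorem c32221 : QOK q32221 := cut [q617, q619, q18163, q6148, q6166, q32208, q32214] ⟨c617, c619, c18163, c6148, c6166, c32208, c32214, trivial⟩ (nd (nat_lit 142) (nat_lit 0) (cs (rf (nat_lit 0)) (cs (rf (nat_lit 1)) (cs (rf (nat_lit 2)) (nd (nat_lit 143) (nat_lit 0) (cs (lf (nat_lit 35) (nat_lit 120)) (nd (nat_lit 162) (nat_lit 0) (cs (rf (nat_lit 3)) (cs (rf (nat_lit 4)) (cs (rf (nat_lit 5)) (nd (nat_lit 207) (nat_lit 0) (cs (lf (nat_lit 41) (nat_lit 141)) (nd (nat_lit 141) (nat_lit 0) (cs (lf (nat_lit 47) (nat_lit 119)) (nd (nat_lit 144) (nat_lit 0) (cs (lf (nat_lit 10) (nat_lit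 140)) (nd (nat_lit 122) (nat_lit 0) (cs (lf (nat_lit 17) (nat_lit 119)) (rf (nat_lit 6)))))))))))))))))))) q32221 (by decide +kernel)
def q32238 : Q := Q.p (nat_lit 0x2000004000010000040000000000000000000000000000000000000000000000) (nat_lit 0x80000a000008000000000180000600000800000000000000000000000000000) (nat_lit 5)
theorem c32238 : QOK q32238 := cut [q613] ⟨c613, trivial⟩ (nd (nat_lit 164) (nat_lit 0) (cs (lf (nat_lit 28) (nat_lit 164)) (rf (nat_lit 0)))) q32238 (by decide +kernel)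
def q32289 : Q := Q.p (nat_lit 0x10000040000180000400000000000000000000000000000000000) (nat_lit 0x20000000000a0000300000e000018000020000000000000) (nat_lit 6)
theorem c32289 : QOK q32289 := cut [q32287] ⟨c32287, trivial⟩ (nd (nat_lit 121) (nat_lit 0) (cs (lf (nat_lit 34) (nat_lit 120)) (nd (nat_lit 120) (nat_lit 0) (cs (lf (nat_lit 35) (nat_lit 98)) (rf (nat_lit 0)))))) q32289 (by decide +kernel)
def q32464 : Q := Q.p (nat_lit 0x100000400001e0000000000000000000000000000000000000000) (nat_lit 0x2000008000020000000000e00001800002000000000000000000000000) (nat_lit 5)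
theorem c32464 : QOK q32464 := cut [q619] ⟨c619, trivial⟩ (nd (nat_lit 142) (nat_lit 0) (cs (rf (nat_lit 0)) (lf (nat_lit 17) (nat_lit 139)))) q32464 (by decide +kernel)
def q32488 : Q := Q.p (nat_lit 0x100000600000c0000000000000000000000000000000000000000) (nat_lit 0x300000c0000300000e000180000000000300000c00000000000000000000000000000) (nat_lit 5)
theorem c32488 : QOK q32488 := cut [q5508, q32473, q32474] ⟨c5508, c32473, c32474, trivial⟩ (nd (nat_lit 207) (nat_lit 0) (cs (rf (nat_lit 0)) (cs (rf (nat_lit 1)) (rf (nat_lit 2))))) q32488 (by decide +kernel)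
def q32539 : Q := Q.p (nat_lit 0x100000400000c0000200000000000000000000000000000000000) (nat_lit 0x180000700001d80002800002000000000000000000000000) (nat_lit 5)
theorem c32539 : QOK q32539 := cut [q20055, q32538] ⟨c20055, c32538, trivial⟩ (nd (nat_lit 164) (nat_lit 0) (cs (rf (nat_lit 0)) (rf (nat_lit 1)))) q32539 (by decide +kernel)
def q32574 : Q := Q.p (nat_lit 0x100000400000c0000200000000000000000000000000000000000) (nat_lit 0x10000130001d0001f800006000018000040000000000000) (nat_lit 7)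
theorem c32574 : QOK q32574 := cut [q3871, q32511, q32570, q32572] ⟨c3871, c32511, c32570, c32572, trivial⟩ (nd (nat_lit 142) (nat_lit 0) (cs (rf (nat_lit 0)) (cs (rf (nat_lit 1)) (cs (rf (nat_lit 2)) (nd (nat_lit 160) (nat_lit 0) (cs (lf (nat_lit 13) (nat_lit 138)) (rf (nat_lit 3)))))))) q32574 (by decide +kernel)
def q32578 : Q := Q.p (nat_lit 0x10000040000140000200000000000000000000000000000000000) (nat_lit 0x1b0000680001980002800002000000000000000000000000) (nat_lit 5)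
theorem c32578 : QOK q32578 := cut [q32509, q32538] ⟨c32509, c32538, trivial⟩ (nd (nat_lit 163) (nat_lit 0) (cs (rf (nat_lit 0)) (rf (nat_lit 1)))) q32578 (by decide +kernel)
def q32652 : Q := Q.p (nat_lit 0x6000030000040000000000000000000000000000000000000000) (nat_lit 0x800001800000000000000380000e00002800000000000000000000000) (nat_lit 6)
theorem c32652 : QOK q32652 := cut [q27091] ⟨c27091, trivial⟩ (nd (nat_lit 203) (nat_lit 0) (cs (lf (nat_lit 13) (nat_lit 181)) (rf (nat_lit 0)))) q32652 (by decide +kernel)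
def q32665 : Q := Q.p (nat_lit 0x4000070000000000000000000000000000000000000000000000) (nat_lit 0x1ca000380001c00000000000000000000000000000000000000000) (nat_lit 6)
theorem c32665 : QOK q32665 := cut [q21491] ⟨c21491, trivial⟩ (nd (nat_lit 187) (nat_lit 0) (cs (lf (nat_lit 11) (nat_lit 183)) (rf (nat_lit 0)))) q32665 (by decide +kernel)
def q32689 : Q := Q.p (nat_lit 0x4000010000040000100000000000000000000000000000000000) (nat_lit 0x80000e00003800008000020000080000200000000000000000000000000000000000) (nat_lit 6)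
theorem c32689 : QOK q32689 := cut [q17643] ⟨c17643, trivial⟩ (nd (nat_lit 229) (nat_lit 0) (cs (lf (nat_lit 28) (nat_lit 140)) (nd (nat_lit 228) (nat_lit 0) (cs (lf (nat_lit 29) (nat_lit 162)) (rf (nat_lit 0)))))) q32689 (by decide +kernel)
def q32719 : Q := Q.p (nat_lit 0x10000050000040000100000000000000000000000000000000000) (nat_lit 0x80000380000e0000380000f8003a8000080000200000800000000000000000000000000000) (nat_lit 9)
theorem c32719 : QOK q32719 := cut [q32628, q32681, q32686, q32687] ⟨c32628, c32681, c32686, c32687, trivial⟩ (nd (nat_lit 206) (nat_lit 0) (cs (rf (nat_lit 0)) (cs (nd (nat_lit 141) (nat_lit 0) (cs (lf (nat_lit 35) (nat_lit 118)) (nd (nat_lit 207) (nat_lit 0) (cs (lf (nat_lit 29) (nat_lit 140)) (nd (nat_lit 228) (nat_lit 0) (cs (lf (nat_lit 34) (nat_lit 140)) (rf (nat_lit 1)))))))) (cs (rf (nat_lit 2)) (rf (nat_lit 3)))))) q32719 (by decide +kernel)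
def q32788 : Q := Q.p (nat_lit 0x10000050000140000000000000000000000000000000000000000) (nat_lit 0x80000e00003c0000e000028000680003be0002e0000b80000a000000000000000000) (nat_lit 9)
theorem c32788 : QOK q32788 := cut [q32650, q32767, q17700, q32769, q32771, q17642, q32656, q32779, q12357, q32712, q32784] ⟨c32650, c32767, c17700, c32769, c32771, c17642, c32656, c32779, c12357, c32712, c32784, trivial⟩ (nd (nat_lit 163) (nat_lit 0) (cs (rf (nat_lit 0)) (cs (rf (nat_lit 1)) (cs (nd (nat_lit 206) (nat_lit 0) (cs (nd (nat_lit 140) (nat_lit 0) (cs (rf (nat_lit 2)) (cs (rf (nat_lit 3)) (rf (nat_lit 4))))) (cs (nd (nat_lit 228) (nat_lit 0) (cs (rf (nat_lit 5)) (cs (rf (nat_lit 6)) (nd (nat_lit 229) (nat_lit 0) (cs (lf (nat_lit 29) (nat_lit 162)) (nd (nat_lit 140) (nat_lit 0) (cs (lf (nat_lit 28) (nat_lit 140)) (nd (nat_lit 117) (nat_lit 0) (cs (lf (nat_lit 46) (nat_lit 117)) (nd (nat_lit 185) (nat_lit 0) (cs (lf (nat_lit 30) (nat_lit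 162)) (nd (nat_lit 118) (nat_lit 0) (cs (lf (nat_lit 47) (nat_lit 95)) (lf (nat_lit 24) (nat_lit 96))))))))))))))) (nd (nat_lit 141) (nat_lit 0) (cs (lf (nat_lit 30) (nat_lit 140)) (rf (nat_lit 7))))))) (nd (nat_lit 140) (nat_lit 0) (cs (rf (nat_lit 8)) (cs (rf (nat_lit 9)) (nd (nat_lit 139) (nat_lit 0) (cs (lf (nat_lit 18) (nat_lit 139)) (nd (nat_lit 137) (nat_lit 0) (cs (lf (nat_lit 1) (nat_lit 137)) (rf (nat_lit 10))))))))))))) q32788 (by decide +kernel)
def q32821 : Q := Q.p (nat_lit 0x10000040000140000000000000000000000000000000000000000) (nat_lit 0x200004e0003a0000c80003e0001f80002a000080000000000000000000) (nat_lit 13)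
theorem c32821 : QOK q32821 := cut [q617, q619, q18163, q32809] ⟨c617, c619, c18163, c32809, trivial⟩ (nd (nat_lit 142) (nat_lit 0) (cs (rf (nat_lit 0)) (cs (rf (nat_lit 1)) (cs (rf (nat_lit 2)) (nd (nat_lit 141) (nat_lit 0) (cs (lf (nat_lit 47) (nat_lit 119)) (nd (nat_lit 207) (nat_lit 0) (cs (lf (nat_lit 41) (nat_lit 141)) (nd (nat_lit 143) (nat_lit 0) (cs (lf (nat_lit 35) (nat_lit 120)) (nd (nat_lit 144) (nat_lit 0) (cs (lf (nat_lit 10) (nat_lit 140)) (nd (nat_lit 123) (nat_lit 0) (cs (lf (nat_lit 16) (nat_lit 119)) (rf (nat_lit 3)))))))))))))))) q32821 (by decide +kernel)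
def q32970 : Q := Q.p (nat_lit 0x40000100000000002800002000000000000000000000000) (nat_lit 0x4800072e000d78003df000fe0001f0000780000000) (nat_lit 12)
theorem c32970 : QOK q32970 := cut [q32844, q32919, q32935, q32929, q32939, q32842] ⟨c32844, c32919, c32935, c32929, c32939, c32842, trivial⟩ (nd (nat_lit 120) (nat_lit 0) (cs (rf (nat_lit 0)) (cs (nd (nat_lit 122) (nat_lit 0) (cs (nd (nat_lit 141) (nat_lit 0) (cs (lf (nat_lit 27) (nat_lit 97)) (nd (nat_lit 145) (nat_lit 0) (cs (lf (nat_lit 4) (nat_lit 119)) (nd (nat_lit 123) (nat_lit 0) (cs (lf (nat_lit 22) (nat_lit 97)) (lf (nat_lit 5) (nat_lit 120)))))))) (cs (nd (nat_lit 144) (nat_lit 0) (cs (lf (nat_lit 5) (nat_lit 119)) (nd (nat_lit 100) (nat_lit 0) (cs (lf (nat_lit 17) (nat_lit 97)) (nd (nat_lit 99) (nat_lit 0) (cs (lf (nat_lit 12) (nat_lit 96)) (nd (nat_lit 77) (nat_lit 0) (cs (lf (nat_lit 42) (nat_lit 77)) (lf (nat_lit 24) (nat_lit 55)))))))))) (nd (nat_lit 100) (nat_lit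 0) (cs (lf (nat_lit 17) (nat_lit 97)) (nd (nat_lit 99) (nat_lit 0) (cs (lf (nat_lit 12) (nat_lit 96)) (nd (nat_lit 98) (nat_lit 0) (cs (lf (nat_lit 5) (nat_lit 97)) (nd (nat_lit 78) (nat_lit 0) (cs (lf (nat_lit 17) (nat_lit 75)) (nd (nat_lit 34) (nat_lit 0) (cs (lf (nat_lit 37) (nat_lit 33)) (nd (nat_lit 75) (nat_lit 0) (cs (lf (nat_lit 23) (nat_lit 74)) (nd (nat_lit 141) (nat_lit 0) (cs (lf (nat_lit 27) (nat_lit 97)) (nd (nat_lit 54) (nat_lit 0) (cs (lf (nat_lit 37) (nat_lit 53)) (nd (nat_lit 53) (nat_lit 0) (cs (lf (nat_lit 35) (nat_lit 31)) (lf (nat_lit 24) (nat_lit 31))))))))))))))))))))))) (cs (nd (nat_lit 118) (nat_lit 0) (cs (nd (nat_lit 141) (nat_lit 0) (cs (lf (nat_lit 27) (nat_lit 97)) (nd (nat_lit 99) (nat_lit 0) (cs (lf (nat_lit 17) (nat_lit 96)) (nd (nat_lit 117) (nat_lit 0) (cs (lf (nat_lit 16) (nat_lit 95)) (rf (nat_lit 1)))))))) (cs (rf (nat_lit 2)) (cs (nd (nat_lit 99) (nat_lit 0) (cs (lf (nat_lit 17) (nat_lit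 96)) (nd (nat_lit 117) (nat_lit 0) (cs (lf (nat_lit 16) (nat_lit 95)) (nd (nat_lit 141) (nat_lit 0) (cs (lf (nat_lit 27) (nat_lit 97)) (rf (nat_lit 3)))))))) (cs (nd (nat_lit 141) (nat_lit 0) (cs (lf (nat_lit 27) (nat_lit 97)) (nd (nat_lit 95) (nat_lit 0) (cs (lf (nat_lit 22) (nat_lit 95)) (nd (nat_lit 117) (nat_lit 0) (cs (lf (nat_lit 23) (nat_lit 94)) (nd (nat_lit 116) (nat_lit 0) (cs (rf (nat_lit 4)) (lf (nat_lit 17) (nat_lit 94)))))))))) (cs (nd (nat_lit 99) (nat_lit 0) (cs (lf (nat_lit 17) (nat_lit 96)) (nd (nat_lit 96) (nat_lit 0) (cs (rf (nat_lit 5)) (nd (nat_lit 141) (nat_lit 0) (cs (lf (nat_lit 27) (nat_lit 97)) (nd (nat_lit 74) (nat_lit 0) (cs (nd (nat_lit 98) (nat_lit 0) (cs (nd (nat_lit 54) (nat_lit 0) (cs (lf (nat_lit 37) (nat_lit 53)) (nd (nat_lit 77) (nat_lit 0) (cs (nd (nat_lit 55) (nat_lit 0) (cs (lf (nat_lit 47) (nat_lit 32)) (lf (nat_lit 36) (nat_lit 32)))) (lf (nat_lit 17) (nat_lit 74)))))) (lf (nat_lit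 23) (nat_lit 73)))) (lf (nat_lit 24) (nat_lit 52)))))))))) (nd (nat_lit 141) (nat_lit 0) (cs (lf (nat_lit 27) (nat_lit 97)) (nd (nat_lit 99) (nat_lit 0) (cs (lf (nat_lit 17) (nat_lit 96)) (nd (nat_lit 98) (nat_lit 0) (cs (nd (nat_lit 96) (nat_lit 0) (cs (nd (nat_lit 74) (nat_lit 0) (cs (lf (nat_lit 23) (nat_lit 73)) (lf (nat_lit 24) (nat_lit 52)))) (lf (nat_lit 0) (nat_lit 95)))) (lf (nat_lit 12) (nat_lit 95)))))))))))))) (nd (nat_lit 141) (nat_lit 0) (cs (lf (nat_lit 27) (nat_lit 97)) (nd (nat_lit 96) (nat_lit 0) (cs (lf (nat_lit 18) (nat_lit 96)) (nd (nat_lit 95) (nat_lit 0) (cs (lf (nat_lit 0) (nat_lit 94)) (lf (nat_lit 3) (nat_lit 95)))))))))))) q32970 (by decide +kernel)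
def q33006 : Q := Q.p (nat_lit 0x400003c0000000000000000000000000000000000000000) (nat_lit 0xf80001c00007180000000000000000000000000000000000) (nat_lit 6)
theorem c33006 : QOK q33006 := cut [q6419, q32998, q33002, q6413] ⟨c6419, c32998, c33002, c6413, trivial⟩ (nd (nat_lit 166) (nat_lit 0) (cs (rf (nat_lit 0)) (cs (rf (nat_lit 1)) (cs (rf (nat_lit 2)) (nd (nat_lit 189) (nat_lit 0) (cs (lf (nat_lit 4) (nat_lit 163)) (nd (nat_lit 139) (nat_lit 0) (cs (lf (nat_lit 22) (nat_lit 139)) (nd (nat_lit 167) (nat_lit 0) (cs (lf (nat_lit 5) (nat_lit 164)) (rf (nat_lit 3)))))))))))) q33006 (by decide +kernel)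
def q33011 : Q := Q.p (nat_lit 0x400003c0000000000000000000000000000000000000000) (nat_lit 0xf98001c00007000000000000000000000000000000000000) (nat_lit 6)
theorem c33011 : QOK q33011 := cut [q6419, q32998, q33002, q33009] ⟨c6419, c32998, c33002, c33009, trivial⟩ (nd (nat_lit 166) (nat_lit 0) (cs (rf (nat_lit 0)) (cs (rf (nat_lit 1)) (cs (rf (nat_lit 2)) (nd (nat_lit 183) (nat_lit 0) (cs (lf (nat_lit 10) (nat_lit 161)) (rf (nat_lit 3)))))))) q33011 (by decide +kernel)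
def q33018 : Q := Q.p (nat_lit 0x40000340000000002000000000000000000000000000000) (nat_lit 0x4000018000480001b8000080000a000000000000000000000000) (nat_lit 7)
theorem c33018 : QOK q33018 := cut [q33017] ⟨c33017, trivial⟩ (nd (nat_lit 143) (nat_lit 0) (cs (lf (nat_lit 36) (nat_lit 98)) (rf (nat_lit 0)))) q33018 (by decide +kernel)
def q33021 : Q := Q.p (nat_lit 0x10000040000140000000002000000000000000000000000000000) (nat_lit 0x4000098000680001f80000800002000000000000000000000000) (nat_lit 8)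
theorem c33021 : QOK q33021 := cut [q33017] ⟨c33017, trivial⟩ (nd (nat_lit 143) (nat_lit 0) (cs (lf (nat_lit 33) (nat_lit 120)) (nd (nat_lit 165) (nat_lit 0) (cs (lf (nat_lit 39) (nat_lit 120)) (rf (nat_lit 0)))))) q33021 (by decide +kernel)
def q33046 : Q := Q.p (nat_lit 0x10000040000140000400000000000000000000000000000000000) (nat_lit 0x2000008000000003e80007a0003e000000000000000000000000000000) (nat_lit 8)
theorem c33046 : QOK q33046 := cut [q33045] ⟨c33045, trivial⟩ (nd (nat_lit 143) (nat_lit 0) (cs (lf (nat_lit 35) (nat_lit 120)) (rf (nat_lit 0)))) q33046 (by decide +kernel)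
def q33064 : Q := Q.p (nat_lit 0x10000040000140000400000000000000000000000000000000000) (nat_lit 0xfa0001e80007b8000300000c000030000080000000000000) (nat_lit 8)
theorem c33064 : QOK q33064 := cut [q32311, q6419, q8352, q3049, q33058] ⟨c32311, c6419, c8352, c3049, c33058, trivial⟩ (nd (nat_lit 165) (nat_lit 0) (cs (nd (nat_lit 166) (nat_lit 0) (cs (rf (nat_lit 0)) (cs (nd (nat_lit 163) (nat_lit 0) (cs (rf (nat_lit 1)) (rf (nat_lit 2)))) (nd (nat_lit 167) (nat_lit 0) (cs (lf (nat_lit 11) (nat_lit 163)) (nd (nat_lit 145) (nat_lit 0) (cs (lf (nat_lit 17) (nat_lit 142)) (nd (nat_lit 144) (nat_lit 0) (cs (rf (nat_lit 3)) (lf (nat_lit 12) (nat_lit 141))))))))))) (cs (rf (nat_lit 4)) (nd (nat_lit 143) (nat_lit 0) (cs (lf (nat_lit 35) (nat_lit 120)) (nd (nat_lit 144) (nat_lit 0) (cs (lf (nat_lit 13) (nat_lit 140)) (nd (nat_lit 145) (nat_lit 0) (cs (lf (nat_lit 6) (nat_lit 142)) (nd (nat_lit 167) (nat_lit 0) (cs (lf (nat_lit 5) (nat_lit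 142)) (nd (nat_lit 166) (nat_lit 0) (cs (lf (nat_lit 11) (nat_lit 163)) (lf (nat_lit 23) (nat_lit 141))))))))))))))) q33064 (by decide +kernel)
def q33069 : Q := Q.p (nat_lit 0x18000040000140000000000000000000000000000000000000000) (nat_lit 0x200000800003e0000700009e000000000500000000000000000000000000000000000) (nat_lit 6)
theorem c33069 : QOK q33069 := cut [q32527] ⟨c32527, trivial⟩ (nd (nat_lit 206) (nat_lit 0) (cs (rf (nat_lit 0)) (nd (nat_lit 229) (nat_lit 0) (cs (lf (nat_lit 36) (nat_lit 141)) (nd (nat_lit 251) (nat_lit 0) (cs (lf (nat_lit 30) (nat_lit 185)) (nd (nat_lit 184) (nat_lit 0) (cs (lf (nat_lit 27) (nat_lit 162)) (lf (nat_lit 24) (nat_lit 140)))))))))) q33069 (by decide +kernel)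
def q33090 : Q := Q.p (nat_lit 0xc000040000140000200000000000000000000000000000000000) (nat_lit 0x10000000003b8000680003dc0001600001800004000000000000000000) (nat_lit 9)
theorem c33090 : QOK q33090 := cut [q33077, q33079, q33082, q10329, q32747, q33083] ⟨c33077, c33079, c33082, c10329, c32747, c33083, trivial⟩ (nd (nat_lit 163) (nat_lit 0) (cs (rf (nat_lit 0)) (cs (rf (nat_lit 1)) (cs (rf (nat_lit 2)) (nd (nat_lit 165) (nat_lit 0) (cs (rf (nat_lit 3)) (cs (rf (nat_lit 4)) (nd (nat_lit 140) (nat_lit 0) (cs (lf (nat_lit 23) (nat_lit 139)) (nd (nat_lit 118) (nat_lit 0) (cs (lf (nat_lit 43) (nat_lit 118)) (nd (nat_lit 74) (nat_lit 0) (cs (lf (nat_lit 25) (nat_lit 74)) (nd (nat_lit 184) (nat_lit 0) (cs (lf (nat_lit 11) (nat_lit 161)) (nd (nat_lit 143) (nat_lit 0) (cs (lf (nat_lit 17) (nat_lit 140)) (rf (nat_lit 5))))))))))))))))))) q33090 (by decide +kernel)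
def q33258 : Q := Q.p (nat_lit 0x18000040000700000000000000000000000000000000000000000) (nat_lit 0x40000f8000180000e000008000020000000000000000000000000) (nat_lit 6)
theorem c33258 : QOK q33258 := cut [q20107, q32084, q32996, q3026] ⟨c20107, c32084, c32996, c3026, trivial⟩ (nd (nat_lit 167) (nat_lit 0) (cs (rf (nat_lit 0)) (cs (rf (nat_lit 1)) (cs (rf (nat_lit 2)) (nd (nat_lit 145) (nat_lit 0) (cs (lf (nat_lit 17) (nat_lit 142)) (nd (nat_lit 189) (nat_lit 0) (cs (lf (nat_lit 5) (nat_lit 164)) (nd (nat_lit 188) (nat_lit 0) (cs (rf (nat_lit 3)) (lf (nat_lit 8) (nat_lit 185)))))))))))) q33258 (by decide +kernel)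
def q33315 : Q := Q.p (nat_lit 0x10000340000100000000000000000000000000000000000) (nat_lit 0x2000008000080000000000e0000380000a000000000000000000) (nat_lit 6)
theorem c33315 : QOK q33315 := cut [q33314] ⟨c33314, trivial⟩ (nd (nat_lit 183) (nat_lit 0) (cs (lf (nat_lit 8) (nat_lit 161)) (rf (nat_lit 0)))) q33315 (by decide +kernel)
def q33364 : Q := Q.p (nat_lit 0x10000050000340000000002000000000000000000000000000000) (nat_lit 0x4000fa0001c80007380001e00003800000000000000000000000) (nat_lit 8)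
theorem c33364 : QOK q33364 := cut [q32646, q33130, q33351, q33359] ⟨c32646, c33130, c33351, c33359, trivial⟩ (nd (nat_lit 163) (nat_lit 0) (cs (rf (nat_lit 0)) (cs (rf (nat_lit 1)) (nd (nat_lit 119) (nat_lit 0) (cs (rf (nat_lit 2)) (cs (nd (nat_lit 140) (nat_lit 0) (cs (lf (nat_lit 23) (nat_lit 139)) (nd (nat_lit 187) (nat_lit 0) (cs (lf (nat_lit 5) (nat_lit 162)) (nd (nat_lit 118) (nat_lit 0) (cs (lf (nat_lit 35) (nat_lit 96)) (nd (nat_lit 96) (nat_lit 0) (cs (lf (nat_lit 29) (nat_lit 96)) (nd (nat_lit 95) (nat_lit 0) (cs (lf (nat_lit 46) (nat_lit 95)) (lf (nat_lit 19) (nat_lit 95)))))))))))) (cs (rf (nat_lit 3)) (nd (nat_lit 97) (nat_lit 0) (cs (nd (nat_lit 140) (nat_lit 0) (cs (lf (nat_lit 23) (nat_lit 139)) (lf (nat_lit 33) (nat_lit 96)))) (lf (nat_lit 38) (nat_lit 96))))))))))) q33364 (by decide +kernel)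
def q33462 : Q := Q.p (nat_lit 0x10000040000140000000000000000000000000000000000000000) (nat_lit 0x280000e0000b8001a80007f8001fe0000a000000000000000000000000) (nat_lit 15)
theorem c33462 : QOK q33462 := cut [q617, q619, q18163, q32802] ⟨c617, c619, c18163, c32802, trivial⟩ (nd (nat_lit 142) (nat_lit 0) (cs (rf (nat_lit 0)) (cs (rf (nat_lit 1)) (cs (rf (nat_lit 2)) (nd (nat_lit 141) (nat_lit 0) (cs (lf (nat_lit 47) (nat_lit 119)) (nd (nat_lit 207) (nat_lit 0) (cs (lf (nat_lit 41) (nat_lit 141)) (nd (nat_lit 143) (nat_lit 0) (cs (lf (nat_lit 35) (nat_lit 120)) (nd (nat_lit 144) (nat_lit 0) (cs (lf (nat_lit 10) (nat_lit 140)) (rf (nat_lit 3)))))))))))))) q33462 (by decide +kernel)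
def q33503 : Q := Q.p (nat_lit 0x10000040000100000000000000000000000000000000000) (nat_lit 0x800006000008000020000200000e0000380000a000000000000000000) (nat_lit 5)
theorem c33503 : QOK q33503 := cut [q19066, q32702, q33491] ⟨c19066, c32702, c33491, trivial⟩ (nd (nat_lit 118) (nat_lit 0) (cs (rf (nat_lit 0)) (cs (rf (nat_lit 1)) (rf (nat_lit 2))))) q33503 (by decide +kernel)
def q33504 : Q := Q.p (nat_lit 0x2000000000010000050000040000100000000000000000000000000000000000) (nat_lit 0x200001e0000380000e0000a8000038000080000200000000000000000000000000000) (nat_lit 6)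
theorem c33504 : QOK q33504 := cut [q16276, q32628, q33489] ⟨c16276, c32628, c33489, trivial⟩ (nd (nat_lit 206) (nat_lit 0) (cs (rf (nat_lit 0)) (cs (rf (nat_lit 1)) (rf (nat_lit 2))))) q33504 (by decide +kernel)
def q33510 : Q := Q.p (nat_lit 0x10000040000000000700000000000000000000000000000000000) (nat_lit 0x3380000c0000b80000000000000000000000000000) (nat_lit 6)
theorem c33510 : QOK q33510 := cut [q33509] ⟨c33509, trivial⟩ (nd (nat_lit 164) (nat_lit 0) (cs (lf (nat_lit 47) (nat_lit 119)) (rf (nat_lit 0)))) q33510 (by decide +kernel)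
def q33648 : Q := Q.p (nat_lit 0x40000100001000003000000000000000000000000) (nat_lit 0x80000fe0004f00007e00000000000000000) (nat_lit 9)
theorem c33648 : QOK q33648 := cut [q33599, q33632] ⟨c33599, c33632, trivial⟩ (nd (nat_lit 95) (nat_lit 0) (cs (rf (nat_lit 0)) (cs (nd (nat_lit 73) (nat_lit 0) (cs (nd (nat_lit 117) (nat_lit 0) (cs (lf (nat_lit 27) (nat_lit 73)) (nd (nat_lit 98) (nat_lit 0) (cs (lf (nat_lit 11) (nat_lit 94)) (lf (nat_lit 23) (nat_lit 72)))))) (lf (nat_lit 44) (nat_lit 73)))) (cs (nd (nat_lit 94) (nat_lit 0) (cs (lf (nat_lit 4) (nat_lit 94)) (nd (nat_lit 73) (nat_lit 0) (cs (lf (nat_lit 44) (nat_lit 73)) (nd (nat_lit 115) (nat_lit 0) (cs (lf (nat_lit 10) (nat_lit 93)) (nd (nat_lit 93) (nat_lit 0) (cs (lf (nat_lit 11) (nat_lit 92)) (nd (nat_lit 92) (nat_lit 0) (cs (rf (nat_lit 1)) (lf (nat_lit 17) (nat_lit 70)))))))))))) (nd (nat_lit 94) (nat_lit 0) (cs (lf (nat_lit 4) (nat_lit 94)) (nd (nat_lit 71) (nat_lit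 0) (cs (lf (nat_lit 22) (nat_lit 71)) (nd (nat_lit 73) (nat_lit 0) (cs (lf (nat_lit 44) (nat_lit 73)) (nd (nat_lit 117) (nat_lit 0) (cs (lf (nat_lit 27) (nat_lit 73)) (nd (nat_lit 93) (nat_lit 0) (cs (lf (nat_lit 23) (nat_lit 70)) (nd (nat_lit 92) (nat_lit 0) (cs (lf (nat_lit 17) (nat_lit 70)) (nd (nat_lit 114) (nat_lit 0) (cs (lf (nat_lit 11) (nat_lit 91)) (lf (nat_lit 10) (nat_lit 92)))))))))))))))))))) q33648 (by decide +kernel)
def q33737 : Q := Q.p (nat_lit 0x10000040000040000500001000000000000000000000000000000) (nat_lit 0x880002200018e0006f0003fe0003e0000e8000000000000) (nat_lit 10)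
theorem c33737 : QOK q33737 := cut [q33670, q33691, q33695, q24124, q33653, q33680, q33711, q33716, q33665, q32919, q33723, q33666, q33673, q33690, q33682, q33732] ⟨c33670, c33691, c33695, c24124, c33653, c33680, c33711, c33716, c33665, c32919, c33723, c33666, c33673, c33690, c33682, c33732, trivial⟩ (nd (nat_lit 118) (nat_lit 0) (cs (nd (nat_lit 119) (nat_lit 0) (cs (rf (nat_lit 0)) (cs (rf (nat_lit 1)) (rf (nat_lit 2))))) (cs (nd (nat_lit 96) (nat_lit 0) (cs (rf (nat_lit 3)) (cs (rf (nat_lit 4)) (cs (rf (nat_lit 5)) (nd (nat_lit 95) (nat_lit 0) (cs (lf (nat_lit 47) (nat_lit 73)) (nd (nat_lit 161) (nat_lit 0) (cs (lf (nat_lit 41) (nat_lit 95)) (nd (nat_lit 97) (nat_lit 0) (cs (lf (nat_lit 35) (nat_lit 74)) (nd (nat_lit 98) (nat_lit 0) (cs (nd (nat_lit 117) (nat_lit 0) (cs (lf (nat_lit 11) (nat_lit 94)) (lf (nat_lit 6) (nat_lit 95)))) (lf (nat_lit 5) (nat_lit 95)))))))))))))) (cs (nd (nat_lit 96) (nat_lit 0) (cs (rf (nat_lit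 3)) (cs (rf (nat_lit 4)) (cs (rf (nat_lit 5)) (nd (nat_lit 161) (nat_lit 0) (cs (lf (nat_lit 41) (nat_lit 95)) (nd (nat_lit 97) (nat_lit 0) (cs (lf (nat_lit 35) (nat_lit 74)) (nd (nat_lit 95) (nat_lit 0) (cs (lf (nat_lit 47) (nat_lit 73)) (nd (nat_lit 119) (nat_lit 0) (cs (lf (nat_lit 18) (nat_lit 95)) (lf (nat_lit 0) (nat_lit 94)))))))))))))) (cs (nd (nat_lit 117) (nat_lit 0) (cs (nd (nat_lit 96) (nat_lit 0) (cs (rf (nat_lit 3)) (cs (rf (nat_lit 4)) (cs (rf (nat_lit 5)) (nd (nat_lit 161) (nat_lit 0) (cs (lf (nat_lit 41) (nat_lit 95)) (nd (nat_lit 95) (nat_lit 0) (cs (lf (nat_lit 47) (nat_lit 73)) (rf (nat_lit 6)))))))))) (cs (nd (nat_lit 119) (nat_lit 0) (cs (lf (nat_lit 5) (nat_lit 117)) (rf (nat_lit 7)))) (cs (nd (nat_lit 119) (nat_lit 0) (cs (lf (nat_lit 5) (nat_lit 117)) (nd (nat_lit 138) (nat_lit 0) (cs (lf (nat_lit 10) (nat_lit 116)) (nd (nat_lit 98) (nat_lit 0) (cs (lf (nat_lit 17) (nat_lit 95)) (rf (nat_lit 8))))))))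 (nd (nat_lit 119) (nat_lit 0) (cs (lf (nat_lit 5) (nat_lit 117)) (rf (nat_lit 9)))))))) (cs (nd (nat_lit 119) (nat_lit 0) (cs (rf (nat_lit 0)) (cs (rf (nat_lit 1)) (rf (nat_lit 10))))) (cs (nd (nat_lit 119) (nat_lit 0) (cs (rf (nat_lit 11)) (cs (rf (nat_lit 2)) (cs (rf (nat_lit 10)) (cs (nd (nat_lit 121) (nat_lit 0) (cs (rf (nat_lit 12)) (rf (nat_lit 13)))) (nd (nat_lit 96) (nat_lit 0) (cs (rf (nat_lit 3)) (cs (nd (nat_lit 95) (nat_lit 0) (cs (lf (nat_lit 47) (nat_lit 73)) (nd (nat_lit 119) (nat_lit 0) (cs (lf (nat_lit 18) (nat_lit 95)) (rf (nat_lit 14)))))) (nd (nat_lit 161) (nat_lit 0) (cs (lf (nat_lit 41) (nat_lit 95)) (rf (nat_lit 15)))))))))))) (nd (nat_lit 119) (nat_lit 0) (cs (rf (nat_lit 11)) (cs (rf (nat_lit 0)) (rf (nat_lit 1)))))))))))) q33737 (by decide +kernel)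
def q33927 : Q := Q.p (nat_lit 0x10000040000040000540000c00000000000000000000000000000) (nat_lit 0x2e0000ff000af80013f0002380003c0002e0000f80000e000028000000) (nat_lit 12)
theorem c33927 : QOK q33927 := cut [q33844, q27027, q7922, q33853, q33870, q33868, q33877, q33887, q33821, q33915, q33920] ⟨c33844, c27027, c7922, c33853, c33870, c33868, c33877, c33887, c33821, c33915, c33920, trivial⟩ (nd (nat_lit 116) (nat_lit 0) (cs (nd (nat_lit 160) (nat_lit 0) (cs (nd (nat_lit 141) (nat_lit 0) (cs (lf (nat_lit 44) (nat_lit 119)) (nd (nat_lit 75) (nat_lit 0) (cs (lf (nat_lit 37) (nat_lit 74)) (nd (nat_lit 159) (nat_lit 0) (cs (lf (nat_lit 14) (nat_lit 137)) (nd (nat_lit 94) (nat_lit 0) (cs (nd (nat_lit 73) (nat_lit 0) (cs (lf (nat_lit 34) (nat_lit 72)) (nd (nat_lit 72) (nat_lit 0) (cs (lf (nat_lit 35) (nat_lit 50)) (lf (nat_lit 40) (nat_lit 71)))))) (lf (nat_lit 41) (nat_lit 93)))))))))) (cs (rf (nat_lit 0)) (cs (nd (nat_lit 205) (nat_lit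 0) (cs (nd (nat_lit 182) (nat_lit 0) (cs (lf (nat_lit 28) (nat_lit 116)) (nd (nat_lit 181) (nat_lit 0) (cs (lf (nat_lit 41) (nat_lit 115)) (nd (nat_lit 204) (nat_lit 0) (cs (lf (nat_lit 29) (nat_lit 138)) (rf (nat_lit 1)))))))) (cs (nd (nat_lit 164) (nat_lit 0) (cs (lf (nat_lit 46) (nat_lit 119)) (nd (nat_lit 207) (nat_lit 0) (cs (lf (nat_lit 41) (nat_lit 141)) (nd (nat_lit 206) (nat_lit 0) (cs (lf (nat_lit 17) (nat_lit 183)) (rf (nat_lit 2)))))))) (cs (nd (nat_lit 141) (nat_lit 0) (cs (lf (nat_lit 44) (nat_lit 119)) (nd (nat_lit 75) (nat_lit 0) (cs (lf (nat_lit 37) (nat_lit 74)) (nd (nat_lit 159) (nat_lit 0) (cs (lf (nat_lit 14) (nat_lit 137)) (nd (nat_lit 182) (nat_lit 0) (cs (lf (nat_lit 28) (nat_lit 116)) (rf (nat_lit 3)))))))))) (nd (nat_lit 141) (nat_lit 0) (cs (lf (nat_lit 44) (nat_lit 119)) (nd (nat_lit 75) (nat_lit 0) (cs (lf (nat_lit 37) (nat_lit 74)) (nd (nat_lit 161) (nat_lit 0) (cs (lf (nat_lit 12) (nat_lit 137))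 (nd (nat_lit 183) (nat_lit 0) (cs (lf (nat_lit 42) (nat_lit 138)) (lf (nat_lit 27) (nat_lit 116)))))))))))))) (cs (nd (nat_lit 141) (nat_lit 0) (cs (lf (nat_lit 44) (nat_lit 119)) (nd (nat_lit 75) (nat_lit 0) (cs (lf (nat_lit 37) (nat_lit 74)) (nd (nat_lit 161) (nat_lit 0) (cs (lf (nat_lit 12) (nat_lit 137)) (rf (nat_lit 4)))))))) (cs (nd (nat_lit 94) (nat_lit 0) (cs (rf (nat_lit 5)) (cs (rf (nat_lit 6)) (rf (nat_lit 7))))) (nd (nat_lit 182) (nat_lit 0) (cs (rf (nat_lit 3)) (cs (nd (nat_lit 141) (nat_lit 0) (cs (lf (nat_lit 44) (nat_lit 119)) (nd (nat_lit 75) (nat_lit 0) (cs (lf (nat_lit 37) (nat_lit 74)) (nd (nat_lit 93) (nat_lit 0) (cs (lf (nat_lit 46) (nat_lit 93)) (nd (nat_lit 94) (nat_lit 0) (cs (lf (nat_lit 47) (nat_lit 71)) (nd (nat_lit 183) (nat_lit 0) (cs (lf (nat_lit 29) (nat_lit 116)) (rf (nat_lit 8)))))))))))) (nd (nat_lit 181) (nat_lit 0) (cs (lf (nat_lit 41) (nat_lit 115)) (nd (nat_lit 94) (nat_lit 0) (cs (lf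 (nat_lit 40) (nat_lit 93)) (nd (nat_lit 73) (nat_lit 0) (cs (lf (nat_lit 34) (nat_lit 72)) (nd (nat_lit 51) (nat_lit 0) (cs (nd (nat_lit 164) (nat_lit 0) (cs (lf (nat_lit 46) (nat_lit 119)) (nd (nat_lit 207) (nat_lit 0) (cs (lf (nat_lit 41) (nat_lit 141)) (nd (nat_lit 205) (nat_lit 0) (cs (lf (nat_lit 28) (nat_lit 116)) (nd (nat_lit 204) (nat_lit 0) (cs (lf (nat_lit 29) (nat_lit 138)) (lf (nat_lit 19) (nat_lit 181)))))))))) (lf (nat_lit 33) (nat_lit 50))))))))))))))))))) (cs (nd (nat_lit 141) (nat_lit 0) (cs (lf (nat_lit 44) (nat_lit 119)) (lf (nat_lit 1) (nat_lit 116)))) (nd (nat_lit 94) (nat_lit 0) (cs (nd (nat_lit 117) (nat_lit 0) (cs (lf (nat_lit 11) (nat_lit 115)) (lf (nat_lit 23) (nat_lit 93)))) (cs (nd (nat_lit 137) (nat_lit 0) (cs (rf (nat_lit 9)) (lf (nat_lit 8) (nat_lit 115)))) (cs (nd (nat_lit 93) (nat_lit 0) (cs (nd (nat_lit 71) (nat_lit 0) (cs (rf (nat_lit 10)) (lf (nat_lit 42) (nat_lit 71)))) (lf (nat_lit 20)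 (nat_lit 93)))) (nd (nat_lit 160) (nat_lit 0) (cs (rf (nat_lit 5)) (cs (rf (nat_lit 6)) (rf (nat_lit 7)))))))))))) q33927 (by decide +kernel)
def q34067 : Q := Q.p (nat_lit 0x10000040000040000500000400000000000000000000000000000) (nat_lit 0x2000008000028000138000200007b8003fe0007e0000fc000020000000) (nat_lit 14)
theorem c34067 : QOK q34067 := cut [q33792, q34013, q24124, q32972, q34015, q34023, q34025, q33789, q33744, q34066] ⟨c33792, c34013, c24124, c32972, c34015, c34023, c34025, c33789, c33744, c34066, trivial⟩ (nd (nat_lit 119) (nat_lit 0) (cs (rf (nat_lit 0)) (cs (rf (nat_lit 1)) (cs (nd (nat_lit 96) (nat_lit 0) (cs (rf (nat_lit 2)) (cs (nd (nat_lit 97) (nat_lit 0) (cs (rf (nat_lit 3)) (nd (nat_lit 141) (nat_lit 0) (cs (lf (nat_lit 44) (nat_lit 119)) (nd (nat_lit 116) (nat_lit 0) (cs (lf (nat_lit 1) (nat_lit 116)) (nd (nat_lit 161) (nat_lit 0) (cs (lf (nat_lit 41) (nat_lit 95)) (nd (nat_lit 159) (nat_lit 0) (cs (lf (nat_lit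 13) (nat_lit 137)) (rf (nat_lit 4)))))))))))) (cs (rf (nat_lit 5)) (nd (nat_lit 161) (nat_lit 0) (cs (lf (nat_lit 41) (nat_lit 95)) (rf (nat_lit 6)))))))) (cs (nd (nat_lit 96) (nat_lit 0) (cs (rf (nat_lit 2)) (cs (rf (nat_lit 7)) (nd (nat_lit 161) (nat_lit 0) (cs (lf (nat_lit 41) (nat_lit 95)) (nd (nat_lit 97) (nat_lit 0) (cs (lf (nat_lit 35) (nat_lit 74)) (nd (nat_lit 120) (nat_lit 0) (cs (lf (nat_lit 43) (nat_lit 97)) (nd (nat_lit 121) (nat_lit 0) (cs (lf (nat_lit 18) (nat_lit 96)) (nd (nat_lit 99) (nat_lit 0) (cs (lf (nat_lit 17) (nat_lit 96)) (nd (nat_lit 98) (nat_lit 0) (cs (lf (nat_lit 12) (nat_lit 95)) (rf (nat_lit 8))))))))))))))))) (rf (nat_lit 9))))))) q34067 (by decide +kernel)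
def q34116 : Q := Q.p (nat_lit 0x78000000000000000000000000000000000000000) (nat_lit 0xc0000300001c000070000000000700001c0000700001c00005000000000000) (nat_lit 10)
theorem c34116 : QOK q34116 := cut [q34097, q34100, q34113] ⟨c34097, c34100, c34113, trivial⟩ (nd (nat_lit 137) (nat_lit 0) (cs (lf (nat_lit 23) (nat_lit 136)) (nd (nat_lit 115) (nat_lit 0) (cs (rf (nat_lit 0)) (cs (rf (nat_lit 1)) (cs (nd (nat_lit 181) (nat_lit 0) (cs (lf (nat_lit 11) (nat_lit 158)) (nd (nat_lit 182) (nat_lit 0) (cs (lf (nat_lit 29) (nat_lit 115)) (nd (nat_lit 92) (nat_lit 0) (cs (lf (nat_lit 46) (nat_lit 92)) (nd (nat_lit 116) (nat_lit 0) (cs (lf (nat_lit 35) (nat_lit 93)) (nd (nat_lit 203) (nat_lit 0) (cs (nd (nat_lit 224) (nat_lit 0) (cs (lf (nat_lit 40) (nat_lit 136)) (nd (nat_lit 225) (nat_lit 0) (cs (lf (nat_lit 41) (nat_lit 158)) (lf (nat_lit 30) (nat_lit 159)))))) (lf (nat_lit 37) (nat_lit 115)))))))))))) (nd (nat_lit 180) (nat_lit 0) (cs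 (lf (nat_lit 10) (nat_lit 158)) (rf (nat_lit 2)))))))))) q34116 (by decide +kernel)
def q34347 : Q := Q.p (nat_lit 0x40000040000500000400000000000000000000000000000) (nat_lit 0x800012000008000fb8001fe0006e0000a8000000000000) (nat_lit 9)
theorem c34347 : QOK q34347 := cut [q24124, q33653, q33680, q34330, q34343] ⟨c24124, c33653, c33680, c34330, c34343, trivial⟩ (nd (nat_lit 96) (nat_lit 0) (cs (rf (nat_lit 0)) (cs (rf (nat_lit 1)) (cs (rf (nat_lit 2)) (nd (nat_lit 97) (nat_lit 0) (cs (lf (nat_lit 35) (nat_lit 74)) (nd (nat_lit 98) (nat_lit 0) (cs (rf (nat_lit 3)) (cs (nd (nat_lit 95) (nat_lit 0) (cs (lf (nat_lit 47) (nat_lit 73)) (nd (nat_lit 161) (nat_lit 0) (cs (lf (nat_lit 41) (nat_lit 95)) (nd (nat_lit 116) (nat_lit 0) (cs (lf (nat_lit 10) (nat_lit 94)) (nd (nat_lit 94) (nat_lit 0) (cs (lf (nat_lit 11) (nat_lit 93)) (nd (nat_lit 119) (nat_lit 0) (cs (lf (nat_lit 0) (nat_lit 93)) (lf (nat_lit 5) (nat_lit 94)))))))))))) (cs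 (nd (nat_lit 161) (nat_lit 0) (cs (lf (nat_lit 41) (nat_lit 95)) (nd (nat_lit 95) (nat_lit 0) (cs (lf (nat_lit 47) (nat_lit 73)) (nd (nat_lit 120) (nat_lit 0) (cs (lf (nat_lit 5) (nat_lit 95)) (nd (nat_lit 119) (nat_lit 0) (cs (lf (nat_lit 0) (nat_lit 94)) (lf (nat_lit 43) (nat_lit 97)))))))))) (nd (nat_lit 73) (nat_lit 0) (cs (lf (nat_lit 46) (nat_lit 73)) (rf (nat_lit 4)))))))))))))) q34347 (by decide +kernel)
def q34402 : Q := Q.p (nat_lit 0x40000500000400000000000000000000000000000) (nat_lit 0x20000080000380072f001fbc00ffe0007f8000fc0000e0000280) (nat_lit 14)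
theorem c34402 : QOK q34402 := cut [q34007, q34066, q24124, q33653, q33680, q34191, q34322, q34366, q33789, q32972, q34394, q33985] ⟨c34007, c34066, c24124, c33653, c33680, c34191, c34322, c34366, c33789, c32972, c34394, c33985, trivial⟩ (nd (nat_lit 119) (nat_lit 0) (cs (rf (nat_lit 0)) (cs (rf (nat_lit 1)) (cs (nd (nat_lit 96) (nat_lit 0) (cs (rf (nat_lit 2)) (cs (rf (nat_lit 3)) (cs (rf (nat_lit 4)) (nd (nat_lit 161) (nat_lit 0) (cs (lf (nat_lit 41) (nat_lit 95)) (rf (nat_lit 5)))))))) (cs (rf (nat_lit 6)) (cs (rf (nat_lit 7)) (cs (nd (nat_lit 96) (nat_lit 0) (cs (rf (nat_lit 8)) (nd (nat_lit 161) (nat_lit 0) (cs (lf (nat_lit 41) (nat_lit 95)) (nd (nat_lit 74) (nat_lit 0) (cs (lf (nat_lit 40) (nat_lit 73)) (nd (nat_lit 53) (nat_lit 0) (cs (nd (nat_lit 52) (nat_lit 0) (cs (lf (nat_lit 29) (nat_lit 52)) (lf (nat_lit 35) (nat_lit 30)))) (lf (nat_lit 34) (nat_lit 52)))))))))) (cs (nd (nat_lit 96) (nat_lit 0) (cs (rf (nat_lit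 2)) (cs (rf (nat_lit 3)) (cs (rf (nat_lit 4)) (nd (nat_lit 97) (nat_lit 0) (cs (rf (nat_lit 9)) (nd (nat_lit 161) (nat_lit 0) (cs (lf (nat_lit 41) (nat_lit 95)) (nd (nat_lit 95) (nat_lit 0) (cs (lf (nat_lit 47) (nat_lit 73)) (nd (nat_lit 94) (nat_lit 0) (cs (lf (nat_lit 0) (nat_lit 93)) (nd (nat_lit 71) (nat_lit 0) (cs (lf (nat_lit 22) (nat_lit 71)) (nd (nat_lit 116) (nat_lit 0) (cs (lf (nat_lit 11) (nat_lit 93)) (nd (nat_lit 117) (nat_lit 0) (cs (lf (nat_lit 4) (nat_lit 116)) (lf (nat_lit 6) (nat_lit 94)))))))))))))))))))) (cs (nd (nat_lit 96) (nat_lit 0) (cs (rf (nat_lit 8)) (nd (nat_lit 161) (nat_lit 0) (cs (lf (nat_lit 41) (nat_lit 95)) (nd (nat_lit 74) (nat_lit 0) (cs (lf (nat_lit 40) (nat_lit 73)) (rf (nat_lit 10)))))))) (nd (nat_lit 96) (nat_lit 0) (cs (rf (nat_lit 3)) (cs (rf (nat_lit 8)) (nd (nat_lit 75) (nat_lit 0) (cs (lf (nat_lit 34) (nat_lit 74)) (nd (nat_lit 161) (nat_lit 0) (cs (lf (nat_lit 41) (nat_lit 95))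 (nd (nat_lit 139) (nat_lit 0) (cs (rf (nat_lit 11)) (lf (nat_lit 36) (nat_lit 73)))))))))))))))))))) q34402 (by decide +kernel)
def q34427 : Q := Q.p (nat_lit 0x10000040000000000700000000000000000000000000000000000) (nat_lit 0x80000700000880006700000000000000000000000000000) (nat_lit 5)
theorem c34427 : QOK q34427 := cut [q16290, q32513, q32536] ⟨c16290, c32513, c32536, trivial⟩ (nd (nat_lit 143) (nat_lit 0) (cs (rf (nat_lit 0)) (cs (rf (nat_lit 1)) (rf (nat_lit 2))))) q34427 (by decide +kernel)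
def q34438 : Q := Q.p (nat_lit 0x10000000000040000780000000000000000000000000000000000) (nat_lit 0x180000f00000c000038000000003700001c00007000000000000000000) (nat_lit 11)
theorem c34438 : QOK q34438 := cut [q33776, q34433] ⟨c33776, c34433, trivial⟩ (nd (nat_lit 161) (nat_lit 0) (cs (rf (nat_lit 0)) (nd (nat_lit 117) (nat_lit 0) (cs (lf (nat_lit 23) (nat_lit 116)) (nd (nat_lit 120) (nat_lit 0) (cs (lf (nat_lit 17) (nat_lit 117)) (nd (nat_lit 95) (nat_lit 0) (cs (lf (nat_lit 24) (nat_lit 73)) (nd (nat_lit 72) (nat_lit 0) (cs (lf (nat_lit 46) (nat_lit 72)) (rf (nat_lit 1)))))))))))) q34438 (by decide +kernel)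
def q34528 : Q := Q.p (nat_lit 0x14000040000040000500000000000000000000000000000000000) (nat_lit 0x400001c0000f00003c0003f8000bc000af80063c000af0006300000400000000000000000000000) (nat_lit 14)
theorem c34528 : QOK q34528 := cut [q34468, q34469, q24449, q34425, q3968, q34481, q34492, q34501, q34517, q34520, q34521, q34524] ⟨c34468, c34469, c24449, c34425, c3968, c34481, c34492, c34501, c34517, c34520, c34521, c34524, trivial⟩ (nd (nat_lit 205) (nat_lit 0) (cs (rf (nat_lit 0)) (cs (nd (nat_lit 161) (nat_lit 0) (cs (rf (nat_lit 1)) (cs (nd (nat_lit 227) (nat_lit 0) (cs (lf (nat_lit 32) (nat_lit 139)) (nd (nat_lit 204) (nat_lit 0) (cs (nd (nat_lit 141) (nat_lit 0) (cs (lf (nat_lit 6) (nat_lit 139)) (nd (nat_lit 160) (nat_lit 0) (cs (lf (nat_lit 12) (nat_lit 137)) (nd (nat_lit 182) (nat_lit 0) (cs (lf (nat_lit 24) (nat_lit 138)) (nd (nat_lit 249) (nat_lit 0) (cs (lf (nat_lit 42) (nat_lit 182)) (lf (nat_lit 27) (nat_lit 160))))))))))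 (cs (nd (nat_lit 203) (nat_lit 0) (cs (rf (nat_lit 2)) (nd (nat_lit 181) (nat_lit 0) (cs (lf (nat_lit 23) (nat_lit 180)) (nd (nat_lit 225) (nat_lit 0) (cs (lf (nat_lit 11) (nat_lit 202)) (nd (nat_lit 141) (nat_lit 0) (cs (lf (nat_lit 6) (nat_lit 139)) (nd (nat_lit 160) (nat_lit 0) (cs (lf (nat_lit 12) (nat_lit 137)) (nd (nat_lit 182) (nat_lit 0) (cs (lf (nat_lit 30) (nat_lit 159)) (lf (nat_lit 24) (nat_lit 138)))))))))))))) (cs (nd (nat_lit 143) (nat_lit 0) (cs (rf (nat_lit 3)) (nd (nat_lit 203) (nat_lit 0) (cs (rf (nat_lit 4)) (cs (rf (nat_lit 2)) (nd (nat_lit 225) (nat_lit 0) (cs (lf (nat_lit 11) (nat_lit 202)) (nd (nat_lit 247) (nat_lit 0) (cs (nd (nat_lit 228) (nat_lit 0) (cs (lf (nat_lit 5) (nat_lit 203)) (nd (nat_lit 226) (nat_lit 0) (cs (lf (nat_lit 11) (nat_lit 224)) (rf (nat_lit 5)))))) (cs (nd (nat_lit 228) (nat_lit 0) (cs (lf (nat_lit 5) (nat_lit 203)) (nd (nat_lit 181) (nat_lit 0) (cs (lf (nat_lit 23) (nat_lit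 180)) (nd (nat_lit 246) (nat_lit 0) (cs (lf (nat_lit 41) (nat_lit 180)) (nd (nat_lit 248) (nat_lit 0) (cs (lf (nat_lit 29) (nat_lit 181)) (lf (nat_lit 15) (nat_lit 224)))))))))) (nd (nat_lit 180) (nat_lit 0) (cs (lf (nat_lit 22) (nat_lit 180)) (nd (nat_lit 269) (nat_lit 0) (cs (lf (nat_lit 35) (nat_lit 181)) (nd (nat_lit 268) (nat_lit 0) (cs (lf (nat_lit 41) (nat_lit 202)) (rf (nat_lit 6)))))))))))))))))) (nd (nat_lit 203) (nat_lit 0) (cs (rf (nat_lit 4)) (cs (rf (nat_lit 2)) (nd (nat_lit 181) (nat_lit 0) (cs (lf (nat_lit 23) (nat_lit 180)) (nd (nat_lit 225) (nat_lit 0) (cs (lf (nat_lit 11) (nat_lit 202)) (nd (nat_lit 248) (nat_lit 0) (cs (nd (nat_lit 226) (nat_lit 0) (cs (lf (nat_lit 42) (nat_lit 181)) (lf (nat_lit 24) (nat_lit 159)))) (cs (nd (nat_lit 228) (nat_lit 0) (cs (lf (nat_lit 5) (nat_lit 203)) (nd (nat_lit 159) (nat_lit 0) (cs (lf (nat_lit 28) (nat_lit 159)) (nd (nat_lit 160) (nat_lit 0) (cs (rf (nat_lit 7)) (lf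 (nat_lit 35) (nat_lit 137)))))))) (nd (nat_lit 247) (nat_lit 0) (cs (lf (nat_lit 29) (nat_lit 181)) (nd (nat_lit 246) (nat_lit 0) (cs (lf (nat_lit 41) (nat_lit 180)) (nd (nat_lit 228) (nat_lit 0) (cs (lf (nat_lit 5) (nat_lit 203)) (lf (nat_lit 15) (nat_lit 224)))))))))))))))))))))))) (nd (nat_lit 183) (nat_lit 0) (cs (lf (nat_lit 30) (nat_lit 139)) (rf (nat_lit 8))))))) (cs (rf (nat_lit 9)) (cs (rf (nat_lit 10)) (nd (nat_lit 227) (nat_lit 0) (cs (nd (nat_lit 161) (nat_lit 0) (cs (lf (nat_lit 32) (nat_lit 139)) (rf (nat_lit 1)))) (nd (nat_lit 207) (nat_lit 0) (cs (lf (nat_lit 11) (nat_lit 204)) (nd (nat_lit 204) (nat_lit 0) (cs (lf (nat_lit 16) (nat_lit 182)) (rf (nat_lit 11))))))))))))) q34528 (by decide +kernel)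
def q34536 : Q := Q.p (nat_lit 0x10000040000040000300000800000000000000000000000000000) (nat_lit 0x80000720000c00006000000000000000000000000000000) (nat_lit 5)
theorem c34536 : QOK q34536 := cut [q33514] ⟨c33514, trivial⟩ (nd (nat_lit 142) (nat_lit 0) (cs (lf (nat_lit 44) (nat_lit 119)) (rf (nat_lit 0)))) q34536 (by decide +kernel)
def q34630 : Q := Q.p (nat_lit 0x2000000000010000050000040000100000000000000000000000000000000000) (nat_lit 0x80000380001e0000380000f8003a8000038000200000800000000000000000000000000000) (nat_lit 11)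
theorem c34630 : QOK q34630 := cut [q16276, q32686, q32687, q17588, q32661, q34628] ⟨c16276, c32686, c32687, c17588, c32661, c34628, trivial⟩ (nd (nat_lit 206) (nat_lit 0) (cs (rf (nat_lit 0)) (cs (rf (nat_lit 1)) (cs (rf (nat_lit 2)) (nd (nat_lit 228) (nat_lit 0) (cs (rf (nat_lit 3)) (cs (nd (nat_lit 119) (nat_lit 0) (cs (lf (nat_lit 34) (nat_lit 118)) (nd (nat_lit 207) (nat_lit 0) (cs (lf (nat_lit 29) (nat_lit 140)) (nd (nat_lit 249) (nat_lit 0) (cs (lf (nat_lit 40) (nat_lit 161)) (nd (nat_lit 250) (nat_lit 0) (cs (lf (nat_lit 41) (nat_lit 183)) (nd (nat_lit 161) (nat_lit 0) (cs (lf (nat_lit 46) (nat_lit 161)) (nd (nat_lit 185) (nat_lit 0) (cs (lf (nat_lit 30) (nat_lit 184)) (lf (nat_lit 18) (nat_lit 161)))))))))))))) (cs (nd (nat_lit 119) (nat_lit 0) (cs (lf (nat_lit 34) (nat_lit 118)) (nd (nat_lit 249) (nat_lit 0) (cs (lf (nat_lit 40) (nat_lit 161)) (nd (nat_lit 250) (nat_lit 0) (cs (lf (nat_lit 41) (nat_lit 183)) (nd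 (nat_lit 161) (nat_lit 0) (cs (lf (nat_lit 46) (nat_lit 161)) (nd (nat_lit 185) (nat_lit 0) (cs (lf (nat_lit 18) (nat_lit 161)) (nd (nat_lit 159) (nat_lit 0) (cs (lf (nat_lit 1) (nat_lit 159)) (rf (nat_lit 4)))))))))))))) (rf (nat_lit 5)))))))))) q34630 (by decide +kernel)
def q34677 : Q := Q.p (nat_lit 0x2000000000010000050000040000100000000000000000000000000000000000) (nat_lit 0x80000e0000380001e0000380000f8003ac000f00000e80007a00000000000000000000000000000) (nat_lit 15)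
theorem c34677 : QOK q34677 := cut [q16276, q32686, q32687, q17588, q34628, q20296, q17165, q34651, q5768, q3528] ⟨c16276, c32686, c32687, c17588, c34628, c20296, c17165, c34651, c5768, c3528, trivial⟩ (nd (nat_lit 206) (nat_lit 0) (cs (rf (nat_lit 0)) (cs (rf (nat_lit 1)) (cs (rf (nat_lit 2)) (nd (nat_lit 228) (nat_lit 0) (cs (rf (nat_lit 3)) (cs (rf (nat_lit 4)) (cs (nd (nat_lit 207) (nat_lit 0) (cs (lf (nat_lit 29) (nat_lit 140)) (nd (nat_lit 117) (nat_lit 0) (cs (lf (nat_lit 46) (nat_lit 117)) (nd (nat_lit 119) (nat_lit 0) (cs (lf (nat_lit 34) (nat_lit 118)) (nd (nat_lit 249) (nat_lit 0) (cs (lf (nat_lit 40) (nat_lit 161)) (nd (nat_lit 250) (nat_lit 0) (cs (lf (nat_lit 41) (nat_lit 183)) (nd (nat_lit 185) (nat_lit 0) (cs (lf (nat_lit 30) (nat_lit 184)) (rf (nat_lit 5)))))))))))))) (nd (nat_lit 250) (nat_lit 0) (cs (rf (nat_lit 6)) (cs (nd (nat_lit 273) (nat_lit 0) (cs (lf (nat_lit 28) (nat_lit 184)) (nd (nat_lit 272) (nat_lit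 0) (cs (lf (nat_lit 29) (nat_lit 206)) (nd (nat_lit 141) (nat_lit 0) (cs (lf (nat_lit 35) (nat_lit 118)) (nd (nat_lit 139) (nat_lit 0) (cs (lf (nat_lit 47) (nat_lit 117)) (nd (nat_lit 293) (nat_lit 0) (cs (lf (nat_lit 40) (nat_lit 205)) (nd (nat_lit 294) (nat_lit 0) (cs (lf (nat_lit 41) (nat_lit 227)) (nd (nat_lit 165) (nat_lit 0) (cs (nd (nat_lit 185) (nat_lit 0) (cs (lf (nat_lit 34) (nat_lit 184)) (nd (nat_lit 164) (nat_lit 0) (cs (lf (nat_lit 12) (nat_lit 161)) (lf (nat_lit 3) (nat_lit 139)))))) (cs (nd (nat_lit 185) (nat_lit 0) (cs (lf (nat_lit 34) (nat_lit 184)) (rf (nat_lit 7)))) (cs (nd (nat_lit 143) (nat_lit 0) (cs (nd (nat_lit 185) (nat_lit 0) (cs (lf (nat_lit 34) (nat_lit 184)) (nd (nat_lit 187) (nat_lit 0) (cs (lf (nat_lit 36) (nat_lit 120)) (lf (nat_lit 17) (nat_lit 162)))))) (cs (nd (nat_lit 185) (nat_lit 0) (cs (lf (nat_lit 34) (nat_lit 184)) (nd (nat_lit 166) (nat_lit 0) (cs (lf (nat_lit 15) (nat_lit 162)) (lf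 (nat_lit 2) (nat_lit 140)))))) (cs (nd (nat_lit 185) (nat_lit 0) (cs (lf (nat_lit 34) (nat_lit 184)) (nd (nat_lit 121) (nat_lit 0) (cs (lf (nat_lit 39) (nat_lit 120)) (nd (nat_lit 142) (nat_lit 0) (cs (lf (nat_lit 17) (nat_lit 118)) (lf (nat_lit 16) (nat_lit 117)))))))) (nd (nat_lit 142) (nat_lit 0) (cs (lf (nat_lit 5) (nat_lit 140)) (rf (nat_lit 8)))))))) (nd (nat_lit 142) (nat_lit 0) (cs (lf (nat_lit 4) (nat_lit 139)) (nd (nat_lit 143) (nat_lit 0) (cs (lf (nat_lit 5) (nat_lit 140)) (nd (nat_lit 121) (nat_lit 0) (cs (lf (nat_lit 39) (nat_lit 120)) (lf (nat_lit 16) (nat_lit 117)))))))))))))))))))))))) (nd (nat_lit 119) (nat_lit 0) (cs (lf (nat_lit 34) (nat_lit 118)) (nd (nat_lit 227) (nat_lit 0) (cs (lf (nat_lit 41) (nat_lit 161)) (rf (nat_lit 9))))))))))))))))) q34677 (by decide +kernel)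
def q34725 : Q := Q.p (nat_lit 0x10000050000040000100000400000000000000000000000000000) (nat_lit 0x4000080000700001e00006800002000000000000000000000000) (nat_lit 7)
theorem c34725 : QOK q34725 := cut [q34723] ⟨c34723, trivial⟩ (nd (nat_lit 119) (nat_lit 0) (cs (lf (nat_lit 35) (nat_lit 96)) (nd (nat_lit 141) (nat_lit 0) (cs (lf (nat_lit 30) (nat_lit 118)) (rf (nat_lit 0)))))) q34725 (by decide +kernel)
def q34765 : Q := Q.p (nat_lit 0x10000050000040000100000000000000000000000000000000000) (nat_lit 0x80000e0000380000e000088000020000280000c00002000000000000000000000000) (nat_lit 9)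
theorem c34765 : QOK q34765 := cut [q32628, q32769, q34758, q34761] ⟨c32628, c32769, c34758, c34761, trivial⟩ (nd (nat_lit 206) (nat_lit 0) (cs (rf (nat_lit 0)) (cs (rf (nat_lit 1)) (cs (nd (nat_lit 119) (nat_lit 0) (cs (lf (nat_lit 34) (nat_lit 118)) (nd (nat_lit 97) (nat_lit 0) (cs (lf (nat_lit 33) (nat_lit 96)) (rf (nat_lit 2)))))) (nd (nat_lit 119) (nat_lit 0) (cs (lf (nat_lit 34) (nat_lit 118)) (nd (nat_lit 207) (nat_lit 0) (cs (lf (nat_lit 29) (nat_lit 140)) (nd (nat_lit 118) (nat_lit 0) (cs (lf (nat_lit 35) (nat_lit 96)) (rf (nat_lit 3)))))))))))) q34765 (by decide +kernel)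
def q34825 : Q := Q.p (nat_lit 0x10000040000100000400000000000000000000000000000) (nat_lit 0x300000c000008000030000e80000a00001800006000000000000000000) (nat_lit 9)
theorem c34825 : QOK q34825 := cut [q34821] ⟨c34821, trivial⟩ (nd (nat_lit 95) (nat_lit 0) (cs (lf (nat_lit 46) (nat_lit 95)) (nd (nat_lit 96) (nat_lit 0) (cs (lf (nat_lit 47) (nat_lit 73)) (nd (nat_lit 161) (nat_lit 0) (cs (lf (nat_lit 41) (nat_lit 95)) (nd (nat_lit 139) (nat_lit 0) (cs (lf (nat_lit 36) (nat_lit 73)) (rf (nat_lit 0)))))))))) q34825 (by decide +kernel)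
def q34856 : Q := Q.p (nat_lit 0x10000040000040000100000c00000000000000000000000000000) (nat_lit 0xc0000b0000738001e80007000000000000000000000000000000) (nat_lit 8)
theorem c34856 : QOK q34856 := cut [q34723, q34778] ⟨c34723, c34778, trivial⟩ (nd (nat_lit 141) (nat_lit 0) (cs (rf (nat_lit 0)) (cs (rf (nat_lit 1)) (cs (nd (nat_lit 184) (nat_lit 0) (cs (lf (nat_lit 30) (nat_lit 118)) (nd (nat_lit 185) (nat_lit 0) (cs (lf (nat_lit 29) (nat_lit 118)) (nd (nat_lit 187) (nat_lit 0) (cs (lf (nat_lit 23) (nat_lit 161)) (nd (nat_lit 165) (nat_lit 0) (cs (lf (nat_lit 17) (nat_lit 162)) (nd (nat_lit 121) (nat_lit 0) (cs (lf (nat_lit 37) (nat_lit 120)) (nd (nat_lit 120) (nat_lit 0) (cs (lf (nat_lit 6) (nat_lit 118)) (lf (nat_lit 11) (nat_lit 117)))))))))))))) (nd (nat_lit 142) (nat_lit 0) (cs (lf (nat_lit 44) (nat_lit 119)) (nd (nat_lit 184) (nat_lit 0) (cs (lf (nat_lit 30) (nat_lit 118)) (nd (nat_lit 185) (nat_lit 0) (cs (lf (nat_lit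 29) (nat_lit 118)) (nd (nat_lit 161) (nat_lit 0) (cs (lf (nat_lit 18) (nat_lit 161)) (nd (nat_lit 160) (nat_lit 0) (cs (lf (nat_lit 0) (nat_lit 159)) (lf (nat_lit 9) (nat_lit 138)))))))))))))))) q34856 (by decide +kernel)
def q34919 : Q := Q.p (nat_lit 0x2000000000000000010000040000100000200000000000000000000000000000) (nat_lit 0x200001e00003800006000000000000000280000800000000000000000000000000000) (nat_lit 7)
theorem c34919 : QOK q34919 := cut [q16276] ⟨c16276, trivial⟩ (nd (nat_lit 206) (nat_lit 0) (cs (lf (nat_lit 46) (nat_lit 117)) (nd (nat_lit 119) (nat_lit 0) (cs (lf (nat_lit 34) (nat_lit 118)) (rf (nat_lit 0)))))) q34919 (by decide +kernel)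
def q34937 : Q := Q.p (nat_lit 0x40000100000400001000000000000000000000000) (nat_lit 0xfbc001ee0007bc00000000000000000) (nat_lit 10)
theorem c34937 : QOK q34937 := cut [q34330, q33599, q34933, q34327] ⟨c34330, c33599, c34933, c34327, trivial⟩ (nd (nat_lit 97) (nat_lit 0) (cs (lf (nat_lit 35) (nat_lit 74)) (nd (nat_lit 98) (nat_lit 0) (cs (rf (nat_lit 0)) (cs (nd (nat_lit 95) (nat_lit 0) (cs (lf (nat_lit 47) (nat_lit 73)) (nd (nat_lit 76) (nat_lit 0) (cs (lf (nat_lit 17) (nat_lit 73)) (nd (nat_lit 120) (nat_lit 0) (cs (rf (nat_lit 1)) (lf (nat_lit 5) (nat_lit 95)))))))) (cs (rf (nat_lit 2)) (nd (nat_lit 99) (nat_lit 0) (cs (lf (nat_lit 11) (nat_lit 95)) (nd (nat_lit 73) (nat_lit 0) (cs (lf (nat_lit 46) (nat_lit 73)) (rf (nat_lit 3)))))))))))) q34937 (by decide +kernel)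
def q35082 : Q := Q.p (nat_lit 0x10000040000040000100000400000000000000000000000000000) (nat_lit 0x20003ca0007b8003f38003ee000fb8001f60007d8001e0000000000000) (nat_lit 15)
theorem c35082 : QOK q35082 := cut [q34844, q34857, q34909, q33985, q35041, q2107, q9054, q35056, q34723, q34306, q35073] ⟨c34844, c34857, c34909, c33985, c35041, c2107, c9054, c35056, c34723, c34306, c35073, trivial⟩ (nd (nat_lit 119) (nat_lit 0) (cs (rf (nat_lit 0)) (cs (rf (nat_lit 1)) (cs (rf (nat_lit 2)) (nd (nat_lit 139) (nat_lit 0) (cs (rf (nat_lit 3)) (cs (nd (nat_lit 183) (nat_lit 0) (cs (nd (nat_lit 161) (nat_lit 0) (cs (lf (nat_lit 36) (nat_lit 95)) (lf (nat_lit 30) (nat_lit 117)))) (cs (nd (nat_lit 121) (nat_lit 0) (cs (nd (nat_lit 184) (nat_lit 0) (cs (lf (nat_lit 41) (nat_lit 117)) (nd (nat_lit 185) (nat_lit 0) (cs (lf (nat_lit 29) (nat_lit 118)) (nd (nat_lit 164) (nat_lit 0) (cs (lf (nat_lit 17) (nat_lit 161)) (nd (nat_lit 142) (nat_lit 0)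 (cs (lf (nat_lit 34) (nat_lit 120)) (lf (nat_lit 46) (nat_lit 119)))))))))) (lf (nat_lit 7) (nat_lit 117)))) (nd (nat_lit 121) (nat_lit 0) (cs (lf (nat_lit 7) (nat_lit 117)) (nd (nat_lit 161) (nat_lit 0) (cs (lf (nat_lit 36) (nat_lit 95)) (nd (nat_lit 143) (nat_lit 0) (cs (nd (nat_lit 142) (nat_lit 0) (cs (lf (nat_lit 32) (nat_lit 120)) (lf (nat_lit 8) (nat_lit 139)))) (cs (nd (nat_lit 165) (nat_lit 0) (cs (lf (nat_lit 39) (nat_lit 120)) (nd (nat_lit 99) (nat_lit 0) (cs (rf (nat_lit 4)) (lf (nat_lit 40) (nat_lit 98)))))) (nd (nat_lit 141) (nat_lit 0) (cs (lf (nat_lit 7) (nat_lit 139)) (nd (nat_lit 187) (nat_lit 0) (cs (lf (nat_lit 38) (nat_lit 120)) (nd (nat_lit 188) (nat_lit 0) (cs (nd (nat_lit 159) (nat_lit 0) (cs (lf (nat_lit 13) (nat_lit 137)) (nd (nat_lit 189) (nat_lit 0) (cs (lf (nat_lit 11) (nat_lit 185)) (nd (nat_lit 167) (nat_lit 0) (cs (lf (nat_lit 17) (nat_lit 164)) (nd (nat_lit 185) (nat_lit 0) (cs (lf (nat_lit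 16) (nat_lit 163)) (lf (nat_lit 21) (nat_lit 161)))))))))) (cs (nd (nat_lit 185) (nat_lit 0) (cs (lf (nat_lit 21) (nat_lit 161)) (nd (nat_lit 210) (nat_lit 0) (cs (lf (nat_lit 5) (nat_lit 185)) (rf (nat_lit 5)))))) (cs (nd (nat_lit 189) (nat_lit 0) (cs (lf (nat_lit 11) (nat_lit 185)) (nd (nat_lit 212) (nat_lit 0) (cs (lf (nat_lit 4) (nat_lit 186)) (nd (nat_lit 159) (nat_lit 0) (cs (lf (nat_lit 13) (nat_lit 137)) (nd (nat_lit 190) (nat_lit 0) (cs (lf (nat_lit 5) (nat_lit 187)) (rf (nat_lit 6)))))))))) (nd (nat_lit 159) (nat_lit 0) (cs (lf (nat_lit 13) (nat_lit 137)) (nd (nat_lit 185) (nat_lit 0) (cs (lf (nat_lit 21) (nat_lit 161)) (rf (nat_lit 7)))))))))))))))))))))))) (cs (nd (nat_lit 138) (nat_lit 0) (cs (lf (nat_lit 12) (nat_lit 115)) (nd (nat_lit 141) (nat_lit 0) (cs (rf (nat_lit 8)) (nd (nat_lit 161) (nat_lit 0) (cs (rf (nat_lit 9)) (cs (nd (nat_lit 160) (nat_lit 0) (cs (lf (nat_lit 12) (nat_lit 137)) (nd (nat_lit 74)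 (nat_lit 0) (cs (lf (nat_lit 37) (nat_lit 73)) (nd (nat_lit 116) (nat_lit 0) (cs (lf (nat_lit 23) (nat_lit 115)) (nd (nat_lit 94) (nat_lit 0) (cs (lf (nat_lit 24) (nat_lit 72)) (nd (nat_lit 93) (nat_lit 0) (cs (lf (nat_lit 47) (nat_lit 71)) (lf (nat_lit 20) (nat_lit 93)))))))))))) (nd (nat_lit 116) (nat_lit 0) (cs (lf (nat_lit 23) (nat_lit 115)) (nd (nat_lit 159) (nat_lit 0) (cs (lf (nat_lit 10) (nat_lit 137)) (rf (nat_lit 10))))))))))))) (nd (nat_lit 138) (nat_lit 0) (cs (lf (nat_lit 12) (nat_lit 115)) (nd (nat_lit 120) (nat_lit 0) (cs (lf (nat_lit 9) (nat_lit 116)) (lf (nat_lit 15) (nat_lit 116)))))))))))))) q35082 (by decide +kernel)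
def q35118 : Q := Q.p (nat_lit 0x10000040000020000100000600000000000000000000000000000) (nat_lit 0x80000300001ef80039c001c78000380000e000028000000) (nat_lit 10)
theorem c35118 : QOK q35118 := cut [q34985, q34971, q35092, q35097, q33973, q35110, q35114, q35117] ⟨c34985, c34971, c35092, c35097, c33973, c35110, c35114, c35117, trivial⟩ (nd (nat_lit 116) (nat_lit 0) (cs (rf (nat_lit 0)) (cs (nd (nat_lit 119) (nat_lit 0) (cs (rf (nat_lit 1)) (cs (nd (nat_lit 93) (nat_lit 0) (cs (lf (nat_lit 22) (nat_lit 93)) (rf (nat_lit 2)))) (cs (nd (nat_lit 137) (nat_lit 0) (cs (lf (nat_lit 10) (nat_lit 115)) (nd (nat_lit 93) (nat_lit 0) (cs (lf (nat_lit 22) (nat_lit 93)) (rf (nat_lit 3)))))) (nd (nat_lit 138) (nat_lit 0) (cs (lf (nat_lit 11) (nat_lit 115)) (nd (nat_lit 94) (nat_lit 0) (cs (lf (nat_lit 23) (nat_lit 93)) (nd (nat_lit 141) (nat_lit 0) (cs (lf (nat_lit 5) (nat_lit 116)) (nd (nat_lit 72) (nat_lit 0) (cs (lf (nat_lit 28) (nat_lit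 72)) (nd (nat_lit 51) (nat_lit 0) (cs (lf (nat_lit 34) (nat_lit 50)) (nd (nat_lit 50) (nat_lit 0) (cs (lf (nat_lit 35) (nat_lit 28)) (rf (nat_lit 4)))))))))))))))))) (cs (rf (nat_lit 5)) (cs (rf (nat_lit 6)) (rf (nat_lit 7))))))) q35118 (by decide +kernel)
def q35152 : Q := Q.p (nat_lit 0x10000050000040000100000000000000000000000000000000000) (nat_lit 0x80000e0000380000e000088000020000080000600000800000000000000000000000) (nat_lit 7)
theorem c35152 : QOK q35152 := cut [q32628, q32771, q34758, q34761] ⟨c32628, c32771, c34758, c34761, trivial⟩ (nd (nat_lit 206) (nat_lit 0) (cs (rf (nat_lit 0)) (cs (rf (nat_lit 1)) (cs (rf (nat_lit 2)) (nd (nat_lit 207) (nat_lit 0) (cs (lf (nat_lit 29) (nat_lit 140)) (nd (nat_lit 117) (nat_lit 0) (cs (lf (nat_lit 46) (nat_lit 117)) (nd (nat_lit 118) (nat_lit 0) (cs (lf (nat_lit 47) (nat_lit 95)) (rf (nat_lit 3)))))))))))) q35152 (by decide +kernel)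
def q35162 : Q := Q.p (nat_lit 0x2000000000000000010000040000100000000000000000000000000000000000) (nat_lit 0x200001e0000380000e000028000000000080000600000800000000000000000000000) (nat_lit 6)
theorem c35162 : QOK q35162 := cut [q16276, q32771, q34734] ⟨c16276, c32771, c34734, trivial⟩ (nd (nat_lit 206) (nat_lit 0) (cs (rf (nat_lit 0)) (cs (rf (nat_lit 1)) (rf (nat_lit 2))))) q35162 (by decide +kernel)
def q35163 : Q := Q.p (nat_lit 0x2000000000010000050000040000100000000000000000000000000000000000) (nat_lit 0x200001e0000380000e0000a0000000000080000600000800000000000000000000000) (nat_lit 6)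
theorem c35163 : QOK q35163 := cut [q16276, q32743, q34734] ⟨c16276, c32743, c34734, trivial⟩ (nd (nat_lit 206) (nat_lit 0) (cs (rf (nat_lit 0)) (cs (rf (nat_lit 1)) (rf (nat_lit 2))))) q35163 (by decide +kernel)
def q35380 : Q := Q.p (nat_lit 0x8000070000100000000000000000000000000000000000) (nat_lit 0x1800007000000000ef8000ff0001fc0000800002000000000000) (nat_lit 10)
theorem c35380 : QOK q35380 := cut [q35240, q35358, q34985, q35114, q35221, q34805, q35231] ⟨c35240, c35358, c34985, c35114, c35221, c34805, c35231, trivial⟩ (nd (nat_lit 118) (nat_lit 0) (cs (lf (nat_lit 36) (nat_lit 95)) (nd (nat_lit 116) (nat_lit 0) (cs (rf (nat_lit 0)) (cs (nd (nat_lit 138) (nat_lit 0) (cs (lf (nat_lit 24) (nat_lit 94)) (nd (nat_lit 182) (nat_lit 0) (cs (nd (nat_lit 115) (nat_lit 0) (cs (lf (nat_lit 47) (nat_lit 93)) (nd (nat_lit 139) (nat_lit 0) (cs (nd (nat_lit 137) (nat_lit 0) (cs (lf (nat_lit 23) (nat_lit 114)) (lf (nat_lit 42) (nat_lit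 115)))) (lf (nat_lit 18) (nat_lit 115)))))) (rf (nat_lit 1)))))) (cs (nd (nat_lit 117) (nat_lit 0) (cs (rf (nat_lit 2)) (cs (rf (nat_lit 3)) (nd (nat_lit 94) (nat_lit 0) (cs (rf (nat_lit 4)) (lf (nat_lit 44) (nat_lit 94))))))) (cs (nd (nat_lit 141) (nat_lit 0) (cs (rf (nat_lit 5)) (cs (nd (nat_lit 115) (nat_lit 0) (cs (nd (nat_lit 138) (nat_lit 0) (cs (nd (nat_lit 93) (nat_lit 0) (cs (lf (nat_lit 42) (nat_lit 93)) (nd (nat_lit 71) (nat_lit 0) (cs (lf (nat_lit 24) (nat_lit 49)) (lf (nat_lit 27) (nat_lit 71)))))) (lf (nat_lit 20) (nat_lit 115)))) (lf (nat_lit 2) (nat_lit 115)))) (nd (nat_lit 117) (nat_lit 0) (cs (lf (nat_lit 0) (nat_lit 115)) (nd (nat_lit 142) (nat_lit 0) (cs (lf (nat_lit 6) (nat_lit 139)) (lf (nat_lit 3) (nat_lit 116))))))))) (cs (nd (nat_lit 94) (nat_lit 0) (cs (lf (nat_lit 26) (nat_lit 94)) (nd (nat_lit 117) (nat_lit 0) (cs (rf (nat_lit 4)) (lf (nat_lit 44) (nat_lit 94)))))) (nd (nat_lit 94) (nat_lit 0) (cs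 (lf (nat_lit 26) (nat_lit 94)) (nd (nat_lit 117) (nat_lit 0) (cs (rf (nat_lit 6)) (lf (nat_lit 44) (nat_lit 94)))))))))))))) q35380 (by decide +kernel)
def q35456 : Q := Q.p (nat_lit 0x50000040000100000400000000000000000000000000000) (nat_lit 0x100000ef0003b8000ef00002000008000000000000) (nat_lit 8)
theorem c35456 : QOK q35456 := cut [q35022] ⟨c35022, trivial⟩ (nd (nat_lit 119) (nat_lit 0) (cs (lf (nat_lit 35) (nat_lit 96)) (rf (nat_lit 0)))) q35456 (by decide +kernel)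
def q35468 : Q := Q.p (nat_lit 0x40000100000400000000000000000000000000000) (nat_lit 0x2000018000020000000000a0000380000e000028000000000000) (nat_lit 5)
theorem c35468 : QOK q35468 := cut [q24124, q35459, q35467] ⟨c24124, c35459, c35467, trivial⟩ (nd (nat_lit 96) (nat_lit 0) (cs (rf (nat_lit 0)) (cs (rf (nat_lit 1)) (rf (nat_lit 2))))) q35468 (by decide +kernel)
def q35548 : Q := Q.p (nat_lit 0x10000040000040000100000400000000000000000000000000000) (nat_lit 0x80000600009f00033c001ef8003bc001df8000380000e000038000000) (nat_lit 14)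
theorem c35548 : QOK q35548 := cut [q35014, q35119, q34985, q35110, q35114, q35117, q35092, q35097, q33664, q35013, q34210] ⟨c35014, c35119, c34985, c35110, c35114, c35117, c35092, c35097, c33664, c35013, c34210, trivial⟩ (nd (nat_lit 117) (nat_lit 0) (cs (rf (nat_lit 0)) (cs (rf (nat_lit 1)) (cs (nd (nat_lit 116) (nat_lit 0) (cs (rf (nat_lit 2)) (cs (rf (nat_lit 3)) (cs (rf (nat_lit 4)) (cs (rf (nat_lit 5)) (nd (nat_lit 119) (nat_lit 0) (cs (rf (nat_lit 6)) (cs (rf (nat_lit 7)) (nd (nat_lit 94) (nat_lit 0) (cs (lf (nat_lit 23) (nat_lit 93)) (nd (nat_lit 137) (nat_lit 0) (cs (lf (nat_lit 10) (nat_lit 115)) (nd (nat_lit 141) (nat_lit 0) (cs (lf (nat_lit 5) (nat_lit 116)) (nd (nat_lit 184) (nat_lit 0) (cs (lf (nat_lit 30) (nat_lit 118)) (nd (nat_lit 183) (nat_lit 0) (cs (lf (nat_lit 41) (nat_lit 117)) (nd (nat_lit 161) (nat_lit 0) (cs (lf (nat_lit 36) (nat_lit 95)) (lf (nat_lit 44) (nat_lit 94)))))))))))))))))))))) (nd (nat_lit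 95) (nat_lit 0) (cs (rf (nat_lit 8)) (cs (rf (nat_lit 9)) (cs (nd (nat_lit 116) (nat_lit 0) (cs (rf (nat_lit 2)) (cs (rf (nat_lit 3)) (cs (rf (nat_lit 4)) (cs (rf (nat_lit 5)) (cs (nd (nat_lit 94) (nat_lit 0) (cs (rf (nat_lit 10)) (cs (nd (nat_lit 161) (nat_lit 0) (cs (nd (nat_lit 139) (nat_lit 0) (cs (lf (nat_lit 47) (nat_lit 72)) (lf (nat_lit 42) (nat_lit 94)))) (cs (nd (nat_lit 92) (nat_lit 0) (cs (lf (nat_lit 1) (nat_lit 92)) (nd (nat_lit 183) (nat_lit 0) (cs (lf (nat_lit 36) (nat_lit 95)) (nd (nat_lit 205) (nat_lit 0) (cs (lf (nat_lit 30) (nat_lit 139)) (nd (nat_lit 160) (nat_lit 0) (cs (lf (nat_lit 26) (nat_lit 94)) (nd (nat_lit 159) (nat_lit 0) (cs (lf (nat_lit 17) (nat_lit 137)) (nd (nat_lit 136) (nat_lit 0) (cs (lf (nat_lit 22) (nat_lit 136)) (nd (nat_lit 158) (nat_lit 0) (cs (lf (nat_lit 23) (nat_lit 135)) (nd (nat_lit 181) (nat_lit 0) (cs (lf (nat_lit 11) (nat_lit 158)) (lf (nat_lit 25) (nat_lit 92))))))))))))))))))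 (nd (nat_lit 72) (nat_lit 0) (cs (nd (nat_lit 50) (nat_lit 0) (cs (nd (nat_lit 92) (nat_lit 0) (cs (lf (nat_lit 1) (nat_lit 92)) (nd (nat_lit 29) (nat_lit 0) (cs (nd (nat_lit 49) (nat_lit 0) (cs (lf (nat_lit 47) (nat_lit 27)) (nd (nat_lit 138) (nat_lit 0) (cs (lf (nat_lit 46) (nat_lit 49)) (nd (nat_lit 160) (nat_lit 0) (cs (lf (nat_lit 30) (nat_lit 94)) (nd (nat_lit 159) (nat_lit 0) (cs (lf (nat_lit 40) (nat_lit 71)) (lf (nat_lit 41) (nat_lit 93)))))))))) (lf (nat_lit 34) (nat_lit 28)))))) (lf (nat_lit 24) (nat_lit 28)))) (lf (nat_lit 43) (nat_lit 72))))))) (nd (nat_lit 119) (nat_lit 0) (cs (lf (nat_lit 18) (nat_lit 94)) (nd (nat_lit 138) (nat_lit 0) (cs (lf (nat_lit 11) (nat_lit 115)) (nd (nat_lit 141) (nat_lit 0) (cs (lf (nat_lit 5) (nat_lit 116)) (nd (nat_lit 160) (nat_lit 0) (cs (lf (nat_lit 30) (nat_lit 94)) (nd (nat_lit 159) (nat_lit 0) (cs (lf (nat_lit 41) (nat_lit 93)) (lf (nat_lit 8) (nat_lit 137))))))))))))))) (nd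 (nat_lit 115) (nat_lit 0) (cs (lf (nat_lit 5) (nat_lit 115)) (nd (nat_lit 92) (nat_lit 0) (cs (lf (nat_lit 22) (nat_lit 92)) (nd (nat_lit 137) (nat_lit 0) (cs (lf (nat_lit 11) (nat_lit 114)) (nd (nat_lit 119) (nat_lit 0) (cs (lf (nat_lit 10) (nat_lit 115)) (nd (nat_lit 120) (nat_lit 0) (cs (lf (nat_lit 23) (nat_lit 94)) (nd (nat_lit 121) (nat_lit 0) (cs (lf (nat_lit 11) (nat_lit 117)) (lf (nat_lit 22) (nat_lit 95)))))))))))))))))))) (nd (nat_lit 73) (nat_lit 0) (cs (lf (nat_lit 45) (nat_lit 73)) (lf (nat_lit 27) (nat_lit 73)))))))))))) q35548 (by decide +kernel)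
def q35550 : Q := Q.p (nat_lit 0x10000050000040000100000000000000000000000000000000000) (nat_lit 0xa0000380000f00002e000020000280000a00000000000000000000000000000) (nat_lit 6)
theorem c35550 : QOK q35550 := cut [q34587, q34590, q34593] ⟨c34587, c34590, c34593, trivial⟩ (nd (nat_lit 206) (nat_lit 0) (cs (rf (nat_lit 0)) (cs (rf (nat_lit 1)) (rf (nat_lit 2))))) q35550 (by decide +kernel)
def q35558 : Q := Q.p (nat_lit 0x400003c0000000000000000000000000000000000000000) (nat_lit 0x720000c00003800000000000000000000000000000000000) (nat_lit 5)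
theorem c35558 : QOK q35558 := cut [q4812] ⟨c4812, trivial⟩ (nd (nat_lit 144) (nat_lit 0) (cs (lf (nat_lit 16) (nat_lit 140)) (rf (nat_lit 0)))) q35558 (by decide +kernel)
def q35564 : Q := Q.p (nat_lit 0x10000040000140000400000000000000000000000000000000000) (nat_lit 0x2000008000000000620000b80002800000000000000000000000000000) (nat_lit 6)
theorem c35564 : QOK q35564 := cut [q32208] ⟨c32208, trivial⟩ (nd (nat_lit 143) (nat_lit 0) (cs (lf (nat_lit 35) (nat_lit 120)) (rf (nat_lit 0)))) q35564 (by decide +kernel)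
def q35575 : Q := Q.p (nat_lit 0x100000400001c0000400000000000000000000000000000000000) (nat_lit 0x300000e0003a0000e000073e0000c00000000000000000000000000000) (nat_lit 8)
theorem c35575 : QOK q35575 := cut [q12357, q2254, q35574] ⟨c12357, c2254, c35574, trivial⟩ (nd (nat_lit 140) (nat_lit 0) (cs (rf (nat_lit 0)) (cs (nd (nat_lit 207) (nat_lit 0) (cs (lf (nat_lit 41) (nat_lit 141)) (nd (nat_lit 165) (nat_lit 0) (cs (rf (nat_lit 1)) (lf (nat_lit 23) (nat_lit 139)))))) (rf (nat_lit 2))))) q35575 (by decide +kernel)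
def q35579 : Q := Q.p (nat_lit 0x10000040000180000400000000000000000000000000000000000) (nat_lit 0x200000800002000000000020000300000e000038000020000000000000) (nat_lit 7)
theorem c35579 : QOK q35579 := cut [q35577] ⟨c35577, trivial⟩ (nd (nat_lit 207) (nat_lit 0) (cs (lf (nat_lit 41) (nat_lit 141)) (nd (nat_lit 120) (nat_lit 0) (cs (lf (nat_lit 40) (nat_lit 119)) (rf (nat_lit 0)))))) q35579 (by decide +kernel)
def q35583 : Q := Q.p (nat_lit 0x10000040000180000400000000000000000000000000000000000) (nat_lit 0x200000800000000000000020000380000e000038000020000000000000) (nat_lit 6)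
theorem c35583 : QOK q35583 := cut [q556, q11202, q35577, q32357] ⟨c556, c11202, c35577, c32357, trivial⟩ (nd (nat_lit 120) (nat_lit 0) (cs (rf (nat_lit 0)) (cs (rf (nat_lit 1)) (cs (rf (nat_lit 2)) (nd (nat_lit 207) (nat_lit 0) (cs (lf (nat_lit 41) (nat_lit 141)) (nd (nat_lit 99) (nat_lit 0) (cs (lf (nat_lit 34) (nat_lit 98)) (nd (nat_lit 98) (nat_lit 0) (cs (lf (nat_lit 35) (nat_lit 76)) (rf (nat_lit 3)))))))))))) q35583 (by decide +kernel)
def q35614 : Q := Q.p (nat_lit 0x10000040000140000000000000000000000000000000000000000) (nat_lit 0x20000080000a00002a0003c0000380000e000038000080000000000000) (nat_lit 9)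
theorem c35614 : QOK q35614 := cut [q35567, q35597, q35613] ⟨c35567, c35597, c35613, trivial⟩ (nd (nat_lit 142) (nat_lit 0) (cs (rf (nat_lit 0)) (cs (rf (nat_lit 1)) (rf (nat_lit 2))))) q35614 (by decide +kernel)
def q35626 : Q := Q.p (nat_lit 0x10000040000140000400000000000000000000000000000000000) (nat_lit 0x300000e0001ae0002b0003be0001400000000000000000000000000000) (nat_lit 10)
theorem c35626 : QOK q35626 := cut [q3803, q32368, q35603] ⟨c3803, c32368, c35603, trivial⟩ (nd (nat_lit 163) (nat_lit 0) (cs (rf (nat_lit 0)) (cs (rf (nat_lit 1)) (rf (nat_lit 2))))) q35626 (by decide +kernel)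
def q35636 : Q := Q.p (nat_lit 0x10000040000140000000000000000000000000000000000000000) (nat_lit 0x20000080000200002a0003e00003800002000000000000000000000000) (nat_lit 5)
theorem c35636 : QOK q35636 := cut [q619, q35613] ⟨c619, c35613, trivial⟩ (nd (nat_lit 142) (nat_lit 0) (cs (rf (nat_lit 0)) (rf (nat_lit 1)))) q35636 (by decide +kernel)
def q35648 : Q := Q.p (nat_lit 0x10000040000040000c00000000000000000000000000000000000) (nat_lit 0x80000ea000338001ff00000000000000000000000000000) (nat_lit 7)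
theorem c35648 : QOK q35648 := cut [q35639, q35640, q35645, q35647] ⟨c35639, c35640, c35645, c35647, trivial⟩ (nd (nat_lit 141) (nat_lit 0) (cs (rf (nat_lit 0)) (cs (rf (nat_lit 1)) (cs (rf (nat_lit 2)) (rf (nat_lit 3)))))) q35648 (by decide +kernel)
def q35671 : Q := Q.p (nat_lit 0x10000040000040000c00000000000000000000000000000000000) (nat_lit 0x2000008000000000720000380002800000000000000000000000000000) (nat_lit 6)
theorem c35671 : QOK q35671 := cut [q32208] ⟨c32208, trivial⟩ (nd (nat_lit 164) (nat_lit 0) (cs (lf (nat_lit 35) (nat_lit 120)) (rf (nat_lit 0)))) q35671 (by decide +kernel)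
def q35689 : Q := Q.p (nat_lit 0x10000040000040000100000400000000000000000000000000000) (nat_lit 0x280000e0000980000200000e0003a0000300000e0000380000a0000000) (nat_lit 8)
theorem c35689 : QOK q35689 := cut [q34875, q34352, q35683, q33985, q35673] ⟨c34875, c34352, c35683, c33985, c35673, trivial⟩ (nd (nat_lit 96) (nat_lit 0) (cs (rf (nat_lit 0)) (cs (nd (nat_lit 161) (nat_lit 0) (cs (lf (nat_lit 41) (nat_lit 95)) (nd (nat_lit 74) (nat_lit 0) (cs (lf (nat_lit 40) (nat_lit 73)) (nd (nat_lit 53) (nat_lit 0) (cs (lf (nat_lit 34) (nat_lit 52)) (nd (nat_lit 52) (nat_lit 0) (cs (rf (nat_lit 1)) (lf (nat_lit 35) (nat_lit 30)))))))))) (cs (rf (nat_lit 2)) (nd (nat_lit 139) (nat_lit 0) (cs (nd (nat_lit 161) (nat_lit 0) (cs (lf (nat_lit 41) (nat_lit 95)) (lf (nat_lit 36) (nat_lit 73)))) (cs (nd (nat_lit 119) (nat_lit 0) (cs (rf (nat_lit 3)) (rf (nat_lit 4)))) (nd (nat_lit 74) (nat_lit 0) (cs (lf (nat_lit 41) (nat_lit 73)) (nd (nat_lit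 52) (nat_lit 0) (cs (rf (nat_lit 1)) (lf (nat_lit 40) (nat_lit 51))))))))))))) q35689 (by decide +kernel)
def q35777 : Q := Q.p (nat_lit 0x10000040000040000500000400000000000000000000000000000) (nat_lit 0x2d0000fc0009f0000bc0008f0003bc0003f0000dc0003d0000e0000080) (nat_lit 14)
theorem c35777 : QOK q35777 := cut [q33680, q34881, q35683, q35420, q35700, q35698, q35703, q35719, q35733, q35739, q35748, q35757, q35769] ⟨c33680, c34881, c35683, c35420, c35700, c35698, c35703, c35719, c35733, c35739, c35748, c35757, c35769, trivial⟩ (nd (nat_lit 96) (nat_lit 0) (cs (rf (nat_lit 0)) (cs (rf (nat_lit 1)) (cs (rf (nat_lit 2)) (cs (nd (nat_lit 117) (nat_lit 0) (cs (rf (nat_lit 3)) (cs (rf (nat_lit 4)) (cs (nd (nat_lit 161) (nat_lit 0) (cs (lf (nat_lit 41) (nat_lit 95)) (nd (nat_lit 139) (nat_lit 0) (cs (rf (nat_lit 5)) (nd (nat_lit 115) (nat_lit 0) (cs (nd (nat_lit 116) (nat_lit 0) (cs (lf (nat_lit 0) (nat_lit 114)) (nd (nat_lit 92)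 (nat_lit 0) (cs (lf (nat_lit 22) (nat_lit 92)) (rf (nat_lit 6)))))) (cs (nd (nat_lit 184) (nat_lit 0) (cs (lf (nat_lit 42) (nat_lit 117)) (nd (nat_lit 116) (nat_lit 0) (cs (lf (nat_lit 0) (nat_lit 114)) (nd (nat_lit 93) (nat_lit 0) (cs (lf (nat_lit 23) (nat_lit 92)) (nd (nat_lit 94) (nat_lit 0) (cs (lf (nat_lit 18) (nat_lit 93)) (nd (nat_lit 72) (nat_lit 0) (cs (lf (nat_lit 27) (nat_lit 72)) (lf (nat_lit 24) (nat_lit 50)))))))))))) (cs (nd (nat_lit 116) (nat_lit 0) (cs (lf (nat_lit 0) (nat_lit 114)) (nd (nat_lit 184) (nat_lit 0) (cs (lf (nat_lit 42) (nat_lit 117)) (nd (nat_lit 136) (nat_lit 0) (cs (lf (nat_lit 10) (nat_lit 114)) (nd (nat_lit 93) (nat_lit 0) (cs (lf (nat_lit 23) (nat_lit 92)) (nd (nat_lit 119) (nat_lit 0) (cs (lf (nat_lit 22) (nat_lit 93)) (nd (nat_lit 120) (nat_lit 0) (cs (lf (nat_lit 5) (nat_lit 117)) (lf (nat_lit 6) (nat_lit 117)))))))))))))) (cs (nd (nat_lit 137) (nat_lit 0) (cs (nd (nat_lit 159) (nat_lit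 0) (cs (rf (nat_lit 7)) (cs (nd (nat_lit 184) (nat_lit 0) (cs (lf (nat_lit 42) (nat_lit 117)) (nd (nat_lit 160) (nat_lit 0) (cs (lf (nat_lit 23) (nat_lit 136)) (nd (nat_lit 181) (nat_lit 0) (cs (lf (nat_lit 11) (nat_lit 158)) (nd (nat_lit 182) (nat_lit 0) (cs (lf (nat_lit 29) (nat_lit 115)) (lf (nat_lit 24) (nat_lit 93)))))))))) (cs (nd (nat_lit 181) (nat_lit 0) (cs (nd (nat_lit 184) (nat_lit 0) (cs (lf (nat_lit 42) (nat_lit 117)) (nd (nat_lit 204) (nat_lit 0) (cs (lf (nat_lit 28) (nat_lit 115)) (nd (nat_lit 114) (nat_lit 0) (cs (lf (nat_lit 47) (nat_lit 92)) (nd (nat_lit 203) (nat_lit 0) (cs (lf (nat_lit 46) (nat_lit 114)) (lf (nat_lit 29) (nat_lit 137)))))))))) (cs (nd (nat_lit 180) (nat_lit 0) (cs (lf (nat_lit 41) (nat_lit 114)) (nd (nat_lit 93) (nat_lit 0) (cs (lf (nat_lit 40) (nat_lit 92)) (rf (nat_lit 8)))))) (nd (nat_lit 184) (nat_lit 0) (cs (lf (nat_lit 42) (nat_lit 117)) (rf (nat_lit 9))))))) (nd (nat_lit 184) (nat_lit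 0) (cs (lf (nat_lit 42) (nat_lit 117)) (nd (nat_lit 158) (nat_lit 0) (cs (nd (nat_lit 93) (nat_lit 0) (cs (lf (nat_lit 41) (nat_lit 92)) (rf (nat_lit 8)))) (lf (nat_lit 14) (nat_lit 136)))))))))) (cs (nd (nat_lit 138) (nat_lit 0) (cs (lf (nat_lit 23) (nat_lit 114)) (lf (nat_lit 5) (nat_lit 137)))) (rf (nat_lit 10))))) (cs (nd (nat_lit 137) (nat_lit 0) (cs (rf (nat_lit 10)) (cs (nd (nat_lit 184) (nat_lit 0) (cs (lf (nat_lit 42) (nat_lit 117)) (nd (nat_lit 116) (nat_lit 0) (cs (lf (nat_lit 11) (nat_lit 114)) (nd (nat_lit 93) (nat_lit 0) (cs (lf (nat_lit 23) (nat_lit 92)) (nd (nat_lit 94) (nat_lit 0) (cs (lf (nat_lit 18) (nat_lit 93)) (nd (nat_lit 72) (nat_lit 0) (cs (lf (nat_lit 36) (nat_lit 49)) (lf (nat_lit 30) (nat_lit 71)))))))))))) (rf (nat_lit 11))))) (nd (nat_lit 184) (nat_lit 0) (cs (lf (nat_lit 42) (nat_lit 117)) (nd (nat_lit 116) (nat_lit 0) (cs (lf (nat_lit 0) (nat_lit 114)) (rf (nat_lit 6)))))))))))))))) (rf (nat_lit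 12)))))) (nd (nat_lit 183) (nat_lit 0) (cs (lf (nat_lit 40) (nat_lit 95)) (nd (nat_lit 184) (nat_lit 0) (cs (lf (nat_lit 41) (nat_lit 117)) (nd (nat_lit 119) (nat_lit 0) (cs (lf (nat_lit 35) (nat_lit 96)) (nd (nat_lit 117) (nat_lit 0) (cs (lf (nat_lit 47) (nat_lit 95)) (nd (nat_lit 120) (nat_lit 0) (cs (lf (nat_lit 5) (nat_lit 117)) (nd (nat_lit 139) (nat_lit 0) (cs (lf (nat_lit 42) (nat_lit 117)) (lf (nat_lit 11) (nat_lit 116))))))))))))))))))) q35777 (by decide +kernel)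
def q35858 : Q := Q.p (nat_lit 0x10000040000040000100000400000000000000000000000000000) (nat_lit 0x2d0000fc0009f0000bc0000f8000be0001f0000fe0003f000094000000) (nat_lit 14)
theorem c35858 : QOK q35858 := cut [q35845, q33632, q35855, q35857] ⟨c35845, c33632, c35855, c35857, trivial⟩ (nd (nat_lit 95) (nat_lit 0) (cs (nd (nat_lit 96) (nat_lit 0) (cs (lf (nat_lit 47) (nat_lit 73)) (nd (nat_lit 93) (nat_lit 0) (cs (rf (nat_lit 0)) (cs (nd (nat_lit 94) (nat_lit 0) (cs (lf (nat_lit 5) (nat_lit 93)) (nd (nat_lit 114) (nat_lit 0) (cs (lf (nat_lit 10) (nat_lit 92)) (nd (nat_lit 92) (nat_lit 0) (cs (rf (nat_lit 1)) (lf (nat_lit 11) (nat_lit 91)))))))) (nd (nat_lit 161) (nat_lit 0) (cs (lf (nat_lit 41) (nat_lit 95)) (nd (nat_lit 74) (nat_lit 0) (cs (lf (nat_lit 40) (nat_lit 73)) (nd (nat_lit 75) (nat_lit 0) (cs (lf (nat_lit 35) (nat_lit 52)) (lf (nat_lit 13) (nat_lit 71))))))))))))) (cs (rf (nat_lit 2)) (rf (nat_lit 3))))) q35858 (by decide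 +kernel)
def q35868 : Q := Q.p (nat_lit 0x40000700000000000000000000000000000000000) (nat_lit 0x100000380000c0003b80000800002000000000000000000) (nat_lit 5)
theorem c35868 : QOK q35868 := cut [q9145, q34441, q35867] ⟨c9145, c34441, c35867, trivial⟩ (nd (nat_lit 139) (nat_lit 0) (cs (rf (nat_lit 0)) (cs (rf (nat_lit 1)) (rf (nat_lit 2))))) q35868 (by decide +kernel)
def q35878 : Q := Q.p (nat_lit 0x2000000000010000040000040000700000000000000000000000000000000000) (nat_lit 0x200001e0000380000e00009c0000a0000000000f0000380000a000000000000000000) (nat_lit 7)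
theorem c35878 : QOK q35878 := cut [q16276, q35191, q33490, q33491, q35877] ⟨c16276, c35191, c33490, c33491, c35877, trivial⟩ (nd (nat_lit 184) (nat_lit 0) (cs (nd (nat_lit 206) (nat_lit 0) (cs (rf (nat_lit 0)) (cs (rf (nat_lit 1)) (nd (nat_lit 229) (nat_lit 0) (cs (lf (nat_lit 28) (nat_lit 140)) (nd (nat_lit 228) (nat_lit 0) (cs (lf (nat_lit 29) (nat_lit 162)) (lf (nat_lit 34) (nat_lit 140))))))))) (cs (nd (nat_lit 118) (nat_lit 0) (cs (rf (nat_lit 2)) (cs (rf (nat_lit 3)) (nd (nat_lit 119) (nat_lit 0) (cs (lf (nat_lit 35) (nat_lit 96)) (nd (nat_lit 117) (nat_lit 0) (cs (lf (nat_lit 47) (nat_lit 95)) (lf (nat_lit 0) (nat_lit 116))))))))) (rf (nat_lit 4))))) q35878 (by decide +kernel)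
def q35891 : Q := Q.p (nat_lit 0x40000700000000000000000000000000000000000) (nat_lit 0x400001000009c0000e0003f8000280000a000000000000000000) (nat_lit 6)
theorem c35891 : QOK q35891 := cut [q35883, q35885, q35890] ⟨c35883, c35885, c35890, trivial⟩ (nd (nat_lit 139) (nat_lit 0) (cs (rf (nat_lit 0)) (cs (nd (nat_lit 116) (nat_lit 0) (cs (lf (nat_lit 22) (nat_lit 116)) (nd (nat_lit 138) (nat_lit 0) (cs (lf (nat_lit 23) (nat_lit 115)) (rf (nat_lit 1)))))) (rf (nat_lit 2))))) q35891 (by decide +kernel)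
def q35900 : Q := Q.p (nat_lit 0x40000700000800000000000000000000000000000) (nat_lit 0x400001000009c0008e0001700000800002000000000000000000) (nat_lit 8)
theorem c35900 : QOK q35900 := cut [q35893, q35896] ⟨c35893, c35896, trivial⟩ (nd (nat_lit 117) (nat_lit 0) (cs (rf (nat_lit 0)) (cs (nd (nat_lit 184) (nat_lit 0) (cs (lf (nat_lit 30) (nat_lit 118)) (rf (nat_lit 1)))) (nd (nat_lit 118) (nat_lit 0) (cs (lf (nat_lit 18) (nat_lit 117)) (nd (nat_lit 184) (nat_lit 0) (cs (lf (nat_lit 47) (nat_lit 95)) (lf (nat_lit 30) (nat_lit 118))))))))) q35900 (by decide +kernel)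
def q35961 : Q := Q.p (nat_lit 0x10000040000040000780000000000000000000000000000000000) (nat_lit 0x140000700001c0003f8000fc0009f8000b8000000003c0000fc000ff0000c0000000000000) (nat_lit 13)
theorem c35961 : QOK q35961 := cut [q9072, q18707, q153, q34524, q4169, q26734, q27277, q35941, q33776, q33547] ⟨c9072, c18707, c153, c34524, c4169, c26734, c27277, c35941, c33776, c33547, trivial⟩ (nd (nat_lit 119) (nat_lit 0) (cs (rf (nat_lit 0)) (cs (nd (nat_lit 205) (nat_lit 0) (cs (nd (nat_lit 184) (nat_lit 0) (cs (lf (nat_lit 30) (nat_lit 118)) (nd (nat_lit 183) (nat_lit 0) (cs (lf (nat_lit 36) (nat_lit 117)) (nd (nat_lit 161) (nat_lit 0) (cs (lf (nat_lit 30) (nat_lit 139)) (lf (nat_lit 11) (nat_lit 138)))))))) (cs (nd (nat_lit 120) (nat_lit 0) (cs (lf (nat_lit 17) (nat_lit 117)) (nd (nat_lit 206) (nat_lit 0) (cs (lf (nat_lit 31) (nat_lit 118)) (rf (nat_lit 1)))))) (cs (nd (nat_lit 161) (nat_lit 0) (cs (lf (nat_lit 11) (nat_lit 138))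 (nd (nat_lit 120) (nat_lit 0) (cs (lf (nat_lit 17) (nat_lit 117)) (nd (nat_lit 183) (nat_lit 0) (cs (lf (nat_lit 35) (nat_lit 117)) (nd (nat_lit 206) (nat_lit 0) (cs (lf (nat_lit 29) (nat_lit 139)) (lf (nat_lit 31) (nat_lit 118)))))))))) (cs (nd (nat_lit 206) (nat_lit 0) (cs (lf (nat_lit 31) (nat_lit 118)) (nd (nat_lit 204) (nat_lit 0) (cs (nd (nat_lit 120) (nat_lit 0) (cs (lf (nat_lit 17) (nat_lit 117)) (nd (nat_lit 207) (nat_lit 0) (cs (rf (nat_lit 2)) (lf (nat_lit 17) (nat_lit 183)))))) (cs (nd (nat_lit 207) (nat_lit 0) (cs (lf (nat_lit 17) (nat_lit 183)) (nd (nat_lit 160) (nat_lit 0) (cs (lf (nat_lit 10) (nat_lit 138)) (nd (nat_lit 227) (nat_lit 0) (cs (lf (nat_lit 11) (nat_lit 204)) (nd (nat_lit 120) (nat_lit 0) (cs (lf (nat_lit 17) (nat_lit 117)) (rf (nat_lit 3)))))))))) (cs (nd (nat_lit 207) (nat_lit 0) (cs (lf (nat_lit 17) (nat_lit 183)) (nd (nat_lit 160) (nat_lit 0) (cs (rf (nat_lit 4)) (lf (nat_lit 10) (nat_lit 138))))))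 (nd (nat_lit 203) (nat_lit 0) (cs (nd (nat_lit 224) (nat_lit 0) (cs (lf (nat_lit 10) (nat_lit 202)) (nd (nat_lit 202) (nat_lit 0) (cs (lf (nat_lit 11) (nat_lit 201)) (nd (nat_lit 228) (nat_lit 0) (cs (lf (nat_lit 5) (nat_lit 203)) (lf (nat_lit 4) (nat_lit 202)))))))) (cs (nd (nat_lit 160) (nat_lit 0) (cs (lf (nat_lit 10) (nat_lit 138)) (nd (nat_lit 228) (nat_lit 0) (cs (lf (nat_lit 5) (nat_lit 203)) (rf (nat_lit 5)))))) (nd (nat_lit 225) (nat_lit 0) (cs (lf (nat_lit 11) (nat_lit 202)) (nd (nat_lit 181) (nat_lit 0) (cs (lf (nat_lit 23) (nat_lit 180)) (nd (nat_lit 160) (nat_lit 0) (cs (lf (nat_lit 10) (nat_lit 138)) (nd (nat_lit 247) (nat_lit 0) (cs (lf (nat_lit 34) (nat_lit 159)) (nd (nat_lit 270) (nat_lit 0) (cs (lf (nat_lit 28) (nat_lit 181)) (nd (nat_lit 269) (nat_lit 0) (cs (lf (nat_lit 29) (nat_lit 203)) (rf (nat_lit 6))))))))))))))))))))))) (nd (nat_lit 120) (nat_lit 0) (cs (lf (nat_lit 17) (nat_lit 117)) (rf (nat_lit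 7))))))))) (nd (nat_lit 120) (nat_lit 0) (cs (lf (nat_lit 17) (nat_lit 117)) (nd (nat_lit 161) (nat_lit 0) (cs (rf (nat_lit 8)) (nd (nat_lit 97) (nat_lit 0) (cs (lf (nat_lit 36) (nat_lit 74)) (nd (nat_lit 98) (nat_lit 0) (cs (nd (nat_lit 76) (nat_lit 0) (cs (lf (nat_lit 36) (nat_lit 53)) (lf (nat_lit 30) (nat_lit 75)))) (cs (nd (nat_lit 96) (nat_lit 0) (cs (nd (nat_lit 74) (nat_lit 0) (cs (lf (nat_lit 38) (nat_lit 73)) (lf (nat_lit 42) (nat_lit 74)))) (cs (nd (nat_lit 118) (nat_lit 0) (cs (lf (nat_lit 41) (nat_lit 95)) (nd (nat_lit 95) (nat_lit 0) (cs (lf (nat_lit 47) (nat_lit 73)) (lf (nat_lit 0) (nat_lit 94)))))) (nd (nat_lit 74) (nat_lit 0) (cs (lf (nat_lit 42) (nat_lit 74)) (nd (nat_lit 73) (nat_lit 0) (cs (nd (nat_lit 95) (nat_lit 0) (cs (lf (nat_lit 0) (nat_lit 94)) (lf (nat_lit 23) (nat_lit 72)))) (lf (nat_lit 18) (nat_lit 73))))))))) (nd (nat_lit 76) (nat_lit 0) (cs (rf (nat_lit 9)) (lf (nat_lit 36) (nat_lit 53))))))))))))))))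 q35961 (by decide +kernel)
def q35977 : Q := Q.p (nat_lit 0x40000780000200000000000000000000000000000) (nat_lit 0xb80000700004e0000000000000000000000000000) (nat_lit 6)
theorem c35977 : QOK q35977 := cut [q35975] ⟨c35975, trivial⟩ (nd (nat_lit 160) (nat_lit 0) (cs (lf (nat_lit 10) (nat_lit 138)) (nd (nat_lit 138) (nat_lit 0) (cs (lf (nat_lit 11) (nat_lit 137)) (rf (nat_lit 0)))))) q35977 (by decide +kernel)
def q36012 : Q := Q.p (nat_lit 0x40000160000400000000000000000000000000000000000) (nat_lit 0x87000098000270000000000000000000000000000000000) (nat_lit 6)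
theorem c36012 : QOK q36012 := cut [q36011] ⟨c36011, trivial⟩ (nd (nat_lit 163) (nat_lit 0) (cs (lf (nat_lit 5) (nat_lit 161)) (rf (nat_lit 0)))) q36012 (by decide +kernel)
def q36110 : Q := Q.p (nat_lit 0x10000040000040000500000400000000000000000000000000000) (nat_lit 0x280000ee0009f0001a80000f8003bc001ef80002000008000000000000) (nat_lit 14)
theorem c36110 : QOK q36110 := cut [q35419, q36084, q35014, q35017, q35020, q36081, q36095, q35095] ⟨c35419, c36084, c35014, c35017, c35020, c36081, c36095, c35095, trivial⟩ (nd (nat_lit 184) (nat_lit 0) (cs (rf (nat_lit 0)) (cs (rf (nat_lit 1)) (nd (nat_lit 119) (nat_lit 0) (cs (lf (nat_lit 35) (nat_lit 96)) (nd (nat_lit 117) (nat_lit 0) (cs (rf (nat_lit 2)) (cs (rf (nat_lit 3)) (nd (nat_lit 116) (nat_lit 0) (cs (rf (nat_lit 4)) (cs (nd (nat_lit 183) (nat_lit 0) (cs (lf (nat_lit 41) (nat_lit 117)) (nd (nat_lit 93) (nat_lit 0) (cs (lf (nat_lit 22) (nat_lit 93)) (nd (nat_lit 115) (nat_lit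 0) (cs (lf (nat_lit 23) (nat_lit 92)) (nd (nat_lit 114) (nat_lit 0) (cs (lf (nat_lit 4) (nat_lit 114)) (nd (nat_lit 136) (nat_lit 0) (cs (lf (nat_lit 11) (nat_lit 113)) (lf (nat_lit 10) (nat_lit 114)))))))))))) (cs (nd (nat_lit 183) (nat_lit 0) (cs (lf (nat_lit 41) (nat_lit 117)) (nd (nat_lit 93) (nat_lit 0) (cs (lf (nat_lit 22) (nat_lit 93)) (nd (nat_lit 115) (nat_lit 0) (cs (lf (nat_lit 23) (nat_lit 92)) (nd (nat_lit 139) (nat_lit 0) (cs (lf (nat_lit 0) (nat_lit 114)) (rf (nat_lit 5)))))))))) (cs (nd (nat_lit 183) (nat_lit 0) (cs (lf (nat_lit 41) (nat_lit 117)) (nd (nat_lit 137) (nat_lit 0) (cs (lf (nat_lit 10) (nat_lit 115)) (nd (nat_lit 115) (nat_lit 0) (cs (lf (nat_lit 11) (nat_lit 114)) (nd (nat_lit 114) (nat_lit 0) (cs (lf (nat_lit 4) (nat_lit 114)) (nd (nat_lit 92) (nat_lit 0) (cs (lf (nat_lit 23) (nat_lit 91)) (nd (nat_lit 181) (nat_lit 0) (cs (rf (nat_lit 6)) (lf (nat_lit 43) (nat_lit 92)))))))))))))) (nd (nat_lit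 93) (nat_lit 0) (cs (lf (nat_lit 22) (nat_lit 93)) (nd (nat_lit 183) (nat_lit 0) (cs (lf (nat_lit 41) (nat_lit 117)) (nd (nat_lit 138) (nat_lit 0) (cs (lf (nat_lit 11) (nat_lit 115)) (nd (nat_lit 120) (nat_lit 0) (cs (lf (nat_lit 10) (nat_lit 116)) (rf (nat_lit 7))))))))))))))))))))))) q36110 (by decide +kernel)
def q36144 : Q := Q.p (nat_lit 0x14000040000100000400000000000000000000000000000000000) (nat_lit 0x2e0000b00008e000000000000000000000000000000000000000000000) (nat_lit 6)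
theorem c36144 : QOK q36144 := cut [q32527] ⟨c32527, trivial⟩ (nd (nat_lit 207) (nat_lit 0) (cs (lf (nat_lit 41) (nat_lit 141)) (rf (nat_lit 0)))) q36144 (by decide +kernel)
def q36169 : Q := Q.p (nat_lit 0x40000780000000000000000000000000000000000) (nat_lit 0x1b8000060003000000000000000000000000000000) (nat_lit 5)
theorem c36169 : QOK q36169 := cut [q36168] ⟨c36168, trivial⟩ (nd (nat_lit 120) (nat_lit 0) (cs (lf (nat_lit 17) (nat_lit 117)) (rf (nat_lit 0)))) q36169 (by decide +kernel)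
def q36177 : Q := Q.p (nat_lit 0x580000200000000000000000000000000000) (nat_lit 0x39c0002700035e0000000000000000000000000000) (nat_lit 9)
theorem c36177 : QOK q36177 := cut [q36157] ⟨c36157, trivial⟩ (nd (nat_lit 141) (nat_lit 0) (cs (lf (nat_lit 23) (nat_lit 116)) (nd (nat_lit 120) (nat_lit 0) (cs (lf (nat_lit 17) (nat_lit 117)) (rf (nat_lit 0)))))) q36177 (by decide +kernel)
def q36188 : Q := Q.p (nat_lit 0x40000040000780000000000000000000000000000000000) (nat_lit 0x200008c0003b0000000000400001000000000000000000000000) (nat_lit 6)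
theorem c36188 : QOK q36188 := cut [q36186] ⟨c36186, trivial⟩ (nd (nat_lit 161) (nat_lit 0) (cs (lf (nat_lit 11) (nat_lit 138)) (nd (nat_lit 164) (nat_lit 0) (cs (lf (nat_lit 5) (nat_lit 139)) (rf (nat_lit 0)))))) q36188 (by decide +kernel)
def q36235 : Q := Q.p (nat_lit 0x10000040000040000580000200000000000000000000000000000) (nat_lit 0x2e0000f00009e000380000240003100000800002000000000000000000) (nat_lit 12)
theorem c36235 : QOK q36235 := cut [q6817] ⟨c6817, trivial⟩ (nd (nat_lit 73) (nat_lit 0) (cs (lf (nat_lit 25) (nat_lit 73)) (nd (nat_lit 206) (nat_lit 0) (cs (lf (nat_lit 43) (nat_lit 117)) (nd (nat_lit 141) (nat_lit 0) (cs (lf (nat_lit 23) (nat_lit 116)) (nd (nat_lit 120) (nat_lit 0) (cs (lf (nat_lit 17) (nat_lit 117)) (nd (nat_lit 164) (nat_lit 0) (cs (lf (nat_lit 5) (nat_lit 139)) (nd (nat_lit 138) (nat_lit 0) (cs (lf (nat_lit 4) (nat_lit 138)) (nd (nat_lit 207) (nat_lit 0) (cs (lf (nat_lit 41) (nat_lit 141)) (rf (nat_lit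 0)))))))))))))))) q36235 (by decide +kernel)
def q36301 : Q := Q.p (nat_lit 0x40000060000180000200000000000000000000000000000) (nat_lit 0x180008700039c0000700005e0000780001c00000000000000000) (nat_lit 11)
theorem c36301 : QOK q36301 := cut [q36258, q35975, q36268, q36279, q36297] ⟨c36258, c35975, c36268, c36279, c36297, trivial⟩ (nd (nat_lit 160) (nat_lit 0) (cs (nd (nat_lit 159) (nat_lit 0) (cs (lf (nat_lit 12) (nat_lit 136)) (nd (nat_lit 136) (nat_lit 0) (cs (lf (nat_lit 22) (nat_lit 136)) (nd (nat_lit 181) (nat_lit 0) (cs (lf (nat_lit 11) (nat_lit 158)) (nd (nat_lit 163) (nat_lit 0) (cs (lf (nat_lit 10) (nat_lit 159)) (rf (nat_lit 0)))))))))) (cs (nd (nat_lit 138) (nat_lit 0) (cs (rf (nat_lit 1)) (cs (nd (nat_lit 163) (nat_lit 0) (cs (lf (nat_lit 18) (nat_lit 138)) (nd (nat_lit 182) (nat_lit 0) (cs (lf (nat_lit 11) (nat_lit 159)) (lf (nat_lit 30) (nat_lit 116)))))) (rf (nat_lit 2))))) (cs (nd (nat_lit 138) (nat_lit 0) (cs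 (rf (nat_lit 2)) (cs (nd (nat_lit 159) (nat_lit 0) (cs (lf (nat_lit 12) (nat_lit 136)) (nd (nat_lit 182) (nat_lit 0) (cs (lf (nat_lit 30) (nat_lit 116)) (nd (nat_lit 181) (nat_lit 0) (cs (lf (nat_lit 11) (nat_lit 158)) (nd (nat_lit 116) (nat_lit 0) (cs (lf (nat_lit 41) (nat_lit 115)) (lf (nat_lit 36) (nat_lit 93)))))))))) (cs (nd (nat_lit 159) (nat_lit 0) (cs (lf (nat_lit 12) (nat_lit 136)) (nd (nat_lit 137) (nat_lit 0) (cs (lf (nat_lit 0) (nat_lit 136)) (nd (nat_lit 180) (nat_lit 0) (cs (lf (nat_lit 10) (nat_lit 158)) (rf (nat_lit 3)))))))) (nd (nat_lit 137) (nat_lit 0) (cs (lf (nat_lit 0) (nat_lit 136)) (nd (nat_lit 182) (nat_lit 0) (cs (lf (nat_lit 30) (nat_lit 116)) (nd (nat_lit 115) (nat_lit 0) (cs (lf (nat_lit 23) (nat_lit 114)) (nd (nat_lit 159) (nat_lit 0) (cs (lf (nat_lit 12) (nat_lit 136)) (lf (nat_lit 24) (nat_lit 93)))))))))))))) (cs (nd (nat_lit 159) (nat_lit 0) (cs (lf (nat_lit 12) (nat_lit 136)) (nd (nat_lit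 181) (nat_lit 0) (cs (lf (nat_lit 11) (nat_lit 158)) (nd (nat_lit 163) (nat_lit 0) (cs (lf (nat_lit 10) (nat_lit 159)) (nd (nat_lit 164) (nat_lit 0) (cs (lf (nat_lit 23) (nat_lit 138)) (lf (nat_lit 18) (nat_lit 139)))))))))) (cs (nd (nat_lit 159) (nat_lit 0) (cs (lf (nat_lit 12) (nat_lit 136)) (nd (nat_lit 180) (nat_lit 0) (cs (lf (nat_lit 10) (nat_lit 158)) (nd (nat_lit 137) (nat_lit 0) (cs (lf (nat_lit 23) (nat_lit 136)) (nd (nat_lit 138) (nat_lit 0) (cs (lf (nat_lit 18) (nat_lit 137)) (rf (nat_lit 3)))))))))) (nd (nat_lit 159) (nat_lit 0) (cs (lf (nat_lit 12) (nat_lit 136)) (nd (nat_lit 137) (nat_lit 0) (cs (lf (nat_lit 23) (nat_lit 136)) (nd (nat_lit 138) (nat_lit 0) (cs (lf (nat_lit 18) (nat_lit 137)) (rf (nat_lit 4)))))))))))))) q36301 (by decide +kernel)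
def q36346 : Q := Q.p (nat_lit 0x40000580000000000000000000000000000000000) (nat_lit 0x40000140003be0002700006e0000a00002800000000000000000) (nat_lit 8)
theorem c36346 : QOK q36346 := cut [q33796, q17722, q36193, q36337, q36296, q36345] ⟨c33796, c17722, c36193, c36337, c36296, c36345, trivial⟩ (nd (nat_lit 138) (nat_lit 0) (cs (nd (nat_lit 137) (nat_lit 0) (cs (lf (nat_lit 5) (nat_lit 137)) (nd (nat_lit 114) (nat_lit 0) (cs (lf (nat_lit 22) (nat_lit 114)) (nd (nat_lit 158) (nat_lit 0) (cs (lf (nat_lit 10) (nat_lit 136)) (nd (nat_lit 136) (nat_lit 0) (cs (lf (nat_lit 23) (nat_lit 113)) (lf (nat_lit 11) (nat_lit 135)))))))))) (cs (nd (nat_lit 164) (nat_lit 0) (cs (nd (nat_lit 163) (nat_lit 0) (cs (lf (nat_lit 21) (nat_lit 138)) (lf (nat_lit 3) (nat_lit 138)))) (cs (nd (nat_lit 141) (nat_lit 0) (cs (lf (nat_lit 5) (nat_lit 139)) (lf (nat_lit 4) (nat_lit 138)))) (cs (nd (nat_lit 141) (nat_lit 0) (cs (lf (nat_lit 5) (nat_lit 139))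 (rf (nat_lit 0)))) (nd (nat_lit 163) (nat_lit 0) (cs (lf (nat_lit 18) (nat_lit 139)) (lf (nat_lit 21) (nat_lit 138)))))))) (cs (nd (nat_lit 137) (nat_lit 0) (cs (rf (nat_lit 1)) (cs (rf (nat_lit 2)) (nd (nat_lit 95) (nat_lit 0) (cs (nd (nat_lit 117) (nat_lit 0) (cs (lf (nat_lit 24) (nat_lit 73)) (rf (nat_lit 3)))) (nd (nat_lit 115) (nat_lit 0) (cs (lf (nat_lit 23) (nat_lit 114)) (nd (nat_lit 159) (nat_lit 0) (cs (lf (nat_lit 11) (nat_lit 136)) (nd (nat_lit 160) (nat_lit 0) (cs (rf (nat_lit 4)) (lf (nat_lit 6) (nat_lit 137))))))))))))) (rf (nat_lit 5)))))) q36346 (by decide +kernel)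
def q36479 : Q := Q.p (nat_lit 0x10000040000040000700000000000000000000000000000000000) (nat_lit 0x80005b000100000ff000ffc001ff8001d0000740001400) (nat_lit 14)
theorem c36479 : QOK q36479 := cut [q34325, q36422, q33761, q36476] ⟨c34325, c36422, c33761, c36476, trivial⟩ (nd (nat_lit 119) (nat_lit 0) (cs (lf (nat_lit 44) (nat_lit 119)) (nd (nat_lit 97) (nat_lit 0) (cs (lf (nat_lit 36) (nat_lit 74)) (nd (nat_lit 98) (nat_lit 0) (cs (nd (nat_lit 76) (nat_lit 0) (cs (lf (nat_lit 30) (nat_lit 75)) (nd (nat_lit 54) (nat_lit 0) (cs (lf (nat_lit 36) (nat_lit 31)) (lf (nat_lit 39) (nat_lit 53)))))) (cs (nd (nat_lit 99) (nat_lit 0) (cs (nd (nat_lit 100) (nat_lit 0) (cs (lf (nat_lit 11) (nat_lit 96)) (nd (nat_lit 122) (nat_lit 0) (cs (lf (nat_lit 5) (nat_lit 97)) (nd (nat_lit 76) (nat_lit 0) (cs (lf (nat_lit 30) (nat_lit 75)) (nd (nat_lit 32) (nat_lit 0) (cs (lf (nat_lit 37) (nat_lit 31)) (nd (nat_lit 79) (nat_lit 0) (cs (nd (nat_lit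 101) (nat_lit 0) (cs (nd (nat_lit 144) (nat_lit 0) (cs (nd (nat_lit 77) (nat_lit 0) (cs (lf (nat_lit 18) (nat_lit 76)) (nd (nat_lit 55) (nat_lit 0) (cs (lf (nat_lit 24) (nat_lit 33)) (lf (nat_lit 27) (nat_lit 55)))))) (lf (nat_lit 30) (nat_lit 78)))) (lf (nat_lit 17) (nat_lit 76)))) (lf (nat_lit 16) (nat_lit 75)))))))))))) (cs (nd (nat_lit 163) (nat_lit 0) (cs (lf (nat_lit 35) (nat_lit 75)) (nd (nat_lit 96) (nat_lit 0) (cs (nd (nat_lit 161) (nat_lit 0) (cs (lf (nat_lit 12) (nat_lit 138)) (nd (nat_lit 118) (nat_lit 0) (cs (lf (nat_lit 41) (nat_lit 95)) (lf (nat_lit 11) (nat_lit 95)))))) (lf (nat_lit 47) (nat_lit 74)))))) (cs (nd (nat_lit 163) (nat_lit 0) (cs (lf (nat_lit 35) (nat_lit 75)) (nd (nat_lit 96) (nat_lit 0) (cs (lf (nat_lit 47) (nat_lit 74)) (nd (nat_lit 160) (nat_lit 0) (cs (lf (nat_lit 13) (nat_lit 138)) (nd (nat_lit 78) (nat_lit 0) (cs (nd (nat_lit 100) (nat_lit 0) (cs (lf (nat_lit 17) (nat_lit 75)) (rf (nat_lit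 0)))) (lf (nat_lit 16) (nat_lit 74)))))))))) (rf (nat_lit 1)))))) (cs (nd (nat_lit 96) (nat_lit 0) (cs (nd (nat_lit 74) (nat_lit 0) (cs (lf (nat_lit 42) (nat_lit 74)) (nd (nat_lit 52) (nat_lit 0) (cs (lf (nat_lit 27) (nat_lit 52)) (lf (nat_lit 24) (nat_lit 30)))))) (cs (nd (nat_lit 74) (nat_lit 0) (cs (lf (nat_lit 42) (nat_lit 74)) (nd (nat_lit 30) (nat_lit 0) (cs (nd (nat_lit 73) (nat_lit 0) (cs (lf (nat_lit 18) (nat_lit 73)) (nd (nat_lit 72) (nat_lit 0) (cs (lf (nat_lit 0) (nat_lit 71)) (lf (nat_lit 21) (nat_lit 72)))))) (lf (nat_lit 25) (nat_lit 30)))))) (nd (nat_lit 95) (nat_lit 0) (cs (rf (nat_lit 2)) (nd (nat_lit 120) (nat_lit 0) (cs (lf (nat_lit 0) (nat_lit 94)) (lf (nat_lit 5) (nat_lit 95))))))))) (rf (nat_lit 3)))))))))) q36479 (by decide +kernel)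
def q36612 : Q := Q.p (nat_lit 0x10000040000160000400000000000000000000000000000000000) (nat_lit 0x700003e0000f80009e00001c0001f00007c0001c00000000000000000000000) (nat_lit 12)
theorem c36612 : QOK q36612 := cut [q36561, q36563, q36506, q36585, q36593, q12369, q36607, q36610] ⟨c36561, c36563, c36506, c36585, c36593, c12369, c36607, c36610, trivial⟩ (nd (nat_lit 205) (nat_lit 0) (cs (rf (nat_lit 0)) (cs (nd (nat_lit 207) (nat_lit 0) (cs (lf (nat_lit 41) (nat_lit 141)) (nd (nat_lit 206) (nat_lit 0) (cs (lf (nat_lit 17) (nat_lit 183)) (nd (nat_lit 226) (nat_lit 0) (cs (lf (nat_lit 10) (nat_lit 204)) (nd (nat_lit 204) (nat_lit 0) (cs (lf (nat_lit 11) (nat_lit 203)) (nd (nat_lit 182) (nat_lit 0) (cs (lf (nat_lit 23) (nat_lit 181)) (rf (nat_lit 1)))))))))))) (cs (nd (nat_lit 207) (nat_lit 0) (cs (lf (nat_lit 41) (nat_lit 141)) (nd (nat_lit 206) (nat_lit 0) (cs (lf (nat_lit 17) (nat_lit 183)) (nd (nat_lit 182) (nat_lit 0) (cs (lf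 (nat_lit 22) (nat_lit 182)) (nd (nat_lit 204) (nat_lit 0) (cs (lf (nat_lit 23) (nat_lit 181)) (nd (nat_lit 226) (nat_lit 0) (cs (lf (nat_lit 11) (nat_lit 203)) (rf (nat_lit 1)))))))))))) (cs (nd (nat_lit 183) (nat_lit 0) (cs (rf (nat_lit 2)) (cs (rf (nat_lit 3)) (rf (nat_lit 4))))) (cs (nd (nat_lit 207) (nat_lit 0) (cs (lf (nat_lit 41) (nat_lit 141)) (nd (nat_lit 206) (nat_lit 0) (cs (lf (nat_lit 17) (nat_lit 183)) (nd (nat_lit 226) (nat_lit 0) (cs (lf (nat_lit 10) (nat_lit 204)) (nd (nat_lit 204) (nat_lit 0) (cs (lf (nat_lit 11) (nat_lit 203)) (nd (nat_lit 139) (nat_lit 0) (cs (rf (nat_lit 5)) (lf (nat_lit 38) (nat_lit 138)))))))))))) (cs (nd (nat_lit 207) (nat_lit 0) (cs (lf (nat_lit 41) (nat_lit 141)) (nd (nat_lit 206) (nat_lit 0) (cs (lf (nat_lit 17) (nat_lit 183)) (nd (nat_lit 183) (nat_lit 0) (cs (lf (nat_lit 23) (nat_lit 182)) (rf (nat_lit 2)))))))) (nd (nat_lit 183) (nat_lit 0) (cs (rf (nat_lit 2)) (cs (rf (nat_lit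 6)) (rf (nat_lit 7)))))))))))) q36612 (by decide +kernel)
def q36668 : Q := Q.p (nat_lit 0x10000040000160000400000000000000000000000000000000000) (nat_lit 0x3c0000f00009a00009e0001f0000fc0003f0000780001c000000000000) (nat_lit 12)
theorem c36668 : QOK q36668 := cut [q36515, q36614, q36621, q36626, q36634, q35073, q24098] ⟨c36515, c36614, c36621, c36626, c36634, c35073, c24098, trivial⟩ (nd (nat_lit 139) (nat_lit 0) (cs (rf (nat_lit 0)) (cs (nd (nat_lit 117) (nat_lit 0) (cs (rf (nat_lit 1)) (cs (rf (nat_lit 2)) (cs (nd (nat_lit 207) (nat_lit 0) (cs (lf (nat_lit 41) (nat_lit 141)) (rf (nat_lit 3)))) (rf (nat_lit 4)))))) (nd (nat_lit 138) (nat_lit 0) (cs (lf (nat_lit 19) (nat_lit 138)) (nd (nat_lit 137) (nat_lit 0) (cs (lf (nat_lit 0) (nat_lit 136)) (nd (nat_lit 116) (nat_lit 0) (cs (rf (nat_lit 5)) (cs (nd (nat_lit 117) (nat_lit 0) (cs (rf (nat_lit 1)) (cs (nd (nat_lit 207) (nat_lit 0) (cs (lf (nat_lit 41) (nat_lit 141)) (nd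 (nat_lit 118) (nat_lit 0) (cs (lf (nat_lit 6) (nat_lit 115)) (nd (nat_lit 183) (nat_lit 0) (cs (lf (nat_lit 35) (nat_lit 95)) (lf (nat_lit 42) (nat_lit 116)))))))) (nd (nat_lit 118) (nat_lit 0) (cs (lf (nat_lit 6) (nat_lit 115)) (nd (nat_lit 95) (nat_lit 0) (cs (lf (nat_lit 29) (nat_lit 95)) (nd (nat_lit 73) (nat_lit 0) (cs (lf (nat_lit 28) (nat_lit 73)) (lf (nat_lit 36) (nat_lit 50))))))))))) (cs (nd (nat_lit 95) (nat_lit 0) (cs (nd (nat_lit 207) (nat_lit 0) (cs (lf (nat_lit 41) (nat_lit 141)) (nd (nat_lit 117) (nat_lit 0) (cs (lf (nat_lit 29) (nat_lit 95)) (nd (nat_lit 73) (nat_lit 0) (cs (lf (nat_lit 36) (nat_lit 50)) (lf (nat_lit 41) (nat_lit 72)))))))) (cs (nd (nat_lit 207) (nat_lit 0) (cs (lf (nat_lit 41) (nat_lit 141)) (nd (nat_lit 94) (nat_lit 0) (cs (lf (nat_lit 24) (nat_lit 72)) (nd (nat_lit 160) (nat_lit 0) (cs (lf (nat_lit 35) (nat_lit 72)) (nd (nat_lit 71) (nat_lit 0) (cs (lf (nat_lit 46) (nat_lit 71)) (nd (nat_lit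 159) (nat_lit 0) (cs (lf (nat_lit 41) (nat_lit 93)) (nd (nat_lit 158) (nat_lit 0) (cs (lf (nat_lit 17) (nat_lit 136)) (lf (nat_lit 12) (nat_lit 135)))))))))))))) (nd (nat_lit 72) (nat_lit 0) (cs (lf (nat_lit 25) (nat_lit 72)) (nd (nat_lit 117) (nat_lit 0) (cs (lf (nat_lit 29) (nat_lit 95)) (nd (nat_lit 118) (nat_lit 0) (cs (lf (nat_lit 6) (nat_lit 115)) (nd (nat_lit 96) (nat_lit 0) (cs (lf (nat_lit 35) (nat_lit 73)) (nd (nat_lit 115) (nat_lit 0) (cs (lf (nat_lit 12) (nat_lit 92)) (lf (nat_lit 17) (nat_lit 93))))))))))))))) (nd (nat_lit 207) (nat_lit 0) (cs (lf (nat_lit 41) (nat_lit 141)) (nd (nat_lit 183) (nat_lit 0) (cs (rf (nat_lit 6)) (lf (nat_lit 42) (nat_lit 116))))))))))))))))) q36668 (by decide +kernel)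
def q36702 : Q := Q.p (nat_lit 0x10000040000160000400000000000000000000000000000000000) (nat_lit 0x700003c0000f80001f00029c0001f0001fc0003f00007000014000000000000) (nat_lit 12)
theorem c36702 : QOK q36702 := cut [q36634, q36670, q36677, q36679, q36683, q36689, q36694, q36506, q36585, q36593, q32324, q8700] ⟨c36634, c36670, c36677, c36679, c36683, c36689, c36694, c36506, c36585, c36593, c32324, c8700, trivial⟩ (nd (nat_lit 183) (nat_lit 0) (cs (nd (nat_lit 139) (nat_lit 0) (cs (nd (nat_lit 117) (nat_lit 0) (cs (rf (nat_lit 0)) (cs (nd (nat_lit 207) (nat_lit 0) (cs (lf (nat_lit 41) (nat_lit 141)) (nd (nat_lit 184) (nat_lit 0) (cs (lf (nat_lit 29) (nat_lit 117)) (nd (nat_lit 163) (nat_lit 0) (cs (lf (nat_lit 6) (nat_lit 161)) (nd (nat_lit 94) (nat_lit 0) (cs (lf (nat_lit 46) (nat_lit 94)) (nd (nat_lit 118) (nat_lit 0) (cs (lf (nat_lit 35) (nat_lit 95)) (nd (nat_lit 205) (nat_lit 0) (cs (lf (nat_lit 37) (nat_lit 117)) (rf (nat_lit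 1)))))))))))))) (rf (nat_lit 2))))) (cs (nd (nat_lit 207) (nat_lit 0) (cs (lf (nat_lit 41) (nat_lit 141)) (nd (nat_lit 163) (nat_lit 0) (cs (lf (nat_lit 23) (nat_lit 138)) (rf (nat_lit 3)))))) (cs (rf (nat_lit 4)) (nd (nat_lit 117) (nat_lit 0) (cs (rf (nat_lit 0)) (cs (rf (nat_lit 2)) (nd (nat_lit 207) (nat_lit 0) (cs (lf (nat_lit 41) (nat_lit 141)) (rf (nat_lit 5))))))))))) (cs (nd (nat_lit 207) (nat_lit 0) (cs (lf (nat_lit 41) (nat_lit 141)) (nd (nat_lit 182) (nat_lit 0) (cs (lf (nat_lit 7) (nat_lit 160)) (nd (nat_lit 206) (nat_lit 0) (cs (lf (nat_lit 21) (nat_lit 182)) (rf (nat_lit 6)))))))) (cs (nd (nat_lit 205) (nat_lit 0) (cs (rf (nat_lit 7)) (cs (rf (nat_lit 8)) (rf (nat_lit 9))))) (cs (nd (nat_lit 163) (nat_lit 0) (cs (lf (nat_lit 11) (nat_lit 160)) (rf (nat_lit 10)))) (nd (nat_lit 207) (nat_lit 0) (cs (lf (nat_lit 41) (nat_lit 141)) (nd (nat_lit 163) (nat_lit 0) (cs (lf (nat_lit 11) (nat_lit 160)) (rf (nat_lit 11)))))))))))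 q36702 (by decide +kernel)
def q36791 : Q := Q.p (nat_lit 0x10000040000140000400000000000000000000000000000000000) (nat_lit 0x500001c0000700003c0000f00009e0000bc0009f0003fc000bc00007000014000000000000) (nat_lit 15)
theorem c36791 : QOK q36791 := cut [q32857, q36712, q36515, q36537, q36621, q36749, q36550, q36756, q36614, q36758, q36626, q32856, q36523, q36787] ⟨c32857, c36712, c36515, c36537, c36621, c36749, c36550, c36756, c36614, c36758, c36626, c32856, c36523, c36787, trivial⟩ (nd (nat_lit 121) (nat_lit 0) (cs (lf (nat_lit 34) (nat_lit 120)) (nd (nat_lit 120) (nat_lit 0) (cs (lf (nat_lit 35) (nat_lit 98)) (nd (nat_lit 119) (nat_lit 0) (cs (lf (nat_lit 47) (nat_lit 97)) (nd (nat_lit 139) (nat_lit 0) (cs (nd (nat_lit 118) (nat_lit 0) (cs (lf (nat_lit 10) (nat_lit 117)) (rf (nat_lit 0)))) (cs (nd (nat_lit 207) (nat_lit 0) (cs (lf (nat_lit 41) (nat_lit 141)) (nd (nat_lit 118) (nat_lit 0) (cs (lf (nat_lit 10) (nat_lit 117))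 (nd (nat_lit 95) (nat_lit 0) (cs (lf (nat_lit 22) (nat_lit 95)) (nd (nat_lit 117) (nat_lit 0) (cs (lf (nat_lit 23) (nat_lit 94)) (rf (nat_lit 1)))))))))) (cs (nd (nat_lit 161) (nat_lit 0) (cs (rf (nat_lit 2)) (cs (nd (nat_lit 117) (nat_lit 0) (cs (rf (nat_lit 3)) (cs (rf (nat_lit 4)) (nd (nat_lit 207) (nat_lit 0) (cs (lf (nat_lit 41) (nat_lit 141)) (rf (nat_lit 5))))))) (cs (nd (nat_lit 117) (nat_lit 0) (cs (rf (nat_lit 6)) (cs (rf (nat_lit 4)) (rf (nat_lit 7))))) (nd (nat_lit 117) (nat_lit 0) (cs (rf (nat_lit 8)) (cs (rf (nat_lit 7)) (nd (nat_lit 207) (nat_lit 0) (cs (lf (nat_lit 41) (nat_lit 141)) (nd (nat_lit 163) (nat_lit 0) (cs (lf (nat_lit 23) (nat_lit 138)) (nd (nat_lit 183) (nat_lit 0) (cs (lf (nat_lit 11) (nat_lit 160)) (nd (nat_lit 206) (nat_lit 0) (cs (lf (nat_lit 28) (nat_lit 117)) (nd (nat_lit 94) (nat_lit 0) (cs (lf (nat_lit 46) (nat_lit 94)) (rf (nat_lit 9))))))))))))))))))) (cs (nd (nat_lit 161) (nat_lit 0)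 (cs (rf (nat_lit 2)) (cs (nd (nat_lit 117) (nat_lit 0) (cs (rf (nat_lit 10)) (cs (rf (nat_lit 5)) (nd (nat_lit 207) (nat_lit 0) (cs (lf (nat_lit 41) (nat_lit 141)) (nd (nat_lit 163) (nat_lit 0) (cs (lf (nat_lit 5) (nat_lit 161)) (nd (nat_lit 183) (nat_lit 0) (cs (lf (nat_lit 11) (nat_lit 160)) (nd (nat_lit 96) (nat_lit 0) (cs (lf (nat_lit 34) (nat_lit 95)) (nd (nat_lit 94) (nat_lit 0) (cs (lf (nat_lit 46) (nat_lit 94)) (nd (nat_lit 206) (nat_lit 0) (cs (lf (nat_lit 28) (nat_lit 117)) (rf (nat_lit 9))))))))))))))))) (nd (nat_lit 117) (nat_lit 0) (cs (rf (nat_lit 6)) (cs (nd (nat_lit 207) (nat_lit 0) (cs (lf (nat_lit 41) (nat_lit 141)) (nd (nat_lit 118) (nat_lit 0) (cs (lf (nat_lit 11) (nat_lit 116)) (nd (nat_lit 183) (nat_lit 0) (cs (lf (nat_lit 35) (nat_lit 95)) (nd (nat_lit 94) (nat_lit 0) (cs (lf (nat_lit 46) (nat_lit 94)) (nd (nat_lit 182) (nat_lit 0) (cs (lf (nat_lit 41) (nat_lit 116)) (nd (nat_lit 206) (nat_lit 0) (cs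 (lf (nat_lit 21) (nat_lit 182)) (lf (nat_lit 28) (nat_lit 117)))))))))))))) (cs (nd (nat_lit 118) (nat_lit 0) (cs (lf (nat_lit 11) (nat_lit 116)) (rf (nat_lit 11)))) (nd (nat_lit 95) (nat_lit 0) (cs (lf (nat_lit 29) (nat_lit 95)) (rf (nat_lit 12))))))))))) (cs (nd (nat_lit 207) (nat_lit 0) (cs (lf (nat_lit 41) (nat_lit 141)) (nd (nat_lit 118) (nat_lit 0) (cs (lf (nat_lit 10) (nat_lit 117)) (nd (nat_lit 117) (nat_lit 0) (cs (lf (nat_lit 11) (nat_lit 116)) (nd (nat_lit 95) (nat_lit 0) (cs (lf (nat_lit 23) (nat_lit 94)) (rf (nat_lit 1)))))))))) (rf (nat_lit 13)))))))))))))) q36791 (by decide +kernel)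
def q36818 : Q := Q.p (nat_lit 0x10000040000000001c00000000000000000000000000000000000) (nat_lit 0x2000088000380003f8000600003d80001e0000780000a0000000000000) (nat_lit 12)
theorem c36818 : QOK q36818 := cut [q4912, q36813] ⟨c4912, c36813, trivial⟩ (nd (nat_lit 145) (nat_lit 0) (cs (nd (nat_lit 124) (nat_lit 0) (cs (lf (nat_lit 16) (nat_lit 120)) (nd (nat_lit 164) (nat_lit 0) (cs (lf (nat_lit 11) (nat_lit 141)) (nd (nat_lit 146) (nat_lit 0) (cs (lf (nat_lit 17) (nat_lit 121)) (lf (nat_lit 10) (nat_lit 142)))))))) (cs (nd (nat_lit 189) (nat_lit 0) (cs (nd (nat_lit 167) (nat_lit 0) (cs (lf (nat_lit 5) (nat_lit 142)) (nd (nat_lit 122) (nat_lit 0) (cs (lf (nat_lit 42) (nat_lit 122)) (nd (nat_lit 100) (nat_lit 0) (cs (lf (nat_lit 24) (nat_lit 78)) (lf (nat_lit 27) (nat_lit 100)))))))) (nd (nat_lit 120) (nat_lit 0) (cs (lf (nat_lit 23) (nat_lit 119)) (nd (nat_lit 123) (nat_lit 0) (cs (lf (nat_lit 17) (nat_lit 120)) (nd (nat_lit 164)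 (nat_lit 0) (cs (lf (nat_lit 11) (nat_lit 141)) (nd (nat_lit 207) (nat_lit 0) (cs (lf (nat_lit 41) (nat_lit 141)) (nd (nat_lit 187) (nat_lit 0) (cs (rf (nat_lit 0)) (lf (nat_lit 7) (nat_lit 185)))))))))))))) (cs (rf (nat_lit 1)) (nd (nat_lit 119) (nat_lit 0) (cs (lf (nat_lit 22) (nat_lit 119)) (nd (nat_lit 168) (nat_lit 0) (cs (lf (nat_lit 4) (nat_lit 142)) (nd (nat_lit 146) (nat_lit 0) (cs (lf (nat_lit 5) (nat_lit 143)) (nd (nat_lit 164) (nat_lit 0) (cs (lf (nat_lit 11) (nat_lit 141)) (lf (nat_lit 10) (nat_lit 142)))))))))))))) q36818 (by decide +kernel)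
def q37019 : Q := Q.p (nat_lit 0x10000040000040000400000000000000000000000000000000000) (nat_lit 0x200002c0000e00039c001fb0003b8001e70001f80007e000168000000000000) (nat_lit 11)
theorem c37019 : QOK q37019 := cut [q35660, q36901, q37006, q35640, q35645, q35647, q36904, q34421, q34425, q33512, q34408, q36010, q36025, q36068, q36014, q37017] ⟨c35660, c36901, c37006, c35640, c35645, c35647, c36904, c34421, c34425, c33512, c34408, c36010, c36025, c36068, c36014, c37017, trivial⟩ (nd (nat_lit 143) (nat_lit 0) (cs (rf (nat_lit 0)) (cs (rf (nat_lit 1)) (cs (rf (nat_lit 2)) (cs (nd (nat_lit 141) (nat_lit 0) (cs (rf (nat_lit 3)) (cs (rf (nat_lit 4)) (cs (rf (nat_lit 5)) (rf (nat_lit 6)))))) (cs (nd (nat_lit 140) (nat_lit 0) (cs (rf (nat_lit 7)) (cs (rf (nat_lit 8)) (cs (nd (nat_lit 121) (nat_lit 0) (cs (lf (nat_lit 32) (nat_lit 120)) (nd (nat_lit 141) (nat_lit 0) (cs (lf (nat_lit 17) (nat_lit 118)) (rf (nat_lit 9)))))) (cs (nd (nat_lit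 141) (nat_lit 0) (cs (lf (nat_lit 11) (nat_lit 139)) (rf (nat_lit 10)))) (nd (nat_lit 164) (nat_lit 0) (cs (lf (nat_lit 35) (nat_lit 120)) (nd (nat_lit 205) (nat_lit 0) (cs (rf (nat_lit 11)) (cs (rf (nat_lit 12)) (cs (rf (nat_lit 13)) (nd (nat_lit 207) (nat_lit 0) (cs (lf (nat_lit 41) (nat_lit 141)) (nd (nat_lit 161) (nat_lit 0) (cs (lf (nat_lit 14) (nat_lit 139)) (rf (nat_lit 14))))))))))))))))) (nd (nat_lit 164) (nat_lit 0) (cs (lf (nat_lit 35) (nat_lit 120)) (rf (nat_lit 15)))))))))) q37019 (by decide +kernel)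
def q37066 : Q := Q.p (nat_lit 0x10000040000000000600000000000000000000000000000000000) (nat_lit 0x140000580003f0000f80001ff000fc0000f0000000000000000000) (nat_lit 13)
theorem c37066 : QOK q37066 := cut [q5702, q9080, q36903, q9036, q9099, q16668] ⟨c5702, c9080, c36903, c9036, c9099, c16668, trivial⟩ (nd (nat_lit 143) (nat_lit 0) (cs (rf (nat_lit 0)) (cs (rf (nat_lit 1)) (cs (nd (nat_lit 144) (nat_lit 0) (cs (rf (nat_lit 2)) (cs (nd (nat_lit 166) (nat_lit 0) (cs (lf (nat_lit 5) (nat_lit 141)) (nd (nat_lit 121) (nat_lit 0) (cs (lf (nat_lit 32) (nat_lit 120)) (nd (nat_lit 165) (nat_lit 0) (cs (lf (nat_lit 39) (nat_lit 120)) (nd (nat_lit 188) (nat_lit 0) (cs (lf (nat_lit 42) (nat_lit 121)) (lf (nat_lit 24) (nat_lit 99)))))))))) (cs (nd (nat_lit 123) (nat_lit 0) (cs (lf (nat_lit 16) (nat_lit 119)) (nd (nat_lit 121) (nat_lit 0) (cs (lf (nat_lit 32) (nat_lit 120)) (nd (nat_lit 145) (nat_lit 0) (cs (lf (nat_lit 17) (nat_lit 120))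 (nd (nat_lit 165) (nat_lit 0) (cs (lf (nat_lit 39) (nat_lit 120)) (nd (nat_lit 146) (nat_lit 0) (cs (rf (nat_lit 3)) (lf (nat_lit 23) (nat_lit 120)))))))))))) (nd (nat_lit 123) (nat_lit 0) (cs (lf (nat_lit 16) (nat_lit 119)) (nd (nat_lit 145) (nat_lit 0) (cs (lf (nat_lit 17) (nat_lit 120)) (nd (nat_lit 121) (nat_lit 0) (cs (lf (nat_lit 32) (nat_lit 120)) (nd (nat_lit 165) (nat_lit 0) (cs (lf (nat_lit 39) (nat_lit 120)) (nd (nat_lit 146) (nat_lit 0) (cs (lf (nat_lit 23) (nat_lit 120)) (nd (nat_lit 168) (nat_lit 0) (cs (lf (nat_lit 5) (nat_lit 143)) (nd (nat_lit 190) (nat_lit 0) (cs (lf (nat_lit 42) (nat_lit 123)) (nd (nat_lit 79) (nat_lit 0) (cs (nd (nat_lit 166) (nat_lit 0) (cs (lf (nat_lit 6) (nat_lit 143)) (nd (nat_lit 99) (nat_lit 0) (cs (lf (nat_lit 24) (nat_lit 77)) (lf (nat_lit 29) (nat_lit 99)))))) (lf (nat_lit 25) (nat_lit 79)))))))))))))))))))))) (nd (nat_lit 144) (nat_lit 0) (cs (rf (nat_lit 4)) (cs (rf (nat_lit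 5)) (cs (rf (nat_lit 2)) (nd (nat_lit 166) (nat_lit 0) (cs (lf (nat_lit 5) (nat_lit 141)) (nd (nat_lit 99) (nat_lit 0) (cs (nd (nat_lit 122) (nat_lit 0) (cs (lf (nat_lit 17) (nat_lit 119)) (nd (nat_lit 121) (nat_lit 0) (cs (lf (nat_lit 24) (nat_lit 77)) (lf (nat_lit 42) (nat_lit 99)))))) (cs (nd (nat_lit 118) (nat_lit 0) (cs (lf (nat_lit 22) (nat_lit 118)) (nd (nat_lit 122) (nat_lit 0) (cs (lf (nat_lit 17) (nat_lit 119)) (nd (nat_lit 100) (nat_lit 0) (cs (lf (nat_lit 47) (nat_lit 77)) (nd (nat_lit 165) (nat_lit 0) (cs (lf (nat_lit 36) (nat_lit 77)) (lf (nat_lit 41) (nat_lit 99)))))))))) (cs (nd (nat_lit 118) (nat_lit 0) (cs (lf (nat_lit 22) (nat_lit 118)) (nd (nat_lit 121) (nat_lit 0) (cs (lf (nat_lit 24) (nat_lit 77)) (nd (nat_lit 188) (nat_lit 0) (cs (lf (nat_lit 42) (nat_lit 121)) (lf (nat_lit 27) (nat_lit 99)))))))) (nd (nat_lit 118) (nat_lit 0) (cs (lf (nat_lit 22) (nat_lit 118)) (nd (nat_lit 122) (nat_lit 0) (cs (lf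 (nat_lit 17) (nat_lit 119)) (nd (nat_lit 121) (nat_lit 0) (cs (lf (nat_lit 42) (nat_lit 99)) (nd (nat_lit 165) (nat_lit 0) (cs (lf (nat_lit 39) (nat_lit 120)) (nd (nat_lit 76) (nat_lit 0) (cs (lf (nat_lit 46) (nat_lit 76)) (nd (nat_lit 100) (nat_lit 0) (cs (lf (nat_lit 35) (nat_lit 77)) (nd (nat_lit 101) (nat_lit 0) (cs (lf (nat_lit 35) (nat_lit 78)) (nd (nat_lit 102) (nat_lit 0) (cs (lf (nat_lit 6) (nat_lit 99)) (lf (nat_lit 11) (nat_lit 98)))))))))))))))))))))))))))))))) q37066 (by decide +kernel)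
def q37067 : Q := Q.p (nat_lit 0x10000040000040000700000000000000000000000000000000000) (nat_lit 0x380000f00009c00033e0000f00037c0000c00003000000000000000000) (nat_lit 13)
theorem c37067 : QOK q37067 := cut [q6479, q35890, q36212, q36495] ⟨c6479, c35890, c36212, c36495, trivial⟩ (nd (nat_lit 139) (nat_lit 0) (cs (rf (nat_lit 0)) (cs (rf (nat_lit 1)) (cs (rf (nat_lit 2)) (rf (nat_lit 3)))))) q37067 (by decide +kernel)
def q37094 : Q := Q.p (nat_lit 0x160000080000000000000000000000000000000000) (nat_lit 0x400001c000280000040000200000800000000000000000000000) (nat_lit 5)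
theorem c37094 : QOK q37094 := cut [q37093] ⟨c37093, trivial⟩ (nd (nat_lit 163) (nat_lit 0) (cs (lf (nat_lit 23) (nat_lit 138)) (rf (nat_lit 0)))) q37094 (by decide +kernel)
def q37110 : Q := Q.p (nat_lit 0x1e0000000000000000000000000000000000000000) (nat_lit 0x400001c0002000000c0000200000800000000000000000000000) (nat_lit 5)
theorem c37110 : QOK q37110 := cut [q37093] ⟨c37093, trivial⟩ (nd (nat_lit 139) (nat_lit 0) (cs (lf (nat_lit 23) (nat_lit 138)) (rf (nat_lit 0)))) q37110 (by decide +kernel)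
def q37286 : Q := Q.p (nat_lit 0x2000008000020000000000000000000000000000000000000000) (nat_lit 0x100000700003c00001c000040000100000c0000100000000000000000000000000000) (nat_lit 6)
theorem c37286 : QOK q37286 := cut [q5260, q37281, q37285] ⟨c5260, c37281, c37285, trivial⟩ (nd (nat_lit 227) (nat_lit 0) (cs (rf (nat_lit 0)) (cs (rf (nat_lit 1)) (rf (nat_lit 2))))) q37286 (by decide +kernel)
def q37339 : Q := Q.p (nat_lit 0x12000008000060000000000000000000000000000000000000000) (nat_lit 0x40000380000f0000d80000780001e0000fc0007c0001f00005c00000000000000000) (nat_lit 11)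
theorem c37339 : QOK q37339 := cut [q37287, q37288, q34075, q35292, q37301, q37302, q26795, q37237, q37325, q23983, q17989] ⟨c37287, c37288, c34075, c35292, c37301, c37302, c26795, c37237, c37325, c23983, c17989, trivial⟩ (nd (nat_lit 160) (nat_lit 0) (cs (rf (nat_lit 0)) (cs (nd (nat_lit 138) (nat_lit 0) (cs (lf (nat_lit 42) (nat_lit 138)) (rf (nat_lit 1)))) (cs (nd (nat_lit 159) (nat_lit 0) (cs (rf (nat_lit 2)) (cs (rf (nat_lit 3)) (cs (nd (nat_lit 136) (nat_lit 0) (cs (lf (nat_lit 22) (nat_lit 136)) (nd (nat_lit 158) (nat_lit 0) (cs (lf (nat_lit 23) (nat_lit 135)) (nd (nat_lit 182) (nat_lit 0) (cs (lf (nat_lit 0) (nat_lit 157)) (nd (nat_lit 206) (nat_lit 0) (cs (lf (nat_lit 19) (nat_lit 182)) (nd (nat_lit 227) (nat_lit 0) (cs (lf (nat_lit 42) (nat_lit 160)) (nd (nat_lit 226) (nat_lit 0) (cs (lf (nat_lit 41) (nat_lit 160)) (nd (nat_lit 225) (nat_lit 0) (cs (lf (nat_lit 12) (nat_lit 202)) (nd (nat_lit 204) (nat_lit 0) (cs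 (lf (nat_lit 36) (nat_lit 138)) (lf (nat_lit 41) (nat_lit 159)))))))))))))))))) (cs (nd (nat_lit 181) (nat_lit 0) (cs (lf (nat_lit 11) (nat_lit 158)) (nd (nat_lit 204) (nat_lit 0) (cs (rf (nat_lit 4)) (cs (nd (nat_lit 137) (nat_lit 0) (cs (lf (nat_lit 23) (nat_lit 136)) (rf (nat_lit 5)))) (nd (nat_lit 136) (nat_lit 0) (cs (lf (nat_lit 22) (nat_lit 136)) (nd (nat_lit 226) (nat_lit 0) (cs (lf (nat_lit 36) (nat_lit 138)) (nd (nat_lit 248) (nat_lit 0) (cs (lf (nat_lit 30) (nat_lit 182)) (lf (nat_lit 39) (nat_lit 160))))))))))))) (nd (nat_lit 180) (nat_lit 0) (cs (lf (nat_lit 10) (nat_lit 158)) (nd (nat_lit 158) (nat_lit 0) (cs (lf (nat_lit 11) (nat_lit 157)) (nd (nat_lit 182) (nat_lit 0) (cs (lf (nat_lit 0) (nat_lit 157)) (nd (nat_lit 206) (nat_lit 0) (cs (lf (nat_lit 19) (nat_lit 182)) (nd (nat_lit 227) (nat_lit 0) (cs (lf (nat_lit 42) (nat_lit 160)) (nd (nat_lit 226) (nat_lit 0) (cs (lf (nat_lit 41) (nat_lit 160)) (nd (nat_lit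 204) (nat_lit 0) (cs (lf (nat_lit 47) (nat_lit 137)) (lf (nat_lit 35) (nat_lit 138))))))))))))))))))))) (cs (nd (nat_lit 227) (nat_lit 0) (cs (lf (nat_lit 47) (nat_lit 138)) (nd (nat_lit 182) (nat_lit 0) (cs (lf (nat_lit 42) (nat_lit 160)) (nd (nat_lit 226) (nat_lit 0) (cs (lf (nat_lit 41) (nat_lit 160)) (nd (nat_lit 206) (nat_lit 0) (cs (lf (nat_lit 7) (nat_lit 204)) (nd (nat_lit 224) (nat_lit 0) (cs (lf (nat_lit 13) (nat_lit 202)) (nd (nat_lit 204) (nat_lit 0) (cs (lf (nat_lit 35) (nat_lit 138)) (nd (nat_lit 180) (nat_lit 0) (cs (lf (nat_lit 1) (nat_lit 180)) (rf (nat_lit 6)))))))))))))))) (nd (nat_lit 138) (nat_lit 0) (cs (rf (nat_lit 7)) (cs (rf (nat_lit 1)) (nd (nat_lit 159) (nat_lit 0) (cs (rf (nat_lit 2)) (cs (nd (nat_lit 136) (nat_lit 0) (cs (lf (nat_lit 22) (nat_lit 136)) (nd (nat_lit 158) (nat_lit 0) (cs (lf (nat_lit 23) (nat_lit 135)) (rf (nat_lit 8)))))) (cs (nd (nat_lit 137) (nat_lit 0) (cs (rf (nat_lit 9)) (nd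 (nat_lit 181) (nat_lit 0) (cs (lf (nat_lit 11) (nat_lit 158)) (nd (nat_lit 203) (nat_lit 0) (cs (lf (nat_lit 30) (nat_lit 137)) (nd (nat_lit 204) (nat_lit 0) (cs (lf (nat_lit 29) (nat_lit 137)) (nd (nat_lit 115) (nat_lit 0) (cs (nd (nat_lit 93) (nat_lit 0) (cs (rf (nat_lit 10)) (lf (nat_lit 24) (nat_lit 71)))) (lf (nat_lit 43) (nat_lit 115)))))))))))) (nd (nat_lit 180) (nat_lit 0) (cs (lf (nat_lit 10) (nat_lit 158)) (nd (nat_lit 158) (nat_lit 0) (cs (lf (nat_lit 11) (nat_lit 157)) (rf (nat_lit 8)))))))))))))))))) q37339 (by decide +kernel)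
def q37448 : Q := Q.p (nat_lit 0x18000060000080000000000000000000000000000000000) (nat_lit 0x600001e0000700001c000070000380000e00000000000000000000000) (nat_lit 7)
theorem c37448 : QOK q37448 := cut [q37423, q37428, q37440, q36094, q37419, q36586, q37119] ⟨c37423, c37428, c37440, c36094, c37419, c36586, c37119, trivial⟩ (nd (nat_lit 182) (nat_lit 0) (cs (nd (nat_lit 117) (nat_lit 0) (cs (lf (nat_lit 24) (nat_lit 95)) (lf (nat_lit 41) (nat_lit 116)))) (cs (nd (nat_lit 160) (nat_lit 0) (cs (nd (nat_lit 159) (nat_lit 0) (cs (lf (nat_lit 0) (nat_lit 158)) (nd (nat_lit 204) (nat_lit 0) (cs (lf (nat_lit 30) (nat_lit 138)) (nd (nat_lit 137) (nat_lit 0) (cs (lf (nat_lit 23) (nat_lit 136)) (rf (nat_lit 0)))))))) (cs (nd (nat_lit 181) (nat_lit 0) (cs (lf (nat_lit 12) (nat_lit 158)) (nd (nat_lit 204) (nat_lit 0) (cs (lf (nat_lit 30) (nat_lit 138)) (nd (nat_lit 203) (nat_lit 0) (cs (lf (nat_lit 11) (nat_lit 180)) (rf (nat_lit 1))))))))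 (cs (rf (nat_lit 2)) (nd (nat_lit 159) (nat_lit 0) (cs (lf (nat_lit 0) (nat_lit 158)) (nd (nat_lit 204) (nat_lit 0) (cs (lf (nat_lit 30) (nat_lit 138)) (nd (nat_lit 137) (nat_lit 0) (cs (lf (nat_lit 23) (nat_lit 136)) (nd (nat_lit 181) (nat_lit 0) (cs (lf (nat_lit 24) (nat_lit 115)) (lf (nat_lit 12) (nat_lit 158)))))))))))))) (nd (nat_lit 181) (nat_lit 0) (cs (rf (nat_lit 3)) (cs (rf (nat_lit 4)) (nd (nat_lit 116) (nat_lit 0) (cs (rf (nat_lit 5)) (rf (nat_lit 6)))))))))) q37448 (by decide +kernel)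
def q37474 : Q := Q.p (nat_lit 0x78000060000000000000000000000000000000000000000) (nat_lit 0x6000018000070000000000000000c0000300000c00000000000000000000000) (nat_lit 7)
theorem c37474 : QOK q37474 := cut [q37473] ⟨c37473, trivial⟩ (nd (nat_lit 205) (nat_lit 0) (cs (lf (nat_lit 11) (nat_lit 182)) (rf (nat_lit 0)))) q37474 (by decide +kernel)
def q37479 : Q := Q.p (nat_lit 0x58000060000000000000000000000000000000000000000) (nat_lit 0x6000018000070000200003100000c0000300000c00000000000000000000000) (nat_lit 9)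
theorem c37479 : QOK q37479 := cut [q37473] ⟨c37473, trivial⟩ (nd (nat_lit 185) (nat_lit 0) (cs (lf (nat_lit 23) (nat_lit 160)) (nd (nat_lit 205) (nat_lit 0) (cs (lf (nat_lit 11) (nat_lit 182)) (nd (nat_lit 164) (nat_lit 0) (cs (lf (nat_lit 17) (nat_lit 161)) (rf (nat_lit 0)))))))) q37479 (by decide +kernel)
def q37488 : Q := Q.p (nat_lit 0x10000058000060000000000000000000000000000000000000000) (nat_lit 0xe0000380000f0000240003000004c0000300000c00000000000000000000000) (nat_lit 7)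
theorem c37488 : QOK q37488 := cut [q37473, q37487] ⟨c37473, c37487, trivial⟩ (nd (nat_lit 205) (nat_lit 0) (cs (rf (nat_lit 0)) (rf (nat_lit 1)))) q37488 (by decide +kernel)
def q37601 : Q := Q.p (nat_lit 0x18000070000000000000000000000000000000000000000) (nat_lit 0x80000600001c0000700000c000070000180000200000000000000000000000) (nat_lit 7)
theorem c37601 : QOK q37601 := cut [q37436, q37440, q37559, q37600] ⟨c37436, c37440, c37559, c37600, trivial⟩ (nd (nat_lit 182) (nat_lit 0) (cs (rf (nat_lit 0)) (cs (rf (nat_lit 1)) (cs (rf (nat_lit 2)) (rf (nat_lit 3)))))) q37601 (by decide +kernel)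
def q37641 : Q := Q.p (nat_lit 0x10000048000060000000000000000000000000000000000000000) (nat_lit 0x100000700001c0000f00009700031c001ef0003f8001ff00007000014000000000000) (nat_lit 15)
theorem c37641 : QOK q37641 := cut [q37608, q36677, q37149, q34886, q36964, q35090, q35180, q36725, q37495, q36550, q36626, q37147, q37212] ⟨c37608, c36677, c37149, c34886, c36964, c35090, c35180, c36725, c37495, c36550, c36626, c37147, c37212, trivial⟩ (nd (nat_lit 139) (nat_lit 0) (cs (rf (nat_lit 0)) (cs (nd (nat_lit 117) (nat_lit 0) (cs (rf (nat_lit 1)) (cs (rf (nat_lit 2)) (nd (nat_lit 118) (nat_lit 0) (cs (lf (nat_lit 35) (nat_lit 95)) (nd (nat_lit 119) (nat_lit 0) (cs (nd (nat_lit 120) (nat_lit 0) (cs (lf (nat_lit 11) (nat_lit 116)) (nd (nat_lit 98) (nat_lit 0) (cs (lf (nat_lit 17) (nat_lit 95)) (rf (nat_lit 3)))))) (cs (nd (nat_lit 116) (nat_lit 0) (cs (lf (nat_lit 47) (nat_lit 94)) (nd (nat_lit 184) (nat_lit 0) (cs (lf (nat_lit 29) (nat_lit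 117)) (nd (nat_lit 97) (nat_lit 0) (cs (lf (nat_lit 17) (nat_lit 94)) (nd (nat_lit 142) (nat_lit 0) (cs (lf (nat_lit 4) (nat_lit 116)) (rf (nat_lit 4)))))))))) (cs (nd (nat_lit 182) (nat_lit 0) (cs (lf (nat_lit 41) (nat_lit 116)) (nd (nat_lit 184) (nat_lit 0) (cs (lf (nat_lit 29) (nat_lit 117)) (nd (nat_lit 180) (nat_lit 0) (cs (lf (nat_lit 13) (nat_lit 158)) (nd (nat_lit 116) (nat_lit 0) (cs (lf (nat_lit 47) (nat_lit 94)) (nd (nat_lit 141) (nat_lit 0) (cs (lf (nat_lit 5) (nat_lit 116)) (nd (nat_lit 97) (nat_lit 0) (cs (lf (nat_lit 17) (nat_lit 94)) (nd (nat_lit 137) (nat_lit 0) (cs (lf (nat_lit 10) (nat_lit 115)) (nd (nat_lit 115) (nat_lit 0) (cs (lf (nat_lit 11) (nat_lit 114)) (nd (nat_lit 93) (nat_lit 0) (cs (lf (nat_lit 23) (nat_lit 92)) (nd (nat_lit 159) (nat_lit 0) (cs (lf (nat_lit 28) (nat_lit 93)) (lf (nat_lit 40) (nat_lit 92)))))))))))))))))))))) (cs (nd (nat_lit 94) (nat_lit 0) (cs (lf (nat_lit 46) (nat_lit 94))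 (nd (nat_lit 120) (nat_lit 0) (cs (lf (nat_lit 11) (nat_lit 116)) (nd (nat_lit 182) (nat_lit 0) (cs (lf (nat_lit 41) (nat_lit 116)) (nd (nat_lit 180) (nat_lit 0) (cs (lf (nat_lit 13) (nat_lit 158)) (nd (nat_lit 184) (nat_lit 0) (cs (lf (nat_lit 29) (nat_lit 117)) (rf (nat_lit 5)))))))))))) (nd (nat_lit 120) (nat_lit 0) (cs (lf (nat_lit 11) (nat_lit 116)) (nd (nat_lit 94) (nat_lit 0) (cs (lf (nat_lit 46) (nat_lit 94)) (rf (nat_lit 3)))))))))))))))) (cs (nd (nat_lit 205) (nat_lit 0) (cs (rf (nat_lit 6)) (cs (rf (nat_lit 7)) (nd (nat_lit 204) (nat_lit 0) (cs (lf (nat_lit 41) (nat_lit 138)) (nd (nat_lit 117) (nat_lit 0) (cs (lf (nat_lit 40) (nat_lit 116)) (rf (nat_lit 1))))))))) (cs (nd (nat_lit 117) (nat_lit 0) (cs (rf (nat_lit 1)) (rf (nat_lit 8)))) (nd (nat_lit 117) (nat_lit 0) (cs (rf (nat_lit 9)) (cs (rf (nat_lit 10)) (cs (rf (nat_lit 11)) (rf (nat_lit 12))))))))))) q37641 (by decide +kernel)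
def q37702 : Q := Q.p (nat_lit 0x18000070000000000000000000000000000000000000000) (nat_lit 0x780003e00003c0000700000c0000c0000300000c00000000000000000000000) (nat_lit 9)
theorem c37702 : QOK q37702 := cut [q37287, q37653, q37691, q35296] ⟨c37287, c37653, c37691, c35296, trivial⟩ (nd (nat_lit 205) (nat_lit 0) (cs (rf (nat_lit 0)) (cs (rf (nat_lit 1)) (nd (nat_lit 181) (nat_lit 0) (cs (nd (nat_lit 203) (nat_lit 0) (cs (nd (nat_lit 202) (nat_lit 0) (cs (lf (nat_lit 8) (nat_lit 180)) (lf (nat_lit 14) (nat_lit 180)))) (cs (nd (nat_lit 158) (nat_lit 0) (cs (lf (nat_lit 1) (nat_lit 158)) (nd (nat_lit 204) (nat_lit 0) (cs (lf (nat_lit 12) (nat_lit 180)) (rf (nat_lit 2)))))) (nd (nat_lit 159) (nat_lit 0) (cs (lf (nat_lit 0) (nat_lit 158)) (rf (nat_lit 3))))))) (cs (nd (nat_lit 182) (nat_lit 0) (cs (lf (nat_lit 12) (nat_lit 158)) (nd (nat_lit 203) (nat_lit 0) (cs (lf (nat_lit 11) (nat_lit 180)) (nd (nat_lit 138) (nat_lit 0) (cs (lf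 (nat_lit 24) (nat_lit 116)) (nd (nat_lit 225) (nat_lit 0) (cs (lf (nat_lit 30) (nat_lit 159)) (lf (nat_lit 39) (nat_lit 137)))))))))) (nd (nat_lit 159) (nat_lit 0) (cs (lf (nat_lit 0) (nat_lit 158)) (lf (nat_lit 11) (nat_lit 158)))))))))) q37702 (by decide +kernel)
def q37785 : Q := Q.p (nat_lit 0x12000018000060000000000000000000000000000000000000000) (nat_lit 0x18000070000dc0000700001c0000f00003c0000c00000000000000000000000) (nat_lit 11)
theorem c37785 : QOK q37785 := cut [q37691, q37745, q37769, q37642, q37783] ⟨c37691, c37745, c37769, c37642, c37783, trivial⟩ (nd (nat_lit 204) (nat_lit 0) (cs (rf (nat_lit 0)) (cs (nd (nat_lit 182) (nat_lit 0) (cs (nd (nat_lit 226) (nat_lit 0) (cs (lf (nat_lit 30) (nat_lit 160)) (nd (nat_lit 181) (nat_lit 0) (cs (lf (nat_lit 12) (nat_lit 158)) (nd (nat_lit 159) (nat_lit 0) (cs (lf (nat_lit 23) (nat_lit 158)) (nd (nat_lit 137) (nat_lit 0) (cs (lf (nat_lit 24) (nat_lit 115)) (lf (nat_lit 45)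 (nat_lit 137)))))))))) (cs (nd (nat_lit 203) (nat_lit 0) (cs (lf (nat_lit 12) (nat_lit 180)) (nd (nat_lit 226) (nat_lit 0) (cs (lf (nat_lit 30) (nat_lit 160)) (nd (nat_lit 180) (nat_lit 0) (cs (lf (nat_lit 13) (nat_lit 158)) (nd (nat_lit 206) (nat_lit 0) (cs (lf (nat_lit 19) (nat_lit 182)) (nd (nat_lit 225) (nat_lit 0) (cs (lf (nat_lit 11) (nat_lit 202)) (nd (nat_lit 160) (nat_lit 0) (cs (lf (nat_lit 41) (nat_lit 159)) (lf (nat_lit 36) (nat_lit 137)))))))))))))) (cs (nd (nat_lit 206) (nat_lit 0) (cs (lf (nat_lit 19) (nat_lit 182)) (nd (nat_lit 181) (nat_lit 0) (cs (lf (nat_lit 0) (nat_lit 180)) (nd (nat_lit 226) (nat_lit 0) (cs (lf (nat_lit 30) (nat_lit 160)) (nd (nat_lit 159) (nat_lit 0) (cs (lf (nat_lit 23) (nat_lit 158)) (nd (nat_lit 203) (nat_lit 0) (cs (lf (nat_lit 12) (nat_lit 180)) (lf (nat_lit 24) (nat_lit 137)))))))))))) (cs (rf (nat_lit 1)) (nd (nat_lit 160) (nat_lit 0) (cs (nd (nat_lit 202) (nat_lit 0) (cs (lf (nat_lit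 13) (nat_lit 180)) (nd (nat_lit 159) (nat_lit 0) (cs (lf (nat_lit 0) (nat_lit 158)) (nd (nat_lit 206) (nat_lit 0) (cs (lf (nat_lit 19) (nat_lit 182)) (nd (nat_lit 137) (nat_lit 0) (cs (lf (nat_lit 23) (nat_lit 136)) (nd (nat_lit 138) (nat_lit 0) (cs (lf (nat_lit 24) (nat_lit 116)) (lf (nat_lit 47) (nat_lit 115)))))))))))) (cs (nd (nat_lit 226) (nat_lit 0) (cs (lf (nat_lit 30) (nat_lit 160)) (nd (nat_lit 159) (nat_lit 0) (cs (lf (nat_lit 47) (nat_lit 137)) (lf (nat_lit 0) (nat_lit 158)))))) (nd (nat_lit 226) (nat_lit 0) (cs (lf (nat_lit 30) (nat_lit 160)) (nd (nat_lit 225) (nat_lit 0) (cs (lf (nat_lit 41) (nat_lit 159)) (nd (nat_lit 138) (nat_lit 0) (cs (lf (nat_lit 24) (nat_lit 116)) (lf (nat_lit 40) (nat_lit 137)))))))))))))))) (cs (nd (nat_lit 182) (nat_lit 0) (cs (rf (nat_lit 1)) (cs (nd (nat_lit 203) (nat_lit 0) (cs (lf (nat_lit 12) (nat_lit 180)) (nd (nat_lit 139) (nat_lit 0) (cs (lf (nat_lit 36) (nat_lit 116)) (nd (nat_lit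 206) (nat_lit 0) (cs (lf (nat_lit 19) (nat_lit 182)) (nd (nat_lit 225) (nat_lit 0) (cs (lf (nat_lit 11) (nat_lit 202)) (nd (nat_lit 138) (nat_lit 0) (cs (lf (nat_lit 47) (nat_lit 116)) (lf (nat_lit 37) (nat_lit 137)))))))))))) (cs (nd (nat_lit 139) (nat_lit 0) (cs (lf (nat_lit 36) (nat_lit 116)) (nd (nat_lit 181) (nat_lit 0) (cs (lf (nat_lit 12) (nat_lit 158)) (nd (nat_lit 206) (nat_lit 0) (cs (lf (nat_lit 19) (nat_lit 182)) (nd (nat_lit 138) (nat_lit 0) (cs (lf (nat_lit 47) (nat_lit 116)) (nd (nat_lit 159) (nat_lit 0) (cs (lf (nat_lit 23) (nat_lit 158)) (nd (nat_lit 137) (nat_lit 0) (cs (lf (nat_lit 0) (nat_lit 136)) (lf (nat_lit 24) (nat_lit 115)))))))))))))) (cs (nd (nat_lit 181) (nat_lit 0) (cs (lf (nat_lit 12) (nat_lit 158)) (nd (nat_lit 203) (nat_lit 0) (cs (lf (nat_lit 12) (nat_lit 180)) (nd (nat_lit 206) (nat_lit 0) (cs (lf (nat_lit 5) (nat_lit 181)) (nd (nat_lit 117) (nat_lit 0) (cs (lf (nat_lit 25) (nat_lit 117))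 (nd (nat_lit 224) (nat_lit 0) (cs (lf (nat_lit 10) (nat_lit 202)) (nd (nat_lit 159) (nat_lit 0) (cs (lf (nat_lit 23) (nat_lit 158)) (nd (nat_lit 137) (nat_lit 0) (cs (lf (nat_lit 24) (nat_lit 115)) (rf (nat_lit 2)))))))))))))))) (nd (nat_lit 180) (nat_lit 0) (cs (lf (nat_lit 13) (nat_lit 158)) (nd (nat_lit 203) (nat_lit 0) (cs (lf (nat_lit 12) (nat_lit 180)) (nd (nat_lit 139) (nat_lit 0) (cs (lf (nat_lit 36) (nat_lit 116)) (nd (nat_lit 138) (nat_lit 0) (cs (lf (nat_lit 47) (nat_lit 116)) (nd (nat_lit 160) (nat_lit 0) (cs (lf (nat_lit 41) (nat_lit 137)) (rf (nat_lit 3))))))))))))))))) (nd (nat_lit 202) (nat_lit 0) (cs (lf (nat_lit 13) (nat_lit 180)) (rf (nat_lit 4)))))))) q37785 (by decide +kernel)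
def q37792 : Q := Q.p (nat_lit 0x2000018000060000000000000000000000000000000000000000) (nat_lit 0x300000c000010000000000100000c0000100000000000000000000000000000) (nat_lit 5)
theorem c37792 : QOK q37792 := cut [q37791] ⟨c37791, trivial⟩ (nd (nat_lit 227) (nat_lit 0) (cs (lf (nat_lit 30) (nat_lit 161)) (rf (nat_lit 0)))) q37792 (by decide +kernel)
def q37806 : Q := Q.p (nat_lit 0x1c000040000020000000000000000000000000000000000000000) (nat_lit 0x1e0000300003e0000000000c0000300000400000000000000000000000) (nat_lit 7)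
theorem c37806 : QOK q37806 := cut [q7922, q20281, q11444] ⟨c7922, c20281, c11444, trivial⟩ (nd (nat_lit 205) (nat_lit 0) (cs (rf (nat_lit 0)) (cs (rf (nat_lit 1)) (nd (nat_lit 226) (nat_lit 0) (cs (lf (nat_lit 10) (nat_lit 204)) (nd (nat_lit 183) (nat_lit 0) (cs (lf (nat_lit 23) (nat_lit 182)) (rf (nat_lit 2))))))))) q37806 (by decide +kernel)
def q37832 : Q := Q.p (nat_lit 0x12000048000120000080000000000000000000000000000000000) (nat_lit 0x340000d000080000000000e0000380000a000000000000000000000000) (nat_lit 8)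
theorem c37832 : QOK q37832 := cut [q559] ⟨c559, trivial⟩ (nd (nat_lit 206) (nat_lit 0) (cs (lf (nat_lit 29) (nat_lit 139)) (nd (nat_lit 207) (nat_lit 0) (cs (lf (nat_lit 17) (nat_lit 183)) (nd (nat_lit 204) (nat_lit 0) (cs (rf (nat_lit 0)) (lf (nat_lit 41) (nat_lit 138)))))))) q37832 (by decide +kernel)
def q37914 : Q := Q.p (nat_lit 0x1000000c000060000000000000000000000000000000000000000) (nat_lit 0x500001c0000700001c0000f0000100000000000e0001f00001c00005000000000000000000) (nat_lit 8)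
theorem c37914 : QOK q37914 := cut [q37882, q34429, q36725, q5258, q36735, q36677, q37913] ⟨c37882, c34429, c36725, c5258, c36735, c36677, c37913, trivial⟩ (nd (nat_lit 139) (nat_lit 0) (cs (rf (nat_lit 0)) (cs (nd (nat_lit 205) (nat_lit 0) (cs (rf (nat_lit 1)) (cs (rf (nat_lit 2)) (nd (nat_lit 227) (nat_lit 0) (cs (rf (nat_lit 3)) (cs (rf (nat_lit 4)) (nd (nat_lit 116) (nat_lit 0) (cs (lf (nat_lit 46) (nat_lit 116)) (nd (nat_lit 206) (nat_lit 0) (cs (lf (nat_lit 19) (nat_lit 182)) (nd (nat_lit 204) (nat_lit 0) (cs (lf (nat_lit 41) (nat_lit 138)) (nd (nat_lit 249) (nat_lit 0) (cs (lf (nat_lit 34) (nat_lit 161)) (lf (nat_lit 42) (nat_lit 182)))))))))))))))) (cs (nd (nat_lit 117) (nat_lit 0) (cs (lf (nat_lit 41) (nat_lit 116)) (rf (nat_lit 5)))) (rf (nat_lit 6)))))) q37914 (by decide +kernel)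
def q37958 : Q := Q.p (nat_lit 0x1200004c000100000000000000000000000000000000000000000) (nat_lit 0x200000c000000000000000e0000380000a000000000000000000000000) (nat_lit 6)
theorem c37958 : QOK q37958 := cut [q559] ⟨c559, trivial⟩ (nd (nat_lit 207) (nat_lit 0) (cs (rf (nat_lit 0)) (lf (nat_lit 20) (nat_lit 182)))) q37958 (by decide +kernel)
def q38168 : Q := Q.p (nat_lit 0x1000004c000060000000000000000000000000000000000000000) (nat_lit 0x100001c0000f0000800001900000f0000700001c00005000000000000000000) (nat_lit 8)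
theorem c38168 : QOK q38168 := cut [q37608, q37913, q38151, q24100, q24065, q35072] ⟨c37608, c37913, c38151, c24100, c24065, c35072, trivial⟩ (nd (nat_lit 139) (nat_lit 0) (cs (rf (nat_lit 0)) (cs (rf (nat_lit 1)) (cs (rf (nat_lit 2)) (nd (nat_lit 138) (nat_lit 0) (cs (rf (nat_lit 3)) (cs (nd (nat_lit 163) (nat_lit 0) (cs (lf (nat_lit 6) (nat_lit 160)) (rf (nat_lit 4)))) (nd (nat_lit 136) (nat_lit 0) (cs (lf (nat_lit 1) (nat_lit 136)) (nd (nat_lit 116) (nat_lit 0) (cs (lf (nat_lit 42) (nat_lit 116)) (rf (nat_lit 5))))))))))))) q38168 (by decide +kernel)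
def q38169 : Q := Q.p (nat_lit 0x12000008000020000000000000000000000000000000000000000) (nat_lit 0x140000700003c0000c000004000010000040000000000000000000000000000000000) (nat_lit 5)
theorem c38169 : QOK q38169 := cut [q37276, q37281, q37555] ⟨c37276, c37281, c37555, trivial⟩ (nd (nat_lit 227) (nat_lit 0) (cs (rf (nat_lit 0)) (cs (rf (nat_lit 1)) (rf (nat_lit 2))))) q38169 (by decide +kernel)
def q38229 : Q := Q.p (nat_lit 0x100000400000e0000000000000000000000000000000000000000) (nat_lit 0xac000100000ec000380000e000020000000000000000000) (nat_lit 9)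
theorem c38229 : QOK q38229 := cut [q38228] ⟨c38228, trivial⟩ (nd (nat_lit 164) (nat_lit 0) (cs (lf (nat_lit 5) (nat_lit 161)) (rf (nat_lit 0)))) q38229 (by decide +kernel)
def q38351 : Q := Q.p (nat_lit 0x18000060000000000000000000000000000000000000000) (nat_lit 0x80000700007c0003f80003e0000700009c0003b00006c0001900000000000000000000000) (nat_lit 13)
theorem c38351 : QOK q38351 := cut [q36506, q37653, q38309, q36095, q38312, q38319, q38327, q38333, q7202] ⟨c36506, c37653, c38309, c36095, c38312, c38319, c38327, c38333, c7202, trivial⟩ (nd (nat_lit 205) (nat_lit 0) (cs (rf (nat_lit 0)) (cs (rf (nat_lit 1)) (nd (nat_lit 159) (nat_lit 0) (cs (nd (nat_lit 140) (nat_lit 0) (cs (lf (nat_lit 36) (nat_lit 117)) (nd (nat_lit 160) (nat_lit 0) (cs (lf (nat_lit 17) (nat_lit 137)) (rf (nat_lit 2)))))) (cs (nd (nat_lit 181) (nat_lit 0) (cs (rf (nat_lit 3)) (cs (nd (nat_lit 203) (nat_lit 0) (cs (nd (nat_lit 202) (nat_lit 0) (cs (lf (nat_lit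 14) (nat_lit 180)) (nd (nat_lit 137) (nat_lit 0) (cs (lf (nat_lit 41) (nat_lit 136)) (rf (nat_lit 4)))))) (cs (nd (nat_lit 225) (nat_lit 0) (cs (nd (nat_lit 226) (nat_lit 0) (cs (lf (nat_lit 29) (nat_lit 159)) (nd (nat_lit 204) (nat_lit 0) (cs (lf (nat_lit 36) (nat_lit 138)) (lf (nat_lit 24) (nat_lit 137)))))) (nd (nat_lit 118) (nat_lit 0) (cs (lf (nat_lit 37) (nat_lit 117)) (rf (nat_lit 5)))))) (cs (nd (nat_lit 225) (nat_lit 0) (cs (rf (nat_lit 5)) (cs (nd (nat_lit 118) (nat_lit 0) (cs (lf (nat_lit 37) (nat_lit 117)) (nd (nat_lit 158) (nat_lit 0) (cs (lf (nat_lit 47) (nat_lit 136)) (nd (nat_lit 248) (nat_lit 0) (cs (lf (nat_lit 28) (nat_lit 159)) (nd (nat_lit 247) (nat_lit 0) (cs (lf (nat_lit 29) (nat_lit 181)) (lf (nat_lit 46) (nat_lit 158)))))))))) (cs (nd (nat_lit 226) (nat_lit 0) (cs (lf (nat_lit 29) (nat_lit 159)) (nd (nat_lit 118) (nat_lit 0) (cs (lf (nat_lit 37) (nat_lit 117)) (nd (nat_lit 224) (nat_lit 0) (cs (lf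 (nat_lit 41) (nat_lit 158)) (rf (nat_lit 6)))))))) (nd (nat_lit 118) (nat_lit 0) (cs (lf (nat_lit 37) (nat_lit 117)) (nd (nat_lit 224) (nat_lit 0) (cs (lf (nat_lit 41) (nat_lit 158)) (nd (nat_lit 202) (nat_lit 0) (cs (nd (nat_lit 248) (nat_lit 0) (cs (lf (nat_lit 28) (nat_lit 159)) (nd (nat_lit 247) (nat_lit 0) (cs (lf (nat_lit 29) (nat_lit 181)) (rf (nat_lit 7)))))) (lf (nat_lit 36) (nat_lit 136)))))))))))) (nd (nat_lit 118) (nat_lit 0) (cs (lf (nat_lit 37) (nat_lit 117)) (nd (nat_lit 204) (nat_lit 0) (cs (lf (nat_lit 12) (nat_lit 180)) (nd (nat_lit 139) (nat_lit 0) (cs (rf (nat_lit 8)) (lf (nat_lit 41) (nat_lit 138)))))))))))) (nd (nat_lit 182) (nat_lit 0) (cs (lf (nat_lit 23) (nat_lit 158)) (lf (nat_lit 17) (nat_lit 159))))))) (cs (nd (nat_lit 160) (nat_lit 0) (cs (lf (nat_lit 0) (nat_lit 158)) (rf (nat_lit 2)))) (nd (nat_lit 160) (nat_lit 0) (cs (lf (nat_lit 0) (nat_lit 158)) (nd (nat_lit 140) (nat_lit 0) (cs (lf (nat_lit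 36) (nat_lit 117)) (lf (nat_lit 17) (nat_lit 137))))))))))))) q38351 (by decide +kernel)
def q38397 : Q := Q.p (nat_lit 0x10000040000100000000000000000000000000000000000) (nat_lit 0xe0000380000e0000b8000efc003ff000fe0000b80000e000028000000) (nat_lit 15)
theorem c38397 : QOK q38397 := cut [q19066, q33490, q33491, q33978] ⟨c19066, c33490, c33491, c33978, trivial⟩ (nd (nat_lit 118) (nat_lit 0) (cs (rf (nat_lit 0)) (cs (rf (nat_lit 1)) (cs (rf (nat_lit 2)) (nd (nat_lit 119) (nat_lit 0) (cs (lf (nat_lit 35) (nat_lit 96)) (nd (nat_lit 138) (nat_lit 0) (cs (rf (nat_lit 3)) (cs (nd (nat_lit 183) (nat_lit 0) (cs (lf (nat_lit 41) (nat_lit 117)) (nd (nat_lit 117) (nat_lit 0) (cs (lf (nat_lit 47) (nat_lit 95)) (nd (nat_lit 116) (nat_lit 0) (cs (lf (nat_lit 11) (nat_lit 115)) (nd (nat_lit 141) (nat_lit 0) (cs (lf (nat_lit 0) (nat_lit 115)) (lf (nat_lit 5) (nat_lit 116)))))))))) (cs (nd (nat_lit 139) (nat_lit 0) (cs (lf (nat_lit 12) (nat_lit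 115)) (nd (nat_lit 120) (nat_lit 0) (cs (lf (nat_lit 6) (nat_lit 117)) (lf (nat_lit 15) (nat_lit 116)))))) (nd (nat_lit 183) (nat_lit 0) (cs (lf (nat_lit 41) (nat_lit 117)) (nd (nat_lit 117) (nat_lit 0) (cs (lf (nat_lit 47) (nat_lit 95)) (nd (nat_lit 120) (nat_lit 0) (cs (lf (nat_lit 10) (nat_lit 116)) (nd (nat_lit 98) (nat_lit 0) (cs (lf (nat_lit 17) (nat_lit 95)) (nd (nat_lit 142) (nat_lit 0) (cs (lf (nat_lit 5) (nat_lit 117)) (nd (nat_lit 116) (nat_lit 0) (cs (lf (nat_lit 4) (nat_lit 116)) (nd (nat_lit 94) (nat_lit 0) (cs (lf (nat_lit 23) (nat_lit 93)) (nd (nat_lit 160) (nat_lit 0) (cs (lf (nat_lit 28) (nat_lit 94)) (nd (nat_lit 181) (nat_lit 0) (cs (lf (nat_lit 40) (nat_lit 93)) (nd (nat_lit 182) (nat_lit 0) (cs (lf (nat_lit 17) (nat_lit 159)) (lf (nat_lit 41) (nat_lit 115)))))))))))))))))))))))))))))))) q38397 (by decide +kernel)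
def q38417 : Q := Q.p (nat_lit 0x12000070000040000000000000000000000000000000000000000) (nat_lit 0x900000e00009c000000000000000000000000000000000000000) (nat_lit 5)
theorem c38417 : QOK q38417 := cut [q38416] ⟨c38416, trivial⟩ (nd (nat_lit 183) (nat_lit 0) (cs (lf (nat_lit 11) (nat_lit 182)) (rf (nat_lit 0)))) q38417 (by decide +kernel)
def q38495 : Q := Q.p (nat_lit 0x100000680001a0000000000000000000000000000000000) (nat_lit 0x1400037c000df0000fc000060000100001c0000700001400000000000000000) (nat_lit 11)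
theorem c38495 : QOK q38495 := cut [q37392, q38462, q37399, q38480, q38485, q38487, q34099, q35739] ⟨c37392, c38462, c37399, c38480, c38485, c38487, c34099, c35739, trivial⟩ (nd (nat_lit 181) (nat_lit 0) (cs (rf (nat_lit 0)) (cs (nd (nat_lit 206) (nat_lit 0) (cs (lf (nat_lit 42) (nat_lit 139)) (nd (nat_lit 207) (nat_lit 0) (cs (lf (nat_lit 29) (nat_lit 140)) (nd (nat_lit 182) (nat_lit 0) (cs (lf (nat_lit 2) (nat_lit 181)) (rf (nat_lit 1)))))))) (cs (nd (nat_lit 203) (nat_lit 0) (cs (rf (nat_lit 2)) (cs (nd (nat_lit 202) (nat_lit 0) (cs (lf (nat_lit 41) (nat_lit 136)) (nd (nat_lit 182) (nat_lit 0) (cs (lf (nat_lit 7) (nat_lit 180)) (nd (nat_lit 201) (nat_lit 0) (cs (lf (nat_lit 12) (nat_lit 178)) (nd (nat_lit 136) (nat_lit 0) (cs (lf (nat_lit 47) (nat_lit 114)) (nd (nat_lit 204) (nat_lit 0) (cs (lf (nat_lit 29) (nat_lit 137)) (nd (nat_lit 223) (nat_lit 0) (cs (nd (nat_lit 179) (nat_lit 0) (cs (lf (nat_lit 23) (nat_lit 178))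 (nd (nat_lit 158) (nat_lit 0) (cs (lf (nat_lit 33) (nat_lit 135)) (lf (nat_lit 38) (nat_lit 135)))))) (lf (nat_lit 11) (nat_lit 200)))))))))))))) (cs (nd (nat_lit 206) (nat_lit 0) (cs (lf (nat_lit 42) (nat_lit 139)) (nd (nat_lit 207) (nat_lit 0) (cs (lf (nat_lit 29) (nat_lit 140)) (rf (nat_lit 3)))))) (rf (nat_lit 4)))))) (cs (nd (nat_lit 206) (nat_lit 0) (cs (lf (nat_lit 42) (nat_lit 139)) (nd (nat_lit 207) (nat_lit 0) (cs (lf (nat_lit 29) (nat_lit 140)) (nd (nat_lit 182) (nat_lit 0) (cs (lf (nat_lit 2) (nat_lit 181)) (nd (nat_lit 115) (nat_lit 0) (cs (lf (nat_lit 29) (nat_lit 115)) (nd (nat_lit 180) (nat_lit 0) (cs (lf (nat_lit 41) (nat_lit 114)) (nd (nat_lit 93) (nat_lit 0) (cs (lf (nat_lit 40) (nat_lit 92)) (rf (nat_lit 5)))))))))))))) (nd (nat_lit 115) (nat_lit 0) (cs (rf (nat_lit 6)) (rf (nat_lit 7))))))))) q38495 (by decide +kernel)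
def q38527 : Q := Q.p (nat_lit 0x10000060000180000000000000000000000000000000000) (nat_lit 0x8000000000260003c00003800006000008000000000000) (nat_lit 5)
theorem c38527 : QOK q38527 := cut [q34258, q34004] ⟨c34258, c34004, trivial⟩ (nd (nat_lit 118) (nat_lit 0) (cs (rf (nat_lit 0)) (nd (nat_lit 119) (nat_lit 0) (cs (lf (nat_lit 35) (nat_lit 96)) (rf (nat_lit 1)))))) q38527 (by decide +kernel)
def q38550 : Q := Q.p (nat_lit 0x10000060000080000000000000000000000000000000000) (nat_lit 0x100000f000090000170001f0001fc00007000014000000000000) (nat_lit 8)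
theorem c38550 : QOK q38550 := cut [q36614, q37147, q38535, q38367, q37103, q38541] ⟨c36614, c37147, c38535, c38367, c37103, c38541, trivial⟩ (nd (nat_lit 117) (nat_lit 0) (cs (rf (nat_lit 0)) (cs (rf (nat_lit 1)) (nd (nat_lit 118) (nat_lit 0) (cs (nd (nat_lit 96) (nat_lit 0) (cs (lf (nat_lit 30) (nat_lit 95)) (nd (nat_lit 74) (nat_lit 0) (cs (lf (nat_lit 36) (nat_lit 51)) (lf (nat_lit 39) (nat_lit 73)))))) (cs (rf (nat_lit 2)) (cs (nd (nat_lit 138) (nat_lit 0) (cs (rf (nat_lit 3)) (cs (nd (nat_lit 119) (nat_lit 0) (cs (lf (nat_lit 6) (nat_lit 116)) (nd (nat_lit 97) (nat_lit 0) (cs (lf (nat_lit 32) (nat_lit 96)) (nd (nat_lit 116) (nat_lit 0) (cs (lf (nat_lit 17) (nat_lit 94)) (rf (nat_lit 4)))))))) (rf (nat_lit 5))))) (nd (nat_lit 138) (nat_lit 0) (cs (rf (nat_lit 3)) (cs (rf (nat_lit 5)) (nd (nat_lit 119) (nat_lit 0) (cs (lf (nat_lit 6) (nat_lit 116)) (nd (nat_lit 97) (nat_lit 0) (cs (lf (nat_lit 32) (nat_lit 96)) (nd (nat_lit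 98) (nat_lit 0) (cs (lf (nat_lit 12) (nat_lit 94)) (nd (nat_lit 99) (nat_lit 0) (cs (lf (nat_lit 6) (nat_lit 96)) (lf (nat_lit 9) (nat_lit 95)))))))))))))))))))) q38550 (by decide +kernel)
def q38596 : Q := Q.p (nat_lit 0x10000050000040000000000000000000000000000000000000000) (nat_lit 0x100000c0000300000f8003ae0000bc0003f0000f00000000000000000000000000000) (nat_lit 12)
theorem c38596 : QOK q38596 := cut [q3734, q19014, q6989, q38568, q2146, q32668, q38416, q38577, q38241, q5968, q38594] ⟨c3734, c19014, c6989, c38568, c2146, c32668, c38416, c38577, c38241, c5968, c38594, trivial⟩ (nd (nat_lit 185) (nat_lit 0) (cs (rf (nat_lit 0)) (cs (rf (nat_lit 1)) (cs (nd (nat_lit 207) (nat_lit 0) (cs (rf (nat_lit 2)) (cs (nd (nat_lit 183) (nat_lit 0) (cs (lf (nat_lit 0) (nat_lit 182)) (nd (nat_lit 205) (nat_lit 0) (cs (lf (nat_lit 11) (nat_lit 182)) (nd (nat_lit 187) (nat_lit 0) (cs (lf (nat_lit 10) (nat_lit 183)) (rf (nat_lit 3))))))))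 (nd (nat_lit 182) (nat_lit 0) (cs (rf (nat_lit 4)) (lf (nat_lit 1) (nat_lit 182))))))) (nd (nat_lit 183) (nat_lit 0) (cs (rf (nat_lit 5)) (cs (rf (nat_lit 6)) (cs (nd (nat_lit 206) (nat_lit 0) (cs (nd (nat_lit 205) (nat_lit 0) (cs (lf (nat_lit 11) (nat_lit 182)) (nd (nat_lit 140) (nat_lit 0) (cs (lf (nat_lit 36) (nat_lit 117)) (nd (nat_lit 117) (nat_lit 0) (cs (lf (nat_lit 46) (nat_lit 117)) (rf (nat_lit 7)))))))) (cs (nd (nat_lit 205) (nat_lit 0) (cs (lf (nat_lit 11) (nat_lit 182)) (nd (nat_lit 161) (nat_lit 0) (cs (lf (nat_lit 23) (nat_lit 160)) (nd (nat_lit 140) (nat_lit 0) (cs (lf (nat_lit 36) (nat_lit 117)) (nd (nat_lit 207) (nat_lit 0) (cs (lf (nat_lit 29) (nat_lit 140)) (nd (nat_lit 119) (nat_lit 0) (cs (lf (nat_lit 34) (nat_lit 118)) (nd (nat_lit 139) (nat_lit 0) (cs (lf (nat_lit 47) (nat_lit 117)) (rf (nat_lit 8)))))))))))))) (cs (nd (nat_lit 161) (nat_lit 0) (cs (lf (nat_lit 23) (nat_lit 160)) (rf (nat_lit 9))))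 (nd (nat_lit 160) (nat_lit 0) (cs (lf (nat_lit 22) (nat_lit 160)) (nd (nat_lit 205) (nat_lit 0) (cs (lf (nat_lit 11) (nat_lit 182)) (nd (nat_lit 140) (nat_lit 0) (cs (lf (nat_lit 36) (nat_lit 117)) (rf (nat_lit 7)))))))))))) (rf (nat_lit 10)))))))))) q38596 (by decide +kernel)
def q38614 : Q := Q.p (nat_lit 0x100000400001e0000000000000000000000000000000000000000) (nat_lit 0x2000008000020000000000c0000380000e000028000000000000000000) (nat_lit 7)
theorem c38614 : QOK q38614 := cut [q35567] ⟨c35567, trivial⟩ (nd (nat_lit 142) (nat_lit 0) (cs (lf (nat_lit 17) (nat_lit 139)) (rf (nat_lit 0)))) q38614 (by decide +kernel)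
def q38651 : Q := Q.p (nat_lit 0x10000040000160000000000000000000000000000000000000000) (nat_lit 0x80000e00003e0000fc000bf00020c0005f0001780001c00000000000000000000000) (nat_lit 14)
theorem c38651 : QOK q38651 := cut [q5854, q38620, q23943, q18531, q18707, q38629, q32637, q32638, q38634, q8715, q36506, q37473, q8669, q34516, q36584, q37481, q35168] ⟨c5854, c38620, c23943, c18531, c18707, c38629, c32637, c32638, c38634, c8715, c36506, c37473, c8669, c34516, c36584, c37481, c35168, trivial⟩ (nd (nat_lit 184) (nat_lit 0) (cs (nd (nat_lit 206) (nat_lit 0) (cs (rf (nat_lit 0)) (cs (nd (nat_lit 187) (nat_lit 0) (cs (lf (nat_lit 20) (nat_lit 161)) (nd (nat_lit 207) (nat_lit 0) (cs (lf (nat_lit 12) (nat_lit 183)) (rf (nat_lit 1)))))) (nd (nat_lit 185) (nat_lit 0) (cs (lf (nat_lit 18) (nat_lit 161)) (nd (nat_lit 228) (nat_lit 0) (cs (lf (nat_lit 47) (nat_lit 139)) (nd (nat_lit 227) (nat_lit 0) (cs (lf (nat_lit 41) (nat_lit 161)) (nd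 (nat_lit 229) (nat_lit 0) (cs (lf (nat_lit 29) (nat_lit 162)) (nd (nat_lit 207) (nat_lit 0) (cs (lf (nat_lit 36) (nat_lit 141)) (lf (nat_lit 12) (nat_lit 204))))))))))))))) (cs (nd (nat_lit 206) (nat_lit 0) (cs (rf (nat_lit 0)) (cs (rf (nat_lit 2)) (cs (nd (nat_lit 205) (nat_lit 0) (cs (rf (nat_lit 3)) (cs (rf (nat_lit 4)) (rf (nat_lit 5))))) (nd (nat_lit 205) (nat_lit 0) (cs (rf (nat_lit 6)) (cs (rf (nat_lit 7)) (rf (nat_lit 5))))))))) (cs (rf (nat_lit 8)) (cs (nd (nat_lit 183) (nat_lit 0) (cs (nd (nat_lit 185) (nat_lit 0) (cs (lf (nat_lit 17) (nat_lit 161)) (rf (nat_lit 9)))) (cs (nd (nat_lit 205) (nat_lit 0) (cs (rf (nat_lit 10)) (cs (rf (nat_lit 11)) (nd (nat_lit 139) (nat_lit 0) (cs (rf (nat_lit 12)) (cs (rf (nat_lit 13)) (cs (rf (nat_lit 14)) (nd (nat_lit 118) (nat_lit 0) (cs (lf (nat_lit 37) (nat_lit 117)) (nd (nat_lit 204) (nat_lit 0) (cs (lf (nat_lit 41) (nat_lit 138)) (nd (nat_lit 202) (nat_lit 0) (cs (lf (nat_lit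 13) (nat_lit 180)) (nd (nat_lit 138) (nat_lit 0) (cs (lf (nat_lit 47) (nat_lit 116)) (nd (nat_lit 137) (nat_lit 0) (cs (lf (nat_lit 0) (nat_lit 136)) (nd (nat_lit 206) (nat_lit 0) (cs (lf (nat_lit 29) (nat_lit 139)) (nd (nat_lit 182) (nat_lit 0) (cs (lf (nat_lit 19) (nat_lit 182)) (nd (nat_lit 181) (nat_lit 0) (cs (lf (nat_lit 0) (nat_lit 180)) (nd (nat_lit 159) (nat_lit 0) (cs (lf (nat_lit 23) (nat_lit 158)) (lf (nat_lit 24) (nat_lit 115))))))))))))))))))))))))))) (nd (nat_lit 185) (nat_lit 0) (cs (lf (nat_lit 17) (nat_lit 161)) (rf (nat_lit 15))))))) (nd (nat_lit 185) (nat_lit 0) (cs (lf (nat_lit 18) (nat_lit 161)) (nd (nat_lit 183) (nat_lit 0) (cs (lf (nat_lit 17) (nat_lit 161)) (rf (nat_lit 16))))))))))) q38651 (by decide +kernel)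
def q38734 : Q := Q.p (nat_lit 0xa000068000000000000000000000000000000000000000) (nat_lit 0x100001c0000700001c00011c000040001f80007e0001f00001c00005000000000000) (nat_lit 11)
theorem c38734 : QOK q38734 := cut [q34099, q35727, q37366, q38669, q37362, q37372, q37399, q38318, q38687, q38730, q38485, q38312, q37389] ⟨c34099, c35727, c37366, c38669, c37362, c37372, c37399, c38318, c38687, c38730, c38485, c38312, c37389, trivial⟩ (nd (nat_lit 137) (nat_lit 0) (cs (nd (nat_lit 115) (nat_lit 0) (cs (rf (nat_lit 0)) (cs (rf (nat_lit 1)) (rf (nat_lit 2))))) (cs (rf (nat_lit 3)) (cs (nd (nat_lit 115) (nat_lit 0) (cs (rf (nat_lit 0)) (cs (rf (nat_lit 1)) (cs (rf (nat_lit 4)) (nd (nat_lit 114) (nat_lit 0) (cs (lf (nat_lit 47) (nat_lit 92)) (nd (nat_lit 139) (nat_lit 0) (cs (rf (nat_lit 5)) (cs (nd (nat_lit 180) (nat_lit 0) (cs (lf (nat_lit 41) (nat_lit 114)) (nd (nat_lit 116) (nat_lit 0) (cs (lf (nat_lit 35) (nat_lit 93)) (nd (nat_lit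 117) (nat_lit 0) (cs (nd (nat_lit 95) (nat_lit 0) (cs (lf (nat_lit 29) (nat_lit 95)) (lf (nat_lit 17) (nat_lit 92)))) (lf (nat_lit 5) (nat_lit 114)))))))) (nd (nat_lit 138) (nat_lit 0) (cs (lf (nat_lit 0) (nat_lit 136)) (lf (nat_lit 18) (nat_lit 114))))))))))))) (cs (nd (nat_lit 203) (nat_lit 0) (cs (rf (nat_lit 6)) (cs (nd (nat_lit 116) (nat_lit 0) (cs (lf (nat_lit 34) (nat_lit 115)) (nd (nat_lit 226) (nat_lit 0) (cs (lf (nat_lit 28) (nat_lit 137)) (nd (nat_lit 94) (nat_lit 0) (cs (lf (nat_lit 33) (nat_lit 93)) (nd (nat_lit 225) (nat_lit 0) (cs (lf (nat_lit 29) (nat_lit 159)) (nd (nat_lit 158) (nat_lit 0) (cs (lf (nat_lit 47) (nat_lit 136)) (nd (nat_lit 117) (nat_lit 0) (cs (lf (nat_lit 44) (nat_lit 94)) (rf (nat_lit 7)))))))))))))) (cs (nd (nat_lit 202) (nat_lit 0) (cs (lf (nat_lit 41) (nat_lit 136)) (nd (nat_lit 115) (nat_lit 0) (cs (lf (nat_lit 40) (nat_lit 114)) (rf (nat_lit 8)))))) (nd (nat_lit 116) (nat_lit 0) (cs (lf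 (nat_lit 34) (nat_lit 115)) (nd (nat_lit 115) (nat_lit 0) (cs (lf (nat_lit 35) (nat_lit 93)) (nd (nat_lit 180) (nat_lit 0) (cs (lf (nat_lit 41) (nat_lit 114)) (nd (nat_lit 204) (nat_lit 0) (cs (lf (nat_lit 29) (nat_lit 137)) (nd (nat_lit 178) (nat_lit 0) (cs (nd (nat_lit 158) (nat_lit 0) (cs (nd (nat_lit 225) (nat_lit 0) (cs (lf (nat_lit 47) (nat_lit 136)) (lf (nat_lit 42) (nat_lit 158)))) (lf (nat_lit 36) (nat_lit 92)))) (lf (nat_lit 1) (nat_lit 178)))))))))))))))) (cs (rf (nat_lit 9)) (cs (nd (nat_lit 203) (nat_lit 0) (cs (rf (nat_lit 6)) (cs (rf (nat_lit 10)) (nd (nat_lit 202) (nat_lit 0) (cs (lf (nat_lit 41) (nat_lit 136)) (rf (nat_lit 11))))))) (nd (nat_lit 115) (nat_lit 0) (cs (rf (nat_lit 0)) (cs (rf (nat_lit 2)) (rf (nat_lit 12)))))))))))) q38734 (by decide +kernel)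
def q38766 : Q := Q.p (nat_lit 0xe000060000000000000000000000000000000000000000) (nat_lit 0x100000dc0001000001f0000f00003c0000700001400000000000000000) (nat_lit 7)
theorem c38766 : QOK q38766 := cut [q38103, q38758, q17967, q38462, q38754] ⟨c38103, c38758, c17967, c38462, c38754, trivial⟩ (nd (nat_lit 159) (nat_lit 0) (cs (rf (nat_lit 0)) (cs (nd (nat_lit 184) (nat_lit 0) (cs (lf (nat_lit 23) (nat_lit 158)) (nd (nat_lit 202) (nat_lit 0) (cs (lf (nat_lit 10) (nat_lit 180)) (rf (nat_lit 1)))))) (nd (nat_lit 137) (nat_lit 0) (cs (rf (nat_lit 2)) (cs (rf (nat_lit 3)) (cs (rf (nat_lit 4)) (nd (nat_lit 136) (nat_lit 0) (cs (lf (nat_lit 20) (nat_lit 136)) (nd (nat_lit 138) (nat_lit 0) (cs (lf (nat_lit 3) (nat_lit 136)) (nd (nat_lit 115) (nat_lit 0) (cs (lf (nat_lit 29) (nat_lit 115)) (nd (nat_lit 114) (nat_lit 0) (cs (lf (nat_lit 47) (nat_lit 92)) (lf (nat_lit 42) (nat_lit 114))))))))))))))))) q38766 (by decide +kernel)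
def q38826 : Q := Q.p (nat_lit 0x10000048000060000000000000000000000000000000000000000) (nat_lit 0x500003c0000f0000900001900001f0000700001400000000000000000000000) (nat_lit 10)
theorem c38826 : QOK q38826 := cut [q36506, q37223, q36584, q11430, q11443, q38819] ⟨c36506, c37223, c36584, c11430, c11443, c38819, trivial⟩ (nd (nat_lit 205) (nat_lit 0) (cs (rf (nat_lit 0)) (cs (rf (nat_lit 1)) (nd (nat_lit 139) (nat_lit 0) (cs (rf (nat_lit 2)) (cs (nd (nat_lit 206) (nat_lit 0) (cs (lf (nat_lit 29) (nat_lit 139)) (nd (nat_lit 187) (nat_lit 0) (cs (lf (nat_lit 14) (nat_lit 183)) (nd (nat_lit 163) (nat_lit 0) (cs (lf (nat_lit 3) (nat_lit 161)) (rf (nat_lit 3)))))))) (cs (nd (nat_lit 206) (nat_lit 0) (cs (lf (nat_lit 29) (nat_lit 139)) (nd (nat_lit 187) (nat_lit 0) (cs (lf (nat_lit 14) (nat_lit 183)) (nd (nat_lit 163) (nat_lit 0) (cs (lf (nat_lit 3) (nat_lit 161)) (rf (nat_lit 4)))))))) (nd (nat_lit 206) (nat_lit 0) (cs (lf (nat_lit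 29) (nat_lit 139)) (nd (nat_lit 187) (nat_lit 0) (cs (lf (nat_lit 14) (nat_lit 183)) (nd (nat_lit 163) (nat_lit 0) (cs (lf (nat_lit 3) (nat_lit 161)) (nd (nat_lit 118) (nat_lit 0) (cs (lf (nat_lit 34) (nat_lit 117)) (nd (nat_lit 204) (nat_lit 0) (cs (lf (nat_lit 41) (nat_lit 138)) (rf (nat_lit 5))))))))))))))))))) q38826 (by decide +kernel)
def q38829 : Q := Q.p (nat_lit 0x10000048000060000000000000000000000000000000000000000) (nat_lit 0x500003c0000f000097000180000180000600001000000000000000000000000) (nat_lit 6)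
theorem c38829 : QOK q38829 := cut [q36506, q37247, q38828] ⟨c36506, c37247, c38828, trivial⟩ (nd (nat_lit 205) (nat_lit 0) (cs (rf (nat_lit 0)) (cs (rf (nat_lit 1)) (rf (nat_lit 2))))) q38829 (by decide +kernel)
def q38831 : Q := Q.p (nat_lit 0x10000048000060000000000000000000000000000000000000000) (nat_lit 0x40000180000e0000940000100001f0000700001400000000000000000000000) (nat_lit 7)
theorem c38831 : QOK q38831 := cut [q36506, q37239, q35180, q36584] ⟨c36506, c37239, c35180, c36584, trivial⟩ (nd (nat_lit 205) (nat_lit 0) (cs (rf (nat_lit 0)) (cs (rf (nat_lit 1)) (nd (nat_lit 139) (nat_lit 0) (cs (rf (nat_lit 2)) (rf (nat_lit 3))))))) q38831 (by decide +kernel)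
def q38832 : Q := Q.p (nat_lit 0x10000008000060000000000000000000000000000000000000000) (nat_lit 0x700003c0000b80001600001c0001f00007c0001400000000000000000000000) (nat_lit 10)
theorem c38832 : QOK q38832 := cut [q36506, q36593, q36607] ⟨c36506, c36593, c36607, trivial⟩ (nd (nat_lit 205) (nat_lit 0) (cs (rf (nat_lit 0)) (cs (rf (nat_lit 1)) (rf (nat_lit 2))))) q38832 (by decide +kernel)
def q38848 : Q := Q.p (nat_lit 0x8000060000000000000000000000000000000000000000) (nat_lit 0x700001c0000700001600001c0001f00007c0001400000000000000000000000) (nat_lit 10)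
theorem c38848 : QOK q38848 := cut [q36506, q36607, q36610] ⟨c36506, c36607, c36610, trivial⟩ (nd (nat_lit 205) (nat_lit 0) (cs (rf (nat_lit 0)) (cs (rf (nat_lit 1)) (rf (nat_lit 2))))) q38848 (by decide +kernel)
def q38867 : Q := Q.p (nat_lit 0x14000050000040000000000000000000000000000000000000000) (nat_lit 0x280000a00003c0000b00008e000000000100000000000000000000000000000000000) (nat_lit 7)
theorem c38867 : QOK q38867 := cut [q32633, q32637, q32638, q38865] ⟨c32633, c32637, c32638, c38865, trivial⟩ (nd (nat_lit 205) (nat_lit 0) (cs (rf (nat_lit 0)) (cs (rf (nat_lit 1)) (cs (rf (nat_lit 2)) (rf (nat_lit 3)))))) q38867 (by decide +kernel)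
def q38872 : Q := Q.p (nat_lit 0x10000050000060000000000000000000000000000000000000000) (nat_lit 0x380000f0003a8000000000180000600000800000000000000000000000) (nat_lit 6)
theorem c38872 : QOK q38872 := cut [q23943, q38853] ⟨c23943, c38853, trivial⟩ (nd (nat_lit 206) (nat_lit 0) (cs (rf (nat_lit 0)) (rf (nat_lit 1)))) q38872 (by decide +kernel)
def q39065 : Q := Q.p (nat_lit 0xe0000000000000000000000000000000000000000) (nat_lit 0x80000e0000380000f0000180007f0000380000e0000380000a000000000000) (nat_lit 12)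
theorem c39065 : QOK q39065 := cut [q6338, q32461, q33870, q39049, q23991, q39057, q39059, q39064] ⟨c6338, c32461, c33870, c39049, c23991, c39057, c39059, c39064, trivial⟩ (nd (nat_lit 160) (nat_lit 0) (cs (rf (nat_lit 0)) (cs (rf (nat_lit 1)) (cs (nd (nat_lit 138) (nat_lit 0) (cs (lf (nat_lit 23) (nat_lit 137)) (nd (nat_lit 116) (nat_lit 0) (cs (rf (nat_lit 2)) (cs (nd (nat_lit 182) (nat_lit 0) (cs (lf (nat_lit 11) (nat_lit 159)) (nd (nat_lit 141) (nat_lit 0) (cs (lf (nat_lit 17) (nat_lit 138)) (nd (nat_lit 95) (nat_lit 0) (cs (lf (nat_lit 34) (nat_lit 94)) (nd (nat_lit 93) (nat_lit 0) (cs (lf (nat_lit 46) (nat_lit 93)) (rf (nat_lit 3)))))))))) (cs (nd (nat_lit 182) (nat_lit 0) (cs (lf (nat_lit 11) (nat_lit 159)) (nd (nat_lit 141) (nat_lit 0) (cs (lf (nat_lit 17) (nat_lit 138)) (rf (nat_lit 4)))))) (cs (nd (nat_lit 181) (nat_lit 0) (cs (lf (nat_lit 10) (nat_lit 159)) (rf (nat_lit 5)))) (nd (nat_lit 181) (nat_lit 0) (cs (lf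 (nat_lit 10) (nat_lit 159)) (rf (nat_lit 6))))))))))) (rf (nat_lit 7)))))) q39065 (by decide +kernel)
def q39083 : Q := Q.p (nat_lit 0x10000060000040000000000000000000000000000000000000000) (nat_lit 0xa00002c001cf80079c003f38000d00002400000000000000000000000000000) (nat_lit 11)
theorem c39083 : QOK q39083 := cut [q19014, q38235, q39076, q39082] ⟨c19014, c38235, c39076, c39082, trivial⟩ (nd (nat_lit 184) (nat_lit 0) (cs (rf (nat_lit 0)) (cs (rf (nat_lit 1)) (cs (nd (nat_lit 187) (nat_lit 0) (cs (lf (nat_lit 23) (nat_lit 161)) (nd (nat_lit 165) (nat_lit 0) (cs (lf (nat_lit 17) (nat_lit 162)) (nd (nat_lit 121) (nat_lit 0) (cs (lf (nat_lit 37) (nat_lit 120)) (rf (nat_lit 2)))))))) (rf (nat_lit 3)))))) q39083 (by decide +kernel)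
def q39115 : Q := Q.p (nat_lit 0x180000600000c0000000000000000000000000000000000000000) (nat_lit 0x80000300001c000f30003d00003400000000000000000000000000000) (nat_lit 8)
theorem c39115 : QOK q39115 := cut [q4534, q7151, q39110, q5549] ⟨c4534, c7151, c39110, c5549, trivial⟩ (nd (nat_lit 164) (nat_lit 0) (cs (rf (nat_lit 0)) (cs (rf (nat_lit 1)) (cs (rf (nat_lit 2)) (nd (nat_lit 120) (nat_lit 0) (cs (lf (nat_lit 37) (nat_lit 119)) (nd (nat_lit 161) (nat_lit 0) (cs (lf (nat_lit 0) (nat_lit 160)) (nd (nat_lit 183) (nat_lit 0) (cs (lf (nat_lit 11) (nat_lit 160)) (nd (nat_lit 184) (nat_lit 0) (cs (lf (nat_lit 6) (nat_lit 161)) (rf (nat_lit 3)))))))))))))) q39115 (by decide +kernel)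
def q39215 : Q := Q.p (nat_lit 0x100000400000c0000000000000000000000000000000000000000) (nat_lit 0x300000c0000300000c0001b8000238001fe0007f80007c00017000000000000000000) (nat_lit 14)
theorem c39215 : QOK q39215 := cut [q32472, q39084, q39174, q18667, q39191, q39198, q39201, q32473, q32474, q32478, q3742, q10277, q32477, q2432] ⟨c32472, c39084, c39174, c18667, c39191, c39198, c39201, c32473, c32474, c32478, c3742, c10277, c32477, c2432, trivial⟩ (nd (nat_lit 185) (nat_lit 0) (cs (rf (nat_lit 0)) (cs (nd (nat_lit 141) (nat_lit 0) (cs (lf (nat_lit 24) (nat_lit 119)) (nd (nat_lit 140) (nat_lit 0) (cs (rf (nat_lit 1)) (cs (nd (nat_lit 187) (nat_lit 0) (cs (lf (nat_lit 18) (nat_lit 162)) (nd (nat_lit 207) (nat_lit 0) (cs (lf (nat_lit 42) (nat_lit 140)) (nd (nat_lit 206) (nat_lit 0) (cs (lf (nat_lit 41) (nat_lit 140)) (nd (nat_lit 160) (nat_lit 0) (cs (lf (nat_lit 1) (nat_lit 160)) (rf (nat_lit 2)))))))))) (nd (nat_lit 139) (nat_lit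 0) (cs (nd (nat_lit 138) (nat_lit 0) (cs (lf (nat_lit 0) (nat_lit 137)) (nd (nat_lit 187) (nat_lit 0) (cs (lf (nat_lit 18) (nat_lit 162)) (nd (nat_lit 159) (nat_lit 0) (cs (lf (nat_lit 10) (nat_lit 137)) (nd (nat_lit 116) (nat_lit 0) (cs (lf (nat_lit 23) (nat_lit 115)) (nd (nat_lit 142) (nat_lit 0) (cs (lf (nat_lit 22) (nat_lit 116)) (rf (nat_lit 3)))))))))))) (cs (rf (nat_lit 4)) (cs (nd (nat_lit 187) (nat_lit 0) (cs (lf (nat_lit 18) (nat_lit 162)) (rf (nat_lit 5)))) (rf (nat_lit 6))))))))))) (cs (nd (nat_lit 207) (nat_lit 0) (cs (rf (nat_lit 7)) (cs (rf (nat_lit 8)) (cs (rf (nat_lit 9)) (nd (nat_lit 140) (nat_lit 0) (cs (rf (nat_lit 10)) (nd (nat_lit 187) (nat_lit 0) (cs (lf (nat_lit 18) (nat_lit 162)) (nd (nat_lit 141) (nat_lit 0) (cs (lf (nat_lit 24) (nat_lit 119)) (nd (nat_lit 206) (nat_lit 0) (cs (lf (nat_lit 41) (nat_lit 140)) (rf (nat_lit 2)))))))))))))) (nd (nat_lit 141) (nat_lit 0) (cs (lf (nat_lit 24) (nat_lit 119))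 (nd (nat_lit 207) (nat_lit 0) (cs (rf (nat_lit 11)) (cs (rf (nat_lit 12)) (nd (nat_lit 161) (nat_lit 0) (cs (lf (nat_lit 0) (nat_lit 160)) (nd (nat_lit 206) (nat_lit 0) (cs (lf (nat_lit 41) (nat_lit 140)) (nd (nat_lit 140) (nat_lit 0) (cs (lf (nat_lit 47) (nat_lit 118)) (rf (nat_lit 13))))))))))))))))) q39215 (by decide +kernel)
def q39219 : Q := Q.p (nat_lit 0x100000400001c0000000000000000000000000000000000000000) (nat_lit 0x2000008000020000000001e0000380000a000000000000000000000000) (nat_lit 5)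
theorem c39219 : QOK q39219 := cut [q617, q619, q18163, q39217] ⟨c617, c619, c18163, c39217, trivial⟩ (nd (nat_lit 142) (nat_lit 0) (cs (rf (nat_lit 0)) (cs (rf (nat_lit 1)) (cs (rf (nat_lit 2)) (nd (nat_lit 207) (nat_lit 0) (cs (lf (nat_lit 41) (nat_lit 141)) (rf (nat_lit 3)))))))) q39219 (by decide +kernel)
def q39246 : Q := Q.p (nat_lit 0x10000040000140000000000000000000000000000000000000000) (nat_lit 0x20000080000200000a0003e0000380000a000000000000000000000000) (nat_lit 5)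
theorem c39246 : QOK q39246 := cut [q617, q619, q37074] ⟨c617, c619, c37074, trivial⟩ (nd (nat_lit 142) (nat_lit 0) (cs (rf (nat_lit 0)) (cs (rf (nat_lit 1)) (rf (nat_lit 2))))) q39246 (by decide +kernel)
def q39347 : Q := Q.p (nat_lit 0x10000050000140000000000000000000000000000000000000000) (nat_lit 0x18000060000a8000080003ff800ffc007ff0002a000000000000000000) (nat_lit 15)
theorem c39347 : QOK q39347 := cut [q39300, q32672, q39306, q32919, q32855, q39309, q19593, q33694, q39320, q32838, q39323, q39280, q39333, q32852, q39341, q2881, q39343] ⟨c39300, c32672, c39306, c32919, c32855, c39309, c19593, c33694, c39320, c32838, c39323, c39280, c39333, c32852, c39341, c2881, c39343, trivial⟩ (nd (nat_lit 119) (nat_lit 0) (cs (nd (nat_lit 118) (nat_lit 0) (cs (rf (nat_lit 0)) (cs (nd (nat_lit 140) (nat_lit 0) (cs (lf (nat_lit 35) (nat_lit 96)) (nd (nat_lit 95) (nat_lit 0) (cs (lf (nat_lit 46) (nat_lit 95)) (nd (nat_lit 205) (nat_lit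 0) (cs (lf (nat_lit 40) (nat_lit 117)) (nd (nat_lit 206) (nat_lit 0) (cs (lf (nat_lit 41) (nat_lit 139)) (nd (nat_lit 185) (nat_lit 0) (cs (lf (nat_lit 6) (nat_lit 183)) (rf (nat_lit 1)))))))))))) (cs (nd (nat_lit 120) (nat_lit 0) (cs (rf (nat_lit 2)) (cs (nd (nat_lit 142) (nat_lit 0) (cs (lf (nat_lit 47) (nat_lit 97)) (nd (nat_lit 117) (nat_lit 0) (cs (lf (nat_lit 5) (nat_lit 117)) (rf (nat_lit 3)))))) (cs (nd (nat_lit 121) (nat_lit 0) (cs (rf (nat_lit 4)) (rf (nat_lit 5)))) (cs (nd (nat_lit 117) (nat_lit 0) (cs (rf (nat_lit 6)) (cs (rf (nat_lit 3)) (cs (rf (nat_lit 7)) (nd (nat_lit 138) (nat_lit 0) (cs (lf (nat_lit 10) (nat_lit 116)) (nd (nat_lit 95) (nat_lit 0) (cs (lf (nat_lit 23) (nat_lit 94)) (nd (nat_lit 98) (nat_lit 0) (cs (lf (nat_lit 17) (nat_lit 95)) (nd (nat_lit 121) (nat_lit 0) (cs (lf (nat_lit 22) (nat_lit 95)) (nd (nat_lit 144) (nat_lit 0) (cs (lf (nat_lit 4) (nat_lit 118)) (nd (nat_lit 122) (nat_lit 0) (cs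 (lf (nat_lit 5) (nat_lit 119)) (nd (nat_lit 123) (nat_lit 0) (cs (lf (nat_lit 23) (nat_lit 97)) (nd (nat_lit 101) (nat_lit 0) (cs (lf (nat_lit 17) (nat_lit 98)) (lf (nat_lit 16) (nat_lit 97)))))))))))))))))))))) (rf (nat_lit 8))))))) (cs (nd (nat_lit 120) (nat_lit 0) (cs (rf (nat_lit 2)) (cs (nd (nat_lit 121) (nat_lit 0) (cs (rf (nat_lit 9)) (cs (rf (nat_lit 5)) (nd (nat_lit 95) (nat_lit 0) (cs (lf (nat_lit 22) (nat_lit 95)) (nd (nat_lit 139) (nat_lit 0) (cs (lf (nat_lit 10) (nat_lit 117)) (rf (nat_lit 10))))))))) (cs (nd (nat_lit 140) (nat_lit 0) (cs (lf (nat_lit 35) (nat_lit 96)) (nd (nat_lit 121) (nat_lit 0) (cs (lf (nat_lit 11) (nat_lit 117)) (nd (nat_lit 99) (nat_lit 0) (cs (lf (nat_lit 17) (nat_lit 96)) (nd (nat_lit 96) (nat_lit 0) (cs (lf (nat_lit 23) (nat_lit 95)) (nd (nat_lit 185) (nat_lit 0) (cs (lf (nat_lit 28) (nat_lit 96)) (nd (nat_lit 143) (nat_lit 0) (cs (lf (nat_lit 5) (nat_lit 118)) (rf (nat_lit 11))))))))))))))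 (rf (nat_lit 12)))))) (nd (nat_lit 120) (nat_lit 0) (cs (rf (nat_lit 8)) (cs (rf (nat_lit 12)) (cs (nd (nat_lit 121) (nat_lit 0) (cs (rf (nat_lit 13)) (rf (nat_lit 5)))) (nd (nat_lit 140) (nat_lit 0) (cs (lf (nat_lit 35) (nat_lit 96)) (nd (nat_lit 121) (nat_lit 0) (cs (lf (nat_lit 11) (nat_lit 117)) (rf (nat_lit 10))))))))))))))) (cs (nd (nat_lit 141) (nat_lit 0) (cs (lf (nat_lit 45) (nat_lit 119)) (rf (nat_lit 14)))) (cs (nd (nat_lit 141) (nat_lit 0) (cs (rf (nat_lit 15)) (cs (rf (nat_lit 14)) (rf (nat_lit 16))))) (cs (nd (nat_lit 141) (nat_lit 0) (cs (lf (nat_lit 45) (nat_lit 119)) (rf (nat_lit 16)))) (nd (nat_lit 141) (nat_lit 0) (cs (lf (nat_lit 45) (nat_lit 119)) (rf (nat_lit 15))))))))) q39347 (by decide +kernel)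
def q39355 : Q := Q.p (nat_lit 0x2000000000000000010000040000180000000000000000000000000000000000) (nat_lit 0x200001e00003800006000000000000000000000200000000000000000000000000000) (nat_lit 6)
theorem c39355 : QOK q39355 := cut [q16276] ⟨c16276, trivial⟩ (nd (nat_lit 206) (nat_lit 0) (cs (lf (nat_lit 47) (nat_lit 117)) (rf (nat_lit 0)))) q39355 (by decide +kernel)
def q39361 : Q := Q.p (nat_lit 0x2000000000000000010000040000100000400000000000000000000000000000) (nat_lit 0x200001e00003800006000000000000000080000200000800000000000000000000000) (nat_lit 7)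
theorem c39361 : QOK q39361 := cut [q16276] ⟨c16276, trivial⟩ (nd (nat_lit 117) (nat_lit 0) (cs (lf (nat_lit 47) (nat_lit 95)) (nd (nat_lit 206) (nat_lit 0) (cs (lf (nat_lit 46) (nat_lit 117)) (rf (nat_lit 0)))))) q39361 (by decide +kernel)
def q39390 : Q := Q.p (nat_lit 0x10000040000300000000000000000000000000000000000000000) (nat_lit 0x80000400000f8000380000e000030000080000000000000) (nat_lit 7)
theorem c39390 : QOK q39390 := cut [q33058, q39386, q39388, q39389] ⟨c33058, c39386, c39388, c39389, trivial⟩ (nd (nat_lit 142) (nat_lit 0) (cs (rf (nat_lit 0)) (cs (rf (nat_lit 1)) (cs (rf (nat_lit 2)) (rf (nat_lit 3)))))) q39390 (by decide +kernel)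
def q39422 : Q := Q.p (nat_lit 0x100000500001c0000000000000000000000000000000000000000) (nat_lit 0x20000080000700002c000000001f00003c0000e000018000020000000000000) (nat_lit 9)
theorem c39422 : QOK q39422 := cut [q39217, q39414, q38890, q39418] ⟨c39217, c39414, c38890, c39418, trivial⟩ (nd (nat_lit 142) (nat_lit 0) (cs (rf (nat_lit 0)) (cs (rf (nat_lit 1)) (cs (nd (nat_lit 121) (nat_lit 0) (cs (lf (nat_lit 34) (nat_lit 120)) (nd (nat_lit 120) (nat_lit 0) (cs (lf (nat_lit 35) (nat_lit 98)) (nd (nat_lit 98) (nat_lit 0) (cs (lf (nat_lit 41) (nat_lit 97)) (rf (nat_lit 2)))))))) (nd (nat_lit 119) (nat_lit 0) (cs (lf (nat_lit 46) (nat_lit 119)) (nd (nat_lit 120) (nat_lit 0) (cs (lf (nat_lit 47) (nat_lit 97)) (nd (nat_lit 185) (nat_lit 0) (cs (lf (nat_lit 36) (nat_lit 97)) (rf (nat_lit 3)))))))))))) q39422 (by decide +kernel)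
def q39431 : Q := Q.p (nat_lit 0x100000500001c0000000000000000000000000000000000000000) (nat_lit 0x200000e00003800006000020000200003fe0003e0000e000020000000000000000000) (nat_lit 12)
theorem c39431 : QOK q39431 := cut [q4533, q20178, q32300] ⟨c4533, c20178, c32300, trivial⟩ (nd (nat_lit 142) (nat_lit 0) (cs (rf (nat_lit 0)) (cs (rf (nat_lit 1)) (nd (nat_lit 119) (nat_lit 0) (cs (lf (nat_lit 46) (nat_lit 119)) (nd (nat_lit 97) (nat_lit 0) (cs (lf (nat_lit 45) (nat_lit 97)) (nd (nat_lit 140) (nat_lit 0) (cs (lf (nat_lit 33) (nat_lit 96)) (nd (nat_lit 139) (nat_lit 0) (cs (lf (nat_lit 18) (nat_lit 139)) (nd (nat_lit 137) (nat_lit 0) (cs (lf (nat_lit 1) (nat_lit 137)) (nd (nat_lit 206) (nat_lit 0) (cs (lf (nat_lit 47) (nat_lit 117)) (nd (nat_lit 227) (nat_lit 0) (cs (lf (nat_lit 40) (nat_lit 139)) (nd (nat_lit 228) (nat_lit 0) (cs (lf (nat_lit 41) (nat_lit 161)) (rf (nat_lit 2))))))))))))))))))))) q39431 (by decide +kernel)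
def q39492 : Q := Q.p (nat_lit 0x100000400001e0000000000000000000000000000000000000000) (nat_lit 0x20000000000e0000380000e000020000000000000000000) (nat_lit 6)
theorem c39492 : QOK q39492 := cut [q20178] ⟨c20178, trivial⟩ (nd (nat_lit 142) (nat_lit 0) (cs (lf (nat_lit 17) (nat_lit 139)) (rf (nat_lit 0)))) q39492 (by decide +kernel)
def q39514 : Q := Q.p (nat_lit 0x10000040000100000000000000000000000000000000000) (nat_lit 0x800006000008000020000080000e0000380000a000000000000000000) (nat_lit 5)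
theorem c39514 : QOK q39514 := cut [q19066, q33490, q34730] ⟨c19066, c33490, c34730, trivial⟩ (nd (nat_lit 118) (nat_lit 0) (cs (rf (nat_lit 0)) (cs (rf (nat_lit 1)) (rf (nat_lit 2))))) q39514 (by decide +kernel)
def q39675 : Q := Q.p (nat_lit 0x100000400001c0000000000000000000000000000000000000000) (nat_lit 0x20000220003e0000380000e000020000000000000000000) (nat_lit 6)
theorem c39675 : QOK q39675 := cut [q20178, q32368] ⟨c20178, c32368, trivial⟩ (nd (nat_lit 142) (nat_lit 0) (cs (rf (nat_lit 0)) (rf (nat_lit 1)))) q39675 (by decide +kernel)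
def q39864 : Q := Q.p (nat_lit 0x10000000000060000080000000000000000000000000000000000) (nat_lit 0x300001c0000f00001f000180000260007fc000fe0003f000054000100000000) (nat_lit 12)
theorem c39864 : QOK q39864 := cut [q36626, q37115, q37495, q12112, q39833, q39862] ⟨c36626, c37115, c37495, c12112, c39833, c39862, trivial⟩ (nd (nat_lit 117) (nat_lit 0) (cs (rf (nat_lit 0)) (cs (nd (nat_lit 183) (nat_lit 0) (cs (rf (nat_lit 1)) (cs (rf (nat_lit 2)) (nd (nat_lit 184) (nat_lit 0) (cs (lf (nat_lit 29) (nat_lit 117)) (nd (nat_lit 96) (nat_lit 0) (cs (lf (nat_lit 34) (nat_lit 95)) (nd (nat_lit 182) (nat_lit 0) (cs (rf (nat_lit 3)) (lf (nat_lit 41) (nat_lit 116))))))))))) (cs (nd (nat_lit 96) (nat_lit 0) (cs (nd (nat_lit 74) (nat_lit 0) (cs (lf (nat_lit 33) (nat_lit 73)) (nd (nat_lit 118) (nat_lit 0) (cs (lf (nat_lit 36) (nat_lit 51)) (lf (nat_lit 30) (nat_lit 95)))))) (cs (nd (nat_lit 183) (nat_lit 0) (cs (lf (nat_lit 34) (nat_lit 95))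 (rf (nat_lit 4)))) (cs (nd (nat_lit 95) (nat_lit 0) (cs (lf (nat_lit 35) (nat_lit 73)) (nd (nat_lit 94) (nat_lit 0) (cs (lf (nat_lit 47) (nat_lit 72)) (nd (nat_lit 116) (nat_lit 0) (cs (lf (nat_lit 42) (nat_lit 94)) (nd (nat_lit 97) (nat_lit 0) (cs (lf (nat_lit 11) (nat_lit 93)) (lf (nat_lit 6) (nat_lit 94)))))))))) (nd (nat_lit 95) (nat_lit 0) (cs (lf (nat_lit 35) (nat_lit 73)) (nd (nat_lit 97) (nat_lit 0) (cs (nd (nat_lit 98) (nat_lit 0) (cs (lf (nat_lit 11) (nat_lit 94)) (nd (nat_lit 76) (nat_lit 0) (cs (lf (nat_lit 17) (nat_lit 73)) (nd (nat_lit 120) (nat_lit 0) (cs (lf (nat_lit 5) (nat_lit 95)) (nd (nat_lit 72) (nat_lit 0) (cs (lf (nat_lit 22) (nat_lit 72)) (nd (nat_lit 118) (nat_lit 0) (cs (lf (nat_lit 6) (nat_lit 95)) (nd (nat_lit 119) (nat_lit 0) (cs (lf (nat_lit 11) (nat_lit 116)) (nd (nat_lit 54) (nat_lit 0) (cs (lf (nat_lit 36) (nat_lit 31)) (lf (nat_lit 41) (nat_lit 53)))))))))))))))) (cs (nd (nat_lit 94) (nat_lit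 0) (cs (lf (nat_lit 47) (nat_lit 72)) (nd (nat_lit 119) (nat_lit 0) (cs (lf (nat_lit 5) (nat_lit 94)) (nd (nat_lit 93) (nat_lit 0) (cs (nd (nat_lit 115) (nat_lit 0) (cs (lf (nat_lit 11) (nat_lit 92)) (lf (nat_lit 10) (nat_lit 93)))) (lf (nat_lit 4) (nat_lit 93)))))))) (cs (nd (nat_lit 72) (nat_lit 0) (cs (lf (nat_lit 46) (nat_lit 72)) (nd (nat_lit 73) (nat_lit 0) (cs (lf (nat_lit 18) (nat_lit 72)) (lf (nat_lit 47) (nat_lit 50)))))) (nd (nat_lit 98) (nat_lit 0) (cs (lf (nat_lit 11) (nat_lit 94)) (nd (nat_lit 76) (nat_lit 0) (cs (lf (nat_lit 17) (nat_lit 73)) (nd (nat_lit 75) (nat_lit 0) (cs (lf (nat_lit 12) (nat_lit 72)) (nd (nat_lit 99) (nat_lit 0) (cs (lf (nat_lit 10) (nat_lit 95)) (nd (nat_lit 121) (nat_lit 0) (cs (lf (nat_lit 5) (nat_lit 96)) (lf (nat_lit 4) (nat_lit 95)))))))))))))))))))))) (nd (nat_lit 184) (nat_lit 0) (cs (lf (nat_lit 24) (nat_lit 95)) (rf (nat_lit 5)))))))) q39864 (by decide +kernel)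
def q39886 : Q := Q.p (nat_lit 0x10000040000060000080000000000000000000000000000000000) (nat_lit 0x100000700001c0000f00003f000300000f70003fc0003f00007000014000000000000) (nat_lit 13)
theorem c39886 : QOK q39886 := cut [q36614, q36626, q39824, q39826, q36689, q37115, q37212, q38948, q36115, q24220] ⟨c36614, c36626, c39824, c39826, c36689, c37115, c37212, c38948, c36115, c24220, trivial⟩ (nd (nat_lit 117) (nat_lit 0) (cs (rf (nat_lit 0)) (cs (rf (nat_lit 1)) (cs (rf (nat_lit 2)) (cs (rf (nat_lit 3)) (nd (nat_lit 183) (nat_lit 0) (cs (rf (nat_lit 4)) (cs (rf (nat_lit 5)) (cs (rf (nat_lit 6)) (cs (rf (nat_lit 7)) (nd (nat_lit 140) (nat_lit 0) (cs (nd (nat_lit 118) (nat_lit 0) (cs (lf (nat_lit 35) (nat_lit 95)) (nd (nat_lit 184) (nat_lit 0) (cs (lf (nat_lit 42) (nat_lit 117)) (nd (nat_lit 185) (nat_lit 0) (cs (lf (nat_lit 29) (nat_lit 118)) (nd (nat_lit 164) (nat_lit 0) (cs (lf (nat_lit 17) (nat_lit 161)) (nd (nat_lit 182) (nat_lit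 0) (cs (lf (nat_lit 41) (nat_lit 116)) (nd (nat_lit 180) (nat_lit 0) (cs (lf (nat_lit 13) (nat_lit 158)) (rf (nat_lit 8)))))))))))))) (cs (nd (nat_lit 184) (nat_lit 0) (cs (lf (nat_lit 42) (nat_lit 117)) (nd (nat_lit 94) (nat_lit 0) (cs (lf (nat_lit 46) (nat_lit 94)) (nd (nat_lit 118) (nat_lit 0) (cs (lf (nat_lit 35) (nat_lit 95)) (nd (nat_lit 119) (nat_lit 0) (cs (lf (nat_lit 35) (nat_lit 96)) (nd (nat_lit 120) (nat_lit 0) (cs (lf (nat_lit 6) (nat_lit 117)) (nd (nat_lit 142) (nat_lit 0) (cs (lf (nat_lit 5) (nat_lit 117)) (nd (nat_lit 182) (nat_lit 0) (cs (lf (nat_lit 41) (nat_lit 116)) (nd (nat_lit 185) (nat_lit 0) (cs (lf (nat_lit 4) (nat_lit 182)) (nd (nat_lit 164) (nat_lit 0) (cs (lf (nat_lit 17) (nat_lit 161)) (lf (nat_lit 46) (nat_lit 119)))))))))))))))))))) (nd (nat_lit 116) (nat_lit 0) (cs (lf (nat_lit 47) (nat_lit 94)) (nd (nat_lit 141) (nat_lit 0) (cs (lf (nat_lit 18) (nat_lit 116)) (rf (nat_lit 9)))))))))))))))))))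 q39886 (by decide +kernel)
def q39941 : Q := Q.p (nat_lit 0x10000040000060000080000000000000000000000000000000000) (nat_lit 0x300001c0000f00003f000380000170000700001c00007000014000000000000) (nat_lit 13)
theorem c39941 : QOK q39941 := cut [q36614, q36626, q39826, q37115, q39833, q39891, q39718, q36535, q36625, q36633, q38241] ⟨c36614, c36626, c39826, c37115, c39833, c39891, c39718, c36535, c36625, c36633, c38241, trivial⟩ (nd (nat_lit 117) (nat_lit 0) (cs (rf (nat_lit 0)) (cs (rf (nat_lit 1)) (cs (rf (nat_lit 2)) (cs (nd (nat_lit 183) (nat_lit 0) (cs (rf (nat_lit 3)) (cs (rf (nat_lit 4)) (cs (rf (nat_lit 5)) (nd (nat_lit 184) (nat_lit 0) (cs (lf (nat_lit 29) (nat_lit 117)) (nd (nat_lit 94) (nat_lit 0) (cs (lf (nat_lit 46) (nat_lit 94)) (nd (nat_lit 118) (nat_lit 0) (cs (lf (nat_lit 35) (nat_lit 95)) (nd (nat_lit 140) (nat_lit 0) (cs (lf (nat_lit 41) (nat_lit 117)) (nd (nat_lit 185) (nat_lit 0) (cs (lf (nat_lit 29) (nat_lit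 118)) (rf (nat_lit 6)))))))))))))))) (nd (nat_lit 95) (nat_lit 0) (cs (rf (nat_lit 7)) (cs (rf (nat_lit 8)) (cs (rf (nat_lit 9)) (nd (nat_lit 72) (nat_lit 0) (cs (lf (nat_lit 46) (nat_lit 72)) (nd (nat_lit 96) (nat_lit 0) (cs (lf (nat_lit 35) (nat_lit 73)) (nd (nat_lit 183) (nat_lit 0) (cs (lf (nat_lit 34) (nat_lit 95)) (nd (nat_lit 204) (nat_lit 0) (cs (lf (nat_lit 40) (nat_lit 116)) (nd (nat_lit 205) (nat_lit 0) (cs (lf (nat_lit 41) (nat_lit 138)) (nd (nat_lit 140) (nat_lit 0) (cs (lf (nat_lit 30) (nat_lit 139)) (nd (nat_lit 206) (nat_lit 0) (cs (lf (nat_lit 29) (nat_lit 139)) (nd (nat_lit 185) (nat_lit 0) (cs (lf (nat_lit 15) (nat_lit 182)) (rf (nat_lit 10))))))))))))))))))))))))))) q39941 (by decide +kernel)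
def q40011 : Q := Q.p (nat_lit 0x10000048000060000000000000000000000000000000000000000) (nat_lit 0x700003c0000fc000340000000001c0000700001c00005000000000000000000) (nat_lit 9)
theorem c40011 : QOK q40011 := cut [q36506, q38954, q37301, q35428, q37220] ⟨c36506, c38954, c37301, c35428, c37220, trivial⟩ (nd (nat_lit 205) (nat_lit 0) (cs (rf (nat_lit 0)) (cs (rf (nat_lit 1)) (cs (nd (nat_lit 204) (nat_lit 0) (cs (rf (nat_lit 2)) (cs (nd (nat_lit 184) (nat_lit 0) (cs (lf (nat_lit 7) (nat_lit 182)) (nd (nat_lit 227) (nat_lit 0) (cs (lf (nat_lit 30) (nat_lit 161)) (nd (nat_lit 228) (nat_lit 0) (cs (lf (nat_lit 29) (nat_lit 161)) (nd (nat_lit 202) (nat_lit 0) (cs (nd (nat_lit 139) (nat_lit 0) (cs (lf (nat_lit 43) (nat_lit 139)) (rf (nat_lit 3)))) (lf (nat_lit 1) (nat_lit 202)))))))))) (nd (nat_lit 184) (nat_lit 0) (cs (lf (nat_lit 7) (nat_lit 182)) (nd (nat_lit 227) (nat_lit 0) (cs (lf (nat_lit 30) (nat_lit 161)) (nd (nat_lit 228)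 (nat_lit 0) (cs (lf (nat_lit 29) (nat_lit 161)) (nd (nat_lit 202) (nat_lit 0) (cs (rf (nat_lit 4)) (lf (nat_lit 1) (nat_lit 202))))))))))))) (nd (nat_lit 227) (nat_lit 0) (cs (lf (nat_lit 35) (nat_lit 139)) (nd (nat_lit 226) (nat_lit 0) (cs (lf (nat_lit 41) (nat_lit 160)) (nd (nat_lit 139) (nat_lit 0) (cs (lf (nat_lit 40) (nat_lit 138)) (nd (nat_lit 206) (nat_lit 0) (cs (lf (nat_lit 29) (nat_lit 139)) (lf (nat_lit 7) (nat_lit 204)))))))))))))) q40011 (by decide +kernel)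
def q40014 : Q := Q.p (nat_lit 0x10000058000060000000000000000000000000000000000000000) (nat_lit 0x1800006000000000118000f80000e0000380000a000000000000000000) (nat_lit 6)
theorem c40014 : QOK q40014 := cut [q33314, q35165, q35402] ⟨c33314, c35165, c35402, trivial⟩ (nd (nat_lit 140) (nat_lit 0) (cs (rf (nat_lit 0)) (cs (rf (nat_lit 1)) (rf (nat_lit 2))))) q40014 (by decide +kernel)
def q40033 : Q := Q.p (nat_lit 0x70000000000000000000000000000000000000000) (nat_lit 0x280001b80008e0003f8000100000400000000000000000000000) (nat_lit 8)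
theorem c40033 : QOK q40033 := cut [q36946, q38278, q40032] ⟨c36946, c38278, c40032, trivial⟩ (nd (nat_lit 159) (nat_lit 0) (cs (rf (nat_lit 0)) (cs (rf (nat_lit 1)) (rf (nat_lit 2))))) q40033 (by decide +kernel)
def q40166 : Q := Q.p (nat_lit 0x10000000000070000000000000000000000000000000000000000) (nat_lit 0x1e0000fc0001f80018c000fc0001fe0003e00009800000000000000000) (nat_lit 13)
theorem c40166 : QOK q40166 := cut [q24027, q40139, q24019, q40092, q40117, q40145, q40124, q38218] ⟨c24027, c40139, c24019, c40092, c40117, c40145, c40124, c38218, trivial⟩ (nd (nat_lit 182) (nat_lit 0) (cs (rf (nat_lit 0)) (cs (rf (nat_lit 1)) (cs (nd (nat_lit 181) (nat_lit 0) (cs (rf (nat_lit 2)) (cs (nd (nat_lit 139) (nat_lit 0) (cs (rf (nat_lit 3)) (cs (rf (nat_lit 4)) (cs (nd (nat_lit 138) (nat_lit 0) (cs (nd (nat_lit 204) (nat_lit 0) (cs (lf (nat_lit 30) (nat_lit 138)) (nd (nat_lit 205) (nat_lit 0) (cs (lf (nat_lit 29) (nat_lit 138)) (nd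 (nat_lit 206) (nat_lit 0) (cs (lf (nat_lit 18) (nat_lit 181)) (nd (nat_lit 228) (nat_lit 0) (cs (lf (nat_lit 44) (nat_lit 139)) (lf (nat_lit 26) (nat_lit 139)))))))))) (nd (nat_lit 116) (nat_lit 0) (cs (lf (nat_lit 41) (nat_lit 115)) (rf (nat_lit 5)))))) (nd (nat_lit 116) (nat_lit 0) (cs (nd (nat_lit 117) (nat_lit 0) (cs (lf (nat_lit 36) (nat_lit 94)) (nd (nat_lit 183) (nat_lit 0) (cs (lf (nat_lit 47) (nat_lit 94)) (rf (nat_lit 6)))))) (cs (nd (nat_lit 117) (nat_lit 0) (cs (lf (nat_lit 36) (nat_lit 94)) (nd (nat_lit 138) (nat_lit 0) (cs (lf (nat_lit 41) (nat_lit 115)) (nd (nat_lit 183) (nat_lit 0) (cs (lf (nat_lit 42) (nat_lit 116)) (nd (nat_lit 96) (nat_lit 0) (cs (lf (nat_lit 34) (nat_lit 95)) (nd (nat_lit 184) (nat_lit 0) (cs (lf (nat_lit 29) (nat_lit 117)) (nd (nat_lit 158) (nat_lit 0) (cs (lf (nat_lit 1) (nat_lit 158)) (nd (nat_lit 115) (nat_lit 0) (cs (lf (nat_lit 47) (nat_lit 93)) (nd (nat_lit 114) (nat_lit 0) (cs (lf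 (nat_lit 0) (nat_lit 113)) (lf (nat_lit 5) (nat_lit 114)))))))))))))))))) (nd (nat_lit 138) (nat_lit 0) (cs (lf (nat_lit 41) (nat_lit 115)) (rf (nat_lit 5))))))))))) (nd (nat_lit 180) (nat_lit 0) (cs (lf (nat_lit 12) (nat_lit 157)) (lf (nat_lit 15) (nat_lit 158))))))) (nd (nat_lit 163) (nat_lit 0) (cs (lf (nat_lit 11) (nat_lit 159)) (nd (nat_lit 142) (nat_lit 0) (cs (lf (nat_lit 16) (nat_lit 138)) (rf (nat_lit 7)))))))))) q40166 (by decide +kernel)
def q40188 : Q := Q.p (nat_lit 0x10000040000070000100000000000000000000000000000000000) (nat_lit 0x4000010000108000e00000c00002000008000000000000000000) (nat_lit 6)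
theorem c40188 : QOK q40188 := cut [q36164] ⟨c36164, trivial⟩ (nd (nat_lit 141) (nat_lit 0) (cs (lf (nat_lit 12) (nat_lit 137)) (nd (nat_lit 142) (nat_lit 0) (cs (lf (nat_lit 6) (nat_lit 139)) (rf (nat_lit 0)))))) q40188 (by decide +kernel)
def q40538 : Q := Q.p (nat_lit 0x100000c00001000004000000000000000000000000000000000000000000000000000) (nat_lit 0x20000020000380000e0000200000000000000000000000000000000000) (nat_lit 5)
theorem c40538 : QOK q40538 := cut [q17192] ⟨c17192, trivial⟩ (nd (nat_lit 183) (nat_lit 0) (cs (lf (nat_lit 46) (nat_lit 183)) (rf (nat_lit 0)))) q40538 (by decide +kernel)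
def q40552 : Q := Q.p (nat_lit 0x3800000000010000040000000000000000000000000000000000000000000000) (nat_lit 0x200000800003c000060001fc00004000010000000000000000000000000000000000000000000000) (nat_lit 8)
theorem c40552 : QOK q40552 := cut [q2065, q14768, q40551] ⟨c2065, c14768, c40551, trivial⟩ (nd (nat_lit 250) (nat_lit 0) (cs (rf (nat_lit 0)) (cs (nd (nat_lit 273) (nat_lit 0) (cs (lf (nat_lit 38) (nat_lit 185)) (nd (nat_lit 271) (nat_lit 0) (cs (lf (nat_lit 10) (nat_lit 249)) (nd (nat_lit 231) (nat_lit 0) (cs (lf (nat_lit 17) (nat_lit 228)) (rf (nat_lit 1)))))))) (rf (nat_lit 2))))) q40552 (by decide +kernel)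
def q40593 : Q := Q.p (nat_lit 0x3c00000000000000000000000000000000000000000000000000000000000000) (nat_lit 0x7f0000380018e00000000000000000000000000000000000000000000000000000000) (nat_lit 8)
theorem c40593 : QOK q40593 := cut [q3762, q11143, q40586] ⟨c3762, c11143, c40586, trivial⟩ (nd (nat_lit 249) (nat_lit 0) (cs (rf (nat_lit 0)) (cs (rf (nat_lit 1)) (cs (nd (nat_lit 231) (nat_lit 0) (cs (lf (nat_lit 17) (nat_lit 228)) (rf (nat_lit 2)))) (nd (nat_lit 272) (nat_lit 0) (cs (lf (nat_lit 11) (nat_lit 249)) (nd (nat_lit 231) (nat_lit 0) (cs (lf (nat_lit 17) (nat_lit 228)) (nd (nat_lit 226) (nat_lit 0) (cs (lf (nat_lit 22) (nat_lit 226)) (nd (nat_lit 248) (nat_lit 0) (cs (lf (nat_lit 23) (nat_lit 225)) (nd (nat_lit 273) (nat_lit 0) (cs (lf (nat_lit 0) (nat_lit 247)) (lf (nat_lit 5) (nat_lit 248)))))))))))))))) q40593 (by decide +kernel)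
def q40601 : Q := Q.p (nat_lit 0x3c0000000000c000000000000000000000000000000000000000000000000000) (nat_lit 0x80000380000000019000000000030000000000000000000000000000000000000000000000) (nat_lit 5)
theorem c40601 : QOK q40601 := cut [q40600] ⟨c40600, trivial⟩ (nd (nat_lit 231) (nat_lit 0) (cs (lf (nat_lit 17) (nat_lit 228)) (rf (nat_lit 0)))) q40601 (by decide +kernel)
def q40739 : Q := Q.p (nat_lit 0x3c00000000000000000000000000000000000000000000000000000000000000) (nat_lit 0xee0000300019c00000000000000000000000000000000000000000000000000000000) (nat_lit 7)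
theorem c40739 : QOK q40739 := cut [q40738] ⟨c40738, trivial⟩ (nd (nat_lit 231) (nat_lit 0) (cs (lf (nat_lit 17) (nat_lit 228)) (rf (nat_lit 0)))) q40739 (by decide +kernel)

end Crest.Agent.H3.Snaky.CR
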