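import Crest.Agent.H3.Snaky.Cert
import Crest.Agent.H3.Snaky.CR.CR0
import Crest.Agent.H3.Snaky.CR.CR1
import Crest.Agent.H3.Snaky.CR.CR2
import Crest.Agent.H3.Snaky.CR.CR3
import Crest.Agent.H3.Snaky.CR.CR4
import Crest.Agent.H3.Snaky.CR.CR5
import Crest.Agent.H3.Snaky.CR.CR6
import Crest.Agent.H3.Snaky.CR.CR7
import Crest.Agent.H3.Snaky.CR.CR8
import Crest.Agent.H3.Snaky.CR.CR9
import Crest.Agent.H3.Snaky.CR.CR10
import Crest.Agent.H3.Snaky.CR.CR11
import Crest.Agent.H3.Snaky.CR.CR12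
import Crest.Agent.H3.Snaky.CR.CR13
import Crest.Agent.H3.Snaky.CR.CR20
import Crest.Agent.H3.Snaky.CR.CR21
import Crest.Agent.H3.Snaky.CR.CR22
import Crest.Agent.H3.Snaky.CR.CR23
import Crest.Agent.H3.Snaky.CR.CR24
import Crest.Agent.H3.Snaky.CR.CR25
import Crest.Agent.H3.Snaky.CR.CR26
import Crest.Agent.H3.Snaky.CR.CR27
import Crest.Agent.H3.Snaky.CR.CR28
import Crest.Agent.H3.Snaky.CR.CR29
import Crest.Agent.H3.Snaky.CR.CR30
import Crest.Agent.H3.Snaky.CR.CR39
import Crest.Agent.H3.Snaky.CR.CR40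
import Crest.Agent.H3.Snaky.CR.CR41
import Crest.Agent.H3.Snaky.CR.CR42
import Crest.Agent.H3.Snaky.CR.CR43
import Crest.Agent.H3.Snaky.CR.CR44
import Crest.Agent.H3.Snaky.CR.CR45

set_option autoImplicit false
set_option maxRecDepth 100000

namespace Crest.Agent.H3.Snaky.CR

open T

def q40944 : Q := Q.p (nat_lit 0x1600000800010000040000000000000000000000000000000000000000000000) (nat_lit 0x1e0000780003780009e000078000fe0003f00007c000000000000000000000000000000000000000) (nat_lit 14)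
theorem c40944 : QOK q40944 := cut [q40863, q40865, q40868, q40873, q40876, q40883, q40880, q40888, q40892, q40900, q40908, q40931, q40933] ⟨c40863, c40865, c40868, c40873, c40876, c40883, c40880, c40888, c40892, c40900, c40908, c40931, c40933, trivial⟩ (nd (nat_lit 226) (nat_lit 0) (cs (lf (nat_lit 19) (nat_lit 226)) (nd (nat_lit 248) (nat_lit 0) (cs (nd (nat_lit 247) (nat_lit 0) (cs (rf (nat_lit 0)) (cs (rf (nat_lit 1)) (nd (nat_lit 269) (nat_lit 0) (cs (lf (nat_lit 11) (nat_lit 246)) (nd (nat_lit 224) (nat_lit 0) (cs (lf (nat_lit 22) (nat_lit 224)) (nd (nat_lit 204) (nat_lit 0) (cs (lf (nat_lit 36) (nat_lit 181)) (rf (nat_lit 2))))))))))) (cs (nd (nat_lit 270) (nat_lit 0) (cs (rf (nat_lit 3)) (nd (nat_lit 204) (nat_lit 0) (cs (rf (nat_lit 4)) (nd (nat_lit 269) (nat_lit 0) (cs (lf (nat_lit 41) (nat_lit 203)) (rf (nat_lit 5)))))))) (cs (nd (nat_lit 224) (nat_lit 0) (cs (lf (nat_lit 1) (nat_lit 224)) (nd (nat_lit 270) (nat_lit 0) (cs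 (rf (nat_lit 3)) (cs (rf (nat_lit 6)) (nd (nat_lit 204) (nat_lit 0) (cs (rf (nat_lit 4)) (cs (nd (nat_lit 205) (nat_lit 0) (cs (lf (nat_lit 35) (nat_lit 182)) (nd (nat_lit 206) (nat_lit 0) (cs (lf (nat_lit 7) (nat_lit 204)) (rf (nat_lit 7)))))) (rf (nat_lit 8)))))))))) (cs (nd (nat_lit 247) (nat_lit 0) (cs (rf (nat_lit 0)) (cs (rf (nat_lit 1)) (nd (nat_lit 225) (nat_lit 0) (cs (lf (nat_lit 0) (nat_lit 224)) (nd (nat_lit 272) (nat_lit 0) (cs (lf (nat_lit 5) (nat_lit 247)) (nd (nat_lit 294) (nat_lit 0) (cs (lf (nat_lit 42) (nat_lit 227)) (nd (nat_lit 183) (nat_lit 0) (cs (lf (nat_lit 25) (nat_lit 183)) (nd (nat_lit 269) (nat_lit 0) (cs (lf (nat_lit 11) (nat_lit 246)) (rf (nat_lit 9))))))))))))))) (cs (nd (nat_lit 247) (nat_lit 0) (cs (rf (nat_lit 0)) (cs (rf (nat_lit 1)) (nd (nat_lit 272) (nat_lit 0) (cs (lf (nat_lit 5) (nat_lit 247)) (nd (nat_lit 294) (nat_lit 0) (cs (lf (nat_lit 42) (nat_lit 227)) (nd (nat_lit 183) (nat_lit 0) (cs (lf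 (nat_lit 25) (nat_lit 183)) (nd (nat_lit 225) (nat_lit 0) (cs (lf (nat_lit 23) (nat_lit 224)) (rf (nat_lit 10))))))))))))) (nd (nat_lit 224) (nat_lit 0) (cs (lf (nat_lit 1) (nat_lit 224)) (nd (nat_lit 204) (nat_lit 0) (cs (nd (nat_lit 182) (nat_lit 0) (cs (lf (nat_lit 24) (nat_lit 160)) (nd (nat_lit 161) (nat_lit 0) (cs (lf (nat_lit 34) (nat_lit 160)) (nd (nat_lit 181) (nat_lit 0) (cs (lf (nat_lit 47) (nat_lit 159)) (nd (nat_lit 203) (nat_lit 0) (cs (lf (nat_lit 42) (nat_lit 181)) (nd (nat_lit 202) (nat_lit 0) (cs (lf (nat_lit 0) (nat_lit 201)) (nd (nat_lit 246) (nat_lit 0) (cs (lf (nat_lit 30) (nat_lit 180)) (nd (nat_lit 247) (nat_lit 0) (cs (lf (nat_lit 23) (nat_lit 223)) (lf (nat_lit 12) (nat_lit 223)))))))))))))))) (cs (nd (nat_lit 182) (nat_lit 0) (cs (lf (nat_lit 24) (nat_lit 160)) (nd (nat_lit 181) (nat_lit 0) (cs (lf (nat_lit 47) (nat_lit 159)) (nd (nat_lit 203) (nat_lit 0) (cs (lf (nat_lit 42) (nat_lit 181)) (nd (nat_lit 202)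 (nat_lit 0) (cs (lf (nat_lit 0) (nat_lit 201)) (nd (nat_lit 246) (nat_lit 0) (cs (lf (nat_lit 30) (nat_lit 180)) (nd (nat_lit 223) (nat_lit 0) (cs (lf (nat_lit 20) (nat_lit 223)) (lf (nat_lit 6) (nat_lit 201)))))))))))))) (cs (nd (nat_lit 205) (nat_lit 0) (cs (nd (nat_lit 206) (nat_lit 0) (cs (lf (nat_lit 7) (nat_lit 204)) (nd (nat_lit 270) (nat_lit 0) (cs (lf (nat_lit 30) (nat_lit 204)) (rf (nat_lit 7)))))) (rf (nat_lit 11)))) (cs (nd (nat_lit 182) (nat_lit 0) (cs (lf (nat_lit 24) (nat_lit 160)) (nd (nat_lit 159) (nat_lit 0) (cs (lf (nat_lit 46) (nat_lit 159)) (nd (nat_lit 183) (nat_lit 0) (cs (lf (nat_lit 35) (nat_lit 160)) (nd (nat_lit 205) (nat_lit 0) (cs (lf (nat_lit 29) (nat_lit 183)) (rf (nat_lit 12)))))))))) (nd (nat_lit 182) (nat_lit 0) (cs (lf (nat_lit 24) (nat_lit 160)) (nd (nat_lit 183) (nat_lit 0) (cs (lf (nat_lit 35) (nat_lit 160)) (nd (nat_lit 205) (nat_lit 0) (cs (lf (nat_lit 29) (nat_lit 183)) (lf (nat_lit 30) (nat_lit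 182))))))))))))))))))))))) q40944 (by decide +kernel)
def q40981 : Q := Q.p (nat_lit 0x600000800012000040000000000000000000000000000000000000000000000) (nat_lit 0x600007c00007c0003c00001c000040000d000094000000000000000000000000000000000000000000000) (nat_lit 12)
theorem c40981 : QOK q40981 := cut [q40959, q40977, q40980] ⟨c40959, c40977, c40980, trivial⟩ (nd (nat_lit 271) (nat_lit 0) (cs (rf (nat_lit 0)) (cs (nd (nat_lit 182) (nat_lit 0) (cs (lf (nat_lit 46) (nat_lit 182)) (rf (nat_lit 1)))) (rf (nat_lit 2))))) q40981 (by decide +kernel)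
def q41106 : Q := Q.p (nat_lit 0x400000800012000040000000000000000000000000000000000000000000000) (nat_lit 0x680007e0000fc0003f00003c000370000dc000b70000dc000370000000000000000000000000000000000) (nat_lit 14)
theorem c41106 : QOK q41106 := cut [q40979, q3222, q23759, q41036, q26704, q41047, q41049, q41052, q41056, q41063, q41064, q41093, q40977, q27743, q26953, q41105] ⟨c40979, c3222, c23759, c41036, c26704, c41047, c41049, c41052, c41056, c41063, c41064, c41093, c40977, c27743, c26953, c41105, trivial⟩ (nd (nat_lit 206) (nat_lit 0) (cs (rf (nat_lit 0)) (cs (nd (nat_lit 187) (nat_lit 0) (cs (lf (nat_lit 14) (nat_lit 183)) (nd (nat_lit 184) (nat_lit 0) (cs (lf (nat_lit 8) (nat_lit 183)) (nd (nat_lit 162) (nat_lit 0) (cs (rf (nat_lit 1)) (lf (nat_lit 36) (nat_lit 139)))))))) (cs (nd (nat_lit 249) (nat_lit 0) (cs (rf (nat_lit 2)) (cs (nd (nat_lit 228) (nat_lit 0) (cs (rf (nat_lit 3)) (nd (nat_lit 225) (nat_lit 0) (cs (nd (nat_lit 272) (nat_lit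 0) (cs (lf (nat_lit 42) (nat_lit 205)) (nd (nat_lit 273) (nat_lit 0) (cs (lf (nat_lit 29) (nat_lit 206)) (nd (nat_lit 247) (nat_lit 0) (cs (lf (nat_lit 1) (nat_lit 247)) (nd (nat_lit 226) (nat_lit 0) (cs (lf (nat_lit 11) (nat_lit 224)) (lf (nat_lit 12) (nat_lit 202)))))))))) (cs (nd (nat_lit 272) (nat_lit 0) (cs (lf (nat_lit 42) (nat_lit 205)) (nd (nat_lit 273) (nat_lit 0) (cs (lf (nat_lit 29) (nat_lit 206)) (nd (nat_lit 247) (nat_lit 0) (cs (lf (nat_lit 1) (nat_lit 247)) (nd (nat_lit 226) (nat_lit 0) (cs (lf (nat_lit 11) (nat_lit 224)) (nd (nat_lit 203) (nat_lit 0) (cs (lf (nat_lit 23) (nat_lit 202)) (nd (nat_lit 204) (nat_lit 0) (cs (lf (nat_lit 18) (nat_lit 203)) (rf (nat_lit 4)))))))))))))) (cs (nd (nat_lit 203) (nat_lit 0) (cs (rf (nat_lit 5)) (cs (nd (nat_lit 247) (nat_lit 0) (cs (nd (nat_lit 181) (nat_lit 0) (cs (rf (nat_lit 6)) (cs (nd (nat_lit 272) (nat_lit 0) (cs (lf (nat_lit 42) (nat_lit 205)) (rf (nat_lit 7)))) (nd (nat_lit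 268) (nat_lit 0) (cs (lf (nat_lit 40) (nat_lit 180)) (nd (nat_lit 158) (nat_lit 0) (cs (lf (nat_lit 46) (nat_lit 158)) (nd (nat_lit 294) (nat_lit 0) (cs (nd (nat_lit 269) (nat_lit 0) (cs (lf (nat_lit 41) (nat_lit 202)) (rf (nat_lit 8)))) (lf (nat_lit 43) (nat_lit 205))))))))))) (cs (rf (nat_lit 9)) (rf (nat_lit 10))))) (nd (nat_lit 204) (nat_lit 0) (cs (lf (nat_lit 0) (nat_lit 202)) (lf (nat_lit 5) (nat_lit 203))))))) (cs (nd (nat_lit 226) (nat_lit 0) (cs (lf (nat_lit 12) (nat_lit 202)) (nd (nat_lit 203) (nat_lit 0) (cs (lf (nat_lit 23) (nat_lit 202)) (nd (nat_lit 272) (nat_lit 0) (cs (lf (nat_lit 42) (nat_lit 205)) (nd (nat_lit 204) (nat_lit 0) (cs (lf (nat_lit 5) (nat_lit 203)) (nd (nat_lit 181) (nat_lit 0) (cs (lf (nat_lit 23) (nat_lit 180)) (nd (nat_lit 159) (nat_lit 0) (cs (lf (nat_lit 24) (nat_lit 137)) (lf (nat_lit 29) (nat_lit 159)))))))))))))) (nd (nat_lit 226) (nat_lit 0) (cs (lf (nat_lit 12) (nat_lit 202)) (nd (nat_lit 203)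 (nat_lit 0) (cs (lf (nat_lit 23) (nat_lit 202)) (nd (nat_lit 246) (nat_lit 0) (cs (lf (nat_lit 10) (nat_lit 224)) (nd (nat_lit 204) (nat_lit 0) (cs (lf (nat_lit 5) (nat_lit 203)) (nd (nat_lit 181) (nat_lit 0) (cs (lf (nat_lit 23) (nat_lit 180)) (nd (nat_lit 160) (nat_lit 0) (cs (nd (nat_lit 159) (nat_lit 0) (cs (lf (nat_lit 24) (nat_lit 137)) (lf (nat_lit 35) (nat_lit 137)))) (lf (nat_lit 25) (nat_lit 160))))))))))))))))))))) (cs (nd (nat_lit 271) (nat_lit 0) (cs (lf (nat_lit 35) (nat_lit 183)) (rf (nat_lit 11)))) (nd (nat_lit 271) (nat_lit 0) (cs (rf (nat_lit 12)) (cs (rf (nat_lit 11)) (cs (nd (nat_lit 228) (nat_lit 0) (cs (lf (nat_lit 30) (nat_lit 205)) (nd (nat_lit 272) (nat_lit 0) (cs (lf (nat_lit 42) (nat_lit 205)) (nd (nat_lit 273) (nat_lit 0) (cs (lf (nat_lit 29) (nat_lit 206)) (nd (nat_lit 247) (nat_lit 0) (cs (lf (nat_lit 1) (nat_lit 247)) (rf (nat_lit 13)))))))))) (nd (nat_lit 182) (nat_lit 0) (cs (lf (nat_lit 46) (nat_lit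 182)) (rf (nat_lit 14)))))))))))) (rf (nat_lit 15)))))) q41106 (by decide +kernel)
def q41172 : Q := Q.p (nat_lit 0x400000800002000008000000000000000000000000000000000000000000000) (nat_lit 0x1000014000010000000000300000c0000100000000000000000000000000000) (nat_lit 5)
theorem c41172 : QOK q41172 := cut [q37791] ⟨c37791, trivial⟩ (nd (nat_lit 161) (nat_lit 0) (cs (lf (nat_lit 28) (nat_lit 161)) (rf (nat_lit 0)))) q41172 (by decide +kernel)
def q41297 : Q := Q.p (nat_lit 0x3400000800010000040000000000000000000000000000000000000000000000) (nat_lit 0x280000f00003e00009f000378000fe000be0000f8000380000a00000000000000000000000000000) (nat_lit 13)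
theorem c41297 : QOK q41297 := cut [q41242, q37535, q41250, q12154, q41254, q41272, q27512, q3392, q26597, q27847, q17318, q2658, q17947, q10708, q41295] ⟨c41242, c37535, c41250, c12154, c41254, c41272, c27512, c3392, c26597, c27847, c17318, c2658, c17947, c10708, c41295, trivial⟩ (nd (nat_lit 228) (nat_lit 0) (cs (lf (nat_lit 20) (nat_lit 227)) (nd (nat_lit 226) (nat_lit 0) (cs (rf (nat_lit 0)) (cs (nd (nat_lit 225) (nat_lit 0) (cs (rf (nat_lit 1)) (cs (rf (nat_lit 2)) (cs (nd (nat_lit 205) (nat_lit 0) (cs (nd (nat_lit 246) (nat_lit 0) (cs (lf (nat_lit 10) (nat_lit 224)) (nd (nat_lit 224) (nat_lit 0) (cs (lf (nat_lit 11) (nat_lit 223)) (lf (nat_lit 17) (nat_lit 202)))))) (cs (nd (nat_lit 272) (nat_lit 0) (cs (lf (nat_lit 42) (nat_lit 205)) (rf (nat_lit 3)))) (nd (nat_lit 272) (nat_lit 0) (cs (lf (nat_lit 42) (nat_lit 205)) (nd (nat_lit 161) (nat_lit 0) (cs (nd (nat_lit 247) (nat_lit 0) (cs (lf (nat_lit 11) (nat_lit 224)) (nd (nat_lit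 248) (nat_lit 0) (cs (lf (nat_lit 6) (nat_lit 225)) (nd (nat_lit 270) (nat_lit 0) (cs (lf (nat_lit 30) (nat_lit 204)) (nd (nat_lit 271) (nat_lit 0) (cs (lf (nat_lit 18) (nat_lit 247)) (nd (nat_lit 204) (nat_lit 0) (cs (lf (nat_lit 29) (nat_lit 204)) (rf (nat_lit 4)))))))))))) (lf (nat_lit 25) (nat_lit 161))))))))) (rf (nat_lit 5)))))) (cs (nd (nat_lit 206) (nat_lit 0) (cs (rf (nat_lit 6)) (cs (nd (nat_lit 207) (nat_lit 0) (cs (lf (nat_lit 12) (nat_lit 203)) (rf (nat_lit 7)))) (cs (nd (nat_lit 205) (nat_lit 0) (cs (lf (nat_lit 7) (nat_lit 204)) (rf (nat_lit 8)))) (nd (nat_lit 184) (nat_lit 0) (cs (rf (nat_lit 9)) (cs (nd (nat_lit 163) (nat_lit 0) (cs (lf (nat_lit 34) (nat_lit 162)) (nd (nat_lit 162) (nat_lit 0) (cs (lf (nat_lit 35) (nat_lit 140)) (rf (nat_lit 10)))))) (cs (nd (nat_lit 163) (nat_lit 0) (cs (lf (nat_lit 34) (nat_lit 162)) (nd (nat_lit 162) (nat_lit 0) (cs (lf (nat_lit 35) (nat_lit 140)) (nd (nat_lit 139) (nat_lit 0) (cs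 (lf (nat_lit 46) (nat_lit 139)) (nd (nat_lit 140) (nat_lit 0) (cs (lf (nat_lit 47) (nat_lit 117)) (lf (nat_lit 40) (nat_lit 139)))))))))) (cs (nd (nat_lit 161) (nat_lit 0) (cs (lf (nat_lit 46) (nat_lit 161)) (nd (nat_lit 162) (nat_lit 0) (cs (lf (nat_lit 47) (nat_lit 139)) (rf (nat_lit 11)))))) (cs (nd (nat_lit 161) (nat_lit 0) (cs (lf (nat_lit 46) (nat_lit 161)) (nd (nat_lit 162) (nat_lit 0) (cs (lf (nat_lit 47) (nat_lit 139)) (nd (nat_lit 185) (nat_lit 0) (cs (lf (nat_lit 18) (nat_lit 161)) (nd (nat_lit 159) (nat_lit 0) (cs (lf (nat_lit 1) (nat_lit 159)) (nd (nat_lit 205) (nat_lit 0) (cs (lf (nat_lit 36) (nat_lit 139)) (nd (nat_lit 203) (nat_lit 0) (cs (lf (nat_lit 13) (nat_lit 181)) (rf (nat_lit 12)))))))))))))) (nd (nat_lit 163) (nat_lit 0) (cs (lf (nat_lit 34) (nat_lit 162)) (nd (nat_lit 183) (nat_lit 0) (cs (lf (nat_lit 47) (nat_lit 161)) (nd (nat_lit 272) (nat_lit 0) (cs (lf (nat_lit 46) (nat_lit 183)) (rf (nat_lit 13))))))))))))))))))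 (rf (nat_lit 14)))))))) q41297 (by decide +kernel)
def q41336 : Q := Q.p (nat_lit 0x400001c00000000000000000000000000000000000000000000000000000000) (nat_lit 0x100000400003f0002380007e00002000008000000000000000000000000000000000000000) (nat_lit 7)
theorem c41336 : QOK q41336 := cut [q41250, q41272, q41335] ⟨c41250, c41272, c41335, trivial⟩ (nd (nat_lit 225) (nat_lit 0) (cs (rf (nat_lit 0)) (cs (rf (nat_lit 1)) (rf (nat_lit 2))))) q41336 (by decide +kernel)
def q41463 : Q := Q.p (nat_lit 0x3c00000000010000040000000000000000000000000000000000000000000000) (nat_lit 0x700001c0001f00001e0000020001a000008000020000000000000000000000000000000000000000000000) (nat_lit 8)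
theorem c41463 : QOK q41463 := cut [q23007, q41455, q41460, q41430] ⟨c23007, c41455, c41460, c41430, trivial⟩ (nd (nat_lit 275) (nat_lit 0) (cs (lf (nat_lit 5) (nat_lit 250)) (nd (nat_lit 297) (nat_lit 0) (cs (nd (nat_lit 231) (nat_lit 0) (cs (lf (nat_lit 17) (nat_lit 228)) (nd (nat_lit 298) (nat_lit 0) (cs (lf (nat_lit 29) (nat_lit 231)) (nd (nat_lit 296) (nat_lit 0) (cs (lf (nat_lit 41) (nat_lit 230)) (nd (nat_lit 274) (nat_lit 0) (cs (lf (nat_lit 0) (nat_lit 249)) (rf (nat_lit 0)))))))))) (cs (nd (nat_lit 231) (nat_lit 0) (cs (lf (nat_lit 17) (nat_lit 228)) (nd (nat_lit 274) (nat_lit 0) (cs (lf (nat_lit 0) (nat_lit 249)) (rf (nat_lit 1)))))) (cs (rf (nat_lit 2)) (nd (nat_lit 274) (nat_lit 0) (cs (lf (nat_lit 0) (nat_lit 249)) (nd (nat_lit 319) (nat_lit 0) (cs (lf (nat_lit 42) (nat_lit 252)) (nd (nat_lit 318) (nat_lit 0) (cs (lf (nat_lit 41) (nat_lit 252)) (nd (nat_lit 229) (nat_lit 0) (cs (lf (nat_lit 43) (nat_lit 229)) (rf (nat_lit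 3)))))))))))))))) q41463 (by decide +kernel)
def q41523 : Q := Q.p (nat_lit 0x3c00001000010000040000000000000000000000000000000000000000000000) (nat_lit 0x60000000001a00000f8003be000ee0000280000000000000000000000000000000000) (nat_lit 9)
theorem c41523 : QOK q41523 := cut [q2074, q2513, q27848, q527, q41515, q41517, q41522] ⟨c2074, c2513, c27848, c527, c41515, c41517, c41522, trivial⟩ (nd (nat_lit 206) (nat_lit 0) (cs (rf (nat_lit 0)) (cs (rf (nat_lit 1)) (cs (rf (nat_lit 2)) (cs (nd (nat_lit 207) (nat_lit 0) (cs (rf (nat_lit 3)) (cs (nd (nat_lit 231) (nat_lit 0) (cs (lf (nat_lit 17) (nat_lit 228)) (rf (nat_lit 4)))) (rf (nat_lit 5))))) (rf (nat_lit 6))))))) q41523 (by decide +kernel)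
def q41597 : Q := Q.p (nat_lit 0x3e00000000006000000000000000000000000000000000000000000000000000) (nat_lit 0x18e0000180018700001c0003f80007c000070000140000000000000000000000000000) (nat_lit 12)
theorem c41597 : QOK q41597 := cut [q41137, q23811] ⟨c41137, c23811, trivial⟩ (nd (nat_lit 270) (nat_lit 0) (cs (lf (nat_lit 10) (nat_lit 248)) (nd (nat_lit 248) (nat_lit 0) (cs (lf (nat_lit 11) (nat_lit 247)) (nd (nat_lit 225) (nat_lit 0) (cs (lf (nat_lit 22) (nat_lit 225)) (nd (nat_lit 203) (nat_lit 0) (cs (nd (nat_lit 247) (nat_lit 0) (cs (lf (nat_lit 23) (nat_lit 224)) (lf (nat_lit 24) (nat_lit 181)))) (cs (nd (nat_lit 224) (nat_lit 0) (cs (lf (nat_lit 8) (nat_lit 202)) (lf (nat_lit 21) (nat_lit 224)))) (cs (nd (nat_lit 181) (nat_lit 0) (cs (lf (nat_lit 27) (nat_lit 181)) (nd (nat_lit 159) (nat_lit 0) (cs (rf (nat_lit 0)) (cs (nd (nat_lit 180) (nat_lit 0) (cs (nd (nat_lit 182) (nat_lit 0) (cs (lf (nat_lit 3) (nat_lit 180)) (nd (nat_lit 160)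 (nat_lit 0) (cs (lf (nat_lit 35) (nat_lit 137)) (nd (nat_lit 161) (nat_lit 0) (cs (lf (nat_lit 12) (nat_lit 157)) (lf (nat_lit 6) (nat_lit 158)))))))) (lf (nat_lit 20) (nat_lit 180)))) (nd (nat_lit 275) (nat_lit 0) (cs (lf (nat_lit 5) (nat_lit 250)) (nd (nat_lit 158) (nat_lit 0) (cs (lf (nat_lit 47) (nat_lit 136)) (nd (nat_lit 204) (nat_lit 0) (cs (lf (nat_lit 23) (nat_lit 180)) (nd (nat_lit 184) (nat_lit 0) (cs (lf (nat_lit 17) (nat_lit 181)) (nd (nat_lit 183) (nat_lit 0) (cs (lf (nat_lit 12) (nat_lit 180)) (lf (nat_lit 20) (nat_lit 158))))))))))))))))) (nd (nat_lit 231) (nat_lit 0) (cs (lf (nat_lit 17) (nat_lit 228)) (nd (nat_lit 275) (nat_lit 0) (cs (lf (nat_lit 5) (nat_lit 250)) (nd (nat_lit 204) (nat_lit 0) (cs (lf (nat_lit 11) (nat_lit 202)) (rf (nat_lit 1)))))))))))))))))) q41597 (by decide +kernel)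
def q41682 : Q := Q.p (nat_lit 0xc00000000004000010000000000000000000000000000000000000000000000) (nat_lit 0x2800002000010000000000280000e0000280000000000000000000000000000000000) (nat_lit 6)
theorem c41682 : QOK q41682 := cut [q40595] ⟨c40595, trivial⟩ (nd (nat_lit 228) (nat_lit 0) (cs (lf (nat_lit 29) (nat_lit 184)) (rf (nat_lit 0)))) q41682 (by decide +kernel)
def q41761 : Q := Q.p (nat_lit 0xf0000000000000003c00000000010000040000000000000000000000000000000000000000000000) (nat_lit 0x1ce000300001c8000020000000001a000008000000000000000000000000000000000000000000000000000) (nat_lit 9)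
theorem c41761 : QOK q41761 := cut [q41756] ⟨c41756, trivial⟩ (nd (nat_lit 338) (nat_lit 0) (cs (lf (nat_lit 11) (nat_lit 315)) (nd (nat_lit 273) (nat_lit 0) (cs (nd (nat_lit 207) (nat_lit 0) (cs (lf (nat_lit 32) (nat_lit 185)) (nd (nat_lit 320) (nat_lit 0) (cs (lf (nat_lit 10) (nat_lit 316)) (rf (nat_lit 0)))))) (lf (nat_lit 38) (nat_lit 250)))))) q41761 (by decide +kernel)
def q41784 : Q := Q.p (nat_lit 0x3c00000000000000000000000000000000000000000000000000000000000000) (nat_lit 0x1ce0000300000e00000000000000000000000000000000000000000000000000000000) (nat_lit 6)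
theorem c41784 : QOK q41784 := cut [q41783] ⟨c41783, trivial⟩ (nd (nat_lit 275) (nat_lit 0) (cs (lf (nat_lit 5) (nat_lit 250)) (rf (nat_lit 0)))) q41784 (by decide +kernel)
def q41949 : Q := Q.p (nat_lit 0x60000100000000001400000000000000000000000000000000000000000000000000000000000000) (nat_lit 0x1ef80039c000ef00007800003c0000c00000000000000000000000000000000000000000000000000000000) (nat_lit 10)
theorem c41949 : QOK q41949 := cut [q15852, q15854, q41937, q41944] ⟨c15852, c15854, c41937, c41944, trivial⟩ (nd (nat_lit 316) (nat_lit 0) (cs (rf (nat_lit 0)) (cs (rf (nat_lit 1)) (cs (rf (nat_lit 2)) (nd (nat_lit 274) (nat_lit 0) (cs (lf (nat_lit 41) (nat_lit 251)) (nd (nat_lit 319) (nat_lit 0) (cs (lf (nat_lit 29) (nat_lit 252)) (nd (nat_lit 293) (nat_lit 0) (cs (lf (nat_lit 22) (nat_lit 293)) (nd (nat_lit 337) (nat_lit 0) (cs (lf (nat_lit 10) (nat_lit 315)) (rf (nat_lit 3)))))))))))))) q41949 (by decide +kernel)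
def q42004 : Q := Q.p (nat_lit 0x40000300000000002400000000000000000000000000000000000000000000000000000000000000) (nat_lit 0x1c0000700005c00073e000cf0007be0000200008800000000000000000000000000000000000000000000000000000000) (nat_lit 12)
theorem c42004 : QOK q42004 := cut [q41952, q41956, q41960, q41965, q41970, q41955, q41974, q41978, q41985, q12761] ⟨c41952, c41956, c41960, c41965, c41970, c41955, c41974, c41978, c41985, c12761, trivial⟩ (nd (nat_lit 295) (nat_lit 0) (cs (rf (nat_lit 0)) (cs (nd (nat_lit 275) (nat_lit 0) (cs (lf (nat_lit 36) (nat_lit 230)) (rf (nat_lit 1)))) (cs (rf (nat_lit 2)) (cs (nd (nat_lit 316) (nat_lit 0) (cs (nd (nat_lit 315) (nat_lit 0) (cs (lf (nat_lit 14) (nat_lit 293)) (lf (nat_lit 9) (nat_lit 293)))) (cs (nd (nat_lit 294) (nat_lit 0) (cs (lf (nat_lit 11) (nat_lit 293)) (nd (nat_lit 272) (nat_lit 0) (cs (lf (nat_lit 23) (nat_lit 271)) (nd (nat_lit 227) (nat_lit 0) (cs (lf (nat_lit 46) (nat_lit 227)) (nd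 (nat_lit 298) (nat_lit 0) (cs (lf (nat_lit 22) (nat_lit 272)) (rf (nat_lit 3)))))))))) (rf (nat_lit 4))))) (nd (nat_lit 294) (nat_lit 0) (cs (rf (nat_lit 5)) (cs (nd (nat_lit 231) (nat_lit 0) (cs (lf (nat_lit 38) (nat_lit 230)) (nd (nat_lit 271) (nat_lit 0) (cs (lf (nat_lit 22) (nat_lit 271)) (rf (nat_lit 6)))))) (cs (nd (nat_lit 231) (nat_lit 0) (cs (lf (nat_lit 38) (nat_lit 230)) (nd (nat_lit 271) (nat_lit 0) (cs (lf (nat_lit 22) (nat_lit 271)) (nd (nat_lit 293) (nat_lit 0) (cs (lf (nat_lit 23) (nat_lit 270)) (rf (nat_lit 7)))))))) (cs (nd (nat_lit 315) (nat_lit 0) (cs (lf (nat_lit 10) (nat_lit 293)) (rf (nat_lit 8)))) (cs (nd (nat_lit 231) (nat_lit 0) (cs (lf (nat_lit 38) (nat_lit 230)) (nd (nat_lit 316) (nat_lit 0) (cs (lf (nat_lit 11) (nat_lit 293)) (nd (nat_lit 317) (nat_lit 0) (cs (lf (nat_lit 6) (nat_lit 294)) (nd (nat_lit 292) (nat_lit 0) (cs (nd (nat_lit 339) (nat_lit 0) (cs (nd (nat_lit 361) (nat_lit 0) (cs (lf (nat_lit 30)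 (nat_lit 295)) (nd (nat_lit 362) (nat_lit 0) (cs (lf (nat_lit 29) (nat_lit 295)) (nd (nat_lit 273) (nat_lit 0) (cs (lf (nat_lit 28) (nat_lit 273)) (rf (nat_lit 9)))))))) (lf (nat_lit 25) (nat_lit 250)))) (lf (nat_lit 1) (nat_lit 292)))))))))) (nd (nat_lit 272) (nat_lit 0) (cs (lf (nat_lit 23) (nat_lit 271)) (nd (nat_lit 315) (nat_lit 0) (cs (lf (nat_lit 10) (nat_lit 293)) (nd (nat_lit 231) (nat_lit 0) (cs (lf (nat_lit 38) (nat_lit 230)) (nd (nat_lit 298) (nat_lit 0) (cs (lf (nat_lit 22) (nat_lit 272)) (nd (nat_lit 321) (nat_lit 0) (cs (lf (nat_lit 4) (nat_lit 295)) (nd (nat_lit 299) (nat_lit 0) (cs (lf (nat_lit 5) (nat_lit 296)) (lf (nat_lit 11) (nat_lit 295))))))))))))))))))))))))) q42004 (by decide +kernel)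
def q42160 : Q := Q.p (nat_lit 0x40000100000000003000000000000000000000000000000000000000000000000000000000000000) (nat_lit 0x20000f80007e0000fe0007b8000ee0003e00000000000000000000000000000000000000000000000000000000000000000000) (nat_lit 13)
theorem c42160 : QOK q42160 := cut [q42101, q42103, q12842, q14317, q41733, q42115, q42119, q15853, q42151, q42155] ⟨c42101, c42103, c12842, c14317, c41733, c42115, c42119, c15853, c42151, c42155, trivial⟩ (nd (nat_lit 340) (nat_lit 0) (cs (rf (nat_lit 0)) (cs (rf (nat_lit 1)) (cs (nd (nat_lit 297) (nat_lit 0) (cs (nd (nat_lit 275) (nat_lit 0) (cs (lf (nat_lit 39) (nat_lit 252)) (lf (nat_lit 30) (nat_lit 274)))) (cs (nd (nat_lit 319) (nat_lit 0) (cs (lf (nat_lit 37) (nat_lit 252)) (nd (nat_lit 320) (nat_lit 0) (cs (rf (nat_lit 2)) (cs (nd (nat_lit 317) (nat_lit 0) (cs (rf (nat_lit 3)) (cs (rf (nat_lit 4)) (nd (nat_lit 298) (nat_lit 0) (cs (lf (nat_lit 17) (nat_lit 295)) (nd (nat_lit 342) (nat_lit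 0) (cs (lf (nat_lit 5) (nat_lit 317)) (nd (nat_lit 364) (nat_lit 0) (cs (nd (nat_lit 338) (nat_lit 0) (cs (lf (nat_lit 10) (nat_lit 316)) (nd (nat_lit 365) (nat_lit 0) (cs (lf (nat_lit 29) (nat_lit 298)) (nd (nat_lit 363) (nat_lit 0) (cs (lf (nat_lit 41) (nat_lit 297)) (nd (nat_lit 341) (nat_lit 0) (cs (lf (nat_lit 35) (nat_lit 275)) (lf (nat_lit 18) (nat_lit 340)))))))))) (lf (nat_lit 42) (nat_lit 297))))))))))) (rf (nat_lit 5))))))) (cs (nd (nat_lit 362) (nat_lit 0) (cs (nd (nat_lit 363) (nat_lit 0) (cs (lf (nat_lit 29) (nat_lit 296)) (nd (nat_lit 361) (nat_lit 0) (cs (lf (nat_lit 41) (nat_lit 295)) (rf (nat_lit 6)))))) (lf (nat_lit 35) (nat_lit 274)))) (nd (nat_lit 362) (nat_lit 0) (cs (rf (nat_lit 6)) (cs (nd (nat_lit 316) (nat_lit 0) (cs (nd (nat_lit 317) (nat_lit 0) (cs (lf (nat_lit 12) (nat_lit 293)) (rf (nat_lit 7)))) (cs (nd (nat_lit 363) (nat_lit 0) (cs (lf (nat_lit 29) (nat_lit 296)) (nd (nat_lit 361) (nat_lit 0) (cs (lf (nat_lit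 41) (nat_lit 295)) (nd (nat_lit 295) (nat_lit 0) (cs (lf (nat_lit 47) (nat_lit 273)) (nd (nat_lit 294) (nat_lit 0) (cs (lf (nat_lit 11) (nat_lit 293)) (nd (nat_lit 319) (nat_lit 0) (cs (lf (nat_lit 5) (nat_lit 294)) (lf (nat_lit 0) (nat_lit 293)))))))))))) (cs (nd (nat_lit 363) (nat_lit 0) (cs (lf (nat_lit 29) (nat_lit 296)) (nd (nat_lit 361) (nat_lit 0) (cs (lf (nat_lit 41) (nat_lit 295)) (nd (nat_lit 295) (nat_lit 0) (cs (lf (nat_lit 47) (nat_lit 273)) (nd (nat_lit 298) (nat_lit 0) (cs (lf (nat_lit 10) (nat_lit 294)) (nd (nat_lit 276) (nat_lit 0) (cs (lf (nat_lit 17) (nat_lit 273)) (nd (nat_lit 320) (nat_lit 0) (cs (lf (nat_lit 5) (nat_lit 295)) (nd (nat_lit 319) (nat_lit 0) (cs (lf (nat_lit 0) (nat_lit 294)) (lf (nat_lit 31) (nat_lit 275)))))))))))))))) (nd (nat_lit 315) (nat_lit 0) (cs (lf (nat_lit 14) (nat_lit 293)) (nd (nat_lit 295) (nat_lit 0) (cs (lf (nat_lit 9) (nat_lit 293)) (lf (nat_lit 47) (nat_lit 273)))))))))) (nd (nat_lit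 383) (nat_lit 0) (cs (nd (nat_lit 384) (nat_lit 0) (cs (lf (nat_lit 41) (nat_lit 317)) (lf (nat_lit 34) (nat_lit 296)))) (lf (nat_lit 40) (nat_lit 295))))))))))) (nd (nat_lit 362) (nat_lit 0) (cs (rf (nat_lit 8)) (cs (nd (nat_lit 383) (nat_lit 0) (cs (lf (nat_lit 40) (nat_lit 295)) (nd (nat_lit 295) (nat_lit 0) (cs (lf (nat_lit 47) (nat_lit 273)) (nd (nat_lit 384) (nat_lit 0) (cs (lf (nat_lit 41) (nat_lit 317)) (lf (nat_lit 46) (nat_lit 295)))))))) (nd (nat_lit 363) (nat_lit 0) (cs (lf (nat_lit 29) (nat_lit 296)) (nd (nat_lit 274) (nat_lit 0) (cs (lf (nat_lit 28) (nat_lit 274)) (nd (nat_lit 317) (nat_lit 0) (cs (lf (nat_lit 41) (nat_lit 251)) (rf (nat_lit 9))))))))))))))) q42160 (by decide +kernel)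
def q42197 : Q := Q.p (nat_lit 0x40000000000400003400000000000000000000000000000000000000000000000000000000000000) (nat_lit 0x1000003c0000b00018e00000000000000000000000000000000000000000000000000000000) (nat_lit 7)
theorem c42197 : QOK q42197 := cut [q9773] ⟨c9773, trivial⟩ (nd (nat_lit 231) (nat_lit 0) (cs (lf (nat_lit 31) (nat_lit 230)) (nd (nat_lit 251) (nat_lit 0) (cs (lf (nat_lit 17) (nat_lit 228)) (rf (nat_lit 0)))))) q42197 (by decide +kernel)
def q42286 : Q := Q.p (nat_lit 0x40000100000c0000200000000000000000000000000000000000000000000000000000000000000000000000000) (nat_lit 0xee0003b00002e0001000001e0000200000000000000000000000000000000000000000000000000000000000000000000) (nat_lit 7)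
theorem c42286 : QOK q42286 := cut [q42232, q42240, q42285] ⟨c42232, c42240, c42285, trivial⟩ (nd (nat_lit 363) (nat_lit 0) (cs (rf (nat_lit 0)) (cs (rf (nat_lit 1)) (rf (nat_lit 2))))) q42286 (by decide +kernel)
def q42354 : Q := Q.p (nat_lit 0x100000c0000000000000002400000000000000000000000000000000000000000000000000000000000000) (nat_lit 0xa0000280003b8003ee000738001de0003900008000000000000000000000000000000000000000000000000000000000000000) (nat_lit 13)
theorem c42354 : QOK q42354 := cut [q42323, q13222, q42202, q42218, q42336, q42345, q42353] ⟨c42323, c13222, c42202, c42218, c42336, c42345, c42353, trivial⟩ (nd (nat_lit 339) (nat_lit 0) (cs (rf (nat_lit 0)) (cs (nd (nat_lit 320) (nat_lit 0) (cs (rf (nat_lit 1)) (cs (rf (nat_lit 2)) (cs (rf (nat_lit 3)) (nd (nat_lit 317) (nat_lit 0) (cs (nd (nat_lit 342) (nat_lit 0) (cs (lf (nat_lit 5) (nat_lit 317)) (nd (nat_lit 294) (nat_lit 0) (cs (lf (nat_lit 22) (nat_lit 294)) (nd (nat_lit 298)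 (nat_lit 0) (cs (lf (nat_lit 17) (nat_lit 295)) (nd (nat_lit 276) (nat_lit 0) (cs (nd (nat_lit 255) (nat_lit 0) (cs (nd (nat_lit 341) (nat_lit 0) (cs (lf (nat_lit 41) (nat_lit 275)) (nd (nat_lit 364) (nat_lit 0) (cs (lf (nat_lit 5) (nat_lit 339)) (nd (nat_lit 361) (nat_lit 0) (cs (lf (nat_lit 11) (nat_lit 338)) (nd (nat_lit 383) (nat_lit 0) (cs (lf (nat_lit 30) (nat_lit 317)) (lf (nat_lit 35) (nat_lit 295)))))))))) (lf (nat_lit 34) (nat_lit 254)))) (lf (nat_lit 46) (nat_lit 253)))))))))) (cs (nd (nat_lit 298) (nat_lit 0) (cs (lf (nat_lit 17) (nat_lit 295)) (nd (nat_lit 342) (nat_lit 0) (cs (lf (nat_lit 5) (nat_lit 317)) (nd (nat_lit 341) (nat_lit 0) (cs (lf (nat_lit 23) (nat_lit 316)) (rf (nat_lit 4)))))))) (nd (nat_lit 294) (nat_lit 0) (cs (lf (nat_lit 22) (nat_lit 294)) (nd (nat_lit 316) (nat_lit 0) (cs (lf (nat_lit 23) (nat_lit 293)) (lf (nat_lit 25) (nat_lit 250))))))))))))) (cs (rf (nat_lit 5)) (rf (nat_lit 6)))))) q42354 (by decide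 +kernel)
def q42363 : Q := Q.p (nat_lit 0x100000c0000000000000000400000000000000000000000000000000000000000000000000000000000000) (nat_lit 0x80000200001d8003ee000738001fe0000300000000000000000000000000000000000000000000000000000000000000000000) (nat_lit 8)
theorem c42363 : QOK q42363 := cut [q42323, q42345, q42353, q13222, q42202, q42218, q42357, q42360] ⟨c42323, c42345, c42353, c13222, c42202, c42218, c42357, c42360, trivial⟩ (nd (nat_lit 339) (nat_lit 0) (cs (rf (nat_lit 0)) (cs (rf (nat_lit 1)) (cs (rf (nat_lit 2)) (nd (nat_lit 320) (nat_lit 0) (cs (rf (nat_lit 3)) (cs (rf (nat_lit 4)) (cs (rf (nat_lit 5)) (nd (nat_lit 317) (nat_lit 0) (cs (rf (nat_lit 6)) (rf (nat_lit 7)))))))))))) q42363 (by decide +kernel)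
def q42369 : Q := Q.p (nat_lit 0x100000c0000000000000003400000000000000000000000000000000000000000000000000000000000000) (nat_lit 0x3ee000730003e00007800000800000000000000000000000000000000000000000000000000000000000000) (nat_lit 9)
theorem c42369 : QOK q42369 := cut [q13222, q42215, q41732] ⟨c13222, c42215, c41732, trivial⟩ (nd (nat_lit 320) (nat_lit 0) (cs (rf (nat_lit 0)) (cs (rf (nat_lit 1)) (nd (nat_lit 275) (nat_lit 0) (cs (lf (nat_lit 38) (nat_lit 252)) (nd (nat_lit 276) (nat_lit 0) (cs (lf (nat_lit 1) (nat_lit 250)) (nd (nat_lit 277) (nat_lit 0) (cs (lf (nat_lit 18) (nat_lit 252)) (nd (nat_lit 342) (nat_lit 0) (cs (lf (nat_lit 44) (nat_lit 253)) (nd (nat_lit 317) (nat_lit 0) (cs (lf (nat_lit 5) (nat_lit 317)) (rf (nat_lit 2))))))))))))))) q42369 (by decide +kernel)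
def q42417 : Q := Q.p (nat_lit 0x10000070000000000000003c00000000000000000000000000000000000000000000000000000000000000) (nat_lit 0x2380000c000180000200000000018000000000000000000000000000000000000000000000000000000000) (nat_lit 6)
theorem c42417 : QOK q42417 := cut [q42416] ⟨c42416, trivial⟩ (nd (nat_lit 231) (nat_lit 0) (cs (lf (nat_lit 17) (nat_lit 228)) (rf (nat_lit 0)))) q42417 (by decide +kernel)
def q42421 : Q := Q.p (nat_lit 0x10000070000000000000000800000000010000040000000000000000000000000000000000000000000000) (nat_lit 0x2800000c0000b8000200000000002000008000000000000000000000000000000000000000000000000000) (nat_lit 6)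
theorem c42421 : QOK q42421 := cut [q42419] ⟨c42419, trivial⟩ (nd (nat_lit 273) (nat_lit 0) (cs (lf (nat_lit 26) (nat_lit 251)) (nd (nat_lit 207) (nat_lit 0) (cs (lf (nat_lit 32) (nat_lit 185)) (rf (nat_lit 0)))))) q42421 (by decide +kernel)
def q42513 : Q := Q.p (nat_lit 0xc000010000040000000000000000000000000000000000000000000000000000000000000000000000000000000) (nat_lit 0x8000020001cf000738000ef000000000100000000000000000000000000000000000000000000000000000000000000000000000000) (nat_lit 9)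
theorem c42513 : QOK q42513 := cut [q42492, q42500, q42480, q42508, q42511] ⟨c42492, c42500, c42480, c42508, c42511, trivial⟩ (nd (nat_lit 361) (nat_lit 0) (cs (rf (nat_lit 0)) (cs (nd (nat_lit 383) (nat_lit 0) (cs (lf (nat_lit 36) (nat_lit 295)) (nd (nat_lit 405) (nat_lit 0) (cs (lf (nat_lit 30) (nat_lit 339)) (rf (nat_lit 1)))))) (nd (nat_lit 360) (nat_lit 0) (cs (rf (nat_lit 2)) (cs (rf (nat_lit 3)) (rf (nat_lit 4)))))))) q42513 (by decide +kernel)
def q42564 : Q := Q.p (nat_lit 0x4000010000040000000000000000000000000000000000000000000000000000000000000000000000000000000) (nat_lit 0x200000e00007800003800008000020000180000200000000000000000000000000000000000000000000000000000000000000000000) (nat_lit 6)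
theorem c42564 : QOK q42564 := cut [q28615, q42466, q42563] ⟨c28615, c42466, c42563, trivial⟩ (nd (nat_lit 384) (nat_lit 0) (cs (rf (nat_lit 0)) (cs (rf (nat_lit 1)) (rf (nat_lit 2))))) q42564 (by decide +kernel)
def q42586 : Q := Q.p (nat_lit 0x1e000010000000000000000000000000000000000000000000000000000000000000000000000000000000000000) (nat_lit 0xc700001c000eb800000000000000000000000000000000000000000000000000000000000000000000000000000000000) (nat_lit 8)
theorem c42586 : QOK q42586 := cut [q42583] ⟨c42583, trivial⟩ (nd (nat_lit 342) (nat_lit 0) (cs (lf (nat_lit 17) (nat_lit 339)) (nd (nat_lit 360) (nat_lit 0) (cs (lf (nat_lit 16) (nat_lit 338)) (nd (nat_lit 386) (nat_lit 0) (cs (lf (nat_lit 5) (nat_lit 361)) (rf (nat_lit 0)))))))) q42586 (by decide +kernel)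
def q42762 : Q := Q.p (nat_lit 0x4000010000060000000000000003400000000010000040000000000000000000000000000000000000000000000) (nat_lit 0x80000300000f8001bc000ef80001c0003f8001bc0000a0001a800008000000000000000000000000000000000000000000000000000) (nat_lit 11)
theorem c42762 : QOK q42762 := cut [q42395, q42419, q42679, q42492, q42698, q42591, q42246, q42729, q42730, q42733, q42394, q42418] ⟨c42395, c42419, c42679, c42492, c42698, c42591, c42246, c42729, c42730, c42733, c42394, c42418, trivial⟩ (nd (nat_lit 316) (nat_lit 0) (cs (rf (nat_lit 0)) (cs (rf (nat_lit 1)) (cs (rf (nat_lit 2)) (cs (nd (nat_lit 361) (nat_lit 0) (cs (rf (nat_lit 3)) (cs (nd (nat_lit 296) (nat_lit 0) (cs (lf (nat_lit 41) (nat_lit 295)) (nd (nat_lit 275) (nat_lit 0) (cs (lf (nat_lit 34) (nat_lit 274)) (nd (nat_lit 251) (nat_lit 0) (cs (lf (nat_lit 5) (nat_lit 250)) (nd (nat_lit 272) (nat_lit 0) (cs (lf (nat_lit 11) (nat_lit 249)) (nd (nat_lit 231) (nat_lit 0) (cs (lf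 (nat_lit 17) (nat_lit 228)) (nd (nat_lit 273) (nat_lit 0) (cs (lf (nat_lit 26) (nat_lit 251)) (nd (nat_lit 229) (nat_lit 0) (cs (lf (nat_lit 33) (nat_lit 185)) (lf (nat_lit 31) (nat_lit 228)))))))))))))))) (cs (nd (nat_lit 342) (nat_lit 0) (cs (rf (nat_lit 4)) (cs (nd (nat_lit 295) (nat_lit 0) (cs (rf (nat_lit 5)) (cs (nd (nat_lit 360) (nat_lit 0) (cs (nd (nat_lit 382) (nat_lit 0) (cs (lf (nat_lit 38) (nat_lit 294)) (lf (nat_lit 32) (nat_lit 294)))) (cs (nd (nat_lit 382) (nat_lit 0) (cs (lf (nat_lit 38) (nat_lit 294)) (nd (nat_lit 381) (nat_lit 0) (cs (nd (nat_lit 380) (nat_lit 0) (cs (lf (nat_lit 12) (nat_lit 357)) (lf (nat_lit 9) (nat_lit 358)))) (lf (nat_lit 6) (nat_lit 359)))))) (cs (nd (nat_lit 294) (nat_lit 0) (cs (rf (nat_lit 6)) (cs (nd (nat_lit 293) (nat_lit 0) (cs (lf (nat_lit 0) (nat_lit 292)) (nd (nat_lit 271) (nat_lit 0) (cs (nd (nat_lit 270) (nat_lit 0) (cs (nd (nat_lit 249) (nat_lit 0) (cs (lf (nat_lit 7) (nat_lit 248))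 (lf (nat_lit 24) (nat_lit 227)))) (lf (nat_lit 18) (nat_lit 270)))) (lf (nat_lit 43) (nat_lit 271)))))) (nd (nat_lit 292) (nat_lit 0) (cs (lf (nat_lit 1) (nat_lit 292)) (nd (nat_lit 339) (nat_lit 0) (cs (nd (nat_lit 359) (nat_lit 0) (cs (lf (nat_lit 12) (nat_lit 336)) (nd (nat_lit 381) (nat_lit 0) (cs (lf (nat_lit 11) (nat_lit 358)) (lf (nat_lit 38) (nat_lit 293)))))) (lf (nat_lit 47) (nat_lit 272))))))))) (nd (nat_lit 338) (nat_lit 0) (cs (lf (nat_lit 30) (nat_lit 294)) (nd (nat_lit 337) (nat_lit 0) (cs (nd (nat_lit 336) (nat_lit 0) (cs (lf (nat_lit 12) (nat_lit 313)) (lf (nat_lit 21) (nat_lit 336)))) (lf (nat_lit 18) (nat_lit 337)))))))))) (cs (rf (nat_lit 7)) (rf (nat_lit 8)))))) (rf (nat_lit 9))))) (nd (nat_lit 339) (nat_lit 0) (cs (nd (nat_lit 294) (nat_lit 0) (cs (lf (nat_lit 42) (nat_lit 294)) (lf (nat_lit 25) (nat_lit 250)))) (cs (nd (nat_lit 272) (nat_lit 0) (cs (lf (nat_lit 26) (nat_lit 250)) (nd (nat_lit 295) (nat_lit 0) (cs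 (lf (nat_lit 45) (nat_lit 250)) (nd (nat_lit 251) (nat_lit 0) (cs (lf (nat_lit 11) (nat_lit 249)) (nd (nat_lit 231) (nat_lit 0) (cs (lf (nat_lit 17) (nat_lit 228)) (nd (nat_lit 275) (nat_lit 0) (cs (lf (nat_lit 5) (nat_lit 250)) (nd (nat_lit 360) (nat_lit 0) (cs (lf (nat_lit 41) (nat_lit 294)) (nd (nat_lit 341) (nat_lit 0) (cs (lf (nat_lit 18) (nat_lit 316)) (lf (nat_lit 12) (nat_lit 337)))))))))))))))) (nd (nat_lit 273) (nat_lit 0) (cs (nd (nat_lit 341) (nat_lit 0) (cs (lf (nat_lit 18) (nat_lit 316)) (nd (nat_lit 360) (nat_lit 0) (cs (lf (nat_lit 12) (nat_lit 337)) (nd (nat_lit 383) (nat_lit 0) (cs (lf (nat_lit 30) (nat_lit 317)) (nd (nat_lit 382) (nat_lit 0) (cs (lf (nat_lit 41) (nat_lit 316)) (nd (nat_lit 363) (nat_lit 0) (cs (lf (nat_lit 11) (nat_lit 359)) (lf (nat_lit 6) (nat_lit 360)))))))))))) (lf (nat_lit 25) (nat_lit 273))))))))))) (nd (nat_lit 315) (nat_lit 0) (cs (rf (nat_lit 10)) (cs (rf (nat_lit 11)) (nd (nat_lit 293) (nat_lit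 0) (cs (lf (nat_lit 23) (nat_lit 292)) (nd (nat_lit 296) (nat_lit 0) (cs (lf (nat_lit 17) (nat_lit 293)) (nd (nat_lit 361) (nat_lit 0) (cs (lf (nat_lit 41) (nat_lit 295)) (nd (nat_lit 273) (nat_lit 0) (cs (lf (nat_lit 46) (nat_lit 273)) (nd (nat_lit 337) (nat_lit 0) (cs (lf (nat_lit 11) (nat_lit 314)) (nd (nat_lit 272) (nat_lit 0) (cs (lf (nat_lit 33) (nat_lit 249)) (lf (nat_lit 38) (nat_lit 249)))))))))))))))))))))) q42762 (by decide +kernel)
def q42834 : Q := Q.p (nat_lit 0x4000010000040000000000000000000000000000000000000000000000000000000000000000000000000000000) (nat_lit 0x200000e00007800003800020000080000300000800000000000000000000000000000000000000000000000000000000000000000000) (nat_lit 6)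
theorem c42834 : QOK q42834 := cut [q42563, q42830, q42833] ⟨c42563, c42830, c42833, trivial⟩ (nd (nat_lit 384) (nat_lit 0) (cs (rf (nat_lit 0)) (cs (rf (nat_lit 1)) (rf (nat_lit 2))))) q42834 (by decide +kernel)
def q42985 : Q := Q.p (nat_lit 0x4000010000040000000000000002000000000000000000000000000000000000000000000000000000000000000) (nat_lit 0xe0000380007e0001f00007b8001ee000780001f80002800008000000000000000000000000000000000000000000000000000000000000000) (nat_lit 12)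
theorem c42985 : QOK q42985 := cut [q42928, q42839, q42947, q42971, q42972, q42973] ⟨c42928, c42839, c42947, c42971, c42972, c42973, trivial⟩ (nd (nat_lit 385) (nat_lit 0) (cs (rf (nat_lit 0)) (cs (nd (nat_lit 384) (nat_lit 0) (cs (lf (nat_lit 29) (nat_lit 318)) (nd (nat_lit 319) (nat_lit 0) (cs (rf (nat_lit 1)) (rf (nat_lit 2)))))) (cs (rf (nat_lit 3)) (cs (rf (nat_lit 4)) (nd (nat_lit 384) (nat_lit 0) (cs (lf (nat_lit 29) (nat_lit 318)) (nd (nat_lit 319) (nat_lit 0) (cs (lf (nat_lit 35) (nat_lit 296)) (nd (nat_lit 406) (nat_lit 0) (cs (lf (nat_lit 34) (nat_lit 318)) (nd (nat_lit 427) (nat_lit 0) (cs (lf (nat_lit 40) (nat_lit 339)) (nd (nat_lit 428) (nat_lit 0) (cs (lf (nat_lit 41) (nat_lit 361)) (nd (nat_lit 363) (nat_lit 0) (cs (nd (nat_lit 429) (nat_lit 0) (cs (nd (nat_lit 361) (nat_lit 0) (cs (rf (nat_lit 5)) (lf (nat_lit 47) (nat_lit 339)))) (lf (nat_lit 29) (nat_lit 362)))) (lf (nat_lit 30) (nat_lit 362))))))))))))))))))) q42985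 (by decide +kernel)
def q43117 : Q := Q.p (nat_lit 0x10000040000000000000003400000000010000040000000000000000000000000000000000000000000000) (nat_lit 0x10000040001cf0003be001ff8001bf0000b8001ae00009000024000000000000000000000000000000000000000000000) (nat_lit 14)
theorem c43117 : QOK q43117 := cut [q42373, q3762, q11143, q18196, q43080, q42655, q43086, q43091, q43053, q41756, q42205, q41745, q9769, q43110, q43116] ⟨c42373, c3762, c11143, c18196, c43080, c42655, c43086, c43091, c43053, c41756, c42205, c41745, c9769, c43110, c43116, trivial⟩ (nd (nat_lit 251) (nat_lit 0) (cs (rf (nat_lit 0)) (cs (nd (nat_lit 249) (nat_lit 0) (cs (rf (nat_lit 1)) (cs (rf (nat_lit 2)) (cs (nd (nat_lit 226) (nat_lit 0) (cs (lf (nat_lit 22) (nat_lit 226)) (nd (nat_lit 248) (nat_lit 0) (cs (lf (nat_lit 23) (nat_lit 225)) (nd (nat_lit 269) (nat_lit 0) (cs (lf (nat_lit 10) (nat_lit 247)) (nd (nat_lit 317) (nat_lit 0) (cs (nd (nat_lit 273) (nat_lit 0) (cs (rf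 (nat_lit 3)) (lf (nat_lit 26) (nat_lit 251)))) (cs (nd (nat_lit 231) (nat_lit 0) (cs (lf (nat_lit 17) (nat_lit 228)) (rf (nat_lit 4)))) (cs (nd (nat_lit 316) (nat_lit 0) (cs (nd (nat_lit 247) (nat_lit 0) (cs (lf (nat_lit 11) (nat_lit 246)) (nd (nat_lit 291) (nat_lit 0) (cs (lf (nat_lit 30) (nat_lit 225)) (nd (nat_lit 272) (nat_lit 0) (cs (lf (nat_lit 5) (nat_lit 247)) (rf (nat_lit 5)))))))) (cs (nd (nat_lit 231) (nat_lit 0) (cs (lf (nat_lit 17) (nat_lit 228)) (rf (nat_lit 6)))) (rf (nat_lit 7))))) (nd (nat_lit 268) (nat_lit 0) (cs (lf (nat_lit 9) (nat_lit 246)) (nd (nat_lit 319) (nat_lit 0) (cs (rf (nat_lit 8)) (nd (nat_lit 320) (nat_lit 0) (cs (rf (nat_lit 9)) (rf (nat_lit 10)))))))))))))))))) (nd (nat_lit 272) (nat_lit 0) (cs (lf (nat_lit 11) (nat_lit 249)) (nd (nat_lit 316) (nat_lit 0) (cs (rf (nat_lit 11)) (cs (nd (nat_lit 317) (nat_lit 0) (cs (rf (nat_lit 7)) (nd (nat_lit 231) (nat_lit 0) (cs (lf (nat_lit 17) (nat_lit 228)) (nd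 (nat_lit 273) (nat_lit 0) (cs (lf (nat_lit 26) (nat_lit 251)) (nd (nat_lit 248) (nat_lit 0) (cs (rf (nat_lit 12)) (lf (nat_lit 0) (nat_lit 247)))))))))) (nd (nat_lit 227) (nat_lit 0) (cs (lf (nat_lit 23) (nat_lit 226)) (lf (nat_lit 43) (nat_lit 227))))))))))))) (cs (rf (nat_lit 13)) (rf (nat_lit 14)))))) q43117 (by decide +kernel)
def q43207 : Q := Q.p (nat_lit 0x10000040000000000000003400000000010000040000000000000000000000000000000000000000000000) (nat_lit 0x100003c0001eb800fbe001ff8003bf0008b8001ae00009000004000000000000000000000000000000000000000000000) (nat_lit 14)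
theorem c43207 : QOK q43207 := cut [q42373, q43110, q43080, q43152, q31206, q12801, q13308, q43175, q43179, q42655, q42679, q43205] ⟨c42373, c43110, c43080, c43152, c31206, c12801, c13308, c43175, c43179, c42655, c42679, c43205, trivial⟩ (nd (nat_lit 251) (nat_lit 0) (cs (rf (nat_lit 0)) (cs (rf (nat_lit 1)) (cs (nd (nat_lit 272) (nat_lit 0) (cs (lf (nat_lit 11) (nat_lit 249)) (nd (nat_lit 317) (nat_lit 0) (cs (rf (nat_lit 2)) (cs (nd (nat_lit 231) (nat_lit 0) (cs (lf (nat_lit 17) (nat_lit 228)) (rf (nat_lit 3)))) (cs (nd (nat_lit 342) (nat_lit 0) (cs (nd (nat_lit 273) (nat_lit 0) (cs (lf (nat_lit 26) (nat_lit 251)) (nd (nat_lit 207) (nat_lit 0) (cs (lf (nat_lit 32) (nat_lit 185)) (nd (nat_lit 341) (nat_lit 0) (cs (lf (nat_lit 18) (nat_lit 317)) (rf (nat_lit 4)))))))) (cs (nd (nat_lit 273) (nat_lit 0) (cs (lf (nat_lit 26) (nat_lit 251)) (nd (nat_lit 207) (nat_lit 0) (cs (lf (nat_lit 32) (nat_lit 185)) (nd (nat_lit 231) (nat_lit 0) (cs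 (lf (nat_lit 17) (nat_lit 228)) (nd (nat_lit 275) (nat_lit 0) (cs (lf (nat_lit 5) (nat_lit 250)) (nd (nat_lit 319) (nat_lit 0) (cs (lf (nat_lit 38) (nat_lit 252)) (nd (nat_lit 320) (nat_lit 0) (cs (lf (nat_lit 5) (nat_lit 317)) (nd (nat_lit 321) (nat_lit 0) (cs (rf (nat_lit 5)) (lf (nat_lit 11) (nat_lit 317)))))))))))))))) (cs (nd (nat_lit 341) (nat_lit 0) (cs (rf (nat_lit 6)) (cs (rf (nat_lit 4)) (nd (nat_lit 320) (nat_lit 0) (cs (nd (nat_lit 339) (nat_lit 0) (cs (lf (nat_lit 17) (nat_lit 317)) (nd (nat_lit 273) (nat_lit 0) (cs (lf (nat_lit 44) (nat_lit 250)) (nd (nat_lit 207) (nat_lit 0) (cs (lf (nat_lit 32) (nat_lit 185)) (nd (nat_lit 364) (nat_lit 0) (cs (lf (nat_lit 5) (nat_lit 339)) (nd (nat_lit 276) (nat_lit 0) (cs (nd (nat_lit 298) (nat_lit 0) (cs (lf (nat_lit 41) (nat_lit 275)) (nd (nat_lit 277) (nat_lit 0) (cs (lf (nat_lit 34) (nat_lit 276)) (lf (nat_lit 35) (nat_lit 254)))))) (lf (nat_lit 4) (nat_lit 250)))))))))))) (cs (nd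 (nat_lit 231) (nat_lit 0) (cs (lf (nat_lit 17) (nat_lit 228)) (rf (nat_lit 7)))) (rf (nat_lit 8)))))))) (nd (nat_lit 275) (nat_lit 0) (cs (lf (nat_lit 5) (nat_lit 250)) (nd (nat_lit 341) (nat_lit 0) (cs (lf (nat_lit 18) (nat_lit 317)) (nd (nat_lit 319) (nat_lit 0) (cs (lf (nat_lit 0) (nat_lit 316)) (lf (nat_lit 38) (nat_lit 252)))))))))))) (nd (nat_lit 316) (nat_lit 0) (cs (rf (nat_lit 9)) (rf (nat_lit 10)))))))))) (nd (nat_lit 317) (nat_lit 0) (cs (rf (nat_lit 3)) (cs (nd (nat_lit 275) (nat_lit 0) (cs (lf (nat_lit 5) (nat_lit 250)) (nd (nat_lit 271) (nat_lit 0) (cs (lf (nat_lit 10) (nat_lit 249)) (nd (nat_lit 249) (nat_lit 0) (cs (lf (nat_lit 11) (nat_lit 248)) (nd (nat_lit 226) (nat_lit 0) (cs (lf (nat_lit 22) (nat_lit 226)) (nd (nat_lit 248) (nat_lit 0) (cs (lf (nat_lit 23) (nat_lit 225)) (nd (nat_lit 297) (nat_lit 0) (cs (lf (nat_lit 39) (nat_lit 252)) (nd (nat_lit 296) (nat_lit 0) (cs (lf (nat_lit 30) (nat_lit 274)) (nd (nat_lit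 315) (nat_lit 0) (cs (lf (nat_lit 13) (nat_lit 293)) (lf (nat_lit 43) (nat_lit 226)))))))))))))))))) (rf (nat_lit 11))))))))) q43207 (by decide +kernel)
def q43287 : Q := Q.p (nat_lit 0x10000040000000000000003400000000010000040000000000000000000000000000000000000000000000) (nat_lit 0x10000040001edc003be000ff8001bf0000b8001ae00009000024000000000000000000000000000000000000000000000) (nat_lit 14)
theorem c43287 : QOK q43287 := cut [q42373, q43110, q43116, q43080, q43152, q43285] ⟨c42373, c43110, c43116, c43080, c43152, c43285, trivial⟩ (nd (nat_lit 251) (nat_lit 0) (cs (rf (nat_lit 0)) (cs (rf (nat_lit 1)) (cs (rf (nat_lit 2)) (nd (nat_lit 317) (nat_lit 0) (cs (rf (nat_lit 3)) (cs (rf (nat_lit 4)) (cs (nd (nat_lit 231) (nat_lit 0) (cs (lf (nat_lit 17) (nat_lit 228)) (nd (nat_lit 295) (nat_lit 0) (cs (lf (nat_lit 25) (nat_lit 251)) (nd (nat_lit 271) (nat_lit 0) (cs (lf (nat_lit 10) (nat_lit 249)) (nd (nat_lit 249) (nat_lit 0) (cs (lf (nat_lit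 11) (nat_lit 248)) (nd (nat_lit 226) (nat_lit 0) (cs (lf (nat_lit 22) (nat_lit 226)) (nd (nat_lit 248) (nat_lit 0) (cs (lf (nat_lit 23) (nat_lit 225)) (nd (nat_lit 315) (nat_lit 0) (cs (lf (nat_lit 43) (nat_lit 226)) (nd (nat_lit 316) (nat_lit 0) (cs (lf (nat_lit 5) (nat_lit 315)) (nd (nat_lit 314) (nat_lit 0) (cs (lf (nat_lit 4) (nat_lit 314)) (nd (nat_lit 335) (nat_lit 0) (cs (lf (nat_lit 10) (nat_lit 313)) (nd (nat_lit 313) (nat_lit 0) (cs (lf (nat_lit 11) (nat_lit 312)) (lf (nat_lit 16) (nat_lit 291)))))))))))))))))))))))) (rf (nat_lit 5)))))))))) q43287 (by decide +kernel)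
def q43528 : Q := Q.p (nat_lit 0x300000c0000000000000003400000000000000000000000000000000000000000000000000000000000000) (nat_lit 0x1c0000700001d80000e000738001ce0000380000800002000000000000000000000000000000000000000000000000000000000) (nat_lit 11)
theorem c43528 : QOK q43528 := cut [q41868, q42357, q42452, q42247] ⟨c41868, c42357, c42452, c42247, trivial⟩ (nd (nat_lit 317) (nat_lit 0) (cs (nd (nat_lit 316) (nat_lit 0) (cs (lf (nat_lit 0) (nat_lit 315)) (nd (nat_lit 337) (nat_lit 0) (cs (lf (nat_lit 10) (nat_lit 315)) (nd (nat_lit 294) (nat_lit 0) (cs (lf (nat_lit 23) (nat_lit 293)) (nd (nat_lit 295) (nat_lit 0) (cs (lf (nat_lit 18) (nat_lit 294)) (nd (nat_lit 251) (nat_lit 0) (cs (lf (nat_lit 25) (nat_lit 251)) (nd (nat_lit 272) (nat_lit 0) (cs (lf (nat_lit 11) (nat_lit 249)) (lf (nat_lit 35) (nat_lit 228)))))))))))))) (cs (nd (nat_lit 339) (nat_lit 0) (cs (rf (nat_lit 0)) (cs (nd (nat_lit 320) (nat_lit 0) (cs (lf (nat_lit 6) (nat_lit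 317)) (nd (nat_lit 298) (nat_lit 0) (cs (lf (nat_lit 17) (nat_lit 295)) (rf (nat_lit 1)))))) (nd (nat_lit 338) (nat_lit 0) (cs (lf (nat_lit 12) (nat_lit 315)) (nd (nat_lit 363) (nat_lit 0) (cs (lf (nat_lit 5) (nat_lit 338)) (nd (nat_lit 385) (nat_lit 0) (cs (lf (nat_lit 42) (nat_lit 318)) (nd (nat_lit 359) (nat_lit 0) (cs (lf (nat_lit 10) (nat_lit 337)) (nd (nat_lit 386) (nat_lit 0) (cs (lf (nat_lit 29) (nat_lit 319)) (nd (nat_lit 384) (nat_lit 0) (cs (lf (nat_lit 41) (nat_lit 318)) (nd (nat_lit 295) (nat_lit 0) (cs (nd (nat_lit 273) (nat_lit 0) (cs (lf (nat_lit 24) (nat_lit 251)) (lf (nat_lit 46) (nat_lit 250)))) (lf (nat_lit 43) (nat_lit 295))))))))))))))))))) (cs (nd (nat_lit 316) (nat_lit 0) (cs (lf (nat_lit 0) (nat_lit 315)) (rf (nat_lit 2)))) (nd (nat_lit 316) (nat_lit 0) (cs (lf (nat_lit 0) (nat_lit 315)) (rf (nat_lit 3)))))))) q43528 (by decide +kernel)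
def q43606 : Q := Q.p (nat_lit 0x700000c0000000000000003400000000000000000000000000000000000000000000000000000000000000) (nat_lit 0x7f8000fc0001f800004000730001cc0003b80008800000000000000000000000000000000000000000000000000000000000000) (nat_lit 11)
theorem c43606 : QOK q43606 := cut [q42939, q43539, q43569, q28832, q43601, q43604] ⟨c42939, c43539, c43569, c28832, c43601, c43604, trivial⟩ (nd (nat_lit 320) (nat_lit 0) (cs (rf (nat_lit 0)) (cs (nd (nat_lit 385) (nat_lit 0) (cs (nd (nat_lit 363) (nat_lit 0) (cs (lf (nat_lit 30) (nat_lit 319)) (nd (nat_lit 386) (nat_lit 0) (cs (lf (nat_lit 29) (nat_lit 319)) (nd (nat_lit 384) (nat_lit 0) (cs (lf (nat_lit 41) (nat_lit 318)) (rf (nat_lit 1)))))))) (cs (nd (nat_lit 321) (nat_lit 0) (cs (lf (nat_lit 6) (nat_lit 318)) (nd (nat_lit 299) (nat_lit 0) (cs (lf (nat_lit 17) (nat_lit 296)) (nd (nat_lit 255) (nat_lit 0) (cs (nd (nat_lit 317) (nat_lit 0) (cs (lf (nat_lit 0) (nat_lit 316)) (nd (nat_lit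 386) (nat_lit 0) (cs (lf (nat_lit 31) (nat_lit 298)) (nd (nat_lit 295) (nat_lit 0) (cs (lf (nat_lit 23) (nat_lit 294)) (nd (nat_lit 363) (nat_lit 0) (cs (lf (nat_lit 29) (nat_lit 319)) (nd (nat_lit 384) (nat_lit 0) (cs (lf (nat_lit 41) (nat_lit 318)) (lf (nat_lit 43) (nat_lit 295)))))))))))) (lf (nat_lit 37) (nat_lit 254)))))))) (cs (nd (nat_lit 384) (nat_lit 0) (cs (nd (nat_lit 362) (nat_lit 0) (cs (lf (nat_lit 29) (nat_lit 318)) (lf (nat_lit 30) (nat_lit 318)))) (cs (nd (nat_lit 386) (nat_lit 0) (cs (rf (nat_lit 1)) (rf (nat_lit 2)))) (cs (nd (nat_lit 316) (nat_lit 0) (cs (lf (nat_lit 1) (nat_lit 316)) (nd (nat_lit 362) (nat_lit 0) (cs (lf (nat_lit 30) (nat_lit 318)) (nd (nat_lit 383) (nat_lit 0) (cs (lf (nat_lit 41) (nat_lit 317)) (nd (nat_lit 321) (nat_lit 0) (cs (lf (nat_lit 6) (nat_lit 318)) (nd (nat_lit 299) (nat_lit 0) (cs (lf (nat_lit 17) (nat_lit 296)) (nd (nat_lit 386) (nat_lit 0) (cs (rf (nat_lit 3)) (lf (nat_lit 31) (nat_lit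 298)))))))))))))) (nd (nat_lit 321) (nat_lit 0) (cs (lf (nat_lit 6) (nat_lit 318)) (nd (nat_lit 299) (nat_lit 0) (cs (lf (nat_lit 17) (nat_lit 296)) (nd (nat_lit 255) (nat_lit 0) (cs (lf (nat_lit 37) (nat_lit 254)) (nd (nat_lit 364) (nat_lit 0) (cs (lf (nat_lit 30) (nat_lit 298)) (nd (nat_lit 317) (nat_lit 0) (cs (lf (nat_lit 0) (nat_lit 316)) (nd (nat_lit 362) (nat_lit 0) (cs (lf (nat_lit 47) (nat_lit 295)) (lf (nat_lit 29) (nat_lit 318)))))))))))))))))) (cs (nd (nat_lit 363) (nat_lit 0) (cs (lf (nat_lit 30) (nat_lit 319)) (nd (nat_lit 384) (nat_lit 0) (cs (lf (nat_lit 41) (nat_lit 318)) (nd (nat_lit 317) (nat_lit 0) (cs (lf (nat_lit 0) (nat_lit 316)) (nd (nat_lit 295) (nat_lit 0) (cs (lf (nat_lit 23) (nat_lit 294)) (lf (nat_lit 43) (nat_lit 295)))))))))) (nd (nat_lit 316) (nat_lit 0) (cs (lf (nat_lit 1) (nat_lit 316)) (nd (nat_lit 321) (nat_lit 0) (cs (lf (nat_lit 6) (nat_lit 318)) (nd (nat_lit 299) (nat_lit 0) (cs (lf (nat_lit 17)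 (nat_lit 296)) (nd (nat_lit 255) (nat_lit 0) (cs (lf (nat_lit 37) (nat_lit 254)) (nd (nat_lit 363) (nat_lit 0) (cs (lf (nat_lit 42) (nat_lit 318)) (nd (nat_lit 386) (nat_lit 0) (cs (lf (nat_lit 29) (nat_lit 319)) (lf (nat_lit 31) (nat_lit 298))))))))))))))))))) (cs (nd (nat_lit 317) (nat_lit 0) (cs (lf (nat_lit 0) (nat_lit 316)) (nd (nat_lit 321) (nat_lit 0) (cs (lf (nat_lit 6) (nat_lit 318)) (rf (nat_lit 4)))))) (nd (nat_lit 317) (nat_lit 0) (cs (lf (nat_lit 0) (nat_lit 316)) (rf (nat_lit 5)))))))) q43606 (by decide +kernel)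
def q43697 : Q := Q.p (nat_lit 0x70000040000000000000003400000000000000000000000000000000000000000000000000000000000000) (nat_lit 0x700001c0000fe000180000780001e00007800018800000000000000000000000000000000000000000000000000000000000000) (nat_lit 12)
theorem c43697 : QOK q43697 := cut [q43659, q43683, q42893, q43696] ⟨c43659, c43683, c42893, c43696, trivial⟩ (nd (nat_lit 343) (nat_lit 0) (cs (rf (nat_lit 0)) (cs (rf (nat_lit 1)) (cs (nd (nat_lit 321) (nat_lit 0) (cs (lf (nat_lit 17) (nat_lit 318)) (nd (nat_lit 319) (nat_lit 0) (cs (lf (nat_lit 18) (nat_lit 318)) (nd (nat_lit 275) (nat_lit 0) (cs (lf (nat_lit 38) (nat_lit 252)) (nd (nat_lit 361) (nat_lit 0) (cs (lf (nat_lit 10) (nat_lit 339)) (nd (nat_lit 276) (nat_lit 0) (cs (lf (nat_lit 1) (nat_lit 250)) (nd (nat_lit 320) (nat_lit 0) (cs (lf (nat_lit 44) (nat_lit 253)) (nd (nat_lit 277) (nat_lit 0) (cs (lf (nat_lit 18) (nat_lit 252)) (rf (nat_lit 2)))))))))))))))) (rf (nat_lit 3))))))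 q43697 (by decide +kernel)
def q43708 : Q := Q.p (nat_lit 0x70000000000000000000003000000000000000000000000000000000000000000000000000000000000000) (nat_lit 0x700001c000077000088000700001c00007800018000000000000000000000000000000000000000000000000000000000000000) (nat_lit 12)
theorem c43708 : QOK q43708 := cut [q25486, q30120, q43462, q43683] ⟨c25486, c30120, c43462, c43683, trivial⟩ (nd (nat_lit 343) (nat_lit 0) (cs (rf (nat_lit 0)) (cs (rf (nat_lit 1)) (cs (rf (nat_lit 2)) (rf (nat_lit 3)))))) q43708 (by decide +kernel)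
def q43735 : Q := Q.p (nat_lit 0x30000040000000000000003400000000010000040000000000000000000000000000000000000000000000) (nat_lit 0x400007b8001cc0007b8001e40003bc0008a0001ac00008000020000000000000000000000000000000000000000000000) (nat_lit 13)
theorem c43735 : QOK q43735 := cut [q13309, q31207, q25479, q43460, q43175, q42449, q43462, q43696, q43724, q43733] ⟨c13309, c31207, c25479, c43460, c43175, c42449, c43462, c43696, c43724, c43733, trivial⟩ (nd (nat_lit 342) (nat_lit 0) (cs (rf (nat_lit 0)) (cs (rf (nat_lit 1)) (cs (nd (nat_lit 339) (nat_lit 0) (cs (rf (nat_lit 2)) (cs (rf (nat_lit 3)) (nd (nat_lit 251) (nat_lit 0) (cs (nd (nat_lit 231) (nat_lit 0) (cs (lf (nat_lit 17) (nat_lit 228)) (nd (nat_lit 320) (nat_lit 0) (cs (lf (nat_lit 17) (nat_lit 317)) (rf (nat_lit 4)))))) (nd (nat_lit 316) (nat_lit 0) (cs (lf (nat_lit 22) (nat_lit 316)) (nd (nat_lit 364) (nat_lit 0) (cs (lf (nat_lit 5) (nat_lit 339)) (nd (nat_lit 360) (nat_lit 0) (cs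 (lf (nat_lit 10) (nat_lit 338)) (rf (nat_lit 5))))))))))))) (nd (nat_lit 343) (nat_lit 0) (cs (rf (nat_lit 6)) (cs (rf (nat_lit 7)) (cs (nd (nat_lit 365) (nat_lit 0) (cs (lf (nat_lit 5) (nat_lit 340)) (nd (nat_lit 339) (nat_lit 0) (cs (lf (nat_lit 4) (nat_lit 339)) (nd (nat_lit 360) (nat_lit 0) (cs (lf (nat_lit 10) (nat_lit 338)) (nd (nat_lit 338) (nat_lit 0) (cs (lf (nat_lit 11) (nat_lit 337)) (nd (nat_lit 319) (nat_lit 0) (cs (lf (nat_lit 18) (nat_lit 318)) (lf (nat_lit 17) (nat_lit 316)))))))))))) (cs (rf (nat_lit 8)) (rf (nat_lit 9))))))))))) q43735 (by decide +kernel)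
def q43799 : Q := Q.p (nat_lit 0x70000040000000000000003400000000000000000000000000000000000000000000000000000000000000) (nat_lit 0x400007000018e000780001e000039c0008a00000c00000000000000000000000000000000000000000000000000000000) (nat_lit 12)
theorem c43799 : QOK q43799 := cut [q43462, q43696, q43724, q43733, q43754] ⟨c43462, c43696, c43724, c43733, c43754, trivial⟩ (nd (nat_lit 343) (nat_lit 0) (cs (rf (nat_lit 0)) (cs (rf (nat_lit 1)) (cs (rf (nat_lit 2)) (cs (rf (nat_lit 3)) (nd (nat_lit 365) (nat_lit 0) (cs (lf (nat_lit 5) (nat_lit 340)) (nd (nat_lit 339) (nat_lit 0) (cs (lf (nat_lit 4) (nat_lit 339)) (nd (nat_lit 319) (nat_lit 0) (cs (lf (nat_lit 18) (nat_lit 318)) (rf (nat_lit 4))))))))))))) q43799 (by decide +kernel)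
def q43823 : Q := Q.p (nat_lit 0x70000040000000000000000000000000000000000000000000000000000000000000000000000000000000) (nat_lit 0xff000188000780001800002000008000000000000000000000000000000000000000000000000000000000000000) (nat_lit 7)
theorem c43823 : QOK q43823 := cut [q30120, q43659, q43724] ⟨c30120, c43659, c43724, trivial⟩ (nd (nat_lit 343) (nat_lit 0) (cs (rf (nat_lit 0)) (cs (rf (nat_lit 1)) (rf (nat_lit 2))))) q43823 (by decide +kernel)
def q43970 : Q := Q.p (nat_lit 0x40000180000000003400000000000000000000000000000000000000000000000000000000000000) (nat_lit 0xc0000780001e00039e0006700003e0000a0001a800000000000000000000000000000000000000000000000000000000) (nat_lit 12)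
theorem c43970 : QOK q43970 := cut [q43919, q43949, q43951, q43928, q43962, q43969] ⟨c43919, c43949, c43951, c43928, c43962, c43969, trivial⟩ (nd (nat_lit 294) (nat_lit 0) (cs (rf (nat_lit 0)) (cs (rf (nat_lit 1)) (cs (nd (nat_lit 293) (nat_lit 0) (cs (lf (nat_lit 5) (nat_lit 293)) (nd (nat_lit 315) (nat_lit 0) (cs (lf (nat_lit 11) (nat_lit 292)) (nd (nat_lit 316) (nat_lit 0) (cs (lf (nat_lit 6) (nat_lit 293)) (nd (nat_lit 272) (nat_lit 0) (cs (lf (nat_lit 41) (nat_lit 249)) (nd (nat_lit 227) (nat_lit 0) (cs (lf (nat_lit 46) (nat_lit 227)) (nd (nat_lit 251) (nat_lit 0) (cs (lf (nat_lit 35) (nat_lit 228)) (nd (nat_lit 231) (nat_lit 0) (cs (lf (nat_lit 17) (nat_lit 228)) (nd (nat_lit 338) (nat_lit 0) (cs (lf (nat_lit 34) (nat_lit 250)) (rf (nat_lit 2)))))))))))))))))) (cs (nd (nat_lit 271) (nat_lit 0) (cs (rf (nat_lit 3)) (cs (nd (nat_lit 293) (nat_lit 0) (cs (lf (nat_lit 23) (nat_lit 270)) (rf (nat_lit 4)))) (nd (nat_lit 270) (nat_lit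 0) (cs (nd (nat_lit 272) (nat_lit 0) (cs (lf (nat_lit 8) (nat_lit 249)) (lf (nat_lit 3) (nat_lit 270)))) (lf (nat_lit 21) (nat_lit 270))))))) (rf (nat_lit 5))))))) q43970 (by decide +kernel)
def q44108 : Q := Q.p (nat_lit 0x3c0000000000000000000000000000000000000000000000000000000000000000000000000) (nat_lit 0x738000c00007000000000000000000000000000000000000000000000000000000000000000000000) (nat_lit 6)
theorem c44108 : QOK q44108 := cut [q41970] ⟨c41970, trivial⟩ (nd (nat_lit 316) (nat_lit 0) (cs (lf (nat_lit 11) (nat_lit 293)) (rf (nat_lit 0)))) q44108 (by decide +kernel)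
def q44117 : Q := Q.p (nat_lit 0x400001c0000000003400000000000000000000000000000000000000000000000000000000000000) (nat_lit 0x40000100000200002200003e0000a0001a000000000000000000000000000000000000000000000000000000000) (nat_lit 7)
theorem c44117 : QOK q44117 := cut [q43928, q44107, q44060] ⟨c43928, c44107, c44060, trivial⟩ (nd (nat_lit 271) (nat_lit 0) (cs (rf (nat_lit 0)) (cs (rf (nat_lit 1)) (nd (nat_lit 270) (nat_lit 0) (cs (lf (nat_lit 21) (nat_lit 270)) (rf (nat_lit 2))))))) q44117 (by decide +kernel)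
def q44169 : Q := Q.p (nat_lit 0x100000c00001c0000000000000000000000000000000000000000000000000000000000000000000000000) (nat_lit 0x280000e0000380002e000038001e00007200000000000000000000000000000000000000000000000000000000000000000000) (nat_lit 7)
theorem c44169 : QOK q44169 := cut [q44155, q44163] ⟨c44155, c44163, trivial⟩ (nd (nat_lit 316) (nat_lit 0) (cs (rf (nat_lit 0)) (cs (nd (nat_lit 338) (nat_lit 0) (cs (rf (nat_lit 1)) (nd (nat_lit 339) (nat_lit 0) (cs (lf (nat_lit 12) (nat_lit 315)) (nd (nat_lit 315) (nat_lit 0) (cs (lf (nat_lit 6) (nat_lit 293)) (lf (nat_lit 18) (nat_lit 315)))))))) (nd (nat_lit 338) (nat_lit 0) (cs (rf (nat_lit 1)) (nd (nat_lit 337) (nat_lit 0) (cs (lf (nat_lit 8) (nat_lit 315)) (lf (nat_lit 14) (nat_lit 315))))))))) q44169 (by decide +kernel)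
def q44266 : Q := Q.p (nat_lit 0x40000180000000003400000000000000000000000000000000000000000000000000000000000000) (nat_lit 0x3e0000f80007e0001be0000700003e0000a0001a800000000000000000000000000000000000000000000000000000000) (nat_lit 11)
theorem c44266 : QOK q44266 := cut [q43916, q43919, q43927, q44058, q44125, q43923, q44133, q14187, q41973, q41984, q43918, q44114] ⟨c43916, c43919, c43927, c44058, c44125, c43923, c44133, c14187, c41973, c41984, c43918, c44114, trivial⟩ (nd (nat_lit 294) (nat_lit 0) (cs (rf (nat_lit 0)) (cs (rf (nat_lit 1)) (cs (rf (nat_lit 2)) (cs (nd (nat_lit 251) (nat_lit 0) (cs (rf (nat_lit 3)) (cs (rf (nat_lit 4)) (cs (nd (nat_lit 272) (nat_lit 0) (cs (lf (nat_lit 11) (nat_lit 249)) (nd (nat_lit 316) (nat_lit 0) (cs (lf (nat_lit 35) (nat_lit 228)) (nd (nat_lit 227) (nat_lit 0) (cs (lf (nat_lit 46) (nat_lit 227)) (rf (nat_lit 5)))))))) (nd (nat_lit 317) (nat_lit 0) (cs (rf (nat_lit 6)) (cs (nd (nat_lit 319) (nat_lit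 0) (cs (lf (nat_lit 18) (nat_lit 294)) (nd (nat_lit 231) (nat_lit 0) (cs (lf (nat_lit 17) (nat_lit 228)) (nd (nat_lit 272) (nat_lit 0) (cs (lf (nat_lit 11) (nat_lit 249)) (rf (nat_lit 7)))))))) (nd (nat_lit 273) (nat_lit 0) (cs (lf (nat_lit 29) (nat_lit 251)) (nd (nat_lit 272) (nat_lit 0) (cs (lf (nat_lit 11) (nat_lit 249)) (lf (nat_lit 42) (nat_lit 250))))))))))))) (nd (nat_lit 293) (nat_lit 0) (cs (rf (nat_lit 8)) (cs (rf (nat_lit 9)) (cs (rf (nat_lit 10)) (nd (nat_lit 271) (nat_lit 0) (cs (lf (nat_lit 23) (nat_lit 270)) (nd (nat_lit 314) (nat_lit 0) (cs (lf (nat_lit 10) (nat_lit 292)) (rf (nat_lit 11))))))))))))))) q44266 (by decide +kernel)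
def q44288 : Q := Q.p (nat_lit 0x40000180000000003400000000010000040000000000000000000000000000000000000000000000) (nat_lit 0xa0000380000e0001ff0003fc003fb8007af001a780003f0000b8001ae00008000000000000000000000000000000000000000000000000000) (nat_lit 13)
theorem c44288 : QOK q44288 := cut [q43972, q44040, q44042, q3762, q11143, q42380, q13222, q42841, q44022, q44025, q42733, q42495, q42583, q43343] ⟨c43972, c44040, c44042, c3762, c11143, c42380, c13222, c42841, c44022, c44025, c42733, c42495, c42583, c43343, trivial⟩ (nd (nat_lit 340) (nat_lit 0) (cs (rf (nat_lit 0)) (cs (nd (nat_lit 251) (nat_lit 0) (cs (nd (nat_lit 271) (nat_lit 0) (cs (lf (nat_lit 10) (nat_lit 249)) (nd (nat_lit 249) (nat_lit 0) (cs (lf (nat_lit 11) (nat_lit 248)) (nd (nat_lit 226) (nat_lit 0) (cs (lf (nat_lit 22) (nat_lit 226)) (nd (nat_lit 248) (nat_lit 0) (cs (lf (nat_lit 23) (nat_lit 225)) (nd (nat_lit 293) (nat_lit 0) (cs (lf (nat_lit 42) (nat_lit 226)) (nd (nat_lit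 294) (nat_lit 0) (cs (lf (nat_lit 5) (nat_lit 293)) (nd (nat_lit 292) (nat_lit 0) (cs (lf (nat_lit 4) (nat_lit 292)) (nd (nat_lit 313) (nat_lit 0) (cs (lf (nat_lit 10) (nat_lit 291)) (nd (nat_lit 291) (nat_lit 0) (cs (lf (nat_lit 11) (nat_lit 290)) (nd (nat_lit 269) (nat_lit 0) (cs (lf (nat_lit 23) (nat_lit 268)) (lf (nat_lit 33) (nat_lit 225)))))))))))))))))))))) (cs (nd (nat_lit 319) (nat_lit 0) (cs (rf (nat_lit 1)) (cs (nd (nat_lit 293) (nat_lit 0) (cs (nd (nat_lit 271) (nat_lit 0) (cs (lf (nat_lit 10) (nat_lit 249)) (nd (nat_lit 249) (nat_lit 0) (cs (lf (nat_lit 11) (nat_lit 248)) (rf (nat_lit 2)))))) (lf (nat_lit 1) (nat_lit 293)))) (nd (nat_lit 249) (nat_lit 0) (cs (rf (nat_lit 3)) (cs (rf (nat_lit 4)) (cs (rf (nat_lit 5)) (nd (nat_lit 320) (nat_lit 0) (cs (nd (nat_lit 231) (nat_lit 0) (cs (lf (nat_lit 17) (nat_lit 228)) (rf (nat_lit 6)))) (nd (nat_lit 226) (nat_lit 0) (cs (lf (nat_lit 22) (nat_lit 226)) (nd (nat_lit 248) (nat_lit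 0) (cs (lf (nat_lit 23) (nat_lit 225)) (nd (nat_lit 273) (nat_lit 0) (cs (lf (nat_lit 24) (nat_lit 229)) (nd (nat_lit 272) (nat_lit 0) (cs (lf (nat_lit 11) (nat_lit 249)) (lf (nat_lit 0) (nat_lit 247))))))))))))))))))) (nd (nat_lit 273) (nat_lit 0) (cs (lf (nat_lit 24) (nat_lit 229)) (lf (nat_lit 27) (nat_lit 251))))))) (cs (nd (nat_lit 362) (nat_lit 0) (cs (lf (nat_lit 47) (nat_lit 273)) (nd (nat_lit 361) (nat_lit 0) (cs (lf (nat_lit 41) (nat_lit 295)) (nd (nat_lit 385) (nat_lit 0) (cs (lf (nat_lit 28) (nat_lit 296)) (nd (nat_lit 384) (nat_lit 0) (cs (lf (nat_lit 29) (nat_lit 318)) (nd (nat_lit 319) (nat_lit 0) (cs (lf (nat_lit 35) (nat_lit 296)) (nd (nat_lit 386) (nat_lit 0) (cs (lf (nat_lit 18) (nat_lit 361)) (nd (nat_lit 293) (nat_lit 0) (cs (lf (nat_lit 1) (nat_lit 293)) (nd (nat_lit 320) (nat_lit 0) (cs (lf (nat_lit 18) (nat_lit 295)) (nd (nat_lit 360) (nat_lit 0) (cs (lf (nat_lit 0) (nat_lit 359)) (nd (nat_lit 341) (nat_lit 0)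 (cs (rf (nat_lit 7)) (lf (nat_lit 30) (nat_lit 318)))))))))))))))))))))) (nd (nat_lit 362) (nat_lit 0) (cs (rf (nat_lit 8)) (cs (rf (nat_lit 9)) (nd (nat_lit 361) (nat_lit 0) (cs (lf (nat_lit 41) (nat_lit 295)) (nd (nat_lit 342) (nat_lit 0) (cs (rf (nat_lit 10)) (cs (nd (nat_lit 363) (nat_lit 0) (cs (lf (nat_lit 29) (nat_lit 296)) (nd (nat_lit 364) (nat_lit 0) (cs (lf (nat_lit 17) (nat_lit 339)) (nd (nat_lit 365) (nat_lit 0) (cs (lf (nat_lit 23) (nat_lit 339)) (rf (nat_lit 11)))))))) (cs (nd (nat_lit 363) (nat_lit 0) (cs (lf (nat_lit 29) (nat_lit 296)) (nd (nat_lit 360) (nat_lit 0) (cs (lf (nat_lit 16) (nat_lit 338)) (rf (nat_lit 12)))))) (nd (nat_lit 341) (nat_lit 0) (cs (lf (nat_lit 6) (nat_lit 339)) (rf (nat_lit 13))))))))))))))))) q44288 (by decide +kernel)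
def q44398 : Q := Q.p (nat_lit 0xf00003000000000000000000000000000000000000000000000000000000000000000) (nat_lit 0x1ce0007000000000000000000000000000000000000000000000000000000000000000000000) (nat_lit 5)
theorem c44398 : QOK q44398 := cut [q24850] ⟨c24850, trivial⟩ (nd (nat_lit 294) (nat_lit 0) (cs (lf (nat_lit 11) (nat_lit 271)) (rf (nat_lit 0)))) q44398 (by decide +kernel)
def q44442 : Q := Q.p (nat_lit 0x40000000000000001e00000000010000040000000000000000000000000000000000000000000000) (nat_lit 0x140000320001c8000370000180002e00009000004000000000000000000000000000000000000000000000) (nat_lit 12)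
theorem c44442 : QOK q44442 := cut [q44435] ⟨c44435, trivial⟩ (nd (nat_lit 226) (nat_lit 0) (cs (lf (nat_lit 22) (nat_lit 226)) (nd (nat_lit 248) (nat_lit 0) (cs (lf (nat_lit 23) (nat_lit 225)) (nd (nat_lit 269) (nat_lit 0) (cs (lf (nat_lit 10) (nat_lit 247)) (nd (nat_lit 247) (nat_lit 0) (cs (lf (nat_lit 11) (nat_lit 246)) (nd (nat_lit 291) (nat_lit 0) (cs (lf (nat_lit 30) (nat_lit 225)) (nd (nat_lit 182) (nat_lit 0) (cs (lf (nat_lit 37) (nat_lit 181)) (nd (nat_lit 273) (nat_lit 0) (cs (lf (nat_lit 4) (nat_lit 247)) (rf (nat_lit 0)))))))))))))))) q44442 (by decide +kernel)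
def q44523 : Q := Q.p (nat_lit 0x100000400001000000000000000000000000000000000000000000000000000000000) (nat_lit 0xa0000380000e000028000000000200000c000020000000000000000000000000000000000000000000000) (nat_lit 5)
theorem c44523 : QOK q44523 := cut [q44494, q44517, q25774] ⟨c44494, c44517, c25774, trivial⟩ (nd (nat_lit 294) (nat_lit 0) (cs (rf (nat_lit 0)) (cs (rf (nat_lit 1)) (nd (nat_lit 295) (nat_lit 0) (cs (lf (nat_lit 29) (nat_lit 228)) (nd (nat_lit 206) (nat_lit 0) (cs (lf (nat_lit 28) (nat_lit 206)) (rf (nat_lit 2))))))))) q44523 (by decide +kernel)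
def q44534 : Q := Q.p (nat_lit 0x100003400001000010000040000000000000000000000000000000000000000000000) (nat_lit 0x2000068000020000000000e0000b80000a0000000000000000000000000000000000000000) (nat_lit 6)
theorem c44534 : QOK q44534 := cut [q2085, q17127, q41226, q41228] ⟨c2085, c17127, c41226, c41228, trivial⟩ (nd (nat_lit 206) (nat_lit 0) (cs (rf (nat_lit 0)) (cs (rf (nat_lit 1)) (cs (rf (nat_lit 2)) (nd (nat_lit 271) (nat_lit 0) (cs (lf (nat_lit 41) (nat_lit 205)) (nd (nat_lit 273) (nat_lit 0) (cs (lf (nat_lit 15) (nat_lit 249)) (rf (nat_lit 3)))))))))) q44534 (by decide +kernel)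
def q44536 : Q := Q.p (nat_lit 0x100000400001000000000000000000000000000000000000000000000000000000000) (nat_lit 0xa0000380000e0000280000000000800006000008000000000000000000000000000000000000000000000) (nat_lit 5)
theorem c44536 : QOK q44536 := cut [q15806, q44490, q44517] ⟨c15806, c44490, c44517, trivial⟩ (nd (nat_lit 294) (nat_lit 0) (cs (rf (nat_lit 0)) (cs (rf (nat_lit 1)) (rf (nat_lit 2))))) q44536 (by decide +kernel)
def q44572 : Q := Q.p (nat_lit 0x100000700000000000000000000000000000000000000000000000000000000000000) (nat_lit 0x2380000c0000380000000000000000000000000000000000000000000000000000000) (nat_lit 5)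
theorem c44572 : QOK q44572 := cut [q44571] ⟨c44571, trivial⟩ (nd (nat_lit 247) (nat_lit 0) (cs (lf (nat_lit 5) (nat_lit 247)) (rf (nat_lit 0)))) q44572 (by decide +kernel)
def q44582 : Q := Q.p (nat_lit 0x700000000003000000000000000000000000000000000000000000000000000) (nat_lit 0x80000280000f800000000040000000000e0000380000a0000000000000000000000000000000000) (nat_lit 6)
theorem c44582 : QOK q44582 := cut [q44574, q44575, q44577, q44581] ⟨c44574, c44575, c44577, c44581, trivial⟩ (nd (nat_lit 226) (nat_lit 0) (cs (rf (nat_lit 0)) (cs (rf (nat_lit 1)) (cs (nd (nat_lit 270) (nat_lit 0) (cs (lf (nat_lit 35) (nat_lit 182)) (nd (nat_lit 269) (nat_lit 0) (cs (lf (nat_lit 41) (nat_lit 203)) (rf (nat_lit 2)))))) (rf (nat_lit 3)))))) q44582 (by decide +kernel)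
def q44598 : Q := Q.p (nat_lit 0x100003600000000007000000000000000000000000000000000000000000000000000) (nat_lit 0x80000300006f00001c0000f00000000014000000000000000000000000000000000000000000000) (nat_lit 9)
theorem c44598 : QOK q44598 := cut [q44580, q44594] ⟨c44580, c44594, trivial⟩ (nd (nat_lit 271) (nat_lit 0) (cs (nd (nat_lit 227) (nat_lit 0) (cs (lf (nat_lit 47) (nat_lit 182)) (lf (nat_lit 35) (nat_lit 183)))) (cs (nd (nat_lit 273) (nat_lit 0) (cs (lf (nat_lit 15) (nat_lit 249)) (nd (nat_lit 248) (nat_lit 0) (cs (lf (nat_lit 0) (nat_lit 247)) (nd (nat_lit 226) (nat_lit 0) (cs (lf (nat_lit 24) (nat_lit 182)) (rf (nat_lit 0)))))))) (nd (nat_lit 273) (nat_lit 0) (cs (lf (nat_lit 15) (nat_lit 249)) (nd (nat_lit 247) (nat_lit 0) (cs (lf (nat_lit 1) (nat_lit 247)) (nd (nat_lit 227) (nat_lit 0) (cs (lf (nat_lit 35) (nat_lit 183)) (rf (nat_lit 1))))))))))) q44598 (by decide +kernel)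
def q44602 : Q := Q.p (nat_lit 0x100003600000000007000000000000000000000000000000000000000000000000000) (nat_lit 0x300006f00001c0000f00000000018000000000000000000000000000000000000000000000) (nat_lit 9)
theorem c44602 : QOK q44602 := cut [q44594] ⟨c44594, trivial⟩ (nd (nat_lit 227) (nat_lit 0) (cs (lf (nat_lit 24) (nat_lit 183)) (nd (nat_lit 271) (nat_lit 0) (cs (lf (nat_lit 35) (nat_lit 183)) (nd (nat_lit 273) (nat_lit 0) (cs (lf (nat_lit 15) (nat_lit 249)) (nd (nat_lit 247) (nat_lit 0) (cs (lf (nat_lit 1) (nat_lit 247)) (rf (nat_lit 0)))))))))) q44602 (by decide +kernel)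
def q44672 : Q := Q.p (nat_lit 0x100000400000000007800000000000000000000000000000000000000000000000000) (nat_lit 0x2f00003c0000e0000000003700001c0003f00003c0000500000000000000000000000) (nat_lit 11)
theorem c44672 : QOK q44672 := cut [q44563, q44651, q41050, q44658, q17985, q41626, q44559, q44669] ⟨c44563, c44651, c41050, c44658, c17985, c41626, c44559, c44669, trivial⟩ (nd (nat_lit 181) (nat_lit 0) (cs (lf (nat_lit 23) (nat_lit 180)) (nd (nat_lit 159) (nat_lit 0) (cs (rf (nat_lit 0)) (cs (nd (nat_lit 248) (nat_lit 0) (cs (nd (nat_lit 226) (nat_lit 0) (cs (lf (nat_lit 27) (nat_lit 159)) (lf (nat_lit 45) (nat_lit 159)))) (cs (nd (nat_lit 247) (nat_lit 0) (cs (rf (nat_lit 1)) (cs (nd (nat_lit 249) (nat_lit 0) (cs (lf (nat_lit 5) (nat_lit 247)) (nd (nat_lit 268) (nat_lit 0) (cs (lf (nat_lit 10) (nat_lit 246)) (nd (nat_lit 225) (nat_lit 0) (cs (lf (nat_lit 29) (nat_lit 181)) (lf (nat_lit 40) (nat_lit 180)))))))) (nd (nat_lit 184) (nat_lit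 0) (cs (lf (nat_lit 17) (nat_lit 181)) (nd (nat_lit 225) (nat_lit 0) (cs (lf (nat_lit 29) (nat_lit 181)) (rf (nat_lit 2))))))))) (cs (rf (nat_lit 3)) (nd (nat_lit 226) (nat_lit 0) (cs (lf (nat_lit 42) (nat_lit 181)) (lf (nat_lit 27) (nat_lit 159)))))))) (cs (nd (nat_lit 137) (nat_lit 0) (cs (rf (nat_lit 4)) (cs (rf (nat_lit 5)) (cs (rf (nat_lit 6)) (nd (nat_lit 184) (nat_lit 0) (cs (lf (nat_lit 17) (nat_lit 181)) (nd (nat_lit 114) (nat_lit 0) (cs (lf (nat_lit 46) (nat_lit 114)) (nd (nat_lit 138) (nat_lit 0) (cs (lf (nat_lit 35) (nat_lit 115)) (nd (nat_lit 160) (nat_lit 0) (cs (lf (nat_lit 30) (nat_lit 137)) (nd (nat_lit 182) (nat_lit 0) (cs (lf (nat_lit 29) (nat_lit 138)) (nd (nat_lit 139) (nat_lit 0) (cs (lf (nat_lit 35) (nat_lit 116)) (nd (nat_lit 140) (nat_lit 0) (cs (lf (nat_lit 11) (nat_lit 136)) (lf (nat_lit 6) (nat_lit 137)))))))))))))))))))) (nd (nat_lit 184) (nat_lit 0) (cs (lf (nat_lit 17) (nat_lit 181)) (rf (nat_lit 7))))))))))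 q44672 (by decide +kernel)
def q44849 : Q := Q.p (nat_lit 0x100003400000000007000000000000000000000000000000000000000000000000000) (nat_lit 0x380006f80003c0000dc0000f0003fe0007c0001fc0003c0000500000000000000000000000) (nat_lit 12)
theorem c44849 : QOK q44849 := cut [q44557, q44647, q44745, q44752, q44669, q44658, q44741, q17985, q41626, q44559] ⟨c44557, c44647, c44745, c44752, c44669, c44658, c44741, c17985, c41626, c44559, trivial⟩ (nd (nat_lit 203) (nat_lit 0) (cs (rf (nat_lit 0)) (cs (rf (nat_lit 1)) (cs (rf (nat_lit 2)) (cs (rf (nat_lit 3)) (nd (nat_lit 181) (nat_lit 0) (cs (lf (nat_lit 23) (nat_lit 180)) (nd (nat_lit 159) (nat_lit 0) (cs (rf (nat_lit 4)) (cs (nd (nat_lit 184) (nat_lit 0) (cs (lf (nat_lit 17) (nat_lit 181)) (nd (nat_lit 249) (nat_lit 0) (cs (nd (nat_lit 183) (nat_lit 0) (cs (lf (nat_lit 26) (nat_lit 183)) (nd (nat_lit 158) (nat_lit 0) (cs (lf (nat_lit 20) (nat_lit 158)) (nd (nat_lit 161) (nat_lit 0) (cs (lf (nat_lit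 2) (nat_lit 158)) (nd (nat_lit 139) (nat_lit 0) (cs (lf (nat_lit 24) (nat_lit 117)) (lf (nat_lit 41) (nat_lit 138)))))))))) (cs (nd (nat_lit 248) (nat_lit 0) (cs (rf (nat_lit 5)) (rf (nat_lit 6)))) (nd (nat_lit 227) (nat_lit 0) (cs (lf (nat_lit 30) (nat_lit 183)) (lf (nat_lit 24) (nat_lit 183))))))))) (nd (nat_lit 137) (nat_lit 0) (cs (rf (nat_lit 7)) (cs (rf (nat_lit 8)) (cs (rf (nat_lit 9)) (nd (nat_lit 160) (nat_lit 0) (cs (nd (nat_lit 136) (nat_lit 0) (cs (lf (nat_lit 47) (nat_lit 114)) (nd (nat_lit 135) (nat_lit 0) (cs (lf (nat_lit 0) (nat_lit 134)) (nd (nat_lit 161) (nat_lit 0) (cs (lf (nat_lit 21) (nat_lit 135)) (lf (nat_lit 18) (nat_lit 136)))))))) (cs (nd (nat_lit 138) (nat_lit 0) (cs (lf (nat_lit 35) (nat_lit 115)) (nd (nat_lit 184) (nat_lit 0) (cs (lf (nat_lit 17) (nat_lit 181)) (nd (nat_lit 182) (nat_lit 0) (cs (lf (nat_lit 29) (nat_lit 138)) (nd (nat_lit 139) (nat_lit 0) (cs (lf (nat_lit 35) (nat_lit 116)) (nd (nat_lit 158)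 (nat_lit 0) (cs (lf (nat_lit 19) (nat_lit 158)) (lf (nat_lit 6) (nat_lit 136)))))))))))) (nd (nat_lit 138) (nat_lit 0) (cs (lf (nat_lit 35) (nat_lit 115)) (nd (nat_lit 184) (nat_lit 0) (cs (lf (nat_lit 17) (nat_lit 181)) (nd (nat_lit 114) (nat_lit 0) (cs (lf (nat_lit 46) (nat_lit 114)) (nd (nat_lit 227) (nat_lit 0) (cs (lf (nat_lit 26) (nat_lit 138)) (nd (nat_lit 183) (nat_lit 0) (cs (lf (nat_lit 45) (nat_lit 138)) (lf (nat_lit 27) (nat_lit 183))))))))))))))))))))))))))))) q44849 (by decide +kernel)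
def q44870 : Q := Q.p (nat_lit 0x7000040000000000000000000000000000000000000000000000) (nat_lit 0x100000fe0000f000bfc0003c0000700001c0000500000000000000000000000) (nat_lit 10)
theorem c44870 : QOK q44870 := cut [q41640, q44554, q44678, q44798, q44560, q44563, q41137] ⟨c41640, c44554, c44678, c44798, c44560, c44563, c41137, trivial⟩ (nd (nat_lit 184) (nat_lit 0) (cs (rf (nat_lit 0)) (cs (nd (nat_lit 185) (nat_lit 0) (cs (lf (nat_lit 6) (nat_lit 183)) (lf (nat_lit 9) (nat_lit 182)))) (nd (nat_lit 203) (nat_lit 0) (cs (rf (nat_lit 1)) (cs (nd (nat_lit 202) (nat_lit 0) (cs (lf (nat_lit 16) (nat_lit 180)) (rf (nat_lit 2)))) (cs (rf (nat_lit 3)) (cs (nd (nat_lit 181) (nat_lit 0) (cs (lf (nat_lit 23) (nat_lit 180)) (nd (nat_lit 159) (nat_lit 0) (cs (rf (nat_lit 4)) (cs (rf (nat_lit 5)) (cs (nd (nat_lit 225) (nat_lit 0) (cs (lf (nat_lit 11) (nat_lit 202)) (nd (nat_lit 226) (nat_lit 0) (cs (lf (nat_lit 29) (nat_lit 159)) (nd (nat_lit 160) (nat_lit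 0) (cs (lf (nat_lit 35) (nat_lit 137)) (nd (nat_lit 158) (nat_lit 0) (cs (lf (nat_lit 47) (nat_lit 136)) (nd (nat_lit 183) (nat_lit 0) (cs (lf (nat_lit 3) (nat_lit 158)) (lf (nat_lit 20) (nat_lit 158)))))))))))) (nd (nat_lit 225) (nat_lit 0) (cs (lf (nat_lit 11) (nat_lit 202)) (rf (nat_lit 6)))))))))) (nd (nat_lit 224) (nat_lit 0) (cs (lf (nat_lit 10) (nat_lit 202)) (nd (nat_lit 202) (nat_lit 0) (cs (lf (nat_lit 11) (nat_lit 201)) (lf (nat_lit 16) (nat_lit 180)))))))))))))) q44870 (by decide +kernel)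
def q44888 : Q := Q.p (nat_lit 0x100000400001000014000040000000000000000000000000000000000000000000000) (nat_lit 0x80000200000000002e0000b8000a7000000000000000000000000000000000000000000000) (nat_lit 8)
theorem c44888 : QOK q44888 := cut [q44887] ⟨c44887, trivial⟩ (nd (nat_lit 273) (nat_lit 0) (cs (lf (nat_lit 29) (nat_lit 206)) (rf (nat_lit 0)))) q44888 (by decide +kernel)
def q45007 : Q := Q.p (nat_lit 0x180000000003000000000000000000000000000000000000000000000000000000000000000) (nat_lit 0x280001f80007f0000ff0007fc000e00007c00000000008000000000000000000000000000000000000000000000000000000000) (nat_lit 12)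
theorem c45007 : QOK q45007 := cut [q42166, q13164, q41951, q41960, q17012, q44960, q42049, q42057, q42063, q44965, q44975, q42101, q42103, q44025, q42551, q42499, q25431, q42151] ⟨c42166, c13164, c41951, c41960, c17012, c44960, c42049, c42057, c42063, c44965, c44975, c42101, c42103, c44025, c42551, c42499, c25431, c42151, trivial⟩ (nd (nat_lit 318) (nat_lit 0) (cs (rf (nat_lit 0)) (cs (nd (nat_lit 274) (nat_lit 0) (cs (lf (nat_lit 35) (nat_lit 230)) (nd (nat_lit 319) (nat_lit 0) (cs (lf (nat_lit 29) (nat_lit 252)) (nd (nat_lit 320) (nat_lit 0) (cs (lf (nat_lit 18) (nat_lit 295)) (nd (nat_lit 275) (nat_lit 0) (cs (lf (nat_lit 30) (nat_lit 252)) (nd (nat_lit 276) (nat_lit 0) (cs (lf (nat_lit 6) (nat_lit 273)) (rf (nat_lit 1)))))))))))) (cs (nd (nat_lit 297) (nat_lit 0) (cs (rf (nat_lit 2)) (cs (rf (nat_lit 3)) (nd (nat_lit 298) (nat_lit 0) (cs (rf (nat_lit 4)) (cs (rf (nat_lit 5)) (nd (nat_lit 320) (nat_lit 0) (cs (lf (nat_lit 5) (nat_lit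 295)) (nd (nat_lit 342) (nat_lit 0) (cs (rf (nat_lit 6)) (cs (rf (nat_lit 7)) (cs (rf (nat_lit 8)) (nd (nat_lit 317) (nat_lit 0) (cs (lf (nat_lit 11) (nat_lit 294)) (rf (nat_lit 9)))))))))))))))) (cs (nd (nat_lit 274) (nat_lit 0) (cs (lf (nat_lit 35) (nat_lit 230)) (nd (nat_lit 317) (nat_lit 0) (cs (lf (nat_lit 41) (nat_lit 251)) (nd (nat_lit 319) (nat_lit 0) (cs (lf (nat_lit 29) (nat_lit 252)) (rf (nat_lit 10)))))))) (nd (nat_lit 340) (nat_lit 0) (cs (rf (nat_lit 11)) (cs (rf (nat_lit 12)) (cs (nd (nat_lit 362) (nat_lit 0) (cs (rf (nat_lit 13)) (cs (nd (nat_lit 363) (nat_lit 0) (cs (lf (nat_lit 29) (nat_lit 296)) (nd (nat_lit 364) (nat_lit 0) (cs (nd (nat_lit 339) (nat_lit 0) (cs (lf (nat_lit 18) (nat_lit 339)) (nd (nat_lit 361) (nat_lit 0) (cs (lf (nat_lit 41) (nat_lit 295)) (lf (nat_lit 23) (nat_lit 338)))))) (cs (nd (nat_lit 275) (nat_lit 0) (cs (rf (nat_lit 14)) (lf (nat_lit 34) (nat_lit 274)))) (cs (nd (nat_lit 275) (nat_lit 0)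 (cs (lf (nat_lit 34) (nat_lit 274)) (nd (nat_lit 361) (nat_lit 0) (cs (lf (nat_lit 41) (nat_lit 295)) (rf (nat_lit 15)))))) (nd (nat_lit 275) (nat_lit 0) (cs (lf (nat_lit 34) (nat_lit 274)) (nd (nat_lit 361) (nat_lit 0) (cs (lf (nat_lit 41) (nat_lit 295)) (nd (nat_lit 338) (nat_lit 0) (cs (lf (nat_lit 22) (nat_lit 338)) (nd (nat_lit 386) (nat_lit 0) (cs (lf (nat_lit 5) (nat_lit 361)) (nd (nat_lit 342) (nat_lit 0) (cs (lf (nat_lit 17) (nat_lit 339)) (nd (nat_lit 360) (nat_lit 0) (cs (lf (nat_lit 16) (nat_lit 338)) (lf (nat_lit 23) (nat_lit 337)))))))))))))))))))) (nd (nat_lit 361) (nat_lit 0) (cs (lf (nat_lit 41) (nat_lit 295)) (nd (nat_lit 317) (nat_lit 0) (cs (lf (nat_lit 42) (nat_lit 295)) (nd (nat_lit 297) (nat_lit 0) (cs (rf (nat_lit 16)) (lf (nat_lit 35) (nat_lit 274))))))))))) (nd (nat_lit 362) (nat_lit 0) (cs (rf (nat_lit 17)) (cs (rf (nat_lit 13)) (nd (nat_lit 361) (nat_lit 0) (cs (lf (nat_lit 41) (nat_lit 295)) (nd (nat_lit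 274) (nat_lit 0) (cs (lf (nat_lit 40) (nat_lit 273)) (nd (nat_lit 319) (nat_lit 0) (cs (lf (nat_lit 29) (nat_lit 252)) (nd (nat_lit 384) (nat_lit 0) (cs (lf (nat_lit 46) (nat_lit 295)) (lf (nat_lit 35) (nat_lit 296)))))))))))))))))))))) q45007 (by decide +kernel)
def q45024 : Q := Q.p (nat_lit 0x400003c0000100000400001000000000000000000000000000000000000000000000000000000000) (nat_lit 0xf98001c0000700000000000200000c000020000000000000000000000000000000000000000000000) (nat_lit 9)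
theorem c45024 : QOK q45024 := cut [q44960, q44230, q28147, q45023] ⟨c44960, c44230, c28147, c45023, trivial⟩ (nd (nat_lit 298) (nat_lit 0) (cs (rf (nat_lit 0)) (cs (nd (nat_lit 207) (nat_lit 0) (cs (lf (nat_lit 34) (nat_lit 206)) (nd (nat_lit 185) (nat_lit 0) (cs (lf (nat_lit 33) (nat_lit 184)) (nd (nat_lit 315) (nat_lit 0) (cs (lf (nat_lit 10) (nat_lit 293)) (rf (nat_lit 1)))))))) (cs (nd (nat_lit 319) (nat_lit 0) (cs (lf (nat_lit 5) (nat_lit 294)) (nd (nat_lit 299) (nat_lit 0) (cs (lf (nat_lit 6) (nat_lit 296)) (rf (nat_lit 2)))))) (rf (nat_lit 3)))))) q45024 (by decide +kernel)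
def q45042 : Q := Q.p (nat_lit 0x40000180000000003000000000000000000000000000000000000000000000000000000000000000) (nat_lit 0x20000380000260000400000000008000000000000000000000000000000000000000000000000000000000) (nat_lit 5)
theorem c45042 : QOK q45042 := cut [q45041] ⟨c45041, trivial⟩ (nd (nat_lit 274) (nat_lit 0) (cs (lf (nat_lit 35) (nat_lit 230)) (rf (nat_lit 0)))) q45042 (by decide +kernel)
def q45082 : Q := Q.p (nat_lit 0x20000080000100000400000000000000000000000000000000000000000000000000000000000000) (nat_lit 0x50000fc0003f80007f000040000100000600000000000000000000000000000000000000000000000000000000000000000000) (nat_lit 11)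
theorem c45082 : QOK q45082 := cut [q45054, q45060, q45067, q45073, q45078] ⟨c45054, c45060, c45067, c45073, c45078, trivial⟩ (nd (nat_lit 339) (nat_lit 0) (cs (lf (nat_lit 45) (nat_lit 250)) (nd (nat_lit 361) (nat_lit 0) (cs (nd (nat_lit 296) (nat_lit 0) (cs (nd (nat_lit 382) (nat_lit 0) (cs (lf (nat_lit 40) (nat_lit 294)) (nd (nat_lit 383) (nat_lit 0) (cs (lf (nat_lit 41) (nat_lit 316)) (lf (nat_lit 34) (nat_lit 295)))))) (lf (nat_lit 35) (nat_lit 273)))) (cs (rf (nat_lit 0)) (cs (nd (nat_lit 362) (nat_lit 0) (cs (lf (nat_lit 29) (nat_lit 295)) (nd (nat_lit 363) (nat_lit 0) (cs (nd (nat_lit 338) (nat_lit 0) (cs (lf (nat_lit 18) (nat_lit 338)) (nd (nat_lit 360) (nat_lit 0) (cs (lf (nat_lit 41) (nat_lit 294)) (lf (nat_lit 23) (nat_lit 337)))))) (cs (nd (nat_lit 274) (nat_lit 0) (cs (lf (nat_lit 34) (nat_lit 273)) (rf (nat_lit 1)))) (cs (nd (nat_lit 274) (nat_lit 0) (cs (lf (nat_lit 34) (nat_lit 273)) (rf (nat_lit 2)))) (nd (nat_lit 274)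 (nat_lit 0) (cs (lf (nat_lit 34) (nat_lit 273)) (rf (nat_lit 3)))))))))) (nd (nat_lit 296) (nat_lit 0) (cs (lf (nat_lit 35) (nat_lit 273)) (nd (nat_lit 383) (nat_lit 0) (cs (lf (nat_lit 34) (nat_lit 295)) (rf (nat_lit 4)))))))))))) q45082 (by decide +kernel)
def q45110 : Q := Q.p (nat_lit 0x40000100000400000000000000000000000000000000000000000000000000000000000000) (nat_lit 0x80000e00003c00038000008000020000380000c000030000000000000000000000000000000000000000000000) (nat_lit 8)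
theorem c45110 : QOK q45110 := cut [q14128, q45109] ⟨c14128, c45109, trivial⟩ (nd (nat_lit 316) (nat_lit 0) (cs (rf (nat_lit 0)) (cs (nd (nat_lit 317) (nat_lit 0) (cs (lf (nat_lit 29) (nat_lit 250)) (nd (nat_lit 228) (nat_lit 0) (cs (lf (nat_lit 28) (nat_lit 228)) (nd (nat_lit 207) (nat_lit 0) (cs (lf (nat_lit 34) (nat_lit 206)) (nd (nat_lit 206) (nat_lit 0) (cs (lf (nat_lit 35) (nat_lit 184)) (nd (nat_lit 249) (nat_lit 0) (cs (lf (nat_lit 47) (nat_lit 227)) (nd (nat_lit 271) (nat_lit 0) (cs (lf (nat_lit 36) (nat_lit 183)) (lf (nat_lit 42) (nat_lit 249)))))))))))))) (rf (nat_lit 1))))) q45110 (by decide +kernel)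
def q45123 : Q := Q.p (nat_lit 0xc0000100003000000000000000000000000000000000000000000000000000000000000000) (nat_lit 0x300000c0000380003ee000330000ee0000000008000000000000000000000000000000000000000000000000000000000) (nat_lit 8)
theorem c45123 : QOK q45123 := cut [q44503, q45120, q45121, q45122] ⟨c44503, c45120, c45121, c45122, trivial⟩ (nd (nat_lit 296) (nat_lit 0) (cs (rf (nat_lit 0)) (cs (rf (nat_lit 1)) (cs (rf (nat_lit 2)) (rf (nat_lit 3)))))) q45123 (by decide +kernel)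
def q45163 : Q := Q.p (nat_lit 0x18000040000100003400000000000000000000000000000000000000000000000000000000000000) (nat_lit 0x39c000e60003bc000c00000200008800000000000000000000000000000000000000000000000000000000) (nat_lit 10)
theorem c45163 : QOK q45163 := cut [q45153, q45154, q14179] ⟨c45153, c45154, c14179, trivial⟩ (nd (nat_lit 314) (nat_lit 0) (cs (rf (nat_lit 0)) (cs (nd (nat_lit 317) (nat_lit 0) (cs (lf (nat_lit 29) (nat_lit 250)) (nd (nat_lit 291) (nat_lit 0) (cs (lf (nat_lit 22) (nat_lit 291)) (nd (nat_lit 335) (nat_lit 0) (cs (lf (nat_lit 10) (nat_lit 313)) (nd (nat_lit 296) (nat_lit 0) (cs (lf (nat_lit 16) (nat_lit 292)) (nd (nat_lit 318) (nat_lit 0) (cs (lf (nat_lit 17) (nat_lit 293)) (nd (nat_lit 293) (nat_lit 0) (cs (lf (nat_lit 18) (nat_lit 293)) (nd (nat_lit 340) (nat_lit 0) (cs (lf (nat_lit 5) (nat_lit 315)) (rf (nat_lit 1)))))))))))))))) (nd (nat_lit 227) (nat_lit 0) (cs (lf (nat_lit 46) (nat_lit 227)) (rf (nat_lit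 2))))))) q45163 (by decide +kernel)
def q45172 : Q := Q.p (nat_lit 0x40000100000400000000000000000000000000000000000000000000000000000000000000) (nat_lit 0x280000e000078000038000080000200001800000000000000000000000000000000000000000000000000000000) (nat_lit 6)
theorem c45172 : QOK q45172 := cut [q14121, q14128, q45169] ⟨c14121, c14128, c45169, trivial⟩ (nd (nat_lit 316) (nat_lit 0) (cs (rf (nat_lit 0)) (cs (rf (nat_lit 1)) (nd (nat_lit 315) (nat_lit 0) (cs (lf (nat_lit 41) (nat_lit 249)) (nd (nat_lit 293) (nat_lit 0) (cs (lf (nat_lit 36) (nat_lit 227)) (rf (nat_lit 2))))))))) q45172 (by decide +kernel)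
def q45257 : Q := Q.p (nat_lit 0x60000100003400000000000000000000000000000000000000000000000000000000000000) (nat_lit 0x280001e000078001d780079c003ef8000380009800004000000000000000000000000000000000000000000000000000) (nat_lit 13)
theorem c45257 : QOK q45257 := cut [q44922, q44932, q44934, q45214, q45225, q45234, q45240, q45241, q45255] ⟨c44922, c44932, c44934, c45214, c45225, c45234, c45240, c45241, c45255, trivial⟩ (nd (nat_lit 292) (nat_lit 0) (cs (rf (nat_lit 0)) (cs (rf (nat_lit 1)) (cs (nd (nat_lit 295) (nat_lit 0) (cs (rf (nat_lit 2)) (cs (nd (nat_lit 270) (nat_lit 0) (cs (lf (nat_lit 23) (nat_lit 269)) (nd (nat_lit 249) (nat_lit 0) (cs (nd (nat_lit 316) (nat_lit 0) (cs (lf (nat_lit 47) (nat_lit 227)) (nd (nat_lit 273) (nat_lit 0) (cs (lf (nat_lit 17) (nat_lit 270)) (nd (nat_lit 338) (nat_lit 0) (cs (lf (nat_lit 46) (nat_lit 249)) (lf (nat_lit 30) (nat_lit 272)))))))) (cs (nd (nat_lit 314) (nat_lit 0) (cs (lf (nat_lit 11) (nat_lit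 291)) (nd (nat_lit 273) (nat_lit 0) (cs (lf (nat_lit 17) (nat_lit 270)) (nd (nat_lit 206) (nat_lit 0) (cs (lf (nat_lit 25) (nat_lit 206)) (nd (nat_lit 247) (nat_lit 0) (cs (lf (nat_lit 1) (nat_lit 247)) (rf (nat_lit 3)))))))))) (nd (nat_lit 314) (nat_lit 0) (cs (lf (nat_lit 11) (nat_lit 291)) (nd (nat_lit 227) (nat_lit 0) (cs (lf (nat_lit 42) (nat_lit 227)) (lf (nat_lit 33) (nat_lit 226))))))))))) (cs (nd (nat_lit 313) (nat_lit 0) (cs (lf (nat_lit 10) (nat_lit 291)) (rf (nat_lit 4)))) (rf (nat_lit 5)))))) (nd (nat_lit 269) (nat_lit 0) (cs (rf (nat_lit 6)) (cs (nd (nat_lit 291) (nat_lit 0) (cs (lf (nat_lit 23) (nat_lit 268)) (nd (nat_lit 271) (nat_lit 0) (cs (lf (nat_lit 12) (nat_lit 268)) (nd (nat_lit 206) (nat_lit 0) (cs (lf (nat_lit 37) (nat_lit 205)) (nd (nat_lit 313) (nat_lit 0) (cs (lf (nat_lit 11) (nat_lit 290)) (nd (nat_lit 295) (nat_lit 0) (cs (lf (nat_lit 10) (nat_lit 291)) (rf (nat_lit 7)))))))))))) (cs (nd (nat_lit 295) (nat_lit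 0) (cs (lf (nat_lit 22) (nat_lit 269)) (nd (nat_lit 313) (nat_lit 0) (cs (lf (nat_lit 10) (nat_lit 291)) (nd (nat_lit 291) (nat_lit 0) (cs (lf (nat_lit 11) (nat_lit 290)) (nd (nat_lit 271) (nat_lit 0) (cs (lf (nat_lit 12) (nat_lit 268)) (nd (nat_lit 206) (nat_lit 0) (cs (lf (nat_lit 37) (nat_lit 205)) (rf (nat_lit 7)))))))))))) (cs (nd (nat_lit 270) (nat_lit 0) (cs (lf (nat_lit 18) (nat_lit 269)) (nd (nat_lit 268) (nat_lit 0) (cs (lf (nat_lit 0) (nat_lit 267)) (lf (nat_lit 21) (nat_lit 268)))))) (rf (nat_lit 8))))))))))) q45257 (by decide +kernel)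
def q45327 : Q := Q.p (nat_lit 0x40000100003400001000010000000000000000000000000000000000000000000000000000) (nat_lit 0x10000008000eb00003c0002f0000bc00004000010000000000000000000000000000000000000000) (nat_lit 10)
theorem c45327 : QOK q45327 := cut [q41295, q45304, q17893, q45320] ⟨c41295, c45304, c17893, c45320, trivial⟩ (nd (nat_lit 227) (nat_lit 0) (cs (lf (nat_lit 47) (nat_lit 205)) (nd (nat_lit 226) (nat_lit 0) (cs (rf (nat_lit 0)) (cs (nd (nat_lit 249) (nat_lit 0) (cs (lf (nat_lit 42) (nat_lit 227)) (nd (nat_lit 225) (nat_lit 0) (cs (lf (nat_lit 0) (nat_lit 224)) (nd (nat_lit 202) (nat_lit 0) (cs (lf (nat_lit 22) (nat_lit 202)) (rf (nat_lit 1)))))))) (cs (nd (nat_lit 249) (nat_lit 0) (cs (lf (nat_lit 42) (nat_lit 227)) (nd (nat_lit 229) (nat_lit 0) (cs (lf (nat_lit 16) (nat_lit 204)) (nd (nat_lit 204) (nat_lit 0) (cs (lf (nat_lit 23) (nat_lit 203)) (nd (nat_lit 182) (nat_lit 0) (cs (lf (nat_lit 24) (nat_lit 160)) (nd (nat_lit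 248) (nat_lit 0) (cs (lf (nat_lit 12) (nat_lit 225)) (lf (nat_lit 29) (nat_lit 182)))))))))))) (cs (nd (nat_lit 249) (nat_lit 0) (cs (lf (nat_lit 42) (nat_lit 227)) (nd (nat_lit 225) (nat_lit 0) (cs (lf (nat_lit 0) (nat_lit 224)) (nd (nat_lit 207) (nat_lit 0) (cs (lf (nat_lit 34) (nat_lit 206)) (rf (nat_lit 1)))))))) (cs (nd (nat_lit 249) (nat_lit 0) (cs (lf (nat_lit 42) (nat_lit 227)) (nd (nat_lit 229) (nat_lit 0) (cs (lf (nat_lit 35) (nat_lit 206)) (nd (nat_lit 225) (nat_lit 0) (cs (lf (nat_lit 0) (nat_lit 224)) (rf (nat_lit 2)))))))) (nd (nat_lit 207) (nat_lit 0) (cs (lf (nat_lit 15) (nat_lit 204)) (nd (nat_lit 249) (nat_lit 0) (cs (lf (nat_lit 42) (nat_lit 227)) (nd (nat_lit 225) (nat_lit 0) (cs (lf (nat_lit 0) (nat_lit 224)) (nd (nat_lit 202) (nat_lit 0) (cs (lf (nat_lit 22) (nat_lit 202)) (nd (nat_lit 247) (nat_lit 0) (cs (lf (nat_lit 11) (nat_lit 224)) (rf (nat_lit 3)))))))))))))))))))) q45327 (by decide +kernel)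
def q45347 : Q := Q.p (nat_lit 0x100000600000000012000040000000000000000000000000000000000000000000000) (nat_lit 0x8000000000170000dc000bf800080000000000000000000000000000000000000000) (nat_lit 9)
theorem c45347 : QOK q45347 := cut [q34521, q44538, q44540, q45340, q45344] ⟨c34521, c44538, c44540, c45340, c45344, trivial⟩ (nd (nat_lit 206) (nat_lit 0) (cs (rf (nat_lit 0)) (cs (rf (nat_lit 1)) (cs (rf (nat_lit 2)) (cs (rf (nat_lit 3)) (nd (nat_lit 183) (nat_lit 0) (cs (lf (nat_lit 44) (nat_lit 183)) (nd (nat_lit 207) (nat_lit 0) (cs (lf (nat_lit 23) (nat_lit 182)) (rf (nat_lit 4))))))))))) q45347 (by decide +kernel)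
def q45375 : Q := Q.p (nat_lit 0x70000000000100003600000000000000000000000000000000000000000000000000000000000000) (nat_lit 0x70000088000700000e80000000008000000000000000000000000000000000000000000000000000000000) (nat_lit 5)
theorem c45375 : QOK q45375 := cut [q45357, q45360, q45369, q45374] ⟨c45357, c45360, c45369, c45374, trivial⟩ (nd (nat_lit 319) (nat_lit 0) (cs (rf (nat_lit 0)) (cs (rf (nat_lit 1)) (cs (rf (nat_lit 2)) (rf (nat_lit 3)))))) q45375 (by decide +kernel)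
def q45393 : Q := Q.p (nat_lit 0x70000000000100003600000000000000000000000000000000000000000000000000000000000000) (nat_lit 0xf6000180000f40001e80000000008000000000000000000000000000000000000000000000000000000000) (nat_lit 9)
theorem c45393 : QOK q45393 := cut [q45380, q45384, q45389, q45392] ⟨c45380, c45384, c45389, c45392, trivial⟩ (nd (nat_lit 319) (nat_lit 0) (cs (nd (nat_lit 337) (nat_lit 0) (cs (lf (nat_lit 10) (nat_lit 315)) (rf (nat_lit 0)))) (cs (rf (nat_lit 1)) (cs (rf (nat_lit 2)) (rf (nat_lit 3)))))) q45393 (by decide +kernel)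
def q45458 : Q := Q.p (nat_lit 0x70000000000100003600000000000000000000000000000000000000000000000000000000000000) (nat_lit 0x680001a0000fe000180000f00001e80000000008000000000000000000000000000000000000000000000000000000000) (nat_lit 10)
theorem c45458 : QOK q45458 := cut [q45369, q45380, q45384, q45391, q45457] ⟨c45369, c45380, c45384, c45391, c45457, trivial⟩ (nd (nat_lit 319) (nat_lit 0) (cs (rf (nat_lit 0)) (cs (rf (nat_lit 1)) (cs (rf (nat_lit 2)) (cs (rf (nat_lit 3)) (rf (nat_lit 4))))))) q45458 (by decide +kernel)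
def q45468 : Q := Q.p (nat_lit 0x70000000000100003600000000000000000000000000000000000000000000000000000000000000) (nat_lit 0xdf800188000f00001e00000000008000000000000000000000000000000000000000000000000000000000) (nat_lit 9)
theorem c45468 : QOK q45468 := cut [q45401, q45462, q45467] ⟨c45401, c45462, c45467, trivial⟩ (nd (nat_lit 337) (nat_lit 0) (cs (rf (nat_lit 0)) (cs (nd (nat_lit 315) (nat_lit 0) (cs (lf (nat_lit 11) (nat_lit 314)) (rf (nat_lit 1)))) (rf (nat_lit 2))))) q45468 (by decide +kernel)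
def q45501 : Q := Q.p (nat_lit 0x100000700000000000000000000000000000000000000000000000000000000000000) (nat_lit 0x700001c0000f80000c0003780001800004000000000000000000000000000000000000000000000) (nat_lit 9)
theorem c45501 : QOK q45501 := cut [q44571, q44584, q44740, q45500] ⟨c44571, c44584, c44740, c45500, trivial⟩ (nd (nat_lit 247) (nat_lit 0) (cs (rf (nat_lit 0)) (cs (rf (nat_lit 1)) (cs (rf (nat_lit 2)) (rf (nat_lit 3)))))) q45501 (by decide +kernel)
def q45535 : Q := Q.p (nat_lit 0x30000000000100003600000000000000000000000000000000000000000000000000000000000000) (nat_lit 0xe0000380001fc0007f0001cc000740000e00000000000000000000000000000000000000000000000000000000000000000000) (nat_lit 11)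
theorem c45535 : QOK q45535 := cut [q43505, q41869, q45510, q26001, q45526, q45527, q45532] ⟨c43505, c41869, c45510, c26001, c45526, c45527, c45532, trivial⟩ (nd (nat_lit 339) (nat_lit 0) (cs (lf (nat_lit 26) (nat_lit 250)) (nd (nat_lit 340) (nat_lit 0) (cs (nd (nat_lit 315) (nat_lit 0) (cs (lf (nat_lit 0) (nat_lit 314)) (nd (nat_lit 341) (nat_lit 0) (cs (lf (nat_lit 18) (nat_lit 316)) (lf (nat_lit 3) (nat_lit 315)))))) (cs (nd (nat_lit 318) (nat_lit 0) (cs (nd (nat_lit 315) (nat_lit 0) (cs (lf (nat_lit 0) (nat_lit 314)) (nd (nat_lit 337) (nat_lit 0) (cs (lf (nat_lit 11) (nat_lit 314)) (nd (nat_lit 319) (nat_lit 0) (cs (lf (nat_lit 10) (nat_lit 315)) (rf (nat_lit 0)))))))) (cs (nd (nat_lit 274) (nat_lit 0) (cs (lf (nat_lit 38) (nat_lit 251)) (nd (nat_lit 275) (nat_lit 0) (cs (lf (nat_lit 20) (nat_lit 249)) (rf (nat_lit 1)))))) (cs (nd (nat_lit 296) (nat_lit 0) (cs (lf (nat_lit 37) (nat_lit 251)) (nd (nat_lit 383) (nat_lit 0) (cs (nd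 (nat_lit 315) (nat_lit 0) (cs (lf (nat_lit 0) (nat_lit 314)) (nd (nat_lit 337) (nat_lit 0) (cs (lf (nat_lit 11) (nat_lit 314)) (nd (nat_lit 338) (nat_lit 0) (cs (lf (nat_lit 17) (nat_lit 315)) (nd (nat_lit 362) (nat_lit 0) (cs (lf (nat_lit 5) (nat_lit 337)) (rf (nat_lit 2)))))))))) (lf (nat_lit 31) (nat_lit 295)))))) (nd (nat_lit 315) (nat_lit 0) (cs (lf (nat_lit 0) (nat_lit 314)) (nd (nat_lit 296) (nat_lit 0) (cs (lf (nat_lit 17) (nat_lit 293)) (lf (nat_lit 37) (nat_lit 251)))))))))) (cs (nd (nat_lit 341) (nat_lit 0) (cs (lf (nat_lit 18) (nat_lit 316)) (nd (nat_lit 338) (nat_lit 0) (cs (rf (nat_lit 3)) (cs (nd (nat_lit 319) (nat_lit 0) (cs (lf (nat_lit 17) (nat_lit 316)) (nd (nat_lit 318) (nat_lit 0) (cs (lf (nat_lit 12) (nat_lit 315)) (rf (nat_lit 0)))))) (nd (nat_lit 318) (nat_lit 0) (cs (rf (nat_lit 4)) (rf (nat_lit 5))))))))) (nd (nat_lit 341) (nat_lit 0) (cs (lf (nat_lit 18) (nat_lit 316)) (rf (nat_lit 6)))))))))) q45535 (by decide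 +kernel)
def q45599 : Q := Q.p (nat_lit 0x80000200000800000000000000000000000000000000000000000000000000) (nat_lit 0x400003000004000010000040000700001c000050000000000000000000000000000000000) (nat_lit 5)
theorem c45599 : QOK q45599 := cut [q41052, q45595, q45598] ⟨c41052, c45595, c45598, trivial⟩ (nd (nat_lit 181) (nat_lit 0) (cs (rf (nat_lit 0)) (cs (rf (nat_lit 1)) (rf (nat_lit 2))))) q45599 (by decide +kernel)
def q45638 : Q := Q.p (nat_lit 0x100000680000000000000000000000000000000000000000000000000000000000000) (nat_lit 0x238000140000380000000000000000000000000000000000000000000000000000000) (nat_lit 5)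
theorem c45638 : QOK q45638 := cut [q45262] ⟨c45262, trivial⟩ (nd (nat_lit 248) (nat_lit 0) (cs (lf (nat_lit 5) (nat_lit 247)) (rf (nat_lit 0)))) q45638 (by decide +kernel)
def q45773 : Q := Q.p (nat_lit 0x160000680000800000000000000000000000000000000000000000000000000000000) (nat_lit 0x40000100000c000090000000000700001c00007000014000000000000000000000000000000000000000) (nat_lit 7)
theorem c45773 : QOK q45773 := cut [q45758, q45761, q45763, q45770] ⟨c45758, c45761, c45763, c45770, trivial⟩ (nd (nat_lit 225) (nat_lit 0) (cs (rf (nat_lit 0)) (cs (nd (nat_lit 268) (nat_lit 0) (cs (lf (nat_lit 15) (nat_lit 246)) (rf (nat_lit 1)))) (cs (nd (nat_lit 271) (nat_lit 0) (cs (lf (nat_lit 12) (nat_lit 246)) (nd (nat_lit 224) (nat_lit 0) (cs (lf (nat_lit 2) (nat_lit 224)) (rf (nat_lit 2)))))) (nd (nat_lit 224) (nat_lit 0) (cs (lf (nat_lit 2) (nat_lit 224)) (nd (nat_lit 268) (nat_lit 0) (cs (lf (nat_lit 15) (nat_lit 246)) (rf (nat_lit 3))))))))))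 q45773 (by decide +kernel)
def q45800 : Q := Q.p (nat_lit 0x20000680000800002000000000000000000000000000000000000000000000000000) (nat_lit 0xc000010000040001700001c00007000014000000000000000000000000000000000000000) (nat_lit 6)
theorem c45800 : QOK q45800 := cut [q45794, q45795, q45689, q45760, q45793] ⟨c45794, c45795, c45689, c45760, c45793, trivial⟩ (nd (nat_lit 225) (nat_lit 0) (cs (rf (nat_lit 0)) (cs (rf (nat_lit 1)) (nd (nat_lit 203) (nat_lit 0) (cs (rf (nat_lit 2)) (cs (rf (nat_lit 3)) (cs (rf (nat_lit 4)) (nd (nat_lit 268) (nat_lit 0) (cs (lf (nat_lit 41) (nat_lit 202)) (nd (nat_lit 204) (nat_lit 0) (cs (lf (nat_lit 35) (nat_lit 181)) (nd (nat_lit 202) (nat_lit 0) (cs (lf (nat_lit 5) (nat_lit 202)) (lf (nat_lit 47) (nat_lit 180))))))))))))))) q45800 (by decide +kernel)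
def q45839 : Q := Q.p (nat_lit 0x100000600000000012000040000000000000000000000000000000000000000000000) (nat_lit 0x8000000000100000d0000be000080000000000000000000000000000000000000000) (nat_lit 5)
theorem c45839 : QOK q45839 := cut [q34521, q44538, q44540, q45340, q25816] ⟨c34521, c44538, c44540, c45340, c25816, trivial⟩ (nd (nat_lit 206) (nat_lit 0) (cs (rf (nat_lit 0)) (cs (rf (nat_lit 1)) (cs (rf (nat_lit 2)) (cs (rf (nat_lit 3)) (nd (nat_lit 228) (nat_lit 0) (cs (lf (nat_lit 47) (nat_lit 183)) (nd (nat_lit 184) (nat_lit 0) (cs (lf (nat_lit 41) (nat_lit 183)) (rf (nat_lit 4))))))))))) q45839 (by decide +kernel)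
def q46082 : Q := Q.p (nat_lit 0x2000008000020000000000000000000000000000000000000000000000000000000000000000000000000000000) (nat_lit 0x100000f00007c0003fe000ff8007df000f6000190000600000000000000000000000000000000000000000000000000000000000000000000000000) (nat_lit 12)
theorem c46082 : QOK q46082 := cut [q45908, q45985, q46010, q46070, q46081] ⟨c45908, c45985, c46010, c46070, c46081, trivial⟩ (nd (nat_lit 383) (nat_lit 0) (cs (rf (nat_lit 0)) (cs (rf (nat_lit 1)) (cs (nd (nat_lit 404) (nat_lit 0) (cs (lf (nat_lit 40) (nat_lit 316)) (nd (nat_lit 405) (nat_lit 0) (cs (lf (nat_lit 41) (nat_lit 338)) (nd (nat_lit 428) (nat_lit 0) (cs (lf (nat_lit 28) (nat_lit 339)) (nd (nat_lit 338) (nat_lit 0) (cs (lf (nat_lit 47) (nat_lit 316)) (nd (nat_lit 427) (nat_lit 0) (cs (lf (nat_lit 29) (nat_lit 361)) (lf (nat_lit 46) (nat_lit 338)))))))))))) (cs (rf (nat_lit 2)) (cs (rf (nat_lit 3)) (rf (nat_lit 4)))))))) q46082 (by decide +kernel)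
def q46234 : Q := Q.p (nat_lit 0x2000008000020000000000000000000000000000000000000000000000000000000000000000000000000000000) (nat_lit 0x140000700001c00004000010000040000180000400000000000000000000000000000000000000000000000000000000000000000000) (nat_lit 5)
theorem c46234 : QOK q46234 := cut [q45908, q46220, q46233] ⟨c45908, c46220, c46233, trivial⟩ (nd (nat_lit 383) (nat_lit 0) (cs (rf (nat_lit 0)) (cs (rf (nat_lit 1)) (rf (nat_lit 2))))) q46234 (by decide +kernel)
def q46353 : Q := Q.p (nat_lit 0x8000060000000000100003400000000000000000000000000000000000000000000000000000000000000) (nat_lit 0xf80003e0003fc000f700031c000f00007e80018200028000080000000000000000000000000000000000000000000000000000) (nat_lit 12)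
theorem c46353 : QOK q46353 := cut [q46320, q46256, q26001, q45532, q46335, q22746, q22741, q41899, q42467, q43426, q45510] ⟨c46320, c46256, c26001, c45532, c46335, c22746, c22741, c41899, c42467, c43426, c45510, trivial⟩ (nd (nat_lit 340) (nat_lit 0) (cs (nd (nat_lit 274) (nat_lit 0) (cs (lf (nat_lit 38) (nat_lit 251)) (nd (nat_lit 273) (nat_lit 0) (cs (lf (nat_lit 12) (nat_lit 249)) (nd (nat_lit 275) (nat_lit 0) (cs (lf (nat_lit 23) (nat_lit 249)) (nd (nat_lit 298) (nat_lit 0) (cs (lf (nat_lit 4) (nat_lit 272)) (nd (nat_lit 276) (nat_lit 0) (cs (lf (nat_lit 5) (nat_lit 273)) (nd (nat_lit 277) (nat_lit 0) (cs (lf (nat_lit 18) (nat_lit 252)) (nd (nat_lit 255) (nat_lit 0) (cs (lf (nat_lit 17) (nat_lit 252)) (nd (nat_lit 211) (nat_lit 0) (cs (nd (nat_lit 342) (nat_lit 0) (cs (rf (nat_lit 0)) (lf (nat_lit 31) (nat_lit 254)))) (lf (nat_lit 37) (nat_lit 210)))))))))))))))))) (cs (nd (nat_lit 341) (nat_lit 0) (cs (rf (nat_lit 1)) (cs (nd (nat_lit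 338) (nat_lit 0) (cs (rf (nat_lit 2)) (cs (nd (nat_lit 316) (nat_lit 0) (cs (rf (nat_lit 3)) (nd (nat_lit 363) (nat_lit 0) (cs (lf (nat_lit 5) (nat_lit 338)) (nd (nat_lit 385) (nat_lit 0) (cs (lf (nat_lit 42) (nat_lit 318)) (nd (nat_lit 360) (nat_lit 0) (cs (lf (nat_lit 11) (nat_lit 337)) (nd (nat_lit 382) (nat_lit 0) (cs (lf (nat_lit 30) (nat_lit 316)) (nd (nat_lit 383) (nat_lit 0) (cs (lf (nat_lit 29) (nat_lit 316)) (rf (nat_lit 4)))))))))))))) (nd (nat_lit 337) (nat_lit 0) (cs (rf (nat_lit 5)) (lf (nat_lit 12) (nat_lit 314))))))) (nd (nat_lit 342) (nat_lit 0) (cs (lf (nat_lit 18) (nat_lit 317)) (nd (nat_lit 320) (nat_lit 0) (cs (lf (nat_lit 17) (nat_lit 317)) (rf (nat_lit 6))))))))) (nd (nat_lit 296) (nat_lit 0) (cs (rf (nat_lit 7)) (nd (nat_lit 362) (nat_lit 0) (cs (nd (nat_lit 384) (nat_lit 0) (cs (lf (nat_lit 42) (nat_lit 317)) (rf (nat_lit 8)))) (cs (nd (nat_lit 361) (nat_lit 0) (cs (lf (nat_lit 41) (nat_lit 295)) (nd (nat_lit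 275) (nat_lit 0) (cs (lf (nat_lit 34) (nat_lit 274)) (rf (nat_lit 9)))))) (nd (nat_lit 383) (nat_lit 0) (cs (rf (nat_lit 10)) (lf (nat_lit 31) (nat_lit 295)))))))))))) q46353 (by decide +kernel)
def q46403 : Q := Q.p (nat_lit 0x8000060000000000000002000000000000000000000000000000000000000000000000000000000000000) (nat_lit 0x1e0000780003f8001f7000f9c003e00001800000000000000000000000000000000000000000000000000000000000000000000) (nat_lit 12)
theorem c46403 : QOK q46403 := cut [q42175, q46253, q46361, q46362, q46375, q22739, q46256, q46390, q46394, q45405] ⟨c42175, c46253, c46361, c46362, c46375, c22739, c46256, c46390, c46394, c45405, trivial⟩ (nd (nat_lit 319) (nat_lit 0) (cs (nd (nat_lit 320) (nat_lit 0) (cs (lf (nat_lit 11) (nat_lit 316)) (rf (nat_lit 0)))) (cs (nd (nat_lit 340) (nat_lit 0) (cs (rf (nat_lit 1)) (cs (nd (nat_lit 337) (nat_lit 0) (cs (lf (nat_lit 13) (nat_lit 315)) (nd (nat_lit 297) (nat_lit 0) (cs (lf (nat_lit 37) (nat_lit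 252)) (nd (nat_lit 362) (nat_lit 0) (cs (lf (nat_lit 30) (nat_lit 296)) (nd (nat_lit 316) (nat_lit 0) (cs (lf (nat_lit 17) (nat_lit 294)) (nd (nat_lit 315) (nat_lit 0) (cs (lf (nat_lit 11) (nat_lit 314)) (lf (nat_lit 0) (nat_lit 314)))))))))))) (cs (nd (nat_lit 341) (nat_lit 0) (cs (rf (nat_lit 2)) (cs (nd (nat_lit 297) (nat_lit 0) (cs (lf (nat_lit 37) (nat_lit 252)) (nd (nat_lit 384) (nat_lit 0) (cs (nd (nat_lit 342) (nat_lit 0) (cs (lf (nat_lit 18) (nat_lit 317)) (nd (nat_lit 364) (nat_lit 0) (cs (lf (nat_lit 5) (nat_lit 339)) (nd (nat_lit 386) (nat_lit 0) (cs (lf (nat_lit 42) (nat_lit 319)) (nd (nat_lit 361) (nat_lit 0) (cs (lf (nat_lit 11) (nat_lit 338)) (rf (nat_lit 3)))))))))) (lf (nat_lit 31) (nat_lit 296)))))) (cs (nd (nat_lit 338) (nat_lit 0) (cs (lf (nat_lit 12) (nat_lit 315)) (nd (nat_lit 275) (nat_lit 0) (cs (lf (nat_lit 38) (nat_lit 252)) (rf (nat_lit 4)))))) (nd (nat_lit 275) (nat_lit 0) (cs (lf (nat_lit 38) (nat_lit 252))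 (nd (nat_lit 342) (nat_lit 0) (cs (lf (nat_lit 18) (nat_lit 317)) (nd (nat_lit 338) (nat_lit 0) (cs (rf (nat_lit 5)) (lf (nat_lit 12) (nat_lit 315)))))))))))) (nd (nat_lit 341) (nat_lit 0) (cs (rf (nat_lit 6)) (cs (rf (nat_lit 2)) (nd (nat_lit 338) (nat_lit 0) (cs (lf (nat_lit 12) (nat_lit 315)) (nd (nat_lit 315) (nat_lit 0) (cs (lf (nat_lit 1) (nat_lit 315)) (rf (nat_lit 4))))))))))))) (cs (rf (nat_lit 7)) (cs (rf (nat_lit 8)) (cs (nd (nat_lit 320) (nat_lit 0) (cs (lf (nat_lit 11) (nat_lit 316)) (nd (nat_lit 298) (nat_lit 0) (cs (lf (nat_lit 17) (nat_lit 295)) (rf (nat_lit 9)))))) (nd (nat_lit 320) (nat_lit 0) (cs (lf (nat_lit 11) (nat_lit 316)) (nd (nat_lit 342) (nat_lit 0) (cs (lf (nat_lit 5) (nat_lit 317)) (nd (nat_lit 341) (nat_lit 0) (cs (lf (nat_lit 0) (nat_lit 316)) (nd (nat_lit 321) (nat_lit 0) (cs (lf (nat_lit 10) (nat_lit 317)) (nd (nat_lit 300) (nat_lit 0) (cs (lf (nat_lit 16) (nat_lit 296)) (nd (nat_lit 322) (nat_lit 0)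 (cs (lf (nat_lit 17) (nat_lit 297)) (lf (nat_lit 6) (nat_lit 319)))))))))))))))))))) q46403 (by decide +kernel)
def q46492 : Q := Q.p (nat_lit 0x6000008000020000000000100000400000000000000000000000000000000000000000000000000000000000000) (nat_lit 0xe400039800077000000000080000200000000000000000000000000000000000000000000000000000000000000000000) (nat_lit 8)
theorem c46492 : QOK q46492 := cut [q45060, q46093, q45073, q45067] ⟨c45060, c46093, c45073, c45067, trivial⟩ (nd (nat_lit 363) (nat_lit 0) (cs (rf (nat_lit 0)) (cs (rf (nat_lit 1)) (cs (nd (nat_lit 295) (nat_lit 0) (cs (lf (nat_lit 45) (nat_lit 250)) (rf (nat_lit 2)))) (nd (nat_lit 295) (nat_lit 0) (cs (lf (nat_lit 45) (nat_lit 250)) (rf (nat_lit 3)))))))) q46492 (by decide +kernel)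
def q46551 : Q := Q.p (nat_lit 0x2000008000020000000000000000000000000000000000000000000000000000000000000000000000000000000) (nat_lit 0x100000600001c0003fe0007f0001de00014000050000100000000000000000000000000000000000000000000000000000000000000000000000000) (nat_lit 11)
theorem c46551 : QOK q46551 := cut [q45908, q46010, q46081, q46301] ⟨c45908, c46010, c46081, c46301, trivial⟩ (nd (nat_lit 383) (nat_lit 0) (cs (rf (nat_lit 0)) (cs (rf (nat_lit 1)) (cs (rf (nat_lit 2)) (rf (nat_lit 3)))))) q46551 (by decide +kernel)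
def q46564 : Q := Q.p (nat_lit 0x1c0000600000000000000000000000000000000000000000000000000000000000000) (nat_lit 0x100000c00000300000c0000800002000000000000000000000000000000000000000000000000000) (nat_lit 5)
theorem c46564 : QOK q46564 := cut [q46563] ⟨c46563, trivial⟩ (nd (nat_lit 269) (nat_lit 0) (cs (lf (nat_lit 12) (nat_lit 246)) (rf (nat_lit 0)))) q46564 (by decide +kernel)
def q46578 : Q := Q.p (nat_lit 0x180000600000800010000040000000000000000000000000000000000000000000000) (nat_lit 0x40000f00009c000000000000000000000000000000000000000000000) (nat_lit 5)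
theorem c46578 : QOK q46578 := cut [q46577] ⟨c46577, trivial⟩ (nd (nat_lit 205) (nat_lit 0) (cs (lf (nat_lit 24) (nat_lit 183)) (rf (nat_lit 0)))) q46578 (by decide +kernel)
def q46587 : Q := Q.p (nat_lit 0x60000180000600000800000000000000000000000000000000000000000000000000000000) (nat_lit 0x700009c0000700001c0000300000c00000000000000000000000000000000000000000000000000) (nat_lit 9)
theorem c46587 : QOK q46587 := cut [q46584] ⟨c46584, trivial⟩ (nd (nat_lit 292) (nat_lit 0) (cs (lf (nat_lit 41) (nat_lit 226)) (nd (nat_lit 291) (nat_lit 0) (cs (lf (nat_lit 12) (nat_lit 268)) (nd (nat_lit 312) (nat_lit 0) (cs (lf (nat_lit 10) (nat_lit 290)) (rf (nat_lit 0)))))))) q46587 (by decide +kernel)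
def q46595 : Q := Q.p (nat_lit 0x100000180003000000000000000000000000000000000000000000000000000000000000000) (nat_lit 0x80000380000e0000000000e00000000008000000000000000000000000000000000000000000000000000000000) (nat_lit 6)
theorem c46595 : QOK q46595 := cut [q46594] ⟨c46594, trivial⟩ (nd (nat_lit 274) (nat_lit 0) (cs (lf (nat_lit 14) (nat_lit 249)) (rf (nat_lit 0)))) q46595 (by decide +kernel)
def q46600 : Q := Q.p (nat_lit 0x1c0000700000000000000000000000000000000000000000000000000000000000000) (nat_lit 0x40000100000000000c0000700000800002000000000000000000000000000000000000000000000) (nat_lit 5)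
theorem c46600 : QOK q46600 := cut [q46599] ⟨c46599, trivial⟩ (nd (nat_lit 247) (nat_lit 0) (cs (lf (nat_lit 0) (nat_lit 246)) (rf (nat_lit 0)))) q46600 (by decide +kernel)
def q46632 : Q := Q.p (nat_lit 0x140000180000400000000000000000000000000000000000000000000000000000000000000) (nat_lit 0x280000e00003c000280000000000200000800000000000000000000000000000000000000000000000000000000) (nat_lit 5)
theorem c46632 : QOK q46632 := cut [q14121, q14128, q46629] ⟨c14121, c14128, c46629, trivial⟩ (nd (nat_lit 316) (nat_lit 0) (cs (rf (nat_lit 0)) (cs (rf (nat_lit 1)) (nd (nat_lit 317) (nat_lit 0) (cs (lf (nat_lit 29) (nat_lit 250)) (nd (nat_lit 295) (nat_lit 0) (cs (lf (nat_lit 18) (nat_lit 271)) (rf (nat_lit 2))))))))) q46632 (by decide +kernel)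
def q46660 : Q := Q.p (nat_lit 0x40000180003400000000000000000000000000000000000000000000000000000000000000) (nat_lit 0x300007c0001f00007b8000e00000380008800002000000000000000000000000000000000000000000000000000) (nat_lit 11)
theorem c46660 : QOK q46660 := cut [q46639, q46561, q46652, q46653, q46659] ⟨c46639, c46561, c46652, c46653, c46659, trivial⟩ (nd (nat_lit 316) (nat_lit 0) (cs (nd (nat_lit 273) (nat_lit 0) (cs (lf (nat_lit 15) (nat_lit 249)) (nd (nat_lit 339) (nat_lit 0) (cs (lf (nat_lit 28) (nat_lit 250)) (nd (nat_lit 338) (nat_lit 0) (cs (lf (nat_lit 29) (nat_lit 272)) (rf (nat_lit 0)))))))) (cs (nd (nat_lit 249) (nat_lit 0) (cs (rf (nat_lit 1)) (nd (nat_lit 317) (nat_lit 0) (cs (lf (nat_lit 29) (nat_lit 250)) (nd (nat_lit 318) (nat_lit 0) (cs (nd (nat_lit 274) (nat_lit 0) (cs (lf (nat_lit 14) (nat_lit 249)) (nd (nat_lit 296) (nat_lit 0) (cs (lf (nat_lit 35) (nat_lit 230)) (nd (nat_lit 275) (nat_lit 0) (cs (lf (nat_lit 30) (nat_lit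 252)) (nd (nat_lit 295) (nat_lit 0) (cs (lf (nat_lit 12) (nat_lit 271)) (lf (nat_lit 18) (nat_lit 271)))))))))) (cs (nd (nat_lit 274) (nat_lit 0) (cs (lf (nat_lit 14) (nat_lit 249)) (nd (nat_lit 296) (nat_lit 0) (cs (lf (nat_lit 35) (nat_lit 230)) (nd (nat_lit 319) (nat_lit 0) (cs (lf (nat_lit 29) (nat_lit 252)) (nd (nat_lit 295) (nat_lit 0) (cs (lf (nat_lit 18) (nat_lit 294)) (lf (nat_lit 18) (nat_lit 271)))))))))) (cs (rf (nat_lit 2)) (nd (nat_lit 273) (nat_lit 0) (cs (lf (nat_lit 15) (nat_lit 249)) (nd (nat_lit 247) (nat_lit 0) (cs (lf (nat_lit 1) (nat_lit 247)) (rf (nat_lit 3)))))))))))))) (rf (nat_lit 4))))) q46660 (by decide +kernel)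
def q46761 : Q := Q.p (nat_lit 0x3c0000400000000000000000000000000000000000000000000000000000000000000) (nat_lit 0x20000b80003e0001b8000000000180000e0000380000e000028000000000000000000000000000000000000000) (nat_lit 12)
theorem c46761 : QOK q46761 := cut [q46744, q46750, q46756, q46759] ⟨c46744, c46750, c46756, c46759, trivial⟩ (nd (nat_lit 248) (nat_lit 0) (cs (lf (nat_lit 23) (nat_lit 247)) (nd (nat_lit 226) (nat_lit 0) (cs (rf (nat_lit 0)) (cs (rf (nat_lit 1)) (cs (nd (nat_lit 292) (nat_lit 0) (cs (lf (nat_lit 11) (nat_lit 269)) (rf (nat_lit 2)))) (rf (nat_lit 3)))))))) q46761 (by decide +kernel)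
def q46769 : Q := Q.p (nat_lit 0x3c0000400000000000000000000000000000000000000000000000000000000000000) (nat_lit 0x1c0000300002e0000000000000000000000000000000000000000000000000000000000000) (nat_lit 5)
theorem c46769 : QOK q46769 := cut [q46768] ⟨c46768, trivial⟩ (nd (nat_lit 291) (nat_lit 0) (cs (lf (nat_lit 10) (nat_lit 269)) (rf (nat_lit 0)))) q46769 (by decide +kernel)
def q46802 : Q := Q.p (nat_lit 0x1c0000400000000000000000000000000000000000000000000000000000000000000) (nat_lit 0x300000c0000700001e0000300003e0000700001c00007000014000000000000000000000000000000000000000) (nat_lit 11)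
theorem c46802 : QOK q46802 := cut [q46767, q46774, q46782, q46785, q46798] ⟨c46767, c46774, c46782, c46785, c46798, trivial⟩ (nd (nat_lit 269) (nat_lit 0) (cs (rf (nat_lit 0)) (cs (rf (nat_lit 1)) (nd (nat_lit 247) (nat_lit 0) (cs (lf (nat_lit 23) (nat_lit 246)) (nd (nat_lit 225) (nat_lit 0) (cs (rf (nat_lit 2)) (cs (nd (nat_lit 291) (nat_lit 0) (cs (lf (nat_lit 11) (nat_lit 268)) (rf (nat_lit 3)))) (cs (nd (nat_lit 291) (nat_lit 0) (cs (lf (nat_lit 11) (nat_lit 268)) (nd (nat_lit 292) (nat_lit 0) (cs (lf (nat_lit 29) (nat_lit 225)) (nd (nat_lit 202) (nat_lit 0) (cs (lf (nat_lit 46) (nat_lit 202)) (nd (nat_lit 226) (nat_lit 0) (cs (lf (nat_lit 35) (nat_lit 203)) (nd (nat_lit 313) (nat_lit 0) (cs (nd (nat_lit 334) (nat_lit 0) (cs (nd (nat_lit 335) (nat_lit 0) (cs (lf (nat_lit 30) (nat_lit 269)) (lf (nat_lit 41) (nat_lit 268)))) (lf (nat_lit 40) (nat_lit 246)))) (lf (nat_lit 37) (nat_lit 225)))))))))))) (nd (nat_lit 290) (nat_lit 0) (cs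 (lf (nat_lit 10) (nat_lit 268)) (rf (nat_lit 4))))))))))))) q46802 (by decide +kernel)
def q46893 : Q := Q.p (nat_lit 0x100001c0000400000000000000000000000000000000000000000000000000000000000000) (nat_lit 0x280000e00003f0000f80002e000030000300000c00003000000000000000000000000000000000000000000000000000) (nat_lit 11)
theorem c46893 : QOK q46893 := cut [q46702, q46858, q46865, q46715, q46881, q46892] ⟨c46702, c46858, c46865, c46715, c46881, c46892, trivial⟩ (nd (nat_lit 314) (nat_lit 0) (cs (rf (nat_lit 0)) (cs (rf (nat_lit 1)) (cs (nd (nat_lit 248) (nat_lit 0) (cs (rf (nat_lit 2)) (cs (nd (nat_lit 315) (nat_lit 0) (cs (lf (nat_lit 29) (nat_lit 248)) (nd (nat_lit 249) (nat_lit 0) (cs (lf (nat_lit 35) (nat_lit 226)) (nd (nat_lit 269) (nat_lit 0) (cs (lf (nat_lit 12) (nat_lit 246)) (nd (nat_lit 290) (nat_lit 0) (cs (lf (nat_lit 10) (nat_lit 268)) (nd (nat_lit 313) (nat_lit 0) (cs (lf (nat_lit 41) (nat_lit 247)) (nd (nat_lit 312) (nat_lit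 0) (cs (nd (nat_lit 333) (nat_lit 0) (cs (nd (nat_lit 311) (nat_lit 0) (cs (lf (nat_lit 17) (nat_lit 289)) (lf (nat_lit 11) (nat_lit 310)))) (lf (nat_lit 10) (nat_lit 311)))) (lf (nat_lit 23) (nat_lit 289)))))))))))))) (cs (nd (nat_lit 315) (nat_lit 0) (cs (lf (nat_lit 29) (nat_lit 248)) (nd (nat_lit 226) (nat_lit 0) (cs (lf (nat_lit 28) (nat_lit 226)) (rf (nat_lit 3)))))) (rf (nat_lit 4)))))) (rf (nat_lit 5)))))) q46893 (by decide +kernel)
def q46950 : Q := Q.p (nat_lit 0x3c0000400000000010000000000000000000000000000000000000000000000000000) (nat_lit 0x60000b80003e0001b00000300003f0000f8000ff0001e000028000000000000000000000000000000000000000) (nat_lit 12)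
theorem c46950 : QOK q46950 := cut [q46744, q46923, q46925, q46929, q40888, q46937, q46941, q46946] ⟨c46744, c46923, c46925, c46929, c40888, c46937, c46941, c46946, trivial⟩ (nd (nat_lit 248) (nat_lit 0) (cs (lf (nat_lit 23) (nat_lit 247)) (nd (nat_lit 226) (nat_lit 0) (cs (rf (nat_lit 0)) (cs (rf (nat_lit 1)) (cs (nd (nat_lit 205) (nat_lit 0) (cs (nd (nat_lit 295) (nat_lit 0) (cs (lf (nat_lit 5) (nat_lit 270)) (nd (nat_lit 317) (nat_lit 0) (cs (lf (nat_lit 42) (nat_lit 250)) (rf (nat_lit 2)))))) (cs (nd (nat_lit 227) (nat_lit 0) (cs (lf (nat_lit 30) (nat_lit 204)) (rf (nat_lit 3)))) (cs (nd (nat_lit 227) (nat_lit 0) (cs (lf (nat_lit 30) (nat_lit 204)) (nd (nat_lit 206) (nat_lit 0) (cs (lf (nat_lit 7) (nat_lit 204)) (nd (nat_lit 224) (nat_lit 0) (cs (lf (nat_lit 13) (nat_lit 202)) (nd (nat_lit 249) (nat_lit 0) (cs (lf (nat_lit 35) (nat_lit 183)) (nd (nat_lit 268) (nat_lit 0) (cs (lf (nat_lit 13) (nat_lit 246)) (nd (nat_lit 204) (nat_lit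 0) (cs (lf (nat_lit 47) (nat_lit 182)) (rf (nat_lit 4)))))))))))))) (nd (nat_lit 295) (nat_lit 0) (cs (lf (nat_lit 5) (nat_lit 270)) (nd (nat_lit 317) (nat_lit 0) (cs (lf (nat_lit 42) (nat_lit 250)) (rf (nat_lit 5)))))))))) (cs (nd (nat_lit 295) (nat_lit 0) (cs (lf (nat_lit 5) (nat_lit 270)) (nd (nat_lit 317) (nat_lit 0) (cs (lf (nat_lit 42) (nat_lit 250)) (rf (nat_lit 6)))))) (nd (nat_lit 295) (nat_lit 0) (cs (lf (nat_lit 5) (nat_lit 270)) (nd (nat_lit 317) (nat_lit 0) (cs (lf (nat_lit 42) (nat_lit 250)) (rf (nat_lit 7))))))))))))) q46950 (by decide +kernel)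
def q46971 : Q := Q.p (nat_lit 0x8000020000180000600000000000000000000000000000000000000000000000000000000000000) (nat_lit 0x1000004000010000000000000000c0000300000c000000000000000000000000000000000000000000000) (nat_lit 5)
theorem c46971 : QOK q46971 := cut [q46970] ⟨c46970, trivial⟩ (nd (nat_lit 314) (nat_lit 0) (cs (lf (nat_lit 41) (nat_lit 248)) (rf (nat_lit 0)))) q46971 (by decide +kernel)
def q47032 : Q := Q.p (nat_lit 0x1c0000600000000010000040000000000000000000000000000000000000000000000) (nat_lit 0x2e0000300001e0000f0000fc000bf000000000000000000000000000000000000000000000) (nat_lit 10)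
theorem c47032 : QOK q47032 := cut [q46577, q46767, q46774, q46580, q46785, q47014, q46976, q47024, q40980] ⟨c46577, c46767, c46774, c46580, c46785, c47014, c46976, c47024, c40980, trivial⟩ (nd (nat_lit 205) (nat_lit 0) (cs (nd (nat_lit 227) (nat_lit 0) (cs (lf (nat_lit 24) (nat_lit 183)) (rf (nat_lit 0)))) (cs (nd (nat_lit 269) (nat_lit 0) (cs (rf (nat_lit 1)) (cs (rf (nat_lit 2)) (nd (nat_lit 291) (nat_lit 0) (cs (lf (nat_lit 11) (nat_lit 268)) (nd (nat_lit 247) (nat_lit 0) (cs (lf (nat_lit 23) (nat_lit 246)) (nd (nat_lit 225) (nat_lit 0) (cs (rf (nat_lit 3)) (cs (rf (nat_lit 4)) (cs (nd (nat_lit 204) (nat_lit 0) (cs (lf (nat_lit 34) (nat_lit 203)) (nd (nat_lit 203) (nat_lit 0) (cs (lf (nat_lit 35) (nat_lit 181)) (nd (nat_lit 181) (nat_lit 0) (cs (lf (nat_lit 28) (nat_lit 181)) (nd (nat_lit 180) (nat_lit 0) (cs (lf (nat_lit 46) (nat_lit 180)) (lf (nat_lit 18) (nat_lit 180)))))))))) (nd (nat_lit 204) (nat_lit 0) (cs (lf (nat_lit 34)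 (nat_lit 203)) (nd (nat_lit 203) (nat_lit 0) (cs (lf (nat_lit 35) (nat_lit 181)) (rf (nat_lit 5))))))))))))))))) (cs (nd (nat_lit 268) (nat_lit 0) (cs (lf (nat_lit 13) (nat_lit 246)) (nd (nat_lit 227) (nat_lit 0) (cs (lf (nat_lit 24) (nat_lit 183)) (rf (nat_lit 6)))))) (cs (nd (nat_lit 227) (nat_lit 0) (cs (lf (nat_lit 24) (nat_lit 183)) (nd (nat_lit 269) (nat_lit 0) (cs (lf (nat_lit 12) (nat_lit 246)) (nd (nat_lit 291) (nat_lit 0) (cs (lf (nat_lit 11) (nat_lit 268)) (nd (nat_lit 246) (nat_lit 0) (cs (lf (nat_lit 22) (nat_lit 246)) (nd (nat_lit 204) (nat_lit 0) (cs (lf (nat_lit 47) (nat_lit 182)) (rf (nat_lit 7)))))))))))) (nd (nat_lit 227) (nat_lit 0) (cs (lf (nat_lit 24) (nat_lit 183)) (nd (nat_lit 268) (nat_lit 0) (cs (lf (nat_lit 13) (nat_lit 246)) (rf (nat_lit 8))))))))))) q47032 (by decide +kernel)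
def q47045 : Q := Q.p (nat_lit 0xc0000680000800000000000000000000000000000000000000000000000000000000) (nat_lit 0x10000030000100000700001c00007000014000000000000000000000000000000000000000) (nat_lit 7)
theorem c47045 : QOK q47045 := cut [q47042, q47043] ⟨c47042, c47043, trivial⟩ (nd (nat_lit 225) (nat_lit 0) (cs (rf (nat_lit 0)) (nd (nat_lit 269) (nat_lit 0) (cs (lf (nat_lit 12) (nat_lit 246)) (rf (nat_lit 1)))))) q47045 (by decide +kernel)
def q47073 : Q := Q.p (nat_lit 0x20000680000200000000000000000000000000000000000000000000000000000000) (nat_lit 0x4000010000100000000001c00007000014000000000000000000000000000000000000000) (nat_lit 6)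
theorem c47073 : QOK q47073 := cut [q45761] ⟨c45761, trivial⟩ (nd (nat_lit 268) (nat_lit 0) (cs (lf (nat_lit 8) (nat_lit 246)) (rf (nat_lit 0)))) q47073 (by decide +kernel)
def q47079 : Q := Q.p (nat_lit 0x20000080000200000000000000000000000000000000000000000000000000000000) (nat_lit 0x100000c000010000040000400001c00007000014000000000000000000000000000000000000000) (nat_lit 6)
theorem c47079 : QOK q47079 := cut [q45689, q45760, q45793, q47077] ⟨c45689, c45760, c45793, c47077, trivial⟩ (nd (nat_lit 203) (nat_lit 0) (cs (rf (nat_lit 0)) (cs (rf (nat_lit 1)) (cs (rf (nat_lit 2)) (nd (nat_lit 180) (nat_lit 0) (cs (lf (nat_lit 46) (nat_lit 180)) (rf (nat_lit 3)))))))) q47079 (by decide +kernel)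
def q47102 : Q := Q.p (nat_lit 0x20000080000200000800000000000000000000000000000000000000000000000000) (nat_lit 0x140000700001c000000000000000400001000004000000000000000000000000000000000000000000000) (nat_lit 6)
theorem c47102 : QOK q47102 := cut [q47100] ⟨c47100, trivial⟩ (nd (nat_lit 204) (nat_lit 0) (cs (lf (nat_lit 35) (nat_lit 181)) (nd (nat_lit 291) (nat_lit 0) (cs (lf (nat_lit 34) (nat_lit 203)) (rf (nat_lit 0)))))) q47102 (by decide +kernel)
def q47133 : Q := Q.p (nat_lit 0x180000000001c0000600000000000000000000000000000000000000000000000000000000000000) (nat_lit 0xdc000260001de000000000100000000000000000000000000000000000000000000000000000000000000) (nat_lit 6)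
theorem c47133 : QOK q47133 := cut [q46818, q47128, q47132] ⟨c46818, c47128, c47132, trivial⟩ (nd (nat_lit 314) (nat_lit 0) (cs (nd (nat_lit 292) (nat_lit 0) (cs (lf (nat_lit 30) (nat_lit 248)) (nd (nat_lit 294) (nat_lit 0) (cs (lf (nat_lit 42) (nat_lit 249)) (nd (nat_lit 317) (nat_lit 0) (cs (lf (nat_lit 23) (nat_lit 291)) (lf (nat_lit 29) (nat_lit 250)))))))) (cs (nd (nat_lit 292) (nat_lit 0) (cs (lf (nat_lit 30) (nat_lit 248)) (nd (nat_lit 294) (nat_lit 0) (cs (lf (nat_lit 42) (nat_lit 249)) (nd (nat_lit 313) (nat_lit 0) (cs (rf (nat_lit 0)) (lf (nat_lit 17) (nat_lit 291)))))))) (cs (rf (nat_lit 1)) (rf (nat_lit 2)))))) q47133 (by decide +kernel)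
def q47204 : Q := Q.p (nat_lit 0x400001c0000600000000000000000000000000000000000000000000000000000000000000) (nat_lit 0xf00007f0001b8000000000000000000000000000000000000000000000000000000000000000000000000) (nat_lit 8)
theorem c47204 : QOK q47204 := cut [q47187, q47192, q47203] ⟨c47187, c47192, c47203, trivial⟩ (nd (nat_lit 293) (nat_lit 0) (cs (nd (nat_lit 316) (nat_lit 0) (cs (lf (nat_lit 42) (nat_lit 249)) (nd (nat_lit 295) (nat_lit 0) (cs (lf (nat_lit 18) (nat_lit 270)) (rf (nat_lit 0)))))) (cs (nd (nat_lit 295) (nat_lit 0) (cs (lf (nat_lit 18) (nat_lit 270)) (nd (nat_lit 316) (nat_lit 0) (cs (lf (nat_lit 42) (nat_lit 249)) (rf (nat_lit 1)))))) (cs (nd (nat_lit 315) (nat_lit 0) (cs (lf (nat_lit 30) (nat_lit 249)) (nd (nat_lit 314) (nat_lit 0) (cs (lf (nat_lit 41) (nat_lit 248)) (nd (nat_lit 313) (nat_lit 0) (cs (lf (nat_lit 12) (nat_lit 290)) (nd (nat_lit 295) (nat_lit 0) (cs (lf (nat_lit 18) (nat_lit 270)) (lf (nat_lit 9) (nat_lit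 291)))))))))) (rf (nat_lit 2)))))) q47204 (by decide +kernel)
def q47239 : Q := Q.p (nat_lit 0x18000040000180003700000000000000000000000000000000000000000000000000000000000000) (nat_lit 0x380000e0000320000c00000000008400000000000000000000000000000000000000000000000000000000) (nat_lit 7)
theorem c47239 : QOK q47239 := cut [q47215] ⟨c47215, trivial⟩ (nd (nat_lit 293) (nat_lit 0) (cs (lf (nat_lit 47) (nat_lit 226)) (nd (nat_lit 317) (nat_lit 0) (cs (lf (nat_lit 29) (nat_lit 250)) (rf (nat_lit 0)))))) q47239 (by decide +kernel)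
def q47363 : Q := Q.p (nat_lit 0x180003600000000010000040000000000000000000000000000000000000000000000) (nat_lit 0x7fc001fe000ffc000c40000100008c0000f00009c000000000000000000000000000000000000000000000) (nat_lit 10)
theorem c47363 : QOK q47363 := cut [q47182, q47324, q47325, q14178, q47327, q45364, q45462, q45154, q47340, q47343, q47349, q46570, q47178, q47354, q47356] ⟨c47182, c47324, c47325, c14178, c47327, c45364, c45462, c45154, c47340, c47343, c47349, c46570, c47178, c47354, c47356, trivial⟩ (nd (nat_lit 315) (nat_lit 0) (cs (rf (nat_lit 0)) (cs (nd (nat_lit 316) (nat_lit 0) (cs (nd (nat_lit 317) (nat_lit 0) (cs (rf (nat_lit 1)) (cs (rf (nat_lit 2)) (cs (nd (nat_lit 314) (nat_lit 0) (cs (rf (nat_lit 3)) (rf (nat_lit 4)))) (cs (nd (nat_lit 318) (nat_lit 0) (cs (rf (nat_lit 5)) (cs (rf (nat_lit 6)) (cs (nd (nat_lit 341) (nat_lit 0) (cs (lf (nat_lit 4) (nat_lit 315)) (nd (nat_lit 319) (nat_lit 0) (cs (lf (nat_lit 5) (nat_lit 316))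 (nd (nat_lit 298) (nat_lit 0) (cs (lf (nat_lit 16) (nat_lit 294)) (nd (nat_lit 338) (nat_lit 0) (cs (lf (nat_lit 11) (nat_lit 315)) (nd (nat_lit 320) (nat_lit 0) (cs (lf (nat_lit 10) (nat_lit 316)) (lf (nat_lit 17) (nat_lit 295)))))))))))) (nd (nat_lit 340) (nat_lit 0) (cs (lf (nat_lit 5) (nat_lit 315)) (nd (nat_lit 314) (nat_lit 0) (cs (lf (nat_lit 4) (nat_lit 314)) (nd (nat_lit 296) (nat_lit 0) (cs (lf (nat_lit 16) (nat_lit 292)) (rf (nat_lit 7)))))))))))) (nd (nat_lit 314) (nat_lit 0) (cs (rf (nat_lit 3)) (cs (rf (nat_lit 8)) (cs (rf (nat_lit 9)) (nd (nat_lit 339) (nat_lit 0) (cs (lf (nat_lit 5) (nat_lit 314)) (nd (nat_lit 292) (nat_lit 0) (cs (lf (nat_lit 23) (nat_lit 291)) (nd (nat_lit 336) (nat_lit 0) (cs (lf (nat_lit 11) (nat_lit 313)) (lf (nat_lit 33) (nat_lit 248))))))))))))))))) (cs (rf (nat_lit 10)) (nd (nat_lit 294) (nat_lit 0) (cs (lf (nat_lit 47) (nat_lit 227)) (lf (nat_lit 42) (nat_lit 249))))))) (cs (nd (nat_lit 293)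 (nat_lit 0) (cs (lf (nat_lit 30) (nat_lit 249)) (rf (nat_lit 11)))) (cs (nd (nat_lit 316) (nat_lit 0) (cs (rf (nat_lit 12)) (cs (nd (nat_lit 293) (nat_lit 0) (cs (lf (nat_lit 29) (nat_lit 249)) (rf (nat_lit 13)))) (nd (nat_lit 227) (nat_lit 0) (cs (lf (nat_lit 43) (nat_lit 227)) (nd (nat_lit 205) (nat_lit 0) (cs (lf (nat_lit 24) (nat_lit 183)) (nd (nat_lit 182) (nat_lit 0) (cs (lf (nat_lit 46) (nat_lit 182)) (rf (nat_lit 14))))))))))) (nd (nat_lit 293) (nat_lit 0) (cs (lf (nat_lit 30) (nat_lit 249)) (nd (nat_lit 316) (nat_lit 0) (cs (lf (nat_lit 29) (nat_lit 249)) (rf (nat_lit 13))))))))))) q47363 (by decide +kernel)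
def q47375 : Q := Q.p (nat_lit 0x1a0000600000000000000000000000000000000000000000000000000000000000000) (nat_lit 0x100000c00000500000c0000800002000000000000000000000000000000000000000000000000000) (nat_lit 5)
theorem c47375 : QOK q47375 := cut [q46563] ⟨c46563, trivial⟩ (nd (nat_lit 270) (nat_lit 0) (cs (lf (nat_lit 12) (nat_lit 246)) (rf (nat_lit 0)))) q47375 (by decide +kernel)
def q47486 : Q := Q.p (nat_lit 0x60000180000600000000000000000000000000000000000000000000000000000000000000) (nat_lit 0x300000f000190000000000000000000000000000000000000000000000000000000000000000000000000) (nat_lit 5)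
theorem c47486 : QOK q47486 := cut [q47485] ⟨c47485, trivial⟩ (nd (nat_lit 315) (nat_lit 0) (cs (lf (nat_lit 30) (nat_lit 249)) (rf (nat_lit 0)))) q47486 (by decide +kernel)
def q47499 : Q := Q.p (nat_lit 0x180000600000800010000040000000000000000000000000000000000000000000000) (nat_lit 0x1000004000000000040000e000098000000000000000000000000000000000000000000000) (nat_lit 5)
theorem c47499 : QOK q47499 := cut [q47356] ⟨c47356, trivial⟩ (nd (nat_lit 205) (nat_lit 0) (cs (lf (nat_lit 24) (nat_lit 183)) (rf (nat_lit 0)))) q47499 (by decide +kernel)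
def q47618 : Q := Q.p (nat_lit 0x1c0003400000000000000000000000000000000000000000000000000000000000000) (nat_lit 0x280000e0000380000e00003c0006000003c0000e0000380000a000000000000000000000000000000000000000000000) (nat_lit 10)
theorem c47618 : QOK q47618 := cut [q46803, q46702, q46858, q46892, q46881, q47157, q47608, q47614] ⟨c46803, c46702, c46858, c46892, c46881, c47157, c47608, c47614, trivial⟩ (nd (nat_lit 292) (nat_lit 0) (cs (rf (nat_lit 0)) (cs (nd (nat_lit 314) (nat_lit 0) (cs (rf (nat_lit 1)) (cs (rf (nat_lit 2)) (cs (rf (nat_lit 3)) (nd (nat_lit 248) (nat_lit 0) (cs (rf (nat_lit 4)) (nd (nat_lit 249) (nat_lit 0) (cs (lf (nat_lit 35) (nat_lit 226)) (rf (nat_lit 5)))))))))) (nd (nat_lit 314) (nat_lit 0) (cs (rf (nat_lit 1)) (cs (rf (nat_lit 2)) (cs (nd (nat_lit 273) (nat_lit 0) (cs (lf (nat_lit 15) (nat_lit 249)) (nd (nat_lit 248) (nat_lit 0) (cs (lf (nat_lit 23) (nat_lit 247)) (rf (nat_lit 6)))))) (nd (nat_lit 273) (nat_lit 0)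 (cs (lf (nat_lit 15) (nat_lit 249)) (nd (nat_lit 247) (nat_lit 0) (cs (lf (nat_lit 22) (nat_lit 247)) (rf (nat_lit 7))))))))))))) q47618 (by decide +kernel)
def q47629 : Q := Q.p (nat_lit 0x1c0003000000000000000000000000000000000000000000000000000000000000000) (nat_lit 0x1c0006200001c0000000000000000000000000000000000000000000000000000000000000) (nat_lit 5)
theorem c47629 : QOK q47629 := cut [q11945] ⟨c11945, trivial⟩ (nd (nat_lit 273) (nat_lit 0) (cs (lf (nat_lit 15) (nat_lit 249)) (rf (nat_lit 0)))) q47629 (by decide +kernel)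
def q47702 : Q := Q.p (nat_lit 0x3c0000400000000000000000000000000000000000000000000000000000000000000) (nat_lit 0x10000040000380000300003c0000a00002800000000000000000000000000000000000000000000000000) (nat_lit 8)
theorem c47702 : QOK q47702 := cut [q47697] ⟨c47697, trivial⟩ (nd (nat_lit 292) (nat_lit 0) (cs (lf (nat_lit 11) (nat_lit 269)) (nd (nat_lit 247) (nat_lit 0) (cs (lf (nat_lit 22) (nat_lit 247)) (nd (nat_lit 269) (nat_lit 0) (cs (lf (nat_lit 23) (nat_lit 246)) (nd (nat_lit 203) (nat_lit 0) (cs (rf (nat_lit 0)) (lf (nat_lit 25) (nat_lit 203)))))))))) q47702 (by decide +kernel)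
def q47808 : Q := Q.p (nat_lit 0x1c0003400000000000000000000000000000000000000000000000000000000000000) (nat_lit 0x280000e0001f80007f8001fe000600000300000c00003000000000000000000000000000000000000000000000000000) (nat_lit 12)
theorem c47808 : QOK q47808 := cut [q46803, q46702, q46892, q47614, q46804, q46865, q47777, q47780, q47776, q46857, q46861, q47790, q46832, q47802] ⟨c46803, c46702, c46892, c47614, c46804, c46865, c47777, c47780, c47776, c46857, c46861, c47790, c46832, c47802, trivial⟩ (nd (nat_lit 292) (nat_lit 0) (cs (rf (nat_lit 0)) (cs (nd (nat_lit 314) (nat_lit 0) (cs (rf (nat_lit 1)) (cs (rf (nat_lit 2)) (cs (rf (nat_lit 3)) (nd (nat_lit 315) (nat_lit 0) (cs (rf (nat_lit 4)) (cs (nd (nat_lit 248) (nat_lit 0) (cs (lf (nat_lit 29) (nat_lit 248)) (rf (nat_lit 5)))) (cs (nd (nat_lit 293) (nat_lit 0) (cs (rf (nat_lit 6)) (nd (nat_lit 290) (nat_lit 0) (cs (lf (nat_lit 13) (nat_lit 268)) (nd (nat_lit 248) (nat_lit 0) (cs (lf (nat_lit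 24) (nat_lit 226)) (rf (nat_lit 7)))))))) (nd (nat_lit 293) (nat_lit 0) (cs (lf (nat_lit 30) (nat_lit 249)) (nd (nat_lit 249) (nat_lit 0) (cs (lf (nat_lit 36) (nat_lit 226)) (nd (nat_lit 290) (nat_lit 0) (cs (lf (nat_lit 13) (nat_lit 268)) (rf (nat_lit 8)))))))))))))))) (nd (nat_lit 314) (nat_lit 0) (cs (rf (nat_lit 1)) (cs (rf (nat_lit 9)) (cs (rf (nat_lit 10)) (nd (nat_lit 293) (nat_lit 0) (cs (nd (nat_lit 273) (nat_lit 0) (cs (lf (nat_lit 15) (nat_lit 249)) (rf (nat_lit 11)))) (cs (nd (nat_lit 273) (nat_lit 0) (cs (lf (nat_lit 6) (nat_lit 270)) (nd (nat_lit 295) (nat_lit 0) (cs (lf (nat_lit 5) (nat_lit 270)) (nd (nat_lit 317) (nat_lit 0) (cs (lf (nat_lit 42) (nat_lit 250)) (nd (nat_lit 249) (nat_lit 0) (cs (lf (nat_lit 36) (nat_lit 226)) (nd (nat_lit 315) (nat_lit 0) (cs (lf (nat_lit 30) (nat_lit 249)) (rf (nat_lit 12)))))))))))) (cs (nd (nat_lit 315) (nat_lit 0) (cs (lf (nat_lit 30) (nat_lit 249)) (nd (nat_lit 226) (nat_lit 0) (cs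 (lf (nat_lit 25) (nat_lit 226)) (nd (nat_lit 273) (nat_lit 0) (cs (lf (nat_lit 15) (nat_lit 249)) (rf (nat_lit 6)))))))) (nd (nat_lit 227) (nat_lit 0) (cs (lf (nat_lit 37) (nat_lit 226)) (nd (nat_lit 315) (nat_lit 0) (cs (lf (nat_lit 30) (nat_lit 249)) (nd (nat_lit 248) (nat_lit 0) (cs (lf (nat_lit 24) (nat_lit 226)) (rf (nat_lit 13))))))))))))))))))) q47808 (by decide +kernel)
def q47811 : Q := Q.p (nat_lit 0x3c0000400000000000000000000000000000000000000000000000000000000000000) (nat_lit 0x10000040001f8000030000200000800002000000000000000000000000000000000000000000000000000) (nat_lit 7)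
theorem c47811 : QOK q47811 := cut [q47697] ⟨c47697, trivial⟩ (nd (nat_lit 292) (nat_lit 0) (cs (lf (nat_lit 11) (nat_lit 269)) (nd (nat_lit 295) (nat_lit 0) (cs (lf (nat_lit 5) (nat_lit 270)) (nd (nat_lit 269) (nat_lit 0) (cs (lf (nat_lit 4) (nat_lit 269)) (rf (nat_lit 0)))))))) q47811 (by decide +kernel)
def q47896 : Q := Q.p (nat_lit 0x60000000000100003400000000000000000000000000000000000000000000000000000000000000) (nat_lit 0x700001e0001f7000798000fa0000e80000000008000000000000000000000000000000000000000000000000000000000) (nat_lit 10)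
theorem c47896 : QOK q47896 := cut [q41940, q42163, q46284, q47871, q12843, q45355, q47894] ⟨c41940, c42163, c46284, c47871, c12843, c45355, c47894, trivial⟩ (nd (nat_lit 296) (nat_lit 0) (cs (rf (nat_lit 0)) (cs (rf (nat_lit 1)) (cs (rf (nat_lit 2)) (cs (rf (nat_lit 3)) (nd (nat_lit 297) (nat_lit 0) (cs (nd (nat_lit 319) (nat_lit 0) (cs (nd (nat_lit 315) (nat_lit 0) (cs (lf (nat_lit 13) (nat_lit 293)) (nd (nat_lit 275) (nat_lit 0) (cs (lf (nat_lit 41) (nat_lit 252)) (rf (nat_lit 4)))))) (cs (nd (nat_lit 341) (nat_lit 0) (cs (lf (nat_lit 25) (nat_lit 252)) (nd (nat_lit 363) (nat_lit 0) (cs (lf (nat_lit 42) (nat_lit 296)) (nd (nat_lit 362) (nat_lit 0) (cs (lf (nat_lit 41) (nat_lit 296)) (nd (nat_lit 364) (nat_lit 0) (cs (lf (nat_lit 29) (nat_lit 297)) (nd (nat_lit 342) (nat_lit 0) (cs (nd (nat_lit 343) (nat_lit 0) (cs (lf (nat_lit 12) (nat_lit 339)) (lf (nat_lit 3) (nat_lit 317)))) (lf (nat_lit 24) (nat_lit 275)))))))))))) (cs (nd (nat_lit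 274) (nat_lit 0) (cs (lf (nat_lit 29) (nat_lit 252)) (nd (nat_lit 273) (nat_lit 0) (cs (lf (nat_lit 0) (nat_lit 271)) (nd (nat_lit 315) (nat_lit 0) (cs (lf (nat_lit 13) (nat_lit 293)) (nd (nat_lit 340) (nat_lit 0) (cs (lf (nat_lit 37) (nat_lit 252)) (nd (nat_lit 362) (nat_lit 0) (cs (lf (nat_lit 30) (nat_lit 296)) (lf (nat_lit 46) (nat_lit 273)))))))))))) (nd (nat_lit 316) (nat_lit 0) (cs (lf (nat_lit 12) (nat_lit 293)) (rf (nat_lit 5)))))))) (cs (nd (nat_lit 298) (nat_lit 0) (cs (lf (nat_lit 6) (nat_lit 295)) (nd (nat_lit 273) (nat_lit 0) (cs (nd (nat_lit 274) (nat_lit 0) (cs (lf (nat_lit 12) (nat_lit 249)) (lf (nat_lit 3) (nat_lit 272)))) (lf (nat_lit 21) (nat_lit 272)))))) (rf (nat_lit 6)))))))))) q47896 (by decide +kernel)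
def q47941 : Q := Q.p (nat_lit 0x60000000000100003400000000000000000000000000000000000000000000000000000000000000) (nat_lit 0x20000180007e0001f0001ef000798000fa0003e80000000008000000000000000000000000000000000000000000000000000000000) (nat_lit 12)
theorem c47941 : QOK q47941 := cut [q41899, q47871, q47894, q41909, q47902, q41908, q12843, q47934, q47940] ⟨c41899, c47871, c47894, c41909, c47902, c41908, c12843, c47934, c47940, trivial⟩ (nd (nat_lit 296) (nat_lit 0) (cs (rf (nat_lit 0)) (cs (rf (nat_lit 1)) (cs (nd (nat_lit 297) (nat_lit 0) (cs (rf (nat_lit 2)) (cs (nd (nat_lit 319) (nat_lit 0) (cs (nd (nat_lit 316) (nat_lit 0) (cs (lf (nat_lit 12) (nat_lit 293)) (rf (nat_lit 3)))) (cs (nd (nat_lit 316) (nat_lit 0) (cs (lf (nat_lit 12) (nat_lit 293)) (nd (nat_lit 341) (nat_lit 0) (cs (lf (nat_lit 5) (nat_lit 316)) (nd (nat_lit 338) (nat_lit 0) (cs (lf (nat_lit 11) (nat_lit 315)) (nd (nat_lit 382) (nat_lit 0) (cs (nd (nat_lit 231) (nat_lit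 0) (cs (lf (nat_lit 38) (nat_lit 230)) (nd (nat_lit 360) (nat_lit 0) (cs (rf (nat_lit 4)) (lf (nat_lit 35) (nat_lit 294)))))) (cs (nd (nat_lit 363) (nat_lit 0) (cs (lf (nat_lit 42) (nat_lit 296)) (nd (nat_lit 364) (nat_lit 0) (cs (lf (nat_lit 29) (nat_lit 297)) (nd (nat_lit 362) (nat_lit 0) (cs (lf (nat_lit 41) (nat_lit 296)) (nd (nat_lit 361) (nat_lit 0) (cs (lf (nat_lit 10) (nat_lit 360)) (lf (nat_lit 22) (nat_lit 338)))))))))) (nd (nat_lit 363) (nat_lit 0) (cs (lf (nat_lit 42) (nat_lit 296)) (nd (nat_lit 362) (nat_lit 0) (cs (lf (nat_lit 41) (nat_lit 296)) (nd (nat_lit 360) (nat_lit 0) (cs (lf (nat_lit 35) (nat_lit 294)) (nd (nat_lit 381) (nat_lit 0) (cs (lf (nat_lit 41) (nat_lit 315)) (lf (nat_lit 8) (nat_lit 359))))))))))))))))))) (cs (nd (nat_lit 231) (nat_lit 0) (cs (lf (nat_lit 38) (nat_lit 230)) (nd (nat_lit 316) (nat_lit 0) (cs (lf (nat_lit 12) (nat_lit 293)) (rf (nat_lit 5)))))) (cs (nd (nat_lit 275) (nat_lit 0) (cs (rf (nat_lit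 6)) (lf (nat_lit 36) (nat_lit 230)))) (nd (nat_lit 231) (nat_lit 0) (cs (lf (nat_lit 38) (nat_lit 230)) (nd (nat_lit 316) (nat_lit 0) (cs (lf (nat_lit 12) (nat_lit 293)) (nd (nat_lit 338) (nat_lit 0) (cs (lf (nat_lit 11) (nat_lit 315)) (nd (nat_lit 341) (nat_lit 0) (cs (lf (nat_lit 5) (nat_lit 316)) (nd (nat_lit 339) (nat_lit 0) (cs (lf (nat_lit 6) (nat_lit 316)) (nd (nat_lit 361) (nat_lit 0) (cs (lf (nat_lit 30) (nat_lit 295)) (nd (nat_lit 363) (nat_lit 0) (cs (lf (nat_lit 42) (nat_lit 296)) (nd (nat_lit 362) (nat_lit 0) (cs (lf (nat_lit 41) (nat_lit 296)) (lf (nat_lit 18) (nat_lit 338))))))))))))))))))))))) (rf (nat_lit 7))))) (rf (nat_lit 8)))))) q47941 (by decide +kernel)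
def q48015 : Q := Q.p (nat_lit 0xe0000000000100002400000000000000000000000000000000000000000000000000000000000000) (nat_lit 0x1dc000300001e80001a00000000000000000000000000000000000000000000000000000000000000000000) (nat_lit 6)
theorem c48015 : QOK q48015 := cut [q48007, q48011, q48014] ⟨c48007, c48011, c48014, trivial⟩ (nd (nat_lit 320) (nat_lit 0) (cs (rf (nat_lit 0)) (cs (rf (nat_lit 1)) (rf (nat_lit 2))))) q48015 (by decide +kernel)
def q48019 : Q := Q.p (nat_lit 0xe0000000000100002400000000000000000000000000000000000000000000000000000000000000) (nat_lit 0x80001fc000310001c80001a00000000000000000000000000000000000000000000000000000000000000000000) (nat_lit 6)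
theorem c48019 : QOK q48019 := cut [q48011, q48014, q43604] ⟨c48011, c48014, c43604, trivial⟩ (nd (nat_lit 320) (nat_lit 0) (cs (rf (nat_lit 0)) (cs (rf (nat_lit 1)) (nd (nat_lit 342) (nat_lit 0) (cs (lf (nat_lit 5) (nat_lit 317)) (nd (nat_lit 341) (nat_lit 0) (cs (lf (nat_lit 0) (nat_lit 316)) (rf (nat_lit 2))))))))) q48019 (by decide +kernel)
def q48069 : Q := Q.p (nat_lit 0xe0000000000100003400000000000000000000000000000000000000000000000000000000000000) (nat_lit 0x140000700007f8003fc001ff80031c0002a0000e80000000000000000000000000000000000000000000000000000000000000000000) (nat_lit 11)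
theorem c48069 : QOK q48069 := cut [q47988, q14673, q47968, q48031, q46083, q48035, q45934, q48054, q47976, q14404, q48059, q46237] ⟨c47988, c14673, c47968, c48031, c46083, c48035, c45934, c48054, c47976, c14404, c48059, c46237, trivial⟩ (nd (nat_lit 339) (nat_lit 0) (cs (rf (nat_lit 0)) (cs (nd (nat_lit 361) (nat_lit 0) (cs (nd (nat_lit 342) (nat_lit 0) (cs (rf (nat_lit 1)) (cs (nd (nat_lit 295) (nat_lit 0) (cs (lf (nat_lit 45) (nat_lit 250)) (nd (nat_lit 320) (nat_lit 0) (cs (lf (nat_lit 5) (nat_lit 317)) (nd (nat_lit 275) (nat_lit 0) (cs (lf (nat_lit 26) (nat_lit 253)) (nd (nat_lit 340) (nat_lit 0) (cs (lf (nat_lit 6) (nat_lit 317)) (rf (nat_lit 2)))))))))) (cs (nd (nat_lit 273) (nat_lit 0) (cs (lf (nat_lit 44) (nat_lit 250)) (nd (nat_lit 271) (nat_lit 0) (cs (lf (nat_lit 15) (nat_lit 249)) (nd (nat_lit 341) (nat_lit 0) (cs (lf (nat_lit 0) (nat_lit 316)) (nd (nat_lit 340) (nat_lit 0) (cs (lf (nat_lit 11) (nat_lit 338)) (nd (nat_lit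 320) (nat_lit 0) (cs (lf (nat_lit 17) (nat_lit 317)) (nd (nat_lit 364) (nat_lit 0) (cs (lf (nat_lit 5) (nat_lit 339)) (nd (nat_lit 297) (nat_lit 0) (cs (lf (nat_lit 37) (nat_lit 252)) (lf (nat_lit 42) (nat_lit 297)))))))))))))))) (nd (nat_lit 341) (nat_lit 0) (cs (lf (nat_lit 0) (nat_lit 316)) (rf (nat_lit 3)))))))) (cs (nd (nat_lit 341) (nat_lit 0) (cs (nd (nat_lit 362) (nat_lit 0) (cs (rf (nat_lit 4)) (cs (nd (nat_lit 295) (nat_lit 0) (cs (lf (nat_lit 45) (nat_lit 250)) (nd (nat_lit 360) (nat_lit 0) (cs (lf (nat_lit 41) (nat_lit 294)) (nd (nat_lit 359) (nat_lit 0) (cs (lf (nat_lit 16) (nat_lit 337)) (rf (nat_lit 5)))))))) (nd (nat_lit 384) (nat_lit 0) (cs (rf (nat_lit 6)) (cs (nd (nat_lit 406) (nat_lit 0) (cs (lf (nat_lit 42) (nat_lit 339)) (nd (nat_lit 363) (nat_lit 0) (cs (lf (nat_lit 36) (nat_lit 296)) (lf (nat_lit 39) (nat_lit 318)))))) (nd (nat_lit 297) (nat_lit 0) (cs (lf (nat_lit 39) (nat_lit 296)) (lf (nat_lit 32) (nat_lit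 296)))))))))) (nd (nat_lit 342) (nat_lit 0) (cs (lf (nat_lit 0) (nat_lit 316)) (rf (nat_lit 3)))))) (cs (rf (nat_lit 7)) (cs (nd (nat_lit 340) (nat_lit 0) (cs (rf (nat_lit 8)) (nd (nat_lit 320) (nat_lit 0) (cs (lf (nat_lit 6) (nat_lit 317)) (nd (nat_lit 342) (nat_lit 0) (cs (lf (nat_lit 5) (nat_lit 317)) (nd (nat_lit 341) (nat_lit 0) (cs (lf (nat_lit 11) (nat_lit 338)) (lf (nat_lit 23) (nat_lit 316)))))))))) (nd (nat_lit 295) (nat_lit 0) (cs (rf (nat_lit 9)) (lf (nat_lit 45) (nat_lit 250))))))))) (cs (nd (nat_lit 273) (nat_lit 0) (cs (lf (nat_lit 44) (nat_lit 250)) (nd (nat_lit 271) (nat_lit 0) (cs (lf (nat_lit 15) (nat_lit 249)) (nd (nat_lit 320) (nat_lit 0) (cs (lf (nat_lit 11) (nat_lit 316)) (nd (nat_lit 342) (nat_lit 0) (cs (lf (nat_lit 5) (nat_lit 317)) (nd (nat_lit 297) (nat_lit 0) (cs (lf (nat_lit 25) (nat_lit 253)) (nd (nat_lit 340) (nat_lit 0) (cs (lf (nat_lit 6) (nat_lit 317)) (nd (nat_lit 362) (nat_lit 0) (cs (lf (nat_lit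 30) (nat_lit 296)) (nd (nat_lit 364) (nat_lit 0) (cs (lf (nat_lit 42) (nat_lit 297)) (rf (nat_lit 10)))))))))))))))))) (nd (nat_lit 338) (nat_lit 0) (cs (lf (nat_lit 6) (nat_lit 316)) (rf (nat_lit 11)))))))) q48069 (by decide +kernel)
def q48070 : Q := Q.p (nat_lit 0xe0000000000100000400000000000000000000000000000000000000000000000000000000000000) (nat_lit 0x1fc000310001e80000200000000000000000000000000000000000000000000000000000000000000000000) (nat_lit 6)
theorem c48070 : QOK q48070 := cut [q42360, q48011, q48014] ⟨c42360, c48011, c48014, trivial⟩ (nd (nat_lit 320) (nat_lit 0) (cs (rf (nat_lit 0)) (cs (rf (nat_lit 1)) (rf (nat_lit 2))))) q48070 (by decide +kernel)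
def q48123 : Q := Q.p (nat_lit 0x8000060000000000100003400000000000000000000000000000000000000000000000000000000000000) (nat_lit 0x140000700001c0003fe0007f0001fe0007700001c0000bc0006c0000000000000000000000000000000000000000000000000000000000000000000) (nat_lit 11)
theorem c48123 : QOK q48123 := cut [q45927, q48054, q48088, q45915, q45925, q48093, q48099, q48105, q48122] ⟨c45927, c48054, c48088, c45915, c45925, c48093, c48099, c48105, c48122, trivial⟩ (nd (nat_lit 361) (nat_lit 0) (cs (rf (nat_lit 0)) (cs (rf (nat_lit 1)) (cs (rf (nat_lit 2)) (cs (nd (nat_lit 295) (nat_lit 0) (cs (lf (nat_lit 45) (nat_lit 250)) (nd (nat_lit 384) (nat_lit 0) (cs (lf (nat_lit 28) (nat_lit 295)) (nd (nat_lit 383) (nat_lit 0) (cs (lf (nat_lit 29) (nat_lit 317)) (nd (nat_lit 405) (nat_lit 0) (cs (rf (nat_lit 3)) (lf (nat_lit 34) (nat_lit 317)))))))))) (cs (nd (nat_lit 382) (nat_lit 0) (cs (rf (nat_lit 4)) (cs (nd (nat_lit 315) (nat_lit 0) (cs (nd (nat_lit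 273) (nat_lit 0) (cs (lf (nat_lit 44) (nat_lit 250)) (nd (nat_lit 271) (nat_lit 0) (cs (lf (nat_lit 15) (nat_lit 249)) (nd (nat_lit 293) (nat_lit 0) (cs (lf (nat_lit 30) (nat_lit 249)) (nd (nat_lit 292) (nat_lit 0) (cs (rf (nat_lit 5)) (lf (nat_lit 20) (nat_lit 292)))))))))) (cs (nd (nat_lit 273) (nat_lit 0) (cs (lf (nat_lit 44) (nat_lit 250)) (nd (nat_lit 383) (nat_lit 0) (cs (lf (nat_lit 41) (nat_lit 316)) (nd (nat_lit 340) (nat_lit 0) (cs (lf (nat_lit 30) (nat_lit 317)) (nd (nat_lit 271) (nat_lit 0) (cs (lf (nat_lit 15) (nat_lit 249)) (nd (nat_lit 337) (nat_lit 0) (cs (lf (nat_lit 32) (nat_lit 249)) (rf (nat_lit 6)))))))))))) (nd (nat_lit 383) (nat_lit 0) (cs (lf (nat_lit 41) (nat_lit 316)) (nd (nat_lit 340) (nat_lit 0) (cs (lf (nat_lit 30) (nat_lit 317)) (rf (nat_lit 7))))))))) (nd (nat_lit 383) (nat_lit 0) (cs (lf (nat_lit 41) (nat_lit 316)) (nd (nat_lit 405) (nat_lit 0) (cs (lf (nat_lit 34) (nat_lit 317)) (nd (nat_lit 428) (nat_lit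 0) (cs (lf (nat_lit 28) (nat_lit 339)) (nd (nat_lit 316) (nat_lit 0) (cs (lf (nat_lit 46) (nat_lit 316)) (nd (nat_lit 427) (nat_lit 0) (cs (lf (nat_lit 29) (nat_lit 361)) (nd (nat_lit 449) (nat_lit 0) (cs (nd (nat_lit 448) (nat_lit 0) (cs (lf (nat_lit 41) (nat_lit 382)) (lf (nat_lit 40) (nat_lit 360)))) (lf (nat_lit 47) (nat_lit 360))))))))))))))))) (rf (nat_lit 8)))))))) q48123 (by decide +kernel)
def q48124 : Q := Q.p (nat_lit 0x8000060000000000100000400000000000000000000000000000000000000000000000000000000000000) (nat_lit 0x100000700001c0003fe0007f0001fe00077000010000180000200000000000000000000000000000000000000000000000000000000000000000000) (nat_lit 11)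
theorem c48124 : QOK q48124 := cut [q45927, q46521, q45926, q46233, q46301, q46524, q48088, q48122] ⟨c45927, c46521, c45926, c46233, c46301, c46524, c48088, c48122, trivial⟩ (nd (nat_lit 361) (nat_lit 0) (cs (rf (nat_lit 0)) (cs (rf (nat_lit 1)) (cs (nd (nat_lit 383) (nat_lit 0) (cs (rf (nat_lit 2)) (cs (rf (nat_lit 3)) (rf (nat_lit 4))))) (cs (rf (nat_lit 5)) (cs (rf (nat_lit 6)) (rf (nat_lit 7)))))))) q48124 (by decide +kernel)
def q48370 : Q := Q.p (nat_lit 0x68000000000100003400000000000000000000000000000000000000000000000000000000000000) (nat_lit 0x8800077000094000130000ec0000100008400000000000000000000000000000000000000000000000000000000) (nat_lit 7)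
theorem c48370 : QOK q48370 := cut [q48139, q48365, q48367] ⟨c48139, c48365, c48367, trivial⟩ (nd (nat_lit 337) (nat_lit 0) (cs (rf (nat_lit 0)) (cs (nd (nat_lit 271) (nat_lit 0) (cs (lf (nat_lit 32) (nat_lit 249)) (rf (nat_lit 1)))) (nd (nat_lit 316) (nat_lit 0) (cs (lf (nat_lit 11) (nat_lit 314)) (nd (nat_lit 319) (nat_lit 0) (cs (lf (nat_lit 10) (nat_lit 315)) (rf (nat_lit 2))))))))) q48370 (by decide +kernel)
def q48531 : Q := Q.p (nat_lit 0x28000000000000003000000000000000000000000000000000000000000000000000000000000000) (nat_lit 0x280000e0000380001e0007fc000d600033c000c80000000008000000000000000000000000000000000000000000000000000000000) (nat_lit 11)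
theorem c48531 : QOK q48531 := cut [q47324, q48428, q14178, q47340, q47343, q48497, q48519, q45462, q48522] ⟨c47324, c48428, c14178, c47340, c47343, c48497, c48519, c45462, c48522, trivial⟩ (nd (nat_lit 316) (nat_lit 0) (cs (rf (nat_lit 0)) (cs (rf (nat_lit 1)) (cs (nd (nat_lit 314) (nat_lit 0) (cs (rf (nat_lit 2)) (cs (rf (nat_lit 3)) (cs (rf (nat_lit 4)) (nd (nat_lit 336) (nat_lit 0) (cs (lf (nat_lit 11) (nat_lit 313)) (nd (nat_lit 358) (nat_lit 0) (cs (nd (nat_lit 380) (nat_lit 0) (cs (nd (nat_lit 379) (nat_lit 0) (cs (nd (nat_lit 403) (nat_lit 0) (cs (nd (nat_lit 402) (nat_lit 0) (cs (lf (nat_lit 29) (nat_lit 336)) (lf (nat_lit 34) (nat_lit 314)))) (lf (nat_lit 28) (nat_lit 314)))) (lf (nat_lit 41) (nat_lit 313)))) (lf (nat_lit 35) (nat_lit 292)))) (cs (nd (nat_lit 292) (nat_lit 0) (cs (lf (nat_lit 23) (nat_lit 291)) (nd (nat_lit 339) (nat_lit 0) (cs (lf (nat_lit 5) (nat_lit 314)) (rf (nat_lit 5)))))) (cs (nd (nat_lit 339) (nat_lit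 0) (cs (lf (nat_lit 5) (nat_lit 314)) (nd (nat_lit 291) (nat_lit 0) (cs (lf (nat_lit 22) (nat_lit 291)) (nd (nat_lit 380) (nat_lit 0) (cs (lf (nat_lit 35) (nat_lit 292)) (nd (nat_lit 401) (nat_lit 0) (cs (nd (nat_lit 403) (nat_lit 0) (cs (lf (nat_lit 28) (nat_lit 314)) (nd (nat_lit 402) (nat_lit 0) (cs (lf (nat_lit 29) (nat_lit 336)) (lf (nat_lit 41) (nat_lit 335)))))) (lf (nat_lit 40) (nat_lit 313)))))))))) (nd (nat_lit 293) (nat_lit 0) (cs (nd (nat_lit 271) (nat_lit 0) (cs (lf (nat_lit 33) (nat_lit 270)) (lf (nat_lit 39) (nat_lit 270)))) (lf (nat_lit 30) (nat_lit 292)))))))))))))) (cs (rf (nat_lit 6)) (nd (nat_lit 336) (nat_lit 0) (cs (nd (nat_lit 318) (nat_lit 0) (cs (lf (nat_lit 10) (nat_lit 314)) (rf (nat_lit 7)))) (cs (nd (nat_lit 314) (nat_lit 0) (cs (lf (nat_lit 11) (nat_lit 313)) (nd (nat_lit 292) (nat_lit 0) (cs (lf (nat_lit 23) (nat_lit 291)) (nd (nat_lit 293) (nat_lit 0) (cs (lf (nat_lit 18) (nat_lit 292)) (rf (nat_lit 8))))))))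 (nd (nat_lit 335) (nat_lit 0) (cs (nd (nat_lit 337) (nat_lit 0) (cs (lf (nat_lit 15) (nat_lit 313)) (lf (nat_lit 12) (nat_lit 312)))) (lf (nat_lit 9) (nat_lit 313)))))))))))) q48531 (by decide +kernel)
def q48540 : Q := Q.p (nat_lit 0x100000400001000010000040000000000000000000000000000000000000000000000) (nat_lit 0x200000c0000200000000002e0000f8000bf0000e0000080000000000000000000000000000000000) (nat_lit 8)
theorem c48540 : QOK q48540 := cut [q17152, q44549, q44887] ⟨c17152, c44549, c44887, trivial⟩ (nd (nat_lit 206) (nat_lit 0) (cs (rf (nat_lit 0)) (cs (rf (nat_lit 1)) (rf (nat_lit 2))))) q48540 (by decide +kernel)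
def q48542 : Q := Q.p (nat_lit 0x100000400001000010000040000000000000000000000000000000000000000000000) (nat_lit 0x8000060000080000000002e0000f8000bf0000e0000080000000000000000000000000000000000) (nat_lit 8)
theorem c48542 : QOK q48542 := cut [q44549, q44887, q48541] ⟨c44549, c44887, c48541, trivial⟩ (nd (nat_lit 206) (nat_lit 0) (cs (rf (nat_lit 0)) (cs (rf (nat_lit 1)) (rf (nat_lit 2))))) q48542 (by decide +kernel)
def q48560 : Q := Q.p (nat_lit 0x40000100000400000000000000000000000000000000000000000000000000000000000000) (nat_lit 0x280000e00003c000380000080000200001800000000000000000000000000000000000000000000000000000000) (nat_lit 6)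
theorem c48560 : QOK q48560 := cut [q14121, q14128, q45109] ⟨c14121, c14128, c45109, trivial⟩ (nd (nat_lit 316) (nat_lit 0) (cs (rf (nat_lit 0)) (cs (rf (nat_lit 1)) (rf (nat_lit 2))))) q48560 (by decide +kernel)
def q48567 : Q := Q.p (nat_lit 0xf0000040000200000000000000000000000000000000000000000000000000000000000000) (nat_lit 0x280000e00003800006000000000080000000000000000000000000000000000000000000000000000000000000000000) (nat_lit 6)
theorem c48567 : QOK q48567 := cut [q45214] ⟨c45214, trivial⟩ (nd (nat_lit 314) (nat_lit 0) (cs (lf (nat_lit 11) (nat_lit 291)) (rf (nat_lit 0)))) q48567 (by decide +kernel)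
def q48622 : Q := Q.p (nat_lit 0x100003400001000000000040000000000000000000000000000000000000000000000) (nat_lit 0x200000e00006800002000008000060000b80000a0000000000000000000000000000000000000000) (nat_lit 8)
theorem c48622 : QOK q48622 := cut [q45094, q21133, q44911] ⟨c45094, c21133, c44911, trivial⟩ (nd (nat_lit 205) (nat_lit 0) (cs (rf (nat_lit 0)) (cs (nd (nat_lit 206) (nat_lit 0) (cs (lf (nat_lit 47) (nat_lit 183)) (rf (nat_lit 1)))) (nd (nat_lit 294) (nat_lit 0) (cs (lf (nat_lit 46) (nat_lit 205)) (nd (nat_lit 295) (nat_lit 0) (cs (lf (nat_lit 29) (nat_lit 228)) (nd (nat_lit 206) (nat_lit 0) (cs (lf (nat_lit 28) (nat_lit 206)) (rf (nat_lit 2))))))))))) q48622 (by decide +kernel)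
def q48630 : Q := Q.p (nat_lit 0x100000400001000002000040000000000000000000000000000000000000000000000) (nat_lit 0x200000800002000000000040000b8000080000000000000000000000000000000000000000) (nat_lit 5)
theorem c48630 : QOK q48630 := cut [q44911] ⟨c44911, trivial⟩ (nd (nat_lit 206) (nat_lit 0) (cs (lf (nat_lit 47) (nat_lit 183)) (rf (nat_lit 0)))) q48630 (by decide +kernel)
def q48634 : Q := Q.p (nat_lit 0x10000040000100000400000000010000040000000000000000000000000000000000000000000000) (nat_lit 0x800002000008000000000000000300000e0000a8000000000000000000000000000000000000000000000) (nat_lit 6)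
theorem c48634 : QOK q48634 := cut [q46555] ⟨c46555, trivial⟩ (nd (nat_lit 317) (nat_lit 0) (cs (lf (nat_lit 29) (nat_lit 250)) (rf (nat_lit 0)))) q48634 (by decide +kernel)
def q48665 : Q := Q.p (nat_lit 0x10000040000100000400000000010000040000000000000000000000000000000000000000000000) (nat_lit 0x200000800002000000000000000300000e0000a8000000000000000000000000000000000000000000000) (nat_lit 6)
theorem c48665 : QOK q48665 := cut [q48636] ⟨c48636, trivial⟩ (nd (nat_lit 315) (nat_lit 0) (cs (lf (nat_lit 41) (nat_lit 249)) (rf (nat_lit 0)))) q48665 (by decide +kernel)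
def q48720 : Q := Q.p (nat_lit 0x80001a0003080000000000000000000000000000000000000000000000000000000000000) (nat_lit 0x4000010000640000000000700001c00005000000000000000000000000000000000000000000000) (nat_lit 7)
theorem c48720 : QOK q48720 := cut [q48718] ⟨c48718, trivial⟩ (nd (nat_lit 273) (nat_lit 0) (cs (lf (nat_lit 15) (nat_lit 249)) (nd (nat_lit 292) (nat_lit 0) (cs (lf (nat_lit 9) (nat_lit 269)) (rf (nat_lit 0)))))) q48720 (by decide +kernel)
def q48721 : Q := Q.p (nat_lit 0x8000020000080000000000000000000000000000000000000000000000000000000000000) (nat_lit 0x1400007000014000000000000000700001c00005000000000000000000000000000000000000000000000) (nat_lit 5)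
theorem c48721 : QOK q48721 := cut [q46785, q47100] ⟨c46785, c47100, trivial⟩ (nd (nat_lit 225) (nat_lit 0) (cs (rf (nat_lit 0)) (rf (nat_lit 1)))) q48721 (by decide +kernel)
def q48774 : Q := Q.p (nat_lit 0x8000020000080000200000000000000000000000000000000000000000000000000000000) (nat_lit 0x100001c00007000010000010000040000100000000000000000000000000000000000000000000000000000000) (nat_lit 6)
theorem c48774 : QOK q48774 := cut [q48772] ⟨c48772, trivial⟩ (nd (nat_lit 314) (nat_lit 0) (cs (lf (nat_lit 28) (nat_lit 225)) (nd (nat_lit 313) (nat_lit 0) (cs (lf (nat_lit 29) (nat_lit 247)) (rf (nat_lit 0)))))) q48774 (by decide +kernel)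
def q48860 : Q := Q.p (nat_lit 0x80001a0003080000000000000000000000000000000000000000000000000000000000000) (nat_lit 0x500001c00007000010000610000040000300000400000000000000000000000000000000000000000000000000) (nat_lit 7)
theorem c48860 : QOK q48860 := cut [q47291, q48708, q48772, q48857] ⟨c47291, c48708, c48772, c48857, trivial⟩ (nd (nat_lit 313) (nat_lit 0) (cs (rf (nat_lit 0)) (cs (rf (nat_lit 1)) (cs (rf (nat_lit 2)) (nd (nat_lit 273) (nat_lit 0) (cs (lf (nat_lit 15) (nat_lit 249)) (nd (nat_lit 312) (nat_lit 0) (cs (lf (nat_lit 41) (nat_lit 246)) (rf (nat_lit 3)))))))))) q48860 (by decide +kernel)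
def q48956 : Q := Q.p (nat_lit 0x180003480000000010000040000000000000000000000000000000000000000000000) (nat_lit 0x1f00007d00007c000670000200001f0000fc000bf000000000000000000000000000000000000000000000) (nat_lit 12)
theorem c48956 : QOK q48956 := cut [q48696, q34520, q34521, q44551, q48704, q48842, q48702, q48920, q48924, q26652, q48935, q48938, q46570, q46980, q47474, q48387, q48949, q48954] ⟨c48696, c34520, c34521, c44551, c48704, c48842, c48702, c48920, c48924, c26652, c48935, c48938, c46570, c46980, c47474, c48387, c48949, c48954, trivial⟩ (nd (nat_lit 293) (nat_lit 0) (cs (rf (nat_lit 0)) (cs (nd (nat_lit 315) (nat_lit 0) (cs (lf (nat_lit 30) (nat_lit 249)) (nd (nat_lit 228) (nat_lit 0) (cs (lf (nat_lit 39) (nat_lit 227)) (lf (nat_lit 33) (nat_lit 227)))))) (cs (nd (nat_lit 206) (nat_lit 0) (cs (lf (nat_lit 37) (nat_lit 205)) (nd (nat_lit 205) (nat_lit 0) (cs (rf (nat_lit 1)) (cs (rf (nat_lit 2)) (cs (rf (nat_lit 3)) (nd (nat_lit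 291) (nat_lit 0) (cs (rf (nat_lit 4)) (cs (rf (nat_lit 5)) (cs (nd (nat_lit 269) (nat_lit 0) (cs (rf (nat_lit 6)) (cs (nd (nat_lit 225) (nat_lit 0) (cs (nd (nat_lit 273) (nat_lit 0) (cs (lf (nat_lit 15) (nat_lit 249)) (nd (nat_lit 224) (nat_lit 0) (cs (lf (nat_lit 47) (nat_lit 202)) (rf (nat_lit 7)))))) (cs (nd (nat_lit 204) (nat_lit 0) (cs (lf (nat_lit 34) (nat_lit 203)) (rf (nat_lit 8)))) (cs (nd (nat_lit 273) (nat_lit 0) (cs (lf (nat_lit 15) (nat_lit 249)) (nd (nat_lit 204) (nat_lit 0) (cs (lf (nat_lit 34) (nat_lit 203)) (nd (nat_lit 203) (nat_lit 0) (cs (lf (nat_lit 11) (nat_lit 202)) (lf (nat_lit 35) (nat_lit 181)))))))) (nd (nat_lit 273) (nat_lit 0) (cs (lf (nat_lit 15) (nat_lit 249)) (nd (nat_lit 202) (nat_lit 0) (cs (lf (nat_lit 46) (nat_lit 202)) (nd (nat_lit 203) (nat_lit 0) (cs (lf (nat_lit 47) (nat_lit 180)) (nd (nat_lit 204) (nat_lit 0) (cs (rf (nat_lit 9)) (lf (nat_lit 35) (nat_lit 181)))))))))))))) (nd (nat_lit 273) (nat_lit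 0) (cs (lf (nat_lit 15) (nat_lit 249)) (rf (nat_lit 10))))))) (nd (nat_lit 290) (nat_lit 0) (cs (lf (nat_lit 14) (nat_lit 268)) (nd (nat_lit 269) (nat_lit 0) (cs (lf (nat_lit 8) (nat_lit 268)) (nd (nat_lit 225) (nat_lit 0) (cs (lf (nat_lit 41) (nat_lit 224)) (nd (nat_lit 204) (nat_lit 0) (cs (lf (nat_lit 34) (nat_lit 203)) (rf (nat_lit 11)))))))))))))))))))) (cs (nd (nat_lit 315) (nat_lit 0) (cs (lf (nat_lit 30) (nat_lit 249)) (nd (nat_lit 249) (nat_lit 0) (cs (rf (nat_lit 12)) (cs (rf (nat_lit 13)) (cs (rf (nat_lit 14)) (nd (nat_lit 292) (nat_lit 0) (cs (rf (nat_lit 15)) (rf (nat_lit 16)))))))))) (nd (nat_lit 273) (nat_lit 0) (cs (lf (nat_lit 15) (nat_lit 249)) (rf (nat_lit 17))))))))) q48956 (by decide +kernel)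
def q48976 : Q := Q.p (nat_lit 0x28000180003480000000000000000000000000000000000000000000000000000000000000) (nat_lit 0x100003c0001f000017000630000040001700007c00000000000000000000000000000000000000000000000000) (nat_lit 11)
theorem c48976 : QOK q48976 := cut [q48962, q48968, q48772, q48971] ⟨c48962, c48968, c48772, c48971, trivial⟩ (nd (nat_lit 315) (nat_lit 0) (cs (lf (nat_lit 30) (nat_lit 249)) (nd (nat_lit 206) (nat_lit 0) (cs (lf (nat_lit 37) (nat_lit 205)) (nd (nat_lit 290) (nat_lit 0) (cs (lf (nat_lit 14) (nat_lit 268)) (nd (nat_lit 313) (nat_lit 0) (cs (nd (nat_lit 273) (nat_lit 0) (cs (lf (nat_lit 15) (nat_lit 249)) (nd (nat_lit 314) (nat_lit 0) (cs (lf (nat_lit 18) (nat_lit 290)) (rf (nat_lit 0)))))) (cs (nd (nat_lit 314) (nat_lit 0) (cs (lf (nat_lit 18) (nat_lit 290)) (nd (nat_lit 269) (nat_lit 0) (cs (lf (nat_lit 29) (nat_lit 247)) (rf (nat_lit 1)))))) (nd (nat_lit 269) (nat_lit 0) (cs (rf (nat_lit 2)) (cs (rf (nat_lit 1))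 (rf (nat_lit 3)))))))))))))) q48976 (by decide +kernel)
def q49017 : Q := Q.p (nat_lit 0x28000180003480000000000000000000000000000000000000000000000000000000000000) (nat_lit 0x7e0001f000017000620000200000c0000300000c000000000000000000000000000000000000000000000) (nat_lit 9)
theorem c49017 : QOK q49017 := cut [q46970, q48962] ⟨c46970, c48962, trivial⟩ (nd (nat_lit 315) (nat_lit 0) (cs (lf (nat_lit 30) (nat_lit 249)) (nd (nat_lit 314) (nat_lit 0) (cs (nd (nat_lit 249) (nat_lit 0) (cs (lf (nat_lit 41) (nat_lit 248)) (rf (nat_lit 0)))) (cs (nd (nat_lit 249) (nat_lit 0) (cs (lf (nat_lit 41) (nat_lit 248)) (nd (nat_lit 273) (nat_lit 0) (cs (lf (nat_lit 15) (nat_lit 249)) (nd (nat_lit 316) (nat_lit 0) (cs (lf (nat_lit 29) (nat_lit 249)) (nd (nat_lit 313) (nat_lit 0) (cs (lf (nat_lit 23) (nat_lit 290)) (nd (nat_lit 334) (nat_lit 0) (cs (lf (nat_lit 10) (nat_lit 312)) (nd (nat_lit 312) (nat_lit 0) (cs (lf (nat_lit 11) (nat_lit 311)) (lf (nat_lit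 37) (nat_lit 246)))))))))))))) (nd (nat_lit 273) (nat_lit 0) (cs (lf (nat_lit 15) (nat_lit 249)) (nd (nat_lit 290) (nat_lit 0) (cs (lf (nat_lit 14) (nat_lit 268)) (nd (nat_lit 313) (nat_lit 0) (cs (lf (nat_lit 18) (nat_lit 290)) (rf (nat_lit 1))))))))))))) q49017 (by decide +kernel)
def q49112 : Q := Q.p (nat_lit 0x40000100000400001000000000000000000000000000000000000000000000000000000000) (nat_lit 0x280000e000038000000000000000200000800002000000000000000000000000000000000000000000000000000) (nat_lit 6)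
theorem c49112 : QOK q49112 := cut [q14184] ⟨c14184, trivial⟩ (nd (nat_lit 227) (nat_lit 0) (cs (lf (nat_lit 47) (nat_lit 205)) (nd (nat_lit 316) (nat_lit 0) (cs (lf (nat_lit 46) (nat_lit 227)) (rf (nat_lit 0)))))) q49112 (by decide +kernel)
def q49118 : Q := Q.p (nat_lit 0x40000180000400001000000000000000000000000000000000000000000000000000000000) (nat_lit 0x20000380000e000038000020000000000000000800002000000000000000000000000000000000000000000000000000) (nat_lit 6)
theorem c49118 : QOK q49118 := cut [q8903, q14184, q49101, q49116] ⟨c8903, c14184, c49101, c49116, trivial⟩ (nd (nat_lit 316) (nat_lit 0) (cs (rf (nat_lit 0)) (cs (rf (nat_lit 1)) (cs (rf (nat_lit 2)) (nd (nat_lit 205) (nat_lit 0) (cs (lf (nat_lit 46) (nat_lit 205)) (rf (nat_lit 3)))))))) q49118 (by decide +kernel)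
def q49168 : Q := Q.p (nat_lit 0x180003480000000000000000000000000000000000000000000000000000000000000) (nat_lit 0x500003c0000f00007c000670000240001300004c00001000000000000000000000000000000000000000000000) (nat_lit 9)
theorem c49168 : QOK q49168 := cut [q48696, q48954, q48704, q48842, q48836, q48839, q48935, q47291, q48708, q49160, q48828] ⟨c48696, c48954, c48704, c48842, c48836, c48839, c48935, c47291, c48708, c49160, c48828, trivial⟩ (nd (nat_lit 293) (nat_lit 0) (cs (rf (nat_lit 0)) (cs (rf (nat_lit 1)) (nd (nat_lit 291) (nat_lit 0) (cs (rf (nat_lit 2)) (cs (rf (nat_lit 3)) (cs (nd (nat_lit 269) (nat_lit 0) (cs (rf (nat_lit 4)) (cs (rf (nat_lit 5)) (cs (rf (nat_lit 6)) (nd (nat_lit 313) (nat_lit 0) (cs (rf (nat_lit 7)) (cs (rf (nat_lit 8)) (nd (nat_lit 273) (nat_lit 0) (cs (lf (nat_lit 15) (nat_lit 249)) (rf (nat_lit 9))))))))))) (nd (nat_lit 290) (nat_lit 0) (cs (lf (nat_lit 14) (nat_lit 268)) (nd (nat_lit 269) (nat_lit 0) (cs (lf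 (nat_lit 8) (nat_lit 268)) (nd (nat_lit 225) (nat_lit 0) (cs (lf (nat_lit 41) (nat_lit 224)) (rf (nat_lit 10))))))))))))))) q49168 (by decide +kernel)
def q49212 : Q := Q.p (nat_lit 0x1000000c0000200000000000000000000000000000000000000000000000000000000) (nat_lit 0x100001c0000f000010000040000180000700001c000050000000000000000000000000000000000) (nat_lit 6)
theorem c49212 : QOK q49212 := cut [q47077, q49197, q49206, q45595, q49202, q49211] ⟨c47077, c49197, c49206, c45595, c49202, c49211, trivial⟩ (nd (nat_lit 203) (nat_lit 0) (cs (nd (nat_lit 269) (nat_lit 0) (cs (rf (nat_lit 0)) (rf (nat_lit 1)))) (cs (rf (nat_lit 2)) (cs (nd (nat_lit 181) (nat_lit 0) (cs (rf (nat_lit 3)) (rf (nat_lit 4)))) (rf (nat_lit 5)))))) q49212 (by decide +kernel)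
def q49238 : Q := Q.p (nat_lit 0x1200000c0000200000000000000000000000000000000000000000000000000000000) (nat_lit 0x140000700003c0000c0000000000100000400000000000000000000000000000000000000000000000000) (nat_lit 5)
theorem c49238 : QOK q49238 := cut [q48727, q48738, q49237] ⟨c48727, c48738, c49237, trivial⟩ (nd (nat_lit 291) (nat_lit 0) (cs (rf (nat_lit 0)) (cs (rf (nat_lit 1)) (rf (nat_lit 2))))) q49238 (by decide +kernel)
def q49287 : Q := Q.p (nat_lit 0xe0000600000800000000000000000000000000000000000000000000000000) (nat_lit 0x100000d80001000001c0000700001c00007000010000000000000000000000000000000000) (nat_lit 6)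
theorem c49287 : QOK q49287 := cut [q49270, q49286] ⟨c49270, c49286, trivial⟩ (nd (nat_lit 223) (nat_lit 0) (cs (rf (nat_lit 0)) (rf (nat_lit 1)))) q49287 (by decide +kernel)
def q49460 : Q := Q.p (nat_lit 0x200000c0000200000800000000000000000000000000000000000000000000000000) (nat_lit 0x600001e000100001df0003780005f00000000000000000000000000000000000000000000) (nat_lit 9)
theorem c49460 : QOK q49460 := cut [q48747, q48753, q49322, q49457] ⟨c48747, c48753, c49322, c49457, trivial⟩ (nd (nat_lit 202) (nat_lit 0) (cs (lf (nat_lit 47) (nat_lit 180)) (nd (nat_lit 201) (nat_lit 0) (cs (rf (nat_lit 0)) (cs (rf (nat_lit 1)) (cs (nd (nat_lit 182) (nat_lit 0) (cs (lf (nat_lit 34) (nat_lit 181)) (nd (nat_lit 268) (nat_lit 0) (cs (lf (nat_lit 41) (nat_lit 202)) (nd (nat_lit 224) (nat_lit 0) (cs (lf (nat_lit 47) (nat_lit 179)) (nd (nat_lit 199) (nat_lit 0) (cs (rf (nat_lit 2)) (lf (nat_lit 1) (nat_lit 199)))))))))) (nd (nat_lit 268) (nat_lit 0) (cs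 (lf (nat_lit 41) (nat_lit 202)) (rf (nat_lit 3)))))))))) q49460 (by decide +kernel)
def q49514 : Q := Q.p (nat_lit 0x1200034c0000000000000000000000000000000000000000000000000000000000000) (nat_lit 0xd00003e0001f80007f0006de000100001500004400001000000000000000000000000000000000000000000000) (nat_lit 12)
theorem c49514 : QOK q49514 := cut [q48835, q49468, q49472, q49312, q49491, q49499, q49502, q47291, q48706, q48771, q49465, q49504] ⟨c48835, c49468, c49472, c49312, c49491, c49499, c49502, c47291, c48706, c48771, c49465, c49504, trivial⟩ (nd (nat_lit 291) (nat_lit 0) (cs (rf (nat_lit 0)) (cs (nd (nat_lit 293) (nat_lit 0) (cs (rf (nat_lit 1)) (cs (rf (nat_lit 2)) (cs (nd (nat_lit 268) (nat_lit 0) (cs (nd (nat_lit 270) (nat_lit 0) (cs (lf (nat_lit 19) (nat_lit 246)) (nd (nat_lit 202) (nat_lit 0) (cs (nd (nat_lit 267) (nat_lit 0) (cs (lf (nat_lit 4) (nat_lit 267)) (rf (nat_lit 3)))) (lf (nat_lit 25) (nat_lit 202)))))) (cs (nd (nat_lit 267)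 (nat_lit 0) (cs (rf (nat_lit 3)) (nd (nat_lit 292) (nat_lit 0) (cs (lf (nat_lit 3) (nat_lit 267)) (lf (nat_lit 21) (nat_lit 267)))))) (cs (nd (nat_lit 267) (nat_lit 0) (cs (rf (nat_lit 3)) (nd (nat_lit 224) (nat_lit 0) (cs (lf (nat_lit 24) (nat_lit 202)) (nd (nat_lit 270) (nat_lit 0) (cs (lf (nat_lit 19) (nat_lit 246)) (nd (nat_lit 289) (nat_lit 0) (cs (lf (nat_lit 11) (nat_lit 266)) (nd (nat_lit 311) (nat_lit 0) (cs (lf (nat_lit 30) (nat_lit 245)) (lf (nat_lit 39) (nat_lit 223)))))))))))) (cs (nd (nat_lit 290) (nat_lit 0) (cs (nd (nat_lit 292) (nat_lit 0) (cs (lf (nat_lit 23) (nat_lit 267)) (lf (nat_lit 16) (nat_lit 268)))) (nd (nat_lit 224) (nat_lit 0) (cs (lf (nat_lit 24) (nat_lit 202)) (rf (nat_lit 4)))))) (nd (nat_lit 224) (nat_lit 0) (cs (lf (nat_lit 24) (nat_lit 202)) (nd (nat_lit 271) (nat_lit 0) (cs (lf (nat_lit 20) (nat_lit 246)) (nd (nat_lit 206) (nat_lit 0) (cs (lf (nat_lit 37) (nat_lit 205)) (nd (nat_lit 290) (nat_lit 0)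 (cs (lf (nat_lit 14) (nat_lit 268)) (rf (nat_lit 4))))))))))))))) (nd (nat_lit 271) (nat_lit 0) (cs (lf (nat_lit 20) (nat_lit 246)) (rf (nat_lit 5)))))))) (cs (rf (nat_lit 6)) (nd (nat_lit 313) (nat_lit 0) (cs (rf (nat_lit 7)) (cs (rf (nat_lit 8)) (cs (rf (nat_lit 9)) (nd (nat_lit 293) (nat_lit 0) (cs (nd (nat_lit 271) (nat_lit 0) (cs (lf (nat_lit 20) (nat_lit 246)) (rf (nat_lit 10)))) (cs (rf (nat_lit 1)) (cs (rf (nat_lit 2)) (nd (nat_lit 312) (nat_lit 0) (cs (lf (nat_lit 41) (nat_lit 246)) (nd (nat_lit 270) (nat_lit 0) (cs (lf (nat_lit 19) (nat_lit 246)) (nd (nat_lit 314) (nat_lit 0) (cs (lf (nat_lit 29) (nat_lit 247)) (nd (nat_lit 292) (nat_lit 0) (cs (lf (nat_lit 12) (nat_lit 289)) (nd (nat_lit 267) (nat_lit 0) (cs (lf (nat_lit 1) (nat_lit 267)) (nd (nat_lit 248) (nat_lit 0) (cs (lf (nat_lit 35) (nat_lit 225)) (nd (nat_lit 315) (nat_lit 0) (cs (lf (nat_lit 29) (nat_lit 248)) (rf (nat_lit 11)))))))))))))))))))))))))))) q49514 (by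 decide +kernel)
def q49522 : Q := Q.p (nat_lit 0x1200000c0000000000000000000000000000000000000000000000000000000000000) (nat_lit 0x500001c0000700003c0000c0000100000700001c00005000000000000000000000000000000000000000000000) (nat_lit 6)
theorem c49522 : QOK q49522 := cut [q49171, q49502, q46785, q49237, q49521] ⟨c49171, c49502, c46785, c49237, c49521, trivial⟩ (nd (nat_lit 291) (nat_lit 0) (cs (rf (nat_lit 0)) (cs (rf (nat_lit 1)) (cs (nd (nat_lit 225) (nat_lit 0) (cs (rf (nat_lit 2)) (rf (nat_lit 3)))) (rf (nat_lit 4)))))) q49522 (by decide +kernel)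
def q49552 : Q := Q.p (nat_lit 0x1200034c0000000000000000000000000000000000000000000000000000000000000) (nat_lit 0x100001c000070000780006d0000100001f00005c00005000000000000000000000000000000000000000000000) (nat_lit 9)
theorem c49552 : QOK q49552 := cut [q48835, q46785, q49549, q49551] ⟨c48835, c46785, c49549, c49551, trivial⟩ (nd (nat_lit 291) (nat_lit 0) (cs (rf (nat_lit 0)) (cs (nd (nat_lit 225) (nat_lit 0) (cs (rf (nat_lit 1)) (cs (nd (nat_lit 271) (nat_lit 0) (cs (lf (nat_lit 20) (nat_lit 246)) (nd (nat_lit 292) (nat_lit 0) (cs (lf (nat_lit 29) (nat_lit 225)) (nd (nat_lit 273) (nat_lit 0) (cs (lf (nat_lit 15) (nat_lit 249)) (nd (nat_lit 226) (nat_lit 0) (cs (lf (nat_lit 35) (nat_lit 203)) (nd (nat_lit 293) (nat_lit 0) (cs (lf (nat_lit 15) (nat_lit 269)) (nd (nat_lit 228) (nat_lit 0) (cs (lf (nat_lit 36) (nat_lit 205)) (lf (nat_lit 7) (nat_lit 224)))))))))))))) (rf (nat_lit 2))))) (rf (nat_lit 3))))) q49552 (by decide +kernel)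
def q49555 : Q := Q.p (nat_lit 0x1200004c0000000000000000000000000000000000000000000000000000000000000) (nat_lit 0x100001c0001f00007c000290000100001700001c00005000000000000000000000000000000000000000000000) (nat_lit 8)
theorem c49555 : QOK q49555 := cut [q48835, q49551, q46785, q49553] ⟨c48835, c49551, c46785, c49553, trivial⟩ (nd (nat_lit 291) (nat_lit 0) (cs (rf (nat_lit 0)) (cs (rf (nat_lit 1)) (nd (nat_lit 225) (nat_lit 0) (cs (rf (nat_lit 2)) (rf (nat_lit 3))))))) q49555 (by decide +kernel)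
def q49578 : Q := Q.p (nat_lit 0x80001200034c0000000010000040000000000000000000000000000000000000000000000) (nat_lit 0x10000240006d0000000001f0000fc000ad000000000000000000000000000000000000000000000) (nat_lit 11)
theorem c49578 : QOK q49578 := cut [q46785, q48790, q48829, q45095] ⟨c46785, c48790, c48829, c45095, trivial⟩ (nd (nat_lit 225) (nat_lit 0) (cs (rf (nat_lit 0)) (cs (rf (nat_lit 1)) (cs (rf (nat_lit 2)) (nd (nat_lit 271) (nat_lit 0) (cs (lf (nat_lit 20) (nat_lit 246)) (nd (nat_lit 290) (nat_lit 0) (cs (lf (nat_lit 41) (nat_lit 224)) (nd (nat_lit 273) (nat_lit 0) (cs (lf (nat_lit 15) (nat_lit 249)) (nd (nat_lit 202) (nat_lit 0) (cs (lf (nat_lit 46) (nat_lit 202)) (nd (nat_lit 226) (nat_lit 0) (cs (lf (nat_lit 35) (nat_lit 203)) (nd (nat_lit 228) (nat_lit 0) (cs (lf (nat_lit 7) (nat_lit 224)) (nd (nat_lit 206) (nat_lit 0) (cs (lf (nat_lit 41) (nat_lit 205)) (nd (nat_lit 205) (nat_lit 0) (cs (lf (nat_lit 47) (nat_lit 183)) (rf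 (nat_lit 3)))))))))))))))))))))) q49578 (by decide +kernel)
def q49585 : Q := Q.p (nat_lit 0xc000120003400000000000000000000000000000000000000000000000000000000000000) (nat_lit 0x20000080000700006c0000000001000004000000000000000000000000000000000000000000000000000) (nat_lit 6)
theorem c49585 : QOK q49585 := cut [q49583] ⟨c49583, trivial⟩ (nd (nat_lit 271) (nat_lit 0) (cs (lf (nat_lit 8) (nat_lit 268)) (nd (nat_lit 273) (nat_lit 0) (cs (lf (nat_lit 15) (nat_lit 249)) (rf (nat_lit 0)))))) q49585 (by decide +kernel)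
def q49595 : Q := Q.p (nat_lit 0x600000c0000000000000000000000000000000000000000000000000000000000000) (nat_lit 0x1e00007c0003f00001c000100000700001800006000010000000000000000000000000000000000000000) (nat_lit 9)
theorem c49595 : QOK q49595 := cut [q49588, q46782, q48790, q49523, q49594] ⟨c49588, c46782, c48790, c49523, c49594, trivial⟩ (nd (nat_lit 291) (nat_lit 0) (cs (rf (nat_lit 0)) (cs (nd (nat_lit 225) (nat_lit 0) (cs (rf (nat_lit 1)) (cs (rf (nat_lit 2)) (rf (nat_lit 3))))) (rf (nat_lit 4))))) q49595 (by decide +kernel)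
def q49711 : Q := Q.p (nat_lit 0xe0000000000000000000000000000000000000000000000000000000000000) (nat_lit 0x700001e0001f00001f0001000003f0000700001c00005000000000000000000000000000000000000000) (nat_lit 11)
theorem c49711 : QOK q49711 := cut [q49621, q49648, q49652, q49660, q49665, q49667, q49680, q49690, q49694, q49710] ⟨c49621, c49648, c49652, c49660, c49665, c49667, c49680, c49690, c49694, c49710, trivial⟩ (nd (nat_lit 267) (nat_lit 0) (cs (rf (nat_lit 0)) (cs (rf (nat_lit 1)) (cs (nd (nat_lit 289) (nat_lit 0) (cs (rf (nat_lit 2)) (cs (rf (nat_lit 3)) (cs (nd (nat_lit 312) (nat_lit 0) (cs (rf (nat_lit 4)) (cs (nd (nat_lit 311) (nat_lit 0) (cs (nd (nat_lit 268) (nat_lit 0) (cs (lf (nat_lit 30) (nat_lit 245)) (nd (nat_lit 265) (nat_lit 0) (cs (nd (nat_lit 310) (nat_lit 0) (cs (nd (nat_lit 223) (nat_lit 0) (cs (nd (nat_lit 200) (nat_lit 0) (cs (lf (nat_lit 46) (nat_lit 200)) (rf (nat_lit 5)))) (lf (nat_lit 40) (nat_lit 222)))) (lf (nat_lit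 41) (nat_lit 244)))) (lf (nat_lit 13) (nat_lit 243)))))) (lf (nat_lit 29) (nat_lit 245)))) (cs (nd (nat_lit 311) (nat_lit 0) (cs (lf (nat_lit 29) (nat_lit 245)) (nd (nat_lit 310) (nat_lit 0) (cs (lf (nat_lit 41) (nat_lit 244)) (nd (nat_lit 268) (nat_lit 0) (cs (lf (nat_lit 30) (nat_lit 245)) (nd (nat_lit 265) (nat_lit 0) (cs (lf (nat_lit 13) (nat_lit 243)) (nd (nat_lit 290) (nat_lit 0) (cs (rf (nat_lit 6)) (lf (nat_lit 35) (nat_lit 224)))))))))))) (rf (nat_lit 7)))))) (rf (nat_lit 8)))))) (rf (nat_lit 9)))))) q49711 (by decide +kernel)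
def q49812 : Q := Q.p (nat_lit 0x1000004e0000200010000040000000000000000000000000000000000000000000000) (nat_lit 0x8000560000df000100001d8000ff000af80003c000040000000000000000000000000000000000) (nat_lit 10)
theorem c49812 : QOK q49812 := cut [q49621, q49753, q49651, q49200, q49788, q49791, q49810] ⟨c49621, c49753, c49651, c49200, c49788, c49791, c49810, trivial⟩ (nd (nat_lit 267) (nat_lit 0) (cs (rf (nat_lit 0)) (cs (nd (nat_lit 224) (nat_lit 0) (cs (rf (nat_lit 1)) (cs (nd (nat_lit 289) (nat_lit 0) (cs (lf (nat_lit 30) (nat_lit 223)) (rf (nat_lit 2)))) (cs (nd (nat_lit 203) (nat_lit 0) (cs (rf (nat_lit 3)) (cs (nd (nat_lit 205) (nat_lit 0) (cs (nd (nat_lit 226) (nat_lit 0) (cs (lf (nat_lit 6) (nat_lit 223)) (nd (nat_lit 204) (nat_lit 0) (cs (lf (nat_lit 12) (nat_lit 201)) (lf (nat_lit 6) (nat_lit 202)))))) (cs (nd (nat_lit 226) (nat_lit 0) (cs (lf (nat_lit 6) (nat_lit 223)) (nd (nat_lit 223) (nat_lit 0) (cs (lf (nat_lit 16) (nat_lit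 201)) (nd (nat_lit 201) (nat_lit 0) (cs (lf (nat_lit 23) (nat_lit 200)) (nd (nat_lit 268) (nat_lit 0) (cs (lf (nat_lit 24) (nat_lit 179)) (lf (nat_lit 30) (nat_lit 202)))))))))) (cs (nd (nat_lit 268) (nat_lit 0) (cs (lf (nat_lit 30) (nat_lit 202)) (rf (nat_lit 4)))) (nd (nat_lit 206) (nat_lit 0) (cs (lf (nat_lit 8) (nat_lit 202)) (nd (nat_lit 268) (nat_lit 0) (cs (lf (nat_lit 30) (nat_lit 202)) (rf (nat_lit 5)))))))))) (nd (nat_lit 205) (nat_lit 0) (cs (rf (nat_lit 4)) (cs (nd (nat_lit 226) (nat_lit 0) (cs (lf (nat_lit 6) (nat_lit 223)) (nd (nat_lit 204) (nat_lit 0) (cs (lf (nat_lit 12) (nat_lit 201)) (nd (nat_lit 182) (nat_lit 0) (cs (lf (nat_lit 36) (nat_lit 159)) (nd (nat_lit 181) (nat_lit 0) (cs (lf (nat_lit 36) (nat_lit 158)) (nd (nat_lit 180) (nat_lit 0) (cs (lf (nat_lit 47) (nat_lit 158)) (lf (nat_lit 0) (nat_lit 179)))))))))))) (nd (nat_lit 159) (nat_lit 0) (cs (nd (nat_lit 206) (nat_lit 0) (cs (lf (nat_lit 8) (nat_lit 202))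 (rf (nat_lit 5)))) (lf (nat_lit 37) (nat_lit 158)))))))))) (nd (nat_lit 226) (nat_lit 0) (cs (lf (nat_lit 6) (nat_lit 223)) (nd (nat_lit 289) (nat_lit 0) (cs (lf (nat_lit 30) (nat_lit 223)) (nd (nat_lit 202) (nat_lit 0) (cs (lf (nat_lit 39) (nat_lit 201)) (lf (nat_lit 33) (nat_lit 201)))))))))))) (nd (nat_lit 248) (nat_lit 0) (cs (lf (nat_lit 11) (nat_lit 244)) (rf (nat_lit 6))))))) q49812 (by decide +kernel)
def q49941 : Q := Q.p (nat_lit 0xe0000000000000000000000000000000000000000000000000000000000000) (nat_lit 0x40000700001c0000700001f0001000001f0000700001c00005000000000000000000000000000000000000000) (nat_lit 9)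
theorem c49941 : QOK q49941 := cut [q49621, q49648, q49710, q49652, q49660, q49694, q49665, q49690, q49938] ⟨c49621, c49648, c49710, c49652, c49660, c49694, c49665, c49690, c49938, trivial⟩ (nd (nat_lit 267) (nat_lit 0) (cs (rf (nat_lit 0)) (cs (rf (nat_lit 1)) (cs (rf (nat_lit 2)) (nd (nat_lit 289) (nat_lit 0) (cs (rf (nat_lit 3)) (cs (rf (nat_lit 4)) (cs (rf (nat_lit 5)) (nd (nat_lit 312) (nat_lit 0) (cs (rf (nat_lit 6)) (cs (rf (nat_lit 7)) (rf (nat_lit 8))))))))))))) q49941 (by decide +kernel)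
def q50035 : Q := Q.p (nat_lit 0x1000000e0000000000000000000000000000000000000000000000000000000000000) (nat_lit 0x100000700003c0000f0000f8000118000df0003f0000fc0000f000014000000000000000000000000000000000) (nat_lit 12)
theorem c50035 : QOK q50035 := cut [q49647, q49943, q49285, q49708, q49948, q49950, q49969, q49986, q49990, q49995, q49996, q50003, q50013, q49284, q49985, q49994, q50024] ⟨c49647, c49943, c49285, c49708, c49948, c49950, c49969, c49986, c49990, c49995, c49996, c50003, c50013, c49284, c49985, c49994, c50024, trivial⟩ (nd (nat_lit 223) (nat_lit 0) (cs (rf (nat_lit 0)) (cs (nd (nat_lit 269) (nat_lit 0) (cs (rf (nat_lit 1)) (nd (nat_lit 201) (nat_lit 0) (cs (rf (nat_lit 2)) (cs (nd (nat_lit 267) (nat_lit 0) (cs (rf (nat_lit 3)) (cs (nd (nat_lit 178) (nat_lit 0) (cs (lf (nat_lit 46) (nat_lit 178)) (rf (nat_lit 4)))) (cs (nd (nat_lit 178) (nat_lit 0) (cs (lf (nat_lit 46) (nat_lit 178)) (nd (nat_lit 202) (nat_lit 0) (cs (lf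 (nat_lit 35) (nat_lit 179)) (nd (nat_lit 224) (nat_lit 0) (cs (rf (nat_lit 5)) (lf (nat_lit 30) (nat_lit 201)))))))) (cs (rf (nat_lit 6)) (nd (nat_lit 268) (nat_lit 0) (cs (lf (nat_lit 29) (nat_lit 201)) (nd (nat_lit 202) (nat_lit 0) (cs (lf (nat_lit 35) (nat_lit 179)) (nd (nat_lit 224) (nat_lit 0) (cs (lf (nat_lit 29) (nat_lit 202)) (nd (nat_lit 203) (nat_lit 0) (cs (nd (nat_lit 204) (nat_lit 0) (cs (lf (nat_lit 6) (nat_lit 201)) (nd (nat_lit 226) (nat_lit 0) (cs (lf (nat_lit 5) (nat_lit 201)) (nd (nat_lit 182) (nat_lit 0) (cs (lf (nat_lit 39) (nat_lit 181)) (lf (nat_lit 17) (nat_lit 179)))))))) (lf (nat_lit 35) (nat_lit 180))))))))))))))) (cs (nd (nat_lit 180) (nat_lit 0) (cs (nd (nat_lit 202) (nat_lit 0) (cs (lf (nat_lit 26) (nat_lit 180)) (lf (nat_lit 30) (nat_lit 179)))) (cs (rf (nat_lit 7)) (rf (nat_lit 8))))) (cs (rf (nat_lit 9)) (rf (nat_lit 10))))))))) (cs (nd (nat_lit 201) (nat_lit 0) (cs (rf (nat_lit 2)) (cs (rf (nat_lit 9))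 (cs (rf (nat_lit 10)) (cs (nd (nat_lit 267) (nat_lit 0) (cs (rf (nat_lit 3)) (cs (rf (nat_lit 4)) (cs (rf (nat_lit 6)) (cs (nd (nat_lit 269) (nat_lit 0) (cs (rf (nat_lit 1)) (cs (nd (nat_lit 178) (nat_lit 0) (cs (lf (nat_lit 46) (nat_lit 178)) (nd (nat_lit 268) (nat_lit 0) (cs (lf (nat_lit 29) (nat_lit 201)) (nd (nat_lit 243) (nat_lit 0) (cs (rf (nat_lit 11)) (lf (nat_lit 1) (nat_lit 243)))))))) (nd (nat_lit 270) (nat_lit 0) (cs (lf (nat_lit 19) (nat_lit 246)) (nd (nat_lit 178) (nat_lit 0) (cs (lf (nat_lit 46) (nat_lit 178)) (nd (nat_lit 268) (nat_lit 0) (cs (lf (nat_lit 29) (nat_lit 201)) (rf (nat_lit 11))))))))))) (nd (nat_lit 178) (nat_lit 0) (cs (lf (nat_lit 46) (nat_lit 178)) (nd (nat_lit 202) (nat_lit 0) (cs (lf (nat_lit 35) (nat_lit 179)) (nd (nat_lit 224) (nat_lit 0) (cs (lf (nat_lit 30) (nat_lit 201)) (nd (nat_lit 222) (nat_lit 0) (cs (lf (nat_lit 0) (nat_lit 221)) (nd (nat_lit 203) (nat_lit 0) (cs (lf (nat_lit 6) (nat_lit 200))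 (nd (nat_lit 268) (nat_lit 0) (cs (lf (nat_lit 35) (nat_lit 180)) (nd (nat_lit 269) (nat_lit 0) (cs (lf (nat_lit 29) (nat_lit 202)) (rf (nat_lit 12))))))))))))))))))))) (nd (nat_lit 179) (nat_lit 0) (cs (rf (nat_lit 13)) (cs (rf (nat_lit 14)) (cs (rf (nat_lit 15)) (nd (nat_lit 156) (nat_lit 0) (cs (lf (nat_lit 46) (nat_lit 156)) (nd (nat_lit 180) (nat_lit 0) (cs (lf (nat_lit 35) (nat_lit 157)) (nd (nat_lit 202) (nat_lit 0) (cs (lf (nat_lit 30) (nat_lit 179)) (nd (nat_lit 224) (nat_lit 0) (cs (lf (nat_lit 29) (nat_lit 180)) (nd (nat_lit 221) (nat_lit 0) (cs (rf (nat_lit 16)) (lf (nat_lit 1) (nat_lit 221))))))))))))))))))))) (nd (nat_lit 222) (nat_lit 0) (cs (lf (nat_lit 18) (nat_lit 222)) (nd (nat_lit 221) (nat_lit 0) (cs (lf (nat_lit 0) (nat_lit 220)) (lf (nat_lit 21) (nat_lit 221)))))))))) q50035 (by decide +kernel)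
def q50057 : Q := Q.p (nat_lit 0x200000e0000000000000000000000000000000000000000000000000000000000000) (nat_lit 0x600003c0001f80001f000118000180000600001000000000000000000000000000000000000000000000) (nat_lit 10)
theorem c50057 : QOK q50057 := cut [q50036, q50037, q49760, q49491] ⟨c50036, c50037, c49760, c49491, trivial⟩ (nd (nat_lit 224) (nat_lit 0) (cs (rf (nat_lit 0)) (cs (rf (nat_lit 1)) (nd (nat_lit 266) (nat_lit 0) (cs (nd (nat_lit 267) (nat_lit 0) (cs (lf (nat_lit 6) (nat_lit 244)) (rf (nat_lit 2)))) (cs (nd (nat_lit 244) (nat_lit 0) (cs (lf (nat_lit 11) (nat_lit 243)) (nd (nat_lit 268) (nat_lit 0) (cs (lf (nat_lit 0) (nat_lit 243)) (nd (nat_lit 290) (nat_lit 0) (cs (rf (nat_lit 3)) (cs (nd (nat_lit 291) (nat_lit 0) (cs (lf (nat_lit 42) (nat_lit 224)) (nd (nat_lit 223) (nat_lit 0) (cs (lf (nat_lit 47) (nat_lit 201)) (nd (nat_lit 288) (nat_lit 0) (cs (nd (nat_lit 289) (nat_lit 0) (cs (lf (nat_lit 41) (nat_lit 223)) (lf (nat_lit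 12) (nat_lit 265)))) (lf (nat_lit 30) (nat_lit 222)))))))) (nd (nat_lit 223) (nat_lit 0) (cs (lf (nat_lit 47) (nat_lit 201)) (lf (nat_lit 42) (nat_lit 223))))))))))) (nd (nat_lit 267) (nat_lit 0) (cs (lf (nat_lit 6) (nat_lit 244)) (nd (nat_lit 289) (nat_lit 0) (cs (lf (nat_lit 30) (nat_lit 223)) (nd (nat_lit 291) (nat_lit 0) (cs (lf (nat_lit 42) (nat_lit 224)) (nd (nat_lit 292) (nat_lit 0) (cs (lf (nat_lit 20) (nat_lit 266)) (lf (nat_lit 2) (nat_lit 266)))))))))))))))) q50057 (by decide +kernel)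
def q50137 : Q := Q.p (nat_lit 0x1200004c0000200000000000000000000000000000000000000000000000000000000) (nat_lit 0x1f00007c000280000000001100003c00007c0001c000050000000000000000000000000000000000) (nat_lit 9)
theorem c50137 : QOK q50137 := cut [q45760, q49403, q50132, q49361] ⟨c45760, c49403, c50132, c49361, trivial⟩ (nd (nat_lit 203) (nat_lit 0) (cs (rf (nat_lit 0)) (cs (rf (nat_lit 1)) (cs (rf (nat_lit 2)) (nd (nat_lit 202) (nat_lit 0) (cs (lf (nat_lit 47) (nat_lit 180)) (nd (nat_lit 291) (nat_lit 0) (cs (lf (nat_lit 46) (nat_lit 202)) (nd (nat_lit 292) (nat_lit 0) (cs (lf (nat_lit 29) (nat_lit 225)) (nd (nat_lit 290) (nat_lit 0) (cs (lf (nat_lit 41) (nat_lit 224)) (rf (nat_lit 3)))))))))))))) q50137 (by decide +kernel)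
def q50151 : Q := Q.p (nat_lit 0x200000c0000200000000000000000000000000000000000000000000000000000000) (nat_lit 0x6000018000040000000000100003c00007c0001c000050000000000000000000000000000000000) (nat_lit 7)
theorem c50151 : QOK q50151 := cut [q45679, q45760, q49403, q50132] ⟨c45679, c45760, c49403, c50132, trivial⟩ (nd (nat_lit 203) (nat_lit 0) (cs (rf (nat_lit 0)) (cs (rf (nat_lit 1)) (cs (rf (nat_lit 2)) (rf (nat_lit 3)))))) q50151 (by decide +kernel)
def q50158 : Q := Q.p (nat_lit 0x1200000c0000200000000000000000000000000000000000000000000000000000000) (nat_lit 0x100000c0000100000000000c00003000004000000000000000000000000000000000000000) (nat_lit 5)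
theorem c50158 : QOK q50158 := cut [q46798] ⟨c46798, trivial⟩ (nd (nat_lit 270) (nat_lit 0) (cs (lf (nat_lit 19) (nat_lit 246)) (rf (nat_lit 0)))) q50158 (by decide +kernel)
def q50262 : Q := Q.p (nat_lit 0xe0000280000000000000000000000000000000000000000000000000000000) (nat_lit 0x100000c0000100000c40000800002000000000000000000000000000000000000000000000) (nat_lit 5)
theorem c50262 : QOK q50262 := cut [q49810] ⟨c49810, trivial⟩ (nd (nat_lit 248) (nat_lit 0) (cs (lf (nat_lit 23) (nat_lit 222)) (rf (nat_lit 0)))) q50262 (by decide +kernel)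
def q50270 : Q := Q.p (nat_lit 0x1000034c0000200010000040000000000000000000000000000000000000000000000) (nat_lit 0x380006ef000138001df000f8000af00001c000010000000000000000000000000000000000) (nat_lit 10)
theorem c50270 : QOK q50270 := cut [q49240, q49243, q49262, q49239, q50157, q45782, q49217, q49204] ⟨c49240, c49243, c49262, c49239, c50157, c45782, c49217, c49204, trivial⟩ (nd (nat_lit 245) (nat_lit 0) (cs (rf (nat_lit 0)) (cs (rf (nat_lit 1)) (cs (rf (nat_lit 2)) (nd (nat_lit 226) (nat_lit 0) (cs (rf (nat_lit 3)) (cs (rf (nat_lit 4)) (nd (nat_lit 269) (nat_lit 0) (cs (rf (nat_lit 5)) (cs (rf (nat_lit 6)) (nd (nat_lit 270) (nat_lit 0) (cs (lf (nat_lit 19) (nat_lit 246)) (nd (nat_lit 203) (nat_lit 0) (cs (lf (nat_lit 29) (nat_lit 203)) (nd (nat_lit 181) (nat_lit 0) (cs (lf (nat_lit 28) (nat_lit 181)) (rf (nat_lit 7)))))))))))))))))) q50270 (by decide +kernel)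
def q50293 : Q := Q.p (nat_lit 0xc0000200000800000000000000000000000000000000000000000000000000) (nat_lit 0x8000020000130001c00003600007c0001c000070000140000000000000000000000000000) (nat_lit 10)
theorem c50293 : QOK q50293 := cut [q45595, q49402, q38483, q50279] ⟨c45595, c49402, c38483, c50279, trivial⟩ (nd (nat_lit 181) (nat_lit 0) (cs (rf (nat_lit 0)) (cs (rf (nat_lit 1)) (cs (nd (nat_lit 158) (nat_lit 0) (cs (lf (nat_lit 46) (nat_lit 158)) (nd (nat_lit 159) (nat_lit 0) (cs (lf (nat_lit 47) (nat_lit 136)) (nd (nat_lit 138) (nat_lit 0) (cs (lf (nat_lit 34) (nat_lit 137)) (nd (nat_lit 137) (nat_lit 0) (cs (lf (nat_lit 35) (nat_lit 115)) (rf (nat_lit 2)))))))))) (cs (nd (nat_lit 160) (nat_lit 0) (cs (lf (nat_lit 34) (nat_lit 159)) (nd (nat_lit 159) (nat_lit 0) (cs (lf (nat_lit 35) (nat_lit 137)) (nd (nat_lit 136) (nat_lit 0) (cs (lf (nat_lit 46) (nat_lit 136)) (nd (nat_lit 137) (nat_lit 0) (cs (lf (nat_lit 47) (nat_lit 114)) (rf (nat_lit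 2)))))))))) (cs (nd (nat_lit 158) (nat_lit 0) (cs (lf (nat_lit 46) (nat_lit 158)) (nd (nat_lit 159) (nat_lit 0) (cs (lf (nat_lit 47) (nat_lit 136)) (nd (nat_lit 226) (nat_lit 0) (cs (lf (nat_lit 29) (nat_lit 159)) (nd (nat_lit 244) (nat_lit 0) (cs (lf (nat_lit 13) (nat_lit 222)) (nd (nat_lit 227) (nat_lit 0) (cs (lf (nat_lit 6) (nat_lit 224)) (rf (nat_lit 3)))))))))))) (nd (nat_lit 160) (nat_lit 0) (cs (lf (nat_lit 34) (nat_lit 159)) (nd (nat_lit 159) (nat_lit 0) (cs (lf (nat_lit 35) (nat_lit 137)) (nd (nat_lit 226) (nat_lit 0) (cs (lf (nat_lit 29) (nat_lit 159)) (nd (nat_lit 244) (nat_lit 0) (cs (lf (nat_lit 13) (nat_lit 222)) (nd (nat_lit 227) (nat_lit 0) (cs (lf (nat_lit 6) (nat_lit 224)) (nd (nat_lit 204) (nat_lit 0) (cs (lf (nat_lit 24) (nat_lit 137)) (nd (nat_lit 202) (nat_lit 0) (cs (lf (nat_lit 0) (nat_lit 201)) (nd (nat_lit 269) (nat_lit 0) (cs (lf (nat_lit 30) (nat_lit 203)) (lf (nat_lit 47) (nat_lit 180))))))))))))))))))))))))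 q50293 (by decide +kernel)
def q50484 : Q := Q.p (nat_lit 0x1100000c0000200000000000000000000000000000000000000000000000000000000) (nat_lit 0x100000e00000200005f0001f80007f0001c000050000000000000000000000000000000000) (nat_lit 8)
theorem c50484 : QOK q50484 := cut [q49200, q49206, q50451, q48747, q48763, q49457] ⟨c49200, c49206, c50451, c48747, c48763, c49457, trivial⟩ (nd (nat_lit 203) (nat_lit 0) (cs (rf (nat_lit 0)) (cs (rf (nat_lit 1)) (nd (nat_lit 202) (nat_lit 0) (cs (rf (nat_lit 2)) (nd (nat_lit 201) (nat_lit 0) (cs (rf (nat_lit 3)) (cs (rf (nat_lit 4)) (cs (rf (nat_lit 5)) (nd (nat_lit 179) (nat_lit 0) (cs (lf (nat_lit 44) (nat_lit 179)) (nd (nat_lit 223) (nat_lit 0) (cs (nd (nat_lit 204) (nat_lit 0) (cs (lf (nat_lit 23) (nat_lit 178)) (lf (nat_lit 11) (nat_lit 200)))) (lf (nat_lit 27) (nat_lit 179))))))))))))))) q50484 (by decide +kernel)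
def q50524 : Q := Q.p (nat_lit 0x1000004c0000200000800040000000000000000000000000000000000000000000000) (nat_lit 0x100001c000070000380000f000000000110000f4000bd0000e0000080000000000000000000000000000000000) (nat_lit 11)
theorem c50524 : QOK q50524 := cut [q49197, q50517, q50523] ⟨c49197, c50517, c50523, trivial⟩ (nd (nat_lit 269) (nat_lit 0) (cs (rf (nat_lit 0)) (cs (nd (nat_lit 182) (nat_lit 0) (cs (lf (nat_lit 34) (nat_lit 181)) (rf (nat_lit 1)))) (rf (nat_lit 2))))) q50524 (by decide +kernel)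
def q50572 : Q := Q.p (nat_lit 0xe0000200000000000000000000000000000000000000000000000000000000) (nat_lit 0x1800007c0001f80003f000118000180001e00007800000000000000000000000000000000000000000000) (nat_lit 10)
theorem c50572 : QOK q50572 := cut [q49309, q49355, q49322, q48778, q50539, q50037, q50557, q50567] ⟨c49309, c49355, c49322, c48778, c50539, c50037, c50557, c50567, trivial⟩ (nd (nat_lit 268) (nat_lit 0) (cs (rf (nat_lit 0)) (cs (rf (nat_lit 1)) (cs (nd (nat_lit 269) (nat_lit 0) (cs (nd (nat_lit 203) (nat_lit 0) (cs (lf (nat_lit 36) (nat_lit 180)) (nd (nat_lit 182) (nat_lit 0) (cs (lf (nat_lit 34) (nat_lit 181)) (nd (nat_lit 202) (nat_lit 0) (cs (lf (nat_lit 47) (nat_lit 180)) (nd (nat_lit 224) (nat_lit 0) (cs (lf (nat_lit 42) (nat_lit 202)) (nd (nat_lit 179) (nat_lit 0) (cs (lf (nat_lit 46) (nat_lit 179)) (rf (nat_lit 2)))))))))))) (cs (nd (nat_lit 244) (nat_lit 0) (cs (lf (nat_lit 0) (nat_lit 243)) (nd (nat_lit 266) (nat_lit 0)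 (cs (lf (nat_lit 11) (nat_lit 243)) (nd (nat_lit 267) (nat_lit 0) (cs (lf (nat_lit 17) (nat_lit 244)) (nd (nat_lit 287) (nat_lit 0) (cs (nd (nat_lit 291) (nat_lit 0) (cs (rf (nat_lit 3)) (lf (nat_lit 5) (nat_lit 266)))) (lf (nat_lit 10) (nat_lit 265)))))))))) (cs (nd (nat_lit 243) (nat_lit 0) (cs (lf (nat_lit 1) (nat_lit 243)) (nd (nat_lit 203) (nat_lit 0) (cs (lf (nat_lit 36) (nat_lit 180)) (nd (nat_lit 182) (nat_lit 0) (cs (lf (nat_lit 34) (nat_lit 181)) (nd (nat_lit 202) (nat_lit 0) (cs (lf (nat_lit 47) (nat_lit 180)) (nd (nat_lit 291) (nat_lit 0) (cs (lf (nat_lit 25) (nat_lit 202)) (rf (nat_lit 4)))))))))))) (nd (nat_lit 181) (nat_lit 0) (cs (lf (nat_lit 37) (nat_lit 180)) (nd (nat_lit 244) (nat_lit 0) (cs (lf (nat_lit 0) (nat_lit 243)) (nd (nat_lit 266) (nat_lit 0) (cs (lf (nat_lit 11) (nat_lit 243)) (nd (nat_lit 267) (nat_lit 0) (cs (lf (nat_lit 17) (nat_lit 244)) (nd (nat_lit 288) (nat_lit 0) (cs (nd (nat_lit 223) (nat_lit 0)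 (cs (lf (nat_lit 30) (nat_lit 222)) (lf (nat_lit 36) (nat_lit 200)))) (lf (nat_lit 11) (nat_lit 265)))))))))))))))) (nd (nat_lit 224) (nat_lit 0) (cs (rf (nat_lit 5)) (cs (nd (nat_lit 290) (nat_lit 0) (cs (lf (nat_lit 30) (nat_lit 224)) (rf (nat_lit 6)))) (cs (nd (nat_lit 290) (nat_lit 0) (cs (lf (nat_lit 30) (nat_lit 224)) (nd (nat_lit 291) (nat_lit 0) (cs (lf (nat_lit 29) (nat_lit 224)) (nd (nat_lit 201) (nat_lit 0) (cs (lf (nat_lit 46) (nat_lit 201)) (nd (nat_lit 289) (nat_lit 0) (cs (lf (nat_lit 41) (nat_lit 223)) (nd (nat_lit 244) (nat_lit 0) (cs (lf (nat_lit 12) (nat_lit 221)) (nd (nat_lit 266) (nat_lit 0) (cs (lf (nat_lit 11) (nat_lit 243)) (nd (nat_lit 267) (nat_lit 0) (cs (lf (nat_lit 6) (nat_lit 244)) (lf (nat_lit 18) (nat_lit 266)))))))))))))))) (nd (nat_lit 243) (nat_lit 0) (cs (nd (nat_lit 290) (nat_lit 0) (cs (lf (nat_lit 30) (nat_lit 224)) (rf (nat_lit 7)))) (lf (nat_lit 13) (nat_lit 221)))))))))))) q50572 (by decide +kernel)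
def q50628 : Q := Q.p (nat_lit 0xe0000000000000000000000000000000000000000000000000000000000000) (nat_lit 0x380000e000038000118001ff0003f80007c0001f000050000000000000000000000000000000000) (nat_lit 12)
theorem c50628 : QOK q50628 := cut [q49240, q49243, q49309, q49334, q49344, q49348, q49355, q49720, q49872, q49239, q49242, q49200, q49205, q49206, q49403, q26739, q49286, q50613, q50622] ⟨c49240, c49243, c49309, c49334, c49344, c49348, c49355, c49720, c49872, c49239, c49242, c49200, c49205, c49206, c49403, c26739, c49286, c50613, c50622, trivial⟩ (nd (nat_lit 225) (nat_lit 0) (cs (rf (nat_lit 0)) (cs (rf (nat_lit 1)) (cs (nd (nat_lit 268) (nat_lit 0) (cs (rf (nat_lit 2)) (cs (nd (nat_lit 290) (nat_lit 0) (cs (lf (nat_lit 30) (nat_lit 224)) (nd (nat_lit 224) (nat_lit 0) (cs (rf (nat_lit 3)) (cs (rf (nat_lit 4)) (nd (nat_lit 291) (nat_lit 0) (cs (lf (nat_lit 29) (nat_lit 224)) (nd (nat_lit 289) (nat_lit 0) (cs (lf (nat_lit 41) (nat_lit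 223)) (rf (nat_lit 5))))))))))) (cs (rf (nat_lit 6)) (nd (nat_lit 222) (nat_lit 0) (cs (rf (nat_lit 7)) (cs (rf (nat_lit 8)) (cs (nd (nat_lit 181) (nat_lit 0) (cs (lf (nat_lit 37) (nat_lit 180)) (nd (nat_lit 244) (nat_lit 0) (cs (lf (nat_lit 23) (nat_lit 221)) (nd (nat_lit 243) (nat_lit 0) (cs (lf (nat_lit 16) (nat_lit 221)) (lf (nat_lit 5) (nat_lit 243)))))))) (nd (nat_lit 223) (nat_lit 0) (cs (lf (nat_lit 18) (nat_lit 222)) (nd (nat_lit 179) (nat_lit 0) (cs (nd (nat_lit 203) (nat_lit 0) (cs (lf (nat_lit 36) (nat_lit 180)) (nd (nat_lit 224) (nat_lit 0) (cs (lf (nat_lit 17) (nat_lit 200)) (nd (nat_lit 200) (nat_lit 0) (cs (lf (nat_lit 23) (nat_lit 199)) (nd (nat_lit 244) (nat_lit 0) (cs (lf (nat_lit 12) (nat_lit 221)) (nd (nat_lit 178) (nat_lit 0) (cs (lf (nat_lit 24) (nat_lit 156)) (lf (nat_lit 35) (nat_lit 156)))))))))))) (lf (nat_lit 25) (nat_lit 179)))))))))))))) (nd (nat_lit 226) (nat_lit 0) (cs (rf (nat_lit 9)) (cs (rf (nat_lit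 10)) (nd (nat_lit 203) (nat_lit 0) (cs (rf (nat_lit 11)) (cs (rf (nat_lit 12)) (cs (rf (nat_lit 13)) (cs (rf (nat_lit 14)) (nd (nat_lit 204) (nat_lit 0) (cs (rf (nat_lit 15)) (cs (nd (nat_lit 223) (nat_lit 0) (cs (nd (nat_lit 222) (nat_lit 0) (cs (nd (nat_lit 224) (nat_lit 0) (cs (lf (nat_lit 17) (nat_lit 200)) (lf (nat_lit 0) (nat_lit 221)))) (lf (nat_lit 18) (nat_lit 222)))) (cs (rf (nat_lit 16)) (nd (nat_lit 160) (nat_lit 0) (cs (lf (nat_lit 37) (nat_lit 159)) (nd (nat_lit 222) (nat_lit 0) (cs (lf (nat_lit 18) (nat_lit 222)) (nd (nat_lit 220) (nat_lit 0) (cs (lf (nat_lit 1) (nat_lit 220)) (nd (nat_lit 201) (nat_lit 0) (cs (lf (nat_lit 8) (nat_lit 200)) (nd (nat_lit 268) (nat_lit 0) (cs (lf (nat_lit 24) (nat_lit 179)) (rf (nat_lit 17))))))))))))))) (nd (nat_lit 269) (nat_lit 0) (cs (lf (nat_lit 30) (nat_lit 203)) (nd (nat_lit 268) (nat_lit 0) (cs (lf (nat_lit 41) (nat_lit 202)) (rf (nat_lit 18))))))))))))))))))))) q50628 (by decide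 +kernel)
def q50684 : Q := Q.p (nat_lit 0x1200000c0000000000000000000000000000000000000000000000000000000000000) (nat_lit 0x6a0007f80009e000138001fe0007f80007e0000a800000000000000000000000000000000000000) (nat_lit 12)
theorem c50684 : QOK q50684 := cut [q50036, q50632, q50633, q50636, q49827, q50660, q50674, q50682, q50683] ⟨c50036, c50632, c50633, c50636, c49827, c50660, c50674, c50682, c50683, trivial⟩ (nd (nat_lit 224) (nat_lit 0) (cs (rf (nat_lit 0)) (cs (nd (nat_lit 291) (nat_lit 0) (cs (lf (nat_lit 42) (nat_lit 224)) (nd (nat_lit 225) (nat_lit 0) (cs (rf (nat_lit 1)) (cs (nd (nat_lit 268) (nat_lit 0) (cs (rf (nat_lit 2)) (cs (nd (nat_lit 292) (nat_lit 0) (cs (lf (nat_lit 29) (nat_lit 225)) (nd (nat_lit 266) (nat_lit 0) (cs (lf (nat_lit 1) (nat_lit 266)) (nd (nat_lit 293) (nat_lit 0) (cs (lf (nat_lit 18) (nat_lit 268)) (nd (nat_lit 290) (nat_lit 0) (cs (lf (nat_lit 16) (nat_lit 268)) (rf (nat_lit 3)))))))))) (nd (nat_lit 266) (nat_lit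 0) (cs (nd (nat_lit 244) (nat_lit 0) (cs (nd (nat_lit 245) (nat_lit 0) (cs (lf (nat_lit 11) (nat_lit 243)) (lf (nat_lit 12) (nat_lit 221)))) (cs (nd (nat_lit 222) (nat_lit 0) (cs (nd (nat_lit 200) (nat_lit 0) (cs (rf (nat_lit 4)) (cs (nd (nat_lit 287) (nat_lit 0) (cs (nd (nat_lit 199) (nat_lit 0) (cs (nd (nat_lit 288) (nat_lit 0) (cs (lf (nat_lit 46) (nat_lit 199)) (lf (nat_lit 41) (nat_lit 221)))) (lf (nat_lit 47) (nat_lit 177)))) (lf (nat_lit 40) (nat_lit 199)))) (nd (nat_lit 265) (nat_lit 0) (cs (nd (nat_lit 178) (nat_lit 0) (cs (nd (nat_lit 179) (nat_lit 0) (cs (lf (nat_lit 35) (nat_lit 156)) (lf (nat_lit 34) (nat_lit 178)))) (lf (nat_lit 40) (nat_lit 177)))) (lf (nat_lit 41) (nat_lit 199))))))) (cs (nd (nat_lit 223) (nat_lit 0) (cs (lf (nat_lit 5) (nat_lit 222)) (lf (nat_lit 11) (nat_lit 221)))) (nd (nat_lit 223) (nat_lit 0) (cs (lf (nat_lit 0) (nat_lit 221)) (lf (nat_lit 5) (nat_lit 222))))))) (cs (nd (nat_lit 245) (nat_lit 0)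 (cs (lf (nat_lit 11) (nat_lit 243)) (nd (nat_lit 222) (nat_lit 0) (cs (lf (nat_lit 23) (nat_lit 221)) (nd (nat_lit 181) (nat_lit 0) (cs (lf (nat_lit 37) (nat_lit 180)) (nd (nat_lit 223) (nat_lit 0) (cs (lf (nat_lit 5) (nat_lit 222)) (rf (nat_lit 5)))))))))) (nd (nat_lit 181) (nat_lit 0) (cs (lf (nat_lit 37) (nat_lit 180)) (nd (nat_lit 245) (nat_lit 0) (cs (lf (nat_lit 12) (nat_lit 221)) (nd (nat_lit 222) (nat_lit 0) (cs (lf (nat_lit 23) (nat_lit 221)) (nd (nat_lit 223) (nat_lit 0) (cs (lf (nat_lit 18) (nat_lit 222)) (rf (nat_lit 5)))))))))))))) (nd (nat_lit 292) (nat_lit 0) (cs (lf (nat_lit 29) (nat_lit 225)) (lf (nat_lit 1) (nat_lit 266))))))))) (nd (nat_lit 292) (nat_lit 0) (cs (lf (nat_lit 29) (nat_lit 225)) (rf (nat_lit 6))))))))) (cs (rf (nat_lit 7)) (rf (nat_lit 8)))))) q50684 (by decide +kernel)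
def q50707 : Q := Q.p (nat_lit 0x1200000c0000000000000000000000000000000000000000000000000000000000000) (nat_lit 0x280000f0000df000130000df0001500005400001000000000000000000000000000000000000000) (nat_lit 8)
theorem c50707 : QOK q50707 := cut [q49733, q49943, q49621, q50060, q49753, q50036, q50702] ⟨c49733, c49943, c49621, c50060, c49753, c50036, c50702, trivial⟩ (nd (nat_lit 245) (nat_lit 0) (cs (rf (nat_lit 0)) (cs (rf (nat_lit 1)) (nd (nat_lit 270) (nat_lit 0) (cs (lf (nat_lit 19) (nat_lit 246)) (nd (nat_lit 267) (nat_lit 0) (cs (rf (nat_lit 2)) (cs (rf (nat_lit 3)) (nd (nat_lit 224) (nat_lit 0) (cs (rf (nat_lit 4)) (cs (rf (nat_lit 5)) (nd (nat_lit 291) (nat_lit 0) (cs (lf (nat_lit 42) (nat_lit 224)) (rf (nat_lit 6))))))))))))))) q50707 (by decide +kernel)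
def q50725 : Q := Q.p (nat_lit 0x1200000c0000100000000000000000000000000000000000000000000000000000000) (nat_lit 0x60000180000d0000030000e0000180000700001c000010000000000000000000000000000000000) (nat_lit 8)
theorem c50725 : QOK q50725 := cut [q50386, q50721, q50723, q49549] ⟨c50386, c50721, c50723, c49549, trivial⟩ (nd (nat_lit 225) (nat_lit 0) (cs (rf (nat_lit 0)) (cs (rf (nat_lit 1)) (cs (rf (nat_lit 2)) (nd (nat_lit 291) (nat_lit 0) (cs (lf (nat_lit 42) (nat_lit 224)) (rf (nat_lit 3)))))))) q50725 (by decide +kernel)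
def q50761 : Q := Q.p (nat_lit 0x200000c0000000000000000000000000000000000000000000000000000000000000) (nat_lit 0x600001e00005e000120001f80007e00007800008000000000000000000000000000000000000000) (nat_lit 9)
theorem c50761 : QOK q50761 := cut [q50036, q50682, q50683, q50674, q50630] ⟨c50036, c50682, c50683, c50674, c50630, trivial⟩ (nd (nat_lit 224) (nat_lit 0) (cs (rf (nat_lit 0)) (cs (rf (nat_lit 1)) (cs (rf (nat_lit 2)) (nd (nat_lit 291) (nat_lit 0) (cs (lf (nat_lit 42) (nat_lit 224)) (nd (nat_lit 225) (nat_lit 0) (cs (rf (nat_lit 3)) (nd (nat_lit 292) (nat_lit 0) (cs (lf (nat_lit 29) (nat_lit 225)) (nd (nat_lit 203) (nat_lit 0) (cs (lf (nat_lit 28) (nat_lit 203)) (rf (nat_lit 4)))))))))))))) q50761 (by decide +kernel)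
def q50842 : Q := Q.p (nat_lit 0x1000034c0000200000000040000000000000000000000000000000000000000000000) (nat_lit 0x300006d0000130003dc000ff800bfc000ff8000d4000000000000000000000000000000000) (nat_lit 11)
theorem c50842 : QOK q50842 := cut [q49200, q49206, q50380, q49216, q50310, q49270, q49273, q49995, q44549] ⟨c49200, c49206, c50380, c49216, c50310, c49270, c49273, c49995, c44549, trivial⟩ (nd (nat_lit 203) (nat_lit 0) (cs (rf (nat_lit 0)) (cs (rf (nat_lit 1)) (cs (rf (nat_lit 2)) (nd (nat_lit 226) (nat_lit 0) (cs (rf (nat_lit 3)) (cs (rf (nat_lit 4)) (cs (nd (nat_lit 245) (nat_lit 0) (cs (lf (nat_lit 12) (nat_lit 222)) (nd (nat_lit 223) (nat_lit 0) (cs (rf (nat_lit 5)) (nd (nat_lit 201) (nat_lit 0) (cs (rf (nat_lit 6)) (rf (nat_lit 7)))))))) (nd (nat_lit 228) (nat_lit 0) (cs (lf (nat_lit 7) (nat_lit 224)) (nd (nat_lit 206) (nat_lit 0) (cs (rf (nat_lit 8)) (cs (nd (nat_lit 271) (nat_lit 0) (cs (lf (nat_lit 41) (nat_lit 205)) (nd (nat_lit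 273) (nat_lit 0) (cs (lf (nat_lit 15) (nat_lit 249)) (nd (nat_lit 248) (nat_lit 0) (cs (nd (nat_lit 205) (nat_lit 0) (cs (lf (nat_lit 47) (nat_lit 183)) (nd (nat_lit 204) (nat_lit 0) (cs (lf (nat_lit 11) (nat_lit 202)) (lf (nat_lit 5) (nat_lit 203)))))) (lf (nat_lit 21) (nat_lit 247)))))))) (nd (nat_lit 271) (nat_lit 0) (cs (lf (nat_lit 41) (nat_lit 205)) (nd (nat_lit 273) (nat_lit 0) (cs (lf (nat_lit 15) (nat_lit 249)) (nd (nat_lit 248) (nat_lit 0) (cs (lf (nat_lit 21) (nat_lit 247)) (nd (nat_lit 185) (nat_lit 0) (cs (lf (nat_lit 34) (nat_lit 184)) (nd (nat_lit 184) (nat_lit 0) (cs (lf (nat_lit 35) (nat_lit 162)) (nd (nat_lit 205) (nat_lit 0) (cs (lf (nat_lit 6) (nat_lit 183)) (lf (nat_lit 13) (nat_lit 181))))))))))))))))))))))))))) q50842 (by decide +kernel)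
def q50851 : Q := Q.p (nat_lit 0x1000004c0000200000000040000000000000000000000000000000000000000000000) (nat_lit 0x100002c0000f000000000158000ff800bfc000fc0000d0000000000000000000000000000000000) (nat_lit 12)
theorem c50851 : QOK q50851 := cut [q49200, q49205, q49206, q49403, q47077, q48794, q50523, q50847] ⟨c49200, c49205, c49206, c49403, c47077, c48794, c50523, c50847, trivial⟩ (nd (nat_lit 203) (nat_lit 0) (cs (rf (nat_lit 0)) (cs (rf (nat_lit 1)) (cs (rf (nat_lit 2)) (cs (rf (nat_lit 3)) (nd (nat_lit 269) (nat_lit 0) (cs (rf (nat_lit 4)) (cs (rf (nat_lit 5)) (cs (rf (nat_lit 6)) (rf (nat_lit 7))))))))))) q50851 (by decide +kernel)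
def q51038 : Q := Q.p (nat_lit 0x1100004c0000000000000000000000000000000000000000000000000000000000000) (nat_lit 0x80001e8001fe0007f8002ee0000380016e0001f80007a00014000000000000000000000000000000000000000) (nat_lit 12)
theorem c51038 : QOK q51038 := cut [q50881, q50874, q50968, q50868, q45761, q50987, q49553, q50539, q50989, q49320, q50013, q50999, q45770, q51003, q51037] ⟨c50881, c50874, c50968, c50868, c45761, c50987, c49553, c50539, c50989, c49320, c50013, c50999, c45770, c51003, c51037, trivial⟩ (nd (nat_lit 269) (nat_lit 0) (cs (rf (nat_lit 0)) (cs (nd (nat_lit 312) (nat_lit 0) (cs (nd (nat_lit 290) (nat_lit 0) (cs (lf (nat_lit 30) (nat_lit 246)) (lf (nat_lit 35) (nat_lit 224)))) (cs (nd (nat_lit 270) (nat_lit 0) (cs (lf (nat_lit 19) (nat_lit 246)) (nd (nat_lit 267) (nat_lit 0) (cs (rf (nat_lit 1)) (cs (nd (nat_lit 245) (nat_lit 0) (cs (lf (nat_lit 0) (nat_lit 244)) (nd (nat_lit 292) (nat_lit 0) (cs (lf (nat_lit 5) (nat_lit 267))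 (nd (nat_lit 314) (nat_lit 0) (cs (lf (nat_lit 42) (nat_lit 247)) (nd (nat_lit 203) (nat_lit 0) (cs (lf (nat_lit 25) (nat_lit 203)) (nd (nat_lit 289) (nat_lit 0) (cs (lf (nat_lit 11) (nat_lit 266)) (nd (nat_lit 311) (nat_lit 0) (cs (lf (nat_lit 30) (nat_lit 245)) (lf (nat_lit 29) (nat_lit 245)))))))))))))) (nd (nat_lit 266) (nat_lit 0) (cs (lf (nat_lit 12) (nat_lit 243)) (rf (nat_lit 2))))))))) (cs (nd (nat_lit 270) (nat_lit 0) (cs (lf (nat_lit 19) (nat_lit 246)) (nd (nat_lit 244) (nat_lit 0) (cs (lf (nat_lit 1) (nat_lit 244)) (nd (nat_lit 225) (nat_lit 0) (cs (nd (nat_lit 203) (nat_lit 0) (cs (lf (nat_lit 29) (nat_lit 203)) (lf (nat_lit 36) (nat_lit 180)))) (lf (nat_lit 31) (nat_lit 224)))))))) (nd (nat_lit 290) (nat_lit 0) (cs (lf (nat_lit 30) (nat_lit 246)) (nd (nat_lit 313) (nat_lit 0) (cs (lf (nat_lit 29) (nat_lit 246)) (nd (nat_lit 311) (nat_lit 0) (cs (lf (nat_lit 41) (nat_lit 245)) (rf (nat_lit 3)))))))))))) (cs (nd (nat_lit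 225) (nat_lit 0) (cs (rf (nat_lit 4)) (cs (rf (nat_lit 5)) (nd (nat_lit 291) (nat_lit 0) (cs (rf (nat_lit 6)) (cs (rf (nat_lit 7)) (rf (nat_lit 8)))))))) (cs (nd (nat_lit 270) (nat_lit 0) (cs (lf (nat_lit 19) (nat_lit 246)) (nd (nat_lit 267) (nat_lit 0) (cs (rf (nat_lit 9)) (cs (rf (nat_lit 1)) (nd (nat_lit 245) (nat_lit 0) (cs (rf (nat_lit 10)) (rf (nat_lit 11))))))))) (cs (nd (nat_lit 225) (nat_lit 0) (cs (rf (nat_lit 4)) (cs (rf (nat_lit 12)) (cs (rf (nat_lit 5)) (nd (nat_lit 291) (nat_lit 0) (cs (rf (nat_lit 7)) (cs (rf (nat_lit 8)) (nd (nat_lit 290) (nat_lit 0) (cs (lf (nat_lit 30) (nat_lit 224)) (rf (nat_lit 13))))))))))) (rf (nat_lit 14)))))))) q51038 (by decide +kernel)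
def q51102 : Q := Q.p (nat_lit 0x40001100000c0000000000000000000000000000000000000000000000000000000000000) (nat_lit 0x80000e0000380000a0000ee000038000100000600001800000000000000000000000000000000000000000000) (nat_lit 11)
theorem c51102 : QOK q51102 := cut [q50866, q51091, q51100] ⟨c50866, c51091, c51100, trivial⟩ (nd (nat_lit 312) (nat_lit 0) (cs (rf (nat_lit 0)) (cs (rf (nat_lit 1)) (rf (nat_lit 2))))) q51102 (by decide +kernel)
def q51167 : Q := Q.p (nat_lit 0x1100000c0000000000000000000000000000000000000000000000000000000000000) (nat_lit 0x600001e0000ee000038001fe0007f8000780000a000000000000000000000000000000000000000) (nat_lit 10)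
theorem c51167 : QOK q51167 := cut [q50633, q50473, q50214, q51144, q49197, q50721, q50723, q51150, q51153, q51158, q51132, q49407, q50914] ⟨c50633, c50473, c50214, c51144, c49197, c50721, c50723, c51150, c51153, c51158, c51132, c49407, c50914, trivial⟩ (nd (nat_lit 224) (nat_lit 0) (cs (nd (nat_lit 225) (nat_lit 0) (cs (rf (nat_lit 0)) (cs (nd (nat_lit 223) (nat_lit 0) (cs (rf (nat_lit 1)) (cs (nd (nat_lit 201) (nat_lit 0) (cs (lf (nat_lit 42) (nat_lit 201)) (nd (nat_lit 200) (nat_lit 0) (cs (rf (nat_lit 2)) (lf (nat_lit 18) (nat_lit 200)))))) (rf (nat_lit 3))))) (nd (nat_lit 269) (nat_lit 0) (cs (nd (nat_lit 203) (nat_lit 0) (cs (lf (nat_lit 36) (nat_lit 180)) (rf (nat_lit 4)))) (cs (rf (nat_lit 5)) (rf (nat_lit 6)))))))) (cs (nd (nat_lit 202) (nat_lit 0) (cs (nd (nat_lit 179) (nat_lit 0) (cs (lf (nat_lit 46) (nat_lit 179)) (nd (nat_lit 181) (nat_lit 0) (cs (nd (nat_lit 180) (nat_lit 0) (cs (lf (nat_lit 47) (nat_lit 157)) (lf (nat_lit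 35) (nat_lit 158)))) (lf (nat_lit 34) (nat_lit 180)))))) (cs (rf (nat_lit 7)) (cs (nd (nat_lit 267) (nat_lit 0) (cs (lf (nat_lit 41) (nat_lit 201)) (nd (nat_lit 265) (nat_lit 0) (cs (lf (nat_lit 13) (nat_lit 243)) (rf (nat_lit 8)))))) (rf (nat_lit 9)))))) (cs (nd (nat_lit 202) (nat_lit 0) (cs (rf (nat_lit 10)) (cs (nd (nat_lit 269) (nat_lit 0) (cs (lf (nat_lit 29) (nat_lit 202)) (nd (nat_lit 270) (nat_lit 0) (cs (lf (nat_lit 19) (nat_lit 246)) (nd (nat_lit 244) (nat_lit 0) (cs (lf (nat_lit 1) (nat_lit 244)) (rf (nat_lit 11)))))))) (rf (nat_lit 7))))) (cs (nd (nat_lit 202) (nat_lit 0) (cs (rf (nat_lit 10)) (rf (nat_lit 8)))) (nd (nat_lit 202) (nat_lit 0) (cs (rf (nat_lit 10)) (cs (rf (nat_lit 9)) (nd (nat_lit 267) (nat_lit 0) (cs (lf (nat_lit 41) (nat_lit 201)) (nd (nat_lit 181) (nat_lit 0) (cs (lf (nat_lit 34) (nat_lit 180)) (nd (nat_lit 266) (nat_lit 0) (cs (lf (nat_lit 12) (nat_lit 243)) (nd (nat_lit 269) (nat_lit 0) (cs (lf (nat_lit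 29) (nat_lit 202)) (rf (nat_lit 12)))))))))))))))))) q51167 (by decide +kernel)
def q51298 : Q := Q.p (nat_lit 0x400000c0000000000000000000000000000000000000000000000000000000000000) (nat_lit 0x298000e60003b80008f000138000ff0003b8000ee0003b80002a000000000000000000000000000000000) (nat_lit 12)
theorem c51298 : QOK q51298 := cut [q50418, q49602, q49604, q49848, q46743, q51278, q51283, q47306] ⟨c50418, c49602, c49604, c49848, c46743, c51278, c51283, c47306, trivial⟩ (nd (nat_lit 245) (nat_lit 0) (cs (rf (nat_lit 0)) (cs (nd (nat_lit 244) (nat_lit 0) (cs (rf (nat_lit 1)) (cs (rf (nat_lit 2)) (rf (nat_lit 3))))) (cs (nd (nat_lit 248) (nat_lit 0) (cs (lf (nat_lit 5) (nat_lit 245)) (nd (nat_lit 226) (nat_lit 0) (cs (lf (nat_lit 17) (nat_lit 223)) (nd (nat_lit 204) (nat_lit 0) (cs (rf (nat_lit 4)) (cs (nd (nat_lit 266) (nat_lit 0) (cs (lf (nat_lit 10) (nat_lit 244)) (nd (nat_lit 222) (nat_lit 0) (cs (lf (nat_lit 22) (nat_lit 222)) (nd (nat_lit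 183) (nat_lit 0) (cs (lf (nat_lit 34) (nat_lit 182)) (nd (nat_lit 182) (nat_lit 0) (cs (lf (nat_lit 35) (nat_lit 160)) (nd (nat_lit 225) (nat_lit 0) (cs (lf (nat_lit 36) (nat_lit 159)) (nd (nat_lit 292) (nat_lit 0) (cs (lf (nat_lit 47) (nat_lit 203)) (lf (nat_lit 42) (nat_lit 225)))))))))))))) (cs (nd (nat_lit 183) (nat_lit 0) (cs (lf (nat_lit 34) (nat_lit 182)) (nd (nat_lit 182) (nat_lit 0) (cs (lf (nat_lit 35) (nat_lit 160)) (nd (nat_lit 266) (nat_lit 0) (cs (lf (nat_lit 10) (nat_lit 244)) (rf (nat_lit 5)))))))) (nd (nat_lit 266) (nat_lit 0) (cs (lf (nat_lit 10) (nat_lit 244)) (nd (nat_lit 222) (nat_lit 0) (cs (lf (nat_lit 22) (nat_lit 222)) (nd (nat_lit 203) (nat_lit 0) (cs (lf (nat_lit 47) (nat_lit 181)) (nd (nat_lit 292) (nat_lit 0) (cs (lf (nat_lit 46) (nat_lit 203)) (nd (nat_lit 313) (nat_lit 0) (cs (lf (nat_lit 40) (nat_lit 225)) (rf (nat_lit 6)))))))))))))))))))) (nd (nat_lit 248) (nat_lit 0) (cs (lf (nat_lit 5) (nat_lit 245))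 (nd (nat_lit 226) (nat_lit 0) (cs (lf (nat_lit 17) (nat_lit 223)) (nd (nat_lit 225) (nat_lit 0) (cs (rf (nat_lit 7)) (lf (nat_lit 12) (nat_lit 222)))))))))))) q51298 (by decide +kernel)
def q51310 : Q := Q.p (nat_lit 0x10000040000100000400000000000000000000000000000000000000000000000000000000) (nat_lit 0x200000800002000000000000000380000e000028000000000000000000000000000000000000000) (nat_lit 6)
theorem c51310 : QOK q51310 := cut [q51309] ⟨c51309, trivial⟩ (nd (nat_lit 291) (nat_lit 0) (cs (lf (nat_lit 41) (nat_lit 225)) (rf (nat_lit 0)))) q51310 (by decide +kernel)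
def q51390 : Q := Q.p (nat_lit 0x1400000c0000000000000000000000000000000000000000000000000000000000000) (nat_lit 0x400001c0000f00001f0000b0000030001f80001800004000000000000000000000000000000000000000000000) (nat_lit 10)
theorem c51390 : QOK q51390 := cut [q49548, q51188, q50090, q50093] ⟨c49548, c51188, c50090, c50093, trivial⟩ (nd (nat_lit 269) (nat_lit 0) (cs (lf (nat_lit 19) (nat_lit 246)) (nd (nat_lit 245) (nat_lit 0) (cs (lf (nat_lit 0) (nat_lit 244)) (nd (nat_lit 291) (nat_lit 0) (cs (nd (nat_lit 225) (nat_lit 0) (cs (rf (nat_lit 0)) (rf (nat_lit 1)))) (cs (nd (nat_lit 312) (nat_lit 0) (cs (nd (nat_lit 313) (nat_lit 0) (cs (lf (nat_lit 41) (nat_lit 246)) (nd (nat_lit 268) (nat_lit 0) (cs (lf (nat_lit 42) (nat_lit 246)) (rf (nat_lit 2)))))) (cs (rf (nat_lit 3)) (nd (nat_lit 225) (nat_lit 0) (cs (lf (nat_lit 40) (nat_lit 224)) (rf (nat_lit 0))))))) (cs (nd (nat_lit 313) (nat_lit 0) (cs (lf (nat_lit 47) (nat_lit 224)) (nd (nat_lit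 314) (nat_lit 0) (cs (lf (nat_lit 29) (nat_lit 247)) (nd (nat_lit 312) (nat_lit 0) (cs (lf (nat_lit 41) (nat_lit 246)) (nd (nat_lit 268) (nat_lit 0) (cs (lf (nat_lit 42) (nat_lit 246)) (nd (nat_lit 290) (nat_lit 0) (cs (lf (nat_lit 47) (nat_lit 223)) (nd (nat_lit 289) (nat_lit 0) (cs (lf (nat_lit 12) (nat_lit 266)) (lf (nat_lit 18) (nat_lit 289)))))))))))))) (nd (nat_lit 313) (nat_lit 0) (cs (lf (nat_lit 47) (nat_lit 224)) (nd (nat_lit 312) (nat_lit 0) (cs (lf (nat_lit 41) (nat_lit 246)) (nd (nat_lit 225) (nat_lit 0) (cs (lf (nat_lit 40) (nat_lit 224)) (nd (nat_lit 204) (nat_lit 0) (cs (lf (nat_lit 34) (nat_lit 203)) (nd (nat_lit 203) (nat_lit 0) (cs (lf (nat_lit 29) (nat_lit 203)) (lf (nat_lit 35) (nat_lit 181)))))))))))))))))))) q51390 (by decide +kernel)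
def q51506 : Q := Q.p (nat_lit 0x100000580000200000800000000000000000000000000000000000000000000000000) (nat_lit 0xc0000300001c000270000200000400001400005000000000000000000000000000000000000000000000) (nat_lit 9)
theorem c51506 : QOK q51506 := cut [q51505] ⟨c51505, trivial⟩ (nd (nat_lit 249) (nat_lit 0) (cs (lf (nat_lit 5) (nat_lit 247)) (rf (nat_lit 0)))) q51506 (by decide +kernel)
def q51534 : Q := Q.p (nat_lit 0x780000200000800000000000000000000000000000000000000000000000000) (nat_lit 0x7000000000040000000000300000c000010000000000000000000000000000000000) (nat_lit 5)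
theorem c51534 : QOK q51534 := cut [q17292] ⟨c17292, trivial⟩ (nd (nat_lit 268) (nat_lit 0) (cs (lf (nat_lit 10) (nat_lit 246)) (rf (nat_lit 0)))) q51534 (by decide +kernel)
def q51612 : Q := Q.p (nat_lit 0x200001a0000280000000000000000000000000000000000000000000000000000000) (nat_lit 0x500005c0003700005c000010000040000700001c00005000000000000000000000000000000000000000) (nat_lit 7)
theorem c51612 : QOK q51612 := cut [q49946, q51324, q49663, q51608] ⟨c49946, c51324, c49663, c51608, trivial⟩ (nd (nat_lit 267) (nat_lit 0) (cs (nd (nat_lit 289) (nat_lit 0) (cs (rf (nat_lit 0)) (cs (rf (nat_lit 1)) (nd (nat_lit 222) (nat_lit 0) (cs (lf (nat_lit 47) (nat_lit 200)) (nd (nat_lit 310) (nat_lit 0) (cs (lf (nat_lit 40) (nat_lit 222)) (nd (nat_lit 311) (nat_lit 0) (cs (lf (nat_lit 41) (nat_lit 244)) (lf (nat_lit 46) (nat_lit 222))))))))))) (cs (nd (nat_lit 289) (nat_lit 0) (cs (rf (nat_lit 2)) (cs (rf (nat_lit 0)) (nd (nat_lit 222) (nat_lit 0)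 (cs (lf (nat_lit 47) (nat_lit 200)) (nd (nat_lit 312) (nat_lit 0) (cs (lf (nat_lit 28) (nat_lit 223)) (nd (nat_lit 311) (nat_lit 0) (cs (lf (nat_lit 29) (nat_lit 245)) (lf (nat_lit 46) (nat_lit 222))))))))))) (cs (rf (nat_lit 3)) (nd (nat_lit 268) (nat_lit 0) (cs (lf (nat_lit 12) (nat_lit 244)) (nd (nat_lit 270) (nat_lit 0) (cs (lf (nat_lit 23) (nat_lit 244)) (nd (nat_lit 292) (nat_lit 0) (cs (lf (nat_lit 42) (nat_lit 225)) (lf (nat_lit 5) (nat_lit 267)))))))))))) q51612 (by decide +kernel)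
def q51838 : Q := Q.p (nat_lit 0x100000480000300010000040000000000000000000000000000000000000000000000) (nat_lit 0x400001800017c003ce000ffc00adc0001700001c000050000000000000000000000000000) (nat_lit 12)
theorem c51838 : QOK q51838 := cut [q51753, q51769, q41298, q49791, q51833, q51837] ⟨c51753, c51769, c41298, c49791, c51833, c51837, trivial⟩ (nd (nat_lit 223) (nat_lit 0) (cs (nd (nat_lit 226) (nat_lit 0) (cs (rf (nat_lit 0)) (cs (rf (nat_lit 1)) (cs (nd (nat_lit 204) (nat_lit 0) (cs (lf (nat_lit 17) (nat_lit 201)) (nd (nat_lit 160) (nat_lit 0) (cs (lf (nat_lit 37) (nat_lit 159)) (nd (nat_lit 201) (nat_lit 0) (cs (lf (nat_lit 23) (nat_lit 200)) (nd (nat_lit 227) (nat_lit 0) (cs (lf (nat_lit 22) (nat_lit 201)) (nd (nat_lit 228) (nat_lit 0) (cs (lf (nat_lit 11) (nat_lit 224)) (rf (nat_lit 2)))))))))))) (nd (nat_lit 205) (nat_lit 0) (cs (lf (nat_lit 16) (nat_lit 201)) (nd (nat_lit 244) (nat_lit 0) (cs (lf (nat_lit 10) (nat_lit 222)) (nd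 (nat_lit 206) (nat_lit 0) (cs (lf (nat_lit 15) (nat_lit 202)) (rf (nat_lit 3)))))))))))) (cs (rf (nat_lit 4)) (rf (nat_lit 5))))) q51838 (by decide +kernel)
def q51918 : Q := Q.p (nat_lit 0x100000580000200000800000000000000000000000000000000000000000000000000) (nat_lit 0x120000580007f00007c000070003d0000f00000c000000000000000000000000000000000000000000000) (nat_lit 11)
theorem c51918 : QOK q51918 := cut [q45629, q47077, q49315, q50456, q51902, q51917] ⟨c45629, c47077, c49315, c50456, c51902, c51917, trivial⟩ (nd (nat_lit 269) (nat_lit 0) (cs (rf (nat_lit 0)) (cs (rf (nat_lit 1)) (cs (nd (nat_lit 268) (nat_lit 0) (cs (lf (nat_lit 41) (nat_lit 202)) (nd (nat_lit 267) (nat_lit 0) (cs (lf (nat_lit 12) (nat_lit 244)) (nd (nat_lit 270) (nat_lit 0) (cs (nd (nat_lit 292) (nat_lit 0) (cs (rf (nat_lit 2)) (lf (nat_lit 5) (nat_lit 267)))) (nd (nat_lit 226) (nat_lit 0) (cs (nd (nat_lit 204) (nat_lit 0) (cs (lf (nat_lit 35) (nat_lit 181)) (rf (nat_lit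 3)))) (cs (nd (nat_lit 289) (nat_lit 0) (cs (lf (nat_lit 11) (nat_lit 266)) (nd (nat_lit 245) (nat_lit 0) (cs (lf (nat_lit 23) (nat_lit 244)) (nd (nat_lit 246) (nat_lit 0) (cs (lf (nat_lit 17) (nat_lit 223)) (rf (nat_lit 4)))))))) (nd (nat_lit 245) (nat_lit 0) (cs (lf (nat_lit 23) (nat_lit 244)) (nd (nat_lit 204) (nat_lit 0) (cs (lf (nat_lit 35) (nat_lit 181)) (nd (nat_lit 227) (nat_lit 0) (cs (lf (nat_lit 13) (nat_lit 223)) (nd (nat_lit 228) (nat_lit 0) (cs (lf (nat_lit 6) (nat_lit 225)) (nd (nat_lit 205) (nat_lit 0) (cs (lf (nat_lit 42) (nat_lit 205)) (lf (nat_lit 35) (nat_lit 182))))))))))))))))))))) (rf (nat_lit 5)))))) q51918 (by decide +kernel)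
def q52192 : Q := Q.p (nat_lit 0x100000580000000000000000000000000000000000000000000000000000000000000) (nat_lit 0x238000240000380000000000000000000000000000000000000000000000000000000) (nat_lit 5)
theorem c52192 : QOK q52192 := cut [q45262] ⟨c45262, trivial⟩ (nd (nat_lit 249) (nat_lit 0) (cs (lf (nat_lit 5) (nat_lit 247)) (rf (nat_lit 0)))) q52192 (by decide +kernel)
def q52523 : Q := Q.p (nat_lit 0x200000800002000000000000000000000000000000000000000000000000000000000000000) (nat_lit 0x80000340001f00007f0001dc0001400001000004000000000000000000000000000000000000000000000000000000000) (nat_lit 11)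
theorem c52523 : QOK q52523 := cut [q2579, q2613, q2616, q14474, q21918, q21924, q21914] ⟨c2579, c2613, c2616, c14474, c21918, c21924, c21914, trivial⟩ (nd (nat_lit 319) (nat_lit 0) (cs (rf (nat_lit 0)) (cs (rf (nat_lit 1)) (cs (rf (nat_lit 2)) (nd (nat_lit 320) (nat_lit 0) (cs (lf (nat_lit 29) (nat_lit 253)) (nd (nat_lit 295) (nat_lit 0) (cs (rf (nat_lit 3)) (cs (rf (nat_lit 4)) (cs (rf (nat_lit 5)) (nd (nat_lit 230) (nat_lit 0) (cs (lf (nat_lit 46) (nat_lit 230)) (rf (nat_lit 6)))))))))))))) q52523 (by decide +kernel)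
def q52557 : Q := Q.p (nat_lit 0x80000600000800000000000000000000000000000000000000000000000000000000000000000000) (nat_lit 0x140000780001e000067000398000f700030000040000100000000000000000000000000000000000000000000000000000) (nat_lit 10)
theorem c52557 : QOK q52557 := cut [q11637, q23386, q11632, q52534, q29952, q28719, q52551, q52556] ⟨c11637, c23386, c11632, c52534, c29952, c28719, c52551, c52556, trivial⟩ (nd (nat_lit 299) (nat_lit 0) (cs (rf (nat_lit 0)) (cs (rf (nat_lit 1)) (cs (nd (nat_lit 296) (nat_lit 0) (cs (rf (nat_lit 2)) (cs (rf (nat_lit 3)) (cs (nd (nat_lit 277) (nat_lit 0) (cs (lf (nat_lit 17) (nat_lit 274)) (nd (nat_lit 321) (nat_lit 0) (cs (lf (nat_lit 5) (nat_lit 296)) (nd (nat_lit 343) (nat_lit 0) (cs (rf (nat_lit 4)) (cs (nd (nat_lit 344) (nat_lit 0) (cs (lf (nat_lit 29) (nat_lit 277)) (nd (nat_lit 273) (nat_lit 0) (cs (lf (nat_lit 22) (nat_lit 273)) (nd (nat_lit 342) (nat_lit 0) (cs (lf (nat_lit 41) (nat_lit 276))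 (nd (nat_lit 318) (nat_lit 0) (cs (lf (nat_lit 21) (nat_lit 318)) (lf (nat_lit 11) (nat_lit 295)))))))))) (nd (nat_lit 317) (nat_lit 0) (cs (lf (nat_lit 10) (nat_lit 295)) (nd (nat_lit 273) (nat_lit 0) (cs (lf (nat_lit 22) (nat_lit 273)) (nd (nat_lit 364) (nat_lit 0) (cs (lf (nat_lit 40) (nat_lit 276)) (rf (nat_lit 5))))))))))))))) (rf (nat_lit 6)))))) (rf (nat_lit 7)))))) q52557 (by decide +kernel)
def q52643 : Q := Q.p (nat_lit 0x1e00003000000000000000000000000000000000000000000000000000000000000000) (nat_lit 0x5c0001f0000fc0000000000c00000000000000000000000000000000000000000000000000000000000000) (nat_lit 9)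
theorem c52643 : QOK q52643 := cut [q22499] ⟨c22499, trivial⟩ (nd (nat_lit 251) (nat_lit 0) (cs (lf (nat_lit 0) (nat_lit 250)) (nd (nat_lit 295) (nat_lit 0) (cs (lf (nat_lit 11) (nat_lit 272)) (nd (nat_lit 298) (nat_lit 0) (cs (lf (nat_lit 5) (nat_lit 273)) (nd (nat_lit 320) (nat_lit 0) (cs (lf (nat_lit 42) (nat_lit 253)) (rf (nat_lit 0)))))))))) q52643 (by decide +kernel)
def q52668 : Q := Q.p (nat_lit 0xe00000000000000000000000000000000000000000000000000000000000000000000) (nat_lit 0x4000010000770001180000f00002000000000000000000000000000000000000000000000000000000000) (nat_lit 7)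
theorem c52668 : QOK q52668 := cut [q1197, q12673, q12676, q52666] ⟨c1197, c12673, c12676, c52666, trivial⟩ (nd (nat_lit 272) (nat_lit 0) (cs (rf (nat_lit 0)) (cs (rf (nat_lit 1)) (cs (rf (nat_lit 2)) (nd (nat_lit 297) (nat_lit 0) (cs (lf (nat_lit 5) (nat_lit 272)) (rf (nat_lit 3)))))))) q52668 (by decide +kernel)
def q52753 : Q := Q.p (nat_lit 0x38000000000000000e00002000000000000000000000000000000000000000000000000000000000000000) (nat_lit 0xf70003c0000780001f00002000000000000000000000000000000000000000000000000000000000000000000000) (nat_lit 9)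
theorem c52753 : QOK q52753 := cut [q52735, q14369, q12922, q52751] ⟨c52735, c14369, c12922, c52751, trivial⟩ (nd (nat_lit 342) (nat_lit 0) (cs (rf (nat_lit 0)) (cs (nd (nat_lit 364) (nat_lit 0) (cs (lf (nat_lit 5) (nat_lit 339)) (nd (nat_lit 297) (nat_lit 0) (cs (lf (nat_lit 26) (nat_lit 275)) (nd (nat_lit 361) (nat_lit 0) (cs (lf (nat_lit 11) (nat_lit 338)) (nd (nat_lit 343) (nat_lit 0) (cs (lf (nat_lit 10) (nat_lit 339)) (nd (nat_lit 321) (nat_lit 0) (cs (lf (nat_lit 17) (nat_lit 318)) (nd (nat_lit 299) (nat_lit 0) (cs (rf (nat_lit 1)) (lf (nat_lit 36) (nat_lit 276)))))))))))))) (cs (nd (nat_lit 364) (nat_lit 0) (cs (lf (nat_lit 5) (nat_lit 339)) (nd (nat_lit 297) (nat_lit 0) (cs (lf (nat_lit 26) (nat_lit 275)) (nd (nat_lit 298) (nat_lit 0) (cs (rf (nat_lit 2)) (lf (nat_lit 44) (nat_lit 275)))))))) (cs (nd (nat_lit 320) (nat_lit 0) (cs (lf (nat_lit 17) (nat_lit 317)) (nd (nat_lit 297) (nat_lit 0) (cs (lf (nat_lit 27) (nat_lit 253))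 (nd (nat_lit 360) (nat_lit 0) (cs (lf (nat_lit 10) (nat_lit 338)) (nd (nat_lit 298) (nat_lit 0) (cs (lf (nat_lit 42) (nat_lit 275)) (rf (nat_lit 2)))))))))) (nd (nat_lit 364) (nat_lit 0) (cs (lf (nat_lit 5) (nat_lit 339)) (rf (nat_lit 3))))))))) q52753 (by decide +kernel)
def q52785 : Q := Q.p (nat_lit 0x80001c00000000000000000000000000000000000000000000000000000000000000000000) (nat_lit 0x3900006000038000000000000000000000000000000000000000000000000000000000000000) (nat_lit 5)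
theorem c52785 : QOK q52785 := cut [q52784] ⟨c52784, trivial⟩ (nd (nat_lit 277) (nat_lit 0) (cs (lf (nat_lit 10) (nat_lit 273)) (rf (nat_lit 0)))) q52785 (by decide +kernel)
def q52830 : Q := Q.p (nat_lit 0x78000000000000001e00000000000000000000000000000000000000000000000000000000000000000000) (nat_lit 0x39c0000600001c000000000000000c00000000000000000000000000000000000000000000000000000000000000) (nat_lit 7)
theorem c52830 : QOK q52830 := cut [q22752] ⟨c22752, trivial⟩ (nd (nat_lit 250) (nat_lit 0) (cs (lf (nat_lit 22) (nat_lit 250)) (rf (nat_lit 0)))) q52830 (by decide +kernel)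
def q52861 : Q := Q.p (nat_lit 0x18000000000400001e00002000000000000000000000000000000000000000000000000000000000000000) (nat_lit 0x140000f00003fc000e600019c000200000000000c00000000000000000000000000000000000000000000000000000000000000) (nat_lit 10)
theorem c52861 : QOK q52861 := cut [q52818, q52720, q52853, q52856] ⟨c52818, c52720, c52853, c52856, trivial⟩ (nd (nat_lit 341) (nat_lit 0) (cs (nd (nat_lit 342) (nat_lit 0) (cs (lf (nat_lit 43) (nat_lit 253)) (rf (nat_lit 0)))) (cs (nd (nat_lit 338) (nat_lit 0) (cs (rf (nat_lit 1)) (nd (nat_lit 250) (nat_lit 0) (cs (lf (nat_lit 22) (nat_lit 250)) (nd (nat_lit 363) (nat_lit 0) (cs (lf (nat_lit 5) (nat_lit 338)) (nd (nat_lit 319) (nat_lit 0) (cs (lf (nat_lit 17) (nat_lit 316)) (lf (nat_lit 33) (nat_lit 275)))))))))) (cs (nd (nat_lit 250) (nat_lit 0) (cs (lf (nat_lit 22) (nat_lit 250)) (nd (nat_lit 320) (nat_lit 0) (cs (lf (nat_lit 42) (nat_lit 253)) (rf (nat_lit 2)))))) (cs (rf (nat_lit 3))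 (nd (nat_lit 250) (nat_lit 0) (cs (lf (nat_lit 22) (nat_lit 250)) (nd (nat_lit 320) (nat_lit 0) (cs (lf (nat_lit 42) (nat_lit 253)) (nd (nat_lit 319) (nat_lit 0) (cs (lf (nat_lit 12) (nat_lit 316)) (nd (nat_lit 297) (nat_lit 0) (cs (lf (nat_lit 41) (nat_lit 274)) (lf (nat_lit 30) (nat_lit 275))))))))))))))) q52861 (by decide +kernel)
def q52941 : Q := Q.p (nat_lit 0x70000000000000000800000000000000000000000000000000000000000000000000000000000000000000) (nat_lit 0x80000240001d8003fe000780003f80000a00002000000000000000000000000000000000000000000000000000000000000000000000) (nat_lit 11)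
theorem c52941 : QOK q52941 := cut [q31266, q31232, q29977, q52939] ⟨c31266, c31232, c29977, c52939, trivial⟩ (nd (nat_lit 343) (nat_lit 0) (cs (rf (nat_lit 0)) (cs (nd (nat_lit 365) (nat_lit 0) (cs (lf (nat_lit 5) (nat_lit 340)) (nd (nat_lit 364) (nat_lit 0) (cs (rf (nat_lit 1)) (nd (nat_lit 362) (nat_lit 0) (cs (lf (nat_lit 11) (nat_lit 339)) (nd (nat_lit 319) (nat_lit 0) (cs (lf (nat_lit 37) (nat_lit 274)) (nd (nat_lit 384) (nat_lit 0) (cs (lf (nat_lit 30) (nat_lit 318)) (nd (nat_lit 363) (nat_lit 0) (cs (lf (nat_lit 11) (nat_lit 361)) (nd (nat_lit 387) (nat_lit 0) (cs (lf (nat_lit 5) (nat_lit 362)) (nd (nat_lit 409) (nat_lit 0) (cs (lf (nat_lit 47) (nat_lit 320)) (lf (nat_lit 42) (nat_lit 342)))))))))))))))))) (cs (nd (nat_lit 365) (nat_lit 0) (cs (lf (nat_lit 5) (nat_lit 340)) (nd (nat_lit 362) (nat_lit 0) (cs (lf (nat_lit 11) (nat_lit 339)) (nd (nat_lit 319) (nat_lit 0) (cs (lf (nat_lit 37) (nat_lit 274)) (nd (nat_lit 384) (nat_lit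 0) (cs (lf (nat_lit 30) (nat_lit 318)) (nd (nat_lit 344) (nat_lit 0) (cs (lf (nat_lit 10) (nat_lit 340)) (nd (nat_lit 345) (nat_lit 0) (cs (nd (nat_lit 323) (nat_lit 0) (cs (lf (nat_lit 17) (nat_lit 320)) (nd (nat_lit 346) (nat_lit 0) (cs (lf (nat_lit 11) (nat_lit 342)) (rf (nat_lit 2)))))) (lf (nat_lit 22) (nat_lit 319)))))))))))))) (nd (nat_lit 321) (nat_lit 0) (cs (lf (nat_lit 17) (nat_lit 318)) (rf (nat_lit 3)))))))) q52941 (by decide +kernel)
def q52959 : Q := Q.p (nat_lit 0x70000000000000000800002000000000000000000000000000000000000000000000000000000000000000) (nat_lit 0x1c00007c001fdc0038e000fb8000a00000000000000000000000000000000000000000000000000000000000000000000000000) (nat_lit 12)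
theorem c52959 : QOK q52959 := cut [q31266, q52946] ⟨c31266, c52946, trivial⟩ (nd (nat_lit 343) (nat_lit 0) (cs (rf (nat_lit 0)) (cs (nd (nat_lit 322) (nat_lit 0) (cs (lf (nat_lit 16) (nat_lit 318)) (nd (nat_lit 344) (nat_lit 0) (cs (lf (nat_lit 17) (nat_lit 319)) (nd (nat_lit 367) (nat_lit 0) (cs (lf (nat_lit 4) (nat_lit 341)) (nd (nat_lit 345) (nat_lit 0) (cs (lf (nat_lit 5) (nat_lit 342)) (nd (nat_lit 364) (nat_lit 0) (cs (lf (nat_lit 11) (nat_lit 341)) (nd (nat_lit 319) (nat_lit 0) (cs (lf (nat_lit 25) (nat_lit 275)) (lf (nat_lit 22) (nat_lit 319)))))))))))))) (cs (nd (nat_lit 365) (nat_lit 0) (cs (lf (nat_lit 5) (nat_lit 340)) (nd (nat_lit 339) (nat_lit 0) (cs (lf (nat_lit 4) (nat_lit 339)) (rf (nat_lit 1)))))) (nd (nat_lit 321) (nat_lit 0) (cs (lf (nat_lit 17) (nat_lit 318)) (nd (nat_lit 320) (nat_lit 0) (cs (lf (nat_lit 12) (nat_lit 317)) (nd (nat_lit 319) (nat_lit 0) (cs (lf (nat_lit 26) (nat_lit 253)) (nd (nat_lit 344) (nat_lit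 0) (cs (lf (nat_lit 18) (nat_lit 319)) (nd (nat_lit 363) (nat_lit 0) (cs (lf (nat_lit 11) (nat_lit 340)) (nd (nat_lit 385) (nat_lit 0) (cs (lf (nat_lit 30) (nat_lit 319)) (nd (nat_lit 386) (nat_lit 0) (cs (lf (nat_lit 29) (nat_lit 319)) (nd (nat_lit 384) (nat_lit 0) (cs (lf (nat_lit 41) (nat_lit 318)) (nd (nat_lit 364) (nat_lit 0) (cs (lf (nat_lit 35) (nat_lit 298)) (nd (nat_lit 383) (nat_lit 0) (cs (lf (nat_lit 17) (nat_lit 361)) (lf (nat_lit 12) (nat_lit 360)))))))))))))))))))))))))) q52959 (by decide +kernel)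
def q52963 : Q := Q.p (nat_lit 0x78000000000000000000000000000000000000000000000000000000000000000000000000000000000000) (nat_lit 0x7e000180000e00000000000000000000000000000000000000000000000000000000000000000000000000000000) (nat_lit 6)
theorem c52963 : QOK q52963 := cut [q52961] ⟨c52961, trivial⟩ (nd (nat_lit 365) (nat_lit 0) (cs (lf (nat_lit 4) (nat_lit 339)) (nd (nat_lit 343) (nat_lit 0) (cs (lf (nat_lit 5) (nat_lit 340)) (rf (nat_lit 0)))))) q52963 (by decide +kernel)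
def q52985 : Q := Q.p (nat_lit 0x4000030000000000000000e00000000000000000000000000000000000000000000000000000000000000000000) (nat_lit 0x80000700000180000700000000000000000000000000000000000000000000000000000000000000) (nat_lit 5)
theorem c52985 : QOK q52985 := cut [q12834] ⟨c12834, trivial⟩ (nd (nat_lit 297) (nat_lit 0) (cs (rf (nat_lit 0)) (lf (nat_lit 38) (nat_lit 274)))) q52985 (by decide +kernel)
def q53008 : Q := Q.p (nat_lit 0x70000000000000000800002000000000000000000000000000000000000000000000000000000000000000) (nat_lit 0x7e0001f0000fe000180000f80001c00005000000000000000000000000000000000000000000000000000000000000000000000) (nat_lit 13)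
theorem c53008 : QOK q53008 := cut [q31266, q52961, q43674, q30209, q53007] ⟨c31266, c52961, c43674, c30209, c53007, trivial⟩ (nd (nat_lit 343) (nat_lit 0) (cs (rf (nat_lit 0)) (cs (rf (nat_lit 1)) (cs (nd (nat_lit 365) (nat_lit 0) (cs (lf (nat_lit 5) (nat_lit 340)) (nd (nat_lit 387) (nat_lit 0) (cs (rf (nat_lit 2)) (cs (nd (nat_lit 321) (nat_lit 0) (cs (lf (nat_lit 17) (nat_lit 318)) (nd (nat_lit 388) (nat_lit 0) (cs (lf (nat_lit 29) (nat_lit 321)) (nd (nat_lit 386) (nat_lit 0) (cs (lf (nat_lit 41) (nat_lit 320)) (nd (nat_lit 299) (nat_lit 0) (cs (lf (nat_lit 40) (nat_lit 298)) (nd (nat_lit 278) (nat_lit 0) (cs (lf (nat_lit 34) (nat_lit 277)) (nd (nat_lit 362) (nat_lit 0) (cs (lf (nat_lit 11) (nat_lit 339)) (nd (nat_lit 385) (nat_lit 0) (cs (lf (nat_lit 22) (nat_lit 362)) (nd (nat_lit 406) (nat_lit 0) (cs (lf (nat_lit 10) (nat_lit 384)) (nd (nat_lit 384) (nat_lit 0) (cs (lf (nat_lit 11) (nat_lit 383)) (lf (nat_lit 35) (nat_lit 318))))))))))))))))))))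 (nd (nat_lit 361) (nat_lit 0) (cs (lf (nat_lit 10) (nat_lit 339)) (rf (nat_lit 3))))))))) (rf (nat_lit 4)))))) q53008 (by decide +kernel)
def q53049 : Q := Q.p (nat_lit 0xe00000000000000000000000000000000000000000000000000000000000000000000) (nat_lit 0xc0000300007f0000180000f000038000060000380000e0000280000000000000000000000000000000000) (nat_lit 11)
theorem c53049 : QOK q53049 := cut [q1197, q12673, q12676, q14434, q53034, q53037, q3767, q14138] ⟨c1197, c12673, c12676, c14434, c53034, c53037, c3767, c14138, trivial⟩ (nd (nat_lit 272) (nat_lit 0) (cs (rf (nat_lit 0)) (cs (rf (nat_lit 1)) (cs (rf (nat_lit 2)) (nd (nat_lit 250) (nat_lit 0) (cs (lf (nat_lit 23) (nat_lit 249)) (nd (nat_lit 228) (nat_lit 0) (cs (rf (nat_lit 3)) (cs (nd (nat_lit 297) (nat_lit 0) (cs (lf (nat_lit 5) (nat_lit 272)) (nd (nat_lit 294) (nat_lit 0) (cs (lf (nat_lit 11) (nat_lit 271)) (rf (nat_lit 4)))))) (cs (nd (nat_lit 294) (nat_lit 0) (cs (lf (nat_lit 11) (nat_lit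 271)) (nd (nat_lit 297) (nat_lit 0) (cs (lf (nat_lit 5) (nat_lit 272)) (nd (nat_lit 205) (nat_lit 0) (cs (lf (nat_lit 46) (nat_lit 205)) (rf (nat_lit 5)))))))) (cs (nd (nat_lit 293) (nat_lit 0) (cs (lf (nat_lit 10) (nat_lit 271)) (nd (nat_lit 297) (nat_lit 0) (cs (lf (nat_lit 5) (nat_lit 272)) (nd (nat_lit 206) (nat_lit 0) (cs (lf (nat_lit 29) (nat_lit 206)) (nd (nat_lit 184) (nat_lit 0) (cs (rf (nat_lit 6)) (lf (nat_lit 28) (nat_lit 184)))))))))) (nd (nat_lit 206) (nat_lit 0) (cs (lf (nat_lit 29) (nat_lit 206)) (nd (nat_lit 294) (nat_lit 0) (cs (lf (nat_lit 11) (nat_lit 271)) (rf (nat_lit 7))))))))))))))))) q53049 (by decide +kernel)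
def q53114 : Q := Q.p (nat_lit 0x10000000000080000e00002000000000000000000000000000000000000000000000000000000000000000) (nat_lit 0xe00003c0000fc007ff800efc007bf001f380031c0000b80000000000000000000000000000000000000000000000000000000000000) (nat_lit 12)
theorem c53114 : QOK q53114 := cut [q12908, q53064, q25357, q25385, q25388, q25336, q52704, q25509, q25331, q52720, q25349, q52728, q52856, q2555, q16980, q26009] ⟨c12908, c53064, c25357, c25385, c25388, c25336, c52704, c25509, c25331, c52720, c25349, c52728, c52856, c2555, c16980, c26009, trivial⟩ (nd (nat_lit 297) (nat_lit 0) (cs (rf (nat_lit 0)) (cs (rf (nat_lit 1)) (cs (nd (nat_lit 339) (nat_lit 0) (cs (rf (nat_lit 2)) (cs (rf (nat_lit 3)) (cs (rf (nat_lit 4)) (cs (nd (nat_lit 338) (nat_lit 0) (cs (rf (nat_lit 5)) (cs (rf (nat_lit 6)) (cs (nd (nat_lit 360) (nat_lit 0) (cs (lf (nat_lit 38) (nat_lit 272)) (nd (nat_lit 337) (nat_lit 0) (cs (rf (nat_lit 7)) (cs (nd (nat_lit 314) (nat_lit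 0) (cs (lf (nat_lit 22) (nat_lit 314)) (nd (nat_lit 336) (nat_lit 0) (cs (lf (nat_lit 23) (nat_lit 313)) (nd (nat_lit 335) (nat_lit 0) (cs (nd (nat_lit 357) (nat_lit 0) (cs (lf (nat_lit 10) (nat_lit 335)) (lf (nat_lit 11) (nat_lit 334)))) (lf (nat_lit 5) (nat_lit 335)))))))) (cs (nd (nat_lit 358) (nat_lit 0) (cs (lf (nat_lit 10) (nat_lit 336)) (nd (nat_lit 336) (nat_lit 0) (cs (lf (nat_lit 11) (nat_lit 335)) (nd (nat_lit 335) (nat_lit 0) (cs (lf (nat_lit 5) (nat_lit 335)) (nd (nat_lit 313) (nat_lit 0) (cs (lf (nat_lit 23) (nat_lit 312)) (lf (nat_lit 22) (nat_lit 313)))))))))) (cs (nd (nat_lit 359) (nat_lit 0) (cs (lf (nat_lit 11) (nat_lit 336)) (nd (nat_lit 382) (nat_lit 0) (cs (nd (nat_lit 315) (nat_lit 0) (cs (lf (nat_lit 24) (nat_lit 293)) (lf (nat_lit 42) (nat_lit 315)))) (cs (nd (nat_lit 381) (nat_lit 0) (cs (nd (nat_lit 403) (nat_lit 0) (cs (lf (nat_lit 30) (nat_lit 337)) (lf (nat_lit 35) (nat_lit 315)))) (nd (nat_lit 315) (nat_lit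 0) (cs (lf (nat_lit 24) (nat_lit 293)) (nd (nat_lit 380) (nat_lit 0) (cs (lf (nat_lit 41) (nat_lit 314)) (nd (nat_lit 379) (nat_lit 0) (cs (lf (nat_lit 17) (nat_lit 357)) (lf (nat_lit 12) (nat_lit 356)))))))))) (nd (nat_lit 404) (nat_lit 0) (cs (nd (nat_lit 403) (nat_lit 0) (cs (lf (nat_lit 41) (nat_lit 337)) (nd (nat_lit 316) (nat_lit 0) (cs (lf (nat_lit 40) (nat_lit 315)) (nd (nat_lit 405) (nat_lit 0) (cs (lf (nat_lit 28) (nat_lit 316)) (lf (nat_lit 29) (nat_lit 338)))))))) (lf (nat_lit 42) (nat_lit 337))))))))) (nd (nat_lit 314) (nat_lit 0) (cs (lf (nat_lit 22) (nat_lit 314)) (nd (nat_lit 336) (nat_lit 0) (cs (lf (nat_lit 23) (nat_lit 313)) (nd (nat_lit 335) (nat_lit 0) (cs (lf (nat_lit 5) (nat_lit 335)) (nd (nat_lit 356) (nat_lit 0) (cs (nd (nat_lit 334) (nat_lit 0) (cs (lf (nat_lit 4) (nat_lit 334)) (lf (nat_lit 11) (nat_lit 333)))) (lf (nat_lit 10) (nat_lit 334))))))))))))))))) (nd (nat_lit 341) (nat_lit 0) (cs (rf (nat_lit 8))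 (rf (nat_lit 9)))))))) (nd (nat_lit 341) (nat_lit 0) (cs (rf (nat_lit 10)) (cs (nd (nat_lit 338) (nat_lit 0) (cs (rf (nat_lit 9)) (cs (nd (nat_lit 359) (nat_lit 0) (cs (lf (nat_lit 10) (nat_lit 337)) (nd (nat_lit 363) (nat_lit 0) (cs (lf (nat_lit 5) (nat_lit 338)) (nd (nat_lit 315) (nat_lit 0) (cs (lf (nat_lit 22) (nat_lit 315)) (nd (nat_lit 319) (nat_lit 0) (cs (lf (nat_lit 17) (nat_lit 316)) (nd (nat_lit 297) (nat_lit 0) (cs (lf (nat_lit 46) (nat_lit 274)) (lf (nat_lit 41) (nat_lit 274)))))))))))) (rf (nat_lit 11))))) (cs (rf (nat_lit 12)) (nd (nat_lit 319) (nat_lit 0) (cs (lf (nat_lit 41) (nat_lit 274)) (nd (nat_lit 320) (nat_lit 0) (cs (lf (nat_lit 29) (nat_lit 253)) (lf (nat_lit 12) (nat_lit 316))))))))))))))) (nd (nat_lit 298) (nat_lit 0) (cs (rf (nat_lit 13)) (nd (nat_lit 320) (nat_lit 0) (cs (rf (nat_lit 14)) (nd (nat_lit 296) (nat_lit 0) (cs (lf (nat_lit 5) (nat_lit 295)) (rf (nat_lit 15)))))))))))) q53114 (by decide +kernel)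
def q53173 : Q := Q.p (nat_lit 0x50000100000000000800002000000000000000000000000000000000000000000000000000000000000000) (nat_lit 0x38000ae0002f8000600001000000000000000000000000000000000000000000000000000000000000000000000) (nat_lit 7)
theorem c53173 : QOK q53173 := cut [q53162, q53165, q53168, q53171] ⟨c53162, c53165, c53168, c53171, trivial⟩ (nd (nat_lit 339) (nat_lit 0) (cs (rf (nat_lit 0)) (cs (nd (nat_lit 276) (nat_lit 0) (cs (lf (nat_lit 44) (nat_lit 253)) (rf (nat_lit 1)))) (cs (rf (nat_lit 2)) (nd (nat_lit 276) (nat_lit 0) (cs (lf (nat_lit 44) (nat_lit 253)) (rf (nat_lit 3)))))))) q53173 (by decide +kernel)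
def q53177 : Q := Q.p (nat_lit 0x50000100000000000800002000000000000000000000000000000000000000000000000000000000000000) (nat_lit 0x3b8000ae0002e0000200000000000000000000000000000000000000000000000000000000000000000000000000) (nat_lit 6)
theorem c53177 : QOK q53177 := cut [q15555, q53162, q53165, q53171] ⟨c15555, c53162, c53165, c53171, trivial⟩ (nd (nat_lit 339) (nat_lit 0) (cs (rf (nat_lit 0)) (cs (rf (nat_lit 1)) (cs (rf (nat_lit 2)) (rf (nat_lit 3)))))) q53177 (by decide +kernel)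
def q53332 : Q := Q.p (nat_lit 0x40000000000400000c00000000000000000000000000000000000000000000000000000000000000000000) (nat_lit 0x78000ff8001f8000fe0001fa700ff3800787001e0000700000400000000000000000000000000000000000000000000000) (nat_lit 14)
theorem c53332 : QOK q53332 := cut [q13458, q53179, q28165, q28168, q53198, q53202, q53208, q53212, q53243, q53312, q53245] ⟨c13458, c53179, c28165, c28168, c53198, c53202, c53208, c53212, c53243, c53312, c53245, trivial⟩ (nd (nat_lit 299) (nat_lit 0) (cs (rf (nat_lit 0)) (cs (rf (nat_lit 1)) (nd (nat_lit 300) (nat_lit 0) (cs (lf (nat_lit 21) (nat_lit 274)) (nd (nat_lit 301) (nat_lit 0) (cs (nd (nat_lit 280) (nat_lit 0) (cs (lf (nat_lit 16) (nat_lit 276)) (nd (nat_lit 324) (nat_lit 0) (cs (lf (nat_lit 4) (nat_lit 298)) (rf (nat_lit 2)))))) (cs (nd (nat_lit 302) (nat_lit 0) (cs (rf (nat_lit 3)) (cs (nd (nat_lit 325) (nat_lit 0) (cs (lf (nat_lit 4) (nat_lit 299)) (nd (nat_lit 303) (nat_lit 0) (cs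 (lf (nat_lit 5) (nat_lit 300)) (nd (nat_lit 321) (nat_lit 0) (cs (lf (nat_lit 10) (nat_lit 299)) (nd (nat_lit 278) (nat_lit 0) (cs (lf (nat_lit 23) (nat_lit 277)) (nd (nat_lit 343) (nat_lit 0) (cs (lf (nat_lit 30) (nat_lit 277)) (nd (nat_lit 304) (nat_lit 0) (cs (nd (nat_lit 282) (nat_lit 0) (cs (lf (nat_lit 17) (nat_lit 279)) (lf (nat_lit 16) (nat_lit 278)))) (lf (nat_lit 22) (nat_lit 278)))))))))))))) (cs (nd (nat_lit 279) (nat_lit 0) (cs (lf (nat_lit 17) (nat_lit 276)) (nd (nat_lit 325) (nat_lit 0) (cs (lf (nat_lit 4) (nat_lit 299)) (nd (nat_lit 303) (nat_lit 0) (cs (lf (nat_lit 5) (nat_lit 300)) (nd (nat_lit 278) (nat_lit 0) (cs (lf (nat_lit 18) (nat_lit 278)) (lf (nat_lit 23) (nat_lit 277)))))))))) (rf (nat_lit 4)))))) (cs (nd (nat_lit 302) (nat_lit 0) (cs (rf (nat_lit 4)) (cs (nd (nat_lit 281) (nat_lit 0) (cs (lf (nat_lit 16) (nat_lit 277)) (nd (nat_lit 303) (nat_lit 0) (cs (lf (nat_lit 17) (nat_lit 278)) (nd (nat_lit 277) (nat_lit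 0) (cs (lf (nat_lit 22) (nat_lit 277)) (nd (nat_lit 322) (nat_lit 0) (cs (rf (nat_lit 5)) (lf (nat_lit 11) (nat_lit 299)))))))))) (cs (nd (nat_lit 323) (nat_lit 0) (cs (lf (nat_lit 5) (nat_lit 298)) (nd (nat_lit 281) (nat_lit 0) (cs (lf (nat_lit 16) (nat_lit 277)) (nd (nat_lit 303) (nat_lit 0) (cs (lf (nat_lit 17) (nat_lit 278)) (rf (nat_lit 6)))))))) (rf (nat_lit 7)))))) (cs (rf (nat_lit 8)) (cs (rf (nat_lit 9)) (nd (nat_lit 323) (nat_lit 0) (cs (lf (nat_lit 5) (nat_lit 298)) (nd (nat_lit 278) (nat_lit 0) (cs (nd (nat_lit 279) (nat_lit 0) (cs (lf (nat_lit 17) (nat_lit 276)) (nd (nat_lit 256) (nat_lit 0) (cs (lf (nat_lit 42) (nat_lit 256)) (lf (nat_lit 24) (nat_lit 234)))))) (cs (nd (nat_lit 279) (nat_lit 0) (cs (lf (nat_lit 17) (nat_lit 276)) (nd (nat_lit 345) (nat_lit 0) (cs (lf (nat_lit 42) (nat_lit 278)) (nd (nat_lit 344) (nat_lit 0) (cs (lf (nat_lit 41) (nat_lit 278)) (nd (nat_lit 257) (nat_lit 0) (cs (lf (nat_lit 40) (nat_lit 256))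 (nd (nat_lit 235) (nat_lit 0) (cs (lf (nat_lit 36) (nat_lit 212)) (nd (nat_lit 236) (nat_lit 0) (cs (lf (nat_lit 34) (nat_lit 235)) (lf (nat_lit 35) (nat_lit 213)))))))))))))) (cs (nd (nat_lit 345) (nat_lit 0) (cs (lf (nat_lit 42) (nat_lit 278)) (rf (nat_lit 10)))) (nd (nat_lit 280) (nat_lit 0) (cs (lf (nat_lit 16) (nat_lit 276)) (nd (nat_lit 234) (nat_lit 0) (cs (lf (nat_lit 25) (nat_lit 234)) (nd (nat_lit 302) (nat_lit 0) (cs (lf (nat_lit 17) (nat_lit 277)) (nd (nat_lit 236) (nat_lit 0) (cs (nd (nat_lit 303) (nat_lit 0) (cs (lf (nat_lit 23) (nat_lit 277)) (rf (nat_lit 6)))) (lf (nat_lit 37) (nat_lit 235))))))))))))))))))))))))))) q53332 (by decide +kernel)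
def q53393 : Q := Q.p (nat_lit 0x70000000000000000000000000000000000000000000000000000000000000000000000000000000000000) (nat_lit 0xff000188000e00000000000000000000000000000000000000000000000000000000000000000000000000000000) (nat_lit 6)
theorem c53393 : QOK q53393 := cut [q31266, q52961, q53007, q25486] ⟨c31266, c52961, c53007, c25486, trivial⟩ (nd (nat_lit 343) (nat_lit 0) (cs (rf (nat_lit 0)) (cs (rf (nat_lit 1)) (cs (rf (nat_lit 2)) (nd (nat_lit 321) (nat_lit 0) (cs (lf (nat_lit 17) (nat_lit 318)) (rf (nat_lit 3)))))))) q53393 (by decide +kernel)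
def q53408 : Q := Q.p (nat_lit 0x70000080000000000800000000000000000000000000000000000000000000000000000000000000000000) (nat_lit 0x4000010000ee000180000600000200000000000000000000000000000000000000000000000000000000000000000000000000) (nat_lit 7)
theorem c53408 : QOK q53408 := cut [q31227] ⟨c31227, trivial⟩ (nd (nat_lit 362) (nat_lit 0) (cs (lf (nat_lit 37) (nat_lit 274)) (nd (nat_lit 384) (nat_lit 0) (cs (rf (nat_lit 0)) (lf (nat_lit 30) (nat_lit 318)))))) q53408 (by decide +kernel)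
def q53440 : Q := Q.p (nat_lit 0x70000000000000000000000000000000000000000000000000000000000000000000000000000000000000) (nat_lit 0xef000188000f00000000000000000000000000000000000000000000000000000000000000000000000000000000) (nat_lit 6)
theorem c53440 : QOK q53440 := cut [q31266, q52961, q53007, q30120] ⟨c31266, c52961, c53007, c30120, trivial⟩ (nd (nat_lit 343) (nat_lit 0) (cs (rf (nat_lit 0)) (cs (rf (nat_lit 1)) (cs (rf (nat_lit 2)) (nd (nat_lit 365) (nat_lit 0) (cs (lf (nat_lit 5) (nat_lit 340)) (rf (nat_lit 3)))))))) q53440 (by decide +kernel)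
def q53509 : Q := Q.p (nat_lit 0x50000000000000000800002000000000000000000000000000000000000000000000000000000000000000) (nat_lit 0xe0000fe0003e0000ff80002e000ff8000e00003000000000000000000000000000000000000000000000000000000000000000000000) (nat_lit 15)
theorem c53509 : QOK q53509 := cut [q53152, q53159, q53162, q53168, q53171, q53453, q43178, q53462, q53472, q29548, q53485, q53486, q42514, q15555] ⟨c53152, c53159, c53162, c53168, c53171, c53453, c43178, c53462, c53472, c29548, c53485, c53486, c42514, c15555, trivial⟩ (nd (nat_lit 320) (nat_lit 0) (cs (rf (nat_lit 0)) (cs (rf (nat_lit 1)) (cs (nd (nat_lit 339) (nat_lit 0) (cs (rf (nat_lit 2)) (cs (rf (nat_lit 3)) (cs (rf (nat_lit 4)) (nd (nat_lit 276) (nat_lit 0) (cs (lf (nat_lit 44) (nat_lit 253)) (rf (nat_lit 5)))))))) (cs (nd (nat_lit 364) (nat_lit 0) (cs (nd (nat_lit 298) (nat_lit 0) (cs (lf (nat_lit 45) (nat_lit 253)) (nd (nat_lit 365) (nat_lit 0) (cs (lf (nat_lit 29) (nat_lit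 298)) (nd (nat_lit 341) (nat_lit 0) (cs (lf (nat_lit 0) (nat_lit 339)) (nd (nat_lit 366) (nat_lit 0) (cs (lf (nat_lit 18) (nat_lit 341)) (nd (nat_lit 299) (nat_lit 0) (cs (lf (nat_lit 35) (nat_lit 276)) (nd (nat_lit 321) (nat_lit 0) (cs (lf (nat_lit 30) (nat_lit 298)) (rf (nat_lit 6)))))))))))))) (cs (nd (nat_lit 386) (nat_lit 0) (cs (nd (nat_lit 321) (nat_lit 0) (cs (lf (nat_lit 35) (nat_lit 298)) (rf (nat_lit 7)))) (cs (rf (nat_lit 8)) (nd (nat_lit 299) (nat_lit 0) (cs (rf (nat_lit 9)) (lf (nat_lit 34) (nat_lit 298))))))) (cs (rf (nat_lit 10)) (cs (nd (nat_lit 298) (nat_lit 0) (cs (lf (nat_lit 45) (nat_lit 253)) (nd (nat_lit 277) (nat_lit 0) (cs (lf (nat_lit 34) (nat_lit 276)) (nd (nat_lit 385) (nat_lit 0) (cs (lf (nat_lit 40) (nat_lit 297)) (nd (nat_lit 386) (nat_lit 0) (cs (lf (nat_lit 41) (nat_lit 319)) (nd (nat_lit 409) (nat_lit 0) (cs (lf (nat_lit 28) (nat_lit 320)) (nd (nat_lit 408) (nat_lit 0) (cs (lf (nat_lit 29) (nat_lit 342))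 (nd (nat_lit 410) (nat_lit 0) (cs (lf (nat_lit 18) (nat_lit 385)) (nd (nat_lit 341) (nat_lit 0) (cs (lf (nat_lit 47) (nat_lit 319)) (rf (nat_lit 11)))))))))))))))))) (cs (nd (nat_lit 298) (nat_lit 0) (cs (lf (nat_lit 45) (nat_lit 253)) (nd (nat_lit 363) (nat_lit 0) (cs (lf (nat_lit 41) (nat_lit 297)) (nd (nat_lit 299) (nat_lit 0) (cs (lf (nat_lit 35) (nat_lit 276)) (nd (nat_lit 321) (nat_lit 0) (cs (lf (nat_lit 30) (nat_lit 298)) (nd (nat_lit 339) (nat_lit 0) (cs (lf (nat_lit 14) (nat_lit 317)) (nd (nat_lit 318) (nat_lit 0) (cs (nd (nat_lit 362) (nat_lit 0) (cs (lf (nat_lit 18) (nat_lit 339)) (rf (nat_lit 12)))) (lf (nat_lit 8) (nat_lit 317)))))))))))))) (nd (nat_lit 298) (nat_lit 0) (cs (lf (nat_lit 45) (nat_lit 253)) (nd (nat_lit 365) (nat_lit 0) (cs (lf (nat_lit 29) (nat_lit 298)) (nd (nat_lit 339) (nat_lit 0) (cs (lf (nat_lit 2) (nat_lit 339)) (nd (nat_lit 363) (nat_lit 0) (cs (lf (nat_lit 41) (nat_lit 297)) (lf (nat_lit 21) (nat_lit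 339)))))))))))))))) (nd (nat_lit 339) (nat_lit 0) (cs (rf (nat_lit 13)) (cs (rf (nat_lit 2)) (cs (rf (nat_lit 4)) (rf (nat_lit 5))))))))))) q53509 (by decide +kernel)
def q53599 : Q := Q.p (nat_lit 0x50000100000000000c00002000000000000000000000000000000000000000000000000000000000000000) (nat_lit 0x1600007e0007e0001fe0007a0001ec000fc00007000008000000000000000000000000000000000000000000000000000000000000000) (nat_lit 11)
theorem c53599 : QOK q53599 := cut [q53483, q53485, q53571, q53590, q53596, q53558] ⟨c53483, c53485, c53571, c53590, c53596, c53558, trivial⟩ (nd (nat_lit 364) (nat_lit 0) (cs (rf (nat_lit 0)) (cs (rf (nat_lit 1)) (cs (nd (nat_lit 298) (nat_lit 0) (cs (lf (nat_lit 45) (nat_lit 253)) (nd (nat_lit 365) (nat_lit 0) (cs (lf (nat_lit 29) (nat_lit 298)) (nd (nat_lit 299) (nat_lit 0) (cs (lf (nat_lit 35) (nat_lit 276)) (nd (nat_lit 386) (nat_lit 0) (cs (lf (nat_lit 34) (nat_lit 298)) (nd (nat_lit 407) (nat_lit 0) (cs (lf (nat_lit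 40) (nat_lit 319)) (nd (nat_lit 408) (nat_lit 0) (cs (lf (nat_lit 41) (nat_lit 341)) (nd (nat_lit 343) (nat_lit 0) (cs (lf (nat_lit 30) (nat_lit 342)) (nd (nat_lit 341) (nat_lit 0) (cs (lf (nat_lit 5) (nat_lit 340)) (lf (nat_lit 47) (nat_lit 319)))))))))))))))))) (cs (nd (nat_lit 321) (nat_lit 0) (cs (rf (nat_lit 2)) (cs (nd (nat_lit 299) (nat_lit 0) (cs (lf (nat_lit 30) (nat_lit 298)) (nd (nat_lit 277) (nat_lit 0) (cs (lf (nat_lit 36) (nat_lit 254)) (nd (nat_lit 300) (nat_lit 0) (cs (lf (nat_lit 2) (nat_lit 274)) (nd (nat_lit 301) (nat_lit 0) (cs (lf (nat_lit 6) (nat_lit 298)) (nd (nat_lit 319) (nat_lit 0) (cs (lf (nat_lit 12) (nat_lit 296)) (lf (nat_lit 15) (nat_lit 297)))))))))))) (rf (nat_lit 3))))) (cs (rf (nat_lit 4)) (nd (nat_lit 298) (nat_lit 0) (cs (lf (nat_lit 45) (nat_lit 253)) (nd (nat_lit 365) (nat_lit 0) (cs (lf (nat_lit 29) (nat_lit 298)) (rf (nat_lit 5)))))))))))) q53599 (by decide +kernel)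
def q53605 : Q := Q.p (nat_lit 0x50000100000000000800002000000000000000000000000000000000000000000000000000000000000000) (nat_lit 0x1e00007e0003e0001fe0007a0001e8000fe00006000008000000000000000000000000000000000000000000000000000000000000000) (nat_lit 11)
theorem c53605 : QOK q53605 := cut [q53596, q53560, q53571, q53590, q29548] ⟨c53596, c53560, c53571, c53590, c29548, trivial⟩ (nd (nat_lit 364) (nat_lit 0) (cs (rf (nat_lit 0)) (cs (nd (nat_lit 298) (nat_lit 0) (cs (lf (nat_lit 46) (nat_lit 275)) (rf (nat_lit 1)))) (cs (nd (nat_lit 321) (nat_lit 0) (cs (rf (nat_lit 2)) (cs (rf (nat_lit 3)) (nd (nat_lit 297) (nat_lit 0) (cs (lf (nat_lit 27) (nat_lit 253)) (nd (nat_lit 386) (nat_lit 0) (cs (lf (nat_lit 35) (nat_lit 298)) (rf (nat_lit 4))))))))) (nd (nat_lit 297) (nat_lit 0) (cs (lf (nat_lit 27) (nat_lit 253)) (lf (nat_lit 45) (nat_lit 275)))))))) q53605 (by decide +kernel)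
def q53621 : Q := Q.p (nat_lit 0x70000100000000000800002000000000000000000000000000000000000000000000000000000000000000) (nat_lit 0x20000080000f0000380001ee0001c00003000008000000000000000000000000000000000000000000000000000000000000000) (nat_lit 8)
theorem c53621 : QOK q53621 := cut [q53550, q53612, q53616] ⟨c53550, c53612, c53616, trivial⟩ (nd (nat_lit 343) (nat_lit 0) (cs (rf (nat_lit 0)) (cs (rf (nat_lit 1)) (nd (nat_lit 317) (nat_lit 0) (cs (lf (nat_lit 22) (nat_lit 317)) (nd (nat_lit 276) (nat_lit 0) (cs (lf (nat_lit 44) (nat_lit 253)) (nd (nat_lit 366) (nat_lit 0) (cs (lf (nat_lit 4) (nat_lit 340)) (nd (nat_lit 344) (nat_lit 0) (cs (lf (nat_lit 5) (nat_lit 341)) (rf (nat_lit 2))))))))))))) q53621 (by decide +kernel)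
def q53654 : Q := Q.p (nat_lit 0x70000000000000000000000000000000000000000000000000000000000000000000000000000000000000) (nat_lit 0x1fc0018e000738000000000000000000000000000000000000000000000000000000000000000000000000000000) (nat_lit 7)
theorem c53654 : QOK q53654 := cut [q25476, q31287, q31292, q52751] ⟨c25476, c31287, c31292, c52751, trivial⟩ (nd (nat_lit 339) (nat_lit 0) (cs (rf (nat_lit 0)) (cs (rf (nat_lit 1)) (cs (rf (nat_lit 2)) (rf (nat_lit 3)))))) q53654 (by decide +kernel)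
def q53701 : Q := Q.p (nat_lit 0x70000100000000000800002000000000000000000000000000000000000000000000000000000000000000) (nat_lit 0x1fc0018e0000fc000400001000000000000000000000000000000000000000000000000000000000000000000000) (nat_lit 7)
theorem c53701 : QOK q53701 := cut [q31292, q52853, q53696] ⟨c31292, c52853, c53696, trivial⟩ (nd (nat_lit 339) (nat_lit 0) (cs (rf (nat_lit 0)) (cs (rf (nat_lit 1)) (cs (nd (nat_lit 276) (nat_lit 0) (cs (lf (nat_lit 44) (nat_lit 253)) (rf (nat_lit 2)))) (nd (nat_lit 276) (nat_lit 0) (cs (lf (nat_lit 44) (nat_lit 253)) (nd (nat_lit 360) (nat_lit 0) (cs (lf (nat_lit 10) (nat_lit 338)) (nd (nat_lit 338) (nat_lit 0) (cs (lf (nat_lit 11) (nat_lit 337)) (lf (nat_lit 16) (nat_lit 316)))))))))))) q53701 (by decide +kernel)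
def q53852 : Q := Q.p (nat_lit 0x50000000000000000800002000000000000000000000000000000000000000000000000000000000000000) (nat_lit 0x10000fc0007f0001fc000ff8003ac001df80016c0005300000400000000000000000000000000000000000000000000000000000000000000) (nat_lit 15)
theorem c53852 : QOK q53852 := cut [q53404, q53706, q53707, q53659, q53714, q53448, q43641, q30208, q53831, q53848, q53446, q53624, q53837, q53696, q53795] ⟨c53404, c53706, c53707, c53659, c53714, c53448, c43641, c30208, c53831, c53848, c53446, c53624, c53837, c53696, c53795, trivial⟩ (nd (nat_lit 319) (nat_lit 0) (cs (rf (nat_lit 0)) (cs (rf (nat_lit 1)) (cs (rf (nat_lit 2)) (nd (nat_lit 341) (nat_lit 0) (cs (rf (nat_lit 3)) (cs (rf (nat_lit 4)) (cs (nd (nat_lit 362) (nat_lit 0) (cs (nd (nat_lit 384) (nat_lit 0) (cs (lf (nat_lit 30) (nat_lit 318)) (nd (nat_lit 343) (nat_lit 0) (cs (lf (nat_lit 11) (nat_lit 339)) (rf (nat_lit 5)))))) (cs (nd (nat_lit 384) (nat_lit 0) (cs (lf (nat_lit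 30) (nat_lit 318)) (nd (nat_lit 385) (nat_lit 0) (cs (nd (nat_lit 318) (nat_lit 0) (cs (lf (nat_lit 29) (nat_lit 318)) (rf (nat_lit 6)))) (nd (nat_lit 386) (nat_lit 0) (cs (nd (nat_lit 408) (nat_lit 0) (cs (lf (nat_lit 26) (nat_lit 319)) (lf (nat_lit 44) (nat_lit 319)))) (nd (nat_lit 361) (nat_lit 0) (cs (lf (nat_lit 18) (nat_lit 361)) (nd (nat_lit 360) (nat_lit 0) (cs (lf (nat_lit 21) (nat_lit 360)) (lf (nat_lit 12) (nat_lit 337)))))))))))) (cs (nd (nat_lit 384) (nat_lit 0) (cs (lf (nat_lit 30) (nat_lit 318)) (nd (nat_lit 318) (nat_lit 0) (cs (rf (nat_lit 6)) (nd (nat_lit 363) (nat_lit 0) (cs (nd (nat_lit 343) (nat_lit 0) (cs (lf (nat_lit 6) (nat_lit 340)) (nd (nat_lit 365) (nat_lit 0) (cs (lf (nat_lit 5) (nat_lit 340)) (nd (nat_lit 383) (nat_lit 0) (cs (lf (nat_lit 41) (nat_lit 317)) (lf (nat_lit 7) (nat_lit 361)))))))) (cs (nd (nat_lit 343) (nat_lit 0) (cs (lf (nat_lit 18) (nat_lit 318)) (nd (nat_lit 365) (nat_lit 0) (cs (lf (nat_lit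 5) (nat_lit 340)) (nd (nat_lit 385) (nat_lit 0) (cs (lf (nat_lit 42) (nat_lit 318)) (nd (nat_lit 320) (nat_lit 0) (cs (lf (nat_lit 35) (nat_lit 297)) (nd (nat_lit 387) (nat_lit 0) (cs (lf (nat_lit 42) (nat_lit 320)) (nd (nat_lit 386) (nat_lit 0) (cs (lf (nat_lit 29) (nat_lit 319)) (lf (nat_lit 18) (nat_lit 362)))))))))))))) (nd (nat_lit 385) (nat_lit 0) (cs (lf (nat_lit 42) (nat_lit 318)) (nd (nat_lit 320) (nat_lit 0) (cs (lf (nat_lit 35) (nat_lit 297)) (nd (nat_lit 386) (nat_lit 0) (cs (lf (nat_lit 29) (nat_lit 319)) (nd (nat_lit 387) (nat_lit 0) (cs (lf (nat_lit 18) (nat_lit 362)) (nd (nat_lit 409) (nat_lit 0) (cs (lf (nat_lit 5) (nat_lit 384)) (lf (nat_lit 26) (nat_lit 320))))))))))))))))))) (nd (nat_lit 343) (nat_lit 0) (cs (lf (nat_lit 11) (nat_lit 339)) (nd (nat_lit 365) (nat_lit 0) (cs (lf (nat_lit 5) (nat_lit 340)) (nd (nat_lit 344) (nat_lit 0) (cs (lf (nat_lit 10) (nat_lit 340)) (nd (nat_lit 322) (nat_lit 0) (cs (lf (nat_lit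 17) (nat_lit 319)) (nd (nat_lit 278) (nat_lit 0) (cs (lf (nat_lit 37) (nat_lit 277)) (nd (nat_lit 387) (nat_lit 0) (cs (lf (nat_lit 30) (nat_lit 321)) (nd (nat_lit 320) (nat_lit 0) (cs (lf (nat_lit 18) (nat_lit 319)) (rf (nat_lit 7)))))))))))))))))))) (cs (rf (nat_lit 8)) (cs (rf (nat_lit 9)) (cs (nd (nat_lit 339) (nat_lit 0) (cs (rf (nat_lit 10)) (cs (rf (nat_lit 11)) (rf (nat_lit 12))))) (nd (nat_lit 339) (nat_lit 0) (cs (rf (nat_lit 10)) (cs (rf (nat_lit 13)) (rf (nat_lit 14)))))))))))))))) q53852 (by decide +kernel)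
def q54049 : Q := Q.p (nat_lit 0x18000000000000000c00002000000000000000000000000000000000000000000000000000000000000000) (nat_lit 0x800003e8000fe000ffe001e70007bc000ce0003380000e00000800000000000000000000000000000000000000000000000000000000) (nat_lit 15)
theorem c54049 : QOK q54049 := cut [q52856, q53995, q31285, q52717, q52720, q53967, q54000, q23197, q54025, q54027, q54033, q43996, q54041, q54044, q54048] ⟨c52856, c53995, c31285, c52717, c52720, c53967, c54000, c23197, c54025, c54027, c54033, c43996, c54041, c54044, c54048, trivial⟩ (nd (nat_lit 341) (nat_lit 0) (cs (rf (nat_lit 0)) (cs (rf (nat_lit 1)) (cs (nd (nat_lit 338) (nat_lit 0) (cs (rf (nat_lit 2)) (cs (rf (nat_lit 3)) (cs (rf (nat_lit 4)) (nd (nat_lit 316) (nat_lit 0) (cs (lf (nat_lit 23) (nat_lit 315)) (nd (nat_lit 294) (nat_lit 0) (cs (rf (nat_lit 5)) (cs (nd (nat_lit 363) (nat_lit 0) (cs (lf (nat_lit 5) (nat_lit 338)) (rf (nat_lit 6)))) (cs (nd (nat_lit 360) (nat_lit 0)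 (cs (lf (nat_lit 11) (nat_lit 337)) (nd (nat_lit 363) (nat_lit 0) (cs (lf (nat_lit 5) (nat_lit 338)) (nd (nat_lit 273) (nat_lit 0) (cs (lf (nat_lit 34) (nat_lit 272)) (nd (nat_lit 271) (nat_lit 0) (cs (lf (nat_lit 46) (nat_lit 271)) (nd (nat_lit 383) (nat_lit 0) (cs (lf (nat_lit 28) (nat_lit 294)) (nd (nat_lit 319) (nat_lit 0) (cs (lf (nat_lit 17) (nat_lit 316)) (nd (nat_lit 382) (nat_lit 0) (cs (lf (nat_lit 29) (nat_lit 316)) (nd (nat_lit 381) (nat_lit 0) (cs (lf (nat_lit 41) (nat_lit 315)) (nd (nat_lit 384) (nat_lit 0) (cs (lf (nat_lit 16) (nat_lit 359)) (nd (nat_lit 406) (nat_lit 0) (cs (lf (nat_lit 39) (nat_lit 318)) (lf (nat_lit 5) (nat_lit 381)))))))))))))))))))))) (nd (nat_lit 359) (nat_lit 0) (cs (lf (nat_lit 10) (nat_lit 337)) (nd (nat_lit 363) (nat_lit 0) (cs (lf (nat_lit 5) (nat_lit 338)) (nd (nat_lit 272) (nat_lit 0) (cs (lf (nat_lit 29) (nat_lit 272)) (nd (nat_lit 250) (nat_lit 0) (cs (lf (nat_lit 28) (nat_lit 250)) (rf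 (nat_lit 7)))))))))))))))))))) (cs (rf (nat_lit 8)) (cs (nd (nat_lit 338) (nat_lit 0) (cs (rf (nat_lit 4)) (cs (nd (nat_lit 319) (nat_lit 0) (cs (lf (nat_lit 17) (nat_lit 316)) (nd (nat_lit 315) (nat_lit 0) (cs (lf (nat_lit 22) (nat_lit 315)) (nd (nat_lit 337) (nat_lit 0) (cs (lf (nat_lit 23) (nat_lit 314)) (rf (nat_lit 9)))))))) (cs (rf (nat_lit 10)) (nd (nat_lit 319) (nat_lit 0) (cs (lf (nat_lit 17) (nat_lit 316)) (nd (nat_lit 315) (nat_lit 0) (cs (lf (nat_lit 22) (nat_lit 315)) (nd (nat_lit 337) (nat_lit 0) (cs (lf (nat_lit 23) (nat_lit 314)) (nd (nat_lit 362) (nat_lit 0) (cs (lf (nat_lit 5) (nat_lit 337)) (nd (nat_lit 384) (nat_lit 0) (cs (lf (nat_lit 30) (nat_lit 318)) (nd (nat_lit 361) (nat_lit 0) (cs (rf (nat_lit 11)) (lf (nat_lit 0) (nat_lit 336)))))))))))))))))) (cs (rf (nat_lit 12)) (cs (nd (nat_lit 338) (nat_lit 0) (cs (rf (nat_lit 2)) (cs (rf (nat_lit 3)) (cs (rf (nat_lit 4)) (nd (nat_lit 363) (nat_lit 0) (cs (lf (nat_lit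 5) (nat_lit 338)) (nd (nat_lit 359) (nat_lit 0) (cs (lf (nat_lit 10) (nat_lit 337)) (rf (nat_lit 13)))))))))) (rf (nat_lit 14)))))))))) q54049 (by decide +kernel)
def q54075 : Q := Q.p (nat_lit 0x18000000000000000c00002000000000000000000000000000000000000000000000000000000000000000) (nat_lit 0x8000030000fde001e7000ffe0001e0000380000e00000000000000000000000000000000000000000000000000000000000000) (nat_lit 13)
theorem c54075 : QOK q54075 := cut [q25522, q53965, q53994, q54044, q54059, q13291, q54065, q25370] ⟨c25522, c53965, c53994, c54044, c54059, c13291, c54065, c25370, trivial⟩ (nd (nat_lit 318) (nat_lit 0) (cs (lf (nat_lit 32) (nat_lit 252)) (nd (nat_lit 338) (nat_lit 0) (cs (rf (nat_lit 0)) (cs (rf (nat_lit 1)) (cs (rf (nat_lit 2)) (nd (nat_lit 341) (nat_lit 0) (cs (rf (nat_lit 3)) (cs (rf (nat_lit 4)) (cs (nd (nat_lit 320) (nat_lit 0) (cs (lf (nat_lit 16) (nat_lit 316)) (nd (nat_lit 359) (nat_lit 0) (cs (lf (nat_lit 10) (nat_lit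 337)) (nd (nat_lit 342) (nat_lit 0) (cs (rf (nat_lit 5)) (lf (nat_lit 17) (nat_lit 317)))))))) (cs (nd (nat_lit 359) (nat_lit 0) (cs (lf (nat_lit 10) (nat_lit 337)) (nd (nat_lit 315) (nat_lit 0) (cs (lf (nat_lit 22) (nat_lit 315)) (rf (nat_lit 6)))))) (nd (nat_lit 363) (nat_lit 0) (cs (lf (nat_lit 5) (nat_lit 338)) (nd (nat_lit 385) (nat_lit 0) (cs (lf (nat_lit 42) (nat_lit 318)) (nd (nat_lit 359) (nat_lit 0) (cs (lf (nat_lit 10) (nat_lit 337)) (nd (nat_lit 316) (nat_lit 0) (cs (lf (nat_lit 23) (nat_lit 315)) (nd (nat_lit 342) (nat_lit 0) (cs (lf (nat_lit 22) (nat_lit 316)) (rf (nat_lit 7))))))))))))))))))))))) q54075 (by decide +kernel)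
def q54175 : Q := Q.p (nat_lit 0x18000060000000000c00000000000000000000000000000000000000000000000000000000000000000000) (nat_lit 0x100000400007f8000fc0007f8000e300039c000470000300000400000000000000000000000000000000000000000000000000000000000000) (nat_lit 13)
theorem c54175 : QOK q54175 := cut [q43323, q54093, q54129, q54150, q43568, q54128, q54088] ⟨c43323, c54093, c54129, c54150, c43568, c54128, c54088, trivial⟩ (nd (nat_lit 316) (nat_lit 0) (cs (rf (nat_lit 0)) (cs (rf (nat_lit 1)) (nd (nat_lit 383) (nat_lit 0) (cs (nd (nat_lit 361) (nat_lit 0) (cs (lf (nat_lit 30) (nat_lit 317)) (lf (nat_lit 47) (nat_lit 294)))) (cs (nd (nat_lit 384) (nat_lit 0) (cs (nd (nat_lit 362) (nat_lit 0) (cs (lf (nat_lit 41) (nat_lit 317)) (lf (nat_lit 42) (nat_lit 317)))) (cs (nd (nat_lit 385) (nat_lit 0) (cs (nd (nat_lit 362) (nat_lit 0) (cs (lf (nat_lit 29) (nat_lit 318)) (lf (nat_lit 41) (nat_lit 317)))) (cs (nd (nat_lit 341) (nat_lit 0) (cs (lf (nat_lit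 18) (nat_lit 316)) (nd (nat_lit 405) (nat_lit 0) (cs (nd (nat_lit 386) (nat_lit 0) (cs (lf (nat_lit 11) (nat_lit 382)) (nd (nat_lit 408) (nat_lit 0) (cs (lf (nat_lit 5) (nat_lit 383)) (nd (nat_lit 364) (nat_lit 0) (cs (lf (nat_lit 17) (nat_lit 361)) (nd (nat_lit 363) (nat_lit 0) (cs (lf (nat_lit 12) (nat_lit 360)) (lf (nat_lit 24) (nat_lit 319)))))))))) (lf (nat_lit 38) (nat_lit 317)))))) (nd (nat_lit 341) (nat_lit 0) (cs (lf (nat_lit 18) (nat_lit 316)) (rf (nat_lit 2))))))) (cs (nd (nat_lit 341) (nat_lit 0) (cs (lf (nat_lit 18) (nat_lit 316)) (nd (nat_lit 385) (nat_lit 0) (cs (rf (nat_lit 2)) (cs (nd (nat_lit 386) (nat_lit 0) (cs (nd (nat_lit 408) (nat_lit 0) (cs (lf (nat_lit 5) (nat_lit 383)) (nd (nat_lit 363) (nat_lit 0) (cs (lf (nat_lit 24) (nat_lit 319)) (nd (nat_lit 430) (nat_lit 0) (cs (lf (nat_lit 42) (nat_lit 363)) (lf (nat_lit 45) (nat_lit 341)))))))) (cs (nd (nat_lit 405) (nat_lit 0) (cs (lf (nat_lit 11) (nat_lit 382)) (nd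 (nat_lit 408) (nat_lit 0) (cs (lf (nat_lit 5) (nat_lit 383)) (nd (nat_lit 319) (nat_lit 0) (cs (lf (nat_lit 26) (nat_lit 319)) (nd (nat_lit 321) (nat_lit 0) (cs (nd (nat_lit 387) (nat_lit 0) (cs (lf (nat_lit 10) (nat_lit 383)) (nd (nat_lit 365) (nat_lit 0) (cs (lf (nat_lit 17) (nat_lit 362)) (lf (nat_lit 37) (nat_lit 320)))))) (lf (nat_lit 7) (nat_lit 317)))))))))) (cs (nd (nat_lit 404) (nat_lit 0) (cs (lf (nat_lit 10) (nat_lit 382)) (nd (nat_lit 382) (nat_lit 0) (cs (lf (nat_lit 11) (nat_lit 381)) (nd (nat_lit 364) (nat_lit 0) (cs (lf (nat_lit 17) (nat_lit 361)) (lf (nat_lit 16) (nat_lit 360)))))))) (nd (nat_lit 404) (nat_lit 0) (cs (lf (nat_lit 10) (nat_lit 382)) (nd (nat_lit 382) (nat_lit 0) (cs (lf (nat_lit 11) (nat_lit 381)) (nd (nat_lit 359) (nat_lit 0) (cs (lf (nat_lit 22) (nat_lit 359)) (rf (nat_lit 3)))))))))))) (cs (nd (nat_lit 386) (nat_lit 0) (cs (rf (nat_lit 4)) (cs (rf (nat_lit 3)) (nd (nat_lit 405) (nat_lit 0) (cs (lf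 (nat_lit 11) (nat_lit 382)) (nd (nat_lit 365) (nat_lit 0) (cs (lf (nat_lit 16) (nat_lit 361)) (nd (nat_lit 387) (nat_lit 0) (cs (lf (nat_lit 17) (nat_lit 362)) (lf (nat_lit 10) (nat_lit 383))))))))))) (nd (nat_lit 363) (nat_lit 0) (cs (lf (nat_lit 42) (nat_lit 318)) (nd (nat_lit 319) (nat_lit 0) (cs (lf (nat_lit 41) (nat_lit 318)) (nd (nat_lit 320) (nat_lit 0) (cs (lf (nat_lit 6) (nat_lit 317)) (lf (nat_lit 35) (nat_lit 297)))))))))))))) (nd (nat_lit 341) (nat_lit 0) (cs (lf (nat_lit 18) (nat_lit 316)) (nd (nat_lit 385) (nat_lit 0) (cs (rf (nat_lit 2)) (cs (nd (nat_lit 406) (nat_lit 0) (cs (lf (nat_lit 44) (nat_lit 317)) (nd (nat_lit 363) (nat_lit 0) (cs (rf (nat_lit 5)) (lf (nat_lit 36) (nat_lit 318)))))) (nd (nat_lit 362) (nat_lit 0) (cs (lf (nat_lit 29) (nat_lit 318)) (lf (nat_lit 42) (nat_lit 317))))))))))))) (nd (nat_lit 341) (nat_lit 0) (cs (lf (nat_lit 18) (nat_lit 316)) (nd (nat_lit 294) (nat_lit 0) (cs (rf (nat_lit 6)) (lf (nat_lit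 43) (nat_lit 294)))))))))))) q54175 (by decide +kernel)
def q54369 : Q := Q.p (nat_lit 0x18000000000000000c00002000000000000000000000000000000000000000000000000000000000000000) (nat_lit 0x400001c0000fc000ff0003fe000070003fe0001f00033c0000700001400000000000000000000000000000000000000000000000000000000) (nat_lit 15)
theorem c54369 : QOK q54369 := cut [q54229, q54231, q15887, q54293, q54241, q54250, q54254, q54243, q54298, q42973, q43309, q42561, q54363, q54368] ⟨c54229, c54231, c15887, c54293, c54241, c54250, c54254, c54243, c54298, c42973, c43309, c42561, c54363, c54368, trivial⟩ (nd (nat_lit 338) (nat_lit 0) (cs (rf (nat_lit 0)) (cs (nd (nat_lit 361) (nat_lit 0) (cs (nd (nat_lit 296) (nat_lit 0) (cs (rf (nat_lit 1)) (lf (nat_lit 38) (nat_lit 273)))) (cs (nd (nat_lit 294) (nat_lit 0) (cs (nd (nat_lit 296) (nat_lit 0) (cs (rf (nat_lit 2)) (lf (nat_lit 38) (nat_lit 273)))) (nd (nat_lit 316) (nat_lit 0) (cs (lf (nat_lit 24) (nat_lit 272))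 (nd (nat_lit 383) (nat_lit 0) (cs (lf (nat_lit 42) (nat_lit 316)) (lf (nat_lit 27) (nat_lit 294)))))))) (cs (rf (nat_lit 3)) (cs (nd (nat_lit 383) (nat_lit 0) (cs (rf (nat_lit 4)) (cs (rf (nat_lit 5)) (cs (rf (nat_lit 6)) (nd (nat_lit 317) (nat_lit 0) (cs (nd (nat_lit 382) (nat_lit 0) (cs (lf (nat_lit 41) (nat_lit 316)) (nd (nat_lit 384) (nat_lit 0) (cs (lf (nat_lit 29) (nat_lit 317)) (nd (nat_lit 316) (nat_lit 0) (cs (lf (nat_lit 47) (nat_lit 294)) (nd (nat_lit 315) (nat_lit 0) (cs (lf (nat_lit 0) (nat_lit 314)) (nd (nat_lit 360) (nat_lit 0) (cs (rf (nat_lit 7)) (lf (nat_lit 47) (nat_lit 293)))))))))))) (cs (nd (nat_lit 384) (nat_lit 0) (cs (lf (nat_lit 29) (nat_lit 317)) (nd (nat_lit 295) (nat_lit 0) (cs (lf (nat_lit 28) (nat_lit 295)) (nd (nat_lit 294) (nat_lit 0) (cs (lf (nat_lit 47) (nat_lit 272)) (lf (nat_lit 46) (nat_lit 294)))))))) (cs (rf (nat_lit 8)) (nd (nat_lit 294) (nat_lit 0) (cs (lf (nat_lit 46) (nat_lit 294)) (nd (nat_lit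 382) (nat_lit 0) (cs (lf (nat_lit 41) (nat_lit 316)) (nd (nat_lit 295) (nat_lit 0) (cs (lf (nat_lit 40) (nat_lit 294)) (lf (nat_lit 47) (nat_lit 272)))))))))))))))) (nd (nat_lit 383) (nat_lit 0) (cs (rf (nat_lit 6)) (cs (nd (nat_lit 317) (nat_lit 0) (cs (rf (nat_lit 8)) (cs (nd (nat_lit 362) (nat_lit 0) (cs (nd (nat_lit 363) (nat_lit 0) (cs (lf (nat_lit 18) (nat_lit 338)) (nd (nat_lit 384) (nat_lit 0) (cs (lf (nat_lit 42) (nat_lit 317)) (nd (nat_lit 318) (nat_lit 0) (cs (lf (nat_lit 36) (nat_lit 295)) (nd (nat_lit 319) (nat_lit 0) (cs (lf (nat_lit 6) (nat_lit 316)) (nd (nat_lit 385) (nat_lit 0) (cs (lf (nat_lit 29) (nat_lit 318)) (rf (nat_lit 9)))))))))))) (cs (nd (nat_lit 296) (nat_lit 0) (cs (nd (nat_lit 384) (nat_lit 0) (cs (lf (nat_lit 29) (nat_lit 317)) (nd (nat_lit 363) (nat_lit 0) (cs (lf (nat_lit 18) (nat_lit 338)) (nd (nat_lit 382) (nat_lit 0) (cs (lf (nat_lit 41) (nat_lit 316)) (lf (nat_lit 12) (nat_lit 359)))))))) (lf (nat_lit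 37) (nat_lit 295)))) (cs (nd (nat_lit 382) (nat_lit 0) (cs (lf (nat_lit 41) (nat_lit 316)) (rf (nat_lit 10)))) (nd (nat_lit 382) (nat_lit 0) (cs (lf (nat_lit 41) (nat_lit 316)) (nd (nat_lit 380) (nat_lit 0) (cs (lf (nat_lit 13) (nat_lit 358)) (nd (nat_lit 384) (nat_lit 0) (cs (lf (nat_lit 42) (nat_lit 317)) (nd (nat_lit 318) (nat_lit 0) (cs (lf (nat_lit 36) (nat_lit 295)) (nd (nat_lit 319) (nat_lit 0) (cs (lf (nat_lit 6) (nat_lit 316)) (rf (nat_lit 11)))))))))))))))) (nd (nat_lit 296) (nat_lit 0) (cs (lf (nat_lit 34) (nat_lit 295)) (lf (nat_lit 33) (nat_lit 273))))))) (nd (nat_lit 318) (nat_lit 0) (cs (lf (nat_lit 30) (nat_lit 317)) (lf (nat_lit 37) (nat_lit 273)))))))))))) (cs (rf (nat_lit 12)) (rf (nat_lit 13)))))) q54369 (by decide +kernel)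
def q54461 : Q := Q.p (nat_lit 0x18000020000000000c00002000000000000000000000000000000000000000000000000000000000000000) (nat_lit 0x800003f8000fe0007f8000e40007dc000d60003100000400000000000000000000000000000000000000000000000000000000000000) (nat_lit 14)
theorem c54461 : QOK q54461 := cut [q53995, q54419, q54421, q43323, q54436, q16814, q54450] ⟨c53995, c54419, c54421, c43323, c54436, c16814, c54450, trivial⟩ (nd (nat_lit 341) (nat_lit 0) (cs (rf (nat_lit 0)) (cs (rf (nat_lit 1)) (cs (rf (nat_lit 2)) (nd (nat_lit 318) (nat_lit 0) (cs (lf (nat_lit 32) (nat_lit 252)) (nd (nat_lit 316) (nat_lit 0) (cs (rf (nat_lit 3)) (nd (nat_lit 338) (nat_lit 0) (cs (rf (nat_lit 4)) (cs (nd (nat_lit 319) (nat_lit 0) (cs (lf (nat_lit 6) (nat_lit 316)) (nd (nat_lit 294) (nat_lit 0) (cs (lf (nat_lit 23) (nat_lit 293)) (rf (nat_lit 5)))))) (nd (nat_lit 363) (nat_lit 0) (cs (lf (nat_lit 5) (nat_lit 338)) (nd (nat_lit 384) (nat_lit 0) (cs (nd (nat_lit 385)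 (nat_lit 0) (cs (lf (nat_lit 42) (nat_lit 318)) (nd (nat_lit 319) (nat_lit 0) (cs (lf (nat_lit 41) (nat_lit 318)) (lf (nat_lit 6) (nat_lit 316)))))) (cs (nd (nat_lit 360) (nat_lit 0) (cs (lf (nat_lit 11) (nat_lit 337)) (nd (nat_lit 319) (nat_lit 0) (cs (lf (nat_lit 6) (nat_lit 316)) (nd (nat_lit 293) (nat_lit 0) (cs (lf (nat_lit 22) (nat_lit 293)) (nd (nat_lit 385) (nat_lit 0) (cs (lf (nat_lit 42) (nat_lit 318)) (nd (nat_lit 382) (nat_lit 0) (cs (lf (nat_lit 30) (nat_lit 316)) (nd (nat_lit 381) (nat_lit 0) (cs (lf (nat_lit 41) (nat_lit 315)) (nd (nat_lit 383) (nat_lit 0) (cs (lf (nat_lit 29) (nat_lit 316)) (lf (nat_lit 16) (nat_lit 359)))))))))))))))) (cs (nd (nat_lit 360) (nat_lit 0) (cs (lf (nat_lit 11) (nat_lit 337)) (nd (nat_lit 319) (nat_lit 0) (cs (lf (nat_lit 6) (nat_lit 316)) (nd (nat_lit 293) (nat_lit 0) (cs (lf (nat_lit 22) (nat_lit 293)) (rf (nat_lit 6)))))))) (nd (nat_lit 360) (nat_lit 0) (cs (lf (nat_lit 11) (nat_lit 337))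 (nd (nat_lit 385) (nat_lit 0) (cs (lf (nat_lit 42) (nat_lit 318)) (rf (nat_lit 6))))))))))))))))))))))) q54461 (by decide +kernel)
def q54505 : Q := Q.p (nat_lit 0x1c000040000000000c00000000000000000000000000000000000000000000000000000000000000000000) (nat_lit 0x1c0000f80003e0001e0000fb80000f0001300000c00002000000000000000000000000000000000000000000000000000000000) (nat_lit 12)
theorem c54505 : QOK q54505 := cut [q54044, q54065, q54396, q53967, q53968, q53981, q54504] ⟨c54044, c54065, c54396, c53967, c53968, c53981, c54504, trivial⟩ (nd (nat_lit 341) (nat_lit 0) (cs (rf (nat_lit 0)) (cs (rf (nat_lit 1)) (cs (rf (nat_lit 2)) (cs (nd (nat_lit 363) (nat_lit 0) (cs (lf (nat_lit 5) (nat_lit 338)) (nd (nat_lit 385) (nat_lit 0) (cs (lf (nat_lit 42) (nat_lit 318)) (nd (nat_lit 316) (nat_lit 0) (cs (lf (nat_lit 23) (nat_lit 315)) (nd (nat_lit 294) (nat_lit 0) (cs (rf (nat_lit 3)) (cs (nd (nat_lit 319) (nat_lit 0) (cs (lf (nat_lit 17) (nat_lit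 316)) (nd (nat_lit 293) (nat_lit 0) (cs (nd (nat_lit 273) (nat_lit 0) (cs (lf (nat_lit 9) (nat_lit 271)) (rf (nat_lit 4)))) (lf (nat_lit 20) (nat_lit 293)))))) (cs (nd (nat_lit 319) (nat_lit 0) (cs (lf (nat_lit 17) (nat_lit 316)) (nd (nat_lit 384) (nat_lit 0) (cs (lf (nat_lit 41) (nat_lit 318)) (nd (nat_lit 386) (nat_lit 0) (cs (lf (nat_lit 29) (nat_lit 319)) (nd (nat_lit 317) (nat_lit 0) (cs (lf (nat_lit 23) (nat_lit 293)) (nd (nat_lit 361) (nat_lit 0) (cs (lf (nat_lit 42) (nat_lit 294)) (nd (nat_lit 362) (nat_lit 0) (cs (lf (nat_lit 47) (nat_lit 295)) (lf (nat_lit 18) (nat_lit 361)))))))))))))) (rf (nat_lit 5)))))))))))) (rf (nat_lit 6))))))) q54505 (by decide +kernel)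
def q54604 : Q := Q.p (nat_lit 0x1c000000000000000c00002000000000000000000000000000000000000000000000000000000000000000) (nat_lit 0x100000c0000030000e0000180000200000000000000000000000000000000000000000000000000000000000000000000) (nat_lit 6)
theorem c54604 : QOK q54604 := cut [q54603] ⟨c54603, trivial⟩ (nd (nat_lit 318) (nat_lit 0) (cs (lf (nat_lit 32) (nat_lit 252)) (rf (nat_lit 0)))) q54604 (by decide +kernel)
def q54701 : Q := Q.p (nat_lit 0x18000000000000000c00002000000000000000000000000000000000000000000000000000000000000000) (nat_lit 0xf8000ff0007fc000e700077c0005f00013c0000f00001400000000000000000000000000000000000000000000000000000000) (nat_lit 15)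
theorem c54701 : QOK q54701 := cut [q54179, q53418, q54178, q47968, q54080, q54187, q25352, q54420, q54612, q52717, q54607, q25159, q54436, q54676, q43323, q42662, q54618, q54041] ⟨c54179, c53418, c54178, c47968, c54080, c54187, c25352, c54420, c54612, c52717, c54607, c25159, c54436, c54676, c43323, c42662, c54618, c54041, trivial⟩ (nd (nat_lit 318) (nat_lit 0) (cs (lf (nat_lit 32) (nat_lit 252)) (nd (nat_lit 317) (nat_lit 0) (cs (rf (nat_lit 0)) (cs (nd (nat_lit 295) (nat_lit 0) (cs (rf (nat_lit 1)) (cs (rf (nat_lit 2)) (nd (nat_lit 361) (nat_lit 0) (cs (rf (nat_lit 3)) (cs (rf (nat_lit 4)) (nd (nat_lit 362) (nat_lit 0) (cs (rf (nat_lit 5)) (nd (nat_lit 272) (nat_lit 0) (cs (lf (nat_lit 46) (nat_lit 272)) (nd (nat_lit 360) (nat_lit 0) (cs (lf (nat_lit 41) (nat_lit 294)) (nd (nat_lit 359) (nat_lit 0) (cs (lf (nat_lit 12) (nat_lit 336)) (nd (nat_lit 380) (nat_lit 0) (cs (lf (nat_lit 10) (nat_lit 358)) (nd (nat_lit 337) (nat_lit 0) (cs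 (lf (nat_lit 23) (nat_lit 336)) (nd (nat_lit 338) (nat_lit 0) (cs (lf (nat_lit 18) (nat_lit 337)) (nd (nat_lit 315) (nat_lit 0) (cs (lf (nat_lit 23) (nat_lit 314)) (nd (nat_lit 293) (nat_lit 0) (cs (nd (nat_lit 292) (nat_lit 0) (cs (lf (nat_lit 20) (nat_lit 292)) (lf (nat_lit 47) (nat_lit 270)))) (lf (nat_lit 24) (nat_lit 271)))))))))))))))))))))))))) (cs (nd (nat_lit 341) (nat_lit 0) (cs (rf (nat_lit 6)) (cs (rf (nat_lit 7)) (cs (rf (nat_lit 8)) (nd (nat_lit 338) (nat_lit 0) (cs (rf (nat_lit 9)) (cs (rf (nat_lit 10)) (nd (nat_lit 316) (nat_lit 0) (cs (rf (nat_lit 11)) (rf (nat_lit 12))))))))))) (cs (rf (nat_lit 13)) (cs (nd (nat_lit 295) (nat_lit 0) (cs (rf (nat_lit 1)) (cs (rf (nat_lit 2)) (nd (nat_lit 361) (nat_lit 0) (cs (rf (nat_lit 3)) (cs (rf (nat_lit 4)) (nd (nat_lit 316) (nat_lit 0) (cs (rf (nat_lit 14)) (cs (nd (nat_lit 362) (nat_lit 0) (cs (lf (nat_lit 42) (nat_lit 295)) (nd (nat_lit 360) (nat_lit 0) (cs (lf (nat_lit 41) (nat_lit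 294)) (nd (nat_lit 341) (nat_lit 0) (cs (lf (nat_lit 6) (nat_lit 338)) (nd (nat_lit 294) (nat_lit 0) (cs (lf (nat_lit 47) (nat_lit 272)) (nd (nat_lit 293) (nat_lit 0) (cs (lf (nat_lit 0) (nat_lit 292)) (nd (nat_lit 338) (nat_lit 0) (cs (lf (nat_lit 47) (nat_lit 271)) (rf (nat_lit 15)))))))))))))) (nd (nat_lit 362) (nat_lit 0) (cs (rf (nat_lit 5)) (nd (nat_lit 272) (nat_lit 0) (cs (lf (nat_lit 46) (nat_lit 272)) (nd (nat_lit 315) (nat_lit 0) (cs (lf (nat_lit 0) (nat_lit 314)) (nd (nat_lit 360) (nat_lit 0) (cs (lf (nat_lit 41) (nat_lit 294)) (nd (nat_lit 292) (nat_lit 0) (cs (lf (nat_lit 22) (nat_lit 292)) (nd (nat_lit 337) (nat_lit 0) (cs (lf (nat_lit 11) (nat_lit 314)) (nd (nat_lit 363) (nat_lit 0) (cs (lf (nat_lit 22) (nat_lit 337)) (nd (nat_lit 386) (nat_lit 0) (cs (lf (nat_lit 4) (nat_lit 360)) (nd (nat_lit 364) (nat_lit 0) (cs (lf (nat_lit 18) (nat_lit 339)) (lf (nat_lit 5) (nat_lit 361))))))))))))))))))))))))))))) (cs (nd (nat_lit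 341) (nat_lit 0) (cs (rf (nat_lit 6)) (cs (rf (nat_lit 7)) (cs (rf (nat_lit 8)) (nd (nat_lit 338) (nat_lit 0) (cs (rf (nat_lit 10)) (cs (rf (nat_lit 16)) (nd (nat_lit 315) (nat_lit 0) (cs (lf (nat_lit 1) (nat_lit 315)) (nd (nat_lit 337) (nat_lit 0) (cs (lf (nat_lit 23) (nat_lit 314)) (lf (nat_lit 12) (nat_lit 314))))))))))))) (nd (nat_lit 341) (nat_lit 0) (cs (rf (nat_lit 6)) (cs (rf (nat_lit 17)) (cs (rf (nat_lit 7)) (nd (nat_lit 338) (nat_lit 0) (cs (rf (nat_lit 9)) (cs (rf (nat_lit 10)) (rf (nat_lit 16)))))))))))))))))) q54701 (by decide +kernel)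
def q54770 : Q := Q.p (nat_lit 0x10000040000000000800002000000000000000000000000000000000000000000000000000000000000000) (nat_lit 0x7ef001fb8003ee0001000000000000000000000000000000000000000000000000000000000000000000000) (nat_lit 10)
theorem c54770 : QOK q54770 := cut [q13222, q43240, q52661, q52663, q54768] ⟨c13222, c43240, c52661, c52663, c54768, trivial⟩ (nd (nat_lit 319) (nat_lit 0) (cs (lf (nat_lit 38) (nat_lit 252)) (nd (nat_lit 320) (nat_lit 0) (cs (rf (nat_lit 0)) (cs (rf (nat_lit 1)) (cs (rf (nat_lit 2)) (cs (rf (nat_lit 3)) (rf (nat_lit 4))))))))) q54770 (by decide +kernel)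
def q54810 : Q := Q.p (nat_lit 0x100001c00000000000000000000000000000000000000000000000000000000000000000000) (nat_lit 0x3e70006380038e00000000000000000000000000000000000000000000000000000000000000) (nat_lit 9)
theorem c54810 : QOK q54810 := cut [q52784, q54794, q1193, q54809] ⟨c52784, c54794, c1193, c54809, trivial⟩ (nd (nat_lit 277) (nat_lit 0) (cs (rf (nat_lit 0)) (cs (rf (nat_lit 1)) (cs (nd (nat_lit 255) (nat_lit 0) (cs (lf (nat_lit 17) (nat_lit 252)) (nd (nat_lit 299) (nat_lit 0) (cs (lf (nat_lit 5) (nat_lit 274)) (nd (nat_lit 273) (nat_lit 0) (cs (lf (nat_lit 4) (nat_lit 273)) (nd (nat_lit 250) (nat_lit 0) (cs (lf (nat_lit 22) (nat_lit 250)) (nd (nat_lit 272) (nat_lit 0) (cs (lf (nat_lit 23) (nat_lit 249)) (nd (nat_lit 271) (nat_lit 0) (cs (rf (nat_lit 2)) (lf (nat_lit 5) (nat_lit 271)))))))))))))) (rf (nat_lit 3)))))) q54810 (by decide +kernel)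
def q54851 : Q := Q.p (nat_lit 0x100001e0000000000000000000000000000000000000000000000000000000000000000000000000000000) (nat_lit 0x3f0000ff0003fc0002e000000000c80000200000800000000000000000000000000000000000000000000000000000000000000) (nat_lit 11)
theorem c54851 : QOK q54851 := cut [q42322, q54243, q53418, q31298, q47960, q47948, q42561, q54839, q47955, q47959, q47962] ⟨c42322, c54243, c53418, c31298, c47960, c47948, c42561, c54839, c47955, c47959, c47962, trivial⟩ (nd (nat_lit 339) (nat_lit 0) (cs (rf (nat_lit 0)) (nd (nat_lit 361) (nat_lit 0) (cs (nd (nat_lit 298) (nat_lit 0) (cs (lf (nat_lit 17) (nat_lit 295)) (nd (nat_lit 383) (nat_lit 0) (cs (lf (nat_lit 30) (nat_lit 317)) (nd (nat_lit 384) (nat_lit 0) (cs (lf (nat_lit 29) (nat_lit 317)) (nd (nat_lit 382) (nat_lit 0) (cs (lf (nat_lit 41) (nat_lit 316)) (nd (nat_lit 360) (nat_lit 0) (cs (lf (nat_lit 36) (nat_lit 294)) (rf (nat_lit 1)))))))))))) (cs (nd (nat_lit 383) (nat_lit 0)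 (cs (lf (nat_lit 30) (nat_lit 317)) (nd (nat_lit 382) (nat_lit 0) (cs (lf (nat_lit 41) (nat_lit 316)) (nd (nat_lit 295) (nat_lit 0) (cs (lf (nat_lit 40) (nat_lit 294)) (rf (nat_lit 2)))))))) (cs (nd (nat_lit 362) (nat_lit 0) (cs (rf (nat_lit 3)) (cs (rf (nat_lit 4)) (nd (nat_lit 298) (nat_lit 0) (cs (lf (nat_lit 17) (nat_lit 295)) (nd (nat_lit 295) (nat_lit 0) (cs (lf (nat_lit 24) (nat_lit 273)) (rf (nat_lit 5))))))))) (cs (nd (nat_lit 298) (nat_lit 0) (cs (lf (nat_lit 17) (nat_lit 295)) (nd (nat_lit 383) (nat_lit 0) (cs (lf (nat_lit 30) (nat_lit 317)) (nd (nat_lit 384) (nat_lit 0) (cs (lf (nat_lit 29) (nat_lit 317)) (nd (nat_lit 362) (nat_lit 0) (cs (lf (nat_lit 47) (nat_lit 295)) (rf (nat_lit 6)))))))))) (cs (nd (nat_lit 383) (nat_lit 0) (cs (lf (nat_lit 30) (nat_lit 317)) (nd (nat_lit 384) (nat_lit 0) (cs (lf (nat_lit 29) (nat_lit 317)) (nd (nat_lit 362) (nat_lit 0) (cs (lf (nat_lit 47) (nat_lit 295)) (rf (nat_lit 7)))))))) (nd (nat_lit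 362) (nat_lit 0) (cs (rf (nat_lit 8)) (cs (rf (nat_lit 9)) (cs (nd (nat_lit 383) (nat_lit 0) (cs (lf (nat_lit 30) (nat_lit 317)) (nd (nat_lit 384) (nat_lit 0) (cs (lf (nat_lit 29) (nat_lit 317)) (rf (nat_lit 7)))))) (nd (nat_lit 383) (nat_lit 0) (cs (lf (nat_lit 30) (nat_lit 317)) (nd (nat_lit 382) (nat_lit 0) (cs (lf (nat_lit 41) (nat_lit 316)) (nd (nat_lit 380) (nat_lit 0) (cs (lf (nat_lit 13) (nat_lit 358)) (nd (nat_lit 298) (nat_lit 0) (cs (lf (nat_lit 17) (nat_lit 295)) (rf (nat_lit 10)))))))))))))))))))))) q54851 (by decide +kernel)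
def q54880 : Q := Q.p (nat_lit 0x10000000000000000c00002000000000000000000000000000000000000000000000000000000000000000) (nat_lit 0x1f00007c0003fc001ef0003fe0003f0001380000e00000000000000000000000000000000000000000000000000000000000000) (nat_lit 16)
theorem c54880 : QOK q54880 := cut [q42345, q54105, q54179, q54367, q54374, q54603, q53982, q53986, q46374, q53964] ⟨c42345, c54105, c54179, c54367, c54374, c54603, c53982, c53986, c46374, c53964, trivial⟩ (nd (nat_lit 318) (nat_lit 0) (cs (lf (nat_lit 32) (nat_lit 252)) (nd (nat_lit 319) (nat_lit 0) (cs (lf (nat_lit 38) (nat_lit 252)) (nd (nat_lit 339) (nat_lit 0) (cs (rf (nat_lit 0)) (cs (nd (nat_lit 317) (nat_lit 0) (cs (rf (nat_lit 1)) (cs (rf (nat_lit 2)) (cs (nd (nat_lit 320) (nat_lit 0) (cs (lf (nat_lit 6) (nat_lit 317)) (nd (nat_lit 342) (nat_lit 0) (cs (lf (nat_lit 5) (nat_lit 317)) (nd (nat_lit 316) (nat_lit 0) (cs (lf (nat_lit 4) (nat_lit 316)) (nd (nat_lit 293) (nat_lit 0) (cs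 (lf (nat_lit 22) (nat_lit 293)) (nd (nat_lit 315) (nat_lit 0) (cs (lf (nat_lit 23) (nat_lit 292)) (lf (nat_lit 0) (nat_lit 314)))))))))))) (nd (nat_lit 320) (nat_lit 0) (cs (lf (nat_lit 6) (nat_lit 317)) (nd (nat_lit 342) (nat_lit 0) (cs (lf (nat_lit 5) (nat_lit 317)) (nd (nat_lit 341) (nat_lit 0) (cs (lf (nat_lit 0) (nat_lit 316)) (nd (nat_lit 364) (nat_lit 0) (cs (lf (nat_lit 5) (nat_lit 339)) (nd (nat_lit 361) (nat_lit 0) (cs (lf (nat_lit 11) (nat_lit 338)) (nd (nat_lit 383) (nat_lit 0) (cs (lf (nat_lit 30) (nat_lit 317)) (nd (nat_lit 384) (nat_lit 0) (cs (lf (nat_lit 29) (nat_lit 317)) (nd (nat_lit 295) (nat_lit 0) (cs (lf (nat_lit 28) (nat_lit 295)) (nd (nat_lit 382) (nat_lit 0) (cs (lf (nat_lit 41) (nat_lit 316)) (nd (nat_lit 386) (nat_lit 0) (cs (lf (nat_lit 42) (nat_lit 319)) (nd (nat_lit 385) (nat_lit 0) (cs (lf (nat_lit 41) (nat_lit 319)) (lf (nat_lit 16) (nat_lit 360)))))))))))))))))))))))))))) (cs (nd (nat_lit 338) (nat_lit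 0) (cs (rf (nat_lit 3)) (cs (nd (nat_lit 337) (nat_lit 0) (cs (lf (nat_lit 17) (nat_lit 315)) (nd (nat_lit 317) (nat_lit 0) (cs (lf (nat_lit 12) (nat_lit 314)) (nd (nat_lit 358) (nat_lit 0) (cs (lf (nat_lit 10) (nat_lit 336)) (nd (nat_lit 315) (nat_lit 0) (cs (lf (nat_lit 23) (nat_lit 314)) (nd (nat_lit 316) (nat_lit 0) (cs (lf (nat_lit 18) (nat_lit 315)) (rf (nat_lit 4)))))))))))) (cs (rf (nat_lit 5)) (nd (nat_lit 341) (nat_lit 0) (cs (nd (nat_lit 364) (nat_lit 0) (cs (lf (nat_lit 4) (nat_lit 338)) (nd (nat_lit 342) (nat_lit 0) (cs (lf (nat_lit 5) (nat_lit 339)) (rf (nat_lit 6)))))) (cs (rf (nat_lit 7)) (nd (nat_lit 360) (nat_lit 0) (cs (lf (nat_lit 11) (nat_lit 337)) (nd (nat_lit 315) (nat_lit 0) (cs (lf (nat_lit 22) (nat_lit 315)) (rf (nat_lit 8))))))))))))) (nd (nat_lit 338) (nat_lit 0) (cs (lf (nat_lit 12) (nat_lit 315)) (rf (nat_lit 9)))))))))))) q54880 (by decide +kernel)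
def q54902 : Q := Q.p (nat_lit 0x1e00002000000000000000000000000000000000000000000000000000000000000000) (nat_lit 0x1c00006000039c00000000000000000000000000000000000000000000000000000000000000) (nat_lit 6)
theorem c54902 : QOK q54902 := cut [q54900] ⟨c54900, trivial⟩ (nd (nat_lit 299) (nat_lit 0) (cs (lf (nat_lit 4) (nat_lit 273)) (nd (nat_lit 250) (nat_lit 0) (cs (lf (nat_lit 22) (nat_lit 250)) (rf (nat_lit 0)))))) q54902 (by decide +kernel)
def q54904 : Q := Q.p (nat_lit 0x1e00002000000000000000000000000000000000000000000000000000000000000000) (nat_lit 0x1c00006000039000000000000000000000000000000000000000000000000000000000000000) (nat_lit 5)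
theorem c54904 : QOK q54904 := cut [q54900] ⟨c54900, trivial⟩ (nd (nat_lit 299) (nat_lit 0) (cs (lf (nat_lit 4) (nat_lit 273)) (rf (nat_lit 0)))) q54904 (by decide +kernel)
def q54931 : Q := Q.p (nat_lit 0x8000020000080000200000000000000000000000000000000000000000000000000000000000000) (nat_lit 0x500003400001c000000000000000800000000000000000000000000000000000000000000000000000000) (nat_lit 5)
theorem c54931 : QOK q54931 := cut [q54930] ⟨c54930, trivial⟩ (nd (nat_lit 314) (nat_lit 0) (cs (lf (nat_lit 41) (nat_lit 248)) (rf (nat_lit 0)))) q54931 (by decide +kernel)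
def q55127 : Q := Q.p (nat_lit 0xc0000200000800002000000000000000000000000000000000000000000000000000000000000000) (nat_lit 0x3cf000f38007cf0000000000000000000000000000000000000000000000000000000000000000000000000) (nat_lit 10)
theorem c55127 : QOK q55127 := cut [q13132, q13150, q13153, q12801, q13146, q13147, q53336] ⟨c13132, c13150, c13153, c12801, c13146, c13147, c53336, trivial⟩ (nd (nat_lit 317) (nat_lit 0) (cs (rf (nat_lit 0)) (cs (rf (nat_lit 1)) (cs (rf (nat_lit 2)) (nd (nat_lit 320) (nat_lit 0) (cs (lf (nat_lit 29) (nat_lit 253)) (nd (nat_lit 321) (nat_lit 0) (cs (rf (nat_lit 3)) (cs (rf (nat_lit 4)) (cs (rf (nat_lit 5)) (rf (nat_lit 6)))))))))))) q55127 (by decide +kernel)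
def q55249 : Q := Q.p (nat_lit 0x800000c00003000000000010000000000000000000000000000000000000000000000000000) (nat_lit 0x500001c0000f2000ffe000ff8001160007380018e000778001e00007e0000000000000000000000000000000000000000000000) (nat_lit 15)
theorem c55249 : QOK q55249 := cut [q5304, q55170, q13532, q13507, q13172, q13096, q13842, q13697, q55196, q55203, q13518, q31038, q55209, q55232, q55233, q13857, q13867, q55238, q13527, q13897, q55243, q13539] ⟨c5304, c55170, c13532, c13507, c13172, c13096, c13842, c13697, c55196, c55203, c13518, c31038, c55209, c55232, c55233, c13857, c13867, c55238, c13527, c13897, c55243, c13539, trivial⟩ (nd (nat_lit 251) (nat_lit 0) (cs (rf (nat_lit 0)) (cs (rf (nat_lit 1)) (nd (nat_lit 277) (nat_lit 0) (cs (lf (nat_lit 19) (nat_lit 251)) (nd (nat_lit 321) (nat_lit 0) (cs (nd (nat_lit 255) (nat_lit 0) (cs (nd (nat_lit 234) (nat_lit 0) (cs (lf (nat_lit 34) (nat_lit 233)) (nd (nat_lit 233) (nat_lit 0) (cs (rf (nat_lit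 2)) (lf (nat_lit 35) (nat_lit 211)))))) (cs (nd (nat_lit 186) (nat_lit 0) (cs (lf (nat_lit 26) (nat_lit 186)) (nd (nat_lit 322) (nat_lit 0) (cs (lf (nat_lit 29) (nat_lit 255)) (nd (nat_lit 233) (nat_lit 0) (cs (lf (nat_lit 28) (nat_lit 233)) (nd (nat_lit 210) (nat_lit 0) (cs (lf (nat_lit 46) (nat_lit 210)) (nd (nat_lit 211) (nat_lit 0) (cs (lf (nat_lit 47) (nat_lit 188)) (nd (nat_lit 320) (nat_lit 0) (cs (lf (nat_lit 41) (nat_lit 254)) (nd (nat_lit 190) (nat_lit 0) (cs (lf (nat_lit 34) (nat_lit 189)) (nd (nat_lit 209) (nat_lit 0) (cs (lf (nat_lit 23) (nat_lit 185)) (lf (nat_lit 16) (nat_lit 186)))))))))))))))))) (nd (nat_lit 318) (nat_lit 0) (cs (rf (nat_lit 3)) (cs (nd (nat_lit 320) (nat_lit 0) (cs (lf (nat_lit 41) (nat_lit 254)) (nd (nat_lit 319) (nat_lit 0) (cs (lf (nat_lit 17) (nat_lit 296)) (rf (nat_lit 4)))))) (nd (nat_lit 234) (nat_lit 0) (cs (lf (nat_lit 34) (nat_lit 233)) (nd (nat_lit 186) (nat_lit 0) (cs (lf (nat_lit 26) (nat_lit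 186)) (nd (nat_lit 322) (nat_lit 0) (cs (lf (nat_lit 29) (nat_lit 255)) (nd (nat_lit 320) (nat_lit 0) (cs (lf (nat_lit 41) (nat_lit 254)) (nd (nat_lit 319) (nat_lit 0) (cs (lf (nat_lit 17) (nat_lit 296)) (rf (nat_lit 5)))))))))))))))))) (cs (nd (nat_lit 318) (nat_lit 0) (cs (rf (nat_lit 3)) (nd (nat_lit 256) (nat_lit 0) (cs (rf (nat_lit 6)) (cs (nd (nat_lit 186) (nat_lit 0) (cs (lf (nat_lit 26) (nat_lit 186)) (nd (nat_lit 343) (nat_lit 0) (cs (lf (nat_lit 34) (nat_lit 255)) (rf (nat_lit 7)))))) (cs (nd (nat_lit 186) (nat_lit 0) (cs (lf (nat_lit 26) (nat_lit 186)) (nd (nat_lit 255) (nat_lit 0) (cs (lf (nat_lit 35) (nat_lit 233)) (nd (nat_lit 320) (nat_lit 0) (cs (lf (nat_lit 41) (nat_lit 254)) (nd (nat_lit 300) (nat_lit 0) (cs (lf (nat_lit 13) (nat_lit 296)) (nd (nat_lit 233) (nat_lit 0) (cs (rf (nat_lit 8)) (lf (nat_lit 29) (nat_lit 233)))))))))))) (rf (nat_lit 9)))))))) (cs (nd (nat_lit 343) (nat_lit 0) (cs (rf (nat_lit 10)) (cs (nd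 (nat_lit 186) (nat_lit 0) (cs (lf (nat_lit 26) (nat_lit 186)) (nd (nat_lit 342) (nat_lit 0) (cs (lf (nat_lit 41) (nat_lit 276)) (rf (nat_lit 11)))))) (rf (nat_lit 12))))) (cs (rf (nat_lit 13)) (cs (nd (nat_lit 343) (nat_lit 0) (cs (rf (nat_lit 12)) (cs (rf (nat_lit 14)) (cs (nd (nat_lit 186) (nat_lit 0) (cs (lf (nat_lit 26) (nat_lit 186)) (rf (nat_lit 15)))) (cs (nd (nat_lit 186) (nat_lit 0) (cs (lf (nat_lit 26) (nat_lit 186)) (rf (nat_lit 16)))) (rf (nat_lit 17))))))) (cs (nd (nat_lit 343) (nat_lit 0) (cs (rf (nat_lit 18)) (cs (rf (nat_lit 12)) (cs (nd (nat_lit 318) (nat_lit 0) (cs (rf (nat_lit 3)) (nd (nat_lit 186) (nat_lit 0) (cs (lf (nat_lit 26) (nat_lit 186)) (rf (nat_lit 19)))))) (rf (nat_lit 20)))))) (cs (nd (nat_lit 343) (nat_lit 0) (cs (rf (nat_lit 18)) (cs (rf (nat_lit 21)) (cs (rf (nat_lit 14)) (rf (nat_lit 20)))))) (nd (nat_lit 343) (nat_lit 0) (cs (rf (nat_lit 10)) (cs (rf (nat_lit 18)) (rf (nat_lit 17))))))))))))))))))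 q55249 (by decide +kernel)
def q55288 : Q := Q.p (nat_lit 0x1c00002000000000010000000000000000000000000000000000000000000000000000) (nat_lit 0x3a00006000039800004000000000040000000000000000000000000000000000000000000000) (nat_lit 5)
theorem c55288 : QOK q55288 := cut [q52784, q12652] ⟨c52784, c12652, trivial⟩ (nd (nat_lit 277) (nat_lit 0) (cs (rf (nat_lit 0)) (nd (nat_lit 252) (nat_lit 0) (cs (lf (nat_lit 23) (nat_lit 251)) (rf (nat_lit 1)))))) q55288 (by decide +kernel)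
def q55328 : Q := Q.p (nat_lit 0x10000040000100000400000000000000000000000000000000000000000000000000000000000000) (nat_lit 0x280000e000028000000000000000800002000000000000000000000000000000000000000000000000000000000) (nat_lit 5)
theorem c55328 : QOK q55328 := cut [q14184] ⟨c14184, trivial⟩ (nd (nat_lit 229) (nat_lit 0) (cs (rf (nat_lit 0)) (lf (nat_lit 34) (nat_lit 228)))) q55328 (by decide +kernel)
def q55398 : Q := Q.p (nat_lit 0xe0000000000000000000000000000000000000000000000000000000000000000000000000000000) (nat_lit 0xa00003e0000fc0007f0001fc000300001cc0000000000000000000000000000000000000000000000000000000000000000000000000) (nat_lit 12)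
theorem c55398 : QOK q55398 := cut [q13105, q13128, q55339, q55352, q42068, q46362, q30864, q55392, q43047] ⟨c13105, c13128, c55339, c55352, c42068, c46362, c30864, c55392, c43047, trivial⟩ (nd (nat_lit 320) (nat_lit 0) (cs (rf (nat_lit 0)) (cs (rf (nat_lit 1)) (cs (nd (nat_lit 339) (nat_lit 0) (cs (lf (nat_lit 11) (nat_lit 316)) (nd (nat_lit 342) (nat_lit 0) (cs (lf (nat_lit 5) (nat_lit 317)) (nd (nat_lit 364) (nat_lit 0) (cs (nd (nat_lit 298) (nat_lit 0) (cs (lf (nat_lit 17) (nat_lit 295)) (nd (nat_lit 365) (nat_lit 0) (cs (lf (nat_lit 29) (nat_lit 298)) (nd (nat_lit 363) (nat_lit 0) (cs (lf (nat_lit 41) (nat_lit 297)) (rf (nat_lit 2)))))))) (cs (nd (nat_lit 295) (nat_lit 0) (cs (lf (nat_lit 23) (nat_lit 294)) (nd (nat_lit 298) (nat_lit 0) (cs (lf (nat_lit 17) (nat_lit 295)) (nd (nat_lit 365) (nat_lit 0) (cs (lf (nat_lit 29) (nat_lit 298)) (nd (nat_lit 340) (nat_lit 0) (cs (lf (nat_lit 2) (nat_lit 339)) (nd (nat_lit 362) (nat_lit 0)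 (cs (lf (nat_lit 42) (nat_lit 295)) (lf (nat_lit 20) (nat_lit 339)))))))))))) (cs (nd (nat_lit 298) (nat_lit 0) (cs (lf (nat_lit 17) (nat_lit 295)) (nd (nat_lit 385) (nat_lit 0) (cs (lf (nat_lit 40) (nat_lit 297)) (nd (nat_lit 294) (nat_lit 0) (cs (lf (nat_lit 22) (nat_lit 294)) (nd (nat_lit 386) (nat_lit 0) (cs (lf (nat_lit 41) (nat_lit 319)) (rf (nat_lit 3)))))))))) (cs (nd (nat_lit 361) (nat_lit 0) (cs (nd (nat_lit 298) (nat_lit 0) (cs (lf (nat_lit 17) (nat_lit 295)) (nd (nat_lit 385) (nat_lit 0) (cs (lf (nat_lit 40) (nat_lit 297)) (nd (nat_lit 386) (nat_lit 0) (cs (lf (nat_lit 41) (nat_lit 319)) (nd (nat_lit 341) (nat_lit 0) (cs (lf (nat_lit 42) (nat_lit 319)) (nd (nat_lit 340) (nat_lit 0) (cs (lf (nat_lit 11) (nat_lit 338)) (lf (nat_lit 5) (nat_lit 339)))))))))))) (cs (nd (nat_lit 298) (nat_lit 0) (cs (lf (nat_lit 17) (nat_lit 295)) (nd (nat_lit 363) (nat_lit 0) (cs (lf (nat_lit 41) (nat_lit 297)) (nd (nat_lit 295) (nat_lit 0) (cs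 (lf (nat_lit 23) (nat_lit 294)) (nd (nat_lit 362) (nat_lit 0) (cs (lf (nat_lit 29) (nat_lit 295)) (nd (nat_lit 383) (nat_lit 0) (cs (lf (nat_lit 11) (nat_lit 360)) (nd (nat_lit 340) (nat_lit 0) (cs (lf (nat_lit 30) (nat_lit 317)) (lf (nat_lit 18) (nat_lit 339)))))))))))))) (cs (nd (nat_lit 295) (nat_lit 0) (cs (lf (nat_lit 23) (nat_lit 294)) (rf (nat_lit 4)))) (cs (nd (nat_lit 298) (nat_lit 0) (cs (lf (nat_lit 17) (nat_lit 295)) (nd (nat_lit 295) (nat_lit 0) (cs (lf (nat_lit 23) (nat_lit 294)) (nd (nat_lit 360) (nat_lit 0) (cs (lf (nat_lit 41) (nat_lit 294)) (nd (nat_lit 384) (nat_lit 0) (cs (lf (nat_lit 28) (nat_lit 295)) (nd (nat_lit 340) (nat_lit 0) (cs (lf (nat_lit 7) (nat_lit 338)) (rf (nat_lit 5)))))))))))) (nd (nat_lit 298) (nat_lit 0) (cs (lf (nat_lit 17) (nat_lit 295)) (nd (nat_lit 363) (nat_lit 0) (cs (lf (nat_lit 41) (nat_lit 297)) (nd (nat_lit 295) (nat_lit 0) (cs (lf (nat_lit 23) (nat_lit 294)) (nd (nat_lit 362) (nat_lit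 0) (cs (lf (nat_lit 29) (nat_lit 295)) (nd (nat_lit 360) (nat_lit 0) (cs (lf (nat_lit 41) (nat_lit 294)) (lf (nat_lit 16) (nat_lit 338))))))))))))))))) (cs (nd (nat_lit 386) (nat_lit 0) (cs (nd (nat_lit 407) (nat_lit 0) (cs (lf (nat_lit 40) (nat_lit 319)) (nd (nat_lit 408) (nat_lit 0) (cs (lf (nat_lit 41) (nat_lit 341)) (lf (nat_lit 46) (nat_lit 319)))))) (cs (rf (nat_lit 3)) (nd (nat_lit 384) (nat_lit 0) (cs (nd (nat_lit 387) (nat_lit 0) (cs (lf (nat_lit 29) (nat_lit 320)) (nd (nat_lit 385) (nat_lit 0) (cs (lf (nat_lit 41) (nat_lit 319)) (rf (nat_lit 6)))))) (nd (nat_lit 295) (nat_lit 0) (cs (lf (nat_lit 23) (nat_lit 294)) (nd (nat_lit 362) (nat_lit 0) (cs (lf (nat_lit 44) (nat_lit 295)) (lf (nat_lit 27) (nat_lit 295))))))))))) (rf (nat_lit 7)))))))))))) (nd (nat_lit 299) (nat_lit 0) (cs (lf (nat_lit 16) (nat_lit 295)) (nd (nat_lit 294) (nat_lit 0) (cs (lf (nat_lit 22) (nat_lit 294)) (rf (nat_lit 8)))))))))) q55398 (by decide +kernel)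
def q55427 : Q := Q.p (nat_lit 0xf0000000000000000000000000000000000000000000000000000000000000000000000000000000) (nat_lit 0x1ce000300001c00000000000000000000000000000000000000000000000000000000000000000000000000) (nat_lit 6)
theorem c55427 : QOK q55427 := cut [q55425] ⟨c55425, trivial⟩ (nd (nat_lit 338) (nat_lit 0) (cs (lf (nat_lit 11) (nat_lit 315)) (nd (nat_lit 320) (nat_lit 0) (cs (lf (nat_lit 10) (nat_lit 316)) (rf (nat_lit 0)))))) q55427 (by decide +kernel)
def q55589 : Q := Q.p (nat_lit 0x60000000000a00000c00003800000000000000000000000000000000000000000000000000000000000000) (nat_lit 0x100000ff000798001e30000580007380018000040000000000000000000000000000000000000000000000000000000000) (nat_lit 11)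
theorem c55589 : QOK q55589 := cut [q28712, q55546, q30402, q28763, q15010, q11530, q15034, q55588] ⟨c28712, c55546, c30402, c28763, c15010, c11530, c15034, c55588, trivial⟩ (nd (nat_lit 343) (nat_lit 0) (cs (nd (nat_lit 344) (nat_lit 0) (cs (rf (nat_lit 0)) (cs (rf (nat_lit 1)) (cs (nd (nat_lit 276) (nat_lit 0) (cs (lf (nat_lit 18) (nat_lit 251)) (nd (nat_lit 273) (nat_lit 0) (cs (lf (nat_lit 4) (nat_lit 273)) (nd (nat_lit 271) (nat_lit 0) (cs (lf (nat_lit 13) (nat_lit 249)) (nd (nat_lit 366) (nat_lit 0) (cs (lf (nat_lit 5) (nat_lit 341)) (nd (nat_lit 340) (nat_lit 0) (cs (lf (nat_lit 4) (nat_lit 340)) (nd (nat_lit 361) (nat_lit 0) (cs (lf (nat_lit 10) (nat_lit 339)) (nd (nat_lit 339) (nat_lit 0) (cs (lf (nat_lit 11) (nat_lit 338)) (nd (nat_lit 317) (nat_lit 0) (cs (lf (nat_lit 23) (nat_lit 316)) (lf (nat_lit 32) (nat_lit 251)))))))))))))))))) (nd (nat_lit 366) (nat_lit 0) (cs (lf (nat_lit 5) (nat_lit 341)) (nd (nat_lit 365) (nat_lit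 0) (cs (lf (nat_lit 0) (nat_lit 340)) (nd (nat_lit 276) (nat_lit 0) (cs (lf (nat_lit 18) (nat_lit 251)) (nd (nat_lit 273) (nat_lit 0) (cs (lf (nat_lit 4) (nat_lit 273)) (nd (nat_lit 271) (nat_lit 0) (cs (lf (nat_lit 13) (nat_lit 249)) (nd (nat_lit 323) (nat_lit 0) (cs (lf (nat_lit 16) (nat_lit 319)) (nd (nat_lit 345) (nat_lit 0) (cs (lf (nat_lit 17) (nat_lit 320)) (rf (nat_lit 2)))))))))))))))))))) (cs (nd (nat_lit 276) (nat_lit 0) (cs (lf (nat_lit 18) (nat_lit 251)) (nd (nat_lit 298) (nat_lit 0) (cs (lf (nat_lit 0) (nat_lit 273)) (nd (nat_lit 321) (nat_lit 0) (cs (lf (nat_lit 42) (nat_lit 276)) (nd (nat_lit 322) (nat_lit 0) (cs (lf (nat_lit 0) (nat_lit 296)) (nd (nat_lit 323) (nat_lit 0) (cs (lf (nat_lit 15) (nat_lit 319)) (lf (nat_lit 18) (nat_lit 298)))))))))))) (cs (nd (nat_lit 276) (nat_lit 0) (cs (lf (nat_lit 18) (nat_lit 251)) (nd (nat_lit 298) (nat_lit 0) (cs (lf (nat_lit 0) (nat_lit 273)) (nd (nat_lit 365) (nat_lit 0) (cs (lf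 (nat_lit 44) (nat_lit 276)) (nd (nat_lit 340) (nat_lit 0) (cs (lf (nat_lit 5) (nat_lit 340)) (rf (nat_lit 3)))))))))) (cs (nd (nat_lit 344) (nat_lit 0) (cs (rf (nat_lit 4)) (cs (rf (nat_lit 0)) (nd (nat_lit 366) (nat_lit 0) (cs (lf (nat_lit 5) (nat_lit 341)) (nd (nat_lit 322) (nat_lit 0) (cs (lf (nat_lit 17) (nat_lit 319)) (nd (nat_lit 321) (nat_lit 0) (cs (lf (nat_lit 42) (nat_lit 299)) (nd (nat_lit 298) (nat_lit 0) (cs (rf (nat_lit 5)) (lf (nat_lit 0) (nat_lit 296))))))))))))) (cs (nd (nat_lit 277) (nat_lit 0) (cs (lf (nat_lit 19) (nat_lit 251)) (nd (nat_lit 321) (nat_lit 0) (cs (lf (nat_lit 41) (nat_lit 276)) (nd (nat_lit 256) (nat_lit 0) (cs (lf (nat_lit 34) (nat_lit 255)) (nd (nat_lit 234) (nat_lit 0) (cs (lf (nat_lit 33) (nat_lit 233)) (rf (nat_lit 6)))))))))) (rf (nat_lit 7)))))))) q55589 (by decide +kernel)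
def q55703 : Q := Q.p (nat_lit 0x300000c00002000000000000000000000000000000000000000000000000000000000000000) (nat_lit 0xc0000700007c00004c0000000000000000000000000000000000000000000000000000000000000000000000000) (nat_lit 5)
theorem c55703 : QOK q55703 := cut [q14913] ⟨c14913, trivial⟩ (nd (nat_lit 319) (nat_lit 0) (cs (rf (nat_lit 0)) (nd (nat_lit 340) (nat_lit 0) (cs (lf (nat_lit 40) (nat_lit 252)) (nd (nat_lit 341) (nat_lit 0) (cs (lf (nat_lit 41) (nat_lit 274)) (lf (nat_lit 42) (nat_lit 274)))))))) q55703 (by decide +kernel)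
def q55717 : Q := Q.p (nat_lit 0x40000200000c00002000000000010000000000000000000000000000000000000000000000000000) (nat_lit 0x18000038000d80000000001000004000000000000000000000000000000000000000000000000000000000) (nat_lit 6)
theorem c55717 : QOK q55717 := cut [q55715] ⟨c55715, trivial⟩ (nd (nat_lit 252) (nat_lit 0) (cs (lf (nat_lit 25) (nat_lit 208)) (nd (nat_lit 296) (nat_lit 0) (cs (lf (nat_lit 30) (nat_lit 252)) (rf (nat_lit 0)))))) q55717 (by decide +kernel)
def q55734 : Q := Q.p (nat_lit 0x200000c00002000000000010000000000000000000000000000000000000000000000000000) (nat_lit 0x180000740003f0000fc0001dc0001300001000004000000000000000000000000000000000000000000000000000000000) (nat_lit 12)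
theorem c55734 : QOK q55734 := cut [q2579, q13048, q11791, q14754, q11530, q14748] ⟨c2579, c13048, c11791, c14754, c11530, c14748, trivial⟩ (nd (nat_lit 319) (nat_lit 0) (cs (rf (nat_lit 0)) (cs (rf (nat_lit 1)) (nd (nat_lit 320) (nat_lit 0) (cs (lf (nat_lit 29) (nat_lit 253)) (nd (nat_lit 321) (nat_lit 0) (cs (rf (nat_lit 2)) (cs (rf (nat_lit 3)) (cs (nd (nat_lit 230) (nat_lit 0) (cs (lf (nat_lit 46) (nat_lit 230)) (nd (nat_lit 318) (nat_lit 0) (cs (lf (nat_lit 41) (nat_lit 252)) (nd (nat_lit 299) (nat_lit 0) (cs (lf (nat_lit 17) (nat_lit 296)) (nd (nat_lit 344) (nat_lit 0) (cs (lf (nat_lit 4) (nat_lit 318)) (nd (nat_lit 322) (nat_lit 0) (cs (lf (nat_lit 5) (nat_lit 319)) (nd (nat_lit 366) (nat_lit 0) (cs (lf (nat_lit 42) (nat_lit 299)) (nd (nat_lit 298) (nat_lit 0) (cs (rf (nat_lit 4)) (lf (nat_lit 18) (nat_lit 297)))))))))))))))) (nd (nat_lit 318) (nat_lit 0) (cs (lf (nat_lit 41) (nat_lit 252)) (nd (nat_lit 343) (nat_lit 0) (cs (lf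 (nat_lit 5) (nat_lit 318)) (nd (nat_lit 296) (nat_lit 0) (cs (lf (nat_lit 23) (nat_lit 295)) (nd (nat_lit 230) (nat_lit 0) (cs (lf (nat_lit 26) (nat_lit 208)) (nd (nat_lit 299) (nat_lit 0) (cs (lf (nat_lit 17) (nat_lit 296)) (rf (nat_lit 5))))))))))))))))))))) q55734 (by decide +kernel)
def q55832 : Q := Q.p (nat_lit 0x1e00002000000000010000000000000000000000000000000000000000000000000000) (nat_lit 0x400006180001f00008000020000040000000000000000000000000000000000000000000000) (nat_lit 5)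
theorem c55832 : QOK q55832 := cut [q15523, q15620] ⟨c15523, c15620, trivial⟩ (nd (nat_lit 209) (nat_lit 0) (cs (rf (nat_lit 0)) (rf (nat_lit 1)))) q55832 (by decide +kernel)
def q56027 : Q := Q.p (nat_lit 0x1c00000000000000030000000000000000000000000000000000000000000000000000) (nat_lit 0x7dc001e3000f8e001f00007c0003fe0001e0000700001c000040000000000000000000000000) (nat_lit 15)
theorem c56027 : QOK q56027 := cut [q2187, q52784, q55949, q55954, q55960, q55962, q55971, q55979, q55986, q16425, q16574, q56011, q2185, q694, q10182] ⟨c2187, c52784, c55949, c55954, c55960, c55962, c55971, c55979, c55986, c16425, c16574, c56011, c2185, c694, c10182, trivial⟩ (nd (nat_lit 277) (nat_lit 0) (cs (rf (nat_lit 0)) (cs (rf (nat_lit 1)) (cs (nd (nat_lit 211) (nat_lit 0) (cs (nd (nat_lit 295) (nat_lit 0) (cs (lf (nat_lit 10) (nat_lit 273)) (nd (nat_lit 273) (nat_lit 0) (cs (lf (nat_lit 11) (nat_lit 272)) (nd (nat_lit 250) (nat_lit 0) (cs (lf (nat_lit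 22) (nat_lit 250)) (nd (nat_lit 249) (nat_lit 0) (cs (lf (nat_lit 21) (nat_lit 249)) (rf (nat_lit 2)))))))))) (cs (nd (nat_lit 210) (nat_lit 0) (cs (nd (nat_lit 233) (nat_lit 0) (cs (lf (nat_lit 5) (nat_lit 208)) (rf (nat_lit 3)))) (rf (nat_lit 4)))) (cs (nd (nat_lit 256) (nat_lit 0) (cs (lf (nat_lit 16) (nat_lit 252)) (nd (nat_lit 278) (nat_lit 0) (cs (lf (nat_lit 17) (nat_lit 253)) (nd (nat_lit 301) (nat_lit 0) (cs (lf (nat_lit 4) (nat_lit 275)) (nd (nat_lit 279) (nat_lit 0) (cs (lf (nat_lit 5) (nat_lit 276)) (nd (nat_lit 212) (nat_lit 0) (cs (lf (nat_lit 25) (nat_lit 212)) (rf (nat_lit 5)))))))))))) (cs (nd (nat_lit 210) (nat_lit 0) (cs (rf (nat_lit 4)) (cs (nd (nat_lit 189) (nat_lit 0) (cs (lf (nat_lit 17) (nat_lit 186)) (nd (nat_lit 167) (nat_lit 0) (cs (nd (nat_lit 295) (nat_lit 0) (cs (lf (nat_lit 10) (nat_lit 273)) (nd (nat_lit 273) (nat_lit 0) (cs (lf (nat_lit 11) (nat_lit 272)) (nd (nat_lit 250) (nat_lit 0) (cs (lf (nat_lit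 22) (nat_lit 250)) (nd (nat_lit 249) (nat_lit 0) (cs (lf (nat_lit 21) (nat_lit 249)) (rf (nat_lit 6)))))))))) (cs (nd (nat_lit 186) (nat_lit 0) (cs (lf (nat_lit 23) (nat_lit 185)) (nd (nat_lit 295) (nat_lit 0) (cs (lf (nat_lit 10) (nat_lit 273)) (nd (nat_lit 273) (nat_lit 0) (cs (lf (nat_lit 11) (nat_lit 272)) (nd (nat_lit 250) (nat_lit 0) (cs (lf (nat_lit 22) (nat_lit 250)) (nd (nat_lit 249) (nat_lit 0) (cs (lf (nat_lit 21) (nat_lit 249)) (rf (nat_lit 7)))))))))))) (rf (nat_lit 8))))))) (cs (nd (nat_lit 295) (nat_lit 0) (cs (lf (nat_lit 10) (nat_lit 273)) (nd (nat_lit 273) (nat_lit 0) (cs (lf (nat_lit 11) (nat_lit 272)) (nd (nat_lit 250) (nat_lit 0) (cs (lf (nat_lit 22) (nat_lit 250)) (nd (nat_lit 249) (nat_lit 0) (cs (lf (nat_lit 21) (nat_lit 249)) (rf (nat_lit 9)))))))))) (nd (nat_lit 189) (nat_lit 0) (cs (lf (nat_lit 17) (nat_lit 186)) (nd (nat_lit 234) (nat_lit 0) (cs (lf (nat_lit 4) (nat_lit 208)) (nd (nat_lit 212) (nat_lit 0)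 (cs (lf (nat_lit 5) (nat_lit 209)) (nd (nat_lit 278) (nat_lit 0) (cs (nd (nat_lit 301) (nat_lit 0) (cs (lf (nat_lit 4) (nat_lit 275)) (nd (nat_lit 279) (nat_lit 0) (cs (lf (nat_lit 5) (nat_lit 276)) (nd (nat_lit 258) (nat_lit 0) (cs (nd (nat_lit 280) (nat_lit 0) (cs (lf (nat_lit 17) (nat_lit 255)) (nd (nat_lit 214) (nat_lit 0) (cs (nd (nat_lit 213) (nat_lit 0) (cs (lf (nat_lit 23) (nat_lit 188)) (rf (nat_lit 10)))) (lf (nat_lit 37) (nat_lit 213)))))) (lf (nat_lit 16) (nat_lit 254)))))))) (lf (nat_lit 43) (nat_lit 189)))))))))))))) (nd (nat_lit 295) (nat_lit 0) (cs (lf (nat_lit 10) (nat_lit 273)) (nd (nat_lit 273) (nat_lit 0) (cs (lf (nat_lit 11) (nat_lit 272)) (nd (nat_lit 250) (nat_lit 0) (cs (lf (nat_lit 22) (nat_lit 250)) (nd (nat_lit 249) (nat_lit 0) (cs (lf (nat_lit 21) (nat_lit 249)) (rf (nat_lit 11))))))))))))))) (nd (nat_lit 273) (nat_lit 0) (cs (rf (nat_lit 12)) (nd (nat_lit 211) (nat_lit 0) (cs (rf (nat_lit 2)) (cs (rf (nat_lit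 11)) (cs (nd (nat_lit 256) (nat_lit 0) (cs (lf (nat_lit 16) (nat_lit 252)) (nd (nat_lit 278) (nat_lit 0) (cs (lf (nat_lit 17) (nat_lit 253)) (nd (nat_lit 212) (nat_lit 0) (cs (rf (nat_lit 5)) (nd (nat_lit 299) (nat_lit 0) (cs (lf (nat_lit 4) (nat_lit 273)) (lf (nat_lit 37) (nat_lit 211)))))))))) (nd (nat_lit 210) (nat_lit 0) (cs (rf (nat_lit 13)) (cs (rf (nat_lit 14)) (cs (rf (nat_lit 9)) (nd (nat_lit 189) (nat_lit 0) (cs (lf (nat_lit 17) (nat_lit 186)) (nd (nat_lit 167) (nat_lit 0) (cs (rf (nat_lit 6)) (cs (rf (nat_lit 8)) (nd (nat_lit 186) (nat_lit 0) (cs (lf (nat_lit 23) (nat_lit 185)) (rf (nat_lit 7))))))))))))))))))))))) q56027 (by decide +kernel)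
def q56040 : Q := Q.p (nat_lit 0x200000c00002000008000000000000000000000000000000000000000000000000000000000) (nat_lit 0x400001c0000700000c0000100000000001000000000000000000000000000000000000000000000000000000000000000) (nat_lit 5)
theorem c56040 : QOK q56040 := cut [q2553, q15709, q15793] ⟨c2553, c15709, c15793, trivial⟩ (nd (nat_lit 319) (nat_lit 0) (cs (rf (nat_lit 0)) (cs (rf (nat_lit 1)) (rf (nat_lit 2))))) q56040 (by decide +kernel)
def q56152 : Q := Q.p (nat_lit 0xc0000040000100002000008000000000000000000000000000000000000000000000000000000000) (nat_lit 0x280007f000038000020000080001e00013800002000000000000000000000000000000000000000000000000000) (nat_lit 10)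
theorem c56152 : QOK q56152 := cut [q56124, q56130, q56138, q56104] ⟨c56124, c56130, c56138, c56104, trivial⟩ (nd (nat_lit 316) (nat_lit 0) (cs (rf (nat_lit 0)) (cs (rf (nat_lit 1)) (cs (nd (nat_lit 317) (nat_lit 0) (cs (lf (nat_lit 23) (nat_lit 293)) (rf (nat_lit 2)))) (cs (nd (nat_lit 317) (nat_lit 0) (cs (lf (nat_lit 23) (nat_lit 293)) (nd (nat_lit 341) (nat_lit 0) (cs (lf (nat_lit 5) (nat_lit 316)) (nd (nat_lit 315) (nat_lit 0) (cs (lf (nat_lit 4) (nat_lit 315)) (nd (nat_lit 250) (nat_lit 0) (cs (lf (nat_lit 29) (nat_lit 250)) (nd (nat_lit 227) (nat_lit 0) (cs (lf (nat_lit 46) (nat_lit 227)) (nd (nat_lit 205) (nat_lit 0) (cs (lf (nat_lit 45) (nat_lit 205)) (rf (nat_lit 3)))))))))))))) (nd (nat_lit 317) (nat_lit 0) (cs (lf (nat_lit 23) (nat_lit 293)) (nd (nat_lit 250) (nat_lit 0) (cs (lf (nat_lit 29) (nat_lit 250)) (nd (nat_lit 227) (nat_lit 0) (cs (lf (nat_lit 46) (nat_lit 227)) (nd (nat_lit 205) (nat_lit 0) (cs (lf (nat_lit 45)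 (nat_lit 205)) (nd (nat_lit 341) (nat_lit 0) (cs (lf (nat_lit 5) (nat_lit 316)) (nd (nat_lit 337) (nat_lit 0) (cs (lf (nat_lit 10) (nat_lit 315)) (rf (nat_lit 3))))))))))))))))))) q56152 (by decide +kernel)
def q56402 : Q := Q.p (nat_lit 0x200000c00000000010000000000000000000000000000000000000000000000000000) (nat_lit 0x1400007f0001f80001e0000180007e00007800010000000000000000000000000000000000000000000000) (nat_lit 13)
theorem c56402 : QOK q56402 := cut [q56375, q56381, q56399, q56401] ⟨c56375, c56381, c56399, c56401, trivial⟩ (nd (nat_lit 295) (nat_lit 0) (cs (nd (nat_lit 229) (nat_lit 0) (cs (lf (nat_lit 34) (nat_lit 207)) (nd (nat_lit 294) (nat_lit 0) (cs (lf (nat_lit 41) (nat_lit 228)) (nd (nat_lit 293) (nat_lit 0) (cs (rf (nat_lit 0)) (cs (nd (nat_lit 206) (nat_lit 0) (cs (lf (nat_lit 46) (nat_lit 206)) (rf (nat_lit 1)))) (cs (nd (nat_lit 228) (nat_lit 0) (cs (lf (nat_lit 47) (nat_lit 206)) (nd (nat_lit 272) (nat_lit 0) (cs (lf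 (nat_lit 41) (nat_lit 227)) (nd (nat_lit 227) (nat_lit 0) (cs (lf (nat_lit 47) (nat_lit 205)) (nd (nat_lit 291) (nat_lit 0) (cs (lf (nat_lit 13) (nat_lit 269)) (nd (nat_lit 226) (nat_lit 0) (cs (lf (nat_lit 0) (nat_lit 225)) (nd (nat_lit 248) (nat_lit 0) (cs (lf (nat_lit 11) (nat_lit 225)) (nd (nat_lit 204) (nat_lit 0) (cs (lf (nat_lit 23) (nat_lit 203)) (nd (nat_lit 270) (nat_lit 0) (cs (lf (nat_lit 28) (nat_lit 204)) (lf (nat_lit 40) (nat_lit 203)))))))))))))))))) (nd (nat_lit 228) (nat_lit 0) (cs (lf (nat_lit 47) (nat_lit 206)) (nd (nat_lit 296) (nat_lit 0) (cs (lf (nat_lit 29) (nat_lit 229)) (nd (nat_lit 315) (nat_lit 0) (cs (lf (nat_lit 11) (nat_lit 292)) (lf (nat_lit 38) (nat_lit 227)))))))))))))))) (cs (nd (nat_lit 229) (nat_lit 0) (cs (lf (nat_lit 34) (nat_lit 207)) (rf (nat_lit 2)))) (rf (nat_lit 3))))) q56402 (by decide +kernel)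
def q56524 : Q := Q.p (nat_lit 0x60000980000200000000000000000000000000000000000000000000000000000000000000) (nat_lit 0x400001000004000018000640000000000800000000000000000000000000000000000000000000000000000000) (nat_lit 5)
theorem c56524 : QOK q56524 := cut [q56523] ⟨c56523, trivial⟩ (nd (nat_lit 273) (nat_lit 0) (cs (lf (nat_lit 7) (nat_lit 271)) (rf (nat_lit 0)))) q56524 (by decide +kernel)
def q56933 : Q := Q.p (nat_lit 0x80000600000800002000000000000000000000000000000000000000000000000000) (nat_lit 0x100000700001c000020000100000000001400001000004000000000000000000000000000000000000000000000) (nat_lit 7)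
theorem c56933 : QOK q56933 := cut [q56931] ⟨c56931, trivial⟩ (nd (nat_lit 204) (nat_lit 0) (cs (lf (nat_lit 47) (nat_lit 182)) (nd (nat_lit 293) (nat_lit 0) (cs (lf (nat_lit 46) (nat_lit 204)) (rf (nat_lit 0)))))) q56933 (by decide +kernel)
def q56988 : Q := Q.p (nat_lit 0x20000080000600000800000000000000000000000000000000000000000000000000000000) (nat_lit 0x500001c00007000008000000000100000100000700001000000000000000000000000000000000000000000000000000) (nat_lit 8)
theorem c56988 : QOK q56988 := cut [q56985] ⟨c56985, trivial⟩ (nd (nat_lit 226) (nat_lit 0) (cs (lf (nat_lit 47) (nat_lit 204)) (nd (nat_lit 224) (nat_lit 0) (cs (lf (nat_lit 1) (nat_lit 224)) (nd (nat_lit 315) (nat_lit 0) (cs (lf (nat_lit 46) (nat_lit 226)) (rf (nat_lit 0)))))))) q56988 (by decide +kernel)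
def q57347 : Q := Q.p (nat_lit 0x80000600000800002000000000000000000000000000000000000000000000000000) (nat_lit 0x100000600001c000030000140000000001000000000000000000000000000000000000000000000000000000000) (nat_lit 6)
theorem c57347 : QOK q57347 := cut [q57346] ⟨c57346, trivial⟩ (nd (nat_lit 292) (nat_lit 0) (cs (lf (nat_lit 40) (nat_lit 204)) (rf (nat_lit 0)))) q57347 (by decide +kernel)
def q57628 : Q := Q.p (nat_lit 0x10000040000100000400000000000000000000000000000000000000000000000000000000) (nat_lit 0x800002000008000000000000000380000e000028000000000000000000000000000000000000000) (nat_lit 6)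
theorem c57628 : QOK q57628 := cut [q57627] ⟨c57627, trivial⟩ (nd (nat_lit 293) (nat_lit 0) (cs (lf (nat_lit 29) (nat_lit 226)) (rf (nat_lit 0)))) q57628 (by decide +kernel)
def q57663 : Q := Q.p (nat_lit 0x300001c000000000000000000000000000000000000000000000000000000000) (nat_lit 0x20000180000620001c0000100000400000000000000000000000000000000000000000) (nat_lit 6)
theorem c57663 : QOK q57663 := cut [q22241] ⟨c22241, trivial⟩ (nd (nat_lit 233) (nat_lit 0) (cs (lf (nat_lit 6) (nat_lit 230)) (rf (nat_lit 0)))) q57663 (by decide +kernel)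
def q57690 : Q := Q.p (nat_lit 0x300001c000080000200000000000000000000000000000000000000000000000) (nat_lit 0x18000060000000000500001c00005000000000000000000000000000000000000) (nat_lit 6)
theorem c57690 : QOK q57690 := cut [q57689] ⟨c57689, trivial⟩ (nd (nat_lit 233) (nat_lit 0) (cs (lf (nat_lit 6) (nat_lit 230)) (rf (nat_lit 0)))) q57690 (by decide +kernel)
def q57721 : Q := Q.p (nat_lit 0x8000024000000000300000e0000000000000000000000000000000000000000000000) (nat_lit 0x12000018000018000060000180006e0000800002000000000000000000000000000000) (nat_lit 9)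
theorem c57721 : QOK q57721 := cut [q57716] ⟨c57716, trivial⟩ (nd (nat_lit 184) (nat_lit 0) (cs (lf (nat_lit 0) (nat_lit 183)) (nd (nat_lit 165) (nat_lit 0) (cs (lf (nat_lit 17) (nat_lit 162)) (nd (nat_lit 121) (nat_lit 0) (cs (lf (nat_lit 37) (nat_lit 120)) (nd (nat_lit 206) (nat_lit 0) (cs (lf (nat_lit 11) (nat_lit 183)) (nd (nat_lit 161) (nat_lit 0) (cs (lf (nat_lit 22) (nat_lit 161)) (rf (nat_lit 0)))))))))))) q57721 (by decide +kernel)
def q57731 : Q := Q.p (nat_lit 0x20000000000100001e0000400000000000000000000000000000000000000000) (nat_lit 0x80000380000c00000000003c0003e0000b800000000000000000000000000000) (nat_lit 10)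
theorem c57731 : QOK q57731 := cut [q57725] ⟨c57725, trivial⟩ (nd (nat_lit 210) (nat_lit 0) (cs (lf (nat_lit 5) (nat_lit 185)) (nd (nat_lit 232) (nat_lit 0) (cs (lf (nat_lit 40) (nat_lit 165)) (nd (nat_lit 163) (nat_lit 0) (cs (lf (nat_lit 23) (nat_lit 162)) (nd (nat_lit 233) (nat_lit 0) (cs (lf (nat_lit 29) (nat_lit 166)) (nd (nat_lit 119) (nat_lit 0) (cs (lf (nat_lit 25) (nat_lit 119)) (nd (nat_lit 143) (nat_lit 0) (cs (lf (nat_lit 46) (nat_lit 143)) (rf (nat_lit 0)))))))))))))) q57731 (by decide +kernel)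
def q57754 : Q := Q.p (nat_lit 0x100001c0000100000400000000000000000000000000000000000) (nat_lit 0x1c0000638000600000200001800006000000000000000000000000) (nat_lit 8)
theorem c57754 : QOK q57754 := cut [q57752] ⟨c57752, trivial⟩ (nd (nat_lit 119) (nat_lit 0) (cs (lf (nat_lit 46) (nat_lit 119)) (nd (nat_lit 120) (nat_lit 0) (cs (lf (nat_lit 47) (nat_lit 97)) (rf (nat_lit 0)))))) q57754 (by decide +kernel)
def q57773 : Q := Q.p (nat_lit 0x100001c0000100000400000000000000000000000000000000000) (nat_lit 0x1c000063800060000080000300000c000000000000000000000000) (nat_lit 8)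
theorem c57773 : QOK q57773 := cut [q57752] ⟨c57752, trivial⟩ (nd (nat_lit 121) (nat_lit 0) (cs (lf (nat_lit 34) (nat_lit 120)) (nd (nat_lit 120) (nat_lit 0) (cs (lf (nat_lit 35) (nat_lit 98)) (rf (nat_lit 0)))))) q57773 (by decide +kernel)
def q57791 : Q := Q.p (nat_lit 0x100001c0000100000000000000000000000000000000000000000) (nat_lit 0x200006e0000f8000380000e000018000020000000000000) (nat_lit 8)
theorem c57791 : QOK q57791 := cut [q18163, q1812, q2769, q20080, q6151, q57787, q57790] ⟨c18163, c1812, c2769, c20080, c6151, c57787, c57790, trivial⟩ (nd (nat_lit 142) (nat_lit 0) (cs (rf (nat_lit 0)) (cs (nd (nat_lit 163) (nat_lit 0) (cs (rf (nat_lit 1)) (cs (rf (nat_lit 2)) (rf (nat_lit 3))))) (cs (nd (nat_lit 143) (nat_lit 0) (cs (lf (nat_lit 35) (nat_lit 120)) (nd (nat_lit 162) (nat_lit 0) (cs (rf (nat_lit 4)) (cs (nd (nat_lit 163) (nat_lit 0) (cs (lf (nat_lit 21) (nat_lit 162)) (lf (nat_lit 3) (nat_lit 162)))) (nd (nat_lit 163) (nat_lit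 0) (cs (lf (nat_lit 12) (nat_lit 139)) (lf (nat_lit 21) (nat_lit 162))))))))) (cs (rf (nat_lit 5)) (rf (nat_lit 6))))))) q57791 (by decide +kernel)
def q57811 : Q := Q.p (nat_lit 0x100001c0000000000000000000000000000000000000000000000) (nat_lit 0x300007c0000e30007f00001800006000000000000000000000000000000) (nat_lit 9)
theorem c57811 : QOK q57811 := cut [q4705, q7989, q19786, q39159, q57802, q20049] ⟨c4705, c7989, c19786, c39159, c57802, c20049, trivial⟩ (nd (nat_lit 189) (nat_lit 0) (cs (rf (nat_lit 0)) (cs (rf (nat_lit 1)) (cs (nd (nat_lit 212) (nat_lit 0) (cs (lf (nat_lit 4) (nat_lit 186)) (nd (nat_lit 190) (nat_lit 0) (cs (lf (nat_lit 5) (nat_lit 187)) (rf (nat_lit 2)))))) (cs (nd (nat_lit 211) (nat_lit 0) (cs (lf (nat_lit 5) (nat_lit 186)) (nd (nat_lit 185) (nat_lit 0) (cs (lf (nat_lit 4) (nat_lit 185)) (nd (nat_lit 166) (nat_lit 0) (cs (lf (nat_lit 17) (nat_lit 163)) (nd (nat_lit 165) (nat_lit 0) (cs (lf (nat_lit 12) (nat_lit 162))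 (rf (nat_lit 3)))))))))) (cs (nd (nat_lit 168) (nat_lit 0) (cs (lf (nat_lit 16) (nat_lit 164)) (nd (nat_lit 190) (nat_lit 0) (cs (lf (nat_lit 17) (nat_lit 165)) (nd (nat_lit 165) (nat_lit 0) (cs (lf (nat_lit 23) (nat_lit 164)) (nd (nat_lit 191) (nat_lit 0) (cs (lf (nat_lit 22) (nat_lit 165)) (rf (nat_lit 4)))))))))) (nd (nat_lit 168) (nat_lit 0) (cs (lf (nat_lit 16) (nat_lit 164)) (nd (nat_lit 190) (nat_lit 0) (cs (lf (nat_lit 17) (nat_lit 165)) (nd (nat_lit 165) (nat_lit 0) (cs (lf (nat_lit 23) (nat_lit 164)) (nd (nat_lit 166) (nat_lit 0) (cs (lf (nat_lit 18) (nat_lit 165)) (rf (nat_lit 5)))))))))))))))) q57811 (by decide +kernel)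
def q57838 : Q := Q.p (nat_lit 0x4000000000100001c0000400000000000000000000000000000000000000000) (nat_lit 0x10000060002300003e0003f0000680001a000000000000000000000000) (nat_lit 9)
theorem c57838 : QOK q57838 := cut [q9266, q57827, q57836, q1812] ⟨c9266, c57827, c57836, c1812, trivial⟩ (nd (nat_lit 163) (nat_lit 0) (cs (rf (nat_lit 0)) (cs (rf (nat_lit 1)) (cs (rf (nat_lit 2)) (nd (nat_lit 164) (nat_lit 0) (cs (rf (nat_lit 3)) (lf (nat_lit 18) (nat_lit 163)))))))) q57838 (by decide +kernel)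
def q57932 : Q := Q.p (nat_lit 0x1c0000000000000000000000000000000000000000000000) (nat_lit 0x80000300003c0001e20003e0000780001f800078000040000000000000000000) (nat_lit 11)
theorem c57932 : QOK q57932 := cut [q19718, q19719, q19721, q33273, q57839, q8000, q16449, q4703, q8005, q57918] ⟨c19718, c19719, c19721, c33273, c57839, c8000, c16449, c4703, c8005, c57918, trivial⟩ (nd (nat_lit 167) (nat_lit 0) (cs (rf (nat_lit 0)) (cs (rf (nat_lit 1)) (cs (rf (nat_lit 2)) (nd (nat_lit 166) (nat_lit 0) (cs (lf (nat_lit 12) (nat_lit 163)) (nd (nat_lit 145) (nat_lit 0) (cs (rf (nat_lit 3)) (cs (rf (nat_lit 4)) (cs (nd (nat_lit 211) (nat_lit 0) (cs (nd (nat_lit 210) (nat_lit 0) (cs (lf (nat_lit 30) (nat_lit 144)) (rf (nat_lit 5)))) (cs (nd (nat_lit 210) (nat_lit 0) (cs (lf (nat_lit 30) (nat_lit 144)) (nd (nat_lit 144) (nat_lit 0) (cs (lf (nat_lit 29) (nat_lit 144)) (nd (nat_lit 121) (nat_lit 0) (cs (lf (nat_lit 46) (nat_lit 121)) (nd (nat_lit 122)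 (nat_lit 0) (cs (lf (nat_lit 47) (nat_lit 99)) (nd (nat_lit 100) (nat_lit 0) (cs (lf (nat_lit 40) (nat_lit 99)) (lf (nat_lit 24) (nat_lit 78)))))))))))) (nd (nat_lit 189) (nat_lit 0) (cs (lf (nat_lit 5) (nat_lit 186)) (rf (nat_lit 6))))))) (nd (nat_lit 189) (nat_lit 0) (cs (rf (nat_lit 7)) (cs (nd (nat_lit 101) (nat_lit 0) (cs (lf (nat_lit 37) (nat_lit 100)) (nd (nat_lit 211) (nat_lit 0) (cs (lf (nat_lit 5) (nat_lit 186)) (rf (nat_lit 8)))))) (cs (nd (nat_lit 123) (nat_lit 0) (cs (lf (nat_lit 36) (nat_lit 100)) (nd (nat_lit 100) (nat_lit 0) (cs (lf (nat_lit 46) (nat_lit 100)) (nd (nat_lit 102) (nat_lit 0) (cs (lf (nat_lit 34) (nat_lit 101)) (nd (nat_lit 190) (nat_lit 0) (cs (lf (nat_lit 29) (nat_lit 123)) (rf (nat_lit 9)))))))))) (nd (nat_lit 123) (nat_lit 0) (cs (lf (nat_lit 36) (nat_lit 100)) (nd (nat_lit 102) (nat_lit 0) (cs (lf (nat_lit 34) (nat_lit 101)) (nd (nat_lit 122) (nat_lit 0) (cs (lf (nat_lit 47) (nat_lit 100)) (nd (nat_lit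 144) (nat_lit 0) (cs (lf (nat_lit 42) (nat_lit 122)) (nd (nat_lit 121) (nat_lit 0) (cs (lf (nat_lit 47) (nat_lit 99)) (nd (nat_lit 120) (nat_lit 0) (cs (lf (nat_lit 5) (nat_lit 120)) (lf (nat_lit 0) (nat_lit 119)))))))))))))))))))))))))))) q57932 (by decide +kernel)
def q57974 : Q := Q.p (nat_lit 0x300000e0000000000c00000000000000000000000000000000000) (nat_lit 0xc0000000001df80033c001df00000000000000000000000000000) (nat_lit 9)
theorem c57974 : QOK q57974 := cut [q5713, q57964, q57967, q21807] ⟨c5713, c57964, c57967, c21807, trivial⟩ (nd (nat_lit 164) (nat_lit 0) (cs (lf (nat_lit 24) (nat_lit 120)) (nd (nat_lit 141) (nat_lit 0) (cs (lf (nat_lit 47) (nat_lit 119)) (nd (nat_lit 140) (nat_lit 0) (cs (rf (nat_lit 0)) (cs (nd (nat_lit 210) (nat_lit 0) (cs (lf (nat_lit 18) (nat_lit 185)) (rf (nat_lit 1)))) (cs (nd (nat_lit 210) (nat_lit 0) (cs (lf (nat_lit 18) (nat_lit 185)) (rf (nat_lit 2)))) (nd (nat_lit 162) (nat_lit 0) (cs (lf (nat_lit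 11) (nat_lit 139)) (nd (nat_lit 144) (nat_lit 0) (cs (lf (nat_lit 10) (nat_lit 140)) (nd (nat_lit 167) (nat_lit 0) (cs (lf (nat_lit 4) (nat_lit 141)) (rf (nat_lit 3)))))))))))))))) q57974 (by decide +kernel)
def q57976 : Q := Q.p (nat_lit 0x8000024000000000000000f0000000000000000000000000000000000000000000000) (nat_lit 0x1200001800001800006000000000080000000000000000000000000000000000000000) (nat_lit 5)
theorem c57976 : QOK q57976 := cut [q57716] ⟨c57716, trivial⟩ (nd (nat_lit 206) (nat_lit 0) (cs (lf (nat_lit 11) (nat_lit 183)) (rf (nat_lit 0)))) q57976 (by decide +kernel)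
def q57996 : Q := Q.p (nat_lit 0x300000c0000000000800000000000000000000000000000000000) (nat_lit 0x100000c0000030000200001000006000000000000000000000000000000) (nat_lit 5)
theorem c57996 : QOK q57996 := cut [q8384] ⟨c8384, trivial⟩ (nd (nat_lit 165) (nat_lit 0) (cs (lf (nat_lit 36) (nat_lit 120)) (rf (nat_lit 0)))) q57996 (by decide +kernel)
def q58000 : Q := Q.p (nat_lit 0xb00001c0000000000000000000000000000000000000000000000) (nat_lit 0x2000008000070000140000000000400001000000000000000000000000000000000000) (nat_lit 5)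
theorem c58000 : QOK q58000 := cut [q8061] ⟨c8061, trivial⟩ (nd (nat_lit 210) (nat_lit 0) (cs (lf (nat_lit 18) (nat_lit 186)) (rf (nat_lit 0)))) q58000 (by decide +kernel)
def q58090 : Q := Q.p (nat_lit 0x700000c0000000000800000000000000000000000000000000000) (nat_lit 0x108000060001380003f0001780005f0000380000a000000000000000000) (nat_lit 12)
theorem c58090 : QOK q58090 := cut [q8788, q35206, q58055, q5877, q58074, q58082, q39739] ⟨c8788, c35206, c58055, c5877, c58074, c58082, c39739, trivial⟩ (nd (nat_lit 162) (nat_lit 0) (cs (nd (nat_lit 165) (nat_lit 0) (cs (lf (nat_lit 29) (nat_lit 143)) (rf (nat_lit 0)))) (cs (nd (nat_lit 142) (nat_lit 0) (cs (nd (nat_lit 184) (nat_lit 0) (cs (lf (nat_lit 1) (nat_lit 184)) (nd (nat_lit 140) (nat_lit 0) (cs (nd (nat_lit 165) (nat_lit 0) (cs (lf (nat_lit 29) (nat_lit 143)) (nd (nat_lit 122) (nat_lit 0) (cs (lf (nat_lit 34) (nat_lit 121)) (nd (nat_lit 141) (nat_lit 0) (cs (lf (nat_lit 11) (nat_lit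 139)) (rf (nat_lit 1)))))))) (cs (nd (nat_lit 118) (nat_lit 0) (cs (nd (nat_lit 117) (nat_lit 0) (cs (lf (nat_lit 47) (nat_lit 95)) (lf (nat_lit 20) (nat_lit 117)))) (cs (nd (nat_lit 165) (nat_lit 0) (cs (lf (nat_lit 29) (nat_lit 143)) (nd (nat_lit 122) (nat_lit 0) (cs (lf (nat_lit 34) (nat_lit 121)) (nd (nat_lit 183) (nat_lit 0) (cs (lf (nat_lit 41) (nat_lit 117)) (nd (nat_lit 119) (nat_lit 0) (cs (lf (nat_lit 35) (nat_lit 96)) (nd (nat_lit 141) (nat_lit 0) (cs (lf (nat_lit 44) (nat_lit 119)) (lf (nat_lit 30) (nat_lit 118)))))))))))) (nd (nat_lit 97) (nat_lit 0) (cs (lf (nat_lit 34) (nat_lit 96)) (nd (nat_lit 75) (nat_lit 0) (cs (lf (nat_lit 33) (nat_lit 74)) (nd (nat_lit 165) (nat_lit 0) (cs (lf (nat_lit 29) (nat_lit 143)) (rf (nat_lit 2))))))))))) (cs (nd (nat_lit 118) (nat_lit 0) (cs (rf (nat_lit 2)) (cs (nd (nat_lit 165) (nat_lit 0) (cs (lf (nat_lit 29) (nat_lit 143)) (nd (nat_lit 122) (nat_lit 0) (cs (lf (nat_lit 34) (nat_lit 121))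 (nd (nat_lit 97) (nat_lit 0) (cs (lf (nat_lit 34) (nat_lit 96)) (nd (nat_lit 96) (nat_lit 0) (cs (lf (nat_lit 35) (nat_lit 74)) (nd (nat_lit 183) (nat_lit 0) (cs (lf (nat_lit 41) (nat_lit 117)) (lf (nat_lit 40) (nat_lit 95)))))))))))) (nd (nat_lit 95) (nat_lit 0) (cs (lf (nat_lit 46) (nat_lit 95)) (nd (nat_lit 165) (nat_lit 0) (cs (lf (nat_lit 29) (nat_lit 143)) (nd (nat_lit 122) (nat_lit 0) (cs (lf (nat_lit 34) (nat_lit 121)) (rf (nat_lit 3))))))))))) (cs (nd (nat_lit 165) (nat_lit 0) (cs (lf (nat_lit 29) (nat_lit 143)) (nd (nat_lit 122) (nat_lit 0) (cs (lf (nat_lit 34) (nat_lit 121)) (nd (nat_lit 141) (nat_lit 0) (cs (lf (nat_lit 11) (nat_lit 139)) (nd (nat_lit 164) (nat_lit 0) (cs (lf (nat_lit 47) (nat_lit 119)) (lf (nat_lit 0) (nat_lit 139)))))))))) (nd (nat_lit 141) (nat_lit 0) (cs (lf (nat_lit 11) (nat_lit 139)) (rf (nat_lit 4))))))))))) (cs (nd (nat_lit 184) (nat_lit 0) (cs (lf (nat_lit 1) (nat_lit 184)) (nd (nat_lit 164) (nat_lit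 0) (cs (lf (nat_lit 24) (nat_lit 120)) (nd (nat_lit 141) (nat_lit 0) (cs (lf (nat_lit 47) (nat_lit 119)) (nd (nat_lit 140) (nat_lit 0) (cs (lf (nat_lit 11) (nat_lit 139)) (rf (nat_lit 4)))))))))) (rf (nat_lit 5))))) (cs (nd (nat_lit 185) (nat_lit 0) (cs (lf (nat_lit 0) (nat_lit 184)) (nd (nat_lit 165) (nat_lit 0) (cs (lf (nat_lit 29) (nat_lit 143)) (nd (nat_lit 144) (nat_lit 0) (cs (lf (nat_lit 35) (nat_lit 121)) (nd (nat_lit 142) (nat_lit 0) (cs (lf (nat_lit 47) (nat_lit 120)) (nd (nat_lit 163) (nat_lit 0) (cs (lf (nat_lit 18) (nat_lit 162)) (lf (nat_lit 9) (nat_lit 140)))))))))))) (nd (nat_lit 185) (nat_lit 0) (cs (lf (nat_lit 0) (nat_lit 184)) (rf (nat_lit 6)))))))) q58090 (by decide +kernel)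
def q58167 : Q := Q.p (nat_lit 0x700000c0000000000000000000000000000000000000000000000) (nat_lit 0x70000180000700001be0007e0001f800000000000000000000000000000) (nat_lit 13)
theorem c58167 : QOK q58167 := cut [q8311, q7444, q7517, q4542, q58158] ⟨c8311, c7444, c7517, c4542, c58158, trivial⟩ (nd (nat_lit 189) (nat_lit 0) (cs (rf (nat_lit 0)) (cs (nd (nat_lit 164) (nat_lit 0) (cs (nd (nat_lit 163) (nat_lit 0) (cs (lf (nat_lit 19) (nat_lit 163)) (nd (nat_lit 161) (nat_lit 0) (cs (lf (nat_lit 1) (nat_lit 161)) (nd (nat_lit 142) (nat_lit 0) (cs (lf (nat_lit 24) (nat_lit 120)) (nd (nat_lit 119) (nat_lit 0) (cs (lf (nat_lit 46) (nat_lit 119)) (nd (nat_lit 143) (nat_lit 0) (cs (lf (nat_lit 35) (nat_lit 120)) (nd (nat_lit 165) (nat_lit 0) (cs (lf (nat_lit 29) (nat_lit 143)) (nd (nat_lit 144) (nat_lit 0) (cs (lf (nat_lit 35) (nat_lit 121)) (lf (nat_lit 6) (nat_lit 141)))))))))))))))) (cs (nd (nat_lit 211) (nat_lit 0) (cs (lf (nat_lit 18) (nat_lit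 186)) (nd (nat_lit 233) (nat_lit 0) (cs (lf (nat_lit 5) (nat_lit 208)) (nd (nat_lit 188) (nat_lit 0) (cs (rf (nat_lit 1)) (lf (nat_lit 23) (nat_lit 163)))))))) (cs (nd (nat_lit 211) (nat_lit 0) (cs (lf (nat_lit 18) (nat_lit 186)) (nd (nat_lit 233) (nat_lit 0) (cs (lf (nat_lit 5) (nat_lit 208)) (nd (nat_lit 142) (nat_lit 0) (cs (lf (nat_lit 24) (nat_lit 120)) (nd (nat_lit 119) (nat_lit 0) (cs (lf (nat_lit 46) (nat_lit 119)) (nd (nat_lit 143) (nat_lit 0) (cs (lf (nat_lit 35) (nat_lit 120)) (nd (nat_lit 165) (nat_lit 0) (cs (lf (nat_lit 29) (nat_lit 143)) (nd (nat_lit 144) (nat_lit 0) (cs (lf (nat_lit 35) (nat_lit 121)) (nd (nat_lit 145) (nat_lit 0) (cs (lf (nat_lit 6) (nat_lit 142)) (nd (nat_lit 167) (nat_lit 0) (cs (lf (nat_lit 5) (nat_lit 142)) (nd (nat_lit 123) (nat_lit 0) (cs (lf (nat_lit 17) (nat_lit 120)) (lf (nat_lit 40) (nat_lit 122)))))))))))))))))))))) (cs (nd (nat_lit 142) (nat_lit 0) (cs (lf (nat_lit 24) (nat_lit 120)) (nd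 (nat_lit 211) (nat_lit 0) (cs (lf (nat_lit 18) (nat_lit 186)) (nd (nat_lit 233) (nat_lit 0) (cs (lf (nat_lit 5) (nat_lit 208)) (nd (nat_lit 119) (nat_lit 0) (cs (lf (nat_lit 46) (nat_lit 119)) (rf (nat_lit 2)))))))))) (cs (nd (nat_lit 211) (nat_lit 0) (cs (lf (nat_lit 18) (nat_lit 186)) (nd (nat_lit 233) (nat_lit 0) (cs (lf (nat_lit 5) (nat_lit 208)) (nd (nat_lit 163) (nat_lit 0) (cs (lf (nat_lit 19) (nat_lit 163)) (nd (nat_lit 162) (nat_lit 0) (cs (lf (nat_lit 0) (nat_lit 161)) (nd (nat_lit 142) (nat_lit 0) (cs (lf (nat_lit 24) (nat_lit 120)) (nd (nat_lit 119) (nat_lit 0) (cs (lf (nat_lit 46) (nat_lit 119)) (nd (nat_lit 143) (nat_lit 0) (cs (lf (nat_lit 35) (nat_lit 120)) (nd (nat_lit 165) (nat_lit 0) (cs (lf (nat_lit 29) (nat_lit 143)) (lf (nat_lit 17) (nat_lit 140)))))))))))))))))) (nd (nat_lit 142) (nat_lit 0) (cs (lf (nat_lit 24) (nat_lit 120)) (nd (nat_lit 163) (nat_lit 0) (cs (lf (nat_lit 19) (nat_lit 163)) (nd (nat_lit 161) (nat_lit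 0) (cs (lf (nat_lit 1) (nat_lit 161)) (nd (nat_lit 141) (nat_lit 0) (cs (lf (nat_lit 47) (nat_lit 119)) (nd (nat_lit 211) (nat_lit 0) (cs (lf (nat_lit 18) (nat_lit 186)) (nd (nat_lit 233) (nat_lit 0) (cs (lf (nat_lit 5) (nat_lit 208)) (rf (nat_lit 3)))))))))))))))))))) (nd (nat_lit 188) (nat_lit 0) (cs (lf (nat_lit 6) (nat_lit 186)) (nd (nat_lit 167) (nat_lit 0) (cs (lf (nat_lit 17) (nat_lit 164)) (nd (nat_lit 145) (nat_lit 0) (cs (lf (nat_lit 36) (nat_lit 122)) (nd (nat_lit 164) (nat_lit 0) (cs (lf (nat_lit 23) (nat_lit 163)) (nd (nat_lit 142) (nat_lit 0) (cs (lf (nat_lit 24) (nat_lit 120)) (nd (nat_lit 119) (nat_lit 0) (cs (lf (nat_lit 46) (nat_lit 119)) (nd (nat_lit 143) (nat_lit 0) (cs (lf (nat_lit 35) (nat_lit 120)) (nd (nat_lit 165) (nat_lit 0) (cs (lf (nat_lit 29) (nat_lit 143)) (rf (nat_lit 4))))))))))))))))))))) q58167 (by decide +kernel)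
def q58173 : Q := Q.p (nat_lit 0x8000020000000000100000e0000000000000000000000000000000000000000000000) (nat_lit 0x180007e0000f00007fc0000200000800000000000000000000000000000) (nat_lit 9)
theorem c58173 : QOK q58173 := cut [q57722, q58032, q58170] ⟨c57722, c58032, c58170, trivial⟩ (nd (nat_lit 188) (nat_lit 0) (cs (rf (nat_lit 0)) (cs (rf (nat_lit 1)) (nd (nat_lit 210) (nat_lit 0) (cs (lf (nat_lit 5) (nat_lit 185)) (nd (nat_lit 231) (nat_lit 0) (cs (lf (nat_lit 33) (nat_lit 187)) (rf (nat_lit 2))))))))) q58173 (by decide +kernel)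
def q58184 : Q := Q.p (nat_lit 0x300001c0000000000c00000000000000000000000000000000000) (nat_lit 0x3d0000720003de00000000000000000000000000000) (nat_lit 7)
theorem c58184 : QOK q58184 := cut [q58176, q9038, q58109, q58182] ⟨c58176, c9038, c58109, c58182, trivial⟩ (nd (nat_lit 144) (nat_lit 0) (cs (rf (nat_lit 0)) (cs (nd (nat_lit 120) (nat_lit 0) (cs (lf (nat_lit 26) (nat_lit 120)) (nd (nat_lit 145) (nat_lit 0) (cs (lf (nat_lit 23) (nat_lit 119)) (rf (nat_lit 1)))))) (cs (nd (nat_lit 122) (nat_lit 0) (cs (lf (nat_lit 38) (nat_lit 121)) (nd (nat_lit 141) (nat_lit 0) (cs (lf (nat_lit 17) (nat_lit 119)) (rf (nat_lit 2)))))) (nd (nat_lit 122) (nat_lit 0) (cs (lf (nat_lit 38) (nat_lit 121)) (rf (nat_lit 3)))))))) q58184 (by decide +kernel)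
def q58224 : Q := Q.p (nat_lit 0x300001c0000100000000000000000000000000000000000000000) (nat_lit 0x2e0003e0000f800000000000000000000000000000) (nat_lit 7)
theorem c58224 : QOK q58224 := cut [q2769, q4600, q58222] ⟨c2769, c4600, c58222, trivial⟩ (nd (nat_lit 142) (nat_lit 0) (cs (lf (nat_lit 24) (nat_lit 120)) (nd (nat_lit 163) (nat_lit 0) (cs (rf (nat_lit 0)) (cs (rf (nat_lit 1)) (rf (nat_lit 2))))))) q58224 (by decide +kernel)
def q58320 : Q := Q.p (nat_lit 0x8000020000000000100001c0000000000000000000000000000000000000000000000) (nat_lit 0x780001e00006000007e0003f0000fe00000000000000000000000000000) (nat_lit 10)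
theorem c58320 : QOK q58320 := cut [q58259] ⟨c58259, trivial⟩ (nd (nat_lit 209) (nat_lit 0) (cs (lf (nat_lit 44) (nat_lit 186)) (rf (nat_lit 0)))) q58320 (by decide +kernel)
def q58337 : Q := Q.p (nat_lit 0x8000020000000000100001e0000000000000000000000000000000000000000000000) (nat_lit 0x180000e00000000007c0003e0000fc00010000000000000000000000000) (nat_lit 10)
theorem c58337 : QOK q58337 := cut [q58117, q40231, q9823, q57725] ⟨c58117, c40231, c9823, c57725, trivial⟩ (nd (nat_lit 210) (nat_lit 0) (cs (lf (nat_lit 5) (nat_lit 185)) (nd (nat_lit 163) (nat_lit 0) (cs (lf (nat_lit 23) (nat_lit 162)) (nd (nat_lit 119) (nat_lit 0) (cs (lf (nat_lit 25) (nat_lit 119)) (nd (nat_lit 143) (nat_lit 0) (cs (nd (nat_lit 209) (nat_lit 0) (cs (lf (nat_lit 44) (nat_lit 186)) (rf (nat_lit 0)))) (cs (nd (nat_lit 166) (nat_lit 0) (cs (rf (nat_lit 1)) (cs (nd (nat_lit 144) (nat_lit 0) (cs (rf (nat_lit 2)) (nd (nat_lit 165) (nat_lit 0) (cs (lf (nat_lit 42)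 (nat_lit 143)) (nd (nat_lit 122) (nat_lit 0) (cs (lf (nat_lit 36) (nat_lit 99)) (lf (nat_lit 30) (nat_lit 121)))))))) (nd (nat_lit 209) (nat_lit 0) (cs (lf (nat_lit 32) (nat_lit 187)) (nd (nat_lit 144) (nat_lit 0) (cs (lf (nat_lit 36) (nat_lit 121)) (rf (nat_lit 2))))))))) (cs (nd (nat_lit 121) (nat_lit 0) (cs (lf (nat_lit 26) (nat_lit 121)) (nd (nat_lit 142) (nat_lit 0) (cs (lf (nat_lit 32) (nat_lit 120)) (nd (nat_lit 144) (nat_lit 0) (cs (lf (nat_lit 44) (nat_lit 121)) (nd (nat_lit 120) (nat_lit 0) (cs (lf (nat_lit 18) (nat_lit 119)) (lf (nat_lit 0) (nat_lit 118)))))))))) (nd (nat_lit 231) (nat_lit 0) (cs (lf (nat_lit 45) (nat_lit 186)) (nd (nat_lit 166) (nat_lit 0) (cs (lf (nat_lit 39) (nat_lit 165)) (rf (nat_lit 3)))))))))))))))) q58337 (by decide +kernel)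
def q58362 : Q := Q.p (nat_lit 0x8000020000000000100001c0000000000000000000000000000000000000000000000) (nat_lit 0x20000080000780001e0000620001800002000008000000000000000000000000000000) (nat_lit 9)
theorem c58362 : QOK q58362 := cut [q9991] ⟨c9991, trivial⟩ (nd (nat_lit 209) (nat_lit 0) (cs (lf (nat_lit 44) (nat_lit 186)) (nd (nat_lit 189) (nat_lit 0) (cs (lf (nat_lit 6) (nat_lit 186)) (nd (nat_lit 211) (nat_lit 0) (cs (lf (nat_lit 5) (nat_lit 186)) (nd (nat_lit 210) (nat_lit 0) (cs (lf (nat_lit 0) (nat_lit 185)) (rf (nat_lit 0)))))))))) q58362 (by decide +kernel)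
def q58392 : Q := Q.p (nat_lit 0x300000c0000300000000000000000000000000000000000000000) (nat_lit 0x400001f80007800000000000000000000000000000) (nat_lit 6)
theorem c58392 : QOK q58392 := cut [q7777] ⟨c7777, trivial⟩ (nd (nat_lit 143) (nat_lit 0) (cs (lf (nat_lit 36) (nat_lit 120)) (nd (nat_lit 122) (nat_lit 0) (cs (lf (nat_lit 34) (nat_lit 121)) (rf (nat_lit 0)))))) q58392 (by decide +kernel)
def q58394 : Q := Q.p (nat_lit 0x300000c0000300000000000000000000000000000000000000000) (nat_lit 0x80007e00007800000000000000000000000000000) (nat_lit 6)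
theorem c58394 : QOK q58394 := cut [q8373] ⟨c8373, trivial⟩ (nd (nat_lit 143) (nat_lit 0) (cs (lf (nat_lit 36) (nat_lit 120)) (nd (nat_lit 142) (nat_lit 0) (cs (lf (nat_lit 24) (nat_lit 120)) (rf (nat_lit 0)))))) q58394 (by decide +kernel)
def q58411 : Q := Q.p (nat_lit 0x300000c0000180000000000000000000000000000000000000000) (nat_lit 0x60001e00003800000000000000000000000000000) (nat_lit 5)
theorem c58411 : QOK q58411 := cut [q58222] ⟨c58222, trivial⟩ (nd (nat_lit 142) (nat_lit 0) (cs (lf (nat_lit 24) (nat_lit 120)) (rf (nat_lit 0)))) q58411 (by decide +kernel)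
def q58421 : Q := Q.p (nat_lit 0x300000c0000100000000000000000000000000000000000000000) (nat_lit 0x320003e70001f8000ff00000000000000000000000000000) (nat_lit 9)
theorem c58421 : QOK q58421 := cut [q19938, q8595] ⟨c19938, c8595, trivial⟩ (nd (nat_lit 142) (nat_lit 0) (cs (lf (nat_lit 24) (nat_lit 120)) (nd (nat_lit 141) (nat_lit 0) (cs (lf (nat_lit 47) (nat_lit 119)) (nd (nat_lit 166) (nat_lit 0) (cs (nd (nat_lit 167) (nat_lit 0) (cs (rf (nat_lit 0)) (lf (nat_lit 20) (nat_lit 141)))) (cs (nd (nat_lit 143) (nat_lit 0) (cs (lf (nat_lit 35) (nat_lit 120)) (nd (nat_lit 144) (nat_lit 0) (cs (lf (nat_lit 5) (nat_lit 141)) (nd (nat_lit 122) (nat_lit 0) (cs (lf (nat_lit 17) (nat_lit 119)) (lf (nat_lit 39) (nat_lit 121)))))))) (nd (nat_lit 143) (nat_lit 0) (cs (lf (nat_lit 35) (nat_lit 120)) (rf (nat_lit 1))))))))))) q58421 (by decide +kernel)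
def q58436 : Q := Q.p (nat_lit 0x300000c0000100000000000000000000000000000000000000000) (nat_lit 0x20000180000720003ee0007c0003f000000000000000000000000000000) (nat_lit 9)
theorem c58436 : QOK q58436 := cut [q8140, q20002, q10427, q58187, q9039, q4852] ⟨c8140, c20002, c10427, c58187, c9039, c4852, trivial⟩ (nd (nat_lit 188) (nat_lit 0) (cs (rf (nat_lit 0)) (cs (rf (nat_lit 1)) (nd (nat_lit 143) (nat_lit 0) (cs (rf (nat_lit 2)) (cs (nd (nat_lit 144) (nat_lit 0) (cs (rf (nat_lit 3)) (nd (nat_lit 142) (nat_lit 0) (cs (lf (nat_lit 24) (nat_lit 120)) (rf (nat_lit 4)))))) (nd (nat_lit 165) (nat_lit 0) (cs (lf (nat_lit 36) (nat_lit 120)) (nd (nat_lit 163) (nat_lit 0) (cs (lf (nat_lit 0) (nat_lit 162)) (nd (nat_lit 144) (nat_lit 0) (cs (lf (nat_lit 35) (nat_lit 121)) (rf (nat_lit 5)))))))))))))) q58436 (by decide +kernel)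
def q58446 : Q := Q.p (nat_lit 0x300000c0000100000000000000000000000000000000000000000) (nat_lit 0x1800006000138000ef8000fc0003f80000000000000000000000000000) (nat_lit 12)
theorem c58446 : QOK q58446 := cut [q18378, q57767, q57765, q58395, q58437, q36172] ⟨c18378, c57767, c57765, c58395, c58437, c36172, trivial⟩ (nd (nat_lit 142) (nat_lit 0) (cs (lf (nat_lit 24) (nat_lit 120)) (nd (nat_lit 141) (nat_lit 0) (cs (lf (nat_lit 47) (nat_lit 119)) (nd (nat_lit 140) (nat_lit 0) (cs (rf (nat_lit 0)) (cs (rf (nat_lit 1)) (cs (nd (nat_lit 165) (nat_lit 0) (cs (rf (nat_lit 2)) (cs (rf (nat_lit 3)) (nd (nat_lit 143) (nat_lit 0) (cs (lf (nat_lit 36) (nat_lit 120)) (nd (nat_lit 117) (nat_lit 0) (cs (lf (nat_lit 22) (nat_lit 117)) (nd (nat_lit 162) (nat_lit 0) (cs (lf (nat_lit 11) (nat_lit 139)) (nd (nat_lit 163) (nat_lit 0) (cs (lf (nat_lit 5) (nat_lit 162)) (rf (nat_lit 4))))))))))))) (nd (nat_lit 139) (nat_lit 0) (cs (lf (nat_lit 5) (nat_lit 139))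 (rf (nat_lit 5)))))))))))) q58446 (by decide +kernel)
def q58473 : Q := Q.p (nat_lit 0x800002400000000010000040000000000000000000000000000000000000000000000) (nat_lit 0x1400001a00005c00000000000000000000000000000000000000000000000000000000) (nat_lit 5)
theorem c58473 : QOK q58473 := cut [q2281] ⟨c2281, trivial⟩ (nd (nat_lit 252) (nat_lit 0) (cs (lf (nat_lit 26) (nat_lit 186)) (rf (nat_lit 0)))) q58473 (by decide +kernel)
def q58510 : Q := Q.p (nat_lit 0x880002c00000000010000000000000000000000000000000000000000000000000000) (nat_lit 0x1000005000010000198000200000c0000000000000000000000000000000000000000000000) (nat_lit 6)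
theorem c58510 : QOK q58510 := cut [q58475] ⟨c58475, trivial⟩ (nd (nat_lit 252) (nat_lit 0) (cs (lf (nat_lit 10) (nat_lit 249)) (rf (nat_lit 0)))) q58510 (by decide +kernel)
def q58521 : Q := Q.p (nat_lit 0x20000080000400000000000000000000000000000000000000000000000000000000000000) (nat_lit 0x500001c00007000018000040000100000300001c00005000000000000000000000000000000000000000000000000000) (nat_lit 6)
theorem c58521 : QOK q58521 := cut [q56985, q58518, q58520] ⟨c56985, c58518, c58520, trivial⟩ (nd (nat_lit 315) (nat_lit 0) (cs (rf (nat_lit 0)) (cs (rf (nat_lit 1)) (rf (nat_lit 2))))) q58521 (by decide +kernel)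
def q58571 : Q := Q.p (nat_lit 0x40000100000c00000000000000000000000000000000000000000000000000000000000000) (nat_lit 0xa0000380000e000010000000000200000000002000000000000000000000000000000000000000000000000000000000) (nat_lit 6)
theorem c58571 : QOK q58571 := cut [q58569] ⟨c58569, trivial⟩ (nd (nat_lit 316) (nat_lit 0) (cs (lf (nat_lit 35) (nat_lit 228)) (nd (nat_lit 338) (nat_lit 0) (cs (lf (nat_lit 34) (nat_lit 250)) (rf (nat_lit 0)))))) q58571 (by decide +kernel)
def q58791 : Q := Q.p (nat_lit 0x800002c00000000010000000000000000000000000000000000000000000000000000) (nat_lit 0x1000014000010000198000200000c0000000000000000000000000000000000000000000000) (nat_lit 6)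
theorem c58791 : QOK q58791 := cut [q58475] ⟨c58475, trivial⟩ (nd (nat_lit 252) (nat_lit 0) (cs (lf (nat_lit 5) (nat_lit 250)) (rf (nat_lit 0)))) q58791 (by decide +kernel)
def q58806 : Q := Q.p (nat_lit 0x8000020000080000600000000000000000000000000000000000000000000000000000000000000) (nat_lit 0x1000004000010000100000000000c0000700001c000040000000000000000000000000000000000000000) (nat_lit 7)
theorem c58806 : QOK q58806 := cut [q58805] ⟨c58805, trivial⟩ (nd (nat_lit 314) (nat_lit 0) (cs (lf (nat_lit 41) (nat_lit 248)) (rf (nat_lit 0)))) q58806 (by decide +kernel)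
def q58817 : Q := Q.p (nat_lit 0x20000000000f00000000000000000000000000000000000000000000000000000000000000) (nat_lit 0x6e000000000060000380000e000028000000000000000000000000000000000000000) (nat_lit 8)
theorem c58817 : QOK q58817 := cut [q57627] ⟨c57627, trivial⟩ (nd (nat_lit 226) (nat_lit 0) (cs (lf (nat_lit 23) (nat_lit 225)) (nd (nat_lit 273) (nat_lit 0) (cs (lf (nat_lit 5) (nat_lit 248)) (nd (nat_lit 270) (nat_lit 0) (cs (lf (nat_lit 11) (nat_lit 247)) (rf (nat_lit 0)))))))) q58817 (by decide +kernel)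
def q58844 : Q := Q.p (nat_lit 0x800002c00000000010000000000000000000000000000000000000000000000000000) (nat_lit 0x1000005c0001200019c000200000c0000000000000000000000000000000000000000000000) (nat_lit 7)
theorem c58844 : QOK q58844 := cut [q1998, q6234, q57646] ⟨c1998, c6234, c57646, trivial⟩ (nd (nat_lit 252) (nat_lit 0) (cs (rf (nat_lit 0)) (cs (rf (nat_lit 1)) (rf (nat_lit 2))))) q58844 (by decide +kernel)
def q58857 : Q := Q.p (nat_lit 0x60000900002000000000000000000000000000000000000000000000000000000000000000) (nat_lit 0x10000040000180000600001000008000020000000000000000000000000000000000000000000000000000) (nat_lit 5)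
theorem c58857 : QOK q58857 := cut [q58856] ⟨c58856, trivial⟩ (nd (nat_lit 274) (nat_lit 0) (cs (lf (nat_lit 8) (nat_lit 271)) (rf (nat_lit 0)))) q58857 (by decide +kernel)
def q58869 : Q := Q.p (nat_lit 0x1c00002400000000000000000000000000000000000000000000000000000000000000) (nat_lit 0x40000700001c0000700003c000060000398000700001c0000500000000000000000000000000000000000000000000000) (nat_lit 10)
theorem c58869 : QOK q58869 := cut [q13005, q15529, q15526, q14275, q58862] ⟨c13005, c15529, c15526, c14275, c58862, trivial⟩ (nd (nat_lit 277) (nat_lit 0) (cs (rf (nat_lit 0)) (cs (nd (nat_lit 252) (nat_lit 0) (cs (lf (nat_lit 18) (nat_lit 252)) (lf (nat_lit 1) (nat_lit 250)))) (nd (nat_lit 255) (nat_lit 0) (cs (lf (nat_lit 17) (nat_lit 252)) (nd (nat_lit 299) (nat_lit 0) (cs (lf (nat_lit 5) (nat_lit 274)) (nd (nat_lit 321) (nat_lit 0) (cs (rf (nat_lit 1)) (cs (nd (nat_lit 251) (nat_lit 0) (cs (lf (nat_lit 2) (nat_lit 250)) (rf (nat_lit 2))))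 (cs (nd (nat_lit 251) (nat_lit 0) (cs (rf (nat_lit 3)) (lf (nat_lit 2) (nat_lit 250)))) (nd (nat_lit 342) (nat_lit 0) (cs (lf (nat_lit 40) (nat_lit 254)) (nd (nat_lit 251) (nat_lit 0) (cs (lf (nat_lit 2) (nat_lit 250)) (nd (nat_lit 344) (nat_lit 0) (cs (lf (nat_lit 28) (nat_lit 255)) (rf (nat_lit 4))))))))))))))))))) q58869 (by decide +kernel)
def q58880 : Q := Q.p (nat_lit 0xf0000000000000000000000000000000000000000000000000000000000000000000000000) (nat_lit 0xee000100000060000000000000000000000000000000000000000000000000000000000000000000) (nat_lit 5)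
theorem c58880 : QOK q58880 := cut [q58879] ⟨c58879, trivial⟩ (nd (nat_lit 269) (nat_lit 0) (cs (lf (nat_lit 22) (nat_lit 269)) (rf (nat_lit 0)))) q58880 (by decide +kernel)
def q58896 : Q := Q.p (nat_lit 0x60000c00002400000000000000000000000000000000000000000000000000000000000000) (nat_lit 0x1c00007300039800000000000000000000000000000000000000000000000000000000000000) (nat_lit 7)
theorem c58896 : QOK q58896 := cut [q58895] ⟨c58895, trivial⟩ (nd (nat_lit 273) (nat_lit 0) (cs (lf (nat_lit 9) (nat_lit 271)) (rf (nat_lit 0)))) q58896 (by decide +kernel)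
def q58909 : Q := Q.p (nat_lit 0x10000060000100000400000000000000000000000000000000000000000000000000000000000000) (nat_lit 0xa000068000018000000000800002000000000000000000000000000000000000000000000000000000000) (nat_lit 5)
theorem c58909 : QOK q58909 := cut [q46683] ⟨c46683, trivial⟩ (nd (nat_lit 229) (nat_lit 0) (cs (lf (nat_lit 34) (nat_lit 228)) (rf (nat_lit 0)))) q58909 (by decide +kernel)

end Crest.Agent.H3.Snaky.CR
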