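import Crest.Agent.H3.Snaky.Cert
import Crest.Agent.H3.Snaky.CR.CR0
import Crest.Agent.H3.Snaky.CR.CR1
import Crest.Agent.H3.Snaky.CR.CR2
import Crest.Agent.H3.Snaky.CR.CR3
import Crest.Agent.H3.Snaky.CR.CR4
import Crest.Agent.H3.Snaky.CR.CR5
import Crest.Agent.H3.Snaky.CR.CR6
import Crest.Agent.H3.Snaky.CR.CR7
import Crest.Agent.H3.Snaky.CR.CR8
import Crest.Agent.H3.Snaky.CR.CR9
import Crest.Agent.H3.Snaky.CR.CR10
import Crest.Agent.H3.Snaky.CR.CR11
import Crest.Agent.H3.Snaky.CR.CR12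
import Crest.Agent.H3.Snaky.CR.CR13
import Crest.Agent.H3.Snaky.CR.CR14
import Crest.Agent.H3.Snaky.CR.CR20
import Crest.Agent.H3.Snaky.CR.CR21
import Crest.Agent.H3.Snaky.CR.CR22
import Crest.Agent.H3.Snaky.CR.CR23
import Crest.Agent.H3.Snaky.CR.CR24
import Crest.Agent.H3.Snaky.CR.CR25
import Crest.Agent.H3.Snaky.CR.CR26
import Crest.Agent.H3.Snaky.CR.CR27
import Crest.Agent.H3.Snaky.CR.CR28
import Crest.Agent.H3.Snaky.CR.CR29
import Crest.Agent.H3.Snaky.CR.CR30
import Crest.Agent.H3.Snaky.CR.CR31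
import Crest.Agent.H3.Snaky.CR.CR32
import Crest.Agent.H3.Snaky.CR.CR39
import Crest.Agent.H3.Snaky.CR.CR40
import Crest.Agent.H3.Snaky.CR.CR41
import Crest.Agent.H3.Snaky.CR.CR42
import Crest.Agent.H3.Snaky.CR.CR43
import Crest.Agent.H3.Snaky.CR.CR44
import Crest.Agent.H3.Snaky.CR.CR45
import Crest.Agent.H3.Snaky.CR.CR46
import Crest.Agent.H3.Snaky.CR.CR47

set_option autoImplicit false
set_option maxRecDepth 100000

namespace Crest.Agent.H3.Snaky.CR

open T

def q58937 : Q := Q.p (nat_lit 0x8000020000080000600000000000000000000000000000000000000000000000000000000000000) (nat_lit 0x7000014000000000070000900000400000000000000000000000000000000000000000000000000000000) (nat_lit 6)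
theorem c58937 : QOK q58937 := cut [q58936] ⟨c58936, trivial⟩ (nd (nat_lit 316) (nat_lit 0) (cs (lf (nat_lit 29) (nat_lit 249)) (rf (nat_lit 0)))) q58937 (by decide +kernel)
def q58999 : Q := Q.p (nat_lit 0x20000800000e00000000000000000000000000000000000000000000000000000000000000) (nat_lit 0xa000178000ff8001d800167c0001e0003fc000780001e000038000080000000000000000000000000000000000) (nat_lit 12)
theorem c58999 : QOK q58999 := cut [q15305, q57635, q46745, q57365, q58946, q58952, q14478, q44583, q15307, q4119, q58969, q40786, q58765, q58809, q45543, q58995] ⟨c15305, c57635, c46745, c57365, c58946, c58952, c14478, c44583, c15307, c4119, c58969, c40786, c58765, c58809, c45543, c58995, trivial⟩ (nd (nat_lit 248) (nat_lit 0) (cs (rf (nat_lit 0)) (cs (nd (nat_lit 270) (nat_lit 0) (cs (lf (nat_lit 11) (nat_lit 247)) (nd (nat_lit 292) (nat_lit 0) (cs (rf (nat_lit 1)) (cs (nd (nat_lit 226) (nat_lit 0) (cs (lf (nat_lit 29) (nat_lit 226)) (nd (nat_lit 204) (nat_lit 0)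 (cs (rf (nat_lit 2)) (cs (nd (nat_lit 181) (nat_lit 0) (cs (lf (nat_lit 46) (nat_lit 181)) (nd (nat_lit 183) (nat_lit 0) (cs (lf (nat_lit 34) (nat_lit 182)) (nd (nat_lit 182) (nat_lit 0) (cs (lf (nat_lit 47) (nat_lit 159)) (lf (nat_lit 35) (nat_lit 160)))))))) (cs (nd (nat_lit 273) (nat_lit 0) (cs (lf (nat_lit 5) (nat_lit 248)) (nd (nat_lit 227) (nat_lit 0) (cs (lf (nat_lit 35) (nat_lit 204)) (nd (nat_lit 291) (nat_lit 0) (cs (lf (nat_lit 41) (nat_lit 225)) (rf (nat_lit 3)))))))) (nd (nat_lit 291) (nat_lit 0) (cs (lf (nat_lit 41) (nat_lit 225)) (nd (nat_lit 273) (nat_lit 0) (cs (lf (nat_lit 5) (nat_lit 248)) (rf (nat_lit 4)))))))))))) (cs (rf (nat_lit 5)) (nd (nat_lit 273) (nat_lit 0) (cs (lf (nat_lit 5) (nat_lit 248)) (nd (nat_lit 226) (nat_lit 0) (cs (lf (nat_lit 29) (nat_lit 226)) (nd (nat_lit 313) (nat_lit 0) (cs (lf (nat_lit 40) (nat_lit 225)) (nd (nat_lit 314) (nat_lit 0) (cs (lf (nat_lit 41) (nat_lit 247)) (nd (nat_lit 295) (nat_lit 0) (cs (nd (nat_lit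 311) (nat_lit 0) (cs (rf (nat_lit 6)) (lf (nat_lit 13) (nat_lit 289)))) (lf (nat_lit 7) (nat_lit 291)))))))))))))))))) (cs (nd (nat_lit 273) (nat_lit 0) (cs (lf (nat_lit 5) (nat_lit 248)) (nd (nat_lit 269) (nat_lit 0) (cs (lf (nat_lit 10) (nat_lit 247)) (nd (nat_lit 247) (nat_lit 0) (cs (lf (nat_lit 11) (nat_lit 246)) (nd (nat_lit 228) (nat_lit 0) (cs (lf (nat_lit 17) (nat_lit 225)) (nd (nat_lit 246) (nat_lit 0) (cs (lf (nat_lit 16) (nat_lit 224)) (rf (nat_lit 7)))))))))))) (cs (nd (nat_lit 273) (nat_lit 0) (cs (rf (nat_lit 8)) (nd (nat_lit 247) (nat_lit 0) (cs (rf (nat_lit 9)) (cs (nd (nat_lit 228) (nat_lit 0) (cs (lf (nat_lit 17) (nat_lit 225)) (nd (nat_lit 246) (nat_lit 0) (cs (lf (nat_lit 16) (nat_lit 224)) (nd (nat_lit 295) (nat_lit 0) (cs (lf (nat_lit 42) (nat_lit 228)) (rf (nat_lit 10)))))))) (nd (nat_lit 226) (nat_lit 0) (cs (lf (nat_lit 23) (nat_lit 225)) (nd (nat_lit 292) (nat_lit 0) (cs (nd (nat_lit 228) (nat_lit 0) (cs (lf (nat_lit 17) (nat_lit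 225)) (nd (nat_lit 227) (nat_lit 0) (cs (lf (nat_lit 12) (nat_lit 224)) (nd (nat_lit 270) (nat_lit 0) (cs (lf (nat_lit 30) (nat_lit 226)) (lf (nat_lit 35) (nat_lit 204)))))))) (cs (nd (nat_lit 295) (nat_lit 0) (cs (rf (nat_lit 6)) (cs (nd (nat_lit 229) (nat_lit 0) (cs (lf (nat_lit 16) (nat_lit 225)) (nd (nat_lit 296) (nat_lit 0) (cs (lf (nat_lit 29) (nat_lit 229)) (nd (nat_lit 294) (nat_lit 0) (cs (lf (nat_lit 41) (nat_lit 228)) (rf (nat_lit 11)))))))) (cs (nd (nat_lit 317) (nat_lit 0) (cs (rf (nat_lit 12)) (cs (nd (nat_lit 316) (nat_lit 0) (cs (lf (nat_lit 41) (nat_lit 250)) (nd (nat_lit 294) (nat_lit 0) (cs (lf (nat_lit 36) (nat_lit 228)) (lf (nat_lit 0) (nat_lit 291)))))) (nd (nat_lit 316) (nat_lit 0) (cs (lf (nat_lit 41) (nat_lit 250)) (nd (nat_lit 318) (nat_lit 0) (cs (lf (nat_lit 29) (nat_lit 251)) (lf (nat_lit 21) (nat_lit 292))))))))) (nd (nat_lit 317) (nat_lit 0) (cs (lf (nat_lit 47) (nat_lit 228)) (nd (nat_lit 318) (nat_lit 0) (cs (lf (nat_lit 29)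 (nat_lit 251)) (lf (nat_lit 2) (nat_lit 292)))))))))) (cs (nd (nat_lit 270) (nat_lit 0) (cs (lf (nat_lit 29) (nat_lit 226)) (rf (nat_lit 13)))) (nd (nat_lit 270) (nat_lit 0) (cs (lf (nat_lit 29) (nat_lit 226)) (nd (nat_lit 291) (nat_lit 0) (cs (lf (nat_lit 41) (nat_lit 225)) (nd (nat_lit 227) (nat_lit 0) (cs (rf (nat_lit 14)) (lf (nat_lit 35) (nat_lit 204))))))))))))))))))) (nd (nat_lit 273) (nat_lit 0) (cs (lf (nat_lit 5) (nat_lit 248)) (nd (nat_lit 225) (nat_lit 0) (cs (lf (nat_lit 22) (nat_lit 225)) (nd (nat_lit 247) (nat_lit 0) (cs (lf (nat_lit 23) (nat_lit 224)) (rf (nat_lit 15))))))))))))) q58999 (by decide +kernel)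
def q59012 : Q := Q.p (nat_lit 0x10000020000080000200000000000000000000000000000000000000000000000000000000000000) (nat_lit 0x4000050000040000000000c00003000004000000000000000000000000000000000000000000000) (nat_lit 5)
theorem c59012 : QOK q59012 := cut [q59011] ⟨c59011, trivial⟩ (nd (nat_lit 227) (nat_lit 0) (cs (lf (nat_lit 28) (nat_lit 227)) (rf (nat_lit 0)))) q59012 (by decide +kernel)
def q59057 : Q := Q.p (nat_lit 0x80000780000000000000000000000000000000000000000000000000000000000000) (nat_lit 0x780000600001c0000000000000000000000000000000000000000000000000000000) (nat_lit 5)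
theorem c59057 : QOK q59057 := cut [q59056] ⟨c59056, trivial⟩ (nd (nat_lit 268) (nat_lit 0) (cs (lf (nat_lit 10) (nat_lit 246)) (rf (nat_lit 0)))) q59057 (by decide +kernel)
def q59081 : Q := Q.p (nat_lit 0x28000820002780000200000000000000000000000000000000000000000000000000000000) (nat_lit 0x104000430001d4001600001800008000020000000000000000000000000000000000000000000000000000) (nat_lit 8)
theorem c59081 : QOK q59081 := cut [q58856, q59076] ⟨c58856, c59076, trivial⟩ (nd (nat_lit 274) (nat_lit 0) (cs (nd (nat_lit 251) (nat_lit 0) (cs (lf (nat_lit 4) (nat_lit 248)) (lf (nat_lit 3) (nat_lit 249)))) (cs (nd (nat_lit 312) (nat_lit 0) (cs (lf (nat_lit 40) (nat_lit 224)) (nd (nat_lit 313) (nat_lit 0) (cs (lf (nat_lit 41) (nat_lit 246)) (nd (nat_lit 294) (nat_lit 0) (cs (rf (nat_lit 0)) (lf (nat_lit 8) (nat_lit 290)))))))) (nd (nat_lit 273) (nat_lit 0) (cs (lf (nat_lit 3) (nat_lit 248)) (nd (nat_lit 312) (nat_lit 0) (cs (lf (nat_lit 40) (nat_lit 224)) (nd (nat_lit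 313) (nat_lit 0) (cs (lf (nat_lit 41) (nat_lit 246)) (nd (nat_lit 294) (nat_lit 0) (cs (lf (nat_lit 8) (nat_lit 290)) (rf (nat_lit 1))))))))))))) q59081 (by decide +kernel)
def q59218 : Q := Q.p (nat_lit 0x20000080000780000000000000000000000000000000000000000000000000000000000000) (nat_lit 0xc00007e0005f00007e000000003700007c00017000014000000000000000000000000000000000000000) (nat_lit 12)
theorem c59218 : QOK q59218 := cut [q59145, q59172, q59174] ⟨c59145, c59172, c59174, trivial⟩ (nd (nat_lit 269) (nat_lit 0) (cs (lf (nat_lit 11) (nat_lit 246)) (nd (nat_lit 291) (nat_lit 0) (cs (rf (nat_lit 0)) (cs (rf (nat_lit 1)) (cs (rf (nat_lit 2)) (cs (nd (nat_lit 228) (nat_lit 0) (cs (lf (nat_lit 17) (nat_lit 225)) (nd (nat_lit 184) (nat_lit 0) (cs (lf (nat_lit 37) (nat_lit 183)) (nd (nat_lit 225) (nat_lit 0) (cs (lf (nat_lit 23) (nat_lit 224)) (nd (nat_lit 292) (nat_lit 0) (cs (lf (nat_lit 29) (nat_lit 225)) (nd (nat_lit 203) (nat_lit 0) (cs (lf (nat_lit 28) (nat_lit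 203)) (nd (nat_lit 182) (nat_lit 0) (cs (lf (nat_lit 34) (nat_lit 181)) (nd (nat_lit 160) (nat_lit 0) (cs (lf (nat_lit 33) (nat_lit 159)) (nd (nat_lit 312) (nat_lit 0) (cs (lf (nat_lit 40) (nat_lit 224)) (nd (nat_lit 313) (nat_lit 0) (cs (lf (nat_lit 41) (nat_lit 246)) (lf (nat_lit 6) (nat_lit 290)))))))))))))))))))) (nd (nat_lit 224) (nat_lit 0) (cs (lf (nat_lit 22) (nat_lit 224)) (nd (nat_lit 228) (nat_lit 0) (cs (lf (nat_lit 17) (nat_lit 225)) (nd (nat_lit 184) (nat_lit 0) (cs (lf (nat_lit 37) (nat_lit 183)) (nd (nat_lit 313) (nat_lit 0) (cs (lf (nat_lit 35) (nat_lit 225)) (nd (nat_lit 312) (nat_lit 0) (cs (lf (nat_lit 41) (nat_lit 246)) (nd (nat_lit 270) (nat_lit 0) (cs (lf (nat_lit 30) (nat_lit 247)) (nd (nat_lit 292) (nat_lit 0) (cs (lf (nat_lit 6) (nat_lit 290)) (nd (nat_lit 311) (nat_lit 0) (cs (lf (nat_lit 15) (nat_lit 289)) (lf (nat_lit 9) (nat_lit 289))))))))))))))))))))))))) q59218 (by decide +kernel)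
def q59263 : Q := Q.p (nat_lit 0x20000080000200000800000000000000000000000000000000000000000000000000000000) (nat_lit 0x400001000004000000000000000700001c000050000000000000000000000000000000000000000) (nat_lit 6)
theorem c59263 : QOK q59263 := cut [q59262] ⟨c59262, trivial⟩ (nd (nat_lit 292) (nat_lit 0) (cs (lf (nat_lit 41) (nat_lit 226)) (rf (nat_lit 0)))) q59263 (by decide +kernel)
def q59286 : Q := Q.p (nat_lit 0x20000080000600000000000000000000000000000000000000000000000000000000000000) (nat_lit 0x500001c0000700007c0000dc00007000190000080000700001c000050000000000000000000000000000000000000000) (nat_lit 11)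
theorem c59286 : QOK q59286 := cut [q59008, q59268, q59272, q59262, q59285] ⟨c59008, c59268, c59272, c59262, c59285, trivial⟩ (nd (nat_lit 315) (nat_lit 0) (cs (rf (nat_lit 0)) (cs (nd (nat_lit 338) (nat_lit 0) (cs (lf (nat_lit 28) (nat_lit 249)) (nd (nat_lit 337) (nat_lit 0) (cs (lf (nat_lit 29) (nat_lit 271)) (rf (nat_lit 1)))))) (cs (rf (nat_lit 2)) (cs (nd (nat_lit 316) (nat_lit 0) (cs (lf (nat_lit 29) (nat_lit 249)) (nd (nat_lit 227) (nat_lit 0) (cs (lf (nat_lit 28) (nat_lit 227)) (nd (nat_lit 292) (nat_lit 0) (cs (lf (nat_lit 41) (nat_lit 226)) (nd (nat_lit 317) (nat_lit 0) (cs (lf (nat_lit 18) (nat_lit 292)) (nd (nat_lit 290) (nat_lit 0) (cs (lf (nat_lit 1) (nat_lit 290)) (rf (nat_lit 3)))))))))))) (rf (nat_lit 4))))))) q59286 (by decide +kernel)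
def q59350 : Q := Q.p (nat_lit 0x20000880002600000000010000000000000000000000000000000000000000000000000000) (nat_lit 0x6000018000150001670001980018f0002300004c000000000000000000000000000000000000000000000) (nat_lit 9)
theorem c59350 : QOK q59350 := cut [q58793, q59266, q15305, q58832, q59343] ⟨c58793, c59266, c15305, c58832, c59343, trivial⟩ (nd (nat_lit 251) (nat_lit 0) (cs (rf (nat_lit 0)) (cs (rf (nat_lit 1)) (nd (nat_lit 248) (nat_lit 0) (cs (rf (nat_lit 2)) (cs (rf (nat_lit 3)) (nd (nat_lit 273) (nat_lit 0) (cs (lf (nat_lit 5) (nat_lit 248)) (nd (nat_lit 270) (nat_lit 0) (cs (lf (nat_lit 11) (nat_lit 247)) (nd (nat_lit 315) (nat_lit 0) (cs (lf (nat_lit 42) (nat_lit 248)) (nd (nat_lit 316) (nat_lit 0) (cs (lf (nat_lit 29) (nat_lit 249)) (nd (nat_lit 227) (nat_lit 0) (cs (lf (nat_lit 28) (nat_lit 227)) (rf (nat_lit 4)))))))))))))))))) q59350 (by decide +kernel)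
def q59362 : Q := Q.p (nat_lit 0xe000020000080000200000000000000000000000000000000000000000000000000000000000000) (nat_lit 0x4e0001100000e000000000100000400000000000000000000000000000000000000000000000000000000) (nat_lit 6)
theorem c59362 : QOK q59362 := cut [q59361] ⟨c59361, trivial⟩ (nd (nat_lit 226) (nat_lit 0) (cs (lf (nat_lit 46) (nat_lit 226)) (rf (nat_lit 0)))) q59362 (by decide +kernel)
def q59498 : Q := Q.p (nat_lit 0x60000380000400000000000000000000000000000000000000000000000000000000000000) (nat_lit 0x100000000000000003c0001f00007000000000000000000000000000000000000000000000000000) (nat_lit 7)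
theorem c59498 : QOK q59498 := cut [q59495] ⟨c59495, trivial⟩ (nd (nat_lit 228) (nat_lit 0) (cs (lf (nat_lit 36) (nat_lit 205)) (nd (nat_lit 227) (nat_lit 0) (cs (lf (nat_lit 47) (nat_lit 205)) (nd (nat_lit 249) (nat_lit 0) (cs (lf (nat_lit 42) (nat_lit 227)) (rf (nat_lit 0)))))))) q59498 (by decide +kernel)
def q59527 : Q := Q.p (nat_lit 0x20000380000400000000000000000000000000000000000000000000000000000000000000) (nat_lit 0x60000980002600019f0000780003c0001e00007800000000000000000000000000000000000000000000000000) (nat_lit 13)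
theorem c59527 : QOK q59527 := cut [q46776, q59503, q59513, q46919, q59523] ⟨c46776, c59503, c59513, c46919, c59523, trivial⟩ (nd (nat_lit 270) (nat_lit 0) (cs (rf (nat_lit 0)) (cs (rf (nat_lit 1)) (cs (nd (nat_lit 206) (nat_lit 0) (cs (lf (nat_lit 37) (nat_lit 205)) (rf (nat_lit 2)))) (cs (nd (nat_lit 292) (nat_lit 0) (cs (lf (nat_lit 11) (nat_lit 269)) (nd (nat_lit 248) (nat_lit 0) (cs (lf (nat_lit 23) (nat_lit 247)) (nd (nat_lit 206) (nat_lit 0) (cs (lf (nat_lit 37) (nat_lit 205)) (nd (nat_lit 226) (nat_lit 0) (cs (lf (nat_lit 24) (nat_lit 204)) (nd (nat_lit 295) (nat_lit 0) (cs (lf (nat_lit 5) (nat_lit 270)) (nd (nat_lit 317) (nat_lit 0) (cs (lf (nat_lit 42) (nat_lit 250)) (nd (nat_lit 203) (nat_lit 0) (cs (lf (nat_lit 46) (nat_lit 203)) (rf (nat_lit 3)))))))))))))))) (nd (nat_lit 295) (nat_lit 0) (cs (lf (nat_lit 5) (nat_lit 270)) (nd (nat_lit 317) (nat_lit 0) (cs (lf (nat_lit 42) (nat_lit 250)) (nd (nat_lit 206) (nat_lit 0) (cs (lf (nat_lit 37) (nat_lit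 205)) (rf (nat_lit 4))))))))))))) q59527 (by decide +kernel)
def q59540 : Q := Q.p (nat_lit 0x60000180000400000000000000000000000000000000000000000000000000000000000000) (nat_lit 0x3400009c000200000200001c00007000000000000000000000000000000000000000000000000000) (nat_lit 8)
theorem c59540 : QOK q59540 := cut [q47565] ⟨c47565, trivial⟩ (nd (nat_lit 228) (nat_lit 0) (cs (lf (nat_lit 36) (nat_lit 205)) (nd (nat_lit 295) (nat_lit 0) (cs (lf (nat_lit 29) (nat_lit 228)) (nd (nat_lit 227) (nat_lit 0) (cs (lf (nat_lit 47) (nat_lit 205)) (nd (nat_lit 249) (nat_lit 0) (cs (lf (nat_lit 42) (nat_lit 227)) (rf (nat_lit 0)))))))))) q59540 (by decide +kernel)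
def q59656 : Q := Q.p (nat_lit 0x20000980002400000800000000000000000000000000000000000000000000000000000000) (nat_lit 0x400005f0006780011f0003600007c00004000000000000000000000000000000000000000000000) (nat_lit 10)
theorem c59656 : QOK q59656 := cut [q59582, q59586, q59587, q59533, q59633, q59598, q59607, q37282, q59652, q59599, q59602] ⟨c59582, c59586, c59587, c59533, c59633, c59598, c59607, c37282, c59652, c59599, c59602, trivial⟩ (nd (nat_lit 270) (nat_lit 0) (cs (nd (nat_lit 228) (nat_lit 0) (cs (lf (nat_lit 36) (nat_lit 205)) (nd (nat_lit 294) (nat_lit 0) (cs (lf (nat_lit 47) (nat_lit 205)) (rf (nat_lit 0)))))) (cs (nd (nat_lit 205) (nat_lit 0) (cs (nd (nat_lit 228) (nat_lit 0) (cs (lf (nat_lit 42) (nat_lit 205)) (lf (nat_lit 36) (nat_lit 205)))) (cs (nd (nat_lit 248) (nat_lit 0) (cs (rf (nat_lit 1)) (cs (rf (nat_lit 2)) (nd (nat_lit 204) (nat_lit 0) (cs (lf (nat_lit 25) (nat_lit 204)) (nd (nat_lit 273) (nat_lit 0) (cs (lf (nat_lit 23) (nat_lit 247)) (rf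 (nat_lit 3))))))))) (nd (nat_lit 248) (nat_lit 0) (cs (rf (nat_lit 1)) (cs (rf (nat_lit 2)) (nd (nat_lit 228) (nat_lit 0) (cs (lf (nat_lit 36) (nat_lit 205)) (nd (nat_lit 226) (nat_lit 0) (cs (lf (nat_lit 24) (nat_lit 204)) (nd (nat_lit 247) (nat_lit 0) (cs (lf (nat_lit 18) (nat_lit 247)) (lf (nat_lit 6) (nat_lit 225)))))))))))))) (cs (rf (nat_lit 4)) (cs (nd (nat_lit 269) (nat_lit 0) (cs (rf (nat_lit 5)) (cs (rf (nat_lit 6)) (cs (nd (nat_lit 204) (nat_lit 0) (cs (nd (nat_lit 226) (nat_lit 0) (cs (nd (nat_lit 291) (nat_lit 0) (cs (lf (nat_lit 11) (nat_lit 268)) (nd (nat_lit 247) (nat_lit 0) (cs (lf (nat_lit 23) (nat_lit 246)) (lf (nat_lit 33) (nat_lit 203)))))) (lf (nat_lit 26) (nat_lit 204)))) (cs (nd (nat_lit 226) (nat_lit 0) (cs (lf (nat_lit 26) (nat_lit 204)) (nd (nat_lit 228) (nat_lit 0) (cs (lf (nat_lit 36) (nat_lit 205)) (nd (nat_lit 205) (nat_lit 0) (cs (lf (nat_lit 42) (nat_lit 205)) (rf (nat_lit 7)))))))) (nd (nat_lit 247) (nat_lit 0) (cs (lf (nat_lit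 23) (nat_lit 246)) (nd (nat_lit 290) (nat_lit 0) (cs (lf (nat_lit 10) (nat_lit 268)) (nd (nat_lit 228) (nat_lit 0) (cs (lf (nat_lit 36) (nat_lit 205)) (nd (nat_lit 205) (nat_lit 0) (cs (lf (nat_lit 42) (nat_lit 205)) (nd (nat_lit 203) (nat_lit 0) (cs (lf (nat_lit 0) (nat_lit 202)) (nd (nat_lit 225) (nat_lit 0) (cs (lf (nat_lit 29) (nat_lit 203)) (lf (nat_lit 35) (nat_lit 181))))))))))))))))) (nd (nat_lit 290) (nat_lit 0) (cs (lf (nat_lit 10) (nat_lit 268)) (nd (nat_lit 268) (nat_lit 0) (cs (lf (nat_lit 5) (nat_lit 268)) (lf (nat_lit 11) (nat_lit 267)))))))))) (cs (nd (nat_lit 228) (nat_lit 0) (cs (lf (nat_lit 36) (nat_lit 205)) (nd (nat_lit 294) (nat_lit 0) (cs (lf (nat_lit 47) (nat_lit 205)) (rf (nat_lit 8)))))) (nd (nat_lit 291) (nat_lit 0) (cs (nd (nat_lit 290) (nat_lit 0) (cs (lf (nat_lit 14) (nat_lit 268)) (lf (nat_lit 9) (nat_lit 268)))) (cs (rf (nat_lit 9)) (rf (nat_lit 10))))))))))) q59656 (by decide +kernel)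
def q59771 : Q := Q.p (nat_lit 0x8000020000080000000000000000000000000000000000000000000000000000000000000000000) (nat_lit 0x200000d00007c0001fc00077000050000040000100000000000000000000000000000000000000000000000000000000000000) (nat_lit 11)
theorem c59771 : QOK q59771 := cut [q55062, q56984, q59268] ⟨c55062, c56984, c59268, trivial⟩ (nd (nat_lit 337) (nat_lit 0) (cs (rf (nat_lit 0)) (cs (rf (nat_lit 1)) (cs (rf (nat_lit 2)) (nd (nat_lit 338) (nat_lit 0) (cs (lf (nat_lit 29) (nat_lit 271)) (nd (nat_lit 313) (nat_lit 0) (cs (nd (nat_lit 248) (nat_lit 0) (cs (lf (nat_lit 46) (nat_lit 248)) (nd (nat_lit 312) (nat_lit 0) (cs (nd (nat_lit 336) (nat_lit 0) (cs (lf (nat_lit 41) (nat_lit 270)) (lf (nat_lit 21) (nat_lit 312)))) (lf (nat_lit 2) (nat_lit 312)))))) (cs (nd (nat_lit 248) (nat_lit 0) (cs (lf (nat_lit 46) (nat_lit 248)) (nd (nat_lit 336) (nat_lit 0) (cs (lf (nat_lit 41) (nat_lit 270)) (nd (nat_lit 335) (nat_lit 0) (cs (lf (nat_lit 23) (nat_lit 312)) (nd (nat_lit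 316) (nat_lit 0) (cs (lf (nat_lit 12) (nat_lit 312)) (lf (nat_lit 17) (nat_lit 313)))))))))) (cs (nd (nat_lit 248) (nat_lit 0) (cs (lf (nat_lit 46) (nat_lit 248)) (nd (nat_lit 336) (nat_lit 0) (cs (lf (nat_lit 41) (nat_lit 270)) (nd (nat_lit 339) (nat_lit 0) (cs (lf (nat_lit 22) (nat_lit 313)) (nd (nat_lit 361) (nat_lit 0) (cs (lf (nat_lit 5) (nat_lit 336)) (nd (nat_lit 317) (nat_lit 0) (cs (lf (nat_lit 17) (nat_lit 314)) (nd (nat_lit 316) (nat_lit 0) (cs (lf (nat_lit 12) (nat_lit 313)) (nd (nat_lit 383) (nat_lit 0) (cs (lf (nat_lit 47) (nat_lit 294)) (lf (nat_lit 42) (nat_lit 316)))))))))))))))) (nd (nat_lit 314) (nat_lit 0) (cs (lf (nat_lit 0) (nat_lit 312)) (nd (nat_lit 339) (nat_lit 0) (cs (lf (nat_lit 3) (nat_lit 313)) (lf (nat_lit 18) (nat_lit 314)))))))))))))))) q59771 (by decide +kernel)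
def q59777 : Q := Q.p (nat_lit 0x8000020000080000400000000000000000000000000000000000000000000000000000000000000) (nat_lit 0x1000004000010000000000300001c00001000000000000000000000000000000000000000000000000000) (nat_lit 5)
theorem c59777 : QOK q59777 := cut [q44101] ⟨c44101, trivial⟩ (nd (nat_lit 249) (nat_lit 0) (cs (rf (nat_lit 0)) (lf (nat_lit 35) (nat_lit 227)))) q59777 (by decide +kernel)
def q59779 : Q := Q.p (nat_lit 0x20000080000400000000000000000000000000000000000000000000000000000000000000) (nat_lit 0x500001c0000700001c000050000100000200001800004000000000000000000000000000000000000000000000000000) (nat_lit 6)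
theorem c59779 : QOK q59779 := cut [q56985, q58520, q59776] ⟨c56985, c58520, c59776, trivial⟩ (nd (nat_lit 315) (nat_lit 0) (cs (rf (nat_lit 0)) (cs (rf (nat_lit 1)) (rf (nat_lit 2))))) q59779 (by decide +kernel)
def q59826 : Q := Q.p (nat_lit 0x20000080000400000000000000000000000000000000000000000000000000000000000000) (nat_lit 0x1000006000018000040000140000300001c00005000000000000000000000000000000000000000000000000000) (nat_lit 6)
theorem c59826 : QOK q59826 := cut [q58518, q59772, q59822] ⟨c58518, c59772, c59822, trivial⟩ (nd (nat_lit 315) (nat_lit 0) (cs (rf (nat_lit 0)) (cs (rf (nat_lit 1)) (rf (nat_lit 2))))) q59826 (by decide +kernel)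
def q59854 : Q := Q.p (nat_lit 0x20000180002400000000000000000000000000000000000000000000000000000000000000) (nat_lit 0xe0000780001980002600019e0001400005000000000000000000000000000000000000000000000000000) (nat_lit 11)
theorem c59854 : QOK q59854 := cut [q59837, q59838, q56403, q59853] ⟨c59837, c59838, c56403, c59853, trivial⟩ (nd (nat_lit 270) (nat_lit 0) (cs (rf (nat_lit 0)) (cs (nd (nat_lit 248) (nat_lit 0) (cs (rf (nat_lit 1)) (cs (nd (nat_lit 251) (nat_lit 0) (cs (lf (nat_lit 7) (nat_lit 249)) (nd (nat_lit 204) (nat_lit 0) (cs (lf (nat_lit 25) (nat_lit 204)) (nd (nat_lit 228) (nat_lit 0) (cs (lf (nat_lit 36) (nat_lit 205)) (nd (nat_lit 273) (nat_lit 0) (cs (lf (nat_lit 23) (nat_lit 247)) (rf (nat_lit 2)))))))))) (nd (nat_lit 315) (nat_lit 0) (cs (lf (nat_lit 30) (nat_lit 249)) (nd (nat_lit 251) (nat_lit 0) (cs (lf (nat_lit 7) (nat_lit 249)) (nd (nat_lit 206) (nat_lit 0) (cs (lf (nat_lit 37) (nat_lit 205)) (nd (nat_lit 273) (nat_lit 0) (cs (lf (nat_lit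 23) (nat_lit 247)) (nd (nat_lit 292) (nat_lit 0) (cs (lf (nat_lit 11) (nat_lit 269)) (nd (nat_lit 295) (nat_lit 0) (cs (lf (nat_lit 5) (nat_lit 270)) (nd (nat_lit 317) (nat_lit 0) (cs (lf (nat_lit 42) (nat_lit 250)) (nd (nat_lit 316) (nat_lit 0) (cs (lf (nat_lit 41) (nat_lit 250)) (lf (nat_lit 18) (nat_lit 292))))))))))))))))))))) (rf (nat_lit 3))))) q59854 (by decide +kernel)
def q59910 : Q := Q.p (nat_lit 0x200000c0000600000000000000000000000000000000000000000000000000000000000000) (nat_lit 0xc0000300000dc0003300001c0003300004800002000000000000000000000000000000000000000000000) (nat_lit 11)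
theorem c59910 : QOK q59910 := cut [q59904, q52073] ⟨c59904, c52073, trivial⟩ (nd (nat_lit 269) (nat_lit 0) (cs (lf (nat_lit 12) (nat_lit 246)) (nd (nat_lit 272) (nat_lit 0) (cs (nd (nat_lit 294) (nat_lit 0) (cs (lf (nat_lit 5) (nat_lit 269)) (nd (nat_lit 316) (nat_lit 0) (cs (lf (nat_lit 42) (nat_lit 249)) (nd (nat_lit 317) (nat_lit 0) (cs (lf (nat_lit 29) (nat_lit 250)) (nd (nat_lit 291) (nat_lit 0) (cs (lf (nat_lit 11) (nat_lit 268)) (lf (nat_lit 1) (nat_lit 291)))))))))) (cs (nd (nat_lit 206) (nat_lit 0) (cs (lf (nat_lit 37) (nat_lit 205)) (rf (nat_lit 0)))) (nd (nat_lit 247) (nat_lit 0) (cs (lf (nat_lit 23) (nat_lit 246)) (nd (nat_lit 290) (nat_lit 0) (cs (lf (nat_lit 10) (nat_lit 268)) (nd (nat_lit 248) (nat_lit 0) (cs (lf (nat_lit 5) (nat_lit 247)) (rf (nat_lit 1))))))))))))) q59910 (by decide +kernel)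
def q59985 : Q := Q.p (nat_lit 0x20000c00000400000000000000000000000000000000000000000000000000000000000000) (nat_lit 0x1dc0003300000b00000000000000000000000000000000000000000000000000000000000000) (nat_lit 6)
theorem c59985 : QOK q59985 := cut [q22115, q59983, q59984] ⟨c22115, c59983, c59984, trivial⟩ (nd (nat_lit 273) (nat_lit 0) (cs (rf (nat_lit 0)) (cs (rf (nat_lit 1)) (rf (nat_lit 2))))) q59985 (by decide +kernel)
def q59986 : Q := Q.p (nat_lit 0x20000c00002400000000000000000000000000000000000000000000000000000000000000) (nat_lit 0x1c40007300039a00000000000000000000000000000000000000000000000000000000000000) (nat_lit 7)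
theorem c59986 : QOK q59986 := cut [q58895, q59983] ⟨c58895, c59983, trivial⟩ (nd (nat_lit 273) (nat_lit 0) (cs (rf (nat_lit 0)) (rf (nat_lit 1)))) q59986 (by decide +kernel)
def q59988 : Q := Q.p (nat_lit 0x20000c00002400000000000000000000000000000000000000000000000000000000000000) (nat_lit 0x100000480001c0000380001000009800026000008000000000000000000000000000000000000000000000) (nat_lit 6)
theorem c59988 : QOK q59988 := cut [q58856, q58853] ⟨c58856, c58853, trivial⟩ (nd (nat_lit 294) (nat_lit 0) (cs (rf (nat_lit 0)) (nd (nat_lit 272) (nat_lit 0) (cs (lf (nat_lit 8) (nat_lit 271)) (rf (nat_lit 1)))))) q59988 (by decide +kernel)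
def q60107 : Q := Q.p (nat_lit 0x60000880002400000000000000000000000000000000000000000000000000000000000000) (nat_lit 0x40000300003fc000ff00001c001100001b00002c00000000000000000000000000000000000000000000000000000000) (nat_lit 12)
theorem c60107 : QOK q60107 := cut [q60054, q60063, q60064, q60059, q41768] ⟨c60054, c60063, c60064, c60059, c41768, trivial⟩ (nd (nat_lit 316) (nat_lit 0) (cs (rf (nat_lit 0)) (cs (rf (nat_lit 1)) (cs (rf (nat_lit 2)) (nd (nat_lit 315) (nat_lit 0) (cs (rf (nat_lit 3)) (nd (nat_lit 249) (nat_lit 0) (cs (lf (nat_lit 24) (nat_lit 227)) (nd (nat_lit 314) (nat_lit 0) (cs (lf (nat_lit 41) (nat_lit 248)) (nd (nat_lit 226) (nat_lit 0) (cs (lf (nat_lit 46) (nat_lit 226)) (nd (nat_lit 313) (nat_lit 0) (cs (lf (nat_lit 12) (nat_lit 290)) (nd (nat_lit 334) (nat_lit 0) (cs (lf (nat_lit 10) (nat_lit 312)) (nd (nat_lit 291) (nat_lit 0) (cs (lf (nat_lit 23) (nat_lit 290)) (nd (nat_lit 317) (nat_lit 0) (cs (lf (nat_lit 22) (nat_lit 291)) (nd (nat_lit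 318) (nat_lit 0) (cs (lf (nat_lit 18) (nat_lit 293)) (rf (nat_lit 4)))))))))))))))))))))))) q60107 (by decide +kernel)
def q60121 : Q := Q.p (nat_lit 0x60000900000400000000000000000000000000000000000000000000000000000000000000) (nat_lit 0xe000078000018000600000800002000000000000000000000000000000000000000000000000000000000) (nat_lit 5)
theorem c60121 : QOK q60121 := cut [q46683, q58887] ⟨c46683, c58887, trivial⟩ (nd (nat_lit 316) (nat_lit 0) (cs (rf (nat_lit 0)) (rf (nat_lit 1)))) q60121 (by decide +kernel)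
def q60189 : Q := Q.p (nat_lit 0x20000080001a0002400000000000000000000000000000000000000000000000000000000000000) (nat_lit 0x200001c0000700001c000010000040000100018c0000100000000000000000000000000000000000000000000000000000000) (nat_lit 7)
theorem c60189 : QOK q60189 := cut [q60172, q60175, q48770, q60183] ⟨c60172, c60175, c48770, c60183, trivial⟩ (nd (nat_lit 335) (nat_lit 0) (cs (rf (nat_lit 0)) (cs (nd (nat_lit 251) (nat_lit 0) (cs (lf (nat_lit 7) (nat_lit 249)) (rf (nat_lit 1)))) (cs (nd (nat_lit 336) (nat_lit 0) (cs (lf (nat_lit 29) (nat_lit 269)) (nd (nat_lit 251) (nat_lit 0) (cs (lf (nat_lit 7) (nat_lit 249)) (nd (nat_lit 246) (nat_lit 0) (cs (lf (nat_lit 46) (nat_lit 246)) (nd (nat_lit 247) (nat_lit 0) (cs (lf (nat_lit 47) (nat_lit 224)) (rf (nat_lit 2)))))))))) (nd (nat_lit 334) (nat_lit 0) (cs (lf (nat_lit 41) (nat_lit 268)) (nd (nat_lit 312) (nat_lit 0) (cs (nd (nat_lit 358) (nat_lit 0) (cs (lf (nat_lit 28) (nat_lit 269)) (nd (nat_lit 357) (nat_lit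 0) (cs (lf (nat_lit 29) (nat_lit 291)) (rf (nat_lit 3)))))) (lf (nat_lit 36) (nat_lit 246)))))))))) q60189 (by decide +kernel)
def q60205 : Q := Q.p (nat_lit 0x30000380000c00000000000000000000000000000000000000000000000000000000000000) (nat_lit 0x60000380000600001800000000000000000000000000000000000000000000000000) (nat_lit 5)
theorem c60205 : QOK q60205 := cut [q59459] ⟨c59459, trivial⟩ (nd (nat_lit 270) (nat_lit 0) (cs (lf (nat_lit 12) (nat_lit 247)) (rf (nat_lit 0)))) q60205 (by decide +kernel)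
def q60233 : Q := Q.p (nat_lit 0x10000060000900000400000000000000000000000000000000000000000000000000000000000000) (nat_lit 0x6000008000018000680000380000c00000000000000000000000000000000000000000000000000000000) (nat_lit 7)
theorem c60233 : QOK q60233 := cut [q60230] ⟨c60230, trivial⟩ (nd (nat_lit 273) (nat_lit 0) (cs (lf (nat_lit 7) (nat_lit 271)) (nd (nat_lit 291) (nat_lit 0) (cs (lf (nat_lit 13) (nat_lit 269)) (nd (nat_lit 315) (nat_lit 0) (cs (lf (nat_lit 41) (nat_lit 249)) (rf (nat_lit 0)))))))) q60233 (by decide +kernel)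
def q60247 : Q := Q.p (nat_lit 0x60000900002400000000000000000000000000000000000000000000000000000000000000) (nat_lit 0x200000c000030000018001680001a00002800000000000000000000000000000000000000000000000000000000) (nat_lit 7)
theorem c60247 : QOK q60247 := cut [q23069, q58887, q60244] ⟨c23069, c58887, c60244, trivial⟩ (nd (nat_lit 316) (nat_lit 0) (cs (rf (nat_lit 0)) (cs (rf (nat_lit 1)) (rf (nat_lit 2))))) q60247 (by decide +kernel)
def q60270 : Q := Q.p (nat_lit 0x8e0002400000000010000000000000000000000000000000000000000000000000000) (nat_lit 0x1000015000018000180000200000c0000000000000000000000000000000000000000000000) (nat_lit 6)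
theorem c60270 : QOK q60270 := cut [q60269] ⟨c60269, trivial⟩ (nd (nat_lit 251) (nat_lit 0) (cs (lf (nat_lit 15) (nat_lit 247)) (rf (nat_lit 0)))) q60270 (by decide +kernel)
def q60362 : Q := Q.p (nat_lit 0x20000180002400000000000000000000000000000000000000000000000000000000000000) (nat_lit 0x200000800001c000660001980000400000000000000000000000000000000000000000000000000000000) (nat_lit 7)
theorem c60362 : QOK q60362 := cut [q11979, q60356] ⟨c11979, c60356, trivial⟩ (nd (nat_lit 273) (nat_lit 0) (cs (rf (nat_lit 0)) (cs (rf (nat_lit 1)) (nd (nat_lit 315) (nat_lit 0) (cs (lf (nat_lit 30) (nat_lit 249)) (nd (nat_lit 251) (nat_lit 0) (cs (lf (nat_lit 7) (nat_lit 249)) (nd (nat_lit 270) (nat_lit 0) (cs (lf (nat_lit 12) (nat_lit 247)) (nd (nat_lit 248) (nat_lit 0) (cs (lf (nat_lit 23) (nat_lit 247)) (nd (nat_lit 292) (nat_lit 0) (cs (lf (nat_lit 11) (nat_lit 269)) (lf (nat_lit 24) (nat_lit 226))))))))))))))) q60362 (by decide +kernel)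
def q60473 : Q := Q.p (nat_lit 0x60000100000c00000000000000000000000000000000000000000000000000000000000000) (nat_lit 0x80000f0000098000000000000002000000000000000000000000000000000000000000000000000000000) (nat_lit 5)
theorem c60473 : QOK q60473 := cut [q60472] ⟨c60472, trivial⟩ (nd (nat_lit 316) (nat_lit 0) (cs (lf (nat_lit 35) (nat_lit 228)) (rf (nat_lit 0)))) q60473 (by decide +kernel)
def q60519 : Q := Q.p (nat_lit 0x20000900002400000000000000000000000000000000000000000000000000000000000000) (nat_lit 0x3e0000f80001df0006f8001bc0002600001800000000000000000000000000000000000000000000000000) (nat_lit 12)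
theorem c60519 : QOK q60519 := cut [q60452, q60126, q60463, q45270, q59503, q59513, q60222, q22194, q60518] ⟨c60452, c60126, c60463, c45270, c59503, c59513, c60222, c22194, c60518, trivial⟩ (nd (nat_lit 273) (nat_lit 0) (cs (rf (nat_lit 0)) (cs (nd (nat_lit 271) (nat_lit 0) (cs (rf (nat_lit 1)) (cs (rf (nat_lit 2)) (cs (nd (nat_lit 316) (nat_lit 0) (cs (nd (nat_lit 251) (nat_lit 0) (cs (lf (nat_lit 7) (nat_lit 249)) (nd (nat_lit 294) (nat_lit 0) (cs (lf (nat_lit 30) (nat_lit 250)) (lf (nat_lit 35) (nat_lit 228)))))) (cs (nd (nat_lit 315) (nat_lit 0) (cs (lf (nat_lit 30) (nat_lit 249)) (nd (nat_lit 249) (nat_lit 0) (cs (lf (nat_lit 29) (nat_lit 249)) (rf (nat_lit 3)))))) (nd (nat_lit 315) (nat_lit 0) (cs (lf (nat_lit 30) (nat_lit 249)) (nd (nat_lit 251) (nat_lit 0) (cs (lf (nat_lit 7) (nat_lit 249)) (nd (nat_lit 294) (nat_lit 0) (cs (lf (nat_lit 35) (nat_lit 228)) (nd (nat_lit 291) (nat_lit 0) (cs (lf (nat_lit 13) (nat_lit 269)) (nd (nat_lit 317) (nat_lit 0)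 (cs (lf (nat_lit 29) (nat_lit 250)) (nd (nat_lit 318) (nat_lit 0) (cs (lf (nat_lit 18) (nat_lit 293)) (nd (nat_lit 340) (nat_lit 0) (cs (lf (nat_lit 5) (nat_lit 315)) (lf (nat_lit 26) (nat_lit 251))))))))))))))))))) (cs (nd (nat_lit 270) (nat_lit 0) (cs (rf (nat_lit 4)) (cs (rf (nat_lit 5)) (rf (nat_lit 6))))) (nd (nat_lit 315) (nat_lit 0) (cs (lf (nat_lit 30) (nat_lit 249)) (nd (nat_lit 251) (nat_lit 0) (cs (lf (nat_lit 7) (nat_lit 249)) (nd (nat_lit 270) (nat_lit 0) (cs (lf (nat_lit 12) (nat_lit 247)) (nd (nat_lit 291) (nat_lit 0) (cs (lf (nat_lit 10) (nat_lit 269)) (nd (nat_lit 295) (nat_lit 0) (cs (lf (nat_lit 5) (nat_lit 270)) (nd (nat_lit 317) (nat_lit 0) (cs (lf (nat_lit 42) (nat_lit 250)) (nd (nat_lit 318) (nat_lit 0) (cs (lf (nat_lit 29) (nat_lit 251)) (nd (nat_lit 316) (nat_lit 0) (cs (lf (nat_lit 41) (nat_lit 250)) (nd (nat_lit 294) (nat_lit 0) (cs (lf (nat_lit 35) (nat_lit 228)) (lf (nat_lit 18) (nat_lit 293))))))))))))))))))))))))) (cs (nd (nat_lit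 274) (nat_lit 0) (cs (lf (nat_lit 10) (nat_lit 271)) (rf (nat_lit 7)))) (rf (nat_lit 8)))))) q60519 (by decide +kernel)
def q60587 : Q := Q.p (nat_lit 0x8000060000880002400000000000000000000000000000000000000000000000000000000000000) (nat_lit 0x100001c0000700001e000e700019c0005700019c0001700001400000000000000000000000000000000000000000000000000) (nat_lit 13)
theorem c60587 : QOK q60587 := cut [q60541, q60545, q60168, q49125, q60175, q60561, q60558, q49518, q47440, q60165] ⟨c60541, c60545, c60168, c49125, c60175, c60561, c60558, c49518, c47440, c60165, trivial⟩ (nd (nat_lit 269) (nat_lit 0) (cs (rf (nat_lit 0)) (cs (nd (nat_lit 291) (nat_lit 0) (cs (nd (nat_lit 292) (nat_lit 0) (cs (lf (nat_lit 23) (nat_lit 268)) (rf (nat_lit 1)))) (cs (nd (nat_lit 313) (nat_lit 0) (cs (rf (nat_lit 2)) (cs (nd (nat_lit 335) (nat_lit 0) (cs (rf (nat_lit 3)) (cs (rf (nat_lit 4)) (nd (nat_lit 228) (nat_lit 0) (cs (lf (nat_lit 38) (nat_lit 227)) (nd (nat_lit 334) (nat_lit 0) (cs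 (lf (nat_lit 41) (nat_lit 268)) (nd (nat_lit 336) (nat_lit 0) (cs (lf (nat_lit 29) (nat_lit 269)) (nd (nat_lit 314) (nat_lit 0) (cs (lf (nat_lit 12) (nat_lit 311)) (lf (nat_lit 24) (nat_lit 247))))))))))))) (cs (nd (nat_lit 335) (nat_lit 0) (cs (rf (nat_lit 3)) (cs (rf (nat_lit 4)) (nd (nat_lit 228) (nat_lit 0) (cs (lf (nat_lit 38) (nat_lit 227)) (nd (nat_lit 336) (nat_lit 0) (cs (lf (nat_lit 29) (nat_lit 269)) (nd (nat_lit 334) (nat_lit 0) (cs (lf (nat_lit 41) (nat_lit 268)) (nd (nat_lit 314) (nat_lit 0) (cs (lf (nat_lit 12) (nat_lit 290)) (lf (nat_lit 12) (nat_lit 311))))))))))))) (cs (nd (nat_lit 228) (nat_lit 0) (cs (lf (nat_lit 38) (nat_lit 227)) (rf (nat_lit 5)))) (cs (nd (nat_lit 312) (nat_lit 0) (cs (lf (nat_lit 14) (nat_lit 290)) (nd (nat_lit 228) (nat_lit 0) (cs (lf (nat_lit 38) (nat_lit 227)) (nd (nat_lit 247) (nat_lit 0) (cs (lf (nat_lit 41) (nat_lit 246)) (nd (nat_lit 226) (nat_lit 0) (cs (lf (nat_lit 34) (nat_lit 225)) (nd (nat_lit 225) (nat_lit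 0) (cs (lf (nat_lit 35) (nat_lit 203)) (lf (nat_lit 40) (nat_lit 224)))))))))))) (nd (nat_lit 247) (nat_lit 0) (cs (rf (nat_lit 6)) (cs (nd (nat_lit 228) (nat_lit 0) (cs (rf (nat_lit 7)) (lf (nat_lit 38) (nat_lit 227)))) (nd (nat_lit 312) (nat_lit 0) (cs (lf (nat_lit 41) (nat_lit 246)) (nd (nat_lit 228) (nat_lit 0) (cs (lf (nat_lit 38) (nat_lit 227)) (nd (nat_lit 246) (nat_lit 0) (cs (lf (nat_lit 47) (nat_lit 224)) (nd (nat_lit 335) (nat_lit 0) (cs (lf (nat_lit 46) (nat_lit 246)) (nd (nat_lit 358) (nat_lit 0) (cs (lf (nat_lit 28) (nat_lit 269)) (nd (nat_lit 357) (nat_lit 0) (cs (lf (nat_lit 29) (nat_lit 291)) (nd (nat_lit 379) (nat_lit 0) (cs (lf (nat_lit 47) (nat_lit 290)) (nd (nat_lit 378) (nat_lit 0) (cs (lf (nat_lit 41) (nat_lit 312)) (lf (nat_lit 40) (nat_lit 290))))))))))))))))))))))))))) (cs (nd (nat_lit 272) (nat_lit 0) (cs (lf (nat_lit 36) (nat_lit 227)) (nd (nat_lit 251) (nat_lit 0) (cs (lf (nat_lit 7) (nat_lit 249)) (nd (nat_lit 292) (nat_lit 0)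 (cs (lf (nat_lit 12) (nat_lit 268)) (rf (nat_lit 1)))))))) (nd (nat_lit 272) (nat_lit 0) (cs (lf (nat_lit 36) (nat_lit 227)) (rf (nat_lit 8)))))))) (nd (nat_lit 272) (nat_lit 0) (cs (lf (nat_lit 36) (nat_lit 227)) (rf (nat_lit 9))))))) q60587 (by decide +kernel)
def q60707 : Q := Q.p (nat_lit 0x20000980000600000000000000000000000000000000000000000000000000000000000000) (nat_lit 0x80000200001980006700009c0000f80001000000000000000000000000000000000000000000000000000) (nat_lit 10)
theorem c60707 : QOK q60707 := cut [q57083, q57542, q60701] ⟨c57083, c57542, c60701, trivial⟩ (nd (nat_lit 270) (nat_lit 0) (cs (nd (nat_lit 273) (nat_lit 0) (cs (lf (nat_lit 19) (nat_lit 249)) (rf (nat_lit 0)))) (cs (rf (nat_lit 1)) (nd (nat_lit 273) (nat_lit 0) (cs (lf (nat_lit 19) (nat_lit 249)) (nd (nat_lit 295) (nat_lit 0) (cs (lf (nat_lit 5) (nat_lit 270)) (nd (nat_lit 317) (nat_lit 0) (cs (lf (nat_lit 42) (nat_lit 250)) (nd (nat_lit 291) (nat_lit 0) (cs (lf (nat_lit 10) (nat_lit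 269)) (nd (nat_lit 248) (nat_lit 0) (cs (lf (nat_lit 23) (nat_lit 247)) (rf (nat_lit 2))))))))))))))) q60707 (by decide +kernel)
def q60896 : Q := Q.p (nat_lit 0x10000040000100000200000000000000000000000000000000000000000000000000000000000000) (nat_lit 0xa0000380000e000000000000000080000000000000000000000000000000000000000000000000000000000000000000) (nat_lit 5)
theorem c60896 : QOK q60896 := cut [q58569] ⟨c58569, trivial⟩ (nd (nat_lit 338) (nat_lit 0) (cs (lf (nat_lit 46) (nat_lit 249)) (rf (nat_lit 0)))) q60896 (by decide +kernel)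
def q61479 : Q := Q.p (nat_lit 0x100001c0000400000000000000000000000000000000000000000) (nat_lit 0x10000140000600003be0007f8001fc0007f800040000000000000000000) (nat_lit 11)
theorem c61479 : QOK q61479 := cut [q2645, q19497, q33273, q57839, q57884, q57903, q57842, q57874, q57878, q57881] ⟨c2645, c19497, c33273, c57839, c57884, c57903, c57842, c57874, c57878, c57881, trivial⟩ (nd (nat_lit 167) (nat_lit 0) (cs (rf (nat_lit 0)) (cs (rf (nat_lit 1)) (nd (nat_lit 145) (nat_lit 0) (cs (rf (nat_lit 2)) (cs (rf (nat_lit 3)) (cs (rf (nat_lit 4)) (cs (rf (nat_lit 5)) (nd (nat_lit 121) (nat_lit 0) (cs (rf (nat_lit 6)) (cs (rf (nat_lit 7)) (cs (rf (nat_lit 8)) (rf (nat_lit 9)))))))))))))) q61479 (by decide +kernel)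
def q61534 : Q := Q.p (nat_lit 0x20000880000600000000000000000000000000000000000000000000000000000000000000) (nat_lit 0x40000700001c000050000700000100000c00003000008000000000000000000000000000000000000000000000) (nat_lit 7)
theorem c61534 : QOK q61534 := cut [q46567, q61531, q56973] ⟨c46567, c61531, c56973, trivial⟩ (nd (nat_lit 315) (nat_lit 0) (cs (rf (nat_lit 0)) (cs (rf (nat_lit 1)) (nd (nat_lit 316) (nat_lit 0) (cs (lf (nat_lit 29) (nat_lit 249)) (nd (nat_lit 226) (nat_lit 0) (cs (lf (nat_lit 46) (nat_lit 226)) (rf (nat_lit 2))))))))) q61534 (by decide +kernel)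
def q61543 : Q := Q.p (nat_lit 0x20000080000600000000000000000000000000000000000000000000000000000000000000) (nat_lit 0x40000700001c000050000100000000000c0000300000c000000000000000000000000000000000000000000000) (nat_lit 7)
theorem c61543 : QOK q61543 := cut [q46567, q56973, q61542] ⟨c46567, c56973, c61542, trivial⟩ (nd (nat_lit 315) (nat_lit 0) (cs (rf (nat_lit 0)) (cs (rf (nat_lit 1)) (rf (nat_lit 2))))) q61543 (by decide +kernel)
def q61551 : Q := Q.p (nat_lit 0x9c0000600000000000000000000000000000000000000000000000000000000000000) (nat_lit 0x80000200001c0000600000000001000004000000000000000000000000000000000000000000000000000) (nat_lit 5)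
theorem c61551 : QOK q61551 := cut [q61550] ⟨c61550, trivial⟩ (nd (nat_lit 273) (nat_lit 0) (cs (lf (nat_lit 19) (nat_lit 249)) (rf (nat_lit 0)))) q61551 (by decide +kernel)
def q61597 : Q := Q.p (nat_lit 0x20000080000600000000000000000000000000000000000000000000000000000000000000) (nat_lit 0x14000050000040000800001f00007000014000000000000000000000000000000000000000000000) (nat_lit 6)
theorem c61597 : QOK q61597 := cut [q58797, q61527, q61535] ⟨c58797, c61527, c61535, trivial⟩ (nd (nat_lit 227) (nat_lit 0) (cs (nd (nat_lit 294) (nat_lit 0) (cs (lf (nat_lit 29) (nat_lit 227)) (rf (nat_lit 0)))) (cs (rf (nat_lit 1)) (rf (nat_lit 2))))) q61597 (by decide +kernel)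
def q61614 : Q := Q.p (nat_lit 0x200001e0000600000000000000000000000000000000000000000000000000000000000000) (nat_lit 0xc0000300000dc0000000000c0000000000000000000000000000000000000000000000000000000000000) (nat_lit 6)
theorem c61614 : QOK q61614 := cut [q61612] ⟨c61612, trivial⟩ (nd (nat_lit 291) (nat_lit 0) (cs (lf (nat_lit 11) (nat_lit 268)) (nd (nat_lit 246) (nat_lit 0) (cs (lf (nat_lit 22) (nat_lit 246)) (rf (nat_lit 0)))))) q61614 (by decide +kernel)
def q61632 : Q := Q.p (nat_lit 0x20000080000600000000000000000000000000000000000000000000000000000000000000) (nat_lit 0x40000700001c0000400003780009c0006780000000000000000000000000000000000000000000000000000000) (nat_lit 11)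
theorem c61632 : QOK q61632 := cut [q56973, q58935, q60671, q44571] ⟨c56973, c58935, c60671, c44571, trivial⟩ (nd (nat_lit 315) (nat_lit 0) (cs (rf (nat_lit 0)) (cs (rf (nat_lit 1)) (nd (nat_lit 248) (nat_lit 0) (cs (lf (nat_lit 47) (nat_lit 226)) (nd (nat_lit 247) (nat_lit 0) (cs (rf (nat_lit 2)) (cs (nd (nat_lit 316) (nat_lit 0) (cs (lf (nat_lit 29) (nat_lit 249)) (rf (nat_lit 3)))) (nd (nat_lit 272) (nat_lit 0) (cs (lf (nat_lit 5) (nat_lit 247)) (nd (nat_lit 316) (nat_lit 0) (cs (lf (nat_lit 29) (nat_lit 249)) (nd (nat_lit 224) (nat_lit 0) (cs (lf (nat_lit 22) (nat_lit 224)) (nd (nat_lit 314) (nat_lit 0) (cs (lf (nat_lit 41) (nat_lit 248)) (nd (nat_lit 269) (nat_lit 0) (cs (lf (nat_lit 11) (nat_lit 246)) (nd (nat_lit 251) (nat_lit 0) (cs (lf (nat_lit 13) (nat_lit 247)) (nd (nat_lit 229) (nat_lit 0) (cs (lf (nat_lit 17) (nat_lit 226)) (lf (nat_lit 31) (nat_lit 228)))))))))))))))))))))))) q61632 (by decide +kernel)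
def q61633 : Q := Q.p (nat_lit 0x20000080000600000000000000000000000000000000000000000000000000000000000000) (nat_lit 0x10000040000100000800001f00007000014000000000000000000000000000000000000000000000) (nat_lit 5)
theorem c61633 : QOK q61633 := cut [q57008, q59913, q61535] ⟨c57008, c59913, c61535, trivial⟩ (nd (nat_lit 227) (nat_lit 0) (cs (rf (nat_lit 0)) (cs (rf (nat_lit 1)) (rf (nat_lit 2))))) q61633 (by decide +kernel)
def q61662 : Q := Q.p (nat_lit 0x80000600001000000000000000000000000000000000000000000000000000000000) (nat_lit 0xc000030000140000800000f00003000008000020000000000000000000000000000000000000000) (nat_lit 6)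
theorem c61662 : QOK q61662 := cut [q61661] ⟨c61661, trivial⟩ (nd (nat_lit 293) (nat_lit 0) (cs (lf (nat_lit 30) (nat_lit 227)) (rf (nat_lit 0)))) q61662 (by decide +kernel)
def q61677 : Q := Q.p (nat_lit 0x20000980000600000800000000000000000000000000000000000000000000000000000000) (nat_lit 0x300001c0000660000180001000004000000000000000000000000000000000000000000000000000) (nat_lit 7)
theorem c61677 : QOK q61677 := cut [q61674] ⟨c61674, trivial⟩ (nd (nat_lit 228) (nat_lit 0) (cs (lf (nat_lit 36) (nat_lit 205)) (nd (nat_lit 273) (nat_lit 0) (cs (lf (nat_lit 19) (nat_lit 249)) (nd (nat_lit 247) (nat_lit 0) (cs (lf (nat_lit 1) (nat_lit 247)) (rf (nat_lit 0)))))))) q61677 (by decide +kernel)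
def q61695 : Q := Q.p (nat_lit 0x20000880000600000000000000000000000000000000000000000000000000000000000000) (nat_lit 0x40000700001c0000500007700001c000080000700001c000000000000000000000000000000000000000000000) (nat_lit 12)
theorem c61695 : QOK q61695 := cut [q46567, q56973, q61687] ⟨c46567, c56973, c61687, trivial⟩ (nd (nat_lit 315) (nat_lit 0) (cs (rf (nat_lit 0)) (cs (rf (nat_lit 1)) (nd (nat_lit 272) (nat_lit 0) (cs (lf (nat_lit 30) (nat_lit 249)) (nd (nat_lit 273) (nat_lit 0) (cs (lf (nat_lit 19) (nat_lit 249)) (nd (nat_lit 247) (nat_lit 0) (cs (lf (nat_lit 1) (nat_lit 247)) (nd (nat_lit 316) (nat_lit 0) (cs (lf (nat_lit 29) (nat_lit 249)) (nd (nat_lit 227) (nat_lit 0) (cs (lf (nat_lit 43) (nat_lit 227)) (nd (nat_lit 205) (nat_lit 0) (cs (lf (nat_lit 24) (nat_lit 183)) (nd (nat_lit 182) (nat_lit 0) (cs (lf (nat_lit 46) (nat_lit 182)) (rf (nat_lit 2))))))))))))))))))) q61695 (by decide +kernel)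
def q61789 : Q := Q.p (nat_lit 0x60000800000600000000000000000000000000000000000000000000000000000000000000) (nat_lit 0x20000080000ef000198001770000000001000000000000000000000000000000000000000000000000000000000) (nat_lit 6)
theorem c61789 : QOK q61789 := cut [q61785, q61787, q61788] ⟨c61785, c61787, c61788, trivial⟩ (nd (nat_lit 295) (nat_lit 0) (cs (rf (nat_lit 0)) (cs (rf (nat_lit 1)) (rf (nat_lit 2))))) q61789 (by decide +kernel)
def q61797 : Q := Q.p (nat_lit 0x60000800000600000000000000000000000000000000000000000000000000000000000000) (nat_lit 0x200000c000077000198000770000800003800002000008000000000000000000000000000000000000000000000) (nat_lit 10)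
theorem c61797 : QOK q61797 := cut [q25763, q60881, q61733] ⟨c25763, c60881, c61733, trivial⟩ (nd (nat_lit 272) (nat_lit 0) (cs (rf (nat_lit 0)) (cs (rf (nat_lit 1)) (rf (nat_lit 2))))) q61797 (by decide +kernel)
def q61906 : Q := Q.p (nat_lit 0x10000060000800000000000000000000000000000000000000000000000000000000000000000000) (nat_lit 0xa0001f8000ff8001fc000ef80019c000478000080000000000000000000000000000000000000000000000000000000000000) (nat_lit 13)
theorem c61906 : QOK q61906 := cut [q60899, q61803, q61804, q61860, q48497, q61892, q61738, q61900, q61901, q61904, q61905] ⟨c60899, c61803, c61804, c61860, c48497, c61892, c61738, c61900, c61901, c61904, c61905, trivial⟩ (nd (nat_lit 292) (nat_lit 0) (cs (rf (nat_lit 0)) (cs (nd (nat_lit 314) (nat_lit 0) (cs (rf (nat_lit 1)) (cs (rf (nat_lit 2)) (cs (rf (nat_lit 3)) (nd (nat_lit 315) (nat_lit 0) (cs (nd (nat_lit 317) (nat_lit 0) (cs (lf (nat_lit 18) (nat_lit 292)) (nd (nat_lit 339) (nat_lit 0) (cs (lf (nat_lit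 5) (nat_lit 314)) (nd (nat_lit 361) (nat_lit 0) (cs (lf (nat_lit 42) (nat_lit 294)) (nd (nat_lit 336) (nat_lit 0) (cs (lf (nat_lit 11) (nat_lit 313)) (nd (nat_lit 358) (nat_lit 0) (cs (rf (nat_lit 4)) (lf (nat_lit 30) (nat_lit 292)))))))))))) (cs (nd (nat_lit 312) (nat_lit 0) (cs (lf (nat_lit 13) (nat_lit 290)) (nd (nat_lit 317) (nat_lit 0) (cs (lf (nat_lit 18) (nat_lit 292)) (nd (nat_lit 336) (nat_lit 0) (cs (lf (nat_lit 11) (nat_lit 313)) (nd (nat_lit 339) (nat_lit 0) (cs (lf (nat_lit 5) (nat_lit 314)) (nd (nat_lit 361) (nat_lit 0) (cs (lf (nat_lit 42) (nat_lit 294)) (nd (nat_lit 358) (nat_lit 0) (cs (lf (nat_lit 30) (nat_lit 292)) (nd (nat_lit 359) (nat_lit 0) (cs (lf (nat_lit 29) (nat_lit 292)) (nd (nat_lit 337) (nat_lit 0) (cs (lf (nat_lit 24) (nat_lit 270)) (nd (nat_lit 360) (nat_lit 0) (cs (lf (nat_lit 29) (nat_lit 293)) (lf (nat_lit 18) (nat_lit 336)))))))))))))))))))) (cs (nd (nat_lit 313) (nat_lit 0) (cs (lf (nat_lit 12) (nat_lit 290)) (nd (nat_lit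 334) (nat_lit 0) (cs (lf (nat_lit 10) (nat_lit 312)) (nd (nat_lit 338) (nat_lit 0) (cs (lf (nat_lit 5) (nat_lit 313)) (nd (nat_lit 360) (nat_lit 0) (cs (lf (nat_lit 42) (nat_lit 293)) (nd (nat_lit 361) (nat_lit 0) (cs (lf (nat_lit 29) (nat_lit 294)) (nd (nat_lit 359) (nat_lit 0) (cs (lf (nat_lit 41) (nat_lit 293)) (nd (nat_lit 337) (nat_lit 0) (cs (lf (nat_lit 47) (nat_lit 270)) (nd (nat_lit 362) (nat_lit 0) (cs (lf (nat_lit 23) (nat_lit 336)) (lf (nat_lit 18) (nat_lit 337)))))))))))))))))) (cs (nd (nat_lit 312) (nat_lit 0) (cs (lf (nat_lit 13) (nat_lit 290)) (nd (nat_lit 317) (nat_lit 0) (cs (lf (nat_lit 18) (nat_lit 292)) (nd (nat_lit 336) (nat_lit 0) (cs (lf (nat_lit 11) (nat_lit 313)) (nd (nat_lit 358) (nat_lit 0) (cs (lf (nat_lit 30) (nat_lit 292)) (nd (nat_lit 357) (nat_lit 0) (cs (lf (nat_lit 41) (nat_lit 291)) (nd (nat_lit 359) (nat_lit 0) (cs (lf (nat_lit 29) (nat_lit 292)) (nd (nat_lit 337) (nat_lit 0) (cs (lf (nat_lit 24) (nat_lit 270)) (nd (nat_lit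 356) (nat_lit 0) (cs (lf (nat_lit 12) (nat_lit 333)) (lf (nat_lit 17) (nat_lit 334)))))))))))))))))) (nd (nat_lit 317) (nat_lit 0) (cs (lf (nat_lit 18) (nat_lit 292)) (nd (nat_lit 313) (nat_lit 0) (cs (lf (nat_lit 12) (nat_lit 290)) (rf (nat_lit 5))))))))))))))) (cs (nd (nat_lit 291) (nat_lit 0) (cs (nd (nat_lit 268) (nat_lit 0) (cs (lf (nat_lit 22) (nat_lit 268)) (rf (nat_lit 6)))) (cs (rf (nat_lit 7)) (rf (nat_lit 8))))) (cs (rf (nat_lit 9)) (rf (nat_lit 10))))))) q61906 (by decide +kernel)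
def q61910 : Q := Q.p (nat_lit 0xe0000000000000000000000000000000000000000000000000000000000000000000000000) (nat_lit 0xff000118000070000000000000000000000000000000000000000000000000000000000000000000) (nat_lit 5)
theorem c61910 : QOK q61910 := cut [q14508, q58879, q61775] ⟨c14508, c58879, c61775, trivial⟩ (nd (nat_lit 292) (nat_lit 0) (cs (rf (nat_lit 0)) (cs (rf (nat_lit 1)) (rf (nat_lit 2))))) q61910 (by decide +kernel)
def q61918 : Q := Q.p (nat_lit 0x20000080000600000000000000000000000000000000000000000000000000000000000000) (nat_lit 0x4000010000040000800001f00007000014000000000000000000000000000000000000000000000) (nat_lit 5)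
theorem c61918 : QOK q61918 := cut [q58797, q61527, q61535] ⟨c58797, c61527, c61535, trivial⟩ (nd (nat_lit 227) (nat_lit 0) (cs (rf (nat_lit 0)) (cs (rf (nat_lit 1)) (rf (nat_lit 2))))) q61918 (by decide +kernel)
def q61943 : Q := Q.p (nat_lit 0x60000900000400000000000000000000000000000000000000000000000000000000000000) (nat_lit 0x20000180000680000000001800006000008000000000000000000000000000000000000000000000) (nat_lit 6)
theorem c61943 : QOK q61943 := cut [q58898] ⟨c58898, trivial⟩ (nd (nat_lit 274) (nat_lit 0) (cs (lf (nat_lit 8) (nat_lit 271)) (rf (nat_lit 0)))) q61943 (by decide +kernel)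
def q61949 : Q := Q.p (nat_lit 0x60000800000600000000000000000000000000000000000000000000000000000000000000) (nat_lit 0x20000080000e70001980017f0000000001000000000000000000000000000000000000000000000000000000000) (nat_lit 6)
theorem c61949 : QOK q61949 := cut [q61787, q61788] ⟨c61787, c61788, trivial⟩ (nd (nat_lit 295) (nat_lit 0) (cs (rf (nat_lit 0)) (cs (rf (nat_lit 1)) (nd (nat_lit 296) (nat_lit 0) (cs (lf (nat_lit 16) (nat_lit 271)) (nd (nat_lit 270) (nat_lit 0) (cs (lf (nat_lit 22) (nat_lit 270)) (nd (nat_lit 318) (nat_lit 0) (cs (lf (nat_lit 5) (nat_lit 293)) (nd (nat_lit 292) (nat_lit 0) (cs (lf (nat_lit 23) (nat_lit 269)) (lf (nat_lit 4) (nat_lit 292))))))))))))) q61949 (by decide +kernel)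
def q61963 : Q := Q.p (nat_lit 0x60000880000600000000000000000000000000000000000000000000000000000000000000) (nat_lit 0x180000700001c000077000198001770000800000000000000000000000000000000000000000000000000000000000000) (nat_lit 12)
theorem c61963 : QOK q61963 := cut [q61062, q61787, q61962] ⟨c61062, c61787, c61962, trivial⟩ (nd (nat_lit 295) (nat_lit 0) (cs (rf (nat_lit 0)) (cs (rf (nat_lit 1)) (rf (nat_lit 2))))) q61963 (by decide +kernel)
def q61967 : Q := Q.p (nat_lit 0x60000880000600000000000000000000000000000000000000000000000000000000000000) (nat_lit 0x900006400019c000770000800000800002000000000000000000000000000000000000000000000000000) (nat_lit 7)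
theorem c61967 : QOK q61967 := cut [q60028, q61549, q48712, q61641, q61966] ⟨c60028, c61549, c48712, c61641, c61966, trivial⟩ (nd (nat_lit 270) (nat_lit 0) (cs (rf (nat_lit 0)) (cs (rf (nat_lit 1)) (cs (nd (nat_lit 292) (nat_lit 0) (cs (rf (nat_lit 2)) (rf (nat_lit 3)))) (rf (nat_lit 4)))))) q61967 (by decide +kernel)
def q61980 : Q := Q.p (nat_lit 0x900000600001000000000000000000000000000000000000000000000000000000000) (nat_lit 0x80000600000800000000006000018000020000000000000000000000000000000000000000) (nat_lit 5)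
theorem c61980 : QOK q61980 := cut [q14434] ⟨c14434, trivial⟩ (nd (nat_lit 273) (nat_lit 0) (cs (rf (nat_lit 0)) (lf (nat_lit 19) (nat_lit 249)))) q61980 (by decide +kernel)
def q62022 : Q := Q.p (nat_lit 0x20000080000600000000000000000000000000000000000000000000000000000000000000) (nat_lit 0x140000700001c000040000100000000000c0000700001c000040000000000000000000000000000000000000000) (nat_lit 9)
theorem c62022 : QOK q62022 := cut [q56973, q59008, q61542, q61921] ⟨c56973, c59008, c61542, c61921, trivial⟩ (nd (nat_lit 315) (nat_lit 0) (cs (rf (nat_lit 0)) (cs (rf (nat_lit 1)) (cs (rf (nat_lit 2)) (nd (nat_lit 314) (nat_lit 0) (cs (lf (nat_lit 41) (nat_lit 248)) (nd (nat_lit 316) (nat_lit 0) (cs (lf (nat_lit 29) (nat_lit 249)) (nd (nat_lit 227) (nat_lit 0) (cs (lf (nat_lit 28) (nat_lit 227)) (rf (nat_lit 3)))))))))))) q62022 (by decide +kernel)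
def q62075 : Q := Q.p (nat_lit 0x20000880000600000000000000000000000000000000000000000000000000000000000000) (nat_lit 0x40000380000fc001de00077c0008c0000f00007c0001c000040000000000000000000000000000000000000000) (nat_lit 13)
theorem c62075 : QOK q62075 := cut [q59010, q56962, q56961, q40946, q61921, q62029, q47311, q62039, q62041, q62045, q62049, q62053, q62056, q56521, q61803, q62073] ⟨c59010, c56962, c56961, c40946, c61921, c62029, c47311, c62039, c62041, c62045, c62049, c62053, c62056, c56521, c61803, c62073, trivial⟩ (nd (nat_lit 292) (nat_lit 0) (cs (nd (nat_lit 227) (nat_lit 0) (cs (lf (nat_lit 41) (nat_lit 226)) (rf (nat_lit 0)))) (cs (nd (nat_lit 291) (nat_lit 0) (cs (rf (nat_lit 1)) (cs (nd (nat_lit 272) (nat_lit 0) (cs (rf (nat_lit 2)) (cs (nd (nat_lit 227) (nat_lit 0) (cs (rf (nat_lit 3)) (cs (rf (nat_lit 4)) (nd (nat_lit 269) (nat_lit 0) (cs (nd (nat_lit 270) (nat_lit 0) (cs (lf (nat_lit 17) (nat_lit 247)) (lf (nat_lit 12) (nat_lit 246)))) (cs (nd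 (nat_lit 315) (nat_lit 0) (cs (lf (nat_lit 30) (nat_lit 249)) (nd (nat_lit 268) (nat_lit 0) (cs (lf (nat_lit 18) (nat_lit 268)) (nd (nat_lit 266) (nat_lit 0) (cs (lf (nat_lit 1) (nat_lit 266)) (rf (nat_lit 5)))))))) (nd (nat_lit 226) (nat_lit 0) (cs (lf (nat_lit 47) (nat_lit 204)) (nd (nat_lit 315) (nat_lit 0) (cs (lf (nat_lit 30) (nat_lit 249)) (nd (nat_lit 225) (nat_lit 0) (cs (lf (nat_lit 0) (nat_lit 224)) (nd (nat_lit 270) (nat_lit 0) (cs (lf (nat_lit 17) (nat_lit 247)) (rf (nat_lit 6)))))))))))))))) (rf (nat_lit 7))))) (cs (nd (nat_lit 268) (nat_lit 0) (cs (rf (nat_lit 8)) (cs (nd (nat_lit 290) (nat_lit 0) (cs (lf (nat_lit 23) (nat_lit 267)) (nd (nat_lit 270) (nat_lit 0) (cs (lf (nat_lit 12) (nat_lit 267)) (nd (nat_lit 205) (nat_lit 0) (cs (lf (nat_lit 37) (nat_lit 204)) (rf (nat_lit 9)))))))) (cs (nd (nat_lit 269) (nat_lit 0) (cs (lf (nat_lit 18) (nat_lit 268)) (rf (nat_lit 10)))) (nd (nat_lit 269) (nat_lit 0) (cs (lf (nat_lit 14) (nat_lit 246)) (rf (nat_lit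 10)))))))) (rf (nat_lit 11)))))) (cs (nd (nat_lit 227) (nat_lit 0) (cs (lf (nat_lit 41) (nat_lit 226)) (rf (nat_lit 12)))) (nd (nat_lit 314) (nat_lit 0) (cs (rf (nat_lit 13)) (cs (nd (nat_lit 291) (nat_lit 0) (cs (rf (nat_lit 1)) (cs (rf (nat_lit 11)) (cs (nd (nat_lit 294) (nat_lit 0) (cs (rf (nat_lit 14)) (cs (nd (nat_lit 269) (nat_lit 0) (cs (lf (nat_lit 23) (nat_lit 268)) (nd (nat_lit 312) (nat_lit 0) (cs (lf (nat_lit 10) (nat_lit 290)) (nd (nat_lit 247) (nat_lit 0) (cs (lf (nat_lit 24) (nat_lit 225)) (nd (nat_lit 272) (nat_lit 0) (cs (lf (nat_lit 17) (nat_lit 269)) (nd (nat_lit 270) (nat_lit 0) (cs (lf (nat_lit 23) (nat_lit 246)) (lf (nat_lit 17) (nat_lit 247)))))))))))) (nd (nat_lit 272) (nat_lit 0) (cs (lf (nat_lit 17) (nat_lit 269)) (nd (nat_lit 315) (nat_lit 0) (cs (lf (nat_lit 30) (nat_lit 249)) (nd (nat_lit 269) (nat_lit 0) (cs (lf (nat_lit 23) (nat_lit 268)) (nd (nat_lit 295) (nat_lit 0) (cs (lf (nat_lit 1) (nat_lit 269)) (lf (nat_lit 6) (nat_lit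 292))))))))))))) (nd (nat_lit 290) (nat_lit 0) (cs (nd (nat_lit 268) (nat_lit 0) (cs (lf (nat_lit 23) (nat_lit 267)) (rf (nat_lit 8)))) (nd (nat_lit 311) (nat_lit 0) (cs (lf (nat_lit 10) (nat_lit 289)) (nd (nat_lit 289) (nat_lit 0) (cs (lf (nat_lit 11) (nat_lit 288)) (lf (nat_lit 5) (nat_lit 289)))))))))))) (rf (nat_lit 15))))))))) q62075 (by decide +kernel)
def q62098 : Q := Q.p (nat_lit 0x20000880000600000000000000000000000000000000000000000000000000000000000000) (nat_lit 0x140000700001c00007b8001de00177c000000000c00003000004000000000000000000000000000000000000000000000) (nat_lit 11)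
theorem c62098 : QOK q62098 := cut [q61952, q62076, q61062, q61787, q62077, q62078, q12761, q62094] ⟨c61952, c62076, c61062, c61787, c62077, c62078, c12761, c62094, trivial⟩ (nd (nat_lit 294) (nat_lit 0) (cs (rf (nat_lit 0)) (cs (rf (nat_lit 1)) (nd (nat_lit 295) (nat_lit 0) (cs (rf (nat_lit 2)) (cs (rf (nat_lit 3)) (nd (nat_lit 273) (nat_lit 0) (cs (rf (nat_lit 4)) (cs (rf (nat_lit 5)) (nd (nat_lit 292) (nat_lit 0) (cs (nd (nat_lit 269) (nat_lit 0) (cs (lf (nat_lit 22) (nat_lit 269)) (nd (nat_lit 291) (nat_lit 0) (cs (lf (nat_lit 23) (nat_lit 268)) (lf (nat_lit 16) (nat_lit 269)))))) (cs (nd (nat_lit 317) (nat_lit 0) (cs (lf (nat_lit 5) (nat_lit 292)) (nd (nat_lit 339) (nat_lit 0) (cs (lf (nat_lit 46) (nat_lit 250)) (nd (nat_lit 362) (nat_lit 0) (cs (lf (nat_lit 28) (nat_lit 273)) (nd (nat_lit 361) (nat_lit 0) (cs (lf (nat_lit 29) (nat_lit 295)) (rf (nat_lit 6)))))))))) (rf (nat_lit 7)))))))))))))) q62098 (by decide +kernel)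
def q62101 : Q := Q.p (nat_lit 0x20000080000600000000000000000000000000000000000000000000000000000000000000) (nat_lit 0x140003fe0007f0001de000100000000000000000000000000000000000000000000000000000000000000000000) (nat_lit 11)
theorem c62101 : QOK q62101 := cut [q56929, q56973, q59352, q59360, q59361] ⟨c56929, c56973, c59352, c59360, c59361, trivial⟩ (nd (nat_lit 315) (nat_lit 0) (cs (rf (nat_lit 0)) (cs (rf (nat_lit 1)) (nd (nat_lit 314) (nat_lit 0) (cs (lf (nat_lit 41) (nat_lit 248)) (nd (nat_lit 313) (nat_lit 0) (cs (rf (nat_lit 2)) (cs (rf (nat_lit 3)) (rf (nat_lit 4)))))))))) q62101 (by decide +kernel)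
def q62124 : Q := Q.p (nat_lit 0x60000980000200000800000000000000000000000000000000000000000000000000000000) (nat_lit 0xe700019c000470000000000400001000000000000000000000000000000000000000000000000000) (nat_lit 9)
theorem c62124 : QOK q62124 := cut [q62120] ⟨c62120, trivial⟩ (nd (nat_lit 204) (nat_lit 0) (cs (lf (nat_lit 46) (nat_lit 204)) (nd (nat_lit 292) (nat_lit 0) (cs (lf (nat_lit 41) (nat_lit 226)) (nd (nat_lit 291) (nat_lit 0) (cs (lf (nat_lit 12) (nat_lit 268)) (nd (nat_lit 312) (nat_lit 0) (cs (lf (nat_lit 10) (nat_lit 290)) (rf (nat_lit 0)))))))))) q62124 (by decide +kernel)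
def q62167 : Q := Q.p (nat_lit 0x700001000000000000000000000000000000000000000000000000000000000) (nat_lit 0x7380008c0000f80000000000000000000000000000000000000000000000000000000) (nat_lit 5)
theorem c62167 : QOK q62167 := cut [q44571, q26243, q62166] ⟨c44571, c26243, c62166, trivial⟩ (nd (nat_lit 247) (nat_lit 0) (cs (rf (nat_lit 0)) (cs (nd (nat_lit 272) (nat_lit 0) (cs (rf (nat_lit 1)) (lf (nat_lit 5) (nat_lit 247)))) (rf (nat_lit 2))))) q62167 (by decide +kernel)
def q62259 : Q := Q.p (nat_lit 0x2600001000010000040000100000000000000000000000000000000000000000) (nat_lit 0x20000080000e8000070000bc000ef0000c80002000000000000000000000000000000) (nat_lit 10)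
theorem c62259 : QOK q62259 := cut [q62224, q62241, q62243, q62250, q62251, q62222] ⟨c62224, c62241, c62243, c62250, c62251, c62222, trivial⟩ (nd (nat_lit 184) (nat_lit 0) (cs (nd (nat_lit 230) (nat_lit 0) (cs (lf (nat_lit 28) (nat_lit 164)) (nd (nat_lit 143) (nat_lit 0) (cs (lf (nat_lit 34) (nat_lit 142)) (nd (nat_lit 121) (nat_lit 0) (cs (lf (nat_lit 33) (nat_lit 120)) (nd (nat_lit 251) (nat_lit 0) (cs (lf (nat_lit 40) (nat_lit 163)) (nd (nat_lit 206) (nat_lit 0) (cs (lf (nat_lit 29) (nat_lit 184)) (nd (nat_lit 163) (nat_lit 0) (cs (lf (nat_lit 34) (nat_lit 162)) (rf (nat_lit 0)))))))))))))) (cs (nd (nat_lit 230) (nat_lit 0) (cs (lf (nat_lit 28) (nat_lit 164)) (nd (nat_lit 251) (nat_lit 0) (cs (lf (nat_lit 40) (nat_lit 163)) (nd (nat_lit 206) (nat_lit 0) (cs (lf (nat_lit 29) (nat_lit 184)) (nd (nat_lit 163) (nat_lit 0) (cs (lf (nat_lit 34) (nat_lit 162)) (nd (nat_lit 161) (nat_lit 0) (cs (lf (nat_lit 46) (nat_lit 161)) (nd (nat_lit 162) (nat_lit 0) (cs (lf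 (nat_lit 5) (nat_lit 161)) (lf (nat_lit 40) (nat_lit 161)))))))))))))) (cs (nd (nat_lit 183) (nat_lit 0) (cs (nd (nat_lit 161) (nat_lit 0) (cs (lf (nat_lit 44) (nat_lit 161)) (nd (nat_lit 185) (nat_lit 0) (cs (lf (nat_lit 17) (nat_lit 161)) (lf (nat_lit 23) (nat_lit 160)))))) (cs (nd (nat_lit 165) (nat_lit 0) (cs (lf (nat_lit 14) (nat_lit 161)) (nd (nat_lit 162) (nat_lit 0) (cs (lf (nat_lit 8) (nat_lit 161)) (nd (nat_lit 227) (nat_lit 0) (cs (lf (nat_lit 38) (nat_lit 161)) (lf (nat_lit 32) (nat_lit 161)))))))) (cs (rf (nat_lit 1)) (nd (nat_lit 185) (nat_lit 0) (cs (lf (nat_lit 17) (nat_lit 161)) (nd (nat_lit 163) (nat_lit 0) (cs (lf (nat_lit 12) (nat_lit 160)) (rf (nat_lit 2)))))))))) (cs (rf (nat_lit 3)) (cs (nd (nat_lit 230) (nat_lit 0) (cs (lf (nat_lit 28) (nat_lit 164)) (nd (nat_lit 143) (nat_lit 0) (cs (lf (nat_lit 34) (nat_lit 142)) (nd (nat_lit 121) (nat_lit 0) (cs (lf (nat_lit 33) (nat_lit 120)) (nd (nat_lit 251) (nat_lit 0) (cs (lf (nat_lit 40) (nat_lit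 163)) (nd (nat_lit 206) (nat_lit 0) (cs (lf (nat_lit 29) (nat_lit 184)) (rf (nat_lit 4)))))))))))) (nd (nat_lit 230) (nat_lit 0) (cs (lf (nat_lit 28) (nat_lit 164)) (nd (nat_lit 165) (nat_lit 0) (cs (lf (nat_lit 35) (nat_lit 142)) (rf (nat_lit 5)))))))))))) q62259 (by decide +kernel)
def q62334 : Q := Q.p (nat_lit 0x800000600001000010000040000100000000000000000000000000000000000000000) (nat_lit 0x380001e00007000008000008000060003be000ef0003fe0003f0000e8000380000a0000000000000) (nat_lit 12)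
theorem c62334 : QOK q62334 := cut [q558, q32273, q32285, q2270, q32056, q62284, q62292, q62275, q62300, q62302, q62308, q62311, q62314, q62319, q456, q62222, q61255, q2511, q35628] ⟨c558, c32273, c32285, c2270, c32056, c62284, c62292, c62275, c62300, c62302, c62308, c62311, c62314, c62319, c456, c62222, c61255, c2511, c35628, trivial⟩ (nd (nat_lit 142) (nat_lit 0) (cs (rf (nat_lit 0)) (cs (rf (nat_lit 1)) (cs (rf (nat_lit 2)) (cs (nd (nat_lit 163) (nat_lit 0) (cs (nd (nat_lit 162) (nat_lit 0) (cs (rf (nat_lit 3)) (cs (rf (nat_lit 4)) (cs (rf (nat_lit 5)) (cs (nd (nat_lit 161) (nat_lit 0) (cs (lf (nat_lit 5) (nat_lit 161)) (nd (nat_lit 141) (nat_lit 0) (cs (lf (nat_lit 12) (nat_lit 138)) (nd (nat_lit 182) (nat_lit 0) (cs (lf (nat_lit 10) (nat_lit 160)) (nd (nat_lit 184) (nat_lit 0) (cs (lf (nat_lit 31) (nat_lit 140)) (nd (nat_lit 139) (nat_lit 0) (cs (lf (nat_lit 23) (nat_lit 138)) (nd (nat_lit 140) (nat_lit 0) (cs (lf (nat_lit 18) (nat_lit 139)) (nd (nat_lit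 117) (nat_lit 0) (cs (lf (nat_lit 24) (nat_lit 95)) (lf (nat_lit 23) (nat_lit 116)))))))))))))))) (rf (nat_lit 6))))))) (cs (nd (nat_lit 121) (nat_lit 0) (cs (lf (nat_lit 34) (nat_lit 120)) (nd (nat_lit 120) (nat_lit 0) (cs (lf (nat_lit 35) (nat_lit 98)) (nd (nat_lit 185) (nat_lit 0) (cs (lf (nat_lit 36) (nat_lit 97)) (nd (nat_lit 184) (nat_lit 0) (cs (lf (nat_lit 32) (nat_lit 162)) (rf (nat_lit 7)))))))))) (rf (nat_lit 8))))) (nd (nat_lit 141) (nat_lit 0) (cs (lf (nat_lit 47) (nat_lit 119)) (nd (nat_lit 165) (nat_lit 0) (cs (rf (nat_lit 9)) (cs (nd (nat_lit 140) (nat_lit 0) (cs (lf (nat_lit 0) (nat_lit 139)) (nd (nat_lit 183) (nat_lit 0) (cs (nd (nat_lit 184) (nat_lit 0) (cs (lf (nat_lit 14) (nat_lit 161)) (nd (nat_lit 162) (nat_lit 0) (cs (lf (nat_lit 8) (nat_lit 161)) (nd (nat_lit 206) (nat_lit 0) (cs (lf (nat_lit 47) (nat_lit 161)) (lf (nat_lit 40) (nat_lit 161)))))))) (cs (nd (nat_lit 184) (nat_lit 0) (cs (lf (nat_lit 14) (nat_lit 161)) (rf (nat_lit 10))))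 (cs (nd (nat_lit 272) (nat_lit 0) (cs (nd (nat_lit 205) (nat_lit 0) (cs (lf (nat_lit 45) (nat_lit 183)) (lf (nat_lit 26) (nat_lit 183)))) (cs (nd (nat_lit 273) (nat_lit 0) (cs (lf (nat_lit 19) (nat_lit 249)) (nd (nat_lit 295) (nat_lit 0) (cs (lf (nat_lit 24) (nat_lit 206)) (rf (nat_lit 11)))))) (nd (nat_lit 274) (nat_lit 0) (cs (lf (nat_lit 20) (nat_lit 249)) (nd (nat_lit 227) (nat_lit 0) (cs (lf (nat_lit 25) (nat_lit 183)) (rf (nat_lit 12))))))))) (nd (nat_lit 184) (nat_lit 0) (cs (lf (nat_lit 14) (nat_lit 161)) (rf (nat_lit 13)))))))))) (cs (nd (nat_lit 184) (nat_lit 0) (cs (rf (nat_lit 14)) (cs (rf (nat_lit 15)) (cs (nd (nat_lit 166) (nat_lit 0) (cs (lf (nat_lit 18) (nat_lit 141)) (rf (nat_lit 16)))) (nd (nat_lit 162) (nat_lit 0) (cs (nd (nat_lit 166) (nat_lit 0) (cs (lf (nat_lit 18) (nat_lit 141)) (nd (nat_lit 206) (nat_lit 0) (cs (rf (nat_lit 17)) (lf (nat_lit 40) (nat_lit 161)))))) (cs (nd (nat_lit 163) (nat_lit 0) (cs (lf (nat_lit 11) (nat_lit 161))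 (rf (nat_lit 18)))) (nd (nat_lit 206) (nat_lit 0) (cs (lf (nat_lit 34) (nat_lit 140)) (lf (nat_lit 40) (nat_lit 161))))))))))) (nd (nat_lit 166) (nat_lit 0) (cs (lf (nat_lit 18) (nat_lit 141)) (nd (nat_lit 140) (nat_lit 0) (cs (lf (nat_lit 21) (nat_lit 140)) (lf (nat_lit 3) (nat_lit 140))))))))))))))))) q62334 (by decide +kernel)
def q62346 : Q := Q.p (nat_lit 0x600001000010000040000300000000000000000000000000000000000000000) (nat_lit 0x100000800006800023000008000020000800000000000000000000000000000000000) (nat_lit 6)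
theorem c62346 : QOK q62346 := cut [q62345] ⟨c62345, trivial⟩ (nd (nat_lit 230) (nat_lit 0) (cs (lf (nat_lit 35) (nat_lit 142)) (rf (nat_lit 0)))) q62346 (by decide +kernel)
def q62371 : Q := Q.p (nat_lit 0x600001000010000040000100000200000000000000000000000000000000000) (nat_lit 0x1000008000068000230000080000a0000000000000000000000000000000000000000) (nat_lit 6)
theorem c62371 : QOK q62371 := cut [q62345] ⟨c62345, trivial⟩ (nd (nat_lit 230) (nat_lit 0) (cs (lf (nat_lit 46) (nat_lit 141)) (rf (nat_lit 0)))) q62371 (by decide +kernel)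
def q62476 : Q := Q.p (nat_lit 0x700001c00000000000000000000000000000000000000000000000000000000) (nat_lit 0x3700000c0000300000c00002000008000000000000000000000000000000000000000) (nat_lit 7)
theorem c62476 : QOK q62476 := cut [q62473] ⟨c62473, trivial⟩ (nd (nat_lit 247) (nat_lit 0) (cs (lf (nat_lit 12) (nat_lit 224)) (nd (nat_lit 272) (nat_lit 0) (cs (lf (nat_lit 5) (nat_lit 247)) (nd (nat_lit 225) (nat_lit 0) (cs (lf (nat_lit 0) (nat_lit 224)) (rf (nat_lit 0)))))))) q62476 (by decide +kernel)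
def q62483 : Q := Q.p (nat_lit 0x700001800000000000000000000000000000000000000000000000000000000) (nat_lit 0x40000100000700008c0000400002000008000000000000000000000000000000000000000000000) (nat_lit 6)
theorem c62483 : QOK q62483 := cut [q62481] ⟨c62481, trivial⟩ (nd (nat_lit 247) (nat_lit 0) (cs (lf (nat_lit 12) (nat_lit 224)) (nd (nat_lit 269) (nat_lit 0) (cs (lf (nat_lit 11) (nat_lit 246)) (rf (nat_lit 0)))))) q62483 (by decide +kernel)
def q62497 : Q := Q.p (nat_lit 0x700001c00000000000000000000000000000000000000000000000000000000) (nat_lit 0x700000c0000300000c00002000008000000000000000000000000000000000000000) (nat_lit 6)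
theorem c62497 : QOK q62497 := cut [q62473] ⟨c62473, trivial⟩ (nd (nat_lit 247) (nat_lit 0) (cs (lf (nat_lit 12) (nat_lit 224)) (nd (nat_lit 225) (nat_lit 0) (cs (lf (nat_lit 23) (nat_lit 224)) (rf (nat_lit 0)))))) q62497 (by decide +kernel)
def q62524 : Q := Q.p (nat_lit 0x40000700000400000000000000000000000000000000000000000000000000000000) (nat_lit 0x800003800080000000000380000e000028000000000000000000000000000000000000000) (nat_lit 7)
theorem c62524 : QOK q62524 := cut [q62522] ⟨c62522, trivial⟩ (nd (nat_lit 269) (nat_lit 0) (cs (lf (nat_lit 6) (nat_lit 247)) (nd (nat_lit 267) (nat_lit 0) (cs (lf (nat_lit 13) (nat_lit 245)) (rf (nat_lit 0)))))) q62524 (by decide +kernel)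
def q62575 : Q := Q.p (nat_lit 0x840002700001800010000000000000000000000000000000000000000000000000000) (nat_lit 0xe0000660000fc0007e0000e00002800000000000000000000000000000) (nat_lit 9)
theorem c62575 : QOK q62575 := cut [q56732, q62532, q62533, q62537, q62570, q62571] ⟨c56732, c62532, c62533, c62537, c62570, c62571, trivial⟩ (nd (nat_lit 230) (nat_lit 0) (cs (lf (nat_lit 7) (nat_lit 226)) (nd (nat_lit 186) (nat_lit 0) (cs (rf (nat_lit 0)) (cs (rf (nat_lit 1)) (nd (nat_lit 184) (nat_lit 0) (cs (rf (nat_lit 2)) (cs (rf (nat_lit 3)) (cs (rf (nat_lit 4)) (nd (nat_lit 183) (nat_lit 0) (cs (lf (nat_lit 37) (nat_lit 182)) (rf (nat_lit 5))))))))))))) q62575 (by decide +kernel)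
def q62668 : Q := Q.p (nat_lit 0x800002700001c00011000000000000000000000000000000000000000000000000000) (nat_lit 0xe0000240000fe0007f8000ff0002800000000000000000000000000000) (nat_lit 11)
theorem c62668 : QOK q62668 := cut [q62169, q62526, q62621, q62632, q38377, q34805, q2, q62666] ⟨c62169, c62526, c62621, c62632, c38377, c34805, c2, c62666, trivial⟩ (nd (nat_lit 186) (nat_lit 0) (cs (rf (nat_lit 0)) (cs (rf (nat_lit 1)) (cs (nd (nat_lit 161) (nat_lit 0) (cs (nd (nat_lit 182) (nat_lit 0) (cs (lf (nat_lit 34) (nat_lit 160)) (lf (nat_lit 24) (nat_lit 160)))) (cs (nd (nat_lit 229) (nat_lit 0) (cs (lf (nat_lit 6) (nat_lit 226)) (nd (nat_lit 183) (nat_lit 0) (cs (lf (nat_lit 33) (nat_lit 160)) (nd (nat_lit 184) (nat_lit 0) (cs (lf (nat_lit 44) (nat_lit 161)) (nd (nat_lit 185) (nat_lit 0) (cs (lf (nat_lit 5) (nat_lit 183)) (rf (nat_lit 2)))))))))) (cs (nd (nat_lit 184) (nat_lit 0) (cs (nd (nat_lit 229) (nat_lit 0) (cs (lf (nat_lit 6) (nat_lit 226)) (nd (nat_lit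 183) (nat_lit 0) (cs (lf (nat_lit 44) (nat_lit 161)) (nd (nat_lit 185) (nat_lit 0) (cs (lf (nat_lit 5) (nat_lit 183)) (lf (nat_lit 23) (nat_lit 160)))))))) (cs (nd (nat_lit 185) (nat_lit 0) (cs (nd (nat_lit 183) (nat_lit 0) (cs (lf (nat_lit 5) (nat_lit 183)) (lf (nat_lit 23) (nat_lit 160)))) (cs (nd (nat_lit 229) (nat_lit 0) (cs (lf (nat_lit 6) (nat_lit 226)) (nd (nat_lit 183) (nat_lit 0) (cs (lf (nat_lit 5) (nat_lit 183)) (rf (nat_lit 2)))))) (nd (nat_lit 229) (nat_lit 0) (cs (lf (nat_lit 6) (nat_lit 226)) (rf (nat_lit 3))))))) (cs (nd (nat_lit 229) (nat_lit 0) (cs (lf (nat_lit 6) (nat_lit 226)) (nd (nat_lit 162) (nat_lit 0) (cs (lf (nat_lit 38) (nat_lit 161)) (rf (nat_lit 4)))))) (nd (nat_lit 206) (nat_lit 0) (cs (lf (nat_lit 46) (nat_lit 161)) (lf (nat_lit 36) (nat_lit 161)))))))) (nd (nat_lit 160) (nat_lit 0) (cs (lf (nat_lit 25) (nat_lit 160)) (nd (nat_lit 162) (nat_lit 0) (cs (nd (nat_lit 184) (nat_lit 0) (cs (lf (nat_lit 38) (nat_lit 161)) (nd (nat_lit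 185) (nat_lit 0) (cs (lf (nat_lit 0) (nat_lit 159)) (lf (nat_lit 18) (nat_lit 161)))))) (cs (nd (nat_lit 141) (nat_lit 0) (cs (nd (nat_lit 142) (nat_lit 0) (cs (lf (nat_lit 15) (nat_lit 138)) (nd (nat_lit 140) (nat_lit 0) (cs (lf (nat_lit 6) (nat_lit 139)) (lf (nat_lit 12) (nat_lit 137)))))) (cs (nd (nat_lit 184) (nat_lit 0) (cs (lf (nat_lit 38) (nat_lit 161)) (nd (nat_lit 159) (nat_lit 0) (cs (lf (nat_lit 16) (nat_lit 137)) (nd (nat_lit 230) (nat_lit 0) (cs (lf (nat_lit 7) (nat_lit 226)) (nd (nat_lit 137) (nat_lit 0) (cs (lf (nat_lit 23) (nat_lit 136)) (nd (nat_lit 163) (nat_lit 0) (cs (lf (nat_lit 45) (nat_lit 141)) (lf (nat_lit 22) (nat_lit 137)))))))))))) (cs (nd (nat_lit 229) (nat_lit 0) (cs (lf (nat_lit 6) (nat_lit 226)) (nd (nat_lit 184) (nat_lit 0) (cs (lf (nat_lit 38) (nat_lit 161)) (nd (nat_lit 140) (nat_lit 0) (cs (lf (nat_lit 12) (nat_lit 137)) (rf (nat_lit 5)))))))) (nd (nat_lit 142) (nat_lit 0) (cs (lf (nat_lit 15) (nat_lit 138)) (nd (nat_lit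 230) (nat_lit 0) (cs (lf (nat_lit 7) (nat_lit 226)) (nd (nat_lit 184) (nat_lit 0) (cs (lf (nat_lit 38) (nat_lit 161)) (nd (nat_lit 164) (nat_lit 0) (cs (rf (nat_lit 6)) (lf (nat_lit 47) (nat_lit 119)))))))))))))) (nd (nat_lit 163) (nat_lit 0) (cs (lf (nat_lit 4) (nat_lit 160)) (nd (nat_lit 141) (nat_lit 0) (cs (lf (nat_lit 17) (nat_lit 138)) (nd (nat_lit 164) (nat_lit 0) (cs (lf (nat_lit 5) (nat_lit 161)) (lf (nat_lit 42) (nat_lit 141))))))))))))))))) (nd (nat_lit 209) (nat_lit 0) (cs (lf (nat_lit 44) (nat_lit 186)) (rf (nat_lit 7)))))))) q62668 (by decide +kernel)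
def q62685 : Q := Q.p (nat_lit 0x800002700001800010000000000000000000000000000000000000000000000000000) (nat_lit 0x14000000000e0000660000fc0007e0000e00002800000000000000000000000000000) (nat_lit 9)
theorem c62685 : QOK q62685 := cut [q56732, q62152, q62531, q62537, q62570, q62571] ⟨c56732, c62152, c62531, c62537, c62570, c62571, trivial⟩ (nd (nat_lit 230) (nat_lit 0) (cs (lf (nat_lit 7) (nat_lit 226)) (nd (nat_lit 186) (nat_lit 0) (cs (rf (nat_lit 0)) (cs (nd (nat_lit 183) (nat_lit 0) (cs (rf (nat_lit 1)) (rf (nat_lit 2)))) (nd (nat_lit 184) (nat_lit 0) (cs (rf (nat_lit 3)) (cs (rf (nat_lit 4)) (cs (nd (nat_lit 206) (nat_lit 0) (cs (lf (nat_lit 36) (nat_lit 161)) (nd (nat_lit 183) (nat_lit 0) (cs (lf (nat_lit 47) (nat_lit 161)) (rf (nat_lit 1)))))) (nd (nat_lit 183) (nat_lit 0) (cs (rf (nat_lit 1)) (rf (nat_lit 5))))))))))))) q62685 (by decide +kernel)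
def q62785 : Q := Q.p (nat_lit 0x40000800000100000400001000004000000000000000000000000000000000000000000000) (nat_lit 0x7a0001b8000660000000000000002000008000020000000000000000000000000000000000000000) (nat_lit 9)
theorem c62785 : QOK q62785 := cut [q62783] ⟨c62783, trivial⟩ (nd (nat_lit 183) (nat_lit 0) (cs (lf (nat_lit 35) (nat_lit 160)) (nd (nat_lit 270) (nat_lit 0) (cs (lf (nat_lit 34) (nat_lit 182)) (rf (nat_lit 0)))))) q62785 (by decide +kernel)
def q62821 : Q := Q.p (nat_lit 0x40000800000600001800000000000000000000000000000000000000000000000000000000) (nat_lit 0x280001a0000700000000000000002000000000000000000000000000000000000000000000000000) (nat_lit 5)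
theorem c62821 : QOK q62821 := cut [q62820] ⟨c62820, trivial⟩ (nd (nat_lit 272) (nat_lit 0) (cs (lf (nat_lit 47) (nat_lit 205)) (rf (nat_lit 0)))) q62821 (by decide +kernel)
def q62911 : Q := Q.p (nat_lit 0x700000000000000000000000000000000000000000000000000000000000000) (nat_lit 0x7b80008c0000780000000000000000000000000000000000000000000000000000000) (nat_lit 5)
theorem c62911 : QOK q62911 := cut [q44571, q57399, q62166] ⟨c44571, c57399, c62166, trivial⟩ (nd (nat_lit 247) (nat_lit 0) (cs (rf (nat_lit 0)) (cs (rf (nat_lit 1)) (rf (nat_lit 2))))) q62911 (by decide +kernel)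
def q62983 : Q := Q.p (nat_lit 0x6000000000040000700000000000000000000000000000000000000000000000000000000000000) (nat_lit 0x1ff000798001e7000720000800007600000000000000000000000000000000000000000000000000000000) (nat_lit 11)
theorem c62983 : QOK q62983 := cut [q62958, q62848, q62959, q62974] ⟨c62958, c62848, c62959, c62974, trivial⟩ (nd (nat_lit 251) (nat_lit 0) (cs (lf (nat_lit 11) (nat_lit 247)) (nd (nat_lit 273) (nat_lit 0) (cs (lf (nat_lit 5) (nat_lit 248)) (nd (nat_lit 229) (nat_lit 0) (cs (lf (nat_lit 17) (nat_lit 226)) (nd (nat_lit 316) (nat_lit 0) (cs (rf (nat_lit 0)) (cs (nd (nat_lit 315) (nat_lit 0) (cs (rf (nat_lit 1)) (cs (nd (nat_lit 225) (nat_lit 0) (cs (lf (nat_lit 22) (nat_lit 225)) (nd (nat_lit 334) (nat_lit 0) (cs (lf (nat_lit 10) (nat_lit 312)) (nd (nat_lit 312) (nat_lit 0) (cs (lf (nat_lit 11) (nat_lit 311)) (rf (nat_lit 2)))))))) (nd (nat_lit 338) (nat_lit 0) (cs (lf (nat_lit 5) (nat_lit 313)) (nd (nat_lit 312) (nat_lit 0) (cs (lf (nat_lit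 4) (nat_lit 312)) (rf (nat_lit 2))))))))) (nd (nat_lit 315) (nat_lit 0) (cs (nd (nat_lit 225) (nat_lit 0) (cs (lf (nat_lit 22) (nat_lit 225)) (nd (nat_lit 335) (nat_lit 0) (cs (lf (nat_lit 11) (nat_lit 312)) (nd (nat_lit 317) (nat_lit 0) (cs (lf (nat_lit 10) (nat_lit 313)) (nd (nat_lit 295) (nat_lit 0) (cs (lf (nat_lit 47) (nat_lit 228)) (lf (nat_lit 17) (nat_lit 292)))))))))) (cs (rf (nat_lit 3)) (nd (nat_lit 338) (nat_lit 0) (cs (lf (nat_lit 5) (nat_lit 313)) (nd (nat_lit 317) (nat_lit 0) (cs (lf (nat_lit 38) (nat_lit 250)) (nd (nat_lit 336) (nat_lit 0) (cs (lf (nat_lit 11) (nat_lit 313)) (nd (nat_lit 337) (nat_lit 0) (cs (lf (nat_lit 6) (nat_lit 314)) (lf (nat_lit 0) (nat_lit 312)))))))))))))))))))))) q62983 (by decide +kernel)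
def q63220 : Q := Q.p (nat_lit 0x800003000000000060000300000000000000000000000000000000000000000000000000000000000000) (nat_lit 0x40000500007e00077c0004e00003c0001c0000700001c0000500000000000000000000000000000000000000000000000000) (nat_lit 10)
theorem c63220 : QOK q63220 := cut [q63052, q63073, q63171, q63071, q63124, q63194] ⟨c63052, c63073, c63171, c63071, c63124, c63194, trivial⟩ (nd (nat_lit 311) (nat_lit 0) (cs (rf (nat_lit 0)) (cs (rf (nat_lit 1)) (cs (nd (nat_lit 334) (nat_lit 0) (cs (nd (nat_lit 267) (nat_lit 0) (cs (lf (nat_lit 13) (nat_lit 245)) (nd (nat_lit 245) (nat_lit 0) (cs (nd (nat_lit 310) (nat_lit 0) (cs (lf (nat_lit 0) (nat_lit 309)) (nd (nat_lit 288) (nat_lit 0) (cs (lf (nat_lit 23) (nat_lit 287)) (nd (nat_lit 332) (nat_lit 0) (cs (lf (nat_lit 11) (nat_lit 309)) (lf (nat_lit 33) (nat_lit 244)))))))) (lf (nat_lit 26) (nat_lit 245)))))) (cs (nd (nat_lit 267) (nat_lit 0) (cs (lf (nat_lit 13) (nat_lit 245)) (nd (nat_lit 289) (nat_lit 0) (cs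 (lf (nat_lit 24) (nat_lit 245)) (rf (nat_lit 2)))))) (cs (nd (nat_lit 310) (nat_lit 0) (cs (lf (nat_lit 0) (nat_lit 309)) (nd (nat_lit 287) (nat_lit 0) (cs (lf (nat_lit 22) (nat_lit 287)) (nd (nat_lit 332) (nat_lit 0) (cs (lf (nat_lit 11) (nat_lit 309)) (nd (nat_lit 333) (nat_lit 0) (cs (nd (nat_lit 357) (nat_lit 0) (cs (lf (nat_lit 5) (nat_lit 332)) (nd (nat_lit 354) (nat_lit 0) (cs (nd (nat_lit 376) (nat_lit 0) (cs (lf (nat_lit 35) (nat_lit 288)) (lf (nat_lit 30) (nat_lit 310)))) (lf (nat_lit 11) (nat_lit 331)))))) (lf (nat_lit 17) (nat_lit 310)))))))))) (nd (nat_lit 310) (nat_lit 0) (cs (lf (nat_lit 0) (nat_lit 309)) (nd (nat_lit 267) (nat_lit 0) (cs (lf (nat_lit 13) (nat_lit 245)) (nd (nat_lit 288) (nat_lit 0) (cs (lf (nat_lit 23) (nat_lit 287)) (nd (nat_lit 332) (nat_lit 0) (cs (lf (nat_lit 11) (nat_lit 309)) (nd (nat_lit 266) (nat_lit 0) (cs (nd (nat_lit 333) (nat_lit 0) (cs (lf (nat_lit 17) (nat_lit 310)) (lf (nat_lit 24) (nat_lit 244)))) (lf (nat_lit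 35) (nat_lit 244)))))))))))))))) (nd (nat_lit 336) (nat_lit 0) (cs (rf (nat_lit 3)) (cs (rf (nat_lit 4)) (nd (nat_lit 267) (nat_lit 0) (cs (lf (nat_lit 13) (nat_lit 245)) (nd (nat_lit 289) (nat_lit 0) (cs (nd (nat_lit 288) (nat_lit 0) (cs (nd (nat_lit 286) (nat_lit 0) (cs (rf (nat_lit 5)) (lf (nat_lit 1) (nat_lit 286)))) (lf (nat_lit 18) (nat_lit 288)))) (cs (nd (nat_lit 245) (nat_lit 0) (cs (lf (nat_lit 29) (nat_lit 245)) (nd (nat_lit 224) (nat_lit 0) (cs (nd (nat_lit 223) (nat_lit 0) (cs (lf (nat_lit 35) (nat_lit 201)) (nd (nat_lit 222) (nat_lit 0) (cs (lf (nat_lit 47) (nat_lit 200)) (lf (nat_lit 46) (nat_lit 222)))))) (lf (nat_lit 34) (nat_lit 223)))))) (nd (nat_lit 333) (nat_lit 0) (cs (nd (nat_lit 314) (nat_lit 0) (cs (lf (nat_lit 11) (nat_lit 310)) (lf (nat_lit 23) (nat_lit 288)))) (cs (nd (nat_lit 244) (nat_lit 0) (cs (nd (nat_lit 354) (nat_lit 0) (cs (nd (nat_lit 355) (nat_lit 0) (cs (lf (nat_lit 41) (nat_lit 288)) (nd (nat_lit 356) (nat_lit 0) (cs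 (lf (nat_lit 15) (nat_lit 332)) (lf (nat_lit 29) (nat_lit 289)))))) (lf (nat_lit 40) (nat_lit 266)))) (lf (nat_lit 46) (nat_lit 244)))) (nd (nat_lit 266) (nat_lit 0) (cs (nd (nat_lit 288) (nat_lit 0) (cs (lf (nat_lit 42) (nat_lit 266)) (lf (nat_lit 18) (nat_lit 288)))) (lf (nat_lit 47) (nat_lit 244))))))))))))))))))) q63220 (by decide +kernel)
def q63333 : Q := Q.p (nat_lit 0x8000010000040000100000000000000000000000000000000000000000000000000000000000000) (nat_lit 0x2000028000020000000000600001800002000000000000000000000000000000000000000000000) (nat_lit 5)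
theorem c63333 : QOK q63333 := cut [q63332] ⟨c63332, trivial⟩ (nd (nat_lit 226) (nat_lit 0) (cs (lf (nat_lit 28) (nat_lit 226)) (rf (nat_lit 0)))) q63333 (by decide +kernel)
def q63418 : Q := Q.p (nat_lit 0x10000040000700000000000000000000000000000000000000000000000000000000000000) (nat_lit 0xdc00037e000ef0003be000060000780003a0000e000028000000000000000000000000000000000000000) (nat_lit 13)
theorem c63418 : QOK q63418 := cut [q51305, q63372, q11170, q51309, q47533, q57055, q63299, q63395, q63396, q63407, q63371] ⟨c51305, c63372, c11170, c51309, c47533, c57055, c63299, c63395, c63396, c63407, c63371, trivial⟩ (nd (nat_lit 291) (nat_lit 0) (cs (nd (nat_lit 226) (nat_lit 0) (cs (lf (nat_lit 41) (nat_lit 225)) (rf (nat_lit 0)))) (cs (nd (nat_lit 271) (nat_lit 0) (cs (rf (nat_lit 1)) (cs (nd (nat_lit 290) (nat_lit 0) (cs (lf (nat_lit 12) (nat_lit 267)) (nd (nat_lit 226) (nat_lit 0) (cs (rf (nat_lit 2)) (cs (rf (nat_lit 3)) (nd (nat_lit 268) (nat_lit 0) (cs (lf (nat_lit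 13) (nat_lit 246)) (nd (nat_lit 267) (nat_lit 0) (cs (lf (nat_lit 18) (nat_lit 267)) (nd (nat_lit 265) (nat_lit 0) (cs (nd (nat_lit 314) (nat_lit 0) (cs (lf (nat_lit 30) (nat_lit 248)) (nd (nat_lit 225) (nat_lit 0) (cs (lf (nat_lit 47) (nat_lit 203)) (nd (nat_lit 223) (nat_lit 0) (cs (lf (nat_lit 1) (nat_lit 223)) (nd (nat_lit 245) (nat_lit 0) (cs (lf (nat_lit 24) (nat_lit 201)) (nd (nat_lit 312) (nat_lit 0) (cs (lf (nat_lit 42) (nat_lit 245)) (lf (nat_lit 45) (nat_lit 223)))))))))))) (lf (nat_lit 1) (nat_lit 265))))))))))))) (cs (nd (nat_lit 269) (nat_lit 0) (cs (lf (nat_lit 12) (nat_lit 246)) (nd (nat_lit 204) (nat_lit 0) (cs (lf (nat_lit 37) (nat_lit 203)) (nd (nat_lit 314) (nat_lit 0) (cs (lf (nat_lit 30) (nat_lit 248)) (nd (nat_lit 272) (nat_lit 0) (cs (lf (nat_lit 6) (nat_lit 269)) (nd (nat_lit 294) (nat_lit 0) (cs (lf (nat_lit 5) (nat_lit 269)) (rf (nat_lit 4)))))))))))) (nd (nat_lit 272) (nat_lit 0) (cs (lf (nat_lit 6) (nat_lit 269)) (rf (nat_lit 5))))))))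 (cs (nd (nat_lit 226) (nat_lit 0) (cs (lf (nat_lit 41) (nat_lit 225)) (nd (nat_lit 203) (nat_lit 0) (cs (lf (nat_lit 46) (nat_lit 203)) (nd (nat_lit 204) (nat_lit 0) (cs (lf (nat_lit 47) (nat_lit 181)) (rf (nat_lit 6)))))))) (nd (nat_lit 268) (nat_lit 0) (cs (rf (nat_lit 7)) (cs (nd (nat_lit 290) (nat_lit 0) (cs (nd (nat_lit 293) (nat_lit 0) (cs (lf (nat_lit 23) (nat_lit 267)) (nd (nat_lit 271) (nat_lit 0) (cs (lf (nat_lit 17) (nat_lit 268)) (nd (nat_lit 314) (nat_lit 0) (cs (lf (nat_lit 30) (nat_lit 248)) (nd (nat_lit 313) (nat_lit 0) (cs (lf (nat_lit 41) (nat_lit 247)) (rf (nat_lit 8)))))))))) (cs (nd (nat_lit 289) (nat_lit 0) (cs (lf (nat_lit 17) (nat_lit 267)) (nd (nat_lit 266) (nat_lit 0) (cs (lf (nat_lit 22) (nat_lit 266)) (nd (nat_lit 310) (nat_lit 0) (cs (lf (nat_lit 10) (nat_lit 288)) (nd (nat_lit 288) (nat_lit 0) (cs (lf (nat_lit 23) (nat_lit 265)) (lf (nat_lit 11) (nat_lit 287)))))))))) (cs (nd (nat_lit 267) (nat_lit 0) (cs (lf (nat_lit 18) (nat_lit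 267)) (rf (nat_lit 9)))) (nd (nat_lit 271) (nat_lit 0) (cs (lf (nat_lit 12) (nat_lit 267)) (rf (nat_lit 10)))))))) (cs (nd (nat_lit 271) (nat_lit 0) (cs (lf (nat_lit 13) (nat_lit 246)) (nd (nat_lit 314) (nat_lit 0) (cs (lf (nat_lit 30) (nat_lit 248)) (nd (nat_lit 313) (nat_lit 0) (cs (lf (nat_lit 41) (nat_lit 247)) (rf (nat_lit 1)))))))) (nd (nat_lit 267) (nat_lit 0) (cs (nd (nat_lit 290) (nat_lit 0) (cs (lf (nat_lit 18) (nat_lit 267)) (rf (nat_lit 9)))) (lf (nat_lit 14) (nat_lit 245)))))))))))) q63418 (by decide +kernel)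
def q63435 : Q := Q.p (nat_lit 0x10000040000300000000000000000000000000000000000000000000000000000000000000) (nat_lit 0xa0000380000e00002000008000000000060000380000e000020000000000000000000000000000000000000000) (nat_lit 7)
theorem c63435 : QOK q63435 := cut [q63322, q63348] ⟨c63322, c63348, trivial⟩ (nd (nat_lit 315) (nat_lit 0) (cs (rf (nat_lit 0)) (cs (rf (nat_lit 1)) (nd (nat_lit 226) (nat_lit 0) (cs (lf (nat_lit 28) (nat_lit 226)) (nd (nat_lit 203) (nat_lit 0) (cs (lf (nat_lit 46) (nat_lit 203)) (nd (nat_lit 204) (nat_lit 0) (cs (lf (nat_lit 47) (nat_lit 181)) (nd (nat_lit 183) (nat_lit 0) (cs (lf (nat_lit 34) (nat_lit 182)) (nd (nat_lit 182) (nat_lit 0) (cs (lf (nat_lit 29) (nat_lit 182)) (lf (nat_lit 35) (nat_lit 160))))))))))))))) q63435 (by decide +kernel)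
def q63482 : Q := Q.p (nat_lit 0x10000840000700000000000000000000000000000000000000000000000000000000000000) (nat_lit 0xa00003a0000f8000ffc001ef0007be000000001000000000000000000000000000000000000000000000000000000000) (nat_lit 12)
theorem c63482 : QOK q63482 := cut [q63305, q63321, q59381, q63468, q54929, q63481] ⟨c63305, c63321, c59381, c63468, c54929, c63481, trivial⟩ (nd (nat_lit 314) (nat_lit 0) (cs (rf (nat_lit 0)) (cs (rf (nat_lit 1)) (cs (nd (nat_lit 293) (nat_lit 0) (cs (rf (nat_lit 2)) (cs (rf (nat_lit 3)) (cs (nd (nat_lit 313) (nat_lit 0) (cs (lf (nat_lit 41) (nat_lit 247)) (nd (nat_lit 311) (nat_lit 0) (cs (lf (nat_lit 13) (nat_lit 289)) (nd (nat_lit 315) (nat_lit 0) (cs (lf (nat_lit 29) (nat_lit 248)) (nd (nat_lit 271) (nat_lit 0) (cs (lf (nat_lit 35) (nat_lit 227)) (nd (nat_lit 268) (nat_lit 0) (cs (lf (nat_lit 13) (nat_lit 246)) (rf (nat_lit 4)))))))))))) (nd (nat_lit 315) (nat_lit 0) (cs (lf (nat_lit 29) (nat_lit 248)) (nd (nat_lit 228) (nat_lit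 0) (cs (lf (nat_lit 32) (nat_lit 227)) (nd (nat_lit 313) (nat_lit 0) (cs (lf (nat_lit 41) (nat_lit 247)) (nd (nat_lit 294) (nat_lit 0) (cs (lf (nat_lit 6) (nat_lit 291)) (lf (nat_lit 38) (nat_lit 227)))))))))))))) (rf (nat_lit 5)))))) q63482 (by decide +kernel)
def q63510 : Q := Q.p (nat_lit 0x700000000000000000000000000000000000000000000000000000000000000) (nat_lit 0x780008c0007780000000000000000000000000000000000000000000000000000000) (nat_lit 5)
theorem c63510 : QOK q63510 := cut [q44571, q63489, q63509] ⟨c44571, c63489, c63509, trivial⟩ (nd (nat_lit 247) (nat_lit 0) (cs (rf (nat_lit 0)) (cs (rf (nat_lit 1)) (rf (nat_lit 2))))) q63510 (by decide +kernel)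
def q63519 : Q := Q.p (nat_lit 0x700000000000000000000000000000000000000000000000000000000000000) (nat_lit 0xa00007f80008c0007000004000010000000000000000000000000000000000000000000000) (nat_lit 7)
theorem c63519 : QOK q63519 := cut [q63513, q62137, q63518] ⟨c63513, c62137, c63518, trivial⟩ (nd (nat_lit 269) (nat_lit 0) (cs (nd (nat_lit 247) (nat_lit 0) (cs (lf (nat_lit 11) (nat_lit 246)) (rf (nat_lit 0)))) (cs (nd (nat_lit 251) (nat_lit 0) (cs (lf (nat_lit 10) (nat_lit 247)) (nd (nat_lit 229) (nat_lit 0) (cs (lf (nat_lit 17) (nat_lit 226)) (nd (nat_lit 228) (nat_lit 0) (cs (lf (nat_lit 12) (nat_lit 225)) (rf (nat_lit 1)))))))) (rf (nat_lit 2))))) q63519 (by decide +kernel)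
def q63548 : Q := Q.p (nat_lit 0x700000000000000000000000000000000000000000000000000000000000000) (nat_lit 0x780008c0007b80000000000000000000000000000000000000000000000000000000) (nat_lit 5)
theorem c63548 : QOK q63548 := cut [q44571, q63509, q63547] ⟨c44571, c63509, c63547, trivial⟩ (nd (nat_lit 247) (nat_lit 0) (cs (rf (nat_lit 0)) (cs (rf (nat_lit 1)) (rf (nat_lit 2))))) q63548 (by decide +kernel)
def q63549 : Q := Q.p (nat_lit 0x700000000000000000000000000000000000000000000000000000000000000) (nat_lit 0x380008c0007f80000000000000000000000000000000000000000000000000000000) (nat_lit 5)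
theorem c63549 : QOK q63549 := cut [q44571, q51478, q63489] ⟨c44571, c51478, c63489, trivial⟩ (nd (nat_lit 247) (nat_lit 0) (cs (rf (nat_lit 0)) (cs (rf (nat_lit 1)) (rf (nat_lit 2))))) q63549 (by decide +kernel)
def q63561 : Q := Q.p (nat_lit 0x10000040000300000400000000000000000000000000000000000000000000000000000000) (nat_lit 0xa00002800000000000000080000380000e000038000080000000000000000000000000000000000) (nat_lit 8)
theorem c63561 : QOK q63561 := cut [q46743, q46745, q63559] ⟨c46743, c46745, c63559, trivial⟩ (nd (nat_lit 204) (nat_lit 0) (cs (rf (nat_lit 0)) (cs (rf (nat_lit 1)) (cs (nd (nat_lit 291) (nat_lit 0) (cs (lf (nat_lit 41) (nat_lit 225)) (nd (nat_lit 181) (nat_lit 0) (cs (lf (nat_lit 46) (nat_lit 181)) (nd (nat_lit 182) (nat_lit 0) (cs (lf (nat_lit 47) (nat_lit 159)) (nd (nat_lit 227) (nat_lit 0) (cs (lf (nat_lit 24) (nat_lit 160)) (lf (nat_lit 35) (nat_lit 204)))))))))) (nd (nat_lit 293) (nat_lit 0) (cs (lf (nat_lit 29) (nat_lit 226)) (rf (nat_lit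 2)))))))) q63561 (by decide +kernel)
def q63573 : Q := Q.p (nat_lit 0x10000040000300000400000000000000000000000000000000000000000000000000000000) (nat_lit 0xa00002800008000000000080000180000e000038000080000000000000000000000000000000000) (nat_lit 8)
theorem c63573 : QOK q63573 := cut [q63559] ⟨c63559, trivial⟩ (nd (nat_lit 293) (nat_lit 0) (cs (lf (nat_lit 29) (nat_lit 226)) (nd (nat_lit 204) (nat_lit 0) (cs (lf (nat_lit 28) (nat_lit 204)) (rf (nat_lit 0)))))) q63573 (by decide +kernel)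
def q63627 : Q := Q.p (nat_lit 0x700000000000000000000000000000000000000000000000000000000000000) (nat_lit 0xc0000300002dc0008f000ffc0007c0003f0000fc000000000000000000000000000000000000000) (nat_lit 14)
theorem c63627 : QOK q63627 := cut [q63489, q63596, q26200, q26237, q12030, q46572, q63604, q63612, q63626] ⟨c63489, c63596, c26200, c26237, c12030, c46572, c63604, c63612, c63626, trivial⟩ (nd (nat_lit 247) (nat_lit 0) (cs (rf (nat_lit 0)) (cs (rf (nat_lit 1)) (cs (nd (nat_lit 228) (nat_lit 0) (cs (rf (nat_lit 2)) (cs (rf (nat_lit 3)) (nd (nat_lit 227) (nat_lit 0) (cs (lf (nat_lit 12) (nat_lit 224)) (nd (nat_lit 184) (nat_lit 0) (cs (nd (nat_lit 206) (nat_lit 0) (cs (lf (nat_lit 41) (nat_lit 183)) (lf (nat_lit 36) (nat_lit 161)))) (cs (nd (nat_lit 205) (nat_lit 0) (cs (nd (nat_lit 271) (nat_lit 0) (cs (nd (nat_lit 293) (nat_lit 0) (cs (rf (nat_lit 4)) (lf (nat_lit 30) (nat_lit 227)))) (cs (nd (nat_lit 270) (nat_lit 0) (cs (lf (nat_lit 41) (nat_lit 204)) (nd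 (nat_lit 204) (nat_lit 0) (cs (lf (nat_lit 47) (nat_lit 182)) (nd (nat_lit 203) (nat_lit 0) (cs (lf (nat_lit 0) (nat_lit 202)) (nd (nat_lit 181) (nat_lit 0) (cs (lf (nat_lit 26) (nat_lit 181)) (lf (nat_lit 44) (nat_lit 181)))))))))) (nd (nat_lit 293) (nat_lit 0) (cs (lf (nat_lit 30) (nat_lit 227)) (rf (nat_lit 5))))))) (rf (nat_lit 6)))) (cs (nd (nat_lit 206) (nat_lit 0) (cs (lf (nat_lit 41) (nat_lit 183)) (nd (nat_lit 163) (nat_lit 0) (cs (lf (nat_lit 34) (nat_lit 162)) (nd (nat_lit 183) (nat_lit 0) (cs (lf (nat_lit 47) (nat_lit 161)) (rf (nat_lit 7)))))))) (nd (nat_lit 206) (nat_lit 0) (cs (lf (nat_lit 36) (nat_lit 161)) (nd (nat_lit 183) (nat_lit 0) (cs (lf (nat_lit 47) (nat_lit 161)) (nd (nat_lit 163) (nat_lit 0) (cs (lf (nat_lit 34) (nat_lit 162)) (rf (nat_lit 7))))))))))))))))) (rf (nat_lit 8)))))) q63627 (by decide +kernel)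
def q63634 : Q := Q.p (nat_lit 0x40000300000400001000000000000000000000000000000000000000000000000000) (nat_lit 0x180000600003800008000000000080000280000a000000000000000000000000000000000000000000000) (nat_lit 7)
theorem c63634 : QOK q63634 := cut [q26212] ⟨c26212, trivial⟩ (nd (nat_lit 271) (nat_lit 0) (cs (lf (nat_lit 29) (nat_lit 204)) (rf (nat_lit 0)))) q63634 (by decide +kernel)
def q63706 : Q := Q.p (nat_lit 0x700000000000000000000000000000000000000000000000000000000000000) (nat_lit 0xf00003c0000f80000c0003f80007c00017000004000000000000000000000000000000000000000) (nat_lit 15)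
theorem c63706 : QOK q63706 := cut [q44571, q51478, q63547, q40868, q63689, q63692, q63703] ⟨c44571, c51478, c63547, c40868, c63689, c63692, c63703, trivial⟩ (nd (nat_lit 247) (nat_lit 0) (cs (rf (nat_lit 0)) (cs (rf (nat_lit 1)) (cs (rf (nat_lit 2)) (nd (nat_lit 269) (nat_lit 0) (cs (lf (nat_lit 11) (nat_lit 246)) (nd (nat_lit 204) (nat_lit 0) (cs (nd (nat_lit 226) (nat_lit 0) (cs (lf (nat_lit 36) (nat_lit 181)) (rf (nat_lit 3)))) (cs (nd (nat_lit 225) (nat_lit 0) (cs (lf (nat_lit 23) (nat_lit 224)) (nd (nat_lit 228) (nat_lit 0) (cs (lf (nat_lit 17) (nat_lit 225)) (rf (nat_lit 4)))))) (cs (nd (nat_lit 228) (nat_lit 0) (cs (lf (nat_lit 17) (nat_lit 225)) (nd (nat_lit 225) (nat_lit 0) (cs (lf (nat_lit 23) (nat_lit 224)) (nd (nat_lit 291) (nat_lit 0) (cs (lf (nat_lit 34) (nat_lit 203)) (nd (nat_lit 292) (nat_lit 0) (cs (lf (nat_lit 29) (nat_lit 225)) (nd (nat_lit 203) (nat_lit 0) (cs (lf (nat_lit 28) (nat_lit 203)) (nd (nat_lit 180) (nat_lit 0) (cs (lf (nat_lit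 46) (nat_lit 180)) (nd (nat_lit 290) (nat_lit 0) (cs (lf (nat_lit 41) (nat_lit 224)) (nd (nat_lit 181) (nat_lit 0) (cs (lf (nat_lit 47) (nat_lit 158)) (nd (nat_lit 206) (nat_lit 0) (cs (lf (nat_lit 19) (nat_lit 180)) (rf (nat_lit 5)))))))))))))))))))) (rf (nat_lit 6)))))))))))) q63706 (by decide +kernel)
def q63710 : Q := Q.p (nat_lit 0x40000100000400001000000000000000000000000000000000000000000000000000) (nat_lit 0x280000e000038000000000000000800002000008000000000000000000000000000000000000000000000) (nat_lit 6)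
theorem c63710 : QOK q63710 := cut [q63301] ⟨c63301, trivial⟩ (nd (nat_lit 205) (nat_lit 0) (cs (lf (nat_lit 35) (nat_lit 182)) (nd (nat_lit 292) (nat_lit 0) (cs (lf (nat_lit 34) (nat_lit 204)) (rf (nat_lit 0)))))) q63710 (by decide +kernel)
def q63739 : Q := Q.p (nat_lit 0x40000300000400001000000000000000000000000000000000000000000000000000) (nat_lit 0x80000380000e000038000080000000000000002000008000000000000000000000000000000000000000000000) (nat_lit 6)
theorem c63739 : QOK q63739 := cut [q62512, q63307] ⟨c62512, c63307, trivial⟩ (nd (nat_lit 292) (nat_lit 0) (cs (rf (nat_lit 0)) (cs (rf (nat_lit 1)) (cs (nd (nat_lit 313) (nat_lit 0) (cs (lf (nat_lit 40) (nat_lit 225)) (nd (nat_lit 183) (nat_lit 0) (cs (lf (nat_lit 34) (nat_lit 182)) (nd (nat_lit 314) (nat_lit 0) (cs (lf (nat_lit 41) (nat_lit 247)) (nd (nat_lit 271) (nat_lit 0) (cs (lf (nat_lit 29) (nat_lit 204)) (lf (nat_lit 30) (nat_lit 248)))))))))) (nd (nat_lit 293) (nat_lit 0) (cs (lf (nat_lit 29) (nat_lit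 226)) (lf (nat_lit 28) (nat_lit 204)))))))) q63739 (by decide +kernel)
def q63778 : Q := Q.p (nat_lit 0x700000000000000000000000000000000000000000000000000000000000000) (nat_lit 0x100003f80008c0000380000800002000000000000000000000000000000000000000000000) (nat_lit 6)
theorem c63778 : QOK q63778 := cut [q26461, q57393, q57399] ⟨c26461, c57393, c57399, trivial⟩ (nd (nat_lit 247) (nat_lit 0) (cs (rf (nat_lit 0)) (cs (rf (nat_lit 1)) (rf (nat_lit 2))))) q63778 (by decide +kernel)
def q63844 : Q := Q.p (nat_lit 0x700000000000000000000000000000000000000000000000000000000000000) (nat_lit 0x60000180003f80000c0000780001c00007000014000000000000000000000000000000000000000) (nat_lit 10)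
theorem c63844 : QOK q63844 := cut [q44571, q57393, q57399, q63835, q63836, q63839] ⟨c44571, c57393, c57399, c63835, c63836, c63839, trivial⟩ (nd (nat_lit 247) (nat_lit 0) (cs (rf (nat_lit 0)) (cs (rf (nat_lit 1)) (cs (rf (nat_lit 2)) (nd (nat_lit 225) (nat_lit 0) (cs (lf (nat_lit 23) (nat_lit 224)) (nd (nat_lit 292) (nat_lit 0) (cs (rf (nat_lit 3)) (cs (nd (nat_lit 269) (nat_lit 0) (cs (lf (nat_lit 11) (nat_lit 246)) (nd (nat_lit 272) (nat_lit 0) (cs (lf (nat_lit 5) (nat_lit 247)) (rf (nat_lit 4)))))) (nd (nat_lit 269) (nat_lit 0) (cs (lf (nat_lit 11) (nat_lit 246)) (nd (nat_lit 272) (nat_lit 0) (cs (lf (nat_lit 5) (nat_lit 247)) (rf (nat_lit 5))))))))))))))) q63844 (by decide +kernel)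
def q63899 : Q := Q.p (nat_lit 0x10000070000000000000000000000000000000000000000000000) (nat_lit 0x40001e0000780003fe0001e00003800000000000000000000000000000) (nat_lit 10)
theorem c63899 : QOK q63899 := cut [q18853, q39216, q9233, q9054, q19725] ⟨c18853, c39216, c9233, c9054, c19725, trivial⟩ (nd (nat_lit 187) (nat_lit 0) (cs (rf (nat_lit 0)) (cs (nd (nat_lit 209) (nat_lit 0) (cs (lf (nat_lit 5) (nat_lit 184)) (nd (nat_lit 162) (nat_lit 0) (cs (lf (nat_lit 23) (nat_lit 161)) (nd (nat_lit 163) (nat_lit 0) (cs (lf (nat_lit 18) (nat_lit 162)) (nd (nat_lit 141) (nat_lit 0) (cs (lf (nat_lit 24) (nat_lit 119)) (nd (nat_lit 164) (nat_lit 0) (cs (lf (nat_lit 42) (nat_lit 141)) (nd (nat_lit 142) (nat_lit 0) (cs (lf (nat_lit 24) (nat_lit 120)) (rf (nat_lit 1)))))))))))))) (cs (nd (nat_lit 161) (nat_lit 0) (cs (lf (nat_lit 22) (nat_lit 161)) (nd (nat_lit 165) (nat_lit 0) (cs (lf (nat_lit 17) (nat_lit 162)) (nd (nat_lit 143) (nat_lit 0) (cs (lf (nat_lit 36) (nat_lit 120))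 (rf (nat_lit 2)))))))) (cs (nd (nat_lit 165) (nat_lit 0) (cs (lf (nat_lit 17) (nat_lit 162)) (nd (nat_lit 121) (nat_lit 0) (cs (lf (nat_lit 37) (nat_lit 120)) (nd (nat_lit 162) (nat_lit 0) (cs (lf (nat_lit 23) (nat_lit 161)) (nd (nat_lit 188) (nat_lit 0) (cs (lf (nat_lit 22) (nat_lit 162)) (nd (nat_lit 211) (nat_lit 0) (cs (lf (nat_lit 4) (nat_lit 185)) (nd (nat_lit 189) (nat_lit 0) (cs (lf (nat_lit 5) (nat_lit 186)) (nd (nat_lit 190) (nat_lit 0) (cs (rf (nat_lit 3)) (lf (nat_lit 23) (nat_lit 164)))))))))))))))) (nd (nat_lit 161) (nat_lit 0) (cs (lf (nat_lit 22) (nat_lit 161)) (rf (nat_lit 4))))))))) q63899 (by decide +kernel)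
def q63916 : Q := Q.p (nat_lit 0x800002600001000010000010000000000000000000000000000000000000000000000) (nat_lit 0x28000090000e0000e60000e80007a0000800002000000000000000000000000000000) (nat_lit 11)
theorem c63916 : QOK q63916 := cut [q56766, q62169, q6953, q18853] ⟨c56766, c62169, c6953, c18853, trivial⟩ (nd (nat_lit 186) (nat_lit 0) (cs (rf (nat_lit 0)) (cs (rf (nat_lit 1)) (cs (nd (nat_lit 206) (nat_lit 0) (cs (lf (nat_lit 41) (nat_lit 183)) (nd (nat_lit 251) (nat_lit 0) (cs (lf (nat_lit 29) (nat_lit 184)) (nd (nat_lit 161) (nat_lit 0) (cs (lf (nat_lit 46) (nat_lit 161)) (nd (nat_lit 185) (nat_lit 0) (cs (lf (nat_lit 35) (nat_lit 162)) (nd (nat_lit 187) (nat_lit 0) (cs (lf (nat_lit 11) (nat_lit 183)) (nd (nat_lit 165) (nat_lit 0) (cs (lf (nat_lit 17) (nat_lit 162)) (nd (nat_lit 143) (nat_lit 0) (cs (lf (nat_lit 36) (nat_lit 120)) (nd (nat_lit 230) (nat_lit 0) (cs (rf (nat_lit 2)) (lf (nat_lit 33) (nat_lit 142)))))))))))))))))) (nd (nat_lit 206) (nat_lit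 0) (cs (lf (nat_lit 41) (nat_lit 183)) (nd (nat_lit 251) (nat_lit 0) (cs (lf (nat_lit 29) (nat_lit 184)) (nd (nat_lit 161) (nat_lit 0) (cs (lf (nat_lit 46) (nat_lit 161)) (nd (nat_lit 185) (nat_lit 0) (cs (lf (nat_lit 35) (nat_lit 162)) (nd (nat_lit 187) (nat_lit 0) (cs (lf (nat_lit 11) (nat_lit 183)) (rf (nat_lit 3)))))))))))))))) q63916 (by decide +kernel)
def q63937 : Q := Q.p (nat_lit 0x1e0000000000000000000000000000000000000000000000000000000000000000000000000) (nat_lit 0xe7000018000070000000000000000000000000000000000000000000000000000000000000000000) (nat_lit 6)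
theorem c63937 : QOK q63937 := cut [q44141] ⟨c44141, trivial⟩ (nd (nat_lit 318) (nat_lit 0) (cs (lf (nat_lit 5) (nat_lit 293)) (rf (nat_lit 0)))) q63937 (by decide +kernel)
def q63977 : Q := Q.p (nat_lit 0x900000600001000000000000000000000000000000000000000000000000000000000) (nat_lit 0x800006000000000008000060000380000e0000200000000000000000000000000000000000) (nat_lit 7)
theorem c63977 : QOK q63977 := cut [q63975] ⟨c63975, trivial⟩ (nd (nat_lit 273) (nat_lit 0) (cs (lf (nat_lit 19) (nat_lit 249)) (nd (nat_lit 206) (nat_lit 0) (cs (lf (nat_lit 29) (nat_lit 206)) (rf (nat_lit 0)))))) q63977 (by decide +kernel)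
def q63990 : Q := Q.p (nat_lit 0x900000600001000000000000000000000000000000000000000000000000000000000) (nat_lit 0x180000600006800000000008000060000380000e0000200000000000000000000000000000000000) (nat_lit 8)
theorem c63990 : QOK q63990 := cut [q63986, q58784, q63975] ⟨c63986, c58784, c63975, trivial⟩ (nd (nat_lit 293) (nat_lit 0) (cs (rf (nat_lit 0)) (cs (nd (nat_lit 273) (nat_lit 0) (cs (lf (nat_lit 19) (nat_lit 249)) (rf (nat_lit 1)))) (nd (nat_lit 273) (nat_lit 0) (cs (lf (nat_lit 19) (nat_lit 249)) (nd (nat_lit 206) (nat_lit 0) (cs (lf (nat_lit 40) (nat_lit 205)) (rf (nat_lit 2))))))))) q63990 (by decide +kernel)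
def q64005 : Q := Q.p (nat_lit 0x10000040000700000000000000000000000000000000000000000000000000000000000000) (nat_lit 0x2000008000020000000000f0000380000a000000000000000000000000000000000000000000000) (nat_lit 5)
theorem c64005 : QOK q64005 := cut [q63332, q63540, q46745] ⟨c63332, c63540, c46745, trivial⟩ (nd (nat_lit 226) (nat_lit 0) (cs (rf (nat_lit 0)) (cs (rf (nat_lit 1)) (nd (nat_lit 291) (nat_lit 0) (cs (lf (nat_lit 41) (nat_lit 225)) (nd (nat_lit 204) (nat_lit 0) (cs (lf (nat_lit 40) (nat_lit 203)) (rf (nat_lit 2))))))))) q64005 (by decide +kernel)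
def q64040 : Q := Q.p (nat_lit 0x700000000000000000000000000000000000000000000000000000000000000) (nat_lit 0x400003f80008c0007800002000008000000000000000000000000000000000000000000000) (nat_lit 6)
theorem c64040 : QOK q64040 := cut [q57399, q63509, q64039] ⟨c57399, c63509, c64039, trivial⟩ (nd (nat_lit 247) (nat_lit 0) (cs (rf (nat_lit 0)) (cs (rf (nat_lit 1)) (rf (nat_lit 2))))) q64040 (by decide +kernel)
def q64162 : Q := Q.p (nat_lit 0x200000700000000000000000000000000000000000000000000000000000000000000) (nat_lit 0x11c0000e00039c0000000000000000000000000000000000000000000000000000000) (nat_lit 7)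
theorem c64162 : QOK q64162 := cut [q63596] ⟨c63596, trivial⟩ (nd (nat_lit 247) (nat_lit 0) (cs (lf (nat_lit 4) (nat_lit 247)) (rf (nat_lit 0)))) q64162 (by decide +kernel)
def q64236 : Q := Q.p (nat_lit 0x40000900000600000000000000000000000000000000000000000000000000000000000000) (nat_lit 0xe0000380000a0000680000800001000004000000000000000000000000000000000000000000000000000) (nat_lit 5)
theorem c64236 : QOK q64236 := cut [q64230, q64234, q18266] ⟨c64230, c64234, c18266, trivial⟩ (nd (nat_lit 315) (nat_lit 0) (cs (nd (nat_lit 273) (nat_lit 0) (cs (lf (nat_lit 19) (nat_lit 249)) (nd (nat_lit 316) (nat_lit 0) (cs (lf (nat_lit 41) (nat_lit 249)) (rf (nat_lit 0)))))) (cs (rf (nat_lit 1)) (nd (nat_lit 228) (nat_lit 0) (cs (lf (nat_lit 40) (nat_lit 227)) (rf (nat_lit 2))))))) q64236 (by decide +kernel)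
def q64314 : Q := Q.p (nat_lit 0x800000600001800010000000000000000000000000000000000000000000000000000) (nat_lit 0x10000040000380001ffc001fe0017b80009c000e30002380007c000070000000000000000000000000000000000000000) (nat_lit 14)
theorem c64314 : QOK q64314 := cut [q62715, q5153, q64260, q64268, q61925, q61983, q64270, q64271, q61785, q64263, q64282, q64284, q64285, q64292, q64294, q64296, q64301, q64302, q64310, q57466] ⟨c62715, c5153, c64260, c64268, c61925, c61983, c64270, c64271, c61785, c64263, c64282, c64284, c64285, c64292, c64294, c64296, c64301, c64302, c64310, c57466, trivial⟩ (nd (nat_lit 247) (nat_lit 0) (cs (rf (nat_lit 0)) (cs (nd (nat_lit 205) (nat_lit 0) (cs (rf (nat_lit 1)) (cs (nd (nat_lit 294) (nat_lit 0) (cs (lf (nat_lit 43) (nat_lit 205)) (nd (nat_lit 293) (nat_lit 0) (cs (rf (nat_lit 2)) (cs (rf (nat_lit 3)) (cs (nd (nat_lit 295) (nat_lit 0) (cs (rf (nat_lit 4)) (cs (nd (nat_lit 315) (nat_lit 0) (cs (lf (nat_lit 32) (nat_lit 227)) (rf (nat_lit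 5)))) (cs (rf (nat_lit 6)) (nd (nat_lit 271) (nat_lit 0) (cs (lf (nat_lit 30) (nat_lit 227)) (nd (nat_lit 182) (nat_lit 0) (cs (lf (nat_lit 46) (nat_lit 182)) (rf (nat_lit 7)))))))))) (nd (nat_lit 295) (nat_lit 0) (cs (rf (nat_lit 8)) (cs (rf (nat_lit 4)) (cs (rf (nat_lit 9)) (cs (rf (nat_lit 10)) (nd (nat_lit 314) (nat_lit 0) (cs (rf (nat_lit 11)) (cs (nd (nat_lit 318) (nat_lit 0) (cs (rf (nat_lit 12)) (cs (nd (nat_lit 340) (nat_lit 0) (cs (nd (nat_lit 296) (nat_lit 0) (cs (lf (nat_lit 10) (nat_lit 292)) (nd (nat_lit 273) (nat_lit 0) (cs (lf (nat_lit 42) (nat_lit 273)) (nd (nat_lit 229) (nat_lit 0) (cs (lf (nat_lit 25) (nat_lit 229)) (nd (nat_lit 230) (nat_lit 0) (cs (lf (nat_lit 6) (nat_lit 227)) (lf (nat_lit 23) (nat_lit 204)))))))))) (cs (rf (nat_lit 13)) (rf (nat_lit 14))))) (rf (nat_lit 15))))) (cs (rf (nat_lit 16)) (rf (nat_lit 17))))))))))))))))) (rf (nat_lit 18))))) (nd (nat_lit 248) (nat_lit 0) (cs (lf (nat_lit 12) (nat_lit 224)) (nd (nat_lit 224)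 (nat_lit 0) (cs (lf (nat_lit 22) (nat_lit 224)) (rf (nat_lit 19))))))))) q64314 (by decide +kernel)
def q64479 : Q := Q.p (nat_lit 0x840000700000000000000000000000000000000000000000000000000000000000000) (nat_lit 0xa0000b8000ff8001fe001780000800007c0000780001e000058000000000000000000000000000000000000000) (nat_lit 12)
theorem c64479 : QOK q64479 := cut [q57626, q58952, q63343, q57625, q58951, q62410, q63791, q48590, q61585, q62148, q62501, q57556, q64450, q22114, q57367, q61761, q64462, q64468, q14516] ⟨c57626, c58952, c63343, c57625, c58951, c62410, c63791, c48590, c61585, c62148, c62501, c57556, c64450, c22114, c57367, c61761, c64462, c64468, c14516, trivial⟩ (nd (nat_lit 292) (nat_lit 0) (cs (rf (nat_lit 0)) (cs (rf (nat_lit 1)) (cs (rf (nat_lit 2)) (nd (nat_lit 227) (nat_lit 0) (cs (rf (nat_lit 3)) (cs (rf (nat_lit 4)) (nd (nat_lit 273) (nat_lit 0) (cs (rf (nat_lit 5)) (cs (nd (nat_lit 272) (nat_lit 0) (cs (nd (nat_lit 294) (nat_lit 0) (cs (lf (nat_lit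 42) (nat_lit 227)) (rf (nat_lit 6)))) (cs (nd (nat_lit 294) (nat_lit 0) (cs (lf (nat_lit 42) (nat_lit 227)) (nd (nat_lit 293) (nat_lit 0) (cs (lf (nat_lit 12) (nat_lit 269)) (rf (nat_lit 7)))))) (cs (nd (nat_lit 271) (nat_lit 0) (cs (lf (nat_lit 11) (nat_lit 269)) (rf (nat_lit 8)))) (nd (nat_lit 228) (nat_lit 0) (cs (rf (nat_lit 9)) (cs (rf (nat_lit 10)) (cs (nd (nat_lit 229) (nat_lit 0) (cs (lf (nat_lit 6) (nat_lit 226)) (nd (nat_lit 294) (nat_lit 0) (cs (lf (nat_lit 42) (nat_lit 227)) (nd (nat_lit 293) (nat_lit 0) (cs (lf (nat_lit 41) (nat_lit 227)) (nd (nat_lit 206) (nat_lit 0) (cs (lf (nat_lit 40) (nat_lit 205)) (rf (nat_lit 11)))))))))) (nd (nat_lit 229) (nat_lit 0) (cs (lf (nat_lit 6) (nat_lit 226)) (nd (nat_lit 294) (nat_lit 0) (cs (lf (nat_lit 42) (nat_lit 227)) (nd (nat_lit 295) (nat_lit 0) (cs (lf (nat_lit 29) (nat_lit 228)) (nd (nat_lit 296) (nat_lit 0) (cs (lf (nat_lit 1) (nat_lit 270)) (nd (nat_lit 293) (nat_lit 0) (cs (lf (nat_lit 41) (nat_lit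 227)) (rf (nat_lit 12)))))))))))))))))))) (cs (nd (nat_lit 274) (nat_lit 0) (cs (rf (nat_lit 13)) (nd (nat_lit 293) (nat_lit 0) (cs (nd (nat_lit 226) (nat_lit 0) (cs (lf (nat_lit 29) (nat_lit 226)) (nd (nat_lit 291) (nat_lit 0) (cs (lf (nat_lit 41) (nat_lit 225)) (rf (nat_lit 14)))))) (cs (nd (nat_lit 294) (nat_lit 0) (cs (lf (nat_lit 15) (nat_lit 270)) (nd (nat_lit 291) (nat_lit 0) (cs (rf (nat_lit 15)) (cs (nd (nat_lit 316) (nat_lit 0) (cs (lf (nat_lit 5) (nat_lit 291)) (nd (nat_lit 315) (nat_lit 0) (cs (lf (nat_lit 0) (nat_lit 290)) (lf (nat_lit 24) (nat_lit 226)))))) (rf (nat_lit 16))))))) (cs (nd (nat_lit 294) (nat_lit 0) (cs (lf (nat_lit 15) (nat_lit 270)) (nd (nat_lit 316) (nat_lit 0) (cs (lf (nat_lit 26) (nat_lit 227)) (nd (nat_lit 291) (nat_lit 0) (cs (lf (nat_lit 5) (nat_lit 291)) (rf (nat_lit 16)))))))) (nd (nat_lit 294) (nat_lit 0) (cs (lf (nat_lit 15) (nat_lit 270)) (nd (nat_lit 271) (nat_lit 0) (cs (lf (nat_lit 29) (nat_lit 227)) (rf (nat_lit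 17)))))))))))) (nd (nat_lit 272) (nat_lit 0) (cs (lf (nat_lit 19) (nat_lit 249)) (nd (nat_lit 271) (nat_lit 0) (cs (lf (nat_lit 11) (nat_lit 269)) (nd (nat_lit 294) (nat_lit 0) (cs (lf (nat_lit 42) (nat_lit 227)) (nd (nat_lit 295) (nat_lit 0) (cs (lf (nat_lit 5) (nat_lit 270)) (rf (nat_lit 18))))))))))))))))))))) q64479 (by decide +kernel)
def q64540 : Q := Q.p (nat_lit 0x700000000000000000000000000000000000000000000000000000000000000) (nat_lit 0x400007700008c0007800002000008000000000000000000000000000000000000000000000) (nat_lit 6)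
theorem c64540 : QOK q64540 := cut [q63509, q63781, q64039] ⟨c63509, c63781, c64039, trivial⟩ (nd (nat_lit 247) (nat_lit 0) (cs (rf (nat_lit 0)) (cs (rf (nat_lit 1)) (rf (nat_lit 2))))) q64540 (by decide +kernel)
def q64593 : Q := Q.p (nat_lit 0x700000400000000000000000000000000000000000000000000000000000000) (nat_lit 0xa0000380000f8000800000380001800002000008000000000000000000000000000000000000000) (nat_lit 7)
theorem c64593 : QOK q64593 := cut [q57373, q63294, q64581, q27575] ⟨c57373, c63294, c64581, c27575, trivial⟩ (nd (nat_lit 270) (nat_lit 0) (cs (rf (nat_lit 0)) (cs (rf (nat_lit 1)) (nd (nat_lit 293) (nat_lit 0) (cs (rf (nat_lit 2)) (cs (nd (nat_lit 292) (nat_lit 0) (cs (lf (nat_lit 29) (nat_lit 226)) (nd (nat_lit 203) (nat_lit 0) (cs (lf (nat_lit 46) (nat_lit 203)) (nd (nat_lit 204) (nat_lit 0) (cs (lf (nat_lit 47) (nat_lit 181)) (rf (nat_lit 3)))))))) (cs (nd (nat_lit 204) (nat_lit 0) (cs (lf (nat_lit 28) (nat_lit 204)) (nd (nat_lit 291) (nat_lit 0)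 (cs (lf (nat_lit 40) (nat_lit 203)) (nd (nat_lit 203) (nat_lit 0) (cs (lf (nat_lit 47) (nat_lit 181)) (nd (nat_lit 292) (nat_lit 0) (cs (lf (nat_lit 46) (nat_lit 203)) (lf (nat_lit 41) (nat_lit 225)))))))))) (nd (nat_lit 315) (nat_lit 0) (cs (lf (nat_lit 27) (nat_lit 226)) (lf (nat_lit 44) (nat_lit 226))))))))))) q64593 (by decide +kernel)
def q64644 : Q := Q.p (nat_lit 0x700000400001000000000000000000000000000000000000000000000000000) (nat_lit 0x80000e0000380000f0000000000b80000800002000000000000000000000000000000000000000000000) (nat_lit 6)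
theorem c64644 : QOK q64644 := cut [q57615, q64024, q56689] ⟨c57615, c64024, c56689, trivial⟩ (nd (nat_lit 270) (nat_lit 0) (cs (rf (nat_lit 0)) (cs (rf (nat_lit 1)) (nd (nat_lit 181) (nat_lit 0) (cs (lf (nat_lit 46) (nat_lit 181)) (nd (nat_lit 271) (nat_lit 0) (cs (lf (nat_lit 29) (nat_lit 204)) (rf (nat_lit 2))))))))) q64644 (by decide +kernel)
def q64650 : Q := Q.p (nat_lit 0x60000080000600000000000000000000000000000000000000000000000000000000000000) (nat_lit 0x1000000000000000000000180000700001c000070000100000000000000000000000000000000000) (nat_lit 7)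
theorem c64650 : QOK q64650 := cut [q40962, q52305, q59258, q63924] ⟨c40962, c52305, c59258, c63924, trivial⟩ (nd (nat_lit 227) (nat_lit 0) (cs (lf (nat_lit 29) (nat_lit 227)) (nd (nat_lit 205) (nat_lit 0) (cs (rf (nat_lit 0)) (cs (rf (nat_lit 1)) (cs (rf (nat_lit 2)) (nd (nat_lit 228) (nat_lit 0) (cs (lf (nat_lit 35) (nat_lit 205)) (rf (nat_lit 3)))))))))) q64650 (by decide +kernel)
def q64671 : Q := Q.p (nat_lit 0x60000800000600000000000000000000000000000000000000000000000000000000000000) (nat_lit 0x100006f80019e0016fc000000001800006000010000000000000000000000000000000000000000000000) (nat_lit 10)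
theorem c64671 : QOK q64671 := cut [q58513, q59254, q61925, q62094, q47485] ⟨c58513, c59254, c61925, c62094, c47485, trivial⟩ (nd (nat_lit 271) (nat_lit 0) (cs (rf (nat_lit 0)) (cs (nd (nat_lit 295) (nat_lit 0) (cs (rf (nat_lit 1)) (cs (rf (nat_lit 2)) (nd (nat_lit 292) (nat_lit 0) (cs (rf (nat_lit 3)) (cs (nd (nat_lit 227) (nat_lit 0) (cs (lf (nat_lit 41) (nat_lit 226)) (nd (nat_lit 270) (nat_lit 0) (cs (lf (nat_lit 23) (nat_lit 269)) (lf (nat_lit 36) (nat_lit 204)))))) (nd (nat_lit 314) (nat_lit 0) (cs (lf (nat_lit 36) (nat_lit 226)) (lf (nat_lit 11) (nat_lit 291)))))))))) (nd (nat_lit 315) (nat_lit 0) (cs (rf (nat_lit 4)) (lf (nat_lit 35) (nat_lit 227))))))) q64671 (by decide +kernel)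
def q64697 : Q := Q.p (nat_lit 0x80000200000c00000000000000000000000000000000000000000000000000000000000000) (nat_lit 0x500001c000070000000000000000000001000000000000000000000000000000000000000000000000000000000) (nat_lit 5)
theorem c64697 : QOK q64697 := cut [q12808] ⟨c12808, trivial⟩ (nd (nat_lit 317) (nat_lit 0) (cs (lf (nat_lit 47) (nat_lit 228)) (rf (nat_lit 0)))) q64697 (by decide +kernel)
def q64758 : Q := Q.p (nat_lit 0x40000900002600000000010000000000000000000000000000000000000000000000000000) (nat_lit 0x2c0000b800066000098000f8000278000f8000180000000000000000000000000000000000000000) (nat_lit 14)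
theorem c64758 : QOK q64758 := cut [q14448, q64751] ⟨c14448, c64751, trivial⟩ (nd (nat_lit 273) (nat_lit 0) (cs (lf (nat_lit 19) (nat_lit 249)) (nd (nat_lit 248) (nat_lit 0) (cs (lf (nat_lit 0) (nat_lit 247)) (nd (nat_lit 228) (nat_lit 0) (cs (rf (nat_lit 0)) (cs (rf (nat_lit 1)) (nd (nat_lit 227) (nat_lit 0) (cs (lf (nat_lit 47) (nat_lit 205)) (nd (nat_lit 295) (nat_lit 0) (cs (lf (nat_lit 29) (nat_lit 228)) (nd (nat_lit 229) (nat_lit 0) (cs (lf (nat_lit 6) (nat_lit 226)) (nd (nat_lit 293) (nat_lit 0) (cs (lf (nat_lit 41) (nat_lit 227)) (nd (nat_lit 292) (nat_lit 0) (cs (lf (nat_lit 12) (nat_lit 269)) (nd (nat_lit 270) (nat_lit 0) (cs (lf (nat_lit 23) (nat_lit 269)) (lf (nat_lit 30) (nat_lit 226))))))))))))))))))))) q64758 (by decide +kernel)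
def q64760 : Q := Q.p (nat_lit 0x10000040000900000600000000000000000000000000000000000000000000000000000000000000) (nat_lit 0xa0000280000a0000600000180001000000000000000000000000000000000000000000000000000000000) (nat_lit 6)
theorem c64760 : QOK q64760 := cut [q64759] ⟨c64759, trivial⟩ (nd (nat_lit 273) (nat_lit 0) (cs (lf (nat_lit 19) (nat_lit 249)) (rf (nat_lit 0)))) q64760 (by decide +kernel)
def q64782 : Q := Q.p (nat_lit 0xf0000000000000000000000000000000000000000000000000000) (nat_lit 0xe60001000000e0000000000000000000000000000000000000000000000) (nat_lit 5)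
theorem c64782 : QOK q64782 := cut [q16425] ⟨c16425, trivial⟩ (nd (nat_lit 229) (nat_lit 0) (cs (lf (nat_lit 10) (nat_lit 207)) (rf (nat_lit 0)))) q64782 (by decide +kernel)
def q64856 : Q := Q.p (nat_lit 0x10000040000100000600000000000000000000000000000000000000000000000000000000000000) (nat_lit 0x700000e0001a0000080000800003000000000000000000000000000000000000000000000000000000000) (nat_lit 7)
theorem c64856 : QOK q64856 := cut [q64855] ⟨c64855, trivial⟩ (nd (nat_lit 229) (nat_lit 0) (cs (lf (nat_lit 34) (nat_lit 228)) (rf (nat_lit 0)))) q64856 (by decide +kernel)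
def q64908 : Q := Q.p (nat_lit 0x10000040000300000600000000000000000000000000000000000000000000000000000000000000) (nat_lit 0x180000e00000b0000000000980003000000000000000000000000000000000000000000000000000000000) (nat_lit 7)
theorem c64908 : QOK q64908 := cut [q18223] ⟨c18223, trivial⟩ (nd (nat_lit 247) (nat_lit 0) (cs (lf (nat_lit 1) (nat_lit 247)) (nd (nat_lit 251) (nat_lit 0) (cs (lf (nat_lit 35) (nat_lit 228)) (rf (nat_lit 0)))))) q64908 (by decide +kernel)
def q64927 : Q := Q.p (nat_lit 0x40000100000600001000000000000000000000000000000000000000000000000000000000) (nat_lit 0x2c0001bc0002f80009c000eb80002800002000000000000000000000000000000000000000000000) (nat_lit 9)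
theorem c64927 : QOK q64927 := cut [q26237, q62580, q59492, q63801, q47564] ⟨c26237, c62580, c59492, c63801, c47564, trivial⟩ (nd (nat_lit 248) (nat_lit 0) (cs (rf (nat_lit 0)) (cs (rf (nat_lit 1)) (nd (nat_lit 271) (nat_lit 0) (cs (nd (nat_lit 293) (nat_lit 0) (cs (lf (nat_lit 41) (nat_lit 227)) (rf (nat_lit 2)))) (cs (nd (nat_lit 227) (nat_lit 0) (cs (lf (nat_lit 47) (nat_lit 205)) (nd (nat_lit 229) (nat_lit 0) (cs (lf (nat_lit 6) (nat_lit 226)) (nd (nat_lit 295) (nat_lit 0) (cs (lf (nat_lit 29) (nat_lit 228)) (nd (nat_lit 270) (nat_lit 0) (cs (lf (nat_lit 0) (nat_lit 269)) (nd (nat_lit 273) (nat_lit 0) (cs (lf (nat_lit 5) (nat_lit 270)) (rf (nat_lit 3)))))))))))) (nd (nat_lit 227) (nat_lit 0) (cs (lf (nat_lit 47) (nat_lit 205)) (nd (nat_lit 229) (nat_lit 0) (cs (lf (nat_lit 6) (nat_lit 226)) (nd (nat_lit 293) (nat_lit 0) (cs (lf (nat_lit 30) (nat_lit 227)) (rf (nat_lit 4)))))))))))))) q64927 (by decide +kernel)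
def q64929 : Q := Q.p (nat_lit 0x40000100000600000000000000000000000000000000000000000000000000000000000000) (nat_lit 0xa0000380000f00003e0001a000008000098000f000004000010000000000000000000000000000000000000000000000) (nat_lit 9)
theorem c64929 : QOK q64929 := cut [q41472, q63456, q64851, q64855] ⟨c41472, c63456, c64851, c64855, trivial⟩ (nd (nat_lit 316) (nat_lit 0) (cs (rf (nat_lit 0)) (cs (rf (nat_lit 1)) (cs (rf (nat_lit 2)) (rf (nat_lit 3)))))) q64929 (by decide +kernel)
def q64931 : Q := Q.p (nat_lit 0x40000900000600000000000000000000000000000000000000000000000000000000000000) (nat_lit 0x280001a0000680000000001800006000008000000000000000000000000000000000000000000000) (nat_lit 5)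
theorem c64931 : QOK q64931 := cut [q15806, q52445, q62761] ⟨c15806, c52445, c62761, trivial⟩ (nd (nat_lit 228) (nat_lit 0) (cs (rf (nat_lit 0)) (cs (rf (nat_lit 1)) (rf (nat_lit 2))))) q64931 (by decide +kernel)
def q64945 : Q := Q.p (nat_lit 0x60000900000600000000000000000000000000000000000000000000000000000000000000) (nat_lit 0x80000000006800008000018000040000300000c0000200000000000000000000000000000000000) (nat_lit 7)
theorem c64945 : QOK q64945 := cut [q56459] ⟨c56459, trivial⟩ (nd (nat_lit 228) (nat_lit 0) (cs (lf (nat_lit 41) (nat_lit 227)) (nd (nat_lit 206) (nat_lit 0) (cs (lf (nat_lit 40) (nat_lit 205)) (nd (nat_lit 273) (nat_lit 0) (cs (lf (nat_lit 7) (nat_lit 271)) (rf (nat_lit 0)))))))) q64945 (by decide +kernel)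
def q65137 : Q := Q.p (nat_lit 0x900002600000000010000000000000000000000000000000000000000000000000000) (nat_lit 0x80000e00003c0001d80006f80009c000ff80027c000fa0001a0000000000000000000000000000000000000000) (nat_lit 12)
theorem c65137 : QOK q65137 := cut [q14434, q62406, q26200, q26237, q62580, q17589, q53037, q23102, q57373, q63801, q65120, q64748, q14127, q65134] ⟨c14434, c62406, c26200, c26237, c62580, c17589, c53037, c23102, c57373, c63801, c65120, c64748, c14127, c65134, trivial⟩ (nd (nat_lit 273) (nat_lit 0) (cs (lf (nat_lit 19) (nat_lit 249)) (nd (nat_lit 228) (nat_lit 0) (cs (rf (nat_lit 0)) (cs (rf (nat_lit 1)) (cs (nd (nat_lit 248) (nat_lit 0) (cs (rf (nat_lit 2)) (cs (rf (nat_lit 3)) (cs (rf (nat_lit 4)) (nd (nat_lit 294) (nat_lit 0) (cs (rf (nat_lit 5)) (cs (rf (nat_lit 6)) (nd (nat_lit 227) (nat_lit 0) (cs (rf (nat_lit 7)) (nd (nat_lit 270) (nat_lit 0) (cs (rf (nat_lit 8)) (cs (nd (nat_lit 229) (nat_lit 0) (cs (lf (nat_lit 6) (nat_lit 226)) (nd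 (nat_lit 295) (nat_lit 0) (cs (lf (nat_lit 29) (nat_lit 228)) (nd (nat_lit 271) (nat_lit 0) (cs (lf (nat_lit 5) (nat_lit 270)) (rf (nat_lit 9)))))))) (rf (nat_lit 10)))))))))))))) (nd (nat_lit 205) (nat_lit 0) (cs (rf (nat_lit 11)) (cs (nd (nat_lit 229) (nat_lit 0) (cs (nd (nat_lit 230) (nat_lit 0) (cs (lf (nat_lit 6) (nat_lit 227)) (nd (nat_lit 227) (nat_lit 0) (cs (lf (nat_lit 17) (nat_lit 205)) (lf (nat_lit 42) (nat_lit 205)))))) (cs (nd (nat_lit 230) (nat_lit 0) (cs (lf (nat_lit 6) (nat_lit 227)) (nd (nat_lit 248) (nat_lit 0) (cs (lf (nat_lit 15) (nat_lit 226)) (lf (nat_lit 0) (nat_lit 247)))))) (nd (nat_lit 247) (nat_lit 0) (cs (lf (nat_lit 13) (nat_lit 225)) (nd (nat_lit 294) (nat_lit 0) (cs (lf (nat_lit 46) (nat_lit 205)) (nd (nat_lit 316) (nat_lit 0) (cs (lf (nat_lit 34) (nat_lit 228)) (nd (nat_lit 317) (nat_lit 0) (cs (lf (nat_lit 29) (nat_lit 250)) (rf (nat_lit 12))))))))))))) (rf (nat_lit 13))))))))))) q65137 (by decide +kernel)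
def q65563 : Q := Q.p (nat_lit 0x1c0000700000000000000000000000000000000000000000000000000000000000000) (nat_lit 0x100000300000c0000300000800002000000000000000000000000000000000000000000000) (nat_lit 5)
theorem c65563 : QOK q65563 := cut [q65562] ⟨c65562, trivial⟩ (nd (nat_lit 247) (nat_lit 0) (cs (lf (nat_lit 0) (nat_lit 246)) (rf (nat_lit 0)))) q65563 (by decide +kernel)
def q65585 : Q := Q.p (nat_lit 0x40000180000600000000000000000000000000000000000000000000000000000000000000) (nat_lit 0xe00003e000180000000000000001000000000000000000000000000000000000000000000000000000000) (nat_lit 6)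
theorem c65585 : QOK q65585 := cut [q64935] ⟨c64935, trivial⟩ (nd (nat_lit 316) (nat_lit 0) (cs (lf (nat_lit 42) (nat_lit 249)) (nd (nat_lit 315) (nat_lit 0) (cs (lf (nat_lit 41) (nat_lit 249)) (rf (nat_lit 0)))))) q65585 (by decide +kernel)
def q65616 : Q := Q.p (nat_lit 0x180000700000000000000000000000000000000000000000000000000000000000000) (nat_lit 0xf80003e0000dc0000780000c0003780005800012000000000000000000000000000000000000000000000) (nat_lit 12)
theorem c65616 : QOK q65616 := cut [q44584, q57398, q46599, q65557, q65562, q65610] ⟨c44584, c57398, c46599, c65557, c65562, c65610, trivial⟩ (nd (nat_lit 247) (nat_lit 0) (cs (rf (nat_lit 0)) (cs (rf (nat_lit 1)) (nd (nat_lit 270) (nat_lit 0) (cs (rf (nat_lit 2)) (cs (rf (nat_lit 3)) (cs (rf (nat_lit 4)) (nd (nat_lit 228) (nat_lit 0) (cs (lf (nat_lit 17) (nat_lit 225)) (nd (nat_lit 184) (nat_lit 0) (cs (lf (nat_lit 37) (nat_lit 183)) (nd (nat_lit 224) (nat_lit 0) (cs (lf (nat_lit 22) (nat_lit 224)) (nd (nat_lit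 269) (nat_lit 0) (cs (lf (nat_lit 12) (nat_lit 246)) (rf (nat_lit 5))))))))))))))))) q65616 (by decide +kernel)
def q65764 : Q := Q.p (nat_lit 0x20000980000600000000000000000000000000000000000000000000000000000000000000) (nat_lit 0x700001c000000000600000180000400000000000000000000000000000000000000000000000000000000) (nat_lit 6)
theorem c65764 : QOK q65764 := cut [q60774] ⟨c60774, trivial⟩ (nd (nat_lit 315) (nat_lit 0) (cs (lf (nat_lit 30) (nat_lit 249)) (rf (nat_lit 0)))) q65764 (by decide +kernel)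
def q65767 : Q := Q.p (nat_lit 0x20000080000600001800010000000000000000000000000000000000000000000000000000) (nat_lit 0x1c000e700021c00000000000000000000000000000000000000000000000000) (nat_lit 7)
theorem c65767 : QOK q65767 := cut [q62672] ⟨c62672, trivial⟩ (nd (nat_lit 226) (nat_lit 0) (cs (lf (nat_lit 47) (nat_lit 204)) (rf (nat_lit 0)))) q65767 (by decide +kernel)
def q65830 : Q := Q.p (nat_lit 0x20000080000600000800000000000000000000000000000000000000000000000000000000) (nat_lit 0x178000dc0007780001c0000700001c00000000000000000000000000000000000000000000000000) (nat_lit 12)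
theorem c65830 : QOK q65830 := cut [q56962, q56969, q46584] ⟨c56962, c56969, c46584, trivial⟩ (nd (nat_lit 292) (nat_lit 0) (cs (lf (nat_lit 41) (nat_lit 226)) (nd (nat_lit 291) (nat_lit 0) (cs (rf (nat_lit 0)) (cs (rf (nat_lit 1)) (nd (nat_lit 204) (nat_lit 0) (cs (lf (nat_lit 46) (nat_lit 204)) (nd (nat_lit 294) (nat_lit 0) (cs (lf (nat_lit 29) (nat_lit 227)) (nd (nat_lit 312) (nat_lit 0) (cs (lf (nat_lit 10) (nat_lit 290)) (nd (nat_lit 272) (nat_lit 0) (cs (lf (nat_lit 17) (nat_lit 269)) (rf (nat_lit 2))))))))))))))) q65830 (by decide +kernel)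
def q65987 : Q := Q.p (nat_lit 0x4000000000000001e0000000000000000000000000000000000000000000000) (nat_lit 0x140000300001c000c7000018000cf0000000000000000000000000000000000000000) (nat_lit 10)
theorem c65987 : QOK q65987 := cut [q4891, q57738, q65981] ⟨c4891, c57738, c65981, trivial⟩ (nd (nat_lit 184) (nat_lit 0) (cs (rf (nat_lit 0)) (cs (rf (nat_lit 1)) (nd (nat_lit 210) (nat_lit 0) (cs (lf (nat_lit 5) (nat_lit 185)) (nd (nat_lit 205) (nat_lit 0) (cs (lf (nat_lit 10) (nat_lit 183)) (nd (nat_lit 183) (nat_lit 0) (cs (lf (nat_lit 11) (nat_lit 182)) (nd (nat_lit 161) (nat_lit 0) (cs (lf (nat_lit 23) (nat_lit 160)) (nd (nat_lit 166) (nat_lit 0) (cs (lf (nat_lit 17) (nat_lit 163)) (rf (nat_lit 2))))))))))))))) q65987 (by decide +kernel)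
def q66025 : Q := Q.p (nat_lit 0x300000c0000200000800000000000000000000000000000000000) (nat_lit 0x5c0007780005800000000000000000000000000000) (nat_lit 6)
theorem c66025 : QOK q66025 := cut [q7777, q8293, q8373] ⟨c7777, c8293, c8373, trivial⟩ (nd (nat_lit 164) (nat_lit 0) (cs (rf (nat_lit 0)) (cs (rf (nat_lit 1)) (nd (nat_lit 142) (nat_lit 0) (cs (lf (nat_lit 47) (nat_lit 120)) (rf (nat_lit 2))))))) q66025 (by decide +kernel)
def q66062 : Q := Q.p (nat_lit 0x300000e0000000000c00000000000000000000000000000000000) (nat_lit 0xc00001000001f80033c0001f00000000000000000000000000000) (nat_lit 9)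
theorem c66062 : QOK q66062 := cut [q5713, q57964, q57967, q58100] ⟨c5713, c57964, c57967, c58100, trivial⟩ (nd (nat_lit 164) (nat_lit 0) (cs (lf (nat_lit 24) (nat_lit 120)) (nd (nat_lit 211) (nat_lit 0) (cs (lf (nat_lit 19) (nat_lit 185)) (nd (nat_lit 141) (nat_lit 0) (cs (lf (nat_lit 47) (nat_lit 119)) (nd (nat_lit 140) (nat_lit 0) (cs (rf (nat_lit 0)) (cs (rf (nat_lit 1)) (cs (rf (nat_lit 2)) (rf (nat_lit 3)))))))))))) q66062 (by decide +kernel)
def q66212 : Q := Q.p (nat_lit 0x4000000000000001e0000000000000000000000000000000000000000000000) (nat_lit 0x140000300001c000e7000018000030000000000000000000000000000000000000000) (nat_lit 9)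
theorem c66212 : QOK q66212 := cut [q65990] ⟨c65990, trivial⟩ (nd (nat_lit 210) (nat_lit 0) (cs (lf (nat_lit 5) (nat_lit 185)) (nd (nat_lit 184) (nat_lit 0) (cs (lf (nat_lit 4) (nat_lit 184)) (nd (nat_lit 205) (nat_lit 0) (cs (lf (nat_lit 10) (nat_lit 183)) (nd (nat_lit 183) (nat_lit 0) (cs (lf (nat_lit 11) (nat_lit 182)) (rf (nat_lit 0)))))))))) q66212 (by decide +kernel)
def q66265 : Q := Q.p (nat_lit 0x8000020000000000100000e0000000000800000000000000000000000000000000000) (nat_lit 0x9000024000fe0001f00007ce000f7e007ff0003e0000a0000000000000000000) (nat_lit 13)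
theorem c66265 : QOK q66265 := cut [q19161, q19172, q19504, q9009, q19315, q19320, q19282, q19518, q19523, q19537, q19544, q19526, q19545, q19317, q19519, q19609, q19573, q19581, q19583, q19597, q19599, q19517, q66264] ⟨c19161, c19172, c19504, c9009, c19315, c19320, c19282, c19518, c19523, c19537, c19544, c19526, c19545, c19317, c19519, c19609, c19573, c19581, c19583, c19597, c19599, c19517, c66264, trivial⟩ (nd (nat_lit 188) (nat_lit 0) (cs (rf (nat_lit 0)) (cs (rf (nat_lit 1)) (cs (nd (nat_lit 166) (nat_lit 0) (cs (rf (nat_lit 2)) (nd (nat_lit 144) (nat_lit 0) (cs (rf (nat_lit 3)) (cs (nd (nat_lit 230) (nat_lit 0) (cs (lf (nat_lit 27) (nat_lit 186)) (rf (nat_lit 4)))) (nd (nat_lit 162) (nat_lit 0) (cs (lf (nat_lit 22) (nat_lit 162)) (nd (nat_lit 230) (nat_lit 0) (cs (lf (nat_lit 27) (nat_lit 186)) (rf (nat_lit 5))))))))))) (cs (nd (nat_lit 210) (nat_lit 0) (cs (lf (nat_lit 5) (nat_lit 185)) (nd (nat_lit 230) (nat_lit 0) (cs (lf (nat_lit 27) (nat_lit 186))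 (nd (nat_lit 162) (nat_lit 0) (cs (lf (nat_lit 22) (nat_lit 162)) (nd (nat_lit 166) (nat_lit 0) (cs (lf (nat_lit 17) (nat_lit 163)) (rf (nat_lit 6)))))))))) (cs (nd (nat_lit 144) (nat_lit 0) (cs (rf (nat_lit 7)) (cs (rf (nat_lit 8)) (cs (nd (nat_lit 122) (nat_lit 0) (cs (rf (nat_lit 9)) (cs (rf (nat_lit 10)) (cs (nd (nat_lit 166) (nat_lit 0) (cs (lf (nat_lit 41) (nat_lit 121)) (nd (nat_lit 189) (nat_lit 0) (cs (lf (nat_lit 29) (nat_lit 122)) (nd (nat_lit 162) (nat_lit 0) (cs (lf (nat_lit 22) (nat_lit 162)) (nd (nat_lit 230) (nat_lit 0) (cs (lf (nat_lit 27) (nat_lit 186)) (rf (nat_lit 11)))))))))) (nd (nat_lit 230) (nat_lit 0) (cs (lf (nat_lit 27) (nat_lit 186)) (rf (nat_lit 12)))))))) (cs (nd (nat_lit 211) (nat_lit 0) (cs (lf (nat_lit 4) (nat_lit 185)) (nd (nat_lit 189) (nat_lit 0) (cs (lf (nat_lit 5) (nat_lit 186)) (nd (nat_lit 122) (nat_lit 0) (cs (nd (nat_lit 230) (nat_lit 0) (cs (lf (nat_lit 27) (nat_lit 186)) (nd (nat_lit 190) (nat_lit 0) (cs (lf (nat_lit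 10) (nat_lit 186)) (nd (nat_lit 168) (nat_lit 0) (cs (lf (nat_lit 17) (nat_lit 165)) (nd (nat_lit 233) (nat_lit 0) (cs (lf (nat_lit 30) (nat_lit 167)) (nd (nat_lit 124) (nat_lit 0) (cs (lf (nat_lit 37) (nat_lit 123)) (nd (nat_lit 123) (nat_lit 0) (cs (lf (nat_lit 6) (nat_lit 121)) (rf (nat_lit 13)))))))))))))) (lf (nat_lit 26) (nat_lit 122)))))))) (cs (nd (nat_lit 119) (nat_lit 0) (cs (rf (nat_lit 14)) (cs (rf (nat_lit 15)) (nd (nat_lit 120) (nat_lit 0) (cs (rf (nat_lit 16)) (cs (nd (nat_lit 125) (nat_lit 0) (cs (rf (nat_lit 17)) (nd (nat_lit 145) (nat_lit 0) (cs (lf (nat_lit 21) (nat_lit 119)) (nd (nat_lit 162) (nat_lit 0) (cs (lf (nat_lit 22) (nat_lit 162)) (rf (nat_lit 18)))))))) (cs (nd (nat_lit 162) (nat_lit 0) (cs (lf (nat_lit 22) (nat_lit 162)) (rf (nat_lit 19)))) (nd (nat_lit 162) (nat_lit 0) (cs (lf (nat_lit 22) (nat_lit 162)) (nd (nat_lit 210) (nat_lit 0) (cs (lf (nat_lit 5) (nat_lit 185)) (nd (nat_lit 230) (nat_lit 0) (cs (lf (nat_lit 27) (nat_lit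 186)) (rf (nat_lit 20))))))))))))))) (cs (nd (nat_lit 230) (nat_lit 0) (cs (lf (nat_lit 27) (nat_lit 186)) (nd (nat_lit 163) (nat_lit 0) (cs (lf (nat_lit 23) (nat_lit 162)) (nd (nat_lit 141) (nat_lit 0) (cs (lf (nat_lit 24) (nat_lit 119)) (nd (nat_lit 210) (nat_lit 0) (cs (lf (nat_lit 5) (nat_lit 185)) (nd (nat_lit 166) (nat_lit 0) (cs (lf (nat_lit 47) (nat_lit 121)) (nd (nat_lit 122) (nat_lit 0) (cs (lf (nat_lit 41) (nat_lit 121)) (nd (nat_lit 123) (nat_lit 0) (cs (lf (nat_lit 35) (nat_lit 100)) (lf (nat_lit 13) (nat_lit 119)))))))))))))))) (nd (nat_lit 230) (nat_lit 0) (cs (lf (nat_lit 27) (nat_lit 186)) (nd (nat_lit 162) (nat_lit 0) (cs (lf (nat_lit 22) (nat_lit 162)) (rf (nat_lit 21))))))))))))) (rf (nat_lit 22)))))))) q66265 (by decide +kernel)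
def q66356 : Q := Q.p (nat_lit 0x8000020000000000100000e0000000000800000000000000000000000000000000000) (nat_lit 0x10000040001c0000300001ec000f7c003fe0003fc00068000180000000000000) (nat_lit 13)
theorem c66356 : QOK q66356 := cut [q19275, q66281, q66321, q66280, q66329, q66331, q19252, q32856, q19216, q4969] ⟨c19275, c66281, c66321, c66280, c66329, c66331, c19252, c32856, c19216, c4969, trivial⟩ (nd (nat_lit 121) (nat_lit 0) (cs (lf (nat_lit 38) (nat_lit 120)) (nd (nat_lit 119) (nat_lit 0) (cs (nd (nat_lit 163) (nat_lit 0) (cs (lf (nat_lit 25) (nat_lit 119)) (nd (nat_lit 188) (nat_lit 0) (cs (lf (nat_lit 23) (nat_lit 162)) (nd (nat_lit 166) (nat_lit 0) (cs (lf (nat_lit 17) (nat_lit 163)) (rf (nat_lit 0)))))))) (cs (nd (nat_lit 120) (nat_lit 0) (cs (rf (nat_lit 1)) (cs (rf (nat_lit 2)) (cs (nd (nat_lit 118) (nat_lit 0) (cs (rf (nat_lit 3)) (cs (nd (nat_lit 230) (nat_lit 0) (cs (lf (nat_lit 27) (nat_lit 186)) (nd (nat_lit 99) (nat_lit 0) (cs (lf (nat_lit 17) (nat_lit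 96)) (nd (nat_lit 140) (nat_lit 0) (cs (lf (nat_lit 11) (nat_lit 117)) (nd (nat_lit 96) (nat_lit 0) (cs (lf (nat_lit 23) (nat_lit 95)) (nd (nat_lit 97) (nat_lit 0) (cs (lf (nat_lit 18) (nat_lit 96)) (nd (nat_lit 162) (nat_lit 0) (cs (lf (nat_lit 35) (nat_lit 74)) (lf (nat_lit 28) (nat_lit 96)))))))))))))) (rf (nat_lit 4))))) (nd (nat_lit 230) (nat_lit 0) (cs (lf (nat_lit 27) (nat_lit 186)) (rf (nat_lit 5)))))))) (cs (nd (nat_lit 120) (nat_lit 0) (cs (rf (nat_lit 5)) (cs (nd (nat_lit 230) (nat_lit 0) (cs (lf (nat_lit 27) (nat_lit 186)) (nd (nat_lit 141) (nat_lit 0) (cs (lf (nat_lit 26) (nat_lit 119)) (nd (nat_lit 122) (nat_lit 0) (cs (lf (nat_lit 11) (nat_lit 118)) (nd (nat_lit 100) (nat_lit 0) (cs (lf (nat_lit 17) (nat_lit 97)) (nd (nat_lit 56) (nat_lit 0) (cs (lf (nat_lit 37) (nat_lit 55)) (nd (nat_lit 123) (nat_lit 0) (cs (rf (nat_lit 6)) (lf (nat_lit 10) (nat_lit 119)))))))))))))) (nd (nat_lit 141) (nat_lit 0) (cs (lf (nat_lit 26) (nat_lit 119)) (nd (nat_lit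 118) (nat_lit 0) (cs (lf (nat_lit 5) (nat_lit 118)) (nd (nat_lit 117) (nat_lit 0) (cs (lf (nat_lit 4) (nat_lit 117)) (rf (nat_lit 7))))))))))) (cs (nd (nat_lit 120) (nat_lit 0) (cs (rf (nat_lit 1)) (cs (rf (nat_lit 2)) (cs (rf (nat_lit 5)) (nd (nat_lit 118) (nat_lit 0) (cs (rf (nat_lit 3)) (cs (rf (nat_lit 4)) (nd (nat_lit 230) (nat_lit 0) (cs (lf (nat_lit 27) (nat_lit 186)) (nd (nat_lit 99) (nat_lit 0) (cs (lf (nat_lit 17) (nat_lit 96)) (nd (nat_lit 140) (nat_lit 0) (cs (lf (nat_lit 11) (nat_lit 117)) (nd (nat_lit 122) (nat_lit 0) (cs (rf (nat_lit 8)) (lf (nat_lit 10) (nat_lit 118))))))))))))))))) (nd (nat_lit 230) (nat_lit 0) (cs (lf (nat_lit 27) (nat_lit 186)) (nd (nat_lit 163) (nat_lit 0) (cs (lf (nat_lit 25) (nat_lit 119)) (nd (nat_lit 188) (nat_lit 0) (cs (lf (nat_lit 23) (nat_lit 162)) (nd (nat_lit 211) (nat_lit 0) (cs (lf (nat_lit 4) (nat_lit 185)) (nd (nat_lit 189) (nat_lit 0) (cs (lf (nat_lit 5) (nat_lit 186)) (rf (nat_lit 9))))))))))))))))))) q66356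 (by decide +kernel)
def q66386 : Q := Q.p (nat_lit 0x8000020000000000100000c0000100000000000000000000000000000000000000000) (nat_lit 0x100000400002000000000028000060000380000c000020000000000000000000) (nat_lit 7)
theorem c66386 : QOK q66386 := cut [q19738] ⟨c19738, trivial⟩ (nd (nat_lit 230) (nat_lit 0) (cs (lf (nat_lit 27) (nat_lit 186)) (rf (nat_lit 0)))) q66386 (by decide +kernel)
def q66433 : Q := Q.p (nat_lit 0x100000c0000100000000000000000000000000000000000000000) (nat_lit 0x200001000006f8001fc0003f8000a000000000000000000000000) (nat_lit 9)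
theorem c66433 : QOK q66433 := cut [q8949, q66382, q18362, q18378, q57767] ⟨c8949, c66382, c18362, c18378, c57767, trivial⟩ (nd (nat_lit 142) (nat_lit 0) (cs (rf (nat_lit 0)) (cs (rf (nat_lit 1)) (nd (nat_lit 141) (nat_lit 0) (cs (lf (nat_lit 47) (nat_lit 119)) (nd (nat_lit 140) (nat_lit 0) (cs (rf (nat_lit 2)) (cs (rf (nat_lit 3)) (cs (rf (nat_lit 4)) (nd (nat_lit 143) (nat_lit 0) (cs (lf (nat_lit 35) (nat_lit 120)) (nd (nat_lit 165) (nat_lit 0) (cs (lf (nat_lit 5) (nat_lit 140)) (nd (nat_lit 117) (nat_lit 0) (cs (lf (nat_lit 22) (nat_lit 117)) (nd (nat_lit 162) (nat_lit 0) (cs (lf (nat_lit 11) (nat_lit 139)) (nd (nat_lit 163) (nat_lit 0) (cs (lf (nat_lit 5) (nat_lit 162)) (lf (nat_lit 6) (nat_lit 140))))))))))))))))))))) q66433 (by decide +kernel)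
def q66437 : Q := Q.p (nat_lit 0xc0000380000000000000000000000000000000000000000) (nat_lit 0x38001c60007180000000000000000000000000000000000) (nat_lit 7)
theorem c66437 : QOK q66437 := cut [q21242] ⟨c21242, trivial⟩ (nd (nat_lit 162) (nat_lit 0) (cs (lf (nat_lit 0) (nat_lit 161)) (nd (nat_lit 139) (nat_lit 0) (cs (lf (nat_lit 22) (nat_lit 139)) (nd (nat_lit 184) (nat_lit 0) (cs (lf (nat_lit 11) (nat_lit 161)) (rf (nat_lit 0)))))))) q66437 (by decide +kernel)
def q66526 : Q := Q.p (nat_lit 0x8000020000000000100001c0000000000000000000000000000000000000000000000) (nat_lit 0x90000660003e0000e20007700001000000000000000000000000000000000000) (nat_lit 8)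
theorem c66526 : QOK q66526 := cut [q8001, q19788, q66522, q66525] ⟨c8001, c19788, c66522, c66525, trivial⟩ (nd (nat_lit 211) (nat_lit 0) (cs (rf (nat_lit 0)) (cs (nd (nat_lit 230) (nat_lit 0) (cs (lf (nat_lit 27) (nat_lit 186)) (rf (nat_lit 1)))) (cs (rf (nat_lit 2)) (rf (nat_lit 3)))))) q66526 (by decide +kernel)
def q66541 : Q := Q.p (nat_lit 0x8000020000000000100001c0000000000000000000000000000000000000000000000) (nat_lit 0x1000014000060000620003f0001f80000a000020000000000000000000000000) (nat_lit 10)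
theorem c66541 : QOK q66541 := cut [q7194, q9295, q66534, q66540] ⟨c7194, c9295, c66534, c66540, trivial⟩ (nd (nat_lit 165) (nat_lit 0) (cs (rf (nat_lit 0)) (cs (rf (nat_lit 1)) (cs (rf (nat_lit 2)) (rf (nat_lit 3)))))) q66541 (by decide +kernel)
def q66577 : Q := Q.p (nat_lit 0x100001c0000000000000000000000000000000000000000000000) (nat_lit 0x200003a0000620003c00001000004000000000000000000000000000000) (nat_lit 6)
theorem c66577 : QOK q66577 := cut [q4705, q8028, q19779] ⟨c4705, c8028, c19779, trivial⟩ (nd (nat_lit 189) (nat_lit 0) (cs (rf (nat_lit 0)) (cs (rf (nat_lit 1)) (rf (nat_lit 2))))) q66577 (by decide +kernel)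
def q66648 : Q := Q.p (nat_lit 0x8000020000000000100000c0000100000000000000000000000000000000000000000) (nat_lit 0x10000150001e4000738001ae0002d8000bf0000f80003a000000000000000000) (nat_lit 13)
theorem c66648 : QOK q66648 := cut [q66602, q66515, q9201, q8879, q32783, q39862] ⟨c66602, c66515, c9201, c8879, c32783, c39862, trivial⟩ (nd (nat_lit 162) (nat_lit 0) (cs (rf (nat_lit 0)) (cs (nd (nat_lit 230) (nat_lit 0) (cs (lf (nat_lit 27) (nat_lit 186)) (nd (nat_lit 165) (nat_lit 0) (cs (lf (nat_lit 35) (nat_lit 142)) (nd (nat_lit 188) (nat_lit 0) (cs (lf (nat_lit 1) (nat_lit 162)) (nd (nat_lit 189) (nat_lit 0) (cs (lf (nat_lit 18) (nat_lit 164)) (rf (nat_lit 1)))))))))) (cs (nd (nat_lit 184) (nat_lit 0) (cs (nd (nat_lit 185) (nat_lit 0) (cs (lf (nat_lit 23) (nat_lit 161)) (rf (nat_lit 2)))) (cs (nd (nat_lit 230) (nat_lit 0) (cs (lf (nat_lit 27) (nat_lit 186)) (nd (nat_lit 143) (nat_lit 0) (cs (lf (nat_lit 34) (nat_lit 142)) (nd (nat_lit 142) (nat_lit 0) (cs (lf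 (nat_lit 35) (nat_lit 120)) (nd (nat_lit 209) (nat_lit 0) (cs (lf (nat_lit 24) (nat_lit 120)) (nd (nat_lit 185) (nat_lit 0) (cs (lf (nat_lit 5) (nat_lit 184)) (lf (nat_lit 23) (nat_lit 161)))))))))))) (cs (nd (nat_lit 230) (nat_lit 0) (cs (lf (nat_lit 27) (nat_lit 186)) (nd (nat_lit 143) (nat_lit 0) (cs (lf (nat_lit 34) (nat_lit 142)) (nd (nat_lit 142) (nat_lit 0) (cs (lf (nat_lit 35) (nat_lit 120)) (nd (nat_lit 209) (nat_lit 0) (cs (lf (nat_lit 24) (nat_lit 120)) (rf (nat_lit 3)))))))))) (cs (nd (nat_lit 117) (nat_lit 0) (cs (nd (nat_lit 230) (nat_lit 0) (cs (lf (nat_lit 27) (nat_lit 186)) (nd (nat_lit 143) (nat_lit 0) (cs (lf (nat_lit 34) (nat_lit 142)) (nd (nat_lit 142) (nat_lit 0) (cs (lf (nat_lit 35) (nat_lit 120)) (nd (nat_lit 120) (nat_lit 0) (cs (lf (nat_lit 29) (nat_lit 120)) (nd (nat_lit 119) (nat_lit 0) (cs (lf (nat_lit 47) (nat_lit 97)) (lf (nat_lit 1) (nat_lit 117)))))))))))) (cs (nd (nat_lit 95) (nat_lit 0) (cs (nd (nat_lit 139) (nat_lit 0) (cs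 (lf (nat_lit 27) (nat_lit 95)) (nd (nat_lit 140) (nat_lit 0) (cs (lf (nat_lit 42) (nat_lit 117)) (lf (nat_lit 24) (nat_lit 73)))))) (nd (nat_lit 230) (nat_lit 0) (cs (lf (nat_lit 27) (nat_lit 186)) (nd (nat_lit 143) (nat_lit 0) (cs (lf (nat_lit 34) (nat_lit 142)) (nd (nat_lit 142) (nat_lit 0) (cs (lf (nat_lit 35) (nat_lit 120)) (nd (nat_lit 120) (nat_lit 0) (cs (lf (nat_lit 29) (nat_lit 120)) (nd (nat_lit 97) (nat_lit 0) (cs (lf (nat_lit 46) (nat_lit 97)) (nd (nat_lit 98) (nat_lit 0) (cs (lf (nat_lit 47) (nat_lit 75)) (nd (nat_lit 77) (nat_lit 0) (cs (lf (nat_lit 34) (nat_lit 76)) (nd (nat_lit 96) (nat_lit 0) (cs (lf (nat_lit 11) (nat_lit 94)) (lf (nat_lit 16) (nat_lit 73)))))))))))))))))))) (nd (nat_lit 139) (nat_lit 0) (cs (nd (nat_lit 206) (nat_lit 0) (cs (lf (nat_lit 45) (nat_lit 117)) (nd (nat_lit 161) (nat_lit 0) (cs (lf (nat_lit 42) (nat_lit 139)) (lf (nat_lit 27) (nat_lit 117)))))) (cs (nd (nat_lit 140) (nat_lit 0) (cs (lf (nat_lit 42) (nat_lit 117))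 (rf (nat_lit 4)))) (cs (nd (nat_lit 161) (nat_lit 0) (cs (lf (nat_lit 24) (nat_lit 95)) (rf (nat_lit 5)))) (nd (nat_lit 95) (nat_lit 0) (cs (lf (nat_lit 27) (nat_lit 95)) (nd (nat_lit 140) (nat_lit 0) (cs (lf (nat_lit 45) (nat_lit 95)) (lf (nat_lit 24) (nat_lit 73))))))))))))) (nd (nat_lit 230) (nat_lit 0) (cs (lf (nat_lit 27) (nat_lit 186)) (nd (nat_lit 165) (nat_lit 0) (cs (lf (nat_lit 35) (nat_lit 142)) (nd (nat_lit 185) (nat_lit 0) (cs (lf (nat_lit 23) (nat_lit 161)) (lf (nat_lit 12) (nat_lit 161))))))))))))) (nd (nat_lit 230) (nat_lit 0) (cs (lf (nat_lit 27) (nat_lit 186)) (nd (nat_lit 165) (nat_lit 0) (cs (lf (nat_lit 35) (nat_lit 142)) (nd (nat_lit 163) (nat_lit 0) (cs (lf (nat_lit 5) (nat_lit 162)) (lf (nat_lit 0) (nat_lit 161)))))))))))) q66648 (by decide +kernel)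
def q66731 : Q := Q.p (nat_lit 0x800002600001000010000040000000000000000000000000000000000000000000000) (nat_lit 0x800000000088000e40000b80000e0000280000000000000000000000000000000000) (nat_lit 6)
theorem c66731 : QOK q66731 := cut [q56766, q63917, q66729] ⟨c56766, c63917, c66729, trivial⟩ (nd (nat_lit 184) (nat_lit 0) (cs (rf (nat_lit 0)) (cs (rf (nat_lit 1)) (nd (nat_lit 209) (nat_lit 0) (cs (lf (nat_lit 44) (nat_lit 186)) (rf (nat_lit 2))))))) q66731 (by decide +kernel)
def q66773 : Q := Q.p (nat_lit 0x20000080000200000800030000040000000000000000000000000000000000000000000000) (nat_lit 0x100000400000000000000014000c70000b8000000000000000000000000000000000000000000000) (nat_lit 7)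
theorem c66773 : QOK q66773 := cut [q66770] ⟨c66770, trivial⟩ (nd (nat_lit 206) (nat_lit 0) (cs (lf (nat_lit 34) (nat_lit 205)) (nd (nat_lit 184) (nat_lit 0) (cs (lf (nat_lit 33) (nat_lit 183)) (nd (nat_lit 204) (nat_lit 0) (cs (lf (nat_lit 46) (nat_lit 204)) (rf (nat_lit 0)))))))) q66773 (by decide +kernel)
def q66776 : Q := Q.p (nat_lit 0x8000020000880002600000000010000040000000000000000000000000000000000000000000000) (nat_lit 0x2000000000000000700001180004400000000000000000000000000000000000000000000000000000000) (nat_lit 5)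
theorem c66776 : QOK q66776 := cut [q66775] ⟨c66775, trivial⟩ (nd (nat_lit 230) (nat_lit 0) (cs (lf (nat_lit 27) (nat_lit 186)) (rf (nat_lit 0)))) q66776 (by decide +kernel)
def q66782 : Q := Q.p (nat_lit 0xb0000040000000000000000000000000000000000000000000000) (nat_lit 0x60000140000ea0000000000000000000000000000000000000000000000) (nat_lit 5)
theorem c66782 : QOK q66782 := cut [q66781] ⟨c66781, trivial⟩ (nd (nat_lit 210) (nat_lit 0) (cs (lf (nat_lit 23) (nat_lit 185)) (rf (nat_lit 0)))) q66782 (by decide +kernel)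
def q66816 : Q := Q.p (nat_lit 0xe0000800002200000000010000040000000000000000000000000000000000000000000000) (nat_lit 0x200007f000018000670001100004c00000000000000000000000000000000000000000000000000000000) (nat_lit 9)
theorem c66816 : QOK q66816 := cut [q58556, q66799, q66809, q66815] ⟨c58556, c66799, c66809, c66815, trivial⟩ (nd (nat_lit 292) (nat_lit 0) (cs (rf (nat_lit 0)) (cs (rf (nat_lit 1)) (cs (nd (nat_lit 314) (nat_lit 0) (cs (lf (nat_lit 11) (nat_lit 291)) (nd (nat_lit 230) (nat_lit 0) (cs (lf (nat_lit 27) (nat_lit 186)) (nd (nat_lit 317) (nat_lit 0) (cs (lf (nat_lit 5) (nat_lit 292)) (nd (nat_lit 273) (nat_lit 0) (cs (lf (nat_lit 17) (nat_lit 270)) (rf (nat_lit 2)))))))))) (rf (nat_lit 3)))))) q66816 (by decide +kernel)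
def q66848 : Q := Q.p (nat_lit 0x60000100000700000000000000000000000000000000000000000000000000000000000000) (nat_lit 0xe0000180000780000c0001f8000700000c000020000080000000000000000000000000000000000) (nat_lit 8)
theorem c66848 : QOK q66848 := cut [q45262, q44566, q66846] ⟨c45262, c44566, c66846, trivial⟩ (nd (nat_lit 247) (nat_lit 0) (cs (rf (nat_lit 0)) (cs (nd (nat_lit 228) (nat_lit 0) (cs (lf (nat_lit 41) (nat_lit 227)) (nd (nat_lit 227) (nat_lit 0) (cs (lf (nat_lit 47) (nat_lit 205)) (lf (nat_lit 12) (nat_lit 224)))))) (nd (nat_lit 226) (nat_lit 0) (cs (nd (nat_lit 228) (nat_lit 0) (cs (lf (nat_lit 41) (nat_lit 227)) (nd (nat_lit 205) (nat_lit 0) (cs (lf (nat_lit 46) (nat_lit 205)) (nd (nat_lit 183) (nat_lit 0) (cs (lf (nat_lit 45) (nat_lit 183)) (nd (nat_lit 204) (nat_lit 0) (cs (lf (nat_lit 30) (nat_lit 182)) (rf (nat_lit 1)))))))))) (cs (nd (nat_lit 225) (nat_lit 0) (cs (lf (nat_lit 23) (nat_lit 224)) (nd (nat_lit 269) (nat_lit 0) (cs (lf (nat_lit 11)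 (nat_lit 246)) (nd (nat_lit 315) (nat_lit 0) (cs (lf (nat_lit 36) (nat_lit 227)) (nd (nat_lit 292) (nat_lit 0) (cs (lf (nat_lit 26) (nat_lit 226)) (nd (nat_lit 291) (nat_lit 0) (cs (lf (nat_lit 29) (nat_lit 225)) (lf (nat_lit 30) (nat_lit 225)))))))))))) (rf (nat_lit 2)))))))) q66848 (by decide +kernel)
def q66882 : Q := Q.p (nat_lit 0xe0000800002000000000010000040000000000000000000000000000000000000000000000) (nat_lit 0xee000110000400001000004000000000000000000000000000000000000000000000000000000000) (nat_lit 6)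
theorem c66882 : QOK q66882 := cut [q61785] ⟨c61785, trivial⟩ (nd (nat_lit 230) (nat_lit 0) (cs (lf (nat_lit 27) (nat_lit 186)) (rf (nat_lit 0)))) q66882 (by decide +kernel)
def q66888 : Q := Q.p (nat_lit 0x10000060000000000600000000000000000000000000000000000000000000000000000000000000) (nat_lit 0x80000e0000098000100000000000800000000000000000000000000000000000000000000000000000000) (nat_lit 5)
theorem c66888 : QOK q66888 := cut [q60472] ⟨c60472, trivial⟩ (nd (nat_lit 272) (nat_lit 0) (cs (lf (nat_lit 47) (nat_lit 227)) (rf (nat_lit 0)))) q66888 (by decide +kernel)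
def q66987 : Q := Q.p (nat_lit 0x20000800002600000800010000040000000000000000000000000000000000000000000000) (nat_lit 0x778001dc0017780011c000d78002380003c000070000100000000000000000000000000000000000) (nat_lit 12)
theorem c66987 : QOK q66987 := cut [q66939, q66780, q63933, q66946, q66956, q66952, q66955, q63836, q40908, q66799, q58556, q61764, q66941, q45748, q66972, q66981, q23761, q41027, q56871, q66986] ⟨c66939, c66780, c63933, c66946, c66956, c66952, c66955, c63836, c40908, c66799, c58556, c61764, c66941, c45748, c66972, c66981, c23761, c41027, c56871, c66986, trivial⟩ (nd (nat_lit 205) (nat_lit 0) (cs (nd (nat_lit 294) (nat_lit 0) (cs (rf (nat_lit 0)) (cs (nd (nat_lit 292) (nat_lit 0) (cs (nd (nat_lit 295) (nat_lit 0) (cs (rf (nat_lit 1)) (nd (nat_lit 230) (nat_lit 0) (cs (lf (nat_lit 27) (nat_lit 186)) (rf (nat_lit 2)))))) (cs (nd (nat_lit 248) (nat_lit 0) (cs (rf (nat_lit 3)) (cs (rf (nat_lit 4)) (cs (nd (nat_lit 247) (nat_lit 0) (cs (rf (nat_lit 5))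 (cs (rf (nat_lit 6)) (nd (nat_lit 225) (nat_lit 0) (cs (lf (nat_lit 23) (nat_lit 224)) (nd (nat_lit 230) (nat_lit 0) (cs (lf (nat_lit 27) (nat_lit 186)) (nd (nat_lit 269) (nat_lit 0) (cs (lf (nat_lit 11) (nat_lit 246)) (nd (nat_lit 209) (nat_lit 0) (cs (lf (nat_lit 44) (nat_lit 186)) (rf (nat_lit 7))))))))))))) (nd (nat_lit 247) (nat_lit 0) (cs (rf (nat_lit 5)) (cs (rf (nat_lit 6)) (nd (nat_lit 230) (nat_lit 0) (cs (lf (nat_lit 27) (nat_lit 186)) (nd (nat_lit 225) (nat_lit 0) (cs (lf (nat_lit 23) (nat_lit 224)) (nd (nat_lit 226) (nat_lit 0) (cs (rf (nat_lit 8)) (lf (nat_lit 31) (nat_lit 204))))))))))))))) (cs (nd (nat_lit 295) (nat_lit 0) (cs (rf (nat_lit 1)) (rf (nat_lit 9)))) (cs (nd (nat_lit 295) (nat_lit 0) (cs (rf (nat_lit 10)) (rf (nat_lit 1)))) (nd (nat_lit 291) (nat_lit 0) (cs (rf (nat_lit 11)) (cs (rf (nat_lit 12)) (nd (nat_lit 269) (nat_lit 0) (cs (lf (nat_lit 23) (nat_lit 268)) (nd (nat_lit 270) (nat_lit 0) (cs (lf (nat_lit 18) (nat_lit 269)) (rf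 (nat_lit 13)))))))))))))) (cs (nd (nat_lit 252) (nat_lit 0) (cs (lf (nat_lit 26) (nat_lit 186)) (nd (nat_lit 231) (nat_lit 0) (cs (lf (nat_lit 45) (nat_lit 186)) (nd (nat_lit 272) (nat_lit 0) (cs (lf (nat_lit 45) (nat_lit 205)) (rf (nat_lit 14)))))))) (nd (nat_lit 252) (nat_lit 0) (cs (lf (nat_lit 26) (nat_lit 186)) (nd (nat_lit 231) (nat_lit 0) (cs (lf (nat_lit 45) (nat_lit 186)) (nd (nat_lit 272) (nat_lit 0) (cs (lf (nat_lit 42) (nat_lit 227)) (rf (nat_lit 14)))))))))))) (cs (rf (nat_lit 15)) (cs (nd (nat_lit 183) (nat_lit 0) (cs (rf (nat_lit 16)) (cs (rf (nat_lit 17)) (nd (nat_lit 230) (nat_lit 0) (cs (lf (nat_lit 27) (nat_lit 186)) (nd (nat_lit 248) (nat_lit 0) (cs (lf (nat_lit 41) (nat_lit 182)) (nd (nat_lit 160) (nat_lit 0) (cs (lf (nat_lit 46) (nat_lit 160)) (rf (nat_lit 18))))))))))) (rf (nat_lit 19)))))) q66987 (by decide +kernel)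
def q66988 : Q := Q.p (nat_lit 0x60000800000600000800000000000000000000000000000000000000000000000000000000) (nat_lit 0x2000008000077000198000770000000001000000000000000000000000000000000000000000000000000000000) (nat_lit 10)
theorem c66988 : QOK q66988 := cut [q60881] ⟨c60881, trivial⟩ (nd (nat_lit 272) (nat_lit 0) (cs (lf (nat_lit 42) (nat_lit 227)) (rf (nat_lit 0)))) q66988 (by decide +kernel)
def q66999 : Q := Q.p (nat_lit 0x60000800000600000800000000000000000000000000000000000000000000000000000000) (nat_lit 0x1780019c0006f0000080001700005000000000000000000000000000000000000000000000000000) (nat_lit 10)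
theorem c66999 : QOK q66999 := cut [q66998] ⟨c66998, trivial⟩ (nd (nat_lit 271) (nat_lit 0) (cs (lf (nat_lit 29) (nat_lit 227)) (rf (nat_lit 0)))) q66999 (by decide +kernel)
def q67005 : Q := Q.p (nat_lit 0x60000800002600000800010000040000000000000000000000000000000000000000000000) (nat_lit 0x20000080000e70001980017f0001000005000000000000000000000000000000000000000000000000000000000) (nat_lit 7)
theorem c67005 : QOK q67005 := cut [q61787, q66881, q67004] ⟨c61787, c66881, c67004, trivial⟩ (nd (nat_lit 295) (nat_lit 0) (cs (rf (nat_lit 0)) (cs (rf (nat_lit 1)) (rf (nat_lit 2))))) q67005 (by decide +kernel)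
def q67008 : Q := Q.p (nat_lit 0x20000880002200000800010000050000000000000000000000000000000000000000000000) (nat_lit 0x84000e10000a8000000000000000000000000000000000000000000000) (nat_lit 5)
theorem c67008 : QOK q67008 := cut [q56766] ⟨c56766, trivial⟩ (nd (nat_lit 204) (nat_lit 0) (cs (lf (nat_lit 46) (nat_lit 204)) (rf (nat_lit 0)))) q67008 (by decide +kernel)
def q67050 : Q := Q.p (nat_lit 0x20000800002600000800010000040000000000000000000000000000000000000000000000) (nat_lit 0x1c000110000d40002700003c000060000000000000000000000000000000000000000) (nat_lit 6)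
theorem c67050 : QOK q67050 := cut [q66938, q66986, q67049] ⟨c66938, c66986, c67049, trivial⟩ (nd (nat_lit 205) (nat_lit 0) (cs (rf (nat_lit 0)) (cs (rf (nat_lit 1)) (rf (nat_lit 2))))) q67050 (by decide +kernel)
def q67068 : Q := Q.p (nat_lit 0x20000880002600000800010000040000000000000000000000000000000000000000000000) (nat_lit 0x570001dc0007300011c000d700025000000000000000000000000000000000000000000000000000) (nat_lit 11)
theorem c67068 : QOK q67068 := cut [q66873, q66879, q67060] ⟨c66873, c66879, c67060, trivial⟩ (nd (nat_lit 294) (nat_lit 0) (cs (lf (nat_lit 29) (nat_lit 227)) (nd (nat_lit 274) (nat_lit 0) (cs (rf (nat_lit 0)) (cs (rf (nat_lit 1)) (nd (nat_lit 272) (nat_lit 0) (cs (lf (nat_lit 20) (nat_lit 249)) (nd (nat_lit 209) (nat_lit 0) (cs (lf (nat_lit 44) (nat_lit 186)) (nd (nat_lit 226) (nat_lit 0) (cs (lf (nat_lit 47) (nat_lit 204)) (nd (nat_lit 247) (nat_lit 0) (cs (nd (nat_lit 230) (nat_lit 0) (cs (lf (nat_lit 27) (nat_lit 186)) (nd (nat_lit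 225) (nat_lit 0) (cs (lf (nat_lit 0) (nat_lit 224)) (nd (nat_lit 228) (nat_lit 0) (cs (lf (nat_lit 36) (nat_lit 205)) (lf (nat_lit 11) (nat_lit 224)))))))) (nd (nat_lit 292) (nat_lit 0) (cs (lf (nat_lit 41) (nat_lit 226)) (nd (nat_lit 291) (nat_lit 0) (cs (lf (nat_lit 12) (nat_lit 268)) (rf (nat_lit 2))))))))))))))))))) q67068 (by decide +kernel)
def q67069 : Q := Q.p (nat_lit 0x20000880002200000800010000040000000000000000000000000000000000000000000000) (nat_lit 0x10000040000100000000008400023000004000000000000000000000000000000000000000000000) (nat_lit 5)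
theorem c67069 : QOK q67069 := cut [q64507] ⟨c64507, trivial⟩ (nd (nat_lit 209) (nat_lit 0) (cs (lf (nat_lit 44) (nat_lit 186)) (rf (nat_lit 0)))) q67069 (by decide +kernel)
def q67072 : Q := Q.p (nat_lit 0x38000880002200000800010000040000000000000000000000000000000000000000000000) (nat_lit 0x13800044000038001000004000000000000000000000000000000000000000000000000000000000) (nat_lit 6)
theorem c67072 : QOK q67072 := cut [q56969] ⟨c56969, trivial⟩ (nd (nat_lit 230) (nat_lit 0) (cs (lf (nat_lit 27) (nat_lit 186)) (rf (nat_lit 0)))) q67072 (by decide +kernel)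
def q67110 : Q := Q.p (nat_lit 0x20000880002200000000010000040000000000000000000000000000000000000000000000) (nat_lit 0x40000700001c000050000040000100008c00021000000000000000000000000000000000000000000000000000) (nat_lit 6)
theorem c67110 : QOK q67110 := cut [q59775, q67103, q67109] ⟨c59775, c67103, c67109, trivial⟩ (nd (nat_lit 315) (nat_lit 0) (cs (rf (nat_lit 0)) (cs (rf (nat_lit 1)) (rf (nat_lit 2))))) q67110 (by decide +kernel)
def q67128 : Q := Q.p (nat_lit 0x60000900002600000000000000000000000000000000000000000000000000000000000000) (nat_lit 0x10000040000180000600001000008000020000000000000000000000000000000000000000000000000000) (nat_lit 5)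
theorem c67128 : QOK q67128 := cut [q58856] ⟨c58856, trivial⟩ (nd (nat_lit 274) (nat_lit 0) (cs (lf (nat_lit 20) (nat_lit 249)) (rf (nat_lit 0)))) q67128 (by decide +kernel)
def q67146 : Q := Q.p (nat_lit 0x8000020000880000600000000000000000000000000000000000000000000000000000000000000) (nat_lit 0x6000010000040000700000000000c0000300000c000000000000000000000000000000000000000000000) (nat_lit 7)
theorem c67146 : QOK q67146 := cut [q67144] ⟨c67144, trivial⟩ (nd (nat_lit 272) (nat_lit 0) (cs (lf (nat_lit 30) (nat_lit 249)) (nd (nat_lit 273) (nat_lit 0) (cs (lf (nat_lit 19) (nat_lit 249)) (rf (nat_lit 0)))))) q67146 (by decide +kernel)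
def q67245 : Q := Q.p (nat_lit 0x20000980002200000800010000040000000000000000000000000000000000000000000000) (nat_lit 0x1400005c000200001000004400001000000000000000000000000000000000000000000000000000) (nat_lit 6)
theorem c67245 : QOK q67245 := cut [q47565] ⟨c47565, trivial⟩ (nd (nat_lit 294) (nat_lit 0) (cs (lf (nat_lit 29) (nat_lit 227)) (nd (nat_lit 230) (nat_lit 0) (cs (lf (nat_lit 27) (nat_lit 186)) (rf (nat_lit 0)))))) q67245 (by decide +kernel)
def q67259 : Q := Q.p (nat_lit 0x60000980002400000000010000040000000000000000000000000000000000000000000000) (nat_lit 0x20000180000060001000005000004000000000000000000000000000000000000000000000000000) (nat_lit 5)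
theorem c67259 : QOK q67259 := cut [q59554] ⟨c59554, trivial⟩ (nd (nat_lit 230) (nat_lit 0) (cs (lf (nat_lit 27) (nat_lit 186)) (rf (nat_lit 0)))) q67259 (by decide +kernel)
def q67272 : Q := Q.p (nat_lit 0x60000980002600000000010000040000000000000000000000000000000000000000000000) (nat_lit 0xc0000f0000098000000001000004000000000000000000000000000000000000000000000000000000000) (nat_lit 6)
theorem c67272 : QOK q67272 := cut [q47470] ⟨c47470, trivial⟩ (nd (nat_lit 230) (nat_lit 0) (cs (lf (nat_lit 27) (nat_lit 186)) (rf (nat_lit 0)))) q67272 (by decide +kernel)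
def q67281 : Q := Q.p (nat_lit 0x38000880000200000800000000000000000000000000000000000000000000000000000000) (nat_lit 0xf30001c0000770000000000000000000000000000000000000000000000000000000000000000000) (nat_lit 8)
theorem c67281 : QOK q67281 := cut [q62120] ⟨c62120, trivial⟩ (nd (nat_lit 294) (nat_lit 0) (cs (lf (nat_lit 29) (nat_lit 227)) (nd (nat_lit 312) (nat_lit 0) (cs (lf (nat_lit 10) (nat_lit 290)) (nd (nat_lit 272) (nat_lit 0) (cs (lf (nat_lit 17) (nat_lit 269)) (rf (nat_lit 0)))))))) q67281 (by decide +kernel)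
def q67289 : Q := Q.p (nat_lit 0x20000880002600000000010000040000000000000000000000000000000000000000000000) (nat_lit 0x40000300000c000010000700001180004c00001000000000000000000000000000000000000000000000000000) (nat_lit 6)
theorem c67289 : QOK q67289 := cut [q66775, q66777, q67194] ⟨c66775, c66777, c67194, trivial⟩ (nd (nat_lit 315) (nat_lit 0) (cs (rf (nat_lit 0)) (cs (rf (nat_lit 1)) (rf (nat_lit 2))))) q67289 (by decide +kernel)
def q67295 : Q := Q.p (nat_lit 0x20000880002600000000010000040000000000000000000000000000000000000000000000) (nat_lit 0x500001c0000700001c000050000140001000004800002000008000000000000000000000000000000000000000000000) (nat_lit 8)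
theorem c67295 : QOK q67295 := cut [q56985, q59775, q67194, q67294] ⟨c56985, c59775, c67194, c67294, trivial⟩ (nd (nat_lit 315) (nat_lit 0) (cs (rf (nat_lit 0)) (cs (rf (nat_lit 1)) (cs (rf (nat_lit 2)) (rf (nat_lit 3)))))) q67295 (by decide +kernel)
def q67296 : Q := Q.p (nat_lit 0x20000880000600000000000000000000000000000000000000000000000000000000000000) (nat_lit 0x700001c000050000700000180000c00000000000000000000000000000000000000000000000000000000) (nat_lit 5)
theorem c67296 : QOK q67296 := cut [q59775, q66775] ⟨c59775, c66775, trivial⟩ (nd (nat_lit 315) (nat_lit 0) (cs (rf (nat_lit 0)) (rf (nat_lit 1)))) q67296 (by decide +kernel)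
def q67338 : Q := Q.p (nat_lit 0xe0000800002000008000010000040000000000000000000000000000000000000000000000) (nat_lit 0x100003d000076000390000740001c0000400000000000000000000000000000000000000000000000) (nat_lit 9)
theorem c67338 : QOK q67338 := cut [q13005, q14255] ⟨c13005, c14255, trivial⟩ (nd (nat_lit 274) (nat_lit 0) (cs (lf (nat_lit 15) (nat_lit 271)) (nd (nat_lit 276) (nat_lit 0) (cs (lf (nat_lit 9) (nat_lit 272)) (nd (nat_lit 277) (nat_lit 0) (cs (rf (nat_lit 0)) (cs (nd (nat_lit 252) (nat_lit 0) (cs (lf (nat_lit 18) (nat_lit 252)) (lf (nat_lit 26) (nat_lit 186)))) (nd (nat_lit 255) (nat_lit 0) (cs (lf (nat_lit 17) (nat_lit 252)) (nd (nat_lit 233) (nat_lit 0) (cs (rf (nat_lit 1)) (cs (nd (nat_lit 230) (nat_lit 0) (cs (lf (nat_lit 27) (nat_lit 186)) (nd (nat_lit 211) (nat_lit 0) (cs (lf (nat_lit 41) (nat_lit 210)) (nd (nat_lit 212) (nat_lit 0) (cs (lf (nat_lit 35) (nat_lit 189)) (lf (nat_lit 14) (nat_lit 208)))))))) (nd (nat_lit 252) (nat_lit 0) (cs (lf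 (nat_lit 26) (nat_lit 186)) (nd (nat_lit 299) (nat_lit 0) (cs (lf (nat_lit 5) (nat_lit 274)) (nd (nat_lit 232) (nat_lit 0) (cs (lf (nat_lit 6) (nat_lit 230)) (lf (nat_lit 47) (nat_lit 210)))))))))))))))))))) q67338 (by decide +kernel)
def q67374 : Q := Q.p (nat_lit 0x800002600000800032000040000000000000000000000000000000000000000000000) (nat_lit 0x1000007000000000038000060000000000000000000000000000000000000000) (nat_lit 5)
theorem c67374 : QOK q67374 := cut [q67373] ⟨c67373, trivial⟩ (nd (nat_lit 230) (nat_lit 0) (cs (lf (nat_lit 27) (nat_lit 186)) (rf (nat_lit 0)))) q67374 (by decide +kernel)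
def q67384 : Q := Q.p (nat_lit 0x20000880002600000800010000040000000000000000000000000000000000000000000000) (nat_lit 0x10000040000000001000007400003c0003c000060000000000000000000000000000000000000000) (nat_lit 9)
theorem c67384 : QOK q67384 := cut [q67383] ⟨c67383, trivial⟩ (nd (nat_lit 204) (nat_lit 0) (cs (lf (nat_lit 46) (nat_lit 204)) (rf (nat_lit 0)))) q67384 (by decide +kernel)
def q67458 : Q := Q.p (nat_lit 0x10000800002600000800031000040000000000000000000000000000000000000000000000) (nat_lit 0xc0000700011c0007700002c0003f00007c000050000000000000000000000000000000000) (nat_lit 9)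
theorem c67458 : QOK q67458 := cut [q67397, q67405, q56824, q67412, q67420, q67421, q45689, q67430, q56870, q67445, q67452, q40983] ⟨c67397, c67405, c56824, c67412, c67420, c67421, c45689, c67430, c56870, c67445, c67452, c40983, trivial⟩ (nd (nat_lit 183) (nat_lit 0) (cs (nd (nat_lit 230) (nat_lit 0) (cs (lf (nat_lit 27) (nat_lit 186)) (nd (nat_lit 184) (nat_lit 0) (cs (lf (nat_lit 2) (nat_lit 183)) (nd (nat_lit 205) (nat_lit 0) (cs (lf (nat_lit 35) (nat_lit 161)) (rf (nat_lit 0)))))))) (cs (nd (nat_lit 225) (nat_lit 0) (cs (nd (nat_lit 184) (nat_lit 0) (cs (lf (nat_lit 2) (nat_lit 183)) (nd (nat_lit 226) (nat_lit 0) (cs (lf (nat_lit 0) (nat_lit 224)) (rf (nat_lit 1)))))) (cs (nd (nat_lit 247) (nat_lit 0) (cs (nd (nat_lit 184) (nat_lit 0) (cs (lf (nat_lit 2) (nat_lit 183)) (nd (nat_lit 230) (nat_lit 0) (cs (lf (nat_lit 27) (nat_lit 186)) (nd (nat_lit 228) (nat_lit 0) (cs (lf (nat_lit 14) (nat_lit 205)) (rf (nat_lit 2)))))))) (cs (nd (nat_lit 230) (nat_lit 0)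 (cs (lf (nat_lit 27) (nat_lit 186)) (nd (nat_lit 228) (nat_lit 0) (cs (lf (nat_lit 14) (nat_lit 205)) (nd (nat_lit 248) (nat_lit 0) (cs (lf (nat_lit 12) (nat_lit 224)) (rf (nat_lit 3)))))))) (cs (nd (nat_lit 184) (nat_lit 0) (cs (lf (nat_lit 2) (nat_lit 183)) (nd (nat_lit 230) (nat_lit 0) (cs (lf (nat_lit 27) (nat_lit 186)) (nd (nat_lit 248) (nat_lit 0) (cs (lf (nat_lit 23) (nat_lit 224)) (rf (nat_lit 3)))))))) (nd (nat_lit 203) (nat_lit 0) (cs (nd (nat_lit 269) (nat_lit 0) (cs (lf (nat_lit 35) (nat_lit 181)) (lf (nat_lit 28) (nat_lit 203)))) (cs (nd (nat_lit 181) (nat_lit 0) (cs (rf (nat_lit 4)) (rf (nat_lit 5)))) (nd (nat_lit 269) (nat_lit 0) (cs (lf (nat_lit 28) (nat_lit 203)) (rf (nat_lit 6))))))))))) (cs (nd (nat_lit 226) (nat_lit 0) (cs (nd (nat_lit 184) (nat_lit 0) (cs (lf (nat_lit 2) (nat_lit 183)) (rf (nat_lit 1)))) (cs (rf (nat_lit 7)) (nd (nat_lit 184) (nat_lit 0) (cs (lf (nat_lit 2) (nat_lit 183)) (nd (nat_lit 182) (nat_lit 0) (cs (lf (nat_lit 24)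 (nat_lit 160)) (nd (nat_lit 248) (nat_lit 0) (cs (lf (nat_lit 35) (nat_lit 160)) (nd (nat_lit 247) (nat_lit 0) (cs (lf (nat_lit 41) (nat_lit 181)) (nd (nat_lit 228) (nat_lit 0) (cs (lf (nat_lit 17) (nat_lit 225)) (lf (nat_lit 11) (nat_lit 224))))))))))))))) (cs (nd (nat_lit 226) (nat_lit 0) (cs (lf (nat_lit 0) (nat_lit 224)) (nd (nat_lit 230) (nat_lit 0) (cs (lf (nat_lit 27) (nat_lit 186)) (nd (nat_lit 182) (nat_lit 0) (cs (lf (nat_lit 24) (nat_lit 160)) (nd (nat_lit 228) (nat_lit 0) (cs (lf (nat_lit 14) (nat_lit 205)) (nd (nat_lit 248) (nat_lit 0) (cs (lf (nat_lit 35) (nat_lit 160)) (nd (nat_lit 247) (nat_lit 0) (cs (lf (nat_lit 11) (nat_lit 224)) (lf (nat_lit 41) (nat_lit 181)))))))))))))) (nd (nat_lit 226) (nat_lit 0) (cs (lf (nat_lit 0) (nat_lit 224)) (rf (nat_lit 7))))))))) (cs (nd (nat_lit 205) (nat_lit 0) (cs (rf (nat_lit 8)) (nd (nat_lit 248) (nat_lit 0) (cs (lf (nat_lit 41) (nat_lit 182)) (nd (nat_lit 182) (nat_lit 0) (cs (lf (nat_lit 47) (nat_lit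 160)) (nd (nat_lit 230) (nat_lit 0) (cs (lf (nat_lit 27) (nat_lit 186)) (nd (nat_lit 228) (nat_lit 0) (cs (lf (nat_lit 19) (nat_lit 204)) (rf (nat_lit 9)))))))))))) (cs (nd (nat_lit 230) (nat_lit 0) (cs (lf (nat_lit 27) (nat_lit 186)) (nd (nat_lit 228) (nat_lit 0) (cs (lf (nat_lit 14) (nat_lit 205)) (nd (nat_lit 205) (nat_lit 0) (cs (lf (nat_lit 24) (nat_lit 161)) (rf (nat_lit 10)))))))) (nd (nat_lit 184) (nat_lit 0) (cs (lf (nat_lit 2) (nat_lit 183)) (nd (nat_lit 205) (nat_lit 0) (cs (lf (nat_lit 35) (nat_lit 161)) (rf (nat_lit 11))))))))))) q67458 (by decide +kernel)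
def q67503 : Q := Q.p (nat_lit 0x20000880002600000800010000040000000000000000000000000000000000000000000000) (nat_lit 0x4000010000140000000008000022000038000040000000000000000000000000000000000000000) (nat_lit 6)
theorem c67503 : QOK q67503 := cut [q67502] ⟨c67502, trivial⟩ (nd (nat_lit 209) (nat_lit 0) (cs (lf (nat_lit 44) (nat_lit 186)) (rf (nat_lit 0)))) q67503 (by decide +kernel)
def q67524 : Q := Q.p (nat_lit 0x20000880002600000000010000040000000000000000000000000000000000000000000000) (nat_lit 0x100000700001c000000000100000000009000020000000000000000000000000000000000000000000000000000) (nat_lit 6)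
theorem c67524 : QOK q67524 := cut [q56931] ⟨c56931, trivial⟩ (nd (nat_lit 209) (nat_lit 0) (cs (lf (nat_lit 44) (nat_lit 186)) (rf (nat_lit 0)))) q67524 (by decide +kernel)
def q67617 : Q := Q.p (nat_lit 0x8000020000000000b0000040000000000000000000000000000000000000000000000) (nat_lit 0x10000e6000140000680000000000000000000000000000000000000000000000) (nat_lit 6)
theorem c67617 : QOK q67617 := cut [q67615] ⟨c67615, trivial⟩ (nd (nat_lit 230) (nat_lit 0) (cs (lf (nat_lit 27) (nat_lit 186)) (nd (nat_lit 210) (nat_lit 0) (cs (lf (nat_lit 11) (nat_lit 207)) (rf (nat_lit 0)))))) q67617 (by decide +kernel)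
def q67650 : Q := Q.p (nat_lit 0x800002600000800012000040000000000000000000000000000000000000000000000) (nat_lit 0x1400007c0001f00011c0004780005e00016000000000000000000000000000000000000000000000) (nat_lit 12)
theorem c67650 : QOK q67650 := cut [q65838, q67635, q67641, q67648] ⟨c65838, c67635, c67641, c67648, trivial⟩ (nd (nat_lit 271) (nat_lit 0) (cs (rf (nat_lit 0)) (cs (nd (nat_lit 270) (nat_lit 0) (cs (lf (nat_lit 41) (nat_lit 204)) (nd (nat_lit 269) (nat_lit 0) (cs (lf (nat_lit 12) (nat_lit 246)) (nd (nat_lit 204) (nat_lit 0) (cs (lf (nat_lit 47) (nat_lit 182)) (nd (nat_lit 230) (nat_lit 0) (cs (lf (nat_lit 27) (nat_lit 186)) (nd (nat_lit 184) (nat_lit 0) (cs (lf (nat_lit 34) (nat_lit 183)) (rf (nat_lit 1)))))))))))) (cs (rf (nat_lit 2)) (nd (nat_lit 230) (nat_lit 0) (cs (lf (nat_lit 27) (nat_lit 186)) (rf (nat_lit 3)))))))) q67650 (by decide +kernel)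
def q67758 : Q := Q.p (nat_lit 0x600000800002000000000000000000000000000000000000000000000000000) (nat_lit 0x1400007c0001f00001c0000780005e00016000000000000000000000000000000000000000000000) (nat_lit 11)
theorem c67758 : QOK q67758 := cut [q65838, q67641, q67648, q67729] ⟨c65838, c67641, c67648, c67729, trivial⟩ (nd (nat_lit 271) (nat_lit 0) (cs (rf (nat_lit 0)) (cs (rf (nat_lit 1)) (cs (rf (nat_lit 2)) (rf (nat_lit 3)))))) q67758 (by decide +kernel)
def q67838 : Q := Q.p (nat_lit 0x600001000030000040000000000000000000000000000000000000000000000) (nat_lit 0x800000000008000c40000b80000e0000280000000000000000000000000000000000) (nat_lit 5)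
theorem c67838 : QOK q67838 := cut [q56765, q63917, q66729] ⟨c56765, c63917, c66729, trivial⟩ (nd (nat_lit 184) (nat_lit 0) (cs (rf (nat_lit 0)) (cs (rf (nat_lit 1)) (rf (nat_lit 2))))) q67838 (by decide +kernel)
def q67847 : Q := Q.p (nat_lit 0x600001c00000000000000000000000000000000000000000000000000000000) (nat_lit 0x3e0000f80003700001c0000300001c00006000008000000000000000000000000000000000000000) (nat_lit 11)
theorem c67847 : QOK q67847 := cut [q56859, q62450, q62472, q51762] ⟨c56859, c62450, c62472, c51762, trivial⟩ (nd (nat_lit 248) (nat_lit 0) (cs (rf (nat_lit 0)) (cs (rf (nat_lit 1)) (cs (rf (nat_lit 2)) (nd (nat_lit 225) (nat_lit 0) (cs (lf (nat_lit 0) (nat_lit 224)) (nd (nat_lit 247) (nat_lit 0) (cs (lf (nat_lit 12) (nat_lit 224)) (rf (nat_lit 3)))))))))) q67847 (by decide +kernel)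
def q67857 : Q := Q.p (nat_lit 0x100000600001800000000000000000000000000000000000000000000000000000000) (nat_lit 0x3c0001fc0000e0000000000400005000000000000000000000000000000000000000000000000000) (nat_lit 9)
theorem c67857 : QOK q67857 := cut [q67852] ⟨c67852, trivial⟩ (nd (nat_lit 294) (nat_lit 0) (cs (lf (nat_lit 42) (nat_lit 227)) (nd (nat_lit 293) (nat_lit 0) (cs (lf (nat_lit 41) (nat_lit 227)) (nd (nat_lit 271) (nat_lit 0) (cs (lf (nat_lit 35) (nat_lit 205)) (nd (nat_lit 292) (nat_lit 0) (cs (lf (nat_lit 41) (nat_lit 226)) (nd (nat_lit 290) (nat_lit 0) (cs (lf (nat_lit 13) (nat_lit 268)) (rf (nat_lit 0)))))))))))) q67857 (by decide +kernel)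
def q67918 : Q := Q.p (nat_lit 0x800002600001800012000040000000000000000000000000000000000000000000000) (nat_lit 0x1400007c0007700001c000e700021c0000780001c000050000000000000000000000000000000000) (nat_lit 12)
theorem c67918 : QOK q67918 := cut [q59335, q67882, q66939, q41063, q41064, q56824, q62755, q64322, q67421, q44707, q45689, q67907, q41056] ⟨c59335, c67882, c66939, c41063, c41064, c56824, c62755, c64322, c67421, c44707, c45689, c67907, c41056, trivial⟩ (nd (nat_lit 225) (nat_lit 0) (cs (rf (nat_lit 0)) (cs (nd (nat_lit 226) (nat_lit 0) (cs (lf (nat_lit 0) (nat_lit 224)) (nd (nat_lit 272) (nat_lit 0) (cs (lf (nat_lit 42) (nat_lit 205)) (nd (nat_lit 273) (nat_lit 0) (cs (lf (nat_lit 19) (nat_lit 249)) (nd (nat_lit 209) (nat_lit 0) (cs (lf (nat_lit 44) (nat_lit 186)) (nd (nat_lit 203) (nat_lit 0) (cs (lf (nat_lit 23) (nat_lit 202)) (rf (nat_lit 1)))))))))))) (cs (nd (nat_lit 272) (nat_lit 0) (cs (lf (nat_lit 42) (nat_lit 205)) (nd (nat_lit 273) (nat_lit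 0) (cs (lf (nat_lit 19) (nat_lit 249)) (nd (nat_lit 247) (nat_lit 0) (cs (lf (nat_lit 1) (nat_lit 247)) (nd (nat_lit 226) (nat_lit 0) (cs (lf (nat_lit 11) (nat_lit 224)) (nd (nat_lit 203) (nat_lit 0) (cs (lf (nat_lit 23) (nat_lit 202)) (nd (nat_lit 209) (nat_lit 0) (cs (lf (nat_lit 44) (nat_lit 186)) (rf (nat_lit 1)))))))))))))) (nd (nat_lit 294) (nat_lit 0) (cs (rf (nat_lit 2)) (nd (nat_lit 247) (nat_lit 0) (cs (rf (nat_lit 3)) (cs (rf (nat_lit 4)) (cs (rf (nat_lit 5)) (nd (nat_lit 203) (nat_lit 0) (cs (nd (nat_lit 209) (nat_lit 0) (cs (lf (nat_lit 44) (nat_lit 186)) (rf (nat_lit 6)))) (cs (nd (nat_lit 181) (nat_lit 0) (cs (rf (nat_lit 7)) (cs (rf (nat_lit 8)) (nd (nat_lit 182) (nat_lit 0) (cs (lf (nat_lit 35) (nat_lit 159)) (nd (nat_lit 180) (nat_lit 0) (cs (lf (nat_lit 47) (nat_lit 158)) (nd (nat_lit 204) (nat_lit 0) (cs (lf (nat_lit 30) (nat_lit 181)) (lf (nat_lit 0) (nat_lit 179))))))))))) (cs (nd (nat_lit 181) (nat_lit 0) (cs (rf (nat_lit 7)) (cs (rf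 (nat_lit 8)) (nd (nat_lit 180) (nat_lit 0) (cs (lf (nat_lit 47) (nat_lit 158)) (nd (nat_lit 182) (nat_lit 0) (cs (lf (nat_lit 35) (nat_lit 159)) (nd (nat_lit 204) (nat_lit 0) (cs (lf (nat_lit 0) (nat_lit 202)) (lf (nat_lit 0) (nat_lit 179))))))))))) (cs (nd (nat_lit 209) (nat_lit 0) (cs (lf (nat_lit 44) (nat_lit 186)) (nd (nat_lit 204) (nat_lit 0) (cs (lf (nat_lit 0) (nat_lit 202)) (nd (nat_lit 229) (nat_lit 0) (cs (lf (nat_lit 15) (nat_lit 205)) (rf (nat_lit 9)))))))) (nd (nat_lit 269) (nat_lit 0) (cs (rf (nat_lit 10)) (cs (nd (nat_lit 209) (nat_lit 0) (cs (lf (nat_lit 44) (nat_lit 186)) (nd (nat_lit 229) (nat_lit 0) (cs (lf (nat_lit 15) (nat_lit 205)) (rf (nat_lit 11)))))) (nd (nat_lit 209) (nat_lit 0) (cs (lf (nat_lit 44) (nat_lit 186)) (nd (nat_lit 229) (nat_lit 0) (cs (lf (nat_lit 15) (nat_lit 205)) (nd (nat_lit 268) (nat_lit 0) (cs (lf (nat_lit 41) (nat_lit 202)) (nd (nat_lit 181) (nat_lit 0) (cs (lf (nat_lit 40) (nat_lit 180)) (rf (nat_lit 12))))))))))))))))))))))))))))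 q67918 (by decide +kernel)
def q67942 : Q := Q.p (nat_lit 0x800002600000800012000040000000000000000000000000000000000000000000000) (nat_lit 0x10000000000900002000000c000030000040000000000000000000000000000000000) (nat_lit 5)
theorem c67942 : QOK q67942 := cut [q56953] ⟨c56953, trivial⟩ (nd (nat_lit 209) (nat_lit 0) (cs (lf (nat_lit 44) (nat_lit 186)) (rf (nat_lit 0)))) q67942 (by decide +kernel)
def q67965 : Q := Q.p (nat_lit 0x800002600000800010000040000000000000000000000000000000000000000000000) (nat_lit 0x40000700001c0000700000f00001c000f7000e70000bc000000000000000000000000000000000000000000000) (nat_lit 13)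
theorem c67965 : QOK q67965 := cut [q56765, q67951, q67955, q17230] ⟨c56765, c67951, c67955, c17230, trivial⟩ (nd (nat_lit 209) (nat_lit 0) (cs (lf (nat_lit 44) (nat_lit 186)) (nd (nat_lit 184) (nat_lit 0) (cs (rf (nat_lit 0)) (nd (nat_lit 271) (nat_lit 0) (cs (nd (nat_lit 206) (nat_lit 0) (cs (lf (nat_lit 33) (nat_lit 183)) (lf (nat_lit 38) (nat_lit 183)))) (cs (nd (nat_lit 205) (nat_lit 0) (cs (lf (nat_lit 34) (nat_lit 183)) (nd (nat_lit 270) (nat_lit 0) (cs (lf (nat_lit 41) (nat_lit 204)) (nd (nat_lit 268) (nat_lit 0) (cs (lf (nat_lit 13) (nat_lit 246)) (rf (nat_lit 1)))))))) (cs (rf (nat_lit 2)) (nd (nat_lit 228) (nat_lit 0) (cs (lf (nat_lit 37) (nat_lit 183)) (nd (nat_lit 293) (nat_lit 0) (cs (lf (nat_lit 30) (nat_lit 227)) (nd (nat_lit 294) (nat_lit 0) (cs (lf (nat_lit 29) (nat_lit 227)) (nd (nat_lit 292) (nat_lit 0) (cs (lf (nat_lit 41) (nat_lit 226)) (nd (nat_lit 229) (nat_lit 0) (cs (lf (nat_lit 15) (nat_lit 205)) (nd (nat_lit 226) (nat_lit 0) (cs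 (lf (nat_lit 47) (nat_lit 204)) (nd (nat_lit 247) (nat_lit 0) (cs (lf (nat_lit 13) (nat_lit 225)) (rf (nat_lit 3)))))))))))))))))))))))) q67965 (by decide +kernel)
def q67995 : Q := Q.p (nat_lit 0x800002600000800010000040000000000000000000000000000000000000000000000) (nat_lit 0x1000114001ddc0077f00181c00fb6001e7c00fbc001c7000704001c000010000000000000000000000000) (nat_lit 14)
theorem c67995 : QOK q67995 := cut [q56640, q66985, q67944, q45348, q45350, q67814, q67928, q67967, q57087, q1860, q6044, q67982, q10171, q67987, q67990] ⟨c56640, c66985, c67944, c45348, c45350, c67814, c67928, c67967, c57087, c1860, c6044, c67982, c10171, c67987, c67990, trivial⟩ (nd (nat_lit 209) (nat_lit 0) (cs (lf (nat_lit 44) (nat_lit 186)) (nd (nat_lit 211) (nat_lit 0) (cs (nd (nat_lit 205) (nat_lit 0) (cs (rf (nat_lit 0)) (cs (rf (nat_lit 1)) (cs (rf (nat_lit 2)) (nd (nat_lit 272) (nat_lit 0) (cs (rf (nat_lit 3)) (cs (rf (nat_lit 4)) (nd (nat_lit 271) (nat_lit 0) (cs (rf (nat_lit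 5)) (cs (rf (nat_lit 6)) (cs (nd (nat_lit 273) (nat_lit 0) (cs (lf (nat_lit 19) (nat_lit 249)) (nd (nat_lit 247) (nat_lit 0) (cs (lf (nat_lit 1) (nat_lit 247)) (nd (nat_lit 204) (nat_lit 0) (cs (lf (nat_lit 47) (nat_lit 182)) (rf (nat_lit 7)))))))) (nd (nat_lit 204) (nat_lit 0) (cs (lf (nat_lit 47) (nat_lit 182)) (nd (nat_lit 184) (nat_lit 0) (cs (lf (nat_lit 34) (nat_lit 183)) (nd (nat_lit 270) (nat_lit 0) (cs (lf (nat_lit 41) (nat_lit 204)) (nd (nat_lit 269) (nat_lit 0) (cs (lf (nat_lit 12) (nat_lit 246)) (nd (nat_lit 247) (nat_lit 0) (cs (lf (nat_lit 23) (nat_lit 246)) (nd (nat_lit 291) (nat_lit 0) (cs (lf (nat_lit 11) (nat_lit 268)) (rf (nat_lit 8))))))))))))))))))))))))) (nd (nat_lit 210) (nat_lit 0) (cs (rf (nat_lit 9)) (cs (rf (nat_lit 10)) (nd (nat_lit 189) (nat_lit 0) (cs (lf (nat_lit 17) (nat_lit 186)) (nd (nat_lit 167) (nat_lit 0) (cs (rf (nat_lit 11)) (cs (nd (nat_lit 233) (nat_lit 0) (cs (lf (nat_lit 5) (nat_lit 208)) (nd (nat_lit 146) (nat_lit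 0) (cs (lf (nat_lit 34) (nat_lit 145)) (nd (nat_lit 166) (nat_lit 0) (cs (lf (nat_lit 47) (nat_lit 144)) (rf (nat_lit 12)))))))) (cs (rf (nat_lit 13)) (rf (nat_lit 14))))))))))))))) q67995 (by decide +kernel)
def q68222 : Q := Q.p (nat_lit 0x840002780000000010000040000000000000000000000000000000000000000000000) (nat_lit 0x4000010000000001000004700000800002000000000000000000000000000000000000000000000) (nat_lit 5)
theorem c68222 : QOK q68222 := cut [q46599] ⟨c46599, trivial⟩ (nd (nat_lit 230) (nat_lit 0) (cs (lf (nat_lit 27) (nat_lit 186)) (rf (nat_lit 0)))) q68222 (by decide +kernel)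
def q68265 : Q := Q.p (nat_lit 0x40000900000400000000000000000000000000000000000000000000000000000000000000) (nat_lit 0x280001a0000680000000001800006000008000000000000000000000000000000000000000000000) (nat_lit 5)
theorem c68265 : QOK q68265 := cut [q15806, q52445, q60732] ⟨c15806, c52445, c60732, trivial⟩ (nd (nat_lit 228) (nat_lit 0) (cs (rf (nat_lit 0)) (cs (rf (nat_lit 1)) (nd (nat_lit 293) (nat_lit 0) (cs (lf (nat_lit 41) (nat_lit 227)) (rf (nat_lit 2))))))) q68265 (by decide +kernel)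
def q68275 : Q := Q.p (nat_lit 0x40000900000600008000000000000000000000000000000000000000000000000000000000) (nat_lit 0x200000e0000380001a00006e0000180007000004000000000000000000000000000000000000000000000000000) (nat_lit 10)
theorem c68275 : QOK q68275 := cut [q52292, q64233, q44498] ⟨c52292, c64233, c44498, trivial⟩ (nd (nat_lit 315) (nat_lit 0) (cs (rf (nat_lit 0)) (cs (nd (nat_lit 273) (nat_lit 0) (cs (lf (nat_lit 19) (nat_lit 249)) (nd (nat_lit 247) (nat_lit 0) (cs (lf (nat_lit 1) (nat_lit 247)) (rf (nat_lit 1)))))) (nd (nat_lit 228) (nat_lit 0) (cs (lf (nat_lit 40) (nat_lit 227)) (nd (nat_lit 229) (nat_lit 0) (cs (lf (nat_lit 7) (nat_lit 227)) (nd (nat_lit 316) (nat_lit 0) (cs (lf (nat_lit 41) (nat_lit 249)) (nd (nat_lit 271) (nat_lit 0) (cs (lf (nat_lit 42) (nat_lit 249)) (nd (nat_lit 247) (nat_lit 0) (cs (lf (nat_lit 13) (nat_lit 225)) (nd (nat_lit 273) (nat_lit 0) (cs (lf (nat_lit 19) (nat_lit 249)) (nd (nat_lit 295) (nat_lit 0) (cs (lf (nat_lit 24)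 (nat_lit 206)) (rf (nat_lit 2))))))))))))))))))) q68275 (by decide +kernel)
def q68385 : Q := Q.p (nat_lit 0x20000800000780000800002000000000000000000000000000000000000000000000000000) (nat_lit 0x378001dc000760000000000700005c00007000004000000000000000000000000000000000000000) (nat_lit 9)
theorem c68385 : QOK q68385 := cut [q66946, q66941, q51302, q68383] ⟨c66946, c66941, c51302, c68383, trivial⟩ (nd (nat_lit 225) (nat_lit 0) (cs (lf (nat_lit 23) (nat_lit 224)) (nd (nat_lit 292) (nat_lit 0) (cs (rf (nat_lit 0)) (cs (nd (nat_lit 291) (nat_lit 0) (cs (nd (nat_lit 294) (nat_lit 0) (cs (rf (nat_lit 1)) (nd (nat_lit 316) (nat_lit 0) (cs (lf (nat_lit 44) (nat_lit 227)) (lf (nat_lit 5) (nat_lit 291)))))) (cs (nd (nat_lit 269) (nat_lit 0) (cs (lf (nat_lit 29) (nat_lit 225)) (nd (nat_lit 204) (nat_lit 0) (cs (lf (nat_lit 34) (nat_lit 203)) (nd (nat_lit 203) (nat_lit 0) (cs (lf (nat_lit 35) (nat_lit 181)) (nd (nat_lit 180) (nat_lit 0) (cs (lf (nat_lit 46) (nat_lit 180))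 (nd (nat_lit 181) (nat_lit 0) (cs (lf (nat_lit 47) (nat_lit 158)) (lf (nat_lit 18) (nat_lit 180)))))))))))) (nd (nat_lit 272) (nat_lit 0) (cs (lf (nat_lit 5) (nat_lit 247)) (nd (nat_lit 294) (nat_lit 0) (cs (lf (nat_lit 42) (nat_lit 227)) (nd (nat_lit 312) (nat_lit 0) (cs (lf (nat_lit 10) (nat_lit 290)) (nd (nat_lit 290) (nat_lit 0) (cs (lf (nat_lit 11) (nat_lit 289)) (lf (nat_lit 38) (nat_lit 224))))))))))))) (cs (nd (nat_lit 272) (nat_lit 0) (cs (lf (nat_lit 5) (nat_lit 247)) (nd (nat_lit 294) (nat_lit 0) (cs (lf (nat_lit 42) (nat_lit 227)) (nd (nat_lit 270) (nat_lit 0) (cs (lf (nat_lit 33) (nat_lit 204)) (rf (nat_lit 2)))))))) (rf (nat_lit 3)))))))) q68385 (by decide +kernel)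
def q68422 : Q := Q.p (nat_lit 0x700000800000000000000000000000000000000000000000000000000000000) (nat_lit 0x780000e00037c0000c0000700001c000050000000000000000000000000000000000) (nat_lit 8)
theorem c68422 : QOK q68422 := cut [q57432, q66951, q66955, q44691, q51860] ⟨c57432, c66951, c66955, c44691, c51860, trivial⟩ (nd (nat_lit 247) (nat_lit 0) (cs (rf (nat_lit 0)) (cs (rf (nat_lit 1)) (cs (rf (nat_lit 2)) (nd (nat_lit 225) (nat_lit 0) (cs (lf (nat_lit 23) (nat_lit 224)) (nd (nat_lit 203) (nat_lit 0) (cs (rf (nat_lit 3)) (cs (rf (nat_lit 4)) (nd (nat_lit 228) (nat_lit 0) (cs (lf (nat_lit 17) (nat_lit 225)) (nd (nat_lit 202) (nat_lit 0) (cs (lf (nat_lit 20) (nat_lit 202)) (nd (nat_lit 269) (nat_lit 0) (cs (lf (nat_lit 11) (nat_lit 246)) (lf (nat_lit 47) (nat_lit 180))))))))))))))))) q68422 (by decide +kernel)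
def q68461 : Q := Q.p (nat_lit 0x20000880002600000800010000040000000000000000000000000000000000000000000000) (nat_lit 0x340001dc000760000180009000024000000000000000000000000000000000000000000000000000) (nat_lit 7)
theorem c68461 : QOK q68461 := cut [q67095, q62113, q61939, q67126] ⟨c67095, c62113, c61939, c67126, trivial⟩ (nd (nat_lit 272) (nat_lit 0) (cs (rf (nat_lit 0)) (cs (nd (nat_lit 273) (nat_lit 0) (cs (lf (nat_lit 19) (nat_lit 249)) (nd (nat_lit 247) (nat_lit 0) (cs (lf (nat_lit 1) (nat_lit 247)) (rf (nat_lit 1)))))) (nd (nat_lit 294) (nat_lit 0) (cs (rf (nat_lit 2)) (nd (nat_lit 209) (nat_lit 0) (cs (lf (nat_lit 44) (nat_lit 186)) (rf (nat_lit 3))))))))) q68461 (by decide +kernel)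
def q68468 : Q := Q.p (nat_lit 0x20000880000600000000000000000000000000000000000000000000000000000000000000) (nat_lit 0x40000300000c000010000700000180000c00001000000000000000000000000000000000000000000000000000) (nat_lit 5)
theorem c68468 : QOK q68468 := cut [q56973, q59324, q66775] ⟨c56973, c59324, c66775, trivial⟩ (nd (nat_lit 315) (nat_lit 0) (cs (rf (nat_lit 0)) (cs (rf (nat_lit 1)) (rf (nat_lit 2))))) q68468 (by decide +kernel)
def q68473 : Q := Q.p (nat_lit 0x8000020000080000200000000000000000000000000000000000000000000000000000000000000) (nat_lit 0x3de000770001de000000000000000000000000000000000000000000000000000000000000000000000000) (nat_lit 9)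
theorem c68473 : QOK q68473 := cut [q59352, q59361, q67190] ⟨c59352, c59361, c67190, trivial⟩ (nd (nat_lit 314) (nat_lit 0) (cs (lf (nat_lit 41) (nat_lit 248)) (nd (nat_lit 313) (nat_lit 0) (cs (rf (nat_lit 0)) (cs (rf (nat_lit 1)) (rf (nat_lit 2))))))) q68473 (by decide +kernel)
def q68505 : Q := Q.p (nat_lit 0x20000880000600000000000000000000000000000000000000000000000000000000000000) (nat_lit 0x140000d0000f78001dc001770000180001f00005000000000000000000000000000000000000000000000000000) (nat_lit 11)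
theorem c68505 : QOK q68505 := cut [q65860, q66998, q59554, q68049, q56523, q61062, q61787, q47470, q65635, q64821] ⟨c65860, c66998, c59554, c68049, c56523, c61062, c61787, c47470, c65635, c64821, trivial⟩ (nd (nat_lit 294) (nat_lit 0) (cs (rf (nat_lit 0)) (cs (nd (nat_lit 227) (nat_lit 0) (cs (lf (nat_lit 29) (nat_lit 227)) (rf (nat_lit 1)))) (cs (nd (nat_lit 272) (nat_lit 0) (cs (rf (nat_lit 2)) (cs (nd (nat_lit 273) (nat_lit 0) (cs (lf (nat_lit 19) (nat_lit 249)) (nd (nat_lit 206) (nat_lit 0) (cs (lf (nat_lit 37) (nat_lit 205)) (nd (nat_lit 247) (nat_lit 0) (cs (lf (nat_lit 1) (nat_lit 247)) (nd (nat_lit 292) (nat_lit 0) (cs (lf (nat_lit 12) (nat_lit 269)) (nd (nat_lit 314) (nat_lit 0) (cs (lf (nat_lit 36) (nat_lit 226)) (nd (nat_lit 336) (nat_lit 0) (cs (lf (nat_lit 30) (nat_lit 270)) (rf (nat_lit 3)))))))))))))) (nd (nat_lit 273) (nat_lit 0) (cs (lf (nat_lit 7) (nat_lit 271)) (nd (nat_lit 247) (nat_lit 0) (cs (lf (nat_lit 1) (nat_lit 247)) (rf (nat_lit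 4))))))))) (nd (nat_lit 295) (nat_lit 0) (cs (rf (nat_lit 5)) (cs (rf (nat_lit 6)) (nd (nat_lit 272) (nat_lit 0) (cs (rf (nat_lit 7)) (cs (rf (nat_lit 8)) (nd (nat_lit 206) (nat_lit 0) (cs (lf (nat_lit 37) (nat_lit 205)) (nd (nat_lit 270) (nat_lit 0) (cs (lf (nat_lit 0) (nat_lit 269)) (nd (nat_lit 316) (nat_lit 0) (cs (lf (nat_lit 42) (nat_lit 249)) (nd (nat_lit 273) (nat_lit 0) (cs (lf (nat_lit 19) (nat_lit 249)) (nd (nat_lit 292) (nat_lit 0) (cs (lf (nat_lit 11) (nat_lit 269)) (rf (nat_lit 9)))))))))))))))))))))) q68505 (by decide +kernel)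
def q68532 : Q := Q.p (nat_lit 0xe0000380000000000000000000000000000000000000000000000000000000000000) (nat_lit 0x1c00007c0003c000300000000000800000000000000000000000000000000000000000000000000000000) (nat_lit 8)
theorem c68532 : QOK q68532 := cut [q68531] ⟨c68531, trivial⟩ (nd (nat_lit 272) (nat_lit 0) (cs (lf (nat_lit 18) (nat_lit 247)) (rf (nat_lit 0)))) q68532 (by decide +kernel)
def q68569 : Q := Q.p (nat_lit 0x880002700000000010000040000000000000000000000000000000000000000000000) (nat_lit 0xa0000280003380010c000cf80021c0000700001c000040000000000000000000000000000000000) (nat_lit 12)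
theorem c68569 : QOK q68569 := cut [q45262, q60671, q45760, q47092, q68558, q68561] ⟨c45262, c60671, c45760, c47092, c68558, c68561, trivial⟩ (nd (nat_lit 209) (nat_lit 0) (cs (lf (nat_lit 44) (nat_lit 186)) (nd (nat_lit 247) (nat_lit 0) (cs (rf (nat_lit 0)) (cs (rf (nat_lit 1)) (nd (nat_lit 225) (nat_lit 0) (cs (lf (nat_lit 23) (nat_lit 224)) (nd (nat_lit 269) (nat_lit 0) (cs (lf (nat_lit 11) (nat_lit 246)) (nd (nat_lit 203) (nat_lit 0) (cs (rf (nat_lit 2)) (cs (nd (nat_lit 230) (nat_lit 0) (cs (lf (nat_lit 27) (nat_lit 186)) (nd (nat_lit 272) (nat_lit 0) (cs (lf (nat_lit 5) (nat_lit 247)) (rf (nat_lit 3)))))) (cs (nd (nat_lit 230) (nat_lit 0) (cs (lf (nat_lit 27) (nat_lit 186)) (nd (nat_lit 272) (nat_lit 0) (cs (lf (nat_lit 5) (nat_lit 247)) (rf (nat_lit 4)))))) (nd (nat_lit 230) (nat_lit 0) (cs (lf (nat_lit 27) (nat_lit 186)) (nd (nat_lit 272) (nat_lit 0) (cs (lf (nat_lit 5) (nat_lit 247)) (nd (nat_lit 204) (nat_lit 0) (cs (lf (nat_lit 35) (nat_lit 181))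 (rf (nat_lit 5))))))))))))))))))))) q68569 (by decide +kernel)
def q68576 : Q := Q.p (nat_lit 0x80008a0002780000000010000040000000000000000000000000000000000000000000000) (nat_lit 0x1c00007c00034000340000000008800020000000000000000000000000000000000000000000000000000) (nat_lit 9)
theorem c68576 : QOK q68576 := cut [q68575] ⟨c68575, trivial⟩ (nd (nat_lit 209) (nat_lit 0) (cs (lf (nat_lit 44) (nat_lit 186)) (rf (nat_lit 0)))) q68576 (by decide +kernel)
def q68578 : Q := Q.p (nat_lit 0x8000020000080000200000000000000000000000000000000000000000000000000000000) (nat_lit 0x4000010000040000000000000001c00007000014000000000000000000000000000000000000000) (nat_lit 6)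
theorem c68578 : QOK q68578 := cut [q63839] ⟨c63839, trivial⟩ (nd (nat_lit 292) (nat_lit 0) (cs (lf (nat_lit 29) (nat_lit 225)) (rf (nat_lit 0)))) q68578 (by decide +kernel)
def q68620 : Q := Q.p (nat_lit 0x880002700000000010000040000000000000000000000000000000000000000000000) (nat_lit 0xe0000380000780010e000cf80021c0000700000c000000000000000000000000000000000000000) (nat_lit 11)
theorem c68620 : QOK q68620 := cut [q68600, q45262, q68603, q68605, q68614, q68618, q66846] ⟨c68600, c45262, c68603, c68605, c68614, c68618, c66846, trivial⟩ (nd (nat_lit 226) (nat_lit 0) (cs (rf (nat_lit 0)) (cs (nd (nat_lit 247) (nat_lit 0) (cs (rf (nat_lit 1)) (cs (nd (nat_lit 293) (nat_lit 0) (cs (lf (nat_lit 42) (nat_lit 226)) (rf (nat_lit 2)))) (cs (nd (nat_lit 225) (nat_lit 0) (cs (lf (nat_lit 23) (nat_lit 224)) (nd (nat_lit 269) (nat_lit 0) (cs (lf (nat_lit 11) (nat_lit 246)) (nd (nat_lit 293) (nat_lit 0) (cs (lf (nat_lit 42) (nat_lit 226)) (nd (nat_lit 291) (nat_lit 0) (cs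 (lf (nat_lit 30) (nat_lit 225)) (nd (nat_lit 292) (nat_lit 0) (cs (lf (nat_lit 29) (nat_lit 225)) (nd (nat_lit 203) (nat_lit 0) (cs (lf (nat_lit 43) (nat_lit 203)) (rf (nat_lit 3)))))))))))))) (nd (nat_lit 293) (nat_lit 0) (cs (lf (nat_lit 42) (nat_lit 226)) (nd (nat_lit 230) (nat_lit 0) (cs (lf (nat_lit 27) (nat_lit 186)) (rf (nat_lit 4)))))))))) (cs (rf (nat_lit 5)) (nd (nat_lit 247) (nat_lit 0) (cs (rf (nat_lit 6)) (cs (rf (nat_lit 2)) (rf (nat_lit 4))))))))) q68620 (by decide +kernel)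
def q68635 : Q := Q.p (nat_lit 0x800002780000200010800040000000000000000000000000000000000000000000000) (nat_lit 0x330001000004000001400007000014000000000000000000000000000000000000000) (nat_lit 7)
theorem c68635 : QOK q68635 := cut [q68633] ⟨c68633, trivial⟩ (nd (nat_lit 230) (nat_lit 0) (cs (lf (nat_lit 27) (nat_lit 186)) (nd (nat_lit 272) (nat_lit 0) (cs (lf (nat_lit 5) (nat_lit 247)) (rf (nat_lit 0)))))) q68635 (by decide +kernel)
def q68803 : Q := Q.p (nat_lit 0x60000980002200000000010000040000000000000000000000000000000000000000000000) (nat_lit 0x6000018000e700019c000470001100004800000000000000000000000000000000000000000000000000000000) (nat_lit 9)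
theorem c68803 : QOK q68803 := cut [q56522, q67088, q61804] ⟨c56522, c67088, c61804, trivial⟩ (nd (nat_lit 292) (nat_lit 0) (cs (rf (nat_lit 0)) (cs (rf (nat_lit 1)) (nd (nat_lit 230) (nat_lit 0) (cs (lf (nat_lit 27) (nat_lit 186)) (nd (nat_lit 290) (nat_lit 0) (cs (lf (nat_lit 13) (nat_lit 268)) (nd (nat_lit 314) (nat_lit 0) (cs (lf (nat_lit 36) (nat_lit 226)) (nd (nat_lit 336) (nat_lit 0) (cs (lf (nat_lit 30) (nat_lit 270)) (rf (nat_lit 2))))))))))))) q68803 (by decide +kernel)
def q68854 : Q := Q.p (nat_lit 0x1c0000700000000000000000000000000000000000000000000000000000000000000) (nat_lit 0x200000c0000300000c0000700001000000000000000000000000000000000000000000000000000) (nat_lit 6)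
theorem c68854 : QOK q68854 := cut [q68524] ⟨c68524, trivial⟩ (nd (nat_lit 247) (nat_lit 0) (cs (lf (nat_lit 0) (nat_lit 246)) (nd (nat_lit 269) (nat_lit 0) (cs (lf (nat_lit 12) (nat_lit 246)) (rf (nat_lit 0)))))) q68854 (by decide +kernel)
def q69118 : Q := Q.p (nat_lit 0x980000600000000000000000000000000000000000000000000000000000000000000) (nat_lit 0x80000200001dc000670000000001000004000000000000000000000000000000000000000000000000000) (nat_lit 6)
theorem c69118 : QOK q69118 := cut [q57056, q61550] ⟨c57056, c61550, trivial⟩ (nd (nat_lit 273) (nat_lit 0) (cs (lf (nat_lit 19) (nat_lit 249)) (nd (nat_lit 270) (nat_lit 0) (cs (rf (nat_lit 0)) (rf (nat_lit 1)))))) q69118 (by decide +kernel)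
def q69155 : Q := Q.p (nat_lit 0x20000280009a0002480000000010000040000000000000000000000000000000000000000000000) (nat_lit 0x400001800004000000000010001040005100004000000000000000000000000000000000000000000000000000) (nat_lit 6)
theorem c69155 : QOK q69155 := cut [q65755] ⟨c65755, trivial⟩ (nd (nat_lit 230) (nat_lit 0) (cs (lf (nat_lit 27) (nat_lit 186)) (rf (nat_lit 0)))) q69155 (by decide +kernel)
def q69231 : Q := Q.p (nat_lit 0x980002600000000010000040000000000000000000000000000000000000000000000) (nat_lit 0xb00002c0001bc0006700011c0004600001800006000000000000000000000000000000000000000000000) (nat_lit 13)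
theorem c69231 : QOK q69231 := cut [q57056, q65706, q69227] ⟨c57056, c65706, c69227, trivial⟩ (nd (nat_lit 273) (nat_lit 0) (cs (lf (nat_lit 19) (nat_lit 249)) (nd (nat_lit 270) (nat_lit 0) (cs (rf (nat_lit 0)) (cs (nd (nat_lit 230) (nat_lit 0) (cs (lf (nat_lit 27) (nat_lit 186)) (nd (nat_lit 295) (nat_lit 0) (cs (lf (nat_lit 5) (nat_lit 270)) (nd (nat_lit 317) (nat_lit 0) (cs (lf (nat_lit 42) (nat_lit 250)) (rf (nat_lit 1)))))))) (nd (nat_lit 248) (nat_lit 0) (cs (lf (nat_lit 0) (nat_lit 247)) (nd (nat_lit 230) (nat_lit 0) (cs (lf (nat_lit 27) (nat_lit 186)) (rf (nat_lit 2))))))))))) q69231 (by decide +kernel)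
def q69248 : Q := Q.p (nat_lit 0x200009a0002680000000010000040000000000000000000000000000000000000000000000) (nat_lit 0x1c000640001040005000004000000000000000000000000000000000000000000000000000) (nat_lit 6)
theorem c69248 : QOK q69248 := cut [q69246] ⟨c69246, trivial⟩ (nd (nat_lit 230) (nat_lit 0) (cs (lf (nat_lit 27) (nat_lit 186)) (nd (nat_lit 206) (nat_lit 0) (cs (lf (nat_lit 37) (nat_lit 205)) (rf (nat_lit 0)))))) q69248 (by decide +kernel)
def q69283 : Q := Q.p (nat_lit 0x9a0002600000000010000040000000000000000000000000000000000000000000000) (nat_lit 0x1c00006400011c0004000000000000000000000000000000000000000000000000000000000) (nat_lit 6)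
theorem c69283 : QOK q69283 := cut [q69282] ⟨c69282, trivial⟩ (nd (nat_lit 230) (nat_lit 0) (cs (lf (nat_lit 27) (nat_lit 186)) (rf (nat_lit 0)))) q69283 (by decide +kernel)
def q69331 : Q := Q.p (nat_lit 0x800002780000000010000040000000000000000000000000000000000000000000000) (nat_lit 0x40000700001c00007000000000b700021c0000700001c000050000000000000000000000000000000000) (nat_lit 12)
theorem c69331 : QOK q69331 := cut [q17292, q44691, q68633] ⟨c17292, c44691, c68633, trivial⟩ (nd (nat_lit 225) (nat_lit 0) (cs (lf (nat_lit 23) (nat_lit 224)) (nd (nat_lit 203) (nat_lit 0) (cs (rf (nat_lit 0)) (cs (rf (nat_lit 1)) (cs (rf (nat_lit 2)) (nd (nat_lit 209) (nat_lit 0) (cs (lf (nat_lit 44) (nat_lit 186)) (nd (nat_lit 269) (nat_lit 0) (cs (lf (nat_lit 11) (nat_lit 246)) (nd (nat_lit 228) (nat_lit 0) (cs (lf (nat_lit 17) (nat_lit 225)) (nd (nat_lit 180) (nat_lit 0) (cs (lf (nat_lit 46) (nat_lit 180)) (nd (nat_lit 182) (nat_lit 0) (cs (lf (nat_lit 34) (nat_lit 181))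 (nd (nat_lit 292) (nat_lit 0) (cs (lf (nat_lit 28) (nat_lit 203)) (nd (nat_lit 291) (nat_lit 0) (cs (lf (nat_lit 29) (nat_lit 225)) (nd (nat_lit 312) (nat_lit 0) (cs (lf (nat_lit 40) (nat_lit 224)) (nd (nat_lit 313) (nat_lit 0) (cs (lf (nat_lit 35) (nat_lit 225)) (lf (nat_lit 41) (nat_lit 246)))))))))))))))))))))))))) q69331 (by decide +kernel)
def q69360 : Q := Q.p (nat_lit 0x800000680001200000800040000000000000000000000000000000000000000000000) (nat_lit 0x300000c0000700000040000c000074000b80000e0000000000000000000000000000000000000000) (nat_lit 8)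
theorem c69360 : QOK q69360 := cut [q45579, q51495, q67851, q62504, q5153, q67921, q40933] ⟨c45579, c51495, c67851, c62504, c5153, c67921, c40933, trivial⟩ (nd (nat_lit 227) (nat_lit 0) (cs (rf (nat_lit 0)) (cs (nd (nat_lit 272) (nat_lit 0) (cs (rf (nat_lit 1)) (cs (rf (nat_lit 2)) (nd (nat_lit 226) (nat_lit 0) (cs (lf (nat_lit 11) (nat_lit 224)) (nd (nat_lit 273) (nat_lit 0) (cs (lf (nat_lit 19) (nat_lit 249)) (nd (nat_lit 206) (nat_lit 0) (cs (lf (nat_lit 29) (nat_lit 206)) (nd (nat_lit 183) (nat_lit 0) (cs (lf (nat_lit 46) (nat_lit 183)) (rf (nat_lit 3))))))))))))) (nd (nat_lit 205) (nat_lit 0) (cs (rf (nat_lit 4)) (cs (rf (nat_lit 5)) (nd (nat_lit 183) (nat_lit 0) (cs (lf (nat_lit 24) (nat_lit 161)) (nd (nat_lit 204) (nat_lit 0) (cs (lf (nat_lit 0) (nat_lit 202)) (rf (nat_lit 6)))))))))))) q69360 (by decide +kernel)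
def q69406 : Q := Q.p (nat_lit 0x800002680004200010800040000000000000000000000000000000000000000000000) (nat_lit 0x12000000000bd00023400009000024000010000000000000000000000000000000000) (nat_lit 7)
theorem c69406 : QOK q69406 := cut [q49358, q69405] ⟨c49358, c69405, trivial⟩ (nd (nat_lit 202) (nat_lit 0) (cs (rf (nat_lit 0)) (rf (nat_lit 1)))) q69406 (by decide +kernel)
def q69418 : Q := Q.p (nat_lit 0x4000070000040000000000000000000000000000000000000000000000) (nat_lit 0xe2000180000680000000000000000000000000000000000000000000000) (nat_lit 5)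
theorem c69418 : QOK q69418 := cut [q67615] ⟨c67615, trivial⟩ (nd (nat_lit 211) (nat_lit 0) (cs (lf (nat_lit 11) (nat_lit 207)) (rf (nat_lit 0)))) q69418 (by decide +kernel)
def q69472 : Q := Q.p (nat_lit 0x800002680004200010800040000010000000000000000000000000000000000000000) (nat_lit 0x10000000000bd000e74000bb00006e0003fe000100000400000000000000000000000) (nat_lit 10)
theorem c69472 : QOK q69472 := cut [q36940, q18910, q69405] ⟨c36940, c18910, c69405, trivial⟩ (nd (nat_lit 158) (nat_lit 0) (cs (nd (nat_lit 180) (nat_lit 0) (cs (lf (nat_lit 45) (nat_lit 158)) (nd (nat_lit 202) (nat_lit 0) (cs (lf (nat_lit 24) (nat_lit 136)) (lf (nat_lit 27) (nat_lit 158)))))) (cs (nd (nat_lit 159) (nat_lit 0) (cs (nd (nat_lit 181) (nat_lit 0) (cs (lf (nat_lit 47) (nat_lit 136)) (lf (nat_lit 35) (nat_lit 137)))) (cs (nd (nat_lit 209) (nat_lit 0) (cs (lf (nat_lit 44) (nat_lit 186)) (nd (nat_lit 138) (nat_lit 0) (cs (nd (nat_lit 139) (nat_lit 0) (cs (lf (nat_lit 12) (nat_lit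 135)) (nd (nat_lit 140) (nat_lit 0) (cs (lf (nat_lit 6) (nat_lit 137)) (lf (nat_lit 9) (nat_lit 136)))))) (lf (nat_lit 32) (nat_lit 137)))))) (cs (nd (nat_lit 209) (nat_lit 0) (cs (lf (nat_lit 44) (nat_lit 186)) (nd (nat_lit 136) (nat_lit 0) (cs (nd (nat_lit 135) (nat_lit 0) (cs (lf (nat_lit 18) (nat_lit 135)) (nd (nat_lit 134) (nat_lit 0) (cs (lf (nat_lit 0) (nat_lit 133)) (lf (nat_lit 21) (nat_lit 134)))))) (lf (nat_lit 44) (nat_lit 136)))))) (nd (nat_lit 161) (nat_lit 0) (cs (nd (nat_lit 183) (nat_lit 0) (cs (lf (nat_lit 5) (nat_lit 158)) (nd (nat_lit 139) (nat_lit 0) (cs (lf (nat_lit 17) (nat_lit 136)) (nd (nat_lit 138) (nat_lit 0) (cs (lf (nat_lit 12) (nat_lit 135)) (rf (nat_lit 0)))))))) (cs (nd (nat_lit 209) (nat_lit 0) (cs (lf (nat_lit 44) (nat_lit 186)) (nd (nat_lit 135) (nat_lit 0) (cs (lf (nat_lit 22) (nat_lit 135)) (nd (nat_lit 184) (nat_lit 0) (cs (lf (nat_lit 4) (nat_lit 158)) (nd (nat_lit 134) (nat_lit 0) (cs (lf (nat_lit 21) (nat_lit 134)) (nd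 (nat_lit 185) (nat_lit 0) (cs (rf (nat_lit 1)) (lf (nat_lit 3) (nat_lit 159)))))))))))) (cs (nd (nat_lit 135) (nat_lit 0) (cs (lf (nat_lit 22) (nat_lit 135)) (nd (nat_lit 209) (nat_lit 0) (cs (lf (nat_lit 44) (nat_lit 186)) (nd (nat_lit 139) (nat_lit 0) (cs (lf (nat_lit 17) (nat_lit 136)) (nd (nat_lit 157) (nat_lit 0) (cs (lf (nat_lit 23) (nat_lit 134)) (lf (nat_lit 16) (nat_lit 135)))))))))) (nd (nat_lit 139) (nat_lit 0) (cs (lf (nat_lit 17) (nat_lit 136)) (nd (nat_lit 183) (nat_lit 0) (cs (lf (nat_lit 5) (nat_lit 158)) (nd (nat_lit 231) (nat_lit 0) (cs (lf (nat_lit 45) (nat_lit 186)) (nd (nat_lit 135) (nat_lit 0) (cs (lf (nat_lit 22) (nat_lit 135)) (nd (nat_lit 228) (nat_lit 0) (cs (lf (nat_lit 8) (nat_lit 227)) (nd (nat_lit 205) (nat_lit 0) (cs (lf (nat_lit 27) (nat_lit 161)) (lf (nat_lit 28) (nat_lit 139)))))))))))))))))))))) (cs (nd (nat_lit 202) (nat_lit 0) (cs (rf (nat_lit 2)) (nd (nat_lit 180) (nat_lit 0) (cs (lf (nat_lit 45) (nat_lit 158)) (lf (nat_lit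 27) (nat_lit 158)))))) (nd (nat_lit 202) (nat_lit 0) (cs (rf (nat_lit 2)) (nd (nat_lit 180) (nat_lit 0) (cs (lf (nat_lit 24) (nat_lit 136)) (lf (nat_lit 27) (nat_lit 158)))))))))) q69472 (by decide +kernel)
def q69524 : Q := Q.p (nat_lit 0x20000680000200000000000000000000000000000000000000000000000000000000) (nat_lit 0x140000700001c000000000040000d00001400000000000000000000000000000000000000000000000000) (nat_lit 6)
theorem c69524 : QOK q69524 := cut [q60935, q69521, q69523] ⟨c60935, c69521, c69523, trivial⟩ (nd (nat_lit 291) (nat_lit 0) (cs (rf (nat_lit 0)) (cs (rf (nat_lit 1)) (rf (nat_lit 2))))) q69524 (by decide +kernel)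
def q69539 : Q := Q.p (nat_lit 0x20000080000200000000000000000000000000000000000000000000000000000000) (nat_lit 0x140000700001c000050000000000400001800004000000000000000000000000000000000000000000000) (nat_lit 6)
theorem c69539 : QOK q69539 := cut [q48790, q69339, q69521, q69538] ⟨c48790, c69339, c69521, c69538, trivial⟩ (nd (nat_lit 291) (nat_lit 0) (cs (rf (nat_lit 0)) (cs (rf (nat_lit 1)) (cs (rf (nat_lit 2)) (rf (nat_lit 3)))))) q69539 (by decide +kernel)
def q69546 : Q := Q.p (nat_lit 0x20000080000200000000000000000000000000000000000000000000000000000000) (nat_lit 0x6000018000050000070000100001c0000700001c000010000000000000000000000000000000000) (nat_lit 9)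
theorem c69546 : QOK q69546 := cut [q45760, q67907, q48800, q69545] ⟨c45760, c67907, c48800, c69545, trivial⟩ (nd (nat_lit 203) (nat_lit 0) (cs (rf (nat_lit 0)) (cs (rf (nat_lit 1)) (cs (nd (nat_lit 270) (nat_lit 0) (cs (lf (nat_lit 29) (nat_lit 203)) (rf (nat_lit 2)))) (rf (nat_lit 3)))))) q69546 (by decide +kernel)
def q69553 : Q := Q.p (nat_lit 0x20000680000200000800000000000000000000000000000000000000000000000000) (nat_lit 0x8000000000000000d80007400005000000000000000000000000000000000000000000000) (nat_lit 6)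
theorem c69553 : QOK q69553 := cut [q69552] ⟨c69552, trivial⟩ (nd (nat_lit 204) (nat_lit 0) (cs (lf (nat_lit 35) (nat_lit 181)) (rf (nat_lit 0)))) q69553 (by decide +kernel)
def q69579 : Q := Q.p (nat_lit 0x2000068000c200000000000000000000000000000000000000000000000000000000) (nat_lit 0x1400007e0003f80005f000040003500001400000000000000000000000000000000000000000000000000) (nat_lit 10)
theorem c69579 : QOK q69579 := cut [q60935, q69521, q69564, q69568, q69570, q69576] ⟨c60935, c69521, c69564, c69568, c69570, c69576, trivial⟩ (nd (nat_lit 291) (nat_lit 0) (cs (rf (nat_lit 0)) (cs (rf (nat_lit 1)) (cs (nd (nat_lit 290) (nat_lit 0) (cs (lf (nat_lit 41) (nat_lit 224)) (nd (nat_lit 289) (nat_lit 0) (cs (nd (nat_lit 228) (nat_lit 0) (cs (lf (nat_lit 8) (nat_lit 227)) (rf (nat_lit 2)))) (cs (nd (nat_lit 292) (nat_lit 0) (cs (lf (nat_lit 29) (nat_lit 225)) (rf (nat_lit 3)))) (nd (nat_lit 224) (nat_lit 0) (cs (lf (nat_lit 47) (nat_lit 202)) (nd (nat_lit 204) (nat_lit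 0) (cs (lf (nat_lit 34) (nat_lit 203)) (rf (nat_lit 4))))))))))) (nd (nat_lit 228) (nat_lit 0) (cs (lf (nat_lit 8) (nat_lit 227)) (nd (nat_lit 204) (nat_lit 0) (cs (lf (nat_lit 34) (nat_lit 203)) (rf (nat_lit 5)))))))))) q69579 (by decide +kernel)
def q69588 : Q := Q.p (nat_lit 0x2000068000c200000000000000000000000000000000000000000000000000000000) (nat_lit 0x40000100000600035f0001f80007f00014000000000000000000000000000000000000000) (nat_lit 10)
theorem c69588 : QOK q69588 := cut [q45689, q45760, q45793, q48747, q48757, q48763, q69582] ⟨c45689, c45760, c45793, c48747, c48757, c48763, c69582, trivial⟩ (nd (nat_lit 203) (nat_lit 0) (cs (rf (nat_lit 0)) (cs (rf (nat_lit 1)) (cs (rf (nat_lit 2)) (nd (nat_lit 204) (nat_lit 0) (cs (lf (nat_lit 35) (nat_lit 181)) (nd (nat_lit 202) (nat_lit 0) (cs (lf (nat_lit 47) (nat_lit 180)) (nd (nat_lit 201) (nat_lit 0) (cs (rf (nat_lit 3)) (cs (rf (nat_lit 4)) (cs (rf (nat_lit 5)) (nd (nat_lit 268) (nat_lit 0) (cs (lf (nat_lit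 41) (nat_lit 202)) (nd (nat_lit 228) (nat_lit 0) (cs (lf (nat_lit 8) (nat_lit 227)) (rf (nat_lit 6)))))))))))))))))) q69588 (by decide +kernel)
def q69589 : Q := Q.p (nat_lit 0x20000080000200000000000000000000000000000000000000000000000000000000) (nat_lit 0x140000700001c000000000040000500001c00005000000000000000000000000000000000000000000000) (nat_lit 6)
theorem c69589 : QOK q69589 := cut [q46785, q60935, q69521] ⟨c46785, c60935, c69521, trivial⟩ (nd (nat_lit 291) (nat_lit 0) (cs (rf (nat_lit 0)) (cs (rf (nat_lit 1)) (rf (nat_lit 2))))) q69589 (by decide +kernel)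
def q69604 : Q := Q.p (nat_lit 0x20000080000200000800000000000000000000000000000000000000000000000000) (nat_lit 0x400001000004000000000000000700001c000050000000000000000000000000000000000) (nat_lit 6)
theorem c69604 : QOK q69604 := cut [q69603] ⟨c69603, trivial⟩ (nd (nat_lit 268) (nat_lit 0) (cs (lf (nat_lit 41) (nat_lit 202)) (rf (nat_lit 0)))) q69604 (by decide +kernel)
def q69712 : Q := Q.p (nat_lit 0x680004200030800042000000000000000000000000000000000000000000000) (nat_lit 0x10000000000380000600003d0000f4000000000000000000000000000000000000000) (nat_lit 8)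
theorem c69712 : QOK q69712 := cut [q69425] ⟨c69425, trivial⟩ (nd (nat_lit 180) (nat_lit 0) (cs (lf (nat_lit 47) (nat_lit 158)) (rf (nat_lit 0)))) q69712 (by decide +kernel)
def q69720 : Q := Q.p (nat_lit 0x80000200000800000000000000000000000000000000000000000000000000) (nat_lit 0x40000700001c000070000070000100001400006000018000000000000000000000000000000000000000) (nat_lit 9)
theorem c69720 : QOK q69720 := cut [q45793, q69384, q69545, q69714] ⟨c45793, c69384, c69545, c69714, trivial⟩ (nd (nat_lit 269) (nat_lit 0) (cs (rf (nat_lit 0)) (cs (rf (nat_lit 1)) (cs (rf (nat_lit 2)) (nd (nat_lit 182) (nat_lit 0) (cs (lf (nat_lit 34) (nat_lit 181)) (nd (nat_lit 160) (nat_lit 0) (cs (lf (nat_lit 33) (nat_lit 159)) (nd (nat_lit 292) (nat_lit 0) (cs (lf (nat_lit 28) (nat_lit 203)) (nd (nat_lit 291) (nat_lit 0) (cs (lf (nat_lit 29) (nat_lit 225)) (nd (nat_lit 224) (nat_lit 0) (cs (lf (nat_lit 47) (nat_lit 202)) (rf (nat_lit 3)))))))))))))))) q69720 (by decide +kernel)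
def q69740 : Q := Q.p (nat_lit 0x80000200000800000000000000000000000000000000000000000000000000) (nat_lit 0x500001c000070000040000100000400003000004000000000000000000000000000000000000000) (nat_lit 5)
theorem c69740 : QOK q69740 := cut [q45689, q67907, q69384] ⟨c45689, c67907, c69384, trivial⟩ (nd (nat_lit 269) (nat_lit 0) (cs (rf (nat_lit 0)) (cs (rf (nat_lit 1)) (rf (nat_lit 2))))) q69740 (by decide +kernel)
def q69775 : Q := Q.p (nat_lit 0x800002080000200010800040000000000000000000000000000000000000000000000) (nat_lit 0x100000400081000277c000fe0001fc00050000000000000000000000000000000000) (nat_lit 11)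
theorem c69775 : QOK q69775 := cut [q41049, q64322, q67421, q69773] ⟨c41049, c64322, c67421, c69773, trivial⟩ (nd (nat_lit 209) (nat_lit 0) (cs (lf (nat_lit 44) (nat_lit 186)) (nd (nat_lit 181) (nat_lit 0) (cs (rf (nat_lit 0)) (cs (rf (nat_lit 1)) (cs (rf (nat_lit 2)) (rf (nat_lit 3)))))))) q69775 (by decide +kernel)
def q69862 : Q := Q.p (nat_lit 0x800002780000000010000040000000000000000000000000000000000000000000000) (nat_lit 0xc0000300001c000370000000008700021c0000700001c000050000000000000000000000000000000000) (nat_lit 12)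
theorem c69862 : QOK q69862 := cut [q17292, q44691, q68633, q51505] ⟨c17292, c44691, c68633, c51505, trivial⟩ (nd (nat_lit 225) (nat_lit 0) (cs (lf (nat_lit 23) (nat_lit 224)) (nd (nat_lit 203) (nat_lit 0) (cs (rf (nat_lit 0)) (cs (rf (nat_lit 1)) (cs (rf (nat_lit 2)) (nd (nat_lit 209) (nat_lit 0) (cs (lf (nat_lit 44) (nat_lit 186)) (nd (nat_lit 272) (nat_lit 0) (cs (lf (nat_lit 5) (nat_lit 247)) (rf (nat_lit 3)))))))))))) q69862 (by decide +kernel)
def q69901 : Q := Q.p (nat_lit 0x780000000000000000000000000000000000000000000000000000000000000) (nat_lit 0xc0000300001c000370000000003f00007c0000f00001c000050000000000000000000000000000000000) (nat_lit 11)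
theorem c69901 : QOK q69901 := cut [q17292, q44691, q51505, q68633] ⟨c17292, c44691, c51505, c68633, trivial⟩ (nd (nat_lit 183) (nat_lit 0) (cs (nd (nat_lit 272) (nat_lit 0) (cs (lf (nat_lit 5) (nat_lit 247)) (nd (nat_lit 205) (nat_lit 0) (cs (lf (nat_lit 26) (nat_lit 183)) (nd (nat_lit 228) (nat_lit 0) (cs (lf (nat_lit 45) (nat_lit 183)) (lf (nat_lit 17) (nat_lit 225)))))))) (nd (nat_lit 225) (nat_lit 0) (cs (lf (nat_lit 23) (nat_lit 224)) (nd (nat_lit 203) (nat_lit 0) (cs (rf (nat_lit 0)) (cs (rf (nat_lit 1)) (cs (rf (nat_lit 2)) (rf (nat_lit 3)))))))))) q69901 (by decide +kernel)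
def q69915 : Q := Q.p (nat_lit 0x20000080000200000000000000000000000000000000000000000000000000000000) (nat_lit 0x4000018000040000100000400001c00007000014000000000000000000000000000000000000000) (nat_lit 5)
theorem c69915 : QOK q69915 := cut [q45760, q34492, q69914] ⟨c45760, c34492, c69914, trivial⟩ (nd (nat_lit 203) (nat_lit 0) (cs (rf (nat_lit 0)) (cs (nd (nat_lit 204) (nat_lit 0) (cs (lf (nat_lit 35) (nat_lit 181)) (rf (nat_lit 1)))) (rf (nat_lit 2))))) q69915 (by decide +kernel)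
def q69924 : Q := Q.p (nat_lit 0x20000680000200000000000000000000000000000000000000000000000000000000) (nat_lit 0x140000700003c00031c000100000400001000000000000000000000000000000000000000000000000000) (nat_lit 7)
theorem c69924 : QOK q69924 := cut [q69521, q51003, q59099] ⟨c69521, c51003, c59099, trivial⟩ (nd (nat_lit 291) (nat_lit 0) (cs (rf (nat_lit 0)) (cs (nd (nat_lit 268) (nat_lit 0) (cs (lf (nat_lit 8) (nat_lit 246)) (nd (nat_lit 290) (nat_lit 0) (cs (lf (nat_lit 41) (nat_lit 224)) (rf (nat_lit 1)))))) (cs (nd (nat_lit 248) (nat_lit 0) (cs (lf (nat_lit 11) (nat_lit 246)) (rf (nat_lit 2)))) (nd (nat_lit 248) (nat_lit 0) (cs (lf (nat_lit 11) (nat_lit 246)) (nd (nat_lit 312) (nat_lit 0) (cs (lf (nat_lit 40) (nat_lit 224)) (nd (nat_lit 272) (nat_lit 0) (cs (lf (nat_lit 5) (nat_lit 247)) (nd (nat_lit 314) (nat_lit 0) (cs (lf (nat_lit 28) (nat_lit 225)) (nd (nat_lit 313) (nat_lit 0) (cs (lf (nat_lit 29) (nat_lit 247)) (lf (nat_lit 41) (nat_lit 246))))))))))))))))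 q69924 (by decide +kernel)
def q70130 : Q := Q.p (nat_lit 0x820002680004000010000040000000000000000000000000000000000000000000000) (nat_lit 0x100005c0007f8001fe000ffc0015c00017800b5e0021500004400000000000000000000000000000000000000000000) (nat_lit 12)
theorem c70130 : QOK q70130 := cut [q70070, q70072, q70079, q70085, q70101, q70104, q70100, q65753, q65752, q70128] ⟨c70070, c70072, c70079, c70085, c70101, c70104, c70100, c65753, c65752, c70128, trivial⟩ (nd (nat_lit 231) (nat_lit 0) (cs (lf (nat_lit 45) (nat_lit 186)) (nd (nat_lit 291) (nat_lit 0) (cs (rf (nat_lit 0)) (cs (nd (nat_lit 313) (nat_lit 0) (cs (nd (nat_lit 336) (nat_lit 0) (cs (lf (nat_lit 28) (nat_lit 247)) (nd (nat_lit 224) (nat_lit 0) (cs (lf (nat_lit 46) (nat_lit 224)) (rf (nat_lit 1)))))) (cs (nd (nat_lit 314) (nat_lit 0) (cs (lf (nat_lit 29) (nat_lit 247)) (nd (nat_lit 315) (nat_lit 0) (cs (nd (nat_lit 224) (nat_lit 0) (cs (lf (nat_lit 46) (nat_lit 224)) (nd (nat_lit 290) (nat_lit 0) (cs (lf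 (nat_lit 18) (nat_lit 290)) (nd (nat_lit 312) (nat_lit 0) (cs (lf (nat_lit 23) (nat_lit 289)) (lf (nat_lit 41) (nat_lit 246)))))))) (cs (nd (nat_lit 224) (nat_lit 0) (cs (lf (nat_lit 46) (nat_lit 224)) (nd (nat_lit 228) (nat_lit 0) (cs (lf (nat_lit 8) (nat_lit 227)) (nd (nat_lit 226) (nat_lit 0) (cs (lf (nat_lit 34) (nat_lit 225)) (rf (nat_lit 2)))))))) (cs (nd (nat_lit 224) (nat_lit 0) (cs (lf (nat_lit 46) (nat_lit 224)) (nd (nat_lit 228) (nat_lit 0) (cs (lf (nat_lit 8) (nat_lit 227)) (nd (nat_lit 312) (nat_lit 0) (cs (lf (nat_lit 41) (nat_lit 246)) (nd (nat_lit 293) (nat_lit 0) (cs (lf (nat_lit 17) (nat_lit 290)) (rf (nat_lit 3)))))))))) (nd (nat_lit 226) (nat_lit 0) (cs (lf (nat_lit 34) (nat_lit 225)) (nd (nat_lit 228) (nat_lit 0) (cs (lf (nat_lit 8) (nat_lit 227)) (nd (nat_lit 312) (nat_lit 0) (cs (lf (nat_lit 41) (nat_lit 246)) (nd (nat_lit 294) (nat_lit 0) (cs (lf (nat_lit 16) (nat_lit 290)) (nd (nat_lit 316) (nat_lit 0) (cs (lf (nat_lit 17) (nat_lit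 291)) (nd (nat_lit 337) (nat_lit 0) (cs (lf (nat_lit 37) (nat_lit 249)) (lf (nat_lit 5) (nat_lit 312)))))))))))))))))))) (cs (rf (nat_lit 4)) (nd (nat_lit 224) (nat_lit 0) (cs (lf (nat_lit 46) (nat_lit 224)) (rf (nat_lit 5)))))))) (cs (nd (nat_lit 313) (nat_lit 0) (cs (rf (nat_lit 6)) (cs (nd (nat_lit 312) (nat_lit 0) (cs (lf (nat_lit 41) (nat_lit 246)) (nd (nat_lit 311) (nat_lit 0) (cs (nd (nat_lit 228) (nat_lit 0) (cs (lf (nat_lit 8) (nat_lit 227)) (nd (nat_lit 292) (nat_lit 0) (cs (lf (nat_lit 12) (nat_lit 288)) (nd (nat_lit 293) (nat_lit 0) (cs (lf (nat_lit 6) (nat_lit 290)) (lf (nat_lit 9) (nat_lit 289)))))))) (cs (nd (nat_lit 314) (nat_lit 0) (cs (lf (nat_lit 29) (nat_lit 247)) (nd (nat_lit 332) (nat_lit 0) (cs (lf (nat_lit 10) (nat_lit 310)) (nd (nat_lit 310) (nat_lit 0) (cs (lf (nat_lit 11) (nat_lit 309)) (nd (nat_lit 288) (nat_lit 0) (cs (lf (nat_lit 23) (nat_lit 287)) (lf (nat_lit 22) (nat_lit 288)))))))))) (nd (nat_lit 224) (nat_lit 0) (cs (lf (nat_lit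 46) (nat_lit 224)) (nd (nat_lit 228) (nat_lit 0) (cs (lf (nat_lit 8) (nat_lit 227)) (nd (nat_lit 314) (nat_lit 0) (cs (lf (nat_lit 29) (nat_lit 247)) (nd (nat_lit 289) (nat_lit 0) (cs (lf (nat_lit 23) (nat_lit 288)) (nd (nat_lit 293) (nat_lit 0) (cs (lf (nat_lit 16) (nat_lit 289)) (nd (nat_lit 315) (nat_lit 0) (cs (lf (nat_lit 17) (nat_lit 290)) (lf (nat_lit 22) (nat_lit 289))))))))))))))))))) (cs (nd (nat_lit 336) (nat_lit 0) (cs (lf (nat_lit 28) (nat_lit 247)) (nd (nat_lit 228) (nat_lit 0) (cs (lf (nat_lit 8) (nat_lit 227)) (rf (nat_lit 7)))))) (nd (nat_lit 228) (nat_lit 0) (cs (lf (nat_lit 8) (nat_lit 227)) (nd (nat_lit 334) (nat_lit 0) (cs (lf (nat_lit 40) (nat_lit 246)) (nd (nat_lit 335) (nat_lit 0) (cs (lf (nat_lit 41) (nat_lit 268)) (rf (nat_lit 8)))))))))))) (rf (nat_lit 9)))))))) q70130 (by decide +kernel)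
def q70175 : Q := Q.p (nat_lit 0x820002680004000010000040000000000000000000000000000000000000000000000) (nat_lit 0x100000700003c0001f00007e00035c00014000b600021c00007000004000000000000000000000000000000000000000) (nat_lit 12)
theorem c70175 : QOK q70175 := cut [q70128, q70139, q70143, q70144, q70100, q70104, q49520, q70101, q48896, q70151, q70155, q59174, q49593, q70161] ⟨c70128, c70139, c70143, c70144, c70100, c70104, c49520, c70101, c48896, c70151, c70155, c59174, c49593, c70161, trivial⟩ (nd (nat_lit 231) (nat_lit 0) (cs (lf (nat_lit 45) (nat_lit 186)) (nd (nat_lit 291) (nat_lit 0) (cs (rf (nat_lit 0)) (cs (nd (nat_lit 292) (nat_lit 0) (cs (nd (nat_lit 225) (nat_lit 0) (cs (lf (nat_lit 29) (nat_lit 225)) (nd (nat_lit 290) (nat_lit 0) (cs (lf (nat_lit 41) (nat_lit 224)) (rf (nat_lit 1)))))) (cs (rf (nat_lit 2)) (nd (nat_lit 248) (nat_lit 0) (cs (lf (nat_lit 11) (nat_lit 246)) (nd (nat_lit 228) (nat_lit 0) (cs (lf (nat_lit 17) (nat_lit 225)) (rf (nat_lit 3)))))))))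 (cs (nd (nat_lit 313) (nat_lit 0) (cs (rf (nat_lit 4)) (cs (rf (nat_lit 5)) (nd (nat_lit 228) (nat_lit 0) (cs (lf (nat_lit 8) (nat_lit 227)) (rf (nat_lit 6))))))) (cs (nd (nat_lit 313) (nat_lit 0) (cs (rf (nat_lit 7)) (cs (nd (nat_lit 228) (nat_lit 0) (cs (lf (nat_lit 8) (nat_lit 227)) (rf (nat_lit 8)))) (cs (rf (nat_lit 9)) (rf (nat_lit 10)))))) (cs (nd (nat_lit 228) (nat_lit 0) (cs (lf (nat_lit 8) (nat_lit 227)) (nd (nat_lit 248) (nat_lit 0) (cs (lf (nat_lit 11) (nat_lit 246)) (nd (nat_lit 272) (nat_lit 0) (cs (lf (nat_lit 5) (nat_lit 247)) (rf (nat_lit 11)))))))) (nd (nat_lit 313) (nat_lit 0) (cs (rf (nat_lit 12)) (cs (rf (nat_lit 7)) (cs (rf (nat_lit 9)) (cs (nd (nat_lit 248) (nat_lit 0) (cs (lf (nat_lit 11) (nat_lit 246)) (nd (nat_lit 228) (nat_lit 0) (cs (lf (nat_lit 17) (nat_lit 225)) (nd (nat_lit 272) (nat_lit 0) (cs (lf (nat_lit 5) (nat_lit 247)) (nd (nat_lit 314) (nat_lit 0) (cs (lf (nat_lit 29) (nat_lit 247)) (rf (nat_lit 13)))))))))) (nd (nat_lit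 312) (nat_lit 0) (cs (lf (nat_lit 41) (nat_lit 246)) (nd (nat_lit 225) (nat_lit 0) (cs (lf (nat_lit 40) (nat_lit 224)) (nd (nat_lit 248) (nat_lit 0) (cs (lf (nat_lit 11) (nat_lit 246)) (nd (nat_lit 228) (nat_lit 0) (cs (lf (nat_lit 17) (nat_lit 225)) (nd (nat_lit 272) (nat_lit 0) (cs (lf (nat_lit 5) (nat_lit 247)) (nd (nat_lit 292) (nat_lit 0) (cs (lf (nat_lit 29) (nat_lit 225)) (nd (nat_lit 270) (nat_lit 0) (cs (lf (nat_lit 24) (nat_lit 203)) (lf (nat_lit 30) (nat_lit 247))))))))))))))))))))))))))))) q70175 (by decide +kernel)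
def q70254 : Q := Q.p (nat_lit 0x1e0000600000000000000000000000000000000000000000000000000000000000000) (nat_lit 0xe0000f80000f0000000000000001000000000000000000000000000000000000000000000000000000000) (nat_lit 7)
theorem c70254 : QOK q70254 := cut [q70253] ⟨c70253, trivial⟩ (nd (nat_lit 294) (nat_lit 0) (cs (lf (nat_lit 5) (nat_lit 269)) (rf (nat_lit 0)))) q70254 (by decide +kernel)
def q70261 : Q := Q.p (nat_lit 0x980000600000000000000000000000000000000000000000000000000000000000000) (nat_lit 0x80000200001c00006700001c0001000004000000000000000000000000000000000000000000000000000) (nat_lit 6)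
theorem c70261 : QOK q70261 := cut [q57083, q61550] ⟨c57083, c61550, trivial⟩ (nd (nat_lit 273) (nat_lit 0) (cs (lf (nat_lit 19) (nat_lit 249)) (nd (nat_lit 270) (nat_lit 0) (cs (rf (nat_lit 0)) (rf (nat_lit 1)))))) q70261 (by decide +kernel)
def q70262 : Q := Q.p (nat_lit 0x980002680000000010000040000000000000000000000000000000000000000000000) (nat_lit 0x20000000001140007000004000010000000000000000000000000000000000000000000000) (nat_lit 5)
theorem c70262 : QOK q70262 := cut [q52054] ⟨c52054, trivial⟩ (nd (nat_lit 230) (nat_lit 0) (cs (lf (nat_lit 27) (nat_lit 186)) (rf (nat_lit 0)))) q70262 (by decide +kernel)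
def q70269 : Q := Q.p (nat_lit 0x280009a0002080000000010000040000000000000000000000000000000000000000000000) (nat_lit 0x1000014000010001000004600001800004000000000000000000000000000000000000000000000) (nat_lit 6)
theorem c70269 : QOK q70269 := cut [q70268] ⟨c70268, trivial⟩ (nd (nat_lit 230) (nat_lit 0) (cs (lf (nat_lit 27) (nat_lit 186)) (rf (nat_lit 0)))) q70269 (by decide +kernel)
def q70296 : Q := Q.p (nat_lit 0x9a0002600000000010000040000000000000000000000000000000000000000000000) (nat_lit 0xe0000380000fc000050001000005000000000000000000000000000000000000000000000000000000000) (nat_lit 9)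
theorem c70296 : QOK q70296 := cut [q70295] ⟨c70295, trivial⟩ (nd (nat_lit 230) (nat_lit 0) (cs (lf (nat_lit 27) (nat_lit 186)) (rf (nat_lit 0)))) q70296 (by decide +kernel)
def q70338 : Q := Q.p (nat_lit 0x60000980002400000000010000040000000000000000000000000000000000000000000000) (nat_lit 0x20000180000600001000005000004000000000000000000000000000000000000000000000000000) (nat_lit 5)
theorem c70338 : QOK q70338 := cut [q70337] ⟨c70337, trivial⟩ (nd (nat_lit 230) (nat_lit 0) (cs (lf (nat_lit 27) (nat_lit 186)) (rf (nat_lit 0)))) q70338 (by decide +kernel)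
def q70352 : Q := Q.p (nat_lit 0x980002700000000010000040000000000000000000000000000000000000000000000) (nat_lit 0x200000300010c0007300004000010000000000000000000000000000000000000000000000) (nat_lit 7)
theorem c70352 : QOK q70352 := cut [q70349] ⟨c70349, trivial⟩ (nd (nat_lit 247) (nat_lit 0) (cs (lf (nat_lit 0) (nat_lit 246)) (nd (nat_lit 230) (nat_lit 0) (cs (lf (nat_lit 27) (nat_lit 186)) (nd (nat_lit 268) (nat_lit 0) (cs (lf (nat_lit 10) (nat_lit 246)) (rf (nat_lit 0)))))))) q70352 (by decide +kernel)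
def q70447 : Q := Q.p (nat_lit 0x860002080000200010000040000000000000000000000000000000000000000000000) (nat_lit 0x10000000001000004000001c00007000014000000000000000000000000000000000000000) (nat_lit 6)
theorem c70447 : QOK q70447 := cut [q47043] ⟨c47043, trivial⟩ (nd (nat_lit 230) (nat_lit 0) (cs (lf (nat_lit 27) (nat_lit 186)) (rf (nat_lit 0)))) q70447 (by decide +kernel)
def q70448 : Q := Q.p (nat_lit 0x820002080000200010800040000000000000000000000000000000000000000000000) (nat_lit 0x4000010001040004000000400003000004000000000000000000000000000000000000000) (nat_lit 5)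
theorem c70448 : QOK q70448 := cut [q45689] ⟨c45689, trivial⟩ (nd (nat_lit 230) (nat_lit 0) (cs (lf (nat_lit 27) (nat_lit 186)) (rf (nat_lit 0)))) q70448 (by decide +kernel)
def q70458 : Q := Q.p (nat_lit 0x900002680000000010000040000000000000000000000000000000000000000000000) (nat_lit 0x280001140004380000000000000000000000000000000000000000000000000000000) (nat_lit 5)
theorem c70458 : QOK q70458 := cut [q44818] ⟨c44818, trivial⟩ (nd (nat_lit 230) (nat_lit 0) (cs (lf (nat_lit 27) (nat_lit 186)) (rf (nat_lit 0)))) q70458 (by decide +kernel)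
def q70465 : Q := Q.p (nat_lit 0x280001a0000080000000000000000000000000000000000000000000000000000000000000) (nat_lit 0x1000014000000000000000700001c00005000000000000000000000000000000000000000000000) (nat_lit 6)
theorem c70465 : QOK q70465 := cut [q70464] ⟨c70464, trivial⟩ (nd (nat_lit 290) (nat_lit 0) (cs (lf (nat_lit 14) (nat_lit 268)) (rf (nat_lit 0)))) q70465 (by decide +kernel)
def q70496 : Q := Q.p (nat_lit 0x9a0002680000000010000040000000000000000000000000000000000000000000000) (nat_lit 0xe0000fc0000fc000240001000005200004800010000000000000000000000000000000000000000000000) (nat_lit 9)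
theorem c70496 : QOK q70496 := cut [q70253, q70305, q70453] ⟨c70253, c70305, c70453, trivial⟩ (nd (nat_lit 294) (nat_lit 0) (cs (rf (nat_lit 0)) (cs (rf (nat_lit 1)) (nd (nat_lit 230) (nat_lit 0) (cs (lf (nat_lit 27) (nat_lit 186)) (nd (nat_lit 316) (nat_lit 0) (cs (lf (nat_lit 42) (nat_lit 249)) (nd (nat_lit 270) (nat_lit 0) (cs (lf (nat_lit 5) (nat_lit 269)) (nd (nat_lit 291) (nat_lit 0) (cs (lf (nat_lit 11) (nat_lit 268)) (nd (nat_lit 315) (nat_lit 0) (cs (lf (nat_lit 41) (nat_lit 249)) (rf (nat_lit 2))))))))))))))) q70496 (by decide +kernel)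
def q70504 : Q := Q.p (nat_lit 0x820002780000000010000040000000000000000000000000000000000000000000000) (nat_lit 0x2000018000040001040004780001800006000000000000000000000000000000000000000000000) (nat_lit 7)
theorem c70504 : QOK q70504 := cut [q70190, q70502, q70503] ⟨c70190, c70502, c70503, trivial⟩ (nd (nat_lit 291) (nat_lit 0) (cs (rf (nat_lit 0)) (cs (rf (nat_lit 1)) (rf (nat_lit 2))))) q70504 (by decide +kernel)
def q70524 : Q := Q.p (nat_lit 0x920002780000000010000040000000000000000000000000000000000000000000000) (nat_lit 0x500001c0000700003c0000c0001000007700001000004000000000000000000000000000000000000000000000) (nat_lit 9)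
theorem c70524 : QOK q70524 := cut [q45489, q70521] ⟨c45489, c70521, trivial⟩ (nd (nat_lit 291) (nat_lit 0) (cs (rf (nat_lit 0)) (cs (nd (nat_lit 228) (nat_lit 0) (cs (lf (nat_lit 17) (nat_lit 225)) (nd (nat_lit 225) (nat_lit 0) (cs (lf (nat_lit 23) (nat_lit 224)) (nd (nat_lit 230) (nat_lit 0) (cs (lf (nat_lit 27) (nat_lit 186)) (nd (nat_lit 290) (nat_lit 0) (cs (lf (nat_lit 41) (nat_lit 224)) (nd (nat_lit 292) (nat_lit 0) (cs (lf (nat_lit 29) (nat_lit 225)) (nd (nat_lit 271) (nat_lit 0) (cs (lf (nat_lit 15) (nat_lit 268)) (lf (nat_lit 8) (nat_lit 268)))))))))))))) (nd (nat_lit 224) (nat_lit 0) (cs (lf (nat_lit 22) (nat_lit 224)) (nd (nat_lit 228) (nat_lit 0) (cs (lf (nat_lit 17) (nat_lit 225)) (rf (nat_lit 1))))))))) q70524 (by decide +kernel)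
def q70554 : Q := Q.p (nat_lit 0x8000820002080000200010000040000000000000000000000000000000000000000000000) (nat_lit 0x400003000004000000001040004500001400000000000000000000000000000000000000000000000000) (nat_lit 6)
theorem c70554 : QOK q70554 := cut [q70553] ⟨c70553, trivial⟩ (nd (nat_lit 230) (nat_lit 0) (cs (lf (nat_lit 27) (nat_lit 186)) (rf (nat_lit 0)))) q70554 (by decide +kernel)
def q70558 : Q := Q.p (nat_lit 0x820002080000200010000040000000000000000000000000000000000000000000000) (nat_lit 0x140000700001c000000001000004500001c00005000000000000000000000000000000000000000000000) (nat_lit 6)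
theorem c70558 : QOK q70558 := cut [q46785, q70551] ⟨c46785, c70551, trivial⟩ (nd (nat_lit 291) (nat_lit 0) (cs (rf (nat_lit 0)) (rf (nat_lit 1)))) q70558 (by decide +kernel)
def q70562 : Q := Q.p (nat_lit 0x820002080000200010000040000000000000000000000000000000000000000000000) (nat_lit 0x140000700001c000050001000004400001800004000000000000000000000000000000000000000000000) (nat_lit 6)
theorem c70562 : QOK q70562 := cut [q70551, q70559, q70561] ⟨c70551, c70559, c70561, trivial⟩ (nd (nat_lit 291) (nat_lit 0) (cs (rf (nat_lit 0)) (cs (rf (nat_lit 1)) (rf (nat_lit 2))))) q70562 (by decide +kernel)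
def q70563 : Q := Q.p (nat_lit 0x8000820002080000200010000040000000000000000000000000000000000000000000000) (nat_lit 0x1000004000010001000004100000c00001000000000000000000000000000000000000000000000) (nat_lit 5)
theorem c70563 : QOK q70563 := cut [q48829] ⟨c48829, trivial⟩ (nd (nat_lit 230) (nat_lit 0) (cs (lf (nat_lit 27) (nat_lit 186)) (rf (nat_lit 0)))) q70563 (by decide +kernel)
def q70568 : Q := Q.p (nat_lit 0x8000020000080000000000000000000000000000000000000000000000000000000000000) (nat_lit 0x500001c00007000014000000000040000300000400000000000000000000000000000000000000000000000000) (nat_lit 5)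
theorem c70568 : QOK q70568 := cut [q48857, q49160, q70100] ⟨c48857, c49160, c70100, trivial⟩ (nd (nat_lit 313) (nat_lit 0) (cs (rf (nat_lit 0)) (cs (rf (nat_lit 1)) (rf (nat_lit 2))))) q70568 (by decide +kernel)
def q70620 : Q := Q.p (nat_lit 0x8000820002080000000010000040000000000000000000000000000000000000000000000) (nat_lit 0x100000700001c0000700003400001c001040004600001c00007000004000000000000000000000000000000000000000) (nat_lit 10)
theorem c70620 : QOK q70620 := cut [q70100, q70612, q70613, q70619] ⟨c70100, c70612, c70613, c70619, trivial⟩ (nd (nat_lit 313) (nat_lit 0) (cs (rf (nat_lit 0)) (cs (rf (nat_lit 1)) (cs (rf (nat_lit 2)) (rf (nat_lit 3)))))) q70620 (by decide +kernel)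
def q70629 : Q := Q.p (nat_lit 0x980002600000000010000040000000000000000000000000000000000000000000000) (nat_lit 0x800002000000000100000f0000e40000b8000000000000000000000000000000000000000000000) (nat_lit 7)
theorem c70629 : QOK q70629 := cut [q52052, q70625, q66727] ⟨c52052, c70625, c66727, trivial⟩ (nd (nat_lit 228) (nat_lit 0) (cs (rf (nat_lit 0)) (cs (nd (nat_lit 209) (nat_lit 0) (cs (lf (nat_lit 44) (nat_lit 186)) (nd (nat_lit 230) (nat_lit 0) (cs (lf (nat_lit 27) (nat_lit 186)) (rf (nat_lit 1)))))) (nd (nat_lit 293) (nat_lit 0) (cs (lf (nat_lit 30) (nat_lit 227)) (rf (nat_lit 2))))))) q70629 (by decide +kernel)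
def q70648 : Q := Q.p (nat_lit 0x40000180000600000000030000040000000000000000000000000000000000000000000000) (nat_lit 0xe0000380000200000000000000010000c40000b8000000000000000000000000000000000000000000000) (nat_lit 8)
theorem c70648 : QOK q70648 := cut [q70625] ⟨c70625, trivial⟩ (nd (nat_lit 316) (nat_lit 0) (cs (lf (nat_lit 42) (nat_lit 249)) (nd (nat_lit 315) (nat_lit 0) (cs (lf (nat_lit 41) (nat_lit 249)) (nd (nat_lit 228) (nat_lit 0) (cs (lf (nat_lit 40) (nat_lit 227)) (nd (nat_lit 317) (nat_lit 0) (cs (lf (nat_lit 29) (nat_lit 250)) (rf (nat_lit 0)))))))))) q70648 (by decide +kernel)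
def q70750 : Q := Q.p (nat_lit 0x930002080000000010000040000000000000000000000000000000000000000000000) (nat_lit 0x600001e0000fe0007f80008e001060004380000e00000000000000000000000000000000000000000000000000) (nat_lit 9)
theorem c70750 : QOK q70750 := cut [q69992, q70571, q70722, q50636, q70734, q70749] ⟨c69992, c70571, c70722, c50636, c70734, c70749, trivial⟩ (nd (nat_lit 290) (nat_lit 0) (cs (rf (nat_lit 0)) (cs (nd (nat_lit 225) (nat_lit 0) (cs (lf (nat_lit 36) (nat_lit 202)) (nd (nat_lit 291) (nat_lit 0) (cs (rf (nat_lit 1)) (cs (nd (nat_lit 230) (nat_lit 0) (cs (lf (nat_lit 27) (nat_lit 186)) (rf (nat_lit 2)))) (nd (nat_lit 266) (nat_lit 0) (cs (nd (nat_lit 224) (nat_lit 0) (cs (lf (nat_lit 47) (nat_lit 202)) (nd (nat_lit 246) (nat_lit 0) (cs (lf (nat_lit 42) (nat_lit 224)) (rf (nat_lit 3)))))) (nd (nat_lit 230) (nat_lit 0) (cs (lf (nat_lit 27) (nat_lit 186)) (nd (nat_lit 292) (nat_lit 0) (cs (lf (nat_lit 1) (nat_lit 266)) (nd (nat_lit 293) (nat_lit 0) (cs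 (lf (nat_lit 16) (nat_lit 268)) (lf (nat_lit 18) (nat_lit 268))))))))))))))) (cs (rf (nat_lit 4)) (rf (nat_lit 5)))))) q70750 (by decide +kernel)
def q70758 : Q := Q.p (nat_lit 0x830002080000000010000040000000000000000000000000000000000000000000000) (nat_lit 0x1e0000fe0003f80004c001060004380000e00000000000000000000000000000000000000000000000000) (nat_lit 9)
theorem c70758 : QOK q70758 := cut [q69992, q70734, q70749, q50585, q69984] ⟨c69992, c70734, c70749, c50585, c69984, trivial⟩ (nd (nat_lit 290) (nat_lit 0) (cs (rf (nat_lit 0)) (cs (rf (nat_lit 1)) (cs (rf (nat_lit 2)) (nd (nat_lit 225) (nat_lit 0) (cs (lf (nat_lit 36) (nat_lit 202)) (nd (nat_lit 291) (nat_lit 0) (cs (rf (nat_lit 3)) (nd (nat_lit 230) (nat_lit 0) (cs (lf (nat_lit 27) (nat_lit 186)) (rf (nat_lit 4)))))))))))) q70758 (by decide +kernel)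
def q70782 : Q := Q.p (nat_lit 0x830002600000000010000040000000000000000000000000000000000000000000000) (nat_lit 0x500001c0000700001c0003f8000cc001078004180000400000000000000000000000000000000000000000000000000) (nat_lit 10)
theorem c70782 : QOK q70782 := cut [q69691, q70716, q70762, q70780] ⟨c69691, c70716, c70762, c70780, trivial⟩ (nd (nat_lit 270) (nat_lit 0) (cs (lf (nat_lit 15) (nat_lit 246)) (nd (nat_lit 267) (nat_lit 0) (cs (rf (nat_lit 0)) (cs (nd (nat_lit 230) (nat_lit 0) (cs (lf (nat_lit 27) (nat_lit 186)) (rf (nat_lit 1)))) (cs (nd (nat_lit 230) (nat_lit 0) (cs (lf (nat_lit 27) (nat_lit 186)) (rf (nat_lit 2)))) (rf (nat_lit 3)))))))) q70782 (by decide +kernel)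
def q70797 : Q := Q.p (nat_lit 0x200001a0000680000000000000000000000000000000000000000000000000000000000000) (nat_lit 0x500005c0003700005c000010000040001700007c00004000000000000000000000000000000000000000000000) (nat_lit 8)
theorem c70797 : QOK q70797 := cut [q70267, q70268, q70272] ⟨c70267, c70268, c70272, trivial⟩ (nd (nat_lit 291) (nat_lit 0) (cs (rf (nat_lit 0)) (cs (rf (nat_lit 1)) (rf (nat_lit 2))))) q70797 (by decide +kernel)
def q70819 : Q := Q.p (nat_lit 0x80009a0002080000000010000040000000000000000000000000000000000000000000000) (nat_lit 0x1000004000040001000004700001c00005000000000000000000000000000000000000000000000) (nat_lit 7)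
theorem c70819 : QOK q70819 := cut [q70464] ⟨c70464, trivial⟩ (nd (nat_lit 290) (nat_lit 0) (cs (lf (nat_lit 8) (nat_lit 268)) (nd (nat_lit 230) (nat_lit 0) (cs (lf (nat_lit 27) (nat_lit 186)) (rf (nat_lit 0)))))) q70819 (by decide +kernel)
def q70833 : Q := Q.p (nat_lit 0x8000820002080000000010000040000000000000000000000000000000000000000000000) (nat_lit 0x1400007000014000000001000004700001c00005000000000000000000000000000000000000000000000) (nat_lit 6)
theorem c70833 : QOK q70833 := cut [q46785, q70551] ⟨c46785, c70551, trivial⟩ (nd (nat_lit 225) (nat_lit 0) (cs (rf (nat_lit 0)) (rf (nat_lit 1)))) q70833 (by decide +kernel)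
def q70834 : Q := Q.p (nat_lit 0x8000820002680000000010000040000000000000000000000000000000000000000000000) (nat_lit 0x4000010000040001100004700001c00004000000000000000000000000000000000000000000000) (nat_lit 6)
theorem c70834 : QOK q70834 := cut [q46580, q70559] ⟨c46580, c70559, trivial⟩ (nd (nat_lit 225) (nat_lit 0) (cs (rf (nat_lit 0)) (rf (nat_lit 1)))) q70834 (by decide +kernel)
def q70882 : Q := Q.p (nat_lit 0x1e0000600000000000000000000000000000000000000000000000000000000000000) (nat_lit 0x80000200003c0000000001c0003700005000010000000000000000000000000000000000000000000000) (nat_lit 6)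
theorem c70882 : QOK q70882 := cut [q46619, q70349] ⟨c46619, c70349, trivial⟩ (nd (nat_lit 248) (nat_lit 0) (cs (rf (nat_lit 0)) (nd (nat_lit 247) (nat_lit 0) (cs (lf (nat_lit 23) (nat_lit 246)) (rf (nat_lit 1)))))) q70882 (by decide +kernel)
def q70951 : Q := Q.p (nat_lit 0x920002600008000010000040000000000000000000000000000000000000000000000) (nat_lit 0x280000fc0003f0001fc0004d0001100007000004000010000000000000000000000000000000000000000000000) (nat_lit 12)
theorem c70951 : QOK q70951 := cut [q14127, q52052, q14507, q47071, q70914, q14179, q70933, q70937, q52293, q41487] ⟨c14127, c52052, c14507, c47071, c70914, c14179, c70933, c70937, c52293, c41487, trivial⟩ (nd (nat_lit 294) (nat_lit 0) (cs (nd (nat_lit 230) (nat_lit 0) (cs (lf (nat_lit 27) (nat_lit 186)) (nd (nat_lit 228) (nat_lit 0) (cs (lf (nat_lit 8) (nat_lit 227)) (nd (nat_lit 317) (nat_lit 0) (cs (lf (nat_lit 28) (nat_lit 228)) (nd (nat_lit 316) (nat_lit 0) (cs (lf (nat_lit 29) (nat_lit 250)) (rf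 (nat_lit 0)))))))))) (cs (nd (nat_lit 230) (nat_lit 0) (cs (lf (nat_lit 27) (nat_lit 186)) (nd (nat_lit 228) (nat_lit 0) (cs (lf (nat_lit 8) (nat_lit 227)) (nd (nat_lit 295) (nat_lit 0) (cs (lf (nat_lit 29) (nat_lit 228)) (nd (nat_lit 271) (nat_lit 0) (cs (lf (nat_lit 1) (nat_lit 269)) (rf (nat_lit 1)))))))))) (cs (nd (nat_lit 230) (nat_lit 0) (cs (lf (nat_lit 27) (nat_lit 186)) (nd (nat_lit 228) (nat_lit 0) (cs (lf (nat_lit 8) (nat_lit 227)) (nd (nat_lit 293) (nat_lit 0) (cs (lf (nat_lit 41) (nat_lit 227)) (nd (nat_lit 295) (nat_lit 0) (cs (lf (nat_lit 29) (nat_lit 228)) (nd (nat_lit 292) (nat_lit 0) (cs (lf (nat_lit 22) (nat_lit 269)) (nd (nat_lit 274) (nat_lit 0) (cs (lf (nat_lit 15) (nat_lit 271)) (rf (nat_lit 2)))))))))))))) (cs (nd (nat_lit 230) (nat_lit 0) (cs (lf (nat_lit 27) (nat_lit 186)) (nd (nat_lit 228) (nat_lit 0) (cs (lf (nat_lit 8) (nat_lit 227)) (nd (nat_lit 293) (nat_lit 0) (cs (lf (nat_lit 41) (nat_lit 227)) (nd (nat_lit 271) (nat_lit 0)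 (cs (lf (nat_lit 36) (nat_lit 205)) (rf (nat_lit 3)))))))))) (cs (nd (nat_lit 230) (nat_lit 0) (cs (lf (nat_lit 27) (nat_lit 186)) (nd (nat_lit 228) (nat_lit 0) (cs (lf (nat_lit 8) (nat_lit 227)) (nd (nat_lit 293) (nat_lit 0) (cs (lf (nat_lit 41) (nat_lit 227)) (nd (nat_lit 271) (nat_lit 0) (cs (lf (nat_lit 36) (nat_lit 205)) (rf (nat_lit 4)))))))))) (cs (nd (nat_lit 316) (nat_lit 0) (cs (rf (nat_lit 0)) (cs (nd (nat_lit 315) (nat_lit 0) (cs (lf (nat_lit 41) (nat_lit 249)) (nd (nat_lit 314) (nat_lit 0) (cs (nd (nat_lit 230) (nat_lit 0) (cs (lf (nat_lit 27) (nat_lit 186)) (nd (nat_lit 317) (nat_lit 0) (cs (lf (nat_lit 29) (nat_lit 250)) (nd (nat_lit 291) (nat_lit 0) (cs (lf (nat_lit 22) (nat_lit 291)) (nd (nat_lit 336) (nat_lit 0) (cs (lf (nat_lit 11) (nat_lit 313)) (nd (nat_lit 295) (nat_lit 0) (cs (lf (nat_lit 17) (nat_lit 292)) (nd (nat_lit 271) (nat_lit 0) (cs (lf (nat_lit 38) (nat_lit 248)) (lf (nat_lit 1) (nat_lit 269)))))))))))))) (cs (nd (nat_lit 295)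 (nat_lit 0) (cs (lf (nat_lit 12) (nat_lit 291)) (nd (nat_lit 293) (nat_lit 0) (cs (lf (nat_lit 6) (nat_lit 292)) (nd (nat_lit 270) (nat_lit 0) (cs (lf (nat_lit 21) (nat_lit 269)) (lf (nat_lit 2) (nat_lit 269)))))))) (cs (nd (nat_lit 295) (nat_lit 0) (cs (lf (nat_lit 12) (nat_lit 291)) (nd (nat_lit 317) (nat_lit 0) (cs (lf (nat_lit 29) (nat_lit 250)) (lf (nat_lit 17) (nat_lit 292)))))) (nd (nat_lit 230) (nat_lit 0) (cs (lf (nat_lit 27) (nat_lit 186)) (rf (nat_lit 5)))))))))) (cs (nd (nat_lit 317) (nat_lit 0) (cs (lf (nat_lit 29) (nat_lit 250)) (rf (nat_lit 6)))) (rf (nat_lit 7)))))) (nd (nat_lit 315) (nat_lit 0) (cs (rf (nat_lit 8)) (cs (nd (nat_lit 316) (nat_lit 0) (cs (lf (nat_lit 41) (nat_lit 249)) (rf (nat_lit 6)))) (cs (nd (nat_lit 228) (nat_lit 0) (cs (lf (nat_lit 40) (nat_lit 227)) (nd (nat_lit 317) (nat_lit 0) (cs (lf (nat_lit 28) (nat_lit 228)) (nd (nat_lit 316) (nat_lit 0) (cs (lf (nat_lit 29) (nat_lit 250)) (nd (nat_lit 271) (nat_lit 0) (cs (lf (nat_lit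 42) (nat_lit 249)) (nd (nat_lit 270) (nat_lit 0) (cs (lf (nat_lit 12) (nat_lit 246)) (nd (nat_lit 291) (nat_lit 0) (cs (lf (nat_lit 11) (nat_lit 268)) (nd (nat_lit 314) (nat_lit 0) (cs (lf (nat_lit 22) (nat_lit 291)) (nd (nat_lit 335) (nat_lit 0) (cs (lf (nat_lit 10) (nat_lit 313)) (nd (nat_lit 313) (nat_lit 0) (cs (lf (nat_lit 11) (nat_lit 312)) (lf (nat_lit 35) (nat_lit 247)))))))))))))))))))) (nd (nat_lit 316) (nat_lit 0) (cs (lf (nat_lit 41) (nat_lit 249)) (rf (nat_lit 9))))))))))))))) q70951 (by decide +kernel)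
def q70957 : Q := Q.p (nat_lit 0x820002680008200010800040000000000000000000000000000000000000000000000) (nat_lit 0x10000040001100007000000400003000004000000000000000000000000000000000000000) (nat_lit 6)
theorem c70957 : QOK q70957 := cut [q69914] ⟨c69914, trivial⟩ (nd (nat_lit 230) (nat_lit 0) (cs (lf (nat_lit 27) (nat_lit 186)) (nd (nat_lit 228) (nat_lit 0) (cs (lf (nat_lit 8) (nat_lit 227)) (rf (nat_lit 0)))))) q70957 (by decide +kernel)
def q70977 : Q := Q.p (nat_lit 0x820002680008200010000040000000000000000000000000000000000000000000000) (nat_lit 0x8000000001140007100000400001000004000000000000000000000000000000000000000) (nat_lit 6)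
theorem c70977 : QOK q70977 := cut [q70003] ⟨c70003, trivial⟩ (nd (nat_lit 230) (nat_lit 0) (cs (lf (nat_lit 27) (nat_lit 186)) (nd (nat_lit 228) (nat_lit 0) (cs (lf (nat_lit 8) (nat_lit 227)) (rf (nat_lit 0)))))) q70977 (by decide +kernel)
def q71024 : Q := Q.p (nat_lit 0x8000920002680008000010000040000000000000000000000000000000000000000000000) (nat_lit 0x500007c0001f800077000010001040007100000000000000000000000000000000000000000000000000000000) (nat_lit 10)
theorem c71024 : QOK q71024 := cut [q70100, q70580, q70597, q71019] ⟨c70100, c70580, c70597, c71019, trivial⟩ (nd (nat_lit 313) (nat_lit 0) (cs (rf (nat_lit 0)) (cs (rf (nat_lit 1)) (cs (rf (nat_lit 2)) (rf (nat_lit 3)))))) q71024 (by decide +kernel)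
def q71148 : Q := Q.p (nat_lit 0x8000000000920002680008000010000040000000000000000000000000000000000000000000000) (nat_lit 0x50003ff000778001cf000490001140007600004000010000000000000000000000000000000000000000000000) (nat_lit 10)
theorem c71148 : QOK q71148 := cut [q17422, q62974, q71119, q61892, q47118, q66726] ⟨c17422, c62974, c71119, c61892, c47118, c66726, trivial⟩ (nd (nat_lit 316) (nat_lit 0) (cs (nd (nat_lit 248) (nat_lit 0) (cs (lf (nat_lit 11) (nat_lit 246)) (nd (nat_lit 271) (nat_lit 0) (cs (lf (nat_lit 0) (nat_lit 246)) (nd (nat_lit 228) (nat_lit 0) (cs (lf (nat_lit 17) (nat_lit 225)) (nd (nat_lit 184) (nat_lit 0) (cs (lf (nat_lit 37) (nat_lit 183)) (nd (nat_lit 294) (nat_lit 0) (cs (rf (nat_lit 0)) (lf (nat_lit 42) (nat_lit 249)))))))))))) (cs (nd (nat_lit 294) (nat_lit 0) (cs (lf (nat_lit 41) (nat_lit 249)) (nd (nat_lit 317) (nat_lit 0) (cs (lf (nat_lit 29) (nat_lit 250)) (nd (nat_lit 228) (nat_lit 0) (cs (lf (nat_lit 28) (nat_lit 228)) (nd (nat_lit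 229) (nat_lit 0) (cs (lf (nat_lit 7) (nat_lit 227)) (lf (nat_lit 13) (nat_lit 225)))))))))) (cs (nd (nat_lit 248) (nat_lit 0) (cs (lf (nat_lit 11) (nat_lit 246)) (nd (nat_lit 313) (nat_lit 0) (cs (nd (nat_lit 246) (nat_lit 0) (cs (lf (nat_lit 4) (nat_lit 246)) (nd (nat_lit 228) (nat_lit 0) (cs (lf (nat_lit 17) (nat_lit 225)) (nd (nat_lit 230) (nat_lit 0) (cs (lf (nat_lit 27) (nat_lit 186)) (nd (nat_lit 291) (nat_lit 0) (cs (lf (nat_lit 35) (nat_lit 225)) (nd (nat_lit 314) (nat_lit 0) (cs (lf (nat_lit 23) (nat_lit 290)) (lf (nat_lit 29) (nat_lit 247)))))))))))) (cs (nd (nat_lit 246) (nat_lit 0) (cs (lf (nat_lit 4) (nat_lit 246)) (nd (nat_lit 228) (nat_lit 0) (cs (lf (nat_lit 17) (nat_lit 225)) (nd (nat_lit 291) (nat_lit 0) (cs (lf (nat_lit 35) (nat_lit 225)) (nd (nat_lit 334) (nat_lit 0) (cs (lf (nat_lit 40) (nat_lit 246)) (nd (nat_lit 335) (nat_lit 0) (cs (lf (nat_lit 41) (nat_lit 268)) (nd (nat_lit 336) (nat_lit 0) (cs (lf (nat_lit 29) (nat_lit 269)) (lf (nat_lit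 15) (nat_lit 312)))))))))))))) (cs (nd (nat_lit 314) (nat_lit 0) (cs (rf (nat_lit 1)) (cs (nd (nat_lit 335) (nat_lit 0) (cs (lf (nat_lit 11) (nat_lit 312)) (nd (nat_lit 317) (nat_lit 0) (cs (lf (nat_lit 10) (nat_lit 313)) (rf (nat_lit 2)))))) (cs (nd (nat_lit 317) (nat_lit 0) (cs (rf (nat_lit 3)) (cs (rf (nat_lit 2)) (nd (nat_lit 230) (nat_lit 0) (cs (lf (nat_lit 27) (nat_lit 186)) (nd (nat_lit 336) (nat_lit 0) (cs (lf (nat_lit 11) (nat_lit 313)) (nd (nat_lit 337) (nat_lit 0) (cs (lf (nat_lit 6) (nat_lit 314)) (nd (nat_lit 312) (nat_lit 0) (cs (lf (nat_lit 5) (nat_lit 312)) (lf (nat_lit 0) (nat_lit 311))))))))))))) (nd (nat_lit 334) (nat_lit 0) (cs (lf (nat_lit 10) (nat_lit 312)) (nd (nat_lit 312) (nat_lit 0) (cs (lf (nat_lit 11) (nat_lit 311)) (nd (nat_lit 289) (nat_lit 0) (cs (lf (nat_lit 22) (nat_lit 289)) (nd (nat_lit 337) (nat_lit 0) (cs (lf (nat_lit 5) (nat_lit 312)) (nd (nat_lit 311) (nat_lit 0) (cs (lf (nat_lit 23) (nat_lit 288)) (lf (nat_lit 4) (nat_lit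 311)))))))))))))))) (nd (nat_lit 228) (nat_lit 0) (cs (lf (nat_lit 17) (nat_lit 225)) (nd (nat_lit 246) (nat_lit 0) (cs (lf (nat_lit 4) (nat_lit 246)) (nd (nat_lit 230) (nat_lit 0) (cs (lf (nat_lit 27) (nat_lit 186)) (nd (nat_lit 291) (nat_lit 0) (cs (lf (nat_lit 35) (nat_lit 225)) (nd (nat_lit 312) (nat_lit 0) (cs (lf (nat_lit 41) (nat_lit 246)) (nd (nat_lit 290) (nat_lit 0) (cs (lf (nat_lit 36) (nat_lit 224)) (lf (nat_lit 20) (nat_lit 290)))))))))))))))))))) (cs (nd (nat_lit 248) (nat_lit 0) (cs (lf (nat_lit 11) (nat_lit 246)) (nd (nat_lit 271) (nat_lit 0) (cs (lf (nat_lit 0) (nat_lit 246)) (rf (nat_lit 4)))))) (nd (nat_lit 294) (nat_lit 0) (cs (lf (nat_lit 41) (nat_lit 249)) (nd (nat_lit 317) (nat_lit 0) (cs (lf (nat_lit 29) (nat_lit 250)) (nd (nat_lit 271) (nat_lit 0) (cs (lf (nat_lit 42) (nat_lit 249)) (nd (nat_lit 228) (nat_lit 0) (cs (lf (nat_lit 28) (nat_lit 228)) (rf (nat_lit 5))))))))))))))) q71148 (by decide +kernel)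
def q71283 : Q := Q.p (nat_lit 0x830002600008000010000040000000000000000000000000000000000000000000000) (nat_lit 0x500001c0000f00003e0001fc000ce0010f80073f0000f00003800000000000000000000000000000000000000000000) (nat_lit 11)
theorem c71283 : QOK q71283 := cut [q69691, q71219, q70765, q70777, q49680, q71233, q71242, q71248, q70764, q71255, q50786, q71264] ⟨c69691, c71219, c70765, c70777, c49680, c71233, c71242, c71248, c70764, c71255, c50786, c71264, trivial⟩ (nd (nat_lit 270) (nat_lit 0) (cs (lf (nat_lit 15) (nat_lit 246)) (nd (nat_lit 267) (nat_lit 0) (cs (rf (nat_lit 0)) (cs (nd (nat_lit 230) (nat_lit 0) (cs (lf (nat_lit 27) (nat_lit 186)) (nd (nat_lit 228) (nat_lit 0) (cs (lf (nat_lit 8) (nat_lit 227)) (nd (nat_lit 244) (nat_lit 0) (cs (lf (nat_lit 22) (nat_lit 244)) (nd (nat_lit 266) (nat_lit 0) (cs (lf (nat_lit 23) (nat_lit 243)) (nd (nat_lit 287) (nat_lit 0) (cs (lf (nat_lit 10) (nat_lit 265)) (nd (nat_lit 265) (nat_lit 0) (cs (lf (nat_lit 11) (nat_lit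 264)) (rf (nat_lit 1)))))))))))))) (cs (nd (nat_lit 289) (nat_lit 0) (cs (lf (nat_lit 11) (nat_lit 266)) (nd (nat_lit 311) (nat_lit 0) (cs (rf (nat_lit 2)) (cs (rf (nat_lit 3)) (nd (nat_lit 245) (nat_lit 0) (cs (lf (nat_lit 23) (nat_lit 244)) (nd (nat_lit 230) (nat_lit 0) (cs (lf (nat_lit 27) (nat_lit 186)) (nd (nat_lit 310) (nat_lit 0) (cs (lf (nat_lit 41) (nat_lit 244)) (nd (nat_lit 312) (nat_lit 0) (cs (lf (nat_lit 29) (nat_lit 245)) (nd (nat_lit 290) (nat_lit 0) (cs (rf (nat_lit 4)) (lf (nat_lit 24) (nat_lit 223))))))))))))))))) (cs (nd (nat_lit 246) (nat_lit 0) (cs (nd (nat_lit 288) (nat_lit 0) (cs (lf (nat_lit 10) (nat_lit 266)) (nd (nat_lit 266) (nat_lit 0) (cs (lf (nat_lit 11) (nat_lit 265)) (rf (nat_lit 5)))))) (cs (nd (nat_lit 288) (nat_lit 0) (cs (lf (nat_lit 10) (nat_lit 266)) (nd (nat_lit 266) (nat_lit 0) (cs (lf (nat_lit 11) (nat_lit 265)) (rf (nat_lit 6)))))) (cs (rf (nat_lit 7)) (nd (nat_lit 230) (nat_lit 0) (cs (lf (nat_lit 27) (nat_lit 186))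 (nd (nat_lit 289) (nat_lit 0) (cs (lf (nat_lit 11) (nat_lit 266)) (nd (nat_lit 311) (nat_lit 0) (cs (lf (nat_lit 30) (nat_lit 245)) (rf (nat_lit 8)))))))))))) (nd (nat_lit 246) (nat_lit 0) (cs (rf (nat_lit 7)) (cs (nd (nat_lit 244) (nat_lit 0) (cs (lf (nat_lit 22) (nat_lit 244)) (nd (nat_lit 266) (nat_lit 0) (cs (lf (nat_lit 23) (nat_lit 243)) (rf (nat_lit 5)))))) (cs (nd (nat_lit 244) (nat_lit 0) (cs (lf (nat_lit 22) (nat_lit 244)) (nd (nat_lit 230) (nat_lit 0) (cs (lf (nat_lit 27) (nat_lit 186)) (nd (nat_lit 228) (nat_lit 0) (cs (lf (nat_lit 8) (nat_lit 227)) (nd (nat_lit 266) (nat_lit 0) (cs (lf (nat_lit 23) (nat_lit 243)) (nd (nat_lit 291) (nat_lit 0) (cs (lf (nat_lit 5) (nat_lit 266)) (nd (nat_lit 290) (nat_lit 0) (cs (lf (nat_lit 0) (nat_lit 265)) (rf (nat_lit 9)))))))))))))) (cs (nd (nat_lit 245) (nat_lit 0) (cs (lf (nat_lit 23) (nat_lit 244)) (nd (nat_lit 224) (nat_lit 0) (cs (nd (nat_lit 202) (nat_lit 0) (cs (lf (nat_lit 41) (nat_lit 201)) (lf (nat_lit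 36) (nat_lit 179)))) (cs (nd (nat_lit 223) (nat_lit 0) (cs (rf (nat_lit 10)) (nd (nat_lit 230) (nat_lit 0) (cs (lf (nat_lit 27) (nat_lit 186)) (nd (nat_lit 289) (nat_lit 0) (cs (lf (nat_lit 30) (nat_lit 223)) (nd (nat_lit 222) (nat_lit 0) (cs (lf (nat_lit 47) (nat_lit 200)) (rf (nat_lit 11)))))))))) (nd (nat_lit 202) (nat_lit 0) (cs (lf (nat_lit 36) (nat_lit 179)) (nd (nat_lit 230) (nat_lit 0) (cs (lf (nat_lit 27) (nat_lit 186)) (nd (nat_lit 203) (nat_lit 0) (cs (lf (nat_lit 35) (nat_lit 180)) (nd (nat_lit 201) (nat_lit 0) (cs (lf (nat_lit 47) (nat_lit 179)) (nd (nat_lit 290) (nat_lit 0) (cs (lf (nat_lit 34) (nat_lit 202)) (lf (nat_lit 25) (nat_lit 201))))))))))))))))) (nd (nat_lit 230) (nat_lit 0) (cs (lf (nat_lit 27) (nat_lit 186)) (nd (nat_lit 228) (nat_lit 0) (cs (lf (nat_lit 8) (nat_lit 227)) (nd (nat_lit 244) (nat_lit 0) (cs (lf (nat_lit 22) (nat_lit 244)) (nd (nat_lit 266) (nat_lit 0) (cs (lf (nat_lit 23) (nat_lit 243)) (rf (nat_lit 6))))))))))))))))))))))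 q71283 (by decide +kernel)
def q71313 : Q := Q.p (nat_lit 0x200001e0000600000000000000000000000000000000000000000000000000000000000000) (nat_lit 0xc0000300000dc000000000000000000000000000000000000000000000000000000000000000000000000) (nat_lit 5)
theorem c71313 : QOK q71313 := cut [q61612] ⟨c61612, trivial⟩ (nd (nat_lit 291) (nat_lit 0) (cs (lf (nat_lit 11) (nat_lit 268)) (rf (nat_lit 0)))) q71313 (by decide +kernel)
def q71348 : Q := Q.p (nat_lit 0x60000980002600000000010000040000000000000000000000000000000000000000000000) (nat_lit 0xc0000f0000098000000000000008000020000000000000000000000000000000000000000000000000000) (nat_lit 6)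
theorem c71348 : QOK q71348 := cut [q47470] ⟨c47470, trivial⟩ (nd (nat_lit 209) (nat_lit 0) (cs (lf (nat_lit 44) (nat_lit 186)) (rf (nat_lit 0)))) q71348 (by decide +kernel)
def q71437 : Q := Q.p (nat_lit 0x800002780000000010000040000000000000000000000000000000000000000000000) (nat_lit 0x38001040004380000000000000000000000000000000000000000000000000000000) (nat_lit 5)
theorem c71437 : QOK q71437 := cut [q45262] ⟨c45262, trivial⟩ (nd (nat_lit 230) (nat_lit 0) (cs (lf (nat_lit 27) (nat_lit 186)) (rf (nat_lit 0)))) q71437 (by decide +kernel)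
def q71441 : Q := Q.p (nat_lit 0x8000020000900000600000000000000000000000000000000000000000000000000000000000000) (nat_lit 0x7000014000000000680000180000400000000000000000000000000000000000000000000000000000000) (nat_lit 6)
theorem c71441 : QOK q71441 := cut [q60774] ⟨c60774, trivial⟩ (nd (nat_lit 271) (nat_lit 0) (cs (lf (nat_lit 30) (nat_lit 249)) (rf (nat_lit 0)))) q71441 (by decide +kernel)
def q71455 : Q := Q.p (nat_lit 0x8000020000900002600000000010000040000000000000000000000000000000000000000000000) (nat_lit 0x15c0005e0006c0001180004400000000000000000000000000000000000000000000000000000000) (nat_lit 10)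
theorem c71455 : QOK q71455 := cut [q71454] ⟨c71454, trivial⟩ (nd (nat_lit 230) (nat_lit 0) (cs (lf (nat_lit 27) (nat_lit 186)) (rf (nat_lit 0)))) q71455 (by decide +kernel)
def q71457 : Q := Q.p (nat_lit 0x8000020000900002600000000010000040000000000000000000000000000000000000000000000) (nat_lit 0x3000004000000000680001180004400000000000000000000000000000000000000000000000000000000) (nat_lit 6)
theorem c71457 : QOK q71457 := cut [q70408] ⟨c70408, trivial⟩ (nd (nat_lit 271) (nat_lit 0) (cs (lf (nat_lit 30) (nat_lit 249)) (rf (nat_lit 0)))) q71457 (by decide +kernel)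
def q71487 : Q := Q.p (nat_lit 0x60000900002400000000010000040000000000000000000000000000000000000000000000) (nat_lit 0x2a0000ac0007f80019c000278001100004000000000000000000000000000000000000000000000000000000000) (nat_lit 11)
theorem c71487 : QOK q71487 := cut [q71461, q48688, q47555, q45149, q71471, q44930, q61740, q71474, q71486] ⟨c71461, c48688, c47555, c45149, c71471, c44930, c61740, c71474, c71486, trivial⟩ (nd (nat_lit 292) (nat_lit 0) (cs (rf (nat_lit 0)) (cs (nd (nat_lit 317) (nat_lit 0) (cs (rf (nat_lit 1)) (cs (nd (nat_lit 295) (nat_lit 0) (cs (lf (nat_lit 5) (nat_lit 292)) (rf (nat_lit 2)))) (cs (nd (nat_lit 230) (nat_lit 0) (cs (lf (nat_lit 27) (nat_lit 186)) (nd (nat_lit 295) (nat_lit 0) (cs (lf (nat_lit 5) (nat_lit 292)) (nd (nat_lit 269) (nat_lit 0) (cs (lf (nat_lit 22) (nat_lit 269)) (nd (nat_lit 314) (nat_lit 0) (cs (lf (nat_lit 11) (nat_lit 291)) (nd (nat_lit 315) (nat_lit 0) (cs (rf (nat_lit 3)) (lf (nat_lit 6) (nat_lit 292)))))))))))) (nd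 (nat_lit 316) (nat_lit 0) (cs (lf (nat_lit 29) (nat_lit 250)) (nd (nat_lit 315) (nat_lit 0) (cs (lf (nat_lit 41) (nat_lit 249)) (lf (nat_lit 18) (nat_lit 292)))))))))) (cs (rf (nat_lit 4)) (cs (nd (nat_lit 291) (nat_lit 0) (cs (rf (nat_lit 5)) (cs (rf (nat_lit 6)) (cs (nd (nat_lit 230) (nat_lit 0) (cs (lf (nat_lit 27) (nat_lit 186)) (rf (nat_lit 7)))) (nd (nat_lit 268) (nat_lit 0) (cs (lf (nat_lit 22) (nat_lit 268)) (nd (nat_lit 230) (nat_lit 0) (cs (lf (nat_lit 27) (nat_lit 186)) (nd (nat_lit 316) (nat_lit 0) (cs (lf (nat_lit 5) (nat_lit 291)) (nd (nat_lit 315) (nat_lit 0) (cs (lf (nat_lit 41) (nat_lit 249)) (nd (nat_lit 313) (nat_lit 0) (cs (lf (nat_lit 11) (nat_lit 290)) (nd (nat_lit 314) (nat_lit 0) (cs (lf (nat_lit 17) (nat_lit 291)) (nd (nat_lit 335) (nat_lit 0) (cs (lf (nat_lit 11) (nat_lit 312)) (nd (nat_lit 270) (nat_lit 0) (cs (lf (nat_lit 30) (nat_lit 269)) (lf (nat_lit 36) (nat_lit 247)))))))))))))))))))))) (rf (nat_lit 8))))))) q71487 (by decide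 +kernel)
def q71526 : Q := Q.p (nat_lit 0x10000060000900002400000000010000040000000000000000000000000000000000000000000000) (nat_lit 0xa000068000018000000000000008000020000000000000000000000000000000000000000000000000000) (nat_lit 5)
theorem c71526 : QOK q71526 := cut [q46683] ⟨c46683, trivial⟩ (nd (nat_lit 209) (nat_lit 0) (cs (lf (nat_lit 44) (nat_lit 186)) (rf (nat_lit 0)))) q71526 (by decide +kernel)
def q71662 : Q := Q.p (nat_lit 0x60000920002600000000010000040000000000000000000000000000000000000000000000) (nat_lit 0xc0000f300011c0006c00011c000c300020400001000000000000000000000000000000000000000000000) (nat_lit 11)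
theorem c71662 : QOK q71662 := cut [q71646, q47437, q48839, q70836, q49171, q22122] ⟨c71646, c47437, c48839, c70836, c49171, c22122, trivial⟩ (nd (nat_lit 271) (nat_lit 0) (cs (rf (nat_lit 0)) (cs (nd (nat_lit 247) (nat_lit 0) (cs (rf (nat_lit 1)) (cs (nd (nat_lit 316) (nat_lit 0) (cs (lf (nat_lit 42) (nat_lit 249)) (nd (nat_lit 317) (nat_lit 0) (cs (lf (nat_lit 29) (nat_lit 250)) (nd (nat_lit 318) (nat_lit 0) (cs (lf (nat_lit 18) (nat_lit 293)) (nd (nat_lit 291) (nat_lit 0) (cs (lf (nat_lit 1) (nat_lit 291)) (rf (nat_lit 2)))))))))) (cs (nd (nat_lit 230) (nat_lit 0) (cs (lf (nat_lit 27) (nat_lit 186)) (nd (nat_lit 209) (nat_lit 0) (cs (lf (nat_lit 44) (nat_lit 186)) (nd (nat_lit 316) (nat_lit 0) (cs (lf (nat_lit 42) (nat_lit 249)) (nd (nat_lit 317) (nat_lit 0) (cs (lf (nat_lit 29) (nat_lit 250)) (nd (nat_lit 291) (nat_lit 0) (cs (lf (nat_lit 1) (nat_lit 291)) (rf (nat_lit 3)))))))))))) (nd (nat_lit 246) (nat_lit 0) (cs (lf (nat_lit 2) (nat_lit 246)) (nd (nat_lit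 230) (nat_lit 0) (cs (lf (nat_lit 27) (nat_lit 186)) (nd (nat_lit 209) (nat_lit 0) (cs (lf (nat_lit 44) (nat_lit 186)) (nd (nat_lit 316) (nat_lit 0) (cs (lf (nat_lit 42) (nat_lit 249)) (nd (nat_lit 317) (nat_lit 0) (cs (lf (nat_lit 29) (nat_lit 250)) (nd (nat_lit 291) (nat_lit 0) (cs (lf (nat_lit 1) (nat_lit 291)) (rf (nat_lit 4)))))))))))))))))) (nd (nat_lit 273) (nat_lit 0) (cs (lf (nat_lit 19) (nat_lit 249)) (nd (nat_lit 291) (nat_lit 0) (cs (lf (nat_lit 13) (nat_lit 269)) (nd (nat_lit 270) (nat_lit 0) (cs (lf (nat_lit 11) (nat_lit 268)) (rf (nat_lit 5))))))))))) q71662 (by decide +kernel)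
def q71879 : Q := Q.p (nat_lit 0x60000180000600000000000000000000000000000000000000000000000000000000000000) (nat_lit 0xe0000f8000010000000000100000400000000000000000000000000000000000000000000000000000000) (nat_lit 6)
theorem c71879 : QOK q71879 := cut [q65732] ⟨c65732, trivial⟩ (nd (nat_lit 316) (nat_lit 0) (cs (lf (nat_lit 42) (nat_lit 249)) (nd (nat_lit 315) (nat_lit 0) (cs (lf (nat_lit 41) (nat_lit 249)) (rf (nat_lit 0)))))) q71879 (by decide +kernel)
def q71964 : Q := Q.p (nat_lit 0x20000980002600000000010000040000000000000000000000000000000000000000000000) (nat_lit 0xb00006e0001dc00067000100000c000020000000000000000000000000000000000000000000000000000) (nat_lit 10)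
theorem c71964 : QOK q71964 := cut [q69300, q70395] ⟨c69300, c70395, trivial⟩ (nd (nat_lit 209) (nat_lit 0) (cs (lf (nat_lit 44) (nat_lit 186)) (nd (nat_lit 273) (nat_lit 0) (cs (lf (nat_lit 19) (nat_lit 249)) (nd (nat_lit 270) (nat_lit 0) (cs (rf (nat_lit 0)) (cs (rf (nat_lit 1)) (nd (nat_lit 295) (nat_lit 0) (cs (lf (nat_lit 5) (nat_lit 270)) (nd (nat_lit 317) (nat_lit 0) (cs (lf (nat_lit 42) (nat_lit 250)) (nd (nat_lit 292) (nat_lit 0) (cs (lf (nat_lit 11) (nat_lit 269)) (nd (nat_lit 315) (nat_lit 0) (cs (lf (nat_lit 30) (nat_lit 249)) (nd (nat_lit 294) (nat_lit 0) (cs (lf (nat_lit 5) (nat_lit 292)) (nd (nat_lit 314) (nat_lit 0) (cs (lf (nat_lit 11) (nat_lit 291)) (lf (nat_lit 41) (nat_lit 248))))))))))))))))))))) q71964 (by decide +kernel)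
def q72021 : Q := Q.p (nat_lit 0x8000020000900002600000000010000040000000000000000000000000000000000000000000000) (nat_lit 0x8000020000500001c000060000100000c000020000000000000000000000000000000000000000000000000000) (nat_lit 6)
theorem c72021 : QOK q72021 := cut [q45149, q71459] ⟨c45149, c71459, trivial⟩ (nd (nat_lit 294) (nat_lit 0) (cs (rf (nat_lit 0)) (rf (nat_lit 1)))) q72021 (by decide +kernel)
def q72187 : Q := Q.p (nat_lit 0x20000880002200000000010000040000000000000000000000000000000000000000000000) (nat_lit 0x40000700001c000050000040001100004c00001000000000000000000000000000000000000000000000000000) (nat_lit 7)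
theorem c72187 : QOK q72187 := cut [q59775, q66777, q72177, q72186] ⟨c59775, c66777, c72177, c72186, trivial⟩ (nd (nat_lit 315) (nat_lit 0) (cs (rf (nat_lit 0)) (cs (rf (nat_lit 1)) (cs (rf (nat_lit 2)) (rf (nat_lit 3)))))) q72187 (by decide +kernel)
def q72201 : Q := Q.p (nat_lit 0x20000880002600000000010000040000000000000000000000000000000000000000000000) (nat_lit 0x500001c0000700001c000050000140001000004800002000008000000000000000000000000000000000000000000000) (nat_lit 8)
theorem c72201 : QOK q72201 := cut [q56985, q59775, q67294, q72200] ⟨c56985, c59775, c67294, c72200, trivial⟩ (nd (nat_lit 315) (nat_lit 0) (cs (rf (nat_lit 0)) (cs (rf (nat_lit 1)) (cs (rf (nat_lit 2)) (rf (nat_lit 3)))))) q72201 (by decide +kernel)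
def q72210 : Q := Q.p (nat_lit 0x9c0000600000000000000000000000000000000000000000000000000000000000000) (nat_lit 0x1000004000038000600000180000800002000000000000000000000000000000000000000000000000000) (nat_lit 6)
theorem c72210 : QOK q72210 := cut [q65185] ⟨c65185, trivial⟩ (nd (nat_lit 273) (nat_lit 0) (cs (lf (nat_lit 19) (nat_lit 249)) (rf (nat_lit 0)))) q72210 (by decide +kernel)
def q72212 : Q := Q.p (nat_lit 0x9c0002600000000010000040000000000000000000000000000000000000000000000) (nat_lit 0x100000c0000030001000004800002000000000000000000000000000000000000000000000000000) (nat_lit 5)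
theorem c72212 : QOK q72212 := cut [q72211] ⟨c72211, trivial⟩ (nd (nat_lit 269) (nat_lit 0) (cs (lf (nat_lit 12) (nat_lit 246)) (rf (nat_lit 0)))) q72212 (by decide +kernel)
def q72213 : Q := Q.p (nat_lit 0x9c0002600000000010000040000000000000000000000000000000000000000000000) (nat_lit 0x4000018000600001180004800002000000000000000000000000000000000000000000000000000) (nat_lit 6)
theorem c72213 : QOK q72213 := cut [q61593] ⟨c61593, trivial⟩ (nd (nat_lit 230) (nat_lit 0) (cs (lf (nat_lit 27) (nat_lit 186)) (rf (nat_lit 0)))) q72213 (by decide +kernel)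
def q72328 : Q := Q.p (nat_lit 0x9c0002600000000010000040000000000000000000000000000000000000000000000) (nat_lit 0x100000c0000030000000008800022000000000000000000000000000000000000000000000000000) (nat_lit 5)
theorem c72328 : QOK q72328 := cut [q72327] ⟨c72327, trivial⟩ (nd (nat_lit 269) (nat_lit 0) (cs (lf (nat_lit 12) (nat_lit 246)) (rf (nat_lit 0)))) q72328 (by decide +kernel)
def q72357 : Q := Q.p (nat_lit 0x880002700000000010000040000000000000000000000000000000000000000000000) (nat_lit 0x80000680003380010c0004f80007c0000f000004000000000000000000000000000000000000000) (nat_lit 11)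
theorem c72357 : QOK q72357 := cut [q44571, q60671, q68561, q72350, q72353] ⟨c44571, c60671, c68561, c72350, c72353, trivial⟩ (nd (nat_lit 247) (nat_lit 0) (cs (rf (nat_lit 0)) (cs (rf (nat_lit 1)) (nd (nat_lit 272) (nat_lit 0) (cs (lf (nat_lit 5) (nat_lit 247)) (nd (nat_lit 225) (nat_lit 0) (cs (lf (nat_lit 23) (nat_lit 224)) (nd (nat_lit 204) (nat_lit 0) (cs (nd (nat_lit 230) (nat_lit 0) (cs (lf (nat_lit 27) (nat_lit 186)) (nd (nat_lit 182) (nat_lit 0) (cs (lf (nat_lit 26) (nat_lit 182)) (nd (nat_lit 269) (nat_lit 0) (cs (lf (nat_lit 11) (nat_lit 246)) (lf (nat_lit 33) (nat_lit 181)))))))) (cs (nd (nat_lit 230) (nat_lit 0) (cs (lf (nat_lit 27) (nat_lit 186)) (nd (nat_lit 269) (nat_lit 0) (cs (lf (nat_lit 11) (nat_lit 246)) (rf (nat_lit 2)))))) (cs (nd (nat_lit 269) (nat_lit 0) (cs (lf (nat_lit 11) (nat_lit 246)) (rf (nat_lit 3)))) (rf (nat_lit 4))))))))))))) q72357 (by decide +kernel)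
def q72379 : Q := Q.p (nat_lit 0x810002040000100010000040000000000000000000000000000000000000000000000) (nat_lit 0x80000380001e00000e001020004080000600000800000000000000000000000000000000000000000000) (nat_lit 7)
theorem c72379 : QOK q72379 := cut [q50580, q72373, q72378] ⟨c50580, c72373, c72378, trivial⟩ (nd (nat_lit 290) (nat_lit 0) (cs (rf (nat_lit 0)) (cs (rf (nat_lit 1)) (rf (nat_lit 2))))) q72379 (by decide +kernel)
def q72393 : Q := Q.p (nat_lit 0x880002700000100010000040000000000000000000000000000000000000000000000) (nat_lit 0x8000020000040001000004e80001000004000000000000000000000000000000000000000000000) (nat_lit 5)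
theorem c72393 : QOK q72393 := cut [q63759, q68600] ⟨c63759, c68600, trivial⟩ (nd (nat_lit 226) (nat_lit 0) (cs (rf (nat_lit 0)) (rf (nat_lit 1)))) q72393 (by decide +kernel)
def q72396 : Q := Q.p (nat_lit 0x880002700000100010000040000000000000000000000000000000000000000000000) (nat_lit 0x8000020000040001080004e00001000004000000000000000000000000000000000000000000000) (nat_lit 6)
theorem c72396 : QOK q72396 := cut [q72395] ⟨c72395, trivial⟩ (nd (nat_lit 230) (nat_lit 0) (cs (lf (nat_lit 27) (nat_lit 186)) (rf (nat_lit 0)))) q72396 (by decide +kernel)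
def q72427 : Q := Q.p (nat_lit 0x880002700000000010000040000000000000000000000000000000000000000000000) (nat_lit 0x700003c0003780010f0004ee0001000004000000000000000000000000000000000000000000000) (nat_lit 9)
theorem c72427 : QOK q72427 := cut [q60671, q68591, q59174, q68594] ⟨c60671, c68591, c59174, c68594, trivial⟩ (nd (nat_lit 247) (nat_lit 0) (cs (rf (nat_lit 0)) (cs (rf (nat_lit 1)) (nd (nat_lit 269) (nat_lit 0) (cs (lf (nat_lit 11) (nat_lit 246)) (nd (nat_lit 291) (nat_lit 0) (cs (rf (nat_lit 2)) (cs (nd (nat_lit 272) (nat_lit 0) (cs (lf (nat_lit 5) (nat_lit 247)) (nd (nat_lit 226) (nat_lit 0) (cs (lf (nat_lit 30) (nat_lit 225)) (nd (nat_lit 270) (nat_lit 0) (cs (lf (nat_lit 11) (nat_lit 268)) (lf (nat_lit 36) (nat_lit 203)))))))) (nd (nat_lit 230) (nat_lit 0) (cs (lf (nat_lit 27) (nat_lit 186)) (rf (nat_lit 3)))))))))))) q72427 (by decide +kernel)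
def q72449 : Q := Q.p (nat_lit 0x80000700000000000000000000000000000000000000000000000000000000000000) (nat_lit 0x200001c0003780000c0000780001800002000000000000000000000000000000000000000000000) (nat_lit 7)
theorem c72449 : QOK q72449 := cut [q44571, q60671, q47263, q47248] ⟨c44571, c60671, c47263, c47248, trivial⟩ (nd (nat_lit 247) (nat_lit 0) (cs (rf (nat_lit 0)) (cs (rf (nat_lit 1)) (nd (nat_lit 269) (nat_lit 0) (cs (lf (nat_lit 11) (nat_lit 246)) (nd (nat_lit 270) (nat_lit 0) (cs (rf (nat_lit 2)) (nd (nat_lit 272) (nat_lit 0) (cs (lf (nat_lit 18) (nat_lit 247)) (rf (nat_lit 3))))))))))) q72449 (by decide +kernel)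
def q72611 : Q := Q.p (nat_lit 0x8000020000880002200000000010000040000000000000000000000000000000000000000000000) (nat_lit 0x5e000370001de000000001000004000000000000000000000000000000000000000000000000000000000) (nat_lit 8)
theorem c72611 : QOK q72611 := cut [q59361, q67188, q72191] ⟨c59361, c67188, c72191, trivial⟩ (nd (nat_lit 314) (nat_lit 0) (cs (lf (nat_lit 41) (nat_lit 248)) (nd (nat_lit 313) (nat_lit 0) (cs (rf (nat_lit 0)) (cs (rf (nat_lit 1)) (rf (nat_lit 2))))))) q72611 (by decide +kernel)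

end Crest.Agent.H3.Snaky.CR
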