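import Crest.Agent.H3.Snaky.Cert
import Crest.Agent.H3.Snaky.CR.CR0
import Crest.Agent.H3.Snaky.CR.CR1
import Crest.Agent.H3.Snaky.CR.CR3
import Crest.Agent.H3.Snaky.CR.CR4
import Crest.Agent.H3.Snaky.CR.CR5
import Crest.Agent.H3.Snaky.CR.CR6
import Crest.Agent.H3.Snaky.CR.CR8
import Crest.Agent.H3.Snaky.CR.CR9
import Crest.Agent.H3.Snaky.CR.CR10
import Crest.Agent.H3.Snaky.CR.CR11
import Crest.Agent.H3.Snaky.CR.CR12
import Crest.Agent.H3.Snaky.CR.CR13
import Crest.Agent.H3.Snaky.CR.CR14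
import Crest.Agent.H3.Snaky.CR.CR15
import Crest.Agent.H3.Snaky.CR.CR16
import Crest.Agent.H3.Snaky.CR.CR20
import Crest.Agent.H3.Snaky.CR.CR21
import Crest.Agent.H3.Snaky.CR.CR22
import Crest.Agent.H3.Snaky.CR.CR23
import Crest.Agent.H3.Snaky.CR.CR24
import Crest.Agent.H3.Snaky.CR.CR27
import Crest.Agent.H3.Snaky.CR.CR28
import Crest.Agent.H3.Snaky.CR.CR29
import Crest.Agent.H3.Snaky.CR.CR30
import Crest.Agent.H3.Snaky.CR.CR31
import Crest.Agent.H3.Snaky.CR.CR32
import Crest.Agent.H3.Snaky.CR.CR33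
import Crest.Agent.H3.Snaky.CR.CR34
import Crest.Agent.H3.Snaky.CR.CR39
import Crest.Agent.H3.Snaky.CR.CR40
import Crest.Agent.H3.Snaky.CR.CR41
import Crest.Agent.H3.Snaky.CR.CR42
import Crest.Agent.H3.Snaky.CR.CR44
import Crest.Agent.H3.Snaky.CR.CR45
import Crest.Agent.H3.Snaky.CR.CR46
import Crest.Agent.H3.Snaky.CR.CR47
import Crest.Agent.H3.Snaky.CR.CR48
import Crest.Agent.H3.Snaky.CR.CR49

set_option autoImplicit false
set_option maxRecDepth 100000

namespace Crest.Agent.H3.Snaky.CR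

open T

def q72686 : Q := Q.p (nat_lit 0x8c0002600000000010000040000000000000000000000000000000000000000000000) (nat_lit 0x100000400003c0007300011c000cb00022c00000000000000000000000000000000000000000000000000) (nat_lit 10)
theorem c72686 : QOK q72686 := cut [q65436, q72681, q46560, q47038] ⟨c65436, c72681, c46560, c47038, trivial⟩ (nd (nat_lit 269) (nat_lit 0) (cs (lf (nat_lit 12) (nat_lit 246)) (nd (nat_lit 209) (nat_lit 0) (cs (lf (nat_lit 44) (nat_lit 186)) (nd (nat_lit 272) (nat_lit 0) (cs (rf (nat_lit 0)) (cs (rf (nat_lit 1)) (nd (nat_lit 292) (nat_lit 0) (cs (rf (nat_lit 2)) (nd (nat_lit 230) (nat_lit 0) (cs (lf (nat_lit 27) (nat_lit 186)) (rf (nat_lit 3))))))))))))) q72686 (by decide +kernel)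
def q72688 : Q := Q.p (nat_lit 0x9c0002600000000010000040000000000000000000000000000000000000000000000) (nat_lit 0x90000240001b8000600000000008800022000000000000000000000000000000000000000000000000000) (nat_lit 8)
theorem c72688 : QOK q72688 := cut [q68195] ⟨c68195, trivial⟩ (nd (nat_lit 209) (nat_lit 0) (cs (lf (nat_lit 44) (nat_lit 186)) (nd (nat_lit 273) (nat_lit 0) (cs (lf (nat_lit 19) (nat_lit 249)) (rf (nat_lit 0)))))) q72688 (by decide +kernel)
def q72769 : Q := Q.p (nat_lit 0x880002700000000010000040000000000000000000000000000000000000000000000) (nat_lit 0x140000f0000ffc001fe00077800100000cf00021800004000000000000000000000000000000000000000000000) (nat_lit 13)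
theorem c72769 : QOK q72769 := cut [q72339, q72341, q54917, q58830, q61519, q72733, q72459, q72742, q65896, q72635, q68538, q68552, q72767] ⟨c72339, c72341, c54917, c58830, c61519, c72733, c72459, c72742, c65896, c72635, c68538, c68552, c72767, trivial⟩ (nd (nat_lit 293) (nat_lit 0) (cs (rf (nat_lit 0)) (cs (rf (nat_lit 1)) (cs (nd (nat_lit 226) (nat_lit 0) (cs (rf (nat_lit 2)) (cs (rf (nat_lit 3)) (nd (nat_lit 292) (nat_lit 0) (cs (nd (nat_lit 227) (nat_lit 0) (cs (lf (nat_lit 41) (nat_lit 226)) (nd (nat_lit 294) (nat_lit 0) (cs (lf (nat_lit 29) (nat_lit 227)) (nd (nat_lit 209) (nat_lit 0) (cs (lf (nat_lit 44) (nat_lit 186)) (nd (nat_lit 225) (nat_lit 0) (cs (lf (nat_lit 0) (nat_lit 224)) (rf (nat_lit 4)))))))))) (cs (rf (nat_lit 5)) (cs (nd (nat_lit 291) (nat_lit 0) (cs (nd (nat_lit 290) (nat_lit 0) (cs (lf (nat_lit 17) (nat_lit 268)) (nd (nat_lit 230) (nat_lit 0) (cs (lf (nat_lit 27) (nat_lit 186)) (rf (nat_lit 6)))))) (cs (nd (nat_lit 209) (nat_lit 0) (cs (lf (nat_lit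 44) (nat_lit 186)) (nd (nat_lit 270) (nat_lit 0) (cs (lf (nat_lit 41) (nat_lit 225)) (nd (nat_lit 272) (nat_lit 0) (cs (lf (nat_lit 6) (nat_lit 269)) (nd (nat_lit 203) (nat_lit 0) (cs (lf (nat_lit 46) (nat_lit 203)) (nd (nat_lit 269) (nat_lit 0) (cs (lf (nat_lit 12) (nat_lit 246)) (nd (nat_lit 230) (nat_lit 0) (cs (lf (nat_lit 27) (nat_lit 186)) (nd (nat_lit 294) (nat_lit 0) (cs (lf (nat_lit 5) (nat_lit 269)) (nd (nat_lit 316) (nat_lit 0) (cs (lf (nat_lit 42) (nat_lit 249)) (lf (nat_lit 24) (nat_lit 227)))))))))))))))))) (cs (rf (nat_lit 7)) (nd (nat_lit 270) (nat_lit 0) (cs (lf (nat_lit 41) (nat_lit 225)) (nd (nat_lit 203) (nat_lit 0) (cs (lf (nat_lit 46) (nat_lit 203)) (nd (nat_lit 289) (nat_lit 0) (cs (lf (nat_lit 13) (nat_lit 267)) (nd (nat_lit 269) (nat_lit 0) (cs (lf (nat_lit 12) (nat_lit 246)) (nd (nat_lit 230) (nat_lit 0) (cs (lf (nat_lit 27) (nat_lit 186)) (nd (nat_lit 294) (nat_lit 0) (cs (lf (nat_lit 18) (nat_lit 269)) (nd (nat_lit 316) (nat_lit 0) (cs (lf (nat_lit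 24) (nat_lit 227)) (lf (nat_lit 5) (nat_lit 291)))))))))))))))))))) (cs (nd (nat_lit 291) (nat_lit 0) (cs (rf (nat_lit 7)) (cs (nd (nat_lit 230) (nat_lit 0) (cs (lf (nat_lit 27) (nat_lit 186)) (nd (nat_lit 270) (nat_lit 0) (cs (lf (nat_lit 41) (nat_lit 225)) (nd (nat_lit 203) (nat_lit 0) (cs (lf (nat_lit 46) (nat_lit 203)) (nd (nat_lit 272) (nat_lit 0) (cs (lf (nat_lit 6) (nat_lit 269)) (nd (nat_lit 314) (nat_lit 0) (cs (lf (nat_lit 30) (nat_lit 248)) (nd (nat_lit 269) (nat_lit 0) (cs (lf (nat_lit 12) (nat_lit 246)) (nd (nat_lit 294) (nat_lit 0) (cs (lf (nat_lit 5) (nat_lit 269)) (rf (nat_lit 8)))))))))))))))) (nd (nat_lit 209) (nat_lit 0) (cs (lf (nat_lit 44) (nat_lit 186)) (nd (nat_lit 230) (nat_lit 0) (cs (lf (nat_lit 27) (nat_lit 186)) (nd (nat_lit 270) (nat_lit 0) (cs (lf (nat_lit 41) (nat_lit 225)) (nd (nat_lit 203) (nat_lit 0) (cs (lf (nat_lit 46) (nat_lit 203)) (rf (nat_lit 9))))))))))))) (nd (nat_lit 227) (nat_lit 0) (cs (lf (nat_lit 41) (nat_lit 226)) (nd (nat_lit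 230) (nat_lit 0) (cs (lf (nat_lit 27) (nat_lit 186)) (rf (nat_lit 10)))))))))))))) (nd (nat_lit 315) (nat_lit 0) (cs (rf (nat_lit 11)) (rf (nat_lit 12)))))))) q72769 (by decide +kernel)
def q72773 : Q := Q.p (nat_lit 0x880002780000000010000040000000000000000000000000000000000000000000000) (nat_lit 0x700003c000330001000004700001000004000000000000000000000000000000000000000000000) (nat_lit 8)
theorem c72773 : QOK q72773 := cut [q59174, q72404] ⟨c59174, c72404, trivial⟩ (nd (nat_lit 272) (nat_lit 0) (cs (lf (nat_lit 5) (nat_lit 247)) (nd (nat_lit 225) (nat_lit 0) (cs (lf (nat_lit 23) (nat_lit 224)) (nd (nat_lit 269) (nat_lit 0) (cs (lf (nat_lit 11) (nat_lit 246)) (nd (nat_lit 291) (nat_lit 0) (cs (rf (nat_lit 0)) (rf (nat_lit 1)))))))))) q72773 (by decide +kernel)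
def q72774 : Q := Q.p (nat_lit 0x20000080000780000000000000000000000000000000000000000000000000000000000000) (nat_lit 0x700001c000050000300000000000800000000000000000000000000000000000000000000000000000000) (nat_lit 6)
theorem c72774 : QOK q72774 := cut [q46568] ⟨c46568, trivial⟩ (nd (nat_lit 272) (nat_lit 0) (cs (lf (nat_lit 5) (nat_lit 247)) (rf (nat_lit 0)))) q72774 (by decide +kernel)
def q72831 : Q := Q.p (nat_lit 0x880002700000000010000040000000000000000000000000000000000000000000000) (nat_lit 0x40000100000d000037c0010e0004b80000800002000000000000000000000000000000000000000000000) (nat_lit 9)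
theorem c72831 : QOK q72831 := cut [q60671, q68700, q45192, q26458] ⟨c60671, c68700, c45192, c26458, trivial⟩ (nd (nat_lit 247) (nat_lit 0) (cs (rf (nat_lit 0)) (cs (rf (nat_lit 1)) (nd (nat_lit 272) (nat_lit 0) (cs (lf (nat_lit 5) (nat_lit 247)) (nd (nat_lit 294) (nat_lit 0) (cs (rf (nat_lit 2)) (nd (nat_lit 230) (nat_lit 0) (cs (lf (nat_lit 27) (nat_lit 186)) (nd (nat_lit 225) (nat_lit 0) (cs (lf (nat_lit 23) (nat_lit 224)) (nd (nat_lit 269) (nat_lit 0) (cs (lf (nat_lit 11) (nat_lit 246)) (nd (nat_lit 270) (nat_lit 0) (cs (rf (nat_lit 3)) (lf (nat_lit 5) (nat_lit 269))))))))))))))))) q72831 (by decide +kernel)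
def q72842 : Q := Q.p (nat_lit 0x880002700000000010000040000000000000000000000000000000000000000000000) (nat_lit 0x800002800037c0010e000cf80021c00007000004000000000000000000000000000000000000000) (nat_lit 10)
theorem c72842 : QOK q72842 := cut [q60671, q68700, q72353, q72835, q72837] ⟨c60671, c68700, c72353, c72835, c72837, trivial⟩ (nd (nat_lit 247) (nat_lit 0) (cs (rf (nat_lit 0)) (cs (rf (nat_lit 1)) (nd (nat_lit 269) (nat_lit 0) (cs (lf (nat_lit 11) (nat_lit 246)) (nd (nat_lit 204) (nat_lit 0) (cs (rf (nat_lit 2)) (cs (rf (nat_lit 3)) (nd (nat_lit 230) (nat_lit 0) (cs (lf (nat_lit 27) (nat_lit 186)) (nd (nat_lit 272) (nat_lit 0) (cs (lf (nat_lit 5) (nat_lit 247)) (rf (nat_lit 4)))))))))))))) q72842 (by decide +kernel)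
def q72948 : Q := Q.p (nat_lit 0x880002700000000010000040000000000000000000000000000000000000000000000) (nat_lit 0xc0000700003c0000f8000fe00077800100000cf0002380000c000000000000000000000000000000000000000000000) (nat_lit 13)
theorem c72948 : QOK q72948 := cut [q72340, q72341, q72767, q56962, q62053, q49123, q72930, q56521, q65868, q59011, q61685, q62056, q72946] ⟨c72340, c72341, c72767, c56962, c62053, c49123, c72930, c56521, c65868, c59011, c61685, c62056, c72946, trivial⟩ (nd (nat_lit 293) (nat_lit 0) (cs (rf (nat_lit 0)) (cs (rf (nat_lit 1)) (cs (nd (nat_lit 209) (nat_lit 0) (cs (lf (nat_lit 44) (nat_lit 186)) (nd (nat_lit 314) (nat_lit 0) (cs (nd (nat_lit 315) (nat_lit 0) (cs (lf (nat_lit 41) (nat_lit 248)) (rf (nat_lit 2)))) (cs (nd (nat_lit 292) (nat_lit 0) (cs (lf (nat_lit 36) (nat_lit 226)) (nd (nat_lit 313) (nat_lit 0) (cs (nd (nat_lit 291) (nat_lit 0) (cs (rf (nat_lit 3)) (cs (rf (nat_lit 4)) (nd (nat_lit 230) (nat_lit 0) (cs (lf (nat_lit 27) (nat_lit 186)) (nd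 (nat_lit 294) (nat_lit 0) (cs (lf (nat_lit 6) (nat_lit 291)) (nd (nat_lit 335) (nat_lit 0) (cs (lf (nat_lit 37) (nat_lit 247)) (nd (nat_lit 357) (nat_lit 0) (cs (lf (nat_lit 30) (nat_lit 291)) (nd (nat_lit 269) (nat_lit 0) (cs (lf (nat_lit 23) (nat_lit 268)) (rf (nat_lit 5))))))))))))))) (cs (nd (nat_lit 294) (nat_lit 0) (cs (lf (nat_lit 6) (nat_lit 291)) (nd (nat_lit 312) (nat_lit 0) (cs (lf (nat_lit 12) (nat_lit 289)) (lf (nat_lit 15) (nat_lit 290)))))) (nd (nat_lit 312) (nat_lit 0) (cs (lf (nat_lit 12) (nat_lit 289)) (nd (nat_lit 230) (nat_lit 0) (cs (lf (nat_lit 27) (nat_lit 186)) (nd (nat_lit 270) (nat_lit 0) (cs (lf (nat_lit 41) (nat_lit 247)) (nd (nat_lit 268) (nat_lit 0) (cs (lf (nat_lit 13) (nat_lit 246)) (nd (nat_lit 315) (nat_lit 0) (cs (lf (nat_lit 29) (nat_lit 248)) (nd (nat_lit 290) (nat_lit 0) (cs (lf (nat_lit 23) (nat_lit 289)) (rf (nat_lit 6))))))))))))))))))) (cs (nd (nat_lit 230) (nat_lit 0) (cs (lf (nat_lit 27) (nat_lit 186)) (nd (nat_lit 292) (nat_lit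 0) (cs (lf (nat_lit 36) (nat_lit 226)) (rf (nat_lit 7)))))) (nd (nat_lit 315) (nat_lit 0) (cs (lf (nat_lit 41) (nat_lit 248)) (nd (nat_lit 230) (nat_lit 0) (cs (lf (nat_lit 27) (nat_lit 186)) (rf (nat_lit 8)))))))))))) (nd (nat_lit 227) (nat_lit 0) (cs (rf (nat_lit 9)) (cs (rf (nat_lit 10)) (cs (nd (nat_lit 209) (nat_lit 0) (cs (lf (nat_lit 44) (nat_lit 186)) (rf (nat_lit 11)))) (rf (nat_lit 12)))))))))) q72948 (by decide +kernel)
def q72991 : Q := Q.p (nat_lit 0x880002780000000010000040000000000000000000000000000000000000000000000) (nat_lit 0xa00003c000370001000004c00001000004000000000000000000000000000000000000000000000) (nat_lit 8)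
theorem c72991 : QOK q72991 := cut [q72781, q72786, q69136] ⟨c72781, c72786, c69136, trivial⟩ (nd (nat_lit 272) (nat_lit 0) (cs (lf (nat_lit 5) (nat_lit 247)) (nd (nat_lit 269) (nat_lit 0) (cs (lf (nat_lit 11) (nat_lit 246)) (nd (nat_lit 226) (nat_lit 0) (cs (rf (nat_lit 0)) (cs (rf (nat_lit 1)) (nd (nat_lit 230) (nat_lit 0) (cs (lf (nat_lit 27) (nat_lit 186)) (nd (nat_lit 293) (nat_lit 0) (cs (lf (nat_lit 42) (nat_lit 226)) (nd (nat_lit 291) (nat_lit 0) (cs (lf (nat_lit 30) (nat_lit 225)) (rf (nat_lit 2))))))))))))))) q72991 (by decide +kernel)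
def q73101 : Q := Q.p (nat_lit 0x880002700000000010000040000000000000000000000000000000000000000000000) (nat_lit 0x100001e0000fa0001fe00177800100000cf0002780003c000040000000000000000000000000000000000000000) (nat_lit 13)
theorem c73101 : QOK q73101 := cut [q72339, q72341, q73078, q67222, q67227, q57381, q66767] ⟨c72339, c72341, c73078, c67222, c67227, c57381, c66767, trivial⟩ (nd (nat_lit 209) (nat_lit 0) (cs (lf (nat_lit 44) (nat_lit 186)) (nd (nat_lit 293) (nat_lit 0) (cs (rf (nat_lit 0)) (cs (rf (nat_lit 1)) (cs (rf (nat_lit 2)) (nd (nat_lit 227) (nat_lit 0) (cs (rf (nat_lit 3)) (cs (rf (nat_lit 4)) (nd (nat_lit 270) (nat_lit 0) (cs (nd (nat_lit 230) (nat_lit 0) (cs (lf (nat_lit 27) (nat_lit 186)) (nd (nat_lit 268) (nat_lit 0) (cs (lf (nat_lit 13) (nat_lit 246)) (nd (nat_lit 226) (nat_lit 0) (cs (lf (nat_lit 47) (nat_lit 204)) (nd (nat_lit 225) (nat_lit 0) (cs (lf (nat_lit 0) (nat_lit 224)) (nd (nat_lit 292) (nat_lit 0) (cs (lf (nat_lit 47) (nat_lit 203)) (rf (nat_lit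 5)))))))))))) (cs (nd (nat_lit 230) (nat_lit 0) (cs (lf (nat_lit 27) (nat_lit 186)) (nd (nat_lit 269) (nat_lit 0) (cs (lf (nat_lit 12) (nat_lit 246)) (nd (nat_lit 294) (nat_lit 0) (cs (lf (nat_lit 29) (nat_lit 227)) (rf (nat_lit 6)))))))) (cs (nd (nat_lit 294) (nat_lit 0) (cs (lf (nat_lit 29) (nat_lit 227)) (nd (nat_lit 295) (nat_lit 0) (cs (lf (nat_lit 18) (nat_lit 270)) (nd (nat_lit 269) (nat_lit 0) (cs (lf (nat_lit 21) (nat_lit 269)) (lf (nat_lit 3) (nat_lit 269)))))))) (nd (nat_lit 294) (nat_lit 0) (cs (lf (nat_lit 29) (nat_lit 227)) (nd (nat_lit 295) (nat_lit 0) (cs (lf (nat_lit 18) (nat_lit 270)) (nd (nat_lit 230) (nat_lit 0) (cs (lf (nat_lit 27) (nat_lit 186)) (nd (nat_lit 226) (nat_lit 0) (cs (lf (nat_lit 47) (nat_lit 204)) (nd (nat_lit 225) (nat_lit 0) (cs (lf (nat_lit 0) (nat_lit 224)) (nd (nat_lit 292) (nat_lit 0) (cs (lf (nat_lit 47) (nat_lit 203)) (nd (nat_lit 273) (nat_lit 0) (cs (lf (nat_lit 17) (nat_lit 270)) (nd (nat_lit 291) (nat_lit 0) (cs (lf (nat_lit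 41) (nat_lit 225)) (lf (nat_lit 7) (nat_lit 269))))))))))))))))))))))))))))))) q73101 (by decide +kernel)
def q73102 : Q := Q.p (nat_lit 0x880002780000000010000040000000000000000000000000000000000000000000000) (nat_lit 0x8000020000040001060004f80001000004000000000000000000000000000000000000000000000) (nat_lit 5)
theorem c73102 : QOK q73102 := cut [q68600, q68613, q72786] ⟨c68600, c68613, c72786, trivial⟩ (nd (nat_lit 226) (nat_lit 0) (cs (rf (nat_lit 0)) (cs (rf (nat_lit 1)) (rf (nat_lit 2))))) q73102 (by decide +kernel)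
def q73212 : Q := Q.p (nat_lit 0x9a0002680000000010000040000000000000000000000000000000000000000000000) (nat_lit 0x700003c000000001140004700001c00005000000000000000000000000000000000000000000000) (nat_lit 6)
theorem c73212 : QOK q73212 := cut [q47428, q48862, q46785, q72404] ⟨c47428, c48862, c46785, c72404, trivial⟩ (nd (nat_lit 225) (nat_lit 0) (cs (rf (nat_lit 0)) (cs (nd (nat_lit 291) (nat_lit 0) (cs (rf (nat_lit 1)) (nd (nat_lit 230) (nat_lit 0) (cs (lf (nat_lit 27) (nat_lit 186)) (nd (nat_lit 226) (nat_lit 0) (cs (lf (nat_lit 35) (nat_lit 203)) (nd (nat_lit 248) (nat_lit 0) (cs (lf (nat_lit 30) (nat_lit 225)) (lf (nat_lit 0) (nat_lit 246)))))))))) (nd (nat_lit 291) (nat_lit 0) (cs (rf (nat_lit 2)) (rf (nat_lit 3))))))) q73212 (by decide +kernel)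
def q73369 : Q := Q.p (nat_lit 0x820002680000000010000040000000000000000000000000000000000000000000000) (nat_lit 0x140000700001c00001000110000c700021c00007000014000000000000000000000000000000000000000) (nat_lit 9)
theorem c73369 : QOK q73369 := cut [q47397, q73361, q45761] ⟨c47397, c73361, c45761, trivial⟩ (nd (nat_lit 225) (nat_lit 0) (cs (rf (nat_lit 0)) (cs (rf (nat_lit 1)) (nd (nat_lit 230) (nat_lit 0) (cs (lf (nat_lit 27) (nat_lit 186)) (nd (nat_lit 268) (nat_lit 0) (cs (lf (nat_lit 8) (nat_lit 246)) (nd (nat_lit 209) (nat_lit 0) (cs (lf (nat_lit 44) (nat_lit 186)) (rf (nat_lit 2))))))))))) q73369 (by decide +kernel)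
def q73389 : Q := Q.p (nat_lit 0x820002080000200010000040000000000000000000000000000000000000000000000) (nat_lit 0x140000700001c000040001100004400001800004000000000000000000000000000000000000000000000) (nat_lit 6)
theorem c73389 : QOK q73389 := cut [q70845, q73388] ⟨c70845, c73388, trivial⟩ (nd (nat_lit 291) (nat_lit 0) (cs (rf (nat_lit 0)) (cs (nd (nat_lit 230) (nat_lit 0) (cs (lf (nat_lit 27) (nat_lit 186)) (nd (nat_lit 226) (nat_lit 0) (cs (lf (nat_lit 35) (nat_lit 203)) (nd (nat_lit 312) (nat_lit 0) (cs (lf (nat_lit 40) (nat_lit 224)) (nd (nat_lit 313) (nat_lit 0) (cs (lf (nat_lit 41) (nat_lit 246)) (lf (nat_lit 34) (nat_lit 225)))))))))) (rf (nat_lit 1))))) q73389 (by decide +kernel)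
def q73417 : Q := Q.p (nat_lit 0x8a0000680000000000000000000000000000000000000000000000000000000000000) (nat_lit 0x1c0000750000040000000000000000000000000000000000000000000000000000000000000) (nat_lit 5)
theorem c73417 : QOK q73417 := cut [q73416] ⟨c73416, trivial⟩ (nd (nat_lit 270) (nat_lit 0) (cs (lf (nat_lit 12) (nat_lit 246)) (rf (nat_lit 0)))) q73417 (by decide +kernel)
def q73424 : Q := Q.p (nat_lit 0x8a0002600000000010000040000000000000000000000000000000000000000000000) (nat_lit 0xdc0007500001c0008000020000000000000000000000000000000000000000000000000000) (nat_lit 8)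
theorem c73424 : QOK q73424 := cut [q47435, q73296, q61547, q73423] ⟨c47435, c73296, c61547, c73423, trivial⟩ (nd (nat_lit 247) (nat_lit 0) (cs (rf (nat_lit 0)) (cs (rf (nat_lit 1)) (cs (nd (nat_lit 209) (nat_lit 0) (cs (lf (nat_lit 44) (nat_lit 186)) (nd (nat_lit 270) (nat_lit 0) (cs (lf (nat_lit 12) (nat_lit 246)) (nd (nat_lit 272) (nat_lit 0) (cs (lf (nat_lit 23) (nat_lit 246)) (nd (nat_lit 294) (nat_lit 0) (cs (lf (nat_lit 5) (nat_lit 269)) (rf (nat_lit 2)))))))))) (rf (nat_lit 3)))))) q73424 (by decide +kernel)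
def q73537 : Q := Q.p (nat_lit 0x20000880002200000800010000040000000000000000000000000000000000000000000000) (nat_lit 0x840002700003c000040000000000000000000000000000000000000000) (nat_lit 6)
theorem c73537 : QOK q73537 := cut [q67227] ⟨c67227, trivial⟩ (nd (nat_lit 209) (nat_lit 0) (cs (lf (nat_lit 44) (nat_lit 186)) (rf (nat_lit 0)))) q73537 (by decide +kernel)
def q73540 : Q := Q.p (nat_lit 0x880002600000800010000040000000000000000000000000000000000000000000000) (nat_lit 0x1000006000010000100000440000700001c000050000000000000000000000000000000000000000) (nat_lit 7)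
theorem c73540 : QOK q73540 := cut [q40955, q72476, q73539] ⟨c40955, c72476, c73539, trivial⟩ (nd (nat_lit 205) (nat_lit 0) (cs (rf (nat_lit 0)) (cs (nd (nat_lit 230) (nat_lit 0) (cs (lf (nat_lit 27) (nat_lit 186)) (rf (nat_lit 1)))) (rf (nat_lit 2))))) q73540 (by decide +kernel)
def q73545 : Q := Q.p (nat_lit 0x880002600000800010000040000000000000000000000000000000000000000000000) (nat_lit 0x500001c00007000014000100000c000026000038000040000000000000000000000000000000000000000) (nat_lit 7)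
theorem c73545 : QOK q73545 := cut [q73515, q73542, q58802] ⟨c73515, c73542, c58802, trivial⟩ (nd (nat_lit 293) (nat_lit 0) (cs (rf (nat_lit 0)) (cs (rf (nat_lit 1)) (nd (nat_lit 292) (nat_lit 0) (cs (lf (nat_lit 41) (nat_lit 226)) (nd (nat_lit 205) (nat_lit 0) (cs (lf (nat_lit 40) (nat_lit 204)) (rf (nat_lit 2))))))))) q73545 (by decide +kernel)
def q73616 : Q := Q.p (nat_lit 0x820002680000200010000040000000000000000000000000000000000000000000000) (nat_lit 0x200000800001000104000cd80027c0000700001c000050000000000000000000000000000000000) (nat_lit 10)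
theorem c73616 : QOK q73616 := cut [q51538, q27291, q48825, q49199, q69552] ⟨c51538, c27291, c48825, c49199, c69552, trivial⟩ (nd (nat_lit 203) (nat_lit 0) (cs (rf (nat_lit 0)) (cs (nd (nat_lit 209) (nat_lit 0) (cs (lf (nat_lit 44) (nat_lit 186)) (nd (nat_lit 182) (nat_lit 0) (cs (lf (nat_lit 34) (nat_lit 181)) (nd (nat_lit 181) (nat_lit 0) (cs (lf (nat_lit 35) (nat_lit 159)) (nd (nat_lit 230) (nat_lit 0) (cs (lf (nat_lit 27) (nat_lit 186)) (rf (nat_lit 1)))))))))) (cs (nd (nat_lit 209) (nat_lit 0) (cs (lf (nat_lit 44) (nat_lit 186)) (nd (nat_lit 230) (nat_lit 0) (cs (lf (nat_lit 27) (nat_lit 186)) (rf (nat_lit 2)))))) (cs (nd (nat_lit 209) (nat_lit 0) (cs (lf (nat_lit 44) (nat_lit 186)) (nd (nat_lit 230) (nat_lit 0) (cs (lf (nat_lit 27) (nat_lit 186)) (nd (nat_lit 180) (nat_lit 0) (cs (lf (nat_lit 46) (nat_lit 180)) (nd (nat_lit 181) (nat_lit 0) (cs (lf (nat_lit 47) (nat_lit 158)) (nd (nat_lit 246) (nat_lit 0) (cs (lf (nat_lit 41) (nat_lit 180)) (rf (nat_lit 3))))))))))))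 (cs (nd (nat_lit 209) (nat_lit 0) (cs (lf (nat_lit 44) (nat_lit 186)) (nd (nat_lit 230) (nat_lit 0) (cs (lf (nat_lit 27) (nat_lit 186)) (nd (nat_lit 180) (nat_lit 0) (cs (lf (nat_lit 46) (nat_lit 180)) (nd (nat_lit 181) (nat_lit 0) (cs (lf (nat_lit 47) (nat_lit 158)) (nd (nat_lit 246) (nat_lit 0) (cs (lf (nat_lit 41) (nat_lit 180)) (nd (nat_lit 224) (nat_lit 0) (cs (lf (nat_lit 36) (nat_lit 158)) (nd (nat_lit 226) (nat_lit 0) (cs (lf (nat_lit 3) (nat_lit 224)) (nd (nat_lit 291) (nat_lit 0) (cs (lf (nat_lit 42) (nat_lit 224)) (lf (nat_lit 35) (nat_lit 203)))))))))))))))))) (nd (nat_lit 204) (nat_lit 0) (cs (lf (nat_lit 35) (nat_lit 181)) (nd (nat_lit 209) (nat_lit 0) (cs (lf (nat_lit 44) (nat_lit 186)) (rf (nat_lit 4)))))))))))) q73616 (by decide +kernel)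
def q73764 : Q := Q.p (nat_lit 0x20000880002200000800010000040000000000000000000000000000000000000000000000) (nat_lit 0x4000010000040000000008000026000038000040000000000000000000000000000000000000000) (nat_lit 6)
theorem c73764 : QOK q73764 := cut [q72490] ⟨c72490, trivial⟩ (nd (nat_lit 209) (nat_lit 0) (cs (lf (nat_lit 44) (nat_lit 186)) (rf (nat_lit 0)))) q73764 (by decide +kernel)
def q73779 : Q := Q.p (nat_lit 0x20000880002200000000010000040000000000000000000000000000000000000000000000) (nat_lit 0x40000700001e0001c000004000110000cc00021000000000000000000000000000000000000000000000000000) (nat_lit 8)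
theorem c73779 : QOK q73779 := cut [q67184, q72177, q73777] ⟨c67184, c72177, c73777, trivial⟩ (nd (nat_lit 315) (nat_lit 0) (cs (rf (nat_lit 0)) (cs (rf (nat_lit 1)) (nd (nat_lit 209) (nat_lit 0) (cs (lf (nat_lit 44) (nat_lit 186)) (rf (nat_lit 2))))))) q73779 (by decide +kernel)
def q73782 : Q := Q.p (nat_lit 0x8000024000080000200000000030000040000000000000000000000000000000000000000000000) (nat_lit 0x4000010000058000040000000000800006000038000040000000000000000000000000000000000000000) (nat_lit 7)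
theorem c73782 : QOK q73782 := cut [q73780] ⟨c73780, trivial⟩ (nd (nat_lit 316) (nat_lit 0) (cs (lf (nat_lit 29) (nat_lit 249)) (nd (nat_lit 227) (nat_lit 0) (cs (lf (nat_lit 28) (nat_lit 227)) (rf (nat_lit 0)))))) q73782 (by decide +kernel)
def q73788 : Q := Q.p (nat_lit 0x24000080000200000400030000040000000000000000000000000000000000000000000000) (nat_lit 0x4000018000058000040000000000800007000038000040000000000000000000000000000000000000000) (nat_lit 8)
theorem c73788 : QOK q73788 := cut [q73780] ⟨c73780, trivial⟩ (nd (nat_lit 227) (nat_lit 0) (cs (lf (nat_lit 47) (nat_lit 204)) (nd (nat_lit 316) (nat_lit 0) (cs (lf (nat_lit 28) (nat_lit 227)) (nd (nat_lit 315) (nat_lit 0) (cs (lf (nat_lit 29) (nat_lit 249)) (rf (nat_lit 0)))))))) q73788 (by decide +kernel)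
def q73840 : Q := Q.p (nat_lit 0x30000080000200000000030000040000000000000000000000000000000000000000000000) (nat_lit 0x4000000000000000000000c0000700003c000040000000000000000000000000000000000000000) (nat_lit 6)
theorem c73840 : QOK q73840 := cut [q67227] ⟨c67227, trivial⟩ (nd (nat_lit 227) (nat_lit 0) (cs (lf (nat_lit 41) (nat_lit 226)) (rf (nat_lit 0)))) q73840 (by decide +kernel)
def q73854 : Q := Q.p (nat_lit 0x24000880002200000000010000040000000000000000000000000000000000000000000000) (nat_lit 0x100000700001c0000700001c000058000040000100008c00027000038000040000000000000000000000000000000000000000) (nat_lit 11)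
theorem c73854 : QOK q73854 := cut [q59324, q67108, q73803, q73825] ⟨c59324, c67108, c73803, c73825, trivial⟩ (nd (nat_lit 315) (nat_lit 0) (cs (rf (nat_lit 0)) (cs (rf (nat_lit 1)) (cs (rf (nat_lit 2)) (rf (nat_lit 3)))))) q73854 (by decide +kernel)
def q73870 : Q := Q.p (nat_lit 0x20000880002200000000010000040000000000000000000000000000000000000000000000) (nat_lit 0x40000700001e0001c0000040001100004c00001000000000000000000000000000000000000000000000000000) (nat_lit 7)
theorem c73870 : QOK q73870 := cut [q67184, q72177, q73777] ⟨c67184, c72177, c73777, trivial⟩ (nd (nat_lit 315) (nat_lit 0) (cs (rf (nat_lit 0)) (cs (rf (nat_lit 1)) (rf (nat_lit 2))))) q73870 (by decide +kernel)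
def q73961 : Q := Q.p (nat_lit 0x4000890002040000000010000040000000000000000000000000000000000000000000000) (nat_lit 0x280003a00004e001000004380000e00002800000000000000000000000000000000000000000000) (nat_lit 8)
theorem c73961 : QOK q73961 := cut [q50580, q72378, q73955, q51048] ⟨c50580, c72378, c73955, c51048, trivial⟩ (nd (nat_lit 224) (nat_lit 0) (cs (rf (nat_lit 0)) (cs (rf (nat_lit 1)) (cs (rf (nat_lit 2)) (nd (nat_lit 289) (nat_lit 0) (cs (lf (nat_lit 41) (nat_lit 223)) (nd (nat_lit 230) (nat_lit 0) (cs (lf (nat_lit 27) (nat_lit 186)) (nd (nat_lit 201) (nat_lit 0) (cs (lf (nat_lit 46) (nat_lit 201)) (nd (nat_lit 291) (nat_lit 0) (cs (lf (nat_lit 29) (nat_lit 224)) (nd (nat_lit 292) (nat_lit 0) (cs (rf (nat_lit 3)) (lf (nat_lit 16) (nat_lit 267)))))))))))))))) q73961 (by decide +kernel)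
def q73962 : Q := Q.p (nat_lit 0x4000810002040000000010000040000000000000000000000000000000000000000000000) (nat_lit 0x280000e0000380000a000000001080004300000800000000000000000000000000000000000000000000000000) (nat_lit 6)
theorem c73962 : QOK q73962 := cut [q73407, q73729, q73745, q73763] ⟨c73407, c73729, c73745, c73763, trivial⟩ (nd (nat_lit 312) (nat_lit 0) (cs (rf (nat_lit 0)) (cs (rf (nat_lit 1)) (cs (rf (nat_lit 2)) (rf (nat_lit 3)))))) q73962 (by decide +kernel)
def q74008 : Q := Q.p (nat_lit 0x24000890002200000000010000040000000000000000000000000000000000000000000000) (nat_lit 0x40000100000dc0001a000048001000004800000000000000000000000000000000000000000000000000000000) (nat_lit 6)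
theorem c74008 : QOK q74008 := cut [q56522, q73877, q73986] ⟨c56522, c73877, c73986, trivial⟩ (nd (nat_lit 292) (nat_lit 0) (cs (rf (nat_lit 0)) (cs (rf (nat_lit 1)) (rf (nat_lit 2))))) q74008 (by decide +kernel)
def q74020 : Q := Q.p (nat_lit 0x4000810002240000000010000040000000000000000000000000000000000000000000000) (nat_lit 0x800002000008001180004780000e00002800000000000000000000000000000000000000000000) (nat_lit 7)
theorem c74020 : QOK q74020 := cut [q50580, q73955, q74013, q74018] ⟨c50580, c73955, c74013, c74018, trivial⟩ (nd (nat_lit 224) (nat_lit 0) (cs (rf (nat_lit 0)) (cs (rf (nat_lit 1)) (cs (rf (nat_lit 2)) (nd (nat_lit 289) (nat_lit 0) (cs (lf (nat_lit 41) (nat_lit 223)) (rf (nat_lit 3)))))))) q74020 (by decide +kernel)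
def q74060 : Q := Q.p (nat_lit 0x1000004000810002000000000010000040000000000000000000000000000000000000000000000) (nat_lit 0xa0000380000e00000800002000008001060004080000000000000000000000000000000000000000000000000000000) (nat_lit 6)
theorem c74060 : QOK q74060 := cut [q73712, q73732, q74059] ⟨c73712, c73732, c74059, trivial⟩ (nd (nat_lit 334) (nat_lit 0) (cs (rf (nat_lit 0)) (cs (rf (nat_lit 1)) (rf (nat_lit 2))))) q74060 (by decide +kernel)
def q74090 : Q := Q.p (nat_lit 0x1000004000810002000000000010000040000000000000000000000000000000000000000000000) (nat_lit 0x800006000008000020000080010e0004380000a00000000000000000000000000000000000000000000000000) (nat_lit 7)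
theorem c74090 : QOK q74090 := cut [q70736, q73737, q73763, q50952] ⟨c70736, c73737, c73763, c50952, trivial⟩ (nd (nat_lit 246) (nat_lit 0) (cs (rf (nat_lit 0)) (cs (rf (nat_lit 1)) (cs (rf (nat_lit 2)) (nd (nat_lit 230) (nat_lit 0) (cs (lf (nat_lit 27) (nat_lit 186)) (nd (nat_lit 225) (nat_lit 0) (cs (rf (nat_lit 3)) (lf (nat_lit 34) (nat_lit 224)))))))))) q74090 (by decide +kernel)
def q74162 : Q := Q.p (nat_lit 0x4000890002600000000010000040000000000000000000000000000000000000000000000) (nat_lit 0xa0000f80003e0000fe0003a0000480001e0008f80020e00000800000000000000000000000000000000000000000000) (nat_lit 11)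
theorem c74162 : QOK q74162 := cut [q73732, q74063, q73717, q73724, q74144, q50866, q50957, q70736, q73739, q73745, q73754, q49336, q74159, q74160] ⟨c73732, c74063, c73717, c73724, c74144, c50866, c50957, c70736, c73739, c73745, c73754, c49336, c74159, c74160, trivial⟩ (nd (nat_lit 209) (nat_lit 0) (cs (lf (nat_lit 44) (nat_lit 186)) (nd (nat_lit 312) (nat_lit 0) (cs (nd (nat_lit 334) (nat_lit 0) (cs (rf (nat_lit 0)) (cs (rf (nat_lit 1)) (cs (nd (nat_lit 335) (nat_lit 0) (cs (lf (nat_lit 29) (nat_lit 268)) (nd (nat_lit 336) (nat_lit 0) (cs (rf (nat_lit 2)) (rf (nat_lit 3)))))) (rf (nat_lit 4)))))) (cs (nd (nat_lit 246) (nat_lit 0) (cs (rf (nat_lit 5)) (cs (rf (nat_lit 6)) (cs (rf (nat_lit 7)) (nd (nat_lit 245) (nat_lit 0) (cs (lf (nat_lit 47) (nat_lit 223)) (nd (nat_lit 311) (nat_lit 0) (cs (lf (nat_lit 41) (nat_lit 245)) (nd (nat_lit 313) (nat_lit 0) (cs (lf (nat_lit 29) (nat_lit 246)) (rf (nat_lit 8)))))))))))) (cs (nd (nat_lit 246) (nat_lit 0) (cs (rf (nat_lit 6)) (cs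 (rf (nat_lit 7)) (rf (nat_lit 9))))) (cs (nd (nat_lit 334) (nat_lit 0) (cs (rf (nat_lit 0)) (cs (nd (nat_lit 333) (nat_lit 0) (cs (lf (nat_lit 41) (nat_lit 267)) (nd (nat_lit 246) (nat_lit 0) (cs (lf (nat_lit 40) (nat_lit 245)) (nd (nat_lit 225) (nat_lit 0) (cs (lf (nat_lit 34) (nat_lit 224)) (nd (nat_lit 224) (nat_lit 0) (cs (lf (nat_lit 35) (nat_lit 202)) (nd (nat_lit 223) (nat_lit 0) (cs (lf (nat_lit 47) (nat_lit 201)) (rf (nat_lit 10)))))))))))) (nd (nat_lit 335) (nat_lit 0) (cs (lf (nat_lit 29) (nat_lit 268)) (nd (nat_lit 246) (nat_lit 0) (cs (lf (nat_lit 28) (nat_lit 246)) (nd (nat_lit 225) (nat_lit 0) (cs (lf (nat_lit 34) (nat_lit 224)) (nd (nat_lit 224) (nat_lit 0) (cs (lf (nat_lit 35) (nat_lit 202)) (nd (nat_lit 201) (nat_lit 0) (cs (lf (nat_lit 46) (nat_lit 201)) (nd (nat_lit 289) (nat_lit 0) (cs (rf (nat_lit 11)) (lf (nat_lit 41) (nat_lit 223))))))))))))))))) (cs (rf (nat_lit 12)) (rf (nat_lit 13)))))))))) q74162 (by decide +kernel)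
def q74167 : Q := Q.p (nat_lit 0x600000300000000000000000000000000000000000000000000000000000000) (nat_lit 0x138000cc0003800000000000000000000000000000000000000000000000000) (nat_lit 6)
theorem c74167 : QOK q74167 := cut [q74166] ⟨c74166, trivial⟩ (nd (nat_lit 226) (nat_lit 0) (cs (lf (nat_lit 3) (nat_lit 224)) (rf (nat_lit 0)))) q74167 (by decide +kernel)
def q74312 : Q := Q.p (nat_lit 0x810002040000100010000040000000000000000000000000000000000000000000000) (nat_lit 0x800006000008001020004080000e0000380000a000000000000000000000000000000000000000) (nat_lit 7)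
theorem c74312 : QOK q74312 := cut [q73965, q74030, q74290, q74309] ⟨c73965, c74030, c74290, c74309, trivial⟩ (nd (nat_lit 202) (nat_lit 0) (cs (rf (nat_lit 0)) (cs (rf (nat_lit 1)) (cs (rf (nat_lit 2)) (nd (nat_lit 230) (nat_lit 0) (cs (lf (nat_lit 27) (nat_lit 186)) (nd (nat_lit 181) (nat_lit 0) (cs (lf (nat_lit 34) (nat_lit 180)) (rf (nat_lit 3)))))))))) q74312 (by decide +kernel)
def q74377 : Q := Q.p (nat_lit 0x810002040000100010000040000000000000000000000000000000000000000000000) (nat_lit 0x280000e000028001020004000000e0000380000a000000000000000000000000000000000000000) (nat_lit 6)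
theorem c74377 : QOK q74377 := cut [q73965, q74290, q74306] ⟨c73965, c74290, c74306, trivial⟩ (nd (nat_lit 202) (nat_lit 0) (cs (rf (nat_lit 0)) (cs (rf (nat_lit 1)) (rf (nat_lit 2))))) q74377 (by decide +kernel)
def q74387 : Q := Q.p (nat_lit 0x810002680000100010000040000000000000000000000000000000000000000000000) (nat_lit 0x380001e00000e00116000c200020c00003000008000000000000000000000000000000000000000) (nat_lit 8)
theorem c74387 : QOK q74387 := cut [q74376, q50633, q74385] ⟨c74376, c50633, c74385, trivial⟩ (nd (nat_lit 246) (nat_lit 0) (cs (rf (nat_lit 0)) (cs (nd (nat_lit 230) (nat_lit 0) (cs (lf (nat_lit 27) (nat_lit 186)) (nd (nat_lit 209) (nat_lit 0) (cs (lf (nat_lit 44) (nat_lit 186)) (nd (nat_lit 225) (nat_lit 0) (cs (lf (nat_lit 20) (nat_lit 224)) (rf (nat_lit 1)))))))) (cs (rf (nat_lit 2)) (nd (nat_lit 248) (nat_lit 0) (cs (lf (nat_lit 11) (nat_lit 245)) (lf (nat_lit 22) (nat_lit 224)))))))) q74387 (by decide +kernel)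
def q74515 : Q := Q.p (nat_lit 0x810002040000100010000040000000000000000000000000000000000000000000000) (nat_lit 0x300000c000028001020004080000e0000380000e000008000000000000000000000000000000000) (nat_lit 9)
theorem c74515 : QOK q74515 := cut [q74290, q74314, q37980, q74513] ⟨c74290, c74314, c37980, c74513, trivial⟩ (nd (nat_lit 202) (nat_lit 0) (cs (rf (nat_lit 0)) (cs (rf (nat_lit 1)) (cs (nd (nat_lit 230) (nat_lit 0) (cs (lf (nat_lit 27) (nat_lit 186)) (nd (nat_lit 181) (nat_lit 0) (cs (lf (nat_lit 34) (nat_lit 180)) (nd (nat_lit 180) (nat_lit 0) (cs (lf (nat_lit 35) (nat_lit 158)) (nd (nat_lit 269) (nat_lit 0) (cs (lf (nat_lit 29) (nat_lit 202)) (rf (nat_lit 2)))))))))) (nd (nat_lit 269) (nat_lit 0) (cs (lf (nat_lit 29) (nat_lit 202)) (rf (nat_lit 3)))))))) q74515 (by decide +kernel)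
def q74557 : Q := Q.p (nat_lit 0x8100020c0000100010000040000000000000000000000000000000000000000000000) (nat_lit 0xb80002e0000380080c0020600001800002000000000000000000000000000000000000000) (nat_lit 10)
theorem c74557 : QOK q74557 := cut [q73965, q74431, q74532, q74551] ⟨c73965, c74431, c74532, c74551, trivial⟩ (nd (nat_lit 202) (nat_lit 0) (cs (rf (nat_lit 0)) (cs (rf (nat_lit 1)) (cs (rf (nat_lit 2)) (nd (nat_lit 209) (nat_lit 0) (cs (lf (nat_lit 44) (nat_lit 186)) (nd (nat_lit 267) (nat_lit 0) (cs (lf (nat_lit 41) (nat_lit 201)) (nd (nat_lit 266) (nat_lit 0) (cs (lf (nat_lit 12) (nat_lit 243)) (nd (nat_lit 201) (nat_lit 0) (cs (lf (nat_lit 47) (nat_lit 179)) (nd (nat_lit 269) (nat_lit 0) (cs (lf (nat_lit 29) (nat_lit 202)) (rf (nat_lit 3)))))))))))))))) q74557 (by decide +kernel)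
def q74585 : Q := Q.p (nat_lit 0x810002040000100010000040000000000000000000000000000000000000000000000) (nat_lit 0xa0000380000e000020001020004080000600000800000000000000000000000000000000000000000000) (nat_lit 6)
theorem c74585 : QOK q74585 := cut [q72372, q74051, q74275, q74584] ⟨c72372, c74051, c74275, c74584, trivial⟩ (nd (nat_lit 290) (nat_lit 0) (cs (rf (nat_lit 0)) (cs (rf (nat_lit 1)) (cs (rf (nat_lit 2)) (rf (nat_lit 3)))))) q74585 (by decide +kernel)
def q74693 : Q := Q.p (nat_lit 0x810002600000100010000040000000000000000000000000000000000000000000000) (nat_lit 0x80000380000e0000280001f0008e80023f8000380000a000000000000000000000000000000000000000) (nat_lit 10)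
theorem c74693 : QOK q74693 := cut [q74164, q74187, q74173, q74177, q74180, q74195, q74347, q73965, q74030, q74289, q74628, q50580, q72372, q74176] ⟨c74164, c74187, c74173, c74177, c74180, c74195, c74347, c73965, c74030, c74289, c74628, c50580, c72372, c74176, trivial⟩ (nd (nat_lit 225) (nat_lit 0) (cs (rf (nat_lit 0)) (cs (nd (nat_lit 226) (nat_lit 0) (cs (lf (nat_lit 3) (nat_lit 224)) (nd (nat_lit 223) (nat_lit 0) (cs (lf (nat_lit 4) (nat_lit 223)) (nd (nat_lit 244) (nat_lit 0) (cs (lf (nat_lit 10) (nat_lit 222)) (nd (nat_lit 204) (nat_lit 0) (cs (lf (nat_lit 17) (nat_lit 201)) (nd (nat_lit 209) (nat_lit 0) (cs (lf (nat_lit 44) (nat_lit 186)) (rf (nat_lit 1)))))))))))) (cs (nd (nat_lit 290) (nat_lit 0) (cs (rf (nat_lit 2)) (cs (rf (nat_lit 3)) (cs (rf (nat_lit 4)) (rf (nat_lit 5)))))) (nd (nat_lit 209) (nat_lit 0) (cs (lf (nat_lit 44) (nat_lit 186)) (nd (nat_lit 246) (nat_lit 0) (cs (rf (nat_lit 6)) (cs (nd (nat_lit 202) (nat_lit 0) (cs (rf (nat_lit 7)) (cs (rf (nat_lit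 8)) (cs (rf (nat_lit 9)) (rf (nat_lit 10)))))) (nd (nat_lit 290) (nat_lit 0) (cs (rf (nat_lit 11)) (cs (rf (nat_lit 12)) (rf (nat_lit 13)))))))))))))) q74693 (by decide +kernel)
def q75013 : Q := Q.p (nat_lit 0x4000890002600000000010000040000000000000000000000000000000000000000000000) (nat_lit 0xa0000780001e0000f00007b80006e0010f800cb80020a00000000000000000000000000000000000000000000000000) (nat_lit 12)
theorem c75013 : QOK q75013 := cut [q74067, q73729, q73734, q73736, q74910, q50957, q73737, q74900, q70732] ⟨c74067, c73729, c73734, c73736, c74910, c50957, c73737, c74900, c70732, trivial⟩ (nd (nat_lit 209) (nat_lit 0) (cs (lf (nat_lit 44) (nat_lit 186)) (nd (nat_lit 269) (nat_lit 0) (cs (lf (nat_lit 14) (nat_lit 246)) (nd (nat_lit 312) (nat_lit 0) (cs (rf (nat_lit 0)) (cs (nd (nat_lit 246) (nat_lit 0) (cs (rf (nat_lit 1)) (cs (rf (nat_lit 2)) (rf (nat_lit 3))))) (cs (rf (nat_lit 4)) (nd (nat_lit 246) (nat_lit 0) (cs (rf (nat_lit 5)) (cs (rf (nat_lit 1)) (cs (rf (nat_lit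 6)) (nd (nat_lit 313) (nat_lit 0) (cs (lf (nat_lit 29) (nat_lit 246)) (nd (nat_lit 314) (nat_lit 0) (cs (rf (nat_lit 7)) (cs (nd (nat_lit 247) (nat_lit 0) (cs (rf (nat_lit 8)) (nd (nat_lit 266) (nat_lit 0) (cs (nd (nat_lit 230) (nat_lit 0) (cs (lf (nat_lit 27) (nat_lit 186)) (nd (nat_lit 245) (nat_lit 0) (cs (lf (nat_lit 47) (nat_lit 223)) (nd (nat_lit 244) (nat_lit 0) (cs (lf (nat_lit 11) (nat_lit 243)) (lf (nat_lit 0) (nat_lit 243)))))))) (nd (nat_lit 291) (nat_lit 0) (cs (lf (nat_lit 29) (nat_lit 247)) (nd (nat_lit 267) (nat_lit 0) (cs (lf (nat_lit 5) (nat_lit 266)) (nd (nat_lit 288) (nat_lit 0) (cs (lf (nat_lit 11) (nat_lit 265)) (lf (nat_lit 1) (nat_lit 288)))))))))))) (cs (nd (nat_lit 223) (nat_lit 0) (cs (lf (nat_lit 46) (nat_lit 223)) (nd (nat_lit 315) (nat_lit 0) (cs (lf (nat_lit 23) (nat_lit 289)) (nd (nat_lit 293) (nat_lit 0) (cs (lf (nat_lit 41) (nat_lit 248)) (lf (nat_lit 17) (nat_lit 290)))))))) (nd (nat_lit 223) (nat_lit 0) (cs (lf (nat_lit 46) (nat_lit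 223)) (nd (nat_lit 225) (nat_lit 0) (cs (lf (nat_lit 34) (nat_lit 224)) (nd (nat_lit 230) (nat_lit 0) (cs (lf (nat_lit 27) (nat_lit 186)) (nd (nat_lit 289) (nat_lit 0) (cs (lf (nat_lit 18) (nat_lit 289)) (nd (nat_lit 288) (nat_lit 0) (cs (lf (nat_lit 12) (nat_lit 265)) (lf (nat_lit 3) (nat_lit 288)))))))))))))))))))))))))))))) q75013 (by decide +kernel)
def q75070 : Q := Q.p (nat_lit 0x4000830002000000000010000040000000000000000000000000000000000000000000000) (nat_lit 0xa0000380000e0000780000b8000080000f80083e0020a00000000000000000000000000000000000000000000000000) (nat_lit 10)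
theorem c75070 : QOK q75070 := cut [q74102, q74909, q50866, q50957, q70736, q74939] ⟨c74102, c74909, c50866, c50957, c70736, c74939, trivial⟩ (nd (nat_lit 209) (nat_lit 0) (cs (lf (nat_lit 44) (nat_lit 186)) (nd (nat_lit 312) (nat_lit 0) (cs (rf (nat_lit 0)) (cs (rf (nat_lit 1)) (nd (nat_lit 246) (nat_lit 0) (cs (rf (nat_lit 2)) (cs (rf (nat_lit 3)) (cs (rf (nat_lit 4)) (rf (nat_lit 5))))))))))) q75070 (by decide +kernel)
def q75089 : Q := Q.p (nat_lit 0x890002600000000010000040000000000000000000000000000000000000000000000) (nat_lit 0x40000700001e00007e00006800110000cf0002780003c000040000000000000000000000000000000000000000) (nat_lit 13)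
theorem c75089 : QOK q75089 := cut [q72658, q67225, q67951, q73515, q46559, q57381, q46953, q44099] ⟨c72658, c67225, c67951, c73515, c46559, c57381, c46953, c44099, trivial⟩ (nd (nat_lit 209) (nat_lit 0) (cs (lf (nat_lit 44) (nat_lit 186)) (nd (nat_lit 270) (nat_lit 0) (cs (lf (nat_lit 13) (nat_lit 246)) (nd (nat_lit 227) (nat_lit 0) (cs (rf (nat_lit 0)) (cs (nd (nat_lit 205) (nat_lit 0) (cs (rf (nat_lit 1)) (rf (nat_lit 2)))) (nd (nat_lit 293) (nat_lit 0) (cs (rf (nat_lit 3)) (cs (nd (nat_lit 292) (nat_lit 0) (cs (rf (nat_lit 4)) (nd (nat_lit 230) (nat_lit 0) (cs (lf (nat_lit 27) (nat_lit 186)) (nd (nat_lit 294) (nat_lit 0) (cs (lf (nat_lit 29) (nat_lit 227)) (nd (nat_lit 226) (nat_lit 0) (cs (lf (nat_lit 47) (nat_lit 204)) (nd (nat_lit 225) (nat_lit 0) (cs (lf (nat_lit 0) (nat_lit 224)) (nd (nat_lit 248) (nat_lit 0) (cs (lf (nat_lit 47) (nat_lit 203)) (rf (nat_lit 5)))))))))))))) (cs (nd (nat_lit 292) (nat_lit 0) (cs (lf (nat_lit 41) (nat_lit 226)) (nd (nat_lit 230)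 (nat_lit 0) (cs (lf (nat_lit 27) (nat_lit 186)) (nd (nat_lit 226) (nat_lit 0) (cs (lf (nat_lit 47) (nat_lit 204)) (nd (nat_lit 248) (nat_lit 0) (cs (lf (nat_lit 29) (nat_lit 226)) (rf (nat_lit 6)))))))))) (nd (nat_lit 316) (nat_lit 0) (cs (lf (nat_lit 28) (nat_lit 227)) (nd (nat_lit 315) (nat_lit 0) (cs (lf (nat_lit 29) (nat_lit 249)) (rf (nat_lit 7))))))))))))))))) q75089 (by decide +kernel)
def q75300 : Q := Q.p (nat_lit 0x20000890002600000800010000040000000000000000000000000000000000000000000000) (nat_lit 0xa0000380003e0004f8001d60007680010e000c780021800000000000000000000000000000000000000000000000000) (nat_lit 10)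
theorem c75300 : QOK q75300 := cut [q73247, q75057] ⟨c73247, c75057, trivial⟩ (nd (nat_lit 314) (nat_lit 0) (cs (lf (nat_lit 40) (nat_lit 226)) (nd (nat_lit 315) (nat_lit 0) (cs (lf (nat_lit 41) (nat_lit 248)) (nd (nat_lit 312) (nat_lit 0) (cs (nd (nat_lit 294) (nat_lit 0) (cs (lf (nat_lit 13) (nat_lit 290)) (nd (nat_lit 296) (nat_lit 0) (cs (lf (nat_lit 7) (nat_lit 292)) (nd (nat_lit 272) (nat_lit 0) (cs (lf (nat_lit 30) (nat_lit 249)) (nd (nat_lit 274) (nat_lit 0) (cs (lf (nat_lit 20) (nat_lit 249)) (rf (nat_lit 0)))))))))) (cs (nd (nat_lit 269) (nat_lit 0) (cs (lf (nat_lit 14) (nat_lit 246)) (nd (nat_lit 290) (nat_lit 0) (cs (rf (nat_lit 1)) (cs (nd (nat_lit 226) (nat_lit 0) (cs (lf (nat_lit 47) (nat_lit 204)) (nd (nat_lit 272) (nat_lit 0) (cs (lf (nat_lit 30) (nat_lit 249)) (nd (nat_lit 225) (nat_lit 0) (cs (lf (nat_lit 0) (nat_lit 224)) (nd (nat_lit 247) (nat_lit 0) (cs (lf (nat_lit 36) (nat_lit 202)) (lf (nat_lit 33) (nat_lit 224)))))))))) (nd (nat_lit 230) (nat_lit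 0) (cs (lf (nat_lit 27) (nat_lit 186)) (nd (nat_lit 247) (nat_lit 0) (cs (lf (nat_lit 30) (nat_lit 246)) (nd (nat_lit 226) (nat_lit 0) (cs (lf (nat_lit 47) (nat_lit 204)) (nd (nat_lit 225) (nat_lit 0) (cs (lf (nat_lit 0) (nat_lit 224)) (lf (nat_lit 36) (nat_lit 202))))))))))))))) (nd (nat_lit 209) (nat_lit 0) (cs (lf (nat_lit 44) (nat_lit 186)) (nd (nat_lit 269) (nat_lit 0) (cs (lf (nat_lit 14) (nat_lit 246)) (nd (nat_lit 204) (nat_lit 0) (cs (lf (nat_lit 46) (nat_lit 204)) (nd (nat_lit 313) (nat_lit 0) (cs (lf (nat_lit 17) (nat_lit 290)) (nd (nat_lit 290) (nat_lit 0) (cs (lf (nat_lit 23) (nat_lit 289)) (nd (nat_lit 334) (nat_lit 0) (cs (lf (nat_lit 11) (nat_lit 311)) (lf (nat_lit 35) (nat_lit 246))))))))))))))))))))) q75300 (by decide +kernel)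
def q75334 : Q := Q.p (nat_lit 0x80000700000100000000000000000000000000000000000000000000000000000000) (nat_lit 0x120000cc0003780000c0000c80003000000000000000000000000000000000000000000000000000) (nat_lit 8)
theorem c75334 : QOK q75334 := cut [q44570, q75329, q46561, q75331] ⟨c44570, c75329, c46561, c75331, trivial⟩ (nd (nat_lit 247) (nat_lit 0) (cs (rf (nat_lit 0)) (cs (rf (nat_lit 1)) (nd (nat_lit 272) (nat_lit 0) (cs (lf (nat_lit 5) (nat_lit 247)) (nd (nat_lit 294) (nat_lit 0) (cs (rf (nat_lit 2)) (rf (nat_lit 3))))))))) q75334 (by decide +kernel)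
def q75398 : Q := Q.p (nat_lit 0x20000880002600000000010000040000000000000000000000000000000000000000000000) (nat_lit 0x140001fe0003f0001ce00070000118000c400020000000000000000000000000000000000000000000000000000) (nat_lit 10)
theorem c75398 : QOK q75398 := cut [q66775, q75392, q75395] ⟨c66775, c75392, c75395, trivial⟩ (nd (nat_lit 315) (nat_lit 0) (cs (rf (nat_lit 0)) (cs (nd (nat_lit 209) (nat_lit 0) (cs (lf (nat_lit 44) (nat_lit 186)) (rf (nat_lit 1)))) (nd (nat_lit 226) (nat_lit 0) (cs (lf (nat_lit 46) (nat_lit 226)) (nd (nat_lit 209) (nat_lit 0) (cs (lf (nat_lit 44) (nat_lit 186)) (rf (nat_lit 2))))))))) q75398 (by decide +kernel)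
def q75470 : Q := Q.p (nat_lit 0x800002000000100011c00040000000000000000000000000000000000000000000000) (nat_lit 0x100000c0800e60000b8000000000000000000000000000000000000000000000) (nat_lit 7)
theorem c75470 : QOK q75470 := cut [q75467] ⟨c75467, trivial⟩ (nd (nat_lit 209) (nat_lit 0) (cs (lf (nat_lit 44) (nat_lit 186)) (nd (nat_lit 205) (nat_lit 0) (cs (lf (nat_lit 11) (nat_lit 201)) (nd (nat_lit 230) (nat_lit 0) (cs (lf (nat_lit 27) (nat_lit 186)) (rf (nat_lit 0)))))))) q75470 (by decide +kernel)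
def q75499 : Q := Q.p (nat_lit 0x20000880002600000000010000040000000000000000000000000000000000000000000000) (nat_lit 0x140001fe000ff0001ce000700001000004800000000000000000000000000000000000000000000000000000000) (nat_lit 9)
theorem c75499 : QOK q75499 := cut [q67194, q75392, q75395, q75413] ⟨c67194, c75392, c75395, c75413, trivial⟩ (nd (nat_lit 315) (nat_lit 0) (cs (rf (nat_lit 0)) (cs (rf (nat_lit 1)) (cs (rf (nat_lit 2)) (rf (nat_lit 3)))))) q75499 (by decide +kernel)
def q75504 : Q := Q.p (nat_lit 0x880002340000000010000040000000000000000000000000000000000000000000000) (nat_lit 0x80000200001400010a0004c00001000004000000000000000000000000000000000000000000000) (nat_lit 6)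
theorem c75504 : QOK q75504 := cut [q68600, q68601, q3662] ⟨c68600, c68601, c3662, trivial⟩ (nd (nat_lit 247) (nat_lit 0) (cs (lf (nat_lit 5) (nat_lit 246)) (nd (nat_lit 226) (nat_lit 0) (cs (rf (nat_lit 0)) (cs (rf (nat_lit 1)) (nd (nat_lit 230) (nat_lit 0) (cs (lf (nat_lit 27) (nat_lit 186)) (nd (nat_lit 227) (nat_lit 0) (cs (rf (nat_lit 2)) (lf (nat_lit 12) (nat_lit 223))))))))))) q75504 (by decide +kernel)
def q75539 : Q := Q.p (nat_lit 0x880002640000100010400040000000000000000000000000000000000000000000000) (nat_lit 0x300005f0001e800077000118000cc00023000000000000000000000000000000000000000000000000000) (nat_lit 11)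
theorem c75539 : QOK q75539 := cut [q75506, q75507, q46561, q46588, q75514, q11939, q57236, q75538] ⟨c75506, c75507, c46561, c46588, c75514, c11939, c57236, c75538, trivial⟩ (nd (nat_lit 269) (nat_lit 0) (cs (rf (nat_lit 0)) (cs (nd (nat_lit 272) (nat_lit 0) (cs (rf (nat_lit 1)) (cs (nd (nat_lit 209) (nat_lit 0) (cs (lf (nat_lit 44) (nat_lit 186)) (nd (nat_lit 274) (nat_lit 0) (cs (lf (nat_lit 20) (nat_lit 249)) (nd (nat_lit 294) (nat_lit 0) (cs (rf (nat_lit 2)) (cs (nd (nat_lit 227) (nat_lit 0) (cs (lf (nat_lit 24) (nat_lit 205)) (nd (nat_lit 295) (nat_lit 0) (cs (lf (nat_lit 1) (nat_lit 269)) (nd (nat_lit 293) (nat_lit 0) (cs (lf (nat_lit 15) (nat_lit 271)) (rf (nat_lit 3)))))))) (rf (nat_lit 4))))))))) (cs (nd (nat_lit 230) (nat_lit 0) (cs (lf (nat_lit 27) (nat_lit 186)) (nd (nat_lit 209) (nat_lit 0) (cs (lf (nat_lit 44) (nat_lit 186)) (nd (nat_lit 273) (nat_lit 0) (cs (lf (nat_lit 19) (nat_lit 249)) (nd (nat_lit 270) (nat_lit 0) (cs (rf (nat_lit 5)) (lf (nat_lit 22)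 (nat_lit 246)))))))))) (nd (nat_lit 274) (nat_lit 0) (cs (lf (nat_lit 20) (nat_lit 249)) (nd (nat_lit 231) (nat_lit 0) (cs (lf (nat_lit 45) (nat_lit 186)) (nd (nat_lit 294) (nat_lit 0) (cs (rf (nat_lit 2)) (nd (nat_lit 248) (nat_lit 0) (cs (lf (nat_lit 1) (nat_lit 246)) (nd (nat_lit 252) (nat_lit 0) (cs (lf (nat_lit 26) (nat_lit 186)) (nd (nat_lit 296) (nat_lit 0) (cs (lf (nat_lit 30) (nat_lit 230)) (nd (nat_lit 293) (nat_lit 0) (cs (lf (nat_lit 14) (nat_lit 271)) (rf (nat_lit 6)))))))))))))))))))) (rf (nat_lit 7))))) q75539 (by decide +kernel)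
def q75557 : Q := Q.p (nat_lit 0x810002040000100010400040000000000000000000000000000000000000000000000) (nat_lit 0x40000000000000080c0023a00002800000000000000000000000000000000000000000000) (nat_lit 6)
theorem c75557 : QOK q75557 := cut [q75556] ⟨c75556, trivial⟩ (nd (nat_lit 209) (nat_lit 0) (cs (lf (nat_lit 44) (nat_lit 186)) (rf (nat_lit 0)))) q75557 (by decide +kernel)
def q75607 : Q := Q.p (nat_lit 0x980002600000000010000040000000000000000000000000000000000000000000000) (nat_lit 0xe00007c0001e000060000110000cc00023000000000000000000000000000000000000000000000000000) (nat_lit 10)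
theorem c75607 : QOK q75607 := cut [q46561, q72521, q72523] ⟨c46561, c72521, c72523, trivial⟩ (nd (nat_lit 274) (nat_lit 0) (cs (lf (nat_lit 20) (nat_lit 249)) (nd (nat_lit 231) (nat_lit 0) (cs (lf (nat_lit 45) (nat_lit 186)) (nd (nat_lit 294) (nat_lit 0) (cs (rf (nat_lit 0)) (cs (rf (nat_lit 1)) (nd (nat_lit 252) (nat_lit 0) (cs (lf (nat_lit 26) (nat_lit 186)) (nd (nat_lit 296) (nat_lit 0) (cs (lf (nat_lit 30) (nat_lit 230)) (nd (nat_lit 295) (nat_lit 0) (cs (lf (nat_lit 12) (nat_lit 271)) (rf (nat_lit 2))))))))))))))) q75607 (by decide +kernel)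
def q75658 : Q := Q.p (nat_lit 0x800002040000100010400040000000000000000000000000000000000000000000000) (nat_lit 0x200001800102000c000020a0000380000e000028000000000000000000000000000000000) (nat_lit 7)
theorem c75658 : QOK q75658 := cut [q75355, q75652, q75656] ⟨c75355, c75652, c75656, trivial⟩ (nd (nat_lit 180) (nat_lit 0) (cs (rf (nat_lit 0)) (cs (nd (nat_lit 230) (nat_lit 0) (cs (lf (nat_lit 27) (nat_lit 186)) (rf (nat_lit 1)))) (nd (nat_lit 209) (nat_lit 0) (cs (lf (nat_lit 44) (nat_lit 186)) (rf (nat_lit 2))))))) q75658 (by decide +kernel)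
def q75735 : Q := Q.p (nat_lit 0x80000600000100000400001000004000000000000000000000000000000000000000) (nat_lit 0x80000700000c0000000000000002000008000020000000000000000000000000000000000) (nat_lit 5)
theorem c75735 : QOK q75735 := cut [q75734] ⟨c75734, trivial⟩ (nd (nat_lit 159) (nat_lit 0) (cs (lf (nat_lit 35) (nat_lit 136)) (rf (nat_lit 0)))) q75735 (by decide +kernel)
def q75801 : Q := Q.p (nat_lit 0x880002200000100010600041000000000000000000000000000000000000000000000) (nat_lit 0x102800c8f00279c000ef00019800024000010000000000000000000000000000) (nat_lit 10)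
theorem c75801 : QOK q75801 := cut [q50239, q75772, q75777] ⟨c50239, c75772, c75777, trivial⟩ (nd (nat_lit 200) (nat_lit 0) (cs (nd (nat_lit 230) (nat_lit 0) (cs (lf (nat_lit 27) (nat_lit 186)) (rf (nat_lit 0)))) (cs (nd (nat_lit 181) (nat_lit 0) (cs (lf (nat_lit 12) (nat_lit 177)) (nd (nat_lit 182) (nat_lit 0) (cs (lf (nat_lit 6) (nat_lit 179)) (lf (nat_lit 15) (nat_lit 178)))))) (cs (nd (nat_lit 199) (nat_lit 0) (cs (nd (nat_lit 198) (nat_lit 0) (cs (lf (nat_lit 4) (nat_lit 198)) (lf (nat_lit 16) (nat_lit 176)))) (rf (nat_lit 1)))) (nd (nat_lit 203) (nat_lit 0) (cs (rf (nat_lit 2)) (cs (nd (nat_lit 178) (nat_lit 0) (cs (lf (nat_lit 23) (nat_lit 177)) (nd (nat_lit 181) (nat_lit 0) (cs (lf (nat_lit 17) (nat_lit 178)) (nd (nat_lit 159) (nat_lit 0) (cs (lf (nat_lit 36) (nat_lit 136)) (nd (nat_lit 230) (nat_lit 0) (cs (lf (nat_lit 27) (nat_lit 186)) (nd (nat_lit 179) (nat_lit 0) (cs (nd (nat_lit 156) (nat_lit 0) (cs (lf (nat_lit 23) (nat_lit 155)) (nd (nat_lit 134) (nat_lit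 0) (cs (lf (nat_lit 24) (nat_lit 112)) (lf (nat_lit 29) (nat_lit 134)))))) (lf (nat_lit 17) (nat_lit 156)))))))))))) (cs (nd (nat_lit 181) (nat_lit 0) (cs (lf (nat_lit 17) (nat_lit 178)) (nd (nat_lit 137) (nat_lit 0) (cs (lf (nat_lit 37) (nat_lit 136)) (nd (nat_lit 209) (nat_lit 0) (cs (lf (nat_lit 44) (nat_lit 186)) (nd (nat_lit 230) (nat_lit 0) (cs (lf (nat_lit 27) (nat_lit 186)) (nd (nat_lit 222) (nat_lit 0) (cs (lf (nat_lit 11) (nat_lit 199)) (nd (nat_lit 204) (nat_lit 0) (cs (lf (nat_lit 10) (nat_lit 200)) (nd (nat_lit 205) (nat_lit 0) (cs (lf (nat_lit 23) (nat_lit 179)) (lf (nat_lit 18) (nat_lit 180)))))))))))))))) (nd (nat_lit 221) (nat_lit 0) (cs (lf (nat_lit 10) (nat_lit 199)) (nd (nat_lit 177) (nat_lit 0) (cs (lf (nat_lit 22) (nat_lit 177)) (nd (nat_lit 182) (nat_lit 0) (cs (lf (nat_lit 16) (nat_lit 178)) (nd (nat_lit 204) (nat_lit 0) (cs (lf (nat_lit 17) (nat_lit 179)) (nd (nat_lit 205) (nat_lit 0) (cs (lf (nat_lit 23) (nat_lit 179)) (lf (nat_lit 44) (nat_lit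 182)))))))))))))))))))) q75801 (by decide +kernel)
def q75943 : Q := Q.p (nat_lit 0x20000890002600000000010000040000000000000000000000000000000000000000000000) (nat_lit 0x100000700001c000000000160001180004400000000000000000000000000000000000000000000000000000000) (nat_lit 8)
theorem c75943 : QOK q75943 := cut [q75942] ⟨c75942, trivial⟩ (nd (nat_lit 230) (nat_lit 0) (cs (lf (nat_lit 27) (nat_lit 186)) (rf (nat_lit 0)))) q75943 (by decide +kernel)
def q75955 : Q := Q.p (nat_lit 0x890002600000000011000040000000000000000000000000000000000000000000000) (nat_lit 0x8000020000060001180004c00000000004000000000000000000000000000000000000000000000) (nat_lit 6)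
theorem c75955 : QOK q75955 := cut [q75954] ⟨c75954, trivial⟩ (nd (nat_lit 230) (nat_lit 0) (cs (lf (nat_lit 27) (nat_lit 186)) (rf (nat_lit 0)))) q75955 (by decide +kernel)
def q75979 : Q := Q.p (nat_lit 0x890002600000100010400040000000000000000000000000000000000000000000000) (nat_lit 0xe00006e0011c00040c0003a00002800000000000000000000000000000000000000000000) (nat_lit 11)
theorem c75979 : QOK q75979 := cut [q75978] ⟨c75978, trivial⟩ (nd (nat_lit 230) (nat_lit 0) (cs (lf (nat_lit 27) (nat_lit 186)) (rf (nat_lit 0)))) q75979 (by decide +kernel)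
def q75992 : Q := Q.p (nat_lit 0x800002040000100010400040000000000000000000000000000000000000000000000) (nat_lit 0x200001800002000808002020000380000e000028000000000000000000000000000000000) (nat_lit 6)
theorem c75992 : QOK q75992 := cut [q75343, q75355, q75652] ⟨c75343, c75355, c75652, trivial⟩ (nd (nat_lit 180) (nat_lit 0) (cs (rf (nat_lit 0)) (cs (rf (nat_lit 1)) (rf (nat_lit 2))))) q75992 (by decide +kernel)
def q76011 : Q := Q.p (nat_lit 0x880002600000100010400041000000000000000000000000000000000000000000000) (nat_lit 0xa000078001060004000003bc000ee0000bc00000000000000000000000000000000000000) (nat_lit 9)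
theorem c76011 : QOK q76011 := cut [q75656, q76008, q76010] ⟨c75656, c76008, c76010, trivial⟩ (nd (nat_lit 246) (nat_lit 0) (cs (rf (nat_lit 0)) (cs (rf (nat_lit 1)) (rf (nat_lit 2))))) q76011 (by decide +kernel)
def q76018 : Q := Q.p (nat_lit 0x800002000000100010400041000000000000000000000000000000000000000000000) (nat_lit 0x800106000408000020000200000e0000380000a0000000000000000000000000000) (nat_lit 7)
theorem c76018 : QOK q76018 := cut [q75684, q75730, q75733, q76016] ⟨c75684, c75730, c75733, c76016, trivial⟩ (nd (nat_lit 158) (nat_lit 0) (cs (rf (nat_lit 0)) (cs (rf (nat_lit 1)) (cs (rf (nat_lit 2)) (nd (nat_lit 230) (nat_lit 0) (cs (lf (nat_lit 27) (nat_lit 186)) (rf (nat_lit 3)))))))) q76018 (by decide +kernel)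
def q76023 : Q := Q.p (nat_lit 0x800002000000100010400041000000000000000000000000000000000000000000000) (nat_lit 0x800106000408000020000080000e0000380000a0000000000000000000000000000) (nat_lit 7)
theorem c76023 : QOK q76023 := cut [q75684, q75730, q75733, q76021] ⟨c75684, c75730, c75733, c76021, trivial⟩ (nd (nat_lit 158) (nat_lit 0) (cs (rf (nat_lit 0)) (cs (rf (nat_lit 1)) (cs (rf (nat_lit 2)) (nd (nat_lit 230) (nat_lit 0) (cs (lf (nat_lit 27) (nat_lit 186)) (rf (nat_lit 3)))))))) q76023 (by decide +kernel)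
def q76030 : Q := Q.p (nat_lit 0x800002000000100010400041000000000000000000000000000000000000000000000) (nat_lit 0x800106000c08002000000280000e0000380000a0000000000000000000000000000) (nat_lit 7)
theorem c76030 : QOK q76030 := cut [q75733, q76025, q76028] ⟨c75733, c76025, c76028, trivial⟩ (nd (nat_lit 158) (nat_lit 0) (cs (rf (nat_lit 0)) (cs (nd (nat_lit 230) (nat_lit 0) (cs (lf (nat_lit 27) (nat_lit 186)) (rf (nat_lit 1)))) (nd (nat_lit 209) (nat_lit 0) (cs (lf (nat_lit 44) (nat_lit 186)) (rf (nat_lit 2))))))) q76030 (by decide +kernel)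
def q76120 : Q := Q.p (nat_lit 0x80000600000100000400001000004000000000000000000000000000000000000000) (nat_lit 0xa000078000060000000000000000800002000008000000000000000000000000000000000) (nat_lit 6)
theorem c76120 : QOK q76120 := cut [q76119] ⟨c76119, trivial⟩ (nd (nat_lit 157) (nat_lit 0) (cs (lf (nat_lit 47) (nat_lit 135)) (rf (nat_lit 0)))) q76120 (by decide +kernel)
def q76168 : Q := Q.p (nat_lit 0x100000400001000000000000000000000000000000000000000000000) (nat_lit 0x800006000008000020000200000e0000380000a0000000000000000000000000000) (nat_lit 6)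
theorem c76168 : QOK q76168 := cut [q75684, q75730, q75733, q76016] ⟨c75684, c75730, c75733, c76016, trivial⟩ (nd (nat_lit 158) (nat_lit 0) (cs (rf (nat_lit 0)) (cs (rf (nat_lit 1)) (cs (rf (nat_lit 2)) (rf (nat_lit 3)))))) q76168 (by decide +kernel)
def q76224 : Q := Q.p (nat_lit 0x20000080000600000000000000000000000000000000000000000000000000000000000000) (nat_lit 0x140000700001e0001c0000100000000000800000000000000000000000000000000000000000000000000000000) (nat_lit 6)
theorem c76224 : QOK q76224 := cut [q56929, q56973, q75573] ⟨c56929, c56973, c75573, trivial⟩ (nd (nat_lit 315) (nat_lit 0) (cs (rf (nat_lit 0)) (cs (rf (nat_lit 1)) (rf (nat_lit 2))))) q76224 (by decide +kernel)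
def q76442 : Q := Q.p (nat_lit 0x800002000000180010e00040000000000000000000000000000000000000000000000) (nat_lit 0x10200040700001c0000700001000004000000000000000000000000000000000) (nat_lit 6)
theorem c76442 : QOK q76442 := cut [q76399, q76401, q76441] ⟨c76399, c76401, c76441, trivial⟩ (nd (nat_lit 200) (nat_lit 0) (cs (rf (nat_lit 0)) (cs (rf (nat_lit 1)) (rf (nat_lit 2))))) q76442 (by decide +kernel)
def q76484 : Q := Q.p (nat_lit 0x880002600000180010600040000000000000000000000000000000000000000000000) (nat_lit 0x80000f80007f0010fc00c0700201c0000e00003000000000000000000000000000000000000000) (nat_lit 10)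
theorem c76484 : QOK q76484 := cut [q75365, q76097] ⟨c75365, c76097, trivial⟩ (nd (nat_lit 246) (nat_lit 0) (cs (rf (nat_lit 0)) (cs (rf (nat_lit 1)) (nd (nat_lit 245) (nat_lit 0) (cs (nd (nat_lit 230) (nat_lit 0) (cs (lf (nat_lit 27) (nat_lit 186)) (nd (nat_lit 267) (nat_lit 0) (cs (lf (nat_lit 30) (nat_lit 201)) (nd (nat_lit 266) (nat_lit 0) (cs (lf (nat_lit 41) (nat_lit 200)) (nd (nat_lit 179) (nat_lit 0) (cs (lf (nat_lit 24) (nat_lit 157)) (lf (nat_lit 40) (nat_lit 178)))))))))) (cs (nd (nat_lit 267) (nat_lit 0) (cs (lf (nat_lit 30) (nat_lit 201)) (nd (nat_lit 266) (nat_lit 0) (cs (lf (nat_lit 41) (nat_lit 200)) (nd (nat_lit 265) (nat_lit 0) (cs (lf (nat_lit 12) (nat_lit 242)) (nd (nat_lit 244) (nat_lit 0) (cs (nd (nat_lit 200) (nat_lit 0) (cs (lf (nat_lit 47) (nat_lit 178)) (nd (nat_lit 222) (nat_lit 0) (cs (lf (nat_lit 41) (nat_lit 199)) (nd (nat_lit 199) (nat_lit 0) (cs (lf (nat_lit 47) (nat_lit 177)) (lf (nat_lit 0) (nat_lit 198)))))))) (lf (nat_lit 6) (nat_lit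 243)))))))))) (cs (nd (nat_lit 179) (nat_lit 0) (cs (lf (nat_lit 24) (nat_lit 157)) (nd (nat_lit 178) (nat_lit 0) (cs (lf (nat_lit 47) (nat_lit 156)) (nd (nat_lit 244) (nat_lit 0) (cs (lf (nat_lit 41) (nat_lit 178)) (nd (nat_lit 243) (nat_lit 0) (cs (lf (nat_lit 12) (nat_lit 220)) (nd (nat_lit 221) (nat_lit 0) (cs (lf (nat_lit 23) (nat_lit 220)) (nd (nat_lit 265) (nat_lit 0) (cs (lf (nat_lit 11) (nat_lit 242)) (nd (nat_lit 222) (nat_lit 0) (cs (lf (nat_lit 37) (nat_lit 177)) (lf (nat_lit 18) (nat_lit 221)))))))))))))))) (nd (nat_lit 267) (nat_lit 0) (cs (lf (nat_lit 30) (nat_lit 201)) (nd (nat_lit 178) (nat_lit 0) (cs (lf (nat_lit 46) (nat_lit 178)) (nd (nat_lit 179) (nat_lit 0) (cs (lf (nat_lit 47) (nat_lit 156)) (lf (nat_lit 24) (nat_lit 157))))))))))))))) q76484 (by decide +kernel)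
def q76615 : Q := Q.p (nat_lit 0x880002620000180010400040000000000000000000000000000000000000000000000) (nat_lit 0x180000f00007f00105c00c000020200000800000000000000000000000000000000000000000000) (nat_lit 10)
theorem c76615 : QOK q76615 := cut [q76327] ⟨c76327, trivial⟩ (nd (nat_lit 268) (nat_lit 0) (cs (rf (nat_lit 0)) (cs (nd (nat_lit 209) (nat_lit 0) (cs (lf (nat_lit 44) (nat_lit 186)) (nd (nat_lit 269) (nat_lit 0) (cs (lf (nat_lit 14) (nat_lit 246)) (nd (nat_lit 246) (nat_lit 0) (cs (lf (nat_lit 29) (nat_lit 202)) (nd (nat_lit 290) (nat_lit 0) (cs (lf (nat_lit 42) (nat_lit 223)) (nd (nat_lit 289) (nat_lit 0) (cs (lf (nat_lit 41) (nat_lit 223)) (lf (nat_lit 31) (nat_lit 201)))))))))))) (cs (nd (nat_lit 267) (nat_lit 0) (cs (lf (nat_lit 30) (nat_lit 201)) (nd (nat_lit 269) (nat_lit 0) (cs (lf (nat_lit 14) (nat_lit 246)) (nd (nat_lit 246) (nat_lit 0) (cs (lf (nat_lit 29) (nat_lit 202)) (nd (nat_lit 243) (nat_lit 0) (cs (lf (nat_lit 1) (nat_lit 243)) (nd (nat_lit 201)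 (nat_lit 0) (cs (lf (nat_lit 47) (nat_lit 179)) (nd (nat_lit 209) (nat_lit 0) (cs (lf (nat_lit 44) (nat_lit 186)) (nd (nat_lit 266) (nat_lit 0) (cs (lf (nat_lit 41) (nat_lit 200)) (nd (nat_lit 265) (nat_lit 0) (cs (lf (nat_lit 12) (nat_lit 242)) (lf (nat_lit 23) (nat_lit 242)))))))))))))))))) (cs (nd (nat_lit 230) (nat_lit 0) (cs (lf (nat_lit 27) (nat_lit 186)) (nd (nat_lit 269) (nat_lit 0) (cs (lf (nat_lit 14) (nat_lit 246)) (nd (nat_lit 209) (nat_lit 0) (cs (lf (nat_lit 44) (nat_lit 186)) (nd (nat_lit 267) (nat_lit 0) (cs (lf (nat_lit 30) (nat_lit 201)) (nd (nat_lit 201) (nat_lit 0) (cs (lf (nat_lit 29) (nat_lit 201)) (nd (nat_lit 266) (nat_lit 0) (cs (lf (nat_lit 41) (nat_lit 200)) (nd (nat_lit 244) (nat_lit 0) (cs (lf (nat_lit 23) (nat_lit 243)) (lf (nat_lit 36) (nat_lit 178)))))))))))))))) (nd (nat_lit 267) (nat_lit 0) (cs (lf (nat_lit 30) (nat_lit 201)) (nd (nat_lit 201) (nat_lit 0) (cs (lf (nat_lit 29) (nat_lit 201)) (nd (nat_lit 266) (nat_lit 0) (cs (lf (nat_lit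 41) (nat_lit 200)) (nd (nat_lit 179) (nat_lit 0) (cs (lf (nat_lit 43) (nat_lit 179)) (lf (nat_lit 40) (nat_lit 178))))))))))))))) q76615 (by decide +kernel)
def q76714 : Q := Q.p (nat_lit 0x800002000000100010400041000000000000000000000000000000000000000000000) (nat_lit 0x800106000408000000000280000e0000380000a0000000000000000000000000000) (nat_lit 6)
theorem c76714 : QOK q76714 := cut [q75733, q76028, q76019] ⟨c75733, c76028, c76019, trivial⟩ (nd (nat_lit 158) (nat_lit 0) (cs (rf (nat_lit 0)) (cs (rf (nat_lit 1)) (nd (nat_lit 245) (nat_lit 0) (cs (lf (nat_lit 40) (nat_lit 157)) (rf (nat_lit 2))))))) q76714 (by decide +kernel)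
def q76953 : Q := Q.p (nat_lit 0x880002600000100010600040000000000000000000000000000000000000000000000) (nat_lit 0x6700013c00103c00cef00278c003ff0001f80001c000000000000000000000000000000000) (nat_lit 11)
theorem c76953 : QOK q76953 := cut [q75478, q76678, q76317, q76906, q75471, q64637] ⟨c75478, c76678, c76317, c76906, c75471, c64637, trivial⟩ (nd (nat_lit 204) (nat_lit 0) (cs (rf (nat_lit 0)) (cs (rf (nat_lit 1)) (cs (nd (nat_lit 223) (nat_lit 0) (cs (nd (nat_lit 222) (nat_lit 0) (cs (nd (nat_lit 221) (nat_lit 0) (cs (lf (nat_lit 12) (nat_lit 198)) (rf (nat_lit 2)))) (lf (nat_lit 7) (nat_lit 200)))) (cs (rf (nat_lit 3)) (nd (nat_lit 179) (nat_lit 0) (cs (nd (nat_lit 178) (nat_lit 0) (cs (lf (nat_lit 19) (nat_lit 178)) (nd (nat_lit 176) (nat_lit 0) (cs (lf (nat_lit 1) (nat_lit 176)) (nd (nat_lit 245) (nat_lit 0) (cs (lf (nat_lit 47) (nat_lit 156)) (nd (nat_lit 267) (nat_lit 0) (cs (lf (nat_lit 35) (nat_lit 179)) (lf (nat_lit 30) (nat_lit 201)))))))))) (cs (nd (nat_lit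 178) (nat_lit 0) (cs (lf (nat_lit 19) (nat_lit 178)) (nd (nat_lit 177) (nat_lit 0) (cs (lf (nat_lit 0) (nat_lit 176)) (nd (nat_lit 230) (nat_lit 0) (cs (lf (nat_lit 27) (nat_lit 186)) (nd (nat_lit 157) (nat_lit 0) (cs (lf (nat_lit 24) (nat_lit 135)) (nd (nat_lit 156) (nat_lit 0) (cs (lf (nat_lit 47) (nat_lit 134)) (nd (nat_lit 158) (nat_lit 0) (cs (lf (nat_lit 35) (nat_lit 135)) (lf (nat_lit 6) (nat_lit 155)))))))))))))) (cs (nd (nat_lit 230) (nat_lit 0) (cs (lf (nat_lit 27) (nat_lit 186)) (nd (nat_lit 157) (nat_lit 0) (cs (lf (nat_lit 24) (nat_lit 135)) (nd (nat_lit 156) (nat_lit 0) (cs (lf (nat_lit 47) (nat_lit 134)) (nd (nat_lit 158) (nat_lit 0) (cs (lf (nat_lit 35) (nat_lit 135)) (nd (nat_lit 180) (nat_lit 0) (cs (lf (nat_lit 41) (nat_lit 157)) (nd (nat_lit 181) (nat_lit 0) (cs (lf (nat_lit 0) (nat_lit 155)) (lf (nat_lit 18) (nat_lit 156)))))))))))))) (nd (nat_lit 157) (nat_lit 0) (cs (lf (nat_lit 24) (nat_lit 135)) (nd (nat_lit 230) (nat_lit 0) (cs (lf (nat_lit 27)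 (nat_lit 186)) (nd (nat_lit 178) (nat_lit 0) (cs (lf (nat_lit 19) (nat_lit 178)) (nd (nat_lit 177) (nat_lit 0) (cs (lf (nat_lit 0) (nat_lit 176)) (nd (nat_lit 158) (nat_lit 0) (cs (lf (nat_lit 35) (nat_lit 135)) (nd (nat_lit 159) (nat_lit 0) (cs (lf (nat_lit 15) (nat_lit 155)) (lf (nat_lit 6) (nat_lit 156))))))))))))))))))))) (nd (nat_lit 203) (nat_lit 0) (cs (rf (nat_lit 4)) (cs (nd (nat_lit 230) (nat_lit 0) (cs (lf (nat_lit 27) (nat_lit 186)) (nd (nat_lit 226) (nat_lit 0) (cs (lf (nat_lit 5) (nat_lit 201)) (nd (nat_lit 179) (nat_lit 0) (cs (lf (nat_lit 23) (nat_lit 178)) (nd (nat_lit 209) (nat_lit 0) (cs (lf (nat_lit 44) (nat_lit 186)) (nd (nat_lit 135) (nat_lit 0) (cs (lf (nat_lit 25) (nat_lit 135)) (nd (nat_lit 205) (nat_lit 0) (cs (lf (nat_lit 22) (nat_lit 179)) (nd (nat_lit 184) (nat_lit 0) (cs (lf (nat_lit 16) (nat_lit 180)) (nd (nat_lit 206) (nat_lit 0) (cs (lf (nat_lit 17) (nat_lit 181)) (lf (nat_lit 10) (nat_lit 202)))))))))))))))))) (nd (nat_lit 223) (nat_lit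 0) (cs (rf (nat_lit 5)) (nd (nat_lit 209) (nat_lit 0) (cs (lf (nat_lit 44) (nat_lit 186)) (nd (nat_lit 179) (nat_lit 0) (cs (lf (nat_lit 23) (nat_lit 178)) (nd (nat_lit 226) (nat_lit 0) (cs (lf (nat_lit 5) (nat_lit 201)) (nd (nat_lit 157) (nat_lit 0) (cs (lf (nat_lit 24) (nat_lit 135)) (nd (nat_lit 158) (nat_lit 0) (cs (lf (nat_lit 35) (nat_lit 135)) (nd (nat_lit 245) (nat_lit 0) (cs (lf (nat_lit 37) (nat_lit 157)) (nd (nat_lit 244) (nat_lit 0) (cs (lf (nat_lit 41) (nat_lit 178)) (lf (nat_lit 7) (nat_lit 222))))))))))))))))))))))))) q76953 (by decide +kernel)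
def q77042 : Q := Q.p (nat_lit 0x800002000000180010600040000000000000000000000000000000000000000000000) (nat_lit 0x80000600109c00c6700201c000ff0003f8000ff000008000000000000000000000000000) (nat_lit 10)
theorem c77042 : QOK q77042 := cut [q76537, q76983, q76986, q76987, q77018, q77023] ⟨c76537, c76983, c76986, c76987, c77018, c77023, trivial⟩ (nd (nat_lit 200) (nat_lit 0) (cs (rf (nat_lit 0)) (cs (rf (nat_lit 1)) (nd (nat_lit 158) (nat_lit 0) (cs (rf (nat_lit 2)) (cs (nd (nat_lit 209) (nat_lit 0) (cs (lf (nat_lit 44) (nat_lit 186)) (nd (nat_lit 157) (nat_lit 0) (cs (rf (nat_lit 3)) (cs (rf (nat_lit 4)) (cs (nd (nat_lit 179) (nat_lit 0) (cs (lf (nat_lit 35) (nat_lit 135)) (rf (nat_lit 5)))) (nd (nat_lit 179) (nat_lit 0) (cs (lf (nat_lit 24) (nat_lit 135)) (rf (nat_lit 5)))))))))) (nd (nat_lit 209) (nat_lit 0) (cs (lf (nat_lit 44) (nat_lit 186)) (nd (nat_lit 179) (nat_lit 0) (cs (nd (nat_lit 225) (nat_lit 0) (cs (lf (nat_lit 18) (nat_lit 200)) (nd (nat_lit 180) (nat_lit 0)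 (cs (lf (nat_lit 29) (nat_lit 158)) (nd (nat_lit 181) (nat_lit 0) (cs (lf (nat_lit 6) (nat_lit 178)) (nd (nat_lit 159) (nat_lit 0) (cs (lf (nat_lit 35) (nat_lit 136)) (nd (nat_lit 160) (nat_lit 0) (cs (lf (nat_lit 6) (nat_lit 157)) (lf (nat_lit 12) (nat_lit 156)))))))))))) (cs (nd (nat_lit 157) (nat_lit 0) (cs (lf (nat_lit 24) (nat_lit 135)) (rf (nat_lit 5)))) (nd (nat_lit 225) (nat_lit 0) (cs (lf (nat_lit 18) (nat_lit 200)) (nd (nat_lit 157) (nat_lit 0) (cs (lf (nat_lit 24) (nat_lit 135)) (nd (nat_lit 180) (nat_lit 0) (cs (lf (nat_lit 29) (nat_lit 158)) (nd (nat_lit 181) (nat_lit 0) (cs (lf (nat_lit 6) (nat_lit 178)) (nd (nat_lit 156) (nat_lit 0) (cs (lf (nat_lit 47) (nat_lit 134)) (lf (nat_lit 0) (nat_lit 155))))))))))))))))))))))) q77042 (by decide +kernel)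
def q77150 : Q := Q.p (nat_lit 0x800002000000180010600040000000000000000000000000000000000000000000000) (nat_lit 0xc0010b000c6700201c0003f0000f00003c000080000000000000000000000000000) (nat_lit 10)
theorem c77150 : QOK q77150 := cut [q76033, q77117, q77134, q77063] ⟨c76033, c77117, c77134, c77063, trivial⟩ (nd (nat_lit 180) (nat_lit 0) (cs (rf (nat_lit 0)) (cs (rf (nat_lit 1)) (nd (nat_lit 179) (nat_lit 0) (cs (rf (nat_lit 2)) (cs (nd (nat_lit 230) (nat_lit 0) (cs (lf (nat_lit 27) (nat_lit 186)) (nd (nat_lit 245) (nat_lit 0) (cs (lf (nat_lit 30) (nat_lit 179)) (nd (nat_lit 244) (nat_lit 0) (cs (lf (nat_lit 41) (nat_lit 178)) (nd (nat_lit 225) (nat_lit 0) (cs (lf (nat_lit 6) (nat_lit 222)) (nd (nat_lit 199) (nat_lit 0) (cs (lf (nat_lit 1) (nat_lit 199)) (rf (nat_lit 3)))))))))))) (nd (nat_lit 209) (nat_lit 0) (cs (lf (nat_lit 44) (nat_lit 186)) (nd (nat_lit 157) (nat_lit 0) (cs (lf (nat_lit 24) (nat_lit 135)) (nd (nat_lit 230) (nat_lit 0) (cs (lf (nat_lit 27) (nat_lit 186))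 (nd (nat_lit 222) (nat_lit 0) (cs (lf (nat_lit 41) (nat_lit 156)) (nd (nat_lit 221) (nat_lit 0) (cs (lf (nat_lit 12) (nat_lit 198)) (nd (nat_lit 199) (nat_lit 0) (cs (lf (nat_lit 23) (nat_lit 198)) (nd (nat_lit 200) (nat_lit 0) (cs (lf (nat_lit 17) (nat_lit 177)) (lf (nat_lit 5) (nat_lit 199)))))))))))))))))))))) q77150 (by decide +kernel)
def q77218 : Q := Q.p (nat_lit 0x880002600000100010600040000000000000000000000000000000000000000000000) (nat_lit 0x6700013c0010bc00cee002390000ff0000f00003c000080000000000000000000000000000) (nat_lit 11)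
theorem c77218 : QOK q77218 := cut [q76906, q76618, q77092, q76441, q77175, q77181, q75482, q76678, q51650, q76499, q76419, q76903, q76033, q76687, q76561, q75553, q76396, q77214] ⟨c76906, c76618, c77092, c76441, c77175, c77181, c75482, c76678, c51650, c76499, c76419, c76903, c76033, c76687, c76561, c75553, c76396, c77214, trivial⟩ (nd (nat_lit 223) (nat_lit 0) (cs (rf (nat_lit 0)) (cs (nd (nat_lit 203) (nat_lit 0) (cs (rf (nat_lit 1)) (cs (nd (nat_lit 158) (nat_lit 0) (cs (rf (nat_lit 2)) (cs (nd (nat_lit 200) (nat_lit 0) (cs (rf (nat_lit 3)) (nd (nat_lit 181) (nat_lit 0) (cs (lf (nat_lit 17) (nat_lit 178)) (nd (nat_lit 159) (nat_lit 0) (cs (lf (nat_lit 36) (nat_lit 136)) (nd (nat_lit 225) (nat_lit 0) (cs (lf (nat_lit 47) (nat_lit 136)) (lf (nat_lit 18) (nat_lit 200)))))))))) (cs (nd (nat_lit 221) (nat_lit 0) (cs (lf (nat_lit 13) (nat_lit 199)) (nd (nat_lit 180) (nat_lit 0) (cs (lf (nat_lit 41) (nat_lit 157)) (rf (nat_lit 4)))))) (nd (nat_lit 180) (nat_lit 0) (cs (lf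 (nat_lit 36) (nat_lit 135)) (nd (nat_lit 221) (nat_lit 0) (cs (lf (nat_lit 13) (nat_lit 199)) (rf (nat_lit 4)))))))))) (rf (nat_lit 5))))) (cs (nd (nat_lit 204) (nat_lit 0) (cs (rf (nat_lit 6)) (cs (rf (nat_lit 7)) (nd (nat_lit 230) (nat_lit 0) (cs (lf (nat_lit 27) (nat_lit 186)) (nd (nat_lit 203) (nat_lit 0) (cs (lf (nat_lit 11) (nat_lit 200)) (nd (nat_lit 182) (nat_lit 0) (cs (lf (nat_lit 17) (nat_lit 179)) (nd (nat_lit 181) (nat_lit 0) (cs (lf (nat_lit 12) (nat_lit 178)) (nd (nat_lit 137) (nat_lit 0) (cs (lf (nat_lit 37) (nat_lit 136)) (nd (nat_lit 179) (nat_lit 0) (cs (lf (nat_lit 23) (nat_lit 178)) (nd (nat_lit 157) (nat_lit 0) (cs (lf (nat_lit 24) (nat_lit 135)) (nd (nat_lit 156) (nat_lit 0) (cs (lf (nat_lit 47) (nat_lit 134)) (lf (nat_lit 20) (nat_lit 156))))))))))))))))))))) (cs (nd (nat_lit 209) (nat_lit 0) (cs (lf (nat_lit 44) (nat_lit 186)) (nd (nat_lit 245) (nat_lit 0) (cs (rf (nat_lit 8)) (cs (rf (nat_lit 9)) (nd (nat_lit 179) (nat_lit 0) (cs (rf (nat_lit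 10)) (rf (nat_lit 11))))))))) (cs (nd (nat_lit 180) (nat_lit 0) (cs (rf (nat_lit 12)) (cs (nd (nat_lit 203) (nat_lit 0) (cs (rf (nat_lit 1)) (cs (rf (nat_lit 5)) (nd (nat_lit 225) (nat_lit 0) (cs (rf (nat_lit 13)) (nd (nat_lit 230) (nat_lit 0) (cs (lf (nat_lit 27) (nat_lit 186)) (nd (nat_lit 247) (nat_lit 0) (cs (lf (nat_lit 42) (nat_lit 180)) (nd (nat_lit 222) (nat_lit 0) (cs (lf (nat_lit 12) (nat_lit 199)) (nd (nat_lit 245) (nat_lit 0) (cs (lf (nat_lit 30) (nat_lit 179)) (nd (nat_lit 244) (nat_lit 0) (cs (lf (nat_lit 11) (nat_lit 221)) (rf (nat_lit 14))))))))))))))))) (nd (nat_lit 209) (nat_lit 0) (cs (lf (nat_lit 44) (nat_lit 186)) (nd (nat_lit 158) (nat_lit 0) (cs (lf (nat_lit 36) (nat_lit 135)) (nd (nat_lit 230) (nat_lit 0) (cs (lf (nat_lit 27) (nat_lit 186)) (nd (nat_lit 137) (nat_lit 0) (cs (lf (nat_lit 34) (nat_lit 136)) (nd (nat_lit 135) (nat_lit 0) (cs (lf (nat_lit 46) (nat_lit 135)) (nd (nat_lit 225) (nat_lit 0) (cs (rf (nat_lit 13)) (lf (nat_lit 29) (nat_lit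 158))))))))))))))))) (nd (nat_lit 203) (nat_lit 0) (cs (rf (nat_lit 15)) (cs (nd (nat_lit 230) (nat_lit 0) (cs (lf (nat_lit 27) (nat_lit 186)) (rf (nat_lit 16)))) (nd (nat_lit 225) (nat_lit 0) (cs (rf (nat_lit 13)) (nd (nat_lit 230) (nat_lit 0) (cs (lf (nat_lit 27) (nat_lit 186)) (rf (nat_lit 17))))))))))))))) q77218 (by decide +kernel)
def q77221 : Q := Q.p (nat_lit 0x800002000000100010700040000000000000000000000000000000000000000000000) (nat_lit 0x6001038004ee0001800000e0000300000c000000000000000000000000000000000) (nat_lit 8)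
theorem c77221 : QOK q77221 := cut [q75777, q76789, q76878, q76880, q76799] ⟨c75777, c76789, c76878, c76880, c76799, trivial⟩ (nd (nat_lit 203) (nat_lit 0) (cs (rf (nat_lit 0)) (cs (rf (nat_lit 1)) (cs (nd (nat_lit 222) (nat_lit 0) (cs (lf (nat_lit 11) (nat_lit 199)) (nd (nat_lit 244) (nat_lit 0) (cs (rf (nat_lit 2)) (cs (rf (nat_lit 3)) (nd (nat_lit 230) (nat_lit 0) (cs (lf (nat_lit 27) (nat_lit 186)) (nd (nat_lit 225) (nat_lit 0) (cs (lf (nat_lit 5) (nat_lit 200)) (nd (nat_lit 178) (nat_lit 0) (cs (lf (nat_lit 23) (nat_lit 177)) (nd (nat_lit 243) (nat_lit 0) (cs (lf (nat_lit 41) (nat_lit 177)) (lf (nat_lit 8) (nat_lit 221))))))))))))))) (nd (nat_lit 230) (nat_lit 0) (cs (lf (nat_lit 27) (nat_lit 186)) (nd (nat_lit 225) (nat_lit 0) (cs (lf (nat_lit 5) (nat_lit 200)) (rf (nat_lit 4)))))))))) q77221 (by decide +kernel)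
def q77311 : Q := Q.p (nat_lit 0x880002600000100010400041000000000000000000000000000000000000000000000) (nat_lit 0xa00007f0010f800cef002030000280000a000000000000000000000000000000000000000) (nat_lit 11)
theorem c77311 : QOK q77311 := cut [q75652, q75675, q77309] ⟨c75652, c75675, c77309, trivial⟩ (nd (nat_lit 246) (nat_lit 0) (cs (rf (nat_lit 0)) (cs (rf (nat_lit 1)) (nd (nat_lit 209) (nat_lit 0) (cs (lf (nat_lit 44) (nat_lit 186)) (rf (nat_lit 2))))))) q77311 (by decide +kernel)
def q77361 : Q := Q.p (nat_lit 0x880002600000100010400041000000000000000000000000000000000000000000000) (nat_lit 0xa0000780010e000c200020200000800006000008000000000000000000000000000000000) (nat_lit 7)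
theorem c77361 : QOK q77361 := cut [q75652, q75675, q77356] ⟨c75652, c75675, c77356, trivial⟩ (nd (nat_lit 246) (nat_lit 0) (cs (rf (nat_lit 0)) (cs (rf (nat_lit 1)) (nd (nat_lit 230) (nat_lit 0) (cs (lf (nat_lit 27) (nat_lit 186)) (nd (nat_lit 245) (nat_lit 0) (cs (lf (nat_lit 41) (nat_lit 179)) (nd (nat_lit 157) (nat_lit 0) (cs (lf (nat_lit 46) (nat_lit 157)) (nd (nat_lit 158) (nat_lit 0) (cs (lf (nat_lit 47) (nat_lit 135)) (rf (nat_lit 2))))))))))))) q77361 (by decide +kernel)
def q77575 : Q := Q.p (nat_lit 0x800002040000100010400040000000000000000000000000000000000000000000000) (nat_lit 0x8001020004080003bc000fe0000fc00028000000000000000000000000000000000) (nat_lit 9)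
theorem c77575 : QOK q77575 := cut [q37980, q75343, q75355, q76008] ⟨c37980, c75343, c75355, c76008, trivial⟩ (nd (nat_lit 180) (nat_lit 0) (cs (rf (nat_lit 0)) (cs (rf (nat_lit 1)) (cs (rf (nat_lit 2)) (rf (nat_lit 3)))))) q77575 (by decide +kernel)
def q77607 : Q := Q.p (nat_lit 0x880002000000100010400041000000000000000000000000000000000000000000000) (nat_lit 0x800007800106000c280020a0000200000c0000380000e0000080000000000000000000000) (nat_lit 10)
theorem c77607 : QOK q77607 := cut [q76123, q77601, q77606] ⟨c76123, c77601, c77606, trivial⟩ (nd (nat_lit 245) (nat_lit 0) (cs (nd (nat_lit 230) (nat_lit 0) (cs (lf (nat_lit 27) (nat_lit 186)) (nd (nat_lit 209) (nat_lit 0) (cs (lf (nat_lit 44) (nat_lit 186)) (nd (nat_lit 246) (nat_lit 0) (cs (lf (nat_lit 41) (nat_lit 179)) (nd (nat_lit 181) (nat_lit 0) (cs (lf (nat_lit 35) (nat_lit 158)) (nd (nat_lit 268) (nat_lit 0) (cs (lf (nat_lit 34) (nat_lit 180)) (rf (nat_lit 0)))))))))))) (cs (nd (nat_lit 230) (nat_lit 0) (cs (lf (nat_lit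 27) (nat_lit 186)) (nd (nat_lit 209) (nat_lit 0) (cs (lf (nat_lit 44) (nat_lit 186)) (nd (nat_lit 158) (nat_lit 0) (cs (lf (nat_lit 40) (nat_lit 157)) (rf (nat_lit 1)))))))) (rf (nat_lit 2))))) q77607 (by decide +kernel)
def q77621 : Q := Q.p (nat_lit 0x80000600000100000400001000000000000000000000000000000000000000000000) (nat_lit 0x80000700000c0000000003bc000ee0000bc00000000000000000000000000000000000000) (nat_lit 9)
theorem c77621 : QOK q77621 := cut [q75675, q77620] ⟨c75675, c77620, trivial⟩ (nd (nat_lit 246) (nat_lit 0) (cs (rf (nat_lit 0)) (rf (nat_lit 1)))) q77621 (by decide +kernel)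
def q77660 : Q := Q.p (nat_lit 0x800002000000100010400041000004000000000000000000000000000000000000000) (nat_lit 0x800002000003ee0007b0001e8000000000000000000000000000000000) (nat_lit 7)
theorem c77660 : QOK q77660 := cut [q76172, q76177, q76186, q77610] ⟨c76172, c76177, c76186, c77610, trivial⟩ (nd (nat_lit 159) (nat_lit 0) (cs (lf (nat_lit 35) (nat_lit 136)) (nd (nat_lit 160) (nat_lit 0) (cs (rf (nat_lit 0)) (cs (rf (nat_lit 1)) (cs (rf (nat_lit 2)) (rf (nat_lit 3)))))))) q77660 (by decide +kernel)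
def q77713 : Q := Q.p (nat_lit 0x800002000000100010400041000000000000000000000000000000000000000000000) (nat_lit 0x1000104000c200021800006e0000f8000380000e0000280000000000000000000000) (nat_lit 11)
theorem c77713 : QOK q77713 := cut [q75733, q76166, q77601, q77695, q77710] ⟨c75733, c76166, c77601, c77695, c77710, trivial⟩ (nd (nat_lit 158) (nat_lit 0) (cs (rf (nat_lit 0)) (cs (rf (nat_lit 1)) (cs (rf (nat_lit 2)) (cs (nd (nat_lit 209) (nat_lit 0) (cs (lf (nat_lit 44) (nat_lit 186)) (nd (nat_lit 230) (nat_lit 0) (cs (lf (nat_lit 27) (nat_lit 186)) (rf (nat_lit 3)))))) (cs (nd (nat_lit 209) (nat_lit 0) (cs (lf (nat_lit 44) (nat_lit 186)) (nd (nat_lit 230) (nat_lit 0) (cs (lf (nat_lit 27) (nat_lit 186)) (nd (nat_lit 135) (nat_lit 0) (cs (lf (nat_lit 46) (nat_lit 135)) (nd (nat_lit 136) (nat_lit 0) (cs (lf (nat_lit 47) (nat_lit 113)) (nd (nat_lit 203) (nat_lit 0) (cs (lf (nat_lit 29) (nat_lit 136)) (nd (nat_lit 181) (nat_lit 0) (cs (nd (nat_lit 246) (nat_lit 0) (cs (lf (nat_lit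 30) (nat_lit 180)) (lf (nat_lit 35) (nat_lit 158)))) (lf (nat_lit 24) (nat_lit 114)))))))))))))) (nd (nat_lit 209) (nat_lit 0) (cs (lf (nat_lit 44) (nat_lit 186)) (nd (nat_lit 230) (nat_lit 0) (cs (lf (nat_lit 27) (nat_lit 186)) (rf (nat_lit 4)))))))))))) q77713 (by decide +kernel)
def q77714 : Q := Q.p (nat_lit 0x800002000000100010400041000000000000000000000000000000000000000000000) (nat_lit 0x18000060008280021800002e0000e0000380000e0000080000000000000000000000) (nat_lit 9)
theorem c77714 : QOK q77714 := cut [q76025, q77601, q77710] ⟨c76025, c77601, c77710, trivial⟩ (nd (nat_lit 158) (nat_lit 0) (cs (rf (nat_lit 0)) (cs (rf (nat_lit 1)) (rf (nat_lit 2))))) q77714 (by decide +kernel)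
def q77716 : Q := Q.p (nat_lit 0x600000500000000000000000000000000000000000000000000000000000000) (nat_lit 0x138000ac0003800000000000000000000000000000000000000000000000000) (nat_lit 6)
theorem c77716 : QOK q77716 := cut [q74166] ⟨c74166, trivial⟩ (nd (nat_lit 225) (nat_lit 0) (cs (lf (nat_lit 3) (nat_lit 224)) (rf (nat_lit 0)))) q77716 (by decide +kernel)
def q77729 : Q := Q.p (nat_lit 0x800002600000500010000040000000000000000000000000000000000000000000000) (nat_lit 0x1138004ac0000380000000000000000000000000000000000000000000000000) (nat_lit 7)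
theorem c77729 : QOK q77729 := cut [q77727] ⟨c77727, trivial⟩ (nd (nat_lit 230) (nat_lit 0) (cs (lf (nat_lit 27) (nat_lit 186)) (nd (nat_lit 225) (nat_lit 0) (cs (lf (nat_lit 3) (nat_lit 224)) (rf (nat_lit 0)))))) q77729 (by decide +kernel)
def q77967 : Q := Q.p (nat_lit 0x100000400001000000000000000000000000000000000000000000000) (nat_lit 0x2000008000020003ae0007f8001ff0000a0000000000000000000000000000) (nat_lit 10)
theorem c77967 : QOK q77967 := cut [q75684, q75730, q75733, q77965] ⟨c75684, c75730, c75733, c77965, trivial⟩ (nd (nat_lit 158) (nat_lit 0) (cs (rf (nat_lit 0)) (cs (rf (nat_lit 1)) (cs (rf (nat_lit 2)) (nd (nat_lit 223) (nat_lit 0) (cs (lf (nat_lit 41) (nat_lit 157)) (rf (nat_lit 3)))))))) q77967 (by decide +kernel)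
def q77969 : Q := Q.p (nat_lit 0x100000400001000000000000000000000000000000000000000000000) (nat_lit 0x10000040000080000a0003ae0007f8001ff0000e0000380000800000000000000000) (nat_lit 9)
theorem c77969 : QOK q77969 := cut [q75733, q76134, q76143, q76148, q76157, q77965] ⟨c75733, c76134, c76143, c76148, c76157, c77965, trivial⟩ (nd (nat_lit 158) (nat_lit 0) (cs (rf (nat_lit 0)) (cs (rf (nat_lit 1)) (cs (rf (nat_lit 2)) (cs (rf (nat_lit 3)) (cs (rf (nat_lit 4)) (rf (nat_lit 5)))))))) q77969 (by decide +kernel)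
def q78184 : Q := Q.p (nat_lit 0x800002000000100010400041000000000000000000000000000000000000000000000) (nat_lit 0x200001800106000c000023bc000ee0000bc00000000000000000000000000000000000000) (nat_lit 9)
theorem c78184 : QOK q78184 := cut [q75360, q75652, q75656, q76008] ⟨c75360, c75652, c75656, c76008, trivial⟩ (nd (nat_lit 246) (nat_lit 0) (cs (rf (nat_lit 0)) (cs (rf (nat_lit 1)) (cs (rf (nat_lit 2)) (rf (nat_lit 3)))))) q78184 (by decide +kernel)
def q78553 : Q := Q.p (nat_lit 0x980002600000000010000040000000000000000000000000000000000000000000000) (nat_lit 0x700001c0001fc0006700000c0008f0002700001c000000000000000000000000000000000000000000000) (nat_lit 13)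
theorem c78553 : QOK q78553 := cut [q40946, q46568, q59657, q46576] ⟨c40946, c46568, c59657, c46576, trivial⟩ (nd (nat_lit 227) (nat_lit 0) (cs (rf (nat_lit 0)) (cs (nd (nat_lit 273) (nat_lit 0) (cs (lf (nat_lit 19) (nat_lit 249)) (nd (nat_lit 205) (nat_lit 0) (cs (lf (nat_lit 24) (nat_lit 183)) (nd (nat_lit 209) (nat_lit 0) (cs (lf (nat_lit 44) (nat_lit 186)) (nd (nat_lit 184) (nat_lit 0) (cs (lf (nat_lit 34) (nat_lit 183)) (nd (nat_lit 204) (nat_lit 0) (cs (lf (nat_lit 47) (nat_lit 182)) (nd (nat_lit 270) (nat_lit 0) (cs (lf (nat_lit 41) (nat_lit 204)) (nd (nat_lit 226) (nat_lit 0) (cs (lf (nat_lit 42) (nat_lit 204)) (nd (nat_lit 295) (nat_lit 0) (cs (lf (nat_lit 5) (nat_lit 270)) (nd (nat_lit 269) (nat_lit 0) (cs (lf (nat_lit 12) (nat_lit 246)) (nd (nat_lit 225) (nat_lit 0) (cs (lf (nat_lit 0) (nat_lit 224)) (nd (nat_lit 247) (nat_lit 0) (cs (lf (nat_lit 23) (nat_lit 246)) (lf (nat_lit 30) (nat_lit 203)))))))))))))))))))))))) (nd (nat_lit 293) (nat_lit 0) (cs (rf (nat_lit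 1)) (cs (nd (nat_lit 209) (nat_lit 0) (cs (lf (nat_lit 44) (nat_lit 186)) (nd (nat_lit 292) (nat_lit 0) (cs (lf (nat_lit 41) (nat_lit 226)) (nd (nat_lit 204) (nat_lit 0) (cs (lf (nat_lit 46) (nat_lit 204)) (rf (nat_lit 2)))))))) (nd (nat_lit 204) (nat_lit 0) (cs (lf (nat_lit 46) (nat_lit 204)) (rf (nat_lit 3)))))))))) q78553 (by decide +kernel)
def q78621 : Q := Q.p (nat_lit 0x8000020000880002200000000010000040000000000000000000000000000000000000000000000) (nat_lit 0x1000004000010000000001100004c00001000000000000000000000000000000000000000000000000000) (nat_lit 5)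
theorem c78621 : QOK q78621 := cut [q44101] ⟨c44101, trivial⟩ (nd (nat_lit 230) (nat_lit 0) (cs (lf (nat_lit 27) (nat_lit 186)) (rf (nat_lit 0)))) q78621 (by decide +kernel)
def q78681 : Q := Q.p (nat_lit 0x2000078000000000000000000000000000000000000000000000000000) (nat_lit 0x800030000080000070000100000400000000000000000000000000000000000) (nat_lit 5)
theorem c78681 : QOK q78681 := cut [q1458] ⟨c1458, trivial⟩ (nd (nat_lit 232) (nat_lit 0) (cs (lf (nat_lit 5) (nat_lit 207)) (rf (nat_lit 0)))) q78681 (by decide +kernel)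
def q78721 : Q := Q.p (nat_lit 0x38000000000000000000000000000000000000000000000000000) (nat_lit 0x700003c40003f8000000000000000000000000000000000000000000000) (nat_lit 7)
theorem c78721 : QOK q78721 := cut [q2925, q10558, q13350] ⟨c2925, c10558, c13350, trivial⟩ (nd (nat_lit 210) (nat_lit 0) (cs (rf (nat_lit 0)) (cs (rf (nat_lit 1)) (nd (nat_lit 188) (nat_lit 0) (cs (lf (nat_lit 17) (nat_lit 185)) (nd (nat_lit 187) (nat_lit 0) (cs (lf (nat_lit 12) (nat_lit 184)) (nd (nat_lit 233) (nat_lit 0) (cs (lf (nat_lit 4) (nat_lit 207)) (rf (nat_lit 2))))))))))) q78721 (by decide +kernel)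
def q78737 : Q := Q.p (nat_lit 0x38000000000000000000000000000000000000000000000000000) (nat_lit 0x73c000c600073c000000000000000000000000000000000000000000000) (nat_lit 7)
theorem c78737 : QOK q78737 := cut [q78656, q18828, q78736] ⟨c78656, c18828, c78736, trivial⟩ (nd (nat_lit 206) (nat_lit 0) (cs (rf (nat_lit 0)) (cs (nd (nat_lit 184) (nat_lit 0) (cs (lf (nat_lit 23) (nat_lit 183)) (rf (nat_lit 1)))) (rf (nat_lit 2))))) q78737 (by decide +kernel)
def q78738 : Q := Q.p (nat_lit 0x38000000000000000000000000000000000000000000000000000) (nat_lit 0x73c000c60007dc000000000000000000000000000000000000000000000) (nat_lit 7)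
theorem c78738 : QOK q78738 := cut [q1464, q78656, q78736] ⟨c1464, c78656, c78736, trivial⟩ (nd (nat_lit 206) (nat_lit 0) (cs (rf (nat_lit 0)) (cs (rf (nat_lit 1)) (rf (nat_lit 2))))) q78738 (by decide +kernel)
def q78743 : Q := Q.p (nat_lit 0x2000008000030000000000000000000000000000000000000000000000000000) (nat_lit 0x140000700001c0000100003000004c000180000400000000000000000000000000000000000000000) (nat_lit 6)
theorem c78743 : QOK q78743 := cut [q717, q1593, q9644] ⟨c717, c1593, c9644, trivial⟩ (nd (nat_lit 275) (nat_lit 0) (cs (rf (nat_lit 0)) (cs (rf (nat_lit 1)) (rf (nat_lit 2))))) q78743 (by decide +kernel)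
def q78764 : Q := Q.p (nat_lit 0x2000008000030000000000000000000000000000000000000000000000000000) (nat_lit 0x8000000000778000ce0001bc000400001000000000000000000000000000000000000) (nat_lit 6)
theorem c78764 : QOK q78764 := cut [q9673, q2935, q16145, q78698] ⟨c9673, c2935, c16145, c78698, trivial⟩ (nd (nat_lit 210) (nat_lit 0) (cs (rf (nat_lit 0)) (nd (nat_lit 207) (nat_lit 0) (cs (rf (nat_lit 1)) (cs (rf (nat_lit 2)) (rf (nat_lit 3))))))) q78764 (by decide +kernel)
def q78771 : Q := Q.p (nat_lit 0x800002000008000038000000000000000000000000000000000000000000000000000) (nat_lit 0x100000400000000003800044000138000000000000000000000000000000000000000000000) (nat_lit 6)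
theorem c78771 : QOK q78771 := cut [q16145] ⟨c16145, trivial⟩ (nd (nat_lit 210) (nat_lit 0) (cs (lf (nat_lit 35) (nat_lit 187)) (nd (nat_lit 274) (nat_lit 0) (cs (lf (nat_lit 41) (nat_lit 208)) (rf (nat_lit 0)))))) q78771 (by decide +kernel)
def q78791 : Q := Q.p (nat_lit 0x78000000000000000000000000000000000000000000000000000) (nat_lit 0xc0000300001c0000700000000007c0001c0000700001400000000000000000000000000000) (nat_lit 10)
theorem c78791 : QOK q78791 := cut [q78687] ⟨c78687, trivial⟩ (nd (nat_lit 229) (nat_lit 0) (cs (lf (nat_lit 11) (nat_lit 206)) (rf (nat_lit 0)))) q78791 (by decide +kernel)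
def q78818 : Q := Q.p (nat_lit 0x8000070000040000000000000000000000000000000000000000000000) (nat_lit 0x300000c00037c0000e00003c000000000000000000000000000000000000000000000) (nat_lit 7)
theorem c78818 : QOK q78818 := cut [q2935, q2938, q16145, q1597, q3007] ⟨c2935, c2938, c16145, c1597, c3007, trivial⟩ (nd (nat_lit 207) (nat_lit 0) (cs (rf (nat_lit 0)) (cs (rf (nat_lit 1)) (cs (rf (nat_lit 2)) (nd (nat_lit 185) (nat_lit 0) (cs (rf (nat_lit 3)) (rf (nat_lit 4)))))))) q78818 (by decide +kernel)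
def q78872 : Q := Q.p (nat_lit 0x78000040000000000000000000000000000000000000000000000) (nat_lit 0x33000006000380003e00003e0000f800000000000000000000000000000) (nat_lit 11)
theorem c78872 : QOK q78872 := cut [q15168, q4628, q4073, q2645, q1786] ⟨c15168, c4628, c4073, c2645, c1786, trivial⟩ (nd (nat_lit 188) (nat_lit 0) (cs (lf (nat_lit 17) (nat_lit 185)) (nd (nat_lit 166) (nat_lit 0) (cs (rf (nat_lit 0)) (cs (nd (nat_lit 232) (nat_lit 0) (cs (lf (nat_lit 5) (nat_lit 207)) (nd (nat_lit 165) (nat_lit 0) (cs (lf (nat_lit 47) (nat_lit 143)) (nd (nat_lit 228) (nat_lit 0) (cs (lf (nat_lit 10) (nat_lit 206)) (nd (nat_lit 187) (nat_lit 0) (cs (lf (nat_lit 12) (nat_lit 184)) (nd (nat_lit 167) (nat_lit 0) (cs (lf (nat_lit 6) (nat_lit 164)) (lf (nat_lit 35) (nat_lit 144)))))))))))) (cs (nd (nat_lit 228) (nat_lit 0) (cs (lf (nat_lit 10) (nat_lit 206)) (rf (nat_lit 1)))) (cs (nd (nat_lit 187) (nat_lit 0) (cs (rf (nat_lit 2)) (nd (nat_lit 144) (nat_lit 0) (cs (lf (nat_lit 36) (nat_lit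 121)) (nd (nat_lit 167) (nat_lit 0) (cs (rf (nat_lit 3)) (cs (nd (nat_lit 145) (nat_lit 0) (cs (lf (nat_lit 35) (nat_lit 122)) (nd (nat_lit 228) (nat_lit 0) (cs (lf (nat_lit 10) (nat_lit 206)) (nd (nat_lit 143) (nat_lit 0) (cs (lf (nat_lit 47) (nat_lit 121)) (nd (nat_lit 142) (nat_lit 0) (cs (lf (nat_lit 0) (nat_lit 141)) (nd (nat_lit 120) (nat_lit 0) (cs (lf (nat_lit 23) (nat_lit 119)) (lf (nat_lit 44) (nat_lit 120)))))))))))) (nd (nat_lit 168) (nat_lit 0) (cs (lf (nat_lit 6) (nat_lit 165)) (nd (nat_lit 145) (nat_lit 0) (cs (lf (nat_lit 35) (nat_lit 122)) (nd (nat_lit 143) (nat_lit 0) (cs (lf (nat_lit 47) (nat_lit 121)) (lf (nat_lit 0) (nat_lit 142))))))))))))))) (nd (nat_lit 228) (nat_lit 0) (cs (lf (nat_lit 10) (nat_lit 206)) (nd (nat_lit 232) (nat_lit 0) (cs (lf (nat_lit 5) (nat_lit 207)) (nd (nat_lit 143) (nat_lit 0) (cs (lf (nat_lit 46) (nat_lit 143)) (nd (nat_lit 187) (nat_lit 0) (cs (lf (nat_lit 12) (nat_lit 184)) (rf (nat_lit 4))))))))))))))))) q78872 (by decide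 +kernel)
def q78881 : Q := Q.p (nat_lit 0x70000040000000000000000000000000000000000000000000000) (nat_lit 0x7300018e000f80001800002000008000000000000000000000000000000) (nat_lit 7)
theorem c78881 : QOK q78881 := cut [q102, q66781, q4074, q7444] ⟨c102, c66781, c4074, c7444, trivial⟩ (nd (nat_lit 211) (nat_lit 0) (cs (rf (nat_lit 0)) (cs (rf (nat_lit 1)) (cs (nd (nat_lit 233) (nat_lit 0) (cs (lf (nat_lit 5) (nat_lit 208)) (nd (nat_lit 207) (nat_lit 0) (cs (lf (nat_lit 4) (nat_lit 207)) (nd (nat_lit 228) (nat_lit 0) (cs (lf (nat_lit 10) (nat_lit 206)) (rf (nat_lit 2)))))))) (nd (nat_lit 189) (nat_lit 0) (cs (lf (nat_lit 17) (nat_lit 186)) (nd (nat_lit 187) (nat_lit 0) (cs (lf (nat_lit 18) (nat_lit 186)) (nd (nat_lit 188) (nat_lit 0) (cs (lf (nat_lit 11) (nat_lit 185)) (rf (nat_lit 3)))))))))))) q78881 (by decide +kernel)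
def q78905 : Q := Q.p (nat_lit 0x3000004000010000040000000000000000000000000000000000000000000000) (nat_lit 0x20000080001a0003e80007b0001e80002000008000000000000000000000000000000) (nat_lit 10)
theorem c78905 : QOK q78905 := cut [q376, q387, q396, q78903] ⟨c376, c387, c396, c78903, trivial⟩ (nd (nat_lit 187) (nat_lit 0) (cs (lf (nat_lit 35) (nat_lit 164)) (nd (nat_lit 188) (nat_lit 0) (cs (rf (nat_lit 0)) (cs (rf (nat_lit 1)) (cs (rf (nat_lit 2)) (rf (nat_lit 3)))))))) q78905 (by decide +kernel)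
def q78935 : Q := Q.p (nat_lit 0x10000040000100000000000000000000000000000000000000000) (nat_lit 0x8000060000280000a0000200000c0000380000e000008000000000000000000) (nat_lit 7)
theorem c78935 : QOK q78935 := cut [q617, q2831, q6854, q18166] ⟨c617, c2831, c6854, c18166, trivial⟩ (nd (nat_lit 142) (nat_lit 0) (cs (rf (nat_lit 0)) (cs (rf (nat_lit 1)) (cs (rf (nat_lit 2)) (rf (nat_lit 3)))))) q78935 (by decide +kernel)
def q78995 : Q := Q.p (nat_lit 0x4000010000040000100000000000000000000000000000000000000000) (nat_lit 0x18000020000000001800002e0000a00000000000000000000000000000000000) (nat_lit 6)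
theorem c78995 : QOK q78995 := cut [q8817] ⟨c8817, trivial⟩ (nd (nat_lit 229) (nat_lit 0) (cs (lf (nat_lit 41) (nat_lit 163)) (rf (nat_lit 0)))) q78995 (by decide +kernel)
def q79048 : Q := Q.p (nat_lit 0x400003000004000010000000000000000000000000000000000000000000000000000) (nat_lit 0x200000e0000380000200000000008000020000080000000000000000000000000000000000000000000000) (nat_lit 6)
theorem c79048 : QOK q79048 := cut [q79046] ⟨c79046, trivial⟩ (nd (nat_lit 295) (nat_lit 0) (cs (lf (nat_lit 40) (nat_lit 207)) (nd (nat_lit 187) (nat_lit 0) (cs (lf (nat_lit 34) (nat_lit 186)) (rf (nat_lit 0)))))) q79048 (by decide +kernel)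
def q79057 : Q := Q.p (nat_lit 0xc00007000004000010000000000000000000000000000000000000000000000000000) (nat_lit 0x1d0000700000000001b000060000180000000000000000000000000000000000000000000000) (nat_lit 8)
theorem c79057 : QOK q79057 := cut [q79055] ⟨c79055, trivial⟩ (nd (nat_lit 209) (nat_lit 0) (cs (lf (nat_lit 35) (nat_lit 186)) (nd (nat_lit 231) (nat_lit 0) (cs (lf (nat_lit 30) (nat_lit 208)) (rf (nat_lit 0)))))) q79057 (by decide +kernel)
def q79077 : Q := Q.p (nat_lit 0x7000004000000000000000000000000000000000000000000000000000000000) (nat_lit 0x200006e00018000062000010000040000000000000000000000000000000000000000000000) (nat_lit 7)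
theorem c79077 : QOK q79077 := cut [q79072] ⟨c79072, trivial⟩ (nd (nat_lit 255) (nat_lit 0) (cs (nd (nat_lit 233) (nat_lit 0) (cs (lf (nat_lit 17) (nat_lit 230)) (nd (nat_lit 277) (nat_lit 0) (cs (rf (nat_lit 0)) (lf (nat_lit 5) (nat_lit 252)))))) (lf (nat_lit 23) (nat_lit 229)))) q79077 (by decide +kernel)
def q79161 : Q := Q.p (nat_lit 0x7000010000000000000000000000000000000000000000000000000000000000) (nat_lit 0xe00007c000000000e80001f80003e0000f00002800000000000000000000000000000000000) (nat_lit 10)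
theorem c79161 : QOK q79161 := cut [q79123, q79128, q79145, q79149, q79152, q79160] ⟨c79123, c79128, c79145, c79149, c79152, c79160, trivial⟩ (nd (nat_lit 210) (nat_lit 0) (cs (rf (nat_lit 0)) (cs (rf (nat_lit 1)) (cs (rf (nat_lit 2)) (cs (nd (nat_lit 276) (nat_lit 0) (cs (rf (nat_lit 3)) (nd (nat_lit 211) (nat_lit 0) (cs (nd (nat_lit 187) (nat_lit 0) (cs (lf (nat_lit 46) (nat_lit 187)) (rf (nat_lit 4)))) (lf (nat_lit 35) (nat_lit 188)))))) (rf (nat_lit 5))))))) q79161 (by decide +kernel)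
def q79189 : Q := Q.p (nat_lit 0x200000800002000008000000000000000000000000000000000000000000000000000000000) (nat_lit 0x140000500000400000000004000030000040000000000000000000000000000000000000000000000) (nat_lit 5)
theorem c79189 : QOK q79189 := cut [q79188] ⟨c79188, trivial⟩ (nd (nat_lit 298) (nat_lit 0) (cs (lf (nat_lit 29) (nat_lit 231)) (rf (nat_lit 0)))) q79189 (by decide +kernel)
def q79203 : Q := Q.p (nat_lit 0x7800010000000000000000000000000000000000000000000000000000000000) (nat_lit 0x40000300000040000b000020000080000000000000000000000000000000000000000000000) (nat_lit 5)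
theorem c79203 : QOK q79203 := cut [q79202] ⟨c79202, trivial⟩ (nd (nat_lit 231) (nat_lit 0) (cs (lf (nat_lit 12) (nat_lit 228)) (rf (nat_lit 0)))) q79203 (by decide +kernel)
def q79229 : Q := Q.p (nat_lit 0x7000000000000000000000000000000000000000000000000000000000000000) (nat_lit 0x800007f000188000f0000040000100000000000000000000000000000000000000000000000) (nat_lit 6)
theorem c79229 : QOK q79229 := cut [q79217, q79223, q79228] ⟨c79217, c79223, c79228, trivial⟩ (nd (nat_lit 255) (nat_lit 0) (cs (rf (nat_lit 0)) (cs (rf (nat_lit 1)) (rf (nat_lit 2))))) q79229 (by decide +kernel)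
def q79233 : Q := Q.p (nat_lit 0x7000000000000000000000000000000000000000000000000000000000000000) (nat_lit 0x7f80008c00003800000000000000000000000000000000000000000000000000000000) (nat_lit 6)
theorem c79233 : QOK q79233 := cut [q79009, q79024, q79201, q79232] ⟨c79009, c79024, c79201, c79232, trivial⟩ (nd (nat_lit 251) (nat_lit 0) (cs (rf (nat_lit 0)) (cs (rf (nat_lit 1)) (cs (rf (nat_lit 2)) (rf (nat_lit 3)))))) q79233 (by decide +kernel)
def q79243 : Q := Q.p (nat_lit 0xf000000000000000000000000000000000000000000000000000000000000000) (nat_lit 0x100001080007e000198000200000800000000000000000000000000000000000000000) (nat_lit 8)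
theorem c79243 : QOK q79243 := cut [q79239] ⟨c79239, trivial⟩ (nd (nat_lit 233) (nat_lit 0) (cs (lf (nat_lit 17) (nat_lit 230)) (nd (nat_lit 232) (nat_lit 0) (cs (lf (nat_lit 12) (nat_lit 229)) (nd (nat_lit 230) (nat_lit 0) (cs (lf (nat_lit 23) (nat_lit 229)) (nd (nat_lit 231) (nat_lit 0) (cs (lf (nat_lit 18) (nat_lit 230)) (rf (nat_lit 0)))))))))) q79243 (by decide +kernel)
def q79254 : Q := Q.p (nat_lit 0x7800018000000000000000000000000000000000000000000000000000000000) (nat_lit 0x8000080000070000cc000100000400000000000000000000000000000000000000000) (nat_lit 6)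
theorem c79254 : QOK q79254 := cut [q79252] ⟨c79252, trivial⟩ (nd (nat_lit 229) (nat_lit 0) (cs (lf (nat_lit 23) (nat_lit 228)) (nd (nat_lit 230) (nat_lit 0) (cs (lf (nat_lit 18) (nat_lit 229)) (rf (nat_lit 0)))))) q79254 (by decide +kernel)
def q79263 : Q := Q.p (nat_lit 0x7000000000000000000000000000000000000000000000000000000000000000) (nat_lit 0x3b80008c0007f800000000000000000000000000000000000000000000000000000000) (nat_lit 7)
theorem c79263 : QOK q79263 := cut [q79013, q79024, q79260] ⟨c79013, c79024, c79260, trivial⟩ (nd (nat_lit 251) (nat_lit 0) (cs (rf (nat_lit 0)) (cs (rf (nat_lit 1)) (nd (nat_lit 276) (nat_lit 0) (cs (lf (nat_lit 5) (nat_lit 251)) (nd (nat_lit 272) (nat_lit 0) (cs (lf (nat_lit 10) (nat_lit 250)) (rf (nat_lit 2))))))))) q79263 (by decide +kernel)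
def q79287 : Q := Q.p (nat_lit 0x6000018000020000000000000000000000000000000000000000000000000000) (nat_lit 0x80000000006400001c0001c0000700000000000000000000000000000000000000000) (nat_lit 7)
theorem c79287 : QOK q79287 := cut [q79285] ⟨c79285, trivial⟩ (nd (nat_lit 187) (nat_lit 0) (cs (lf (nat_lit 24) (nat_lit 165)) (nd (nat_lit 166) (nat_lit 0) (cs (lf (nat_lit 34) (nat_lit 165)) (rf (nat_lit 0)))))) q79287 (by decide +kernel)
def q79301 : Q := Q.p (nat_lit 0x800006000018000020000000000000000000000000000000000000000000000000000) (nat_lit 0x10000070000000006400001c000040000000000000000000000000000000000000000000000) (nat_lit 6)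
theorem c79301 : QOK q79301 := cut [q79299] ⟨c79299, trivial⟩ (nd (nat_lit 274) (nat_lit 0) (cs (lf (nat_lit 41) (nat_lit 208)) (nd (nat_lit 272) (nat_lit 0) (cs (lf (nat_lit 13) (nat_lit 250)) (rf (nat_lit 0)))))) q79301 (by decide +kernel)
def q79314 : Q := Q.p (nat_lit 0x6000018000000000000000000000000000000000000000000000000000000000) (nat_lit 0x2000008000080000e70003b8000040000100000000000000000000000000000000000000000) (nat_lit 6)
theorem c79314 : QOK q79314 := cut [q79307, q79310, q79311] ⟨c79307, c79310, c79311, trivial⟩ (nd (nat_lit 230) (nat_lit 0) (cs (rf (nat_lit 0)) (nd (nat_lit 233) (nat_lit 0) (cs (rf (nat_lit 1)) (rf (nat_lit 2)))))) q79314 (by decide +kernel)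
def q79332 : Q := Q.p (nat_lit 0x6000018000000000000000000000000000000000000000000000000000000000) (nat_lit 0x1000038c000e700039c000200000800000000000000000000000000000000000000000) (nat_lit 8)
theorem c79332 : QOK q79332 := cut [q79307, q79326, q79310, q79327, q79330] ⟨c79307, c79326, c79310, c79327, c79330, trivial⟩ (nd (nat_lit 230) (nat_lit 0) (cs (rf (nat_lit 0)) (cs (rf (nat_lit 1)) (nd (nat_lit 233) (nat_lit 0) (cs (rf (nat_lit 2)) (cs (rf (nat_lit 3)) (rf (nat_lit 4)))))))) q79332 (by decide +kernel)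
def q79418 : Q := Q.p (nat_lit 0x1000006000010000040000000000000000000000000000000000000000000000000000) (nat_lit 0x100000400003a0000ec000380000e0000100000400000000000000000000000000000000000000000000000) (nat_lit 10)
theorem c79418 : QOK q79418 := cut [q79416] ⟨c79416, trivial⟩ (nd (nat_lit 275) (nat_lit 0) (cs (lf (nat_lit 41) (nat_lit 209)) (nd (nat_lit 277) (nat_lit 0) (cs (lf (nat_lit 29) (nat_lit 210)) (rf (nat_lit 0)))))) q79418 (by decide +kernel)
def q79447 : Q := Q.p (nat_lit 0x1000006000010000040000000000000000000000000000000000000000000000000000) (nat_lit 0xbc000ef00038000000000000000000000000000000000000000000000000000000000000000) (nat_lit 8)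
theorem c79447 : QOK q79447 := cut [q79446] ⟨c79446, trivial⟩ (nd (nat_lit 275) (nat_lit 0) (cs (lf (nat_lit 41) (nat_lit 209)) (rf (nat_lit 0)))) q79447 (by decide +kernel)
def q79471 : Q := Q.p (nat_lit 0x800006000018000000000000000000000000000000000000000000000000000000000) (nat_lit 0x1c00007000004000000000000000300000c0000300000000000000000000000000000000000000000) (nat_lit 7)
theorem c79471 : QOK q79471 := cut [q79469] ⟨c79469, trivial⟩ (nd (nat_lit 297) (nat_lit 0) (cs (lf (nat_lit 30) (nat_lit 231)) (nd (nat_lit 298) (nat_lit 0) (cs (lf (nat_lit 29) (nat_lit 231)) (rf (nat_lit 0)))))) q79471 (by decide +kernel)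
def q79500 : Q := Q.p (nat_lit 0x6000018000000000000000000000000000000000000000000000000000000000) (nat_lit 0x2000038c000e70003fc0007e0001f80000000000000000000000000000000000000000) (nat_lit 13)
theorem c79500 : QOK q79500 := cut [q79307, q79326, q79310, q79330, q79497] ⟨c79307, c79326, c79310, c79330, c79497, trivial⟩ (nd (nat_lit 230) (nat_lit 0) (cs (rf (nat_lit 0)) (cs (rf (nat_lit 1)) (nd (nat_lit 233) (nat_lit 0) (cs (rf (nat_lit 2)) (cs (rf (nat_lit 3)) (nd (nat_lit 255) (nat_lit 0) (cs (lf (nat_lit 5) (nat_lit 230)) (rf (nat_lit 4)))))))))) q79500 (by decide +kernel)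
def q79583 : Q := Q.p (nat_lit 0x1000006000010000040000000000000000000000000000000000000000000000000000) (nat_lit 0x20000380000e00002000000000008000020000080000000000000000000000000000000000000000000000) (nat_lit 6)
theorem c79583 : QOK q79583 := cut [q79580] ⟨c79580, trivial⟩ (nd (nat_lit 299) (nat_lit 0) (cs (nd (nat_lit 187) (nat_lit 0) (cs (lf (nat_lit 46) (nat_lit 187)) (rf (nat_lit 0)))) (lf (nat_lit 28) (nat_lit 210)))) q79583 (by decide +kernel)
def q79590 : Q := Q.p (nat_lit 0x1000006000010000040000000000000000000000000000000000000000000000000000) (nat_lit 0x8000060000380000c00002800000000008000020000080000000000000000000000000000000000000000000000) (nat_lit 7)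
theorem c79590 : QOK q79590 := cut [q79588] ⟨c79588, trivial⟩ (nd (nat_lit 299) (nat_lit 0) (cs (lf (nat_lit 28) (nat_lit 210)) (nd (nat_lit 187) (nat_lit 0) (cs (lf (nat_lit 46) (nat_lit 187)) (rf (nat_lit 0)))))) q79590 (by decide +kernel)
def q79594 : Q := Q.p (nat_lit 0x6000010000040000080000000000000000000000000000000000000000000000) (nat_lit 0x20000380000e00003000000000008000020000000000000000000000000000000000000000000000000000) (nat_lit 6)
theorem c79594 : QOK q79594 := cut [q79580] ⟨c79580, trivial⟩ (nd (nat_lit 276) (nat_lit 0) (cs (lf (nat_lit 46) (nat_lit 187)) (nd (nat_lit 299) (nat_lit 0) (cs (rf (nat_lit 0)) (lf (nat_lit 28) (nat_lit 210)))))) q79594 (by decide +kernel)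
def q79605 : Q := Q.p (nat_lit 0x1000006000018000000000000000000000000000000000000000000000000000000000) (nat_lit 0x380000e000020000000000000000c0000300000c00000000000000000000000000000000000000000) (nat_lit 7)
theorem c79605 : QOK q79605 := cut [q79603] ⟨c79603, trivial⟩ (nd (nat_lit 298) (nat_lit 0) (cs (lf (nat_lit 42) (nat_lit 231)) (nd (nat_lit 297) (nat_lit 0) (cs (lf (nat_lit 41) (nat_lit 231)) (rf (nat_lit 0)))))) q79605 (by decide +kernel)
def q79609 : Q := Q.p (nat_lit 0x1000006000018000060000000000000000000000000000000000000000000000000000) (nat_lit 0x80000e000000000004000380000200000000000000000000000000000000000000000000000) (nat_lit 5)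
theorem c79609 : QOK q79609 := cut [q79608] ⟨c79608, trivial⟩ (nd (nat_lit 277) (nat_lit 0) (cs (lf (nat_lit 29) (nat_lit 210)) (rf (nat_lit 0)))) q79609 (by decide +kernel)
def q79704 : Q := Q.p (nat_lit 0x6000018000000000000000000000000000000000000000000000000000000000) (nat_lit 0xf300038c000e700007e000ff0001fe0000000000000000000000000000000000000000) (nat_lit 14)
theorem c79704 : QOK q79704 := cut [q79626, q79640, q79307, q79671, q79673, q3005, q79694, q79696, q79702] ⟨c79626, c79640, c79307, c79671, c79673, c3005, c79694, c79696, c79702, trivial⟩ (nd (nat_lit 188) (nat_lit 0) (cs (nd (nat_lit 255) (nat_lit 0) (cs (rf (nat_lit 0)) (cs (nd (nat_lit 210) (nat_lit 0) (cs (lf (nat_lit 29) (nat_lit 188)) (nd (nat_lit 167) (nat_lit 0) (cs (lf (nat_lit 34) (nat_lit 166)) (nd (nat_lit 229) (nat_lit 0) (cs (lf (nat_lit 1) (nat_lit 229)) (nd (nat_lit 187) (nat_lit 0) (cs (lf (nat_lit 47) (nat_lit 165)) (nd (nat_lit 209) (nat_lit 0) (cs (lf (nat_lit 42) (nat_lit 187)) (nd (nat_lit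 186) (nat_lit 0) (cs (lf (nat_lit 47) (nat_lit 164)) (nd (nat_lit 185) (nat_lit 0) (cs (lf (nat_lit 0) (nat_lit 184)) (nd (nat_lit 162) (nat_lit 0) (cs (lf (nat_lit 22) (nat_lit 162)) (nd (nat_lit 207) (nat_lit 0) (cs (lf (nat_lit 11) (nat_lit 184)) (nd (nat_lit 208) (nat_lit 0) (cs (lf (nat_lit 5) (nat_lit 207)) (lf (nat_lit 11) (nat_lit 206)))))))))))))))))))))) (nd (nat_lit 210) (nat_lit 0) (cs (lf (nat_lit 29) (nat_lit 188)) (nd (nat_lit 189) (nat_lit 0) (cs (lf (nat_lit 35) (nat_lit 166)) (nd (nat_lit 256) (nat_lit 0) (cs (lf (nat_lit 18) (nat_lit 231)) (nd (nat_lit 278) (nat_lit 0) (cs (lf (nat_lit 5) (nat_lit 253)) (nd (nat_lit 234) (nat_lit 0) (cs (lf (nat_lit 17) (nat_lit 231)) (rf (nat_lit 1))))))))))))))) (cs (nd (nat_lit 230) (nat_lit 0) (cs (rf (nat_lit 2)) (cs (nd (nat_lit 187) (nat_lit 0) (cs (rf (nat_lit 3)) (cs (nd (nat_lit 209) (nat_lit 0) (cs (lf (nat_lit 35) (nat_lit 165)) (lf (nat_lit 29) (nat_lit 187)))) (rf (nat_lit 4))))) (nd (nat_lit 229) (nat_lit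 0) (cs (lf (nat_lit 0) (nat_lit 228)) (nd (nat_lit 250) (nat_lit 0) (cs (lf (nat_lit 10) (nat_lit 228)) (nd (nat_lit 207) (nat_lit 0) (cs (lf (nat_lit 23) (nat_lit 206)) (nd (nat_lit 208) (nat_lit 0) (cs (lf (nat_lit 18) (nat_lit 207)) (nd (nat_lit 186) (nat_lit 0) (cs (lf (nat_lit 24) (nat_lit 164)) (nd (nat_lit 187) (nat_lit 0) (cs (lf (nat_lit 6) (nat_lit 185)) (nd (nat_lit 209) (nat_lit 0) (cs (lf (nat_lit 35) (nat_lit 165)) (lf (nat_lit 24) (nat_lit 165))))))))))))))))))) (cs (nd (nat_lit 210) (nat_lit 0) (cs (lf (nat_lit 36) (nat_lit 165)) (nd (nat_lit 167) (nat_lit 0) (cs (lf (nat_lit 34) (nat_lit 166)) (nd (nat_lit 187) (nat_lit 0) (cs (lf (nat_lit 47) (nat_lit 165)) (nd (nat_lit 209) (nat_lit 0) (cs (lf (nat_lit 29) (nat_lit 187)) (nd (nat_lit 186) (nat_lit 0) (cs (lf (nat_lit 47) (nat_lit 164)) (nd (nat_lit 185) (nat_lit 0) (cs (lf (nat_lit 0) (nat_lit 184)) (nd (nat_lit 162) (nat_lit 0) (cs (lf (nat_lit 22) (nat_lit 162)) (nd (nat_lit 207) (nat_lit 0) (cs (lf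 (nat_lit 11) (nat_lit 184)) (nd (nat_lit 208) (nat_lit 0) (cs (lf (nat_lit 5) (nat_lit 207)) (nd (nat_lit 229) (nat_lit 0) (cs (lf (nat_lit 11) (nat_lit 206)) (rf (nat_lit 5)))))))))))))))))))))) (cs (nd (nat_lit 210) (nat_lit 0) (cs (lf (nat_lit 36) (nat_lit 165)) (rf (nat_lit 6)))) (cs (nd (nat_lit 210) (nat_lit 0) (cs (lf (nat_lit 36) (nat_lit 165)) (nd (nat_lit 255) (nat_lit 0) (cs (lf (nat_lit 29) (nat_lit 188)) (nd (nat_lit 256) (nat_lit 0) (cs (lf (nat_lit 18) (nat_lit 231)) (nd (nat_lit 278) (nat_lit 0) (cs (lf (nat_lit 5) (nat_lit 253)) (nd (nat_lit 234) (nat_lit 0) (cs (lf (nat_lit 17) (nat_lit 231)) (rf (nat_lit 7)))))))))))) (nd (nat_lit 210) (nat_lit 0) (cs (lf (nat_lit 36) (nat_lit 165)) (rf (nat_lit 8)))))))))) q79704 (by decide +kernel)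
def q79728 : Q := Q.p (nat_lit 0x1800006000010000040000000000000000000000000000000000000000000000000000) (nat_lit 0x5000006000180000080000300000c0000000000000000000000000000000000000000000000) (nat_lit 6)
theorem c79728 : QOK q79728 := cut [q79292] ⟨c79292, trivial⟩ (nd (nat_lit 209) (nat_lit 0) (cs (lf (nat_lit 47) (nat_lit 187)) (nd (nat_lit 231) (nat_lit 0) (cs (lf (nat_lit 42) (nat_lit 209)) (rf (nat_lit 0)))))) q79728 (by decide +kernel)
def q79737 : Q := Q.p (nat_lit 0x200000800002000008000000000000000000000000000000000000000000000000000000000) (nat_lit 0x140000500000400000000004000030000040000000000000000000000000000000000000000000000) (nat_lit 5)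
theorem c79737 : QOK q79737 := cut [q79736] ⟨c79736, trivial⟩ (nd (nat_lit 298) (nat_lit 0) (cs (lf (nat_lit 29) (nat_lit 231)) (rf (nat_lit 0)))) q79737 (by decide +kernel)
def q79754 : Q := Q.p (nat_lit 0x3000004000010000000000000000000000000000000000000000000000000000000000) (nat_lit 0xc000000000000000600000f8000280000000000000000000000000000000000000000000000) (nat_lit 6)
theorem c79754 : QOK q79754 := cut [q79753] ⟨c79753, trivial⟩ (nd (nat_lit 210) (nat_lit 0) (cs (lf (nat_lit 29) (nat_lit 210)) (rf (nat_lit 0)))) q79754 (by decide +kernel)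
def q79760 : Q := Q.p (nat_lit 0x1800006000010000000000000000000000000000000000000000000000000000000000) (nat_lit 0x18000060000380000e4000380000ec000140000400000000000000000000000000000000000000000000000) (nat_lit 10)
theorem c79760 : QOK q79760 := cut [q79272, q79749, q79758] ⟨c79272, c79749, c79758, trivial⟩ (nd (nat_lit 277) (nat_lit 0) (cs (rf (nat_lit 0)) (cs (rf (nat_lit 1)) (nd (nat_lit 299) (nat_lit 0) (cs (lf (nat_lit 24) (nat_lit 210)) (rf (nat_lit 2))))))) q79760 (by decide +kernel)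
def q79765 : Q := Q.p (nat_lit 0x400001800006000010000000000000000000000000000000000000000000000000000000000) (nat_lit 0x280001a00000600000000020000080000000000000000000000000000000000000000000000000000) (nat_lit 5)
theorem c79765 : QOK q79765 := cut [q79764] ⟨c79764, trivial⟩ (nd (nat_lit 297) (nat_lit 0) (cs (lf (nat_lit 30) (nat_lit 231)) (rf (nat_lit 0)))) q79765 (by decide +kernel)
def q79778 : Q := Q.p (nat_lit 0x1800006000010000040000000000000000000000000000000000000000000000000000) (nat_lit 0x50000070000000002800003c0000c0000000000000000000000000000000000000000000000) (nat_lit 7)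
theorem c79778 : QOK q79778 := cut [q79776] ⟨c79776, trivial⟩ (nd (nat_lit 209) (nat_lit 0) (cs (lf (nat_lit 47) (nat_lit 187)) (nd (nat_lit 231) (nat_lit 0) (cs (lf (nat_lit 29) (nat_lit 209)) (rf (nat_lit 0)))))) q79778 (by decide +kernel)
def q79914 : Q := Q.p (nat_lit 0x6000010000000000000000000000000000000000000000000000000000000000) (nat_lit 0x800006000018000200001ec001ffc001ff0001e00006800000000000000000000000000000000000) (nat_lit 9)
theorem c79914 : QOK q79914 := cut [q79123, q79128, q79160, q79800, q79867, q79876, q79606, q79913] ⟨c79123, c79128, c79160, c79800, c79867, c79876, c79606, c79913, trivial⟩ (nd (nat_lit 210) (nat_lit 0) (cs (rf (nat_lit 0)) (cs (rf (nat_lit 1)) (cs (rf (nat_lit 2)) (cs (nd (nat_lit 211) (nat_lit 0) (cs (rf (nat_lit 3)) (cs (rf (nat_lit 4)) (cs (rf (nat_lit 5)) (nd (nat_lit 276) (nat_lit 0) (cs (lf (nat_lit 35) (nat_lit 188)) (nd (nat_lit 275) (nat_lit 0) (cs (lf (nat_lit 41) (nat_lit 209)) (nd (nat_lit 209) (nat_lit 0) (cs (lf (nat_lit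 47) (nat_lit 187)) (nd (nat_lit 231) (nat_lit 0) (cs (lf (nat_lit 29) (nat_lit 209)) (rf (nat_lit 6)))))))))))))) (rf (nat_lit 7))))))) q79914 (by decide +kernel)
def q79952 : Q := Q.p (nat_lit 0x6000010000000000000000000000000000000000000000000000000000000000) (nat_lit 0x3c0000f8000380001ee001ff0001fc0001e00006800000000000000000000000000000000000) (nat_lit 11)
theorem c79952 : QOK q79952 := cut [q79123, q79128, q79160, q79800, q79867, q79923, q79852, q79922, q79947] ⟨c79123, c79128, c79160, c79800, c79867, c79923, c79852, c79922, c79947, trivial⟩ (nd (nat_lit 210) (nat_lit 0) (cs (rf (nat_lit 0)) (cs (rf (nat_lit 1)) (cs (rf (nat_lit 2)) (nd (nat_lit 211) (nat_lit 0) (cs (rf (nat_lit 3)) (cs (rf (nat_lit 4)) (cs (nd (nat_lit 276) (nat_lit 0) (cs (lf (nat_lit 35) (nat_lit 188)) (nd (nat_lit 277) (nat_lit 0) (cs (lf (nat_lit 29) (nat_lit 210)) (nd (nat_lit 278) (nat_lit 0) (cs (lf (nat_lit 18) (nat_lit 253)) (nd (nat_lit 209) (nat_lit 0) (cs (lf (nat_lit 47) (nat_lit 187))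 (nd (nat_lit 231) (nat_lit 0) (cs (lf (nat_lit 42) (nat_lit 209)) (nd (nat_lit 230) (nat_lit 0) (cs (lf (nat_lit 6) (nat_lit 208)) (lf (nat_lit 12) (nat_lit 207)))))))))))))) (nd (nat_lit 233) (nat_lit 0) (cs (nd (nat_lit 276) (nat_lit 0) (cs (lf (nat_lit 30) (nat_lit 210)) (nd (nat_lit 277) (nat_lit 0) (cs (lf (nat_lit 29) (nat_lit 210)) (nd (nat_lit 278) (nat_lit 0) (cs (lf (nat_lit 18) (nat_lit 253)) (nd (nat_lit 255) (nat_lit 0) (cs (lf (nat_lit 29) (nat_lit 211)) (nd (nat_lit 187) (nat_lit 0) (cs (lf (nat_lit 46) (nat_lit 187)) (rf (nat_lit 5)))))))))))) (cs (nd (nat_lit 276) (nat_lit 0) (cs (lf (nat_lit 30) (nat_lit 210)) (nd (nat_lit 277) (nat_lit 0) (cs (lf (nat_lit 29) (nat_lit 210)) (nd (nat_lit 278) (nat_lit 0) (cs (lf (nat_lit 18) (nat_lit 253)) (nd (nat_lit 255) (nat_lit 0) (cs (lf (nat_lit 29) (nat_lit 211)) (nd (nat_lit 234) (nat_lit 0) (cs (lf (nat_lit 6) (nat_lit 231)) (nd (nat_lit 212) (nat_lit 0) (cs (lf (nat_lit 35) (nat_lit 189)) (nd (nat_lit 231)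 (nat_lit 0) (cs (lf (nat_lit 17) (nat_lit 209)) (lf (nat_lit 12) (nat_lit 208)))))))))))))))) (cs (nd (nat_lit 212) (nat_lit 0) (cs (rf (nat_lit 6)) (cs (rf (nat_lit 7)) (nd (nat_lit 234) (nat_lit 0) (cs (lf (nat_lit 6) (nat_lit 231)) (nd (nat_lit 208) (nat_lit 0) (cs (lf (nat_lit 1) (nat_lit 208)) (nd (nat_lit 231) (nat_lit 0) (cs (lf (nat_lit 12) (nat_lit 208)) (nd (nat_lit 256) (nat_lit 0) (cs (lf (nat_lit 5) (nat_lit 231)) (nd (nat_lit 278) (nat_lit 0) (cs (lf (nat_lit 42) (nat_lit 211)) (nd (nat_lit 279) (nat_lit 0) (cs (lf (nat_lit 2) (nat_lit 253)) (lf (nat_lit 29) (nat_lit 212))))))))))))))))) (nd (nat_lit 276) (nat_lit 0) (cs (lf (nat_lit 30) (nat_lit 210)) (nd (nat_lit 277) (nat_lit 0) (cs (lf (nat_lit 29) (nat_lit 210)) (rf (nat_lit 8)))))))))))))))))) q79952 (by decide +kernel)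
def q79961 : Q := Q.p (nat_lit 0x1000006000010000040000000000000000000000000000000000000000000000000000) (nat_lit 0xa00006800001800000000080000200000000000000000000000000000000000000000000000) (nat_lit 5)
theorem c79961 : QOK q79961 := cut [q79960] ⟨c79960, trivial⟩ (nd (nat_lit 275) (nat_lit 0) (cs (lf (nat_lit 41) (nat_lit 209)) (rf (nat_lit 0)))) q79961 (by decide +kernel)
def q79964 : Q := Q.p (nat_lit 0x6000010000040000000000000000000000000000000000000000000000000000) (nat_lit 0xc0000300000e000078000018000600000b8000280000000000000000000000000000000000000000000000) (nat_lit 7)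
theorem c79964 : QOK q79964 := cut [q79425, q79753, q79962] ⟨c79425, c79753, c79962, trivial⟩ (nd (nat_lit 276) (nat_lit 0) (cs (nd (nat_lit 275) (nat_lit 0) (cs (lf (nat_lit 41) (nat_lit 209)) (rf (nat_lit 0)))) (cs (rf (nat_lit 1)) (nd (nat_lit 275) (nat_lit 0) (cs (lf (nat_lit 41) (nat_lit 209)) (rf (nat_lit 2))))))) q79964 (by decide +kernel)
def q80001 : Q := Q.p (nat_lit 0x600003c000000000000000000000000000000000000000000000000000000000) (nat_lit 0x400001800001800000000198000240000900000000000000000000000000000000000000000) (nat_lit 7)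
theorem c80001 : QOK q80001 := cut [q80000] ⟨c80000, trivial⟩ (nd (nat_lit 252) (nat_lit 0) (cs (lf (nat_lit 12) (nat_lit 229)) (rf (nat_lit 0)))) q80001 (by decide +kernel)
def q80059 : Q := Q.p (nat_lit 0x6000038000000000000000000000000000000000000000000000000000000000) (nat_lit 0x1c0000f00001f00001c000070001a0000280000a00000000000000000000000000000000000000000) (nat_lit 10)
theorem c80059 : QOK q80059 := cut [q79196, q80040, q80043, q79990, q80057] ⟨c79196, c80040, c80043, c79990, c80057, trivial⟩ (nd (nat_lit 275) (nat_lit 0) (cs (rf (nat_lit 0)) (cs (nd (nat_lit 251) (nat_lit 0) (cs (lf (nat_lit 13) (nat_lit 229)) (rf (nat_lit 1)))) (cs (nd (nat_lit 276) (nat_lit 0) (cs (nd (nat_lit 251) (nat_lit 0) (cs (lf (nat_lit 13) (nat_lit 229)) (nd (nat_lit 209) (nat_lit 0) (cs (lf (nat_lit 24) (nat_lit 187)) (rf (nat_lit 2)))))) (nd (nat_lit 298) (nat_lit 0) (cs (lf (nat_lit 35) (nat_lit 210)) (lf (nat_lit 42) (nat_lit 231)))))) (cs (nd (nat_lit 251) (nat_lit 0) (cs (lf (nat_lit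 13) (nat_lit 229)) (nd (nat_lit 297) (nat_lit 0) (cs (lf (nat_lit 30) (nat_lit 231)) (nd (nat_lit 298) (nat_lit 0) (cs (lf (nat_lit 29) (nat_lit 231)) (nd (nat_lit 211) (nat_lit 0) (cs (nd (nat_lit 167) (nat_lit 0) (cs (lf (nat_lit 37) (nat_lit 166)) (nd (nat_lit 296) (nat_lit 0) (cs (lf (nat_lit 41) (nat_lit 230)) (nd (nat_lit 230) (nat_lit 0) (cs (lf (nat_lit 17) (nat_lit 208)) (rf (nat_lit 3)))))))) (lf (nat_lit 31) (nat_lit 210)))))))))) (nd (nat_lit 297) (nat_lit 0) (cs (lf (nat_lit 30) (nat_lit 231)) (rf (nat_lit 4))))))))) q80059 (by decide +kernel)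
def q80168 : Q := Q.p (nat_lit 0x6000018000000000000000000000000000000000000000000000000000000000) (nat_lit 0x80000300004c00031c000e40007e0003fe0007f80004000010000000000000000000000000000000) (nat_lit 13)
theorem c80168 : QOK q80168 := cut [q80089, q58363, q80144, q80148, q80158, q80160, q80157] ⟨c80089, c58363, c80144, c80148, c80158, c80160, c80157, trivial⟩ (nd (nat_lit 187) (nat_lit 0) (cs (nd (nat_lit 252) (nat_lit 0) (cs (rf (nat_lit 0)) (cs (nd (nat_lit 209) (nat_lit 0) (cs (lf (nat_lit 41) (nat_lit 186)) (nd (nat_lit 164) (nat_lit 0) (cs (lf (nat_lit 46) (nat_lit 164)) (nd (nat_lit 233) (nat_lit 0) (cs (lf (nat_lit 6) (nat_lit 230)) (nd (nat_lit 188) (nat_lit 0) (cs (lf (nat_lit 35) (nat_lit 165)) (nd (nat_lit 210) (nat_lit 0) (cs (lf (nat_lit 30) (nat_lit 187)) (nd (nat_lit 189) (nat_lit 0) (cs (lf (nat_lit 35) (nat_lit 166)) (nd (nat_lit 190) (nat_lit 0) (cs (lf (nat_lit 6) (nat_lit 187)) (nd (nat_lit 168) (nat_lit 0) (cs (lf (nat_lit 17) (nat_lit 165)) (nd (nat_lit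 212) (nat_lit 0) (cs (lf (nat_lit 5) (nat_lit 187)) (nd (nat_lit 211) (nat_lit 0) (cs (lf (nat_lit 12) (nat_lit 208)) (lf (nat_lit 36) (nat_lit 145)))))))))))))))))))))) (nd (nat_lit 209) (nat_lit 0) (cs (lf (nat_lit 41) (nat_lit 186)) (nd (nat_lit 186) (nat_lit 0) (cs (lf (nat_lit 47) (nat_lit 164)) (nd (nat_lit 250) (nat_lit 0) (cs (lf (nat_lit 13) (nat_lit 228)) (nd (nat_lit 188) (nat_lit 0) (cs (lf (nat_lit 35) (nat_lit 165)) (nd (nat_lit 210) (nat_lit 0) (cs (rf (nat_lit 1)) (lf (nat_lit 41) (nat_lit 187))))))))))))))) (cs (rf (nat_lit 2)) (cs (nd (nat_lit 209) (nat_lit 0) (cs (lf (nat_lit 24) (nat_lit 165)) (nd (nat_lit 164) (nat_lit 0) (cs (lf (nat_lit 46) (nat_lit 164)) (nd (nat_lit 188) (nat_lit 0) (cs (lf (nat_lit 35) (nat_lit 165)) (nd (nat_lit 210) (nat_lit 0) (cs (lf (nat_lit 41) (nat_lit 187)) (nd (nat_lit 189) (nat_lit 0) (cs (lf (nat_lit 35) (nat_lit 166)) (nd (nat_lit 190) (nat_lit 0) (cs (lf (nat_lit 6) (nat_lit 187)) (nd (nat_lit 168) (nat_lit 0) (cs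 (lf (nat_lit 17) (nat_lit 165)) (nd (nat_lit 212) (nat_lit 0) (cs (lf (nat_lit 5) (nat_lit 187)) (rf (nat_lit 3)))))))))))))))))) (cs (nd (nat_lit 209) (nat_lit 0) (cs (lf (nat_lit 24) (nat_lit 165)) (rf (nat_lit 4)))) (cs (nd (nat_lit 209) (nat_lit 0) (cs (lf (nat_lit 24) (nat_lit 165)) (nd (nat_lit 164) (nat_lit 0) (cs (lf (nat_lit 46) (nat_lit 164)) (nd (nat_lit 274) (nat_lit 0) (cs (lf (nat_lit 40) (nat_lit 186)) (nd (nat_lit 166) (nat_lit 0) (cs (lf (nat_lit 34) (nat_lit 165)) (nd (nat_lit 275) (nat_lit 0) (cs (lf (nat_lit 41) (nat_lit 208)) (rf (nat_lit 5)))))))))))) (nd (nat_lit 209) (nat_lit 0) (cs (lf (nat_lit 24) (nat_lit 165)) (nd (nat_lit 166) (nat_lit 0) (cs (lf (nat_lit 34) (nat_lit 165)) (rf (nat_lit 6)))))))))))) q80168 (by decide +kernel)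
def q80206 : Q := Q.p (nat_lit 0x700001c000000000000000000000000000000000000000000000000000000000) (nat_lit 0x14000000000600000380000e0000380000000000000000000000000000000000000000) (nat_lit 7)
theorem c80206 : QOK q80206 := cut [q80204] ⟨c80204, trivial⟩ (nd (nat_lit 233) (nat_lit 0) (cs (lf (nat_lit 6) (nat_lit 230)) (nd (nat_lit 208) (nat_lit 0) (cs (lf (nat_lit 23) (nat_lit 207)) (rf (nat_lit 0)))))) q80206 (by decide +kernel)
def q80220 : Q := Q.p (nat_lit 0x600001e000000000000000000000000000000000000000000000000000000000) (nat_lit 0x400003000001c0002000002c000080000000000000000000000000000000000000000000000) (nat_lit 6)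
theorem c80220 : QOK q80220 := cut [q80219] ⟨c80219, trivial⟩ (nd (nat_lit 206) (nat_lit 0) (cs (lf (nat_lit 22) (nat_lit 206)) (rf (nat_lit 0)))) q80220 (by decide +kernel)
def q80227 : Q := Q.p (nat_lit 0x600001e000000000000000000000000000000000000000000000000000000000) (nat_lit 0x1000031c000e0000330000080000200000000000000000000000000000000000000000) (nat_lit 8)
theorem c80227 : QOK q80227 := cut [q80225] ⟨c80225, trivial⟩ (nd (nat_lit 251) (nat_lit 0) (cs (lf (nat_lit 11) (nat_lit 228)) (nd (nat_lit 233) (nat_lit 0) (cs (lf (nat_lit 13) (nat_lit 229)) (rf (nat_lit 0)))))) q80227 (by decide +kernel)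
def q80237 : Q := Q.p (nat_lit 0x700001e000000000000000000000000000000000000000000000000000000000) (nat_lit 0x14000000000000000e0000380000e00000000000000000000000000000000000000000) (nat_lit 6)
theorem c80237 : QOK q80237 := cut [q80236] ⟨c80236, trivial⟩ (nd (nat_lit 210) (nat_lit 0) (cs (lf (nat_lit 17) (nat_lit 207)) (rf (nat_lit 0)))) q80237 (by decide +kernel)
def q80274 : Q := Q.p (nat_lit 0x7000010000000000000000000000000000000000000000000000000000000000) (nat_lit 0x400003c0003fc0007f80000c0000f80005c000120000000000000000000000000000000000000000000000) (nat_lit 11)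
theorem c80274 : QOK q80274 := cut [q79169, q79199, q79170, q79171, q80247, q80251, q79009, q79024, q79201, q80257, q80265] ⟨c79169, c79199, c79170, c79171, c80247, c80251, c79009, c79024, c79201, c80257, c80265, trivial⟩ (nd (nat_lit 275) (nat_lit 0) (cs (rf (nat_lit 0)) (cs (rf (nat_lit 1)) (cs (nd (nat_lit 276) (nat_lit 0) (cs (rf (nat_lit 2)) (cs (rf (nat_lit 3)) (nd (nat_lit 274) (nat_lit 0) (cs (nd (nat_lit 251) (nat_lit 0) (cs (lf (nat_lit 0) (nat_lit 250)) (rf (nat_lit 4)))) (nd (nat_lit 273) (nat_lit 0) (cs (lf (nat_lit 12) (nat_lit 250)) (nd (nat_lit 188) (nat_lit 0) (cs (lf (nat_lit 37) (nat_lit 187)) (rf (nat_lit 5))))))))))) (nd (nat_lit 251) (nat_lit 0) (cs (rf (nat_lit 6)) (cs (rf (nat_lit 7)) (cs (rf (nat_lit 8)) (nd (nat_lit 297) (nat_lit 0) (cs (lf (nat_lit 30) (nat_lit 231)) (nd (nat_lit 298) (nat_lit 0) (cs (nd (nat_lit 272) (nat_lit 0) (cs (lf (nat_lit 10) (nat_lit 250)) (nd (nat_lit 231) (nat_lit 0) (cs (lf (nat_lit 29) (nat_lit 231)) (nd (nat_lit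 296) (nat_lit 0) (cs (lf (nat_lit 41) (nat_lit 230)) (nd (nat_lit 230) (nat_lit 0) (cs (nd (nat_lit 229) (nat_lit 0) (cs (lf (nat_lit 23) (nat_lit 228)) (rf (nat_lit 9)))) (lf (nat_lit 47) (nat_lit 208)))))))))) (cs (nd (nat_lit 272) (nat_lit 0) (cs (lf (nat_lit 10) (nat_lit 250)) (nd (nat_lit 228) (nat_lit 0) (cs (lf (nat_lit 22) (nat_lit 228)) (nd (nat_lit 276) (nat_lit 0) (cs (lf (nat_lit 5) (nat_lit 251)) (rf (nat_lit 10)))))))) (nd (nat_lit 276) (nat_lit 0) (cs (lf (nat_lit 5) (nat_lit 251)) (nd (nat_lit 320) (nat_lit 0) (cs (lf (nat_lit 42) (nat_lit 253)) (lf (nat_lit 24) (nat_lit 231))))))))))))))))))) q80274 (by decide +kernel)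
def q80289 : Q := Q.p (nat_lit 0x1800007000010000000000000000000000000000000000000000000000000000000000) (nat_lit 0x4000000000000000e80000c0000300000000000000000000000000000000000000000000000) (nat_lit 5)
theorem c80289 : QOK q80289 := cut [q80288] ⟨c80288, trivial⟩ (nd (nat_lit 210) (nat_lit 0) (cs (lf (nat_lit 36) (nat_lit 187)) (rf (nat_lit 0)))) q80289 (by decide +kernel)
def q80298 : Q := Q.p (nat_lit 0x200000800007000018000000000000000000000000000000000000000000000000000000000) (nat_lit 0x140000500001000000000067000190000000000000000000000000000000000000000000000000000) (nat_lit 7)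
theorem c80298 : QOK q80298 := cut [q80295] ⟨c80295, trivial⟩ (nd (nat_lit 230) (nat_lit 0) (cs (lf (nat_lit 47) (nat_lit 208)) (nd (nat_lit 298) (nat_lit 0) (cs (lf (nat_lit 29) (nat_lit 231)) (nd (nat_lit 228) (nat_lit 0) (cs (lf (nat_lit 1) (nat_lit 228)) (rf (nat_lit 0)))))))) q80298 (by decide +kernel)
def q80348 : Q := Q.p (nat_lit 0x1000006000010000040000000000000000000000000000000000000000000000000000) (nat_lit 0xa00006800001800000000020000080000000000000000000000000000000000000000000000) (nat_lit 5)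
theorem c80348 : QOK q80348 := cut [q80347] ⟨c80347, trivial⟩ (nd (nat_lit 187) (nat_lit 0) (cs (lf (nat_lit 46) (nat_lit 187)) (rf (nat_lit 0)))) q80348 (by decide +kernel)
def q80355 : Q := Q.p (nat_lit 0x1c00006000018000000000000000000000000000000000000000000000000000000000) (nat_lit 0xc0002300001c0000700000c000030000000000000000000000000000000000000000000000) (nat_lit 8)
theorem c80355 : QOK q80355 := cut [q80026] ⟨c80026, trivial⟩ (nd (nat_lit 273) (nat_lit 0) (cs (lf (nat_lit 12) (nat_lit 250)) (nd (nat_lit 251) (nat_lit 0) (cs (lf (nat_lit 23) (nat_lit 250)) (nd (nat_lit 294) (nat_lit 0) (cs (lf (nat_lit 10) (nat_lit 272)) (nd (nat_lit 252) (nat_lit 0) (cs (lf (nat_lit 5) (nat_lit 251)) (rf (nat_lit 0)))))))))) q80355 (by decide +kernel)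
def q80374 : Q := Q.p (nat_lit 0x1800007000010000000000000000000000000000000000000000000000000000000000) (nat_lit 0x5000007000000000680000780001c0000000000000000000000000000000000000000000000) (nat_lit 8)
theorem c80374 : QOK q80374 := cut [q80373] ⟨c80373, trivial⟩ (nd (nat_lit 210) (nat_lit 0) (cs (lf (nat_lit 36) (nat_lit 187)) (rf (nat_lit 0)))) q80374 (by decide +kernel)
def q80383 : Q := Q.p (nat_lit 0x800007000010000000000000000000000000000000000000000000000000000000000) (nat_lit 0x1c000070000140000000000f00003c0000c0000000000000000000000000000000000000000000000) (nat_lit 8)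
theorem c80383 : QOK q80383 := cut [q79177, q79188, q80379, q79186] ⟨c79177, c79188, c80379, c79186, trivial⟩ (nd (nat_lit 297) (nat_lit 0) (cs (lf (nat_lit 30) (nat_lit 231)) (nd (nat_lit 231) (nat_lit 0) (cs (rf (nat_lit 0)) (cs (rf (nat_lit 1)) (cs (rf (nat_lit 2)) (nd (nat_lit 298) (nat_lit 0) (cs (lf (nat_lit 29) (nat_lit 231)) (nd (nat_lit 209) (nat_lit 0) (cs (lf (nat_lit 43) (nat_lit 209)) (rf (nat_lit 3)))))))))))) q80383 (by decide +kernel)
def q80417 : Q := Q.p (nat_lit 0xf000000000000000000000000000000000000000000000000000000000000000) (nat_lit 0x1c0000700001c000076000000000760001c0000700001800004000000000000000000000000000000000000) (nat_lit 13)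
theorem c80417 : QOK q80417 := cut [q80394, q80403, q80408, q80415] ⟨c80394, c80403, c80408, c80415, trivial⟩ (nd (nat_lit 233) (nat_lit 0) (cs (lf (nat_lit 17) (nat_lit 230)) (nd (nat_lit 211) (nat_lit 0) (cs (rf (nat_lit 0)) (cs (rf (nat_lit 1)) (cs (nd (nat_lit 277) (nat_lit 0) (cs (lf (nat_lit 5) (nat_lit 252)) (nd (nat_lit 190) (nat_lit 0) (cs (lf (nat_lit 34) (nat_lit 189)) (nd (nat_lit 168) (nat_lit 0) (cs (lf (nat_lit 33) (nat_lit 167)) (nd (nat_lit 229) (nat_lit 0) (cs (lf (nat_lit 22) (nat_lit 229)) (nd (nat_lit 273) (nat_lit 0) (cs (lf (nat_lit 10) (nat_lit 251)) (rf (nat_lit 2)))))))))))) (rf (nat_lit 3)))))))) q80417 (by decide +kernel)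
def q80454 : Q := Q.p (nat_lit 0x7000000000000000000000000000000000000000000000000000000000000000) (nat_lit 0x1f00007c0003f80000c0003780001c0000700001c0000500000000000000000000000000000000000) (nat_lit 15)
theorem c80454 : QOK q80454 := cut [q79009, q79024, q79201, q5482, q80443, q80448, q80450] ⟨c79009, c79024, c79201, c5482, c80443, c80448, c80450, trivial⟩ (nd (nat_lit 251) (nat_lit 0) (cs (rf (nat_lit 0)) (cs (rf (nat_lit 1)) (cs (rf (nat_lit 2)) (nd (nat_lit 229) (nat_lit 0) (cs (lf (nat_lit 23) (nat_lit 228)) (nd (nat_lit 207) (nat_lit 0) (cs (rf (nat_lit 3)) (cs (rf (nat_lit 4)) (cs (rf (nat_lit 5)) (nd (nat_lit 272) (nat_lit 0) (cs (lf (nat_lit 10) (nat_lit 250)) (rf (nat_lit 6)))))))))))))) q80454 (by decide +kernel)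
def q80460 : Q := Q.p (nat_lit 0xf000000000000000000000000000000000000000000000000000000000000000) (nat_lit 0x1dc000300000e0000000000000000000000000000000000000000000000000000000000) (nat_lit 6)
theorem c80460 : QOK q80460 := cut [q80458] ⟨c80458, trivial⟩ (nd (nat_lit 234) (nat_lit 0) (cs (lf (nat_lit 16) (nat_lit 230)) (nd (nat_lit 256) (nat_lit 0) (cs (lf (nat_lit 17) (nat_lit 231)) (rf (nat_lit 0)))))) q80460 (by decide +kernel)
def q80465 : Q := Q.p (nat_lit 0x7000000000000000000000000000000000000000000000000000000000000000) (nat_lit 0x80000f0000188000f7000040000100000000000000000000000000000000000000000000000) (nat_lit 6)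
theorem c80465 : QOK q80465 := cut [q79214, q79228, q80425, q80464] ⟨c79214, c79228, c80425, c80464, trivial⟩ (nd (nat_lit 255) (nat_lit 0) (cs (rf (nat_lit 0)) (cs (rf (nat_lit 1)) (cs (rf (nat_lit 2)) (rf (nat_lit 3)))))) q80465 (by decide +kernel)
def q80466 : Q := Q.p (nat_lit 0x7000000000000000000000000000000000000000000000000000000000000000) (nat_lit 0x780008c00077800000000000000000000000000000000000000000000000000000000) (nat_lit 5)
theorem c80466 : QOK q80466 := cut [q79020, q79201, q79260] ⟨c79020, c79201, c79260, trivial⟩ (nd (nat_lit 251) (nat_lit 0) (cs (rf (nat_lit 0)) (cs (rf (nat_lit 1)) (rf (nat_lit 2))))) q80466 (by decide +kernel)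
def q80509 : Q := Q.p (nat_lit 0xe000000000000000000000000000000000000000000000000000000000000000) (nat_lit 0x380000e0000380001fc000300001ec000380000e00003000008000000000000000000000000000000000000) (nat_lit 14)
theorem c80509 : QOK q80509 := cut [q80458, q80497, q80500, q80508] ⟨c80458, c80497, c80500, c80508, trivial⟩ (nd (nat_lit 256) (nat_lit 0) (cs (rf (nat_lit 0)) (cs (rf (nat_lit 1)) (cs (nd (nat_lit 230) (nat_lit 0) (cs (lf (nat_lit 22) (nat_lit 230)) (rf (nat_lit 2)))) (rf (nat_lit 3)))))) q80509 (by decide +kernel)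
def q80529 : Q := Q.p (nat_lit 0xe000000000000000000000000000000000000000000000000000000000000000) (nat_lit 0x3e0000f80007f0000180006f0000380000e0000380000a00000000000000000000000000000000000) (nat_lit 15)
theorem c80529 : QOK q80529 := cut [q79210, q79214, q79217, q6259, q79066, q80524] ⟨c79210, c79214, c79217, c6259, c79066, c80524, trivial⟩ (nd (nat_lit 252) (nat_lit 0) (cs (rf (nat_lit 0)) (cs (rf (nat_lit 1)) (cs (rf (nat_lit 2)) (nd (nat_lit 230) (nat_lit 0) (cs (lf (nat_lit 23) (nat_lit 229)) (nd (nat_lit 208) (nat_lit 0) (cs (rf (nat_lit 3)) (cs (rf (nat_lit 4)) (cs (nd (nat_lit 274) (nat_lit 0) (cs (lf (nat_lit 11) (nat_lit 251)) (nd (nat_lit 277) (nat_lit 0) (cs (lf (nat_lit 5) (nat_lit 252)) (nd (nat_lit 185) (nat_lit 0) (cs (lf (nat_lit 46) (nat_lit 185)) (nd (nat_lit 187) (nat_lit 0) (cs (lf (nat_lit 34) (nat_lit 186)) (nd (nat_lit 297) (nat_lit 0) (cs (lf (nat_lit 28) (nat_lit 208)) (nd (nat_lit 233) (nat_lit 0) (cs (lf (nat_lit 17) (nat_lit 230)) (nd (nat_lit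 296) (nat_lit 0) (cs (lf (nat_lit 29) (nat_lit 230)) (nd (nat_lit 295) (nat_lit 0) (cs (lf (nat_lit 41) (nat_lit 229)) (nd (nat_lit 231) (nat_lit 0) (cs (lf (nat_lit 30) (nat_lit 230)) (nd (nat_lit 298) (nat_lit 0) (cs (lf (nat_lit 16) (nat_lit 273)) (nd (nat_lit 320) (nat_lit 0) (cs (lf (nat_lit 5) (nat_lit 295)) (lf (nat_lit 39) (nat_lit 232)))))))))))))))))))))))) (nd (nat_lit 274) (nat_lit 0) (cs (lf (nat_lit 11) (nat_lit 251)) (nd (nat_lit 277) (nat_lit 0) (cs (lf (nat_lit 5) (nat_lit 252)) (rf (nat_lit 5)))))))))))))))) q80529 (by decide +kernel)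
def q80559 : Q := Q.p (nat_lit 0xe000000000000000000000000000000000000000000000000000000000000000) (nat_lit 0x100000400003f80031c000e7000000000000000000000000000000000000000000000000000000000) (nat_lit 9)
theorem c80559 : QOK q80559 := cut [q79210, q79223, q80548, q80558] ⟨c79210, c79223, c80548, c80558, trivial⟩ (nd (nat_lit 252) (nat_lit 0) (cs (rf (nat_lit 0)) (cs (rf (nat_lit 1)) (cs (nd (nat_lit 233) (nat_lit 0) (cs (lf (nat_lit 17) (nat_lit 230)) (rf (nat_lit 2)))) (rf (nat_lit 3)))))) q80559 (by decide +kernel)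
def q80563 : Q := Q.p (nat_lit 0xe000000000000000000000000000000000000000000000000000000000000000) (nat_lit 0x1de000310001e0000000000000000000000000000000000000000000000000000000000) (nat_lit 5)
theorem c80563 : QOK q80563 := cut [q80458, q80500, q80562] ⟨c80458, c80500, c80562, trivial⟩ (nd (nat_lit 256) (nat_lit 0) (cs (rf (nat_lit 0)) (cs (rf (nat_lit 1)) (rf (nat_lit 2))))) q80563 (by decide +kernel)
def q80588 : Q := Q.p (nat_lit 0x80000200000800002000000000000000000000000000000000000000000000000000000000) (nat_lit 0x5000014000040000000000000001c000070000140000000000000000000000000000000000000000) (nat_lit 7)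
theorem c80588 : QOK q80588 := cut [q80587] ⟨c80587, trivial⟩ (nd (nat_lit 294) (nat_lit 0) (cs (lf (nat_lit 41) (nat_lit 228)) (rf (nat_lit 0)))) q80588 (by decide +kernel)
def q80610 : Q := Q.p (nat_lit 0x7000000000000000000000000000000000000000000000000000000000000000) (nat_lit 0xf7000188000f0000000000000000000000000000000000000000000000000000000000) (nat_lit 5)
theorem c80610 : QOK q80610 := cut [q79217, q80576, q80609] ⟨c79217, c80576, c80609, trivial⟩ (nd (nat_lit 255) (nat_lit 0) (cs (rf (nat_lit 0)) (cs (rf (nat_lit 1)) (rf (nat_lit 2))))) q80610 (by decide +kernel)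
def q80625 : Q := Q.p (nat_lit 0x7000000000000000000000000000000000000000000000000000000000000000) (nat_lit 0x1000005000077c0018e0001f800020000080000000000000000000000000000000000000000000000) (nat_lit 11)
theorem c80625 : QOK q80625 := cut [q79201, q79231, q80614, q80624] ⟨c79201, c79231, c80614, c80624, trivial⟩ (nd (nat_lit 251) (nat_lit 0) (cs (rf (nat_lit 0)) (cs (rf (nat_lit 1)) (cs (nd (nat_lit 276) (nat_lit 0) (cs (lf (nat_lit 5) (nat_lit 251)) (rf (nat_lit 2)))) (rf (nat_lit 3)))))) q80625 (by decide +kernel)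
def q80690 : Q := Q.p (nat_lit 0xf000000000000000000000000000000000000000000000000000000000000000) (nat_lit 0x380000c0003f000000000000000000000000000000000000000000000000000000000) (nat_lit 6)
theorem c80690 : QOK q80690 := cut [q80688] ⟨c80688, trivial⟩ (nd (nat_lit 229) (nat_lit 0) (cs (lf (nat_lit 22) (nat_lit 229)) (nd (nat_lit 251) (nat_lit 0) (cs (lf (nat_lit 23) (nat_lit 228)) (rf (nat_lit 0)))))) q80690 (by decide +kernel)
def q80703 : Q := Q.p (nat_lit 0xe000000000000000000000000000000000000000000000000000000000000000) (nat_lit 0xf000118000f7000000000000000000000000000000000000000000000000000000000) (nat_lit 5)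
theorem c80703 : QOK q80703 := cut [q79210, q79223, q80464] ⟨c79210, c79223, c80464, trivial⟩ (nd (nat_lit 252) (nat_lit 0) (cs (rf (nat_lit 0)) (cs (rf (nat_lit 1)) (rf (nat_lit 2))))) q80703 (by decide +kernel)
def q80710 : Q := Q.p (nat_lit 0x800006000008000020000000000000000000000000000000000000000000000000000) (nat_lit 0x500001600018000000000040000100000000000000000000000000000000000000000000000) (nat_lit 5)
theorem c80710 : QOK q80710 := cut [q80709] ⟨c80709, trivial⟩ (nd (nat_lit 276) (nat_lit 0) (cs (lf (nat_lit 29) (nat_lit 209)) (rf (nat_lit 0)))) q80710 (by decide +kernel)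
def q80725 : Q := Q.p (nat_lit 0x6000008000020000000000000000000000000000000000000000000000000000) (nat_lit 0x14000010000040000000000c0000300000400000000000000000000000000000000000) (nat_lit 5)
theorem c80725 : QOK q80725 := cut [q80724] ⟨c80724, trivial⟩ (nd (nat_lit 187) (nat_lit 0) (cs (lf (nat_lit 29) (nat_lit 187)) (rf (nat_lit 0)))) q80725 (by decide +kernel)
def q80806 : Q := Q.p (nat_lit 0x200000e000008000000000000000000000000000000000000000000000000000000000) (nat_lit 0x1c0000700001c0000d0000000000f00001c0000700000000000000000000000000000000000000000000000) (nat_lit 10)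
theorem c80806 : QOK q80806 := cut [q80777, q80786, q80789, q80802, q80805] ⟨c80777, c80786, c80789, c80802, c80805, trivial⟩ (nd (nat_lit 299) (nat_lit 0) (cs (rf (nat_lit 0)) (cs (nd (nat_lit 320) (nat_lit 0) (cs (nd (nat_lit 298) (nat_lit 0) (cs (lf (nat_lit 36) (nat_lit 232)) (lf (nat_lit 44) (nat_lit 231)))) (cs (rf (nat_lit 1)) (cs (rf (nat_lit 2)) (nd (nat_lit 321) (nat_lit 0) (cs (lf (nat_lit 41) (nat_lit 254)) (nd (nat_lit 276) (nat_lit 0) (cs (lf (nat_lit 42) (nat_lit 254)) (lf (nat_lit 43) (nat_lit 231)))))))))) (cs (rf (nat_lit 3)) (rf (nat_lit 4)))))) q80806 (by decide +kernel)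
def q80823 : Q := Q.p (nat_lit 0x80000e0000000000000000000000000000000000000000000000000000) (nat_lit 0x1d4000300000c00000000000000000000000000000000000000000000000) (nat_lit 5)
theorem c80823 : QOK q80823 := cut [q80822] ⟨c80822, trivial⟩ (nd (nat_lit 212) (nat_lit 0) (cs (lf (nat_lit 11) (nat_lit 208)) (rf (nat_lit 0)))) q80823 (by decide +kernel)
def q80871 : Q := Q.p (nat_lit 0xe000008000000000000000000000000000000000000000000000000000000000) (nat_lit 0x20000080001e0000310001f0000340000500001000000000000000000000000000000000000000000) (nat_lit 7)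
theorem c80871 : QOK q80871 := cut [q80500, q80862, q80866, q80867] ⟨c80500, c80862, c80866, c80867, trivial⟩ (nd (nat_lit 256) (nat_lit 0) (cs (rf (nat_lit 0)) (cs (rf (nat_lit 1)) (cs (rf (nat_lit 2)) (nd (nat_lit 232) (nat_lit 0) (cs (lf (nat_lit 18) (nat_lit 231)) (nd (nat_lit 278) (nat_lit 0) (cs (lf (nat_lit 5) (nat_lit 253)) (nd (nat_lit 277) (nat_lit 0) (cs (lf (nat_lit 0) (nat_lit 252)) (rf (nat_lit 3)))))))))))) q80871 (by decide +kernel)
def q80878 : Q := Q.p (nat_lit 0xe000038000000000000000000000000000000000000000000000000000000000) (nat_lit 0x200000800001000006000198000240000900000000000000000000000000000000000000000) (nat_lit 7)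
theorem c80878 : QOK q80878 := cut [q80875] ⟨c80875, trivial⟩ (nd (nat_lit 230) (nat_lit 0) (cs (lf (nat_lit 0) (nat_lit 229)) (nd (nat_lit 211) (nat_lit 0) (cs (lf (nat_lit 17) (nat_lit 208)) (nd (nat_lit 167) (nat_lit 0) (cs (lf (nat_lit 37) (nat_lit 166)) (rf (nat_lit 0)))))))) q80878 (by decide +kernel)
def q80885 : Q := Q.p (nat_lit 0xe000028000000000000000000000000000000000000000000000000000000000) (nat_lit 0x40000100006e00001000046000020000080000000000000000000000000000000000000000000000) (nat_lit 7)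
theorem c80885 : QOK q80885 := cut [q80882] ⟨c80882, trivial⟩ (nd (nat_lit 252) (nat_lit 0) (cs (lf (nat_lit 17) (nat_lit 230)) (nd (nat_lit 229) (nat_lit 0) (cs (lf (nat_lit 22) (nat_lit 229)) (nd (nat_lit 277) (nat_lit 0) (cs (lf (nat_lit 5) (nat_lit 252)) (rf (nat_lit 0)))))))) q80885 (by decide +kernel)
def q80930 : Q := Q.p (nat_lit 0xe000008000020000000000000000000000000000000000000000000000000000) (nat_lit 0x2800000000016000050000fc0000f00001400000000000000000000000000000000000) (nat_lit 9)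
theorem c80930 : QOK q80930 := cut [q80727, q80750, q80889, q80929] ⟨c80727, c80750, c80889, c80929, trivial⟩ (nd (nat_lit 187) (nat_lit 0) (cs (rf (nat_lit 0)) (cs (rf (nat_lit 1)) (cs (rf (nat_lit 2)) (rf (nat_lit 3)))))) q80930 (by decide +kernel)
def q80963 : Q := Q.p (nat_lit 0xc00006000008000020000080000000000000000000000000000000000000000000000) (nat_lit 0x300018000010000000000000000700001c00005000000000000000000000000000000) (nat_lit 7)
theorem c80963 : QOK q80963 := cut [q80961] ⟨c80961, trivial⟩ (nd (nat_lit 272) (nat_lit 0) (cs (lf (nat_lit 13) (nat_lit 250)) (nd (nat_lit 255) (nat_lit 0) (cs (lf (nat_lit 6) (nat_lit 252)) (rf (nat_lit 0)))))) q80963 (by decide +kernel)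
def q80975 : Q := Q.p (nat_lit 0x200000c000030000000000000000000000000000000000000000000000000000000000) (nat_lit 0x300000c00001000000000000000180000600001800000000000000000000000000000000000000000) (nat_lit 6)
theorem c80975 : QOK q80975 := cut [q80974] ⟨c80974, trivial⟩ (nd (nat_lit 299) (nat_lit 0) (cs (lf (nat_lit 42) (nat_lit 232)) (rf (nat_lit 0)))) q80975 (by decide +kernel)
def q80988 : Q := Q.p (nat_lit 0x400007000010000000000000000000000000000000000000000000000000000000000) (nat_lit 0x1000008000080000ef8000380000e0000180000000000000000000000000000000000000000) (nat_lit 7)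
theorem c80988 : QOK q80988 := cut [q79116, q80981, q79028, q80985, q79097, q79997] ⟨c79116, c80981, c79028, c80985, c79097, c79997, trivial⟩ (nd (nat_lit 233) (nat_lit 0) (cs (rf (nat_lit 0)) (cs (rf (nat_lit 1)) (nd (nat_lit 230) (nat_lit 0) (cs (rf (nat_lit 2)) (cs (rf (nat_lit 3)) (nd (nat_lit 231) (nat_lit 0) (cs (rf (nat_lit 4)) (rf (nat_lit 5)))))))))) q80988 (by decide +kernel)
def q80998 : Q := Q.p (nat_lit 0x80000100000400007000000000000000000000000000000000000000000000000000000000000000) (nat_lit 0x38000060000080000b00000000006000018000060000000000000000000000000000000000000000000000) (nat_lit 8)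
theorem c80998 : QOK q80998 := cut [q80995] ⟨c80995, trivial⟩ (nd (nat_lit 318) (nat_lit 0) (cs (lf (nat_lit 29) (nat_lit 252)) (nd (nat_lit 275) (nat_lit 0) (cs (lf (nat_lit 30) (nat_lit 252)) (nd (nat_lit 272) (nat_lit 0) (cs (lf (nat_lit 13) (nat_lit 250)) (rf (nat_lit 0)))))))) q80998 (by decide +kernel)
def q81011 : Q := Q.p (nat_lit 0x100000400007000000000000000000000000000000000000000000000000000000000000000) (nat_lit 0xa0000280000a0000000000f0000380000a0000000000000000000000000000000000000000000000) (nat_lit 5)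
theorem c81011 : QOK q81011 := cut [q80653, q81007, q81010] ⟨c80653, c81007, c81010, trivial⟩ (nd (nat_lit 230) (nat_lit 0) (cs (rf (nat_lit 0)) (cs (rf (nat_lit 1)) (rf (nat_lit 2))))) q81011 (by decide +kernel)
def q81020 : Q := Q.p (nat_lit 0x400007000010000000000000000000000000000000000000000000000000000000000) (nat_lit 0x800006200008000060000040000100000000000000000000000000000000000000000000000) (nat_lit 5)
theorem c81020 : QOK q81020 := cut [q81019] ⟨c81019, trivial⟩ (nd (nat_lit 255) (nat_lit 0) (cs (lf (nat_lit 11) (nat_lit 251)) (rf (nat_lit 0)))) q81020 (by decide +kernel)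
def q81030 : Q := Q.p (nat_lit 0xf000010000000000000000000000000000000000000000000000000000000000) (nat_lit 0x200000800007600000000006000040000100000000000000000000000000000000000000000000000) (nat_lit 6)
theorem c81030 : QOK q81030 := cut [q81028] ⟨c81028, trivial⟩ (nd (nat_lit 229) (nat_lit 0) (cs (lf (nat_lit 22) (nat_lit 229)) (nd (nat_lit 273) (nat_lit 0) (cs (lf (nat_lit 10) (nat_lit 251)) (rf (nat_lit 0)))))) q81030 (by decide +kernel)
def q81072 : Q := Q.p (nat_lit 0xe000000000000000000000000000000000000000000000000000000000000000) (nat_lit 0x400001c0000700001c0001f7000018001f80001c0000500001000000000000000000000000000000000000000000) (nat_lit 8)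
theorem c81072 : QOK q81072 := cut [q80763, q81055, q80777, q80802, q80805, q81058, q81061, q81064, q80811, q80814, q81070] ⟨c80763, c81055, c80777, c80802, c80805, c81058, c81061, c81064, c80811, c80814, c81070, trivial⟩ (nd (nat_lit 277) (nat_lit 0) (cs (rf (nat_lit 0)) (cs (rf (nat_lit 1)) (cs (nd (nat_lit 299) (nat_lit 0) (cs (rf (nat_lit 2)) (cs (rf (nat_lit 3)) (cs (rf (nat_lit 4)) (nd (nat_lit 320) (nat_lit 0) (cs (rf (nat_lit 5)) (cs (rf (nat_lit 6)) (rf (nat_lit 7))))))))) (nd (nat_lit 233) (nat_lit 0) (cs (rf (nat_lit 8)) (cs (rf (nat_lit 9)) (rf (nat_lit 10))))))))) q81072 (by decide +kernel)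
def q81087 : Q := Q.p (nat_lit 0xf000000000000000000000000000000000000000000000000000000000000000) (nat_lit 0x7000000c0003b800000000000000000000000000000000000000000000000000000000) (nat_lit 6)
theorem c81087 : QOK q81087 := cut [q81085] ⟨c81085, trivial⟩ (nd (nat_lit 277) (nat_lit 0) (cs (lf (nat_lit 5) (nat_lit 252)) (nd (nat_lit 251) (nat_lit 0) (cs (lf (nat_lit 4) (nat_lit 251)) (rf (nat_lit 0)))))) q81087 (by decide +kernel)
def q81178 : Q := Q.p (nat_lit 0xe000000000000000000000000000000000000000000000000000000000000000) (nat_lit 0x1f00007c0001f80003e000718001f80001f80007e0001e00005000000000000000000000000000000000000) (nat_lit 18)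
theorem c81178 : QOK q81178 := cut [q80811, q81101, q81106, q81120, q81126, q81128, q81134, q81135, q81141, q80335, q81147, q81149, q80393, q81154, q81100, q81164, q81174, q81176] ⟨c80811, c81101, c81106, c81120, c81126, c81128, c81134, c81135, c81141, c80335, c81147, c81149, c80393, c81154, c81100, c81164, c81174, c81176, trivial⟩ (nd (nat_lit 233) (nat_lit 0) (cs (rf (nat_lit 0)) (cs (rf (nat_lit 1)) (cs (nd (nat_lit 276) (nat_lit 0) (cs (nd (nat_lit 274) (nat_lit 0) (cs (nd (nat_lit 189) (nat_lit 0) (cs (nd (nat_lit 252) (nat_lit 0) (cs (lf (nat_lit 11) (nat_lit 251)) (nd (nat_lit 251) (nat_lit 0) (cs (lf (nat_lit 5) (nat_lit 251)) (lf (nat_lit 16) (nat_lit 229)))))) (lf (nat_lit 37) (nat_lit 188)))) (cs (nd (nat_lit 210) (nat_lit 0) (cs (nd (nat_lit 211) (nat_lit 0) (cs (lf (nat_lit 36) (nat_lit 188)) (rf (nat_lit 2)))) (cs (nd (nat_lit 275) (nat_lit 0) (cs (lf (nat_lit 6) (nat_lit 252)) (rf (nat_lit 3)))) (cs (nd (nat_lit 275) (nat_lit 0) (cs (lf (nat_lit 6) (nat_lit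 252)) (rf (nat_lit 4)))) (nd (nat_lit 275) (nat_lit 0) (cs (lf (nat_lit 6) (nat_lit 252)) (rf (nat_lit 5)))))))) (nd (nat_lit 275) (nat_lit 0) (cs (lf (nat_lit 6) (nat_lit 252)) (lf (nat_lit 12) (nat_lit 251))))))) (cs (rf (nat_lit 6)) (cs (nd (nat_lit 232) (nat_lit 0) (cs (nd (nat_lit 298) (nat_lit 0) (cs (lf (nat_lit 30) (nat_lit 232)) (nd (nat_lit 299) (nat_lit 0) (cs (lf (nat_lit 29) (nat_lit 232)) (nd (nat_lit 210) (nat_lit 0) (cs (lf (nat_lit 28) (nat_lit 210)) (rf (nat_lit 7)))))))) (cs (nd (nat_lit 252) (nat_lit 0) (cs (lf (nat_lit 12) (nat_lit 229)) (rf (nat_lit 8)))) (nd (nat_lit 251) (nat_lit 0) (cs (lf (nat_lit 13) (nat_lit 229)) (nd (nat_lit 298) (nat_lit 0) (cs (rf (nat_lit 9)) (lf (nat_lit 30) (nat_lit 232))))))))) (cs (rf (nat_lit 10)) (rf (nat_lit 11))))))) (nd (nat_lit 211) (nat_lit 0) (cs (rf (nat_lit 12)) (cs (rf (nat_lit 13)) (cs (nd (nat_lit 234) (nat_lit 0) (cs (rf (nat_lit 14)) (nd (nat_lit 276) (nat_lit 0) (cs (nd (nat_lit 210) (nat_lit 0) (cs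 (rf (nat_lit 2)) (cs (nd (nat_lit 209) (nat_lit 0) (cs (lf (nat_lit 0) (nat_lit 208)) (nd (nat_lit 187) (nat_lit 0) (cs (lf (nat_lit 44) (nat_lit 187)) (lf (nat_lit 26) (nat_lit 187)))))) (nd (nat_lit 208) (nat_lit 0) (cs (lf (nat_lit 1) (nat_lit 208)) (nd (nat_lit 277) (nat_lit 0) (cs (lf (nat_lit 47) (nat_lit 188)) (nd (nat_lit 212) (nat_lit 0) (cs (lf (nat_lit 35) (nat_lit 189)) (lf (nat_lit 30) (nat_lit 211))))))))))) (cs (nd (nat_lit 298) (nat_lit 0) (cs (lf (nat_lit 30) (nat_lit 232)) (lf (nat_lit 39) (nat_lit 210)))) (rf (nat_lit 15))))))) (cs (rf (nat_lit 16)) (rf (nat_lit 17))))))))))) q81178 (by decide +kernel)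
def q81239 : Q := Q.p (nat_lit 0x200000800006000000000000000000000000000000000000000000000000000000000000000) (nat_lit 0x500001c0000500000000000000018000000000000000000000000000000000000000000000000000000000) (nat_lit 5)
theorem c81239 : QOK q81239 := cut [q21972] ⟨c21972, trivial⟩ (nd (nat_lit 319) (nat_lit 0) (cs (rf (nat_lit 0)) (lf (nat_lit 35) (nat_lit 231)))) q81239 (by decide +kernel)
def q81304 : Q := Q.p (nat_lit 0xe000000000000000000000000000000000000000000000000000000000000000) (nat_lit 0x20000080003fb80071c003fb800000000000000000000000000000000000000000000000000000000) (nat_lit 10)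
theorem c81304 : QOK q81304 := cut [q80536, q81094, q81298, q81303] ⟨c80536, c81094, c81298, c81303, trivial⟩ (nd (nat_lit 256) (nat_lit 0) (cs (rf (nat_lit 0)) (cs (rf (nat_lit 1)) (cs (rf (nat_lit 2)) (rf (nat_lit 3)))))) q81304 (by decide +kernel)
def q81318 : Q := Q.p (nat_lit 0x400007000000000000000000000000000000000000000000000000000000000000000) (nat_lit 0x10000620001800000e000020000080000000000000000000000000000000000000000000000) (nat_lit 6)
theorem c81318 : QOK q81318 := cut [q81316] ⟨c81316, trivial⟩ (nd (nat_lit 255) (nat_lit 0) (cs (lf (nat_lit 11) (nat_lit 251)) (nd (nat_lit 277) (nat_lit 0) (cs (lf (nat_lit 5) (nat_lit 252)) (rf (nat_lit 0)))))) q81318 (by decide +kernel)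
def q81321 : Q := Q.p (nat_lit 0x80000100000400001000000000000000000000000000000000000000000000000000000000000000) (nat_lit 0x20000280000200000000006000018000020000000000000000000000000000000000000000000000) (nat_lit 5)
theorem c81321 : QOK q81321 := cut [q81320] ⟨c81320, trivial⟩ (nd (nat_lit 230) (nat_lit 0) (cs (lf (nat_lit 28) (nat_lit 230)) (rf (nat_lit 0)))) q81321 (by decide +kernel)
def q81334 : Q := Q.p (nat_lit 0x400003000004000000000000000000000000000000000000000000000000000000000) (nat_lit 0x200000c00003000008000000000080000380000e0000280000000000000000000000000000000000000000) (nat_lit 7)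
theorem c81334 : QOK q81334 := cut [q79045, q80649, q81333] ⟨c79045, c80649, c81333, trivial⟩ (nd (nat_lit 296) (nat_lit 0) (cs (rf (nat_lit 0)) (cs (rf (nat_lit 1)) (rf (nat_lit 2))))) q81334 (by decide +kernel)
def q81340 : Q := Q.p (nat_lit 0x7000000000000000000000000000000000000000000000000000000000000000) (nat_lit 0x7b80008c00007800000000000000000000000000000000000000000000000000000000) (nat_lit 6)
theorem c81340 : QOK q81340 := cut [q79009, q79024, q79201, q81339] ⟨c79009, c79024, c79201, c81339, trivial⟩ (nd (nat_lit 251) (nat_lit 0) (cs (rf (nat_lit 0)) (cs (rf (nat_lit 1)) (cs (rf (nat_lit 2)) (rf (nat_lit 3)))))) q81340 (by decide +kernel)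
def q81341 : Q := Q.p (nat_lit 0x1000003800000000000000000000000000000000000000000000000000000000000000) (nat_lit 0x80000060001dc00000000000000000000000000000000000000000000000000000000) (nat_lit 5)
theorem c81341 : QOK q81341 := cut [q12247] ⟨c12247, trivial⟩ (nd (nat_lit 250) (nat_lit 0) (cs (rf (nat_lit 0)) (lf (nat_lit 4) (nat_lit 250)))) q81341 (by decide +kernel)
def q81379 : Q := Q.p (nat_lit 0x800007000004000000000000000000000000000000000000000000000000000000000) (nat_lit 0x80000200001d000074000188000180000780001e0000200000800000000000000000000000000000000000) (nat_lit 10)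
theorem c81379 : QOK q81379 := cut [q81354, q81355, q10803, q81363, q81370] ⟨c81354, c81355, c10803, c81363, c81370, trivial⟩ (nd (nat_lit 277) (nat_lit 0) (cs (rf (nat_lit 0)) (cs (nd (nat_lit 186) (nat_lit 0) (cs (nd (nat_lit 255) (nat_lit 0) (cs (lf (nat_lit 5) (nat_lit 252)) (rf (nat_lit 1)))) (lf (nat_lit 25) (nat_lit 186)))) (nd (nat_lit 209) (nat_lit 0) (cs (nd (nat_lit 208) (nat_lit 0) (cs (lf (nat_lit 24) (nat_lit 186)) (rf (nat_lit 2)))) (cs (nd (nat_lit 276) (nat_lit 0) (cs (lf (nat_lit 0) (nat_lit 251)) (nd (nat_lit 208) (nat_lit 0) (cs (lf (nat_lit 24) (nat_lit 186)) (nd (nat_lit 274) (nat_lit 0) (cs (lf (nat_lit 35) (nat_lit 186)) (nd (nat_lit 185) (nat_lit 0) (cs (lf (nat_lit 46) (nat_lit 185)) (rf (nat_lit 3)))))))))) (cs (nd (nat_lit 276) (nat_lit 0) (cs (lf (nat_lit 0) (nat_lit 251)) (nd (nat_lit 231) (nat_lit 0) (cs (lf (nat_lit 29) (nat_lit 209)) (nd (nat_lit 255) (nat_lit 0) (cs (lf (nat_lit 18) (nat_lit 230)) (nd (nat_lit 274) (nat_lit 0) (cs (lf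 (nat_lit 30) (nat_lit 208)) (nd (nat_lit 188) (nat_lit 0) (cs (lf (nat_lit 34) (nat_lit 187)) (rf (nat_lit 4)))))))))))) (nd (nat_lit 276) (nat_lit 0) (cs (lf (nat_lit 0) (nat_lit 251)) (nd (nat_lit 231) (nat_lit 0) (cs (lf (nat_lit 29) (nat_lit 209)) (lf (nat_lit 24) (nat_lit 187))))))))))))) q81379 (by decide +kernel)
def q81385 : Q := Q.p (nat_lit 0x80000300000c000000000000000000000000000000000000000000000000000000000) (nat_lit 0x80000200000400000000010000060000180000200000000000000000000000000000000000000000) (nat_lit 5)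
theorem c81385 : QOK q81385 := cut [q81384] ⟨c81384, trivial⟩ (nd (nat_lit 297) (nat_lit 0) (cs (lf (nat_lit 42) (nat_lit 230)) (rf (nat_lit 0)))) q81385 (by decide +kernel)
def q81394 : Q := Q.p (nat_lit 0x80000700000c000000000000000000000000000000000000000000000000000000000) (nat_lit 0xc0000300007400018e00000000060000180000600000000000000000000000000000000000000000) (nat_lit 10)
theorem c81394 : QOK q81394 := cut [q81390] ⟨c81390, trivial⟩ (nd (nat_lit 255) (nat_lit 0) (cs (lf (nat_lit 18) (nat_lit 230)) (nd (nat_lit 277) (nat_lit 0) (cs (lf (nat_lit 5) (nat_lit 252)) (nd (nat_lit 251) (nat_lit 0) (cs (lf (nat_lit 4) (nat_lit 251)) (nd (nat_lit 249) (nat_lit 0) (cs (lf (nat_lit 13) (nat_lit 227)) (rf (nat_lit 0)))))))))) q81394 (by decide +kernel)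
def q81447 : Q := Q.p (nat_lit 0x400001000007000000000000000000000000000000000000000000000000000000000000000) (nat_lit 0x200000e0000380000a000028000000000140000c0000300000800000000000000000000000000000000000000000) (nat_lit 7)
theorem c81447 : QOK q81447 := cut [q81435, q81438, q81442, q81446] ⟨c81435, c81438, c81442, c81446, trivial⟩ (nd (nat_lit 319) (nat_lit 0) (cs (rf (nat_lit 0)) (cs (rf (nat_lit 1)) (cs (rf (nat_lit 2)) (rf (nat_lit 3)))))) q81447 (by decide +kernel)
def q81453 : Q := Q.p (nat_lit 0x400001400007800000000000000000000000000000000000000000000000000000000000000) (nat_lit 0x200008c0000b00000000004000010000000000000000000000000000000000000000000000000000) (nat_lit 5)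
theorem c81453 : QOK q81453 := cut [q81452] ⟨c81452, trivial⟩ (nd (nat_lit 273) (nat_lit 0) (cs (lf (nat_lit 11) (nat_lit 250)) (rf (nat_lit 0)))) q81453 (by decide +kernel)
def q81472 : Q := Q.p (nat_lit 0x1000007000008000020000000000000000000000000000000000000000000000000000) (nat_lit 0x200000c00003c0000f00000c00014000050000140000000000000000000000000000000000000000000000) (nat_lit 8)
theorem c81472 : QOK q81472 := cut [q80845, q81466, q81471] ⟨c80845, c81466, c81471, trivial⟩ (nd (nat_lit 275) (nat_lit 0) (cs (rf (nat_lit 0)) (cs (rf (nat_lit 1)) (rf (nat_lit 2))))) q81472 (by decide +kernel)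
def q81492 : Q := Q.p (nat_lit 0x7800000000000000000000000000000000000000000000000000000000000000) (nat_lit 0x38001860001e000000000000000000000000000000000000000000000000000000000) (nat_lit 6)
theorem c81492 : QOK q81492 := cut [q81490] ⟨c81490, trivial⟩ (nd (nat_lit 272) (nat_lit 0) (cs (lf (nat_lit 10) (nat_lit 250)) (nd (nat_lit 250) (nat_lit 0) (cs (lf (nat_lit 11) (nat_lit 249)) (rf (nat_lit 0)))))) q81492 (by decide +kernel)
def q81494 : Q := Q.p (nat_lit 0x7800000000000000000000000000000000000000000000000000000000000000) (nat_lit 0x380001860001e000000000000000000000000000000000000000000000000000000000) (nat_lit 6)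
theorem c81494 : QOK q81494 := cut [q81490] ⟨c81490, trivial⟩ (nd (nat_lit 276) (nat_lit 0) (cs (lf (nat_lit 5) (nat_lit 251)) (nd (nat_lit 250) (nat_lit 0) (cs (lf (nat_lit 4) (nat_lit 250)) (rf (nat_lit 0)))))) q81494 (by decide +kernel)
def q81509 : Q := Q.p (nat_lit 0x200000e000020000080000000000000000000000000000000000000000000000000000) (nat_lit 0xe0000d8000000000d0000170000580000000000000000000000000000000000000000000000) (nat_lit 9)
theorem c81509 : QOK q81509 := cut [q81504] ⟨c81504, trivial⟩ (nd (nat_lit 276) (nat_lit 0) (cs (lf (nat_lit 41) (nat_lit 210)) (nd (nat_lit 278) (nat_lit 0) (cs (lf (nat_lit 18) (nat_lit 253)) (nd (nat_lit 190) (nat_lit 0) (cs (lf (nat_lit 34) (nat_lit 189)) (nd (nat_lit 210) (nat_lit 0) (cs (lf (nat_lit 47) (nat_lit 188)) (nd (nat_lit 232) (nat_lit 0) (cs (lf (nat_lit 29) (nat_lit 210)) (rf (nat_lit 0)))))))))))) q81509 (by decide +kernel)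
def q81567 : Q := Q.p (nat_lit 0xe000000000000000000000000000000000000000000000000000000000000000) (nat_lit 0x3bb80071c001ff000000000000000000000000000000000000000000000000000000000) (nat_lit 8)
theorem c81567 : QOK q81567 := cut [q81557] ⟨c81557, trivial⟩ (nd (nat_lit 230) (nat_lit 0) (cs (nd (nat_lit 252) (nat_lit 0) (cs (lf (nat_lit 23) (nat_lit 229)) (rf (nat_lit 0)))) (cs (nd (nat_lit 229) (nat_lit 0) (cs (lf (nat_lit 21) (nat_lit 229)) (nd (nat_lit 231) (nat_lit 0) (cs (lf (nat_lit 18) (nat_lit 230)) (lf (nat_lit 0) (nat_lit 228)))))) (nd (nat_lit 256) (nat_lit 0) (cs (lf (nat_lit 22) (nat_lit 230)) (nd (nat_lit 235) (nat_lit 0) (cs (lf (nat_lit 16) (nat_lit 231)) (nd (nat_lit 257) (nat_lit 0) (cs (lf (nat_lit 17) (nat_lit 232)) (nd (nat_lit 280) (nat_lit 0) (cs (lf (nat_lit 4) (nat_lit 254)) (nd (nat_lit 276) (nat_lit 0) (cs (lf (nat_lit 11) (nat_lit 253)) (nd (nat_lit 258) (nat_lit 0) (cs (lf (nat_lit 5) (nat_lit 255)) (lf (nat_lit 10) (nat_lit 254)))))))))))))))))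 q81567 (by decide +kernel)
def q81589 : Q := Q.p (nat_lit 0x80000e000008000020000000000000000000000000000000000000000000000000000) (nat_lit 0x4000010000000000778000dc000378000000000000000000000000000000000000000000000) (nat_lit 10)
theorem c81589 : QOK q81589 := cut [q15485, q22155] ⟨c15485, c22155, trivial⟩ (nd (nat_lit 208) (nat_lit 0) (cs (lf (nat_lit 47) (nat_lit 186)) (nd (nat_lit 233) (nat_lit 0) (cs (rf (nat_lit 0)) (cs (nd (nat_lit 276) (nat_lit 0) (cs (lf (nat_lit 29) (nat_lit 209)) (nd (nat_lit 210) (nat_lit 0) (cs (lf (nat_lit 35) (nat_lit 187)) (nd (nat_lit 211) (nat_lit 0) (cs (lf (nat_lit 5) (nat_lit 208)) (lf (nat_lit 36) (nat_lit 188)))))))) (nd (nat_lit 276) (nat_lit 0) (cs (lf (nat_lit 29) (nat_lit 209)) (nd (nat_lit 189) (nat_lit 0) (cs (lf (nat_lit 37) (nat_lit 188)) (nd (nat_lit 210) (nat_lit 0) (cs (lf (nat_lit 35) (nat_lit 187)) (rf (nat_lit 1))))))))))))) q81589 (by decide +kernel)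
def q81643 : Q := Q.p (nat_lit 0xf000000000000000000000000000000000000000000000000000000000000000) (nat_lit 0x1ce000700003f0000000000000000000000000000000000000000000000000000000000) (nat_lit 8)
theorem c81643 : QOK q81643 := cut [q81641] ⟨c81641, trivial⟩ (nd (nat_lit 233) (nat_lit 0) (cs (lf (nat_lit 17) (nat_lit 230)) (nd (nat_lit 274) (nat_lit 0) (cs (lf (nat_lit 11) (nat_lit 251)) (rf (nat_lit 0)))))) q81643 (by decide +kernel)
def q81651 : Q := Q.p (nat_lit 0xc00007000004000010000000000000000000000000000000000000000000000000000) (nat_lit 0x50000100000000001b0001e0000780000000000000000000000000000000000000000000000) (nat_lit 8)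
theorem c81651 : QOK q81651 := cut [q81648] ⟨c81648, trivial⟩ (nd (nat_lit 209) (nat_lit 0) (cs (lf (nat_lit 35) (nat_lit 186)) (nd (nat_lit 231) (nat_lit 0) (cs (lf (nat_lit 30) (nat_lit 208)) (nd (nat_lit 228) (nat_lit 0) (cs (lf (nat_lit 1) (nat_lit 228)) (rf (nat_lit 0)))))))) q81651 (by decide +kernel)
def q81660 : Q := Q.p (nat_lit 0x7000000000000000000000000000000000000000000000000000000000000000) (nat_lit 0x780008c0007b800000000000000000000000000000000000000000000000000000000) (nat_lit 5)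
theorem c81660 : QOK q81660 := cut [q79020, q79201, q81085] ⟨c79020, c79201, c81085, trivial⟩ (nd (nat_lit 251) (nat_lit 0) (cs (rf (nat_lit 0)) (cs (rf (nat_lit 1)) (rf (nat_lit 2))))) q81660 (by decide +kernel)
def q81661 : Q := Q.p (nat_lit 0x7000000000000000000000000000000000000000000000000000000000000000) (nat_lit 0x380008c0007f800000000000000000000000000000000000000000000000000000000) (nat_lit 5)
theorem c81661 : QOK q81661 := cut [q79013, q79201, q79260] ⟨c79013, c79201, c79260, trivial⟩ (nd (nat_lit 251) (nat_lit 0) (cs (rf (nat_lit 0)) (cs (rf (nat_lit 1)) (rf (nat_lit 2))))) q81661 (by decide +kernel)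
def q81704 : Q := Q.p (nat_lit 0x800007000010000000000000000000000000000000000000000000000000000000000) (nat_lit 0xf80003e0000dc0001700008c0000c0000f00003c0000200000800000000000000000000000000000000000) (nat_lit 16)
theorem c81704 : QOK q81704 := cut [q81679, q81681, q81693, q81699, q15503] ⟨c81679, c81681, c81693, c81699, c15503, trivial⟩ (nd (nat_lit 273) (nat_lit 0) (cs (nd (nat_lit 188) (nat_lit 0) (cs (lf (nat_lit 37) (nat_lit 187)) (rf (nat_lit 0)))) (cs (nd (nat_lit 209) (nat_lit 0) (cs (rf (nat_lit 1)) (cs (nd (nat_lit 274) (nat_lit 0) (cs (lf (nat_lit 6) (nat_lit 251)) (rf (nat_lit 2)))) (cs (nd (nat_lit 274) (nat_lit 0) (cs (lf (nat_lit 6) (nat_lit 251)) (rf (nat_lit 3)))) (nd (nat_lit 274) (nat_lit 0) (cs (rf (nat_lit 4)) (lf (nat_lit 6) (nat_lit 251)))))))) (nd (nat_lit 274) (nat_lit 0) (cs (lf (nat_lit 12) (nat_lit 250)) (lf (nat_lit 6) (nat_lit 251))))))) q81704 (by decide +kernel)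
def q81707 : Q := Q.p (nat_lit 0x800006000018000000000000000000000000000000000000000000000000000000000) (nat_lit 0x180000600001000000000004000030000040000000000000000000000000000000000000000000000) (nat_lit 5)
theorem c81707 : QOK q81707 := cut [q81706] ⟨c81706, trivial⟩ (nd (nat_lit 297) (nat_lit 0) (cs (lf (nat_lit 30) (nat_lit 231)) (rf (nat_lit 0)))) q81707 (by decide +kernel)
def q81711 : Q := Q.p (nat_lit 0x7000018000000000000000000000000000000000000000000000000000000000) (nat_lit 0x700038c00004000000000000000000000000000000000000000000000000000000000) (nat_lit 5)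
theorem c81711 : QOK q81711 := cut [q81710] ⟨c81710, trivial⟩ (nd (nat_lit 251) (nat_lit 0) (cs (lf (nat_lit 12) (nat_lit 228)) (rf (nat_lit 0)))) q81711 (by decide +kernel)
def q81716 : Q := Q.p (nat_lit 0x7800000000000000000000000000000000000000000000000000000000000000) (nat_lit 0x1dc0000600038000000000000000000000000000000000000000000000000000000000) (nat_lit 6)
theorem c81716 : QOK q81716 := cut [q81715] ⟨c81715, trivial⟩ (nd (nat_lit 232) (nat_lit 0) (cs (lf (nat_lit 17) (nat_lit 229)) (rf (nat_lit 0)))) q81716 (by decide +kernel)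
def q81725 : Q := Q.p (nat_lit 0x7000002000000000000000000000000000000000000000000000000000000000) (nat_lit 0x1dc000380000e4000000000000000000000000000000000000000000000000000000000) (nat_lit 7)
theorem c81725 : QOK q81725 := cut [q81724] ⟨c81724, trivial⟩ (nd (nat_lit 255) (nat_lit 0) (cs (lf (nat_lit 22) (nat_lit 229)) (rf (nat_lit 0)))) q81725 (by decide +kernel)
def q81737 : Q := Q.p (nat_lit 0x7800014000040000000000000000000000000000000000000000000000000000) (nat_lit 0x40000000000b00008c000020000080000000000000000000000000000000000000000) (nat_lit 5)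
theorem c81737 : QOK q81737 := cut [q81736] ⟨c81736, trivial⟩ (nd (nat_lit 229) (nat_lit 0) (cs (lf (nat_lit 23) (nat_lit 228)) (rf (nat_lit 0)))) q81737 (by decide +kernel)
def q81752 : Q := Q.p (nat_lit 0x7800000000000000000000000000000000000000000000000000000000000000) (nat_lit 0x80000200001ce0000700038e00000000000000000000000000000000000000000000000000000000) (nat_lit 9)
theorem c81752 : QOK q81752 := cut [q41783] ⟨c41783, trivial⟩ (nd (nat_lit 232) (nat_lit 0) (cs (lf (nat_lit 17) (nat_lit 229)) (nd (nat_lit 250) (nat_lit 0) (cs (lf (nat_lit 16) (nat_lit 228)) (nd (nat_lit 275) (nat_lit 0) (cs (lf (nat_lit 5) (nat_lit 250)) (nd (nat_lit 297) (nat_lit 0) (cs (rf (nat_lit 0)) (lf (nat_lit 30) (nat_lit 231)))))))))) q81752 (by decide +kernel)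
def q81764 : Q := Q.p (nat_lit 0x1000007000000000000000000000000000000000000000000000000000000000000000) (nat_lit 0x380001e00000e000008000f80000e0000200000800000000000000000000000000000000000000000) (nat_lit 7)
theorem c81764 : QOK q81764 := cut [q79118, q80344, q81763] ⟨c79118, c80344, c81763, trivial⟩ (nd (nat_lit 232) (nat_lit 0) (cs (rf (nat_lit 0)) (cs (rf (nat_lit 1)) (rf (nat_lit 2))))) q81764 (by decide +kernel)
def q81767 : Q := Q.p (nat_lit 0x7000000000000000000000000000000000000000000000000000000000000000) (nat_lit 0xff000188000e0000000000000000000000000000000000000000000000000000000000) (nat_lit 5)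
theorem c81767 : QOK q81767 := cut [q79217, q79223, q80576] ⟨c79217, c79223, c80576, trivial⟩ (nd (nat_lit 255) (nat_lit 0) (cs (rf (nat_lit 0)) (cs (rf (nat_lit 1)) (rf (nat_lit 2))))) q81767 (by decide +kernel)
def q81828 : Q := Q.p (nat_lit 0x10000140000f000000000000000000000000000000000000000000000000000000000000000) (nat_lit 0x2000018800068000000000700000c0000200000000000000000000000000000000000000000000000) (nat_lit 7)
theorem c81828 : QOK q81828 := cut [q81825] ⟨c81825, trivial⟩ (nd (nat_lit 233) (nat_lit 0) (cs (lf (nat_lit 17) (nat_lit 230)) (nd (nat_lit 189) (nat_lit 0) (cs (lf (nat_lit 37) (nat_lit 188)) (nd (nat_lit 277) (nat_lit 0) (cs (lf (nat_lit 5) (nat_lit 252)) (rf (nat_lit 0)))))))) q81828 (by decide +kernel)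
def q81867 : Q := Q.p (nat_lit 0xf000000000000000000000000000000000000000000000000000000000000000) (nat_lit 0x7000030c0003c000000000000000000000000000000000000000000000000000000000) (nat_lit 6)
theorem c81867 : QOK q81867 := cut [q81865] ⟨c81865, trivial⟩ (nd (nat_lit 277) (nat_lit 0) (cs (lf (nat_lit 5) (nat_lit 252)) (nd (nat_lit 251) (nat_lit 0) (cs (lf (nat_lit 4) (nat_lit 251)) (rf (nat_lit 0)))))) q81867 (by decide +kernel)
def q81868 : Q := Q.p (nat_lit 0x1000003800000000000000000000000000000000000000000000000000000000000000) (nat_lit 0x9c0000600001c00000000000000000000000000000000000000000000000000000000) (nat_lit 5)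
theorem c81868 : QOK q81868 := cut [q2065] ⟨c2065, trivial⟩ (nd (nat_lit 250) (nat_lit 0) (cs (rf (nat_lit 0)) (lf (nat_lit 4) (nat_lit 250)))) q81868 (by decide +kernel)
def q81875 : Q := Q.p (nat_lit 0xf000000000000000000000000000000000000000000000000000000000000000) (nat_lit 0x700030c0003c000000000000000000000000000000000000000000000000000000000) (nat_lit 6)
theorem c81875 : QOK q81875 := cut [q81865] ⟨c81865, trivial⟩ (nd (nat_lit 273) (nat_lit 0) (cs (lf (nat_lit 10) (nat_lit 251)) (nd (nat_lit 251) (nat_lit 0) (cs (lf (nat_lit 11) (nat_lit 250)) (rf (nat_lit 0)))))) q81875 (by decide +kernel)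
def q81882 : Q := Q.p (nat_lit 0x80000e000000000000000000000000000000000000000000000000000000000000000) (nat_lit 0x20000c40003000001c000040000100000000000000000000000000000000000000000000000) (nat_lit 6)
theorem c81882 : QOK q81882 := cut [q81880] ⟨c81880, trivial⟩ (nd (nat_lit 256) (nat_lit 0) (cs (lf (nat_lit 11) (nat_lit 252)) (nd (nat_lit 278) (nat_lit 0) (cs (lf (nat_lit 5) (nat_lit 253)) (rf (nat_lit 0)))))) q81882 (by decide +kernel)
def q81904 : Q := Q.p (nat_lit 0x800006000008000000000000000000000000000000000000000000000000000000000) (nat_lit 0x100001c00007000010000000000100000700001c0000500000000000000000000000000000000000000000) (nat_lit 7)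
theorem c81904 : QOK q81904 := cut [q81598, q81902] ⟨c81598, c81902, trivial⟩ (nd (nat_lit 297) (nat_lit 0) (cs (rf (nat_lit 0)) (nd (nat_lit 298) (nat_lit 0) (cs (lf (nat_lit 29) (nat_lit 231)) (rf (nat_lit 1)))))) q81904 (by decide +kernel)
def q81911 : Q := Q.p (nat_lit 0xf000000000000000000000000000000000000000000000000000000000000000) (nat_lit 0x700000c0003b800000000000000000000000000000000000000000000000000000000) (nat_lit 6)
theorem c81911 : QOK q81911 := cut [q81085] ⟨c81085, trivial⟩ (nd (nat_lit 273) (nat_lit 0) (cs (lf (nat_lit 10) (nat_lit 251)) (nd (nat_lit 251) (nat_lit 0) (cs (lf (nat_lit 11) (nat_lit 250)) (rf (nat_lit 0)))))) q81911 (by decide +kernel)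
def q81980 : Q := Q.p (nat_lit 0x300000e000010000040000000000000000000000000000000000000000000000000000) (nat_lit 0x4000000000018000280007a0000680000000000000000000000000000000000000000000000) (nat_lit 7)
theorem c81980 : QOK q81980 := cut [q81977] ⟨c81977, trivial⟩ (nd (nat_lit 251) (nat_lit 0) (cs (nd (nat_lit 187) (nat_lit 0) (cs (lf (nat_lit 46) (nat_lit 187)) (rf (nat_lit 0)))) (lf (nat_lit 1) (nat_lit 251)))) q81980 (by decide +kernel)
def q81997 : Q := Q.p (nat_lit 0x1800007000010000040000000000000000000000000000000000000000000000000000) (nat_lit 0x50000040000000000c00003c0000f0000000000000000000000000000000000000000000000) (nat_lit 7)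
theorem c81997 : QOK q81997 := cut [q81995] ⟨c81995, trivial⟩ (nd (nat_lit 209) (nat_lit 0) (cs (lf (nat_lit 47) (nat_lit 187)) (nd (nat_lit 231) (nat_lit 0) (cs (lf (nat_lit 29) (nat_lit 209)) (rf (nat_lit 0)))))) q81997 (by decide +kernel)
def q82032 : Q := Q.p (nat_lit 0x400001000014000018000000000000000000000000000000000000000000000000000) (nat_lit 0x9c0002600009c000000000000000000000000000000000000000000000) (nat_lit 6)
theorem c82032 : QOK q82032 := cut [q11133] ⟨c11133, trivial⟩ (nd (nat_lit 209) (nat_lit 0) (cs (lf (nat_lit 35) (nat_lit 186)) (rf (nat_lit 0)))) q82032 (by decide +kernel)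
def q82109 : Q := Q.p (nat_lit 0xe000000000000000000000000000000000000000000000000000000000000000) (nat_lit 0x100003f80031e0001f800020000080000000000000000000000000000000000000000000000) (nat_lit 8)
theorem c82109 : QOK q82109 := cut [q80548, q81986, q82070, q82100, q82108] ⟨c80548, c81986, c82070, c82100, c82108, trivial⟩ (nd (nat_lit 252) (nat_lit 0) (cs (rf (nat_lit 0)) (cs (rf (nat_lit 1)) (cs (rf (nat_lit 2)) (cs (nd (nat_lit 273) (nat_lit 0) (cs (lf (nat_lit 10) (nat_lit 251)) (nd (nat_lit 251) (nat_lit 0) (cs (lf (nat_lit 11) (nat_lit 250)) (rf (nat_lit 3)))))) (rf (nat_lit 4))))))) q82109 (by decide +kernel)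
def q82150 : Q := Q.p (nat_lit 0x100000f000020000080000000000000000000000000000000000000000000000000000) (nat_lit 0x40000100000e0000000001e0001780000c0000100000000000000000000000000000000000000000) (nat_lit 7)
theorem c82150 : QOK q82150 := cut [q80882, q82140] ⟨c80882, c82140, trivial⟩ (nd (nat_lit 231) (nat_lit 0) (cs (rf (nat_lit 0)) (cs (nd (nat_lit 230) (nat_lit 0) (cs (lf (nat_lit 23) (nat_lit 229)) (nd (nat_lit 273) (nat_lit 0) (cs (lf (nat_lit 10) (nat_lit 251)) (rf (nat_lit 1)))))) (cs (nd (nat_lit 230) (nat_lit 0) (cs (lf (nat_lit 23) (nat_lit 229)) (nd (nat_lit 187) (nat_lit 0) (cs (lf (nat_lit 25) (nat_lit 187)) (rf (nat_lit 1)))))) (nd (nat_lit 230) (nat_lit 0) (cs (lf (nat_lit 23) (nat_lit 229)) (nd (nat_lit 273) (nat_lit 0) (cs (lf (nat_lit 10) (nat_lit 251)) (nd (nat_lit 212) (nat_lit 0) (cs (lf (nat_lit 14) (nat_lit 208)) (nd (nat_lit 209) (nat_lit 0) (cs (lf (nat_lit 24) (nat_lit 187)) (lf (nat_lit 8) (nat_lit 208)))))))))))))) q82150 (by decide +kernel)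
def q82183 : Q := Q.p (nat_lit 0x3c0000c000000000000000000000000000000000000000000000000000000000) (nat_lit 0x400004000003800066000080000200000000000000000000000000000000000000000) (nat_lit 6)
theorem c82183 : QOK q82183 := cut [q82180] ⟨c82180, trivial⟩ (nd (nat_lit 228) (nat_lit 0) (cs (lf (nat_lit 23) (nat_lit 227)) (nd (nat_lit 229) (nat_lit 0) (cs (rf (nat_lit 0)) (lf (nat_lit 18) (nat_lit 228)))))) q82183 (by decide +kernel)
def q82203 : Q := Q.p (nat_lit 0x200007000010000000000000000000000000000000000000000000000000000000000) (nat_lit 0xe4000380001c8000000000000000000000000000000000000000000000000000000000) (nat_lit 6)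
theorem c82203 : QOK q82203 := cut [q82202] ⟨c82202, trivial⟩ (nd (nat_lit 255) (nat_lit 0) (cs (lf (nat_lit 10) (nat_lit 251)) (rf (nat_lit 0)))) q82203 (by decide +kernel)
def q82211 : Q := Q.p (nat_lit 0x200001800002000008000000000000000000000000000000000000000000000000000) (nat_lit 0x100000700001c0000100000000004000010000040000000000000000000000000000000000000000000000) (nat_lit 6)
theorem c82211 : QOK q82211 := cut [q82209] ⟨c82209, trivial⟩ (nd (nat_lit 294) (nat_lit 0) (cs (lf (nat_lit 40) (nat_lit 206)) (nd (nat_lit 186) (nat_lit 0) (cs (lf (nat_lit 34) (nat_lit 185)) (rf (nat_lit 0)))))) q82211 (by decide +kernel)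
def q82213 : Q := Q.p (nat_lit 0x400003000006000018000000000000000000000000000000000000000000000000000) (nat_lit 0x2000008000000000080000e0000380000000000000000000000000000000000000000000000) (nat_lit 5)
theorem c82213 : QOK q82213 := cut [q82212] ⟨c82212, trivial⟩ (nd (nat_lit 275) (nat_lit 0) (cs (lf (nat_lit 29) (nat_lit 208)) (rf (nat_lit 0)))) q82213 (by decide +kernel)
def q82224 : Q := Q.p (nat_lit 0x3000002000018000040000000000000000000000000000000000000000000000) (nat_lit 0x8000000000058000260003a0000280000000000000000000000000000000000000000) (nat_lit 7)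
theorem c82224 : QOK q82224 := cut [q6906] ⟨c6906, trivial⟩ (nd (nat_lit 230) (nat_lit 0) (cs (lf (nat_lit 29) (nat_lit 186)) (nd (nat_lit 227) (nat_lit 0) (cs (lf (nat_lit 1) (nat_lit 227)) (nd (nat_lit 163) (nat_lit 0) (cs (lf (nat_lit 25) (nat_lit 163)) (rf (nat_lit 0)))))))) q82224 (by decide +kernel)
def q82261 : Q := Q.p (nat_lit 0x7800000000000000000000000000000000000000000000000000000000000000) (nat_lit 0xee00018000070000000000000000000000000000000000000000000000000000000000) (nat_lit 6)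
theorem c82261 : QOK q82261 := cut [q82259] ⟨c82259, trivial⟩ (nd (nat_lit 233) (nat_lit 0) (cs (lf (nat_lit 16) (nat_lit 229)) (nd (nat_lit 255) (nat_lit 0) (cs (lf (nat_lit 17) (nat_lit 230)) (rf (nat_lit 0)))))) q82261 (by decide +kernel)
def q82272 : Q := Q.p (nat_lit 0x3c00000000000000000000000000000000000000000000000000000000000000) (nat_lit 0xa0000420001f8000760001c0000700000000000000000000000000000000000000000) (nat_lit 11)
theorem c82272 : QOK q82272 := cut [q82267] ⟨c82267, trivial⟩ (nd (nat_lit 231) (nat_lit 0) (cs (lf (nat_lit 17) (nat_lit 228)) (nd (nat_lit 230) (nat_lit 0) (cs (lf (nat_lit 12) (nat_lit 227)) (nd (nat_lit 228) (nat_lit 0) (cs (lf (nat_lit 23) (nat_lit 227)) (nd (nat_lit 229) (nat_lit 0) (cs (lf (nat_lit 18) (nat_lit 228)) (nd (nat_lit 205) (nat_lit 0) (cs (lf (nat_lit 22) (nat_lit 205)) (rf (nat_lit 0)))))))))))) q82272 (by decide +kernel)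
def q82286 : Q := Q.p (nat_lit 0xc00003800000000000000000000000000000000000000000000000000000000000000) (nat_lit 0x10000060000380004600002000008000000000000000000000000000000000000000000000000000) (nat_lit 6)
theorem c82286 : QOK q82286 := cut [q82285] ⟨c82285, trivial⟩ (nd (nat_lit 250) (nat_lit 0) (cs (lf (nat_lit 0) (nat_lit 249)) (rf (nat_lit 0)))) q82286 (by decide +kernel)
def q82295 : Q := Q.p (nat_lit 0x380000c000000000000000000000000000000000000000000000000000000000) (nat_lit 0x38001c600002000000000000000000000000000000000000000000000000000000000) (nat_lit 5)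
theorem c82295 : QOK q82295 := cut [q82294] ⟨c82294, trivial⟩ (nd (nat_lit 250) (nat_lit 0) (cs (lf (nat_lit 12) (nat_lit 227)) (rf (nat_lit 0)))) q82295 (by decide +kernel)
def q82296 : Q := Q.p (nat_lit 0x3c00008000000000000000000000000000000000000000000000000000000000) (nat_lit 0x38001c200006000000000000000000000000000000000000000000000000000000000) (nat_lit 5)
theorem c82296 : QOK q82296 := cut [q82294] ⟨c82294, trivial⟩ (nd (nat_lit 230) (nat_lit 0) (cs (lf (nat_lit 12) (nat_lit 227)) (rf (nat_lit 0)))) q82296 (by decide +kernel)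
def q82311 : Q := Q.p (nat_lit 0x3c00000000000000000000000000000000000000000000000000000000000000) (nat_lit 0xee000030001c000000000000000000000000000000000000000000000000000000000) (nat_lit 6)
theorem c82311 : QOK q82311 := cut [q82310] ⟨c82310, trivial⟩ (nd (nat_lit 231) (nat_lit 0) (cs (lf (nat_lit 17) (nat_lit 228)) (rf (nat_lit 0)))) q82311 (by decide +kernel)
def q82318 : Q := Q.p (nat_lit 0x800003000008000020000000000000000000000000000000000000000000000000000) (nat_lit 0x60000180000700000400000000010000040000100000000000000000000000000000000000000000000000) (nat_lit 6)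
theorem c82318 : QOK q82318 := cut [q82316] ⟨c82316, trivial⟩ (nd (nat_lit 210) (nat_lit 0) (cs (lf (nat_lit 35) (nat_lit 187)) (nd (nat_lit 274) (nat_lit 0) (cs (lf (nat_lit 41) (nat_lit 208)) (rf (nat_lit 0)))))) q82318 (by decide +kernel)
def q82345 : Q := Q.p (nat_lit 0x180000c000030000000000000000000000000000000000000000000000000000) (nat_lit 0x40000000003200000c000020000080000200000000000000000000000000000000000) (nat_lit 5)
theorem c82345 : QOK q82345 := cut [q82344] ⟨c82344, trivial⟩ (nd (nat_lit 232) (nat_lit 0) (cs (lf (nat_lit 6) (nat_lit 229)) (rf (nat_lit 0)))) q82345 (by decide +kernel)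
def q82368 : Q := Q.p (nat_lit 0x400003800008000000000000000000000000000000000000000000000000000000000) (nat_lit 0x10000040000bc0000600007c0007e0001f0000740001400000000000000000000000000000000000) (nat_lit 8)
theorem c82368 : QOK q82368 := cut [q82301, q2623, q82358, q82364, q82366] ⟨c82301, c2623, c82358, c82364, c82366, trivial⟩ (nd (nat_lit 209) (nat_lit 0) (cs (rf (nat_lit 0)) (nd (nat_lit 250) (nat_lit 0) (cs (rf (nat_lit 1)) (cs (nd (nat_lit 229) (nat_lit 0) (cs (nd (nat_lit 272) (nat_lit 0) (cs (lf (nat_lit 11) (nat_lit 249)) (nd (nat_lit 294) (nat_lit 0) (cs (lf (nat_lit 30) (nat_lit 228)) (nd (nat_lit 207) (nat_lit 0) (cs (lf (nat_lit 24) (nat_lit 185)) (lf (nat_lit 39) (nat_lit 206)))))))) (cs (nd (nat_lit 228) (nat_lit 0) (cs (lf (nat_lit 23) (nat_lit 227)) (rf (nat_lit 2)))) (rf (nat_lit 3))))) (rf (nat_lit 4))))))) q82368 (by decide +kernel)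
def q82387 : Q := Q.p (nat_lit 0x3c00000000000000000000000000000000000000000000000000000000000000) (nat_lit 0x40000180004000003800008000020000000000000000000000000000000000000000000000) (nat_lit 5)
theorem c82387 : QOK q82387 := cut [q82386] ⟨c82386, trivial⟩ (nd (nat_lit 228) (nat_lit 0) (cs (lf (nat_lit 23) (nat_lit 227)) (rf (nat_lit 0)))) q82387 (by decide +kernel)
def q82393 : Q := Q.p (nat_lit 0x3c00008000000000000000000000000000000000000000000000000000000000) (nat_lit 0x40000100000e70000380004700000000000000000000000000000000000000000000000000000000) (nat_lit 8)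
theorem c82393 : QOK q82393 := cut [q40776] ⟨c40776, trivial⟩ (nd (nat_lit 249) (nat_lit 0) (cs (lf (nat_lit 16) (nat_lit 227)) (nd (nat_lit 274) (nat_lit 0) (cs (lf (nat_lit 5) (nat_lit 249)) (nd (nat_lit 296) (nat_lit 0) (cs (lf (nat_lit 30) (nat_lit 230)) (rf (nat_lit 0)))))))) q82393 (by decide +kernel)
def q82544 : Q := Q.p (nat_lit 0x40000080000200000800000000000000000000000000000000000000000000000000000000000000) (nat_lit 0x1000014000010000000000300000c000010000000000000000000000000000000000000000000000) (nat_lit 5)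
theorem c82544 : QOK q82544 := cut [q82543] ⟨c82543, trivial⟩ (nd (nat_lit 229) (nat_lit 0) (cs (lf (nat_lit 28) (nat_lit 229)) (rf (nat_lit 0)))) q82544 (by decide +kernel)
def q82592 : Q := Q.p (nat_lit 0x200001800002000000000000000000000000000000000000000000000000000000000) (nat_lit 0x400001c0000700001c000040000000000000001c000070000140000000000000000000000000000000000000000) (nat_lit 7)
theorem c82592 : QOK q82592 := cut [q80587, q82405, q82588, q82591] ⟨c80587, c82405, c82588, c82591, trivial⟩ (nd (nat_lit 295) (nat_lit 0) (cs (rf (nat_lit 0)) (cs (rf (nat_lit 1)) (cs (rf (nat_lit 2)) (rf (nat_lit 3)))))) q82592 (by decide +kernel)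
def q82624 : Q := Q.p (nat_lit 0xe0000200000800002000000000000000000000000000000000000000000000000000000000) (nat_lit 0x4e0001100000e0000000001000004000000000000000000000000000000000000000000000000000) (nat_lit 6)
theorem c82624 : QOK q82624 := cut [q56375] ⟨c56375, trivial⟩ (nd (nat_lit 206) (nat_lit 0) (cs (lf (nat_lit 46) (nat_lit 206)) (rf (nat_lit 0)))) q82624 (by decide +kernel)
def q82638 : Q := Q.p (nat_lit 0x80000200001800000000000000000000000000000000000000000000000000000000000000) (nat_lit 0x500001c00007000010000040000000000300001c000070000100000000000000000000000000000000000000000) (nat_lit 7)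
theorem c82638 : QOK q82638 := cut [q82548, q82632, q82637] ⟨c82548, c82632, c82637, trivial⟩ (nd (nat_lit 318) (nat_lit 0) (cs (rf (nat_lit 0)) (cs (rf (nat_lit 1)) (rf (nat_lit 2))))) q82638 (by decide +kernel)
def q82678 : Q := Q.p (nat_lit 0x180000600001c00000000000000000000000000000000000000000000000000000000000000) (nat_lit 0x300003c0000260000000000300000000000000000000000000000000000000000000000000000000000000) (nat_lit 6)
theorem c82678 : QOK q82678 := cut [q45041] ⟨c45041, trivial⟩ (nd (nat_lit 318) (nat_lit 0) (cs (lf (nat_lit 42) (nat_lit 251)) (nd (nat_lit 248) (nat_lit 0) (cs (lf (nat_lit 1) (nat_lit 248)) (rf (nat_lit 0)))))) q82678 (by decide +kernel)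
def q82729 : Q := Q.p (nat_lit 0xf0000000000000001e00000000000000000000000000000000000000000000000000000000000000) (nat_lit 0x1f8000708001cc0000c00000000000000000000000000000000000000000000000000000000000000000000) (nat_lit 8)
theorem c82729 : QOK q82729 := cut [q43990, q82728] ⟨c43990, c82728, trivial⟩ (nd (nat_lit 320) (nat_lit 0) (cs (rf (nat_lit 0)) (cs (nd (nat_lit 294) (nat_lit 0) (cs (lf (nat_lit 22) (nat_lit 294)) (nd (nat_lit 274) (nat_lit 0) (cs (lf (nat_lit 5) (nat_lit 249)) (nd (nat_lit 299) (nat_lit 0) (cs (lf (nat_lit 16) (nat_lit 295)) (nd (nat_lit 321) (nat_lit 0) (cs (lf (nat_lit 17) (nat_lit 296)) (nd (nat_lit 340) (nat_lit 0) (cs (lf (nat_lit 11) (nat_lit 317)) (nd (nat_lit 341) (nat_lit 0) (cs (lf (nat_lit 6) (nat_lit 318)) (lf (nat_lit 0) (nat_lit 315)))))))))))))) (rf (nat_lit 1))))) q82729 (by decide +kernel)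
def q82748 : Q := Q.p (nat_lit 0xf0000000000000000000000000000000000000000000000000000000000000000000000000000000) (nat_lit 0x3fc0010e00001c000000000000000000000000000000000000000000000000000000000000000000000000) (nat_lit 7)
theorem c82748 : QOK q82748 := cut [q41746, q41867] ⟨c41746, c41867, trivial⟩ (nd (nat_lit 315) (nat_lit 0) (cs (rf (nat_lit 0)) (cs (rf (nat_lit 1)) (nd (nat_lit 340) (nat_lit 0) (cs (lf (nat_lit 5) (nat_lit 315)) (nd (nat_lit 338) (nat_lit 0) (cs (lf (nat_lit 11) (nat_lit 315)) (nd (nat_lit 339) (nat_lit 0) (cs (lf (nat_lit 6) (nat_lit 316)) (lf (nat_lit 0) (nat_lit 314))))))))))) q82748 (by decide +kernel)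
def q82814 : Q := Q.p (nat_lit 0x50000000000000003c00000000000000000000000000000000000000000000000000000000000000) (nat_lit 0x80000a00001f800058000000001a000020000080000000000000000000000000000000000000000000000) (nat_lit 9)
theorem c82814 : QOK q82814 := cut [q82809] ⟨c82809, trivial⟩ (nd (nat_lit 272) (nat_lit 0) (cs (lf (nat_lit 11) (nat_lit 249)) (nd (nat_lit 231) (nat_lit 0) (cs (lf (nat_lit 17) (nat_lit 228)) (nd (nat_lit 274) (nat_lit 0) (cs (lf (nat_lit 31) (nat_lit 230)) (nd (nat_lit 187) (nat_lit 0) (cs (lf (nat_lit 37) (nat_lit 186)) (nd (nat_lit 294) (nat_lit 0) (cs (lf (nat_lit 35) (nat_lit 228)) (rf (nat_lit 0)))))))))))) q82814 (by decide +kernel)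
def q82892 : Q := Q.p (nat_lit 0xc0000000000000003c00000000000000000000000000000000000000000000000000000000000000) (nat_lit 0x280000f00003c0001ff000338001ef0006d0001c200038c00040000100000000000000000000000000000000000000000000000) (nat_lit 15)
theorem c82892 : QOK q82892 := cut [q42205, q55425, q82840, q82841, q55392, q48059, q82877, q48005, q82891] ⟨c42205, c55425, c82840, c82841, c55392, c48059, c82877, c48005, c82891, trivial⟩ (nd (nat_lit 317) (nat_lit 0) (cs (nd (nat_lit 232) (nat_lit 0) (cs (lf (nat_lit 16) (nat_lit 228)) (nd (nat_lit 254) (nat_lit 0) (cs (lf (nat_lit 17) (nat_lit 229)) (nd (nat_lit 275) (nat_lit 0) (cs (lf (nat_lit 31) (nat_lit 231)) (nd (nat_lit 188) (nat_lit 0) (cs (lf (nat_lit 37) (nat_lit 187)) (nd (nat_lit 274) (nat_lit 0) (cs (lf (nat_lit 0) (nat_lit 249)) (nd (nat_lit 255) (nat_lit 0) (cs (lf (nat_lit 6) (nat_lit 252)) (nd (nat_lit 277) (nat_lit 0) (cs (lf (nat_lit 5) (nat_lit 252)) (nd (nat_lit 299) (nat_lit 0) (cs (lf (nat_lit 42) (nat_lit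 232)) (nd (nat_lit 320) (nat_lit 0) (cs (lf (nat_lit 16) (nat_lit 295)) (rf (nat_lit 0)))))))))))))))))))) (cs (nd (nat_lit 320) (nat_lit 0) (cs (rf (nat_lit 1)) (cs (nd (nat_lit 342) (nat_lit 0) (cs (lf (nat_lit 5) (nat_lit 317)) (nd (nat_lit 364) (nat_lit 0) (cs (rf (nat_lit 2)) (cs (nd (nat_lit 339) (nat_lit 0) (cs (lf (nat_lit 11) (nat_lit 316)) (nd (nat_lit 275) (nat_lit 0) (cs (lf (nat_lit 26) (nat_lit 253)) (nd (nat_lit 249) (nat_lit 0) (cs (lf (nat_lit 4) (nat_lit 249)) (nd (nat_lit 231) (nat_lit 0) (cs (lf (nat_lit 17) (nat_lit 228)) (nd (nat_lit 298) (nat_lit 0) (cs (lf (nat_lit 17) (nat_lit 295)) (nd (nat_lit 363) (nat_lit 0) (cs (lf (nat_lit 41) (nat_lit 297)) (nd (nat_lit 294) (nat_lit 0) (cs (lf (nat_lit 22) (nat_lit 294)) (nd (nat_lit 226) (nat_lit 0) (cs (lf (nat_lit 22) (nat_lit 226)) (rf (nat_lit 3)))))))))))))))))) (nd (nat_lit 338) (nat_lit 0) (cs (lf (nat_lit 10) (nat_lit 316)) (nd (nat_lit 231) (nat_lit 0) (cs (lf (nat_lit 17) (nat_lit 228)) (rf (nat_lit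 4))))))))))) (cs (nd (nat_lit 231) (nat_lit 0) (cs (lf (nat_lit 17) (nat_lit 228)) (nd (nat_lit 342) (nat_lit 0) (cs (lf (nat_lit 5) (nat_lit 317)) (nd (nat_lit 297) (nat_lit 0) (cs (lf (nat_lit 25) (nat_lit 253)) (nd (nat_lit 364) (nat_lit 0) (cs (lf (nat_lit 42) (nat_lit 297)) (nd (nat_lit 294) (nat_lit 0) (cs (lf (nat_lit 22) (nat_lit 294)) (nd (nat_lit 339) (nat_lit 0) (cs (lf (nat_lit 11) (nat_lit 316)) (nd (nat_lit 340) (nat_lit 0) (cs (lf (nat_lit 6) (nat_lit 317)) (nd (nat_lit 362) (nat_lit 0) (cs (lf (nat_lit 30) (nat_lit 296)) (rf (nat_lit 5)))))))))))))))))) (nd (nat_lit 299) (nat_lit 0) (cs (lf (nat_lit 16) (nat_lit 295)) (nd (nat_lit 294) (nat_lit 0) (cs (lf (nat_lit 22) (nat_lit 294)) (nd (nat_lit 338) (nat_lit 0) (cs (lf (nat_lit 10) (nat_lit 316)) (nd (nat_lit 321) (nat_lit 0) (cs (lf (nat_lit 17) (nat_lit 296)) (nd (nat_lit 232) (nat_lit 0) (cs (lf (nat_lit 16) (nat_lit 228)) (nd (nat_lit 254) (nat_lit 0) (cs (lf (nat_lit 17) (nat_lit 229)) (nd (nat_lit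 275) (nat_lit 0) (cs (lf (nat_lit 31) (nat_lit 231)) (nd (nat_lit 188) (nat_lit 0) (cs (lf (nat_lit 37) (nat_lit 187)) (nd (nat_lit 274) (nat_lit 0) (cs (lf (nat_lit 0) (nat_lit 249)) (nd (nat_lit 255) (nat_lit 0) (cs (lf (nat_lit 6) (nat_lit 252)) (lf (nat_lit 44) (nat_lit 232)))))))))))))))))))))))))) (cs (nd (nat_lit 232) (nat_lit 0) (cs (lf (nat_lit 16) (nat_lit 228)) (nd (nat_lit 254) (nat_lit 0) (cs (lf (nat_lit 17) (nat_lit 229)) (nd (nat_lit 297) (nat_lit 0) (cs (lf (nat_lit 32) (nat_lit 231)) (rf (nat_lit 6)))))))) (cs (nd (nat_lit 232) (nat_lit 0) (cs (lf (nat_lit 16) (nat_lit 228)) (nd (nat_lit 254) (nat_lit 0) (cs (lf (nat_lit 17) (nat_lit 229)) (nd (nat_lit 275) (nat_lit 0) (cs (lf (nat_lit 31) (nat_lit 231)) (nd (nat_lit 188) (nat_lit 0) (cs (lf (nat_lit 37) (nat_lit 187)) (nd (nat_lit 274) (nat_lit 0) (cs (lf (nat_lit 0) (nat_lit 249)) (nd (nat_lit 255) (nat_lit 0) (cs (lf (nat_lit 6) (nat_lit 252)) (nd (nat_lit 277) (nat_lit 0) (cs (lf (nat_lit 5) (nat_lit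 252)) (nd (nat_lit 299) (nat_lit 0) (cs (lf (nat_lit 42) (nat_lit 232)) (nd (nat_lit 320) (nat_lit 0) (cs (lf (nat_lit 16) (nat_lit 295)) (rf (nat_lit 7)))))))))))))))))))) (rf (nat_lit 8))))))) q82892 (by decide +kernel)
def q82964 : Q := Q.p (nat_lit 0xe0000200000800002000000000000000000000000000000000000000000000000000000000000000) (nat_lit 0x3cc000700001dc0000000004000010000000000000000000000000000000000000000000000000000000000) (nat_lit 9)
theorem c82964 : QOK q82964 := cut [q2605] ⟨c2605, trivial⟩ (nd (nat_lit 232) (nat_lit 0) (cs (rf (nat_lit 0)) (lf (nat_lit 34) (nat_lit 231)))) q82964 (by decide +kernel)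
def q83131 : Q := Q.p (nat_lit 0x10000000000000003c00000000000000000000000000000000000000000000000000000000000000) (nat_lit 0x500000c0000700001c0000200018c00000000000000000000000000000000000000000000000000000000) (nat_lit 8)
theorem c83131 : QOK q83131 := cut [q82777] ⟨c82777, trivial⟩ (nd (nat_lit 271) (nat_lit 0) (cs (lf (nat_lit 10) (nat_lit 249)) (nd (nat_lit 249) (nat_lit 0) (cs (lf (nat_lit 11) (nat_lit 248)) (nd (nat_lit 227) (nat_lit 0) (cs (lf (nat_lit 23) (nat_lit 226)) (nd (nat_lit 231) (nat_lit 0) (cs (lf (nat_lit 17) (nat_lit 228)) (rf (nat_lit 0)))))))))) q83131 (by decide +kernel)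
def q83194 : Q := Q.p (nat_lit 0x1e00000000000000078000000000000000000000000000000000000000000000) (nat_lit 0xc000000000000000370000000003f00003c0000700001c00005000000000000000000) (nat_lit 9)
theorem c83194 : QOK q83194 := cut [q18988, q19003] ⟨c18988, c19003, trivial⟩ (nd (nat_lit 161) (nat_lit 0) (cs (lf (nat_lit 23) (nat_lit 160)) (nd (nat_lit 139) (nat_lit 0) (cs (nd (nat_lit 204) (nat_lit 0) (cs (lf (nat_lit 10) (nat_lit 182)) (rf (nat_lit 0)))) (cs (nd (nat_lit 164) (nat_lit 0) (cs (lf (nat_lit 17) (nat_lit 161)) (nd (nat_lit 205) (nat_lit 0) (cs (lf (nat_lit 11) (nat_lit 182)) (nd (nat_lit 208) (nat_lit 0) (cs (lf (nat_lit 5) (nat_lit 183)) (nd (nat_lit 140) (nat_lit 0) (cs (lf (nat_lit 35) (nat_lit 117)) (nd (nat_lit 138) (nat_lit 0) (cs (lf (nat_lit 47) (nat_lit 116)) (nd (nat_lit 163) (nat_lit 0) (cs (lf (nat_lit 20) (nat_lit 138)) (lf (nat_lit 3) (nat_lit 138)))))))))))))) (cs (nd (nat_lit 274) (nat_lit 0) (cs (rf (nat_lit 1)) (lf (nat_lit 5) (nat_lit 249))))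 (nd (nat_lit 117) (nat_lit 0) (cs (lf (nat_lit 29) (nat_lit 117)) (nd (nat_lit 96) (nat_lit 0) (cs (lf (nat_lit 34) (nat_lit 95)) (nd (nat_lit 74) (nat_lit 0) (cs (lf (nat_lit 33) (nat_lit 73)) (nd (nat_lit 116) (nat_lit 0) (cs (lf (nat_lit 47) (nat_lit 94)) (nd (nat_lit 205) (nat_lit 0) (cs (lf (nat_lit 11) (nat_lit 182)) (lf (nat_lit 46) (nat_lit 116)))))))))))))))))) q83194 (by decide +kernel)
def q83283 : Q := Q.p (nat_lit 0x7c00010000000000030000000000000000000000000000000000000000000000) (nat_lit 0x88000220000dc00002000030000f38003cc000ff8002fe0001f00001c00005000000000000000000) (nat_lit 13)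
theorem c83283 : QOK q83283 := cut [q83207, q38594, q39506, q83196, q83234, q83238, q83242, q18986, q19002, q36584, q83271, q39096] ⟨c83207, c38594, c39506, c83196, c83234, c83238, c83242, c18986, c19002, c36584, c83271, c39096, trivial⟩ (nd (nat_lit 186) (nat_lit 0) (cs (rf (nat_lit 0)) (cs (nd (nat_lit 183) (nat_lit 0) (cs (rf (nat_lit 1)) (cs (rf (nat_lit 2)) (cs (rf (nat_lit 3)) (nd (nat_lit 164) (nat_lit 0) (cs (lf (nat_lit 17) (nat_lit 161)) (nd (nat_lit 161) (nat_lit 0) (cs (lf (nat_lit 23) (nat_lit 160)) (nd (nat_lit 139) (nat_lit 0) (cs (nd (nat_lit 271) (nat_lit 0) (cs (lf (nat_lit 10) (nat_lit 249)) (nd (nat_lit 228) (nat_lit 0) (cs (lf (nat_lit 22) (nat_lit 228)) (nd (nat_lit 208) (nat_lit 0) (cs (lf (nat_lit 5) (nat_lit 183)) (nd (nat_lit 205) (nat_lit 0) (cs (lf (nat_lit 11) (nat_lit 182)) (nd (nat_lit 138) (nat_lit 0) (cs (lf (nat_lit 47) (nat_lit 116)) (nd (nat_lit 163) (nat_lit 0) (cs (lf (nat_lit 20) (nat_lit 138)) (nd (nat_lit 141) (nat_lit 0) (cs (lf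 (nat_lit 24) (nat_lit 119)) (lf (nat_lit 2) (nat_lit 138)))))))))))))))) (cs (nd (nat_lit 119) (nat_lit 0) (cs (rf (nat_lit 4)) (nd (nat_lit 205) (nat_lit 0) (cs (lf (nat_lit 11) (nat_lit 182)) (rf (nat_lit 5)))))) (cs (nd (nat_lit 228) (nat_lit 0) (cs (lf (nat_lit 22) (nat_lit 228)) (nd (nat_lit 208) (nat_lit 0) (cs (lf (nat_lit 5) (nat_lit 183)) (nd (nat_lit 205) (nat_lit 0) (cs (lf (nat_lit 11) (nat_lit 182)) (rf (nat_lit 6)))))))) (cs (nd (nat_lit 117) (nat_lit 0) (cs (rf (nat_lit 7)) (cs (rf (nat_lit 8)) (nd (nat_lit 119) (nat_lit 0) (cs (rf (nat_lit 4)) (nd (nat_lit 271) (nat_lit 0) (cs (lf (nat_lit 10) (nat_lit 249)) (nd (nat_lit 249) (nat_lit 0) (cs (lf (nat_lit 11) (nat_lit 248)) (nd (nat_lit 116) (nat_lit 0) (cs (lf (nat_lit 47) (nat_lit 94)) (nd (nat_lit 118) (nat_lit 0) (cs (lf (nat_lit 35) (nat_lit 95)) (nd (nat_lit 138) (nat_lit 0) (cs (lf (nat_lit 11) (nat_lit 115)) (lf (nat_lit 6) (nat_lit 116))))))))))))))))) (nd (nat_lit 271) (nat_lit 0) (cs (lf (nat_lit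 10) (nat_lit 249)) (nd (nat_lit 249) (nat_lit 0) (cs (lf (nat_lit 11) (nat_lit 248)) (nd (nat_lit 205) (nat_lit 0) (cs (lf (nat_lit 11) (nat_lit 182)) (nd (nat_lit 274) (nat_lit 0) (cs (rf (nat_lit 9)) (lf (nat_lit 5) (nat_lit 249))))))))))))))))))))))) (cs (nd (nat_lit 228) (nat_lit 0) (cs (lf (nat_lit 22) (nat_lit 228)) (nd (nat_lit 271) (nat_lit 0) (cs (lf (nat_lit 10) (nat_lit 249)) (nd (nat_lit 249) (nat_lit 0) (cs (lf (nat_lit 11) (nat_lit 248)) (nd (nat_lit 293) (nat_lit 0) (cs (lf (nat_lit 30) (nat_lit 227)) (nd (nat_lit 275) (nat_lit 0) (cs (lf (nat_lit 4) (nat_lit 249)) (nd (nat_lit 297) (nat_lit 0) (cs (lf (nat_lit 30) (nat_lit 231)) (nd (nat_lit 210) (nat_lit 0) (cs (lf (nat_lit 36) (nat_lit 187)) (nd (nat_lit 209) (nat_lit 0) (cs (lf (nat_lit 3) (nat_lit 184)) (nd (nat_lit 208) (nat_lit 0) (cs (lf (nat_lit 0) (nat_lit 183)) (lf (nat_lit 18) (nat_lit 185)))))))))))))))))))) (cs (nd (nat_lit 183) (nat_lit 0) (cs (rf (nat_lit 1)) (cs (rf (nat_lit 2)) (nd (nat_lit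 271) (nat_lit 0) (cs (lf (nat_lit 10) (nat_lit 249)) (nd (nat_lit 249) (nat_lit 0) (cs (lf (nat_lit 11) (nat_lit 248)) (rf (nat_lit 10))))))))) (nd (nat_lit 183) (nat_lit 0) (cs (rf (nat_lit 1)) (cs (rf (nat_lit 2)) (cs (rf (nat_lit 3)) (nd (nat_lit 271) (nat_lit 0) (cs (lf (nat_lit 10) (nat_lit 249)) (nd (nat_lit 249) (nat_lit 0) (cs (lf (nat_lit 11) (nat_lit 248)) (nd (nat_lit 204) (nat_lit 0) (cs (lf (nat_lit 10) (nat_lit 182)) (nd (nat_lit 160) (nat_lit 0) (cs (lf (nat_lit 22) (nat_lit 160)) (nd (nat_lit 209) (nat_lit 0) (cs (nd (nat_lit 187) (nat_lit 0) (cs (lf (nat_lit 5) (nat_lit 184)) (rf (nat_lit 11)))) (lf (nat_lit 4) (nat_lit 183))))))))))))))))))))) q83283 (by decide +kernel)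
def q83313 : Q := Q.p (nat_lit 0x38000000000000000000000000000000000000000000000) (nat_lit 0x77c001c6000ffc000040000100000000000000000000000000000) (nat_lit 11)
theorem c83313 : QOK q83313 := cut [q17226, q83296, q83312] ⟨c17226, c83296, c83312, trivial⟩ (nd (nat_lit 182) (nat_lit 0) (cs (rf (nat_lit 0)) (cs (rf (nat_lit 1)) (rf (nat_lit 2))))) q83313 (by decide +kernel)
def q83351 : Q := Q.p (nat_lit 0x1e000000000000001e0000000000000000000000000000000000000000000000) (nat_lit 0xc000000000000000e0000010000e00000000000000000000000000000000000000000) (nat_lit 5)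
theorem c83351 : QOK q83351 := cut [q19291] ⟨c19291, trivial⟩ (nd (nat_lit 274) (nat_lit 0) (cs (rf (nat_lit 0)) (lf (nat_lit 5) (nat_lit 249)))) q83351 (by decide +kernel)
def q83370 : Q := Q.p (nat_lit 0x800006000000000000000e0000000000000000000000000000000000000000000000) (nat_lit 0x1000076000018000070000000000000000000000000000000000000000) (nat_lit 5)
theorem c83370 : QOK q83370 := cut [q83333, q83334] ⟨c83333, c83334, trivial⟩ (nd (nat_lit 184) (nat_lit 0) (cs (rf (nat_lit 0)) (rf (nat_lit 1)))) q83370 (by decide +kernel)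
def q83469 : Q := Q.p (nat_lit 0x80001e00000000000000034000000000000000000000000000000000000000000000) (nat_lit 0xc00000100000400073c001ca0001fc000060000100000400000000000000000000000) (nat_lit 11)
theorem c83469 : QOK q83469 := cut [q17226, q83296, q83459] ⟨c17226, c83296, c83459, trivial⟩ (nd (nat_lit 183) (nat_lit 0) (cs (rf (nat_lit 0)) (cs (rf (nat_lit 1)) (cs (rf (nat_lit 2)) (nd (nat_lit 163) (nat_lit 0) (cs (lf (nat_lit 17) (nat_lit 160)) (nd (nat_lit 274) (nat_lit 0) (cs (lf (nat_lit 5) (nat_lit 249)) (nd (nat_lit 159) (nat_lit 0) (cs (lf (nat_lit 22) (nat_lit 159)) (nd (nat_lit 204) (nat_lit 0) (cs (lf (nat_lit 11) (nat_lit 181)) (nd (nat_lit 226) (nat_lit 0) (cs (lf (nat_lit 27) (nat_lit 182)) (nd (nat_lit 186) (nat_lit 0) (cs (lf (nat_lit 10) (nat_lit 182)) (nd (nat_lit 209) (nat_lit 0) (cs (lf (nat_lit 4) (nat_lit 183)) (nd (nat_lit 187) (nat_lit 0) (cs (lf (nat_lit 5) (nat_lit 184)) (nd (nat_lit 162) (nat_lit 0) (cs (lf (nat_lit 23) (nat_lit 161)) (lf (nat_lit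 18) (nat_lit 162)))))))))))))))))))))))) q83469 (by decide +kernel)
def q83611 : Q := Q.p (nat_lit 0x7800000000000000000000000000000000000000000000000000000000000000) (nat_lit 0xe7000180000e0000000000000000000000000000000000000000000000000000000000) (nat_lit 6)
theorem c83611 : QOK q83611 := cut [q83610] ⟨c83610, trivial⟩ (nd (nat_lit 273) (nat_lit 0) (cs (lf (nat_lit 11) (nat_lit 250)) (rf (nat_lit 0)))) q83611 (by decide +kernel)
def q83618 : Q := Q.p (nat_lit 0x3800000000000000000000000000000000000000000000000000000000000000) (nat_lit 0x3c000460003bc00000000000000000000000000000000000000000000000000000000) (nat_lit 5)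
theorem c83618 : QOK q83618 := cut [q2623, q82187, q82718] ⟨c2623, c82187, c82718, trivial⟩ (nd (nat_lit 250) (nat_lit 0) (cs (rf (nat_lit 0)) (cs (rf (nat_lit 1)) (rf (nat_lit 2))))) q83618 (by decide +kernel)
def q83659 : Q := Q.p (nat_lit 0x1e00000000000000000000000000000000000000000000000000000000000000) (nat_lit 0xe70000180000700000000000000000000000000000000000000000000000000000000) (nat_lit 6)
theorem c83659 : QOK q83659 := cut [q40776] ⟨c40776, trivial⟩ (nd (nat_lit 274) (nat_lit 0) (cs (lf (nat_lit 5) (nat_lit 249)) (rf (nat_lit 0)))) q83659 (by decide +kernel)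
def q83684 : Q := Q.p (nat_lit 0x3800000000000000000000000000000000000000000000000000000000000000) (nat_lit 0x400007c000440003b800008000020000000000000000000000000000000000000000000000) (nat_lit 7)
theorem c83684 : QOK q83684 := cut [q83677, q83680, q81085] ⟨c83677, c83680, c81085, trivial⟩ (nd (nat_lit 272) (nat_lit 0) (cs (nd (nat_lit 250) (nat_lit 0) (cs (lf (nat_lit 11) (nat_lit 249)) (nd (nat_lit 231) (nat_lit 0) (cs (lf (nat_lit 17) (nat_lit 228)) (rf (nat_lit 0)))))) (cs (rf (nat_lit 1)) (cs (nd (nat_lit 254) (nat_lit 0) (cs (lf (nat_lit 10) (nat_lit 250)) (rf (nat_lit 2)))) (nd (nat_lit 271) (nat_lit 0) (cs (lf (nat_lit 9) (nat_lit 249)) (nd (nat_lit 273) (nat_lit 0) (cs (lf (nat_lit 12) (nat_lit 248)) (lf (nat_lit 15) (nat_lit 249)))))))))) q83684 (by decide +kernel)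
def q83704 : Q := Q.p (nat_lit 0xf000000000000000000000000000000000000000000000000000000000000000) (nat_lit 0x800006000000800070000040000100000000000000000000000000000000000000000000000) (nat_lit 5)
theorem c83704 : QOK q83704 := cut [q83703] ⟨c83703, trivial⟩ (nd (nat_lit 233) (nat_lit 0) (cs (lf (nat_lit 17) (nat_lit 230)) (rf (nat_lit 0)))) q83704 (by decide +kernel)
def q83714 : Q := Q.p (nat_lit 0x400003000004000010000000000000000000000000000000000000000000000000000) (nat_lit 0x10000000000c800003800008000020000000000000000000000000000000000000000000000) (nat_lit 5)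
theorem c83714 : QOK q83714 := cut [q83713] ⟨c83713, trivial⟩ (nd (nat_lit 207) (nat_lit 0) (cs (lf (nat_lit 47) (nat_lit 185)) (rf (nat_lit 0)))) q83714 (by decide +kernel)
def q83729 : Q := Q.p (nat_lit 0x400003000004000000000000000000000000000000000000000000000000000000000) (nat_lit 0x280000e0000380000e000038000080000c800003800008000000000000000000000000000000000000000000000000000) (nat_lit 10)
theorem c83729 : QOK q83729 := cut [q83719, q83724, q83728] ⟨c83719, c83724, c83728, trivial⟩ (nd (nat_lit 296) (nat_lit 0) (cs (nd (nat_lit 229) (nat_lit 0) (cs (lf (nat_lit 47) (nat_lit 207)) (nd (nat_lit 227) (nat_lit 0) (cs (lf (nat_lit 1) (nat_lit 227)) (nd (nat_lit 254) (nat_lit 0) (cs (lf (nat_lit 18) (nat_lit 229)) (rf (nat_lit 0)))))))) (cs (nd (nat_lit 297) (nat_lit 0) (cs (lf (nat_lit 29) (nat_lit 230)) (nd (nat_lit 295) (nat_lit 0) (cs (lf (nat_lit 41) (nat_lit 229)) (rf (nat_lit 1)))))) (rf (nat_lit 2))))) q83729 (by decide +kernel)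
def q83736 : Q := Q.p (nat_lit 0x400003000004000010000000000000000000000000000000000000000000000000000) (nat_lit 0x80000380000e00003800008000000000000000280000a0000000000000000000000000000000000000000000000) (nat_lit 8)
theorem c83736 : QOK q83736 := cut [q1337, q83728, q83732, q83735] ⟨c1337, c83728, c83732, c83735, trivial⟩ (nd (nat_lit 296) (nat_lit 0) (cs (rf (nat_lit 0)) (cs (rf (nat_lit 1)) (cs (nd (nat_lit 185) (nat_lit 0) (cs (lf (nat_lit 46) (nat_lit 185)) (rf (nat_lit 2)))) (rf (nat_lit 3)))))) q83736 (by decide +kernel)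
def q83813 : Q := Q.p (nat_lit 0x100000400003000004000000000000000000000000000000000000000000000000000000000) (nat_lit 0x4000070000bc0002f00009c0000f00003e000370003e40003e0000200000000000000000000000000000000000) (nat_lit 16)
theorem c83813 : QOK q83813 := cut [q41954, q2064, q69114, q58505, q44042, q59011, q83801, q83805] ⟨c41954, c2064, c69114, c58505, c44042, c59011, c83801, c83805, trivial⟩ (nd (nat_lit 297) (nat_lit 0) (cs (lf (nat_lit 29) (nat_lit 230)) (nd (nat_lit 295) (nat_lit 0) (cs (lf (nat_lit 41) (nat_lit 229)) (nd (nat_lit 271) (nat_lit 0) (cs (nd (nat_lit 294) (nat_lit 0) (cs (lf (nat_lit 22) (nat_lit 271)) (rf (nat_lit 0)))) (cs (nd (nat_lit 208) (nat_lit 0) (cs (lf (nat_lit 28) (nat_lit 208)) (nd (nat_lit 187) (nat_lit 0) (cs (lf (nat_lit 34) (nat_lit 186)) (nd (nat_lit 186) (nat_lit 0) (cs (lf (nat_lit 35) (nat_lit 164)) (nd (nat_lit 163) (nat_lit 0) (cs (lf (nat_lit 46) (nat_lit 163)) (nd (nat_lit 164) (nat_lit 0) (cs (lf (nat_lit 47) (nat_lit 141))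 (nd (nat_lit 161) (nat_lit 0) (cs (lf (nat_lit 1) (nat_lit 161)) (nd (nat_lit 188) (nat_lit 0) (cs (lf (nat_lit 18) (nat_lit 163)) (nd (nat_lit 251) (nat_lit 0) (cs (lf (nat_lit 40) (nat_lit 163)) (nd (nat_lit 250) (nat_lit 0) (cs (lf (nat_lit 10) (nat_lit 249)) (rf (nat_lit 1)))))))))))))))))))) (cs (nd (nat_lit 293) (nat_lit 0) (cs (nd (nat_lit 275) (nat_lit 0) (cs (lf (nat_lit 13) (nat_lit 271)) (lf (nat_lit 24) (nat_lit 208)))) (cs (nd (nat_lit 249) (nat_lit 0) (cs (nd (nat_lit 275) (nat_lit 0) (cs (lf (nat_lit 24) (nat_lit 208)) (nd (nat_lit 250) (nat_lit 0) (cs (lf (nat_lit 2) (nat_lit 249)) (rf (nat_lit 2)))))) (cs (nd (nat_lit 208) (nat_lit 0) (cs (lf (nat_lit 28) (nat_lit 208)) (nd (nat_lit 187) (nat_lit 0) (cs (lf (nat_lit 34) (nat_lit 186)) (nd (nat_lit 186) (nat_lit 0) (cs (lf (nat_lit 35) (nat_lit 164)) (nd (nat_lit 163) (nat_lit 0) (cs (lf (nat_lit 46) (nat_lit 163)) (nd (nat_lit 164) (nat_lit 0) (cs (lf (nat_lit 47) (nat_lit 141)) (nd (nat_lit 161) (nat_lit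 0) (cs (lf (nat_lit 1) (nat_lit 161)) (nd (nat_lit 188) (nat_lit 0) (cs (lf (nat_lit 18) (nat_lit 163)) (nd (nat_lit 251) (nat_lit 0) (cs (lf (nat_lit 40) (nat_lit 163)) (nd (nat_lit 250) (nat_lit 0) (cs (lf (nat_lit 11) (nat_lit 248)) (rf (nat_lit 3)))))))))))))))))))) (cs (nd (nat_lit 208) (nat_lit 0) (cs (lf (nat_lit 28) (nat_lit 208)) (nd (nat_lit 187) (nat_lit 0) (cs (lf (nat_lit 34) (nat_lit 186)) (nd (nat_lit 186) (nat_lit 0) (cs (lf (nat_lit 35) (nat_lit 164)) (nd (nat_lit 163) (nat_lit 0) (cs (lf (nat_lit 46) (nat_lit 163)) (nd (nat_lit 164) (nat_lit 0) (cs (lf (nat_lit 47) (nat_lit 141)) (nd (nat_lit 161) (nat_lit 0) (cs (lf (nat_lit 1) (nat_lit 161)) (nd (nat_lit 251) (nat_lit 0) (cs (lf (nat_lit 40) (nat_lit 163)) (nd (nat_lit 250) (nat_lit 0) (cs (lf (nat_lit 11) (nat_lit 248)) (rf (nat_lit 4)))))))))))))))))) (cs (nd (nat_lit 227) (nat_lit 0) (cs (rf (nat_lit 5)) (nd (nat_lit 228) (nat_lit 0) (cs (lf (nat_lit 2) (nat_lit 227)) (lf (nat_lit 35) (nat_lit 205))))))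 (nd (nat_lit 208) (nat_lit 0) (cs (lf (nat_lit 28) (nat_lit 208)) (nd (nat_lit 187) (nat_lit 0) (cs (lf (nat_lit 34) (nat_lit 186)) (nd (nat_lit 186) (nat_lit 0) (cs (lf (nat_lit 35) (nat_lit 164)) (nd (nat_lit 163) (nat_lit 0) (cs (lf (nat_lit 46) (nat_lit 163)) (nd (nat_lit 164) (nat_lit 0) (cs (lf (nat_lit 47) (nat_lit 141)) (nd (nat_lit 229) (nat_lit 0) (cs (lf (nat_lit 41) (nat_lit 163)) (nd (nat_lit 227) (nat_lit 0) (cs (lf (nat_lit 1) (nat_lit 227)) (nd (nat_lit 226) (nat_lit 0) (cs (lf (nat_lit 47) (nat_lit 204)) (nd (nat_lit 314) (nat_lit 0) (cs (lf (nat_lit 40) (nat_lit 226)) (nd (nat_lit 315) (nat_lit 0) (cs (lf (nat_lit 41) (nat_lit 248)) (lf (nat_lit 46) (nat_lit 226))))))))))))))))))))))))))) (nd (nat_lit 294) (nat_lit 0) (cs (lf (nat_lit 23) (nat_lit 270)) (rf (nat_lit 6))))))) (nd (nat_lit 208) (nat_lit 0) (cs (lf (nat_lit 28) (nat_lit 208)) (nd (nat_lit 272) (nat_lit 0) (cs (lf (nat_lit 21) (nat_lit 271)) (nd (nat_lit 251) (nat_lit 0) (cs (lf (nat_lit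 9) (nat_lit 249)) (nd (nat_lit 187) (nat_lit 0) (cs (lf (nat_lit 34) (nat_lit 186)) (nd (nat_lit 186) (nat_lit 0) (cs (lf (nat_lit 35) (nat_lit 164)) (rf (nat_lit 7)))))))))))))))))))) q83813 (by decide +kernel)
def q83832 : Q := Q.p (nat_lit 0x100000400003000000000000000000000000000000000000000000000000000000000000000) (nat_lit 0xbc0006e0000b8000c000006000018000020000000000000000000000000000000000000000000000) (nat_lit 9)
theorem c83832 : QOK q83832 := cut [q81320, q82288, q82291, q83821, q83826, q83829] ⟨c81320, c82288, c82291, c83821, c83826, c83829, trivial⟩ (nd (nat_lit 230) (nat_lit 0) (cs (rf (nat_lit 0)) (cs (rf (nat_lit 1)) (cs (rf (nat_lit 2)) (nd (nat_lit 295) (nat_lit 0) (cs (lf (nat_lit 41) (nat_lit 229)) (nd (nat_lit 272) (nat_lit 0) (cs (nd (nat_lit 207) (nat_lit 0) (cs (lf (nat_lit 46) (nat_lit 207)) (nd (nat_lit 271) (nat_lit 0) (cs (lf (nat_lit 14) (nat_lit 249)) (nd (nat_lit 297) (nat_lit 0) (cs (lf (nat_lit 29) (nat_lit 230)) (lf (nat_lit 21) (nat_lit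 271)))))))) (cs (nd (nat_lit 297) (nat_lit 0) (cs (lf (nat_lit 29) (nat_lit 230)) (nd (nat_lit 273) (nat_lit 0) (cs (lf (nat_lit 18) (nat_lit 272)) (rf (nat_lit 3)))))) (cs (nd (nat_lit 297) (nat_lit 0) (cs (lf (nat_lit 29) (nat_lit 230)) (nd (nat_lit 207) (nat_lit 0) (cs (lf (nat_lit 46) (nat_lit 207)) (rf (nat_lit 4)))))) (rf (nat_lit 5)))))))))))) q83832 (by decide +kernel)
def q83838 : Q := Q.p (nat_lit 0x100000400003000000000000000000000000000000000000000000000000000000000000000) (nat_lit 0xa0000380000e00000800008000000000060000380000e0000200000000000000000000000000000000000000000) (nat_lit 8)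
theorem c83838 : QOK q83838 := cut [q42098, q42162, q83837] ⟨c42098, c42162, c83837, trivial⟩ (nd (nat_lit 318) (nat_lit 0) (cs (rf (nat_lit 0)) (cs (rf (nat_lit 1)) (rf (nat_lit 2))))) q83838 (by decide +kernel)
def q83936 : Q := Q.p (nat_lit 0x100000400003000000000000000000000000000000000000000000000000000000000000000) (nat_lit 0x80000e0000380000c0000e80000b8000c000006000018000060000000000000000000000000000000000000000000000) (nat_lit 10)
theorem c83936 : QOK q83936 := cut [q83839, q83814, q83935] ⟨c83839, c83814, c83935, trivial⟩ (nd (nat_lit 273) (nat_lit 0) (cs (rf (nat_lit 0)) (cs (nd (nat_lit 230) (nat_lit 0) (cs (rf (nat_lit 1)) (cs (nd (nat_lit 254) (nat_lit 0) (cs (lf (nat_lit 6) (nat_lit 251)) (nd (nat_lit 207) (nat_lit 0) (cs (lf (nat_lit 46) (nat_lit 207)) (nd (nat_lit 319) (nat_lit 0) (cs (lf (nat_lit 28) (nat_lit 230)) (nd (nat_lit 318) (nat_lit 0) (cs (lf (nat_lit 29) (nat_lit 252)) (nd (nat_lit 340) (nat_lit 0) (cs (lf (nat_lit 34) (nat_lit 252)) (nd (nat_lit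 361) (nat_lit 0) (cs (lf (nat_lit 40) (nat_lit 273)) (nd (nat_lit 362) (nat_lit 0) (cs (lf (nat_lit 41) (nat_lit 295)) (lf (nat_lit 46) (nat_lit 273)))))))))))))))) (nd (nat_lit 207) (nat_lit 0) (cs (lf (nat_lit 46) (nat_lit 207)) (nd (nat_lit 208) (nat_lit 0) (cs (lf (nat_lit 41) (nat_lit 207)) (lf (nat_lit 47) (nat_lit 185))))))))) (rf (nat_lit 2))))) q83936 (by decide +kernel)
def q83968 : Q := Q.p (nat_lit 0x600007800012000008000000000000000000000000000000000000000000000000000) (nat_lit 0x2800008000000000040000f40001d0000000000000000000000000000000000000000000000) (nat_lit 7)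
theorem c83968 : QOK q83968 := cut [q83967] ⟨c83967, trivial⟩ (nd (nat_lit 184) (nat_lit 0) (cs (lf (nat_lit 46) (nat_lit 184)) (rf (nat_lit 0)))) q83968 (by decide +kernel)
def q83975 : Q := Q.p (nat_lit 0x400007800000000000000000000000000000000000000000000000000000000000000) (nat_lit 0xbe0000700000e00000000000000000000000000000000000000000000000000000000) (nat_lit 6)
theorem c83975 : QOK q83975 := cut [q79006, q83133, q83974] ⟨c79006, c83133, c83974, trivial⟩ (nd (nat_lit 250) (nat_lit 0) (cs (rf (nat_lit 0)) (cs (rf (nat_lit 1)) (rf (nat_lit 2))))) q83975 (by decide +kernel)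
def q84077 : Q := Q.p (nat_lit 0x3c0000c00003000000000000000000000000000000000000000000000000000000000000000) (nat_lit 0x18000400000380000e00001800006000000000000000000000000000000000000000000000000000) (nat_lit 7)
theorem c84077 : QOK q84077 := cut [q84076] ⟨c84076, trivial⟩ (nd (nat_lit 315) (nat_lit 0) (cs (lf (nat_lit 10) (nat_lit 293)) (rf (nat_lit 0)))) q84077 (by decide +kernel)
def q84148 : Q := Q.p (nat_lit 0x700003000004000000000000000000000000000000000000000000000000000000000) (nat_lit 0x4000098000660000800000f00003c000ff8003fc001ff8000000000000000000000000000000000000000) (nat_lit 15)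
theorem c84148 : QOK q84148 := cut [q84109, q84114, q84121, q82263, q38594, q39506, q4969, q25590, q84143] ⟨c84109, c84114, c84121, c82263, c38594, c39506, c4969, c25590, c84143, trivial⟩ (nd (nat_lit 251) (nat_lit 0) (cs (nd (nat_lit 250) (nat_lit 0) (cs (rf (nat_lit 0)) (cs (nd (nat_lit 228) (nat_lit 0) (cs (lf (nat_lit 23) (nat_lit 227)) (nd (nat_lit 206) (nat_lit 0) (cs (lf (nat_lit 24) (nat_lit 184)) (nd (nat_lit 183) (nat_lit 0) (cs (lf (nat_lit 46) (nat_lit 183)) (nd (nat_lit 207) (nat_lit 0) (cs (lf (nat_lit 35) (nat_lit 184)) (nd (nat_lit 294) (nat_lit 0) (cs (lf (nat_lit 37) (nat_lit 206)) (rf (nat_lit 1)))))))))))) (rf (nat_lit 2))))) (cs (nd (nat_lit 250) (nat_lit 0) (cs (rf (nat_lit 0)) (cs (rf (nat_lit 2)) (nd (nat_lit 228) (nat_lit 0) (cs (lf (nat_lit 23) (nat_lit 227)) (nd (nat_lit 185) (nat_lit 0) (cs (nd (nat_lit 206) (nat_lit 0) (cs (lf (nat_lit 24) (nat_lit 184)) (lf (nat_lit 34) (nat_lit 184)))) (cs (nd (nat_lit 208) (nat_lit 0) (cs (lf (nat_lit 46)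 (nat_lit 185)) (lf (nat_lit 36) (nat_lit 185)))) (nd (nat_lit 184) (nat_lit 0) (cs (nd (nat_lit 186) (nat_lit 0) (cs (rf (nat_lit 3)) (nd (nat_lit 183) (nat_lit 0) (cs (rf (nat_lit 4)) (cs (rf (nat_lit 5)) (nd (nat_lit 164) (nat_lit 0) (cs (lf (nat_lit 17) (nat_lit 161)) (nd (nat_lit 161) (nat_lit 0) (cs (lf (nat_lit 23) (nat_lit 160)) (nd (nat_lit 187) (nat_lit 0) (cs (lf (nat_lit 22) (nat_lit 161)) (nd (nat_lit 210) (nat_lit 0) (cs (lf (nat_lit 4) (nat_lit 184)) (nd (nat_lit 188) (nat_lit 0) (cs (lf (nat_lit 5) (nat_lit 185)) (nd (nat_lit 189) (nat_lit 0) (cs (rf (nat_lit 6)) (lf (nat_lit 23) (nat_lit 163))))))))))))))))))) (lf (nat_lit 25) (nat_lit 184)))))))))))) (cs (nd (nat_lit 208) (nat_lit 0) (cs (lf (nat_lit 36) (nat_lit 185)) (nd (nat_lit 187) (nat_lit 0) (cs (lf (nat_lit 34) (nat_lit 186)) (nd (nat_lit 275) (nat_lit 0) (cs (lf (nat_lit 29) (nat_lit 208)) (nd (nat_lit 294) (nat_lit 0) (cs (lf (nat_lit 11) (nat_lit 271)) (nd (nat_lit 250) (nat_lit 0) (cs (lf (nat_lit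 23) (nat_lit 249)) (rf (nat_lit 7)))))))))))) (nd (nat_lit 208) (nat_lit 0) (cs (lf (nat_lit 36) (nat_lit 185)) (nd (nat_lit 187) (nat_lit 0) (cs (lf (nat_lit 34) (nat_lit 186)) (nd (nat_lit 207) (nat_lit 0) (cs (lf (nat_lit 47) (nat_lit 185)) (nd (nat_lit 229) (nat_lit 0) (cs (lf (nat_lit 41) (nat_lit 206)) (rf (nat_lit 8)))))))))))))) q84148 (by decide +kernel)
def q84157 : Q := Q.p (nat_lit 0x400003000004000000000000000000000000000000000000000000000000000000000) (nat_lit 0x800003000008000000000020000380000e0000280000000000000000000000000000000000000000) (nat_lit 6)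
theorem c84157 : QOK q84157 := cut [q80524, q81803, q84156] ⟨c80524, c81803, c84156, trivial⟩ (nd (nat_lit 208) (nat_lit 0) (cs (rf (nat_lit 0)) (cs (rf (nat_lit 1)) (rf (nat_lit 2))))) q84157 (by decide +kernel)
def q84162 : Q := Q.p (nat_lit 0x400003000004000010000000000000000000000000000000000000000000000000000) (nat_lit 0x1c0000380000800003c0000f000030000000000000000000000000000000000000000000000) (nat_lit 9)
theorem c84162 : QOK q84162 := cut [q84143] ⟨c84143, trivial⟩ (nd (nat_lit 273) (nat_lit 0) (cs (lf (nat_lit 41) (nat_lit 207)) (nd (nat_lit 272) (nat_lit 0) (cs (lf (nat_lit 12) (nat_lit 249)) (nd (nat_lit 207) (nat_lit 0) (cs (lf (nat_lit 47) (nat_lit 185)) (nd (nat_lit 229) (nat_lit 0) (cs (lf (nat_lit 42) (nat_lit 207)) (nd (nat_lit 251) (nat_lit 0) (cs (lf (nat_lit 41) (nat_lit 206)) (rf (nat_lit 0)))))))))))) q84162 (by decide +kernel)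
def q84199 : Q := Q.p (nat_lit 0x600003000004000000000000000000000000000000000000000000000000000000000) (nat_lit 0x280000e0000380000f80003f000080000c800002000008000000000000000000000000000000000000000000000000000) (nat_lit 8)
theorem c84199 : QOK q84199 := cut [q83728, q83843, q82369, q84196] ⟨c83728, c83843, c82369, c84196, trivial⟩ (nd (nat_lit 296) (nat_lit 0) (cs (rf (nat_lit 0)) (cs (rf (nat_lit 1)) (cs (nd (nat_lit 295) (nat_lit 0) (cs (lf (nat_lit 41) (nat_lit 229)) (nd (nat_lit 294) (nat_lit 0) (cs (rf (nat_lit 2)) (nd (nat_lit 254) (nat_lit 0) (cs (lf (nat_lit 6) (nat_lit 251)) (nd (nat_lit 297) (nat_lit 0) (cs (lf (nat_lit 29) (nat_lit 230)) (nd (nat_lit 316) (nat_lit 0) (cs (lf (nat_lit 11) (nat_lit 293)) (nd (nat_lit 229) (nat_lit 0) (cs (lf (nat_lit 47) (nat_lit 207)) (lf (nat_lit 37) (nat_lit 228)))))))))))))) (nd (nat_lit 254) (nat_lit 0) (cs (lf (nat_lit 6) (nat_lit 251)) (nd (nat_lit 207) (nat_lit 0) (cs (lf (nat_lit 46) (nat_lit 207)) (rf (nat_lit 3))))))))))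 q84199 (by decide +kernel)
def q84222 : Q := Q.p (nat_lit 0x100000400003000000000000000000000000000000000000000000000000000000000000000) (nat_lit 0xa000068000038000c800007800018000000000000000000000000000000000000000000000000000) (nat_lit 6)
theorem c84222 : QOK q84222 := cut [q83724, q84221] ⟨c83724, c84221, trivial⟩ (nd (nat_lit 230) (nat_lit 0) (cs (rf (nat_lit 0)) (rf (nat_lit 1)))) q84222 (by decide +kernel)
def q84255 : Q := Q.p (nat_lit 0x100000400003000000000000000000000000000000000000000000000000000000000000000) (nat_lit 0x280000e0000380003e00006e000038000c8000040000380000e0000280000000000000000000000000000000000000000) (nat_lit 11)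
theorem c84255 : QOK q84255 := cut [q42098, q84235, q84216, q84249] ⟨c42098, c84235, c84216, c84249, trivial⟩ (nd (nat_lit 318) (nat_lit 0) (cs (rf (nat_lit 0)) (cs (nd (nat_lit 341) (nat_lit 0) (cs (lf (nat_lit 28) (nat_lit 252)) (nd (nat_lit 340) (nat_lit 0) (cs (lf (nat_lit 29) (nat_lit 274)) (nd (nat_lit 361) (nat_lit 0) (cs (lf (nat_lit 40) (nat_lit 273)) (nd (nat_lit 362) (nat_lit 0) (cs (lf (nat_lit 41) (nat_lit 295)) (rf (nat_lit 1)))))))))) (cs (nd (nat_lit 339) (nat_lit 0) (cs (lf (nat_lit 40) (nat_lit 251)) (nd (nat_lit 340) (nat_lit 0) (cs (lf (nat_lit 41) (nat_lit 273)) (nd (nat_lit 363) (nat_lit 0) (cs (lf (nat_lit 28) (nat_lit 274)) (nd (nat_lit 362) (nat_lit 0) (cs (lf (nat_lit 29) (nat_lit 296)) (rf (nat_lit 1)))))))))) (cs (nd (nat_lit 319) (nat_lit 0) (cs (lf (nat_lit 29) (nat_lit 252)) (nd (nat_lit 230) (nat_lit 0) (cs (lf (nat_lit 28) (nat_lit 230)) (nd (nat_lit 295) (nat_lit 0) (cs (lf (nat_lit 41) (nat_lit 229)) (nd (nat_lit 320) (nat_lit 0) (cs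 (lf (nat_lit 18) (nat_lit 295)) (nd (nat_lit 293) (nat_lit 0) (cs (lf (nat_lit 1) (nat_lit 293)) (rf (nat_lit 2)))))))))))) (nd (nat_lit 339) (nat_lit 0) (cs (lf (nat_lit 40) (nat_lit 251)) (nd (nat_lit 340) (nat_lit 0) (cs (lf (nat_lit 41) (nat_lit 273)) (nd (nat_lit 273) (nat_lit 0) (cs (lf (nat_lit 47) (nat_lit 251)) (nd (nat_lit 254) (nat_lit 0) (cs (lf (nat_lit 6) (nat_lit 251)) (nd (nat_lit 295) (nat_lit 0) (cs (lf (nat_lit 42) (nat_lit 273)) (rf (nat_lit 3))))))))))))))))) q84255 (by decide +kernel)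
def q84291 : Q := Q.p (nat_lit 0x100000400003000000000000000000000000000000000000000000000000000000000000000) (nat_lit 0x1800006000008000030000c800007800008000000000000000000000000000000000000000000000000000) (nat_lit 6)
theorem c84291 : QOK q84291 := cut [q84224, q83724, q84289] ⟨c84224, c83724, c84289, trivial⟩ (nd (nat_lit 317) (nat_lit 0) (cs (nd (nat_lit 318) (nat_lit 0) (cs (lf (nat_lit 41) (nat_lit 251)) (rf (nat_lit 0)))) (cs (nd (nat_lit 230) (nat_lit 0) (cs (lf (nat_lit 40) (nat_lit 229)) (rf (nat_lit 1)))) (nd (nat_lit 295) (nat_lit 0) (cs (lf (nat_lit 36) (nat_lit 229)) (rf (nat_lit 2))))))) q84291 (by decide +kernel)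
def q84332 : Q := Q.p (nat_lit 0x3000008000020000000000000000000000000000000000000000000000000000) (nat_lit 0x8000000000040000c00001f0000700001400000000000000000000000000000000000) (nat_lit 6)
theorem c84332 : QOK q84332 := cut [q4090, q82299, q84331] ⟨c4090, c82299, c84331, trivial⟩ (nd (nat_lit 187) (nat_lit 0) (cs (rf (nat_lit 0)) (cs (rf (nat_lit 1)) (rf (nat_lit 2))))) q84332 (by decide +kernel)
def q84346 : Q := Q.p (nat_lit 0x800003000008000020000000000000000000000000000000000000000000000000000) (nat_lit 0x700001c0001f0000070001c000010000010000040000000000000000000000000000000000000000000000) (nat_lit 9)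
theorem c84346 : QOK q84346 := cut [q2394, q16427, q84334, q84340] ⟨c2394, c16427, c84334, c84340, trivial⟩ (nd (nat_lit 297) (nat_lit 0) (cs (rf (nat_lit 0)) (cs (rf (nat_lit 1)) (cs (nd (nat_lit 186) (nat_lit 0) (cs (lf (nat_lit 46) (nat_lit 186)) (nd (nat_lit 320) (nat_lit 0) (cs (lf (nat_lit 28) (nat_lit 231)) (nd (nat_lit 319) (nat_lit 0) (cs (lf (nat_lit 29) (nat_lit 253)) (nd (nat_lit 274) (nat_lit 0) (cs (lf (nat_lit 42) (nat_lit 252)) (rf (nat_lit 2)))))))))) (nd (nat_lit 298) (nat_lit 0) (cs (lf (nat_lit 29) (nat_lit 231)) (nd (nat_lit 186) (nat_lit 0) (cs (lf (nat_lit 46) (nat_lit 186)) (nd (nat_lit 274) (nat_lit 0) (cs (lf (nat_lit 41) (nat_lit 208)) (nd (nat_lit 319) (nat_lit 0) (cs (lf (nat_lit 42) (nat_lit 252)) (nd (nat_lit 299) (nat_lit 0) (cs (lf (nat_lit 18) (nat_lit 274)) (rf (nat_lit 3)))))))))))))))) q84346 (by decide +kernel)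
def q84361 : Q := Q.p (nat_lit 0x800002000008000038000000000000000000000000000000000000000000000000000) (nat_lit 0x100000400000000003800044000138000000000000000000000000000000000000000000000) (nat_lit 6)
theorem c84361 : QOK q84361 := cut [q84359] ⟨c84359, trivial⟩ (nd (nat_lit 210) (nat_lit 0) (cs (lf (nat_lit 35) (nat_lit 187)) (nd (nat_lit 274) (nat_lit 0) (cs (lf (nat_lit 41) (nat_lit 208)) (rf (nat_lit 0)))))) q84361 (by decide +kernel)
def q84367 : Q := Q.p (nat_lit 0x800002000008000020000000000000000000000000000000000000000000000000000) (nat_lit 0x500001c0000700000000000000010000040000100000000000000000000000000000000000000000000000) (nat_lit 6)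
theorem c84367 : QOK q84367 := cut [q84365] ⟨c84365, trivial⟩ (nd (nat_lit 210) (nat_lit 0) (cs (lf (nat_lit 35) (nat_lit 187)) (nd (nat_lit 297) (nat_lit 0) (cs (lf (nat_lit 34) (nat_lit 209)) (rf (nat_lit 0)))))) q84367 (by decide +kernel)
def q84372 : Q := Q.p (nat_lit 0x800003000008000020000000000000000000000000000000000000000000000000000) (nat_lit 0x40000700001c0000600000400000000010000040000100000000000000000000000000000000000000000000000) (nat_lit 7)
theorem c84372 : QOK q84372 := cut [q84370] ⟨c84370, trivial⟩ (nd (nat_lit 210) (nat_lit 0) (cs (lf (nat_lit 35) (nat_lit 187)) (nd (nat_lit 297) (nat_lit 0) (cs (lf (nat_lit 34) (nat_lit 209)) (rf (nat_lit 0)))))) q84372 (by decide +kernel)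
def q84379 : Q := Q.p (nat_lit 0x800003000008000020000000000000000000000000000000000000000000000000000) (nat_lit 0x40000700001c0000700000400000000000000050000140000000000000000000000000000000000000000000000) (nat_lit 7)
theorem c84379 : QOK q84379 := cut [q2394, q16427, q84370] ⟨c2394, c16427, c84370, trivial⟩ (nd (nat_lit 297) (nat_lit 0) (cs (rf (nat_lit 0)) (cs (rf (nat_lit 1)) (cs (rf (nat_lit 2)) (nd (nat_lit 188) (nat_lit 0) (cs (lf (nat_lit 34) (nat_lit 187)) (nd (nat_lit 320) (nat_lit 0) (cs (lf (nat_lit 28) (nat_lit 231)) (nd (nat_lit 186) (nat_lit 0) (cs (lf (nat_lit 46) (nat_lit 186)) (nd (nat_lit 319) (nat_lit 0) (cs (lf (nat_lit 29) (nat_lit 253)) (nd (nat_lit 274) (nat_lit 0) (cs (lf (nat_lit 41) (nat_lit 208)) (lf (nat_lit 42) (nat_lit 252)))))))))))))))) q84379 (by decide +kernel)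

end Crest.Agent.H3.Snaky.CR
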