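import Crest.Agent.H3.Snaky.Cert
import Crest.Agent.H3.Snaky.CR.CR0
import Crest.Agent.H3.Snaky.CR.CR1
import Crest.Agent.H3.Snaky.CR.CR2
import Crest.Agent.H3.Snaky.CR.CR3
import Crest.Agent.H3.Snaky.CR.CR4
import Crest.Agent.H3.Snaky.CR.CR5
import Crest.Agent.H3.Snaky.CR.CR6
import Crest.Agent.H3.Snaky.CR.CR9
import Crest.Agent.H3.Snaky.CR.CR10
import Crest.Agent.H3.Snaky.CR.CR12
import Crest.Agent.H3.Snaky.CR.CR13
import Crest.Agent.H3.Snaky.CR.CR15
import Crest.Agent.H3.Snaky.CR.CR16
import Crest.Agent.H3.Snaky.CR.CR17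
import Crest.Agent.H3.Snaky.CR.CR18
import Crest.Agent.H3.Snaky.CR.CR20
import Crest.Agent.H3.Snaky.CR.CR21
import Crest.Agent.H3.Snaky.CR.CR22
import Crest.Agent.H3.Snaky.CR.CR23
import Crest.Agent.H3.Snaky.CR.CR24
import Crest.Agent.H3.Snaky.CR.CR25
import Crest.Agent.H3.Snaky.CR.CR27
import Crest.Agent.H3.Snaky.CR.CR28
import Crest.Agent.H3.Snaky.CR.CR29
import Crest.Agent.H3.Snaky.CR.CR30
import Crest.Agent.H3.Snaky.CR.CR31
import Crest.Agent.H3.Snaky.CR.CR33
import Crest.Agent.H3.Snaky.CR.CR34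
import Crest.Agent.H3.Snaky.CR.CR35
import Crest.Agent.H3.Snaky.CR.CR36
import Crest.Agent.H3.Snaky.CR.CR39
import Crest.Agent.H3.Snaky.CR.CR40
import Crest.Agent.H3.Snaky.CR.CR41
import Crest.Agent.H3.Snaky.CR.CR42
import Crest.Agent.H3.Snaky.CR.CR43
import Crest.Agent.H3.Snaky.CR.CR44
import Crest.Agent.H3.Snaky.CR.CR45
import Crest.Agent.H3.Snaky.CR.CR46
import Crest.Agent.H3.Snaky.CR.CR47
import Crest.Agent.H3.Snaky.CR.CR48
import Crest.Agent.H3.Snaky.CR.CR49
import Crest.Agent.H3.Snaky.CR.CR50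

set_option autoImplicit false
set_option maxRecDepth 100000

namespace Crest.Agent.H3.Snaky.CR

open T

def q84405 : Q := Q.p (nat_lit 0x3000008000020000000000000000000000000000000000000000000000000000) (nat_lit 0x2000008000040000700000d80001f0000700001c00005000000000000000000000000000000) (nat_lit 9)
theorem c84405 : QOK q84405 := cut [q80750, q84331, q84386, q84392, q84394, q84401] ⟨c80750, c84331, c84386, c84392, c84394, c84401, trivial⟩ (nd (nat_lit 187) (nat_lit 0) (cs (rf (nat_lit 0)) (cs (rf (nat_lit 1)) (cs (rf (nat_lit 2)) (cs (rf (nat_lit 3)) (cs (nd (nat_lit 164) (nat_lit 0) (cs (lf (nat_lit 46) (nat_lit 164)) (nd (nat_lit 165) (nat_lit 0) (cs (lf (nat_lit 47) (nat_lit 142)) (nd (nat_lit 232) (nat_lit 0) (cs (lf (nat_lit 29) (nat_lit 165)) (rf (nat_lit 4)))))))) (nd (nat_lit 166) (nat_lit 0) (cs (lf (nat_lit 34) (nat_lit 165)) (nd (nat_lit 165) (nat_lit 0) (cs (lf (nat_lit 35) (nat_lit 143)) (nd (nat_lit 232) (nat_lit 0) (cs (lf (nat_lit 29) (nat_lit 165)) (rf (nat_lit 5))))))))))))))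 q84405 (by decide +kernel)
def q84411 : Q := Q.p (nat_lit 0x40000300000c000010000000000000000000000000000000000000000000000000000) (nat_lit 0x280000b0000c000000000008000020000000000000000000000000000000000000000000000) (nat_lit 5)
theorem c84411 : QOK q84411 := cut [q84410] ⟨c84410, trivial⟩ (nd (nat_lit 275) (nat_lit 0) (cs (lf (nat_lit 42) (nat_lit 208)) (rf (nat_lit 0)))) q84411 (by decide +kernel)
def q84423 : Q := Q.p (nat_lit 0x300000e000000000000000000000000000000000000000000000000000000000) (nat_lit 0x80001c0000700001c0000100000400000000000000000000000000000000000000000) (nat_lit 5)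
theorem c84423 : QOK q84423 := cut [q84418, q84419, q84422] ⟨c84418, c84419, c84422, trivial⟩ (nd (nat_lit 232) (nat_lit 0) (cs (rf (nat_lit 0)) (cs (rf (nat_lit 1)) (rf (nat_lit 2))))) q84423 (by decide +kernel)
def q84429 : Q := Q.p (nat_lit 0x300000e000000000000000000000000000000000000000000000000000000000) (nat_lit 0x6000718001ce000000000000000000000000000000000000000000000000000) (nat_lit 7)
theorem c84429 : QOK q84429 := cut [q84427] ⟨c84427, trivial⟩ (nd (nat_lit 228) (nat_lit 0) (cs (lf (nat_lit 0) (nat_lit 227)) (nd (nat_lit 249) (nat_lit 0) (cs (lf (nat_lit 10) (nat_lit 227)) (rf (nat_lit 0)))))) q84429 (by decide +kernel)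
def q84446 : Q := Q.p (nat_lit 0x300001e000000000000000000000000000000000000000000000000000000000) (nat_lit 0x1000004000000000000000dc000120000480000000000000000000000000000000000000000) (nat_lit 6)
theorem c84446 : QOK q84446 := cut [q84444] ⟨c84444, trivial⟩ (nd (nat_lit 210) (nat_lit 0) (cs (lf (nat_lit 17) (nat_lit 207)) (nd (nat_lit 166) (nat_lit 0) (cs (lf (nat_lit 37) (nat_lit 165)) (rf (nat_lit 0)))))) q84446 (by decide +kernel)
def q84453 : Q := Q.p (nat_lit 0x300001c000000000000000000000000000000000000000000000000000000000) (nat_lit 0x1c0000620001c0000000000000000000000000000000000000000000000000000) (nat_lit 5)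
theorem c84453 : QOK q84453 := cut [q84452] ⟨c84452, trivial⟩ (nd (nat_lit 233) (nat_lit 0) (cs (lf (nat_lit 6) (nat_lit 230)) (rf (nat_lit 0)))) q84453 (by decide +kernel)
def q84485 : Q := Q.p (nat_lit 0x40000b000030000080000000000000000000000000000000000000000000000000000) (nat_lit 0x800006200004000000000040000300000800000000000000000000000000000000000000000) (nat_lit 5)
theorem c84485 : QOK q84485 := cut [q84484] ⟨c84484, trivial⟩ (nd (nat_lit 254) (nat_lit 0) (cs (lf (nat_lit 11) (nat_lit 251)) (rf (nat_lit 0)))) q84485 (by decide +kernel)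
def q84518 : Q := Q.p (nat_lit 0x3000008000020000000000000000000000000000000000000000000000000000) (nat_lit 0x80000000001400001e0007f80007e0001c00006000000000000000000000000000000) (nat_lit 10)
theorem c84518 : QOK q84518 := cut [q83565, q84514, q84515, q358, q7564, q8522] ⟨c83565, c84514, c84515, c358, c7564, c8522, trivial⟩ (nd (nat_lit 186) (nat_lit 0) (cs (rf (nat_lit 0)) (cs (rf (nat_lit 1)) (cs (rf (nat_lit 2)) (nd (nat_lit 208) (nat_lit 0) (cs (lf (nat_lit 42) (nat_lit 186)) (nd (nat_lit 187) (nat_lit 0) (cs (rf (nat_lit 3)) (cs (rf (nat_lit 4)) (rf (nat_lit 5))))))))))) q84518 (by decide +kernel)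
def q84523 : Q := Q.p (nat_lit 0x80000f8000000000000000000000000000000000000000000000000000) (nat_lit 0x5c00006000638000000000000000000000000000000000000000000000) (nat_lit 6)
theorem c84523 : QOK q84523 := cut [q8836] ⟨c8836, trivial⟩ (nd (nat_lit 189) (nat_lit 0) (cs (lf (nat_lit 17) (nat_lit 186)) (rf (nat_lit 0)))) q84523 (by decide +kernel)
def q84584 : Q := Q.p (nat_lit 0x3000008000020000000000000000000000000000000000000000000000000000) (nat_lit 0x800004000017c000de0000fc0007e0001f00005c00000000000000000000000000000) (nat_lit 12)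
theorem c84584 : QOK q84584 := cut [q83565, q84515, q84570, q119, q1434, q16249, q159, q78824] ⟨c83565, c84515, c84570, c119, c1434, c16249, c159, c78824, trivial⟩ (nd (nat_lit 186) (nat_lit 0) (cs (rf (nat_lit 0)) (cs (rf (nat_lit 1)) (cs (nd (nat_lit 187) (nat_lit 0) (cs (lf (nat_lit 47) (nat_lit 164)) (rf (nat_lit 2)))) (nd (nat_lit 208) (nat_lit 0) (cs (lf (nat_lit 42) (nat_lit 186)) (nd (nat_lit 207) (nat_lit 0) (cs (rf (nat_lit 3)) (cs (nd (nat_lit 185) (nat_lit 0) (cs (rf (nat_lit 4)) (cs (nd (nat_lit 163) (nat_lit 0) (cs (lf (nat_lit 43) (nat_lit 163)) (nd (nat_lit 141) (nat_lit 0) (cs (lf (nat_lit 24) (nat_lit 119)) (nd (nat_lit 183) (nat_lit 0) (cs (lf (nat_lit 1) (nat_lit 183)) (rf (nat_lit 5)))))))) (nd (nat_lit 163) (nat_lit 0) (cs (lf (nat_lit 43) (nat_lit 163)) (nd (nat_lit 141) (nat_lit 0) (cs (lf (nat_lit 24) (nat_lit 119)) (nd (nat_lit 120) (nat_lit 0) (cs (lf (nat_lit 34) (nat_lit 119)) (nd (nat_lit 140) (nat_lit 0) (cs (lf (nat_lit 47) (nat_lit 118)) (nd (nat_lit 229) (nat_lit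 0) (cs (rf (nat_lit 6)) (lf (nat_lit 46) (nat_lit 140))))))))))))))) (nd (nat_lit 206) (nat_lit 0) (cs (lf (nat_lit 5) (nat_lit 206)) (rf (nat_lit 7))))))))))))) q84584 (by decide +kernel)
def q84602 : Q := Q.p (nat_lit 0x20000080000200000e0000000000000000000000000000000000000000000000) (nat_lit 0x50000118000470000000000000000000000000000000000000000) (nat_lit 5)
theorem c84602 : QOK q84602 := cut [q84601] ⟨c84601, trivial⟩ (nd (nat_lit 166) (nat_lit 0) (cs (lf (nat_lit 34) (nat_lit 165)) (rf (nat_lit 0)))) q84602 (by decide +kernel)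
def q84608 : Q := Q.p (nat_lit 0x3000008000020000000000000000000000000000000000000000000000000000) (nat_lit 0x8000000000040000180007c0000700001400000000000000000000000000000000000) (nat_lit 6)
theorem c84608 : QOK q84608 := cut [q4090, q82299, q84607] ⟨c4090, c82299, c84607, trivial⟩ (nd (nat_lit 187) (nat_lit 0) (cs (rf (nat_lit 0)) (cs (rf (nat_lit 1)) (rf (nat_lit 2))))) q84608 (by decide +kernel)
def q84634 : Q := Q.p (nat_lit 0x40000300000c000000000000000000000000000000000000000000000000000000000) (nat_lit 0x20000080000000003200001e000060000000000000000000000000000000000000000000000) (nat_lit 5)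
theorem c84634 : QOK q84634 := cut [q22271, q81803] ⟨c22271, c81803, trivial⟩ (nd (nat_lit 208) (nat_lit 0) (cs (rf (nat_lit 0)) (rf (nat_lit 1)))) q84634 (by decide +kernel)
def q84702 : Q := Q.p (nat_lit 0x300000000008000040000100000000000000000000000000000000000000000000000000000) (nat_lit 0x200000ee000fc0003e0000f0000380000200000e0000380000a000000000000000000000000000000000000) (nat_lit 10)
theorem c84702 : QOK q84702 := cut [q22455, q84694, q84701] ⟨c22455, c84694, c84701, trivial⟩ (nd (nat_lit 256) (nat_lit 0) (cs (nd (nat_lit 278) (nat_lit 0) (cs (nd (nat_lit 279) (nat_lit 0) (cs (lf (nat_lit 29) (nat_lit 212)) (nd (nat_lit 280) (nat_lit 0) (cs (nd (nat_lit 299) (nat_lit 0) (cs (lf (nat_lit 40) (nat_lit 211)) (nd (nat_lit 300) (nat_lit 0) (cs (lf (nat_lit 41) (nat_lit 233)) (lf (nat_lit 13) (nat_lit 275)))))) (lf (nat_lit 18) (nat_lit 255)))))) (cs (nd (nat_lit 279) (nat_lit 0) (cs (lf (nat_lit 29) (nat_lit 212)) (nd (nat_lit 280) (nat_lit 0) (cs (lf (nat_lit 18) (nat_lit 255)) (nd (nat_lit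 213) (nat_lit 0) (cs (lf (nat_lit 35) (nat_lit 190)) (nd (nat_lit 235) (nat_lit 0) (cs (nd (nat_lit 236) (nat_lit 0) (cs (nd (nat_lit 302) (nat_lit 0) (cs (lf (nat_lit 26) (nat_lit 213)) (lf (nat_lit 44) (nat_lit 213)))) (lf (nat_lit 6) (nat_lit 233)))) (lf (nat_lit 30) (nat_lit 212)))))))))) (cs (nd (nat_lit 279) (nat_lit 0) (cs (lf (nat_lit 29) (nat_lit 212)) (nd (nat_lit 280) (nat_lit 0) (cs (lf (nat_lit 18) (nat_lit 255)) (nd (nat_lit 213) (nat_lit 0) (cs (lf (nat_lit 35) (nat_lit 190)) (nd (nat_lit 277) (nat_lit 0) (cs (lf (nat_lit 41) (nat_lit 211)) (nd (nat_lit 302) (nat_lit 0) (cs (lf (nat_lit 5) (nat_lit 277)) (nd (nat_lit 235) (nat_lit 0) (cs (lf (nat_lit 26) (nat_lit 213)) (nd (nat_lit 258) (nat_lit 0) (cs (lf (nat_lit 17) (nat_lit 255)) (lf (nat_lit 45) (nat_lit 213)))))))))))))))) (cs (nd (nat_lit 191) (nat_lit 0) (cs (lf (nat_lit 34) (nat_lit 190)) (nd (nat_lit 299) (nat_lit 0) (cs (lf (nat_lit 40) (nat_lit 211)) (nd (nat_lit 300) (nat_lit 0) (cs (lf (nat_lit 41) (nat_lit 233))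 (nd (nat_lit 323) (nat_lit 0) (cs (lf (nat_lit 28) (nat_lit 234)) (nd (nat_lit 322) (nat_lit 0) (cs (lf (nat_lit 29) (nat_lit 256)) (lf (nat_lit 1) (nat_lit 297)))))))))))) (nd (nat_lit 191) (nat_lit 0) (cs (lf (nat_lit 34) (nat_lit 190)) (nd (nat_lit 299) (nat_lit 0) (cs (lf (nat_lit 40) (nat_lit 211)) (nd (nat_lit 300) (nat_lit 0) (cs (lf (nat_lit 41) (nat_lit 233)) (nd (nat_lit 298) (nat_lit 0) (cs (lf (nat_lit 17) (nat_lit 275)) (nd (nat_lit 318) (nat_lit 0) (cs (lf (nat_lit 10) (nat_lit 296)) (lf (nat_lit 11) (nat_lit 295))))))))))))))))) (cs (nd (nat_lit 190) (nat_lit 0) (cs (rf (nat_lit 0)) (lf (nat_lit 41) (nat_lit 189)))) (cs (nd (nat_lit 190) (nat_lit 0) (cs (lf (nat_lit 41) (nat_lit 189)) (rf (nat_lit 1)))) (rf (nat_lit 2)))))) q84702 (by decide +kernel)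
def q84717 : Q := Q.p (nat_lit 0xb00000000000000000000000000000000000000000000000000000000000000000000000000) (nat_lit 0x1ff80034c001c380000000000000000000000000000000000000000000000000000000000000000000) (nat_lit 7)
theorem c84717 : QOK q84717 := cut [q28791, q84706, q84709, q45023] ⟨c28791, c84706, c84709, c45023, trivial⟩ (nd (nat_lit 298) (nat_lit 0) (cs (nd (nat_lit 321) (nat_lit 0) (cs (lf (nat_lit 5) (nat_lit 296)) (rf (nat_lit 0)))) (cs (nd (nat_lit 318) (nat_lit 0) (cs (lf (nat_lit 11) (nat_lit 295)) (nd (nat_lit 300) (nat_lit 0) (cs (lf (nat_lit 10) (nat_lit 296)) (rf (nat_lit 1)))))) (cs (nd (nat_lit 322) (nat_lit 0) (cs (lf (nat_lit 4) (nat_lit 296)) (nd (nat_lit 300) (nat_lit 0) (cs (lf (nat_lit 5) (nat_lit 297)) (nd (nat_lit 319) (nat_lit 0) (cs (lf (nat_lit 11) (nat_lit 296)) (rf (nat_lit 2)))))))) (nd (nat_lit 317) (nat_lit 0) (cs (lf (nat_lit 10) (nat_lit 295)) (nd (nat_lit 295) (nat_lit 0) (cs (lf (nat_lit 11) (nat_lit 294)) (nd (nat_lit 272) (nat_lit 0) (cs (lf (nat_lit 22)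 (nat_lit 272)) (nd (nat_lit 294) (nat_lit 0) (cs (lf (nat_lit 23) (nat_lit 271)) (rf (nat_lit 3)))))))))))))) q84717 (by decide +kernel)
def q84909 : Q := Q.p (nat_lit 0x300000e000000000000000000000000000000000000000000000000000000000) (nat_lit 0x10000060001180000e000020000080000000000000000000000000000000000000000) (nat_lit 6)
theorem c84909 : QOK q84909 := cut [q84908] ⟨c84908, trivial⟩ (nd (nat_lit 228) (nat_lit 0) (cs (lf (nat_lit 0) (nat_lit 227)) (rf (nat_lit 0)))) q84909 (by decide +kernel)
def q84929 : Q := Q.p (nat_lit 0xb000018000000000000000000000000000000000000000000000000000000000) (nat_lit 0x20000100000660001c0000100000400000000000000000000000000000000000000000) (nat_lit 6)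
theorem c84929 : QOK q84929 := cut [q84928] ⟨c84928, trivial⟩ (nd (nat_lit 233) (nat_lit 0) (cs (lf (nat_lit 6) (nat_lit 230)) (rf (nat_lit 0)))) q84929 (by decide +kernel)
def q84951 : Q := Q.p (nat_lit 0xb000018000000000000000000000000000000000000000000000000000000000) (nat_lit 0x80000ee000340001e0000040000100000000000000000000000000000000000000000000000) (nat_lit 6)
theorem c84951 : QOK q84951 := cut [q82202, q82259, q81018, q84950] ⟨c82202, c82259, c81018, c84950, trivial⟩ (nd (nat_lit 254) (nat_lit 0) (cs (rf (nat_lit 0)) (cs (rf (nat_lit 1)) (cs (nd (nat_lit 233) (nat_lit 0) (cs (lf (nat_lit 6) (nat_lit 230)) (nd (nat_lit 273) (nat_lit 0) (cs (lf (nat_lit 10) (nat_lit 251)) (rf (nat_lit 2)))))) (rf (nat_lit 3)))))) q84951 (by decide +kernel)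
def q84964 : Q := Q.p (nat_lit 0x800003000008000020000000000000000000000000000000000000000000000000000) (nat_lit 0x40000700001c0000600000400000000004000010000040000000000000000000000000000000000000000000000) (nat_lit 7)
theorem c84964 : QOK q84964 := cut [q84370] ⟨c84370, trivial⟩ (nd (nat_lit 208) (nat_lit 0) (cs (lf (nat_lit 47) (nat_lit 186)) (nd (nat_lit 297) (nat_lit 0) (cs (lf (nat_lit 46) (nat_lit 208)) (rf (nat_lit 0)))))) q84964 (by decide +kernel)
def q84996 : Q := Q.p (nat_lit 0x40000300000c000030000000000000000000000000000000000000000000000000000) (nat_lit 0x8000038000c00001000000e000020000000000000000000000000000000000000000000000) (nat_lit 6)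
theorem c84996 : QOK q84996 := cut [q84994] ⟨c84994, trivial⟩ (nd (nat_lit 273) (nat_lit 0) (cs (lf (nat_lit 41) (nat_lit 207)) (nd (nat_lit 271) (nat_lit 0) (cs (lf (nat_lit 13) (nat_lit 249)) (rf (nat_lit 0)))))) q84996 (by decide +kernel)
def q85001 : Q := Q.p (nat_lit 0x300000c000030000000000000000000000000000000000000000000000000000) (nat_lit 0xc8000078000180000000000000000000000000000000000000000) (nat_lit 5)
theorem c85001 : QOK q85001 := cut [q85000] ⟨c85000, trivial⟩ (nd (nat_lit 186) (nat_lit 0) (cs (lf (nat_lit 24) (nat_lit 164)) (rf (nat_lit 0)))) q85001 (by decide +kernel)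
def q85031 : Q := Q.p (nat_lit 0x40000300000c000000000000000000000000000000000000000000000000000000000) (nat_lit 0xe0000380000200000000002000018000020000000000000000000000000000000000000000000000) (nat_lit 6)
theorem c85031 : QOK q85031 := cut [q84638] ⟨c84638, trivial⟩ (nd (nat_lit 296) (nat_lit 0) (cs (lf (nat_lit 30) (nat_lit 230)) (rf (nat_lit 0)))) q85031 (by decide +kernel)
def q85044 : Q := Q.p (nat_lit 0x40000300000c000000000000000000000000000000000000000000000000000000000) (nat_lit 0xe0000780000380000000000000010000000000000000000000000000000000000000000000000000) (nat_lit 6)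
theorem c85044 : QOK q85044 := cut [q84221] ⟨c84221, trivial⟩ (nd (nat_lit 296) (nat_lit 0) (cs (lf (nat_lit 30) (nat_lit 230)) (rf (nat_lit 0)))) q85044 (by decide +kernel)
def q85050 : Q := Q.p (nat_lit 0x40000300001c000000000000000000000000000000000000000000000000000000000) (nat_lit 0x20001c0000030000e0000180000600000000000000000000000000000000000000000) (nat_lit 6)
theorem c85050 : QOK q85050 := cut [q85048, q85049] ⟨c85048, c85049, trivial⟩ (nd (nat_lit 254) (nat_lit 0) (cs (rf (nat_lit 0)) (rf (nat_lit 1)))) q85050 (by decide +kernel)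
def q85062 : Q := Q.p (nat_lit 0x40000300000c000000000000000000000000000000000000000000000000000000000) (nat_lit 0x3200003e0000e0000300000000000000000000000000000000000000000) (nat_lit 5)
theorem c85062 : QOK q85062 := cut [q22271, q85040] ⟨c22271, c85040, trivial⟩ (nd (nat_lit 208) (nat_lit 0) (cs (rf (nat_lit 0)) (rf (nat_lit 1)))) q85062 (by decide +kernel)
def q85150 : Q := Q.p (nat_lit 0x300000c000030000000000000000000000000000000000000000000000000000) (nat_lit 0x380000f0000c000000000000000000000000000000000000000000000000000000000000000) (nat_lit 5)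
theorem c85150 : QOK q85150 := cut [q85149] ⟨c85149, trivial⟩ (nd (nat_lit 274) (nat_lit 0) (cs (lf (nat_lit 30) (nat_lit 208)) (rf (nat_lit 0)))) q85150 (by decide +kernel)
def q85191 : Q := Q.p (nat_lit 0x2000008000030000000000000000000000000000000000000000000000000000) (nat_lit 0x400001c0000700000c00004000010000040000040000000000000000000000000000000000000000000000) (nat_lit 7)
theorem c85191 : QOK q85191 := cut [q85190] ⟨c85190, trivial⟩ (nd (nat_lit 275) (nat_lit 0) (cs (lf (nat_lit 47) (nat_lit 186)) (rf (nat_lit 0)))) q85191 (by decide +kernel)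
def q85197 : Q := Q.p (nat_lit 0x3000008000020000000000000000000000000000000000000000000000000000) (nat_lit 0x400004000014000040000080000600001800004000000000000000000000000000000) (nat_lit 6)
theorem c85197 : QOK q85197 := cut [q84570] ⟨c84570, trivial⟩ (nd (nat_lit 187) (nat_lit 0) (cs (lf (nat_lit 41) (nat_lit 186)) (rf (nat_lit 0)))) q85197 (by decide +kernel)
def q85200 : Q := Q.p (nat_lit 0x800003000008000038000000000000000000000000000000000000000000000000000) (nat_lit 0x18000070000c000034000000000020000000000000000000000000000000000000000000000) (nat_lit 6)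
theorem c85200 : QOK q85200 := cut [q85165] ⟨c85165, trivial⟩ (nd (nat_lit 274) (nat_lit 0) (cs (lf (nat_lit 41) (nat_lit 208)) (nd (nat_lit 230) (nat_lit 0) (cs (lf (nat_lit 47) (nat_lit 185)) (rf (nat_lit 0)))))) q85200 (by decide +kernel)
def q85314 : Q := Q.p (nat_lit 0x800002000008000000000000000000000000000000000000000000000000000) (nat_lit 0x100000c00003000000000010000170001f00001c0000700001800004000000000000000000000000) (nat_lit 9)
theorem c85314 : QOK q85314 := cut [q82219, q85302, q85306, q83322, q85311] ⟨c82219, c85302, c85306, c83322, c85311, trivial⟩ (nd (nat_lit 186) (nat_lit 0) (cs (rf (nat_lit 0)) (cs (rf (nat_lit 1)) (cs (rf (nat_lit 2)) (nd (nat_lit 185) (nat_lit 0) (cs (lf (nat_lit 35) (nat_lit 163)) (nd (nat_lit 206) (nat_lit 0) (cs (nd (nat_lit 187) (nat_lit 0) (cs (lf (nat_lit 6) (nat_lit 184)) (rf (nat_lit 3)))) (cs (nd (nat_lit 205) (nat_lit 0) (cs (lf (nat_lit 12) (nat_lit 182)) (nd (nat_lit 187) (nat_lit 0) (cs (lf (nat_lit 6) (nat_lit 184)) (lf (nat_lit 15) (nat_lit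 183)))))) (rf (nat_lit 4))))))))))) q85314 (by decide +kernel)
def q85316 : Q := Q.p (nat_lit 0x200001800002000008000000000000000000000000000000000000000000000000000) (nat_lit 0x100000700001c0000100000000004000000000000000000000000000000000000000000000000000000000) (nat_lit 5)
theorem c85316 : QOK q85316 := cut [q82209] ⟨c82209, trivial⟩ (nd (nat_lit 294) (nat_lit 0) (cs (lf (nat_lit 40) (nat_lit 206)) (rf (nat_lit 0)))) q85316 (by decide +kernel)
def q85379 : Q := Q.p (nat_lit 0x3800002000008000040000000000000000000000000000000000000000000000) (nat_lit 0xa000000000058000300000bc0002c0000000000000000000000000000000000000000) (nat_lit 8)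
theorem c85379 : QOK q85379 := cut [q85375] ⟨c85375, trivial⟩ (nd (nat_lit 208) (nat_lit 0) (cs (lf (nat_lit 30) (nat_lit 185)) (nd (nat_lit 230) (nat_lit 0) (cs (lf (nat_lit 29) (nat_lit 186)) (nd (nat_lit 165) (nat_lit 0) (cs (lf (nat_lit 34) (nat_lit 164)) (nd (nat_lit 227) (nat_lit 0) (cs (lf (nat_lit 1) (nat_lit 227)) (rf (nat_lit 0)))))))))) q85379 (by decide +kernel)
def q85385 : Q := Q.p (nat_lit 0x200003e000000000000000000000000000000000000000000000000000) (nat_lit 0x1970000180018e000000000000000000000000000000000000000000000) (nat_lit 7)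
theorem c85385 : QOK q85385 := cut [q41675] ⟨c41675, trivial⟩ (nd (nat_lit 231) (nat_lit 0) (cs (lf (nat_lit 5) (nat_lit 206)) (nd (nat_lit 187) (nat_lit 0) (cs (lf (nat_lit 17) (nat_lit 184)) (rf (nat_lit 0)))))) q85385 (by decide +kernel)
def q85393 : Q := Q.p (nat_lit 0x100000000003c000000000000000000000000000000000000000000000000000) (nat_lit 0x1d800000000180000700001c00005000000000000000000000000000000) (nat_lit 8)
theorem c85393 : QOK q85393 := cut [q4299] ⟨c4299, trivial⟩ (nd (nat_lit 231) (nat_lit 0) (cs (lf (nat_lit 5) (nat_lit 206)) (nd (nat_lit 227) (nat_lit 0) (cs (lf (nat_lit 10) (nat_lit 205)) (nd (nat_lit 187) (nat_lit 0) (cs (lf (nat_lit 17) (nat_lit 184)) (rf (nat_lit 0)))))))) q85393 (by decide +kernel)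
def q85409 : Q := Q.p (nat_lit 0x3800002000018000020000000000000000000000000000000000000000000000) (nat_lit 0x8000000000058000040003d0000340000000000000000000000000000000000000000) (nat_lit 7)
theorem c85409 : QOK q85409 := cut [q85407] ⟨c85407, trivial⟩ (nd (nat_lit 162) (nat_lit 0) (cs (lf (nat_lit 46) (nat_lit 162)) (nd (nat_lit 186) (nat_lit 0) (cs (lf (nat_lit 35) (nat_lit 163)) (rf (nat_lit 0)))))) q85409 (by decide +kernel)
def q85415 : Q := Q.p (nat_lit 0x3800002000018000020000000000000000000000000000000000000000000000) (nat_lit 0x8000000000058000200000dc000340000000000000000000000000000000000000000) (nat_lit 7)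
theorem c85415 : QOK q85415 := cut [q5513] ⟨c5513, trivial⟩ (nd (nat_lit 186) (nat_lit 0) (cs (lf (nat_lit 35) (nat_lit 163)) (nd (nat_lit 230) (nat_lit 0) (cs (lf (nat_lit 29) (nat_lit 186)) (nd (nat_lit 165) (nat_lit 0) (cs (lf (nat_lit 34) (nat_lit 164)) (rf (nat_lit 0)))))))) q85415 (by decide +kernel)
def q85422 : Q := Q.p (nat_lit 0x7000012000000000000000000000000000000000000000000000000000000000) (nat_lit 0xe0000380001cc000000000000000000000000000000000000000000000000000000000) (nat_lit 6)
theorem c85422 : QOK q85422 := cut [q82202] ⟨c82202, trivial⟩ (nd (nat_lit 255) (nat_lit 0) (cs (lf (nat_lit 22) (nat_lit 229)) (rf (nat_lit 0)))) q85422 (by decide +kernel)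
def q85453 : Q := Q.p (nat_lit 0x3800000000000000000000000000000000000000000000000000000000000000) (nat_lit 0x3c000460003dc00000000000000000000000000000000000000000000000000000000) (nat_lit 5)
theorem c85453 : QOK q85453 := cut [q2623, q12247, q82187] ⟨c2623, c12247, c82187, trivial⟩ (nd (nat_lit 250) (nat_lit 0) (cs (rf (nat_lit 0)) (cs (rf (nat_lit 1)) (rf (nat_lit 2))))) q85453 (by decide +kernel)
def q85464 : Q := Q.p (nat_lit 0x300000c000020000000000000000000000000000000000000000000000000000) (nat_lit 0x8000000000000000500000f8000380000000000000000000000000000000000000000) (nat_lit 6)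
theorem c85464 : QOK q85464 := cut [q85463] ⟨c85463, trivial⟩ (nd (nat_lit 187) (nat_lit 0) (cs (lf (nat_lit 36) (nat_lit 164)) (rf (nat_lit 0)))) q85464 (by decide +kernel)
def q85525 : Q := Q.p (nat_lit 0x100003800000000000000000000000000000000000000000000000000000000000000) (nat_lit 0x20000c000077000000000000000000000000000000000000000000000000000000000) (nat_lit 5)
theorem c85525 : QOK q85525 := cut [q85524] ⟨c85524, trivial⟩ (nd (nat_lit 254) (nat_lit 0) (cs (lf (nat_lit 10) (nat_lit 250)) (rf (nat_lit 0)))) q85525 (by decide +kernel)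
def q85526 : Q := Q.p (nat_lit 0x100003800000000000000000000000000000000000000000000000000000000000000) (nat_lit 0x40000080004400003800008000020000000000000000000000000000000000000000000000) (nat_lit 5)
theorem c85526 : QOK q85526 := cut [q83677] ⟨c83677, trivial⟩ (nd (nat_lit 250) (nat_lit 0) (cs (lf (nat_lit 11) (nat_lit 249)) (rf (nat_lit 0)))) q85526 (by decide +kernel)
def q85540 : Q := Q.p (nat_lit 0x3c00000000000000000000000000000000000000000000000000000000000000) (nat_lit 0x1c000030000ee00000000000000000000000000000000000000000000000000000000) (nat_lit 6)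
theorem c85540 : QOK q85540 := cut [q85538] ⟨c85538, trivial⟩ (nd (nat_lit 271) (nat_lit 0) (cs (lf (nat_lit 10) (nat_lit 249)) (nd (nat_lit 249) (nat_lit 0) (cs (lf (nat_lit 11) (nat_lit 248)) (rf (nat_lit 0)))))) q85540 (by decide +kernel)
def q85555 : Q := Q.p (nat_lit 0x3c00000000000000000000000000000000000000000000000000000000000000) (nat_lit 0x8000030000c30000fc00010000040000000000000000000000000000000000000000000000) (nat_lit 8)
theorem c85555 : QOK q85555 := cut [q85551] ⟨c85551, trivial⟩ (nd (nat_lit 227) (nat_lit 0) (cs (lf (nat_lit 22) (nat_lit 227)) (nd (nat_lit 249) (nat_lit 0) (cs (lf (nat_lit 23) (nat_lit 226)) (nd (nat_lit 230) (nat_lit 0) (cs (lf (nat_lit 17) (nat_lit 227)) (nd (nat_lit 229) (nat_lit 0) (cs (lf (nat_lit 12) (nat_lit 226)) (rf (nat_lit 0)))))))))) q85555 (by decide +kernel)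
def q85568 : Q := Q.p (nat_lit 0x3c00000000000000000000000000000000000000000000000000000000000000) (nat_lit 0xc30007f000000000000000000000000000000000000000000000000000000000) (nat_lit 5)
theorem c85568 : QOK q85568 := cut [q79011, q85524, q1058] ⟨c79011, c85524, c1058, trivial⟩ (nd (nat_lit 254) (nat_lit 0) (cs (rf (nat_lit 0)) (cs (rf (nat_lit 1)) (nd (nat_lit 229) (nat_lit 0) (cs (lf (nat_lit 23) (nat_lit 228)) (nd (nat_lit 230) (nat_lit 0) (cs (rf (nat_lit 2)) (lf (nat_lit 18) (nat_lit 229))))))))) q85568 (by decide +kernel)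
def q85583 : Q := Q.p (nat_lit 0x3800000000000000000000000000000000000000000000000000000000000000) (nat_lit 0x8000038000440003fc00004000010000000000000000000000000000000000000000000000) (nat_lit 7)
theorem c85583 : QOK q85583 := cut [q84283, q85579, q80688, q85582] ⟨c84283, c85579, c80688, c85582, trivial⟩ (nd (nat_lit 228) (nat_lit 0) (cs (nd (nat_lit 250) (nat_lit 0) (cs (lf (nat_lit 23) (nat_lit 227)) (nd (nat_lit 231) (nat_lit 0) (cs (lf (nat_lit 17) (nat_lit 228)) (rf (nat_lit 0)))))) (cs (rf (nat_lit 1)) (cs (nd (nat_lit 254) (nat_lit 0) (cs (lf (nat_lit 22) (nat_lit 228)) (rf (nat_lit 2)))) (rf (nat_lit 3)))))) q85583 (by decide +kernel)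
def q85620 : Q := Q.p (nat_lit 0x10000180000000000000000000000000000000000000000000000) (nat_lit 0x38e001e70001fe0003f00007c00018000000000000000000000000) (nat_lit 11)
theorem c85620 : QOK q85620 := cut [q8025, q20853, q57829, q85613, q85609, q85617] ⟨c8025, c20853, c57829, c85613, c85609, c85617, trivial⟩ (nd (nat_lit 186) (nat_lit 0) (cs (nd (nat_lit 185) (nat_lit 0) (cs (rf (nat_lit 0)) (cs (rf (nat_lit 1)) (cs (nd (nat_lit 166) (nat_lit 0) (cs (lf (nat_lit 17) (nat_lit 163)) (nd (nat_lit 165) (nat_lit 0) (cs (lf (nat_lit 12) (nat_lit 162)) (nd (nat_lit 121) (nat_lit 0) (cs (lf (nat_lit 37) (nat_lit 120)) (nd (nat_lit 163) (nat_lit 0) (cs (lf (nat_lit 23) (nat_lit 162)) (nd (nat_lit 141) (nat_lit 0) (cs (lf (nat_lit 24) (nat_lit 119)) (nd (nat_lit 164) (nat_lit 0) (cs (lf (nat_lit 23) (nat_lit 140)) (rf (nat_lit 2)))))))))))))) (nd (nat_lit 163) (nat_lit 0) (cs (lf (nat_lit 23) (nat_lit 162)) (nd (nat_lit 141) (nat_lit 0) (cs (lf (nat_lit 24) (nat_lit 119)) (nd (nat_lit 166) (nat_lit 0) (cs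 (lf (nat_lit 17) (nat_lit 163)) (nd (nat_lit 207) (nat_lit 0) (cs (lf (nat_lit 11) (nat_lit 184)) (nd (nat_lit 142) (nat_lit 0) (cs (lf (nat_lit 35) (nat_lit 119)) (nd (nat_lit 140) (nat_lit 0) (cs (lf (nat_lit 47) (nat_lit 118)) (nd (nat_lit 165) (nat_lit 0) (cs (lf (nat_lit 20) (nat_lit 140)) (lf (nat_lit 3) (nat_lit 140)))))))))))))))))))) (cs (nd (nat_lit 189) (nat_lit 0) (cs (lf (nat_lit 11) (nat_lit 185)) (rf (nat_lit 3)))) (cs (nd (nat_lit 189) (nat_lit 0) (cs (lf (nat_lit 11) (nat_lit 185)) (rf (nat_lit 4)))) (cs (nd (nat_lit 189) (nat_lit 0) (cs (rf (nat_lit 4)) (cs (rf (nat_lit 3)) (rf (nat_lit 5))))) (nd (nat_lit 189) (nat_lit 0) (cs (lf (nat_lit 11) (nat_lit 185)) (rf (nat_lit 5))))))))) q85620 (by decide +kernel)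
def q85622 : Q := Q.p (nat_lit 0x100000400001000004000000000000000000000000000000000000000000000000000) (nat_lit 0xa0000380000e0000000000000000800002000008000000000000000000000000000000000000000000000) (nat_lit 6)
theorem c85622 : QOK q85622 := cut [q40573] ⟨c40573, trivial⟩ (nd (nat_lit 205) (nat_lit 0) (cs (lf (nat_lit 47) (nat_lit 183)) (nd (nat_lit 294) (nat_lit 0) (cs (lf (nat_lit 46) (nat_lit 205)) (rf (nat_lit 0)))))) q85622 (by decide +kernel)
def q85716 : Q := Q.p (nat_lit 0x400003000004000010000000000000000000000000000000000000000000000000000) (nat_lit 0x8000038000c8000000000280000a0000000000000000000000000000000000000000000000) (nat_lit 6)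
theorem c85716 : QOK q85716 := cut [q85714] ⟨c85714, trivial⟩ (nd (nat_lit 185) (nat_lit 0) (cs (lf (nat_lit 46) (nat_lit 185)) (nd (nat_lit 187) (nat_lit 0) (cs (lf (nat_lit 34) (nat_lit 186)) (rf (nat_lit 0)))))) q85716 (by decide +kernel)
def q85742 : Q := Q.p (nat_lit 0x400003000004000010000000000000000000000000000000000000000000000000000) (nat_lit 0x2a8000be0000f80009e0002f0000be000000000000000000000000000000000000000000000) (nat_lit 14)
theorem c85742 : QOK q85742 := cut [q85717, q6665, q2179, q85731, q25721] ⟨c85717, c6665, c2179, c85731, c25721, trivial⟩ (nd (nat_lit 207) (nat_lit 0) (cs (lf (nat_lit 47) (nat_lit 185)) (nd (nat_lit 206) (nat_lit 0) (cs (nd (nat_lit 273) (nat_lit 0) (cs (lf (nat_lit 41) (nat_lit 207)) (rf (nat_lit 0)))) (cs (nd (nat_lit 273) (nat_lit 0) (cs (lf (nat_lit 41) (nat_lit 207)) (nd (nat_lit 250) (nat_lit 0) (cs (nd (nat_lit 209) (nat_lit 0) (cs (lf (nat_lit 35) (nat_lit 186)) (nd (nat_lit 271) (nat_lit 0) (cs (lf (nat_lit 13) (nat_lit 249)) (nd (nat_lit 184)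 (nat_lit 0) (cs (lf (nat_lit 23) (nat_lit 183)) (nd (nat_lit 228) (nat_lit 0) (cs (lf (nat_lit 11) (nat_lit 205)) (lf (nat_lit 28) (nat_lit 184)))))))))) (cs (nd (nat_lit 187) (nat_lit 0) (cs (lf (nat_lit 34) (nat_lit 186)) (nd (nat_lit 275) (nat_lit 0) (cs (lf (nat_lit 29) (nat_lit 208)) (nd (nat_lit 251) (nat_lit 0) (cs (lf (nat_lit 0) (nat_lit 249)) (rf (nat_lit 1)))))))) (nd (nat_lit 275) (nat_lit 0) (cs (lf (nat_lit 29) (nat_lit 208)) (rf (nat_lit 2))))))))) (cs (nd (nat_lit 275) (nat_lit 0) (cs (lf (nat_lit 29) (nat_lit 208)) (rf (nat_lit 3)))) (nd (nat_lit 273) (nat_lit 0) (cs (lf (nat_lit 41) (nat_lit 207)) (nd (nat_lit 275) (nat_lit 0) (cs (lf (nat_lit 29) (nat_lit 208)) (nd (nat_lit 271) (nat_lit 0) (cs (lf (nat_lit 13) (nat_lit 249)) (nd (nat_lit 205) (nat_lit 0) (cs (lf (nat_lit 5) (nat_lit 205)) (nd (nat_lit 226) (nat_lit 0) (cs (lf (nat_lit 10) (nat_lit 204)) (nd (nat_lit 187) (nat_lit 0) (cs (lf (nat_lit 34) (nat_lit 186)) (nd (nat_lit 204) (nat_lit 0) (cs (lf (nat_lit 11) (nat_lit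 203)) (nd (nat_lit 182) (nat_lit 0) (cs (lf (nat_lit 23) (nat_lit 181)) (rf (nat_lit 4)))))))))))))))))))))))) q85742 (by decide +kernel)
def q85899 : Q := Q.p (nat_lit 0x8000020000080000200000000000000000000000000000000000000000000000) (nat_lit 0x140000700001c00006000010000040000100000400000800000000000000000000000000000000000000000) (nat_lit 7)
theorem c85899 : QOK q85899 := cut [q85888] ⟨c85888, trivial⟩ (nd (nat_lit 277) (nat_lit 0) (cs (rf (nat_lit 0)) (cs (nd (nat_lit 256) (nat_lit 0) (cs (lf (nat_lit 29) (nat_lit 189)) (nd (nat_lit 212) (nat_lit 0) (cs (lf (nat_lit 35) (nat_lit 189)) (nd (nat_lit 234) (nat_lit 0) (cs (lf (nat_lit 24) (nat_lit 167)) (lf (nat_lit 30) (nat_lit 211)))))))) (nd (nat_lit 278) (nat_lit 0) (cs (lf (nat_lit 29) (nat_lit 211)) (lf (nat_lit 28) (nat_lit 189))))))) q85899 (by decide +kernel)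
def q85965 : Q := Q.p (nat_lit 0x8000020000080000000000000000000000000000000000000000000000000000) (nat_lit 0x800002000010000050000160001f00001c0000700001c000050000000000000000000000000) (nat_lit 8)
theorem c85965 : QOK q85965 := cut [q81153, q85791, q85882, q85908, q85958] ⟨c81153, c85791, c85882, c85908, c85958, trivial⟩ (nd (nat_lit 189) (nat_lit 0) (cs (rf (nat_lit 0)) (cs (rf (nat_lit 1)) (cs (rf (nat_lit 2)) (cs (rf (nat_lit 3)) (cs (rf (nat_lit 4)) (nd (nat_lit 166) (nat_lit 0) (cs (lf (nat_lit 46) (nat_lit 166)) (nd (nat_lit 167) (nat_lit 0) (cs (lf (nat_lit 47) (nat_lit 144)) (nd (nat_lit 234) (nat_lit 0) (cs (lf (nat_lit 29) (nat_lit 167)) (nd (nat_lit 212) (nat_lit 0) (cs (lf (nat_lit 24) (nat_lit 145)) (nd (nat_lit 277) (nat_lit 0) (cs (lf (nat_lit 35) (nat_lit 189)) (lf (nat_lit 30) (nat_lit 211)))))))))))))))))) q85965 (by decide +kernel)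
def q86023 : Q := Q.p (nat_lit 0x100000400003000004000000000000000000000000000000000000000000000000000000000) (nat_lit 0x800002000008000000000080000180000e0000380000800000000000000000000000000000000000) (nat_lit 7)
theorem c86023 : QOK q86023 := cut [q86021] ⟨c86021, trivial⟩ (nd (nat_lit 297) (nat_lit 0) (cs (lf (nat_lit 29) (nat_lit 230)) (nd (nat_lit 208) (nat_lit 0) (cs (lf (nat_lit 28) (nat_lit 208)) (rf (nat_lit 0)))))) q86023 (by decide +kernel)
def q86045 : Q := Q.p (nat_lit 0xb000020000080000000000000000000000000000000000000000000000000000) (nat_lit 0x140000700001c00006000004000040000100000400000000000000000000000000000000000000000000000) (nat_lit 7)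
theorem c86045 : QOK q86045 := cut [q84537, q85888] ⟨c84537, c85888, trivial⟩ (nd (nat_lit 277) (nat_lit 0) (cs (rf (nat_lit 0)) (cs (rf (nat_lit 1)) (nd (nat_lit 254) (nat_lit 0) (cs (lf (nat_lit 17) (nat_lit 230)) (lf (nat_lit 5) (nat_lit 252))))))) q86045 (by decide +kernel)
def q86130 : Q := Q.p (nat_lit 0x200000e00001c0000000000c00000000000000000000000000000000000) (nat_lit 0x500003200001e00000000000000000000000000000) (nat_lit 5)
theorem c86130 : QOK q86130 := cut [q58182] ⟨c58182, trivial⟩ (nd (nat_lit 144) (nat_lit 0) (cs (lf (nat_lit 25) (nat_lit 144)) (rf (nat_lit 0)))) q86130 (by decide +kernel)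
def q86247 : Q := Q.p (nat_lit 0x3000020000030000080000000000000000000000000000000000000000000000) (nat_lit 0x100000600001c0000400001cc000760007f8000700001c000000000000000000000000000000) (nat_lit 11)
theorem c86247 : QOK q86247 := cut [q86116, q86148, q67989, q84859, q86236, q10029, q10079, q9948] ⟨c86116, c86148, c67989, c84859, c86236, c10029, c10079, c9948, trivial⟩ (nd (nat_lit 211) (nat_lit 0) (cs (rf (nat_lit 0)) (cs (rf (nat_lit 1)) (cs (nd (nat_lit 189) (nat_lit 0) (cs (nd (nat_lit 167) (nat_lit 0) (cs (rf (nat_lit 2)) (cs (nd (nat_lit 234) (nat_lit 0) (cs (lf (nat_lit 29) (nat_lit 167)) (nd (nat_lit 255) (nat_lit 0) (cs (lf (nat_lit 14) (nat_lit 230)) (rf (nat_lit 3)))))) (rf (nat_lit 4))))) (cs (nd (nat_lit 167) (nat_lit 0) (cs (rf (nat_lit 5)) (cs (rf (nat_lit 2)) (cs (rf (nat_lit 4)) (nd (nat_lit 234) (nat_lit 0) (cs (lf (nat_lit 29) (nat_lit 167)) (nd (nat_lit 254) (nat_lit 0) (cs (lf (nat_lit 15) (nat_lit 230)) (nd (nat_lit 166) (nat_lit 0) (cs (lf (nat_lit 47) (nat_lit 144)) (nd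 (nat_lit 168) (nat_lit 0) (cs (lf (nat_lit 35) (nat_lit 145)) (nd (nat_lit 186) (nat_lit 0) (cs (lf (nat_lit 9) (nat_lit 164)) (lf (nat_lit 14) (nat_lit 164)))))))))))))))) (nd (nat_lit 188) (nat_lit 0) (cs (lf (nat_lit 6) (nat_lit 186)) (rf (nat_lit 6))))))) (nd (nat_lit 210) (nat_lit 0) (cs (lf (nat_lit 5) (nat_lit 208)) (rf (nat_lit 7)))))))) q86247 (by decide +kernel)
def q86315 : Q := Q.p (nat_lit 0x800003000008000020000000000000000000000000000000000000000000000000000) (nat_lit 0x200000000004c00070000040000100000000000000000000000000000000000000000000000) (nat_lit 5)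
theorem c86315 : QOK q86315 := cut [q86314] ⟨c86314, trivial⟩ (nd (nat_lit 210) (nat_lit 0) (cs (lf (nat_lit 35) (nat_lit 187)) (rf (nat_lit 0)))) q86315 (by decide +kernel)
def q86325 : Q := Q.p (nat_lit 0xc00007000000000000000000000000000000000000000000000000000000000000000) (nat_lit 0x80000200000380000e000f8000040000100000000000000000000000000000000000000000000000) (nat_lit 7)
theorem c86325 : QOK q86325 := cut [q79118, q86319, q86323] ⟨c79118, c86319, c86323, trivial⟩ (nd (nat_lit 232) (nat_lit 0) (cs (rf (nat_lit 0)) (cs (nd (nat_lit 272) (nat_lit 0) (cs (lf (nat_lit 13) (nat_lit 250)) (nd (nat_lit 297) (nat_lit 0) (cs (lf (nat_lit 30) (nat_lit 231)) (rf (nat_lit 1)))))) (nd (nat_lit 272) (nat_lit 0) (cs (lf (nat_lit 13) (nat_lit 250)) (rf (nat_lit 2))))))) q86325 (by decide +kernel)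
def q86336 : Q := Q.p (nat_lit 0x140000d00000400000000000000000000000000000000000000000000000000000000000000) (nat_lit 0x80000a0000080000000001800006000008000000000000000000000000000000000000000000000) (nat_lit 5)
theorem c86336 : QOK q86336 := cut [q58853] ⟨c58853, trivial⟩ (nd (nat_lit 293) (nat_lit 0) (cs (lf (nat_lit 14) (nat_lit 271)) (rf (nat_lit 0)))) q86336 (by decide +kernel)
def q86373 : Q := Q.p (nat_lit 0x40000500003400008000000000000000000000000000000000000000000000000000000000) (nat_lit 0x40000380000e000078000120000080000200001800002000000000000000000000000000000000000000000000000000) (nat_lit 8)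
theorem c86373 : QOK q86373 := cut [q14128, q86367, q56123, q23098] ⟨c14128, c86367, c56123, c23098, trivial⟩ (nd (nat_lit 316) (nat_lit 0) (cs (nd (nat_lit 296) (nat_lit 0) (cs (lf (nat_lit 30) (nat_lit 230)) (rf (nat_lit 0)))) (cs (nd (nat_lit 296) (nat_lit 0) (cs (lf (nat_lit 30) (nat_lit 230)) (rf (nat_lit 1)))) (cs (nd (nat_lit 317) (nat_lit 0) (cs (lf (nat_lit 29) (nat_lit 250)) (rf (nat_lit 2)))) (nd (nat_lit 315) (nat_lit 0) (cs (lf (nat_lit 41) (nat_lit 249)) (nd (nat_lit 293) (nat_lit 0) (cs (lf (nat_lit 36) (nat_lit 227)) (nd (nat_lit 296) (nat_lit 0) (cs (lf (nat_lit 30) (nat_lit 230)) (rf (nat_lit 3)))))))))))) q86373 (by decide +kernel)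
def q86374 : Q := Q.p (nat_lit 0x40000100000400000000000000000000000000000000000000000000000000000000000000) (nat_lit 0x80000e0000380000a0000080000200001800002000000000000000000000000000000000000000000000000000) (nat_lit 5)
theorem c86374 : QOK q86374 := cut [q14128, q41488, q86344] ⟨c14128, c41488, c86344, trivial⟩ (nd (nat_lit 316) (nat_lit 0) (cs (rf (nat_lit 0)) (cs (rf (nat_lit 1)) (rf (nat_lit 2))))) q86374 (by decide +kernel)
def q86391 : Q := Q.p (nat_lit 0xc00007000000000000000000000000000000000000000000000000000000000000000) (nat_lit 0x800006000018800070000040000100000000000000000000000000000000000000000000000) (nat_lit 6)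
theorem c86391 : QOK q86391 := cut [q86390] ⟨c86390, trivial⟩ (nd (nat_lit 255) (nat_lit 0) (cs (lf (nat_lit 6) (nat_lit 252)) (rf (nat_lit 0)))) q86391 (by decide +kernel)
def q86429 : Q := Q.p (nat_lit 0xc00003000008000000000000000000000000000000000000000000000000000000000) (nat_lit 0x600001800006000000000000000100000700001c0000000000000000000000000000000000000000000000) (nat_lit 7)
theorem c86429 : QOK q86429 := cut [q82316] ⟨c82316, trivial⟩ (nd (nat_lit 209) (nat_lit 0) (cs (lf (nat_lit 36) (nat_lit 186)) (nd (nat_lit 186) (nat_lit 0) (cs (lf (nat_lit 46) (nat_lit 186)) (nd (nat_lit 210) (nat_lit 0) (cs (lf (nat_lit 35) (nat_lit 187)) (rf (nat_lit 0)))))))) q86429 (by decide +kernel)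
def q86567 : Q := Q.p (nat_lit 0x500003000000000000000000000000000000000000000000000000000000000000000) (nat_lit 0x80000a0000380001f8000a0001cf8007d8001fe0001e8000380000000000000000000000000000000000000000) (nat_lit 14)
theorem c86567 : QOK q86567 := cut [q83821, q84072, q84104, q84151, q79097, q86455, q86527, q86529, q61794, q86536, q45087, q8903, q86546, q86029, q84066, q1382, q86555, q81808, q86566] ⟨c83821, c84072, c84104, c84151, c79097, c86455, c86527, c86529, c61794, c86536, c45087, c8903, c86546, c86029, c84066, c1382, c86555, c81808, c86566, trivial⟩ (nd (nat_lit 273) (nat_lit 0) (cs (rf (nat_lit 0)) (cs (rf (nat_lit 1)) (cs (nd (nat_lit 230) (nat_lit 0) (cs (rf (nat_lit 2)) (cs (rf (nat_lit 3)) (cs (nd (nat_lit 231) (nat_lit 0) (cs (rf (nat_lit 4)) (nd (nat_lit 294) (nat_lit 0) (cs (nd (nat_lit 250) (nat_lit 0) (cs (rf (nat_lit 5)) (cs (rf (nat_lit 6)) (rf (nat_lit 7))))) (cs (nd (nat_lit 250) (nat_lit 0) (cs (rf (nat_lit 7)) (cs (nd (nat_lit 293) (nat_lit 0) (cs (lf (nat_lit 6) (nat_lit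 271)) (nd (nat_lit 232) (nat_lit 0) (cs (lf (nat_lit 13) (nat_lit 228)) (nd (nat_lit 233) (nat_lit 0) (cs (lf (nat_lit 6) (nat_lit 230)) (nd (nat_lit 255) (nat_lit 0) (cs (lf (nat_lit 5) (nat_lit 230)) (nd (nat_lit 211) (nat_lit 0) (cs (lf (nat_lit 17) (nat_lit 208)) (rf (nat_lit 8)))))))))))) (rf (nat_lit 9))))) (cs (nd (nat_lit 250) (nat_lit 0) (cs (rf (nat_lit 6)) (cs (rf (nat_lit 9)) (nd (nat_lit 317) (nat_lit 0) (cs (nd (nat_lit 228) (nat_lit 0) (cs (lf (nat_lit 28) (nat_lit 228)) (rf (nat_lit 10)))) (cs (nd (nat_lit 316) (nat_lit 0) (cs (lf (nat_lit 29) (nat_lit 250)) (nd (nat_lit 227) (nat_lit 0) (cs (lf (nat_lit 46) (nat_lit 227)) (nd (nat_lit 228) (nat_lit 0) (cs (rf (nat_lit 11)) (lf (nat_lit 47) (nat_lit 205)))))))) (cs (nd (nat_lit 339) (nat_lit 0) (cs (lf (nat_lit 27) (nat_lit 250)) (lf (nat_lit 32) (nat_lit 251)))) (nd (nat_lit 295) (nat_lit 0) (cs (lf (nat_lit 30) (nat_lit 251)) (lf (nat_lit 24) (nat_lit 228))))))))))) (rf (nat_lit 12)))))))) (cs (nd (nat_lit 209) (nat_lit 0) (cs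 (rf (nat_lit 13)) (cs (nd (nat_lit 250) (nat_lit 0) (cs (rf (nat_lit 14)) (cs (nd (nat_lit 231) (nat_lit 0) (cs (lf (nat_lit 30) (nat_lit 208)) (nd (nat_lit 232) (nat_lit 0) (cs (lf (nat_lit 13) (nat_lit 228)) (nd (nat_lit 233) (nat_lit 0) (cs (lf (nat_lit 6) (nat_lit 230)) (nd (nat_lit 255) (nat_lit 0) (cs (lf (nat_lit 5) (nat_lit 230)) (nd (nat_lit 211) (nat_lit 0) (cs (lf (nat_lit 17) (nat_lit 208)) (nd (nat_lit 208) (nat_lit 0) (cs (rf (nat_lit 15)) (lf (nat_lit 23) (nat_lit 207)))))))))))))) (cs (nd (nat_lit 231) (nat_lit 0) (cs (lf (nat_lit 30) (nat_lit 208)) (nd (nat_lit 275) (nat_lit 0) (cs (lf (nat_lit 23) (nat_lit 249)) (nd (nat_lit 188) (nat_lit 0) (cs (lf (nat_lit 34) (nat_lit 187)) (nd (nat_lit 293) (nat_lit 0) (cs (lf (nat_lit 10) (nat_lit 271)) (rf (nat_lit 16)))))))))) (nd (nat_lit 231) (nat_lit 0) (cs (lf (nat_lit 30) (nat_lit 208)) (rf (nat_lit 9)))))))) (nd (nat_lit 231) (nat_lit 0) (cs (lf (nat_lit 36) (nat_lit 186)) (lf (nat_lit 30) (nat_lit 208))))))) (nd (nat_lit 208) (nat_lit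 0) (cs (lf (nat_lit 41) (nat_lit 207)) (rf (nat_lit 17))))))))) (rf (nat_lit 18)))))) q86567 (by decide +kernel)
def q86636 : Q := Q.p (nat_lit 0xc00003400018000020000000000000000000000000000000000000000000000000000) (nat_lit 0x8000038000020000400001c000060000000000000000000000000000000000000000000000) (nat_lit 6)
theorem c86636 : QOK q86636 := cut [q86634] ⟨c86634, trivial⟩ (nd (nat_lit 208) (nat_lit 0) (cs (lf (nat_lit 47) (nat_lit 186)) (nd (nat_lit 207) (nat_lit 0) (cs (lf (nat_lit 0) (nat_lit 206)) (rf (nat_lit 0)))))) q86636 (by decide +kernel)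
def q86667 : Q := Q.p (nat_lit 0x400003000000000000000000000000000000000000000000000000000000000000000) (nat_lit 0xa0000f80007fc001ff000ebc000000000c0000380000e0000280000000000000000000000000000000000000000) (nat_lit 14)
theorem c86667 : QOK q86667 := cut [q81014, q83915, q82288, q84216, q86011, q84089, q84092, q86657, q86662] ⟨c81014, c83915, c82288, c84216, c86011, c84089, c84092, c86657, c86662, trivial⟩ (nd (nat_lit 296) (nat_lit 0) (cs (rf (nat_lit 0)) (cs (rf (nat_lit 1)) (nd (nat_lit 230) (nat_lit 0) (cs (rf (nat_lit 2)) (cs (nd (nat_lit 295) (nat_lit 0) (cs (lf (nat_lit 41) (nat_lit 229)) (rf (nat_lit 3)))) (cs (rf (nat_lit 4)) (nd (nat_lit 295) (nat_lit 0) (cs (lf (nat_lit 41) (nat_lit 229)) (nd (nat_lit 294) (nat_lit 0) (cs (rf (nat_lit 5)) (cs (rf (nat_lit 6)) (cs (nd (nat_lit 209) (nat_lit 0) (cs (lf (nat_lit 34) (nat_lit 208)) (nd (nat_lit 297) (nat_lit 0) (cs (lf (nat_lit 29) (nat_lit 230)) (nd (nat_lit 315) (nat_lit 0) (cs (lf (nat_lit 10) (nat_lit 293)) (nd (nat_lit 272) (nat_lit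 0) (cs (lf (nat_lit 23) (nat_lit 271)) (rf (nat_lit 7)))))))))) (nd (nat_lit 209) (nat_lit 0) (cs (lf (nat_lit 34) (nat_lit 208)) (rf (nat_lit 8))))))))))))))))) q86667 (by decide +kernel)
def q86703 : Q := Q.p (nat_lit 0x100000000007800002000000000000000000000000000000000000000000000000000000000) (nat_lit 0x40000700000c0000300000000034000000000000000000000000000000000000000000000000000000000) (nat_lit 6)
theorem c86703 : QOK q86703 := cut [q86701] ⟨c86701, trivial⟩ (nd (nat_lit 273) (nat_lit 0) (cs (lf (nat_lit 11) (nat_lit 250)) (nd (nat_lit 232) (nat_lit 0) (cs (lf (nat_lit 17) (nat_lit 229)) (rf (nat_lit 0)))))) q86703 (by decide +kernel)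
def q86708 : Q := Q.p (nat_lit 0x100000000007800002000000000000000000000000000000000000000000000000000000000) (nat_lit 0x70000000003400000c0000700001c0000400000000000000000000000000000000000) (nat_lit 8)
theorem c86708 : QOK q86708 := cut [q86705] ⟨c86705, trivial⟩ (nd (nat_lit 232) (nat_lit 0) (cs (lf (nat_lit 17) (nat_lit 229)) (nd (nat_lit 273) (nat_lit 0) (cs (lf (nat_lit 11) (nat_lit 250)) (nd (nat_lit 207) (nat_lit 0) (cs (lf (nat_lit 28) (nat_lit 207)) (rf (nat_lit 0)))))))) q86708 (by decide +kernel)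
def q86720 : Q := Q.p (nat_lit 0x400007000000000000000000000000000000000000000000000000000000000000000) (nat_lit 0xa0000f80007fc001fe000eb8000000001f000028000080000000000000000000000000000000000000000000000) (nat_lit 10)
theorem c86720 : QOK q86720 := cut [q81014, q83915, q81010, q86716, q86434, q86717] ⟨c81014, c83915, c81010, c86716, c86434, c86717, trivial⟩ (nd (nat_lit 296) (nat_lit 0) (cs (rf (nat_lit 0)) (cs (rf (nat_lit 1)) (nd (nat_lit 297) (nat_lit 0) (cs (nd (nat_lit 230) (nat_lit 0) (cs (lf (nat_lit 29) (nat_lit 230)) (rf (nat_lit 2)))) (cs (rf (nat_lit 3)) (nd (nat_lit 275) (nat_lit 0) (cs (rf (nat_lit 4)) (rf (nat_lit 5)))))))))) q86720 (by decide +kernel)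
def q86723 : Q := Q.p (nat_lit 0x400007000000000000000000000000000000000000000000000000000000000000000) (nat_lit 0x10000620001800006e000020000080000000000000000000000000000000000000000000000) (nat_lit 7)
theorem c86723 : QOK q86723 := cut [q81316] ⟨c81316, trivial⟩ (nd (nat_lit 255) (nat_lit 0) (cs (lf (nat_lit 11) (nat_lit 251)) (nd (nat_lit 277) (nat_lit 0) (cs (lf (nat_lit 5) (nat_lit 252)) (nd (nat_lit 233) (nat_lit 0) (cs (lf (nat_lit 17) (nat_lit 230)) (rf (nat_lit 0)))))))) q86723 (by decide +kernel)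
def q86735 : Q := Q.p (nat_lit 0x7000008000000000000000000000000000000000000000000000000000000000) (nat_lit 0x140000700001c0000ec000180000f60000e00001c0000700001400000000000000000000000000000000000) (nat_lit 11)
theorem c86735 : QOK q86735 := cut [q82301, q82309, q7464, q84925, q80576, q84919] ⟨c82301, c82309, c7464, c84925, c80576, c84919, trivial⟩ (nd (nat_lit 209) (nat_lit 0) (cs (rf (nat_lit 0)) (cs (rf (nat_lit 1)) (nd (nat_lit 210) (nat_lit 0) (cs (rf (nat_lit 2)) (cs (nd (nat_lit 255) (nat_lit 0) (cs (rf (nat_lit 3)) (nd (nat_lit 188) (nat_lit 0) (cs (lf (nat_lit 30) (nat_lit 187)) (nd (nat_lit 144) (nat_lit 0) (cs (lf (nat_lit 37) (nat_lit 143)) (nd (nat_lit 233) (nat_lit 0) (cs (lf (nat_lit 17) (nat_lit 230)) (nd (nat_lit 277) (nat_lit 0) (cs (lf (nat_lit 45) (nat_lit 188)) (lf (nat_lit 5) (nat_lit 252)))))))))))) (nd (nat_lit 255) (nat_lit 0) (cs (rf (nat_lit 4)) (cs (rf (nat_lit 3)) (nd (nat_lit 233) (nat_lit 0) (cs (lf (nat_lit 17) (nat_lit 230)) (nd (nat_lit 229) (nat_lit 0) (cs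 (lf (nat_lit 22) (nat_lit 229)) (nd (nat_lit 277) (nat_lit 0) (cs (lf (nat_lit 5) (nat_lit 252)) (rf (nat_lit 5))))))))))))))))) q86735 (by decide +kernel)
def q86771 : Q := Q.p (nat_lit 0x7800000000000000000000000000000000000000000000000000000000000000) (nat_lit 0x38000060001dc00000000000000000000000000000000000000000000000000000000) (nat_lit 6)
theorem c86771 : QOK q86771 := cut [q12247] ⟨c12247, trivial⟩ (nd (nat_lit 272) (nat_lit 0) (cs (lf (nat_lit 10) (nat_lit 250)) (nd (nat_lit 250) (nat_lit 0) (cs (lf (nat_lit 11) (nat_lit 249)) (rf (nat_lit 0)))))) q86771 (by decide +kernel)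
def q86778 : Q := Q.p (nat_lit 0x7800000000000000000000000000000000000000000000000000000000000000) (nat_lit 0x10000060001860001f800020000080000000000000000000000000000000000000000000000) (nat_lit 8)
theorem c86778 : QOK q86778 := cut [q86774] ⟨c86774, trivial⟩ (nd (nat_lit 228) (nat_lit 0) (cs (lf (nat_lit 22) (nat_lit 228)) (nd (nat_lit 250) (nat_lit 0) (cs (lf (nat_lit 23) (nat_lit 227)) (nd (nat_lit 231) (nat_lit 0) (cs (lf (nat_lit 17) (nat_lit 228)) (nd (nat_lit 230) (nat_lit 0) (cs (lf (nat_lit 12) (nat_lit 227)) (rf (nat_lit 0)))))))))) q86778 (by decide +kernel)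
def q86783 : Q := Q.p (nat_lit 0x200007000000000000000000000000000000000000000000000000000000000000000) (nat_lit 0xe4000380001dc000000000000000000000000000000000000000000000000000000000) (nat_lit 7)
theorem c86783 : QOK q86783 := cut [q86782] ⟨c86782, trivial⟩ (nd (nat_lit 255) (nat_lit 0) (cs (lf (nat_lit 10) (nat_lit 251)) (rf (nat_lit 0)))) q86783 (by decide +kernel)
def q86796 : Q := Q.p (nat_lit 0x3000018000060000000000000000000000000000000000000000000000000000) (nat_lit 0x300000c00000000060000018000040000000000000000000000000000000000000000000000) (nat_lit 5)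
theorem c86796 : QOK q86796 := cut [q86795] ⟨c86795, trivial⟩ (nd (nat_lit 275) (nat_lit 0) (cs (lf (nat_lit 30) (nat_lit 209)) (rf (nat_lit 0)))) q86796 (by decide +kernel)
def q86828 : Q := Q.p (nat_lit 0x3000008000020000080000000000000000000000000000000000000000000000) (nat_lit 0x200000800004c00070000040000140000300000c00000000000000000000000000000000000) (nat_lit 8)
theorem c86828 : QOK q86828 := cut [q84394] ⟨c84394, trivial⟩ (nd (nat_lit 164) (nat_lit 0) (cs (lf (nat_lit 46) (nat_lit 164)) (nd (nat_lit 165) (nat_lit 0) (cs (lf (nat_lit 47) (nat_lit 142)) (nd (nat_lit 232) (nat_lit 0) (cs (lf (nat_lit 29) (nat_lit 165)) (nd (nat_lit 250) (nat_lit 0) (cs (lf (nat_lit 13) (nat_lit 228)) (rf (nat_lit 0)))))))))) q86828 (by decide +kernel)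
def q86834 : Q := Q.p (nat_lit 0x3000008000020000000000000000000000000000000000000000000000000000) (nat_lit 0x200000c00004c000700000580001c0000600001800000000000000000000000000000000000) (nat_lit 10)
theorem c86834 : QOK q86834 := cut [q84401] ⟨c84401, trivial⟩ (nd (nat_lit 187) (nat_lit 0) (cs (lf (nat_lit 41) (nat_lit 186)) (nd (nat_lit 166) (nat_lit 0) (cs (lf (nat_lit 34) (nat_lit 165)) (nd (nat_lit 165) (nat_lit 0) (cs (lf (nat_lit 35) (nat_lit 143)) (nd (nat_lit 232) (nat_lit 0) (cs (lf (nat_lit 29) (nat_lit 165)) (nd (nat_lit 250) (nat_lit 0) (cs (lf (nat_lit 13) (nat_lit 228)) (rf (nat_lit 0)))))))))))) q86834 (by decide +kernel)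
def q86835 : Q := Q.p (nat_lit 0x3000008000020000000000000000000000000000000000000000000000000000) (nat_lit 0xc000000000000000180007c0000500000000000000000000000000000000000000000) (nat_lit 6)
theorem c86835 : QOK q86835 := cut [q84607] ⟨c84607, trivial⟩ (nd (nat_lit 187) (nat_lit 0) (cs (lf (nat_lit 41) (nat_lit 186)) (rf (nat_lit 0)))) q86835 (by decide +kernel)
def q86844 : Q := Q.p (nat_lit 0x20000380001a000000000000000000000000000000000000000000000000000000000) (nat_lit 0x8000080000c0000040000d0000140000400000000000000000000000000000000000000000) (nat_lit 5)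
theorem c86844 : QOK q86844 := cut [q82228, q84419] ⟨c82228, c84419, trivial⟩ (nd (nat_lit 230) (nat_lit 0) (cs (rf (nat_lit 0)) (rf (nat_lit 1)))) q86844 (by decide +kernel)
def q86847 : Q := Q.p (nat_lit 0x80000200003800008000000000000000000000000000000000000000000000000000000000) (nat_lit 0x100001c0000f0000170000400000000002000000000000000000000000000000000000000000000000000000000) (nat_lit 6)
theorem c86847 : QOK q86847 := cut [q82547, q82632, q86846] ⟨c82547, c82632, c86846, trivial⟩ (nd (nat_lit 318) (nat_lit 0) (cs (rf (nat_lit 0)) (cs (rf (nat_lit 1)) (rf (nat_lit 2))))) q86847 (by decide +kernel)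
def q86959 : Q := Q.p (nat_lit 0x400003000004000000000000000000000000000000000000000000000000000000000) (nat_lit 0x8000038000c8000000000380000e0000280000000000000000000000000000000000000000) (nat_lit 5)
theorem c86959 : QOK q86959 := cut [q80524, q85714] ⟨c80524, c85714, trivial⟩ (nd (nat_lit 208) (nat_lit 0) (cs (rf (nat_lit 0)) (rf (nat_lit 1)))) q86959 (by decide +kernel)
def q87053 : Q := Q.p (nat_lit 0x3000018000060000000000000000000000000000000000000000000000000000) (nat_lit 0xc00000c0000600009c000078000180000600000000000000000000000000000000000) (nat_lit 7)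
theorem c87053 : QOK q87053 := cut [q1563, q85116, q87051] ⟨c1563, c85116, c87051, trivial⟩ (nd (nat_lit 208) (nat_lit 0) (cs (rf (nat_lit 0)) (cs (rf (nat_lit 1)) (nd (nat_lit 250) (nat_lit 0) (cs (lf (nat_lit 13) (nat_lit 228)) (rf (nat_lit 2))))))) q87053 (by decide +kernel)
def q87069 : Q := Q.p (nat_lit 0x200003800008000000000000000000000000000000000000000000000000000000000) (nat_lit 0x10001c000076000000000000000000000000000000000000000000000000000000000) (nat_lit 5)
theorem c87069 : QOK q87069 := cut [q87068] ⟨c87068, trivial⟩ (nd (nat_lit 254) (nat_lit 0) (cs (lf (nat_lit 11) (nat_lit 250)) (rf (nat_lit 0)))) q87069 (by decide +kernel)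
def q87143 : Q := Q.p (nat_lit 0x200001e000000000000000000000000000000000000000000000000000000000) (nat_lit 0x2000008000000000000000ec000100000400000000000000000000000000000000000000000) (nat_lit 5)
theorem c87143 : QOK q87143 := cut [q87142] ⟨c87142, trivial⟩ (nd (nat_lit 206) (nat_lit 0) (cs (lf (nat_lit 22) (nat_lit 206)) (rf (nat_lit 0)))) q87143 (by decide +kernel)
def q87152 : Q := Q.p (nat_lit 0x7800006000000000000000000000000000000000000000000000000000000000) (nat_lit 0x6000018000070000000000000000c0000300000c0000000000000000000000000000000000000000) (nat_lit 7)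
theorem c87152 : QOK q87152 := cut [q87151] ⟨c87151, trivial⟩ (nd (nat_lit 273) (nat_lit 0) (cs (lf (nat_lit 11) (nat_lit 250)) (rf (nat_lit 0)))) q87152 (by decide +kernel)
def q87188 : Q := Q.p (nat_lit 0x3000004000010000000000000000000000000000000000000000000000000000) (nat_lit 0x8000eb0001c8000fb8000e8000380000e00002800000000000000000000000000000000000) (nat_lit 8)
theorem c87188 : QOK q87188 := cut [q79028, q81409, q87168, q87170, q79118, q87179, q87184, q79548, q87185] ⟨c79028, c81409, c87168, c87170, c79118, c87179, c87184, c79548, c87185, trivial⟩ (nd (nat_lit 254) (nat_lit 0) (cs (rf (nat_lit 0)) (cs (rf (nat_lit 1)) (cs (nd (nat_lit 233) (nat_lit 0) (cs (rf (nat_lit 2)) (cs (rf (nat_lit 3)) (cs (nd (nat_lit 232) (nat_lit 0) (cs (lf (nat_lit 12) (nat_lit 229)) (nd (nat_lit 207) (nat_lit 0) (cs (lf (nat_lit 20) (nat_lit 207)) (nd (nat_lit 210) (nat_lit 0) (cs (lf (nat_lit 2) (nat_lit 207)) (nd (nat_lit 188) (nat_lit 0) (cs (lf (nat_lit 41) (nat_lit 187)) (nd (nat_lit 255) (nat_lit 0)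 (cs (lf (nat_lit 29) (nat_lit 188)) (lf (nat_lit 24) (nat_lit 166)))))))))))) (nd (nat_lit 232) (nat_lit 0) (cs (lf (nat_lit 12) (nat_lit 229)) (nd (nat_lit 231) (nat_lit 0) (cs (lf (nat_lit 6) (nat_lit 230)) (lf (nat_lit 23) (nat_lit 207)))))))))) (nd (nat_lit 232) (nat_lit 0) (cs (rf (nat_lit 4)) (cs (nd (nat_lit 251) (nat_lit 0) (cs (lf (nat_lit 17) (nat_lit 229)) (nd (nat_lit 229) (nat_lit 0) (cs (lf (nat_lit 23) (nat_lit 228)) (rf (nat_lit 5)))))) (cs (rf (nat_lit 6)) (nd (nat_lit 231) (nat_lit 0) (cs (rf (nat_lit 7)) (rf (nat_lit 8)))))))))))) q87188 (by decide +kernel)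
def q87205 : Q := Q.p (nat_lit 0x3000004000010000000000000000000000000000000000000000000000000000) (nat_lit 0x8000060000080000a0000080000e0000380000800000000000000000000000000000000000) (nat_lit 6)
theorem c87205 : QOK q87205 := cut [q29, q86019, q87204] ⟨c29, c86019, c87204, trivial⟩ (nd (nat_lit 186) (nat_lit 0) (cs (rf (nat_lit 0)) (cs (rf (nat_lit 1)) (rf (nat_lit 2))))) q87205 (by decide +kernel)
def q87234 : Q := Q.p (nat_lit 0x400003000004000010000000000000000000000000000000000000000000000000000) (nat_lit 0x30000080000000000a0001e0000180000000000000000000000000000000000000000000000) (nat_lit 6)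
theorem c87234 : QOK q87234 := cut [q22486] ⟨c22486, trivial⟩ (nd (nat_lit 275) (nat_lit 0) (cs (lf (nat_lit 29) (nat_lit 208)) (nd (nat_lit 209) (nat_lit 0) (cs (lf (nat_lit 35) (nat_lit 186)) (rf (nat_lit 0)))))) q87234 (by decide +kernel)
def q87238 : Q := Q.p (nat_lit 0x1000004000030000000000000000000000000000000000000000000000000000) (nat_lit 0x300000c000000000030000c80000a0000000000000000000000000000000000000000000000) (nat_lit 6)
theorem c87238 : QOK q87238 := cut [q1431] ⟨c1431, trivial⟩ (nd (nat_lit 274) (nat_lit 0) (cs (lf (nat_lit 35) (nat_lit 186)) (nd (nat_lit 275) (nat_lit 0) (cs (lf (nat_lit 29) (nat_lit 208)) (rf (nat_lit 0)))))) q87238 (by decide +kernel)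
def q87239 : Q := Q.p (nat_lit 0x3000004000070000000000000000000000000000000000000000000000000000) (nat_lit 0x80000000007800018e0007b8000600001000000000000000000000000000000000000) (nat_lit 7)
theorem c87239 : QOK q87239 := cut [q7464, q84998, q85148] ⟨c7464, c84998, c85148, trivial⟩ (nd (nat_lit 231) (nat_lit 0) (cs (rf (nat_lit 0)) (cs (rf (nat_lit 1)) (rf (nat_lit 2))))) q87239 (by decide +kernel)
def q87244 : Q := Q.p (nat_lit 0x3000004000010000000000000000000000000000000000000000000000000000) (nat_lit 0x40000000000800000c0003e0000380000a00000000000000000000000000000000000) (nat_lit 6)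
theorem c87244 : QOK q87244 := cut [q423, q441, q86019] ⟨c423, c441, c86019, trivial⟩ (nd (nat_lit 186) (nat_lit 0) (cs (rf (nat_lit 0)) (cs (rf (nat_lit 1)) (rf (nat_lit 2))))) q87244 (by decide +kernel)
def q87354 : Q := Q.p (nat_lit 0x100000400003000004000000000000000000000000000000000000000000000000000000000) (nat_lit 0xa000028000000000400000b800028000000000000000000000000000000000000000000000000000) (nat_lit 6)
theorem c87354 : QOK q87354 := cut [q87352] ⟨c87352, trivial⟩ (nd (nat_lit 231) (nat_lit 0) (cs (lf (nat_lit 35) (nat_lit 208)) (nd (nat_lit 295) (nat_lit 0) (cs (lf (nat_lit 41) (nat_lit 229)) (rf (nat_lit 0)))))) q87354 (by decide +kernel)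
def q87385 : Q := Q.p (nat_lit 0x400003000000000000000000000000000000000000000000000000000000000000000) (nat_lit 0xa0000380000e000038000020000c80000f800038000080000000000000000000000000000000000000000000000) (nat_lit 7)
theorem c87385 : QOK q87385 := cut [q81014, q84215, q83724, q81787, q87384] ⟨c81014, c84215, c83724, c81787, c87384, trivial⟩ (nd (nat_lit 296) (nat_lit 0) (cs (rf (nat_lit 0)) (cs (rf (nat_lit 1)) (cs (nd (nat_lit 230) (nat_lit 0) (cs (rf (nat_lit 2)) (nd (nat_lit 297) (nat_lit 0) (cs (lf (nat_lit 29) (nat_lit 230)) (rf (nat_lit 3)))))) (rf (nat_lit 4)))))) q87385 (by decide +kernel)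
def q87386 : Q := Q.p (nat_lit 0x100000400003000000000000000000000000000000000000000000000000000000000000000) (nat_lit 0x2000008000020000c80000f800038000080000000000000000000000000000000000000000000000) (nat_lit 5)
theorem c87386 : QOK q87386 := cut [q81787, q83724] ⟨c81787, c83724, trivial⟩ (nd (nat_lit 230) (nat_lit 0) (cs (rf (nat_lit 0)) (rf (nat_lit 1)))) q87386 (by decide +kernel)
def q87393 : Q := Q.p (nat_lit 0x400003000004000010000000000000000000000000000000000000000000000000000) (nat_lit 0x80000380000e0000380000800000000000000020000080000000000000000000000000000000000000000000000) (nat_lit 7)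
theorem c87393 : QOK q87393 := cut [q1337, q83728, q83732, q83735] ⟨c1337, c83728, c83732, c83735, trivial⟩ (nd (nat_lit 296) (nat_lit 0) (cs (rf (nat_lit 0)) (cs (rf (nat_lit 1)) (cs (rf (nat_lit 2)) (rf (nat_lit 3)))))) q87393 (by decide +kernel)
def q87397 : Q := Q.p (nat_lit 0x3000004000010000000000000000000000000000000000000000000000000000) (nat_lit 0x8000008000020000080000c0000380000e00000800000000000000000000000000000) (nat_lit 7)
theorem c87397 : QOK q87397 := cut [q87396] ⟨c87396, trivial⟩ (nd (nat_lit 186) (nat_lit 0) (cs (lf (nat_lit 29) (nat_lit 186)) (rf (nat_lit 0)))) q87397 (by decide +kernel)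
def q87400 : Q := Q.p (nat_lit 0x3000004000010000000000000000000000000000000000000000000000000000) (nat_lit 0x800000800002000008000060000380000e00002000000000000000000000000000000) (nat_lit 7)
theorem c87400 : QOK q87400 := cut [q87399] ⟨c87399, trivial⟩ (nd (nat_lit 186) (nat_lit 0) (cs (lf (nat_lit 29) (nat_lit 186)) (rf (nat_lit 0)))) q87400 (by decide +kernel)
def q87422 : Q := Q.p (nat_lit 0x400003000004000010000000000000000000000000000000000000000000000000000) (nat_lit 0x80000e0000380000800000000008000008000020000000000000000000000000000000000000000000000) (nat_lit 6)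
theorem c87422 : QOK q87422 := cut [q82038] ⟨c82038, trivial⟩ (nd (nat_lit 297) (nat_lit 0) (cs (lf (nat_lit 28) (nat_lit 208)) (nd (nat_lit 185) (nat_lit 0) (cs (lf (nat_lit 46) (nat_lit 185)) (rf (nat_lit 0)))))) q87422 (by decide +kernel)
def q87573 : Q := Q.p (nat_lit 0x3000004000010000000000000000000000000000000000000000000000000000) (nat_lit 0x80000080000a000008000040000300000c00002000000000000000000000000000000) (nat_lit 6)
theorem c87573 : QOK q87573 := cut [q8] ⟨c8, trivial⟩ (nd (nat_lit 186) (nat_lit 0) (cs (rf (nat_lit 0)) (lf (nat_lit 29) (nat_lit 186)))) q87573 (by decide +kernel)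
def q87610 : Q := Q.p (nat_lit 0x3000004000030000000000000000000000000000000000000000000000000000) (nat_lit 0xc8000fb8000cf00031c000e0000380000a000000000000000000000000000000) (nat_lit 9)
theorem c87610 : QOK q87610 := cut [q1178, q87523, q87146, q7552, q10792] ⟨c1178, c87523, c87146, c7552, c10792, trivial⟩ (nd (nat_lit 229) (nat_lit 0) (cs (rf (nat_lit 0)) (cs (rf (nat_lit 1)) (nd (nat_lit 232) (nat_lit 0) (cs (rf (nat_lit 2)) (cs (nd (nat_lit 210) (nat_lit 0) (cs (lf (nat_lit 6) (nat_lit 207)) (nd (nat_lit 188) (nat_lit 0) (cs (rf (nat_lit 3)) (cs (nd (nat_lit 254) (nat_lit 0) (cs (lf (nat_lit 18) (nat_lit 229)) (nd (nat_lit 189) (nat_lit 0) (cs (lf (nat_lit 12) (nat_lit 185)) (lf (nat_lit 35) (nat_lit 166)))))) (nd (nat_lit 231) (nat_lit 0) (cs (lf (nat_lit 36) (nat_lit 165)) (nd (nat_lit 207) (nat_lit 0) (cs (lf (nat_lit 17) (nat_lit 185)) (lf (nat_lit 0) (nat_lit 206))))))))))) (cs (nd (nat_lit 210) (nat_lit 0) (cs (lf (nat_lit 6) (nat_lit 207)) (nd (nat_lit 207) (nat_lit 0) (cs (lf (nat_lit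 5) (nat_lit 207)) (rf (nat_lit 4)))))) (nd (nat_lit 254) (nat_lit 0) (cs (lf (nat_lit 18) (nat_lit 229)) (nd (nat_lit 210) (nat_lit 0) (cs (lf (nat_lit 6) (nat_lit 207)) (nd (nat_lit 233) (nat_lit 0) (cs (lf (nat_lit 0) (nat_lit 207)) (lf (nat_lit 12) (nat_lit 229))))))))))))))) q87610 (by decide +kernel)
def q87648 : Q := Q.p (nat_lit 0x300000e000000000000000000000000000000000000000000000000000000000) (nat_lit 0xe000718001c6000000000000000000000000000000000000000000000000000) (nat_lit 7)
theorem c87648 : QOK q87648 := cut [q87647] ⟨c87647, trivial⟩ (nd (nat_lit 228) (nat_lit 0) (cs (lf (nat_lit 0) (nat_lit 227)) (rf (nat_lit 0)))) q87648 (by decide +kernel)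
def q87731 : Q := Q.p (nat_lit 0x300000c000000000040000000000000000000000000000000000000000000000) (nat_lit 0x40000000000000001c0003a0000380000000000000000000000000000000000000000) (nat_lit 6)
theorem c87731 : QOK q87731 := cut [q32241] ⟨c32241, trivial⟩ (nd (nat_lit 208) (nat_lit 0) (cs (lf (nat_lit 24) (nat_lit 164)) (rf (nat_lit 0)))) q87731 (by decide +kernel)
def q87865 : Q := Q.p (nat_lit 0x300000c000020000000000000000000000000000000000000000000000000000) (nat_lit 0x8000000000000000c00001f0000700000000000000000000000000000000000000000) (nat_lit 6)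
theorem c87865 : QOK q87865 := cut [q87864] ⟨c87864, trivial⟩ (nd (nat_lit 187) (nat_lit 0) (cs (lf (nat_lit 36) (nat_lit 164)) (rf (nat_lit 0)))) q87865 (by decide +kernel)
def q87879 : Q := Q.p (nat_lit 0x10000340000d000020000000000000000000000000000000000000000000000000000) (nat_lit 0x12000068000000000000000e0000380000a0000000000000000000000000000000000000000) (nat_lit 7)
theorem c87879 : QOK q87879 := cut [q49193] ⟨c49193, trivial⟩ (nd (nat_lit 274) (nat_lit 0) (cs (lf (nat_lit 30) (nat_lit 208)) (nd (nat_lit 271) (nat_lit 0) (cs (lf (nat_lit 14) (nat_lit 249)) (rf (nat_lit 0)))))) q87879 (by decide +kernel)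
def q87882 : Q := Q.p (nat_lit 0x100000400001000000000000000000000000000000000000000000000000000000000) (nat_lit 0xa0000380000e0000200000200000800006000008000000000000000000000000000000000000000000000) (nat_lit 5)
theorem c87882 : QOK q87882 := cut [q40573, q45087, q15939] ⟨c40573, c45087, c15939, trivial⟩ (nd (nat_lit 294) (nat_lit 0) (cs (rf (nat_lit 0)) (cs (rf (nat_lit 1)) (nd (nat_lit 295) (nat_lit 0) (cs (lf (nat_lit 29) (nat_lit 228)) (rf (nat_lit 2))))))) q87882 (by decide +kernel)
def q87919 : Q := Q.p (nat_lit 0x380000e000000000000000000000000000000000000000000000000000000000) (nat_lit 0x10000040000380000600000000008000020000000000000000000000000000000000000000000000) (nat_lit 5)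
theorem c87919 : QOK q87919 := cut [q87918] ⟨c87918, trivial⟩ (nd (nat_lit 250) (nat_lit 0) (cs (lf (nat_lit 12) (nat_lit 227)) (rf (nat_lit 0)))) q87919 (by decide +kernel)
def q87925 : Q := Q.p (nat_lit 0x300000e000000000000000000000000000000000000000000000000000000000) (nat_lit 0x40000180000e00011800008000020000000000000000000000000000000000000000000000) (nat_lit 6)
theorem c87925 : QOK q87925 := cut [q87924] ⟨c87924, trivial⟩ (nd (nat_lit 228) (nat_lit 0) (cs (lf (nat_lit 0) (nat_lit 227)) (rf (nat_lit 0)))) q87925 (by decide +kernel)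
def q87931 : Q := Q.p (nat_lit 0x380000e000000000000000000000000000000000000000000000000000000000) (nat_lit 0x4000018000060000180000e000020000000000000000000000000000000000000000000000) (nat_lit 6)
theorem c87931 : QOK q87931 := cut [q87929] ⟨c87929, trivial⟩ (nd (nat_lit 228) (nat_lit 0) (cs (lf (nat_lit 0) (nat_lit 227)) (nd (nat_lit 250) (nat_lit 0) (cs (lf (nat_lit 12) (nat_lit 227)) (rf (nat_lit 0)))))) q87931 (by decide +kernel)
def q88025 : Q := Q.p (nat_lit 0x300000c000010000000000000000000000000000000000000000000000000000) (nat_lit 0x200000c000000000020001e0000180000200000800000000000000000000000000000000000) (nat_lit 5)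
theorem c88025 : QOK q88025 := cut [q10803, q85212] ⟨c10803, c85212, trivial⟩ (nd (nat_lit 209) (nat_lit 0) (cs (rf (nat_lit 0)) (rf (nat_lit 1)))) q88025 (by decide +kernel)
def q88047 : Q := Q.p (nat_lit 0x800003c00004000030000000000000000000000000000000000000000000000000000) (nat_lit 0x18000000001b8001c0000100000000000000000000000000000000000000000000000) (nat_lit 6)
theorem c88047 : QOK q88047 := cut [q88045] ⟨c88045, trivial⟩ (nd (nat_lit 271) (nat_lit 0) (cs (lf (nat_lit 10) (nat_lit 249)) (nd (nat_lit 227) (nat_lit 0) (cs (lf (nat_lit 22) (nat_lit 227)) (rf (nat_lit 0)))))) q88047 (by decide +kernel)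
def q88081 : Q := Q.p (nat_lit 0x3000004000000000000000000000000000000000000000000000000000000000) (nat_lit 0x80000380000e00003e0000f8000080003ae000ff0003fc000380000a00000000000000000000000000000000000) (nat_lit 14)
theorem c88081 : QOK q88081 := cut [q6561, q79029, q87130, q84155, q87416, q87424, q82028, q85700, q1180, q1416] ⟨c6561, c79029, c87130, c84155, c87416, c87424, c82028, c85700, c1180, c1416, trivial⟩ (nd (nat_lit 208) (nat_lit 0) (cs (rf (nat_lit 0)) (cs (rf (nat_lit 1)) (cs (rf (nat_lit 2)) (nd (nat_lit 274) (nat_lit 0) (cs (rf (nat_lit 3)) (cs (rf (nat_lit 4)) (cs (rf (nat_lit 5)) (nd (nat_lit 207) (nat_lit 0) (cs (lf (nat_lit 47) (nat_lit 185)) (nd (nat_lit 232) (nat_lit 0) (cs (rf (nat_lit 6)) (cs (rf (nat_lit 7)) (cs (nd (nat_lit 275) (nat_lit 0) (cs (lf (nat_lit 29) (nat_lit 208)) (nd (nat_lit 209) (nat_lit 0) (cs (lf (nat_lit 35) (nat_lit 186)) (nd (nat_lit 273) (nat_lit 0) (cs (lf (nat_lit 41) (nat_lit 207)) (nd (nat_lit 210) (nat_lit 0) (cs (lf (nat_lit 5) (nat_lit 207))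 (nd (nat_lit 188) (nat_lit 0) (cs (lf (nat_lit 17) (nat_lit 185)) (nd (nat_lit 229) (nat_lit 0) (cs (lf (nat_lit 6) (nat_lit 207)) (rf (nat_lit 8)))))))))))))) (nd (nat_lit 273) (nat_lit 0) (cs (lf (nat_lit 41) (nat_lit 207)) (nd (nat_lit 271) (nat_lit 0) (cs (lf (nat_lit 13) (nat_lit 249)) (nd (nat_lit 275) (nat_lit 0) (cs (lf (nat_lit 29) (nat_lit 208)) (nd (nat_lit 209) (nat_lit 0) (cs (lf (nat_lit 35) (nat_lit 186)) (nd (nat_lit 206) (nat_lit 0) (cs (rf (nat_lit 9)) (lf (nat_lit 4) (nat_lit 206)))))))))))))))))))))))))) q88081 (by decide +kernel)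
def q88084 : Q := Q.p (nat_lit 0x400003c000000000000000000000000000000000000000000000000000) (nat_lit 0x738000c0000398000000000000000000000000000000000000000000000) (nat_lit 7)
theorem c88084 : QOK q88084 := cut [q88083] ⟨c88083, trivial⟩ (nd (nat_lit 183) (nat_lit 0) (cs (lf (nat_lit 22) (nat_lit 183)) (rf (nat_lit 0)))) q88084 (by decide +kernel)
def q88089 : Q := Q.p (nat_lit 0x200000800003c000000000000000000000000000000000000000000000000000) (nat_lit 0x800000000003800040000318000000000000000000000000000000000000000000000) (nat_lit 5)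
theorem c88089 : QOK q88089 := cut [q12526] ⟨c12526, trivial⟩ (nd (nat_lit 183) (nat_lit 0) (cs (lf (nat_lit 22) (nat_lit 183)) (rf (nat_lit 0)))) q88089 (by decide +kernel)
def q88111 : Q := Q.p (nat_lit 0x3000006000018000000000000000000000000000000000000000000000000000) (nat_lit 0x180000f800000000398000e0000380000400000000000000000000000000000000000000000) (nat_lit 10)
theorem c88111 : QOK q88111 := cut [q88108] ⟨c88108, trivial⟩ (nd (nat_lit 274) (nat_lit 0) (cs (lf (nat_lit 42) (nat_lit 207)) (nd (nat_lit 273) (nat_lit 0) (cs (lf (nat_lit 41) (nat_lit 207)) (nd (nat_lit 271) (nat_lit 0) (cs (lf (nat_lit 13) (nat_lit 249)) (rf (nat_lit 0)))))))) q88111 (by decide +kernel)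
def q88122 : Q := Q.p (nat_lit 0x3000004000010000000000000000000000000000000000000000000000000000) (nat_lit 0x4000018000078000080000a000028000060000180000200000000000000000000000000000000000) (nat_lit 8)
theorem c88122 : QOK q88122 := cut [q88116, q88117, q88121] ⟨c88116, c88117, c88121, trivial⟩ (nd (nat_lit 185) (nat_lit 0) (cs (rf (nat_lit 0)) (cs (nd (nat_lit 274) (nat_lit 0) (cs (lf (nat_lit 46) (nat_lit 185)) (nd (nat_lit 273) (nat_lit 0) (cs (lf (nat_lit 41) (nat_lit 207)) (nd (nat_lit 271) (nat_lit 0) (cs (lf (nat_lit 13) (nat_lit 249)) (rf (nat_lit 1)))))))) (rf (nat_lit 2))))) q88122 (by decide +kernel)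
def q88151 : Q := Q.p (nat_lit 0x300000d000000000000000000000000000000000000000000000000000000000) (nat_lit 0x380001f0000780000e000120001f60001f0000700000000000000000000000000000000000000000) (nat_lit 12)
theorem c88151 : QOK q88151 := cut [q80169, q88146, q88150] ⟨c80169, c88146, c88150, trivial⟩ (nd (nat_lit 209) (nat_lit 0) (cs (rf (nat_lit 0)) (cs (rf (nat_lit 1)) (rf (nat_lit 2))))) q88151 (by decide +kernel)
def q88152 : Q := Q.p (nat_lit 0x100000400001000000000000000000000000000000000000000000000000000000000) (nat_lit 0xa0000380000e0000080000200000800006000008000000000000000000000000000000000000000000000) (nat_lit 5)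
theorem c88152 : QOK q88152 := cut [q17424, q22948, q40573] ⟨c17424, c22948, c40573, trivial⟩ (nd (nat_lit 294) (nat_lit 0) (cs (rf (nat_lit 0)) (cs (rf (nat_lit 1)) (rf (nat_lit 2))))) q88152 (by decide +kernel)
def q88156 : Q := Q.p (nat_lit 0x500003400001000000000000000000000000000000000000000000000000000000000) (nat_lit 0x20000280000200000000006000018000020000000000000000000000000000000000000000) (nat_lit 5)
theorem c88156 : QOK q88156 := cut [q49120] ⟨c49120, trivial⟩ (nd (nat_lit 271) (nat_lit 0) (cs (lf (nat_lit 14) (nat_lit 249)) (rf (nat_lit 0)))) q88156 (by decide +kernel)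
def q88162 : Q := Q.p (nat_lit 0x300000d000000000000000000000000000000000000000000000000000000000) (nat_lit 0xe000728001c6000000000000000000000000000000000000000000000000000) (nat_lit 7)
theorem c88162 : QOK q88162 := cut [q87647] ⟨c87647, trivial⟩ (nd (nat_lit 229) (nat_lit 0) (cs (lf (nat_lit 0) (nat_lit 227)) (rf (nat_lit 0)))) q88162 (by decide +kernel)
def q88172 : Q := Q.p (nat_lit 0x380000e000010000000000000000000000000000000000000000000000000000) (nat_lit 0x1c00007800000000300000cc000100000400000000000000000000000000000000000000000) (nat_lit 8)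
theorem c88172 : QOK q88172 := cut [q88168] ⟨c88168, trivial⟩ (nd (nat_lit 232) (nat_lit 0) (cs (lf (nat_lit 6) (nat_lit 229)) (nd (nat_lit 210) (nat_lit 0) (cs (lf (nat_lit 17) (nat_lit 207)) (nd (nat_lit 166) (nat_lit 0) (cs (lf (nat_lit 37) (nat_lit 165)) (nd (nat_lit 207) (nat_lit 0) (cs (lf (nat_lit 23) (nat_lit 206)) (rf (nat_lit 0)))))))))) q88172 (by decide +kernel)
def q88294 : Q := Q.p (nat_lit 0x400003000000000000000000000000000000000000000000000000000000000000000) (nat_lit 0xa0000f80003f0000fe000080000c00000f0000380000e0000200000000000000000000000000000000000000000) (nat_lit 9)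
theorem c88294 : QOK q88294 := cut [q81014, q83915, q82291, q83835, q86011, q88290] ⟨c81014, c83915, c82291, c83835, c86011, c88290, trivial⟩ (nd (nat_lit 296) (nat_lit 0) (cs (rf (nat_lit 0)) (cs (rf (nat_lit 1)) (nd (nat_lit 230) (nat_lit 0) (cs (rf (nat_lit 2)) (cs (rf (nat_lit 3)) (cs (rf (nat_lit 4)) (nd (nat_lit 297) (nat_lit 0) (cs (lf (nat_lit 29) (nat_lit 230)) (nd (nat_lit 295) (nat_lit 0) (cs (lf (nat_lit 41) (nat_lit 229)) (rf (nat_lit 5))))))))))))) q88294 (by decide +kernel)
def q88305 : Q := Q.p (nat_lit 0x3800000000000000000000000000000000000000000000000000000000000000) (nat_lit 0xfc000470003ce00000000000000000000000000000000000000000000000000000000) (nat_lit 7)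
theorem c88305 : QOK q88305 := cut [q23543, q40773, q82187, q40771] ⟨c23543, c40773, c82187, c40771, trivial⟩ (nd (nat_lit 250) (nat_lit 0) (cs (rf (nat_lit 0)) (cs (rf (nat_lit 1)) (cs (rf (nat_lit 2)) (nd (nat_lit 231) (nat_lit 0) (cs (lf (nat_lit 17) (nat_lit 228)) (nd (nat_lit 249) (nat_lit 0) (cs (lf (nat_lit 16) (nat_lit 227)) (rf (nat_lit 3)))))))))) q88305 (by decide +kernel)
def q88348 : Q := Q.p (nat_lit 0x7000000000000000000000000000000000000000000000000000000000000000) (nat_lit 0x500001c00007e0001f0000ee000180000fe0000d0000140000000000000000000000000000000000000000000000) (nat_lit 14)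
theorem c88348 : QOK q88348 := cut [q80576, q82259, q88318, q58862, q88337, q80406, q86761] ⟨c80576, c82259, c88318, c58862, c88337, c80406, c86761, trivial⟩ (nd (nat_lit 255) (nat_lit 0) (cs (rf (nat_lit 0)) (cs (rf (nat_lit 1)) (cs (nd (nat_lit 277) (nat_lit 0) (cs (lf (nat_lit 5) (nat_lit 252)) (nd (nat_lit 299) (nat_lit 0) (cs (nd (nat_lit 232) (nat_lit 0) (cs (lf (nat_lit 42) (nat_lit 232)) (rf (nat_lit 2)))) (cs (nd (nat_lit 273) (nat_lit 0) (cs (lf (nat_lit 10) (nat_lit 251)) (nd (nat_lit 229) (nat_lit 0) (cs (lf (nat_lit 22) (nat_lit 229)) (nd (nat_lit 321) (nat_lit 0) (cs (lf (nat_lit 47) (nat_lit 232)) (nd (nat_lit 344) (nat_lit 0) (cs (lf (nat_lit 28) (nat_lit 255)) (nd (nat_lit 342) (nat_lit 0) (cs (lf (nat_lit 40) (nat_lit 254)) (rf (nat_lit 3)))))))))))) (cs (nd (nat_lit 230) (nat_lit 0) (cs (lf (nat_lit 23) (nat_lit 229)) (nd (nat_lit 297) (nat_lit 0) (cs (nd (nat_lit 233) (nat_lit 0) (cs (lf (nat_lit 17) (nat_lit 230)) (nd (nat_lit 300) (nat_lit 0) (cs (lf (nat_lit 29) (nat_lit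 233)) (nd (nat_lit 298) (nat_lit 0) (cs (lf (nat_lit 41) (nat_lit 232)) (nd (nat_lit 274) (nat_lit 0) (cs (lf (nat_lit 11) (nat_lit 251)) (lf (nat_lit 22) (nat_lit 274)))))))))) (cs (nd (nat_lit 233) (nat_lit 0) (cs (lf (nat_lit 17) (nat_lit 230)) (nd (nat_lit 300) (nat_lit 0) (cs (lf (nat_lit 29) (nat_lit 233)) (nd (nat_lit 298) (nat_lit 0) (cs (lf (nat_lit 41) (nat_lit 232)) (nd (nat_lit 210) (nat_lit 0) (cs (lf (nat_lit 46) (nat_lit 210)) (nd (nat_lit 188) (nat_lit 0) (cs (lf (nat_lit 45) (nat_lit 188)) (nd (nat_lit 318) (nat_lit 0) (cs (lf (nat_lit 10) (nat_lit 296)) (nd (nat_lit 296) (nat_lit 0) (cs (lf (nat_lit 11) (nat_lit 295)) (nd (nat_lit 274) (nat_lit 0) (cs (lf (nat_lit 35) (nat_lit 230)) (lf (nat_lit 23) (nat_lit 273)))))))))))))))))) (nd (nat_lit 275) (nat_lit 0) (cs (lf (nat_lit 42) (nat_lit 230)) (rf (nat_lit 4))))))))) (nd (nat_lit 273) (nat_lit 0) (cs (lf (nat_lit 10) (nat_lit 251)) (nd (nat_lit 229) (nat_lit 0) (cs (lf (nat_lit 22) (nat_lit 229)) (nd (nat_lit 233) (nat_lit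 0) (cs (lf (nat_lit 17) (nat_lit 230)) (rf (nat_lit 5)))))))))))))) (nd (nat_lit 233) (nat_lit 0) (cs (lf (nat_lit 17) (nat_lit 230)) (nd (nat_lit 274) (nat_lit 0) (cs (lf (nat_lit 11) (nat_lit 251)) (rf (nat_lit 6)))))))))) q88348 (by decide +kernel)
def q88349 : Q := Q.p (nat_lit 0x400001c00000000000000000000000000000000000000000000000000000000000000) (nat_lit 0x80000030000ee00000000000000000000000000000000000000000000000000000000) (nat_lit 5)
theorem c88349 : QOK q88349 := cut [q85538] ⟨c85538, trivial⟩ (nd (nat_lit 249) (nat_lit 0) (cs (lf (nat_lit 5) (nat_lit 249)) (rf (nat_lit 0)))) q88349 (by decide +kernel)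
def q88351 : Q := Q.p (nat_lit 0x100003400000000000000000000000000000000000000000000000000000000000000) (nat_lit 0x40000080004800003800008000020000000000000000000000000000000000000000000000) (nat_lit 5)
theorem c88351 : QOK q88351 := cut [q83677] ⟨c83677, trivial⟩ (nd (nat_lit 251) (nat_lit 0) (cs (lf (nat_lit 11) (nat_lit 249)) (rf (nat_lit 0)))) q88351 (by decide +kernel)
def q88429 : Q := Q.p (nat_lit 0x500003400000000000000000000000000000000000000000000000000000000000000) (nat_lit 0x80000660000a80000200004000010000000000000000000000000000000000000000000000000000) (nat_lit 6)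
theorem c88429 : QOK q88429 := cut [q88427] ⟨c88427, trivial⟩ (nd (nat_lit 273) (nat_lit 0) (cs (lf (nat_lit 12) (nat_lit 249)) (nd (nat_lit 275) (nat_lit 0) (cs (lf (nat_lit 23) (nat_lit 249)) (rf (nat_lit 0)))))) q88429 (by decide +kernel)
def q88470 : Q := Q.p (nat_lit 0x100000500003400000000000000000000000000000000000000000000000000000000000000) (nat_lit 0xa0000380000e0000800004a0000be0003e0000be0000e0000380000e00000800000000000000000000000) (nat_lit 15)
theorem c88470 : QOK q88470 := cut [q40573, q88440, q40706, q21503, q3858, q88434, q2511, q41355, q88468, q83676] ⟨c40573, c88440, c40706, c21503, c3858, c88434, c2511, c41355, c88468, c83676, trivial⟩ (nd (nat_lit 228) (nat_lit 0) (cs (nd (nat_lit 294) (nat_lit 0) (cs (rf (nat_lit 0)) (rf (nat_lit 1)))) (cs (nd (nat_lit 206) (nat_lit 0) (cs (rf (nat_lit 2)) (cs (nd (nat_lit 185) (nat_lit 0) (cs (lf (nat_lit 34) (nat_lit 184)) (nd (nat_lit 184) (nat_lit 0) (cs (lf (nat_lit 35) (nat_lit 162)) (nd (nat_lit 227) (nat_lit 0) (cs (lf (nat_lit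 20) (nat_lit 227)) (rf (nat_lit 3)))))))) (cs (nd (nat_lit 227) (nat_lit 0) (cs (lf (nat_lit 20) (nat_lit 227)) (nd (nat_lit 183) (nat_lit 0) (cs (lf (nat_lit 46) (nat_lit 183)) (nd (nat_lit 207) (nat_lit 0) (cs (lf (nat_lit 35) (nat_lit 184)) (nd (nat_lit 208) (nat_lit 0) (cs (lf (nat_lit 6) (nat_lit 205)) (rf (nat_lit 4)))))))))) (cs (nd (nat_lit 183) (nat_lit 0) (cs (lf (nat_lit 46) (nat_lit 183)) (nd (nat_lit 184) (nat_lit 0) (cs (lf (nat_lit 47) (nat_lit 161)) (nd (nat_lit 227) (nat_lit 0) (cs (lf (nat_lit 20) (nat_lit 227)) (nd (nat_lit 162) (nat_lit 0) (cs (lf (nat_lit 41) (nat_lit 161)) (nd (nat_lit 141) (nat_lit 0) (cs (lf (nat_lit 34) (nat_lit 140)) (nd (nat_lit 140) (nat_lit 0) (cs (lf (nat_lit 35) (nat_lit 118)) (nd (nat_lit 117) (nat_lit 0) (cs (lf (nat_lit 46) (nat_lit 117)) (nd (nat_lit 95) (nat_lit 0) (cs (lf (nat_lit 45) (nat_lit 95)) (nd (nat_lit 207) (nat_lit 0) (cs (lf (nat_lit 29) (nat_lit 140)) (nd (nat_lit 181) (nat_lit 0) (cs (lf (nat_lit 1) (nat_lit 181)) (nd (nat_lit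 209) (nat_lit 0) (cs (lf (nat_lit 7) (nat_lit 205)) (rf (nat_lit 5)))))))))))))))))))))))) (cs (nd (nat_lit 185) (nat_lit 0) (cs (lf (nat_lit 34) (nat_lit 184)) (nd (nat_lit 184) (nat_lit 0) (cs (lf (nat_lit 35) (nat_lit 162)) (nd (nat_lit 227) (nat_lit 0) (cs (lf (nat_lit 20) (nat_lit 227)) (nd (nat_lit 162) (nat_lit 0) (cs (lf (nat_lit 41) (nat_lit 161)) (rf (nat_lit 6)))))))))) (nd (nat_lit 183) (nat_lit 0) (cs (lf (nat_lit 46) (nat_lit 183)) (nd (nat_lit 184) (nat_lit 0) (cs (lf (nat_lit 47) (nat_lit 161)) (nd (nat_lit 227) (nat_lit 0) (cs (lf (nat_lit 20) (nat_lit 227)) (rf (nat_lit 7)))))))))))))) (cs (rf (nat_lit 8)) (nd (nat_lit 251) (nat_lit 0) (cs (lf (nat_lit 23) (nat_lit 227)) (rf (nat_lit 9)))))))) q88470 (by decide +kernel)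
def q88483 : Q := Q.p (nat_lit 0x140000100000400000000000000000000000000000000000000000000000000000000000000) (nat_lit 0x280000e00003c000280000080000200000800000000000000000000000000000000000000000000000000000000) (nat_lit 5)
theorem c88483 : QOK q88483 := cut [q14128, q86367, q88479] ⟨c14128, c86367, c88479, trivial⟩ (nd (nat_lit 316) (nat_lit 0) (cs (rf (nat_lit 0)) (cs (rf (nat_lit 1)) (rf (nat_lit 2))))) q88483 (by decide +kernel)
def q88609 : Q := Q.p (nat_lit 0x100000400003000000000000000000000000000000000000000000000000000000000000000) (nat_lit 0x20000080000c80000f8000380000c0000000000000000000000000000000000000000000000) (nat_lit 5)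
theorem c88609 : QOK q88609 := cut [q83724, q86011] ⟨c83724, c86011, trivial⟩ (nd (nat_lit 230) (nat_lit 0) (cs (rf (nat_lit 0)) (rf (nat_lit 1)))) q88609 (by decide +kernel)
def q88692 : Q := Q.p (nat_lit 0x3c00000000000000000000000000000000000000000000000000000000000000) (nat_lit 0x77000038001ce00000000000000000000000000000000000000000000000000000000) (nat_lit 8)
theorem c88692 : QOK q88692 := cut [q40586] ⟨c40586, trivial⟩ (nd (nat_lit 231) (nat_lit 0) (cs (lf (nat_lit 17) (nat_lit 228)) (nd (nat_lit 249) (nat_lit 0) (cs (lf (nat_lit 16) (nat_lit 227)) (rf (nat_lit 0)))))) q88692 (by decide +kernel)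
def q88739 : Q := Q.p (nat_lit 0x800003000008000020000000000000000000000000000000000000000000000000000) (nat_lit 0x500003400000c00000000040000100000000000000000000000000000000000000000000000) (nat_lit 5)
theorem c88739 : QOK q88739 := cut [q22284] ⟨c22284, trivial⟩ (nd (nat_lit 274) (nat_lit 0) (cs (lf (nat_lit 41) (nat_lit 208)) (rf (nat_lit 0)))) q88739 (by decide +kernel)
def q88748 : Q := Q.p (nat_lit 0x800003000008000020000000000000000000000000000000000000000000000000000) (nat_lit 0x380000780004000004000050000140000000000000000000000000000000000000000000000) (nat_lit 7)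
theorem c88748 : QOK q88748 := cut [q88746] ⟨c88746, trivial⟩ (nd (nat_lit 274) (nat_lit 0) (cs (lf (nat_lit 41) (nat_lit 208)) (nd (nat_lit 188) (nat_lit 0) (cs (lf (nat_lit 34) (nat_lit 187)) (rf (nat_lit 0)))))) q88748 (by decide +kernel)
def q88751 : Q := Q.p (nat_lit 0x3000008000020000000000000000000000000000000000000000000000000000) (nat_lit 0x1400004000010000000000180000600001000000000000000000000000000000000000) (nat_lit 5)
theorem c88751 : QOK q88751 := cut [q88750] ⟨c88750, trivial⟩ (nd (nat_lit 187) (nat_lit 0) (cs (lf (nat_lit 41) (nat_lit 186)) (rf (nat_lit 0)))) q88751 (by decide +kernel)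
def q88758 : Q := Q.p (nat_lit 0x800003000008000020000000000000000000000000000000000000000000000000000) (nat_lit 0x300000400004c00070000040000100000000000000000000000000000000000000000000000) (nat_lit 6)
theorem c88758 : QOK q88758 := cut [q86314] ⟨c86314, trivial⟩ (nd (nat_lit 210) (nat_lit 0) (cs (lf (nat_lit 35) (nat_lit 187)) (nd (nat_lit 274) (nat_lit 0) (cs (lf (nat_lit 41) (nat_lit 208)) (rf (nat_lit 0)))))) q88758 (by decide +kernel)
def q88772 : Q := Q.p (nat_lit 0x2000008000020000000000000000000000000000000000000000000000000000) (nat_lit 0x4000018000040000100000100001c0000700001400000000000000000000000000000000000) (nat_lit 5)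
theorem c88772 : QOK q88772 := cut [q80750, q88750, q88755] ⟨c80750, c88750, c88755, trivial⟩ (nd (nat_lit 187) (nat_lit 0) (cs (rf (nat_lit 0)) (cs (rf (nat_lit 1)) (rf (nat_lit 2))))) q88772 (by decide +kernel)
def q88775 : Q := Q.p (nat_lit 0x3000008000020000000000000000000000000000000000000000000000000000) (nat_lit 0x14000040000100000000000c0000300000400000000000000000000000000000000000) (nat_lit 5)
theorem c88775 : QOK q88775 := cut [q88774] ⟨c88774, trivial⟩ (nd (nat_lit 187) (nat_lit 0) (cs (lf (nat_lit 41) (nat_lit 186)) (rf (nat_lit 0)))) q88775 (by decide +kernel)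
def q88782 : Q := Q.p (nat_lit 0x7800018000000000000000000000000000000000000000000000000000000000) (nat_lit 0x1800006000038000000000000000c0000300000c00000000000000000000000000000000000000000) (nat_lit 7)
theorem c88782 : QOK q88782 := cut [q88781] ⟨c88781, trivial⟩ (nd (nat_lit 276) (nat_lit 0) (cs (lf (nat_lit 5) (nat_lit 251)) (rf (nat_lit 0)))) q88782 (by decide +kernel)
def q88807 : Q := Q.p (nat_lit 0x3c00008000000000000000000000000000000000000000000000000000000000) (nat_lit 0x200001980000200004000010000040000000000000000000000000000000000000000000000) (nat_lit 5)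
theorem c88807 : QOK q88807 := cut [q88806] ⟨c88806, trivial⟩ (nd (nat_lit 230) (nat_lit 0) (cs (lf (nat_lit 12) (nat_lit 227)) (rf (nat_lit 0)))) q88807 (by decide +kernel)
def q88824 : Q := Q.p (nat_lit 0x3800003000008000020000000000000000000000000000000000000000000000000000) (nat_lit 0xa000000000040000740003c0000300000000000000000000000000000000000000000000000) (nat_lit 7)
theorem c88824 : QOK q88824 := cut [q88821] ⟨c88821, trivial⟩ (nd (nat_lit 210) (nat_lit 0) (cs (lf (nat_lit 35) (nat_lit 187)) (nd (nat_lit 232) (nat_lit 0) (cs (lf (nat_lit 30) (nat_lit 209)) (nd (nat_lit 233) (nat_lit 0) (cs (lf (nat_lit 6) (nat_lit 230)) (rf (nat_lit 0)))))))) q88824 (by decide +kernel)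
def q88829 : Q := Q.p (nat_lit 0x380000e000000000000000000000000000000000000000000000000000000000) (nat_lit 0x4000000000300000cc000120000480000000000000000000000000000000000000000) (nat_lit 6)
theorem c88829 : QOK q88829 := cut [q88828] ⟨c88828, trivial⟩ (nd (nat_lit 232) (nat_lit 0) (cs (lf (nat_lit 6) (nat_lit 229)) (rf (nat_lit 0)))) q88829 (by decide +kernel)
def q88834 : Q := Q.p (nat_lit 0x200003800008000000000000000000000000000000000000000000000000000000000) (nat_lit 0x400003100004000030000020000080000000000000000000000000000000000000000000000) (nat_lit 5)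
theorem c88834 : QOK q88834 := cut [q88833] ⟨c88833, trivial⟩ (nd (nat_lit 254) (nat_lit 0) (cs (lf (nat_lit 11) (nat_lit 250)) (rf (nat_lit 0)))) q88834 (by decide +kernel)
def q88847 : Q := Q.p (nat_lit 0x380000e000000000000000000000000000000000000000000000000000000000) (nat_lit 0x2000008000000000300000dc000160000580000000000000000000000000000000000000000) (nat_lit 8)
theorem c88847 : QOK q88847 := cut [q88846] ⟨c88846, trivial⟩ (nd (nat_lit 232) (nat_lit 0) (cs (lf (nat_lit 6) (nat_lit 229)) (rf (nat_lit 0)))) q88847 (by decide +kernel)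
def q88862 : Q := Q.p (nat_lit 0x380000e000000000000000000000000000000000000000000000000000000000) (nat_lit 0x400003000040000300000dc0001700005c0000000000000000000000000000000000000000) (nat_lit 10)
theorem c88862 : QOK q88862 := cut [q88858] ⟨c88858, trivial⟩ (nd (nat_lit 232) (nat_lit 0) (cs (lf (nat_lit 6) (nat_lit 229)) (nd (nat_lit 210) (nat_lit 0) (cs (lf (nat_lit 17) (nat_lit 207)) (nd (nat_lit 166) (nat_lit 0) (cs (lf (nat_lit 37) (nat_lit 165)) (nd (nat_lit 207) (nat_lit 0) (cs (lf (nat_lit 23) (nat_lit 206)) (rf (nat_lit 0)))))))))) q88862 (by decide +kernel)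
def q88865 : Q := Q.p (nat_lit 0x380000e000000000000000000000000000000000000000000000000000000000) (nat_lit 0x2000008000040000300000c0000100000400000000000000000000000000000000000000000) (nat_lit 5)
theorem c88865 : QOK q88865 := cut [q88864] ⟨c88864, trivial⟩ (nd (nat_lit 232) (nat_lit 0) (cs (lf (nat_lit 6) (nat_lit 229)) (rf (nat_lit 0)))) q88865 (by decide +kernel)
def q88872 : Q := Q.p (nat_lit 0x380000a000000000000000000000000000000000000000000000000000000000) (nat_lit 0x400003000004000031000020000080000000000000000000000000000000000000000000000) (nat_lit 5)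
theorem c88872 : QOK q88872 := cut [q88833] ⟨c88833, trivial⟩ (nd (nat_lit 254) (nat_lit 0) (cs (lf (nat_lit 23) (nat_lit 228)) (rf (nat_lit 0)))) q88872 (by decide +kernel)
def q88876 : Q := Q.p (nat_lit 0x380000a000000000000000000000000000000000000000000000000000000000) (nat_lit 0x800006000000000358000ee0000b00002c0000000000000000000000000000000000000000) (nat_lit 8)
theorem c88876 : QOK q88876 := cut [q87917, q88830, q88869] ⟨c87917, c88830, c88869, trivial⟩ (nd (nat_lit 230) (nat_lit 0) (cs (rf (nat_lit 0)) (cs (rf (nat_lit 1)) (rf (nat_lit 2))))) q88876 (by decide +kernel)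
def q88884 : Q := Q.p (nat_lit 0x380000a000000000000000000000000000000000000000000000000000000000) (nat_lit 0x4000014000070000400007400002c0000b0000000000000000000000000000000000000000000000) (nat_lit 7)
theorem c88884 : QOK q88884 := cut [q82274, q82277, q81837, q88879, q88881] ⟨c82274, c82277, c81837, c88879, c88881, trivial⟩ (nd (nat_lit 232) (nat_lit 0) (cs (rf (nat_lit 0)) (cs (rf (nat_lit 1)) (nd (nat_lit 274) (nat_lit 0) (cs (rf (nat_lit 2)) (cs (rf (nat_lit 3)) (nd (nat_lit 187) (nat_lit 0) (cs (lf (nat_lit 37) (nat_lit 186)) (rf (nat_lit 4)))))))))) q88884 (by decide +kernel)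
def q88895 : Q := Q.p (nat_lit 0x3800008000020000000000000000000000000000000000000000000000000000) (nat_lit 0xa0000000003400001e0001f8000780001400000000000000000000000000000000000) (nat_lit 10)
theorem c88895 : QOK q88895 := cut [q4090, q80750, q82299, q82307] ⟨c4090, c80750, c82299, c82307, trivial⟩ (nd (nat_lit 187) (nat_lit 0) (cs (rf (nat_lit 0)) (cs (rf (nat_lit 1)) (cs (rf (nat_lit 2)) (nd (nat_lit 166) (nat_lit 0) (cs (lf (nat_lit 34) (nat_lit 165)) (rf (nat_lit 3)))))))) q88895 (by decide +kernel)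
def q88918 : Q := Q.p (nat_lit 0x800003000008000020000000000000000000000000000000000000000000000000000) (nat_lit 0x400007400000c00000000050000140000000000000000000000000000000000000000000000) (nat_lit 6)
theorem c88918 : QOK q88918 := cut [q88916] ⟨c88916, trivial⟩ (nd (nat_lit 186) (nat_lit 0) (cs (lf (nat_lit 46) (nat_lit 186)) (nd (nat_lit 188) (nat_lit 0) (cs (lf (nat_lit 34) (nat_lit 187)) (rf (nat_lit 0)))))) q88918 (by decide +kernel)
def q88927 : Q := Q.p (nat_lit 0x3000008000020000040000000000000000000000000000000000000000000000) (nat_lit 0x1c0000700001800000800074000050000000000000000000000000000000000000000000000000000) (nat_lit 8)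
theorem c88927 : QOK q88927 := cut [q88923] ⟨c88923, trivial⟩ (nd (nat_lit 275) (nat_lit 0) (cs (lf (nat_lit 46) (nat_lit 186)) (nd (nat_lit 298) (nat_lit 0) (cs (lf (nat_lit 28) (nat_lit 209)) (nd (nat_lit 297) (nat_lit 0) (cs (lf (nat_lit 29) (nat_lit 231)) (nd (nat_lit 296) (nat_lit 0) (cs (lf (nat_lit 41) (nat_lit 230)) (rf (nat_lit 0)))))))))) q88927 (by decide +kernel)
def q88932 : Q := Q.p (nat_lit 0x800003000008000020000000000000000000000000000000000000000000000000000) (nat_lit 0x500007400000800000000040000100000000000000000000000000000000000000000000000) (nat_lit 5)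
theorem c88932 : QOK q88932 := cut [q22236] ⟨c22236, trivial⟩ (nd (nat_lit 274) (nat_lit 0) (cs (lf (nat_lit 41) (nat_lit 208)) (rf (nat_lit 0)))) q88932 (by decide +kernel)
def q88946 : Q := Q.p (nat_lit 0x80000200000800003000000000000000000000000000000000000000000000000000000000000000) (nat_lit 0x300000c000070000100000400001400000000000000000000000000000000000000000000000000000000000000000000) (nat_lit 6)
theorem c88946 : QOK q88946 := cut [q88945] ⟨c88945, trivial⟩ (nd (nat_lit 320) (nat_lit 0) (cs (lf (nat_lit 29) (nat_lit 253)) (rf (nat_lit 0)))) q88946 (by decide +kernel)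
def q89097 : Q := Q.p (nat_lit 0x100000400003000004000000000000000000000000000000000000000000000000000000000) (nat_lit 0x2000008000000000400000b800028000000000000000000000000000000000000000000000000000) (nat_lit 5)
theorem c89097 : QOK q89097 := cut [q89096] ⟨c89096, trivial⟩ (nd (nat_lit 295) (nat_lit 0) (cs (lf (nat_lit 41) (nat_lit 229)) (rf (nat_lit 0)))) q89097 (by decide +kernel)
def q89276 : Q := Q.p (nat_lit 0x300000000003000000000000000000000000000000000000000000000000000000000000000) (nat_lit 0xf80003f0001fe001ffc007ce001f780004000018000000000000000000000000000000000000000000000000000000000) (nat_lit 15)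
theorem c89276 : QOK q89276 := cut [q88954, q44212, q44153, q89143, q89205, q89215, q14318, q42029, q42082, q42088, q89034, q42037, q83801, q42086, q89238, q89267, q89122] ⟨c88954, c44212, c44153, c89143, c89205, c89215, c14318, c42029, c42082, c42088, c89034, c42037, c83801, c42086, c89238, c89267, c89122, trivial⟩ (nd (nat_lit 318) (nat_lit 0) (cs (nd (nat_lit 274) (nat_lit 0) (cs (lf (nat_lit 35) (nat_lit 230)) (rf (nat_lit 0)))) (cs (nd (nat_lit 319) (nat_lit 0) (cs (nd (nat_lit 274) (nat_lit 0) (cs (lf (nat_lit 29) (nat_lit 252)) (lf (nat_lit 35) (nat_lit 230)))) (cs (nd (nat_lit 295) (nat_lit 0) (cs (nd (nat_lit 231) (nat_lit 0) (cs (lf (nat_lit 32) (nat_lit 230)) (nd (nat_lit 294) (nat_lit 0) (cs (lf (nat_lit 0) (nat_lit 293)) (nd (nat_lit 315) (nat_lit 0) (cs (lf (nat_lit 10) (nat_lit 293)) (nd (nat_lit 272) (nat_lit 0) (cs (lf (nat_lit 23) (nat_lit 271)) (rf (nat_lit 1)))))))))) (cs (nd (nat_lit 298) (nat_lit 0) (cs (rf (nat_lit 2)) (cs (nd (nat_lit 320) (nat_lit 0) (cs (lf (nat_lit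 5) (nat_lit 295)) (nd (nat_lit 276) (nat_lit 0) (cs (lf (nat_lit 17) (nat_lit 273)) (nd (nat_lit 231) (nat_lit 0) (cs (lf (nat_lit 32) (nat_lit 230)) (lf (nat_lit 45) (nat_lit 231)))))))) (nd (nat_lit 299) (nat_lit 0) (cs (lf (nat_lit 6) (nat_lit 296)) (nd (nat_lit 321) (nat_lit 0) (cs (lf (nat_lit 5) (nat_lit 296)) (lf (nat_lit 19) (nat_lit 295))))))))) (rf (nat_lit 3))))) (cs (rf (nat_lit 4)) (rf (nat_lit 5)))))) (cs (nd (nat_lit 274) (nat_lit 0) (cs (lf (nat_lit 35) (nat_lit 230)) (rf (nat_lit 6)))) (cs (nd (nat_lit 298) (nat_lit 0) (cs (rf (nat_lit 7)) (cs (rf (nat_lit 8)) (cs (rf (nat_lit 9)) (cs (rf (nat_lit 10)) (cs (nd (nat_lit 321) (nat_lit 0) (cs (nd (nat_lit 299) (nat_lit 0) (cs (lf (nat_lit 5) (nat_lit 296)) (nd (nat_lit 277) (nat_lit 0) (cs (lf (nat_lit 17) (nat_lit 274)) (nd (nat_lit 295) (nat_lit 0) (cs (lf (nat_lit 4) (nat_lit 295)) (lf (nat_lit 16) (nat_lit 273)))))))) (cs (nd (nat_lit 299) (nat_lit 0) (cs (lf (nat_lit 5) (nat_lit 296)) (rf (nat_lit 11)))) (cs (nd (nat_lit 295)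 (nat_lit 0) (cs (lf (nat_lit 4) (nat_lit 295)) (nd (nat_lit 276) (nat_lit 0) (cs (lf (nat_lit 17) (nat_lit 273)) (nd (nat_lit 272) (nat_lit 0) (cs (lf (nat_lit 22) (nat_lit 272)) (nd (nat_lit 294) (nat_lit 0) (cs (lf (nat_lit 23) (nat_lit 271)) (nd (nat_lit 293) (nat_lit 0) (cs (lf (nat_lit 5) (nat_lit 293)) (rf (nat_lit 12)))))))))))) (nd (nat_lit 299) (nat_lit 0) (cs (lf (nat_lit 5) (nat_lit 296)) (rf (nat_lit 13)))))))) (nd (nat_lit 299) (nat_lit 0) (cs (lf (nat_lit 11) (nat_lit 295)) (nd (nat_lit 277) (nat_lit 0) (cs (lf (nat_lit 17) (nat_lit 274)) (nd (nat_lit 276) (nat_lit 0) (cs (lf (nat_lit 12) (nat_lit 273)) (rf (nat_lit 14)))))))))))))) (cs (rf (nat_lit 15)) (nd (nat_lit 274) (nat_lit 0) (cs (lf (nat_lit 35) (nat_lit 230)) (nd (nat_lit 319) (nat_lit 0) (cs (lf (nat_lit 29) (nat_lit 252)) (nd (nat_lit 339) (nat_lit 0) (cs (lf (nat_lit 40) (nat_lit 251)) (nd (nat_lit 340) (nat_lit 0) (cs (lf (nat_lit 41) (nat_lit 273)) (nd (nat_lit 362) (nat_lit 0) (cs (lf (nat_lit 30) (nat_lit 296))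 (nd (nat_lit 363) (nat_lit 0) (cs (lf (nat_lit 29) (nat_lit 296)) (nd (nat_lit 364) (nat_lit 0) (cs (lf (nat_lit 18) (nat_lit 339)) (nd (nat_lit 337) (nat_lit 0) (cs (lf (nat_lit 1) (nat_lit 337)) (rf (nat_lit 16)))))))))))))))))))))))) q89276 (by decide +kernel)
def q89351 : Q := Q.p (nat_lit 0x300000000003000000000000000000000000000000000000000000000000000000000000000) (nat_lit 0xa00003a0000f800077c001cf000ffe000460000780001c000000000000000000000000000000000000000000000000000) (nat_lit 13)
theorem c89351 : QOK q89351 := cut [q89025, q84171, q89106, q83899, q89299, q88548, q89308, q41955, q89110, q89312, q89315, q89317, q11731, q89322, q89330, q89332, q86656, q89350] ⟨c89025, c84171, c89106, c83899, c89299, c88548, c89308, c41955, c89110, c89312, c89315, c89317, c11731, c89322, c89330, c89332, c86656, c89350, trivial⟩ (nd (nat_lit 295) (nat_lit 0) (cs (rf (nat_lit 0)) (cs (nd (nat_lit 274) (nat_lit 0) (cs (rf (nat_lit 1)) (cs (nd (nat_lit 294) (nat_lit 0) (cs (rf (nat_lit 2)) (cs (nd (nat_lit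 272) (nat_lit 0) (cs (lf (nat_lit 23) (nat_lit 271)) (nd (nat_lit 275) (nat_lit 0) (cs (lf (nat_lit 17) (nat_lit 272)) (nd (nat_lit 318) (nat_lit 0) (cs (lf (nat_lit 30) (nat_lit 252)) (nd (nat_lit 273) (nat_lit 0) (cs (lf (nat_lit 17) (nat_lit 250)) (nd (nat_lit 315) (nat_lit 0) (cs (lf (nat_lit 10) (nat_lit 293)) (nd (nat_lit 230) (nat_lit 0) (cs (lf (nat_lit 36) (nat_lit 207)) (nd (nat_lit 250) (nat_lit 0) (cs (lf (nat_lit 23) (nat_lit 249)) (rf (nat_lit 3)))))))))))))))) (rf (nat_lit 4))))) (cs (nd (nat_lit 294) (nat_lit 0) (cs (rf (nat_lit 2)) (cs (rf (nat_lit 4)) (nd (nat_lit 272) (nat_lit 0) (cs (lf (nat_lit 23) (nat_lit 271)) (nd (nat_lit 275) (nat_lit 0) (cs (lf (nat_lit 17) (nat_lit 272)) (nd (nat_lit 318) (nat_lit 0) (cs (lf (nat_lit 30) (nat_lit 252)) (nd (nat_lit 317) (nat_lit 0) (cs (lf (nat_lit 41) (nat_lit 251)) (nd (nat_lit 315) (nat_lit 0) (cs (lf (nat_lit 13) (nat_lit 293)) (nd (nat_lit 273) (nat_lit 0) (cs (lf (nat_lit 17) (nat_lit 250)) (rf (nat_lit 5))))))))))))))))) (nd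 (nat_lit 230) (nat_lit 0) (cs (lf (nat_lit 41) (nat_lit 229)) (rf (nat_lit 6)))))))) (cs (nd (nat_lit 294) (nat_lit 0) (cs (rf (nat_lit 7)) (cs (rf (nat_lit 8)) (rf (nat_lit 9))))) (cs (nd (nat_lit 317) (nat_lit 0) (cs (nd (nat_lit 298) (nat_lit 0) (cs (lf (nat_lit 11) (nat_lit 294)) (rf (nat_lit 10)))) (rf (nat_lit 11)))) (cs (nd (nat_lit 294) (nat_lit 0) (cs (rf (nat_lit 7)) (cs (rf (nat_lit 9)) (cs (nd (nat_lit 271) (nat_lit 0) (cs (lf (nat_lit 22) (nat_lit 271)) (nd (nat_lit 275) (nat_lit 0) (cs (rf (nat_lit 12)) (lf (nat_lit 17) (nat_lit 272)))))) (nd (nat_lit 275) (nat_lit 0) (cs (lf (nat_lit 17) (nat_lit 272)) (nd (nat_lit 271) (nat_lit 0) (cs (lf (nat_lit 22) (nat_lit 271)) (nd (nat_lit 316) (nat_lit 0) (cs (lf (nat_lit 11) (nat_lit 293)) (nd (nat_lit 298) (nat_lit 0) (cs (lf (nat_lit 10) (nat_lit 294)) (nd (nat_lit 321) (nat_lit 0) (cs (lf (nat_lit 4) (nat_lit 295)) (rf (nat_lit 13)))))))))))))))) (cs (nd (nat_lit 298) (nat_lit 0) (cs (rf (nat_lit 10)) (rf (nat_lit 14)))) (cs (nd (nat_lit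 317) (nat_lit 0) (cs (rf (nat_lit 11)) (cs (nd (nat_lit 298) (nat_lit 0) (cs (lf (nat_lit 11) (nat_lit 294)) (nd (nat_lit 272) (nat_lit 0) (cs (lf (nat_lit 22) (nat_lit 272)) (nd (nat_lit 271) (nat_lit 0) (cs (lf (nat_lit 21) (nat_lit 271)) (rf (nat_lit 15)))))))) (cs (nd (nat_lit 298) (nat_lit 0) (cs (lf (nat_lit 11) (nat_lit 294)) (nd (nat_lit 230) (nat_lit 0) (cs (rf (nat_lit 15)) (lf (nat_lit 38) (nat_lit 229)))))) (nd (nat_lit 298) (nat_lit 0) (cs (lf (nat_lit 11) (nat_lit 294)) (nd (nat_lit 272) (nat_lit 0) (cs (lf (nat_lit 22) (nat_lit 272)) (nd (nat_lit 271) (nat_lit 0) (cs (lf (nat_lit 21) (nat_lit 271)) (nd (nat_lit 274) (nat_lit 0) (cs (lf (nat_lit 36) (nat_lit 229)) (nd (nat_lit 339) (nat_lit 0) (cs (lf (nat_lit 30) (nat_lit 273)) (rf (nat_lit 16)))))))))))))))) (rf (nat_lit 17)))))))))) q89351 (by decide +kernel)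
def q89372 : Q := Q.p (nat_lit 0x300000800002000000000000000000000000000000000000000000000000000000000000000) (nat_lit 0xa00003a0000e800077c000cf80073f0000400001000000000000000000000000000000000000000000000000000000000) (nat_lit 10)
theorem c89372 : QOK q89372 := cut [q11728, q41956, q44960, q88983, q88986, q89348, q89357, q88966, q14241, q14500, q89370] ⟨c11728, c41956, c44960, c88983, c88986, c89348, c89357, c88966, c14241, c14500, c89370, trivial⟩ (nd (nat_lit 295) (nat_lit 0) (cs (rf (nat_lit 0)) (cs (rf (nat_lit 1)) (cs (nd (nat_lit 298) (nat_lit 0) (cs (rf (nat_lit 2)) (cs (rf (nat_lit 3)) (cs (rf (nat_lit 4)) (rf (nat_lit 5)))))) (nd (nat_lit 272) (nat_lit 0) (cs (rf (nat_lit 6)) (cs (nd (nat_lit 298) (nat_lit 0) (cs (lf (nat_lit 22) (nat_lit 272)) (nd (nat_lit 317) (nat_lit 0) (cs (lf (nat_lit 11) (nat_lit 294)) (nd (nat_lit 321) (nat_lit 0) (cs (lf (nat_lit 4) (nat_lit 295)) (nd (nat_lit 299) (nat_lit 0) (cs (lf (nat_lit 5) (nat_lit 296)) (lf (nat_lit 10) (nat_lit 295)))))))))) (cs (nd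 (nat_lit 294) (nat_lit 0) (cs (lf (nat_lit 23) (nat_lit 271)) (nd (nat_lit 317) (nat_lit 0) (cs (nd (nat_lit 339) (nat_lit 0) (cs (lf (nat_lit 42) (nat_lit 272)) (rf (nat_lit 7)))) (cs (nd (nat_lit 315) (nat_lit 0) (cs (lf (nat_lit 10) (nat_lit 293)) (nd (nat_lit 293) (nat_lit 0) (cs (lf (nat_lit 11) (nat_lit 292)) (nd (nat_lit 292) (nat_lit 0) (cs (lf (nat_lit 5) (nat_lit 292)) (nd (nat_lit 291) (nat_lit 0) (cs (rf (nat_lit 8)) (lf (nat_lit 17) (nat_lit 269)))))))))) (nd (nat_lit 316) (nat_lit 0) (cs (lf (nat_lit 11) (nat_lit 293)) (rf (nat_lit 9))))))))) (rf (nat_lit 10)))))))))) q89372 (by decide +kernel)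
def q89387 : Q := Q.p (nat_lit 0x300000800003000000000000000000000000000000000000000000000000000000000000000) (nat_lit 0xa0000380000e00003380004c000738000400007c0001f0000140000000000000000000000000000000000000000000000) (nat_lit 10)
theorem c89387 : QOK q89387 := cut [q89375, q89376, q28145, q89381] ⟨c89375, c89376, c28145, c89381, trivial⟩ (nd (nat_lit 298) (nat_lit 0) (cs (rf (nat_lit 0)) (cs (rf (nat_lit 1)) (nd (nat_lit 276) (nat_lit 0) (cs (rf (nat_lit 2)) (cs (nd (nat_lit 231) (nat_lit 0) (cs (lf (nat_lit 24) (nat_lit 209)) (nd (nat_lit 294) (nat_lit 0) (cs (lf (nat_lit 13) (nat_lit 272)) (rf (nat_lit 3)))))) (nd (nat_lit 277) (nat_lit 0) (cs (lf (nat_lit 18) (nat_lit 252)) (nd (nat_lit 231) (nat_lit 0) (cs (lf (nat_lit 24) (nat_lit 209)) (rf (nat_lit 3)))))))))))) q89387 (by decide +kernel)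
def q89394 : Q := Q.p (nat_lit 0x300000800003000008000000000000000000000000000000000000000000000000000000000) (nat_lit 0x3c0000e00015c0004000017800058000000000000000000000000000000000000000000000000000) (nat_lit 7)
theorem c89394 : QOK q89394 := cut [q41956, q89391] ⟨c41956, c89391, trivial⟩ (nd (nat_lit 295) (nat_lit 0) (cs (rf (nat_lit 0)) (nd (nat_lit 230) (nat_lit 0) (cs (lf (nat_lit 47) (nat_lit 208)) (nd (nat_lit 210) (nat_lit 0) (cs (lf (nat_lit 34) (nat_lit 209)) (rf (nat_lit 1)))))))) q89394 (by decide +kernel)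
def q89395 : Q := Q.p (nat_lit 0x20000000000300000c000000000000000000000000000000000000000000000000000000000) (nat_lit 0xc0000000003200001e0000e0000380000000000000000000000000000000000000000) (nat_lit 8)
theorem c89395 : QOK q89395 := cut [q84415] ⟨c84415, trivial⟩ (nd (nat_lit 208) (nat_lit 0) (cs (rf (nat_lit 0)) (lf (nat_lit 43) (nat_lit 208)))) q89395 (by decide +kernel)
def q89397 : Q := Q.p (nat_lit 0x20000000000200000c000000000000000000000000000000000000000000000000000000000) (nat_lit 0x100000400001800000000010000070000100000000000000000000000000000000000000000000000) (nat_lit 5)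
theorem c89397 : QOK q89397 := cut [q32034] ⟨c32034, trivial⟩ (nd (nat_lit 275) (nat_lit 0) (cs (rf (nat_lit 0)) (lf (nat_lit 47) (nat_lit 208)))) q89397 (by decide +kernel)
def q89410 : Q := Q.p (nat_lit 0x300000800003000000000000000000000000000000000000000000000000000000000000000) (nat_lit 0xa0000380000e0000f38003cc00077800040000780000e0000100000000000000000000000000000000000000000000000) (nat_lit 10)
theorem c89410 : QOK q89410 := cut [q89376, q89398, q28145, q89402, q80283] ⟨c89376, c89398, c28145, c89402, c80283, trivial⟩ (nd (nat_lit 298) (nat_lit 0) (cs (rf (nat_lit 0)) (cs (rf (nat_lit 1)) (nd (nat_lit 276) (nat_lit 0) (cs (rf (nat_lit 2)) (cs (nd (nat_lit 209) (nat_lit 0) (cs (lf (nat_lit 25) (nat_lit 209)) (rf (nat_lit 3)))) (nd (nat_lit 277) (nat_lit 0) (cs (lf (nat_lit 18) (nat_lit 252)) (nd (nat_lit 231) (nat_lit 0) (cs (lf (nat_lit 24) (nat_lit 209)) (nd (nat_lit 232) (nat_lit 0) (cs (lf (nat_lit 35) (nat_lit 209)) (nd (nat_lit 233) (nat_lit 0) (cs (lf (nat_lit 6) (nat_lit 230))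 (nd (nat_lit 254) (nat_lit 0) (cs (lf (nat_lit 35) (nat_lit 210)) (rf (nat_lit 4)))))))))))))))))) q89410 (by decide +kernel)
def q89419 : Q := Q.p (nat_lit 0x300000800003000000000000000000000000000000000000000000000000000000000000000) (nat_lit 0xa0000380000e800073c000ce00077c0004400005000010000000000000000000000000000000000000000000000000000) (nat_lit 11)
theorem c89419 : QOK q89419 := cut [q11666, q41956, q89350, q89370, q83845, q89417] ⟨c11666, c41956, c89350, c89370, c83845, c89417, trivial⟩ (nd (nat_lit 295) (nat_lit 0) (cs (rf (nat_lit 0)) (cs (rf (nat_lit 1)) (cs (rf (nat_lit 2)) (nd (nat_lit 272) (nat_lit 0) (cs (rf (nat_lit 3)) (cs (nd (nat_lit 273) (nat_lit 0) (cs (lf (nat_lit 18) (nat_lit 272)) (nd (nat_lit 274) (nat_lit 0) (cs (lf (nat_lit 17) (nat_lit 250)) (rf (nat_lit 4)))))) (rf (nat_lit 5))))))))) q89419 (by decide +kernel)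
def q89423 : Q := Q.p (nat_lit 0x300000c00003000004000000000000000000000000000000000000000000000000000000000) (nat_lit 0x200004e0000380004000000000000000000000000000000000000000000000000000000000000000) (nat_lit 5)
theorem c89423 : QOK q89423 := cut [q89422] ⟨c89422, trivial⟩ (nd (nat_lit 295) (nat_lit 0) (cs (lf (nat_lit 41) (nat_lit 229)) (rf (nat_lit 0)))) q89423 (by decide +kernel)
def q89455 : Q := Q.p (nat_lit 0x300000c00001000000000000000000000000000000000000000000000000000000000000000) (nat_lit 0x200000c0003000000000006000018000000000000000000000000000000000000000000000000000) (nat_lit 5)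
theorem c89455 : QOK q89455 := cut [q89454] ⟨c89454, trivial⟩ (nd (nat_lit 230) (nat_lit 0) (cs (lf (nat_lit 24) (nat_lit 208)) (rf (nat_lit 0)))) q89455 (by decide +kernel)
def q89468 : Q := Q.p (nat_lit 0x300001c000000000000000000000000000000000000000000000000000000000) (nat_lit 0x620001f8000160000580000000000000000000000000000000000000000) (nat_lit 8)
theorem c89468 : QOK q89468 := cut [q89467] ⟨c89467, trivial⟩ (nd (nat_lit 233) (nat_lit 0) (cs (lf (nat_lit 6) (nat_lit 230)) (rf (nat_lit 0)))) q89468 (by decide +kernel)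
def q89527 : Q := Q.p (nat_lit 0x200000800003000000000000000000000000000000000000000000000000000000000000000) (nat_lit 0x1000004000014000040001ff8003fe000ff8001e0000700001c000040000000000000000000000000) (nat_lit 13)
theorem c89527 : QOK q89527 := cut [q11580, q78727, q84318, q89494, q16425, q82330, q67990, q84533, q55978, q55971, q186, q89503, q15438, q83739, q87, q89519, q89522, q11867, q89525] ⟨c11580, c78727, c84318, c89494, c16425, c82330, c67990, c84533, c55978, c55971, c186, c89503, c15438, c83739, c87, c89519, c89522, c11867, c89525, trivial⟩ (nd (nat_lit 208) (nat_lit 0) (cs (nd (nat_lit 209) (nat_lit 0) (cs (nd (nat_lit 231) (nat_lit 0) (cs (lf (nat_lit 47) (nat_lit 186)) (rf (nat_lit 0)))) (cs (nd (nat_lit 210) (nat_lit 0) (cs (nd (nat_lit 211) (nat_lit 0) (cs (rf (nat_lit 1)) (cs (rf (nat_lit 2)) (rf (nat_lit 3))))) (cs (nd (nat_lit 211) (nat_lit 0) (cs (rf (nat_lit 4)) (cs (rf (nat_lit 1)) (cs (rf (nat_lit 5)) (nd (nat_lit 189) (nat_lit 0) (cs (lf (nat_lit 17) (nat_lit 186)) (nd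 (nat_lit 167) (nat_lit 0) (cs (rf (nat_lit 6)) (cs (rf (nat_lit 7)) (cs (nd (nat_lit 186) (nat_lit 0) (cs (lf (nat_lit 23) (nat_lit 185)) (nd (nat_lit 233) (nat_lit 0) (cs (lf (nat_lit 5) (nat_lit 208)) (nd (nat_lit 232) (nat_lit 0) (cs (rf (nat_lit 8)) (lf (nat_lit 41) (nat_lit 166)))))))) (nd (nat_lit 185) (nat_lit 0) (cs (lf (nat_lit 22) (nat_lit 185)) (rf (nat_lit 9)))))))))))))) (cs (nd (nat_lit 207) (nat_lit 0) (cs (rf (nat_lit 10)) (nd (nat_lit 232) (nat_lit 0) (cs (lf (nat_lit 5) (nat_lit 207)) (rf (nat_lit 11)))))) (cs (nd (nat_lit 211) (nat_lit 0) (cs (rf (nat_lit 12)) (cs (rf (nat_lit 3)) (cs (nd (nat_lit 233) (nat_lit 0) (cs (lf (nat_lit 5) (nat_lit 208)) (nd (nat_lit 207) (nat_lit 0) (cs (lf (nat_lit 4) (nat_lit 207)) (nd (nat_lit 228) (nat_lit 0) (cs (lf (nat_lit 10) (nat_lit 206)) (nd (nat_lit 206) (nat_lit 0) (cs (lf (nat_lit 11) (nat_lit 205)) (nd (nat_lit 187) (nat_lit 0) (cs (lf (nat_lit 17) (nat_lit 184)) (nd (nat_lit 186) (nat_lit 0) (cs (lf (nat_lit 18) (nat_lit 186)) (lf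 (nat_lit 12) (nat_lit 183)))))))))))))) (nd (nat_lit 190) (nat_lit 0) (cs (lf (nat_lit 16) (nat_lit 186)) (nd (nat_lit 212) (nat_lit 0) (cs (lf (nat_lit 17) (nat_lit 187)) (nd (nat_lit 187) (nat_lit 0) (cs (lf (nat_lit 23) (nat_lit 186)) (nd (nat_lit 188) (nat_lit 0) (cs (lf (nat_lit 18) (nat_lit 187)) (nd (nat_lit 207) (nat_lit 0) (cs (lf (nat_lit 12) (nat_lit 184)) (rf (nat_lit 13)))))))))))))))) (nd (nat_lit 207) (nat_lit 0) (cs (rf (nat_lit 14)) (cs (rf (nat_lit 10)) (rf (nat_lit 15)))))))))) (cs (rf (nat_lit 16)) (nd (nat_lit 231) (nat_lit 0) (cs (rf (nat_lit 0)) (rf (nat_lit 17)))))))) (cs (rf (nat_lit 18)) (nd (nat_lit 230) (nat_lit 0) (cs (lf (nat_lit 27) (nat_lit 208)) (lf (nat_lit 45) (nat_lit 208))))))) q89527 (by decide +kernel)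
def q89587 : Q := Q.p (nat_lit 0x80000200000800002000000000000000000000000000000000000000000000000000000000000000) (nat_lit 0x14000070000140000000000000004000010000000000000000000000000000000000000000000000000000000000) (nat_lit 5)
theorem c89587 : QOK q89587 := cut [q2579] ⟨c2579, trivial⟩ (nd (nat_lit 232) (nat_lit 0) (cs (rf (nat_lit 0)) (lf (nat_lit 34) (nat_lit 231)))) q89587 (by decide +kernel)
def q89613 : Q := Q.p (nat_lit 0x200000800002000000000000000000000000000000000000000000000000000000000000000) (nat_lit 0x140000700001c0000500000000004000018000040000000000000000000000000000000000000000000000000000) (nat_lit 5)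
theorem c89613 : QOK q89613 := cut [q2579, q88944, q89529] ⟨c2579, c88944, c89529, trivial⟩ (nd (nat_lit 319) (nat_lit 0) (cs (rf (nat_lit 0)) (cs (rf (nat_lit 1)) (rf (nat_lit 2))))) q89613 (by decide +kernel)
def q89643 : Q := Q.p (nat_lit 0x300000c00003000008000000000000000000000000000000000000000000000000000000000) (nat_lit 0x200000e0000000004000007800018000000000000000000000000000000000000000000000000000) (nat_lit 6)
theorem c89643 : QOK q89643 := cut [q89642] ⟨c89642, trivial⟩ (nd (nat_lit 230) (nat_lit 0) (cs (lf (nat_lit 24) (nat_lit 208)) (rf (nat_lit 0)))) q89643 (by decide +kernel)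
def q89671 : Q := Q.p (nat_lit 0x200001800002000000000000000000000000000000000000000000000000000000000) (nat_lit 0x6000018000040000000000400001c0000700001c0000000000000000000000000000000000000000) (nat_lit 7)
theorem c89671 : QOK q89671 := cut [q80587, q86851, q87147] ⟨c80587, c86851, c87147, trivial⟩ (nd (nat_lit 295) (nat_lit 0) (cs (rf (nat_lit 0)) (cs (rf (nat_lit 1)) (nd (nat_lit 296) (nat_lit 0) (cs (lf (nat_lit 29) (nat_lit 229)) (nd (nat_lit 207) (nat_lit 0) (cs (lf (nat_lit 28) (nat_lit 207)) (nd (nat_lit 184) (nat_lit 0) (cs (lf (nat_lit 46) (nat_lit 184)) (nd (nat_lit 230) (nat_lit 0) (cs (lf (nat_lit 30) (nat_lit 229)) (rf (nat_lit 2))))))))))))) q89671 (by decide +kernel)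
def q89679 : Q := Q.p (nat_lit 0x200003800002000008000000000000000000000000000000000000000000000000000) (nat_lit 0x400005c0000000000000014000050000000000000000000000000000000000000000000000) (nat_lit 5)
theorem c89679 : QOK q89679 := cut [q15363] ⟨c15363, trivial⟩ (nd (nat_lit 186) (nat_lit 0) (cs (rf (nat_lit 0)) (lf (nat_lit 34) (nat_lit 185)))) q89679 (by decide +kernel)
def q89688 : Q := Q.p (nat_lit 0x3800002000008000000000000000000000000000000000000000000000000000) (nat_lit 0xa000000000058000140003f00003c0000500000000000000000000000000000000000) (nat_lit 9)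
theorem c89688 : QOK q89688 := cut [q5481, q11483, q85444, q85407] ⟨c5481, c11483, c85444, c85407, trivial⟩ (nd (nat_lit 185) (nat_lit 0) (cs (rf (nat_lit 0)) (cs (rf (nat_lit 1)) (cs (rf (nat_lit 2)) (nd (nat_lit 162) (nat_lit 0) (cs (lf (nat_lit 46) (nat_lit 162)) (nd (nat_lit 186) (nat_lit 0) (cs (lf (nat_lit 35) (nat_lit 163)) (nd (nat_lit 208) (nat_lit 0) (cs (lf (nat_lit 30) (nat_lit 185)) (rf (nat_lit 3)))))))))))) q89688 (by decide +kernel)
def q89691 : Q := Q.p (nat_lit 0x3800000000000000000000000000000000000000000000000000000000000000) (nat_lit 0x3dc0004600003c00000000000000000000000000000000000000000000000000000000) (nat_lit 5)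
theorem c89691 : QOK q89691 := cut [q2065, q3764, q88804] ⟨c2065, c3764, c88804, trivial⟩ (nd (nat_lit 250) (nat_lit 0) (cs (rf (nat_lit 0)) (cs (rf (nat_lit 1)) (rf (nat_lit 2))))) q89691 (by decide +kernel)
def q89695 : Q := Q.p (nat_lit 0x3800000000000000000000000000000000000000000000000000000000000000) (nat_lit 0x3fc0004600001c00000000000000000000000000000000000000000000000000000000) (nat_lit 6)
theorem c89695 : QOK q89695 := cut [q2065, q3764, q40524, q89692] ⟨c2065, c3764, c40524, c89692, trivial⟩ (nd (nat_lit 250) (nat_lit 0) (cs (rf (nat_lit 0)) (cs (rf (nat_lit 1)) (cs (rf (nat_lit 2)) (nd (nat_lit 276) (nat_lit 0) (cs (lf (nat_lit 4) (nat_lit 250)) (nd (nat_lit 227) (nat_lit 0) (cs (lf (nat_lit 22) (nat_lit 227)) (rf (nat_lit 3)))))))))) q89695 (by decide +kernel)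
def q89757 : Q := Q.p (nat_lit 0x3800000000000000000000000000000000000000000000000000000000000000) (nat_lit 0x3bc0004600003c00000000000000000000000000000000000000000000000000000000) (nat_lit 5)
theorem c89757 : QOK q89757 := cut [q2065, q88804, q89756] ⟨c2065, c88804, c89756, trivial⟩ (nd (nat_lit 250) (nat_lit 0) (cs (rf (nat_lit 0)) (cs (rf (nat_lit 1)) (rf (nat_lit 2))))) q89757 (by decide +kernel)
def q89773 : Q := Q.p (nat_lit 0x300000c00003000000000000000000000000000000000000000000000000000000000000000) (nat_lit 0x600007800004c0000000004000010000000000000000000000000000000000000000000000000000000000) (nat_lit 6)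
theorem c89773 : QOK q89773 := cut [q14913] ⟨c14913, trivial⟩ (nd (nat_lit 319) (nat_lit 0) (cs (lf (nat_lit 42) (nat_lit 252)) (nd (nat_lit 232) (nat_lit 0) (cs (rf (nat_lit 0)) (lf (nat_lit 34) (nat_lit 231)))))) q89773 (by decide +kernel)
def q89807 : Q := Q.p (nat_lit 0xe00003800000000000000000000000000000000000000000000000000000000000000) (nat_lit 0x40000120000cc0003000000000004000010000000000000000000000000000000000000000000000000000) (nat_lit 6)
theorem c89807 : QOK q89807 := cut [q89806] ⟨c89806, trivial⟩ (nd (nat_lit 276) (nat_lit 0) (cs (lf (nat_lit 18) (nat_lit 251)) (rf (nat_lit 0)))) q89807 (by decide +kernel)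
def q89819 : Q := Q.p (nat_lit 0x800003800000000000000000000000000000000000000000000000000000000000000) (nat_lit 0x380000f0000fe00077c0004000036000058000140000000000000000000000000000000000000000000000) (nat_lit 10)
theorem c89819 : QOK q89819 := cut [q88302, q89798, q89804, q2059, q89792, q89817] ⟨c88302, c89798, c89804, c2059, c89792, c89817, trivial⟩ (nd (nat_lit 273) (nat_lit 0) (cs (rf (nat_lit 0)) (cs (rf (nat_lit 1)) (cs (rf (nat_lit 2)) (nd (nat_lit 274) (nat_lit 0) (cs (rf (nat_lit 3)) (cs (rf (nat_lit 4)) (rf (nat_lit 5))))))))) q89819 (by decide +kernel)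
def q89826 : Q := Q.p (nat_lit 0x3c00000000000000000000000000000000000000000000000000000000000000) (nat_lit 0x300000c0001b8000000000380000e0000380000a0000000000000000000000000000000000000000) (nat_lit 9)
theorem c89826 : QOK q89826 := cut [q40537, q52457, q40795] ⟨c40537, c52457, c40795, trivial⟩ (nd (nat_lit 228) (nat_lit 0) (cs (lf (nat_lit 23) (nat_lit 227)) (nd (nat_lit 295) (nat_lit 0) (cs (rf (nat_lit 0)) (cs (nd (nat_lit 272) (nat_lit 0) (cs (lf (nat_lit 11) (nat_lit 249)) (nd (nat_lit 275) (nat_lit 0) (cs (lf (nat_lit 5) (nat_lit 250)) (rf (nat_lit 1)))))) (nd (nat_lit 272) (nat_lit 0) (cs (lf (nat_lit 11) (nat_lit 249)) (nd (nat_lit 275) (nat_lit 0) (cs (lf (nat_lit 5) (nat_lit 250)) (rf (nat_lit 2))))))))))) q89826 (by decide +kernel)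
def q89839 : Q := Q.p (nat_lit 0x3800002000000000000000000000000000000000000000000000000000000000) (nat_lit 0x100000c00007f0000780005e0000c000030000000000000000000000000000000000000000000000) (nat_lit 8)
theorem c89839 : QOK q89839 := cut [q78664, q15253, q89833, q89836, q85528] ⟨c78664, c15253, c89833, c89836, c85528, trivial⟩ (nd (nat_lit 250) (nat_lit 0) (cs (rf (nat_lit 0)) (cs (nd (nat_lit 227) (nat_lit 0) (cs (lf (nat_lit 22) (nat_lit 227)) (nd (nat_lit 249) (nat_lit 0) (cs (lf (nat_lit 23) (nat_lit 226)) (nd (nat_lit 248) (nat_lit 0) (cs (lf (nat_lit 17) (nat_lit 226)) (rf (nat_lit 1)))))))) (cs (rf (nat_lit 2)) (cs (rf (nat_lit 3)) (nd (nat_lit 272) (nat_lit 0) (cs (lf (nat_lit 11) (nat_lit 249)) (nd (nat_lit 227) (nat_lit 0) (cs (lf (nat_lit 22) (nat_lit 227)) (rf (nat_lit 4))))))))))) q89839 (by decide +kernel)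
def q89847 : Q := Q.p (nat_lit 0x80000200003800002000000000000000000000000000000000000000000000000000000000) (nat_lit 0x50000140000000000000005800014000000000000000000000000000000000000000000000000000) (nat_lit 5)
theorem c89847 : QOK q89847 := cut [q89846] ⟨c89846, trivial⟩ (nd (nat_lit 296) (nat_lit 0) (cs (lf (nat_lit 29) (nat_lit 229)) (rf (nat_lit 0)))) q89847 (by decide +kernel)
def q89852 : Q := Q.p (nat_lit 0x20000080000200001800000000000000000000000000000000000000000000000000000000000000) (nat_lit 0x1800004000010000040000000000300000c000030000000000000000000000000000000000000000000000) (nat_lit 6)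
theorem c89852 : QOK q89852 := cut [q89851] ⟨c89851, trivial⟩ (nd (nat_lit 318) (nat_lit 0) (cs (lf (nat_lit 29) (nat_lit 251)) (rf (nat_lit 0)))) q89852 (by decide +kernel)
def q89869 : Q := Q.p (nat_lit 0x3c00008000000000000000000000000000000000000000000000000000000000) (nat_lit 0x20000080000780004200004000010000040000000000000000000000000000000000000000000000) (nat_lit 6)
theorem c89869 : QOK q89869 := cut [q89868] ⟨c89868, trivial⟩ (nd (nat_lit 230) (nat_lit 0) (cs (lf (nat_lit 12) (nat_lit 227)) (rf (nat_lit 0)))) q89869 (by decide +kernel)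
def q89876 : Q := Q.p (nat_lit 0x3800000000000000000000000000000000000000000000000000000000000000) (nat_lit 0x1c000460003fc00000000000000000000000000000000000000000000000000000000) (nat_lit 6)
theorem c89876 : QOK q89876 := cut [q2065, q6264, q23543, q89875] ⟨c2065, c6264, c23543, c89875, trivial⟩ (nd (nat_lit 250) (nat_lit 0) (cs (rf (nat_lit 0)) (cs (rf (nat_lit 1)) (cs (rf (nat_lit 2)) (rf (nat_lit 3)))))) q89876 (by decide +kernel)
def q89894 : Q := Q.p (nat_lit 0x200003800008000000000000000000000000000000000000000000000000000000000) (nat_lit 0x1c0000f00001f000140000400000600007c0003f0000740001400000000000000000000000000000000000) (nat_lit 10)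
theorem c89894 : QOK q89894 := cut [q80583, q86851, q82300, q82301, q84848, q86853, q22892, q85504, q4090, q80750, q82299, q89893] ⟨c80583, c86851, c82300, c82301, c84848, c86853, c22892, c85504, c4090, c80750, c82299, c89893, trivial⟩ (nd (nat_lit 295) (nat_lit 0) (cs (rf (nat_lit 0)) (cs (rf (nat_lit 1)) (cs (nd (nat_lit 209) (nat_lit 0) (cs (rf (nat_lit 2)) (cs (rf (nat_lit 3)) (cs (nd (nat_lit 296) (nat_lit 0) (cs (rf (nat_lit 4)) (cs (rf (nat_lit 5)) (cs (nd (nat_lit 229) (nat_lit 0) (cs (lf (nat_lit 29) (nat_lit 229)) (nd (nat_lit 294) (nat_lit 0) (cs (lf (nat_lit 41) (nat_lit 228)) (nd (nat_lit 208) (nat_lit 0) (cs (lf (nat_lit 34) (nat_lit 207)) (nd (nat_lit 207) (nat_lit 0) (cs (lf (nat_lit 35) (nat_lit 185)) (rf (nat_lit 6)))))))))) (nd (nat_lit 230) (nat_lit 0) (cs (rf (nat_lit 7)) (lf (nat_lit 31) (nat_lit 208)))))))) (nd (nat_lit 187) (nat_lit 0) (cs (rf (nat_lit 8)) (cs (rf (nat_lit 9)) (cs (rf (nat_lit 10)) (nd (nat_lit 188) (nat_lit 0) (cs (lf (nat_lit 35) (nat_lit 165)) (nd (nat_lit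 254) (nat_lit 0) (cs (lf (nat_lit 29) (nat_lit 187)) (nd (nat_lit 186) (nat_lit 0) (cs (lf (nat_lit 47) (nat_lit 164)) (nd (nat_lit 208) (nat_lit 0) (cs (lf (nat_lit 38) (nat_lit 185)) (nd (nat_lit 207) (nat_lit 0) (cs (lf (nat_lit 6) (nat_lit 185)) (lf (nat_lit 32) (nat_lit 185)))))))))))))))))))) (rf (nat_lit 11)))))) q89894 (by decide +kernel)
def q89928 : Q := Q.p (nat_lit 0x3800000000000000000000000000000000000000000000000000000000000000) (nat_lit 0x3c000460003bc00000000000000000000000000000000000000000000000000000000) (nat_lit 5)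
theorem c89928 : QOK q89928 := cut [q2065, q89874, q89927] ⟨c2065, c89874, c89927, trivial⟩ (nd (nat_lit 250) (nat_lit 0) (cs (rf (nat_lit 0)) (cs (rf (nat_lit 1)) (rf (nat_lit 2))))) q89928 (by decide +kernel)
def q89933 : Q := Q.p (nat_lit 0x40000300000c000000000000000000000000000000000000000000000000000000000) (nat_lit 0xe0000380000200000000000000018000060000180000000000000000000000000000000000000000) (nat_lit 7)
theorem c89933 : QOK q89933 := cut [q89931] ⟨c89931, trivial⟩ (nd (nat_lit 296) (nat_lit 0) (cs (lf (nat_lit 30) (nat_lit 230)) (nd (nat_lit 297) (nat_lit 0) (cs (lf (nat_lit 29) (nat_lit 230)) (rf (nat_lit 0)))))) q89933 (by decide +kernel)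
def q89959 : Q := Q.p (nat_lit 0x380000c000000000000000000000000000000000000000000000000000000000) (nat_lit 0x200004600003800006000010000040000000000000000000000000000000000000000) (nat_lit 6)
theorem c89959 : QOK q89959 := cut [q89958] ⟨c89958, trivial⟩ (nd (nat_lit 250) (nat_lit 0) (cs (lf (nat_lit 12) (nat_lit 227)) (rf (nat_lit 0)))) q89959 (by decide +kernel)
def q89974 : Q := Q.p (nat_lit 0x380000a000000000000000000000000000000000000000000000000000000000) (nat_lit 0x60000400007400003c0000700001c0000500000000000000000000000000000000000) (nat_lit 6)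
theorem c89974 : QOK q89974 := cut [q5482, q11484, q80450, q82277] ⟨c5482, c11484, c80450, c82277, trivial⟩ (nd (nat_lit 207) (nat_lit 0) (cs (rf (nat_lit 0)) (cs (rf (nat_lit 1)) (cs (rf (nat_lit 2)) (nd (nat_lit 232) (nat_lit 0) (cs (rf (nat_lit 3)) (nd (nat_lit 206) (nat_lit 0) (cs (lf (nat_lit 20) (nat_lit 206)) (nd (nat_lit 208) (nat_lit 0) (cs (lf (nat_lit 3) (nat_lit 206)) (nd (nat_lit 273) (nat_lit 0) (cs (lf (nat_lit 47) (nat_lit 184)) (lf (nat_lit 35) (nat_lit 185)))))))))))))) q89974 (by decide +kernel)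
def q89990 : Q := Q.p (nat_lit 0x3800000000000000000000000000000000000000000000000000000000000000) (nat_lit 0x380000e00007c000060001fc0003e0001be000620001000000000000000000000000000000000000) (nat_lit 17)
theorem c89990 : QOK q89990 := cut [q2065, q6264, q23543, q23609, q88413, q89985, q89986] ⟨c2065, c6264, c23543, c23609, c88413, c89985, c89986, trivial⟩ (nd (nat_lit 250) (nat_lit 0) (cs (rf (nat_lit 0)) (cs (rf (nat_lit 1)) (cs (rf (nat_lit 2)) (nd (nat_lit 231) (nat_lit 0) (cs (lf (nat_lit 17) (nat_lit 228)) (nd (nat_lit 272) (nat_lit 0) (cs (lf (nat_lit 11) (nat_lit 249)) (nd (nat_lit 207) (nat_lit 0) (cs (rf (nat_lit 3)) (cs (rf (nat_lit 4)) (cs (rf (nat_lit 5)) (rf (nat_lit 6)))))))))))))) q89990 (by decide +kernel)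
def q90036 : Q := Q.p (nat_lit 0x80000200003800000000000000000000000000000000000000000000000000000000000000) (nat_lit 0x400001c0000f000007000058000000000300000c000030000000000000000000000000000000000000000000000) (nat_lit 8)
theorem c90036 : QOK q90036 := cut [q82589, q88789, q90035] ⟨c82589, c88789, c90035, trivial⟩ (nd (nat_lit 317) (nat_lit 0) (cs (rf (nat_lit 0)) (cs (rf (nat_lit 1)) (rf (nat_lit 2))))) q90036 (by decide +kernel)
def q90139 : Q := Q.p (nat_lit 0x1000003800000000000000000000000000000000000000000000000000000000000000) (nat_lit 0x400002000004400038000020000080000000000000000000000000000000000000000000000) (nat_lit 5)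
theorem c90139 : QOK q90139 := cut [q90138] ⟨c90138, trivial⟩ (nd (nat_lit 254) (nat_lit 0) (cs (lf (nat_lit 5) (nat_lit 251)) (rf (nat_lit 0)))) q90139 (by decide +kernel)
def q90202 : Q := Q.p (nat_lit 0x200003800002000000000000000000000000000000000000000000000000000000000) (nat_lit 0x400001c000400000400000c0000700001c0000400000000000000000000000000000000000) (nat_lit 8)
theorem c90202 : QOK q90202 := cut [q86705] ⟨c86705, trivial⟩ (nd (nat_lit 272) (nat_lit 0) (cs (lf (nat_lit 6) (nat_lit 250)) (nd (nat_lit 270) (nat_lit 0) (cs (lf (nat_lit 13) (nat_lit 248)) (nd (nat_lit 207) (nat_lit 0) (cs (lf (nat_lit 41) (nat_lit 206)) (rf (nat_lit 0)))))))) q90202 (by decide +kernel)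
def q90246 : Q := Q.p (nat_lit 0x3800000000000000000000000000000000000000000000000000000000000000) (nat_lit 0x3b8000440007c000000000000000000000000000000000000000000000000000000000) (nat_lit 6)
theorem c90246 : QOK q90246 := cut [q80546, q82274, q90242, q90245] ⟨c80546, c82274, c90242, c90245, trivial⟩ (nd (nat_lit 232) (nat_lit 0) (cs (nd (nat_lit 254) (nat_lit 0) (cs (lf (nat_lit 17) (nat_lit 229)) (rf (nat_lit 0)))) (cs (nd (nat_lit 231) (nat_lit 0) (cs (lf (nat_lit 12) (nat_lit 228)) (rf (nat_lit 1)))) (cs (nd (nat_lit 250) (nat_lit 0) (cs (lf (nat_lit 16) (nat_lit 228)) (rf (nat_lit 2)))) (rf (nat_lit 3)))))) q90246 (by decide +kernel)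
def q90250 : Q := Q.p (nat_lit 0x3c00000000000000000000000000000000000000000000000000000000000000) (nat_lit 0x20000180000020001c000010000040000000000000000000000000000000000000000000000) (nat_lit 5)
theorem c90250 : QOK q90250 := cut [q90249] ⟨c90249, trivial⟩ (nd (nat_lit 275) (nat_lit 0) (cs (lf (nat_lit 5) (nat_lit 250)) (rf (nat_lit 0)))) q90250 (by decide +kernel)
def q90262 : Q := Q.p (nat_lit 0x400003000004000010000000000000000000000000000000000000000000000000000) (nat_lit 0x7000078000008000080000280000a0000000000000000000000000000000000000000000000) (nat_lit 7)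
theorem c90262 : QOK q90262 := cut [q90260] ⟨c90260, trivial⟩ (nd (nat_lit 275) (nat_lit 0) (cs (lf (nat_lit 29) (nat_lit 208)) (nd (nat_lit 185) (nat_lit 0) (cs (lf (nat_lit 46) (nat_lit 185)) (rf (nat_lit 0)))))) q90262 (by decide +kernel)
def q90273 : Q := Q.p (nat_lit 0x3800006000000000000000000000000000000000000000000000000000000000) (nat_lit 0xe0000fc0000f8000000000180000c0000300000c0000000000000000000000000000000000000000) (nat_lit 8)
theorem c90273 : QOK q90273 := cut [q87151, q88832, q82585, q88714, q90271] ⟨c87151, c88832, c82585, c88714, c90271, trivial⟩ (nd (nat_lit 273) (nat_lit 0) (cs (rf (nat_lit 0)) (cs (rf (nat_lit 1)) (nd (nat_lit 274) (nat_lit 0) (cs (rf (nat_lit 2)) (cs (nd (nat_lit 227) (nat_lit 0) (cs (lf (nat_lit 1) (nat_lit 227)) (nd (nat_lit 272) (nat_lit 0) (cs (lf (nat_lit 12) (nat_lit 249)) (nd (nat_lit 296) (nat_lit 0) (cs (lf (nat_lit 42) (nat_lit 229)) (nd (nat_lit 297) (nat_lit 0) (cs (lf (nat_lit 29) (nat_lit 230)) (rf (nat_lit 3)))))))))) (rf (nat_lit 4))))))))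 q90273 (by decide +kernel)
def q90275 : Q := Q.p (nat_lit 0x300000e000000000000000000000000000000000000000000000000000000000) (nat_lit 0x2000008000048000700000c0000100000400000000000000000000000000000000000000000) (nat_lit 5)
theorem c90275 : QOK q90275 := cut [q87131, q88864] ⟨c87131, c88864, trivial⟩ (nd (nat_lit 232) (nat_lit 0) (cs (rf (nat_lit 0)) (rf (nat_lit 1)))) q90275 (by decide +kernel)
def q90289 : Q := Q.p (nat_lit 0x300000e000000000000000000000000000000000000000000000000000000000) (nat_lit 0x1000004000008000700001cc000120000480000000000000000000000000000000000000000) (nat_lit 7)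
theorem c90289 : QOK q90289 := cut [q84425, q87131, q90288] ⟨c84425, c87131, c90288, trivial⟩ (nd (nat_lit 232) (nat_lit 0) (cs (rf (nat_lit 0)) (cs (rf (nat_lit 1)) (rf (nat_lit 2))))) q90289 (by decide +kernel)
def q90309 : Q := Q.p (nat_lit 0x300000e000000000000000000000000000000000000000000000000000000000) (nat_lit 0x1c0000780007c0000080007000002c0000a0000280000000000000000000000000000000000000000) (nat_lit 9)
theorem c90309 : QOK q90309 := cut [q90292, q90297, q90300, q85018, q90301, q87131] ⟨c90292, c90297, c90300, c85018, c90301, c87131, trivial⟩ (nd (nat_lit 275) (nat_lit 0) (cs (rf (nat_lit 0)) (cs (rf (nat_lit 1)) (cs (rf (nat_lit 2)) (cs (nd (nat_lit 274) (nat_lit 0) (cs (rf (nat_lit 3)) (rf (nat_lit 4)))) (nd (nat_lit 297) (nat_lit 0) (cs (lf (nat_lit 42) (nat_lit 230)) (nd (nat_lit 296) (nat_lit 0) (cs (lf (nat_lit 41) (nat_lit 230)) (nd (nat_lit 207) (nat_lit 0) (cs (lf (nat_lit 43) (nat_lit 207)) (nd (nat_lit 163) (nat_lit 0) (cs (lf (nat_lit 25) (nat_lit 163)) (nd (nat_lit 298)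 (nat_lit 0) (cs (lf (nat_lit 29) (nat_lit 231)) (nd (nat_lit 232) (nat_lit 0) (cs (lf (nat_lit 23) (nat_lit 206)) (rf (nat_lit 5))))))))))))))))))) q90309 (by decide +kernel)
def q90331 : Q := Q.p (nat_lit 0x400003000004000010000000000000000000000000000000000000000000000000000) (nat_lit 0x20000380000e0000380000380000800002000008000020000000000000000000000000000000000000000000000) (nat_lit 9)
theorem c90331 : QOK q90331 := cut [q90329] ⟨c90329, trivial⟩ (nd (nat_lit 273) (nat_lit 0) (cs (lf (nat_lit 41) (nat_lit 207)) (nd (nat_lit 271) (nat_lit 0) (cs (lf (nat_lit 13) (nat_lit 249)) (rf (nat_lit 0)))))) q90331 (by decide +kernel)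
def q90345 : Q := Q.p (nat_lit 0x3800006000010000000000000000000000000000000000000000000000000000) (nat_lit 0xc000030000400000000000c0000300000c0000000000000000000000000000000000000000) (nat_lit 6)
theorem c90345 : QOK q90345 := cut [q90344] ⟨c90344, trivial⟩ (nd (nat_lit 273) (nat_lit 0) (cs (lf (nat_lit 30) (nat_lit 207)) (rf (nat_lit 0)))) q90345 (by decide +kernel)
def q90408 : Q := Q.p (nat_lit 0x300000c000030000000000000000000000000000000000000000000000000000) (nat_lit 0x10000040000000000080007e0000780000000000000000000000000000000000000000) (nat_lit 7)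
theorem c90408 : QOK q90408 := cut [q90405] ⟨c90405, trivial⟩ (nd (nat_lit 187) (nat_lit 0) (cs (lf (nat_lit 36) (nat_lit 164)) (nd (nat_lit 186) (nat_lit 0) (cs (lf (nat_lit 24) (nat_lit 164)) (nd (nat_lit 254) (nat_lit 0) (cs (lf (nat_lit 29) (nat_lit 187)) (rf (nat_lit 0)))))))) q90408 (by decide +kernel)
def q90441 : Q := Q.p (nat_lit 0x200001e000000000000000000000000000000000000000000000000000000000) (nat_lit 0x2000008000000000000000ec000100000400000000000000000000000000000000000000000) (nat_lit 5)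
theorem c90441 : QOK q90441 := cut [q90440] ⟨c90440, trivial⟩ (nd (nat_lit 206) (nat_lit 0) (cs (lf (nat_lit 22) (nat_lit 206)) (rf (nat_lit 0)))) q90441 (by decide +kernel)
def q90511 : Q := Q.p (nat_lit 0x3000004000030000000000000000000000000000000000000000000000000000) (nat_lit 0x60000780000480003a0001cc000780000600000000000000000000000000000000000000000) (nat_lit 10)
theorem c90511 : QOK q90511 := cut [q84998, q90502, q87115] ⟨c84998, c90502, c87115, trivial⟩ (nd (nat_lit 231) (nat_lit 0) (cs (rf (nat_lit 0)) (cs (nd (nat_lit 275) (nat_lit 0) (cs (lf (nat_lit 42) (nat_lit 208)) (nd (nat_lit 187) (nat_lit 0) (cs (lf (nat_lit 36) (nat_lit 164)) (rf (nat_lit 1)))))) (nd (nat_lit 275) (nat_lit 0) (cs (lf (nat_lit 42) (nat_lit 208)) (nd (nat_lit 276) (nat_lit 0) (cs (lf (nat_lit 29) (nat_lit 209)) (nd (nat_lit 277) (nat_lit 0) (cs (lf (nat_lit 18) (nat_lit 252)) (nd (nat_lit 251) (nat_lit 0) (cs (lf (nat_lit 3) (nat_lit 251)) (nd (nat_lit 232) (nat_lit 0) (cs (lf (nat_lit 6) (nat_lit 229)) (nd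 (nat_lit 206) (nat_lit 0) (cs (lf (nat_lit 1) (nat_lit 206)) (rf (nat_lit 2))))))))))))))))) q90511 (by decide +kernel)
def q90518 : Q := Q.p (nat_lit 0x3000004000000000000000000000000000000000000000000000000000000000) (nat_lit 0x80000380000f8000480000b800018000060000180000200000000000000000000000000000000000) (nat_lit 7)
theorem c90518 : QOK q90518 := cut [q6561, q79066, q87165, q84155, q90264, q90334, q29, q20148, q79032] ⟨c6561, c79066, c87165, c84155, c90264, c90334, c29, c20148, c79032, trivial⟩ (nd (nat_lit 208) (nat_lit 0) (cs (rf (nat_lit 0)) (cs (rf (nat_lit 1)) (cs (rf (nat_lit 2)) (cs (nd (nat_lit 274) (nat_lit 0) (cs (rf (nat_lit 3)) (cs (rf (nat_lit 4)) (rf (nat_lit 5))))) (nd (nat_lit 186) (nat_lit 0) (cs (rf (nat_lit 6)) (cs (rf (nat_lit 7)) (rf (nat_lit 8)))))))))) q90518 (by decide +kernel)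
def q90519 : Q := Q.p (nat_lit 0x400003000004000010000000000000000000000000000000000000000000000000000) (nat_lit 0x700007800000800008000020000080000000000000000000000000000000000000000000000) (nat_lit 6)
theorem c90519 : QOK q90519 := cut [q90260] ⟨c90260, trivial⟩ (nd (nat_lit 275) (nat_lit 0) (cs (lf (nat_lit 29) (nat_lit 208)) (rf (nat_lit 0)))) q90519 (by decide +kernel)
def q90525 : Q := Q.p (nat_lit 0x3000004000010000000000000000000000000000000000000000000000000000) (nat_lit 0x40000000000800000c0003e0000380000a00000000000000000000000000000000000) (nat_lit 6)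
theorem c90525 : QOK q90525 := cut [q25, q423, q79032] ⟨c25, c423, c79032, trivial⟩ (nd (nat_lit 186) (nat_lit 0) (cs (rf (nat_lit 0)) (cs (rf (nat_lit 1)) (rf (nat_lit 2))))) q90525 (by decide +kernel)
def q90531 : Q := Q.p (nat_lit 0xc00003000004000010000000000000000000000000000000000000000000000000000) (nat_lit 0x1d0000700000000000a0001e0000180000000000000000000000000000000000000000000000) (nat_lit 8)
theorem c90531 : QOK q90531 := cut [q90529] ⟨c90529, trivial⟩ (nd (nat_lit 209) (nat_lit 0) (cs (lf (nat_lit 35) (nat_lit 186)) (nd (nat_lit 231) (nat_lit 0) (cs (lf (nat_lit 30) (nat_lit 208)) (rf (nat_lit 0)))))) q90531 (by decide +kernel)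
def q90572 : Q := Q.p (nat_lit 0x200000800003000000000000000000000000000000000000000000000000000000000000000) (nat_lit 0x140000580007000000c0007c000060000000000000000000000000000000000000000000000000000) (nat_lit 6)
theorem c90572 : QOK q90572 := cut [q90296, q90571] ⟨c90296, c90571, trivial⟩ (nd (nat_lit 231) (nat_lit 0) (cs (rf (nat_lit 0)) (rf (nat_lit 1)))) q90572 (by decide +kernel)
def q90573 : Q := Q.p (nat_lit 0x200000800003000000000000000000000000000000000000000000000000000000000000000) (nat_lit 0x500001c000050000000000000000c000000000000000000000000000000000000000000000000000000000) (nat_lit 5)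
theorem c90573 : QOK q90573 := cut [q21972] ⟨c21972, trivial⟩ (nd (nat_lit 319) (nat_lit 0) (cs (lf (nat_lit 47) (nat_lit 230)) (rf (nat_lit 0)))) q90573 (by decide +kernel)
def q90596 : Q := Q.p (nat_lit 0x1800007800000000000000000000000000000000000000000000000000000000000000) (nat_lit 0xc0000300000c000003000000000380000e0000380000000000000000000000000000000000000000000000) (nat_lit 9)
theorem c90596 : QOK q90596 := cut [q90593] ⟨c90593, trivial⟩ (nd (nat_lit 232) (nat_lit 0) (cs (lf (nat_lit 17) (nat_lit 229)) (nd (nat_lit 210) (nat_lit 0) (cs (lf (nat_lit 36) (nat_lit 187)) (nd (nat_lit 272) (nat_lit 0) (cs (lf (nat_lit 10) (nat_lit 250)) (rf (nat_lit 0)))))))) q90596 (by decide +kernel)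
def q90603 : Q := Q.p (nat_lit 0x100000800003000008000000000000000000000000000000000000000000000000000000000) (nat_lit 0x4000000000040000600001c0000700000400000000000000000000000000000000000) (nat_lit 6)
theorem c90603 : QOK q90603 := cut [q90602] ⟨c90602, trivial⟩ (nd (nat_lit 209) (nat_lit 0) (cs (lf (nat_lit 40) (nat_lit 208)) (rf (nat_lit 0)))) q90603 (by decide +kernel)
def q90621 : Q := Q.p (nat_lit 0xa00003800000000000000000000000000000000000000000000000000000000000000) (nat_lit 0x1c0000700003c0007400004000007000004000000000000000000000000000000000000000000000000000) (nat_lit 6)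
theorem c90621 : QOK q90621 := cut [q89803, q90619, q82570] ⟨c89803, c90619, c82570, trivial⟩ (nd (nat_lit 295) (nat_lit 0) (cs (rf (nat_lit 0)) (cs (rf (nat_lit 1)) (nd (nat_lit 317) (nat_lit 0) (cs (lf (nat_lit 35) (nat_lit 229)) (rf (nat_lit 2))))))) q90621 (by decide +kernel)
def q90630 : Q := Q.p (nat_lit 0xa00003800000000000000000000000000000000000000000000000000000000000000) (nat_lit 0x680001a0000ec0003580000000004000000000000000000000000000000000000000000000000000000000) (nat_lit 7)
theorem c90630 : QOK q90630 := cut [q2059, q90625, q90627, q90628] ⟨c2059, c90625, c90627, c90628, trivial⟩ (nd (nat_lit 274) (nat_lit 0) (cs (rf (nat_lit 0)) (cs (nd (nat_lit 276) (nat_lit 0) (cs (lf (nat_lit 18) (nat_lit 251)) (rf (nat_lit 1)))) (cs (rf (nat_lit 2)) (nd (nat_lit 271) (nat_lit 0) (cs (lf (nat_lit 13) (nat_lit 249)) (rf (nat_lit 3)))))))) q90630 (by decide +kernel)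
def q90661 : Q := Q.p (nat_lit 0x300000800003000000000000000000000000000000000000000000000000000000000000000) (nat_lit 0x14000040000100000000000c0000600001c0000700000400000000000000000000000000000000000) (nat_lit 8)
theorem c90661 : QOK q90661 := cut [q90602] ⟨c90602, trivial⟩ (nd (nat_lit 231) (nat_lit 0) (cs (lf (nat_lit 41) (nat_lit 230)) (nd (nat_lit 298) (nat_lit 0) (cs (lf (nat_lit 29) (nat_lit 231)) (nd (nat_lit 209) (nat_lit 0) (cs (lf (nat_lit 28) (nat_lit 209)) (rf (nat_lit 0)))))))) q90661 (by decide +kernel)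
def q90674 : Q := Q.p (nat_lit 0x200000800003000000000000000000000000000000000000000000000000000000000000000) (nat_lit 0x6000018000050000040000000000c000020000080000000000000000000000000000000000000000000000) (nat_lit 6)
theorem c90674 : QOK q90674 := cut [q90672] ⟨c90672, trivial⟩ (nd (nat_lit 319) (nat_lit 0) (cs (lf (nat_lit 47) (nat_lit 230)) (nd (nat_lit 320) (nat_lit 0) (cs (lf (nat_lit 29) (nat_lit 253)) (rf (nat_lit 0)))))) q90674 (by decide +kernel)
def q90702 : Q := Q.p (nat_lit 0x200000800003000000000000000000000000000000000000000000000000000000000000000) (nat_lit 0x40000700001c0000000000400000000004000000000000000000000000000000000000000000000000000000000) (nat_lit 5)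
theorem c90702 : QOK q90702 := cut [q89600] ⟨c89600, trivial⟩ (nd (nat_lit 319) (nat_lit 0) (cs (lf (nat_lit 47) (nat_lit 230)) (rf (nat_lit 0)))) q90702 (by decide +kernel)
def q90807 : Q := Q.p (nat_lit 0x3c00000000000000000000000000000000000000000000000000000000000000) (nat_lit 0x40000180004000003800008000020000000000000000000000000000000000000000000000) (nat_lit 5)
theorem c90807 : QOK q90807 := cut [q83677] ⟨c83677, trivial⟩ (nd (nat_lit 272) (nat_lit 0) (cs (lf (nat_lit 11) (nat_lit 249)) (rf (nat_lit 0)))) q90807 (by decide +kernel)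
def q90849 : Q := Q.p (nat_lit 0x300000800003000000000000000000000000000000000000000000000000000000000000000) (nat_lit 0x140000400000000004c0007c000050000000000000000000000000000000000000000000000000000) (nat_lit 7)
theorem c90849 : QOK q90849 := cut [q90797] ⟨c90797, trivial⟩ (nd (nat_lit 231) (nat_lit 0) (cs (lf (nat_lit 41) (nat_lit 230)) (nd (nat_lit 298) (nat_lit 0) (cs (lf (nat_lit 29) (nat_lit 231)) (nd (nat_lit 208) (nat_lit 0) (cs (lf (nat_lit 46) (nat_lit 208)) (rf (nat_lit 0)))))))) q90849 (by decide +kernel)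
def q90853 : Q := Q.p (nat_lit 0x600000800003000000000000000000000000000000000000000000000000000000000000000) (nat_lit 0x10000000000000000080007c000050000000000000000000000000000000000000000000000000000) (nat_lit 5)
theorem c90853 : QOK q90853 := cut [q90852] ⟨c90852, trivial⟩ (nd (nat_lit 231) (nat_lit 0) (cs (lf (nat_lit 29) (nat_lit 231)) (rf (nat_lit 0)))) q90853 (by decide +kernel)
def q90937 : Q := Q.p (nat_lit 0x3000008000000000000000000000000000000000000000000000000000000000) (nat_lit 0x80000600007fc0004e00077c00060000180000400000000000000000000000000000000000000000) (nat_lit 7)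
theorem c90937 : QOK q90937 := cut [q82275, q82278, q88840, q82274, q82277, q26315, q90932, q15386, q88741, q90635] ⟨c82275, c82278, c88840, c82274, c82277, c26315, c90932, c15386, c88741, c90635, trivial⟩ (nd (nat_lit 251) (nat_lit 0) (cs (rf (nat_lit 0)) (cs (rf (nat_lit 1)) (cs (rf (nat_lit 2)) (nd (nat_lit 232) (nat_lit 0) (cs (rf (nat_lit 3)) (cs (rf (nat_lit 4)) (nd (nat_lit 275) (nat_lit 0) (cs (rf (nat_lit 5)) (cs (nd (nat_lit 297) (nat_lit 0) (cs (lf (nat_lit 35) (nat_lit 209)) (rf (nat_lit 6)))) (nd (nat_lit 276) (nat_lit 0) (cs (rf (nat_lit 7)) (cs (rf (nat_lit 8)) (rf (nat_lit 9))))))))))))))) q90937 (by decide +kernel)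
def q90950 : Q := Q.p (nat_lit 0x200000800003000000000000000000000000000000000000000000000000000000000000000) (nat_lit 0x140000700001c0000000000000000000004000000000000000000000000000000000000000000000000000000000) (nat_lit 5)
theorem c90950 : QOK q90950 := cut [q2579] ⟨c2579, trivial⟩ (nd (nat_lit 319) (nat_lit 0) (cs (rf (nat_lit 0)) (lf (nat_lit 47) (nat_lit 230)))) q90950 (by decide +kernel)
def q90992 : Q := Q.p (nat_lit 0x8000070000000000000000000000000000000000000000000000000000) (nat_lit 0x77c0018e000e3c000000000000000000000000000000000000000000000) (nat_lit 8)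
theorem c90992 : QOK q90992 := cut [q186, q2935, q2938, q90989] ⟨c186, c2935, c2938, c90989, trivial⟩ (nd (nat_lit 207) (nat_lit 0) (cs (rf (nat_lit 0)) (cs (rf (nat_lit 1)) (cs (rf (nat_lit 2)) (nd (nat_lit 184) (nat_lit 0) (cs (lf (nat_lit 22) (nat_lit 184)) (nd (nat_lit 228) (nat_lit 0) (cs (lf (nat_lit 10) (nat_lit 206)) (rf (nat_lit 3)))))))))) q90992 (by decide +kernel)
def q91025 : Q := Q.p (nat_lit 0x300000c000030000000000000000000000000000000000000000000000000000) (nat_lit 0x200000e000000000c8000078000180000000000000000000000000000000000000000) (nat_lit 7)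
theorem c91025 : QOK q91025 := cut [q85000] ⟨c85000, trivial⟩ (nd (nat_lit 186) (nat_lit 0) (cs (lf (nat_lit 24) (nat_lit 164)) (nd (nat_lit 251) (nat_lit 0) (cs (lf (nat_lit 41) (nat_lit 185)) (nd (nat_lit 249) (nat_lit 0) (cs (lf (nat_lit 13) (nat_lit 227)) (rf (nat_lit 0)))))))) q91025 (by decide +kernel)
def q91030 : Q := Q.p (nat_lit 0x800003000008000020000000000000000000000000000000000000000000000000000) (nat_lit 0x500003400000c00000000040000100000000000000000000000000000000000000000000000) (nat_lit 5)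
theorem c91030 : QOK q91030 := cut [q91029] ⟨c91029, trivial⟩ (nd (nat_lit 188) (nat_lit 0) (cs (lf (nat_lit 34) (nat_lit 187)) (rf (nat_lit 0)))) q91030 (by decide +kernel)
def q91053 : Q := Q.p (nat_lit 0x3000008000030000000000000000000000000000000000000000000000000000) (nat_lit 0x400004c00077c001ce000f7c000580000200000000000000000000000000000000000) (nat_lit 9)
theorem c91053 : QOK q91053 := cut [q119, q2938, q1411, q85074, q88234, q108, q89519, q90989] ⟨c119, c2938, c1411, c85074, c88234, c108, c89519, c90989, trivial⟩ (nd (nat_lit 207) (nat_lit 0) (cs (rf (nat_lit 0)) (cs (rf (nat_lit 1)) (cs (nd (nat_lit 230) (nat_lit 0) (cs (rf (nat_lit 2)) (cs (rf (nat_lit 3)) (rf (nat_lit 4))))) (nd (nat_lit 210) (nat_lit 0) (cs (rf (nat_lit 5)) (cs (rf (nat_lit 6)) (cs (rf (nat_lit 7)) (nd (nat_lit 232) (nat_lit 0) (cs (lf (nat_lit 5) (nat_lit 207)) (nd (nat_lit 166) (nat_lit 0) (cs (lf (nat_lit 37) (nat_lit 165)) (nd (nat_lit 185) (nat_lit 0) (cs (lf (nat_lit 23) (nat_lit 184)) (nd (nat_lit 250) (nat_lit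 0) (cs (lf (nat_lit 13) (nat_lit 228)) (nd (nat_lit 230) (nat_lit 0) (cs (lf (nat_lit 42) (nat_lit 185)) (nd (nat_lit 186) (nat_lit 0) (cs (lf (nat_lit 18) (nat_lit 185)) (lf (nat_lit 24) (nat_lit 164)))))))))))))))))))))) q91053 (by decide +kernel)
def q91082 : Q := Q.p (nat_lit 0x1800006000010000000000000000000000000000000000000000000000000000000000) (nat_lit 0xc0000300000c000000000000000080000e0000380000000000000000000000000000000000000000000000) (nat_lit 7)
theorem c91082 : QOK q91082 := cut [q90593] ⟨c90593, trivial⟩ (nd (nat_lit 210) (nat_lit 0) (cs (lf (nat_lit 36) (nat_lit 187)) (rf (nat_lit 0)))) q91082 (by decide +kernel)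
def q91111 : Q := Q.p (nat_lit 0x200000800003000000000000000000000000000000000000000000000000000000000000000) (nat_lit 0x100000400001000000c0007c000070000140000000000000000000000000000000000000000000000) (nat_lit 5)
theorem c91111 : QOK q91111 := cut [q32034, q88936, q90571] ⟨c32034, c88936, c90571, trivial⟩ (nd (nat_lit 231) (nat_lit 0) (cs (rf (nat_lit 0)) (cs (rf (nat_lit 1)) (rf (nat_lit 2))))) q91111 (by decide +kernel)
def q91142 : Q := Q.p (nat_lit 0x3800008000000000000000000000000000000000000000000000000000000000) (nat_lit 0x200003800004600007c00010000040000000000000000000000000000000000000000000000) (nat_lit 5)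
theorem c91142 : QOK q91142 := cut [q81479, q88801, q88804] ⟨c81479, c88801, c88804, trivial⟩ (nd (nat_lit 250) (nat_lit 0) (cs (rf (nat_lit 0)) (cs (rf (nat_lit 1)) (rf (nat_lit 2))))) q91142 (by decide +kernel)
def q91144 : Q := Q.p (nat_lit 0x380001a000000000000000000000000000000000000000000000000000000000) (nat_lit 0x200000c000040000040000cc000120000480000000000000000000000000000000000000000) (nat_lit 5)
theorem c91144 : QOK q91144 := cut [q81735, q88864] ⟨c81735, c88864, trivial⟩ (nd (nat_lit 230) (nat_lit 0) (cs (rf (nat_lit 0)) (rf (nat_lit 1)))) q91144 (by decide +kernel)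
def q91146 : Q := Q.p (nat_lit 0x180001a000000000000000000000000000000000000000000000000000000000) (nat_lit 0x60000000000500000c0000700001c0000500000000000000000000000000000000000) (nat_lit 6)
theorem c91146 : QOK q91146 := cut [q5482, q11484, q91145] ⟨c5482, c11484, c91145, trivial⟩ (nd (nat_lit 207) (nat_lit 0) (cs (rf (nat_lit 0)) (cs (rf (nat_lit 1)) (rf (nat_lit 2))))) q91146 (by decide +kernel)
def q91168 : Q := Q.p (nat_lit 0x300001c000000000000000000000000000000000000000000000000000000000) (nat_lit 0x800000000060000198000040000100000000000000000000000000000000000000000) (nat_lit 5)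
theorem c91168 : QOK q91168 := cut [q91167] ⟨c91167, trivial⟩ (nd (nat_lit 233) (nat_lit 0) (cs (lf (nat_lit 6) (nat_lit 230)) (rf (nat_lit 0)))) q91168 (by decide +kernel)
def q91268 : Q := Q.p (nat_lit 0x3000008000020000000000000000000000000000000000000000000000000000) (nat_lit 0x4000035c0004e00077c0005c0000700001c0000500000000000000000000000000000000000) (nat_lit 8)
theorem c91268 : QOK q91268 := cut [q82275, q82278, q85579, q91191, q80611, q91257, q82198, q91260, q11484, q82277, q87917, q91265] ⟨c82275, c82278, c85579, c91191, c80611, c91257, c82198, c91260, c11484, c82277, c87917, c91265, trivial⟩ (nd (nat_lit 251) (nat_lit 0) (cs (rf (nat_lit 0)) (cs (rf (nat_lit 1)) (cs (nd (nat_lit 228) (nat_lit 0) (cs (rf (nat_lit 2)) (cs (rf (nat_lit 3)) (cs (nd (nat_lit 250) (nat_lit 0) (cs (lf (nat_lit 23) (nat_lit 227)) (rf (nat_lit 4)))) (rf (nat_lit 5)))))) (nd (nat_lit 229) (nat_lit 0) (cs (rf (nat_lit 6)) (cs (nd (nat_lit 254) (nat_lit 0) (cs (lf (nat_lit 23) (nat_lit 228)) (rf (nat_lit 7))))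 (cs (nd (nat_lit 207) (nat_lit 0) (cs (rf (nat_lit 8)) (nd (nat_lit 232) (nat_lit 0) (cs (rf (nat_lit 9)) (nd (nat_lit 206) (nat_lit 0) (cs (lf (nat_lit 20) (nat_lit 206)) (lf (nat_lit 2) (nat_lit 206)))))))) (nd (nat_lit 230) (nat_lit 0) (cs (rf (nat_lit 10)) (rf (nat_lit 11)))))))))))) q91268 (by decide +kernel)
def q91276 : Q := Q.p (nat_lit 0x20000080000200000e0000000000000000000000000000000000000000000000) (nat_lit 0x1000004000000000050000018000070000000000000000000000000000000000000000) (nat_lit 5)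
theorem c91276 : QOK q91276 := cut [q84601] ⟨c84601, trivial⟩ (nd (nat_lit 254) (nat_lit 0) (cs (lf (nat_lit 29) (nat_lit 187)) (rf (nat_lit 0)))) q91276 (by decide +kernel)
def q91353 : Q := Q.p (nat_lit 0xc0000300000c000000000000000000000000000000000000000000000000000000000) (nat_lit 0x30001f0000180000000000000000000000000000000000000000000000) (nat_lit 5)
theorem c91353 : QOK q91353 := cut [q91352] ⟨c91352, trivial⟩ (nd (nat_lit 209) (nat_lit 0) (cs (lf (nat_lit 36) (nat_lit 186)) (rf (nat_lit 0)))) q91353 (by decide +kernel)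
def q91380 : Q := Q.p (nat_lit 0xc00003000008000000000000000000000000000000000000000000000000000000000) (nat_lit 0x40000700001c0001e00001300000000004000010000000000000000000000000000000000000000000000000000) (nat_lit 6)
theorem c91380 : QOK q91380 := cut [q84370, q84557, q91378] ⟨c84370, c84557, c91378, trivial⟩ (nd (nat_lit 297) (nat_lit 0) (cs (rf (nat_lit 0)) (cs (rf (nat_lit 1)) (nd (nat_lit 208) (nat_lit 0) (cs (lf (nat_lit 46) (nat_lit 208)) (rf (nat_lit 2))))))) q91380 (by decide +kernel)
def q91431 : Q := Q.p (nat_lit 0xc00003800008000000000000000000000000000000000000000000000000000000000) (nat_lit 0x200000000000000074000060000180000000000000000000000000000000000000000000000) (nat_lit 5)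
theorem c91431 : QOK q91431 := cut [q91430] ⟨c91430, trivial⟩ (nd (nat_lit 209) (nat_lit 0) (cs (lf (nat_lit 36) (nat_lit 186)) (rf (nat_lit 0)))) q91431 (by decide +kernel)
def q91492 : Q := Q.p (nat_lit 0x3000004000010000000000000000000000000000000000000000000000000000) (nat_lit 0x80000380000f800040000038000680000a0000000000000000000000000000000000000000000000) (nat_lit 8)
theorem c91492 : QOK q91492 := cut [q84155, q90334, q91489] ⟨c84155, c90334, c91489, trivial⟩ (nd (nat_lit 274) (nat_lit 0) (cs (rf (nat_lit 0)) (cs (rf (nat_lit 1)) (nd (nat_lit 273) (nat_lit 0) (cs (lf (nat_lit 41) (nat_lit 207)) (nd (nat_lit 271) (nat_lit 0) (cs (lf (nat_lit 13) (nat_lit 249)) (rf (nat_lit 2))))))))) q91492 (by decide +kernel)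
def q91547 : Q := Q.p (nat_lit 0x300000f000010000000000000000000000000000000000000000000000000000) (nat_lit 0x600001800000e00000000060000080000200000000000000000000000000000000000000000) (nat_lit 6)
theorem c91547 : QOK q91547 := cut [q1283] ⟨c1283, trivial⟩ (nd (nat_lit 209) (nat_lit 0) (cs (lf (nat_lit 17) (nat_lit 206)) (nd (nat_lit 165) (nat_lit 0) (cs (rf (nat_lit 0)) (lf (nat_lit 37) (nat_lit 164)))))) q91547 (by decide +kernel)
def q91621 : Q := Q.p (nat_lit 0x100000400003000000000000000000000000000000000000000000000000000000000000000) (nat_lit 0x380000e0000280001800000e00006000018000040000000000000000000000000000000000000000000000) (nat_lit 7)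
theorem c91621 : QOK q91621 := cut [q87375, q91618, q13231] ⟨c87375, c91618, c13231, trivial⟩ (nd (nat_lit 318) (nat_lit 0) (cs (rf (nat_lit 0)) (cs (rf (nat_lit 1)) (nd (nat_lit 319) (nat_lit 0) (cs (lf (nat_lit 29) (nat_lit 252)) (nd (nat_lit 275) (nat_lit 0) (cs (lf (nat_lit 30) (nat_lit 252)) (rf (nat_lit 2))))))))) q91621 (by decide +kernel)
def q91759 : Q := Q.p (nat_lit 0x100000600003800000000000000000000000000000000000000000000000000000000000000) (nat_lit 0x80000380000fc0003bc000ee000780000470000a000008000000000000000000000000000000000000000000000000000) (nat_lit 15)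
theorem c91759 : QOK q91759 := cut [q91718, q16010, q81440, q91728, q91737, q91707, q89151, q89735, q91704] ⟨c91718, c16010, c81440, c91728, c91737, c91707, c89151, c89735, c91704, trivial⟩ (nd (nat_lit 295) (nat_lit 0) (cs (rf (nat_lit 0)) (cs (nd (nat_lit 317) (nat_lit 0) (cs (lf (nat_lit 30) (nat_lit 251)) (nd (nat_lit 298) (nat_lit 0) (cs (rf (nat_lit 1)) (cs (nd (nat_lit 276) (nat_lit 0) (cs (nd (nat_lit 254) (nat_lit 0) (cs (lf (nat_lit 5) (nat_lit 251)) (nd (nat_lit 316) (nat_lit 0) (cs (lf (nat_lit 41) (nat_lit 250)) (nd (nat_lit 314) (nat_lit 0) (cs (lf (nat_lit 13) (nat_lit 292)) (nd (nat_lit 207) (nat_lit 0) (cs (lf (nat_lit 25) (nat_lit 207)) (nd (nat_lit 320) (nat_lit 0) (cs (lf (nat_lit 47) (nat_lit 231)) (nd (nat_lit 341) (nat_lit 0) (cs (lf (nat_lit 40) (nat_lit 253)) (nd (nat_lit 342) (nat_lit 0) (cs (lf (nat_lit 41) (nat_lit 275)) (rf (nat_lit 2)))))))))))))))) (nd (nat_lit 275) (nat_lit 0) (cs (lf (nat_lit 0) (nat_lit 250)) (lf (nat_lit 5) (nat_lit 273)))))) (nd (nat_lit 207)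 (nat_lit 0) (cs (lf (nat_lit 25) (nat_lit 207)) (nd (nat_lit 297) (nat_lit 0) (cs (lf (nat_lit 18) (nat_lit 273)) (nd (nat_lit 276) (nat_lit 0) (cs (lf (nat_lit 17) (nat_lit 273)) (nd (nat_lit 275) (nat_lit 0) (cs (lf (nat_lit 23) (nat_lit 250)) (rf (nat_lit 3))))))))))))))) (cs (rf (nat_lit 4)) (nd (nat_lit 339) (nat_lit 0) (cs (lf (nat_lit 31) (nat_lit 251)) (nd (nat_lit 207) (nat_lit 0) (cs (lf (nat_lit 25) (nat_lit 207)) (nd (nat_lit 297) (nat_lit 0) (cs (rf (nat_lit 5)) (cs (nd (nat_lit 298) (nat_lit 0) (cs (lf (nat_lit 18) (nat_lit 273)) (nd (nat_lit 276) (nat_lit 0) (cs (lf (nat_lit 17) (nat_lit 273)) (nd (nat_lit 320) (nat_lit 0) (cs (lf (nat_lit 5) (nat_lit 295)) (nd (nat_lit 319) (nat_lit 0) (cs (lf (nat_lit 0) (nat_lit 294)) (rf (nat_lit 6)))))))))) (cs (nd (nat_lit 275) (nat_lit 0) (cs (rf (nat_lit 7)) (rf (nat_lit 8)))) (cs (nd (nat_lit 298) (nat_lit 0) (cs (lf (nat_lit 18) (nat_lit 273)) (nd (nat_lit 276) (nat_lit 0) (cs (lf (nat_lit 17) (nat_lit 273)) (nd (nat_lit 250) (nat_lit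 0) (cs (lf (nat_lit 19) (nat_lit 250)) (nd (nat_lit 248) (nat_lit 0) (cs (lf (nat_lit 1) (nat_lit 248)) (nd (nat_lit 320) (nat_lit 0) (cs (lf (nat_lit 5) (nat_lit 295)) (nd (nat_lit 254) (nat_lit 0) (cs (lf (nat_lit 47) (nat_lit 231)) (nd (nat_lit 341) (nat_lit 0) (cs (lf (nat_lit 40) (nat_lit 253)) (nd (nat_lit 342) (nat_lit 0) (cs (lf (nat_lit 41) (nat_lit 275)) (nd (nat_lit 365) (nat_lit 0) (cs (lf (nat_lit 28) (nat_lit 276)) (nd (nat_lit 364) (nat_lit 0) (cs (lf (nat_lit 29) (nat_lit 298)) (lf (nat_lit 1) (nat_lit 339)))))))))))))))))))))) (nd (nat_lit 298) (nat_lit 0) (cs (lf (nat_lit 18) (nat_lit 273)) (nd (nat_lit 276) (nat_lit 0) (cs (lf (nat_lit 17) (nat_lit 273)) (nd (nat_lit 275) (nat_lit 0) (cs (lf (nat_lit 0) (nat_lit 250)) (lf (nat_lit 12) (nat_lit 272))))))))))))))))))))) q91759 (by decide +kernel)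
def q91783 : Q := Q.p (nat_lit 0x600003000000000000000000000000000000000000000000000000000000000000000) (nat_lit 0x80000600000980004600004000010000000000000000000000000000000000000000000000000000) (nat_lit 6)
theorem c91783 : QOK q91783 := cut [q91781] ⟨c91781, trivial⟩ (nd (nat_lit 272) (nat_lit 0) (cs (lf (nat_lit 12) (nat_lit 249)) (nd (nat_lit 275) (nat_lit 0) (cs (lf (nat_lit 17) (nat_lit 250)) (rf (nat_lit 0)))))) q91783 (by decide +kernel)
def q91786 : Q := Q.p (nat_lit 0x600003000000000000000000000000000000000000000000000000000000000000000) (nat_lit 0x200001800001c0004f00007c0000c000030000000000000000000000000000000000000000000000) (nat_lit 6)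
theorem c91786 : QOK q91786 := cut [q88302, q82198, q82585, q14768, q91762] ⟨c88302, c82198, c82585, c14768, c91762, trivial⟩ (nd (nat_lit 251) (nat_lit 0) (cs (rf (nat_lit 0)) (cs (nd (nat_lit 229) (nat_lit 0) (cs (rf (nat_lit 1)) (rf (nat_lit 2)))) (nd (nat_lit 250) (nat_lit 0) (cs (rf (nat_lit 3)) (rf (nat_lit 4))))))) q91786 (by decide +kernel)
def q91805 : Q := Q.p (nat_lit 0x100000400003000000000000000000000000000000000000000000000000000000000000000) (nat_lit 0xa0000380000e0000fb8001ec000fb8000080000c000030000080000000000000000000000000000000000000000000000) (nat_lit 11)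
theorem c91805 : QOK q91805 := cut [q91386, q91797, q91799, q89030, q89033, q89376, q23321, q91802] ⟨c91386, c91797, c91799, c89030, c89033, c89376, c23321, c91802, trivial⟩ (nd (nat_lit 297) (nat_lit 0) (cs (rf (nat_lit 0)) (cs (rf (nat_lit 1)) (cs (rf (nat_lit 2)) (nd (nat_lit 298) (nat_lit 0) (cs (rf (nat_lit 3)) (cs (rf (nat_lit 4)) (cs (rf (nat_lit 5)) (nd (nat_lit 275) (nat_lit 0) (cs (rf (nat_lit 6)) (rf (nat_lit 7)))))))))))) q91805 (by decide +kernel)
def q91896 : Q := Q.p (nat_lit 0x3000008000000000000000000000000000000000000000000000000000000000) (nat_lit 0x140000700007c00000c000300000ff000ff8003fc0001400000000000000000000000000000000000) (nat_lit 12)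
theorem c91896 : QOK q91896 := cut [q17601, q82301, q88916, q91882, q91300, q52527, q87863, q83416, q84587] ⟨c17601, c82301, c88916, c91882, c91300, c52527, c87863, c83416, c84587, trivial⟩ (nd (nat_lit 209) (nat_lit 0) (cs (rf (nat_lit 0)) (cs (rf (nat_lit 1)) (cs (nd (nat_lit 275) (nat_lit 0) (cs (rf (nat_lit 2)) (rf (nat_lit 3)))) (nd (nat_lit 186) (nat_lit 0) (cs (rf (nat_lit 4)) (cs (nd (nat_lit 275) (nat_lit 0) (cs (rf (nat_lit 5)) (lf (nat_lit 46) (nat_lit 186)))) (cs (nd (nat_lit 187) (nat_lit 0) (cs (lf (nat_lit 47) (nat_lit 164)) (rf (nat_lit 6)))) (nd (nat_lit 187) (nat_lit 0) (cs (lf (nat_lit 47) (nat_lit 164)) (nd (nat_lit 185) (nat_lit 0) (cs (rf (nat_lit 7)) (cs (rf (nat_lit 8)) (nd (nat_lit 188) (nat_lit 0) (cs (lf (nat_lit 35) (nat_lit 165)) (nd (nat_lit 210) (nat_lit 0) (cs (lf (nat_lit 5) (nat_lit 185)) (nd (nat_lit 162) (nat_lit 0) (cs (lf (nat_lit 22) (nat_lit 162)) (nd (nat_lit 207) (nat_lit 0) (cs (lf (nat_lit 11) (nat_lit 184)) (nd (nat_lit 189) (nat_lit 0) (cs (lf (nat_lit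 10) (nat_lit 185)) (nd (nat_lit 168) (nat_lit 0) (cs (lf (nat_lit 16) (nat_lit 164)) (nd (nat_lit 190) (nat_lit 0) (cs (lf (nat_lit 6) (nat_lit 187)) (lf (nat_lit 17) (nat_lit 165))))))))))))))))))))))))))))) q91896 (by decide +kernel)
def q91907 : Q := Q.p (nat_lit 0x300001c000000000000000000000000000000000000000000000000000000000) (nat_lit 0x100000400000e000038000ce000120000480000000000000000000000000000000000000000) (nat_lit 7)
theorem c91907 : QOK q91907 := cut [q90288, q91239, q91247] ⟨c90288, c91239, c91247, trivial⟩ (nd (nat_lit 229) (nat_lit 0) (cs (rf (nat_lit 0)) (cs (rf (nat_lit 1)) (rf (nat_lit 2))))) q91907 (by decide +kernel)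
def q91945 : Q := Q.p (nat_lit 0x300000f000000000000000000000000000000000000000000000000000000000) (nat_lit 0xe000700001c6000000000000000000000000000000000000000000000000000) (nat_lit 6)
theorem c91945 : QOK q91945 := cut [q91944] ⟨c91944, trivial⟩ (nd (nat_lit 205) (nat_lit 0) (cs (lf (nat_lit 22) (nat_lit 205)) (rf (nat_lit 0)))) q91945 (by decide +kernel)
def q91947 : Q := Q.p (nat_lit 0x300000e000000000000000000000000000000000000000000000000000000000) (nat_lit 0xe000718001c0000000000000000000000000000000000000000000000000000) (nat_lit 6)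
theorem c91947 : QOK q91947 := cut [q91944] ⟨c91944, trivial⟩ (nd (nat_lit 228) (nat_lit 0) (cs (lf (nat_lit 0) (nat_lit 227)) (rf (nat_lit 0)))) q91947 (by decide +kernel)
def q91949 : Q := Q.p (nat_lit 0x300001e000000000000000000000000000000000000000000000000000000000) (nat_lit 0x200000800000c000000000dc000160000580000000000000000000000000000000000000000) (nat_lit 8)
theorem c91949 : QOK q91949 := cut [q88846] ⟨c88846, trivial⟩ (nd (nat_lit 251) (nat_lit 0) (cs (lf (nat_lit 11) (nat_lit 228)) (rf (nat_lit 0)))) q91949 (by decide +kernel)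
def q91958 : Q := Q.p (nat_lit 0xc0000300000c000000000000000000000000000000000000000000000000000000000) (nat_lit 0x80001380000e00010000010000040000000000000000000000000000000000000000000000) (nat_lit 6)
theorem c91958 : QOK q91958 := cut [q91956] ⟨c91956, trivial⟩ (nd (nat_lit 208) (nat_lit 0) (cs (lf (nat_lit 24) (nat_lit 186)) (nd (nat_lit 273) (nat_lit 0) (cs (lf (nat_lit 41) (nat_lit 207)) (rf (nat_lit 0)))))) q91958 (by decide +kernel)
def q91960 : Q := Q.p (nat_lit 0xc0000300000c000000000000000000000000000000000000000000000000000000000) (nat_lit 0x180001e00001300000000000000000000000000000000000000000000000000000000000000000000) (nat_lit 5)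
theorem c91960 : QOK q91960 := cut [q91959] ⟨c91959, trivial⟩ (nd (nat_lit 297) (nat_lit 0) (cs (lf (nat_lit 42) (nat_lit 230)) (rf (nat_lit 0)))) q91960 (by decide +kernel)
def q91965 : Q := Q.p (nat_lit 0x300000c000010000000000000000000000000000000000000000000000000000) (nat_lit 0x200000c000300000000000e0000380000000000000000000000000000000000000000) (nat_lit 6)
theorem c91965 : QOK q91965 := cut [q91963] ⟨c91963, trivial⟩ (nd (nat_lit 186) (nat_lit 0) (cs (lf (nat_lit 24) (nat_lit 164)) (nd (nat_lit 163) (nat_lit 0) (cs (lf (nat_lit 46) (nat_lit 163)) (rf (nat_lit 0)))))) q91965 (by decide +kernel)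
def q91970 : Q := Q.p (nat_lit 0xc0000300000c000000000000000000000000000000000000000000000000000000000) (nat_lit 0x600001e0003200000000000000000000000000000000000000000000000000000000000000000000) (nat_lit 5)
theorem c91970 : QOK q91970 := cut [q91969] ⟨c91969, trivial⟩ (nd (nat_lit 296) (nat_lit 0) (cs (lf (nat_lit 30) (nat_lit 230)) (rf (nat_lit 0)))) q91970 (by decide +kernel)
def q92007 : Q := Q.p (nat_lit 0x80000300000c000000000000000000000000000000000000000000000000000000000) (nat_lit 0x1c0000700000000000800070000040000000000000000000000000000000000000000000000000000) (nat_lit 6)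
theorem c92007 : QOK q92007 := cut [q92006] ⟨c92006, trivial⟩ (nd (nat_lit 297) (nat_lit 0) (cs (lf (nat_lit 42) (nat_lit 230)) (rf (nat_lit 0)))) q92007 (by decide +kernel)
def q92012 : Q := Q.p (nat_lit 0x300000c000010000000000000000000000000000000000000000000000000000) (nat_lit 0x200000c000300000000000c0000300000000000000000000000000000000000000000) (nat_lit 5)
theorem c92012 : QOK q92012 := cut [q91963] ⟨c91963, trivial⟩ (nd (nat_lit 186) (nat_lit 0) (cs (lf (nat_lit 24) (nat_lit 164)) (rf (nat_lit 0)))) q92012 (by decide +kernel)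
def q92014 : Q := Q.p (nat_lit 0x40000300000c000000000000000000000000000000000000000000000000000000000) (nat_lit 0x3200003e0000e0000300000000000000000000000000000000000000000) (nat_lit 5)
theorem c92014 : QOK q92014 := cut [q22191, q85040] ⟨c22191, c85040, trivial⟩ (nd (nat_lit 208) (nat_lit 0) (cs (rf (nat_lit 0)) (rf (nat_lit 1)))) q92014 (by decide +kernel)
def q92019 : Q := Q.p (nat_lit 0x300000d000000000000000000000000000000000000000000000000000000000) (nat_lit 0x380001f0000780000e000120001f60001f0000700001000000000000000000000000000000000000) (nat_lit 12)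
theorem c92019 : QOK q92019 := cut [q82300, q88146, q88150] ⟨c82300, c88146, c88150, trivial⟩ (nd (nat_lit 209) (nat_lit 0) (cs (rf (nat_lit 0)) (cs (rf (nat_lit 1)) (rf (nat_lit 2))))) q92019 (by decide +kernel)
def q92023 : Q := Q.p (nat_lit 0x50000340000d000000000000000000000000000000000000000000000000000000000) (nat_lit 0x20000380000e0000200000200000800036000080000000000000000000000000000000000000000000000) (nat_lit 6)
theorem c92023 : QOK q92023 := cut [q17404] ⟨c17404, trivial⟩ (nd (nat_lit 294) (nat_lit 0) (cs (nd (nat_lit 295) (nat_lit 0) (cs (lf (nat_lit 29) (nat_lit 228)) (nd (nat_lit 273) (nat_lit 0) (cs (lf (nat_lit 24) (nat_lit 206)) (lf (nat_lit 36) (nat_lit 207)))))) (nd (nat_lit 187) (nat_lit 0) (cs (lf (nat_lit 37) (nat_lit 186)) (rf (nat_lit 0)))))) q92023 (by decide +kernel)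
def q92079 : Q := Q.p (nat_lit 0x300000e000000000000000000000000000000000000000000000000000000000) (nat_lit 0x100002c0001b80000e0000180001e000050000040000000000000000000000000000000000000000) (nat_lit 7)
theorem c92079 : QOK q92079 := cut [q88167, q91940, q81478] ⟨c88167, c91940, c81478, trivial⟩ (nd (nat_lit 251) (nat_lit 0) (cs (rf (nat_lit 0)) (cs (rf (nat_lit 1)) (nd (nat_lit 250) (nat_lit 0) (cs (lf (nat_lit 12) (nat_lit 227)) (nd (nat_lit 227) (nat_lit 0) (cs (lf (nat_lit 1) (nat_lit 227)) (rf (nat_lit 2))))))))) q92079 (by decide +kernel)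
def q92101 : Q := Q.p (nat_lit 0x3000008000020000100000000000000000000000000000000000000000000000) (nat_lit 0x100001c0000700001800000000004000040000000000000000000000000000000000000000000000000000) (nat_lit 6)
theorem c92101 : QOK q92101 := cut [q88914] ⟨c88914, trivial⟩ (nd (nat_lit 275) (nat_lit 0) (cs (lf (nat_lit 34) (nat_lit 187)) (rf (nat_lit 0)))) q92101 (by decide +kernel)
def q92120 : Q := Q.p (nat_lit 0xc00003000008000000000000000000000000000000000000000000000000000000000) (nat_lit 0x300001c0001f00001300000000000000000000000000000000000000000000000000000000000000000000) (nat_lit 5)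
theorem c92120 : QOK q92120 := cut [q91378, q91397] ⟨c91378, c91397, trivial⟩ (nd (nat_lit 297) (nat_lit 0) (cs (rf (nat_lit 0)) (rf (nat_lit 1)))) q92120 (by decide +kernel)
def q92155 : Q := Q.p (nat_lit 0x3c0000e000000000000000000000000000000000000000000000000000000000) (nat_lit 0xc0000300001d80000000000000028000000000000000000000000000000000000000000000000000) (nat_lit 6)
theorem c92155 : QOK q92155 := cut [q92152] ⟨c92152, trivial⟩ (nd (nat_lit 271) (nat_lit 0) (cs (lf (nat_lit 10) (nat_lit 249)) (rf (nat_lit 0)))) q92155 (by decide +kernel)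
def q92206 : Q := Q.p (nat_lit 0x3000004000030000000000000000000000000000000000000000000000000000) (nat_lit 0x300000c0000000001a0001ce000120000000000000000000000000000000000000000000000) (nat_lit 5)
theorem c92206 : QOK q92206 := cut [q85212, q87241] ⟨c85212, c87241, trivial⟩ (nd (nat_lit 231) (nat_lit 0) (cs (rf (nat_lit 0)) (rf (nat_lit 1)))) q92206 (by decide +kernel)
def q92240 : Q := Q.p (nat_lit 0x7800000000000000000000000000000000000000000000000000000000000000) (nat_lit 0x1dc0000600033800000000000000000000000000000000000000000000000000000000) (nat_lit 7)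
theorem c92240 : QOK q92240 := cut [q81663] ⟨c81663, trivial⟩ (nd (nat_lit 232) (nat_lit 0) (cs (lf (nat_lit 17) (nat_lit 229)) (rf (nat_lit 0)))) q92240 (by decide +kernel)
def q92245 : Q := Q.p (nat_lit 0x7800000000000000000000000000000000000000000000000000000000000000) (nat_lit 0x80000200001e00018600033800000000000000000000000000000000000000000000000000000000) (nat_lit 8)
theorem c92245 : QOK q92245 := cut [q92244] ⟨c92244, trivial⟩ (nd (nat_lit 232) (nat_lit 0) (cs (lf (nat_lit 17) (nat_lit 229)) (rf (nat_lit 0)))) q92245 (by decide +kernel)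
def q92260 : Q := Q.p (nat_lit 0x400007000000000000000000000000000000000000000000000000000000000000000) (nat_lit 0x1ca000780003f0000000000000000000000000000000000000000000000000000000000) (nat_lit 8)
theorem c92260 : QOK q92260 := cut [q81641] ⟨c81641, trivial⟩ (nd (nat_lit 255) (nat_lit 0) (cs (lf (nat_lit 11) (nat_lit 251)) (nd (nat_lit 233) (nat_lit 0) (cs (lf (nat_lit 17) (nat_lit 230)) (rf (nat_lit 0)))))) q92260 (by decide +kernel)
def q92327 : Q := Q.p (nat_lit 0x7000000000000000000000000000000000000000000000000000000000000000) (nat_lit 0x80001fc0018f0000fc00010000040000000000000000000000000000000000000000000000) (nat_lit 8)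
theorem c92327 : QOK q92327 := cut [q81663, q81665, q81671, q81675, q92326] ⟨c81663, c81665, c81671, c81675, c92326, trivial⟩ (nd (nat_lit 251) (nat_lit 0) (cs (rf (nat_lit 0)) (cs (rf (nat_lit 1)) (cs (rf (nat_lit 2)) (cs (rf (nat_lit 3)) (rf (nat_lit 4))))))) q92327 (by decide +kernel)
def q92347 : Q := Q.p (nat_lit 0x80000200003800000000000000000000000000000000000000000000000000000000000000) (nat_lit 0x400001c0000f000007000058000000000300000c000030000000000000000000000000000000000000000000000) (nat_lit 8)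
theorem c92347 : QOK q92347 := cut [q86884, q88789, q90035] ⟨c86884, c88789, c90035, trivial⟩ (nd (nat_lit 317) (nat_lit 0) (cs (rf (nat_lit 0)) (cs (rf (nat_lit 1)) (rf (nat_lit 2))))) q92347 (by decide +kernel)
def q92366 : Q := Q.p (nat_lit 0x80000200003800000000000000000000000000000000000000000000000000000000000000) (nat_lit 0x200001d0000760001dc000000000300001c000070000100000000000000000000000000000000000000000) (nat_lit 10)
theorem c92366 : QOK q92366 := cut [q82543, q82598, q82629, q11855, q92357] ⟨c82543, c82598, c82629, c11855, c92357, trivial⟩ (nd (nat_lit 229) (nat_lit 0) (cs (rf (nat_lit 0)) (cs (rf (nat_lit 1)) (cs (rf (nat_lit 2)) (nd (nat_lit 272) (nat_lit 0) (cs (rf (nat_lit 3)) (cs (nd (nat_lit 294) (nat_lit 0) (cs (lf (nat_lit 41) (nat_lit 228)) (nd (nat_lit 206) (nat_lit 0) (cs (lf (nat_lit 46) (nat_lit 206)) (nd (nat_lit 296) (nat_lit 0) (cs (lf (nat_lit 29) (nat_lit 229)) (nd (nat_lit 297) (nat_lit 0) (cs (lf (nat_lit 18) (nat_lit 272)) (rf (nat_lit 4)))))))))) (nd (nat_lit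 271) (nat_lit 0) (cs (lf (nat_lit 12) (nat_lit 248)) (nd (nat_lit 294) (nat_lit 0) (cs (lf (nat_lit 41) (nat_lit 228)) (nd (nat_lit 296) (nat_lit 0) (cs (lf (nat_lit 29) (nat_lit 229)) (lf (nat_lit 18) (nat_lit 271))))))))))))))) q92366 (by decide +kernel)
def q92457 : Q := Q.p (nat_lit 0x10000000000200003800000000000000000000000000000000000000000000000000000000000000) (nat_lit 0x7f8002ec000fb800190000c0000fb0001e00003e0000e00002800000000000000000000000000000000000) (nat_lit 13)
theorem c92457 : QOK q92457 := cut [q81677, q79123, q79128, q22663, q81135, q92434, q15853, q83005, q92442, q92450, q92451, q79121, q79159, q79912] ⟨c81677, c79123, c79128, c22663, c81135, c92434, c15853, c83005, c92442, c92450, c92451, c79121, c79159, c79912, trivial⟩ (nd (nat_lit 254) (nat_lit 0) (cs (lf (nat_lit 11) (nat_lit 250)) (nd (nat_lit 232) (nat_lit 0) (cs (rf (nat_lit 0)) (nd (nat_lit 210) (nat_lit 0) (cs (rf (nat_lit 1)) (cs (rf (nat_lit 2)) (cs (nd (nat_lit 297) (nat_lit 0) (cs (nd (nat_lit 275) (nat_lit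 0) (cs (lf (nat_lit 33) (nat_lit 209)) (lf (nat_lit 39) (nat_lit 209)))) (cs (nd (nat_lit 229) (nat_lit 0) (cs (lf (nat_lit 23) (nat_lit 228)) (nd (nat_lit 317) (nat_lit 0) (cs (nd (nat_lit 295) (nat_lit 0) (cs (lf (nat_lit 41) (nat_lit 250)) (rf (nat_lit 3)))) (cs (nd (nat_lit 295) (nat_lit 0) (cs (lf (nat_lit 41) (nat_lit 250)) (nd (nat_lit 298) (nat_lit 0) (cs (lf (nat_lit 8) (nat_lit 294)) (nd (nat_lit 276) (nat_lit 0) (cs (lf (nat_lit 41) (nat_lit 231)) (rf (nat_lit 4)))))))) (cs (nd (nat_lit 318) (nat_lit 0) (cs (nd (nat_lit 295) (nat_lit 0) (cs (lf (nat_lit 29) (nat_lit 251)) (lf (nat_lit 28) (nat_lit 229)))) (cs (nd (nat_lit 298) (nat_lit 0) (cs (lf (nat_lit 15) (nat_lit 294)) (rf (nat_lit 5)))) (nd (nat_lit 296) (nat_lit 0) (cs (lf (nat_lit 12) (nat_lit 293)) (rf (nat_lit 6))))))) (cs (nd (nat_lit 318) (nat_lit 0) (cs (nd (nat_lit 315) (nat_lit 0) (cs (lf (nat_lit 16) (nat_lit 293)) (rf (nat_lit 7)))) (cs (nd (nat_lit 298) (nat_lit 0) (cs (lf (nat_lit 15) (nat_lit 294)) (nd (nat_lit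 299) (nat_lit 0) (cs (lf (nat_lit 9) (nat_lit 295)) (nd (nat_lit 276) (nat_lit 0) (cs (lf (nat_lit 29) (nat_lit 232)) (rf (nat_lit 4)))))))) (rf (nat_lit 8))))) (nd (nat_lit 318) (nat_lit 0) (cs (rf (nat_lit 5)) (cs (rf (nat_lit 8)) (cs (nd (nat_lit 319) (nat_lit 0) (cs (lf (nat_lit 17) (nat_lit 294)) (nd (nat_lit 338) (nat_lit 0) (cs (lf (nat_lit 11) (nat_lit 315)) (lf (nat_lit 38) (nat_lit 250)))))) (nd (nat_lit 295) (nat_lit 0) (cs (lf (nat_lit 41) (nat_lit 250)) (lf (nat_lit 29) (nat_lit 251))))))))))))))) (cs (rf (nat_lit 9)) (rf (nat_lit 10)))))) (nd (nat_lit 188) (nat_lit 0) (cs (rf (nat_lit 11)) (cs (rf (nat_lit 12)) (nd (nat_lit 228) (nat_lit 0) (cs (lf (nat_lit 22) (nat_lit 228)) (rf (nat_lit 13))))))))))))))) q92457 (by decide +kernel)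
def q92565 : Q := Q.p (nat_lit 0x4000018000000000000002000000000000000000000000000000000000000000000000000000000000000) (nat_lit 0x80003e0000ff0007f8007bf001e700071e0008300000c0000300000000000000000000000000000000000000000000000000000000) (nat_lit 12)
theorem c92565 : QOK q92565 := cut [q92460, q92494, q92463, q48393, q92564] ⟨c92460, c92494, c92463, c48393, c92564, trivial⟩ (nd (nat_lit 314) (nat_lit 0) (cs (rf (nat_lit 0)) (cs (rf (nat_lit 1)) (cs (nd (nat_lit 317) (nat_lit 0) (cs (rf (nat_lit 2)) (cs (nd (nat_lit 291) (nat_lit 0) (cs (lf (nat_lit 22) (nat_lit 291)) (nd (nat_lit 336) (nat_lit 0) (cs (lf (nat_lit 11) (nat_lit 313)) (nd (nat_lit 318) (nat_lit 0) (cs (lf (nat_lit 10) (nat_lit 314)) (rf (nat_lit 3)))))))) (cs (nd (nat_lit 291) (nat_lit 0) (cs (lf (nat_lit 22) (nat_lit 291)) (nd (nat_lit 336) (nat_lit 0) (cs (lf (nat_lit 11) (nat_lit 313)) (nd (nat_lit 318) (nat_lit 0) (cs (lf (nat_lit 10) (nat_lit 314)) (nd (nat_lit 297) (nat_lit 0) (cs (lf (nat_lit 16) (nat_lit 293)) (nd (nat_lit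 319) (nat_lit 0) (cs (lf (nat_lit 17) (nat_lit 294)) (nd (nat_lit 342) (nat_lit 0) (cs (lf (nat_lit 4) (nat_lit 316)) (nd (nat_lit 320) (nat_lit 0) (cs (lf (nat_lit 10) (nat_lit 316)) (lf (nat_lit 25) (nat_lit 253)))))))))))))))) (nd (nat_lit 336) (nat_lit 0) (cs (lf (nat_lit 11) (nat_lit 313)) (nd (nat_lit 358) (nat_lit 0) (cs (nd (nat_lit 339) (nat_lit 0) (cs (lf (nat_lit 5) (nat_lit 314)) (nd (nat_lit 291) (nat_lit 0) (cs (lf (nat_lit 22) (nat_lit 291)) (nd (nat_lit 357) (nat_lit 0) (cs (lf (nat_lit 8) (nat_lit 335)) (nd (nat_lit 360) (nat_lit 0) (cs (nd (nat_lit 382) (nat_lit 0) (cs (lf (nat_lit 30) (nat_lit 316)) (nd (nat_lit 383) (nat_lit 0) (cs (lf (nat_lit 29) (nat_lit 316)) (nd (nat_lit 381) (nat_lit 0) (cs (lf (nat_lit 41) (nat_lit 315)) (lf (nat_lit 21) (nat_lit 357)))))))) (lf (nat_lit 14) (nat_lit 335)))))))))) (cs (nd (nat_lit 292) (nat_lit 0) (cs (lf (nat_lit 23) (nat_lit 291)) (nd (nat_lit 359) (nat_lit 0) (cs (lf (nat_lit 29) (nat_lit 292)) (nd (nat_lit 357) (nat_lit 0) (cs (lf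 (nat_lit 41) (nat_lit 291)) (nd (nat_lit 356) (nat_lit 0) (cs (nd (nat_lit 377) (nat_lit 0) (cs (nd (nat_lit 355) (nat_lit 0) (cs (nd (nat_lit 333) (nat_lit 0) (cs (lf (nat_lit 22) (nat_lit 333)) (lf (nat_lit 23) (nat_lit 332)))) (lf (nat_lit 11) (nat_lit 354)))) (lf (nat_lit 10) (nat_lit 355)))) (lf (nat_lit 16) (nat_lit 334)))))))))) (cs (nd (nat_lit 292) (nat_lit 0) (cs (lf (nat_lit 23) (nat_lit 291)) (nd (nat_lit 339) (nat_lit 0) (cs (lf (nat_lit 5) (nat_lit 314)) (nd (nat_lit 381) (nat_lit 0) (cs (lf (nat_lit 28) (nat_lit 292)) (nd (nat_lit 380) (nat_lit 0) (cs (lf (nat_lit 29) (nat_lit 314)) (nd (nat_lit 401) (nat_lit 0) (cs (lf (nat_lit 40) (nat_lit 313)) (nd (nat_lit 402) (nat_lit 0) (cs (lf (nat_lit 34) (nat_lit 314)) (lf (nat_lit 41) (nat_lit 335)))))))))))))) (cs (nd (nat_lit 339) (nat_lit 0) (cs (lf (nat_lit 5) (nat_lit 314)) (nd (nat_lit 337) (nat_lit 0) (cs (lf (nat_lit 11) (nat_lit 335)) (nd (nat_lit 380) (nat_lit 0) (cs (lf (nat_lit 30) (nat_lit 314)) (nd (nat_lit 381) (nat_lit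 0) (cs (lf (nat_lit 29) (nat_lit 314)) (nd (nat_lit 361) (nat_lit 0) (cs (lf (nat_lit 5) (nat_lit 336)) (nd (nat_lit 379) (nat_lit 0) (cs (lf (nat_lit 41) (nat_lit 313)) (nd (nat_lit 360) (nat_lit 0) (cs (lf (nat_lit 15) (nat_lit 357)) (lf (nat_lit 8) (nat_lit 357)))))))))))))))) (cs (nd (nat_lit 292) (nat_lit 0) (cs (lf (nat_lit 23) (nat_lit 291)) (nd (nat_lit 357) (nat_lit 0) (cs (lf (nat_lit 41) (nat_lit 291)) (nd (nat_lit 339) (nat_lit 0) (cs (lf (nat_lit 5) (nat_lit 314)) (lf (nat_lit 8) (nat_lit 335)))))))) (nd (nat_lit 339) (nat_lit 0) (cs (lf (nat_lit 5) (nat_lit 314)) (nd (nat_lit 292) (nat_lit 0) (cs (lf (nat_lit 23) (nat_lit 291)) (nd (nat_lit 357) (nat_lit 0) (cs (lf (nat_lit 41) (nat_lit 291)) (nd (nat_lit 359) (nat_lit 0) (cs (lf (nat_lit 29) (nat_lit 292)) (lf (nat_lit 15) (nat_lit 335)))))))))))))))))))))) (rf (nat_lit 4)))))) q92565 (by decide +kernel)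
def q92592 : Q := Q.p (nat_lit 0x3800000000000000000000000000000000000000000000000000000000000000) (nat_lit 0x100001c0000460003bc00020000080000000000000000000000000000000000000000000000) (nat_lit 6)
theorem c92592 : QOK q92592 := cut [q18255, q89874, q92591] ⟨c18255, c89874, c92591, trivial⟩ (nd (nat_lit 250) (nat_lit 0) (cs (rf (nat_lit 0)) (cs (rf (nat_lit 1)) (rf (nat_lit 2))))) q92592 (by decide +kernel)
def q92601 : Q := Q.p (nat_lit 0x3800000000000000000000000000000000000000000000000000000000000000) (nat_lit 0x100001fc0004600038000020000080000000000000000000000000000000000000000000000) (nat_lit 6)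
theorem c92601 : QOK q92601 := cut [q40546, q89927, q92591] ⟨c40546, c89927, c92591, trivial⟩ (nd (nat_lit 250) (nat_lit 0) (cs (rf (nat_lit 0)) (cs (rf (nat_lit 1)) (rf (nat_lit 2))))) q92601 (by decide +kernel)
def q92608 : Q := Q.p (nat_lit 0x3800000000000000000000000000000000000000000000000000000000000000) (nat_lit 0x40001dc0004600003c00008000020000000000000000000000000000000000000000000000) (nat_lit 7)
theorem c92608 : QOK q92608 := cut [q2065, q18255, q40546, q82386] ⟨c2065, c18255, c40546, c82386, trivial⟩ (nd (nat_lit 250) (nat_lit 0) (cs (rf (nat_lit 0)) (cs (rf (nat_lit 1)) (cs (rf (nat_lit 2)) (nd (nat_lit 228) (nat_lit 0) (cs (lf (nat_lit 23) (nat_lit 227)) (nd (nat_lit 275) (nat_lit 0) (cs (lf (nat_lit 5) (nat_lit 250)) (rf (nat_lit 3)))))))))) q92608 (by decide +kernel)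
def q92617 : Q := Q.p (nat_lit 0x3800000000000000000000000000000000000000000000000000000000000000) (nat_lit 0x80001fc0004600001c00004000010000000000000000000000000000000000000000000000) (nat_lit 7)
theorem c92617 : QOK q92617 := cut [q2065, q18255, q40546, q84283] ⟨c2065, c18255, c40546, c84283, trivial⟩ (nd (nat_lit 250) (nat_lit 0) (cs (rf (nat_lit 0)) (cs (rf (nat_lit 1)) (cs (rf (nat_lit 2)) (nd (nat_lit 228) (nat_lit 0) (cs (lf (nat_lit 23) (nat_lit 227)) (nd (nat_lit 275) (nat_lit 0) (cs (lf (nat_lit 5) (nat_lit 250)) (rf (nat_lit 3)))))))))) q92617 (by decide +kernel)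
def q92619 : Q := Q.p (nat_lit 0xe00003800000000000000000000000000000000000000000000000000000000000000) (nat_lit 0x8000020000100000c000030000040000100000000000000000000000000000000000000000000000) (nat_lit 5)
theorem c92619 : QOK q92619 := cut [q92618] ⟨c92618, trivial⟩ (nd (nat_lit 254) (nat_lit 0) (cs (lf (nat_lit 6) (nat_lit 251)) (rf (nat_lit 0)))) q92619 (by decide +kernel)
def q92648 : Q := Q.p (nat_lit 0x3800006000018000000000000000000000000000000000000000000000000000) (nat_lit 0x300001c00000600000000020000080000000000000000000000000000000000000000000000) (nat_lit 5)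
theorem c92648 : QOK q92648 := cut [q5441] ⟨c5441, trivial⟩ (nd (nat_lit 274) (nat_lit 0) (cs (lf (nat_lit 42) (nat_lit 207)) (rf (nat_lit 0)))) q92648 (by decide +kernel)
def q92671 : Q := Q.p (nat_lit 0x3800000000000000000000000000000000000000000000000000000000000000) (nat_lit 0x10000040001bf000c780077c0000a000028000000000000000000000000000000000000000000000) (nat_lit 11)
theorem c92671 : QOK q92671 := cut [q85527, q92660, q83677, q85528, q85531, q25767] ⟨c85527, c92660, c83677, c85528, c85531, c25767, trivial⟩ (nd (nat_lit 272) (nat_lit 0) (cs (rf (nat_lit 0)) (cs (nd (nat_lit 254) (nat_lit 0) (cs (lf (nat_lit 10) (nat_lit 250)) (rf (nat_lit 1)))) (cs (nd (nat_lit 250) (nat_lit 0) (cs (lf (nat_lit 11) (nat_lit 249)) (nd (nat_lit 275) (nat_lit 0) (cs (lf (nat_lit 5) (nat_lit 250)) (rf (nat_lit 2)))))) (nd (nat_lit 250) (nat_lit 0) (cs (lf (nat_lit 11) (nat_lit 249)) (nd (nat_lit 229) (nat_lit 0) (cs (rf (nat_lit 3)) (cs (nd (nat_lit 227) (nat_lit 0) (cs (lf (nat_lit 22) (nat_lit 227)) (nd (nat_lit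 249) (nat_lit 0) (cs (lf (nat_lit 23) (nat_lit 226)) (nd (nat_lit 275) (nat_lit 0) (cs (lf (nat_lit 5) (nat_lit 250)) (rf (nat_lit 4)))))))) (nd (nat_lit 275) (nat_lit 0) (cs (lf (nat_lit 5) (nat_lit 250)) (nd (nat_lit 294) (nat_lit 0) (cs (lf (nat_lit 30) (nat_lit 228)) (rf (nat_lit 5))))))))))))))) q92671 (by decide +kernel)
def q92672 : Q := Q.p (nat_lit 0x80000200001800002000008000000000000000000000000000000000000000000000000000) (nat_lit 0x100000400000000000000040000040000700001c0000400000000000000000000000000000000000) (nat_lit 6)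
theorem c92672 : QOK q92672 := cut [q86705] ⟨c86705, trivial⟩ (nd (nat_lit 294) (nat_lit 0) (cs (lf (nat_lit 41) (nat_lit 228)) (rf (nat_lit 0)))) q92672 (by decide +kernel)
def q92695 : Q := Q.p (nat_lit 0x80000200001800000000000000000000000000000000000000000000000000000000000000) (nat_lit 0x500001c0000f0000070000400000000002000000000000000000000000000000000000000000000000000000000) (nat_lit 6)
theorem c92695 : QOK q92695 := cut [q82631, q86884, q90035] ⟨c82631, c86884, c90035, trivial⟩ (nd (nat_lit 317) (nat_lit 0) (cs (rf (nat_lit 0)) (cs (rf (nat_lit 1)) (rf (nat_lit 2))))) q92695 (by decide +kernel)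
def q92701 : Q := Q.p (nat_lit 0x3800000000000000000000000000000000000000000000000000000000000000) (nat_lit 0x8000078000c400077c00004000010000000000000000000000000000000000000000000000) (nat_lit 6)
theorem c92701 : QOK q92701 := cut [q85582, q92699, q92239] ⟨c85582, c92699, c92239, trivial⟩ (nd (nat_lit 228) (nat_lit 0) (cs (rf (nat_lit 0)) (cs (rf (nat_lit 1)) (nd (nat_lit 254) (nat_lit 0) (cs (lf (nat_lit 22) (nat_lit 228)) (rf (nat_lit 2))))))) q92701 (by decide +kernel)
def q92707 : Q := Q.p (nat_lit 0x3000008000020000000000000000000000000000000000000000000000000000) (nat_lit 0x1400004000010000000000180000600001000000000000000000000000000000000000) (nat_lit 5)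
theorem c92707 : QOK q92707 := cut [q92706] ⟨c92706, trivial⟩ (nd (nat_lit 187) (nat_lit 0) (cs (lf (nat_lit 41) (nat_lit 186)) (rf (nat_lit 0)))) q92707 (by decide +kernel)
def q92711 : Q := Q.p (nat_lit 0x300000e000000000000000000000000000000000000000000000000000000000) (nat_lit 0x1000004000000000700001dc000020000080000000000000000000000000000000000000000) (nat_lit 5)
theorem c92711 : QOK q92711 := cut [q84418, q84444] ⟨c84418, c84444, trivial⟩ (nd (nat_lit 232) (nat_lit 0) (cs (rf (nat_lit 0)) (rf (nat_lit 1)))) q92711 (by decide +kernel)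
def q92713 : Q := Q.p (nat_lit 0x300000c000010000000000000000000000000000000000000000000000000000) (nat_lit 0x6000018000060000000003200000e000020000000000000000000000000000000000000000000000) (nat_lit 5)
theorem c92713 : QOK q92713 := cut [q22271, q57679] ⟨c22271, c57679, trivial⟩ (nd (nat_lit 274) (nat_lit 0) (cs (rf (nat_lit 0)) (rf (nat_lit 1)))) q92713 (by decide +kernel)
def q92719 : Q := Q.p (nat_lit 0x300001c000000000000000000000000000000000000000000000000000000000) (nat_lit 0x800018000060000198000040000100000000000000000000000000000000000000000) (nat_lit 6)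
theorem c92719 : QOK q92719 := cut [q91167] ⟨c91167, trivial⟩ (nd (nat_lit 233) (nat_lit 0) (cs (lf (nat_lit 6) (nat_lit 230)) (nd (nat_lit 255) (nat_lit 0) (cs (lf (nat_lit 5) (nat_lit 230)) (rf (nat_lit 0)))))) q92719 (by decide +kernel)
def q92727 : Q := Q.p (nat_lit 0x300000e000000000000000000000000000000000000000000000000000000000) (nat_lit 0x80001c0000700001c0000100000400000000000000000000000000000000000000000) (nat_lit 5)
theorem c92727 : QOK q92727 := cut [q84418, q92717, q92726] ⟨c84418, c92717, c92726, trivial⟩ (nd (nat_lit 232) (nat_lit 0) (cs (rf (nat_lit 0)) (cs (rf (nat_lit 1)) (rf (nat_lit 2))))) q92727 (by decide +kernel)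
def q92729 : Q := Q.p (nat_lit 0x200000c00002000008000000000000000000000000000000000000000000000000000000000) (nat_lit 0x100001c00001300000000010000040000000000000000000000000000000000000000000000000000) (nat_lit 5)
theorem c92729 : QOK q92729 := cut [q91378] ⟨c91378, trivial⟩ (nd (nat_lit 210) (nat_lit 0) (cs (lf (nat_lit 34) (nat_lit 209)) (rf (nat_lit 0)))) q92729 (by decide +kernel)
def q92757 : Q := Q.p (nat_lit 0xc0000300000c000000000000000000000000000000000000000000000000000000000) (nat_lit 0x1e0000fe0000300000000010000040000000000000000000000000000000000000000000000000000) (nat_lit 8)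
theorem c92757 : QOK q92757 := cut [q91978] ⟨c91978, trivial⟩ (nd (nat_lit 297) (nat_lit 0) (cs (lf (nat_lit 42) (nat_lit 230)) (nd (nat_lit 210) (nat_lit 0) (cs (lf (nat_lit 34) (nat_lit 209)) (nd (nat_lit 296) (nat_lit 0) (cs (lf (nat_lit 41) (nat_lit 230)) (rf (nat_lit 0)))))))) q92757 (by decide +kernel)
def q92760 : Q := Q.p (nat_lit 0x10000040000300000c000000000000000000000000000000000000000000000000000000000) (nat_lit 0x180000e00000b00000000010000050000000000000000000000000000000000000000000000000000) (nat_lit 6)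
theorem c92760 : QOK q92760 := cut [q2562] ⟨c2562, trivial⟩ (nd (nat_lit 297) (nat_lit 0) (cs (lf (nat_lit 29) (nat_lit 230)) (nd (nat_lit 275) (nat_lit 0) (cs (rf (nat_lit 0)) (lf (nat_lit 47) (nat_lit 208)))))) q92760 (by decide +kernel)
def q92781 : Q := Q.p (nat_lit 0xc00003000008000020000000000000000000000000000000000000000000000000000) (nat_lit 0x300001f0001e0000130000c000010000000000000000000000000000000000000000000000000000000000) (nat_lit 9)
theorem c92781 : QOK q92781 := cut [q92780] ⟨c92780, trivial⟩ (nd (nat_lit 298) (nat_lit 0) (cs (lf (nat_lit 28) (nat_lit 209)) (rf (nat_lit 0)))) q92781 (by decide +kernel)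
def q92789 : Q := Q.p (nat_lit 0x800003000008000020000000000000000000000000000000000000000000000000000) (nat_lit 0x300001f0001f0000170000c000010000040000100000000000000000000000000000000000000000000000) (nat_lit 11)
theorem c92789 : QOK q92789 := cut [q92780] ⟨c92780, trivial⟩ (nd (nat_lit 274) (nat_lit 0) (cs (lf (nat_lit 41) (nat_lit 208)) (nd (nat_lit 298) (nat_lit 0) (cs (lf (nat_lit 28) (nat_lit 209)) (nd (nat_lit 188) (nat_lit 0) (cs (lf (nat_lit 34) (nat_lit 187)) (rf (nat_lit 0)))))))) q92789 (by decide +kernel)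

end Crest.Agent.H3.Snaky.CR
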