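import Crest.Agent.H3.Snaky.Cert
import Crest.Agent.H3.Snaky.CR.CR0
import Crest.Agent.H3.Snaky.CR.CR1
import Crest.Agent.H3.Snaky.CR.CR3
import Crest.Agent.H3.Snaky.CR.CR4
import Crest.Agent.H3.Snaky.CR.CR5
import Crest.Agent.H3.Snaky.CR.CR6
import Crest.Agent.H3.Snaky.CR.CR8
import Crest.Agent.H3.Snaky.CR.CR9
import Crest.Agent.H3.Snaky.CR.CR12
import Crest.Agent.H3.Snaky.CR.CR13
import Crest.Agent.H3.Snaky.CR.CR15
import Crest.Agent.H3.Snaky.CR.CR16
import Crest.Agent.H3.Snaky.CR.CR17
import Crest.Agent.H3.Snaky.CR.CR18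
import Crest.Agent.H3.Snaky.CR.CR20
import Crest.Agent.H3.Snaky.CR.CR21
import Crest.Agent.H3.Snaky.CR.CR22
import Crest.Agent.H3.Snaky.CR.CR23
import Crest.Agent.H3.Snaky.CR.CR24
import Crest.Agent.H3.Snaky.CR.CR25
import Crest.Agent.H3.Snaky.CR.CR27
import Crest.Agent.H3.Snaky.CR.CR29
import Crest.Agent.H3.Snaky.CR.CR33
import Crest.Agent.H3.Snaky.CR.CR34
import Crest.Agent.H3.Snaky.CR.CR35
import Crest.Agent.H3.Snaky.CR.CR36
import Crest.Agent.H3.Snaky.CR.CR37
import Crest.Agent.H3.Snaky.CR.CR39
import Crest.Agent.H3.Snaky.CR.CR40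
import Crest.Agent.H3.Snaky.CR.CR41
import Crest.Agent.H3.Snaky.CR.CR42
import Crest.Agent.H3.Snaky.CR.CR43
import Crest.Agent.H3.Snaky.CR.CR44
import Crest.Agent.H3.Snaky.CR.CR45
import Crest.Agent.H3.Snaky.CR.CR48
import Crest.Agent.H3.Snaky.CR.CR49
import Crest.Agent.H3.Snaky.CR.CR50
import Crest.Agent.H3.Snaky.CR.CR51
import Crest.Agent.H3.Snaky.CR.CR52

set_option autoImplicit false
set_option maxRecDepth 100000

namespace Crest.Agent.H3.Snaky.CR

open T

def q92792 : Q := Q.p (nat_lit 0x3000008000020000000000000000000000000000000000000000000000000000) (nat_lit 0x14000040000100000000000c0000300000400000000000000000000000000000000000) (nat_lit 5)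
theorem c92792 : QOK q92792 := cut [q92791] ⟨c92791, trivial⟩ (nd (nat_lit 187) (nat_lit 0) (cs (lf (nat_lit 41) (nat_lit 186)) (rf (nat_lit 0)))) q92792 (by decide +kernel)
def q92793 : Q := Q.p (nat_lit 0x2000008000020000000000000000000000000000000000000000000000000000) (nat_lit 0x4000018000040000100000100001c0000700001400000000000000000000000000000000000) (nat_lit 5)
theorem c92793 : QOK q92793 := cut [q80750, q92706, q92709] ⟨c80750, c92706, c92709, trivial⟩ (nd (nat_lit 187) (nat_lit 0) (cs (rf (nat_lit 0)) (cs (rf (nat_lit 1)) (rf (nat_lit 2))))) q92793 (by decide +kernel)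
def q92803 : Q := Q.p (nat_lit 0x300000c000020000000000000000000000000000000000000000000000000000) (nat_lit 0x100000c000003000000000180000600000000000000000000000000000000000000000) (nat_lit 5)
theorem c92803 : QOK q92803 := cut [q92802] ⟨c92802, trivial⟩ (nd (nat_lit 187) (nat_lit 0) (cs (lf (nat_lit 36) (nat_lit 164)) (rf (nat_lit 0)))) q92803 (by decide +kernel)
def q92805 : Q := Q.p (nat_lit 0x300000c000020000000000000000000000000000000000000000000000000000) (nat_lit 0x100000c0000030000000000c0000300000000000000000000000000000000000000000) (nat_lit 5)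
theorem c92805 : QOK q92805 := cut [q92804] ⟨c92804, trivial⟩ (nd (nat_lit 187) (nat_lit 0) (cs (lf (nat_lit 36) (nat_lit 164)) (rf (nat_lit 0)))) q92805 (by decide +kernel)
def q92807 : Q := Q.p (nat_lit 0x300000c000020000000000000000000000000000000000000000000000000000) (nat_lit 0x8000000000000000500001f8000780000000000000000000000000000000000000000) (nat_lit 7)
theorem c92807 : QOK q92807 := cut [q85463] ⟨c85463, trivial⟩ (nd (nat_lit 187) (nat_lit 0) (cs (lf (nat_lit 36) (nat_lit 164)) (nd (nat_lit 166) (nat_lit 0) (cs (lf (nat_lit 34) (nat_lit 165)) (rf (nat_lit 0)))))) q92807 (by decide +kernel)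
def q92810 : Q := Q.p (nat_lit 0x80000200000c000030000000000000000000000000000000000000000000000000000) (nat_lit 0x4000010000000000700001ce000138000000000000000000000000000000000000000000000) (nat_lit 8)
theorem c92810 : QOK q92810 := cut [q92809] ⟨c92809, trivial⟩ (nd (nat_lit 276) (nat_lit 0) (cs (lf (nat_lit 29) (nat_lit 209)) (rf (nat_lit 0)))) q92810 (by decide +kernel)
def q92816 : Q := Q.p (nat_lit 0x300000c000020000000000000000000000000000000000000000000000000000) (nat_lit 0x4000018000040000000000400001c0000700000000000000000000000000000000000000000) (nat_lit 6)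
theorem c92816 : QOK q92816 := cut [q92815] ⟨c92815, trivial⟩ (nd (nat_lit 187) (nat_lit 0) (cs (lf (nat_lit 36) (nat_lit 164)) (rf (nat_lit 0)))) q92816 (by decide +kernel)
def q92845 : Q := Q.p (nat_lit 0x300000c000000000000000000000000000000000000000000000000000000000) (nat_lit 0x1800006000018000000000130001f00001c0000300000000000000000000000000000000000000000) (nat_lit 6)
theorem c92845 : QOK q92845 := cut [q81477, q92842, q92844] ⟨c81477, c92842, c92844, trivial⟩ (nd (nat_lit 275) (nat_lit 0) (cs (rf (nat_lit 0)) (cs (rf (nat_lit 1)) (rf (nat_lit 2))))) q92845 (by decide +kernel)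
def q92897 : Q := Q.p (nat_lit 0x300000c000000000080000000000000000000000000000000000000000000000) (nat_lit 0x100000c000003000020000100000600000000000000000000000000000000000000000) (nat_lit 5)
theorem c92897 : QOK q92897 := cut [q92802] ⟨c92802, trivial⟩ (nd (nat_lit 209) (nat_lit 0) (cs (lf (nat_lit 36) (nat_lit 164)) (rf (nat_lit 0)))) q92897 (by decide +kernel)
def q92898 : Q := Q.p (nat_lit 0xf00000c000020000080000000000000000000000000000000000000000000000) (nat_lit 0x800000000060000018000740000500000000000000000000000000000000000000000) (nat_lit 6)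
theorem c92898 : QOK q92898 := cut [q92168] ⟨c92168, trivial⟩ (nd (nat_lit 233) (nat_lit 0) (cs (lf (nat_lit 17) (nat_lit 230)) (rf (nat_lit 0)))) q92898 (by decide +kernel)
def q92902 : Q := Q.p (nat_lit 0x300000c000000000080000000000000000000000000000000000000000000000) (nat_lit 0x100000c000003000020000040000300000000000000000000000000000000000000000) (nat_lit 5)
theorem c92902 : QOK q92902 := cut [q92804] ⟨c92804, trivial⟩ (nd (nat_lit 209) (nat_lit 0) (cs (lf (nat_lit 36) (nat_lit 164)) (rf (nat_lit 0)))) q92902 (by decide +kernel)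
def q92997 : Q := Q.p (nat_lit 0x3000008000000000000000000000000000000000000000000000000000000000) (nat_lit 0x200001c0000780001f0000c0001e60003f8001fe0000700001400000000000000000000000000000000000) (nat_lit 14)
theorem c92997 : QOK q92997 := cut [q82300, q82309, q92710, q92795, q92785, q80837, q84969, q84984, q84971, q79043, q84410, q92991, q92994] ⟨c82300, c82309, c92710, c92795, c92785, c80837, c84969, c84984, c84971, c79043, c84410, c92991, c92994, trivial⟩ (nd (nat_lit 209) (nat_lit 0) (cs (rf (nat_lit 0)) (cs (rf (nat_lit 1)) (cs (rf (nat_lit 2)) (cs (rf (nat_lit 3)) (nd (nat_lit 275) (nat_lit 0) (cs (rf (nat_lit 4)) (cs (nd (nat_lit 210) (nat_lit 0) (cs (lf (nat_lit 35) (nat_lit 187)) (nd (nat_lit 211) (nat_lit 0) (cs (rf (nat_lit 5)) (cs (rf (nat_lit 6)) (cs (rf (nat_lit 7)) (cs (nd (nat_lit 208) (nat_lit 0) (cs (lf (nat_lit 47) (nat_lit 186)) (nd (nat_lit 276) (nat_lit 0) (cs (lf (nat_lit 29) (nat_lit 209)) (rf (nat_lit 8)))))) (nd (nat_lit 208) (nat_lit 0) (cs (lf (nat_lit 47) (nat_lit 186)) (nd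 (nat_lit 274) (nat_lit 0) (cs (lf (nat_lit 41) (nat_lit 208)) (nd (nat_lit 230) (nat_lit 0) (cs (lf (nat_lit 11) (nat_lit 207)) (nd (nat_lit 185) (nat_lit 0) (cs (lf (nat_lit 46) (nat_lit 185)) (nd (nat_lit 189) (nat_lit 0) (cs (lf (nat_lit 17) (nat_lit 186)) (nd (nat_lit 233) (nat_lit 0) (cs (lf (nat_lit 5) (nat_lit 208)) (nd (nat_lit 276) (nat_lit 0) (cs (lf (nat_lit 29) (nat_lit 209)) (nd (nat_lit 254) (nat_lit 0) (cs (rf (nat_lit 9)) (lf (nat_lit 39) (nat_lit 188))))))))))))))))))))))))) (cs (nd (nat_lit 274) (nat_lit 0) (cs (lf (nat_lit 41) (nat_lit 208)) (nd (nat_lit 188) (nat_lit 0) (cs (lf (nat_lit 34) (nat_lit 187)) (nd (nat_lit 208) (nat_lit 0) (cs (lf (nat_lit 47) (nat_lit 186)) (nd (nat_lit 230) (nat_lit 0) (cs (lf (nat_lit 42) (nat_lit 208)) (rf (nat_lit 10)))))))))) (cs (rf (nat_lit 11)) (nd (nat_lit 188) (nat_lit 0) (cs (lf (nat_lit 34) (nat_lit 187)) (rf (nat_lit 12)))))))))))))) q92997 (by decide +kernel)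
def q93014 : Q := Q.p (nat_lit 0x3000008000020000000000000000000000000000000000000000000000000000) (nat_lit 0x100001c00007000018000000000040000100001c0000700001400000000000000000000000000000000000) (nat_lit 9)
theorem c93014 : QOK q93014 := cut [q4090, q80750, q82299, q93011] ⟨c4090, c80750, c82299, c93011, trivial⟩ (nd (nat_lit 187) (nat_lit 0) (cs (rf (nat_lit 0)) (cs (rf (nat_lit 1)) (cs (rf (nat_lit 2)) (nd (nat_lit 166) (nat_lit 0) (cs (lf (nat_lit 34) (nat_lit 165)) (nd (nat_lit 186) (nat_lit 0) (cs (lf (nat_lit 47) (nat_lit 164)) (rf (nat_lit 3)))))))))) q93014 (by decide +kernel)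
def q93121 : Q := Q.p (nat_lit 0x20000000000f000008000000000000000000000000000000000000000000000000000000000) (nat_lit 0x1780005c0001f000000000f60007c0001fe000fe00000000000000000000000000000000000000000) (nat_lit 14)
theorem c93121 : QOK q93121 := cut [q93064, q79970, q79116, q93074, q87848, q86745, q57802, q80117, q93115] ⟨c93064, c79970, c79116, c93074, c87848, c86745, c57802, c80117, c93115, trivial⟩ (nd (nat_lit 232) (nat_lit 0) (cs (nd (nat_lit 233) (nat_lit 0) (cs (lf (nat_lit 6) (nat_lit 230)) (nd (nat_lit 229) (nat_lit 0) (cs (lf (nat_lit 1) (nat_lit 229)) (nd (nat_lit 210) (nat_lit 0) (cs (lf (nat_lit 31) (nat_lit 209)) (nd (nat_lit 188) (nat_lit 0) (cs (lf (nat_lit 36) (nat_lit 165)) (rf (nat_lit 0)))))))))) (cs (nd (nat_lit 210) (nat_lit 0) (cs (lf (nat_lit 31) (nat_lit 209)) (nd (nat_lit 188) (nat_lit 0) (cs (lf (nat_lit 36) (nat_lit 165)) (nd (nat_lit 273) (nat_lit 0) (cs (lf (nat_lit 10) (nat_lit 251)) (nd (nat_lit 187) (nat_lit 0) (cs (lf (nat_lit 47) (nat_lit 165)) (nd (nat_lit 229) (nat_lit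 0) (cs (lf (nat_lit 22) (nat_lit 229)) (rf (nat_lit 1)))))))))))) (cs (nd (nat_lit 233) (nat_lit 0) (cs (rf (nat_lit 2)) (nd (nat_lit 273) (nat_lit 0) (cs (lf (nat_lit 10) (nat_lit 251)) (rf (nat_lit 3)))))) (cs (nd (nat_lit 296) (nat_lit 0) (cs (rf (nat_lit 4)) (cs (nd (nat_lit 274) (nat_lit 0) (cs (lf (nat_lit 30) (nat_lit 230)) (lf (nat_lit 11) (nat_lit 251)))) (nd (nat_lit 233) (nat_lit 0) (cs (rf (nat_lit 2)) (nd (nat_lit 188) (nat_lit 0) (cs (nd (nat_lit 210) (nat_lit 0) (cs (lf (nat_lit 36) (nat_lit 165)) (lf (nat_lit 31) (nat_lit 209)))) (cs (nd (nat_lit 230) (nat_lit 0) (cs (lf (nat_lit 23) (nat_lit 229)) (nd (nat_lit 273) (nat_lit 0) (cs (lf (nat_lit 10) (nat_lit 251)) (rf (nat_lit 5)))))) (nd (nat_lit 189) (nat_lit 0) (cs (nd (nat_lit 210) (nat_lit 0) (cs (lf (nat_lit 35) (nat_lit 166)) (lf (nat_lit 31) (nat_lit 209)))) (cs (nd (nat_lit 230) (nat_lit 0) (cs (lf (nat_lit 23) (nat_lit 229)) (nd (nat_lit 211) (nat_lit 0) (cs (lf (nat_lit 17) (nat_lit 208)) (lf (nat_lit 36) (nat_lit 166)))))) (nd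 (nat_lit 190) (nat_lit 0) (cs (nd (nat_lit 168) (nat_lit 0) (cs (nd (nat_lit 169) (nat_lit 0) (cs (nd (nat_lit 170) (nat_lit 0) (cs (lf (nat_lit 15) (nat_lit 166)) (lf (nat_lit 6) (nat_lit 167)))) (lf (nat_lit 12) (nat_lit 165)))) (lf (nat_lit 32) (nat_lit 167)))) (cs (nd (nat_lit 229) (nat_lit 0) (cs (lf (nat_lit 1) (nat_lit 229)) (nd (nat_lit 273) (nat_lit 0) (cs (lf (nat_lit 10) (nat_lit 251)) (nd (nat_lit 210) (nat_lit 0) (cs (lf (nat_lit 41) (nat_lit 187)) (nd (nat_lit 187) (nat_lit 0) (cs (lf (nat_lit 47) (nat_lit 165)) (nd (nat_lit 169) (nat_lit 0) (cs (lf (nat_lit 16) (nat_lit 165)) (nd (nat_lit 191) (nat_lit 0) (cs (lf (nat_lit 17) (nat_lit 166)) (rf (nat_lit 6)))))))))))))) (cs (nd (nat_lit 210) (nat_lit 0) (cs (lf (nat_lit 41) (nat_lit 187)) (nd (nat_lit 187) (nat_lit 0) (cs (lf (nat_lit 47) (nat_lit 165)) (nd (nat_lit 273) (nat_lit 0) (cs (lf (nat_lit 10) (nat_lit 251)) (rf (nat_lit 7)))))))) (nd (nat_lit 210) (nat_lit 0) (cs (lf (nat_lit 41) (nat_lit 187)) (nd (nat_lit 229) (nat_lit 0) (cs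 (lf (nat_lit 1) (nat_lit 229)) (nd (nat_lit 273) (nat_lit 0) (cs (lf (nat_lit 10) (nat_lit 251)) (nd (nat_lit 211) (nat_lit 0) (cs (lf (nat_lit 35) (nat_lit 167)) (nd (nat_lit 191) (nat_lit 0) (cs (lf (nat_lit 6) (nat_lit 188)) (nd (nat_lit 213) (nat_lit 0) (cs (lf (nat_lit 5) (nat_lit 188)) (lf (nat_lit 7) (nat_lit 209))))))))))))))))))))))))))))) (cs (nd (nat_lit 233) (nat_lit 0) (cs (lf (nat_lit 6) (nat_lit 230)) (nd (nat_lit 210) (nat_lit 0) (cs (lf (nat_lit 31) (nat_lit 209)) (nd (nat_lit 188) (nat_lit 0) (cs (lf (nat_lit 36) (nat_lit 165)) (nd (nat_lit 273) (nat_lit 0) (cs (lf (nat_lit 10) (nat_lit 251)) (rf (nat_lit 0)))))))))) (nd (nat_lit 229) (nat_lit 0) (cs (lf (nat_lit 1) (nat_lit 229)) (nd (nat_lit 233) (nat_lit 0) (cs (lf (nat_lit 6) (nat_lit 230)) (nd (nat_lit 275) (nat_lit 0) (cs (lf (nat_lit 35) (nat_lit 209)) (nd (nat_lit 298) (nat_lit 0) (cs (lf (nat_lit 29) (nat_lit 231)) (nd (nat_lit 273) (nat_lit 0) (cs (lf (nat_lit 10) (nat_lit 251)) (rf (nat_lit 8)))))))))))))))))) q93121 (by decide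 +kernel)
def q93151 : Q := Q.p (nat_lit 0x800007000008000020000000000000000000000000000000000000000000000000000) (nat_lit 0x1d0000380000f60001c0000700001800004000000000000000000000000000000000000) (nat_lit 9)
theorem c93151 : QOK q93151 := cut [q93043] ⟨c93043, trivial⟩ (nd (nat_lit 210) (nat_lit 0) (cs (lf (nat_lit 35) (nat_lit 187)) (rf (nat_lit 0)))) q93151 (by decide +kernel)
def q93250 : Q := Q.p (nat_lit 0x2000008000030000000000000000000000000000000000000000000000000000) (nat_lit 0x300000c0000000003000004c000140000000000000000000000000000000000000000000000) (nat_lit 6)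
theorem c93250 : QOK q93250 := cut [q2988] ⟨c2988, trivial⟩ (nd (nat_lit 275) (nat_lit 0) (cs (lf (nat_lit 47) (nat_lit 186)) (rf (nat_lit 0)))) q93250 (by decide +kernel)
def q93255 : Q := Q.p (nat_lit 0x3000008000020000000000000000000000000000000000000000000000000000) (nat_lit 0x8000000000040000c00001f0000700001400000000000000000000000000000000000) (nat_lit 6)
theorem c93255 : QOK q93255 := cut [q4090, q82299, q87864] ⟨c4090, c82299, c87864, trivial⟩ (nd (nat_lit 187) (nat_lit 0) (cs (rf (nat_lit 0)) (cs (rf (nat_lit 1)) (rf (nat_lit 2))))) q93255 (by decide +kernel)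
def q93265 : Q := Q.p (nat_lit 0x400007000008000020000000000000000000000000000000000000000000000000000) (nat_lit 0x200001800006c0001b00000000014000050000140000000000000000000000000000000000000000000000) (nat_lit 6)
theorem c93265 : QOK q93265 := cut [q92704, q24766, q93264] ⟨c92704, c24766, c93264, trivial⟩ (nd (nat_lit 275) (nat_lit 0) (cs (rf (nat_lit 0)) (cs (nd (nat_lit 208) (nat_lit 0) (cs (lf (nat_lit 47) (nat_lit 186)) (nd (nat_lit 273) (nat_lit 0) (cs (lf (nat_lit 12) (nat_lit 250)) (nd (nat_lit 276) (nat_lit 0) (cs (lf (nat_lit 29) (nat_lit 209)) (rf (nat_lit 1)))))))) (rf (nat_lit 2))))) q93265 (by decide +kernel)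
def q93268 : Q := Q.p (nat_lit 0xc00007000008000020000000000000000000000000000000000000000000000000000) (nat_lit 0x1800001600005e000160000000000000000000000000000000000000000000000) (nat_lit 7)
theorem c93268 : QOK q93268 := cut [q86555] ⟨c86555, trivial⟩ (nd (nat_lit 255) (nat_lit 0) (cs (lf (nat_lit 6) (nat_lit 252)) (nd (nat_lit 230) (nat_lit 0) (cs (lf (nat_lit 23) (nat_lit 229)) (nd (nat_lit 188) (nat_lit 0) (cs (lf (nat_lit 34) (nat_lit 187)) (rf (nat_lit 0)))))))) q93268 (by decide +kernel)
def q93286 : Q := Q.p (nat_lit 0x200000800002000004000000000000000000000000000000000000000000000000000) (nat_lit 0x140000700001c0000000000000001000000000000000000000000000000000000000000000000000000000) (nat_lit 5)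
theorem c93286 : QOK q93286 := cut [q93285] ⟨c93285, trivial⟩ (nd (nat_lit 295) (nat_lit 0) (cs (lf (nat_lit 46) (nat_lit 206)) (rf (nat_lit 0)))) q93286 (by decide +kernel)
def q93352 : Q := Q.p (nat_lit 0x7800010000040000030000000000000000000000000000000000000000000000) (nat_lit 0x80000200001b000002000088000b38000cc0007f80007c0001f00001c00005000000000000000000) (nat_lit 12)
theorem c93352 : QOK q93352 := cut [q4771, q93324, q83196, q19153, q79276, q8658, q38368, q61456, q83238, q83234, q83242] ⟨c4771, c93324, c83196, c19153, c79276, c8658, c38368, c61456, c83238, c83234, c83242, trivial⟩ (nd (nat_lit 186) (nat_lit 0) (cs (nd (nat_lit 183) (nat_lit 0) (cs (rf (nat_lit 0)) (cs (nd (nat_lit 272) (nat_lit 0) (cs (lf (nat_lit 10) (nat_lit 250)) (rf (nat_lit 1)))) (cs (nd (nat_lit 272) (nat_lit 0) (cs (lf (nat_lit 10) (nat_lit 250)) (rf (nat_lit 2)))) (nd (nat_lit 204) (nat_lit 0) (cs (lf (nat_lit 10) (nat_lit 182)) (nd (nat_lit 272) (nat_lit 0) (cs (lf (nat_lit 10) (nat_lit 250)) (nd (nat_lit 165) (nat_lit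 0) (cs (lf (nat_lit 16) (nat_lit 161)) (nd (nat_lit 187) (nat_lit 0) (cs (lf (nat_lit 17) (nat_lit 162)) (rf (nat_lit 3)))))))))))))) (cs (nd (nat_lit 209) (nat_lit 0) (cs (lf (nat_lit 3) (nat_lit 184)) (nd (nat_lit 208) (nat_lit 0) (cs (lf (nat_lit 18) (nat_lit 185)) (nd (nat_lit 275) (nat_lit 0) (cs (lf (nat_lit 44) (nat_lit 186)) (rf (nat_lit 4)))))))) (nd (nat_lit 183) (nat_lit 0) (cs (rf (nat_lit 0)) (cs (rf (nat_lit 2)) (cs (rf (nat_lit 1)) (nd (nat_lit 164) (nat_lit 0) (cs (lf (nat_lit 17) (nat_lit 161)) (nd (nat_lit 161) (nat_lit 0) (cs (lf (nat_lit 23) (nat_lit 160)) (nd (nat_lit 205) (nat_lit 0) (cs (lf (nat_lit 11) (nat_lit 182)) (nd (nat_lit 139) (nat_lit 0) (cs (nd (nat_lit 272) (nat_lit 0) (cs (rf (nat_lit 5)) (lf (nat_lit 10) (nat_lit 250)))) (cs (nd (nat_lit 208) (nat_lit 0) (cs (lf (nat_lit 5) (nat_lit 183)) (nd (nat_lit 272) (nat_lit 0) (cs (lf (nat_lit 10) (nat_lit 250)) (nd (nat_lit 138) (nat_lit 0) (cs (lf (nat_lit 47) (nat_lit 116)) (nd (nat_lit 162) (nat_lit 0) (cs (lf (nat_lit 19)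 (nat_lit 138)) (rf (nat_lit 6)))))))))) (cs (nd (nat_lit 208) (nat_lit 0) (cs (lf (nat_lit 5) (nat_lit 183)) (nd (nat_lit 116) (nat_lit 0) (cs (lf (nat_lit 46) (nat_lit 116)) (nd (nat_lit 117) (nat_lit 0) (cs (lf (nat_lit 47) (nat_lit 94)) (nd (nat_lit 95) (nat_lit 0) (cs (lf (nat_lit 28) (nat_lit 95)) (rf (nat_lit 7)))))))))) (cs (nd (nat_lit 119) (nat_lit 0) (cs (rf (nat_lit 8)) (nd (nat_lit 272) (nat_lit 0) (cs (lf (nat_lit 10) (nat_lit 250)) (rf (nat_lit 9)))))) (nd (nat_lit 272) (nat_lit 0) (cs (lf (nat_lit 10) (nat_lit 250)) (rf (nat_lit 10)))))))))))))))))))))) q93352 (by decide +kernel)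
def q93437 : Q := Q.p (nat_lit 0x2000000800000000018000040000000000000000000000000000000000000000) (nat_lit 0x200008000073f000e780039f000140000500000000000000000000000000000) (nat_lit 10)
theorem c93437 : QOK q93437 := cut [q93389, q93400, q93403, q57188, q5253, q93434] ⟨c93389, c93400, c93403, c57188, c5253, c93434, trivial⟩ (nd (nat_lit 182) (nat_lit 0) (cs (rf (nat_lit 0)) (cs (rf (nat_lit 1)) (cs (nd (nat_lit 181) (nat_lit 0) (cs (rf (nat_lit 2)) (cs (nd (nat_lit 205) (nat_lit 0) (cs (lf (nat_lit 30) (nat_lit 161)) (nd (nat_lit 118) (nat_lit 0) (cs (lf (nat_lit 37) (nat_lit 117)) (nd (nat_lit 158) (nat_lit 0) (cs (lf (nat_lit 22) (nat_lit 158)) (nd (nat_lit 180) (nat_lit 0) (cs (lf (nat_lit 23) (nat_lit 157)) (nd (nat_lit 179) (nat_lit 0) (cs (lf (nat_lit 4) (nat_lit 179)) (nd (nat_lit 201) (nat_lit 0) (cs (lf (nat_lit 11) (nat_lit 178)) (lf (nat_lit 10) (nat_lit 179)))))))))))))) (cs (nd (nat_lit 205) (nat_lit 0) (cs (lf (nat_lit 30) (nat_lit 161)) (nd (nat_lit 118) (nat_lit 0) (cs (lf (nat_lit 37)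 (nat_lit 117)) (nd (nat_lit 158) (nat_lit 0) (cs (lf (nat_lit 22) (nat_lit 158)) (nd (nat_lit 180) (nat_lit 0) (cs (lf (nat_lit 23) (nat_lit 157)) (nd (nat_lit 204) (nat_lit 0) (cs (lf (nat_lit 0) (nat_lit 179)) (rf (nat_lit 3)))))))))))) (cs (nd (nat_lit 205) (nat_lit 0) (cs (lf (nat_lit 30) (nat_lit 161)) (nd (nat_lit 118) (nat_lit 0) (cs (lf (nat_lit 37) (nat_lit 117)) (nd (nat_lit 202) (nat_lit 0) (cs (lf (nat_lit 10) (nat_lit 180)) (nd (nat_lit 180) (nat_lit 0) (cs (lf (nat_lit 11) (nat_lit 179)) (nd (nat_lit 179) (nat_lit 0) (cs (lf (nat_lit 4) (nat_lit 179)) (nd (nat_lit 157) (nat_lit 0) (cs (lf (nat_lit 23) (nat_lit 156)) (lf (nat_lit 22) (nat_lit 157)))))))))))))) (cs (nd (nat_lit 205) (nat_lit 0) (cs (lf (nat_lit 30) (nat_lit 161)) (nd (nat_lit 118) (nat_lit 0) (cs (lf (nat_lit 37) (nat_lit 117)) (nd (nat_lit 202) (nat_lit 0) (cs (lf (nat_lit 10) (nat_lit 180)) (nd (nat_lit 180) (nat_lit 0) (cs (lf (nat_lit 11) (nat_lit 179)) (nd (nat_lit 204) (nat_lit 0) (cs (lf (nat_lit 0) (nat_lit 179)) (nd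 (nat_lit 160) (nat_lit 0) (cs (lf (nat_lit 24) (nat_lit 138)) (nd (nat_lit 185) (nat_lit 0) (cs (lf (nat_lit 23) (nat_lit 159)) (lf (nat_lit 6) (nat_lit 182)))))))))))))))) (nd (nat_lit 205) (nat_lit 0) (cs (lf (nat_lit 30) (nat_lit 161)) (nd (nat_lit 118) (nat_lit 0) (cs (lf (nat_lit 37) (nat_lit 117)) (nd (nat_lit 159) (nat_lit 0) (cs (lf (nat_lit 23) (nat_lit 158)) (nd (nat_lit 202) (nat_lit 0) (cs (lf (nat_lit 10) (nat_lit 180)) (nd (nat_lit 160) (nat_lit 0) (cs (rf (nat_lit 4)) (lf (nat_lit 18) (nat_lit 159)))))))))))))))))) (nd (nat_lit 205) (nat_lit 0) (cs (lf (nat_lit 30) (nat_lit 161)) (nd (nat_lit 118) (nat_lit 0) (cs (lf (nat_lit 37) (nat_lit 117)) (rf (nat_lit 5)))))))))) q93437 (by decide +kernel)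
def q93509 : Q := Q.p (nat_lit 0x3800000000000000000000000000000000000000000000000000000000000000) (nat_lit 0x1bc000460003dc00000000000000000000000000000000000000000000000000000000) (nat_lit 6)
theorem c93509 : QOK q93509 := cut [q2065, q89927, q93508] ⟨c2065, c89927, c93508, trivial⟩ (nd (nat_lit 250) (nat_lit 0) (cs (rf (nat_lit 0)) (cs (rf (nat_lit 1)) (rf (nat_lit 2))))) q93509 (by decide +kernel)
def q93536 : Q := Q.p (nat_lit 0x3800000000000000000000000000000000000000000000000000000000000000) (nat_lit 0x1c0000f00007c0001be000c70000fc0001c000070000000000000000000000000000000000000000000000) (nat_lit 12)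
theorem c93536 : QOK q93536 := cut [q2065, q93524, q93527, q93535] ⟨c2065, c93524, c93527, c93535, trivial⟩ (nd (nat_lit 250) (nat_lit 0) (cs (rf (nat_lit 0)) (cs (rf (nat_lit 1)) (cs (rf (nat_lit 2)) (rf (nat_lit 3)))))) q93536 (by decide +kernel)
def q93549 : Q := Q.p (nat_lit 0xf00000000000000000000000000000000000000000000000000000000000000000000) (nat_lit 0x4000010000060001000000e00002000000000000000000000000000000000000000000000000000000000) (nat_lit 5)
theorem c93549 : QOK q93549 := cut [q56099] ⟨c56099, trivial⟩ (nd (nat_lit 294) (nat_lit 0) (cs (lf (nat_lit 11) (nat_lit 271)) (rf (nat_lit 0)))) q93549 (by decide +kernel)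
def q93555 : Q := Q.p (nat_lit 0x400003000004000010000000000000000000000000000000000000000000000000000) (nat_lit 0x1000004000030000080000000000a000008000020000000000000000000000000000000000000000000000) (nat_lit 5)
theorem c93555 : QOK q93555 := cut [q22295] ⟨c22295, trivial⟩ (nd (nat_lit 275) (nat_lit 0) (cs (lf (nat_lit 29) (nat_lit 208)) (rf (nat_lit 0)))) q93555 (by decide +kernel)
def q93564 : Q := Q.p (nat_lit 0x300000c000020000000000000000000000000000000000000000000000000000) (nat_lit 0x20000180000700001c000000000130001c0000100000000000000000000000000000000000000000000000) (nat_lit 6)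
theorem c93564 : QOK q93564 := cut [q91450, q92994] ⟨c91450, c92994, trivial⟩ (nd (nat_lit 275) (nat_lit 0) (cs (rf (nat_lit 0)) (rf (nat_lit 1)))) q93564 (by decide +kernel)
def q93573 : Q := Q.p (nat_lit 0x300000c000000000000000000000000000000000000000000000000000000000) (nat_lit 0x200000800018c000738001ee000100000400000000000000000000000000000000000000000) (nat_lit 8)
theorem c93573 : QOK q93573 := cut [q87131, q90438, q91239, q87142] ⟨c87131, c90438, c91239, c87142, trivial⟩ (nd (nat_lit 232) (nat_lit 0) (cs (rf (nat_lit 0)) (cs (nd (nat_lit 233) (nat_lit 0) (cs (lf (nat_lit 6) (nat_lit 230)) (nd (nat_lit 255) (nat_lit 0) (cs (lf (nat_lit 5) (nat_lit 230)) (nd (nat_lit 211) (nat_lit 0) (cs (lf (nat_lit 17) (nat_lit 208)) (nd (nat_lit 210) (nat_lit 0) (cs (lf (nat_lit 12) (nat_lit 207)) (nd (nat_lit 188) (nat_lit 0) (cs (lf (nat_lit 24) (nat_lit 166)) (rf (nat_lit 1)))))))))))) (nd (nat_lit 229) (nat_lit 0) (cs (rf (nat_lit 2)) (nd (nat_lit 250) (nat_lit 0) (cs (lf (nat_lit 13) (nat_lit 228)) (rf (nat_lit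 3))))))))) q93573 (by decide +kernel)
def q93599 : Q := Q.p (nat_lit 0x300001e000000000000000000000000000000000000000000000000000000000) (nat_lit 0x200000c00000c000000000cc000120000480000000000000000000000000000000000000000) (nat_lit 7)
theorem c93599 : QOK q93599 := cut [q93598] ⟨c93598, trivial⟩ (nd (nat_lit 251) (nat_lit 0) (cs (lf (nat_lit 12) (nat_lit 228)) (rf (nat_lit 0)))) q93599 (by decide +kernel)
def q93633 : Q := Q.p (nat_lit 0x300000c000020000000000000000000000000000000000000000000000000000) (nat_lit 0x1f00007c0001f80000e0000380004e0001300000c0000000000000000000000000000000000000000) (nat_lit 11)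
theorem c93633 : QOK q93633 := cut [q91265, q90281, q12193, q87148, q93612, q24795, q87807, q93621, q93630] ⟨c91265, c90281, c12193, c87148, c93612, c24795, c87807, c93621, c93630, trivial⟩ (nd (nat_lit 229) (nat_lit 0) (cs (rf (nat_lit 0)) (cs (nd (nat_lit 275) (nat_lit 0) (cs (rf (nat_lit 1)) (cs (nd (nat_lit 251) (nat_lit 0) (cs (rf (nat_lit 2)) (cs (nd (nat_lit 273) (nat_lit 0) (cs (nd (nat_lit 295) (nat_lit 0) (cs (lf (nat_lit 30) (nat_lit 229)) (nd (nat_lit 296) (nat_lit 0) (cs (lf (nat_lit 29) (nat_lit 229)) (nd (nat_lit 294) (nat_lit 0) (cs (lf (nat_lit 41) (nat_lit 228)) (nd (nat_lit 207) (nat_lit 0) (cs (lf (nat_lit 40) (nat_lit 206)) (rf (nat_lit 3)))))))))) (cs (nd (nat_lit 295) (nat_lit 0) (cs (lf (nat_lit 30) (nat_lit 229)) (nd (nat_lit 296) (nat_lit 0) (cs (lf (nat_lit 40) (nat_lit 208)) (lf (nat_lit 29) (nat_lit 229)))))) (cs (nd (nat_lit 295) (nat_lit 0) (cs (lf (nat_lit 30) (nat_lit 229)) (nd (nat_lit 294) (nat_lit 0) (cs (lf (nat_lit 41) (nat_lit 228)) (nd (nat_lit 276) (nat_lit 0) (cs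 (lf (nat_lit 29) (nat_lit 209)) (lf (nat_lit 8) (nat_lit 272)))))))) (rf (nat_lit 4)))))) (nd (nat_lit 274) (nat_lit 0) (cs (lf (nat_lit 41) (nat_lit 208)) (nd (nat_lit 207) (nat_lit 0) (cs (lf (nat_lit 24) (nat_lit 185)) (nd (nat_lit 250) (nat_lit 0) (cs (lf (nat_lit 12) (nat_lit 227)) (nd (nat_lit 188) (nat_lit 0) (cs (lf (nat_lit 34) (nat_lit 187)) (rf (nat_lit 5))))))))))))) (nd (nat_lit 296) (nat_lit 0) (cs (rf (nat_lit 6)) (lf (nat_lit 31) (nat_lit 208))))))) (nd (nat_lit 251) (nat_lit 0) (cs (nd (nat_lit 228) (nat_lit 0) (cs (lf (nat_lit 0) (nat_lit 227)) (nd (nat_lit 274) (nat_lit 0) (cs (lf (nat_lit 30) (nat_lit 208)) (nd (nat_lit 207) (nat_lit 0) (cs (lf (nat_lit 24) (nat_lit 185)) (rf (nat_lit 7)))))))) (cs (nd (nat_lit 250) (nat_lit 0) (cs (lf (nat_lit 12) (nat_lit 227)) (nd (nat_lit 296) (nat_lit 0) (cs (lf (nat_lit 31) (nat_lit 208)) (nd (nat_lit 275) (nat_lit 0) (cs (lf (nat_lit 5) (nat_lit 250)) (rf (nat_lit 6)))))))) (nd (nat_lit 227) (nat_lit 0) (cs (lf (nat_lit 1) (nat_lit 227)) (rf (nat_lit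 8)))))))))) q93633 (by decide +kernel)
def q93642 : Q := Q.p (nat_lit 0x300000f000000000000000000000000000000000000000000000000000000000) (nat_lit 0x40000180000e0001000000e000020000000000000000000000000000000000000000000000) (nat_lit 6)
theorem c93642 : QOK q93642 := cut [q87924] ⟨c87924, trivial⟩ (nd (nat_lit 205) (nat_lit 0) (cs (lf (nat_lit 22) (nat_lit 205)) (rf (nat_lit 0)))) q93642 (by decide +kernel)
def q93658 : Q := Q.p (nat_lit 0x80000300000c000000000000000000000000000000000000000000000000000000000) (nat_lit 0x1e0001fe0000600000000000000020000000000000000000000000000000000000000000000000000) (nat_lit 8)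
theorem c93658 : QOK q93658 := cut [q87344] ⟨c87344, trivial⟩ (nd (nat_lit 297) (nat_lit 0) (cs (lf (nat_lit 42) (nat_lit 230)) (nd (nat_lit 296) (nat_lit 0) (cs (lf (nat_lit 41) (nat_lit 230)) (nd (nat_lit 274) (nat_lit 0) (cs (lf (nat_lit 35) (nat_lit 208)) (nd (nat_lit 295) (nat_lit 0) (cs (lf (nat_lit 41) (nat_lit 229)) (rf (nat_lit 0)))))))))) q93658 (by decide +kernel)
def q93685 : Q := Q.p (nat_lit 0x1000004000010000000000000000000000000000000000000000000000000000) (nat_lit 0x800006000008000020000080000e0000380000a00000000000000000000000000000000000) (nat_lit 5)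
theorem c93685 : QOK q93685 := cut [q371, q434, q499] ⟨c371, c434, c499, trivial⟩ (nd (nat_lit 186) (nat_lit 0) (cs (rf (nat_lit 0)) (cs (rf (nat_lit 1)) (rf (nat_lit 2))))) q93685 (by decide +kernel)
def q93689 : Q := Q.p (nat_lit 0x300000c000000000000000000000000000000000000000000000000000000000) (nat_lit 0x1800006000018000000000700001fe0001f8000700000000000000000000000000000000000000000) (nat_lit 10)
theorem c93689 : QOK q93689 := cut [q81477, q92842, q90372, q92843, q15499, q92809] ⟨c81477, c92842, c90372, c92843, c15499, c92809, trivial⟩ (nd (nat_lit 275) (nat_lit 0) (cs (rf (nat_lit 0)) (cs (rf (nat_lit 1)) (nd (nat_lit 209) (nat_lit 0) (cs (rf (nat_lit 2)) (cs (rf (nat_lit 3)) (nd (nat_lit 208) (nat_lit 0) (cs (rf (nat_lit 4)) (rf (nat_lit 5)))))))))) q93689 (by decide +kernel)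
def q93694 : Q := Q.p (nat_lit 0x300001c000000000000000000000000000000000000000000000000000000000) (nat_lit 0x300000c0000300000e000038000de0001700005c0000000000000000000000000000000000000000) (nat_lit 12)
theorem c93694 : QOK q93694 := cut [q87972, q91239, q93600] ⟨c87972, c91239, c93600, trivial⟩ (nd (nat_lit 229) (nat_lit 0) (cs (rf (nat_lit 0)) (cs (rf (nat_lit 1)) (rf (nat_lit 2))))) q93694 (by decide +kernel)
def q93697 : Q := Q.p (nat_lit 0x380000c000000000000000000000000000000000000000000000000000000000) (nat_lit 0x200001980000600000000010000040000000000000000000000000000000000000000000000) (nat_lit 5)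
theorem c93697 : QOK q93697 := cut [q88806] ⟨c88806, trivial⟩ (nd (nat_lit 250) (nat_lit 0) (cs (lf (nat_lit 12) (nat_lit 227)) (rf (nat_lit 0)))) q93697 (by decide +kernel)
def q93715 : Q := Q.p (nat_lit 0x40000100000400001c000000000000000000000000000000000000000000000000000) (nat_lit 0x20000080000000000a00002300008e000000000000000000000000000000000000000000000) (nat_lit 6)
theorem c93715 : QOK q93715 := cut [q4032] ⟨c4032, trivial⟩ (nd (nat_lit 187) (nat_lit 0) (cs (lf (nat_lit 34) (nat_lit 186)) (nd (nat_lit 275) (nat_lit 0) (cs (lf (nat_lit 29) (nat_lit 208)) (rf (nat_lit 0)))))) q93715 (by decide +kernel)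
def q93790 : Q := Q.p (nat_lit 0x40000300001c000000000040000000000000000000000000000000000000000000000) (nat_lit 0xc000020003e0001fa0003fc0000000000000000000000000000000000000000) (nat_lit 10)
theorem c93790 : QOK q93790 := cut [q93789] ⟨c93789, trivial⟩ (nd (nat_lit 187) (nat_lit 0) (cs (lf (nat_lit 37) (nat_lit 186)) (rf (nat_lit 0)))) q93790 (by decide +kernel)
def q93809 : Q := Q.p (nat_lit 0x300001e000000000000000000000000000000000000000000000000000000000) (nat_lit 0x100000600000c000000001fc0007c0000700001400000000000000000000000000000000000) (nat_lit 10)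
theorem c93809 : QOK q93809 := cut [q82300, q82309, q93801, q93808] ⟨c82300, c82309, c93801, c93808, trivial⟩ (nd (nat_lit 209) (nat_lit 0) (cs (rf (nat_lit 0)) (cs (rf (nat_lit 1)) (cs (rf (nat_lit 2)) (rf (nat_lit 3)))))) q93809 (by decide +kernel)
def q93825 : Q := Q.p (nat_lit 0x400003000004000010000000000000000000000000000000000000000000000000000) (nat_lit 0x10000040000180000b8000080000a000008000020000000000000000000000000000000000000000000000) (nat_lit 7)
theorem c93825 : QOK q93825 := cut [q4051] ⟨c4051, trivial⟩ (nd (nat_lit 273) (nat_lit 0) (cs (lf (nat_lit 41) (nat_lit 207)) (nd (nat_lit 271) (nat_lit 0) (cs (lf (nat_lit 13) (nat_lit 249)) (nd (nat_lit 207) (nat_lit 0) (cs (lf (nat_lit 47) (nat_lit 185)) (rf (nat_lit 0)))))))) q93825 (by decide +kernel)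
def q93879 : Q := Q.p (nat_lit 0xc00003000004000010000000000000000000000000000000000000000000000000000) (nat_lit 0x500001000000c0000a0001e0000180000000000000000000000000000000000000000000000) (nat_lit 7)
theorem c93879 : QOK q93879 := cut [q93876] ⟨c93876, trivial⟩ (nd (nat_lit 209) (nat_lit 0) (cs (lf (nat_lit 35) (nat_lit 186)) (nd (nat_lit 231) (nat_lit 0) (cs (lf (nat_lit 30) (nat_lit 208)) (nd (nat_lit 276) (nat_lit 0) (cs (lf (nat_lit 29) (nat_lit 209)) (rf (nat_lit 0)))))))) q93879 (by decide +kernel)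
def q93886 : Q := Q.p (nat_lit 0x300000400001c000000000000000000000000000000000000000000000000000) (nat_lit 0x90000060007b8000e00003b8000280000800000000000000000000000000000000000) (nat_lit 9)
theorem c93886 : QOK q93886 := cut [q88083, q88087, q88088, q12526] ⟨c88083, c88087, c88088, c12526, trivial⟩ (nd (nat_lit 209) (nat_lit 0) (cs (rf (nat_lit 0)) (cs (rf (nat_lit 1)) (cs (rf (nat_lit 2)) (nd (nat_lit 183) (nat_lit 0) (cs (lf (nat_lit 22) (nat_lit 183)) (nd (nat_lit 231) (nat_lit 0) (cs (lf (nat_lit 5) (nat_lit 206)) (rf (nat_lit 3)))))))))) q93886 (by decide +kernel)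
def q93911 : Q := Q.p (nat_lit 0x3000004000010000000000000000000000000000000000000000000000000000) (nat_lit 0x4000000000080000600000f8000380000a00000000000000000000000000000000000) (nat_lit 6)
theorem c93911 : QOK q93911 := cut [q17, q25, q79032] ⟨c17, c25, c79032, trivial⟩ (nd (nat_lit 186) (nat_lit 0) (cs (rf (nat_lit 0)) (cs (rf (nat_lit 1)) (rf (nat_lit 2))))) q93911 (by decide +kernel)
def q93915 : Q := Q.p (nat_lit 0x3800000000000000000000000000000000000000000000000000000000000000) (nat_lit 0x3c000460003dc00000000000000000000000000000000000000000000000000000000) (nat_lit 5)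
theorem c93915 : QOK q93915 := cut [q2065, q6264, q89927] ⟨c2065, c6264, c89927, trivial⟩ (nd (nat_lit 250) (nat_lit 0) (cs (rf (nat_lit 0)) (cs (rf (nat_lit 1)) (rf (nat_lit 2))))) q93915 (by decide +kernel)
def q93918 : Q := Q.p (nat_lit 0x3800002000000000000000000000000000000000000000000000000000000000) (nat_lit 0x10000070000c000031000008000020000000000000000000000000000000000000000000000) (nat_lit 6)
theorem c93918 : QOK q93918 := cut [q93916] ⟨c93916, trivial⟩ (nd (nat_lit 254) (nat_lit 0) (cs (lf (nat_lit 23) (nat_lit 228)) (nd (nat_lit 232) (nat_lit 0) (cs (lf (nat_lit 17) (nat_lit 229)) (rf (nat_lit 0)))))) q93918 (by decide +kernel)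
def q93921 : Q := Q.p (nat_lit 0x3800000000000000000000000000000000000000000000000000000000000000) (nat_lit 0x1c000460003fc00000000000000000000000000000000000000000000000000000000) (nat_lit 5)
theorem c93921 : QOK q93921 := cut [q2065, q23543, q89874] ⟨c2065, c23543, c89874, trivial⟩ (nd (nat_lit 250) (nat_lit 0) (cs (rf (nat_lit 0)) (cs (rf (nat_lit 1)) (rf (nat_lit 2))))) q93921 (by decide +kernel)
def q93967 : Q := Q.p (nat_lit 0xf000000000000000000000000000000000000000000000000000000000000000) (nat_lit 0x10000060001000000e000020000080000000000000000000000000000000000000000000000) (nat_lit 5)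
theorem c93967 : QOK q93967 := cut [q81316] ⟨c81316, trivial⟩ (nd (nat_lit 274) (nat_lit 0) (cs (lf (nat_lit 11) (nat_lit 251)) (rf (nat_lit 0)))) q93967 (by decide +kernel)
def q93975 : Q := Q.p (nat_lit 0x3c00000000000000000000000000000000000000000000000000000000000000) (nat_lit 0x380000e000078000000001f80003e0001be000620001000000000000000000000000000000000000) (nat_lit 16)
theorem c93975 : QOK q93975 := cut [q23609, q89986, q88412, q89985] ⟨c23609, c89986, c88412, c89985, trivial⟩ (nd (nat_lit 272) (nat_lit 0) (cs (lf (nat_lit 11) (nat_lit 249)) (nd (nat_lit 207) (nat_lit 0) (cs (rf (nat_lit 0)) (cs (rf (nat_lit 1)) (cs (nd (nat_lit 228) (nat_lit 0) (cs (lf (nat_lit 23) (nat_lit 227)) (nd (nat_lit 231) (nat_lit 0) (cs (lf (nat_lit 17) (nat_lit 228)) (rf (nat_lit 2)))))) (nd (nat_lit 231) (nat_lit 0) (cs (lf (nat_lit 17) (nat_lit 228)) (rf (nat_lit 3)))))))))) q93975 (by decide +kernel)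
def q93996 : Q := Q.p (nat_lit 0x380000a000008000000000000000000000000000000000000000000000000000) (nat_lit 0x400001c0000700001c000060000c000004e0001700005e000000000000000000000000000000000000000000000) (nat_lit 10)
theorem c93996 : QOK q93996 := cut [q86701, q82405, q82591, q93982, q26370, q86884, q93285] ⟨c86701, c82405, c82591, c93982, c26370, c86884, c93285, trivial⟩ (nd (nat_lit 273) (nat_lit 0) (cs (nd (nat_lit 296) (nat_lit 0) (cs (lf (nat_lit 28) (nat_lit 207)) (rf (nat_lit 0)))) (cs (nd (nat_lit 295) (nat_lit 0) (cs (rf (nat_lit 1)) (cs (rf (nat_lit 2)) (cs (nd (nat_lit 316) (nat_lit 0) (cs (lf (nat_lit 40) (nat_lit 228)) (nd (nat_lit 184) (nat_lit 0) (cs (lf (nat_lit 46) (nat_lit 184)) (nd (nat_lit 317) (nat_lit 0) (cs (lf (nat_lit 41) (nat_lit 250)) (nd (nat_lit 274) (nat_lit 0) (cs (lf (nat_lit 29) (nat_lit 207)) (lf (nat_lit 30) (nat_lit 251)))))))))) (rf (nat_lit 3)))))) (cs (nd (nat_lit 208) (nat_lit 0) (cs (lf (nat_lit 35) (nat_lit 185)) (nd (nat_lit 274) (nat_lit 0) (cs (lf (nat_lit 29)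 (nat_lit 207)) (nd (nat_lit 254) (nat_lit 0) (cs (lf (nat_lit 6) (nat_lit 251)) (nd (nat_lit 206) (nat_lit 0) (cs (lf (nat_lit 47) (nat_lit 184)) (rf (nat_lit 4)))))))))) (cs (nd (nat_lit 184) (nat_lit 0) (cs (lf (nat_lit 46) (nat_lit 184)) (nd (nat_lit 208) (nat_lit 0) (cs (lf (nat_lit 35) (nat_lit 185)) (nd (nat_lit 295) (nat_lit 0) (cs (lf (nat_lit 34) (nat_lit 207)) (nd (nat_lit 316) (nat_lit 0) (cs (lf (nat_lit 40) (nat_lit 228)) (nd (nat_lit 317) (nat_lit 0) (cs (lf (nat_lit 41) (nat_lit 250)) (rf (nat_lit 5)))))))))))) (nd (nat_lit 184) (nat_lit 0) (cs (lf (nat_lit 46) (nat_lit 184)) (nd (nat_lit 208) (nat_lit 0) (cs (lf (nat_lit 35) (nat_lit 185)) (nd (nat_lit 295) (nat_lit 0) (cs (lf (nat_lit 34) (nat_lit 207)) (rf (nat_lit 6))))))))))))) q93996 (by decide +kernel)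
def q94038 : Q := Q.p (nat_lit 0x780001a000000000000000000000000000000000000000000000000000000000) (nat_lit 0x4000080000040000cc000120000480000000000000000000000000000000000000000) (nat_lit 6)
theorem c94038 : QOK q94038 := cut [q88828] ⟨c88828, trivial⟩ (nd (nat_lit 230) (nat_lit 0) (cs (lf (nat_lit 5) (nat_lit 229)) (rf (nat_lit 0)))) q94038 (by decide +kernel)
def q94050 : Q := Q.p (nat_lit 0x400003000004000010000000000000000000000000000000000000000000000000000) (nat_lit 0x280000b0000c000000000020000080000000000000000000000000000000000000000000000) (nat_lit 5)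
theorem c94050 : QOK q94050 := cut [q94049] ⟨c94049, trivial⟩ (nd (nat_lit 275) (nat_lit 0) (cs (lf (nat_lit 29) (nat_lit 208)) (rf (nat_lit 0)))) q94050 (by decide +kernel)
def q94087 : Q := Q.p (nat_lit 0x7000014000000000000000000000000000000000000000000000000000000000) (nat_lit 0x80000300000800023000010000040000000000000000000000000000000000000000000000) (nat_lit 5)
theorem c94087 : QOK q94087 := cut [q94086] ⟨c94086, trivial⟩ (nd (nat_lit 251) (nat_lit 0) (cs (lf (nat_lit 17) (nat_lit 229)) (rf (nat_lit 0)))) q94087 (by decide +kernel)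
def q94097 : Q := Q.p (nat_lit 0x700001c000000000000000000000000000000000000000000000000000000000) (nat_lit 0x4000010000000000630001c0000200000800000000000000000000000000000000000000000) (nat_lit 6)
theorem c94097 : QOK q94097 := cut [q94096] ⟨c94096, trivial⟩ (nd (nat_lit 228) (nat_lit 0) (cs (lf (nat_lit 1) (nat_lit 228)) (rf (nat_lit 0)))) q94097 (by decide +kernel)
def q94123 : Q := Q.p (nat_lit 0x400003000004000000000000000000000000000000000000000000000000000000000) (nat_lit 0xe0000780000380000000008000030000000000000000000000000000000000000000000000000000) (nat_lit 6)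
theorem c94123 : QOK q94123 := cut [q4419, q84221] ⟨c4419, c84221, trivial⟩ (nd (nat_lit 296) (nat_lit 0) (cs (rf (nat_lit 0)) (rf (nat_lit 1)))) q94123 (by decide +kernel)
def q94126 : Q := Q.p (nat_lit 0x400003000004000010000000000000000000000000000000000000000000000000000) (nat_lit 0x280000b0000c000000000008000020000000000000000000000000000000000000000000000) (nat_lit 5)
theorem c94126 : QOK q94126 := cut [q85149] ⟨c85149, trivial⟩ (nd (nat_lit 185) (nat_lit 0) (cs (lf (nat_lit 46) (nat_lit 185)) (rf (nat_lit 0)))) q94126 (by decide +kernel)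
def q94131 : Q := Q.p (nat_lit 0x3000004000030000000000000000000000000000000000000000000000000000) (nat_lit 0x60000180000c00000b0001cc000780000600000000000000000000000000000000000000000) (nat_lit 6)
theorem c94131 : QOK q94131 := cut [q84998, q92798, q92916] ⟨c84998, c92798, c92916, trivial⟩ (nd (nat_lit 231) (nat_lit 0) (cs (rf (nat_lit 0)) (cs (rf (nat_lit 1)) (rf (nat_lit 2))))) q94131 (by decide +kernel)
def q94161 : Q := Q.p (nat_lit 0x200000800003000000000000000000000000000000000000000000000000000000000000000) (nat_lit 0x100000400001000004c0007c000070000040000000000000000000000000000000000000000000000) (nat_lit 5)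
theorem c94161 : QOK q94161 := cut [q81706, q94160] ⟨c81706, c94160, trivial⟩ (nd (nat_lit 231) (nat_lit 0) (cs (rf (nat_lit 0)) (rf (nat_lit 1)))) q94161 (by decide +kernel)
def q94168 : Q := Q.p (nat_lit 0x200000800003000000000000000000000000000000000000000000000000000000000000000) (nat_lit 0x40000700001c0000000001000004000014000000000000000000000000000000000000000000000000000000000) (nat_lit 6)
theorem c94168 : QOK q94168 := cut [q94166] ⟨c94166, trivial⟩ (nd (nat_lit 319) (nat_lit 0) (cs (lf (nat_lit 47) (nat_lit 230)) (nd (nat_lit 320) (nat_lit 0) (cs (lf (nat_lit 29) (nat_lit 253)) (rf (nat_lit 0)))))) q94168 (by decide +kernel)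
def q94172 : Q := Q.p (nat_lit 0x200000800002000000000000000000000000000000000000000000000000000000000000000) (nat_lit 0x40000700001c0000500001000004000018000040000000000000000000000000000000000000000000000000000) (nat_lit 5)
theorem c94172 : QOK q94172 := cut [q89625, q94166, q94171] ⟨c89625, c94166, c94171, trivial⟩ (nd (nat_lit 319) (nat_lit 0) (cs (rf (nat_lit 0)) (cs (rf (nat_lit 1)) (rf (nat_lit 2))))) q94172 (by decide +kernel)
def q94178 : Q := Q.p (nat_lit 0x800007800000000000000000000000000000000000000000000000000000000000000) (nat_lit 0x1d40003800007c000010000040000000000000000000000000000000000000000000000) (nat_lit 8)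
theorem c94178 : QOK q94178 := cut [q94175] ⟨c94175, trivial⟩ (nd (nat_lit 233) (nat_lit 0) (cs (lf (nat_lit 16) (nat_lit 229)) (nd (nat_lit 255) (nat_lit 0) (cs (lf (nat_lit 17) (nat_lit 230)) (nd (nat_lit 256) (nat_lit 0) (cs (lf (nat_lit 11) (nat_lit 252)) (rf (nat_lit 0)))))))) q94178 (by decide +kernel)
def q94239 : Q := Q.p (nat_lit 0x800006000018000060000000000000000000000000000000000000000000000000000) (nat_lit 0x400001000000000004000390000240000000000000000000000000000000000000000000000) (nat_lit 5)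
theorem c94239 : QOK q94239 := cut [q94238] ⟨c94238, trivial⟩ (nd (nat_lit 276) (nat_lit 0) (cs (lf (nat_lit 42) (nat_lit 209)) (rf (nat_lit 0)))) q94239 (by decide +kernel)
def q94332 : Q := Q.p (nat_lit 0x800007800000000000000000000000000000000000000000000000000000000000000) (nat_lit 0xfc0003fc000df000178000000003c0001fc000ff8000e00002800000000000000000000000000000000000) (nat_lit 16)
theorem c94332 : QOK q94332 := cut [q79123, q79128, q79160, q94269, q94270, q15503, q81993, q80250, q79061, q94292, q94301, q94317, q79868, q94320, q94322, q94324, q94327] ⟨c79123, c79128, c79160, c94269, c94270, c15503, c81993, c80250, c79061, c94292, c94301, c94317, c79868, c94320, c94322, c94324, c94327, trivial⟩ (nd (nat_lit 232) (nat_lit 0) (cs (lf (nat_lit 17) (nat_lit 229)) (nd (nat_lit 210) (nat_lit 0) (cs (rf (nat_lit 0)) (cs (rf (nat_lit 1)) (cs (rf (nat_lit 2)) (nd (nat_lit 208) (nat_lit 0) (cs (rf (nat_lit 3)) (cs (nd (nat_lit 230) (nat_lit 0) (cs (lf (nat_lit 24) (nat_lit 186)) (rf (nat_lit 4)))) (cs (nd (nat_lit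 274) (nat_lit 0) (cs (nd (nat_lit 209) (nat_lit 0) (cs (rf (nat_lit 5)) (cs (nd (nat_lit 231) (nat_lit 0) (cs (lf (nat_lit 41) (nat_lit 208)) (nd (nat_lit 276) (nat_lit 0) (cs (lf (nat_lit 42) (nat_lit 209)) (nd (nat_lit 189) (nat_lit 0) (cs (lf (nat_lit 34) (nat_lit 188)) (rf (nat_lit 6)))))))) (nd (nat_lit 187) (nat_lit 0) (cs (lf (nat_lit 32) (nat_lit 186)) (lf (nat_lit 42) (nat_lit 187))))))) (cs (nd (nat_lit 273) (nat_lit 0) (cs (lf (nat_lit 11) (nat_lit 250)) (nd (nat_lit 295) (nat_lit 0) (cs (lf (nat_lit 37) (nat_lit 207)) (nd (nat_lit 276) (nat_lit 0) (cs (lf (nat_lit 11) (nat_lit 272)) (nd (nat_lit 189) (nat_lit 0) (cs (lf (nat_lit 34) (nat_lit 188)) (rf (nat_lit 7)))))))))) (cs (nd (nat_lit 273) (nat_lit 0) (cs (lf (nat_lit 11) (nat_lit 250)) (nd (nat_lit 230) (nat_lit 0) (cs (lf (nat_lit 41) (nat_lit 207)) (nd (nat_lit 207) (nat_lit 0) (cs (lf (nat_lit 47) (nat_lit 185)) (nd (nat_lit 209) (nat_lit 0) (cs (lf (nat_lit 35) (nat_lit 186)) (nd (nat_lit 231) (nat_lit 0) (cs (lf (nat_lit 0) (nat_lit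 206)) (lf (nat_lit 41) (nat_lit 208)))))))))))) (cs (nd (nat_lit 273) (nat_lit 0) (cs (rf (nat_lit 8)) (nd (nat_lit 295) (nat_lit 0) (cs (rf (nat_lit 9)) (cs (rf (nat_lit 10)) (cs (nd (nat_lit 317) (nat_lit 0) (cs (lf (nat_lit 30) (nat_lit 251)) (nd (nat_lit 318) (nat_lit 0) (cs (lf (nat_lit 29) (nat_lit 251)) (nd (nat_lit 316) (nat_lit 0) (cs (lf (nat_lit 41) (nat_lit 250)) (nd (nat_lit 276) (nat_lit 0) (cs (lf (nat_lit 11) (nat_lit 272)) (nd (nat_lit 189) (nat_lit 0) (cs (lf (nat_lit 34) (nat_lit 188)) (nd (nat_lit 298) (nat_lit 0) (cs (lf (nat_lit 5) (nat_lit 273)) (nd (nat_lit 320) (nat_lit 0) (cs (lf (nat_lit 42) (nat_lit 253)) (nd (nat_lit 319) (nat_lit 0) (cs (lf (nat_lit 41) (nat_lit 253)) (nd (nat_lit 321) (nat_lit 0) (cs (lf (nat_lit 22) (nat_lit 295)) (lf (nat_lit 29) (nat_lit 254)))))))))))))))))))) (nd (nat_lit 276) (nat_lit 0) (cs (lf (nat_lit 11) (nat_lit 272)) (nd (nat_lit 189) (nat_lit 0) (cs (lf (nat_lit 34) (nat_lit 188)) (nd (nat_lit 298) (nat_lit 0) (cs (lf (nat_lit 5) (nat_lit 273))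 (nd (nat_lit 209) (nat_lit 0) (cs (lf (nat_lit 25) (nat_lit 209)) (lf (nat_lit 47) (nat_lit 187)))))))))))))))) (nd (nat_lit 273) (nat_lit 0) (cs (lf (nat_lit 11) (nat_lit 250)) (rf (nat_lit 11))))))))) (nd (nat_lit 209) (nat_lit 0) (cs (rf (nat_lit 12)) (cs (nd (nat_lit 211) (nat_lit 0) (cs (rf (nat_lit 13)) (cs (nd (nat_lit 272) (nat_lit 0) (cs (lf (nat_lit 10) (nat_lit 250)) (rf (nat_lit 14)))) (nd (nat_lit 272) (nat_lit 0) (cs (lf (nat_lit 10) (nat_lit 250)) (rf (nat_lit 15))))))) (nd (nat_lit 272) (nat_lit 0) (cs (lf (nat_lit 10) (nat_lit 250)) (rf (nat_lit 16))))))))))))))))) q94332 (by decide +kernel)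
def q94342 : Q := Q.p (nat_lit 0x40000100000c00003000000000000000000000000000000000000000000000000000000000000000) (nat_lit 0x600003800002c0000000004000014000000000000000000000000000000000000000000000000000000000) (nat_lit 6)
theorem c94342 : QOK q94342 := cut [q94340] ⟨c94340, trivial⟩ (nd (nat_lit 319) (nat_lit 0) (cs (lf (nat_lit 29) (nat_lit 252)) (nd (nat_lit 297) (nat_lit 0) (cs (lf (nat_lit 47) (nat_lit 230)) (rf (nat_lit 0)))))) q94342 (by decide +kernel)
def q94355 : Q := Q.p (nat_lit 0x300000c00003000000000000000000000000000000000000000000000000000000000000000) (nat_lit 0x780003f80000c0000000004000010000000000000000000000000000000000000000000000000000000000) (nat_lit 8)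
theorem c94355 : QOK q94355 := cut [q86437] ⟨c86437, trivial⟩ (nd (nat_lit 319) (nat_lit 0) (cs (lf (nat_lit 42) (nat_lit 252)) (nd (nat_lit 232) (nat_lit 0) (cs (lf (nat_lit 34) (nat_lit 231)) (nd (nat_lit 318) (nat_lit 0) (cs (lf (nat_lit 41) (nat_lit 252)) (rf (nat_lit 0)))))))) q94355 (by decide +kernel)
def q94370 : Q := Q.p (nat_lit 0xc00003000000000000000000000000000000000000000000000000000000000000000) (nat_lit 0x200001f000138001ce00074000050000140000000000000000000000000000000000000000000000) (nat_lit 7)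
theorem c94370 : QOK q94370 := cut [q79079, q94363, q5304, q79061, q94364, q94366] ⟨c79079, c94363, c5304, c79061, c94364, c94366, trivial⟩ (nd (nat_lit 254) (nat_lit 0) (cs (rf (nat_lit 0)) (cs (rf (nat_lit 1)) (nd (nat_lit 251) (nat_lit 0) (cs (rf (nat_lit 2)) (cs (nd (nat_lit 273) (nat_lit 0) (cs (rf (nat_lit 3)) (rf (nat_lit 4)))) (nd (nat_lit 232) (nat_lit 0) (cs (lf (nat_lit 17) (nat_lit 229)) (nd (nat_lit 188) (nat_lit 0) (cs (lf (nat_lit 37) (nat_lit 187)) (rf (nat_lit 5)))))))))))) q94370 (by decide +kernel)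
def q94383 : Q := Q.p (nat_lit 0xc00003000000000000000000000000000000000000000000000000000000000000000) (nat_lit 0x8000020000138001ce00070000040000100000000000000000000000000000000000000000000000) (nat_lit 6)
theorem c94383 : QOK q94383 := cut [q79079, q94363, q92618, q94366] ⟨c79079, c94363, c92618, c94366, trivial⟩ (nd (nat_lit 254) (nat_lit 0) (cs (rf (nat_lit 0)) (cs (rf (nat_lit 1)) (nd (nat_lit 251) (nat_lit 0) (cs (rf (nat_lit 2)) (rf (nat_lit 3))))))) q94383 (by decide +kernel)
def q94410 : Q := Q.p (nat_lit 0xc00003000000000000000000000000000000000000000000000000000000000000000) (nat_lit 0x20000138001ce000f8000040000100000000000000000000000000000000000000000000000) (nat_lit 7)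
theorem c94410 : QOK q94410 := cut [q79079, q94363, q79118, q80292, q86319] ⟨c79079, c94363, c79118, c80292, c86319, trivial⟩ (nd (nat_lit 254) (nat_lit 0) (cs (rf (nat_lit 0)) (cs (rf (nat_lit 1)) (nd (nat_lit 232) (nat_lit 0) (cs (rf (nat_lit 2)) (cs (rf (nat_lit 3)) (nd (nat_lit 272) (nat_lit 0) (cs (lf (nat_lit 13) (nat_lit 250)) (rf (nat_lit 4)))))))))) q94410 (by decide +kernel)
def q94432 : Q := Q.p (nat_lit 0x200000800003000008000000000000000000000000000000000000000000000000000000000) (nat_lit 0x140000500000000000800074000050000000000000000000000000000000000000000000000000000) (nat_lit 6)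
theorem c94432 : QOK q94432 := cut [q94430] ⟨c94430, trivial⟩ (nd (nat_lit 230) (nat_lit 0) (cs (lf (nat_lit 47) (nat_lit 208)) (nd (nat_lit 296) (nat_lit 0) (cs (lf (nat_lit 41) (nat_lit 230)) (rf (nat_lit 0)))))) q94432 (by decide +kernel)
def q94464 : Q := Q.p (nat_lit 0x800007000008000060000000000000000000000000000000000000000000000000000) (nat_lit 0x4000010000008000f0000198000e40000000000000000000000000000000000000000000000) (nat_lit 6)
theorem c94464 : QOK q94464 := cut [q84971, q81645, q94462] ⟨c84971, c81645, c94462, trivial⟩ (nd (nat_lit 208) (nat_lit 0) (cs (lf (nat_lit 47) (nat_lit 186)) (nd (nat_lit 211) (nat_lit 0) (cs (rf (nat_lit 0)) (cs (nd (nat_lit 276) (nat_lit 0) (cs (lf (nat_lit 29) (nat_lit 209)) (rf (nat_lit 1)))) (rf (nat_lit 2))))))) q94464 (by decide +kernel)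
def q94474 : Q := Q.p (nat_lit 0x60000080000c00003000000000000000000000000000000000000000000000000000000000000000) (nat_lit 0xe0000380000360000000000000008000000000000000000000000000000000000000000000000000000000) (nat_lit 6)
theorem c94474 : QOK q94474 := cut [q14849] ⟨c14849, trivial⟩ (nd (nat_lit 296) (nat_lit 0) (cs (lf (nat_lit 35) (nat_lit 230)) (nd (nat_lit 293) (nat_lit 0) (cs (lf (nat_lit 13) (nat_lit 271)) (rf (nat_lit 0)))))) q94474 (by decide +kernel)
def q94500 : Q := Q.p (nat_lit 0x200000c00003000000000000000000000000000000000000000000000000000000000000000) (nat_lit 0x700001c0000500000000000000008000000000000000000000000000000000000000000000000000000000) (nat_lit 5)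
theorem c94500 : QOK q94500 := cut [q21972] ⟨c21972, trivial⟩ (nd (nat_lit 319) (nat_lit 0) (cs (lf (nat_lit 42) (nat_lit 252)) (rf (nat_lit 0)))) q94500 (by decide +kernel)
def q94518 : Q := Q.p (nat_lit 0x380000800003000000000000000000000000000000000000000000000000000000000000000) (nat_lit 0x18000060000460000780004000004000010000040000000000000000000000000000000000000000000000) (nat_lit 6)
theorem c94518 : QOK q94518 := cut [q89422, q94337] ⟨c89422, c94337, trivial⟩ (nd (nat_lit 274) (nat_lit 0) (cs (rf (nat_lit 0)) (rf (nat_lit 1)))) q94518 (by decide +kernel)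
def q94537 : Q := Q.p (nat_lit 0x200000800003000000000000000000000000000000000000000000000000000000000000000) (nat_lit 0x500001c0000700001c0000400001400004000018000040000000000000000000000000000000000000000000000000000) (nat_lit 6)
theorem c94537 : QOK q94537 := cut [q90094, q94166, q94171] ⟨c90094, c94166, c94171, trivial⟩ (nd (nat_lit 319) (nat_lit 0) (cs (rf (nat_lit 0)) (cs (rf (nat_lit 1)) (rf (nat_lit 2))))) q94537 (by decide +kernel)
def q94553 : Q := Q.p (nat_lit 0x800003000000000000000000000000000000000000000000000000000000000000000) (nat_lit 0x500001c0000700000c0000300000400004c0007c0000700000c0000000000000000000000000000000000000000000000) (nat_lit 7)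
theorem c94553 : QOK q94553 := cut [q88933, q88941, q94162, q88940, q94160] ⟨c88933, c88941, c94162, c88940, c94160, trivial⟩ (nd (nat_lit 297) (nat_lit 0) (cs (rf (nat_lit 0)) (cs (rf (nat_lit 1)) (cs (rf (nat_lit 2)) (nd (nat_lit 231) (nat_lit 0) (cs (rf (nat_lit 3)) (rf (nat_lit 4)))))))) q94553 (by decide +kernel)
def q94638 : Q := Q.p (nat_lit 0x800003000018000020000000000000000000000000000000000000000000000000000) (nat_lit 0x500001400000000060000058000140000000000000000000000000000000000000000000000) (nat_lit 6)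
theorem c94638 : QOK q94638 := cut [q86795] ⟨c86795, trivial⟩ (nd (nat_lit 210) (nat_lit 0) (cs (lf (nat_lit 35) (nat_lit 187)) (nd (nat_lit 276) (nat_lit 0) (cs (lf (nat_lit 29) (nat_lit 209)) (rf (nat_lit 0)))))) q94638 (by decide +kernel)
def q94647 : Q := Q.p (nat_lit 0x800003000008000000000000000000000000000000000000000000000000000000000) (nat_lit 0x1400007000014000000000000000700001c0000500000000000000000000000000000000000000000) (nat_lit 6)
theorem c94647 : QOK q94647 := cut [q6232, q81901, q92785] ⟨c6232, c81901, c92785, trivial⟩ (nd (nat_lit 209) (nat_lit 0) (cs (rf (nat_lit 0)) (cs (rf (nat_lit 1)) (rf (nat_lit 2))))) q94647 (by decide +kernel)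
def q94651 : Q := Q.p (nat_lit 0x800007800000000000000000000000000000000000000000000000000000000000000) (nat_lit 0x1d4000380000c7000000000000000000000000000000000000000000000000000000000) (nat_lit 7)
theorem c94651 : QOK q94651 := cut [q81180] ⟨c81180, trivial⟩ (nd (nat_lit 229) (nat_lit 0) (cs (lf (nat_lit 23) (nat_lit 228)) (nd (nat_lit 255) (nat_lit 0) (cs (lf (nat_lit 22) (nat_lit 229)) (rf (nat_lit 0)))))) q94651 (by decide +kernel)
def q94655 : Q := Q.p (nat_lit 0x80000200000a000020000000000000000000000000000000000000000000000000000) (nat_lit 0x5000014000000000e40001d0000f40000000000000000000000000000000000000000000000) (nat_lit 9)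
theorem c94655 : QOK q94655 := cut [q92770] ⟨c92770, trivial⟩ (nd (nat_lit 208) (nat_lit 0) (cs (lf (nat_lit 47) (nat_lit 186)) (nd (nat_lit 210) (nat_lit 0) (cs (lf (nat_lit 35) (nat_lit 187)) (nd (nat_lit 274) (nat_lit 0) (cs (lf (nat_lit 41) (nat_lit 208)) (nd (nat_lit 211) (nat_lit 0) (cs (lf (nat_lit 10) (nat_lit 207)) (rf (nat_lit 0)))))))))) q94655 (by decide +kernel)
def q94688 : Q := Q.p (nat_lit 0x800007800000000000000000000000000000000000000000000000000000000000000) (nat_lit 0x140003800003f000040000100000000000000000000000000000000000000000000000) (nat_lit 7)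
theorem c94688 : QOK q94688 := cut [q94685] ⟨c94685, trivial⟩ (nd (nat_lit 232) (nat_lit 0) (cs (lf (nat_lit 17) (nat_lit 229)) (nd (nat_lit 188) (nat_lit 0) (cs (lf (nat_lit 37) (nat_lit 187)) (nd (nat_lit 229) (nat_lit 0) (cs (lf (nat_lit 23) (nat_lit 228)) (rf (nat_lit 0)))))))) q94688 (by decide +kernel)
def q94690 : Q := Q.p (nat_lit 0x800007000020000000000000000000000000000000000000000000000000000000000) (nat_lit 0x1d400038000040000000000000000000000000000000000000000000000000000000000) (nat_lit 5)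
theorem c94690 : QOK q94690 := cut [q94689] ⟨c94689, trivial⟩ (nd (nat_lit 255) (nat_lit 0) (cs (lf (nat_lit 17) (nat_lit 230)) (rf (nat_lit 0)))) q94690 (by decide +kernel)
def q94699 : Q := Q.p (nat_lit 0x200000800003000008000000000000000000000000000000000000000000000000000000000) (nat_lit 0x760001de0001400004000007800018000040000000000000000000000000000000000000000000000) (nat_lit 10)
theorem c94699 : QOK q94699 := cut [q81477, q84417, q92734] ⟨c81477, c84417, c92734, trivial⟩ (nd (nat_lit 298) (nat_lit 0) (cs (lf (nat_lit 29) (nat_lit 231)) (nd (nat_lit 296) (nat_lit 0) (cs (lf (nat_lit 41) (nat_lit 230)) (nd (nat_lit 230) (nat_lit 0) (cs (rf (nat_lit 0)) (nd (nat_lit 229) (nat_lit 0) (cs (rf (nat_lit 1)) (nd (nat_lit 274) (nat_lit 0) (cs (lf (nat_lit 47) (nat_lit 207)) (rf (nat_lit 2)))))))))))) q94699 (by decide +kernel)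
def q94843 : Q := Q.p (nat_lit 0x800007000008000020000000000000000000000000000000000000000000000000000) (nat_lit 0x400001000000c000340003c0000300000000000000000000000000000000000000000000000) (nat_lit 7)
theorem c94843 : QOK q94843 := cut [q94840] ⟨c94840, trivial⟩ (nd (nat_lit 210) (nat_lit 0) (cs (lf (nat_lit 35) (nat_lit 187)) (nd (nat_lit 276) (nat_lit 0) (cs (lf (nat_lit 29) (nat_lit 209)) (nd (nat_lit 251) (nat_lit 0) (cs (lf (nat_lit 0) (nat_lit 250)) (rf (nat_lit 0)))))))) q94843 (by decide +kernel)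
def q94957 : Q := Q.p (nat_lit 0x100000400003000000000000000000000000000000000000000000000000000000000000000) (nat_lit 0x80000380000e0000280000800000800006000018000040000000000000000000000000000000000000000000000) (nat_lit 6)
theorem c94957 : QOK q94957 := cut [q42162, q94955, q94956] ⟨c42162, c94955, c94956, trivial⟩ (nd (nat_lit 318) (nat_lit 0) (cs (rf (nat_lit 0)) (cs (rf (nat_lit 1)) (rf (nat_lit 2))))) q94957 (by decide +kernel)
def q94958 : Q := Q.p (nat_lit 0x100000400003000000000000000000000000000000000000000000000000000000000000000) (nat_lit 0x8000020000080000c80000f800038000080000000000000000000000000000000000000000000000) (nat_lit 5)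
theorem c94958 : QOK q94958 := cut [q80653, q83724] ⟨c80653, c83724, trivial⟩ (nd (nat_lit 230) (nat_lit 0) (cs (rf (nat_lit 0)) (rf (nat_lit 1)))) q94958 (by decide +kernel)
def q95095 : Q := Q.p (nat_lit 0xe00003000000000000000000000000000000000000000000000000000000000000000) (nat_lit 0x6e0001180000e00001800004000010000000000000000000000000000000000000000000000) (nat_lit 8)
theorem c95095 : QOK q95095 := cut [q14898] ⟨c14898, trivial⟩ (nd (nat_lit 272) (nat_lit 0) (cs (lf (nat_lit 12) (nat_lit 249)) (nd (nat_lit 297) (nat_lit 0) (cs (lf (nat_lit 5) (nat_lit 272)) (nd (nat_lit 250) (nat_lit 0) (cs (lf (nat_lit 23) (nat_lit 249)) (nd (nat_lit 293) (nat_lit 0) (cs (lf (nat_lit 10) (nat_lit 271)) (rf (nat_lit 0)))))))))) q95095 (by decide +kernel)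
def q95101 : Q := Q.p (nat_lit 0x100000400003000000000000000000000000000000000000000000000000000000000000000) (nat_lit 0x80000380000e0000280000800000000004000010000040000000000000000000000000000000000000000000000) (nat_lit 6)
theorem c95101 : QOK q95101 := cut [q42162, q81819, q94956] ⟨c42162, c81819, c94956, trivial⟩ (nd (nat_lit 318) (nat_lit 0) (cs (rf (nat_lit 0)) (cs (rf (nat_lit 1)) (rf (nat_lit 2))))) q95101 (by decide +kernel)
def q95150 : Q := Q.p (nat_lit 0x100000400003000000000000000000000000000000000000000000000000000000000000000) (nat_lit 0x2000008000020000c80000f800038000080000000000000000000000000000000000000000000000) (nat_lit 5)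
theorem c95150 : QOK q95150 := cut [q83724, q94952] ⟨c83724, c94952, trivial⟩ (nd (nat_lit 230) (nat_lit 0) (cs (rf (nat_lit 0)) (rf (nat_lit 1)))) q95150 (by decide +kernel)
def q95170 : Q := Q.p (nat_lit 0x100000400003000000000000000000000000000000000000000000000000000000000000000) (nat_lit 0x200001bc0006e0001bc0000e0000f80003e000080000000000000000000000000000000000000000000000) (nat_lit 14)
theorem c95170 : QOK q95170 := cut [q80653, q84221, q94952, q86662, q95109, q15075, q84076] ⟨c80653, c84221, c94952, c86662, c95109, c15075, c84076, trivial⟩ (nd (nat_lit 230) (nat_lit 0) (cs (rf (nat_lit 0)) (cs (rf (nat_lit 1)) (cs (rf (nat_lit 2)) (nd (nat_lit 295) (nat_lit 0) (cs (lf (nat_lit 41) (nat_lit 229)) (nd (nat_lit 294) (nat_lit 0) (cs (rf (nat_lit 3)) (cs (rf (nat_lit 4)) (cs (nd (nat_lit 207) (nat_lit 0) (cs (lf (nat_lit 46) (nat_lit 207)) (nd (nat_lit 275) (nat_lit 0) (cs (lf (nat_lit 12) (nat_lit 271)) (nd (nat_lit 273) (nat_lit 0) (cs (lf (nat_lit 6) (nat_lit 272)) (nd (nat_lit 272) (nat_lit 0) (cs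 (lf (nat_lit 12) (nat_lit 249)) (nd (nat_lit 209) (nat_lit 0) (cs (lf (nat_lit 37) (nat_lit 208)) (rf (nat_lit 5)))))))))))) (nd (nat_lit 297) (nat_lit 0) (cs (lf (nat_lit 29) (nat_lit 230)) (nd (nat_lit 315) (nat_lit 0) (cs (lf (nat_lit 10) (nat_lit 293)) (nd (nat_lit 275) (nat_lit 0) (cs (lf (nat_lit 17) (nat_lit 272)) (nd (nat_lit 209) (nat_lit 0) (cs (lf (nat_lit 37) (nat_lit 208)) (nd (nat_lit 207) (nat_lit 0) (cs (lf (nat_lit 46) (nat_lit 207)) (rf (nat_lit 6)))))))))))))))))))))) q95170 (by decide +kernel)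
def q95179 : Q := Q.p (nat_lit 0xe00003000000000000000000000000000000000000000000000000000000000000000) (nat_lit 0x10000100000ce00003000008000020000000000000000000000000000000000000000000000) (nat_lit 5)
theorem c95179 : QOK q95179 := cut [q5304, q83686] ⟨c5304, c83686, trivial⟩ (nd (nat_lit 251) (nat_lit 0) (cs (rf (nat_lit 0)) (rf (nat_lit 1)))) q95179 (by decide +kernel)
def q95237 : Q := Q.p (nat_lit 0x3000006000010000000000000000000000000000000000000000000000000000) (nat_lit 0x80000c8000f80000e8000380000e00002800000000000000000000000000000000000) (nat_lit 8)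
theorem c95237 : QOK q95237 := cut [q87579] ⟨c87579, trivial⟩ (nd (nat_lit 254) (nat_lit 0) (cs (lf (nat_lit 18) (nat_lit 229)) (rf (nat_lit 0)))) q95237 (by decide +kernel)
def q95306 : Q := Q.p (nat_lit 0x3000006000010000000000000000000000000000000000000000000000000000) (nat_lit 0x380001e00000e00019c0000f0000300000c0000000000000000000000000000000000000000) (nat_lit 10)
theorem c95306 : QOK q95306 := cut [q78936, q95300, q92654, q95277, q5305] ⟨c78936, c95300, c92654, c95277, c5305, trivial⟩ (nd (nat_lit 207) (nat_lit 0) (cs (rf (nat_lit 0)) (cs (rf (nat_lit 1)) (nd (nat_lit 251) (nat_lit 0) (cs (rf (nat_lit 2)) (cs (nd (nat_lit 273) (nat_lit 0) (cs (lf (nat_lit 30) (nat_lit 207)) (nd (nat_lit 274) (nat_lit 0) (cs (lf (nat_lit 29) (nat_lit 207)) (rf (nat_lit 3)))))) (nd (nat_lit 227) (nat_lit 0) (cs (lf (nat_lit 1) (nat_lit 227)) (nd (nat_lit 274) (nat_lit 0) (cs (lf (nat_lit 42) (nat_lit 207)) (rf (nat_lit 4)))))))))))) q95306 (by decide +kernel)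
def q95334 : Q := Q.p (nat_lit 0x7000004000000000000000000000000000000000000000000000000000000000) (nat_lit 0x80000200001c00000e000fb8000f00007c0000200000800000000000000000000000000000000000) (nat_lit 8)
theorem c95334 : QOK q95334 := cut [q79118, q79068, q79112, q79169, q81681, q94320] ⟨c79118, c79068, c79112, c79169, c81681, c94320, trivial⟩ (nd (nat_lit 232) (nat_lit 0) (cs (rf (nat_lit 0)) (cs (nd (nat_lit 251) (nat_lit 0) (cs (lf (nat_lit 17) (nat_lit 229)) (nd (nat_lit 228) (nat_lit 0) (cs (lf (nat_lit 22) (nat_lit 228)) (nd (nat_lit 250) (nat_lit 0) (cs (lf (nat_lit 23) (nat_lit 227)) (nd (nat_lit 275) (nat_lit 0) (cs (lf (nat_lit 5) (nat_lit 250)) (nd (nat_lit 274) (nat_lit 0) (cs (lf (nat_lit 0) (nat_lit 249)) (rf (nat_lit 1)))))))))))) (nd (nat_lit 275) (nat_lit 0) (cs (rf (nat_lit 2)) (cs (rf (nat_lit 3)) (nd (nat_lit 209) (nat_lit 0) (cs (rf (nat_lit 4)) (cs (nd (nat_lit 210) (nat_lit 0) (cs (lf (nat_lit 36) (nat_lit 187)) (nd (nat_lit 208) (nat_lit 0) (cs (lf (nat_lit 24) (nat_lit 186)) (nd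 (nat_lit 211) (nat_lit 0) (cs (lf (nat_lit 11) (nat_lit 207)) (rf (nat_lit 5)))))))) (nd (nat_lit 208) (nat_lit 0) (cs (lf (nat_lit 24) (nat_lit 186)) (nd (nat_lit 187) (nat_lit 0) (cs (lf (nat_lit 30) (nat_lit 186)) (nd (nat_lit 165) (nat_lit 0) (cs (lf (nat_lit 36) (nat_lit 142)) (lf (nat_lit 27) (nat_lit 165))))))))))))))))) q95334 (by decide +kernel)
def q95421 : Q := Q.p (nat_lit 0x600003800000000000000000000000000000000000000000000000000000000000000) (nat_lit 0x20000080001800000600003800004000010000000000000000000000000000000000000000000000) (nat_lit 5)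
theorem c95421 : QOK q95421 := cut [q14768, q17541] ⟨c14768, c17541, trivial⟩ (nd (nat_lit 250) (nat_lit 0) (cs (rf (nat_lit 0)) (rf (nat_lit 1)))) q95421 (by decide +kernel)
def q95471 : Q := Q.p (nat_lit 0x3000004000018000000000000000000000000000000000000000000000000000) (nat_lit 0x280000f0000c0000000000200000a0000000000000000000000000000000000000000000000) (nat_lit 6)
theorem c95471 : QOK q95471 := cut [q85149] ⟨c85149, trivial⟩ (nd (nat_lit 274) (nat_lit 0) (cs (lf (nat_lit 47) (nat_lit 185)) (nd (nat_lit 187) (nat_lit 0) (cs (lf (nat_lit 34) (nat_lit 186)) (rf (nat_lit 0)))))) q95471 (by decide +kernel)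
def q95486 : Q := Q.p (nat_lit 0x3000004000018000000000000000000000000000000000000000000000000000) (nat_lit 0x280000f0000c000000000000000020000000000000000000000000000000000000000000000) (nat_lit 5)
theorem c95486 : QOK q95486 := cut [q85149] ⟨c85149, trivial⟩ (nd (nat_lit 274) (nat_lit 0) (cs (lf (nat_lit 47) (nat_lit 185)) (rf (nat_lit 0)))) q95486 (by decide +kernel)
def q95521 : Q := Q.p (nat_lit 0x3000004000010000000000000000000000000000000000000000000000000000) (nat_lit 0x8000078000480000a000008000060000180000200000000000000000000000000000000000) (nat_lit 6)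
theorem c95521 : QOK q95521 := cut [q88116, q88121] ⟨c88116, c88121, trivial⟩ (nd (nat_lit 185) (nat_lit 0) (cs (rf (nat_lit 0)) (cs (rf (nat_lit 1)) (nd (nat_lit 274) (nat_lit 0) (cs (lf (nat_lit 46) (nat_lit 185)) (nd (nat_lit 273) (nat_lit 0) (cs (lf (nat_lit 41) (nat_lit 207)) (nd (nat_lit 272) (nat_lit 0) (cs (lf (nat_lit 12) (nat_lit 249)) (nd (nat_lit 251) (nat_lit 0) (cs (lf (nat_lit 36) (nat_lit 185)) (lf (nat_lit 6) (nat_lit 250))))))))))))) q95521 (by decide +kernel)
def q95553 : Q := Q.p (nat_lit 0x200000800007800010000000000000000000000000000000000000000000000000000000000) (nat_lit 0x400008000007000050000140000000000000000000000000000000000000000000000) (nat_lit 5)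
theorem c95553 : QOK q95553 := cut [q95552] ⟨c95552, trivial⟩ (nd (nat_lit 188) (nat_lit 0) (cs (lf (nat_lit 37) (nat_lit 187)) (rf (nat_lit 0)))) q95553 (by decide +kernel)
def q95564 : Q := Q.p (nat_lit 0x200000800002000008000000000000000000000000000000000000000000000000000000000) (nat_lit 0x1400005000004000000000000000700001c0000500000000000000000000000000000000000000000) (nat_lit 7)
theorem c95564 : QOK q95564 := cut [q95562] ⟨c95562, trivial⟩ (nd (nat_lit 298) (nat_lit 0) (cs (lf (nat_lit 29) (nat_lit 231)) (nd (nat_lit 296) (nat_lit 0) (cs (lf (nat_lit 41) (nat_lit 230)) (rf (nat_lit 0)))))) q95564 (by decide +kernel)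
def q95598 : Q := Q.p (nat_lit 0x4000038000060000000000000000000000000000000000000000000000000000) (nat_lit 0x400001000000000004000398000200000000000000000000000000000000000000000000000) (nat_lit 5)
theorem c95598 : QOK q95598 := cut [q95597] ⟨c95597, trivial⟩ (nd (nat_lit 207) (nat_lit 0) (cs (lf (nat_lit 1) (nat_lit 207)) (rf (nat_lit 0)))) q95598 (by decide +kernel)
def q95616 : Q := Q.p (nat_lit 0x7000018000060000000000000000000000000000000000000000000000000000) (nat_lit 0x400001000000000064000380000200000000000000000000000000000000000000000000000) (nat_lit 5)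
theorem c95616 : QOK q95616 := cut [q95597] ⟨c95597, trivial⟩ (nd (nat_lit 233) (nat_lit 0) (cs (lf (nat_lit 6) (nat_lit 230)) (rf (nat_lit 0)))) q95616 (by decide +kernel)
def q95663 : Q := Q.p (nat_lit 0x80000300000c000000000000000000000000000000000000000000000000000000000) (nat_lit 0x4000000000130001e00001c0000300000400000000000000000000000000000000000) (nat_lit 5)
theorem c95663 : QOK q95663 := cut [q82309, q91450] ⟨c82309, c91450, trivial⟩ (nd (nat_lit 209) (nat_lit 0) (cs (rf (nat_lit 0)) (rf (nat_lit 1)))) q95663 (by decide +kernel)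
def q95752 : Q := Q.p (nat_lit 0x200000000007000018000000000000000000000000000000000000000000000000000000000) (nat_lit 0x18000000000640003c0000380000e00000000000000000000000000000000000000000) (nat_lit 8)
theorem c95752 : QOK q95752 := cut [q95749] ⟨c95749, trivial⟩ (nd (nat_lit 210) (nat_lit 0) (cs (lf (nat_lit 31) (nat_lit 209)) (nd (nat_lit 188) (nat_lit 0) (cs (lf (nat_lit 36) (nat_lit 165)) (nd (nat_lit 233) (nat_lit 0) (cs (lf (nat_lit 6) (nat_lit 230)) (rf (nat_lit 0)))))))) q95752 (by decide +kernel)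
def q95769 : Q := Q.p (nat_lit 0x200000400007000038000000000000000000000000000000000000000000000000000000000) (nat_lit 0xe0000180001000018000004000180000200000800000000000000000000000000000000000000000) (nat_lit 7)
theorem c95769 : QOK q95769 := cut [q79327] ⟨c79327, trivial⟩ (nd (nat_lit 296) (nat_lit 0) (cs (lf (nat_lit 30) (nat_lit 230)) (nd (nat_lit 230) (nat_lit 0) (cs (lf (nat_lit 29) (nat_lit 230)) (nd (nat_lit 295) (nat_lit 0) (cs (lf (nat_lit 41) (nat_lit 229)) (rf (nat_lit 0)))))))) q95769 (by decide +kernel)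
def q95798 : Q := Q.p (nat_lit 0x800003000008000020000000000000000000000000000000000000000000000000000) (nat_lit 0x360000580004e0000780001e000078000000000000000000000000000000000000000000000) (nat_lit 12)
theorem c95798 : QOK q95798 := cut [q87706] ⟨c87706, trivial⟩ (nd (nat_lit 274) (nat_lit 0) (cs (lf (nat_lit 41) (nat_lit 208)) (nd (nat_lit 208) (nat_lit 0) (cs (lf (nat_lit 47) (nat_lit 186)) (nd (nat_lit 230) (nat_lit 0) (cs (lf (nat_lit 29) (nat_lit 208)) (nd (nat_lit 207) (nat_lit 0) (cs (lf (nat_lit 47) (nat_lit 185)) (nd (nat_lit 206) (nat_lit 0) (cs (lf (nat_lit 0) (nat_lit 205)) (nd (nat_lit 183) (nat_lit 0) (cs (lf (nat_lit 22) (nat_lit 183)) (nd (nat_lit 228) (nat_lit 0) (cs (lf (nat_lit 11) (nat_lit 205)) (rf (nat_lit 0)))))))))))))))) q95798 (by decide +kernel)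
def q95814 : Q := Q.p (nat_lit 0x3800008000000000000000000000000000000000000000000000000000000000) (nat_lit 0xd70003c0001f700003c0000f00003c0000500000000000000000000000000000000000) (nat_lit 9)
theorem c95814 : QOK q95814 := cut [q87068, q92239, q93926, q94264, q11484, q79193] ⟨c87068, c92239, c93926, c94264, c11484, c79193, trivial⟩ (nd (nat_lit 254) (nat_lit 0) (cs (rf (nat_lit 0)) (cs (rf (nat_lit 1)) (cs (rf (nat_lit 2)) (cs (rf (nat_lit 3)) (nd (nat_lit 229) (nat_lit 0) (cs (lf (nat_lit 23) (nat_lit 228)) (nd (nat_lit 207) (nat_lit 0) (cs (rf (nat_lit 4)) (nd (nat_lit 272) (nat_lit 0) (cs (lf (nat_lit 10) (nat_lit 250)) (nd (nat_lit 232) (nat_lit 0) (cs (lf (nat_lit 17) (nat_lit 229)) (nd (nat_lit 206) (nat_lit 0) (cs (lf (nat_lit 20) (nat_lit 206)) (nd (nat_lit 209) (nat_lit 0) (cs (rf (nat_lit 5)) (lf (nat_lit 2) (nat_lit 206))))))))))))))))))) q95814 (by decide +kernel)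
def q95974 : Q := Q.p (nat_lit 0xa00007000000000000000000000000000000000000000000000000000000000000000) (nat_lit 0x1d4000380000e0000000000000000000000000000000000000000000000000000000000) (nat_lit 6)
theorem c95974 : QOK q95974 := cut [q94612] ⟨c94612, trivial⟩ (nd (nat_lit 255) (nat_lit 0) (cs (lf (nat_lit 10) (nat_lit 251)) (rf (nat_lit 0)))) q95974 (by decide +kernel)
def q95993 : Q := Q.p (nat_lit 0x200000800007800000000000000000000000000000000000000000000000000000000000000) (nat_lit 0x14000058000178000d8000170000800000b000000000000000000000000000000000000000000000000000000000) (nat_lit 9)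
theorem c95993 : QOK q95993 := cut [q90752, q90750, q55715] ⟨c90752, c90750, c55715, trivial⟩ (nd (nat_lit 296) (nat_lit 0) (cs (rf (nat_lit 0)) (cs (nd (nat_lit 229) (nat_lit 0) (cs (lf (nat_lit 23) (nat_lit 228)) (nd (nat_lit 273) (nat_lit 0) (cs (lf (nat_lit 11) (nat_lit 250)) (nd (nat_lit 318) (nat_lit 0) (cs (lf (nat_lit 36) (nat_lit 230)) (lf (nat_lit 27) (nat_lit 229)))))))) (cs (nd (nat_lit 228) (nat_lit 0) (cs (lf (nat_lit 22) (nat_lit 228)) (nd (nat_lit 273) (nat_lit 0) (cs (lf (nat_lit 11) (nat_lit 250)) (nd (nat_lit 274) (nat_lit 0) (cs (lf (nat_lit 6) (nat_lit 251)) (nd (nat_lit 298) (nat_lit 0) (cs (lf (nat_lit 18) (nat_lit 273)) (rf (nat_lit 1)))))))))) (nd (nat_lit 228) (nat_lit 0) (cs (lf (nat_lit 22) (nat_lit 228)) (nd (nat_lit 273) (nat_lit 0) (cs (lf (nat_lit 11) (nat_lit 250)) (nd (nat_lit 274) (nat_lit 0) (cs (lf (nat_lit 6) (nat_lit 251)) (nd (nat_lit 318) (nat_lit 0) (cs (lf (nat_lit 30) (nat_lit 252)) (rf (nat_lit 2)))))))))))))) q95993 (by decide +kernel)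
def q96004 : Q := Q.p (nat_lit 0x300000800003000000000000000000000000000000000000000000000000000000000000000) (nat_lit 0x14000040000000000080007c000050000000000000000000000000000000000000000000000000000) (nat_lit 6)
theorem c96004 : QOK q96004 := cut [q90852] ⟨c90852, trivial⟩ (nd (nat_lit 231) (nat_lit 0) (cs (lf (nat_lit 41) (nat_lit 230)) (nd (nat_lit 298) (nat_lit 0) (cs (lf (nat_lit 29) (nat_lit 231)) (rf (nat_lit 0)))))) q96004 (by decide +kernel)
def q96041 : Q := Q.p (nat_lit 0x100000c00003000004000000000000000000000000000000000000000000000000000000000) (nat_lit 0x200000e000000000c800003800008000000000000000000000000000000000000000000000000000) (nat_lit 6)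
theorem c96041 : QOK q96041 := cut [q83724] ⟨c83724, trivial⟩ (nd (nat_lit 295) (nat_lit 0) (cs (lf (nat_lit 41) (nat_lit 229)) (nd (nat_lit 293) (nat_lit 0) (cs (lf (nat_lit 13) (nat_lit 271)) (rf (nat_lit 0)))))) q96041 (by decide +kernel)
def q96153 : Q := Q.p (nat_lit 0x1800002000018000060000000000000000000000000000000000000000000000000000) (nat_lit 0x400000700009c000670000000000000000000000000000000000000000000000) (nat_lit 7)
theorem c96153 : QOK q96153 := cut [q96152] ⟨c96152, trivial⟩ (nd (nat_lit 208) (nat_lit 0) (cs (lf (nat_lit 47) (nat_lit 186)) (rf (nat_lit 0)))) q96153 (by decide +kernel)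
def q96180 : Q := Q.p (nat_lit 0x3800008000000000000000000000000000000000000000000000000000000000) (nat_lit 0x20000080001be0004700007c00004000010000000000000000000000000000000000000000000000) (nat_lit 7)
theorem c96180 : QOK q96180 := cut [q85544, q88836, q93545] ⟨c85544, c88836, c93545, trivial⟩ (nd (nat_lit 250) (nat_lit 0) (cs (rf (nat_lit 0)) (cs (rf (nat_lit 1)) (rf (nat_lit 2))))) q96180 (by decide +kernel)
def q96224 : Q := Q.p (nat_lit 0x3800008000000000000000000000000000000000000000000000000000000000) (nat_lit 0x40000380000f80004000037c0003e0000fc000100000400000000000000000000000000000000000) (nat_lit 12)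
theorem c96224 : QOK q96224 := cut [q80881, q91667, q87049, q119, q96216, q96223] ⟨c80881, c91667, c87049, c119, c96216, c96223, trivial⟩ (nd (nat_lit 274) (nat_lit 0) (cs (rf (nat_lit 0)) (cs (nd (nat_lit 273) (nat_lit 0) (cs (rf (nat_lit 1)) (nd (nat_lit 208) (nat_lit 0) (cs (rf (nat_lit 2)) (cs (nd (nat_lit 209) (nat_lit 0) (cs (lf (nat_lit 36) (nat_lit 186)) (nd (nat_lit 186) (nat_lit 0) (cs (lf (nat_lit 42) (nat_lit 186)) (nd (nat_lit 142) (nat_lit 0) (cs (lf (nat_lit 25) (nat_lit 142)) (nd (nat_lit 207) (nat_lit 0) (cs (rf (nat_lit 3)) (lf (nat_lit 32) (nat_lit 185)))))))))) (nd (nat_lit 187) (nat_lit 0) (cs (lf (nat_lit 37) (nat_lit 186)) (nd (nat_lit 230) (nat_lit 0) (cs (lf (nat_lit 41) (nat_lit 207)) (nd (nat_lit 275) (nat_lit 0) (cs (lf (nat_lit 42) (nat_lit 208)) (rf (nat_lit 4))))))))))))) (rf (nat_lit 5))))) q96224 (by decide +kernel)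
def q96233 : Q := Q.p (nat_lit 0x8000078000000000000000000000000000000000000000000000000000) (nat_lit 0xe7000180000730000000000000000000000000000000000000000000000) (nat_lit 7)
theorem c96233 : QOK q96233 := cut [q10671] ⟨c10671, trivial⟩ (nd (nat_lit 184) (nat_lit 0) (cs (lf (nat_lit 22) (nat_lit 184)) (nd (nat_lit 189) (nat_lit 0) (cs (lf (nat_lit 16) (nat_lit 185)) (nd (nat_lit 228) (nat_lit 0) (cs (lf (nat_lit 10) (nat_lit 206)) (rf (nat_lit 0)))))))) q96233 (by decide +kernel)
def q96258 : Q := Q.p (nat_lit 0x2000008000038000000000000000000000000000000000000000000000000000) (nat_lit 0x78000c780037e000500001400000000000000000000000000000000000) (nat_lit 8)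
theorem c96258 : QOK q96258 := cut [q15490, q96246, q77, q96257] ⟨c15490, c96246, c77, c96257, trivial⟩ (nd (nat_lit 228) (nat_lit 0) (cs (rf (nat_lit 0)) (cs (nd (nat_lit 210) (nat_lit 0) (cs (lf (nat_lit 10) (nat_lit 206)) (nd (nat_lit 188) (nat_lit 0) (cs (lf (nat_lit 17) (nat_lit 185)) (nd (nat_lit 144) (nat_lit 0) (cs (lf (nat_lit 37) (nat_lit 143)) (rf (nat_lit 1)))))))) (cs (nd (nat_lit 210) (nat_lit 0) (cs (lf (nat_lit 10) (nat_lit 206)) (nd (nat_lit 188) (nat_lit 0) (cs (lf (nat_lit 17) (nat_lit 185)) (nd (nat_lit 144) (nat_lit 0) (cs (lf (nat_lit 37) (nat_lit 143)) (nd (nat_lit 184) (nat_lit 0) (cs (rf (nat_lit 2)) (lf (nat_lit 22) (nat_lit 184)))))))))) (rf (nat_lit 3)))))) q96258 (by decide +kernel)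
def q96263 : Q := Q.p (nat_lit 0x2000018000030000000000000000000000000000000000000000000000000000) (nat_lit 0x700001c000040000070000cc000730000400000000000000000000000000000000000000000) (nat_lit 10)
theorem c96263 : QOK q96263 := cut [q4380, q95343, q96152] ⟨c4380, c95343, c96152, trivial⟩ (nd (nat_lit 210) (nat_lit 0) (cs (rf (nat_lit 0)) (cs (rf (nat_lit 1)) (nd (nat_lit 275) (nat_lit 0) (cs (lf (nat_lit 30) (nat_lit 209)) (nd (nat_lit 276) (nat_lit 0) (cs (lf (nat_lit 29) (nat_lit 209)) (nd (nat_lit 274) (nat_lit 0) (cs (lf (nat_lit 41) (nat_lit 208)) (rf (nat_lit 2))))))))))) q96263 (by decide +kernel)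
def q96308 : Q := Q.p (nat_lit 0x2000008000020000000000000000000000000000000000000000000000000000) (nat_lit 0x4000018000040000100000100001c0000700001400000000000000000000000000000000000) (nat_lit 5)
theorem c96308 : QOK q96308 := cut [q1580, q88755, q92706] ⟨c1580, c88755, c92706, trivial⟩ (nd (nat_lit 187) (nat_lit 0) (cs (rf (nat_lit 0)) (cs (rf (nat_lit 1)) (rf (nat_lit 2))))) q96308 (by decide +kernel)
def q96323 : Q := Q.p (nat_lit 0x2000008000020000000000000000000000000000000000000000000000000000) (nat_lit 0x80000700003c00005c000170001d0000180000400000000000000000000000000000000000000000) (nat_lit 11)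
theorem c96323 : QOK q96323 := cut [q96310, q96312, q96314, q96322] ⟨c96310, c96312, c96314, c96322, trivial⟩ (nd (nat_lit 275) (nat_lit 0) (cs (rf (nat_lit 0)) (cs (rf (nat_lit 1)) (cs (rf (nat_lit 2)) (rf (nat_lit 3)))))) q96323 (by decide +kernel)
def q96333 : Q := Q.p (nat_lit 0x2000008000020000000000000000000000000000000000000000000000000000) (nat_lit 0x80000700001e0001d0000740000500000c0000100000000000000000000000000000000000000000) (nat_lit 10)
theorem c96333 : QOK q96333 := cut [q94775, q96314, q96325, q96330] ⟨c94775, c96314, c96325, c96330, trivial⟩ (nd (nat_lit 275) (nat_lit 0) (cs (rf (nat_lit 0)) (cs (rf (nat_lit 1)) (cs (rf (nat_lit 2)) (nd (nat_lit 274) (nat_lit 0) (cs (lf (nat_lit 41) (nat_lit 208)) (nd (nat_lit 276) (nat_lit 0) (cs (lf (nat_lit 29) (nat_lit 209)) (rf (nat_lit 3)))))))))) q96333 (by decide +kernel)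
def q96337 : Q := Q.p (nat_lit 0x2000008000020000000000000000000000000000000000000000000000000000) (nat_lit 0x100000c000010000040000400001c0000700001400000000000000000000000000000000000) (nat_lit 6)
theorem c96337 : QOK q96337 := cut [q1568, q1580, q10519, q96335] ⟨c1568, c1580, c10519, c96335, trivial⟩ (nd (nat_lit 187) (nat_lit 0) (cs (rf (nat_lit 0)) (cs (rf (nat_lit 1)) (cs (rf (nat_lit 2)) (nd (nat_lit 164) (nat_lit 0) (cs (lf (nat_lit 46) (nat_lit 164)) (rf (nat_lit 3)))))))) q96337 (by decide +kernel)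
def q96341 : Q := Q.p (nat_lit 0x7800008000000000000000000000000000000000000000000000000000000000) (nat_lit 0x180000600003b000000000300000c0000300000c00000000000000000000000000000000000000000) (nat_lit 9)
theorem c96341 : QOK q96341 := cut [q96338] ⟨c96338, trivial⟩ (nd (nat_lit 276) (nat_lit 0) (cs (lf (nat_lit 5) (nat_lit 251)) (nd (nat_lit 298) (nat_lit 0) (cs (lf (nat_lit 42) (nat_lit 231)) (nd (nat_lit 272) (nat_lit 0) (cs (lf (nat_lit 10) (nat_lit 250)) (rf (nat_lit 0)))))))) q96341 (by decide +kernel)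
def q96353 : Q := Q.p (nat_lit 0x300000e000000000000000000000000000000000000000000000000000000000) (nat_lit 0x80001c0000700001c0000100000400000000000000000000000000000000000000000) (nat_lit 5)
theorem c96353 : QOK q96353 := cut [q84418, q84422, q92717] ⟨c84418, c84422, c92717, trivial⟩ (nd (nat_lit 232) (nat_lit 0) (cs (rf (nat_lit 0)) (cs (rf (nat_lit 1)) (rf (nat_lit 2))))) q96353 (by decide +kernel)
def q96387 : Q := Q.p (nat_lit 0x300001c000000000000000000000000000000000000000000000000000000000) (nat_lit 0x760001c000062000180000200000800000000000000000000000000000000000000000) (nat_lit 8)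
theorem c96387 : QOK q96387 := cut [q96383] ⟨c96383, trivial⟩ (nd (nat_lit 233) (nat_lit 0) (cs (lf (nat_lit 6) (nat_lit 230)) (nd (nat_lit 255) (nat_lit 0) (cs (lf (nat_lit 5) (nat_lit 230)) (nd (nat_lit 254) (nat_lit 0) (cs (lf (nat_lit 0) (nat_lit 229)) (nd (nat_lit 277) (nat_lit 0) (cs (lf (nat_lit 5) (nat_lit 252)) (rf (nat_lit 0)))))))))) q96387 (by decide +kernel)
def q96398 : Q := Q.p (nat_lit 0x7800000000000000000000000000000000000000000000000000000000000000) (nat_lit 0x100000700008000003000008000020000000000000000000000000000000000000000000000) (nat_lit 5)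
theorem c96398 : QOK q96398 := cut [q93916] ⟨c93916, trivial⟩ (nd (nat_lit 229) (nat_lit 0) (cs (lf (nat_lit 23) (nat_lit 228)) (rf (nat_lit 0)))) q96398 (by decide +kernel)
def q96403 : Q := Q.p (nat_lit 0x3800000000000000000000000000000000000000000000000000000000000000) (nat_lit 0x3dc0004600003c00000000000000000000000000000000000000000000000000000000) (nat_lit 5)
theorem c96403 : QOK q96403 := cut [q2623, q3764, q88804] ⟨c2623, c3764, c88804, trivial⟩ (nd (nat_lit 250) (nat_lit 0) (cs (rf (nat_lit 0)) (cs (rf (nat_lit 1)) (rf (nat_lit 2))))) q96403 (by decide +kernel)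
def q96406 : Q := Q.p (nat_lit 0x300001c000000000000000000000000000000000000000000000000000000000) (nat_lit 0x200000c00000e000038000ce000120000480000000000000000000000000000000000000000) (nat_lit 8)
theorem c96406 : QOK q96406 := cut [q87908, q91239, q93598] ⟨c87908, c91239, c93598, trivial⟩ (nd (nat_lit 229) (nat_lit 0) (cs (rf (nat_lit 0)) (cs (rf (nat_lit 1)) (nd (nat_lit 251) (nat_lit 0) (cs (lf (nat_lit 11) (nat_lit 228)) (rf (nat_lit 2))))))) q96406 (by decide +kernel)
def q96408 : Q := Q.p (nat_lit 0x300001c000000000000000000000000000000000000000000000000000000000) (nat_lit 0x100000400000e0000380001c000020000080000000000000000000000000000000000000000) (nat_lit 5)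
theorem c96408 : QOK q96408 := cut [q84444, q87908] ⟨c84444, c87908, trivial⟩ (nd (nat_lit 229) (nat_lit 0) (cs (rf (nat_lit 0)) (rf (nat_lit 1)))) q96408 (by decide +kernel)
def q96411 : Q := Q.p (nat_lit 0xc0000300000c000010000000000000000000000000000000000000000000000000000) (nat_lit 0x80001380000e00010000008000020000000000000000000000000000000000000000000000) (nat_lit 6)
theorem c96411 : QOK q96411 := cut [q91956] ⟨c91956, trivial⟩ (nd (nat_lit 273) (nat_lit 0) (cs (lf (nat_lit 41) (nat_lit 207)) (nd (nat_lit 185) (nat_lit 0) (cs (lf (nat_lit 46) (nat_lit 185)) (rf (nat_lit 0)))))) q96411 (by decide +kernel)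
def q96422 : Q := Q.p (nat_lit 0xc0000300000c000010000000000000000000000000000000000000000000000000000) (nat_lit 0xe0001380000e0000380000e000038000000000000000000000000000000000000000000000) (nat_lit 10)
theorem c96422 : QOK q96422 := cut [q96420] ⟨c96420, trivial⟩ (nd (nat_lit 185) (nat_lit 0) (cs (lf (nat_lit 46) (nat_lit 185)) (nd (nat_lit 273) (nat_lit 0) (cs (lf (nat_lit 41) (nat_lit 207)) (rf (nat_lit 0)))))) q96422 (by decide +kernel)
def q96473 : Q := Q.p (nat_lit 0x7000008000000000000000000000000000000000000000000000000000000000) (nat_lit 0x400007000018800066000080000200000000000000000000000000000000000000000000000) (nat_lit 6)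
theorem c96473 : QOK q96473 := cut [q84925, q96472] ⟨c84925, c96472, trivial⟩ (nd (nat_lit 255) (nat_lit 0) (cs (rf (nat_lit 0)) (rf (nat_lit 1)))) q96473 (by decide +kernel)
def q96530 : Q := Q.p (nat_lit 0x700000c000000000000000000000000000000000000000000000000000000000) (nat_lit 0x7700018800000000000000000000000000000000000000000000000000000000000000) (nat_lit 5)
theorem c96530 : QOK q96530 := cut [q79217] ⟨c79217, trivial⟩ (nd (nat_lit 255) (nat_lit 0) (cs (lf (nat_lit 18) (nat_lit 230)) (rf (nat_lit 0)))) q96530 (by decide +kernel)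
def q96537 : Q := Q.p (nat_lit 0x6000018000040000000000000000000000000000000000000000000000000000) (nat_lit 0x10000000000000001800003e0000e00000000000000000000000000000000000000000) (nat_lit 6)
theorem c96537 : QOK q96537 := cut [q96536] ⟨c96536, trivial⟩ (nd (nat_lit 188) (nat_lit 0) (cs (lf (nat_lit 36) (nat_lit 165)) (rf (nat_lit 0)))) q96537 (by decide +kernel)
def q96551 : Q := Q.p (nat_lit 0x7000018000000000000000000000000000000000000000000000000000000000) (nat_lit 0xff00038800000000000000000000000000000000000000000000000000000000000000) (nat_lit 5)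
theorem c96551 : QOK q96551 := cut [q79217, q84949, q86860] ⟨c79217, c84949, c86860, trivial⟩ (nd (nat_lit 255) (nat_lit 0) (cs (rf (nat_lit 0)) (cs (rf (nat_lit 1)) (rf (nat_lit 2))))) q96551 (by decide +kernel)
def q96569 : Q := Q.p (nat_lit 0x7800008000000000000000000000000000000000000000000000000000000000) (nat_lit 0xe000018000074000000000000000000000000000000000000000000000000000000000) (nat_lit 5)
theorem c96569 : QOK q96569 := cut [q96568] ⟨c96568, trivial⟩ (nd (nat_lit 233) (nat_lit 0) (cs (lf (nat_lit 16) (nat_lit 229)) (rf (nat_lit 0)))) q96569 (by decide +kernel)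
def q96572 : Q := Q.p (nat_lit 0x7800008000000000000000000000000000000000000000000000000000000000) (nat_lit 0x70000380001d4000000000000000000000000000000000000000000000000000000000) (nat_lit 6)
theorem c96572 : QOK q96572 := cut [q96570] ⟨c96570, trivial⟩ (nd (nat_lit 277) (nat_lit 0) (cs (lf (nat_lit 4) (nat_lit 251)) (nd (nat_lit 255) (nat_lit 0) (cs (lf (nat_lit 5) (nat_lit 252)) (rf (nat_lit 0)))))) q96572 (by decide +kernel)
def q96575 : Q := Q.p (nat_lit 0x7800008000000000000000000000000000000000000000000000000000000000) (nat_lit 0x8000080000370000c0000100000400000000000000000000000000000000000000000) (nat_lit 6)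
theorem c96575 : QOK q96575 := cut [q96573] ⟨c96573, trivial⟩ (nd (nat_lit 229) (nat_lit 0) (cs (lf (nat_lit 23) (nat_lit 228)) (nd (nat_lit 232) (nat_lit 0) (cs (lf (nat_lit 17) (nat_lit 229)) (rf (nat_lit 0)))))) q96575 (by decide +kernel)
def q96576 : Q := Q.p (nat_lit 0x7800008000000000000000000000000000000000000000000000000000000000) (nat_lit 0x700038000034000000000000000000000000000000000000000000000000000000000) (nat_lit 5)
theorem c96576 : QOK q96576 := cut [q81710] ⟨c81710, trivial⟩ (nd (nat_lit 232) (nat_lit 0) (cs (lf (nat_lit 17) (nat_lit 229)) (rf (nat_lit 0)))) q96576 (by decide +kernel)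
def q96582 : Q := Q.p (nat_lit 0x3800008000000000000000000000000000000000000000000000000000000000) (nat_lit 0x200001800000600014000010000040000000000000000000000000000000000000000000000) (nat_lit 5)
theorem c96582 : QOK q96582 := cut [q81479] ⟨c81479, trivial⟩ (nd (nat_lit 250) (nat_lit 0) (cs (lf (nat_lit 17) (nat_lit 228)) (rf (nat_lit 0)))) q96582 (by decide +kernel)
def q96602 : Q := Q.p (nat_lit 0x40000080000200003800000000000000000000000000000000000000000000000000000000000000) (nat_lit 0x1c00003000004000058000000000300000c000030000000000000000000000000000000000000000000000) (nat_lit 8)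
theorem c96602 : QOK q96602 := cut [q88789] ⟨c88789, trivial⟩ (nd (nat_lit 317) (nat_lit 0) (cs (lf (nat_lit 29) (nat_lit 251)) (rf (nat_lit 0)))) q96602 (by decide +kernel)
def q96610 : Q := Q.p (nat_lit 0x100003800008000000000000000000000000000000000000000000000000000000000) (nat_lit 0x200001880000600004000010000040000000000000000000000000000000000000000000000) (nat_lit 5)
theorem c96610 : QOK q96610 := cut [q81479] ⟨c81479, trivial⟩ (nd (nat_lit 250) (nat_lit 0) (cs (lf (nat_lit 11) (nat_lit 249)) (rf (nat_lit 0)))) q96610 (by decide +kernel)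
def q96622 : Q := Q.p (nat_lit 0x3800008000000000000000000000000000000000000000000000000000000000) (nat_lit 0x7e0001c6000e7c00000000000000000000000000000000000000000000000000000000) (nat_lit 8)
theorem c96622 : QOK q96622 := cut [q91191, q81483, q96446] ⟨c91191, c81483, c96446, trivial⟩ (nd (nat_lit 228) (nat_lit 0) (cs (rf (nat_lit 0)) (cs (nd (nat_lit 250) (nat_lit 0) (cs (lf (nat_lit 23) (nat_lit 227)) (rf (nat_lit 1)))) (nd (nat_lit 254) (nat_lit 0) (cs (lf (nat_lit 22) (nat_lit 228)) (rf (nat_lit 2))))))) q96622 (by decide +kernel)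
def q96630 : Q := Q.p (nat_lit 0x380000e000008000000000000000000000000000000000000000000000000000) (nat_lit 0x3c0000f800000000318000d0000140000400000000000000000000000000000000000000000) (nat_lit 10)
theorem c96630 : QOK q96630 := cut [q88168] ⟨c88168, trivial⟩ (nd (nat_lit 232) (nat_lit 0) (cs (lf (nat_lit 6) (nat_lit 229)) (nd (nat_lit 210) (nat_lit 0) (cs (lf (nat_lit 17) (nat_lit 207)) (nd (nat_lit 166) (nat_lit 0) (cs (lf (nat_lit 37) (nat_lit 165)) (nd (nat_lit 275) (nat_lit 0) (cs (lf (nat_lit 30) (nat_lit 209)) (nd (nat_lit 208) (nat_lit 0) (cs (lf (nat_lit 24) (nat_lit 186)) (nd (nat_lit 227) (nat_lit 0) (cs (lf (nat_lit 1) (nat_lit 227)) (rf (nat_lit 0)))))))))))))) q96630 (by decide +kernel)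
def q96676 : Q := Q.p (nat_lit 0x800002000008000020000000000000000000000000000000000000000000000000000) (nat_lit 0x750000f70003dc00000000050000140000000000000000000000000000000000000000000000) (nat_lit 11)
theorem c96676 : QOK q96676 := cut [q96658, q96662, q96671, q96674] ⟨c96658, c96662, c96671, c96674, trivial⟩ (nd (nat_lit 276) (nat_lit 0) (cs (lf (nat_lit 29) (nat_lit 209)) (nd (nat_lit 251) (nat_lit 0) (cs (nd (nat_lit 188) (nat_lit 0) (cs (lf (nat_lit 34) (nat_lit 187)) (rf (nat_lit 0)))) (cs (nd (nat_lit 188) (nat_lit 0) (cs (lf (nat_lit 34) (nat_lit 187)) (nd (nat_lit 186) (nat_lit 0) (cs (lf (nat_lit 46) (nat_lit 186)) (rf (nat_lit 1)))))) (cs (nd (nat_lit 188) (nat_lit 0) (cs (lf (nat_lit 34) (nat_lit 187)) (nd (nat_lit 186) (nat_lit 0) (cs (lf (nat_lit 46) (nat_lit 186)) (rf (nat_lit 2)))))) (rf (nat_lit 3)))))))) q96676 (by decide +kernel)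
def q96694 : Q := Q.p (nat_lit 0x2000008000020000000000000000000000000000000000000000000000000000) (nat_lit 0x140000700001c000050000000000100000c0000100000000000000000000000000000000000000000) (nat_lit 5)
theorem c96694 : QOK q96694 := cut [q3443, q94775, q96325] ⟨c3443, c94775, c96325, trivial⟩ (nd (nat_lit 275) (nat_lit 0) (cs (rf (nat_lit 0)) (cs (rf (nat_lit 1)) (rf (nat_lit 2))))) q96694 (by decide +kernel)
def q96705 : Q := Q.p (nat_lit 0x2000008000060000000000000000000000000000000000000000000000000000) (nat_lit 0x100001f7000f98000f70000900002000000000000000000000000000000000000) (nat_lit 7)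
theorem c96705 : QOK q96705 := cut [q84304, q84324, q7439, q84318, q90995, q96702, q96704] ⟨c84304, c84324, c7439, c84318, c90995, c96702, c96704, trivial⟩ (nd (nat_lit 211) (nat_lit 0) (cs (rf (nat_lit 0)) (cs (rf (nat_lit 1)) (cs (nd (nat_lit 208) (nat_lit 0) (cs (rf (nat_lit 2)) (cs (rf (nat_lit 3)) (rf (nat_lit 4))))) (cs (rf (nat_lit 5)) (rf (nat_lit 6))))))) q96705 (by decide +kernel)
def q96723 : Q := Q.p (nat_lit 0x2000008000020000080000000000000000000000000000000000000000000000) (nat_lit 0x10000040000000001de0007700005e0000000000000000000000000000000000000000) (nat_lit 9)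
theorem c96723 : QOK q96723 := cut [q79870, q96719] ⟨c79870, c96719, trivial⟩ (nd (nat_lit 186) (nat_lit 0) (cs (lf (nat_lit 47) (nat_lit 164)) (nd (nat_lit 211) (nat_lit 0) (cs (nd (nat_lit 210) (nat_lit 0) (cs (lf (nat_lit 18) (nat_lit 186)) (rf (nat_lit 0)))) (cs (nd (nat_lit 254) (nat_lit 0) (cs (lf (nat_lit 29) (nat_lit 187)) (nd (nat_lit 188) (nat_lit 0) (cs (lf (nat_lit 35) (nat_lit 165)) (nd (nat_lit 189) (nat_lit 0) (cs (lf (nat_lit 5) (nat_lit 186)) (nd (nat_lit 208) (nat_lit 0) (cs (lf (nat_lit 6) (nat_lit 186)) (lf (nat_lit 11) (nat_lit 185)))))))))) (nd (nat_lit 254) (nat_lit 0) (cs (lf (nat_lit 29) (nat_lit 187)) (nd (nat_lit 188) (nat_lit 0) (cs (lf (nat_lit 35) (nat_lit 165)) (rf (nat_lit 1))))))))))) q96723 (by decide +kernel)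
def q96729 : Q := Q.p (nat_lit 0x800002000008000010000000000000000000000000000000000000000000000000000) (nat_lit 0x40000180000600000000004000014000040000000000000000000000000000000000000000000000000000) (nat_lit 5)
theorem c96729 : QOK q96729 := cut [q96728] ⟨c96728, trivial⟩ (nd (nat_lit 297) (nat_lit 0) (cs (lf (nat_lit 46) (nat_lit 208)) (rf (nat_lit 0)))) q96729 (by decide +kernel)
def q96737 : Q := Q.p (nat_lit 0x800002000008000020000000000000000000000000000000000000000000000000000) (nat_lit 0x8000030000170001c0000100000500000c0000300000000000000000000000000000000000000000) (nat_lit 9)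
theorem c96737 : QOK q96737 := cut [q96734] ⟨c96734, trivial⟩ (nd (nat_lit 274) (nat_lit 0) (cs (lf (nat_lit 41) (nat_lit 208)) (nd (nat_lit 186) (nat_lit 0) (cs (lf (nat_lit 46) (nat_lit 186)) (nd (nat_lit 187) (nat_lit 0) (cs (lf (nat_lit 47) (nat_lit 164)) (rf (nat_lit 0)))))))) q96737 (by decide +kernel)
def q96751 : Q := Q.p (nat_lit 0x2000008000020000040000000000000000000000000000000000000000000000) (nat_lit 0x400001c0000700000c00004000010000050000000000000000000000000000000000000000000000000000) (nat_lit 7)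
theorem c96751 : QOK q96751 := cut [q85190] ⟨c85190, trivial⟩ (nd (nat_lit 275) (nat_lit 0) (cs (lf (nat_lit 46) (nat_lit 186)) (rf (nat_lit 0)))) q96751 (by decide +kernel)
def q96781 : Q := Q.p (nat_lit 0x300000c000000000000000000000000000000000000000000000000000000000) (nat_lit 0x18000078000c8000000000380000e0000180000000000000000000000000000000000000000) (nat_lit 6)
theorem c96781 : QOK q96781 := cut [q79097, q85714, q86677] ⟨c79097, c85714, c86677, trivial⟩ (nd (nat_lit 274) (nat_lit 0) (cs (rf (nat_lit 0)) (nd (nat_lit 208) (nat_lit 0) (cs (rf (nat_lit 1)) (rf (nat_lit 2)))))) q96781 (by decide +kernel)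
def q96785 : Q := Q.p (nat_lit 0x300000c000010000000000000000000000000000000000000000000000000000) (nat_lit 0x4000000000000000280007e0000780000000000000000000000000000000000000000) (nat_lit 7)
theorem c96785 : QOK q96785 := cut [q96783] ⟨c96783, trivial⟩ (nd (nat_lit 186) (nat_lit 0) (cs (lf (nat_lit 24) (nat_lit 164)) (nd (nat_lit 163) (nat_lit 0) (cs (lf (nat_lit 46) (nat_lit 163)) (rf (nat_lit 0)))))) q96785 (by decide +kernel)
def q96789 : Q := Q.p (nat_lit 0x780000c000000000000000000000000000000000000000000000000000000000) (nat_lit 0x400003300000000030000020000080000000000000000000000000000000000000000000000) (nat_lit 5)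
theorem c96789 : QOK q96789 := cut [q79183] ⟨c79183, trivial⟩ (nd (nat_lit 232) (nat_lit 0) (cs (lf (nat_lit 6) (nat_lit 229)) (rf (nat_lit 0)))) q96789 (by decide +kernel)
def q96795 : Q := Q.p (nat_lit 0xf00000c000000000000000000000000000000000000000000000000000000000) (nat_lit 0x1000000800070000198000200000800000000000000000000000000000000000000000) (nat_lit 6)
theorem c96795 : QOK q96795 := cut [q79239] ⟨c79239, trivial⟩ (nd (nat_lit 233) (nat_lit 0) (cs (lf (nat_lit 17) (nat_lit 230)) (nd (nat_lit 232) (nat_lit 0) (cs (lf (nat_lit 12) (nat_lit 229)) (rf (nat_lit 0)))))) q96795 (by decide +kernel)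
def q96797 : Q := Q.p (nat_lit 0x700000c000000000000000000000000000000000000000000000000000000000) (nat_lit 0x400007000018800060000080000200000000000000000000000000000000000000000000000) (nat_lit 6)
theorem c96797 : QOK q96797 := cut [q96472] ⟨c96472, trivial⟩ (nd (nat_lit 255) (nat_lit 0) (cs (lf (nat_lit 18) (nat_lit 230)) (rf (nat_lit 0)))) q96797 (by decide +kernel)
def q96798 : Q := Q.p (nat_lit 0x700000c000000000000000000000000000000000000000000000000000000000) (nat_lit 0x400003000000c000700001e0000280000800000000000000000000000000000000000000000) (nat_lit 6)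
theorem c96798 : QOK q96798 := cut [q80207, q87131, q94096] ⟨c80207, c87131, c94096, trivial⟩ (nd (nat_lit 232) (nat_lit 0) (cs (rf (nat_lit 0)) (cs (rf (nat_lit 1)) (rf (nat_lit 2))))) q96798 (by decide +kernel)
def q96821 : Q := Q.p (nat_lit 0x6000018000040000000000000000000000000000000000000000000000000000) (nat_lit 0x1000000000000000030000f80000e00000000000000000000000000000000000000000) (nat_lit 6)
theorem c96821 : QOK q96821 := cut [q79696] ⟨c79696, trivial⟩ (nd (nat_lit 188) (nat_lit 0) (cs (lf (nat_lit 36) (nat_lit 165)) (rf (nat_lit 0)))) q96821 (by decide +kernel)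
def q96825 : Q := Q.p (nat_lit 0x200001e000000000000000000000000000000000000000000000000000000000) (nat_lit 0x100000cc000000000f0000f80000e00000000000000000000000000000000000000000) (nat_lit 9)
theorem c96825 : QOK q96825 := cut [q79696] ⟨c79696, trivial⟩ (nd (nat_lit 254) (nat_lit 0) (cs (lf (nat_lit 5) (nat_lit 229)) (nd (nat_lit 210) (nat_lit 0) (cs (lf (nat_lit 17) (nat_lit 207)) (nd (nat_lit 188) (nat_lit 0) (cs (lf (nat_lit 36) (nat_lit 165)) (nd (nat_lit 250) (nat_lit 0) (cs (lf (nat_lit 10) (nat_lit 228)) (rf (nat_lit 0)))))))))) q96825 (by decide +kernel)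
def q96868 : Q := Q.p (nat_lit 0x300000c000010000000000000000000000000000000000000000000000000000) (nat_lit 0x40000000000000000c0003e0000380000000000000000000000000000000000000000) (nat_lit 6)
theorem c96868 : QOK q96868 := cut [q32241] ⟨c32241, trivial⟩ (nd (nat_lit 186) (nat_lit 0) (cs (lf (nat_lit 24) (nat_lit 164)) (rf (nat_lit 0)))) q96868 (by decide +kernel)
def q96869 : Q := Q.p (nat_lit 0x300000c000010000000000000000000000000000000000000000000000000000) (nat_lit 0x10000040000400000380006e0007b8000600001000000000000000000000000000000000000) (nat_lit 8)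
theorem c96869 : QOK q96869 := cut [q82300, q84998, q87683] ⟨c82300, c84998, c87683, trivial⟩ (nd (nat_lit 209) (nat_lit 0) (cs (rf (nat_lit 0)) (cs (rf (nat_lit 1)) (rf (nat_lit 2))))) q96869 (by decide +kernel)
def q96903 : Q := Q.p (nat_lit 0x200001e000000000000000000000000000000000000000000000000000000000) (nat_lit 0x12000048000370000dc0000000001c0000700001c0000700001400000000000000000000000000000) (nat_lit 12)
theorem c96903 : QOK q96903 := cut [q96885, q96888, q91339, q96899] ⟨c96885, c96888, c91339, c96899, trivial⟩ (nd (nat_lit 207) (nat_lit 0) (cs (lf (nat_lit 23) (nat_lit 206)) (nd (nat_lit 185) (nat_lit 0) (cs (rf (nat_lit 0)) (cs (nd (nat_lit 251) (nat_lit 0) (cs (lf (nat_lit 11) (nat_lit 228)) (nd (nat_lit 254) (nat_lit 0) (cs (lf (nat_lit 5) (nat_lit 229)) (rf (nat_lit 1)))))) (cs (nd (nat_lit 251) (nat_lit 0) (cs (lf (nat_lit 11) (nat_lit 228)) (nd (nat_lit 254) (nat_lit 0) (cs (lf (nat_lit 5) (nat_lit 229)) (nd (nat_lit 164) (nat_lit 0) (cs (lf (nat_lit 34) (nat_lit 163)) (nd (nat_lit 162)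 (nat_lit 0) (cs (lf (nat_lit 46) (nat_lit 162)) (nd (nat_lit 252) (nat_lit 0) (cs (lf (nat_lit 29) (nat_lit 185)) (nd (nat_lit 276) (nat_lit 0) (cs (lf (nat_lit 5) (nat_lit 251)) (nd (nat_lit 298) (nat_lit 0) (cs (lf (nat_lit 42) (nat_lit 231)) (rf (nat_lit 2)))))))))))))))) (nd (nat_lit 250) (nat_lit 0) (cs (lf (nat_lit 10) (nat_lit 228)) (nd (nat_lit 254) (nat_lit 0) (cs (lf (nat_lit 5) (nat_lit 229)) (rf (nat_lit 3)))))))))))) q96903 (by decide +kernel)
def q96971 : Q := Q.p (nat_lit 0x200001e000000000000000000000000000000000000000000000000000000000) (nat_lit 0x40000300000dc00020000020000080000000000000000000000000000000000000000000000) (nat_lit 6)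
theorem c96971 : QOK q96971 := cut [q80219] ⟨c80219, trivial⟩ (nd (nat_lit 254) (nat_lit 0) (cs (lf (nat_lit 5) (nat_lit 229)) (rf (nat_lit 0)))) q96971 (by decide +kernel)
def q96974 : Q := Q.p (nat_lit 0x200001e000000000000000000000000000000000000000000000000000000000) (nat_lit 0x390000600001c0000000000000000000000000000000000000000000000000000) (nat_lit 5)
theorem c96974 : QOK q96974 := cut [q96973] ⟨c96973, trivial⟩ (nd (nat_lit 211) (nat_lit 0) (cs (lf (nat_lit 16) (nat_lit 207)) (rf (nat_lit 0)))) q96974 (by decide +kernel)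
def q96991 : Q := Q.p (nat_lit 0xf000000000000000000000000000000000000000000000000000000000000000) (nat_lit 0x7700000800060000000000000000000000000000000000000000000000000000000000) (nat_lit 5)
theorem c96991 : QOK q96991 := cut [q79217] ⟨c79217, trivial⟩ (nd (nat_lit 233) (nat_lit 0) (cs (lf (nat_lit 17) (nat_lit 230)) (rf (nat_lit 0)))) q96991 (by decide +kernel)
def q97009 : Q := Q.p (nat_lit 0x700001c000000000000000000000000000000000000000000000000000000000) (nat_lit 0x20000080000700000c00000000010000040000000000000000000000000000000000000000000000) (nat_lit 5)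
theorem c97009 : QOK q97009 := cut [q97008] ⟨c97008, trivial⟩ (nd (nat_lit 251) (nat_lit 0) (cs (lf (nat_lit 12) (nat_lit 228)) (rf (nat_lit 0)))) q97009 (by decide +kernel)
def q97021 : Q := Q.p (nat_lit 0x200001e000000000000000000000000000000000000000000000000000000000) (nat_lit 0x50000e00000fc000100000400000000000000000000000000000000000000000) (nat_lit 7)
theorem c97021 : QOK q97021 := cut [q97019] ⟨c97019, trivial⟩ (nd (nat_lit 210) (nat_lit 0) (cs (lf (nat_lit 17) (nat_lit 207)) (nd (nat_lit 166) (nat_lit 0) (cs (lf (nat_lit 37) (nat_lit 165)) (rf (nat_lit 0)))))) q97021 (by decide +kernel)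
def q97052 : Q := Q.p (nat_lit 0x200000e000008000000000000000000000000000000000000000000000000000) (nat_lit 0x40000340000dc000100000e70001f00005c0000700001c00005000000000000000000000000) (nat_lit 12)
theorem c97052 : QOK q97052 := cut [q97024, q97029, q97039, q97045, q97051] ⟨c97024, c97029, c97039, c97045, c97051, trivial⟩ (nd (nat_lit 185) (nat_lit 0) (cs (rf (nat_lit 0)) (cs (rf (nat_lit 1)) (cs (rf (nat_lit 2)) (cs (rf (nat_lit 3)) (rf (nat_lit 4))))))) q97052 (by decide +kernel)
def q97091 : Q := Q.p (nat_lit 0x200000e000008000000000000000000000000000000000000000000000000000) (nat_lit 0x1400005c000370000df000000000340000f00003c0000700001400000000000000000000000000000) (nat_lit 12)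
theorem c97091 : QOK q97091 := cut [q96885, q96899, q97024, q97065, q97067, q97072, q97076, q5313] ⟨c96885, c96899, c97024, c97065, c97067, c97072, c97076, c5313, trivial⟩ (nd (nat_lit 185) (nat_lit 0) (cs (rf (nat_lit 0)) (cs (rf (nat_lit 1)) (cs (rf (nat_lit 2)) (cs (rf (nat_lit 3)) (nd (nat_lit 251) (nat_lit 0) (cs (rf (nat_lit 4)) (cs (rf (nat_lit 5)) (cs (rf (nat_lit 6)) (cs (nd (nat_lit 162) (nat_lit 0) (cs (lf (nat_lit 46) (nat_lit 162)) (nd (nat_lit 186) (nat_lit 0) (cs (lf (nat_lit 35) (nat_lit 163)) (nd (nat_lit 252) (nat_lit 0) (cs (lf (nat_lit 29) (nat_lit 185)) (nd (nat_lit 249) (nat_lit 0) (cs (lf (nat_lit 13) (nat_lit 227)) (nd (nat_lit 254) (nat_lit 0) (cs (lf (nat_lit 18) (nat_lit 229)) (nd (nat_lit 276) (nat_lit 0) (cs (lf (nat_lit 5) (nat_lit 251)) (nd (nat_lit 298) (nat_lit 0) (cs (lf (nat_lit 42) (nat_lit 231)) (nd (nat_lit 187) (nat_lit 0) (cs (lf (nat_lit 25) (nat_lit 187)) (nd (nat_lit 208) (nat_lit 0) (cs (lf (nat_lit 35) (nat_lit 164)) (lf (nat_lit 30) (nat_lit 185))))))))))))))))))))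 (nd (nat_lit 252) (nat_lit 0) (cs (lf (nat_lit 29) (nat_lit 185)) (nd (nat_lit 254) (nat_lit 0) (cs (lf (nat_lit 18) (nat_lit 229)) (nd (nat_lit 164) (nat_lit 0) (cs (lf (nat_lit 34) (nat_lit 163)) (nd (nat_lit 273) (nat_lit 0) (cs (rf (nat_lit 7)) (lf (nat_lit 11) (nat_lit 250)))))))))))))))))))) q97091 (by decide +kernel)
def q97169 : Q := Q.p (nat_lit 0x200000e000008000000000000000000000000000000000000000000000000000) (nat_lit 0x1c0000780005e000300000f00003f00007c0000700001400000000000000000000000000000) (nat_lit 11)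
theorem c97169 : QOK q97169 := cut [q22582, q1124, q96899, q97065, q97066, q1384] ⟨c22582, c1124, c96899, c97065, c97066, c1384, trivial⟩ (nd (nat_lit 208) (nat_lit 0) (cs (nd (nat_lit 232) (nat_lit 0) (cs (lf (nat_lit 18) (nat_lit 207)) (nd (nat_lit 210) (nat_lit 0) (cs (lf (nat_lit 17) (nat_lit 207)) (nd (nat_lit 166) (nat_lit 0) (cs (lf (nat_lit 37) (nat_lit 165)) (nd (nat_lit 251) (nat_lit 0) (cs (lf (nat_lit 11) (nat_lit 228)) (nd (nat_lit 273) (nat_lit 0) (cs (lf (nat_lit 30) (nat_lit 207)) (nd (nat_lit 274) (nat_lit 0) (cs (lf (nat_lit 29) (nat_lit 207)) (nd (nat_lit 185) (nat_lit 0) (cs (lf (nat_lit 28) (nat_lit 185)) (rf (nat_lit 0)))))))))))))))) (cs (nd (nat_lit 164) (nat_lit 0) (cs (lf (nat_lit 25) (nat_lit 164)) (nd (nat_lit 232) (nat_lit 0) (cs (lf (nat_lit 18) (nat_lit 207)) (nd (nat_lit 210) (nat_lit 0) (cs (lf (nat_lit 17) (nat_lit 207)) (nd (nat_lit 188) (nat_lit 0) (cs (lf (nat_lit 36) (nat_lit 165)) (nd (nat_lit 209) (nat_lit 0) (cs (lf (nat_lit 17) (nat_lit 185)) (rf (nat_lit 1))))))))))))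 (cs (nd (nat_lit 185) (nat_lit 0) (cs (rf (nat_lit 2)) (cs (rf (nat_lit 3)) (nd (nat_lit 186) (nat_lit 0) (cs (lf (nat_lit 24) (nat_lit 164)) (nd (nat_lit 252) (nat_lit 0) (cs (lf (nat_lit 42) (nat_lit 185)) (nd (nat_lit 165) (nat_lit 0) (cs (lf (nat_lit 34) (nat_lit 164)) (nd (nat_lit 251) (nat_lit 0) (cs (lf (nat_lit 41) (nat_lit 185)) (rf (nat_lit 4))))))))))))) (cs (nd (nat_lit 164) (nat_lit 0) (cs (lf (nat_lit 25) (nat_lit 164)) (nd (nat_lit 232) (nat_lit 0) (cs (lf (nat_lit 18) (nat_lit 207)) (nd (nat_lit 210) (nat_lit 0) (cs (lf (nat_lit 17) (nat_lit 207)) (nd (nat_lit 250) (nat_lit 0) (cs (lf (nat_lit 10) (nat_lit 228)) (nd (nat_lit 188) (nat_lit 0) (cs (lf (nat_lit 36) (nat_lit 165)) (nd (nat_lit 209) (nat_lit 0) (cs (lf (nat_lit 17) (nat_lit 185)) (rf (nat_lit 5)))))))))))))) (nd (nat_lit 164) (nat_lit 0) (cs (lf (nat_lit 25) (nat_lit 164)) (nd (nat_lit 232) (nat_lit 0) (cs (lf (nat_lit 18) (nat_lit 207)) (nd (nat_lit 210) (nat_lit 0) (cs (lf (nat_lit 17) (nat_lit 207)) (nd (nat_lit 166) (nat_lit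 0) (cs (lf (nat_lit 37) (nat_lit 165)) (nd (nat_lit 251) (nat_lit 0) (cs (lf (nat_lit 11) (nat_lit 228)) (nd (nat_lit 273) (nat_lit 0) (cs (lf (nat_lit 30) (nat_lit 207)) (nd (nat_lit 274) (nat_lit 0) (cs (lf (nat_lit 29) (nat_lit 207)) (nd (nat_lit 272) (nat_lit 0) (cs (lf (nat_lit 41) (nat_lit 206)) (nd (nat_lit 252) (nat_lit 0) (cs (lf (nat_lit 12) (nat_lit 249)) (lf (nat_lit 6) (nat_lit 250))))))))))))))))))))))))) q97169 (by decide +kernel)
def q97188 : Q := Q.p (nat_lit 0x280000e000000000000000000000000000000000000000000000000000000000) (nat_lit 0xd4000f0000380000000000000000000000000000000000000000000000000000) (nat_lit 6)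
theorem c97188 : QOK q97188 := cut [q97186] ⟨c97186, trivial⟩ (nd (nat_lit 232) (nat_lit 0) (cs (lf (nat_lit 11) (nat_lit 228)) (nd (nat_lit 254) (nat_lit 0) (cs (lf (nat_lit 5) (nat_lit 229)) (rf (nat_lit 0)))))) q97188 (by decide +kernel)
def q97221 : Q := Q.p (nat_lit 0x200000e000000000000000000000000000000000000000000000000000000000) (nat_lit 0x39e00071c001f8000000000000000000000000000000000000000000000000000) (nat_lit 8)
theorem c97221 : QOK q97221 := cut [q97209, q96906, q12458] ⟨c97209, c96906, c12458, trivial⟩ (nd (nat_lit 250) (nat_lit 0) (cs (rf (nat_lit 0)) (cs (nd (nat_lit 232) (nat_lit 0) (cs (lf (nat_lit 10) (nat_lit 228)) (nd (nat_lit 211) (nat_lit 0) (cs (lf (nat_lit 16) (nat_lit 207)) (nd (nat_lit 233) (nat_lit 0) (cs (lf (nat_lit 17) (nat_lit 208)) (nd (nat_lit 207) (nat_lit 0) (cs (lf (nat_lit 22) (nat_lit 207)) (rf (nat_lit 1)))))))))) (cs (nd (nat_lit 232) (nat_lit 0) (cs (lf (nat_lit 10) (nat_lit 228)) (nd (nat_lit 210) (nat_lit 0) (cs (lf (nat_lit 17) (nat_lit 207)) (nd (nat_lit 228)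 (nat_lit 0) (cs (lf (nat_lit 11) (nat_lit 227)) (lf (nat_lit 16) (nat_lit 206)))))))) (nd (nat_lit 228) (nat_lit 0) (cs (lf (nat_lit 11) (nat_lit 227)) (nd (nat_lit 227) (nat_lit 0) (cs (lf (nat_lit 4) (nat_lit 227)) (nd (nat_lit 208) (nat_lit 0) (cs (lf (nat_lit 17) (nat_lit 205)) (nd (nat_lit 207) (nat_lit 0) (cs (lf (nat_lit 12) (nat_lit 204)) (rf (nat_lit 2)))))))))))))) q97221 (by decide +kernel)
def q97263 : Q := Q.p (nat_lit 0x2000008000020000000000000000000000000000000000000000000000000000) (nat_lit 0x400001c000760001dc0007f0001fe0001500000400000000000000000000000000000) (nat_lit 16)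
theorem c97263 : QOK q97263 := cut [q1568, q1580, q10519, q97244, q97247, q82275, q97260] ⟨c1568, c1580, c10519, c97244, c97247, c82275, c97260, trivial⟩ (nd (nat_lit 187) (nat_lit 0) (cs (rf (nat_lit 0)) (cs (rf (nat_lit 1)) (cs (rf (nat_lit 2)) (nd (nat_lit 188) (nat_lit 0) (cs (lf (nat_lit 35) (nat_lit 165)) (nd (nat_lit 207) (nat_lit 0) (cs (rf (nat_lit 3)) (cs (nd (nat_lit 252) (nat_lit 0) (cs (lf (nat_lit 41) (nat_lit 186)) (rf (nat_lit 4)))) (cs (nd (nat_lit 252) (nat_lit 0) (cs (lf (nat_lit 41) (nat_lit 186)) (nd (nat_lit 186) (nat_lit 0) (cs (lf (nat_lit 47) (nat_lit 164)) (nd (nat_lit 189) (nat_lit 0) (cs (lf (nat_lit 10) (nat_lit 185)) (nd (nat_lit 167) (nat_lit 0) (cs (lf (nat_lit 17) (nat_lit 164)) (nd (nat_lit 211) (nat_lit 0) (cs (lf (nat_lit 5) (nat_lit 186)) (nd (nat_lit 185) (nat_lit 0) (cs (lf (nat_lit 4) (nat_lit 185)) (nd (nat_lit 162) (nat_lit 0) (cs (lf (nat_lit 22) (nat_lit 162)) (nd (nat_lit 184) (nat_lit 0) (cs (lf (nat_lit 23) (nat_lit 161)) (nd (nat_lit 118) (nat_lit 0) (cs (lf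 (nat_lit 25) (nat_lit 118)) (nd (nat_lit 251) (nat_lit 0) (cs (lf (nat_lit 43) (nat_lit 162)) (rf (nat_lit 5)))))))))))))))))))))) (rf (nat_lit 6)))))))))))) q97263 (by decide +kernel)
def q97264 : Q := Q.p (nat_lit 0x2000008000020000000000000000000000000000000000000000000000000000) (nat_lit 0x100000c000010000040000100001c0000700001400000000000000000000000000000000000) (nat_lit 5)
theorem c97264 : QOK q97264 := cut [q1580, q10519, q96697] ⟨c1580, c10519, c96697, trivial⟩ (nd (nat_lit 187) (nat_lit 0) (cs (rf (nat_lit 0)) (cs (rf (nat_lit 1)) (rf (nat_lit 2))))) q97264 (by decide +kernel)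
def q97288 : Q := Q.p (nat_lit 0x800002000008000020000000000000000000000000000000000000000000000000000) (nat_lit 0x100001c0000700001000001000004000010000000000000000000000000000000000000000000000000000) (nat_lit 6)
theorem c97288 : QOK q97288 := cut [q97286] ⟨c97286, trivial⟩ (nd (nat_lit 298) (nat_lit 0) (cs (lf (nat_lit 28) (nat_lit 209)) (nd (nat_lit 297) (nat_lit 0) (cs (lf (nat_lit 29) (nat_lit 231)) (rf (nat_lit 0)))))) q97288 (by decide +kernel)
def q97365 : Q := Q.p (nat_lit 0x800002000018000000000000000000000000000000000000000000000000000000000) (nat_lit 0x400001c000070000170001d000000000020000000000000000000000000000000000000000000000000000) (nat_lit 7)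
theorem c97365 : QOK q97365 := cut [q21953, q96727, q97364] ⟨c21953, c96727, c97364, trivial⟩ (nd (nat_lit 297) (nat_lit 0) (cs (rf (nat_lit 0)) (cs (rf (nat_lit 1)) (rf (nat_lit 2))))) q97365 (by decide +kernel)
def q97472 : Q := Q.p (nat_lit 0x80000a000038000000000000000000000000000000000000000000000000000000000) (nat_lit 0x100000400005e0007780005e000040000e0000300000000000000000000000000000000000000000000000) (nat_lit 10)
theorem c97472 : QOK q97472 := cut [q10759, q96504, q97347, q97339] ⟨c10759, c96504, c97347, c97339, trivial⟩ (nd (nat_lit 252) (nat_lit 0) (cs (rf (nat_lit 0)) (cs (rf (nat_lit 1)) (nd (nat_lit 274) (nat_lit 0) (cs (rf (nat_lit 2)) (cs (nd (nat_lit 273) (nat_lit 0) (cs (lf (nat_lit 7) (nat_lit 251)) (nd (nat_lit 272) (nat_lit 0) (cs (lf (nat_lit 12) (nat_lit 249)) (nd (nat_lit 249) (nat_lit 0) (cs (lf (nat_lit 22) (nat_lit 249)) (nd (nat_lit 294) (nat_lit 0) (cs (lf (nat_lit 11) (nat_lit 271)) (nd (nat_lit 276) (nat_lit 0) (cs (lf (nat_lit 10) (nat_lit 272)) (nd (nat_lit 277) (nat_lit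 0) (cs (lf (nat_lit 18) (nat_lit 252)) (nd (nat_lit 298) (nat_lit 0) (cs (lf (nat_lit 36) (nat_lit 210)) (lf (nat_lit 24) (nat_lit 209)))))))))))))))) (nd (nat_lit 254) (nat_lit 0) (cs (lf (nat_lit 11) (nat_lit 251)) (rf (nat_lit 3)))))))))) q97472 (by decide +kernel)
def q97478 : Q := Q.p (nat_lit 0x80000e000038000000000000000000000000000000000000000000000000000000000) (nat_lit 0x40000100000e0000318000000000c0000300000000000000000000000000000000000000000000000) (nat_lit 7)
theorem c97478 : QOK q97478 := cut [q79512] ⟨c79512, trivial⟩ (nd (nat_lit 251) (nat_lit 0) (cs (lf (nat_lit 13) (nat_lit 229)) (nd (nat_lit 188) (nat_lit 0) (cs (lf (nat_lit 37) (nat_lit 187)) (rf (nat_lit 0)))))) q97478 (by decide +kernel)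
def q97531 : Q := Q.p (nat_lit 0x200000800002000008000000000000000000000000000000000000000000000000000000000) (nat_lit 0x40000700001c0000400000400001000004000000000000000000000000000000000000000000000000000000000) (nat_lit 6)
theorem c97531 : QOK q97531 := cut [q2616] ⟨c2616, trivial⟩ (nd (nat_lit 320) (nat_lit 0) (cs (lf (nat_lit 28) (nat_lit 231)) (nd (nat_lit 319) (nat_lit 0) (cs (lf (nat_lit 29) (nat_lit 253)) (rf (nat_lit 0)))))) q97531 (by decide +kernel)
def q97541 : Q := Q.p (nat_lit 0x1c00007000000000000000000000000000000000000000000000000000000000000000) (nat_lit 0x100000400000000018000070000080000200000000000000000000000000000000000000000000000) (nat_lit 5)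
theorem c97541 : QOK q97541 := cut [q97540] ⟨c97540, trivial⟩ (nd (nat_lit 255) (nat_lit 0) (cs (lf (nat_lit 6) (nat_lit 252)) (rf (nat_lit 0)))) q97541 (by decide +kernel)
def q97587 : Q := Q.p (nat_lit 0x800002000008000000000000000000000000000000000000000000000000000000000) (nat_lit 0x10000140000780007400005000000000060000180000400000000000000000000000000000000000000000) (nat_lit 6)
theorem c97587 : QOK q97587 := cut [q97581, q97584, q97586] ⟨c97581, c97584, c97586, trivial⟩ (nd (nat_lit 296) (nat_lit 0) (cs (rf (nat_lit 0)) (cs (rf (nat_lit 1)) (rf (nat_lit 2))))) q97587 (by decide +kernel)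
def q97593 : Q := Q.p (nat_lit 0x800002000008000000000000000000000000000000000000000000000000000000000) (nat_lit 0x500001c0000780007000004000010000060000000000000000000000000000000000000000000000000000) (nat_lit 6)
theorem c97593 : QOK q97593 := cut [q96728, q97589, q97592] ⟨c96728, c97589, c97592, trivial⟩ (nd (nat_lit 297) (nat_lit 0) (cs (rf (nat_lit 0)) (cs (rf (nat_lit 1)) (rf (nat_lit 2))))) q97593 (by decide +kernel)
def q97620 : Q := Q.p (nat_lit 0x80000e000038000000000000000000000000000000000000000000000000000000000) (nat_lit 0x400005800076000018000000000c0000300000000000000000000000000000000000000000000000) (nat_lit 8)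
theorem c97620 : QOK q97620 := cut [q96520] ⟨c96520, trivial⟩ (nd (nat_lit 252) (nat_lit 0) (cs (lf (nat_lit 12) (nat_lit 229)) (rf (nat_lit 0)))) q97620 (by decide +kernel)
def q97668 : Q := Q.p (nat_lit 0x800002000018000000000000000000000000000000000000000000000000000000000) (nat_lit 0x1fc0007e000f78007dc000e700078c000200000800000000000000000000000000000000000000000) (nat_lit 17)
theorem c97668 : QOK q97668 := cut [q96982, q97307, q97491, q97626, q10759, q86312, q79307, q80895, q86860, q81488, q89442, q93020, q11737, q90293, q84925, q11629] ⟨c96982, c97307, c97491, c97626, c10759, c86312, c79307, c80895, c86860, c81488, c89442, c93020, c11737, c90293, c84925, c11629, trivial⟩ (nd (nat_lit 233) (nat_lit 0) (cs (rf (nat_lit 0)) (cs (rf (nat_lit 1)) (cs (rf (nat_lit 2)) (cs (rf (nat_lit 3)) (nd (nat_lit 252) (nat_lit 0) (cs (rf (nat_lit 4)) (cs (rf (nat_lit 5)) (nd (nat_lit 254) (nat_lit 0) (cs (nd (nat_lit 297) (nat_lit 0) (cs (lf (nat_lit 30) (nat_lit 231)) (nd (nat_lit 298) (nat_lit 0) (cs (lf (nat_lit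 29) (nat_lit 231)) (nd (nat_lit 211) (nat_lit 0) (cs (lf (nat_lit 31) (nat_lit 210)) (nd (nat_lit 167) (nat_lit 0) (cs (lf (nat_lit 37) (nat_lit 166)) (nd (nat_lit 296) (nat_lit 0) (cs (lf (nat_lit 41) (nat_lit 230)) (nd (nat_lit 230) (nat_lit 0) (cs (lf (nat_lit 17) (nat_lit 208)) (rf (nat_lit 6)))))))))))))) (cs (nd (nat_lit 255) (nat_lit 0) (cs (rf (nat_lit 7)) (rf (nat_lit 8)))) (cs (nd (nat_lit 297) (nat_lit 0) (cs (lf (nat_lit 30) (nat_lit 231)) (nd (nat_lit 296) (nat_lit 0) (cs (lf (nat_lit 41) (nat_lit 230)) (nd (nat_lit 230) (nat_lit 0) (cs (rf (nat_lit 9)) (cs (rf (nat_lit 10)) (nd (nat_lit 295) (nat_lit 0) (cs (nd (nat_lit 298) (nat_lit 0) (cs (lf (nat_lit 29) (nat_lit 231)) (nd (nat_lit 317) (nat_lit 0) (cs (lf (nat_lit 11) (nat_lit 294)) (lf (nat_lit 38) (nat_lit 229)))))) (cs (nd (nat_lit 255) (nat_lit 0) (cs (lf (nat_lit 18) (nat_lit 230)) (nd (nat_lit 277) (nat_lit 0) (cs (lf (nat_lit 5) (nat_lit 252)) (nd (nat_lit 211) (nat_lit 0) (cs (lf (nat_lit 17) (nat_lit 208)) (nd (nat_lit 167) (nat_lit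 0) (cs (lf (nat_lit 37) (nat_lit 166)) (nd (nat_lit 298) (nat_lit 0) (cs (lf (nat_lit 29) (nat_lit 231)) (rf (nat_lit 11)))))))))))) (cs (nd (nat_lit 298) (nat_lit 0) (cs (lf (nat_lit 29) (nat_lit 231)) (nd (nat_lit 272) (nat_lit 0) (cs (lf (nat_lit 22) (nat_lit 272)) (nd (nat_lit 255) (nat_lit 0) (cs (lf (nat_lit 5) (nat_lit 230)) (nd (nat_lit 277) (nat_lit 0) (cs (lf (nat_lit 5) (nat_lit 252)) (nd (nat_lit 211) (nat_lit 0) (cs (lf (nat_lit 17) (nat_lit 208)) (nd (nat_lit 167) (nat_lit 0) (cs (lf (nat_lit 37) (nat_lit 166)) (nd (nat_lit 294) (nat_lit 0) (cs (rf (nat_lit 12)) (lf (nat_lit 23) (nat_lit 271)))))))))))))))) (nd (nat_lit 255) (nat_lit 0) (cs (lf (nat_lit 5) (nat_lit 230)) (nd (nat_lit 274) (nat_lit 0) (cs (lf (nat_lit 41) (nat_lit 229)) (lf (nat_lit 11) (nat_lit 251))))))))))))))))) (cs (nd (nat_lit 297) (nat_lit 0) (cs (lf (nat_lit 30) (nat_lit 231)) (nd (nat_lit 296) (nat_lit 0) (cs (lf (nat_lit 41) (nat_lit 230)) (nd (nat_lit 298) (nat_lit 0) (cs (lf (nat_lit 29) (nat_lit 231)) (nd (nat_lit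 276) (nat_lit 0) (cs (lf (nat_lit 35) (nat_lit 210)) (rf (nat_lit 13)))))))))) (nd (nat_lit 255) (nat_lit 0) (cs (rf (nat_lit 14)) (cs (rf (nat_lit 8)) (nd (nat_lit 277) (nat_lit 0) (cs (lf (nat_lit 5) (nat_lit 252)) (nd (nat_lit 229) (nat_lit 0) (cs (lf (nat_lit 22) (nat_lit 229)) (nd (nat_lit 297) (nat_lit 0) (cs (lf (nat_lit 30) (nat_lit 231)) (nd (nat_lit 298) (nat_lit 0) (cs (lf (nat_lit 29) (nat_lit 231)) (nd (nat_lit 273) (nat_lit 0) (cs (lf (nat_lit 10) (nat_lit 251)) (nd (nat_lit 296) (nat_lit 0) (cs (lf (nat_lit 41) (nat_lit 230)) (rf (nat_lit 15)))))))))))))))))))))))))))))) q97668 (by decide +kernel)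
def q97682 : Q := Q.p (nat_lit 0x800002000008000040000000000000000000000000000000000000000000000000000) (nat_lit 0x40000700001c0000600000400001000014000000000000000000000000000000000000000000000000000000000) (nat_lit 7)
theorem c97682 : QOK q97682 := cut [q97681] ⟨c97681, trivial⟩ (nd (nat_lit 297) (nat_lit 0) (cs (lf (nat_lit 34) (nat_lit 209)) (rf (nat_lit 0)))) q97682 (by decide +kernel)
def q97689 : Q := Q.p (nat_lit 0x200000800002000008000000000000000000000000000000000000000000000000000000000) (nat_lit 0x400005c00074000040000000000200001c0000700001400000000000000000000000000000000000) (nat_lit 10)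
theorem c97689 : QOK q97689 := cut [q97684] ⟨c97684, trivial⟩ (nd (nat_lit 296) (nat_lit 0) (cs (lf (nat_lit 41) (nat_lit 230)) (nd (nat_lit 209) (nat_lit 0) (cs (lf (nat_lit 40) (nat_lit 208)) (nd (nat_lit 276) (nat_lit 0) (cs (lf (nat_lit 29) (nat_lit 209)) (nd (nat_lit 294) (nat_lit 0) (cs (lf (nat_lit 13) (nat_lit 272)) (nd (nat_lit 277) (nat_lit 0) (cs (lf (nat_lit 6) (nat_lit 274)) (rf (nat_lit 0)))))))))))) q97689 (by decide +kernel)
def q97697 : Q := Q.p (nat_lit 0x600000c00002000008000020000000000000000000000000000000000000000000000000000) (nat_lit 0x3000010000000000000001c0000700001400000000000000000000000000000000000) (nat_lit 6)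
theorem c97697 : QOK q97697 := cut [q97696] ⟨c97696, trivial⟩ (nd (nat_lit 272) (nat_lit 0) (cs (lf (nat_lit 1) (nat_lit 272)) (rf (nat_lit 0)))) q97697 (by decide +kernel)
def q97702 : Q := Q.p (nat_lit 0x800002000008000000000000000000000000000000000000000000000000000000000) (nat_lit 0x100000700001400005000010000060000180000400000000000000000000000000000000000000000) (nat_lit 5)
theorem c97702 : QOK q97702 := cut [q96312, q96314, q96655] ⟨c96312, c96314, c96655, trivial⟩ (nd (nat_lit 209) (nat_lit 0) (cs (rf (nat_lit 0)) (cs (rf (nat_lit 1)) (rf (nat_lit 2))))) q97702 (by decide +kernel)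
def q97705 : Q := Q.p (nat_lit 0x300003c000000000000000000000000000000000000000000000000000000000) (nat_lit 0x1c00000380000e000000000000000000000000000000000000000000000000000) (nat_lit 5)
theorem c97705 : QOK q97705 := cut [q84953] ⟨c84953, trivial⟩ (nd (nat_lit 255) (nat_lit 0) (cs (lf (nat_lit 5) (nat_lit 230)) (rf (nat_lit 0)))) q97705 (by decide +kernel)
def q97708 : Q := Q.p (nat_lit 0x100000c00001000004000000000000000000000000000000000000000000000000000000000) (nat_lit 0xa00002c0003000000000002000008000000000000000000000000000000000000000000000000000) (nat_lit 5)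
theorem c97708 : QOK q97708 := cut [q89454] ⟨c89454, trivial⟩ (nd (nat_lit 297) (nat_lit 0) (cs (lf (nat_lit 29) (nat_lit 230)) (rf (nat_lit 0)))) q97708 (by decide +kernel)
def q97715 : Q := Q.p (nat_lit 0x10000080000300001c000000000000000000000000000000000000000000000000000000000) (nat_lit 0xa000028000760001c000060000020000000000000000000000000000000000000000000000000000) (nat_lit 8)
theorem c97715 : QOK q97715 := cut [q97711] ⟨c97711, trivial⟩ (nd (nat_lit 297) (nat_lit 0) (cs (lf (nat_lit 42) (nat_lit 230)) (nd (nat_lit 274) (nat_lit 0) (cs (lf (nat_lit 36) (nat_lit 208)) (nd (nat_lit 233) (nat_lit 0) (cs (lf (nat_lit 6) (nat_lit 230)) (nd (nat_lit 255) (nat_lit 0) (cs (lf (nat_lit 5) (nat_lit 230)) (rf (nat_lit 0)))))))))) q97715 (by decide +kernel)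
def q97766 : Q := Q.p (nat_lit 0x1e00006000018000040000000000000000000000000000000000000000000000000000) (nat_lit 0xc00000000000000260003a0000280000000000000000000000000000000000000000000000) (nat_lit 6)
theorem c97766 : QOK q97766 := cut [q97764] ⟨c97764, trivial⟩ (nd (nat_lit 294) (nat_lit 0) (cs (lf (nat_lit 10) (nat_lit 272)) (nd (nat_lit 187) (nat_lit 0) (cs (lf (nat_lit 25) (nat_lit 187)) (rf (nat_lit 0)))))) q97766 (by decide +kernel)
def q97785 : Q := Q.p (nat_lit 0x800002000008000020000000000000000000000000000000000000000000000000000) (nat_lit 0x750000f70003dc00000000000000000000000000000000000000000000000000000000000000) (nat_lit 9)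
theorem c97785 : QOK q97785 := cut [q96658, q96662, q96671, q96674] ⟨c96658, c96662, c96671, c96674, trivial⟩ (nd (nat_lit 276) (nat_lit 0) (cs (lf (nat_lit 29) (nat_lit 209)) (nd (nat_lit 251) (nat_lit 0) (cs (rf (nat_lit 0)) (cs (rf (nat_lit 1)) (cs (rf (nat_lit 2)) (rf (nat_lit 3)))))))) q97785 (by decide +kernel)
def q97806 : Q := Q.p (nat_lit 0x800002000008000020000000000000000000000000000000000000000000000000000) (nat_lit 0x400001400005000004000000000180000600001000000000000000000000000000000000000) (nat_lit 6)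
theorem c97806 : QOK q97806 := cut [q10519] ⟨c10519, trivial⟩ (nd (nat_lit 276) (nat_lit 0) (cs (lf (nat_lit 29) (nat_lit 209)) (nd (nat_lit 187) (nat_lit 0) (cs (rf (nat_lit 0)) (lf (nat_lit 28) (nat_lit 187)))))) q97806 (by decide +kernel)
def q97853 : Q := Q.p (nat_lit 0x2000008000060000000000000000000000000000000000000000000000000000) (nat_lit 0x200001d0001f7000f9c000f00000c00003000000000000000000000000000000000000) (nat_lit 8)
theorem c97853 : QOK q97853 := cut [q84304, q84324, q96702, q96704, q85124, q15464, q85128, q93201, q97845, q97017, q101, q4381] ⟨c84304, c84324, c96702, c96704, c85124, c15464, c85128, c93201, c97845, c97017, c101, c4381, trivial⟩ (nd (nat_lit 211) (nat_lit 0) (cs (rf (nat_lit 0)) (cs (rf (nat_lit 1)) (cs (rf (nat_lit 2)) (cs (rf (nat_lit 3)) (cs (nd (nat_lit 233) (nat_lit 0) (cs (rf (nat_lit 4)) (cs (nd (nat_lit 208) (nat_lit 0) (cs (lf (nat_lit 5) (nat_lit 208)) (rf (nat_lit 5)))) (cs (nd (nat_lit 232) (nat_lit 0) (cs (rf (nat_lit 6)) (cs (rf (nat_lit 7)) (rf (nat_lit 8)))))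 (cs (nd (nat_lit 232) (nat_lit 0) (cs (rf (nat_lit 9)) (rf (nat_lit 8)))) (nd (nat_lit 208) (nat_lit 0) (cs (lf (nat_lit 5) (nat_lit 208)) (rf (nat_lit 10))))))))) (nd (nat_lit 212) (nat_lit 0) (cs (lf (nat_lit 11) (nat_lit 208)) (nd (nat_lit 234) (nat_lit 0) (cs (lf (nat_lit 5) (nat_lit 209)) (nd (nat_lit 208) (nat_lit 0) (cs (lf (nat_lit 4) (nat_lit 208)) (rf (nat_lit 11)))))))))))))) q97853 (by decide +kernel)
def q97864 : Q := Q.p (nat_lit 0x2000008000020000100000000000000000000000000000000000000000000000) (nat_lit 0x100001d000017000010000080000700000c00001000000000000000000000000000000) (nat_lit 9)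
theorem c97864 : QOK q97864 := cut [q97863] ⟨c97863, trivial⟩ (nd (nat_lit 187) (nat_lit 0) (cs (lf (nat_lit 35) (nat_lit 165)) (rf (nat_lit 0)))) q97864 (by decide +kernel)
def q97868 : Q := Q.p (nat_lit 0x1800003000008000020000080000000000000000000000000000000000000000000000) (nat_lit 0xc00004000000000000000700001c00005000000000000000000000000000000) (nat_lit 6)
theorem c97868 : QOK q97868 := cut [q4299] ⟨c4299, trivial⟩ (nd (nat_lit 250) (nat_lit 0) (cs (lf (nat_lit 1) (nat_lit 250)) (rf (nat_lit 0)))) q97868 (by decide +kernel)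
def q97882 : Q := Q.p (nat_lit 0x200000c000030000000000000000000000000000000000000000000000000000) (nat_lit 0x380000f0000d0000000000080000a0000000000000000000000000000000000000000000000) (nat_lit 7)
theorem c97882 : QOK q97882 := cut [q84410] ⟨c84410, trivial⟩ (nd (nat_lit 275) (nat_lit 0) (cs (lf (nat_lit 42) (nat_lit 208)) (nd (nat_lit 274) (nat_lit 0) (cs (lf (nat_lit 41) (nat_lit 208)) (nd (nat_lit 252) (nat_lit 0) (cs (lf (nat_lit 35) (nat_lit 186)) (rf (nat_lit 0)))))))) q97882 (by decide +kernel)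
def q97945 : Q := Q.p (nat_lit 0xe00002000008000000000000000000000000000000000000000000000000000000000) (nat_lit 0x600001e0001180001f0001700000c000020000000000000000000000000000000000000000000000) (nat_lit 8)
theorem c97945 : QOK q97945 := cut [q22204, q22214, q53050, q97940, q97944] ⟨c22204, c22214, c53050, c97940, c97944, trivial⟩ (nd (nat_lit 250) (nat_lit 0) (cs (rf (nat_lit 0)) (cs (rf (nat_lit 1)) (cs (rf (nat_lit 2)) (cs (rf (nat_lit 3)) (rf (nat_lit 4))))))) q97945 (by decide +kernel)
def q97964 : Q := Q.p (nat_lit 0x200001c000000000000000000000000000000000000000000000000000000000) (nat_lit 0x1df0006380038f000000000000000000000000000000000000000000000000000) (nat_lit 8)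
theorem c97964 : QOK q97964 := cut [q96758, q96769, q96836, q97207, q97963] ⟨c96758, c96769, c96836, c97207, c97963, trivial⟩ (nd (nat_lit 229) (nat_lit 0) (cs (rf (nat_lit 0)) (cs (rf (nat_lit 1)) (cs (rf (nat_lit 2)) (cs (rf (nat_lit 3)) (rf (nat_lit 4))))))) q97964 (by decide +kernel)
def q97968 : Q := Q.p (nat_lit 0x800002000008000000000000000000000000000000000000000000000000000000000) (nat_lit 0x500001c0000700001400001000004000030000000000000000000000000000000000000000000000000000) (nat_lit 5)
theorem c97968 : QOK q97968 := cut [q21953, q97286, q97798] ⟨c21953, c97286, c97798, trivial⟩ (nd (nat_lit 297) (nat_lit 0) (cs (rf (nat_lit 0)) (cs (rf (nat_lit 1)) (rf (nat_lit 2))))) q97968 (by decide +kernel)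
def q97971 : Q := Q.p (nat_lit 0x800002000008000020000000000000000000000000000000000000000000000000000) (nat_lit 0x14000050000140000100000c0000300000000000000000000000000000000000000000) (nat_lit 6)
theorem c97971 : QOK q97971 := cut [q97969] ⟨c97969, trivial⟩ (nd (nat_lit 186) (nat_lit 0) (cs (lf (nat_lit 46) (nat_lit 186)) (nd (nat_lit 187) (nat_lit 0) (cs (lf (nat_lit 47) (nat_lit 164)) (rf (nat_lit 0)))))) q97971 (by decide +kernel)
def q98009 : Q := Q.p (nat_lit 0x200000f000010000040000000000000000000000000000000000000000000000) (nat_lit 0x200001e000000001ee0007b0001ec0000800002000000000000000000000000000000) (nat_lit 12)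
theorem c98009 : QOK q98009 := cut [q21491, q358, q6912] ⟨c21491, c358, c6912, trivial⟩ (nd (nat_lit 187) (nat_lit 0) (cs (nd (nat_lit 165) (nat_lit 0) (cs (lf (nat_lit 30) (nat_lit 164)) (nd (nat_lit 209) (nat_lit 0) (cs (lf (nat_lit 36) (nat_lit 142)) (lf (nat_lit 17) (nat_lit 206)))))) (cs (nd (nat_lit 252) (nat_lit 0) (cs (lf (nat_lit 35) (nat_lit 164)) (nd (nat_lit 251) (nat_lit 0) (cs (lf (nat_lit 41) (nat_lit 185)) (nd (nat_lit 249) (nat_lit 0) (cs (lf (nat_lit 13) (nat_lit 227)) (nd (nat_lit 206) (nat_lit 0) (cs (lf (nat_lit 23) (nat_lit 205)) (nd (nat_lit 162) (nat_lit 0) (cs (lf (nat_lit 25) (nat_lit 162)) (nd (nat_lit 185) (nat_lit 0) (cs (lf (nat_lit 47) (nat_lit 163)) (rf (nat_lit 0)))))))))))))) (cs (nd (nat_lit 249) (nat_lit 0) (cs (lf (nat_lit 10) (nat_lit 227)) (nd (nat_lit 205) (nat_lit 0) (cs (lf (nat_lit 22) (nat_lit 205)) (nd (nat_lit 209) (nat_lit 0) (cs (rf (nat_lit 1)) (lf (nat_lit 17) (nat_lit 206)))))))) (nd (nat_lit 205) (nat_lit 0) (cs (lf (nat_lit 22) (nat_lit 205)) (nd (nat_lit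 249) (nat_lit 0) (cs (lf (nat_lit 10) (nat_lit 227)) (rf (nat_lit 2)))))))))) q98009 (by decide +kernel)
def q98028 : Q := Q.p (nat_lit 0x80000200000c000000000000000000000000000000000000000000000000000000000) (nat_lit 0x140000700001d0000700001fe0007f0000500000400000000000000000000000000000000000) (nat_lit 14)
theorem c98028 : QOK q98028 := cut [q81901, q94775, q96310, q98027] ⟨c81901, c94775, c96310, c98027, trivial⟩ (nd (nat_lit 209) (nat_lit 0) (cs (rf (nat_lit 0)) (cs (rf (nat_lit 1)) (cs (rf (nat_lit 2)) (rf (nat_lit 3)))))) q98028 (by decide +kernel)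
def q98036 : Q := Q.p (nat_lit 0x200000c000000000000000000000000000000000000000000000000000000000) (nat_lit 0xa0003df000f38001df000160000580000000000000000000000000000000000000000) (nat_lit 12)
theorem c98036 : QOK q98036 := cut [q96758, q96769, q96836, q96914, q80199, q96880, q98031] ⟨c96758, c96769, c96836, c96914, c80199, c96880, c98031, trivial⟩ (nd (nat_lit 229) (nat_lit 0) (cs (rf (nat_lit 0)) (cs (rf (nat_lit 1)) (cs (rf (nat_lit 2)) (cs (rf (nat_lit 3)) (nd (nat_lit 232) (nat_lit 0) (cs (rf (nat_lit 4)) (cs (rf (nat_lit 5)) (rf (nat_lit 6)))))))))) q98036 (by decide +kernel)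
def q98038 : Q := Q.p (nat_lit 0x200001c000010000000000000000000000000000000000000000000000000000) (nat_lit 0x200000800001f000038000ef000100000400000000000000000000000000000000000000000) (nat_lit 6)
theorem c98038 : QOK q98038 := cut [q97207, q12454] ⟨c97207, c12454, trivial⟩ (nd (nat_lit 229) (nat_lit 0) (cs (rf (nat_lit 0)) (nd (nat_lit 275) (nat_lit 0) (cs (lf (nat_lit 42) (nat_lit 208)) (rf (nat_lit 1)))))) q98038 (by decide +kernel)
def q98039 : Q := Q.p (nat_lit 0x200001c000000000000000000000000000000000000000000000000000000000) (nat_lit 0x2000039c000620001c0000100000400000000000000000000000000000000000000000) (nat_lit 6)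
theorem c98039 : QOK q98039 := cut [q22241, q22592, q96906] ⟨c22241, c22592, c96906, trivial⟩ (nd (nat_lit 233) (nat_lit 0) (cs (rf (nat_lit 0)) (cs (rf (nat_lit 1)) (rf (nat_lit 2))))) q98039 (by decide +kernel)
def q98058 : Q := Q.p (nat_lit 0x200000c000000000000000000000000000000000000000000000000000000000) (nat_lit 0x680003b0001df0003380003f0000c0000100000000000000000000000000000000000000000) (nat_lit 10)
theorem c98058 : QOK q98058 := cut [q96758, q96769, q96836, q97207, q97987, q98012, q80734, q96759, q7954, q79182] ⟨c96758, c96769, c96836, c97207, c97987, c98012, c80734, c96759, c7954, c79182, trivial⟩ (nd (nat_lit 229) (nat_lit 0) (cs (rf (nat_lit 0)) (cs (rf (nat_lit 1)) (cs (rf (nat_lit 2)) (cs (rf (nat_lit 3)) (nd (nat_lit 208) (nat_lit 0) (cs (rf (nat_lit 4)) (cs (rf (nat_lit 5)) (nd (nat_lit 254) (nat_lit 0) (cs (rf (nat_lit 6)) (cs (rf (nat_lit 7)) (nd (nat_lit 232) (nat_lit 0) (cs (rf (nat_lit 8)) (nd (nat_lit 251) (nat_lit 0) (cs (lf (nat_lit 11) (nat_lit 228)) (nd (nat_lit 273) (nat_lit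 0) (cs (lf (nat_lit 30) (nat_lit 207)) (nd (nat_lit 252) (nat_lit 0) (cs (lf (nat_lit 11) (nat_lit 250)) (rf (nat_lit 9))))))))))))))))))))) q98058 (by decide +kernel)
def q98068 : Q := Q.p (nat_lit 0x800002000008000000000000000000000000000000000000000000000000000000000) (nat_lit 0x400003000004000010000040000700001c0000600000800000000000000000000000000000000000) (nat_lit 7)
theorem c98068 : QOK q98068 := cut [q96312, q97786, q1992] ⟨c96312, c97786, c1992, trivial⟩ (nd (nat_lit 209) (nat_lit 0) (cs (rf (nat_lit 0)) (cs (rf (nat_lit 1)) (nd (nat_lit 208) (nat_lit 0) (cs (lf (nat_lit 47) (nat_lit 186)) (rf (nat_lit 2))))))) q98068 (by decide +kernel)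
def q98074 : Q := Q.p (nat_lit 0x2000008000020000080000000000000000000000000000000000000000000000) (nat_lit 0x400005000014000040000000000600001800004000000000000000000000000000000) (nat_lit 6)
theorem c98074 : QOK q98074 := cut [q84570] ⟨c84570, trivial⟩ (nd (nat_lit 252) (nat_lit 0) (cs (lf (nat_lit 41) (nat_lit 186)) (rf (nat_lit 0)))) q98074 (by decide +kernel)
def q98083 : Q := Q.p (nat_lit 0x2000008000020000000000000000000000000000000000000000000000000000) (nat_lit 0x300000c00005c000740000500001c0000300001c00007000014000000000000000000000000) (nat_lit 11)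
theorem c98083 : QOK q98083 := cut [q96697, q96750, q98082] ⟨c96697, c96750, c98082, trivial⟩ (nd (nat_lit 187) (nat_lit 0) (cs (rf (nat_lit 0)) (cs (rf (nat_lit 1)) (rf (nat_lit 2))))) q98083 (by decide +kernel)
def q98097 : Q := Q.p (nat_lit 0x380000e000010000040000000000000000000000000000000000000000000000) (nat_lit 0x10000040000340000c00000000000f00003c0000c0000000000000000000000000000000000000000) (nat_lit 9)
theorem c98097 : QOK q98097 := cut [q98094] ⟨c98094, trivial⟩ (nd (nat_lit 254) (nat_lit 0) (cs (lf (nat_lit 18) (nat_lit 229)) (nd (nat_lit 276) (nat_lit 0) (cs (lf (nat_lit 5) (nat_lit 251)) (nd (nat_lit 298) (nat_lit 0) (cs (lf (nat_lit 42) (nat_lit 231)) (rf (nat_lit 0)))))))) q98097 (by decide +kernel)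
def q98126 : Q := Q.p (nat_lit 0x800002000008000010000000000000000000000000000000000000000000000000000) (nat_lit 0x1000014000050000100000200001c0000600001000000000000000000000000000000000000) (nat_lit 7)
theorem c98126 : QOK q98126 := cut [q97804] ⟨c97804, trivial⟩ (nd (nat_lit 209) (nat_lit 0) (cs (lf (nat_lit 47) (nat_lit 186)) (rf (nat_lit 0)))) q98126 (by decide +kernel)
def q98132 : Q := Q.p (nat_lit 0x800002000008000010000000000000000000000000000000000000000000000000000) (nat_lit 0x100000700001c0000300001000004000014000000000000000000000000000000000000000000000000000000000) (nat_lit 7)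
theorem c98132 : QOK q98132 := cut [q98131] ⟨c98131, trivial⟩ (nd (nat_lit 297) (nat_lit 0) (cs (lf (nat_lit 46) (nat_lit 208)) (rf (nat_lit 0)))) q98132 (by decide +kernel)
def q98137 : Q := Q.p (nat_lit 0xe00000800000000000000000000000000000000000000000000000000000000000000) (nat_lit 0x400001c000300000c400002000008000000000000000000000000000000000000000000000000000) (nat_lit 6)
theorem c98137 : QOK q98137 := cut [q98136] ⟨c98136, trivial⟩ (nd (nat_lit 276) (nat_lit 0) (cs (lf (nat_lit 23) (nat_lit 250)) (rf (nat_lit 0)))) q98137 (by decide +kernel)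
def q98151 : Q := Q.p (nat_lit 0xe00006000008000020000000000000000000000000000000000000000000000000000) (nat_lit 0x800000000010000178001de000160000000000000000000000000000000000000000000000) (nat_lit 8)
theorem c98151 : QOK q98151 := cut [q95657, q98145, q98150] ⟨c95657, c98145, c98150, trivial⟩ (nd (nat_lit 230) (nat_lit 0) (cs (rf (nat_lit 0)) (cs (rf (nat_lit 1)) (rf (nat_lit 2))))) q98151 (by decide +kernel)
def q98162 : Q := Q.p (nat_lit 0xc00006000008000000000000000000000000000000000000000000000000000000000) (nat_lit 0x7000019800077000018000060000000000000000000000000000000000000000000000) (nat_lit 7)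
theorem c98162 : QOK q98162 := cut [q98155, q98157, q98160] ⟨c98155, c98157, c98160, trivial⟩ (nd (nat_lit 255) (nat_lit 0) (cs (lf (nat_lit 6) (nat_lit 252)) (nd (nat_lit 252) (nat_lit 0) (cs (rf (nat_lit 0)) (cs (rf (nat_lit 1)) (rf (nat_lit 2))))))) q98162 (by decide +kernel)
def q98179 : Q := Q.p (nat_lit 0x800002000008000000000000000000000000000000000000000000000000000000000) (nat_lit 0xc00003000014000050000100000700001c0000300000000000000000000000000000000000000000) (nat_lit 7)
theorem c98179 : QOK q98179 := cut [q96325, q96741, q97975] ⟨c96325, c96741, c97975, trivial⟩ (nd (nat_lit 209) (nat_lit 0) (cs (rf (nat_lit 0)) (cs (rf (nat_lit 1)) (rf (nat_lit 2))))) q98179 (by decide +kernel)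
def q98194 : Q := Q.p (nat_lit 0x6000008000060000000000000000000000000000000000000000000000000000) (nat_lit 0x500001e00018000000000010000140000000000000000000000000000000000000000000000) (nat_lit 6)
theorem c98194 : QOK q98194 := cut [q98192] ⟨c98192, trivial⟩ (nd (nat_lit 275) (nat_lit 0) (cs (lf (nat_lit 35) (nat_lit 187)) (nd (nat_lit 186) (nat_lit 0) (cs (lf (nat_lit 46) (nat_lit 186)) (rf (nat_lit 0)))))) q98194 (by decide +kernel)
def q98196 : Q := Q.p (nat_lit 0x6000008000020000000000000000000000000000000000000000000000000000) (nat_lit 0x8000000000100000180007c0000700001400000000000000000000000000000000000) (nat_lit 6)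
theorem c98196 : QOK q98196 := cut [q80891, q84607, q92705] ⟨c80891, c84607, c92705, trivial⟩ (nd (nat_lit 187) (nat_lit 0) (cs (rf (nat_lit 0)) (cs (rf (nat_lit 1)) (rf (nat_lit 2))))) q98196 (by decide +kernel)
def q98253 : Q := Q.p (nat_lit 0x6000018000040000000000000000000000000000000000000000000000000000) (nat_lit 0x2000018000006000000000300000c00000000000000000000000000000000000000000) (nat_lit 5)
theorem c98253 : QOK q98253 := cut [q79694] ⟨c79694, trivial⟩ (nd (nat_lit 188) (nat_lit 0) (cs (lf (nat_lit 36) (nat_lit 165)) (rf (nat_lit 0)))) q98253 (by decide +kernel)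
def q98318 : Q := Q.p (nat_lit 0x800002000008000000000000000000000000000000000000000000000000000000000) (nat_lit 0x40000700001400005000010000060000180000400000000000000000000000000000000000000000) (nat_lit 5)
theorem c98318 : QOK q98318 := cut [q96741, q98315, q98317] ⟨c96741, c98315, c98317, trivial⟩ (nd (nat_lit 209) (nat_lit 0) (cs (rf (nat_lit 0)) (cs (rf (nat_lit 1)) (rf (nat_lit 2))))) q98318 (by decide +kernel)
def q98344 : Q := Q.p (nat_lit 0x80000200000e000000000000000000000000000000000000000000000000000000000) (nat_lit 0x1e00031e000df800140000500000000000000000000000000000000000000000) (nat_lit 8)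
theorem c98344 : QOK q98344 := cut [q22546, q98332, q22538, q98343] ⟨c22546, c98332, c22538, c98343, trivial⟩ (nd (nat_lit 250) (nat_lit 0) (cs (rf (nat_lit 0)) (cs (nd (nat_lit 232) (nat_lit 0) (cs (lf (nat_lit 10) (nat_lit 228)) (nd (nat_lit 210) (nat_lit 0) (cs (lf (nat_lit 17) (nat_lit 207)) (nd (nat_lit 166) (nat_lit 0) (cs (lf (nat_lit 37) (nat_lit 165)) (rf (nat_lit 1)))))))) (cs (nd (nat_lit 232) (nat_lit 0) (cs (lf (nat_lit 10) (nat_lit 228)) (nd (nat_lit 210) (nat_lit 0) (cs (lf (nat_lit 17) (nat_lit 207)) (nd (nat_lit 166) (nat_lit 0) (cs (lf (nat_lit 37) (nat_lit 165)) (nd (nat_lit 206) (nat_lit 0) (cs (lf (nat_lit 22) (nat_lit 206)) (rf (nat_lit 2)))))))))) (rf (nat_lit 3)))))) q98344 (by decide +kernel)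
def q98347 : Q := Q.p (nat_lit 0x80000200000c000000000000000000000000000000000000000000000000000000000) (nat_lit 0x20000000000de000f38003cf000100000400000000000000000000000000000000000000000) (nat_lit 8)
theorem c98347 : QOK q98347 := cut [q87016, q97958, q22540, q96769, q98327] ⟨c87016, c97958, c22540, c96769, c98327, trivial⟩ (nd (nat_lit 232) (nat_lit 0) (cs (rf (nat_lit 0)) (cs (rf (nat_lit 1)) (nd (nat_lit 229) (nat_lit 0) (cs (rf (nat_lit 2)) (cs (rf (nat_lit 3)) (rf (nat_lit 4)))))))) q98347 (by decide +kernel)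
def q98353 : Q := Q.p (nat_lit 0xf00003000008000000000000000000000000000000000000000000000000000000000) (nat_lit 0x400001e0000000000e00011800004000010000000000000000000000000000000000000000000000) (nat_lit 7)
theorem c98353 : QOK q98353 := cut [q98350] ⟨c98350, trivial⟩ (nd (nat_lit 296) (nat_lit 0) (cs (lf (nat_lit 30) (nat_lit 230)) (nd (nat_lit 293) (nat_lit 0) (cs (lf (nat_lit 10) (nat_lit 271)) (nd (nat_lit 250) (nat_lit 0) (cs (lf (nat_lit 23) (nat_lit 249)) (rf (nat_lit 0)))))))) q98353 (by decide +kernel)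
def q98360 : Q := Q.p (nat_lit 0x800002000008000020000000000000000000000000000000000000000000000000000) (nat_lit 0x40000700001400000000004000050000140000000000000000000000000000000000000000000000) (nat_lit 6)
theorem c98360 : QOK q98360 := cut [q97237] ⟨c97237, trivial⟩ (nd (nat_lit 276) (nat_lit 0) (cs (lf (nat_lit 29) (nat_lit 209)) (rf (nat_lit 0)))) q98360 (by decide +kernel)
def q98370 : Q := Q.p (nat_lit 0x800002000008000000000000000000000000000000000000000000000000000000000) (nat_lit 0x400003000004000010000100000700001c0000500000000000000000000000000000000000000000) (nat_lit 5)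
theorem c98370 : QOK q98370 := cut [q81901, q96325, q96741] ⟨c81901, c96325, c96741, trivial⟩ (nd (nat_lit 209) (nat_lit 0) (cs (rf (nat_lit 0)) (cs (rf (nat_lit 1)) (rf (nat_lit 2))))) q98370 (by decide +kernel)
def q98372 : Q := Q.p (nat_lit 0x800002000008000000000000000000000000000000000000000000000000000000000) (nat_lit 0x1000006000010000040000100000700001c0000500000000000000000000000000000000000000000) (nat_lit 6)
theorem c98372 : QOK q98372 := cut [q81901, q98317, q98359, q26053] ⟨c81901, c98317, c98359, c26053, trivial⟩ (nd (nat_lit 209) (nat_lit 0) (cs (rf (nat_lit 0)) (cs (rf (nat_lit 1)) (cs (rf (nat_lit 2)) (nd (nat_lit 186) (nat_lit 0) (cs (rf (nat_lit 3)) (lf (nat_lit 46) (nat_lit 186)))))))) q98372 (by decide +kernel)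
def q98377 : Q := Q.p (nat_lit 0x7800000000000000000000000000000000000000000000000000000000000000) (nat_lit 0x80000300008000007000010000040000000000000000000000000000000000000000000000) (nat_lit 5)
theorem c98377 : QOK q98377 := cut [q92610] ⟨c92610, trivial⟩ (nd (nat_lit 273) (nat_lit 0) (cs (lf (nat_lit 11) (nat_lit 250)) (rf (nat_lit 0)))) q98377 (by decide +kernel)
def q98380 : Q := Q.p (nat_lit 0x1e00003000000000000000000000000000000000000000000000000000000000000000) (nat_lit 0x100000cc000000000c000008000020000000000000000000000000000000000000000000000000000) (nat_lit 5)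
theorem c98380 : QOK q98380 := cut [q98379] ⟨c98379, trivial⟩ (nd (nat_lit 254) (nat_lit 0) (cs (lf (nat_lit 6) (nat_lit 251)) (rf (nat_lit 0)))) q98380 (by decide +kernel)
def q98389 : Q := Q.p (nat_lit 0xe00003000000000000000000000000000000000000000000000000000000000000000) (nat_lit 0x8000020001dc000700000c000004000010000000000000000000000000000000000000000000000000000) (nat_lit 6)
theorem c98389 : QOK q98389 := cut [q1310, q98387] ⟨c1310, c98387, trivial⟩ (nd (nat_lit 276) (nat_lit 0) (cs (rf (nat_lit 0)) (nd (nat_lit 254) (nat_lit 0) (cs (lf (nat_lit 6) (nat_lit 251)) (rf (nat_lit 1)))))) q98389 (by decide +kernel)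
def q98392 : Q := Q.p (nat_lit 0x100000c00003000000000000000000000000000000000000000000000000000000000000000) (nat_lit 0x380000e0000080000000000000006000018000060000000000000000000000000000000000000000000000) (nat_lit 7)
theorem c98392 : QOK q98392 := cut [q80995] ⟨c80995, trivial⟩ (nd (nat_lit 318) (nat_lit 0) (cs (lf (nat_lit 30) (nat_lit 252)) (nd (nat_lit 319) (nat_lit 0) (cs (lf (nat_lit 29) (nat_lit 252)) (rf (nat_lit 0)))))) q98392 (by decide +kernel)
def q98462 : Q := Q.p (nat_lit 0x100000c00003000004000000000000000000000000000000000000000000000000000000000) (nat_lit 0x200000e000320000000000a000028000000000000000000000000000000000000000000000000000) (nat_lit 6)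
theorem c98462 : QOK q98462 := cut [q91969] ⟨c91969, trivial⟩ (nd (nat_lit 209) (nat_lit 0) (cs (lf (nat_lit 37) (nat_lit 208)) (nd (nat_lit 207) (nat_lit 0) (cs (lf (nat_lit 46) (nat_lit 207)) (rf (nat_lit 0)))))) q98462 (by decide +kernel)
def q98466 : Q := Q.p (nat_lit 0x100000c00003000000000000000000000000000000000000000000000000000000000000000) (nat_lit 0x200000e000000000400000f8000380000e0000000000000000000000000000000000000000000000) (nat_lit 7)
theorem c98466 : QOK q98466 := cut [q80993, q98394, q89642] ⟨c80993, c98394, c89642, trivial⟩ (nd (nat_lit 230) (nat_lit 0) (cs (rf (nat_lit 0)) (cs (rf (nat_lit 1)) (nd (nat_lit 231) (nat_lit 0) (cs (lf (nat_lit 36) (nat_lit 208)) (rf (nat_lit 2))))))) q98466 (by decide +kernel)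
def q98470 : Q := Q.p (nat_lit 0x400003000004000010000000000000000000000000000000000000000000000000000) (nat_lit 0x10000000000c00000b800008000020000000000000000000000000000000000000000000000) (nat_lit 5)
theorem c98470 : QOK q98470 := cut [q98469] ⟨c98469, trivial⟩ (nd (nat_lit 207) (nat_lit 0) (cs (lf (nat_lit 47) (nat_lit 185)) (rf (nat_lit 0)))) q98470 (by decide +kernel)
def q98476 : Q := Q.p (nat_lit 0xc0000300000c000000000000000000000000000000000000000000000000000000000) (nat_lit 0x1c000070000000000130001e0000180000000000000000000000000000000000000000000000) (nat_lit 8)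
theorem c98476 : QOK q98476 := cut [q98475] ⟨c98475, trivial⟩ (nd (nat_lit 209) (nat_lit 0) (cs (lf (nat_lit 36) (nat_lit 186)) (rf (nat_lit 0)))) q98476 (by decide +kernel)
def q98479 : Q := Q.p (nat_lit 0xc0000300000c000000000000000000000000000000000000000000000000000000000) (nat_lit 0x3200001e000060000000000000000000000000000000000000000000000) (nat_lit 5)
theorem c98479 : QOK q98479 := cut [q22191] ⟨c22191, trivial⟩ (nd (nat_lit 208) (nat_lit 0) (cs (lf (nat_lit 24) (nat_lit 186)) (rf (nat_lit 0)))) q98479 (by decide +kernel)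
def q98519 : Q := Q.p (nat_lit 0x800003800000000000000000000000000000000000000000000000000000000000000) (nat_lit 0x100000460001f8000760000c0000300000000000000000000000000000000000000000) (nat_lit 10)
theorem c98519 : QOK q98519 := cut [q92090] ⟨c92090, trivial⟩ (nd (nat_lit 250) (nat_lit 0) (cs (lf (nat_lit 5) (nat_lit 250)) (nd (nat_lit 231) (nat_lit 0) (cs (lf (nat_lit 17) (nat_lit 228)) (nd (nat_lit 230) (nat_lit 0) (cs (lf (nat_lit 12) (nat_lit 227)) (nd (nat_lit 186) (nat_lit 0) (cs (lf (nat_lit 25) (nat_lit 186)) (nd (nat_lit 228) (nat_lit 0) (cs (lf (nat_lit 23) (nat_lit 227)) (nd (nat_lit 229) (nat_lit 0) (cs (lf (nat_lit 18) (nat_lit 228)) (rf (nat_lit 0)))))))))))))) q98519 (by decide +kernel)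
def q98529 : Q := Q.p (nat_lit 0x800007800000000000000000000000000000000000000000000000000000000000000) (nat_lit 0x48000120000dc000370000000000700001c0000700001c0000500000000000000000000000000000000000) (nat_lit 12)
theorem c98529 : QOK q98529 := cut [q5482, q80448, q90625, q80450] ⟨c5482, c80448, c90625, c80450, trivial⟩ (nd (nat_lit 229) (nat_lit 0) (cs (lf (nat_lit 23) (nat_lit 228)) (nd (nat_lit 207) (nat_lit 0) (cs (rf (nat_lit 0)) (cs (rf (nat_lit 1)) (cs (nd (nat_lit 273) (nat_lit 0) (cs (lf (nat_lit 11) (nat_lit 250)) (nd (nat_lit 276) (nat_lit 0) (cs (lf (nat_lit 5) (nat_lit 251)) (nd (nat_lit 186) (nat_lit 0) (cs (lf (nat_lit 34) (nat_lit 185)) (nd (nat_lit 184) (nat_lit 0) (cs (lf (nat_lit 46) (nat_lit 184)) (nd (nat_lit 274) (nat_lit 0) (cs (lf (nat_lit 29) (nat_lit 207)) (rf (nat_lit 2)))))))))))) (nd (nat_lit 272) (nat_lit 0) (cs (lf (nat_lit 10) (nat_lit 250)) (nd (nat_lit 276) (nat_lit 0) (cs (lf (nat_lit 5) (nat_lit 251)) (rf (nat_lit 3)))))))))))) q98529 (by decide +kernel)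
def q98543 : Q := Q.p (nat_lit 0xc00003800000000000000000000000000000000000000000000000000000000000000) (nat_lit 0x40000100000180004600007800008000020000000000000000000000000000000000000000000000) (nat_lit 7)
theorem c98543 : QOK q98543 := cut [q91585] ⟨c91585, trivial⟩ (nd (nat_lit 250) (nat_lit 0) (cs (lf (nat_lit 0) (nat_lit 249)) (nd (nat_lit 271) (nat_lit 0) (cs (lf (nat_lit 10) (nat_lit 249)) (rf (nat_lit 0)))))) q98543 (by decide +kernel)
def q98547 : Q := Q.p (nat_lit 0xc00003800000000000000000000000000000000000000000000000000000000000000) (nat_lit 0x40000100001e000038000c000033000048000120000000000000000000000000000000000000000000000) (nat_lit 7)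
theorem c98547 : QOK q98547 := cut [q14907, q87021, q98546] ⟨c14907, c87021, c98546, trivial⟩ (nd (nat_lit 273) (nat_lit 0) (cs (rf (nat_lit 0)) (cs (rf (nat_lit 1)) (rf (nat_lit 2))))) q98547 (by decide +kernel)
def q98570 : Q := Q.p (nat_lit 0x700003c00000000000000000000000000000000000000000000000000000000000000) (nat_lit 0x10000000000000000780007e0001f8000000000000000000000000000000000000000000000) (nat_lit 9)
theorem c98570 : QOK q98570 := cut [q94031] ⟨c94031, trivial⟩ (nd (nat_lit 228) (nat_lit 0) (cs (lf (nat_lit 23) (nat_lit 227)) (nd (nat_lit 206) (nat_lit 0) (cs (lf (nat_lit 24) (nat_lit 184)) (nd (nat_lit 183) (nat_lit 0) (cs (lf (nat_lit 46) (nat_lit 183)) (nd (nat_lit 207) (nat_lit 0) (cs (lf (nat_lit 35) (nat_lit 184)) (nd (nat_lit 229) (nat_lit 0) (cs (lf (nat_lit 29) (nat_lit 207)) (rf (nat_lit 0)))))))))))) q98570 (by decide +kernel)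
def q98580 : Q := Q.p (nat_lit 0xc00003800000000000000000000000000000000000000000000000000000000000000) (nat_lit 0xc0000300000e000038000c00003700005c000170000000000000000000000000000000000000000000000) (nat_lit 12)
theorem c98580 : QOK q98580 := cut [q14907, q87021, q98578] ⟨c14907, c87021, c98578, trivial⟩ (nd (nat_lit 273) (nat_lit 0) (cs (rf (nat_lit 0)) (cs (rf (nat_lit 1)) (nd (nat_lit 254) (nat_lit 0) (cs (lf (nat_lit 6) (nat_lit 251)) (rf (nat_lit 2))))))) q98580 (by decide +kernel)
def q98607 : Q := Q.p (nat_lit 0x400003c00000000000000000000000000000000000000000000000000000000000000) (nat_lit 0x80000380004000019800024000090000000000000000000000000000000000000000000000) (nat_lit 7)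
theorem c98607 : QOK q98607 := cut [q84284] ⟨c84284, trivial⟩ (nd (nat_lit 231) (nat_lit 0) (cs (lf (nat_lit 17) (nat_lit 228)) (nd (nat_lit 187) (nat_lit 0) (cs (lf (nat_lit 37) (nat_lit 186)) (rf (nat_lit 0)))))) q98607 (by decide +kernel)
def q98664 : Q := Q.p (nat_lit 0xc00003000000000000000000000000000000000000000000000000000000000000000) (nat_lit 0x40000700001e00003c000ce0003fc000700001c0000000000000000000000000000000000000000000000) (nat_lit 11)
theorem c98664 : QOK q98664 := cut [q24705, q98540, q87021, q84227, q98393, q98653, q81450] ⟨c24705, c98540, c87021, c84227, c98393, c98653, c81450, trivial⟩ (nd (nat_lit 251) (nat_lit 0) (cs (rf (nat_lit 0)) (cs (rf (nat_lit 1)) (nd (nat_lit 273) (nat_lit 0) (cs (rf (nat_lit 2)) (cs (nd (nat_lit 230) (nat_lit 0) (cs (rf (nat_lit 3)) (cs (nd (nat_lit 254) (nat_lit 0) (cs (lf (nat_lit 6) (nat_lit 251)) (nd (nat_lit 232) (nat_lit 0) (cs (lf (nat_lit 17) (nat_lit 229)) (nd (nat_lit 188) (nat_lit 0) (cs (lf (nat_lit 37) (nat_lit 187)) (nd (nat_lit 229) (nat_lit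 0) (cs (lf (nat_lit 23) (nat_lit 228)) (nd (nat_lit 208) (nat_lit 0) (cs (lf (nat_lit 24) (nat_lit 186)) (nd (nat_lit 296) (nat_lit 0) (cs (lf (nat_lit 42) (nat_lit 229)) (rf (nat_lit 4)))))))))))))) (nd (nat_lit 254) (nat_lit 0) (cs (lf (nat_lit 6) (nat_lit 251)) (nd (nat_lit 232) (nat_lit 0) (cs (lf (nat_lit 17) (nat_lit 229)) (nd (nat_lit 188) (nat_lit 0) (cs (lf (nat_lit 37) (nat_lit 187)) (nd (nat_lit 229) (nat_lit 0) (cs (lf (nat_lit 23) (nat_lit 228)) (rf (nat_lit 5))))))))))))) (nd (nat_lit 272) (nat_lit 0) (cs (lf (nat_lit 12) (nat_lit 249)) (nd (nat_lit 294) (nat_lit 0) (cs (lf (nat_lit 11) (nat_lit 271)) (nd (nat_lit 316) (nat_lit 0) (cs (lf (nat_lit 30) (nat_lit 250)) (nd (nat_lit 295) (nat_lit 0) (cs (lf (nat_lit 36) (nat_lit 228)) (rf (nat_lit 6)))))))))))))))) q98664 (by decide +kernel)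
def q98690 : Q := Q.p (nat_lit 0x1c00003000000000000000000000000000000000000000000000000000000000000000) (nat_lit 0x80000200001c0000380004000004000010000000000000000000000000000000000000000000000000000) (nat_lit 5)
theorem c98690 : QOK q98690 := cut [q87021, q98387] ⟨c87021, c98387, trivial⟩ (nd (nat_lit 273) (nat_lit 0) (cs (rf (nat_lit 0)) (rf (nat_lit 1)))) q98690 (by decide +kernel)
def q98696 : Q := Q.p (nat_lit 0x1c00003000000000000000000000000000000000000000000000000000000000000000) (nat_lit 0x80000200001c0000380000e00004000010000000000000000000000000000000000000000000000000000) (nat_lit 5)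
theorem c98696 : QOK q98696 := cut [q2180, q98387] ⟨c2180, c98387, trivial⟩ (nd (nat_lit 273) (nat_lit 0) (cs (rf (nat_lit 0)) (rf (nat_lit 1)))) q98696 (by decide +kernel)
def q98728 : Q := Q.p (nat_lit 0xc0000300000c000000000000000000000000000000000000000000000000000000000) (nat_lit 0x40000100001000000e0001380000e000000000000000000000000000000000000000000000000000) (nat_lit 7)
theorem c98728 : QOK q98728 := cut [q92001] ⟨c92001, trivial⟩ (nd (nat_lit 296) (nat_lit 0) (cs (lf (nat_lit 30) (nat_lit 230)) (rf (nat_lit 0)))) q98728 (by decide +kernel)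
def q98730 : Q := Q.p (nat_lit 0xc00003000004000000000000000000000000000000000000000000000000000000000) (nat_lit 0x1000004000010000000000000000a000018000060000000000000000000000000000000000000000000000) (nat_lit 5)
theorem c98730 : QOK q98730 := cut [q22295] ⟨c22295, trivial⟩ (nd (nat_lit 208) (nat_lit 0) (cs (lf (nat_lit 24) (nat_lit 186)) (rf (nat_lit 0)))) q98730 (by decide +kernel)
def q98731 : Q := Q.p (nat_lit 0xc00003000008000000000000000000000000000000000000000000000000000000000) (nat_lit 0x400003000000c00000000060000180000000000000000000000000000000000000000000000) (nat_lit 5)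
theorem c98731 : QOK q98731 := cut [q22284] ⟨c22284, trivial⟩ (nd (nat_lit 209) (nat_lit 0) (cs (lf (nat_lit 36) (nat_lit 186)) (rf (nat_lit 0)))) q98731 (by decide +kernel)
def q98742 : Q := Q.p (nat_lit 0x1a00006000000000000000000000000000000000000000000000000000000000000000) (nat_lit 0x100000cc0000400008000008000020000000000000000000000000000000000000000000000000000) (nat_lit 5)
theorem c98742 : QOK q98742 := cut [q98379] ⟨c98379, trivial⟩ (nd (nat_lit 274) (nat_lit 0) (cs (lf (nat_lit 17) (nat_lit 251)) (rf (nat_lit 0)))) q98742 (by decide +kernel)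
def q98756 : Q := Q.p (nat_lit 0x800003800000000000000000000000000000000000000000000000000000000000000) (nat_lit 0x800007c0004600001c00004000010000000000000000000000000000000000000000000000) (nat_lit 6)
theorem c98756 : QOK q98756 := cut [q1998, q2090, q84284] ⟨c1998, c2090, c84284, trivial⟩ (nd (nat_lit 250) (nat_lit 0) (cs (rf (nat_lit 0)) (cs (rf (nat_lit 1)) (rf (nat_lit 2))))) q98756 (by decide +kernel)
def q98765 : Q := Q.p (nat_lit 0x200007800000000000000000000000000000000000000000000000000000000000000) (nat_lit 0x80003000008000007000010000040000000000000000000000000000000000000000000000) (nat_lit 5)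
theorem c98765 : QOK q98765 := cut [q92610] ⟨c92610, trivial⟩ (nd (nat_lit 276) (nat_lit 0) (cs (lf (nat_lit 5) (nat_lit 251)) (rf (nat_lit 0)))) q98765 (by decide +kernel)
def q98788 : Q := Q.p (nat_lit 0x380000800002000008000000000000000000000000000000000000000000000000000000000) (nat_lit 0x138000440000380000000014000050000000000000000000000000000000000000000000000000000) (nat_lit 7)
theorem c98788 : QOK q98788 := cut [q88939] ⟨c88939, trivial⟩ (nd (nat_lit 208) (nat_lit 0) (cs (lf (nat_lit 46) (nat_lit 208)) (nd (nat_lit 210) (nat_lit 0) (cs (lf (nat_lit 34) (nat_lit 209)) (rf (nat_lit 0)))))) q98788 (by decide +kernel)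
def q98806 : Q := Q.p (nat_lit 0x800002000008000038000000000000000000000000000000000000000000000000000) (nat_lit 0x1400004600011c000000000000000000000000000000000000000000000) (nat_lit 5)
theorem c98806 : QOK q98806 := cut [q2935] ⟨c2935, trivial⟩ (nd (nat_lit 188) (nat_lit 0) (cs (lf (nat_lit 34) (nat_lit 187)) (rf (nat_lit 0)))) q98806 (by decide +kernel)
def q98810 : Q := Q.p (nat_lit 0x800002000008000000000000000000000000000000000000000000000000000000000) (nat_lit 0x500001c0000700001400000000004000030000040000000000000000000000000000000000000000000000) (nat_lit 5)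
theorem c98810 : QOK q98810 := cut [q79188, q84365, q88936] ⟨c79188, c84365, c88936, trivial⟩ (nd (nat_lit 297) (nat_lit 0) (cs (rf (nat_lit 0)) (cs (rf (nat_lit 1)) (rf (nat_lit 2))))) q98810 (by decide +kernel)
def q98822 : Q := Q.p (nat_lit 0x800002000008000000000000000000000000000000000000000000000000000000000) (nat_lit 0x400001c0000700000400004000014000070000040000000000000000000000000000000000000000000000) (nat_lit 5)
theorem c98822 : QOK q98822 := cut [q79188, q98797] ⟨c79188, c98797, trivial⟩ (nd (nat_lit 297) (nat_lit 0) (cs (rf (nat_lit 0)) (rf (nat_lit 1)))) q98822 (by decide +kernel)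
def q98831 : Q := Q.p (nat_lit 0x1e00002000000000000000000000000000000000000000000000000000000000000000) (nat_lit 0x60000180000ec000000000c0000300000c0000300000000000000000000000000000000000000000000000) (nat_lit 9)
theorem c98831 : QOK q98831 := cut [q98827] ⟨c98827, trivial⟩ (nd (nat_lit 298) (nat_lit 0) (cs (lf (nat_lit 5) (nat_lit 273)) (nd (nat_lit 320) (nat_lit 0) (cs (lf (nat_lit 42) (nat_lit 253)) (nd (nat_lit 294) (nat_lit 0) (cs (lf (nat_lit 10) (nat_lit 272)) (nd (nat_lit 254) (nat_lit 0) (cs (lf (nat_lit 17) (nat_lit 251)) (rf (nat_lit 0)))))))))) q98831 (by decide +kernel)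
def q98836 : Q := Q.p (nat_lit 0x1e00002000000000000000000000000000000000000000000000000000000000000000) (nat_lit 0xe0000380000e0000000000cc000300000c0000300000000000000000000000000000000000000000000000) (nat_lit 10)
theorem c98836 : QOK q98836 := cut [q98827] ⟨c98827, trivial⟩ (nd (nat_lit 254) (nat_lit 0) (cs (lf (nat_lit 17) (nat_lit 251)) (nd (nat_lit 298) (nat_lit 0) (cs (lf (nat_lit 5) (nat_lit 273)) (nd (nat_lit 320) (nat_lit 0) (cs (lf (nat_lit 42) (nat_lit 253)) (nd (nat_lit 250) (nat_lit 0) (cs (lf (nat_lit 22) (nat_lit 250)) (nd (nat_lit 321) (nat_lit 0) (cs (lf (nat_lit 29) (nat_lit 254)) (rf (nat_lit 0)))))))))))) q98836 (by decide +kernel)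
def q98845 : Q := Q.p (nat_lit 0x400001800006000000000000000000000000000000000000000000000000000000000000000) (nat_lit 0x600001800002000000000000000300000c0000300000000000000000000000000000000000000000000000) (nat_lit 6)
theorem c98845 : QOK q98845 := cut [q98827] ⟨c98827, trivial⟩ (nd (nat_lit 320) (nat_lit 0) (cs (lf (nat_lit 42) (nat_lit 253)) (rf (nat_lit 0)))) q98845 (by decide +kernel)
def q98856 : Q := Q.p (nat_lit 0xf00002000000000000000000000000000000000000000000000000000000000000000) (nat_lit 0x80000660000080001000004000010000000000000000000000000000000000000000000000000000) (nat_lit 5)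
theorem c98856 : QOK q98856 := cut [q88427] ⟨c88427, trivial⟩ (nd (nat_lit 252) (nat_lit 0) (cs (lf (nat_lit 12) (nat_lit 249)) (rf (nat_lit 0)))) q98856 (by decide +kernel)
def q98859 : Q := Q.p (nat_lit 0xe00002000000000000000000000000000000000000000000000000000000000000000) (nat_lit 0x80000600000180005000004000010000000000000000000000000000000000000000000000000000) (nat_lit 5)
theorem c98859 : QOK q98859 := cut [q98858] ⟨c98858, trivial⟩ (nd (nat_lit 272) (nat_lit 0) (cs (lf (nat_lit 17) (nat_lit 250)) (rf (nat_lit 0)))) q98859 (by decide +kernel)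
def q98860 : Q := Q.p (nat_lit 0x100000c00003000004000000000000000000000000000000000000000000000000000000000) (nat_lit 0xa00002c0003000000000002000008000000000000000000000000000000000000000000000000000) (nat_lit 5)
theorem c98860 : QOK q98860 := cut [q89454] ⟨c89454, trivial⟩ (nd (nat_lit 297) (nat_lit 0) (cs (lf (nat_lit 42) (nat_lit 230)) (rf (nat_lit 0)))) q98860 (by decide +kernel)
def q98897 : Q := Q.p (nat_lit 0x100000000000c00007800000000000000000000000000000000000000000000000000000000000000) (nat_lit 0x140000600001c00007000008000060000000000000000000000000000000000000000000000000000000000) (nat_lit 7)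
theorem c98897 : QOK q98897 := cut [q82419] ⟨c82419, trivial⟩ (nd (nat_lit 277) (nat_lit 0) (cs (lf (nat_lit 19) (nat_lit 251)) (nd (nat_lit 255) (nat_lit 0) (cs (lf (nat_lit 5) (nat_lit 252)) (nd (nat_lit 233) (nat_lit 0) (cs (lf (nat_lit 17) (nat_lit 230)) (rf (nat_lit 0)))))))) q98897 (by decide +kernel)
def q98960 : Q := Q.p (nat_lit 0x1e00002000000000000000000000000000000000000000000000000000000000000000) (nat_lit 0x39c000e00000c000000000000000000000000000000000000000000000000000000000000000) (nat_lit 6)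
theorem c98960 : QOK q98960 := cut [q98959] ⟨c98959, trivial⟩ (nd (nat_lit 254) (nat_lit 0) (cs (lf (nat_lit 17) (nat_lit 251)) (rf (nat_lit 0)))) q98960 (by decide +kernel)
def q98961 : Q := Q.p (nat_lit 0x1e00000000000000000000000000000000000000000000000000000000000000000000) (nat_lit 0x400001c000200000cc00002000008000000000000000000000000000000000000000000000000000) (nat_lit 6)
theorem c98961 : QOK q98961 := cut [q98136] ⟨c98136, trivial⟩ (nd (nat_lit 251) (nat_lit 0) (cs (lf (nat_lit 23) (nat_lit 250)) (rf (nat_lit 0)))) q98961 (by decide +kernel)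
def q98984 : Q := Q.p (nat_lit 0xe00002000000000000000000000000000000000000000000000000000000000000000) (nat_lit 0x39c000f10000cc00000000000000000000000000000000000000000000000000000000000000) (nat_lit 8)
theorem c98984 : QOK q98984 := cut [q98959] ⟨c98959, trivial⟩ (nd (nat_lit 254) (nat_lit 0) (cs (lf (nat_lit 12) (nat_lit 250)) (nd (nat_lit 276) (nat_lit 0) (cs (lf (nat_lit 17) (nat_lit 251)) (nd (nat_lit 250) (nat_lit 0) (cs (lf (nat_lit 22) (nat_lit 250)) (rf (nat_lit 0)))))))) q98984 (by decide +kernel)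
def q98987 : Q := Q.p (nat_lit 0xe00000000000000000000000000000000000000000000000000000000000000000000) (nat_lit 0xf70001180000f00000000000000000000000000000000000000000000000000000000000000) (nat_lit 5)
theorem c98987 : QOK q98987 := cut [q1197, q12673, q98854] ⟨c1197, c12673, c98854, trivial⟩ (nd (nat_lit 272) (nat_lit 0) (cs (rf (nat_lit 0)) (cs (rf (nat_lit 1)) (rf (nat_lit 2))))) q98987 (by decide +kernel)
def q99001 : Q := Q.p (nat_lit 0x20000080001e00002000000000000000000000000000000000000000000000000000000000000000) (nat_lit 0x54000150000d00000000000c0000700001c000050000000000000000000000000000000000000000000000) (nat_lit 10)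
theorem c99001 : QOK q99001 := cut [q98997] ⟨c98997, trivial⟩ (nd (nat_lit 251) (nat_lit 0) (cs (lf (nat_lit 23) (nat_lit 250)) (nd (nat_lit 298) (nat_lit 0) (cs (lf (nat_lit 5) (nat_lit 273)) (nd (nat_lit 320) (nat_lit 0) (cs (lf (nat_lit 42) (nat_lit 253)) (nd (nat_lit 316) (nat_lit 0) (cs (lf (nat_lit 41) (nat_lit 250)) (rf (nat_lit 0)))))))))) q99001 (by decide +kernel)
def q99019 : Q := Q.p (nat_lit 0xf00002000000000000000000000000000000000000000000000000000000000000000) (nat_lit 0xe0007080001800000000000000000000000000000000000000000000000000000000000000) (nat_lit 5)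
theorem c99019 : QOK q99019 := cut [q14865] ⟨c14865, trivial⟩ (nd (nat_lit 252) (nat_lit 0) (cs (lf (nat_lit 12) (nat_lit 249)) (rf (nat_lit 0)))) q99019 (by decide +kernel)
def q99030 : Q := Q.p (nat_lit 0xe00003000000000000000000000000000000000000000000000000000000000000000) (nat_lit 0x80000660000180000000004000010000000000000000000000000000000000000000000000000000) (nat_lit 5)
theorem c99030 : QOK q99030 := cut [q88427] ⟨c88427, trivial⟩ (nd (nat_lit 272) (nat_lit 0) (cs (lf (nat_lit 12) (nat_lit 249)) (rf (nat_lit 0)))) q99030 (by decide +kernel)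
def q99045 : Q := Q.p (nat_lit 0x100000c00003000000000000000000000000000000000000000000000000000000000000000) (nat_lit 0x20000000000c800007800018000040000000000000000000000000000000000000000000000) (nat_lit 5)
theorem c99045 : QOK q99045 := cut [q79068, q83724] ⟨c79068, c83724, trivial⟩ (nd (nat_lit 230) (nat_lit 0) (cs (rf (nat_lit 0)) (rf (nat_lit 1)))) q99045 (by decide +kernel)
def q99093 : Q := Q.p (nat_lit 0x1c00007000000000000000000000000000000000000000000000000000000000000000) (nat_lit 0x80000200001c00006000000000010000040000000000000000000000000000000000000000000000000000) (nat_lit 5)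
theorem c99093 : QOK q99093 := cut [q81363] ⟨c81363, trivial⟩ (nd (nat_lit 277) (nat_lit 0) (cs (lf (nat_lit 18) (nat_lit 252)) (rf (nat_lit 0)))) q99093 (by decide +kernel)
def q99105 : Q := Q.p (nat_lit 0xe00003000000000000000000000000000000000000000000000000000000000000000) (nat_lit 0x80000600000180000600004000010000000000000000000000000000000000000000000000000000) (nat_lit 5)
theorem c99105 : QOK q99105 := cut [q91781] ⟨c91781, trivial⟩ (nd (nat_lit 272) (nat_lit 0) (cs (lf (nat_lit 12) (nat_lit 249)) (rf (nat_lit 0)))) q99105 (by decide +kernel)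
def q99110 : Q := Q.p (nat_lit 0xd00003000000000000000000000000000000000000000000000000000000000000000) (nat_lit 0x80000600000280000600004000010000000000000000000000000000000000000000000000000000) (nat_lit 5)
theorem c99110 : QOK q99110 := cut [q91781] ⟨c91781, trivial⟩ (nd (nat_lit 273) (nat_lit 0) (cs (lf (nat_lit 12) (nat_lit 249)) (rf (nat_lit 0)))) q99110 (by decide +kernel)
def q99124 : Q := Q.p (nat_lit 0xd00003000000000000000000000000000000000000000000000000000000000000000) (nat_lit 0x20000090000760001200000e0000780001e000078000000000000000000000000000000000000000000000) (nat_lit 12)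
theorem c99124 : QOK q99124 := cut [q88425, q99119, q99123] ⟨c88425, c99119, c99123, trivial⟩ (nd (nat_lit 297) (nat_lit 0) (cs (rf (nat_lit 0)) (cs (rf (nat_lit 1)) (rf (nat_lit 2))))) q99124 (by decide +kernel)
def q99134 : Q := Q.p (nat_lit 0x900003400005000000000000000000000000000000000000000000000000000000000) (nat_lit 0x8800026000008000020000080000e0000380000a0000000000000000000000000000000000000000) (nat_lit 7)
theorem c99134 : QOK q99134 := cut [q40706, q41226, q99127, q48541] ⟨c40706, c41226, c99127, c48541, trivial⟩ (nd (nat_lit 206) (nat_lit 0) (cs (rf (nat_lit 0)) (cs (rf (nat_lit 1)) (cs (rf (nat_lit 2)) (nd (nat_lit 297) (nat_lit 0) (cs (lf (nat_lit 42) (nat_lit 230)) (nd (nat_lit 185) (nat_lit 0) (cs (lf (nat_lit 34) (nat_lit 184)) (rf (nat_lit 3)))))))))) q99134 (by decide +kernel)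
def q99145 : Q := Q.p (nat_lit 0xd00003000000000000000000000000000000000000000000000000000000000000000) (nat_lit 0x80000660000280000000004000010000000000000000000000000000000000000000000000000000) (nat_lit 5)
theorem c99145 : QOK q99145 := cut [q88427] ⟨c88427, trivial⟩ (nd (nat_lit 273) (nat_lit 0) (cs (lf (nat_lit 12) (nat_lit 249)) (rf (nat_lit 0)))) q99145 (by decide +kernel)
def q99172 : Q := Q.p (nat_lit 0xc00003000004000000000000000000000000000000000000000000000000000000000) (nat_lit 0x380007e0001f800033c0000e00003c0000c000000000000000000000000000000000000000000000000000) (nat_lit 12)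
theorem c99172 : QOK q99172 := cut [q83734, q98862, q1999, q2091, q99161, q99169] ⟨c83734, c98862, c1999, c2091, c99161, c99169, trivial⟩ (nd (nat_lit 296) (nat_lit 0) (cs (rf (nat_lit 0)) (cs (rf (nat_lit 1)) (nd (nat_lit 251) (nat_lit 0) (cs (rf (nat_lit 2)) (cs (rf (nat_lit 3)) (cs (rf (nat_lit 4)) (nd (nat_lit 297) (nat_lit 0) (cs (lf (nat_lit 42) (nat_lit 230)) (rf (nat_lit 5))))))))))) q99172 (by decide +kernel)
def q99178 : Q := Q.p (nat_lit 0x1e00002000000000000000000000000000000000000000000000000000000000000000) (nat_lit 0x20000200000dc00033000040000100000000000000000000000000000000000000000000000) (nat_lit 7)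
theorem c99178 : QOK q99178 := cut [q99177] ⟨c99177, trivial⟩ (nd (nat_lit 254) (nat_lit 0) (cs (lf (nat_lit 17) (nat_lit 251)) (rf (nat_lit 0)))) q99178 (by decide +kernel)
def q99203 : Q := Q.p (nat_lit 0xe00003800002000000000000000000000000000000000000000000000000000000000) (nat_lit 0xf00003e000000000c600034000050000100000000000000000000000000000000000000000000000) (nat_lit 10)
theorem c99203 : QOK q99203 := cut [q98653] ⟨c98653, trivial⟩ (nd (nat_lit 254) (nat_lit 0) (cs (lf (nat_lit 6) (nat_lit 251)) (nd (nat_lit 232) (nat_lit 0) (cs (lf (nat_lit 17) (nat_lit 229)) (nd (nat_lit 188) (nat_lit 0) (cs (lf (nat_lit 37) (nat_lit 187)) (nd (nat_lit 297) (nat_lit 0) (cs (lf (nat_lit 30) (nat_lit 231)) (nd (nat_lit 230) (nat_lit 0) (cs (lf (nat_lit 24) (nat_lit 208)) (nd (nat_lit 249) (nat_lit 0) (cs (lf (nat_lit 1) (nat_lit 249)) (rf (nat_lit 0)))))))))))))) q99203 (by decide +kernel)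
def q99243 : Q := Q.p (nat_lit 0x80000200000800002000000000000000000000000000000000000000000000000000000000000000) (nat_lit 0x3de000770001de0000000005000014000000000000000000000000000000000000000000000000000000000) (nat_lit 10)
theorem c99243 : QOK q99243 := cut [q2605, q99239, q2591] ⟨c2605, c99239, c2591, trivial⟩ (nd (nat_lit 318) (nat_lit 0) (cs (lf (nat_lit 41) (nat_lit 252)) (nd (nat_lit 317) (nat_lit 0) (cs (rf (nat_lit 0)) (cs (rf (nat_lit 1)) (nd (nat_lit 230) (nat_lit 0) (cs (lf (nat_lit 46) (nat_lit 230)) (nd (nat_lit 232) (nat_lit 0) (cs (rf (nat_lit 2)) (lf (nat_lit 34) (nat_lit 231))))))))))) q99243 (by decide +kernel)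
def q99244 : Q := Q.p (nat_lit 0x80000200000800002000000000000000000000000000000000000000000000000000000000000000) (nat_lit 0x14000070000140000000000000001000004000000000000000000000000000000000000000000000000000000000) (nat_lit 5)
theorem c99244 : QOK q99244 := cut [q2579] ⟨c2579, trivial⟩ (nd (nat_lit 230) (nat_lit 0) (cs (rf (nat_lit 0)) (lf (nat_lit 46) (nat_lit 230)))) q99244 (by decide +kernel)
def q99253 : Q := Q.p (nat_lit 0x200000800002000008000000000000000000000000000000000000000000000000000000000) (nat_lit 0x400005000010000040000100000700001c0000100000000000000000000000000000000000000000) (nat_lit 7)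
theorem c99253 : QOK q99253 := cut [q99252] ⟨c99252, trivial⟩ (nd (nat_lit 296) (nat_lit 0) (cs (lf (nat_lit 41) (nat_lit 230)) (rf (nat_lit 0)))) q99253 (by decide +kernel)
def q99260 : Q := Q.p (nat_lit 0x200000800002000008000000000000000000000000000000000000000000000000000000000) (nat_lit 0x200000c00005c00070000040000140000300000c0000000000000000000000000000000000000000000000) (nat_lit 9)
theorem c99260 : QOK q99260 := cut [q99257] ⟨c99257, trivial⟩ (nd (nat_lit 296) (nat_lit 0) (cs (lf (nat_lit 41) (nat_lit 230)) (nd (nat_lit 208) (nat_lit 0) (cs (lf (nat_lit 46) (nat_lit 208)) (nd (nat_lit 209) (nat_lit 0) (cs (lf (nat_lit 47) (nat_lit 186)) (rf (nat_lit 0)))))))) q99260 (by decide +kernel)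
def q99269 : Q := Q.p (nat_lit 0x200000800002000008000000000000000000000000000000000000000000000000000000000) (nat_lit 0x200000c00005c0007000005800014000060000180000000000000000000000000000000000000000000000) (nat_lit 10)
theorem c99269 : QOK q99269 := cut [q99266] ⟨c99266, trivial⟩ (nd (nat_lit 296) (nat_lit 0) (cs (lf (nat_lit 41) (nat_lit 230)) (nd (nat_lit 210) (nat_lit 0) (cs (lf (nat_lit 34) (nat_lit 209)) (nd (nat_lit 209) (nat_lit 0) (cs (lf (nat_lit 35) (nat_lit 187)) (rf (nat_lit 0)))))))) q99269 (by decide +kernel)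
def q99271 : Q := Q.p (nat_lit 0x200000800002000008000000000000000000000000000000000000000000000000000000000) (nat_lit 0x100000c0000100000000001000014000070000100000000000000000000000000000000000000000000000) (nat_lit 6)
theorem c99271 : QOK q99271 := cut [q97286] ⟨c97286, trivial⟩ (nd (nat_lit 210) (nat_lit 0) (cs (lf (nat_lit 34) (nat_lit 209)) (nd (nat_lit 188) (nat_lit 0) (cs (lf (nat_lit 33) (nat_lit 187)) (rf (nat_lit 0)))))) q99271 (by decide +kernel)
def q99273 : Q := Q.p (nat_lit 0x200000800002000000000000000000000000000000000000000000000000000000000000000) (nat_lit 0x140000700001c000050000000000100000c000010000000000000000000000000000000000000000000000000000) (nat_lit 5)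
theorem c99273 : QOK q99273 := cut [q2579, q99232, q99235] ⟨c2579, c99232, c99235, trivial⟩ (nd (nat_lit 319) (nat_lit 0) (cs (rf (nat_lit 0)) (cs (rf (nat_lit 1)) (rf (nat_lit 2))))) q99273 (by decide +kernel)
def q99274 : Q := Q.p (nat_lit 0x200000800002000000000000000000000000000000000000000000000000000000000000000) (nat_lit 0x140000700001c0000500000000004000018000040000000000000000000000000000000000000000000000000000) (nat_lit 5)
theorem c99274 : QOK q99274 := cut [q2579, q88944, q94171] ⟨c2579, c88944, c94171, trivial⟩ (nd (nat_lit 319) (nat_lit 0) (cs (rf (nat_lit 0)) (cs (rf (nat_lit 1)) (rf (nat_lit 2))))) q99274 (by decide +kernel)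
def q99283 : Q := Q.p (nat_lit 0x200000800002000000000000000000000000000000000000000000000000000000000000000) (nat_lit 0x140000700001c000040000040000100000c000010000000000000000000000000000000000000000000000000000) (nat_lit 5)
theorem c99283 : QOK q99283 := cut [q2579, q99232, q99280] ⟨c2579, c99232, c99280, trivial⟩ (nd (nat_lit 319) (nat_lit 0) (cs (rf (nat_lit 0)) (cs (rf (nat_lit 1)) (rf (nat_lit 2))))) q99283 (by decide +kernel)
def q99286 : Q := Q.p (nat_lit 0x200000800002000008000000000000000000000000000000000000000000000000000000000) (nat_lit 0x1000005000004000010000040000700001c0000400000000000000000000000000000000000000000) (nat_lit 7)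
theorem c99286 : QOK q99286 := cut [q99285] ⟨c99285, trivial⟩ (nd (nat_lit 298) (nat_lit 0) (cs (lf (nat_lit 29) (nat_lit 231)) (rf (nat_lit 0)))) q99286 (by decide +kernel)
def q99317 : Q := Q.p (nat_lit 0x800002000008000020000000000000000000000000000000000000000000000000000) (nat_lit 0x4000014000010000040000100001c0000700001000000000000000000000000000000000000) (nat_lit 7)
theorem c99317 : QOK q99317 := cut [q99316] ⟨c99316, trivial⟩ (nd (nat_lit 276) (nat_lit 0) (cs (lf (nat_lit 29) (nat_lit 209)) (rf (nat_lit 0)))) q99317 (by decide +kernel)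
def q99374 : Q := Q.p (nat_lit 0x800003800000000000000000000000000000000000000000000000000000000000000) (nat_lit 0x20000100000060001c000010000040000000000000000000000000000000000000000000000) (nat_lit 5)
theorem c99374 : QOK q99374 := cut [q90249] ⟨c90249, trivial⟩ (nd (nat_lit 250) (nat_lit 0) (cs (lf (nat_lit 5) (nat_lit 250)) (rf (nat_lit 0)))) q99374 (by decide +kernel)
def q99376 : Q := Q.p (nat_lit 0x1a00006000000000000000000000000000000000000000000000000000000000000000) (nat_lit 0x40000100000cc0000400008000008000000000000000000000000000000000000000000000000000000000) (nat_lit 5)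
theorem c99376 : QOK q99376 := cut [q80251] ⟨c80251, trivial⟩ (nd (nat_lit 274) (nat_lit 0) (cs (lf (nat_lit 17) (nat_lit 251)) (rf (nat_lit 0)))) q99376 (by decide +kernel)

end Crest.Agent.H3.Snaky.CR
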