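import Crest.Agent.H3.Snaky.Cert
import Crest.Agent.H3.Snaky.CR.CR0
import Crest.Agent.H3.Snaky.CR.CR1
import Crest.Agent.H3.Snaky.CR.CR2
import Crest.Agent.H3.Snaky.CR.CR3
import Crest.Agent.H3.Snaky.CR.CR4
import Crest.Agent.H3.Snaky.CR.CR5
import Crest.Agent.H3.Snaky.CR.CR6
import Crest.Agent.H3.Snaky.CR.CR12
import Crest.Agent.H3.Snaky.CR.CR13
import Crest.Agent.H3.Snaky.CR.CR15
import Crest.Agent.H3.Snaky.CR.CR16
import Crest.Agent.H3.Snaky.CR.CR17
import Crest.Agent.H3.Snaky.CR.CR18
import Crest.Agent.H3.Snaky.CR.CR19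
import Crest.Agent.H3.Snaky.CR.CR20
import Crest.Agent.H3.Snaky.CR.CR21
import Crest.Agent.H3.Snaky.CR.CR22
import Crest.Agent.H3.Snaky.CR.CR23
import Crest.Agent.H3.Snaky.CR.CR24
import Crest.Agent.H3.Snaky.CR.CR25
import Crest.Agent.H3.Snaky.CR.CR27
import Crest.Agent.H3.Snaky.CR.CR33
import Crest.Agent.H3.Snaky.CR.CR34
import Crest.Agent.H3.Snaky.CR.CR35
import Crest.Agent.H3.Snaky.CR.CR36
import Crest.Agent.H3.Snaky.CR.CR37
import Crest.Agent.H3.Snaky.CR.CR38
import Crest.Agent.H3.Snaky.CR.CR39
import Crest.Agent.H3.Snaky.CR.CR40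
import Crest.Agent.H3.Snaky.CR.CR41
import Crest.Agent.H3.Snaky.CR.CR42
import Crest.Agent.H3.Snaky.CR.CR43
import Crest.Agent.H3.Snaky.CR.CR44
import Crest.Agent.H3.Snaky.CR.CR45
import Crest.Agent.H3.Snaky.CR.CR48
import Crest.Agent.H3.Snaky.CR.CR49
import Crest.Agent.H3.Snaky.CR.CR50
import Crest.Agent.H3.Snaky.CR.CR51
import Crest.Agent.H3.Snaky.CR.CR52
import Crest.Agent.H3.Snaky.CR.CR53

set_option autoImplicit false
set_option maxRecDepth 100000

namespace Crest.Agent.H3.Snaky.CR

open T

def q99408 : Q := Q.p (nat_lit 0x80000200000800003000000000000000000000000000000000000000000000000000000000000000) (nat_lit 0x38000070000d00000400000000008000000000000000000000000000000000000000000000000000000000) (nat_lit 6)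
theorem c99408 : QOK q99408 := cut [q86441] ⟨c86441, trivial⟩ (nd (nat_lit 318) (nat_lit 0) (cs (lf (nat_lit 41) (nat_lit 252)) (nd (nat_lit 274) (nat_lit 0) (cs (lf (nat_lit 42) (nat_lit 252)) (rf (nat_lit 0)))))) q99408 (by decide +kernel)
def q99435 : Q := Q.p (nat_lit 0x600001800003000000000000000000000000000000000000000000000000000000000000000) (nat_lit 0xc0000f700039c000e00000c000030000000000000000000000000000000000000000000000000000000000) (nat_lit 9)
theorem c99435 : QOK q99435 := cut [q99353, q99358, q99362, q99364] ⟨c99353, c99358, c99362, c99364, trivial⟩ (nd (nat_lit 299) (nat_lit 0) (cs (rf (nat_lit 0)) (cs (rf (nat_lit 1)) (cs (rf (nat_lit 2)) (rf (nat_lit 3)))))) q99435 (by decide +kernel)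
def q99474 : Q := Q.p (nat_lit 0x200000800003000000000000000000000000000000000000000000000000000000000000000) (nat_lit 0x300003c0000740000c00007f0000f0000140000000000000000000000000000000000000000000000) (nat_lit 10)
theorem c99474 : QOK q99474 := cut [q32034, q88936, q89353, q92800, q80265] ⟨c32034, c88936, c89353, c92800, c80265, trivial⟩ (nd (nat_lit 231) (nat_lit 0) (cs (rf (nat_lit 0)) (cs (rf (nat_lit 1)) (cs (rf (nat_lit 2)) (nd (nat_lit 254) (nat_lit 0) (cs (nd (nat_lit 230) (nat_lit 0) (cs (lf (nat_lit 47) (nat_lit 208)) (rf (nat_lit 3)))) (nd (nat_lit 298) (nat_lit 0) (cs (lf (nat_lit 29) (nat_lit 231)) (nd (nat_lit 232) (nat_lit 0) (cs (lf (nat_lit 35) (nat_lit 209)) (nd (nat_lit 233) (nat_lit 0) (cs (lf (nat_lit 6) (nat_lit 230)) (nd (nat_lit 276) (nat_lit 0) (cs (lf (nat_lit 35) (nat_lit 210)) (nd (nat_lit 277) (nat_lit 0) (cs (lf (nat_lit 18) (nat_lit 252)) (rf (nat_lit 4)))))))))))))))))) q99474 (by decide +kernel)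
def q99489 : Q := Q.p (nat_lit 0x200000800003800000000000000000000000000000000000000000000000000000000000000) (nat_lit 0x140000700001c00004000034000000000180000700001c0000100000000000000000000000000000000000000000) (nat_lit 9)
theorem c99489 : QOK q99489 := cut [q2579, q21908, q99486, q99488] ⟨c2579, c21908, c99486, c99488, trivial⟩ (nd (nat_lit 319) (nat_lit 0) (cs (rf (nat_lit 0)) (cs (rf (nat_lit 1)) (cs (rf (nat_lit 2)) (rf (nat_lit 3)))))) q99489 (by decide +kernel)
def q99498 : Q := Q.p (nat_lit 0x20000080000300000f000000000000000000000000000000000000000000000000000000000) (nat_lit 0x100000400000400000000000000066000080000200000000000000000000000000000000000000000) (nat_lit 5)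
theorem c99498 : QOK q99498 := cut [q82180] ⟨c82180, trivial⟩ (nd (nat_lit 298) (nat_lit 0) (cs (lf (nat_lit 29) (nat_lit 231)) (rf (nat_lit 0)))) q99498 (by decide +kernel)
def q99593 : Q := Q.p (nat_lit 0x80000200000e000000000000000000000000000000000000000000000000000000000) (nat_lit 0xd0000300000dc000140000100000000000000000000000000000000000000000) (nat_lit 5)
theorem c99593 : QOK q99593 := cut [q98320, q98332] ⟨c98320, c98332, trivial⟩ (nd (nat_lit 232) (nat_lit 0) (cs (rf (nat_lit 0)) (rf (nat_lit 1)))) q99593 (by decide +kernel)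
def q99596 : Q := Q.p (nat_lit 0x800002000008000000000000000000000000000000000000000000000000000000000) (nat_lit 0x400003000004000010000040000700001c0000500000000000000000000000000000000000000000) (nat_lit 6)
theorem c99596 : QOK q99596 := cut [q81901, q96312, q96325, q97237] ⟨c81901, c96312, c96325, c97237, trivial⟩ (nd (nat_lit 209) (nat_lit 0) (cs (rf (nat_lit 0)) (cs (rf (nat_lit 1)) (cs (rf (nat_lit 2)) (rf (nat_lit 3)))))) q99596 (by decide +kernel)
def q99630 : Q := Q.p (nat_lit 0xe00002800000000000000000000000000000000000000000000000000000000000000) (nat_lit 0x200001c000300000d000037000058000120000000000000000000000000000000000000000000000) (nat_lit 7)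
theorem c99630 : QOK q99630 := cut [q98138, q98546] ⟨c98138, c98546, trivial⟩ (nd (nat_lit 252) (nat_lit 0) (cs (rf (nat_lit 0)) (rf (nat_lit 1)))) q99630 (by decide +kernel)
def q99665 : Q := Q.p (nat_lit 0x800002000008000000000000000000000000000000000000000000000000000000000) (nat_lit 0x8000030000170000dc0007400007c0000c0000700001c00005000000000000000000000000000000) (nat_lit 12)
theorem c99665 : QOK q99665 := cut [q96325, q97975, q80961] ⟨c96325, c97975, c80961, trivial⟩ (nd (nat_lit 209) (nat_lit 0) (cs (rf (nat_lit 0)) (cs (rf (nat_lit 1)) (cs (nd (nat_lit 274) (nat_lit 0) (cs (lf (nat_lit 41) (nat_lit 208)) (nd (nat_lit 187) (nat_lit 0) (cs (lf (nat_lit 40) (nat_lit 186)) (nd (nat_lit 254) (nat_lit 0) (cs (lf (nat_lit 29) (nat_lit 187)) (nd (nat_lit 272) (nat_lit 0) (cs (lf (nat_lit 13) (nat_lit 250)) (rf (nat_lit 2)))))))))) (nd (nat_lit 274) (nat_lit 0) (cs (lf (nat_lit 41) (nat_lit 208)) (nd (nat_lit 208) (nat_lit 0) (cs (lf (nat_lit 47) (nat_lit 186)) (nd (nat_lit 297) (nat_lit 0) (cs (lf (nat_lit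 46) (nat_lit 208)) (nd (nat_lit 232) (nat_lit 0) (cs (lf (nat_lit 35) (nat_lit 209)) (nd (nat_lit 233) (nat_lit 0) (cs (lf (nat_lit 18) (nat_lit 208)) (nd (nat_lit 206) (nat_lit 0) (cs (lf (nat_lit 1) (nat_lit 206)) (nd (nat_lit 254) (nat_lit 0) (cs (lf (nat_lit 30) (nat_lit 231)) (nd (nat_lit 251) (nat_lit 0) (cs (lf (nat_lit 13) (nat_lit 229)) (nd (nat_lit 273) (nat_lit 0) (cs (lf (nat_lit 12) (nat_lit 250)) (nd (nat_lit 276) (nat_lit 0) (cs (lf (nat_lit 23) (nat_lit 250)) (lf (nat_lit 17) (nat_lit 251)))))))))))))))))))))))))) q99665 (by decide +kernel)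
def q99678 : Q := Q.p (nat_lit 0x700000800000000000000000000000000000000000000000000000000000000000000000000) (nat_lit 0xe0000188000f700000000000000000000000000000000000000000000000000000000000000000000) (nat_lit 6)
theorem c99678 : QOK q99678 := cut [q11633, q99333, q11632] ⟨c11633, c99333, c11632, trivial⟩ (nd (nat_lit 299) (nat_lit 0) (cs (rf (nat_lit 0)) (cs (rf (nat_lit 1)) (nd (nat_lit 321) (nat_lit 0) (cs (lf (nat_lit 5) (nat_lit 296)) (rf (nat_lit 2))))))) q99678 (by decide +kernel)
def q99681 : Q := Q.p (nat_lit 0x200000800002000000000000000000000000000000000000000000000000000000000000000) (nat_lit 0x140000700001c0000100001000004000018000040000000000000000000000000000000000000000000000000000) (nat_lit 5)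
theorem c99681 : QOK q99681 := cut [q2579, q88944, q98129] ⟨c2579, c88944, c98129, trivial⟩ (nd (nat_lit 319) (nat_lit 0) (cs (rf (nat_lit 0)) (cs (rf (nat_lit 1)) (rf (nat_lit 2))))) q99681 (by decide +kernel)
def q99682 : Q := Q.p (nat_lit 0x200000800002000000000000000000000000000000000000000000000000000000000000000) (nat_lit 0x140000700001c0000400001000004000018000040000000000000000000000000000000000000000000000000000) (nat_lit 5)
theorem c99682 : QOK q99682 := cut [q2579, q94166, q94171] ⟨c2579, c94166, c94171, trivial⟩ (nd (nat_lit 319) (nat_lit 0) (cs (rf (nat_lit 0)) (cs (rf (nat_lit 1)) (rf (nat_lit 2))))) q99682 (by decide +kernel)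
def q99693 : Q := Q.p (nat_lit 0x200000800002000000000000000000000000000000000000000000000000000000000000000) (nat_lit 0x100000c0000700001800005000014000050000180000700001c0000100000000000000000000000000000000000000000) (nat_lit 8)
theorem c99693 : QOK q99693 := cut [q2528, q99690, q99692] ⟨c2528, c99690, c99692, trivial⟩ (nd (nat_lit 320) (nat_lit 0) (cs (nd (nat_lit 319) (nat_lit 0) (cs (lf (nat_lit 29) (nat_lit 253)) (nd (nat_lit 254) (nat_lit 0) (cs (lf (nat_lit 35) (nat_lit 231)) (nd (nat_lit 341) (nat_lit 0) (cs (rf (nat_lit 0)) (lf (nat_lit 34) (nat_lit 253)))))))) (cs (rf (nat_lit 1)) (rf (nat_lit 2))))) q99693 (by decide +kernel)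
def q99694 : Q := Q.p (nat_lit 0x300000800002000000000000000000000000000000000000000000000000000000000000000) (nat_lit 0x400004000010000040000180000700001c0000100000000000000000000000000000000000000000) (nat_lit 7)
theorem c99694 : QOK q99694 := cut [q99252] ⟨c99252, trivial⟩ (nd (nat_lit 231) (nat_lit 0) (cs (lf (nat_lit 41) (nat_lit 230)) (rf (nat_lit 0)))) q99694 (by decide +kernel)
def q99749 : Q := Q.p (nat_lit 0x80000200000800002000000000000000000000000000000000000000000000000000000000000000) (nat_lit 0x400007400005c00004000000000080000700001c0000500000000000000000000000000000000000000000) (nat_lit 10)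
theorem c99749 : QOK q99749 := cut [q95562] ⟨c95562, trivial⟩ (nd (nat_lit 320) (nat_lit 0) (cs (lf (nat_lit 29) (nat_lit 253)) (nd (nat_lit 231) (nat_lit 0) (cs (lf (nat_lit 28) (nat_lit 231)) (nd (nat_lit 296) (nat_lit 0) (cs (lf (nat_lit 41) (nat_lit 230)) (nd (nat_lit 321) (nat_lit 0) (cs (lf (nat_lit 18) (nat_lit 296)) (nd (nat_lit 294) (nat_lit 0) (cs (lf (nat_lit 1) (nat_lit 294)) (rf (nat_lit 0)))))))))))) q99749 (by decide +kernel)
def q99765 : Q := Q.p (nat_lit 0x80000200000800002000000000000000000000000000000000000000000000000000000000000000) (nat_lit 0x10000170001d000010000000000080000700001c0000500000000000000000000000000000000000000000) (nat_lit 10)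
theorem c99765 : QOK q99765 := cut [q81902] ⟨c81902, trivial⟩ (nd (nat_lit 318) (nat_lit 0) (cs (lf (nat_lit 41) (nat_lit 252)) (nd (nat_lit 231) (nat_lit 0) (cs (lf (nat_lit 40) (nat_lit 230)) (nd (nat_lit 298) (nat_lit 0) (cs (lf (nat_lit 29) (nat_lit 231)) (nd (nat_lit 316) (nat_lit 0) (cs (lf (nat_lit 13) (nat_lit 294)) (nd (nat_lit 299) (nat_lit 0) (cs (lf (nat_lit 6) (nat_lit 296)) (rf (nat_lit 0)))))))))))) q99765 (by decide +kernel)
def q99785 : Q := Q.p (nat_lit 0x1800002000000000000000000000000000000000000000000000000000000000000000) (nat_lit 0x10000040001f8000670000dc00008000020000000000000000000000000000000000000000000000000000) (nat_lit 6)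
theorem c99785 : QOK q99785 := cut [q16715, q99782, q99772, q99783] ⟨c16715, c99782, c99772, c99783, trivial⟩ (nd (nat_lit 277) (nat_lit 0) (cs (rf (nat_lit 0)) (cs (rf (nat_lit 1)) (nd (nat_lit 274) (nat_lit 0) (cs (rf (nat_lit 2)) (rf (nat_lit 3))))))) q99785 (by decide +kernel)
def q99899 : Q := Q.p (nat_lit 0x200000800003800002000000000000000000000000000000000000000000000000000000000000000) (nat_lit 0x700001f0000d00003400000000008000020000080000000000000000000000000000000000000000000000000000) (nat_lit 8)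
theorem c99899 : QOK q99899 := cut [q13628, q99891, q99892, q28401] ⟨c13628, c99891, c99892, c28401, trivial⟩ (nd (nat_lit 343) (nat_lit 0) (cs (rf (nat_lit 0)) (cs (rf (nat_lit 1)) (cs (nd (nat_lit 342) (nat_lit 0) (cs (lf (nat_lit 41) (nat_lit 276)) (rf (nat_lit 2)))) (nd (nat_lit 342) (nat_lit 0) (cs (lf (nat_lit 41) (nat_lit 276)) (nd (nat_lit 344) (nat_lit 0) (cs (lf (nat_lit 29) (nat_lit 277)) (nd (nat_lit 298) (nat_lit 0) (cs (lf (nat_lit 42) (nat_lit 276)) (nd (nat_lit 300) (nat_lit 0) (cs (lf (nat_lit 18) (nat_lit 275)) (nd (nat_lit 322) (nat_lit 0) (cs (lf (nat_lit 24) (nat_lit 255)) (rf (nat_lit 3)))))))))))))))) q99899 (by decide +kernel)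
def q99905 : Q := Q.p (nat_lit 0x3800002000000000000000000000000000000000000000000000000000000000000000) (nat_lit 0x40001dc000070000d800008000020000000000000000000000000000000000000000000000000000) (nat_lit 6)
theorem c99905 : QOK q99905 := cut [q99772, q99844, q99903] ⟨c99772, c99844, c99903, trivial⟩ (nd (nat_lit 274) (nat_lit 0) (cs (rf (nat_lit 0)) (cs (rf (nat_lit 1)) (nd (nat_lit 252) (nat_lit 0) (cs (lf (nat_lit 23) (nat_lit 251)) (rf (nat_lit 2))))))) q99905 (by decide +kernel)
def q99945 : Q := Q.p (nat_lit 0x600001800002000000000000000000000000000000000000000000000000000000000000000) (nat_lit 0x2800018000006000040000380000e0000000000000000000000000000000000000000000000000000) (nat_lit 7)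
theorem c99945 : QOK q99945 := cut [q79764] ⟨c79764, trivial⟩ (nd (nat_lit 231) (nat_lit 0) (cs (lf (nat_lit 24) (nat_lit 209)) (nd (nat_lit 232) (nat_lit 0) (cs (lf (nat_lit 35) (nat_lit 209)) (nd (nat_lit 254) (nat_lit 0) (cs (lf (nat_lit 30) (nat_lit 231)) (rf (nat_lit 0)))))))) q99945 (by decide +kernel)
def q99946 : Q := Q.p (nat_lit 0x600001800006000000000000000000000000000000000000000000000000000000000000000) (nat_lit 0x300000f0001900000000000000000000000000000000000000000000000000000000000000000000000000) (nat_lit 5)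
theorem c99946 : QOK q99946 := cut [q23438] ⟨c23438, trivial⟩ (nd (nat_lit 319) (nat_lit 0) (cs (rf (nat_lit 0)) (lf (nat_lit 30) (nat_lit 253)))) q99946 (by decide +kernel)
def q99947 : Q := Q.p (nat_lit 0x600001800004000000000000000000000000000000000000000000000000000000000000000) (nat_lit 0x2000018000006000000000300000c0000000000000000000000000000000000000000000000000000) (nat_lit 5)
theorem c99947 : QOK q99947 := cut [q79764] ⟨c79764, trivial⟩ (nd (nat_lit 232) (nat_lit 0) (cs (rf (nat_lit 0)) (lf (nat_lit 36) (nat_lit 209)))) q99947 (by decide +kernel)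
def q99972 : Q := Q.p (nat_lit 0x600001800006000000000000000000000000000000000000000000000000000000000000000) (nat_lit 0xc0000f00000980000000008000020000000000000000000000000000000000000000000000000000000000) (nat_lit 6)
theorem c99972 : QOK q99972 := cut [q99970] ⟨c99970, trivial⟩ (nd (nat_lit 320) (nat_lit 0) (cs (lf (nat_lit 42) (nat_lit 253)) (nd (nat_lit 233) (nat_lit 0) (cs (lf (nat_lit 34) (nat_lit 232)) (rf (nat_lit 0)))))) q99972 (by decide +kernel)
def q99975 : Q := Q.p (nat_lit 0x400001800006000000000000000000000000000000000000000000000000000000000000000) (nat_lit 0xe0000380000a00000000000000010000000000000000000000000000000000000000000000000000000000) (nat_lit 5)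
theorem c99975 : QOK q99975 := cut [q99974] ⟨c99974, trivial⟩ (nd (nat_lit 320) (nat_lit 0) (cs (lf (nat_lit 42) (nat_lit 253)) (rf (nat_lit 0)))) q99975 (by decide +kernel)
def q99987 : Q := Q.p (nat_lit 0x600001800002000008000000000000000000000000000000000000000000000000000000000) (nat_lit 0xe700039c0000700000000000000000000000000000000000000000000000000000000000000000000) (nat_lit 8)
theorem c99987 : QOK q99987 := cut [q89402] ⟨c89402, trivial⟩ (nd (nat_lit 296) (nat_lit 0) (cs (lf (nat_lit 41) (nat_lit 230)) (rf (nat_lit 0)))) q99987 (by decide +kernel)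
def q100199 : Q := Q.p (nat_lit 0x400001800002000000000000000000000000000000000000000000000000000000000000000) (nat_lit 0x400001c0000f0001ef0003bc001e70000cf0001f80003f000010000000000000000000000000000000000000000000000) (nat_lit 14)
theorem c100199 : QOK q100199 := cut [q99949, q99331, q16998, q99724, q96836, q96835, q62958, q11637, q99361, q16976, q89238] ⟨c99949, c99331, c16998, c99724, c96836, c96835, c62958, c11637, c99361, c16976, c89238, trivial⟩ (nd (nat_lit 231) (nat_lit 0) (cs (lf (nat_lit 24) (nat_lit 209)) (nd (nat_lit 297) (nat_lit 0) (cs (rf (nat_lit 0)) (cs (nd (nat_lit 299) (nat_lit 0) (cs (rf (nat_lit 1)) (cs (nd (nat_lit 319) (nat_lit 0) (cs (nd (nat_lit 340) (nat_lit 0) (cs (lf (nat_lit 40) (nat_lit 252)) (nd (nat_lit 341) (nat_lit 0) (cs (lf (nat_lit 41) (nat_lit 274)) (nd (nat_lit 363) (nat_lit 0) (cs (lf (nat_lit 35) (nat_lit 275)) (rf (nat_lit 2)))))))) (cs (rf (nat_lit 3)) (nd (nat_lit 230) (nat_lit 0) (cs (lf (nat_lit 47) (nat_lit 208)) (nd (nat_lit 273) (nat_lit 0) (cs (lf (nat_lit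 1) (nat_lit 273)) (nd (nat_lit 229) (nat_lit 0) (cs (rf (nat_lit 4)) (cs (nd (nat_lit 316) (nat_lit 0) (cs (nd (nat_lit 318) (nat_lit 0) (cs (lf (nat_lit 41) (nat_lit 252)) (lf (nat_lit 13) (nat_lit 294)))) (nd (nat_lit 232) (nat_lit 0) (cs (lf (nat_lit 34) (nat_lit 231)) (nd (nat_lit 207) (nat_lit 0) (cs (lf (nat_lit 23) (nat_lit 206)) (nd (nat_lit 251) (nat_lit 0) (cs (lf (nat_lit 11) (nat_lit 228)) (nd (nat_lit 294) (nat_lit 0) (cs (lf (nat_lit 39) (nat_lit 228)) (lf (nat_lit 40) (nat_lit 206)))))))))))) (cs (nd (nat_lit 228) (nat_lit 0) (cs (rf (nat_lit 5)) (cs (nd (nat_lit 318) (nat_lit 0) (cs (lf (nat_lit 41) (nat_lit 252)) (nd (nat_lit 316) (nat_lit 0) (cs (lf (nat_lit 13) (nat_lit 294)) (nd (nat_lit 250) (nat_lit 0) (cs (lf (nat_lit 11) (nat_lit 227)) (nd (nat_lit 251) (nat_lit 0) (cs (lf (nat_lit 6) (nat_lit 228)) (rf (nat_lit 6)))))))))) (nd (nat_lit 318) (nat_lit 0) (cs (lf (nat_lit 41) (nat_lit 252)) (nd (nat_lit 316) (nat_lit 0) (cs (lf (nat_lit 13) (nat_lit 294)) (nd (nat_lit 206) (nat_lit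 0) (cs (lf (nat_lit 23) (nat_lit 205)) (nd (nat_lit 207) (nat_lit 0) (cs (lf (nat_lit 18) (nat_lit 206)) (nd (nat_lit 251) (nat_lit 0) (cs (lf (nat_lit 47) (nat_lit 184)) (lf (nat_lit 42) (nat_lit 206))))))))))))))) (nd (nat_lit 254) (nat_lit 0) (cs (lf (nat_lit 0) (nat_lit 228)) (lf (nat_lit 36) (nat_lit 231))))))))))))))) (nd (nat_lit 208) (nat_lit 0) (cs (lf (nat_lit 46) (nat_lit 208)) (nd (nat_lit 300) (nat_lit 0) (cs (lf (nat_lit 18) (nat_lit 275)) (nd (nat_lit 278) (nat_lit 0) (cs (lf (nat_lit 17) (nat_lit 275)) (nd (nat_lit 322) (nat_lit 0) (cs (lf (nat_lit 5) (nat_lit 297)) (nd (nat_lit 319) (nat_lit 0) (cs (lf (nat_lit 11) (nat_lit 296)) (rf (nat_lit 3))))))))))))))) (cs (nd (nat_lit 299) (nat_lit 0) (cs (rf (nat_lit 7)) (cs (rf (nat_lit 1)) (cs (rf (nat_lit 8)) (nd (nat_lit 296) (nat_lit 0) (cs (rf (nat_lit 9)) (cs (nd (nat_lit 295) (nat_lit 0) (cs (lf (nat_lit 12) (nat_lit 272)) (nd (nat_lit 273) (nat_lit 0) (cs (lf (nat_lit 23) (nat_lit 272)) (nd (nat_lit 316) (nat_lit 0) (cs (lf (nat_lit 10)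 (nat_lit 294)) (nd (nat_lit 274) (nat_lit 0) (cs (lf (nat_lit 18) (nat_lit 273)) (nd (nat_lit 254) (nat_lit 0) (cs (lf (nat_lit 17) (nat_lit 251)) (nd (nat_lit 251) (nat_lit 0) (cs (lf (nat_lit 23) (nat_lit 250)) (nd (nat_lit 229) (nat_lit 0) (cs (lf (nat_lit 24) (nat_lit 207)) (nd (nat_lit 228) (nat_lit 0) (cs (lf (nat_lit 47) (nat_lit 206)) (lf (nat_lit 2) (nat_lit 228)))))))))))))))))) (nd (nat_lit 208) (nat_lit 0) (cs (lf (nat_lit 46) (nat_lit 208)) (nd (nat_lit 277) (nat_lit 0) (cs (lf (nat_lit 17) (nat_lit 274)) (rf (nat_lit 10))))))))))))) (nd (nat_lit 208) (nat_lit 0) (cs (lf (nat_lit 46) (nat_lit 208)) (nd (nat_lit 318) (nat_lit 0) (cs (lf (nat_lit 40) (nat_lit 230)) (nd (nat_lit 319) (nat_lit 0) (cs (lf (nat_lit 41) (nat_lit 252)) (nd (nat_lit 254) (nat_lit 0) (cs (lf (nat_lit 30) (nat_lit 253)) (lf (nat_lit 36) (nat_lit 231)))))))))))))))) q100199 (by decide +kernel)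
def q100265 : Q := Q.p (nat_lit 0xc00003000004000010000000000000000000000000000000000000000000000000000) (nat_lit 0x8000030000c0000000000280000a0000000000000000000000000000000000000000000000) (nat_lit 5)
theorem c100265 : QOK q100265 := cut [q84410] ⟨c84410, trivial⟩ (nd (nat_lit 187) (nat_lit 0) (cs (lf (nat_lit 34) (nat_lit 186)) (rf (nat_lit 0)))) q100265 (by decide +kernel)
def q100279 : Q := Q.p (nat_lit 0x1a00003000000000000000000000000000000000000000000000000000000000000000) (nat_lit 0x80000200001c0000580004000004000010000000000000000000000000000000000000000000000000000) (nat_lit 5)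
theorem c100279 : QOK q100279 := cut [q87021, q98387] ⟨c87021, c98387, trivial⟩ (nd (nat_lit 274) (nat_lit 0) (cs (rf (nat_lit 0)) (rf (nat_lit 1)))) q100279 (by decide +kernel)
def q100290 : Q := Q.p (nat_lit 0x1a00003000000000000000000000000000000000000000000000000000000000000000) (nat_lit 0x80000200001c0000580000e00004000010000000000000000000000000000000000000000000000000000) (nat_lit 5)
theorem c100290 : QOK q100290 := cut [q2180, q98387] ⟨c2180, c98387, trivial⟩ (nd (nat_lit 274) (nat_lit 0) (cs (rf (nat_lit 0)) (rf (nat_lit 1)))) q100290 (by decide +kernel)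
def q100337 : Q := Q.p (nat_lit 0x1800003000008000000000000000000000000000000000000000000000000000000000) (nat_lit 0x4000000000000000040000300001c0000700001000000000000000000000000000000000000) (nat_lit 6)
theorem c100337 : QOK q100337 := cut [q84514] ⟨c84514, trivial⟩ (nd (nat_lit 209) (nat_lit 0) (cs (lf (nat_lit 29) (nat_lit 209)) (nd (nat_lit 186) (nat_lit 0) (cs (lf (nat_lit 46) (nat_lit 186)) (rf (nat_lit 0)))))) q100337 (by decide +kernel)
def q100358 : Q := Q.p (nat_lit 0x7800008000000000000000000000000000000000000000000000000000000000) (nat_lit 0x40000800003700000c000020000080000000000000000000000000000000000000000) (nat_lit 6)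
theorem c100358 : QOK q100358 := cut [q100356] ⟨c100356, trivial⟩ (nd (nat_lit 229) (nat_lit 0) (cs (lf (nat_lit 23) (nat_lit 228)) (nd (nat_lit 232) (nat_lit 0) (cs (lf (nat_lit 17) (nat_lit 229)) (rf (nat_lit 0)))))) q100358 (by decide +kernel)
def q100457 : Q := Q.p (nat_lit 0x200001800002000008000000000000000000000000000000000000000000000000000000000) (nat_lit 0x140000580006000000000004000010000000000000000000000000000000000000000000000000000) (nat_lit 5)
theorem c100457 : QOK q100457 := cut [q100456] ⟨c100456, trivial⟩ (nd (nat_lit 208) (nat_lit 0) (cs (lf (nat_lit 46) (nat_lit 208)) (rf (nat_lit 0)))) q100457 (by decide +kernel)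
def q100461 : Q := Q.p (nat_lit 0x1800002000008000000000000000000000000000000000000000000000000000000000) (nat_lit 0x2000000000040000060001f00001c0000500000000000000000000000000000000000000000) (nat_lit 6)
theorem c100461 : QOK q100461 := cut [q94774, q98316, q99649] ⟨c94774, c98316, c99649, trivial⟩ (nd (nat_lit 209) (nat_lit 0) (cs (rf (nat_lit 0)) (cs (rf (nat_lit 1)) (rf (nat_lit 2))))) q100461 (by decide +kernel)
def q100529 : Q := Q.p (nat_lit 0x1a00003000000000000000000000000000000000000000000000000000000000000000) (nat_lit 0x8000010000cc00007000010000040000000000000000000000000000000000000000000000) (nat_lit 6)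
theorem c100529 : QOK q100529 := cut [q92610] ⟨c92610, trivial⟩ (nd (nat_lit 251) (nat_lit 0) (cs (lf (nat_lit 0) (nat_lit 250)) (nd (nat_lit 254) (nat_lit 0) (cs (lf (nat_lit 11) (nat_lit 250)) (rf (nat_lit 0)))))) q100529 (by decide +kernel)
def q100538 : Q := Q.p (nat_lit 0x1a00003000000000000000000000000000000000000000000000000000000000000000) (nat_lit 0x50000cc00007000000000000000000000000000000000000000000000000000000000) (nat_lit 5)
theorem c100538 : QOK q100538 := cut [q98781] ⟨c98781, trivial⟩ (nd (nat_lit 251) (nat_lit 0) (cs (lf (nat_lit 0) (nat_lit 250)) (rf (nat_lit 0)))) q100538 (by decide +kernel)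
def q100642 : Q := Q.p (nat_lit 0x800003800004000000000000000000000000000000000000000000000000000000000) (nat_lit 0x18000060000140000000003b0001e0000180000200000000000000000000000000000000000000000) (nat_lit 6)
theorem c100642 : QOK q100642 := cut [q90300, q99318, q100641] ⟨c90300, c99318, c100641, trivial⟩ (nd (nat_lit 231) (nat_lit 0) (cs (rf (nat_lit 0)) (cs (rf (nat_lit 1)) (rf (nat_lit 2))))) q100642 (by decide +kernel)
def q100647 : Q := Q.p (nat_lit 0xe00003800004000010000000000000000000000000000000000000000000000000000) (nat_lit 0x40000100000d00003000000000003c0000f000030000000000000000000000000000000000000000000000) (nat_lit 9)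
theorem c100647 : QOK q100647 := cut [q84143] ⟨c84143, trivial⟩ (nd (nat_lit 276) (nat_lit 0) (cs (lf (nat_lit 18) (nat_lit 251)) (nd (nat_lit 298) (nat_lit 0) (cs (lf (nat_lit 5) (nat_lit 273)) (nd (nat_lit 320) (nat_lit 0) (cs (lf (nat_lit 42) (nat_lit 253)) (nd (nat_lit 207) (nat_lit 0) (cs (lf (nat_lit 47) (nat_lit 185)) (nd (nat_lit 229) (nat_lit 0) (cs (lf (nat_lit 42) (nat_lit 207)) (rf (nat_lit 0)))))))))))) q100647 (by decide +kernel)
def q100682 : Q := Q.p (nat_lit 0x200000800003000000000000000000000000000000000000000000000000000000000000000) (nat_lit 0x700001c0000700000e0001d0000140000400001c000040000000000000000000000000000000000000000000000000000) (nat_lit 12)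
theorem c100682 : QOK q100682 := cut [q89597] ⟨c89597, trivial⟩ (nd (nat_lit 319) (nat_lit 0) (cs (lf (nat_lit 47) (nat_lit 230)) (nd (nat_lit 232) (nat_lit 0) (cs (lf (nat_lit 34) (nat_lit 231)) (nd (nat_lit 210) (nat_lit 0) (cs (lf (nat_lit 33) (nat_lit 209)) (rf (nat_lit 0)))))))) q100682 (by decide +kernel)
def q100756 : Q := Q.p (nat_lit 0x200000800002000008000000000000000000000000000000000000000000000000000000000) (nat_lit 0x200000c00005c0007400005800014000060000080000000000000000000000000000000000000000000000) (nat_lit 10)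
theorem c100756 : QOK q100756 := cut [q99266] ⟨c99266, trivial⟩ (nd (nat_lit 296) (nat_lit 0) (cs (lf (nat_lit 41) (nat_lit 230)) (nd (nat_lit 209) (nat_lit 0) (cs (lf (nat_lit 40) (nat_lit 208)) (nd (nat_lit 210) (nat_lit 0) (cs (lf (nat_lit 34) (nat_lit 209)) (rf (nat_lit 0)))))))) q100756 (by decide +kernel)
def q100801 : Q := Q.p (nat_lit 0x80000380000c000000000000000000000000000000000000000000000000000000000) (nat_lit 0x2000000000000000338000ce000000000000000000000000000000000000000000000000000) (nat_lit 6)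
theorem c100801 : QOK q100801 := cut [q100800] ⟨c100800, trivial⟩ (nd (nat_lit 232) (nat_lit 0) (cs (lf (nat_lit 6) (nat_lit 229)) (rf (nat_lit 0)))) q100801 (by decide +kernel)
def q100845 : Q := Q.p (nat_lit 0x2000008000038000000000000000000000000000000000000000000000000000) (nat_lit 0x340000c0000370000500000400000000000000000000000000000000000) (nat_lit 5)
theorem c100845 : QOK q100845 := cut [q108, q96246] ⟨c108, c96246, trivial⟩ (nd (nat_lit 210) (nat_lit 0) (cs (rf (nat_lit 0)) (rf (nat_lit 1)))) q100845 (by decide +kernel)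
def q100880 : Q := Q.p (nat_lit 0x2000008000020000000000000000000000000000000000000000000000000000) (nat_lit 0x100001c000050000140000400001c0000700001400000000000000000000000000000000000) (nat_lit 7)
theorem c100880 : QOK q100880 := cut [q80724, q92706, q80731] ⟨c80724, c92706, c80731, trivial⟩ (nd (nat_lit 187) (nat_lit 0) (cs (rf (nat_lit 0)) (cs (rf (nat_lit 1)) (nd (nat_lit 164) (nat_lit 0) (cs (lf (nat_lit 46) (nat_lit 164)) (nd (nat_lit 254) (nat_lit 0) (cs (lf (nat_lit 29) (nat_lit 187)) (rf (nat_lit 2))))))))) q100880 (by decide +kernel)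
def q100881 : Q := Q.p (nat_lit 0x2000008000020000000000000000000000000000000000000000000000000000) (nat_lit 0xc000010000040000180007c0000700001400000000000000000000000000000000000) (nat_lit 6)
theorem c100881 : QOK q100881 := cut [q80724, q80756, q84607] ⟨c80724, c80756, c84607, trivial⟩ (nd (nat_lit 187) (nat_lit 0) (cs (rf (nat_lit 0)) (cs (rf (nat_lit 1)) (rf (nat_lit 2))))) q100881 (by decide +kernel)
def q100886 : Q := Q.p (nat_lit 0x2000008000020000000000000000000000000000000000000000000000000000) (nat_lit 0x18000040000100000180007c0000700001400000000000000000000000000000000000) (nat_lit 6)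
theorem c100886 : QOK q100886 := cut [q84607, q88774, q92706] ⟨c84607, c88774, c92706, trivial⟩ (nd (nat_lit 187) (nat_lit 0) (cs (rf (nat_lit 0)) (cs (rf (nat_lit 1)) (rf (nat_lit 2))))) q100886 (by decide +kernel)
def q100887 : Q := Q.p (nat_lit 0x2000008000020000000000000000000000000000000000000000000000000000) (nat_lit 0x80000700003c00005c000170001d0000180000400000000000000000000000000000000000000000) (nat_lit 11)
theorem c100887 : QOK q100887 := cut [q96312, q96322, q98315, q98317] ⟨c96312, c96322, c98315, c98317, trivial⟩ (nd (nat_lit 275) (nat_lit 0) (cs (rf (nat_lit 0)) (cs (rf (nat_lit 1)) (cs (rf (nat_lit 2)) (rf (nat_lit 3)))))) q100887 (by decide +kernel)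
def q100892 : Q := Q.p (nat_lit 0x7800008000000000000000000000000000000000000000000000000000000000) (nat_lit 0x380000e000038000000000330000c0000300000c00000000000000000000000000000000000000000) (nat_lit 10)
theorem c100892 : QOK q100892 := cut [q100891] ⟨c100891, trivial⟩ (nd (nat_lit 232) (nat_lit 0) (cs (lf (nat_lit 17) (nat_lit 229)) (rf (nat_lit 0)))) q100892 (by decide +kernel)
def q100917 : Q := Q.p (nat_lit 0x7800008000000000000000000000000000000000000000000000000000000000) (nat_lit 0xc000170000fc0003f00008000003000000000000000000000000000000000000000000000000000000000) (nat_lit 11)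
theorem c100917 : QOK q100917 := cut [q100916] ⟨c100916, trivial⟩ (nd (nat_lit 228) (nat_lit 0) (cs (lf (nat_lit 22) (nat_lit 228)) (rf (nat_lit 0)))) q100917 (by decide +kernel)
def q100922 : Q := Q.p (nat_lit 0x380000e000000000000000000000000000000000000000000000000000000000) (nat_lit 0x10000048000330000c000000000010000040000000000000000000000000000000000000000000000) (nat_lit 6)
theorem c100922 : QOK q100922 := cut [q100921] ⟨c100921, trivial⟩ (nd (nat_lit 254) (nat_lit 0) (cs (lf (nat_lit 18) (nat_lit 229)) (rf (nat_lit 0)))) q100922 (by decide +kernel)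
def q100927 : Q := Q.p (nat_lit 0x380000c000000000000000000000000000000000000000000000000000000000) (nat_lit 0x380004600003800006000010000040000000000000000000000000000000000000000) (nat_lit 7)
theorem c100927 : QOK q100927 := cut [q89958] ⟨c89958, trivial⟩ (nd (nat_lit 250) (nat_lit 0) (cs (lf (nat_lit 12) (nat_lit 227)) (nd (nat_lit 271) (nat_lit 0) (cs (lf (nat_lit 10) (nat_lit 249)) (rf (nat_lit 0)))))) q100927 (by decide +kernel)
def q100930 : Q := Q.p (nat_lit 0x380000c000000000000000000000000000000000000000000000000000000000) (nat_lit 0x20000080000780004600001800010000040000000000000000000000000000000000000000000000) (nat_lit 7)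
theorem c100930 : QOK q100930 := cut [q89868] ⟨c89868, trivial⟩ (nd (nat_lit 250) (nat_lit 0) (cs (lf (nat_lit 12) (nat_lit 227)) (nd (nat_lit 227) (nat_lit 0) (cs (lf (nat_lit 22) (nat_lit 227)) (rf (nat_lit 0)))))) q100930 (by decide +kernel)
def q100959 : Q := Q.p (nat_lit 0x780000c000000000000000000000000000000000000000000000000000000000) (nat_lit 0x16000058000370000000000380000c0000300000c0000000000000000000000000000000000000000) (nat_lit 10)
theorem c100959 : QOK q100959 := cut [q84417, q100958] ⟨c84417, c100958, trivial⟩ (nd (nat_lit 229) (nat_lit 0) (cs (rf (nat_lit 0)) (rf (nat_lit 1)))) q100959 (by decide +kernel)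
def q100963 : Q := Q.p (nat_lit 0x340000c000000000000000000000000000000000000000000000000000000000) (nat_lit 0x200001800000a00001800010000040000000000000000000000000000000000000000000000) (nat_lit 5)
theorem c100963 : QOK q100963 := cut [q100962] ⟨c100962, trivial⟩ (nd (nat_lit 251) (nat_lit 0) (cs (lf (nat_lit 12) (nat_lit 227)) (rf (nat_lit 0)))) q100963 (by decide +kernel)
def q101003 : Q := Q.p (nat_lit 0x340000c000000000000000000000000000000000000000000000000000000000) (nat_lit 0x220000d8000420000380001e0000f80003e0000280000000000000000000000000000000000) (nat_lit 10)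
theorem c101003 : QOK q101003 := cut [q79996, q87559, q27864, q100981, q3386, q27847, q17162, q3391] ⟨c79996, c87559, c27864, c100981, c3386, c27847, c17162, c3391, trivial⟩ (nd (nat_lit 208) (nat_lit 0) (cs (rf (nat_lit 0)) (cs (nd (nat_lit 228) (nat_lit 0) (cs (rf (nat_lit 1)) (cs (nd (nat_lit 206) (nat_lit 0) (cs (rf (nat_lit 2)) (cs (nd (nat_lit 184) (nat_lit 0) (cs (nd (nat_lit 275) (nat_lit 0) (cs (lf (nat_lit 42) (nat_lit 208)) (rf (nat_lit 3)))) (nd (nat_lit 185) (nat_lit 0) (cs (lf (nat_lit 35) (nat_lit 162)) (nd (nat_lit 207) (nat_lit 0) (cs (lf (nat_lit 42) (nat_lit 185)) (lf (nat_lit 30) (nat_lit 184)))))))) (cs (nd (nat_lit 184) (nat_lit 0) (cs (rf (nat_lit 4)) (cs (rf (nat_lit 5)) (cs (rf (nat_lit 3)) (nd (nat_lit 275) (nat_lit 0) (cs (lf (nat_lit 42) (nat_lit 208)) (nd (nat_lit 163) (nat_lit 0) (cs (lf (nat_lit 34) (nat_lit 162)) (nd (nat_lit 271) (nat_lit 0) (cs (lf (nat_lit 40) (nat_lit 183)) (rf (nat_lit 6)))))))))))) (nd (nat_lit 275) (nat_lit 0) (cs (lf (nat_lit 42) (nat_lit 208)) (nd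 (nat_lit 207) (nat_lit 0) (cs (lf (nat_lit 0) (nat_lit 205)) (nd (nat_lit 185) (nat_lit 0) (cs (lf (nat_lit 42) (nat_lit 185)) (rf (nat_lit 7)))))))))))) (nd (nat_lit 229) (nat_lit 0) (cs (lf (nat_lit 11) (nat_lit 227)) (lf (nat_lit 5) (nat_lit 228))))))) (nd (nat_lit 186) (nat_lit 0) (cs (lf (nat_lit 24) (nat_lit 164)) (nd (nat_lit 165) (nat_lit 0) (cs (lf (nat_lit 34) (nat_lit 164)) (nd (nat_lit 185) (nat_lit 0) (cs (lf (nat_lit 47) (nat_lit 163)) (nd (nat_lit 207) (nat_lit 0) (cs (lf (nat_lit 42) (nat_lit 185)) (nd (nat_lit 206) (nat_lit 0) (cs (lf (nat_lit 0) (nat_lit 205)) (nd (nat_lit 228) (nat_lit 0) (cs (lf (nat_lit 30) (nat_lit 184)) (nd (nat_lit 229) (nat_lit 0) (cs (lf (nat_lit 11) (nat_lit 227)) (lf (nat_lit 0) (nat_lit 227))))))))))))))))))) q101003 (by decide +kernel)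
def q101005 : Q := Q.p (nat_lit 0x340000c000000000000000000000000000000000000000000000000000000000) (nat_lit 0x200001980000a00000000010000040000000000000000000000000000000000000000000000) (nat_lit 5)
theorem c101005 : QOK q101005 := cut [q88806] ⟨c88806, trivial⟩ (nd (nat_lit 251) (nat_lit 0) (cs (lf (nat_lit 12) (nat_lit 227)) (rf (nat_lit 0)))) q101005 (by decide +kernel)
def q101061 : Q := Q.p (nat_lit 0x7800018000000000000000000000000000000000000000000000000000000000) (nat_lit 0xb000080000070000c0000100000400000000000000000000000000000000000000000) (nat_lit 6)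
theorem c101061 : QOK q101061 := cut [q96573] ⟨c96573, trivial⟩ (nd (nat_lit 229) (nat_lit 0) (cs (lf (nat_lit 23) (nat_lit 228)) (nd (nat_lit 272) (nat_lit 0) (cs (lf (nat_lit 10) (nat_lit 250)) (rf (nat_lit 0)))))) q101061 (by decide +kernel)
def q101095 : Q := Q.p (nat_lit 0x7800008000000000000000000000000000000000000000000000000000000000) (nat_lit 0x7000380001d4000000000000000000000000000000000000000000000000000000000) (nat_lit 6)
theorem c101095 : QOK q101095 := cut [q96570] ⟨c96570, trivial⟩ (nd (nat_lit 273) (nat_lit 0) (cs (lf (nat_lit 11) (nat_lit 250)) (nd (nat_lit 255) (nat_lit 0) (cs (lf (nat_lit 10) (nat_lit 251)) (rf (nat_lit 0)))))) q101095 (by decide +kernel)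
def q101113 : Q := Q.p (nat_lit 0x3800008000000000000000000000000000000000000000000000000000000000) (nat_lit 0xc0001f0000fc0003f0000c0000700000c0000300000c00000000000000000000000000000000000000000) (nat_lit 11)
theorem c101113 : QOK q101113 := cut [q92239, q100916, q96338] ⟨c92239, c100916, c96338, trivial⟩ (nd (nat_lit 254) (nat_lit 0) (cs (rf (nat_lit 0)) (cs (rf (nat_lit 1)) (nd (nat_lit 276) (nat_lit 0) (cs (lf (nat_lit 5) (nat_lit 251)) (nd (nat_lit 298) (nat_lit 0) (cs (lf (nat_lit 42) (nat_lit 231)) (rf (nat_lit 2))))))))) q101113 (by decide +kernel)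
def q101192 : Q := Q.p (nat_lit 0x200003800008000000000000000000000000000000000000000000000000000000000) (nat_lit 0xc00017c000fe0003c0000c00000700001c000020000000000000000000000000000000000000000000000) (nat_lit 9)
theorem c101192 : QOK q101192 := cut [q83686, q81452, q101181, q90622, q91718, q91736] ⟨c83686, c81452, c101181, c90622, c91718, c91736, trivial⟩ (nd (nat_lit 274) (nat_lit 0) (cs (rf (nat_lit 0)) (cs (nd (nat_lit 254) (nat_lit 0) (cs (lf (nat_lit 6) (nat_lit 251)) (nd (nat_lit 276) (nat_lit 0) (cs (lf (nat_lit 5) (nat_lit 251)) (nd (nat_lit 298) (nat_lit 0) (cs (lf (nat_lit 42) (nat_lit 231)) (nd (nat_lit 228) (nat_lit 0) (cs (lf (nat_lit 22) (nat_lit 228)) (rf (nat_lit 1)))))))))) (cs (nd (nat_lit 296) (nat_lit 0) (cs (lf (nat_lit 30) (nat_lit 230)) (nd (nat_lit 254) (nat_lit 0) (cs (lf (nat_lit 6) (nat_lit 251)) (nd (nat_lit 276) (nat_lit 0) (cs (lf (nat_lit 5) (nat_lit 251)) (rf (nat_lit 2)))))))) (nd (nat_lit 295) (nat_lit 0) (cs (rf (nat_lit 3)) (cs (nd (nat_lit 296) (nat_lit 0) (cs (lf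 (nat_lit 30) (nat_lit 230)) (nd (nat_lit 207) (nat_lit 0) (cs (lf (nat_lit 25) (nat_lit 207)) (rf (nat_lit 4)))))) (nd (nat_lit 208) (nat_lit 0) (cs (lf (nat_lit 37) (nat_lit 207)) (nd (nat_lit 296) (nat_lit 0) (cs (lf (nat_lit 30) (nat_lit 230)) (nd (nat_lit 229) (nat_lit 0) (cs (lf (nat_lit 24) (nat_lit 207)) (nd (nat_lit 206) (nat_lit 0) (cs (lf (nat_lit 46) (nat_lit 206)) (rf (nat_lit 5))))))))))))))))) q101192 (by decide +kernel)
def q101213 : Q := Q.p (nat_lit 0x800002000008000020000000000000000000000000000000000000000000000000000) (nat_lit 0x5e000370001de00000000050000140000000000000000000000000000000000000000000000) (nat_lit 9)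
theorem c101213 : QOK q101213 := cut [q97408, q101207, q101209] ⟨c97408, c101207, c101209, trivial⟩ (nd (nat_lit 274) (nat_lit 0) (cs (lf (nat_lit 41) (nat_lit 208)) (nd (nat_lit 273) (nat_lit 0) (cs (nd (nat_lit 188) (nat_lit 0) (cs (lf (nat_lit 34) (nat_lit 187)) (rf (nat_lit 0)))) (cs (nd (nat_lit 276) (nat_lit 0) (cs (lf (nat_lit 29) (nat_lit 209)) (rf (nat_lit 1)))) (nd (nat_lit 188) (nat_lit 0) (cs (lf (nat_lit 34) (nat_lit 187)) (nd (nat_lit 186) (nat_lit 0) (cs (lf (nat_lit 46) (nat_lit 186)) (rf (nat_lit 2))))))))))) q101213 (by decide +kernel)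
def q101233 : Q := Q.p (nat_lit 0x2000008000020000000000000000000000000000000000000000000000000000) (nat_lit 0x140000700001c000050000000000100000c0000100000000000000000000000000000000000000000) (nat_lit 5)
theorem c101233 : QOK q101233 := cut [q717, q98359, q100882] ⟨c717, c98359, c100882, trivial⟩ (nd (nat_lit 275) (nat_lit 0) (cs (rf (nat_lit 0)) (cs (rf (nat_lit 1)) (rf (nat_lit 2))))) q101233 (by decide +kernel)
def q101235 : Q := Q.p (nat_lit 0x2000008000020000000000000000000000000000000000000000000000000000) (nat_lit 0x140000700001c00005000000000040000180000400000000000000000000000000000000000000000) (nat_lit 5)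
theorem c101235 : QOK q101235 := cut [q717, q96312, q98317] ⟨c717, c96312, c98317, trivial⟩ (nd (nat_lit 275) (nat_lit 0) (cs (rf (nat_lit 0)) (cs (rf (nat_lit 1)) (rf (nat_lit 2))))) q101235 (by decide +kernel)
def q101248 : Q := Q.p (nat_lit 0x3c0000000000000000000000000000000000000000000000) (nat_lit 0x1ce0000300000e0000000000000000000000000000000000000000) (nat_lit 6)
theorem c101248 : QOK q101248 := cut [q96719] ⟨c96719, trivial⟩ (nd (nat_lit 211) (nat_lit 0) (cs (lf (nat_lit 5) (nat_lit 186)) (rf (nat_lit 0)))) q101248 (by decide +kernel)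
def q101293 : Q := Q.p (nat_lit 0x600001e000000000000000000000000000000000000000000000000000000000) (nat_lit 0x100000480003300001c00020000010000040000000000000000000000000000000000000000000000) (nat_lit 7)
theorem c101293 : QOK q101293 := cut [q100921] ⟨c100921, trivial⟩ (nd (nat_lit 251) (nat_lit 0) (cs (lf (nat_lit 11) (nat_lit 228)) (nd (nat_lit 252) (nat_lit 0) (cs (lf (nat_lit 17) (nat_lit 229)) (rf (nat_lit 0)))))) q101293 (by decide +kernel)
def q101299 : Q := Q.p (nat_lit 0x6000018000040000000000000000000000000000000000000000000000000000) (nat_lit 0x300000c00003000000000000000020000380000e00000000000000000000000000000000000000000) (nat_lit 7)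
theorem c101299 : QOK q101299 := cut [q101298] ⟨c101298, trivial⟩ (nd (nat_lit 188) (nat_lit 0) (cs (lf (nat_lit 36) (nat_lit 165)) (rf (nat_lit 0)))) q101299 (by decide +kernel)
def q101309 : Q := Q.p (nat_lit 0x40000300000c000010000000000000000000000000000000000000000000000000000) (nat_lit 0x8000038000c8000000000280000a0000000000000000000000000000000000000000000000) (nat_lit 6)
theorem c101309 : QOK q101309 := cut [q85714] ⟨c85714, trivial⟩ (nd (nat_lit 187) (nat_lit 0) (cs (lf (nat_lit 37) (nat_lit 186)) (nd (nat_lit 185) (nat_lit 0) (cs (lf (nat_lit 46) (nat_lit 185)) (rf (nat_lit 0)))))) q101309 (by decide +kernel)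
def q101314 : Q := Q.p (nat_lit 0x700000c000000000000000000000000000000000000000000000000000000000) (nat_lit 0x1000018800070000180000200000800000000000000000000000000000000000000000) (nat_lit 6)
theorem c101314 : QOK q101314 := cut [q101313] ⟨c101313, trivial⟩ (nd (nat_lit 255) (nat_lit 0) (cs (lf (nat_lit 18) (nat_lit 230)) (rf (nat_lit 0)))) q101314 (by decide +kernel)
def q101315 : Q := Q.p (nat_lit 0x700000c000000000000000000000000000000000000000000000000000000000) (nat_lit 0x100000600018000060000020000080000000000000000000000000000000000000000000000) (nat_lit 5)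
theorem c101315 : QOK q101315 := cut [q98280] ⟨c98280, trivial⟩ (nd (nat_lit 255) (nat_lit 0) (cs (lf (nat_lit 18) (nat_lit 230)) (rf (nat_lit 0)))) q101315 (by decide +kernel)
def q101320 : Q := Q.p (nat_lit 0x380000c000000000000000000000000000000000000000000000000000000000) (nat_lit 0x80000380004600001800004000010000000000000000000000000000000000000000000000) (nat_lit 6)
theorem c101320 : QOK q101320 := cut [q84284] ⟨c84284, trivial⟩ (nd (nat_lit 250) (nat_lit 0) (cs (lf (nat_lit 12) (nat_lit 227)) (rf (nat_lit 0)))) q101320 (by decide +kernel)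
def q101342 : Q := Q.p (nat_lit 0x300000c000030000000000000000000000000000000000000000000000000000) (nat_lit 0xc8000078000180000000000000000000000000000000000000000) (nat_lit 5)
theorem c101342 : QOK q101342 := cut [q1435] ⟨c1435, trivial⟩ (nd (nat_lit 186) (nat_lit 0) (cs (lf (nat_lit 24) (nat_lit 164)) (rf (nat_lit 0)))) q101342 (by decide +kernel)
def q101379 : Q := Q.p (nat_lit 0x200001e000000000000000000000000000000000000000000000000000000000) (nat_lit 0x300000c0000300000cc000000000e0000380000e00000000000000000000000000000000000000000) (nat_lit 10)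
theorem c101379 : QOK q101379 := cut [q101298] ⟨c101298, trivial⟩ (nd (nat_lit 254) (nat_lit 0) (cs (lf (nat_lit 5) (nat_lit 229)) (nd (nat_lit 210) (nat_lit 0) (cs (lf (nat_lit 17) (nat_lit 207)) (nd (nat_lit 188) (nat_lit 0) (cs (lf (nat_lit 36) (nat_lit 165)) (nd (nat_lit 250) (nat_lit 0) (cs (lf (nat_lit 10) (nat_lit 228)) (rf (nat_lit 0)))))))))) q101379 (by decide +kernel)
def q101406 : Q := Q.p (nat_lit 0x300000c000010000000000000000000000000000000000000000000000000000) (nat_lit 0x4000018000078000c800000000020000000000000000000000000000000000000000000000000000) (nat_lit 5)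
theorem c101406 : QOK q101406 := cut [q85714, q87207] ⟨c85714, c87207, trivial⟩ (nd (nat_lit 274) (nat_lit 0) (cs (rf (nat_lit 0)) (rf (nat_lit 1)))) q101406 (by decide +kernel)
def q101415 : Q := Q.p (nat_lit 0x700000c000000000000000000000000000000000000000000000000000000000) (nat_lit 0x20000080000700000e00003800010000040000000000000000000000000000000000000000000000) (nat_lit 5)
theorem c101415 : QOK q101415 := cut [q97008, q101387] ⟨c97008, c101387, trivial⟩ (nd (nat_lit 251) (nat_lit 0) (cs (rf (nat_lit 0)) (rf (nat_lit 1)))) q101415 (by decide +kernel)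
def q101425 : Q := Q.p (nat_lit 0x200001e000000000000000000000000000000000000000000000000000000000) (nat_lit 0xdc000e00001c0000000000000000000000000000000000000000000000000000) (nat_lit 6)
theorem c101425 : QOK q101425 := cut [q101424] ⟨c101424, trivial⟩ (nd (nat_lit 254) (nat_lit 0) (cs (lf (nat_lit 5) (nat_lit 229)) (rf (nat_lit 0)))) q101425 (by decide +kernel)
def q101463 : Q := Q.p (nat_lit 0x500003400009000000000000000000000000000000000000000000000000000000000) (nat_lit 0x100000e0000380000e0000080000200000800026000088000000000000000000000000000000000000000000000) (nat_lit 8)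
theorem c101463 : QOK q101463 := cut [q17404, q92025, q92031, q58849] ⟨c17404, c92025, c92031, c58849, trivial⟩ (nd (nat_lit 294) (nat_lit 0) (cs (rf (nat_lit 0)) (cs (rf (nat_lit 1)) (cs (rf (nat_lit 2)) (nd (nat_lit 295) (nat_lit 0) (cs (lf (nat_lit 29) (nat_lit 228)) (nd (nat_lit 187) (nat_lit 0) (cs (lf (nat_lit 37) (nat_lit 186)) (nd (nat_lit 293) (nat_lit 0) (cs (lf (nat_lit 41) (nat_lit 227)) (rf (nat_lit 3)))))))))))) q101463 (by decide +kernel)
def q101562 : Q := Q.p (nat_lit 0x800002000008000000000000000000000000000000000000000000000000000000000) (nat_lit 0x500001c0000700001400000000004000030000040000000000000000000000000000000000000000000000) (nat_lit 5)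
theorem c101562 : QOK q101562 := cut [q79188, q81706, q84365] ⟨c79188, c81706, c84365, trivial⟩ (nd (nat_lit 297) (nat_lit 0) (cs (rf (nat_lit 0)) (cs (rf (nat_lit 1)) (rf (nat_lit 2))))) q101562 (by decide +kernel)
def q101564 : Q := Q.p (nat_lit 0x800002000008000000000000000000000000000000000000000000000000000000000) (nat_lit 0x500001c0000700000400004000010000060000100000000000000000000000000000000000000000000000) (nat_lit 5)
theorem c101564 : QOK q101564 := cut [q22004, q84365, q101548] ⟨c22004, c84365, c101548, trivial⟩ (nd (nat_lit 297) (nat_lit 0) (cs (rf (nat_lit 0)) (cs (rf (nat_lit 1)) (rf (nat_lit 2))))) q101564 (by decide +kernel)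
def q101565 : Q := Q.p (nat_lit 0x800002000008000000000000000000000000000000000000000000000000000000000) (nat_lit 0x1000006000010000040000100000700001c0000500000000000000000000000000000000000000000) (nat_lit 6)
theorem c101565 : QOK q101565 := cut [q81901, q93264, q98317, q98359] ⟨c81901, c93264, c98317, c98359, trivial⟩ (nd (nat_lit 209) (nat_lit 0) (cs (rf (nat_lit 0)) (cs (rf (nat_lit 1)) (cs (rf (nat_lit 2)) (rf (nat_lit 3)))))) q101565 (by decide +kernel)
def q101588 : Q := Q.p (nat_lit 0x800002000008000000000000000000000000000000000000000000000000000000000) (nat_lit 0x500001c0000700001400000000010000060000100000000000000000000000000000000000000000000000) (nat_lit 5)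
theorem c101588 : QOK q101588 := cut [q12650, q22004, q84365] ⟨c12650, c22004, c84365, trivial⟩ (nd (nat_lit 297) (nat_lit 0) (cs (rf (nat_lit 0)) (cs (rf (nat_lit 1)) (rf (nat_lit 2))))) q101588 (by decide +kernel)
def q101589 : Q := Q.p (nat_lit 0x800002000008000000000000000000000000000000000000000000000000000000000) (nat_lit 0x400003000004000010000100000700001c0000500000000000000000000000000000000000000000) (nat_lit 5)
theorem c101589 : QOK q101589 := cut [q81901, q100882, q101214] ⟨c81901, c100882, c101214, trivial⟩ (nd (nat_lit 209) (nat_lit 0) (cs (rf (nat_lit 0)) (cs (rf (nat_lit 1)) (rf (nat_lit 2))))) q101589 (by decide +kernel)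
def q101628 : Q := Q.p (nat_lit 0x200000e000000000000000000000000000000000000000000000000000000000) (nat_lit 0xa0001cc000300000dc000140000500000000000000000000000000000000000000000) (nat_lit 6)
theorem c101628 : QOK q101628 := cut [q80199, q98031, q101382] ⟨c80199, c98031, c101382, trivial⟩ (nd (nat_lit 232) (nat_lit 0) (cs (rf (nat_lit 0)) (cs (rf (nat_lit 1)) (rf (nat_lit 2))))) q101628 (by decide +kernel)
def q101657 : Q := Q.p (nat_lit 0x80000200000c000000000000000000000000000000000000000000000000000000000) (nat_lit 0x500001e00007c0003400005c00000000020000000000000000000000000000000000000000000000000000) (nat_lit 7)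
theorem c101657 : QOK q101657 := cut [q21953, q84365, q101650, q101654] ⟨c21953, c84365, c101650, c101654, trivial⟩ (nd (nat_lit 297) (nat_lit 0) (cs (rf (nat_lit 0)) (cs (rf (nat_lit 1)) (cs (nd (nat_lit 298) (nat_lit 0) (cs (lf (nat_lit 29) (nat_lit 231)) (nd (nat_lit 276) (nat_lit 0) (cs (lf (nat_lit 24) (nat_lit 209)) (nd (nat_lit 252) (nat_lit 0) (cs (lf (nat_lit 42) (nat_lit 230)) (rf (nat_lit 2)))))))) (nd (nat_lit 296) (nat_lit 0) (cs (lf (nat_lit 41) (nat_lit 230)) (nd (nat_lit 252) (nat_lit 0) (cs (lf (nat_lit 42) (nat_lit 230)) (rf (nat_lit 3)))))))))) q101657 (by decide +kernel)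
def q101667 : Q := Q.p (nat_lit 0x200001c000010000000000000000000000000000000000000000000000000000) (nat_lit 0x20000190000620001e0000100000400000000000000000000000000000000000000000) (nat_lit 6)
theorem c101667 : QOK q101667 := cut [q22241, q22601] ⟨c22241, c22601, trivial⟩ (nd (nat_lit 233) (nat_lit 0) (cs (rf (nat_lit 0)) (rf (nat_lit 1)))) q101667 (by decide +kernel)
def q101742 : Q := Q.p (nat_lit 0x800002000008000000000000000000000000000000000000000000000000000000000) (nat_lit 0x100000700001c00007c0003000005c00014000060000180000000000000000000000000000000000000000000000) (nat_lit 11)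
theorem c101742 : QOK q101742 := cut [q12650, q84365, q101561, q101738] ⟨c12650, c84365, c101561, c101738, trivial⟩ (nd (nat_lit 297) (nat_lit 0) (cs (rf (nat_lit 0)) (cs (rf (nat_lit 1)) (cs (rf (nat_lit 2)) (nd (nat_lit 296) (nat_lit 0) (cs (lf (nat_lit 41) (nat_lit 230)) (nd (nat_lit 210) (nat_lit 0) (cs (lf (nat_lit 34) (nat_lit 209)) (nd (nat_lit 209) (nat_lit 0) (cs (lf (nat_lit 35) (nat_lit 187)) (rf (nat_lit 3)))))))))))) q101742 (by decide +kernel)
def q101749 : Q := Q.p (nat_lit 0x800002000008000020000000000000000000000000000000000000000000000000000) (nat_lit 0x400001400005c000040000000000c0000300000400000000000000000000000000000000000) (nat_lit 7)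
theorem c101749 : QOK q101749 := cut [q97672] ⟨c97672, trivial⟩ (nd (nat_lit 276) (nat_lit 0) (cs (lf (nat_lit 29) (nat_lit 209)) (nd (nat_lit 187) (nat_lit 0) (cs (lf (nat_lit 28) (nat_lit 187)) (nd (nat_lit 252) (nat_lit 0) (cs (lf (nat_lit 41) (nat_lit 186)) (rf (nat_lit 0)))))))) q101749 (by decide +kernel)
def q101857 : Q := Q.p (nat_lit 0x7000018000000000000000000000000000000000000000000000000000000000) (nat_lit 0x3700008c0000700002c0000a0000080000000000000000000000000000000000000000) (nat_lit 9)
theorem c101857 : QOK q101857 := cut [q101853] ⟨c101853, trivial⟩ (nd (nat_lit 251) (nat_lit 0) (cs (lf (nat_lit 12) (nat_lit 228)) (nd (nat_lit 272) (nat_lit 0) (cs (lf (nat_lit 10) (nat_lit 250)) (nd (nat_lit 276) (nat_lit 0) (cs (lf (nat_lit 5) (nat_lit 251)) (nd (nat_lit 187) (nat_lit 0) (cs (lf (nat_lit 25) (nat_lit 187)) (rf (nat_lit 0)))))))))) q101857 (by decide +kernel)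
def q101887 : Q := Q.p (nat_lit 0xc00006000018000000000000000000000000000000000000000000000000000000000) (nat_lit 0x10000798000e6000780000200000800000000000000000000000000000000000000000) (nat_lit 7)
theorem c101887 : QOK q101887 := cut [q79994, q101800, q79237] ⟨c79994, c101800, c79237, trivial⟩ (nd (nat_lit 233) (nat_lit 0) (cs (rf (nat_lit 0)) (cs (rf (nat_lit 1)) (nd (nat_lit 255) (nat_lit 0) (cs (lf (nat_lit 6) (nat_lit 252)) (nd (nat_lit 230) (nat_lit 0) (cs (lf (nat_lit 0) (nat_lit 229)) (nd (nat_lit 251) (nat_lit 0) (cs (rf (nat_lit 2)) (lf (nat_lit 13) (nat_lit 229))))))))))) q101887 (by decide +kernel)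
def q101896 : Q := Q.p (nat_lit 0x6800018000040000000000000000000000000000000000000000000000000000) (nat_lit 0x10000310000e4000380000200000800000000000000000000000000000000000000000) (nat_lit 7)
theorem c101896 : QOK q101896 := cut [q101895] ⟨c101895, trivial⟩ (nd (nat_lit 233) (nat_lit 0) (cs (lf (nat_lit 13) (nat_lit 229)) (rf (nat_lit 0)))) q101896 (by decide +kernel)
def q101910 : Q := Q.p (nat_lit 0x200000800002000008000000000000000000000000000000000000000000000000000000000) (nat_lit 0x400005c00014000040000000000200001c0000700001400000000000000000000000000000000000) (nat_lit 9)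
theorem c101910 : QOK q101910 := cut [q97684] ⟨c97684, trivial⟩ (nd (nat_lit 296) (nat_lit 0) (cs (lf (nat_lit 41) (nat_lit 230)) (nd (nat_lit 209) (nat_lit 0) (cs (lf (nat_lit 40) (nat_lit 208)) (nd (nat_lit 276) (nat_lit 0) (cs (lf (nat_lit 29) (nat_lit 209)) (nd (nat_lit 294) (nat_lit 0) (cs (lf (nat_lit 13) (nat_lit 272)) (rf (nat_lit 0)))))))))) q101910 (by decide +kernel)
def q101918 : Q := Q.p (nat_lit 0x800002000008000000000000000000000000000000000000000000000000000000000) (nat_lit 0x500001c0000700001000001000004000030000040000000000000000000000000000000000000000000000) (nat_lit 5)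
theorem c101918 : QOK q101918 := cut [q81706, q84365, q101581] ⟨c81706, c84365, c101581, trivial⟩ (nd (nat_lit 297) (nat_lit 0) (cs (rf (nat_lit 0)) (cs (rf (nat_lit 1)) (rf (nat_lit 2))))) q101918 (by decide +kernel)
def q101919 : Q := Q.p (nat_lit 0xc00002000008000000000000000000000000000000000000000000000000000000000) (nat_lit 0x5000010000040000000000300000c0000100000000000000000000000000000000000000000) (nat_lit 5)
theorem c101919 : QOK q101919 := cut [q98359] ⟨c98359, trivial⟩ (nd (nat_lit 209) (nat_lit 0) (cs (lf (nat_lit 41) (nat_lit 208)) (rf (nat_lit 0)))) q101919 (by decide +kernel)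
def q101926 : Q := Q.p (nat_lit 0x200000800002000008000000000000000000000000000000000000000000000000000000000) (nat_lit 0x40000700001c0000400001000004000010000000000000000000000000000000000000000000000000000000000) (nat_lit 6)
theorem c101926 : QOK q101926 := cut [q94166] ⟨c94166, trivial⟩ (nd (nat_lit 320) (nat_lit 0) (cs (lf (nat_lit 28) (nat_lit 231)) (nd (nat_lit 319) (nat_lit 0) (cs (lf (nat_lit 29) (nat_lit 253)) (rf (nat_lit 0)))))) q101926 (by decide +kernel)
def q102012 : Q := Q.p (nat_lit 0x800002000008000000000000000000000000000000000000000000000000000000000) (nat_lit 0x40000700001c0001f0000070000d0000140000300000c0000000000000000000000000000000000000000000000) (nat_lit 11)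
theorem c102012 : QOK q102012 := cut [q79188, q84365, q97681, q99294] ⟨c79188, c84365, c97681, c99294, trivial⟩ (nd (nat_lit 297) (nat_lit 0) (cs (rf (nat_lit 0)) (cs (rf (nat_lit 1)) (cs (rf (nat_lit 2)) (rf (nat_lit 3)))))) q102012 (by decide +kernel)
def q102014 : Q := Q.p (nat_lit 0x800002000008000000000000000000000000000000000000000000000000000000000) (nat_lit 0x40000700001c0001f00001700001000004000030000080000000000000000000000000000000000000000000000) (nat_lit 9)
theorem c102014 : QOK q102014 := cut [q21953, q97681, q100729, q101581] ⟨c21953, c97681, c100729, c101581, trivial⟩ (nd (nat_lit 297) (nat_lit 0) (cs (rf (nat_lit 0)) (cs (rf (nat_lit 1)) (cs (rf (nat_lit 2)) (rf (nat_lit 3)))))) q102014 (by decide +kernel)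
def q102137 : Q := Q.p (nat_lit 0x2000008000020000000000000000000000000000000000000000000000000000) (nat_lit 0x2000008000050000140000580007c0000700001c00001000000000000000000000000000000) (nat_lit 7)
theorem c102137 : QOK q102137 := cut [q1580, q84607, q97295, q101268, q84567] ⟨c1580, c84607, c97295, c101268, c84567, trivial⟩ (nd (nat_lit 187) (nat_lit 0) (cs (rf (nat_lit 0)) (cs (rf (nat_lit 1)) (cs (rf (nat_lit 2)) (cs (rf (nat_lit 3)) (nd (nat_lit 164) (nat_lit 0) (cs (lf (nat_lit 46) (nat_lit 164)) (nd (nat_lit 165) (nat_lit 0) (cs (lf (nat_lit 47) (nat_lit 142)) (nd (nat_lit 230) (nat_lit 0) (cs (lf (nat_lit 41) (nat_lit 164)) (nd (nat_lit 143) (nat_lit 0) (cs (rf (nat_lit 4)) (lf (nat_lit 40) (nat_lit 142))))))))))))))) q102137 (by decide +kernel)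
def q102215 : Q := Q.p (nat_lit 0xc00003000008000000000000000000000000000000000000000000000000000000000) (nat_lit 0x180001e00001300000000004000010000000000000000000000000000000000000000000000000000) (nat_lit 5)
theorem c102215 : QOK q102215 := cut [q84557, q91378] ⟨c84557, c91378, trivial⟩ (nd (nat_lit 297) (nat_lit 0) (cs (rf (nat_lit 0)) (rf (nat_lit 1)))) q102215 (by decide +kernel)
def q102351 : Q := Q.p (nat_lit 0xa000038000000000000000000000000000000000000000000000000000) (nat_lit 0x350003c0000e00000000000000000000000000000000000000000000000) (nat_lit 6)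
theorem c102351 : QOK q102351 := cut [q10106] ⟨c10106, trivial⟩ (nd (nat_lit 210) (nat_lit 0) (cs (lf (nat_lit 11) (nat_lit 206)) (nd (nat_lit 232) (nat_lit 0) (cs (lf (nat_lit 5) (nat_lit 207)) (rf (nat_lit 0)))))) q102351 (by decide +kernel)
def q102360 : Q := Q.p (nat_lit 0x2000008000038000000000000000000000000000000000000000000000000000) (nat_lit 0x78000c780007e000100000400000000000000000000000000000000000) (nat_lit 7)
theorem c102360 : QOK q102360 := cut [q15490, q96257, q96246, q174] ⟨c15490, c96257, c96246, c174, trivial⟩ (nd (nat_lit 228) (nat_lit 0) (cs (rf (nat_lit 0)) (cs (rf (nat_lit 1)) (cs (nd (nat_lit 210) (nat_lit 0) (cs (lf (nat_lit 10) (nat_lit 206)) (rf (nat_lit 2)))) (nd (nat_lit 206) (nat_lit 0) (cs (lf (nat_lit 11) (nat_lit 205)) (rf (nat_lit 3)))))))) q102360 (by decide +kernel)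
def q102404 : Q := Q.p (nat_lit 0x800002000008000000000000000000000000000000000000000000000000000000000) (nat_lit 0x18000060000200007dc003f60007de000140000500000000000000000000000000000000000000000) (nat_lit 8)
theorem c102404 : QOK q102404 := cut [q87016, q102397, q96982, q101800, q101804, q22241, q102398, q97957, q102401, q102402] ⟨c87016, c102397, c96982, c101800, c101804, c22241, c102398, c97957, c102401, c102402, trivial⟩ (nd (nat_lit 232) (nat_lit 0) (cs (rf (nat_lit 0)) (cs (rf (nat_lit 1)) (cs (nd (nat_lit 233) (nat_lit 0) (cs (rf (nat_lit 2)) (cs (rf (nat_lit 3)) (cs (rf (nat_lit 4)) (nd (nat_lit 230) (nat_lit 0) (cs (rf (nat_lit 5)) (rf (nat_lit 6)))))))) (nd (nat_lit 230) (nat_lit 0) (cs (rf (nat_lit 7)) (cs (rf (nat_lit 8)) (rf (nat_lit 9))))))))) q102404 (by decide +kernel)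
def q102413 : Q := Q.p (nat_lit 0x800002000008000000000000000000000000000000000000000000000000000000000) (nat_lit 0x1800006000014000050000040000700001c0000600000000000000000000000000000000000000000) (nat_lit 7)
theorem c102413 : QOK q102413 := cut [q98317, q101586, q102411] ⟨c98317, c101586, c102411, trivial⟩ (nd (nat_lit 209) (nat_lit 0) (cs (rf (nat_lit 0)) (cs (rf (nat_lit 1)) (rf (nat_lit 2))))) q102413 (by decide +kernel)
def q102486 : Q := Q.p (nat_lit 0x2000038000000000000000000000000000000000000000000000000000000000) (nat_lit 0x200002800019c000060001d8000140000400000000000000000000000000000000000000000) (nat_lit 6)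
theorem c102486 : QOK q102486 := cut [q22241, q22592, q97301] ⟨c22241, c22592, c97301, trivial⟩ (nd (nat_lit 230) (nat_lit 0) (cs (rf (nat_lit 0)) (cs (rf (nat_lit 1)) (rf (nat_lit 2))))) q102486 (by decide +kernel)
def q102497 : Q := Q.p (nat_lit 0x200001c000000000000000000000000000000000000000000000000000000000) (nat_lit 0x20001cf0002380007f000040000100000000000000000000000000000000000000000) (nat_lit 6)
theorem c102497 : QOK q102497 := cut [q80199, q96764, q96836, q101382] ⟨c80199, c96764, c96836, c101382, trivial⟩ (nd (nat_lit 229) (nat_lit 0) (cs (rf (nat_lit 0)) (cs (rf (nat_lit 1)) (cs (rf (nat_lit 2)) (rf (nat_lit 3)))))) q102497 (by decide +kernel)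
def q102558 : Q := Q.p (nat_lit 0x2000018000000000000000000000000000000000000000000000000000000000) (nat_lit 0xb00003e0007dc003e60007e0000380000c00000000000000000000000000000000000000000) (nat_lit 11)
theorem c102558 : QOK q102558 := cut [q96982, q101768, q101800, q101804, q88863, q90439, q12221, q102086, q79327, q79098, q93190, q102502] ⟨c96982, c101768, c101800, c101804, c88863, c90439, c12221, c102086, c79327, c79098, c93190, c102502, trivial⟩ (nd (nat_lit 233) (nat_lit 0) (cs (rf (nat_lit 0)) (cs (rf (nat_lit 1)) (cs (rf (nat_lit 2)) (cs (rf (nat_lit 3)) (nd (nat_lit 210) (nat_lit 0) (cs (rf (nat_lit 4)) (cs (rf (nat_lit 5)) (cs (nd (nat_lit 230) (nat_lit 0) (cs (rf (nat_lit 6)) (cs (rf (nat_lit 7)) (nd (nat_lit 254) (nat_lit 0) (cs (rf (nat_lit 8)) (cs (nd (nat_lit 275) (nat_lit 0) (cs (lf (nat_lit 30) (nat_lit 209)) (nd (nat_lit 252) (nat_lit 0) (cs (lf (nat_lit 12) (nat_lit 229)) (nd (nat_lit 255) (nat_lit 0) (cs (lf (nat_lit 5) (nat_lit 230)) (nd (nat_lit 277) (nat_lit 0) (cs (lf (nat_lit 42) (nat_lit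 210)) (rf (nat_lit 9)))))))))) (nd (nat_lit 251) (nat_lit 0) (cs (lf (nat_lit 10) (nat_lit 229)) (nd (nat_lit 211) (nat_lit 0) (cs (lf (nat_lit 17) (nat_lit 208)) (rf (nat_lit 10)))))))))))) (nd (nat_lit 230) (nat_lit 0) (cs (rf (nat_lit 6)) (rf (nat_lit 11))))))))))))) q102558 (by decide +kernel)
def q102589 : Q := Q.p (nat_lit 0x2000008000020000000000000000000000000000000000000000000000000000) (nat_lit 0x100000c000010000040000400001c0000700001400000000000000000000000000000000000) (nat_lit 5)
theorem c102589 : QOK q102589 := cut [q1580, q80724, q80731] ⟨c1580, c80724, c80731, trivial⟩ (nd (nat_lit 187) (nat_lit 0) (cs (rf (nat_lit 0)) (cs (rf (nat_lit 1)) (rf (nat_lit 2))))) q102589 (by decide +kernel)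
def q102648 : Q := Q.p (nat_lit 0x3800018000020000080000000000000000000000000000000000000000000000) (nat_lit 0x20000000000400005e000778000580000000000000000000000000000000000000000) (nat_lit 8)
theorem c102648 : QOK q102648 := cut [q78834, q11057, q10986] ⟨c78834, c11057, c10986, trivial⟩ (nd (nat_lit 208) (nat_lit 0) (cs (rf (nat_lit 0)) (cs (nd (nat_lit 186) (nat_lit 0) (cs (lf (nat_lit 47) (nat_lit 164)) (rf (nat_lit 1)))) (nd (nat_lit 186) (nat_lit 0) (cs (lf (nat_lit 47) (nat_lit 164)) (nd (nat_lit 206) (nat_lit 0) (cs (lf (nat_lit 1) (nat_lit 206)) (nd (nat_lit 230) (nat_lit 0) (cs (lf (nat_lit 41) (nat_lit 185)) (nd (nat_lit 166) (nat_lit 0) (cs (lf (nat_lit 34) (nat_lit 165)) (rf (nat_lit 2))))))))))))) q102648 (by decide +kernel)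
def q102738 : Q := Q.p (nat_lit 0x2000038000000000000000000000000000000000000000000000000000000000) (nat_lit 0x200000800019c000060001fc000040000100000000000000000000000000000000000000000) (nat_lit 8)
theorem c102738 : QOK q102738 := cut [q22592, q102731, q102733, q102734] ⟨c22592, c102731, c102733, c102734, trivial⟩ (nd (nat_lit 230) (nat_lit 0) (cs (rf (nat_lit 0)) (cs (rf (nat_lit 1)) (cs (rf (nat_lit 2)) (nd (nat_lit 211) (nat_lit 0) (cs (lf (nat_lit 17) (nat_lit 208)) (nd (nat_lit 251) (nat_lit 0) (cs (lf (nat_lit 10) (nat_lit 229)) (nd (nat_lit 255) (nat_lit 0) (cs (lf (nat_lit 5) (nat_lit 230)) (rf (nat_lit 3)))))))))))) q102738 (by decide +kernel)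
def q102749 : Q := Q.p (nat_lit 0x2000018000000000000000000000000000000000000000000000000000000000) (nat_lit 0x20000480007dc003e70007dc000240000800000000000000000000000000000000000000000) (nat_lit 8)
theorem c102749 : QOK q102749 := cut [q101804, q102740, q102742, q102743, q102748] ⟨c101804, c102740, c102742, c102743, c102748, trivial⟩ (nd (nat_lit 233) (nat_lit 0) (cs (rf (nat_lit 0)) (cs (rf (nat_lit 1)) (cs (rf (nat_lit 2)) (cs (rf (nat_lit 3)) (rf (nat_lit 4))))))) q102749 (by decide +kernel)
def q102760 : Q := Q.p (nat_lit 0x800002000018000000000000000000000000000000000000000000000000000000000) (nat_lit 0x400001c00007000014000040000000000300000c0000300000000000000000000000000000000000000000) (nat_lit 7)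
theorem c102760 : QOK q102760 := cut [q21953, q102752, q85187] ⟨c21953, c102752, c85187, trivial⟩ (nd (nat_lit 297) (nat_lit 0) (cs (rf (nat_lit 0)) (cs (rf (nat_lit 1)) (cs (nd (nat_lit 296) (nat_lit 0) (cs (lf (nat_lit 41) (nat_lit 230)) (nd (nat_lit 209) (nat_lit 0) (cs (lf (nat_lit 40) (nat_lit 208)) (nd (nat_lit 186) (nat_lit 0) (cs (lf (nat_lit 46) (nat_lit 186)) (nd (nat_lit 254) (nat_lit 0) (cs (lf (nat_lit 30) (nat_lit 231)) (nd (nat_lit 187) (nat_lit 0) (cs (lf (nat_lit 47) (nat_lit 164)) (lf (nat_lit 29) (nat_lit 187)))))))))))) (nd (nat_lit 296) (nat_lit 0) (cs (lf (nat_lit 41) (nat_lit 230)) (rf (nat_lit 2)))))))) q102760 (by decide +kernel)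
def q102762 : Q := Q.p (nat_lit 0x2000018000000000000000000000000000000000000000000000000000000000) (nat_lit 0x20000480007dc000e70007b8000240000900000000000000000000000000000000000000000) (nat_lit 7)
theorem c102762 : QOK q102762 := cut [q97307, q102740, q102742, q97448, q102734] ⟨c97307, c102740, c102742, c97448, c102734, trivial⟩ (nd (nat_lit 233) (nat_lit 0) (cs (rf (nat_lit 0)) (cs (rf (nat_lit 1)) (cs (rf (nat_lit 2)) (nd (nat_lit 230) (nat_lit 0) (cs (rf (nat_lit 3)) (rf (nat_lit 4)))))))) q102762 (by decide +kernel)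
def q102828 : Q := Q.p (nat_lit 0x4000010000040000000000000000000000000000000000000000000000000000) (nat_lit 0x3000008000020000030000f80000e00002800000000000000000000000000000000000) (nat_lit 7)
theorem c102828 : QOK q102828 := cut [q79127, q102804, q102824, q102826] ⟨c79127, c102804, c102824, c102826, trivial⟩ (nd (nat_lit 188) (nat_lit 0) (cs (rf (nat_lit 0)) (cs (rf (nat_lit 1)) (cs (rf (nat_lit 2)) (nd (nat_lit 255) (nat_lit 0) (cs (lf (nat_lit 29) (nat_lit 188)) (rf (nat_lit 3)))))))) q102828 (by decide +kernel)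
def q102850 : Q := Q.p (nat_lit 0x4000010000040000000000000000000000000000000000000000000000000000) (nat_lit 0x200000c000030000000000200001be001ff0007f80002800000000000000000000000000000000000) (nat_lit 11)
theorem c102850 : QOK q102850 := cut [q79132, q79971, q102838, q102849] ⟨c79132, c79971, c102838, c102849, trivial⟩ (nd (nat_lit 187) (nat_lit 0) (cs (rf (nat_lit 0)) (cs (rf (nat_lit 1)) (cs (rf (nat_lit 2)) (rf (nat_lit 3)))))) q102850 (by decide +kernel)
def q102855 : Q := Q.p (nat_lit 0xf000010000000000000000000000000000000000000000000000000000000000) (nat_lit 0x1ce00070000060000000000000000000000000000000000000000000000000000000000) (nat_lit 6)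
theorem c102855 : QOK q102855 := cut [q102854] ⟨c102854, trivial⟩ (nd (nat_lit 274) (nat_lit 0) (cs (lf (nat_lit 11) (nat_lit 251)) (rf (nat_lit 0)))) q102855 (by decide +kernel)
def q102860 : Q := Q.p (nat_lit 0xf000000000000000000000000000000000000000000000000000000000000000) (nat_lit 0x200000e00010000006000010000040000000000000000000000000000000000000000000000) (nat_lit 5)
theorem c102860 : QOK q102860 := cut [q79072] ⟨c79072, trivial⟩ (nd (nat_lit 230) (nat_lit 0) (cs (rf (nat_lit 0)) (lf (nat_lit 23) (nat_lit 229)))) q102860 (by decide +kernel)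
def q102866 : Q := Q.p (nat_lit 0x7000002000000000000000000000000000000000000000000000000000000000) (nat_lit 0x100000700008800001000008000020000000000000000000000000000000000000000000000) (nat_lit 5)
theorem c102866 : QOK q102866 := cut [q93916] ⟨c93916, trivial⟩ (nd (nat_lit 251) (nat_lit 0) (cs (lf (nat_lit 23) (nat_lit 228)) (rf (nat_lit 0)))) q102866 (by decide +kernel)
def q102886 : Q := Q.p (nat_lit 0x7800000000000000000000000000000000000000000000000000000000000000) (nat_lit 0x80003300008000007000010000040000000000000000000000000000000000000000000000) (nat_lit 6)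
theorem c102886 : QOK q102886 := cut [q92326] ⟨c92326, trivial⟩ (nd (nat_lit 276) (nat_lit 0) (cs (lf (nat_lit 5) (nat_lit 251)) (rf (nat_lit 0)))) q102886 (by decide +kernel)
def q102898 : Q := Q.p (nat_lit 0x6000010000040000000000000000000000000000000000000000000000000000) (nat_lit 0x600003e0000fc000ff000380000200000a0000280000000000000000000000000000000000000000000000) (nat_lit 11)
theorem c102898 : QOK q102898 := cut [q102820, q102832, q102835, q102896] ⟨c102820, c102832, c102835, c102896, trivial⟩ (nd (nat_lit 276) (nat_lit 0) (cs (rf (nat_lit 0)) (cs (rf (nat_lit 1)) (cs (rf (nat_lit 2)) (nd (nat_lit 187) (nat_lit 0) (cs (lf (nat_lit 46) (nat_lit 187)) (rf (nat_lit 3)))))))) q102898 (by decide +kernel)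
def q102901 : Q := Q.p (nat_lit 0x1800007800000000000000000000000000000000000000000000000000000000000000) (nat_lit 0x40000120000cc0000700008000004000010000000000000000000000000000000000000000000000000000) (nat_lit 7)
theorem c102901 : QOK q102901 := cut [q89806] ⟨c89806, trivial⟩ (nd (nat_lit 273) (nat_lit 0) (cs (lf (nat_lit 11) (nat_lit 250)) (nd (nat_lit 274) (nat_lit 0) (cs (lf (nat_lit 17) (nat_lit 251)) (rf (nat_lit 0)))))) q102901 (by decide +kernel)
def q103051 : Q := Q.p (nat_lit 0x6000030000040000000000000000000000000000000000000000000000000000) (nat_lit 0x6000018000318001c00007b0001ec0003e0000e000000000000000000000000000000000000) (nat_lit 12)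
theorem c103051 : QOK q103051 := cut [q93190, q81504, q103029] ⟨c93190, c81504, c103029, trivial⟩ (nd (nat_lit 211) (nat_lit 0) (cs (rf (nat_lit 0)) (cs (nd (nat_lit 251) (nat_lit 0) (cs (lf (nat_lit 13) (nat_lit 229)) (nd (nat_lit 276) (nat_lit 0) (cs (lf (nat_lit 30) (nat_lit 210)) (rf (nat_lit 1)))))) (nd (nat_lit 212) (nat_lit 0) (cs (rf (nat_lit 2)) (cs (nd (nat_lit 234) (nat_lit 0) (cs (lf (nat_lit 6) (nat_lit 231)) (nd (nat_lit 209) (nat_lit 0) (cs (lf (nat_lit 0) (nat_lit 208)) (nd (nat_lit 251) (nat_lit 0) (cs (lf (nat_lit 13) (nat_lit 229)) (nd (nat_lit 186) (nat_lit 0) (cs (lf (nat_lit 22) (nat_lit 186)) (nd (nat_lit 190) (nat_lit 0) (cs (lf (nat_lit 17) (nat_lit 187)) (nd (nat_lit 168) (nat_lit 0) (cs (lf (nat_lit 36) (nat_lit 145)) (nd (nat_lit 167) (nat_lit 0) (cs (lf (nat_lit 47) (nat_lit 145)) (lf (nat_lit 37) (nat_lit 166)))))))))))))))) (cs (nd (nat_lit 167) (nat_lit 0) (cs (lf (nat_lit 37) (nat_lit 166)) (nd (nat_lit 251) (nat_lit 0) (cs (lf (nat_lit 13) (nat_lit 229)) (nd (nat_lit 213)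 (nat_lit 0) (cs (lf (nat_lit 6) (nat_lit 210)) (nd (nat_lit 191) (nat_lit 0) (cs (lf (nat_lit 17) (nat_lit 188)) (nd (nat_lit 190) (nat_lit 0) (cs (lf (nat_lit 12) (nat_lit 187)) (nd (nat_lit 168) (nat_lit 0) (cs (lf (nat_lit 36) (nat_lit 145)) (nd (nat_lit 165) (nat_lit 0) (cs (nd (nat_lit 234) (nat_lit 0) (cs (lf (nat_lit 47) (nat_lit 145)) (nd (nat_lit 169) (nat_lit 0) (cs (lf (nat_lit 35) (nat_lit 146)) (lf (nat_lit 30) (nat_lit 168)))))) (lf (nat_lit 1) (nat_lit 165)))))))))))))))) (nd (nat_lit 213) (nat_lit 0) (cs (lf (nat_lit 6) (nat_lit 210)) (nd (nat_lit 235) (nat_lit 0) (cs (lf (nat_lit 5) (nat_lit 210)) (lf (nat_lit 7) (nat_lit 231))))))))))))) q103051 (by decide +kernel)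
def q103081 : Q := Q.p (nat_lit 0x6000010000040000000000000000000000000000000000000000000000000000) (nat_lit 0x4000010000098000e00000b0000f80000e0000380000a000000000000000000000000000000) (nat_lit 10)
theorem c103081 : QOK q103081 := cut [q102826, q103057, q103074] ⟨c102826, c103057, c103074, trivial⟩ (nd (nat_lit 188) (nat_lit 0) (cs (rf (nat_lit 0)) (cs (nd (nat_lit 165) (nat_lit 0) (cs (lf (nat_lit 46) (nat_lit 165)) (nd (nat_lit 166) (nat_lit 0) (cs (lf (nat_lit 47) (nat_lit 143)) (nd (nat_lit 145) (nat_lit 0) (cs (lf (nat_lit 34) (nat_lit 144)) (nd (nat_lit 144) (nat_lit 0) (cs (lf (nat_lit 35) (nat_lit 122)) (rf (nat_lit 1)))))))))) (cs (nd (nat_lit 167) (nat_lit 0) (cs (lf (nat_lit 34) (nat_lit 166)) (nd (nat_lit 166) (nat_lit 0) (cs (lf (nat_lit 35) (nat_lit 144)) (nd (nat_lit 143) (nat_lit 0) (cs (lf (nat_lit 46) (nat_lit 143)) (nd (nat_lit 144) (nat_lit 0) (cs (lf (nat_lit 47) (nat_lit 121)) (rf (nat_lit 1)))))))))) (cs (nd (nat_lit 165) (nat_lit 0) (cs (lf (nat_lit 46) (nat_lit 165)) (nd (nat_lit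 166) (nat_lit 0) (cs (lf (nat_lit 47) (nat_lit 143)) (nd (nat_lit 233) (nat_lit 0) (cs (lf (nat_lit 29) (nat_lit 166)) (nd (nat_lit 251) (nat_lit 0) (cs (lf (nat_lit 13) (nat_lit 229)) (nd (nat_lit 234) (nat_lit 0) (cs (lf (nat_lit 6) (nat_lit 231)) (nd (nat_lit 211) (nat_lit 0) (cs (lf (nat_lit 24) (nat_lit 144)) (nd (nat_lit 276) (nat_lit 0) (cs (lf (nat_lit 30) (nat_lit 210)) (lf (nat_lit 35) (nat_lit 188)))))))))))))))) (nd (nat_lit 167) (nat_lit 0) (cs (lf (nat_lit 34) (nat_lit 166)) (nd (nat_lit 166) (nat_lit 0) (cs (lf (nat_lit 35) (nat_lit 144)) (nd (nat_lit 233) (nat_lit 0) (cs (lf (nat_lit 29) (nat_lit 166)) (nd (nat_lit 251) (nat_lit 0) (cs (lf (nat_lit 13) (nat_lit 229)) (nd (nat_lit 234) (nat_lit 0) (cs (lf (nat_lit 6) (nat_lit 231)) (nd (nat_lit 211) (nat_lit 0) (cs (lf (nat_lit 24) (nat_lit 144)) (rf (nat_lit 2))))))))))))))))))) q103081 (by decide +kernel)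
def q103130 : Q := Q.p (nat_lit 0x2000018000000000000000000000000000000000000000000000000000000000) (nat_lit 0xa00002800079c000e60007dc000640001000004000000000000000000000000000000000000) (nat_lit 7)
theorem c103130 : QOK q103130 := cut [q102743, q103108, q103128, q103129] ⟨c102743, c103108, c103128, c103129, trivial⟩ (nd (nat_lit 233) (nat_lit 0) (cs (rf (nat_lit 0)) (cs (rf (nat_lit 1)) (cs (rf (nat_lit 2)) (rf (nat_lit 3)))))) q103130 (by decide +kernel)
def q103131 : Q := Q.p (nat_lit 0x800002000018000000000000000000000000000000000000000000000000000000000) (nat_lit 0x500001c0000700000000000000000000040000000000000000000000000000000000000000000000000000) (nat_lit 5)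
theorem c103131 : QOK q103131 := cut [q84365] ⟨c84365, trivial⟩ (nd (nat_lit 297) (nat_lit 0) (cs (lf (nat_lit 35) (nat_lit 209)) (rf (nat_lit 0)))) q103131 (by decide +kernel)
def q103133 : Q := Q.p (nat_lit 0x800002000018000000000000000000000000000000000000000000000000000000000) (nat_lit 0x50000140000100002000007c0001c0000500000000000000000000000000000000000000000) (nat_lit 6)
theorem c103133 : QOK q103133 := cut [q96325, q97348, q103132] ⟨c96325, c97348, c103132, trivial⟩ (nd (nat_lit 209) (nat_lit 0) (cs (rf (nat_lit 0)) (cs (rf (nat_lit 1)) (rf (nat_lit 2))))) q103133 (by decide +kernel)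
def q103149 : Q := Q.p (nat_lit 0x800002000008000000000000000000000000000000000000000000000000000000000) (nat_lit 0x50000140000f80007700039c00002000028000000000000000000000000000000000000000000000000000) (nat_lit 11)
theorem c103149 : QOK q103149 := cut [q97581, q97586, q103134, q14626, q22378, q18118, q17081, q15828] ⟨c97581, c97586, c103134, c14626, c22378, c18118, c17081, c15828, trivial⟩ (nd (nat_lit 296) (nat_lit 0) (cs (rf (nat_lit 0)) (cs (rf (nat_lit 1)) (cs (nd (nat_lit 276) (nat_lit 0) (cs (nd (nat_lit 298) (nat_lit 0) (cs (lf (nat_lit 24) (nat_lit 209)) (rf (nat_lit 2)))) (cs (nd (nat_lit 274) (nat_lit 0) (cs (lf (nat_lit 36) (nat_lit 208)) (rf (nat_lit 3)))) (nd (nat_lit 277) (nat_lit 0) (cs (rf (nat_lit 4)) (cs (nd (nat_lit 252) (nat_lit 0) (cs (lf (nat_lit 18) (nat_lit 252)) (nd (nat_lit 274) (nat_lit 0) (cs (lf (nat_lit 23) (nat_lit 251)) (lf (nat_lit 11) (nat_lit 273)))))) (cs (nd (nat_lit 274) (nat_lit 0) (cs (lf (nat_lit 11) (nat_lit 273)) (nd (nat_lit 255) (nat_lit 0) (cs (lf (nat_lit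 17) (nat_lit 252)) (nd (nat_lit 251) (nat_lit 0) (cs (lf (nat_lit 22) (nat_lit 251)) (nd (nat_lit 273) (nat_lit 0) (cs (lf (nat_lit 23) (nat_lit 250)) (nd (nat_lit 207) (nat_lit 0) (cs (lf (nat_lit 25) (nat_lit 207)) (nd (nat_lit 298) (nat_lit 0) (cs (lf (nat_lit 5) (nat_lit 273)) (rf (nat_lit 5)))))))))))))) (nd (nat_lit 274) (nat_lit 0) (cs (lf (nat_lit 11) (nat_lit 273)) (rf (nat_lit 6))))))))))) (nd (nat_lit 274) (nat_lit 0) (cs (lf (nat_lit 36) (nat_lit 208)) (rf (nat_lit 7)))))))) q103149 (by decide +kernel)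
def q103206 : Q := Q.p (nat_lit 0x2000018000000000000000000000000000000000000000000000000000000000) (nat_lit 0x1f0000fc0007f00079f000e78007be0001c0000700001c00001000000000000000000000000000000) (nat_lit 16)
theorem c103206 : QOK q103206 := cut [q103108, q103129, q103153, q102734, q22540, q102059, q103156, q91239, q81896, q96325, q81899, q97858, q22574, q80750, q92088, q103184, q21953, q96476] ⟨c103108, c103129, c103153, c102734, c22540, c102059, c103156, c91239, c81896, c96325, c81899, c97858, c22574, c80750, c92088, c103184, c21953, c96476, trivial⟩ (nd (nat_lit 233) (nat_lit 0) (cs (rf (nat_lit 0)) (cs (rf (nat_lit 1)) (cs (rf (nat_lit 2)) (nd (nat_lit 230) (nat_lit 0) (cs (rf (nat_lit 3)) (cs (nd (nat_lit 229) (nat_lit 0) (cs (rf (nat_lit 4)) (cs (rf (nat_lit 5)) (cs (nd (nat_lit 255) (nat_lit 0) (cs (lf (nat_lit 5) (nat_lit 230)) (nd (nat_lit 211) (nat_lit 0) (cs (lf (nat_lit 17) (nat_lit 208)) (rf (nat_lit 6)))))) (nd (nat_lit 252) (nat_lit 0) (cs (lf (nat_lit 11) (nat_lit 229)) (rf (nat_lit 7))))))))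 (nd (nat_lit 275) (nat_lit 0) (cs (nd (nat_lit 251) (nat_lit 0) (cs (lf (nat_lit 10) (nat_lit 229)) (nd (nat_lit 229) (nat_lit 0) (cs (lf (nat_lit 11) (nat_lit 228)) (nd (nat_lit 208) (nat_lit 0) (cs (lf (nat_lit 42) (nat_lit 208)) (nd (nat_lit 186) (nat_lit 0) (cs (lf (nat_lit 45) (nat_lit 186)) (lf (nat_lit 36) (nat_lit 163)))))))))) (cs (nd (nat_lit 255) (nat_lit 0) (cs (lf (nat_lit 5) (nat_lit 230)) (nd (nat_lit 211) (nat_lit 0) (cs (lf (nat_lit 17) (nat_lit 208)) (rf (nat_lit 8)))))) (cs (nd (nat_lit 209) (nat_lit 0) (cs (rf (nat_lit 9)) (cs (nd (nat_lit 187) (nat_lit 0) (cs (rf (nat_lit 10)) (cs (nd (nat_lit 276) (nat_lit 0) (cs (lf (nat_lit 29) (nat_lit 209)) (nd (nat_lit 274) (nat_lit 0) (cs (lf (nat_lit 41) (nat_lit 208)) (nd (nat_lit 166) (nat_lit 0) (cs (lf (nat_lit 34) (nat_lit 165)) (nd (nat_lit 165) (nat_lit 0) (cs (lf (nat_lit 35) (nat_lit 143)) (nd (nat_lit 255) (nat_lit 0) (cs (lf (nat_lit 5) (nat_lit 230)) (rf (nat_lit 11)))))))))))) (cs (nd (nat_lit 255) (nat_lit 0) (cs (lf (nat_lit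 5) (nat_lit 230)) (nd (nat_lit 208) (nat_lit 0) (cs (lf (nat_lit 47) (nat_lit 186)) (nd (nat_lit 276) (nat_lit 0) (cs (lf (nat_lit 29) (nat_lit 209)) (rf (nat_lit 12)))))))) (nd (nat_lit 274) (nat_lit 0) (cs (lf (nat_lit 41) (nat_lit 208)) (nd (nat_lit 255) (nat_lit 0) (cs (lf (nat_lit 5) (nat_lit 230)) (nd (nat_lit 276) (nat_lit 0) (cs (lf (nat_lit 29) (nat_lit 209)) (rf (nat_lit 13)))))))))))) (cs (nd (nat_lit 186) (nat_lit 0) (cs (lf (nat_lit 46) (nat_lit 186)) (nd (nat_lit 255) (nat_lit 0) (cs (lf (nat_lit 5) (nat_lit 230)) (nd (nat_lit 276) (nat_lit 0) (cs (lf (nat_lit 29) (nat_lit 209)) (nd (nat_lit 252) (nat_lit 0) (cs (lf (nat_lit 11) (nat_lit 229)) (rf (nat_lit 14)))))))))) (nd (nat_lit 274) (nat_lit 0) (cs (lf (nat_lit 41) (nat_lit 208)) (nd (nat_lit 255) (nat_lit 0) (cs (lf (nat_lit 5) (nat_lit 230)) (nd (nat_lit 276) (nat_lit 0) (cs (lf (nat_lit 29) (nat_lit 209)) (rf (nat_lit 15)))))))))))) (cs (nd (nat_lit 255) (nat_lit 0) (cs (lf (nat_lit 5) (nat_lit 230)) (nd (nat_lit 211) (nat_lit 0) (cs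 (lf (nat_lit 17) (nat_lit 208)) (nd (nat_lit 252) (nat_lit 0) (cs (lf (nat_lit 11) (nat_lit 229)) (nd (nat_lit 297) (nat_lit 0) (cs (lf (nat_lit 42) (nat_lit 230)) (rf (nat_lit 16)))))))))) (nd (nat_lit 251) (nat_lit 0) (cs (lf (nat_lit 10) (nat_lit 229)) (nd (nat_lit 229) (nat_lit 0) (cs (lf (nat_lit 11) (nat_lit 228)) (nd (nat_lit 255) (nat_lit 0) (cs (lf (nat_lit 5) (nat_lit 230)) (nd (nat_lit 211) (nat_lit 0) (cs (lf (nat_lit 17) (nat_lit 208)) (nd (nat_lit 297) (nat_lit 0) (cs (lf (nat_lit 47) (nat_lit 208)) (nd (nat_lit 296) (nat_lit 0) (cs (lf (nat_lit 41) (nat_lit 230)) (nd (nat_lit 298) (nat_lit 0) (cs (lf (nat_lit 29) (nat_lit 231)) (nd (nat_lit 277) (nat_lit 0) (cs (lf (nat_lit 40) (nat_lit 210)) (nd (nat_lit 299) (nat_lit 0) (cs (lf (nat_lit 17) (nat_lit 274)) (nd (nat_lit 273) (nat_lit 0) (cs (lf (nat_lit 22) (nat_lit 273)) (nd (nat_lit 295) (nat_lit 0) (cs (lf (nat_lit 23) (nat_lit 272)) (rf (nat_lit 17)))))))))))))))))))))))))))))))))))) q103206 (by decide +kernel)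
def q103339 : Q := Q.p (nat_lit 0x6000018000020000000000000000000000000000000000000000000000000000) (nat_lit 0xc0000700001c0000000006400001c000040000000000000000000000000000000000000000000000) (nat_lit 5)
theorem c103339 : QOK q103339 := cut [q79299, q79297] ⟨c79299, c79297, trivial⟩ (nd (nat_lit 275) (nat_lit 0) (cs (rf (nat_lit 0)) (nd (nat_lit 276) (nat_lit 0) (cs (lf (nat_lit 42) (nat_lit 209)) (rf (nat_lit 1)))))) q103339 (by decide +kernel)
def q103341 : Q := Q.p (nat_lit 0x200001c000000000000000000000000000000000000000000000000000000000) (nat_lit 0x2000048000740000e00007b8000240000900000000000000000000000000000000000000000) (nat_lit 7)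
theorem c103341 : QOK q103341 := cut [q102734, q102740] ⟨c102734, c102740, trivial⟩ (nd (nat_lit 233) (nat_lit 0) (cs (rf (nat_lit 0)) (rf (nat_lit 1)))) q103341 (by decide +kernel)
def q103343 : Q := Q.p (nat_lit 0x800006000008000020000000000000000000000000000000000000000000000000000) (nat_lit 0x500001600018000000000010000040000000000000000000000000000000000000000000000) (nat_lit 5)
theorem c103343 : QOK q103343 := cut [q79292] ⟨c79292, trivial⟩ (nd (nat_lit 276) (nat_lit 0) (cs (lf (nat_lit 29) (nat_lit 209)) (rf (nat_lit 0)))) q103343 (by decide +kernel)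
def q103351 : Q := Q.p (nat_lit 0x600001c000000000000000000000000000000000000000000000000000000000) (nat_lit 0x10000380000e0000380000200000800000000000000000000000000000000000000000) (nat_lit 5)
theorem c103351 : QOK q103351 := cut [q79322, q79327, q103350] ⟨c79322, c79327, c103350, trivial⟩ (nd (nat_lit 233) (nat_lit 0) (cs (rf (nat_lit 0)) (cs (rf (nat_lit 1)) (rf (nat_lit 2))))) q103351 (by decide +kernel)
def q103413 : Q := Q.p (nat_lit 0x7000018000000000000000000000000000000000000000000000000000000000) (nat_lit 0x400003000000c00003000020000080000000000000000000000000000000000000000000000) (nat_lit 5)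
theorem c103413 : QOK q103413 := cut [q79202] ⟨c79202, trivial⟩ (nd (nat_lit 251) (nat_lit 0) (cs (lf (nat_lit 12) (nat_lit 228)) (rf (nat_lit 0)))) q103413 (by decide +kernel)
def q103417 : Q := Q.p (nat_lit 0x7000018000000000000000000000000000000000000000000000000000000000) (nat_lit 0x20000090000660001800000700003c0000a0000080000000000000000000000000000000000000000) (nat_lit 7)
theorem c103417 : QOK q103417 := cut [q79307, q80216, q79098] ⟨c79307, c80216, c79098, trivial⟩ (nd (nat_lit 230) (nat_lit 0) (cs (rf (nat_lit 0)) (cs (rf (nat_lit 1)) (nd (nat_lit 255) (nat_lit 0) (cs (lf (nat_lit 18) (nat_lit 230)) (nd (nat_lit 277) (nat_lit 0) (cs (lf (nat_lit 5) (nat_lit 252)) (nd (nat_lit 299) (nat_lit 0) (cs (rf (nat_lit 2)) (lf (nat_lit 42) (nat_lit 232))))))))))) q103417 (by decide +kernel)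
def q103418 : Q := Q.p (nat_lit 0x7000018000000000000000000000000000000000000000000000000000000000) (nat_lit 0x400003300000c00000000020000080000000000000000000000000000000000000000000000) (nat_lit 5)
theorem c103418 : QOK q103418 := cut [q79183] ⟨c79183, trivial⟩ (nd (nat_lit 251) (nat_lit 0) (cs (lf (nat_lit 12) (nat_lit 228)) (rf (nat_lit 0)))) q103418 (by decide +kernel)
def q103419 : Q := Q.p (nat_lit 0x7800018000000000000000000000000000000000000000000000000000000000) (nat_lit 0x40000800000700000c000020000080000000000000000000000000000000000000000) (nat_lit 5)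
theorem c103419 : QOK q103419 := cut [q100356] ⟨c100356, trivial⟩ (nd (nat_lit 229) (nat_lit 0) (cs (lf (nat_lit 23) (nat_lit 228)) (rf (nat_lit 0)))) q103419 (by decide +kernel)
def q103430 : Q := Q.p (nat_lit 0x6000018000000000000000000000000000000000000000000000000000000000) (nat_lit 0x4000010000ef00039c000c7000020000080000000000000000000000000000000000000000000000) (nat_lit 7)
theorem c103430 : QOK q103430 := cut [q79626, q103424, q97811, q103426, q82664] ⟨c79626, c103424, c97811, c103426, c82664, trivial⟩ (nd (nat_lit 255) (nat_lit 0) (cs (rf (nat_lit 0)) (cs (rf (nat_lit 1)) (nd (nat_lit 252) (nat_lit 0) (cs (rf (nat_lit 2)) (cs (rf (nat_lit 3)) (nd (nat_lit 274) (nat_lit 0) (cs (lf (nat_lit 11) (nat_lit 251)) (nd (nat_lit 229) (nat_lit 0) (cs (lf (nat_lit 22) (nat_lit 229)) (rf (nat_lit 4)))))))))))) q103430 (by decide +kernel)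
def q103431 : Q := Q.p (nat_lit 0x40000300000c000000000000000000000000000000000000000000000000000000000) (nat_lit 0xc0000300000800000000000000018000060000180000000000000000000000000000000000000000) (nat_lit 6)
theorem c103431 : QOK q103431 := cut [q86679] ⟨c86679, trivial⟩ (nd (nat_lit 296) (nat_lit 0) (cs (lf (nat_lit 30) (nat_lit 230)) (rf (nat_lit 0)))) q103431 (by decide +kernel)
def q103472 : Q := Q.p (nat_lit 0x6000018000000000000000000000000000000000000000000000000000000000) (nat_lit 0xc4000fb00039c000c700013c0005f00007c0000500000000000000000000000000000000000) (nat_lit 11)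
theorem c103472 : QOK q103472 := cut [q102052, q79193, q103438, q102042, q85321, q103450, q78671, q96888, q5313, q1827, q103470] ⟨c102052, c79193, c103438, c102042, c85321, c103450, c78671, c96888, c5313, c1827, c103470, trivial⟩ (nd (nat_lit 229) (nat_lit 0) (cs (rf (nat_lit 0)) (cs (nd (nat_lit 209) (nat_lit 0) (cs (rf (nat_lit 1)) (cs (nd (nat_lit 187) (nat_lit 0) (cs (lf (nat_lit 24) (nat_lit 165)) (nd (nat_lit 166) (nat_lit 0) (cs (lf (nat_lit 34) (nat_lit 165)) (nd (nat_lit 186) (nat_lit 0) (cs (lf (nat_lit 47) (nat_lit 164)) (nd (nat_lit 208) (nat_lit 0) (cs (lf (nat_lit 42) (nat_lit 186)) (nd (nat_lit 207) (nat_lit 0) (cs (lf (nat_lit 0) (nat_lit 206)) (nd (nat_lit 251) (nat_lit 0) (cs (lf (nat_lit 30) (nat_lit 185)) (rf (nat_lit 2)))))))))))))) (nd (nat_lit 251) (nat_lit 0) (cs (rf (nat_lit 2)) (cs (nd (nat_lit 276) (nat_lit 0) (cs (lf (nat_lit 42) (nat_lit 209)) (nd (nat_lit 252) (nat_lit 0) (cs (lf (nat_lit 5) (nat_lit 251)) (lf (nat_lit 23) (nat_lit 228)))))) (cs (nd (nat_lit 276) (nat_lit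 0) (cs (lf (nat_lit 42) (nat_lit 209)) (rf (nat_lit 3)))) (nd (nat_lit 207) (nat_lit 0) (cs (nd (nat_lit 206) (nat_lit 0) (cs (rf (nat_lit 4)) (lf (nat_lit 2) (nat_lit 206)))) (cs (nd (nat_lit 185) (nat_lit 0) (cs (nd (nat_lit 276) (nat_lit 0) (cs (lf (nat_lit 42) (nat_lit 209)) (rf (nat_lit 5)))) (nd (nat_lit 186) (nat_lit 0) (cs (lf (nat_lit 35) (nat_lit 163)) (nd (nat_lit 208) (nat_lit 0) (cs (lf (nat_lit 42) (nat_lit 186)) (lf (nat_lit 30) (nat_lit 185)))))))) (cs (nd (nat_lit 185) (nat_lit 0) (cs (rf (nat_lit 6)) (cs (rf (nat_lit 7)) (cs (rf (nat_lit 5)) (nd (nat_lit 276) (nat_lit 0) (cs (lf (nat_lit 42) (nat_lit 209)) (nd (nat_lit 164) (nat_lit 0) (cs (lf (nat_lit 34) (nat_lit 163)) (nd (nat_lit 272) (nat_lit 0) (cs (lf (nat_lit 40) (nat_lit 184)) (nd (nat_lit 273) (nat_lit 0) (cs (lf (nat_lit 41) (nat_lit 206)) (rf (nat_lit 8)))))))))))))) (nd (nat_lit 276) (nat_lit 0) (cs (lf (nat_lit 42) (nat_lit 209)) (nd (nat_lit 208) (nat_lit 0) (cs (lf (nat_lit 0) (nat_lit 206)) (nd (nat_lit 186) (nat_lit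 0) (cs (lf (nat_lit 42) (nat_lit 186)) (rf (nat_lit 9))))))))))))))))))) (nd (nat_lit 255) (nat_lit 0) (cs (lf (nat_lit 1) (nat_lit 229)) (rf (nat_lit 10))))))) q103472 (by decide +kernel)
def q103473 : Q := Q.p (nat_lit 0x7000018000000000000000000000000000000000000000000000000000000000) (nat_lit 0x400008c0000700000c000020000080000000000000000000000000000000000000000) (nat_lit 6)
theorem c103473 : QOK q103473 := cut [q101853] ⟨c101853, trivial⟩ (nd (nat_lit 251) (nat_lit 0) (cs (lf (nat_lit 12) (nat_lit 228)) (rf (nat_lit 0)))) q103473 (by decide +kernel)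
def q103480 : Q := Q.p (nat_lit 0x7000018000000000000000000000000000000000000000000000000000000000) (nat_lit 0x180000700001c0001800000700003c0000e0000280000000000000000000000000000000000000000) (nat_lit 8)
theorem c103480 : QOK q103480 := cut [q79307, q80216, q103479] ⟨c79307, c80216, c103479, trivial⟩ (nd (nat_lit 230) (nat_lit 0) (cs (rf (nat_lit 0)) (cs (rf (nat_lit 1)) (rf (nat_lit 2))))) q103480 (by decide +kernel)
def q103516 : Q := Q.p (nat_lit 0x7000010000000000000000000000000000000000000000000000000000000000) (nat_lit 0x80000780008c0000f00001c000060000080000000000000000000000000000000000000000) (nat_lit 7)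
theorem c103516 : QOK q103516 := cut [q80331, q92326, q101853] ⟨c80331, c92326, c101853, trivial⟩ (nd (nat_lit 251) (nat_lit 0) (cs (rf (nat_lit 0)) (cs (rf (nat_lit 1)) (nd (nat_lit 231) (nat_lit 0) (cs (lf (nat_lit 12) (nat_lit 228)) (rf (nat_lit 2))))))) q103516 (by decide +kernel)
def q103590 : Q := Q.p (nat_lit 0xf000010000000000000000000000000000000000000000000000000000000000) (nat_lit 0x300000c00007600000000060000180000600001800000000000000000000000000000000000000000) (nat_lit 9)
theorem c103590 : QOK q103590 := cut [q80974] ⟨c80974, trivial⟩ (nd (nat_lit 277) (nat_lit 0) (cs (lf (nat_lit 5) (nat_lit 252)) (nd (nat_lit 299) (nat_lit 0) (cs (lf (nat_lit 42) (nat_lit 232)) (nd (nat_lit 273) (nat_lit 0) (cs (lf (nat_lit 10) (nat_lit 251)) (nd (nat_lit 233) (nat_lit 0) (cs (lf (nat_lit 17) (nat_lit 230)) (rf (nat_lit 0)))))))))) q103590 (by decide +kernel)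
def q103606 : Q := Q.p (nat_lit 0xf000010000000000000000000000000000000000000000000000000000000000) (nat_lit 0x100001000006e000180000200000800000000000000000000000000000000000000000) (nat_lit 6)
theorem c103606 : QOK q103606 := cut [q103604] ⟨c103604, trivial⟩ (nd (nat_lit 230) (nat_lit 0) (cs (lf (nat_lit 23) (nat_lit 229)) (nd (nat_lit 233) (nat_lit 0) (cs (lf (nat_lit 17) (nat_lit 230)) (rf (nat_lit 0)))))) q103606 (by decide +kernel)
def q103612 : Q := Q.p (nat_lit 0x7000010000000000000000000000000000000000000000000000000000000000) (nat_lit 0x7f80008c0000b800000000000000000000000000000000000000000000000000000000) (nat_lit 5)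
theorem c103612 : QOK q103612 := cut [q79024, q80331, q103009] ⟨c79024, c80331, c103009, trivial⟩ (nd (nat_lit 251) (nat_lit 0) (cs (rf (nat_lit 0)) (cs (rf (nat_lit 1)) (rf (nat_lit 2))))) q103612 (by decide +kernel)
def q103623 : Q := Q.p (nat_lit 0x7000010000000000000000000000000000000000000000000000000000000000) (nat_lit 0x400003000000c00028000020000080000000000000000000000000000000000000000000000) (nat_lit 5)
theorem c103623 : QOK q103623 := cut [q90252] ⟨c90252, trivial⟩ (nd (nat_lit 251) (nat_lit 0) (cs (lf (nat_lit 17) (nat_lit 229)) (rf (nat_lit 0)))) q103623 (by decide +kernel)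
def q103636 : Q := Q.p (nat_lit 0xf000010000000000000000000000000000000000000000000000000000000000) (nat_lit 0x300000c00007000000000066000180000600001800000000000000000000000000000000000000000) (nat_lit 9)
theorem c103636 : QOK q103636 := cut [q80974] ⟨c80974, trivial⟩ (nd (nat_lit 233) (nat_lit 0) (cs (lf (nat_lit 17) (nat_lit 230)) (nd (nat_lit 277) (nat_lit 0) (cs (lf (nat_lit 5) (nat_lit 252)) (nd (nat_lit 299) (nat_lit 0) (cs (lf (nat_lit 42) (nat_lit 232)) (nd (nat_lit 229) (nat_lit 0) (cs (lf (nat_lit 22) (nat_lit 229)) (rf (nat_lit 0)))))))))) q103636 (by decide +kernel)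
def q103666 : Q := Q.p (nat_lit 0x7000010000000000000000000000000000000000000000000000000000000000) (nat_lit 0x40000f700038c0000c000020000080000000000000000000000000000000000000000000000) (nat_lit 6)
theorem c103666 : QOK q103666 := cut [q90252, q103661, q98762, q81709] ⟨c90252, c103661, c98762, c81709, trivial⟩ (nd (nat_lit 273) (nat_lit 0) (cs (nd (nat_lit 251) (nat_lit 0) (cs (lf (nat_lit 11) (nat_lit 250)) (rf (nat_lit 0)))) (cs (nd (nat_lit 255) (nat_lit 0) (cs (lf (nat_lit 10) (nat_lit 251)) (rf (nat_lit 1)))) (cs (nd (nat_lit 251) (nat_lit 0) (cs (lf (nat_lit 11) (nat_lit 250)) (rf (nat_lit 2)))) (nd (nat_lit 251) (nat_lit 0) (cs (lf (nat_lit 11) (nat_lit 250)) (nd (nat_lit 231) (nat_lit 0) (cs (lf (nat_lit 12) (nat_lit 228)) (rf (nat_lit 3)))))))))) q103666 (by decide +kernel)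
def q103733 : Q := Q.p (nat_lit 0x6000018000000000000000000000000000000000000000000000000000000000) (nat_lit 0x2000038c000e70003fc0007e0001f80000000000000000000000000000000000000000) (nat_lit 13)
theorem c103733 : QOK q103733 := cut [q79307, q79326, q79322, q103350, q81708, q79491] ⟨c79307, c79326, c79322, c103350, c81708, c79491, trivial⟩ (nd (nat_lit 230) (nat_lit 0) (cs (rf (nat_lit 0)) (cs (rf (nat_lit 1)) (nd (nat_lit 233) (nat_lit 0) (cs (rf (nat_lit 2)) (cs (rf (nat_lit 3)) (nd (nat_lit 255) (nat_lit 0) (cs (rf (nat_lit 4)) (nd (nat_lit 211) (nat_lit 0) (cs (lf (nat_lit 17) (nat_lit 208)) (nd (nat_lit 189) (nat_lit 0) (cs (lf (nat_lit 36) (nat_lit 166)) (nd (nat_lit 207) (nat_lit 0) (cs (lf (nat_lit 22) (nat_lit 207)) (nd (nat_lit 168) (nat_lit 0) (cs (lf (nat_lit 34) (nat_lit 167)) (nd (nat_lit 188) (nat_lit 0) (cs (lf (nat_lit 47) (nat_lit 166)) (nd (nat_lit 210) (nat_lit 0) (cs (lf (nat_lit 42) (nat_lit 188)) (rf (nat_lit 5)))))))))))))))))))))) q103733 (by decide +kernel)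
def q103735 : Q := Q.p (nat_lit 0x80000e000038000000000000000000000000000000000000000000000000000000000) (nat_lit 0x60001c0000300000c00000000000000000000000000000000000000000) (nat_lit 5)
theorem c103735 : QOK q103735 := cut [q103734] ⟨c103734, trivial⟩ (nd (nat_lit 188) (nat_lit 0) (cs (lf (nat_lit 37) (nat_lit 187)) (rf (nat_lit 0)))) q103735 (by decide +kernel)
def q103767 : Q := Q.p (nat_lit 0x6000018000040000000000000000000000000000000000000000000000000000) (nat_lit 0x2000018000006000000000380000e00000000000000000000000000000000000000000) (nat_lit 6)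
theorem c103767 : QOK q103767 := cut [q79694] ⟨c79694, trivial⟩ (nd (nat_lit 188) (nat_lit 0) (cs (lf (nat_lit 36) (nat_lit 165)) (nd (nat_lit 165) (nat_lit 0) (cs (lf (nat_lit 46) (nat_lit 165)) (rf (nat_lit 0)))))) q103767 (by decide +kernel)
def q103774 : Q := Q.p (nat_lit 0x6000018000040000000000000000000000000000000000000000000000000000) (nat_lit 0x2000018000006000000000180000600000000000000000000000000000000000000000) (nat_lit 5)
theorem c103774 : QOK q103774 := cut [q79702] ⟨c79702, trivial⟩ (nd (nat_lit 188) (nat_lit 0) (cs (lf (nat_lit 36) (nat_lit 165)) (rf (nat_lit 0)))) q103774 (by decide +kernel)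
def q103776 : Q := Q.p (nat_lit 0x6000018000040000000000000000000000000000000000000000000000000000) (nat_lit 0x10000000000000000a00003f0000f00000000000000000000000000000000000000000) (nat_lit 7)
theorem c103776 : QOK q103776 := cut [q96168] ⟨c96168, trivial⟩ (nd (nat_lit 188) (nat_lit 0) (cs (lf (nat_lit 36) (nat_lit 165)) (nd (nat_lit 167) (nat_lit 0) (cs (lf (nat_lit 34) (nat_lit 166)) (rf (nat_lit 0)))))) q103776 (by decide +kernel)
def q103786 : Q := Q.p (nat_lit 0x1000006000018000000000000000000000000000000000000000000000000000000000) (nat_lit 0x80000e0000000000260003e0000380000e00000000000000000000000000000000000000000) (nat_lit 8)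
theorem c103786 : QOK q103786 := cut [q79601, q103782, q97764] ⟨c79601, c103782, c97764, trivial⟩ (nd (nat_lit 210) (nat_lit 0) (cs (rf (nat_lit 0)) (cs (rf (nat_lit 1)) (nd (nat_lit 187) (nat_lit 0) (cs (lf (nat_lit 25) (nat_lit 187)) (nd (nat_lit 277) (nat_lit 0) (cs (lf (nat_lit 29) (nat_lit 210)) (nd (nat_lit 278) (nat_lit 0) (cs (lf (nat_lit 18) (nat_lit 253)) (rf (nat_lit 2))))))))))) q103786 (by decide +kernel)
def q103789 : Q := Q.p (nat_lit 0x6000018000000000000000000000000000000000000000000000000000000000) (nat_lit 0x300000c0000f0000000000e00003fc0003f0000e00000000000000000000000000000000000000000) (nat_lit 12)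
theorem c103789 : QOK q103789 := cut [q79181, q103781, q79601, q79623, q103782] ⟨c79181, c103781, c79601, c79623, c103782, trivial⟩ (nd (nat_lit 276) (nat_lit 0) (cs (rf (nat_lit 0)) (cs (rf (nat_lit 1)) (nd (nat_lit 210) (nat_lit 0) (cs (rf (nat_lit 2)) (cs (rf (nat_lit 3)) (rf (nat_lit 4)))))))) q103789 (by decide +kernel)
def q103809 : Q := Q.p (nat_lit 0x6000018000000000000000000000000000000000000000000000000000000000) (nat_lit 0x380000f0000f000018c0002700007e0003f0001fe0000000000000000000000000000000000000000) (nat_lit 11)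
theorem c103809 : QOK q103809 := cut [q79673, q79307, q103790, q79671, q103807] ⟨c79673, c79307, c103790, c79671, c103807, trivial⟩ (nd (nat_lit 187) (nat_lit 0) (cs (rf (nat_lit 0)) (cs (nd (nat_lit 230) (nat_lit 0) (cs (rf (nat_lit 1)) (cs (nd (nat_lit 229) (nat_lit 0) (cs (lf (nat_lit 0) (nat_lit 228)) (nd (nat_lit 250) (nat_lit 0) (cs (lf (nat_lit 10) (nat_lit 228)) (nd (nat_lit 207) (nat_lit 0) (cs (lf (nat_lit 23) (nat_lit 206)) (nd (nat_lit 208) (nat_lit 0) (cs (lf (nat_lit 18) (nat_lit 207)) (nd (nat_lit 186) (nat_lit 0) (cs (lf (nat_lit 24) (nat_lit 164)) (nd (nat_lit 188) (nat_lit 0) (cs (lf (nat_lit 6) (nat_lit 185)) (rf (nat_lit 2)))))))))))))) (nd (nat_lit 188) (nat_lit 0) (cs (rf (nat_lit 3)) (cs (rf (nat_lit 2)) (cs (nd (nat_lit 255) (nat_lit 0) (cs (lf (nat_lit 18) (nat_lit 230)) (nd (nat_lit 210) (nat_lit 0) (cs (lf (nat_lit 47) (nat_lit 165)) (lf (nat_lit 29) (nat_lit 188)))))) (nd (nat_lit 255) (nat_lit 0) (cs (lf (nat_lit 18) (nat_lit 230)) (nd (nat_lit 210) (nat_lit 0) (cs (lf (nat_lit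 36) (nat_lit 165)) (lf (nat_lit 29) (nat_lit 188))))))))))))) (nd (nat_lit 276) (nat_lit 0) (cs (lf (nat_lit 25) (nat_lit 187)) (rf (nat_lit 4))))))) q103809 (by decide +kernel)
def q103820 : Q := Q.p (nat_lit 0x6000018000040000000000000000000000000000000000000000000000000000) (nat_lit 0xc000030000180000e70003bc0000f0000300000000000000000000000000000000000000000) (nat_lit 10)
theorem c103820 : QOK q103820 := cut [q79193, q103771, q103819] ⟨c79193, c103771, c103819, trivial⟩ (nd (nat_lit 209) (nat_lit 0) (cs (rf (nat_lit 0)) (cs (rf (nat_lit 1)) (rf (nat_lit 2))))) q103820 (by decide +kernel)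
def q103857 : Q := Q.p (nat_lit 0x1c00006000000000000000000000000000000000000000000000000000000000000000) (nat_lit 0x400001c0002300000c00002000008000000000000000000000000000000000000000000000000000) (nat_lit 6)
theorem c103857 : QOK q103857 := cut [q103856] ⟨c103856, trivial⟩ (nd (nat_lit 273) (nat_lit 0) (cs (lf (nat_lit 12) (nat_lit 250)) (rf (nat_lit 0)))) q103857 (by decide +kernel)
def q103885 : Q := Q.p (nat_lit 0x1800006000008000000000000000000000000000000000000000000000000000000000) (nat_lit 0x1000006000180000000000300000c0000000000000000000000000000000000000000000000) (nat_lit 5)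
theorem c103885 : QOK q103885 := cut [q79292] ⟨c79292, trivial⟩ (nd (nat_lit 209) (nat_lit 0) (cs (lf (nat_lit 24) (nat_lit 187)) (rf (nat_lit 0)))) q103885 (by decide +kernel)
def q103901 : Q := Q.p (nat_lit 0x1000006000010000040000000000000000000000000000000000000000000000000000) (nat_lit 0x8000060000380000c000028000000000080000a0000280000000000000000000000000000000000000000000000) (nat_lit 8)
theorem c103901 : QOK q103901 := cut [q79588] ⟨c79588, trivial⟩ (nd (nat_lit 299) (nat_lit 0) (cs (lf (nat_lit 28) (nat_lit 210)) (nd (nat_lit 187) (nat_lit 0) (cs (lf (nat_lit 46) (nat_lit 187)) (nd (nat_lit 189) (nat_lit 0) (cs (lf (nat_lit 34) (nat_lit 188)) (rf (nat_lit 0)))))))) q103901 (by decide +kernel)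
def q103912 : Q := Q.p (nat_lit 0x6000010000040000000000000000000000000000000000000000000000000000) (nat_lit 0x600003e0000fc000ff00038000020000080000200000000000000000000000000000000000000000000000) (nat_lit 10)
theorem c103912 : QOK q103912 := cut [q102820, q102832, q102835, q102896] ⟨c102820, c102832, c102835, c102896, trivial⟩ (nd (nat_lit 276) (nat_lit 0) (cs (rf (nat_lit 0)) (cs (rf (nat_lit 1)) (cs (rf (nat_lit 2)) (rf (nat_lit 3)))))) q103912 (by decide +kernel)
def q103922 : Q := Q.p (nat_lit 0x1000006000010000040000000000000000000000000000000000000000000000000000) (nat_lit 0x80000e0000080003e80007b0001e80000000000000000000000000000000000000000000000) (nat_lit 9)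
theorem c103922 : QOK q103922 := cut [q79558, q79570, q79572] ⟨c79558, c79570, c79572, trivial⟩ (nd (nat_lit 211) (nat_lit 0) (cs (lf (nat_lit 35) (nat_lit 188)) (nd (nat_lit 212) (nat_lit 0) (cs (rf (nat_lit 0)) (cs (rf (nat_lit 1)) (cs (rf (nat_lit 2)) (nd (nat_lit 209) (nat_lit 0) (cs (lf (nat_lit 47) (nat_lit 187)) (nd (nat_lit 277) (nat_lit 0) (cs (lf (nat_lit 29) (nat_lit 210)) (nd (nat_lit 278) (nat_lit 0) (cs (lf (nat_lit 18) (nat_lit 253)) (nd (nat_lit 190) (nat_lit 0) (cs (lf (nat_lit 17) (nat_lit 187)) (nd (nat_lit 234) (nat_lit 0) (cs (lf (nat_lit 5) (nat_lit 209)) (nd (nat_lit 233) (nat_lit 0) (cs (lf (nat_lit 31) (nat_lit 189)) (lf (nat_lit 0) (nat_lit 208)))))))))))))))))))) q103922 (by decide +kernel)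
def q103987 : Q := Q.p (nat_lit 0x6000010000040000000000000000000000000000000000000000000000000000) (nat_lit 0x1000000000008000030000f80000e00002800000000000000000000000000000000000) (nat_lit 6)
theorem c103987 : QOK q103987 := cut [q79121, q102826, q103986] ⟨c79121, c102826, c103986, trivial⟩ (nd (nat_lit 188) (nat_lit 0) (cs (rf (nat_lit 0)) (cs (rf (nat_lit 1)) (rf (nat_lit 2))))) q103987 (by decide +kernel)
def q104000 : Q := Q.p (nat_lit 0xe000018000000000000000000000000000000000000000000000000000000000) (nat_lit 0x200000800007700001c00000000040000100000000000000000000000000000000000000000000000) (nat_lit 5)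
theorem c104000 : QOK q104000 := cut [q81028, q97811] ⟨c81028, c97811, trivial⟩ (nd (nat_lit 252) (nat_lit 0) (cs (rf (nat_lit 0)) (rf (nat_lit 1)))) q104000 (by decide +kernel)
def q104013 : Q := Q.p (nat_lit 0xe000018000000000000000000000000000000000000000000000000000000000) (nat_lit 0x200000900006700001c00007000060000180000000000000000000000000000000000000000000000) (nat_lit 8)
theorem c104013 : QOK q104013 := cut [q97811, q103426, q84958] ⟨c97811, c103426, c84958, trivial⟩ (nd (nat_lit 252) (nat_lit 0) (cs (rf (nat_lit 0)) (cs (rf (nat_lit 1)) (nd (nat_lit 277) (nat_lit 0) (cs (lf (nat_lit 5) (nat_lit 252)) (nd (nat_lit 299) (nat_lit 0) (cs (lf (nat_lit 42) (nat_lit 232)) (nd (nat_lit 188) (nat_lit 0) (cs (lf (nat_lit 25) (nat_lit 188)) (rf (nat_lit 2))))))))))) q104013 (by decide +kernel)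
def q104106 : Q := Q.p (nat_lit 0x2000018000040000000000000000000000000000000000000000000000000000) (nat_lit 0x280001c000006000000000380000e00000000000000000000000000000000000000000) (nat_lit 7)
theorem c104106 : QOK q104106 := cut [q79702] ⟨c79702, trivial⟩ (nd (nat_lit 188) (nat_lit 0) (cs (lf (nat_lit 36) (nat_lit 165)) (nd (nat_lit 254) (nat_lit 0) (cs (lf (nat_lit 41) (nat_lit 187)) (nd (nat_lit 167) (nat_lit 0) (cs (lf (nat_lit 34) (nat_lit 166)) (rf (nat_lit 0)))))))) q104106 (by decide +kernel)
def q104142 : Q := Q.p (nat_lit 0x800002000018000000000000000000000000000000000000000000000000000000000) (nat_lit 0x800002000010000040000040000700000c0000200000000000000000000000000000000000000000) (nat_lit 6)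
theorem c104142 : QOK q104142 := cut [q104141] ⟨c104141, trivial⟩ (nd (nat_lit 297) (nat_lit 0) (cs (lf (nat_lit 35) (nat_lit 209)) (rf (nat_lit 0)))) q104142 (by decide +kernel)
def q104183 : Q := Q.p (nat_lit 0x7000018000000000000000000000000000000000000000000000000000000000) (nat_lit 0x20000080000e0000780003e0000140000400000000000000000000000000000000000000000000000) (nat_lit 7)
theorem c104183 : QOK q104183 := cut [q102853, q103470, q103603, q104180] ⟨c102853, c103470, c103603, c104180, trivial⟩ (nd (nat_lit 255) (nat_lit 0) (cs (rf (nat_lit 0)) (cs (rf (nat_lit 1)) (cs (rf (nat_lit 2)) (rf (nat_lit 3)))))) q104183 (by decide +kernel)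
def q104218 : Q := Q.p (nat_lit 0x2000018000000000000000000000000000000000000000000000000000000000) (nat_lit 0x760007dc003e70007dc000700001c00007000010000000000000000000000000000000) (nat_lit 13)
theorem c104218 : QOK q104218 := cut [q97307, q101804, q102740, q102742, q102748, q22592, q102731, q102733, q57689, q101792, q104205, q85866] ⟨c97307, c101804, c102740, c102742, c102748, c22592, c102731, c102733, c57689, c101792, c104205, c85866, trivial⟩ (nd (nat_lit 233) (nat_lit 0) (cs (rf (nat_lit 0)) (cs (rf (nat_lit 1)) (cs (rf (nat_lit 2)) (cs (rf (nat_lit 3)) (cs (rf (nat_lit 4)) (nd (nat_lit 230) (nat_lit 0) (cs (rf (nat_lit 5)) (cs (rf (nat_lit 6)) (cs (rf (nat_lit 7)) (nd (nat_lit 211) (nat_lit 0) (cs (lf (nat_lit 17) (nat_lit 208)) (nd (nat_lit 189) (nat_lit 0) (cs (rf (nat_lit 8)) (cs (nd (nat_lit 207) (nat_lit 0) (cs (lf (nat_lit 22) (nat_lit 207)) (nd (nat_lit 251) (nat_lit 0) (cs (lf (nat_lit 10) (nat_lit 229)) (nd (nat_lit 255) (nat_lit 0) (cs (lf (nat_lit 5) (nat_lit 230)) (rf (nat_lit 9))))))))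 (cs (nd (nat_lit 207) (nat_lit 0) (cs (lf (nat_lit 22) (nat_lit 207)) (nd (nat_lit 251) (nat_lit 0) (cs (lf (nat_lit 10) (nat_lit 229)) (rf (nat_lit 10)))))) (nd (nat_lit 207) (nat_lit 0) (cs (lf (nat_lit 22) (nat_lit 207)) (nd (nat_lit 255) (nat_lit 0) (cs (lf (nat_lit 5) (nat_lit 230)) (nd (nat_lit 254) (nat_lit 0) (cs (lf (nat_lit 41) (nat_lit 188)) (nd (nat_lit 252) (nat_lit 0) (cs (lf (nat_lit 12) (nat_lit 229)) (nd (nat_lit 168) (nat_lit 0) (cs (lf (nat_lit 34) (nat_lit 167)) (nd (nat_lit 273) (nat_lit 0) (cs (lf (nat_lit 10) (nat_lit 251)) (nd (nat_lit 277) (nat_lit 0) (cs (lf (nat_lit 5) (nat_lit 252)) (rf (nat_lit 11)))))))))))))))))))))))))))))))) q104218 (by decide +kernel)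
def q104232 : Q := Q.p (nat_lit 0x2000018000000000000000000000000000000000000000000000000000000000) (nat_lit 0x540007dc000e70007bc0007e0000f80000000000000000000000000000000000000000) (nat_lit 14)
theorem c104232 : QOK q104232 := cut [q102740, q102742, q103129, q97369, q97448, q97451, q10759, q104228] ⟨c102740, c102742, c103129, c97369, c97448, c97451, c10759, c104228, trivial⟩ (nd (nat_lit 233) (nat_lit 0) (cs (rf (nat_lit 0)) (cs (rf (nat_lit 1)) (cs (rf (nat_lit 2)) (nd (nat_lit 230) (nat_lit 0) (cs (rf (nat_lit 3)) (cs (rf (nat_lit 4)) (cs (rf (nat_lit 5)) (nd (nat_lit 252) (nat_lit 0) (cs (rf (nat_lit 6)) (nd (nat_lit 255) (nat_lit 0) (cs (lf (nat_lit 5) (nat_lit 230)) (rf (nat_lit 7)))))))))))))) q104232 (by decide +kernel)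
def q104262 : Q := Q.p (nat_lit 0x2000018000000000000000000000000000000000000000000000000000000000) (nat_lit 0x340000d0000760007dc003e40007f80007e0001f80002000000000000000000000000000000000000) (nat_lit 15)
theorem c104262 : QOK q104262 := cut [q101804, q102535, q102740, q102742, q10759, q86312, q103267, q104238, q104242, q104245, q97352, q81028, q81837] ⟨c101804, c102535, c102740, c102742, c10759, c86312, c103267, c104238, c104242, c104245, c97352, c81028, c81837, trivial⟩ (nd (nat_lit 233) (nat_lit 0) (cs (rf (nat_lit 0)) (cs (rf (nat_lit 1)) (cs (rf (nat_lit 2)) (cs (rf (nat_lit 3)) (nd (nat_lit 252) (nat_lit 0) (cs (rf (nat_lit 4)) (cs (rf (nat_lit 5)) (nd (nat_lit 255) (nat_lit 0) (cs (nd (nat_lit 230) (nat_lit 0) (cs (lf (nat_lit 5) (nat_lit 230)) (nd (nat_lit 211) (nat_lit 0) (cs (lf (nat_lit 17) (nat_lit 208)) (nd (nat_lit 208) (nat_lit 0) (cs (lf (nat_lit 23) (nat_lit 207)) (rf (nat_lit 6)))))))) (cs (rf (nat_lit 7)) (cs (nd (nat_lit 277) (nat_lit 0) (cs (nd (nat_lit 210) (nat_lit 0) (cs (lf (nat_lit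 42) (nat_lit 210)) (nd (nat_lit 254) (nat_lit 0) (cs (lf (nat_lit 5) (nat_lit 252)) (lf (nat_lit 24) (nat_lit 188)))))) (cs (rf (nat_lit 8)) (cs (nd (nat_lit 254) (nat_lit 0) (cs (lf (nat_lit 5) (nat_lit 252)) (nd (nat_lit 273) (nat_lit 0) (cs (lf (nat_lit 10) (nat_lit 251)) (nd (nat_lit 256) (nat_lit 0) (cs (lf (nat_lit 18) (nat_lit 231)) (rf (nat_lit 9)))))))) (nd (nat_lit 254) (nat_lit 0) (cs (lf (nat_lit 5) (nat_lit 252)) (nd (nat_lit 274) (nat_lit 0) (cs (lf (nat_lit 11) (nat_lit 251)) (nd (nat_lit 256) (nat_lit 0) (cs (lf (nat_lit 18) (nat_lit 231)) (nd (nat_lit 209) (nat_lit 0) (cs (lf (nat_lit 36) (nat_lit 186)) (nd (nat_lit 296) (nat_lit 0) (cs (lf (nat_lit 30) (nat_lit 230)) (nd (nat_lit 276) (nat_lit 0) (cs (lf (nat_lit 42) (nat_lit 209)) (nd (nat_lit 211) (nat_lit 0) (cs (lf (nat_lit 36) (nat_lit 188)) (nd (nat_lit 210) (nat_lit 0) (cs (lf (nat_lit 24) (nat_lit 188)) (rf (nat_lit 10)))))))))))))))))))))) (nd (nat_lit 254) (nat_lit 0) (cs (rf (nat_lit 11)) (nd (nat_lit 274) (nat_lit 0) (cs (lf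 (nat_lit 11) (nat_lit 251)) (rf (nat_lit 12)))))))))))))))))) q104262 (by decide +kernel)
def q104264 : Q := Q.p (nat_lit 0x3000018000000000000000000000000000000000000000000000000000000000) (nat_lit 0x400003000004c00023000020000080000000000000000000000000000000000000000000000) (nat_lit 6)
theorem c104264 : QOK q104264 := cut [q79202] ⟨c79202, trivial⟩ (nd (nat_lit 251) (nat_lit 0) (cs (lf (nat_lit 12) (nat_lit 228)) (nd (nat_lit 254) (nat_lit 0) (cs (lf (nat_lit 17) (nat_lit 229)) (rf (nat_lit 0)))))) q104264 (by decide +kernel)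
def q104284 : Q := Q.p (nat_lit 0x700001c000000000000000000000000000000000000000000000000000000000) (nat_lit 0x200000800007000018000000000040000100000000000000000000000000000000000000000000000) (nat_lit 5)
theorem c104284 : QOK q104284 := cut [q81028] ⟨c81028, trivial⟩ (nd (nat_lit 255) (nat_lit 0) (cs (lf (nat_lit 18) (nat_lit 230)) (rf (nat_lit 0)))) q104284 (by decide +kernel)
def q104326 : Q := Q.p (nat_lit 0x2000018000000000000000000000000000000000000000000000000000000000) (nat_lit 0xc0000700007d0003e60007fc0007e0001f00007000014000000000000000000000000000000) (nat_lit 12)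
theorem c104326 : QOK q104326 := cut [q101804, q102535, q102742, q101787, q97451, q104205, q103552, q104293, q9934, q58379, q104307, q85126, q86804, q89491, q104323] ⟨c101804, c102535, c102742, c101787, c97451, c104205, c103552, c104293, c9934, c58379, c104307, c85126, c86804, c89491, c104323, trivial⟩ (nd (nat_lit 233) (nat_lit 0) (cs (rf (nat_lit 0)) (cs (rf (nat_lit 1)) (cs (rf (nat_lit 2)) (nd (nat_lit 211) (nat_lit 0) (cs (rf (nat_lit 3)) (cs (nd (nat_lit 230) (nat_lit 0) (cs (lf (nat_lit 17) (nat_lit 208)) (rf (nat_lit 4)))) (cs (nd (nat_lit 189) (nat_lit 0) (cs (rf (nat_lit 5)) (cs (nd (nat_lit 255) (nat_lit 0) (cs (rf (nat_lit 6)) (nd (nat_lit 254) (nat_lit 0) (cs (lf (nat_lit 41) (nat_lit 188)) (rf (nat_lit 7)))))) (cs (nd (nat_lit 166) (nat_lit 0) (cs (nd (nat_lit 188) (nat_lit 0) (cs (lf (nat_lit 42) (nat_lit 166)) (lf (nat_lit 38) (nat_lit 165)))) (cs (nd (nat_lit 167) (nat_lit 0) (cs (lf (nat_lit 47) (nat_lit 144)) (nd (nat_lit 145) (nat_lit 0) (cs (rf (nat_lit 8)) (lf (nat_lit 40) (nat_lit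 144)))))) (nd (nat_lit 144) (nat_lit 0) (cs (lf (nat_lit 45) (nat_lit 144)) (nd (nat_lit 188) (nat_lit 0) (cs (lf (nat_lit 42) (nat_lit 166)) (lf (nat_lit 24) (nat_lit 122))))))))) (nd (nat_lit 167) (nat_lit 0) (cs (lf (nat_lit 41) (nat_lit 166)) (nd (nat_lit 145) (nat_lit 0) (cs (rf (nat_lit 9)) (lf (nat_lit 40) (nat_lit 144)))))))))) (nd (nat_lit 210) (nat_lit 0) (cs (nd (nat_lit 230) (nat_lit 0) (cs (lf (nat_lit 12) (nat_lit 207)) (nd (nat_lit 207) (nat_lit 0) (cs (lf (nat_lit 22) (nat_lit 207)) (nd (nat_lit 255) (nat_lit 0) (cs (lf (nat_lit 5) (nat_lit 230)) (nd (nat_lit 277) (nat_lit 0) (cs (lf (nat_lit 42) (nat_lit 210)) (rf (nat_lit 10)))))))))) (cs (nd (nat_lit 166) (nat_lit 0) (cs (lf (nat_lit 37) (nat_lit 165)) (nd (nat_lit 230) (nat_lit 0) (cs (lf (nat_lit 12) (nat_lit 207)) (nd (nat_lit 208) (nat_lit 0) (cs (lf (nat_lit 23) (nat_lit 207)) (nd (nat_lit 186) (nat_lit 0) (cs (lf (nat_lit 24) (nat_lit 164)) (nd (nat_lit 209) (nat_lit 0) (cs (lf (nat_lit 23) (nat_lit 185)) (rf (nat_lit 11))))))))))))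 (cs (nd (nat_lit 189) (nat_lit 0) (cs (rf (nat_lit 12)) (cs (rf (nat_lit 13)) (nd (nat_lit 188) (nat_lit 0) (cs (lf (nat_lit 36) (nat_lit 165)) (nd (nat_lit 254) (nat_lit 0) (cs (lf (nat_lit 30) (nat_lit 188)) (nd (nat_lit 165) (nat_lit 0) (cs (lf (nat_lit 46) (nat_lit 165)) (nd (nat_lit 255) (nat_lit 0) (cs (lf (nat_lit 42) (nat_lit 188)) (rf (nat_lit 7))))))))))))) (rf (nat_lit 14)))))))))))))) q104326 (by decide +kernel)
def q104341 : Q := Q.p (nat_lit 0x2000018000000000000000000000000000000000000000000000000000000000) (nat_lit 0x20000080000740007dc003e60007fc0002e0000b80000000000000000000000000000000000000000) (nat_lit 14)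
theorem c104341 : QOK q104341 := cut [q101804, q102535, q102740, q102742, q10759, q86312, q92716, q97451, q104329, q89464] ⟨c101804, c102535, c102740, c102742, c10759, c86312, c92716, c97451, c104329, c89464, trivial⟩ (nd (nat_lit 233) (nat_lit 0) (cs (rf (nat_lit 0)) (cs (rf (nat_lit 1)) (cs (rf (nat_lit 2)) (cs (rf (nat_lit 3)) (nd (nat_lit 252) (nat_lit 0) (cs (rf (nat_lit 4)) (cs (rf (nat_lit 5)) (nd (nat_lit 230) (nat_lit 0) (cs (rf (nat_lit 6)) (cs (rf (nat_lit 7)) (cs (nd (nat_lit 208) (nat_lit 0) (cs (lf (nat_lit 23) (nat_lit 207)) (nd (nat_lit 255) (nat_lit 0) (cs (lf (nat_lit 5) (nat_lit 230)) (nd (nat_lit 186) (nat_lit 0) (cs (lf (nat_lit 24) (nat_lit 164)) (nd (nat_lit 211) (nat_lit 0) (cs (lf (nat_lit 17) (nat_lit 208)) (nd (nat_lit 163) (nat_lit 0) (cs (lf (nat_lit 46) (nat_lit 163)) (nd (nat_lit 187) (nat_lit 0) (cs (lf (nat_lit 35) (nat_lit 164)) (nd (nat_lit 209) (nat_lit 0) (cs (lf (nat_lit 41) (nat_lit 186)) (rf (nat_lit 8)))))))))))))))) (nd (nat_lit 211) (nat_lit 0) (cs (lf (nat_lit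 17) (nat_lit 208)) (nd (nat_lit 210) (nat_lit 0) (cs (lf (nat_lit 12) (nat_lit 207)) (rf (nat_lit 9)))))))))))))))))) q104341 (by decide +kernel)
def q104344 : Q := Q.p (nat_lit 0x2000018000000000000000000000000000000000000000000000000000000000) (nat_lit 0x5400075c000e60007fc0007e0000f80000000000000000000000000000000000000000) (nat_lit 13)
theorem c104344 : QOK q104344 := cut [q102740, q102742, q103129, q104343] ⟨c102740, c102742, c103129, c104343, trivial⟩ (nd (nat_lit 233) (nat_lit 0) (cs (rf (nat_lit 0)) (cs (rf (nat_lit 1)) (cs (rf (nat_lit 2)) (rf (nat_lit 3)))))) q104344 (by decide +kernel)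
def q104346 : Q := Q.p (nat_lit 0x2000038000000000000000000000000000000000000000000000000000000000) (nat_lit 0x6000018000760001dc0000700007e0001e0000780000000000000000000000000000000000000000) (nat_lit 12)
theorem c104346 : QOK q104346 := cut [q97369, q97448, q97451, q104283, q104287] ⟨c97369, c97448, c97451, c104283, c104287, trivial⟩ (nd (nat_lit 230) (nat_lit 0) (cs (rf (nat_lit 0)) (cs (rf (nat_lit 1)) (cs (rf (nat_lit 2)) (nd (nat_lit 252) (nat_lit 0x20000000000000000000000000000000000000000000000000000000000) (cs (rf (nat_lit 3)) (rf (nat_lit 4)))))))) q104346 (by decide +kernel)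
def q104377 : Q := Q.p (nat_lit 0x2000018000000000000000000000000000000000000000000000000000000000) (nat_lit 0x140000dc000e70007fc0007e0000f80000000000000000000000000000000000000000) (nat_lit 13)
theorem c104377 : QOK q104377 := cut [q97498, q103129, q104343, q104376] ⟨c97498, c103129, c104343, c104376, trivial⟩ (nd (nat_lit 233) (nat_lit 0) (cs (rf (nat_lit 0)) (cs (rf (nat_lit 1)) (cs (rf (nat_lit 2)) (rf (nat_lit 3)))))) q104377 (by decide +kernel)
def q104408 : Q := Q.p (nat_lit 0x2000018000000000000000000000000000000000000000000000000000000000) (nat_lit 0x740007de000e70001fc0001e0000780000000000000000000000000000000000000000) (nat_lit 14)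
theorem c104408 : QOK q104408 := cut [q102781, q103129, q104401, q97451, q102583, q104382, q79708] ⟨c102781, c103129, c104401, c97451, c102583, c104382, c79708, trivial⟩ (nd (nat_lit 233) (nat_lit 0) (cs (rf (nat_lit 0)) (cs (rf (nat_lit 1)) (cs (rf (nat_lit 2)) (nd (nat_lit 230) (nat_lit 0) (cs (rf (nat_lit 3)) (cs (rf (nat_lit 4)) (cs (rf (nat_lit 5)) (nd (nat_lit 255) (nat_lit 0) (cs (lf (nat_lit 5) (nat_lit 230)) (nd (nat_lit 208) (nat_lit 0) (cs (lf (nat_lit 23) (nat_lit 207)) (nd (nat_lit 211) (nat_lit 0) (cs (lf (nat_lit 17) (nat_lit 208)) (nd (nat_lit 209) (nat_lit 0) (cs (lf (nat_lit 18) (nat_lit 208)) (rf (nat_lit 6)))))))))))))))))) q104408 (by decide +kernel)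
def q104410 : Q := Q.p (nat_lit 0x6000010000040000000000000000000000000000000000000000000000000000) (nat_lit 0x10000000000080001800003e0000e00002800000000000000000000000000000000000) (nat_lit 6)
theorem c104410 : QOK q104410 := cut [q79121, q96536, q103986] ⟨c79121, c96536, c103986, trivial⟩ (nd (nat_lit 188) (nat_lit 0) (cs (rf (nat_lit 0)) (cs (rf (nat_lit 1)) (rf (nat_lit 2))))) q104410 (by decide +kernel)
def q104411 : Q := Q.p (nat_lit 0x6000010000040000000000000000000000000000000000000000000000000000) (nat_lit 0x280000e00007800001800020000080000200000000000000000000000000000000000000000000000) (nat_lit 5)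
theorem c104411 : QOK q104411 := cut [q80347, q102832, q102835] ⟨c80347, c102832, c102835, trivial⟩ (nd (nat_lit 276) (nat_lit 0) (cs (rf (nat_lit 0)) (cs (rf (nat_lit 1)) (rf (nat_lit 2))))) q104411 (by decide +kernel)
def q104436 : Q := Q.p (nat_lit 0x7000010000000000000000000000000000000000000000000000000000000000) (nat_lit 0x20000080000ee00078000068000040000000000000000000000000000000000000000000000000000) (nat_lit 6)
theorem c104436 : QOK q104436 := cut [q102853, q102864, q103610] ⟨c102853, c102864, c103610, trivial⟩ (nd (nat_lit 255) (nat_lit 0) (cs (rf (nat_lit 0)) (cs (rf (nat_lit 1)) (rf (nat_lit 2))))) q104436 (by decide +kernel)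
def q104567 : Q := Q.p (nat_lit 0x2000018000000000000000000000000000000000000000000000000000000000) (nat_lit 0xb0000fe0007d0003e60007e0000b80002c00000000000000000000000000000000000000000) (nat_lit 10)
theorem c104567 : QOK q104567 := cut [q97307, q101804, q102740, q102742, q84928, q104238, q12207, q102501, q104551, q79384, q80895] ⟨c97307, c101804, c102740, c102742, c84928, c104238, c12207, c102501, c104551, c79384, c80895, trivial⟩ (nd (nat_lit 233) (nat_lit 0) (cs (rf (nat_lit 0)) (cs (rf (nat_lit 1)) (cs (rf (nat_lit 2)) (cs (rf (nat_lit 3)) (cs (nd (nat_lit 255) (nat_lit 0) (cs (rf (nat_lit 4)) (cs (rf (nat_lit 5)) (cs (nd (nat_lit 210) (nat_lit 0) (cs (rf (nat_lit 6)) (cs (rf (nat_lit 7)) (nd (nat_lit 254) (nat_lit 0) (cs (nd (nat_lit 256) (nat_lit 0) (cs (lf (nat_lit 18) (nat_lit 231)) (nd (nat_lit 277) (nat_lit 0) (cs (lf (nat_lit 42) (nat_lit 210)) (nd (nat_lit 278) (nat_lit 0) (cs (lf (nat_lit 5) (nat_lit 253)) (lf (nat_lit 0) (nat_lit 252)))))))) (cs (rf (nat_lit 8)) (nd (nat_lit 275) (nat_lit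 0) (cs (lf (nat_lit 30) (nat_lit 209)) (rf (nat_lit 9)))))))))) (nd (nat_lit 210) (nat_lit 0) (cs (rf (nat_lit 6)) (cs (rf (nat_lit 7)) (nd (nat_lit 254) (nat_lit 0) (cs (rf (nat_lit 10)) (rf (nat_lit 8))))))))))) (nd (nat_lit 234) (nat_lit 0) (cs (lf (nat_lit 11) (nat_lit 230)) (nd (nat_lit 256) (nat_lit 0) (cs (lf (nat_lit 5) (nat_lit 231)) (nd (nat_lit 230) (nat_lit 0) (cs (lf (nat_lit 4) (nat_lit 230)) (nd (nat_lit 235) (nat_lit 0) (cs (lf (nat_lit 10) (nat_lit 231)) (nd (nat_lit 213) (nat_lit 0) (cs (lf (nat_lit 17) (nat_lit 210)) (nd (nat_lit 169) (nat_lit 0) (cs (nd (nat_lit 210) (nat_lit 0) (cs (lf (nat_lit 23) (nat_lit 209)) (nd (nat_lit 211) (nat_lit 0) (cs (lf (nat_lit 18) (nat_lit 210)) (lf (nat_lit 12) (nat_lit 207)))))) (lf (nat_lit 37) (nat_lit 168)))))))))))))))))))) q104567 (by decide +kernel)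
def q104589 : Q := Q.p (nat_lit 0x3000018000000000000000000000000000000000000000000000000000000000) (nat_lit 0x140000700001c0000400006400003c0000c0000300000000000000000000000000000000000000000) (nat_lit 7)
theorem c104589 : QOK q104589 := cut [q104580, q79299, q16427, q97738, q79285] ⟨c104580, c79299, c16427, c97738, c79285, trivial⟩ (nd (nat_lit 209) (nat_lit 0) (cs (rf (nat_lit 0)) (cs (nd (nat_lit 275) (nat_lit 0) (cs (rf (nat_lit 1)) (nd (nat_lit 298) (nat_lit 0) (cs (lf (nat_lit 28) (nat_lit 209)) (nd (nat_lit 297) (nat_lit 0) (cs (lf (nat_lit 29) (nat_lit 231)) (rf (nat_lit 2)))))))) (cs (nd (nat_lit 233) (nat_lit 0) (cs (lf (nat_lit 6) (nat_lit 230)) (nd (nat_lit 187) (nat_lit 0) (cs (lf (nat_lit 41) (nat_lit 186)) (rf (nat_lit 3)))))) (nd (nat_lit 187) (nat_lit 0) (cs (rf (nat_lit 4)) (rf (nat_lit 3)))))))) q104589 (by decide +kernel)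
def q104616 : Q := Q.p (nat_lit 0x2000018000000000000000000000000000000000000000000000000000000000) (nat_lit 0x400001c0000f00007c00005c000640003e0000380000600000000000000000000000000000000000000000) (nat_lit 11)
theorem c104616 : QOK q104616 := cut [q26315, q87016, q94424, q96312, q98315, q95343, q88821, q98317, q104592, q104615] ⟨c26315, c87016, c94424, c96312, c98315, c95343, c88821, c98317, c104592, c104615, trivial⟩ (nd (nat_lit 275) (nat_lit 0) (cs (rf (nat_lit 0)) (cs (rf (nat_lit 1)) (cs (nd (nat_lit 252) (nat_lit 0) (cs (rf (nat_lit 2)) (cs (nd (nat_lit 209) (nat_lit 0) (cs (rf (nat_lit 3)) (cs (rf (nat_lit 4)) (nd (nat_lit 210) (nat_lit 0) (cs (rf (nat_lit 5)) (nd (nat_lit 233) (nat_lit 0) (cs (lf (nat_lit 6) (nat_lit 230)) (nd (nat_lit 276) (nat_lit 0) (cs (lf (nat_lit 29) (nat_lit 209)) (nd (nat_lit 277) (nat_lit 0) (cs (lf (nat_lit 18) (nat_lit 252)) (rf (nat_lit 6))))))))))))) (nd (nat_lit 209) (nat_lit 0) (cs (rf (nat_lit 3)) (cs (rf (nat_lit 7)) (rf (nat_lit 8)))))))) (rf (nat_lit 9))))))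 q104616 (by decide +kernel)
def q104711 : Q := Q.p (nat_lit 0x2000038000040000000000000000000000000000000000000000000000000000) (nat_lit 0x80000f00003c0000000000b0000f80000e00000000000000000000000000000000000000000) (nat_lit 7)
theorem c104711 : QOK q104711 := cut [q79280, q102826, q104706] ⟨c79280, c102826, c104706, trivial⟩ (nd (nat_lit 188) (nat_lit 0) (cs (lf (nat_lit 36) (nat_lit 165)) (nd (nat_lit 254) (nat_lit 0) (cs (rf (nat_lit 0)) (cs (rf (nat_lit 1)) (rf (nat_lit 2))))))) q104711 (by decide +kernel)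
def q104749 : Q := Q.p (nat_lit 0x1800006000010000000000000000000000000000000000000000000000000000000000) (nat_lit 0x8000060000018000000000c0000300000000000000000000000000000000000000000000000) (nat_lit 5)
theorem c104749 : QOK q104749 := cut [q79960] ⟨c79960, trivial⟩ (nd (nat_lit 210) (nat_lit 0) (cs (lf (nat_lit 36) (nat_lit 187)) (rf (nat_lit 0)))) q104749 (by decide +kernel)
def q104860 : Q := Q.p (nat_lit 0x6000010000000000000000000000000000000000000000000000000000000000) (nat_lit 0x80000e00003e0000f80003e000798000ee0003e0000780000e00002800000000000000000000000000000000000) (nat_lit 13)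
theorem c104860 : QOK q104860 := cut [q79128, q102805, q102829, q102958, q102814, q102896, q102931, q16726, q80551] ⟨c79128, c102805, c102829, c102958, c102814, c102896, c102931, c16726, c80551, trivial⟩ (nd (nat_lit 210) (nat_lit 0) (cs (rf (nat_lit 0)) (cs (rf (nat_lit 1)) (cs (rf (nat_lit 2)) (cs (rf (nat_lit 3)) (nd (nat_lit 276) (nat_lit 0) (cs (rf (nat_lit 4)) (cs (rf (nat_lit 5)) (cs (rf (nat_lit 6)) (nd (nat_lit 255) (nat_lit 0) (cs (nd (nat_lit 187) (nat_lit 0) (cs (lf (nat_lit 46) (nat_lit 187)) (nd (nat_lit 277) (nat_lit 0) (cs (lf (nat_lit 29) (nat_lit 210)) (nd (nat_lit 252) (nat_lit 0) (cs (lf (nat_lit 0) (nat_lit 251)) (nd (nat_lit 189) (nat_lit 0) (cs (lf (nat_lit 34) (nat_lit 188)) (nd (nat_lit 273) (nat_lit 0) (cs (lf (nat_lit 10) (nat_lit 251)) (nd (nat_lit 229) (nat_lit 0) (cs (lf (nat_lit 22) (nat_lit 229)) (nd (nat_lit 234) (nat_lit 0) (cs (lf (nat_lit 16) (nat_lit 230)) (nd (nat_lit 256) (nat_lit 0) (cs (lf (nat_lit 17) (nat_lit 231)) (nd (nat_lit 257) (nat_lit 0) (cs (lf (nat_lit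 6) (nat_lit 254)) (lf (nat_lit 23) (nat_lit 231)))))))))))))))))))) (cs (nd (nat_lit 277) (nat_lit 0) (cs (lf (nat_lit 29) (nat_lit 210)) (nd (nat_lit 251) (nat_lit 0) (cs (lf (nat_lit 1) (nat_lit 251)) (nd (nat_lit 275) (nat_lit 0) (cs (lf (nat_lit 41) (nat_lit 209)) (nd (nat_lit 274) (nat_lit 0) (cs (lf (nat_lit 12) (nat_lit 251)) (nd (nat_lit 209) (nat_lit 0) (cs (rf (nat_lit 7)) (lf (nat_lit 47) (nat_lit 187)))))))))))) (cs (nd (nat_lit 275) (nat_lit 0) (cs (lf (nat_lit 41) (nat_lit 209)) (rf (nat_lit 8)))) (nd (nat_lit 275) (nat_lit 0) (cs (lf (nat_lit 41) (nat_lit 209)) (nd (nat_lit 256) (nat_lit 0) (cs (lf (nat_lit 6) (nat_lit 253)) (nd (nat_lit 234) (nat_lit 0) (cs (lf (nat_lit 17) (nat_lit 231)) (nd (nat_lit 233) (nat_lit 0) (cs (lf (nat_lit 12) (nat_lit 230)) (nd (nat_lit 231) (nat_lit 0) (cs (lf (nat_lit 0) (nat_lit 230)) (nd (nat_lit 189) (nat_lit 0) (cs (lf (nat_lit 37) (nat_lit 188)) (nd (nat_lit 212) (nat_lit 0) (cs (lf (nat_lit 17) (nat_lit 209)) (nd (nat_lit 277) (nat_lit 0) (cs (lf (nat_lit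 42) (nat_lit 210)) (lf (nat_lit 36) (nat_lit 189))))))))))))))))))))))))))))))) q104860 (by decide +kernel)
def q104907 : Q := Q.p (nat_lit 0x4000010000040000000000000000000000000000000000000000000000000000) (nat_lit 0x200000c000030000000000280001a00003e0000a00000800000000000000000000000000000000000) (nat_lit 6)
theorem c104907 : QOK q104907 := cut [q79971, q102838] ⟨c79971, c102838, trivial⟩ (nd (nat_lit 187) (nat_lit 0) (cs (rf (nat_lit 0)) (cs (rf (nat_lit 1)) (nd (nat_lit 165) (nat_lit 0) (cs (lf (nat_lit 45) (nat_lit 165)) (nd (nat_lit 209) (nat_lit 0) (cs (lf (nat_lit 24) (nat_lit 143)) (lf (nat_lit 27) (nat_lit 165))))))))) q104907 (by decide +kernel)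
def q104943 : Q := Q.p (nat_lit 0x800007000010000000000000000000000000000000000000000000000000000000000) (nat_lit 0x1c000070000140000000000f00003c0000c0000300000000000000000000000000000000000000000) (nat_lit 8)
theorem c104943 : QOK q104943 := cut [q21953, q79469, q80379, q81706] ⟨c21953, c79469, c80379, c81706, trivial⟩ (nd (nat_lit 297) (nat_lit 0) (cs (lf (nat_lit 30) (nat_lit 231)) (nd (nat_lit 231) (nat_lit 0) (cs (rf (nat_lit 0)) (cs (rf (nat_lit 1)) (cs (rf (nat_lit 2)) (rf (nat_lit 3)))))))) q104943 (by decide +kernel)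
def q104967 : Q := Q.p (nat_lit 0x6000010000040000000000000000000000000000000000000000000000000000) (nat_lit 0xe0000f80000980002800003c0000c0000000000000000000000000000000000000000000000) (nat_lit 7)
theorem c104967 : QOK q104967 := cut [q102810, q104966] ⟨c102810, c104966, trivial⟩ (nd (nat_lit 276) (nat_lit 0) (cs (rf (nat_lit 0)) (rf (nat_lit 1)))) q104967 (by decide +kernel)
def q104997 : Q := Q.p (nat_lit 0x6000010000000000000000000000000000000000000000000000000000000000) (nat_lit 0x80000e0000380000e8000fb00009c0000f0000fc0003f0000e00002800000000000000000000000000000000000) (nat_lit 15)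
theorem c104997 : QOK q104997 := cut [q79128, q79988, q102958, q102810, q102931, q104995] ⟨c79128, c79988, c102958, c102810, c102931, c104995, trivial⟩ (nd (nat_lit 210) (nat_lit 0) (cs (rf (nat_lit 0)) (cs (rf (nat_lit 1)) (cs (rf (nat_lit 2)) (nd (nat_lit 276) (nat_lit 0) (cs (rf (nat_lit 3)) (cs (rf (nat_lit 4)) (rf (nat_lit 5))))))))) q104997 (by decide +kernel)
def q105082 : Q := Q.p (nat_lit 0x2000038000000000000000000000000000000000000000000000000000000000) (nat_lit 0x400001c0000700001c0000d0000060003e0000f80001f00007000000000000000000000000000000000000) (nat_lit 14)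
theorem c105082 : QOK q105082 := cut [q26315, q87016, q104615, q96312, q98315, q98317, q79606] ⟨c26315, c87016, c104615, c96312, c98315, c98317, c79606, trivial⟩ (nd (nat_lit 275) (nat_lit 0) (cs (rf (nat_lit 0)) (cs (rf (nat_lit 1)) (cs (rf (nat_lit 2)) (nd (nat_lit 209) (nat_lit 0) (cs (rf (nat_lit 3)) (cs (rf (nat_lit 4)) (cs (rf (nat_lit 5)) (nd (nat_lit 210) (nat_lit 0) (cs (lf (nat_lit 35) (nat_lit 187)) (nd (nat_lit 211) (nat_lit 0) (cs (rf (nat_lit 6)) (cs (nd (nat_lit 276) (nat_lit 0) (cs (lf (nat_lit 29) (nat_lit 209)) (nd (nat_lit 189) (nat_lit 0) (cs (lf (nat_lit 31) (nat_lit 188)) (nd (nat_lit 145) (nat_lit 0) (cs (lf (nat_lit 37) (nat_lit 144)) (nd (nat_lit 274) (nat_lit 0) (cs (lf (nat_lit 41) (nat_lit 208)) (nd (nat_lit 212) (nat_lit 0) (cs (lf (nat_lit 6) (nat_lit 209)) (nd (nat_lit 190) (nat_lit 0) (cs (lf (nat_lit 17) (nat_lit 187)) (nd (nat_lit 168) (nat_lit 0) (cs (lf (nat_lit 30) (nat_lit 167)) (lf (nat_lit 36) (nat_lit 145)))))))))))))))) (nd (nat_lit 229) (nat_lit 0) (cs (lf (nat_lit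 13) (nat_lit 207)) (nd (nat_lit 276) (nat_lit 0) (cs (lf (nat_lit 29) (nat_lit 209)) (nd (nat_lit 189) (nat_lit 0) (cs (lf (nat_lit 31) (nat_lit 188)) (nd (nat_lit 167) (nat_lit 0) (cs (lf (nat_lit 36) (nat_lit 144)) (nd (nat_lit 274) (nat_lit 0) (cs (lf (nat_lit 41) (nat_lit 208)) (nd (nat_lit 166) (nat_lit 0) (cs (lf (nat_lit 47) (nat_lit 144)) (nd (nat_lit 168) (nat_lit 0) (cs (lf (nat_lit 35) (nat_lit 145)) (nd (nat_lit 190) (nat_lit 0) (cs (lf (nat_lit 30) (nat_lit 167)) (nd (nat_lit 165) (nat_lit 0) (cs (lf (nat_lit 5) (nat_lit 165)) (lf (nat_lit 0) (nat_lit 164))))))))))))))))))))))))))))))))) q105082 (by decide +kernel)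
def q105096 : Q := Q.p (nat_lit 0x800002000018000000000000000000000000000000000000000000000000000000000) (nat_lit 0xd0000770001dc00064000060000180000400000000000000000000000000000000000000000) (nat_lit 7)
theorem c105096 : QOK q105096 := cut [q94424, q96312, q98315, q98317, q80721, q79147] ⟨c94424, c96312, c98315, c98317, c80721, c79147, trivial⟩ (nd (nat_lit 252) (nat_lit 0) (cs (rf (nat_lit 0)) (nd (nat_lit 209) (nat_lit 0) (cs (rf (nat_lit 1)) (cs (rf (nat_lit 2)) (cs (rf (nat_lit 3)) (nd (nat_lit 254) (nat_lit 0) (cs (rf (nat_lit 4)) (nd (nat_lit 210) (nat_lit 0) (cs (lf (nat_lit 35) (nat_lit 187)) (nd (nat_lit 276) (nat_lit 0) (cs (lf (nat_lit 29) (nat_lit 209)) (rf (nat_lit 5)))))))))))))) q105096 (by decide +kernel)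
def q105101 : Q := Q.p (nat_lit 0x7000010000000000000000000000000000000000000000000000000000000000) (nat_lit 0x80000380008c0000f800010000040000000000000000000000000000000000000000000000) (nat_lit 6)
theorem c105101 : QOK q105101 := cut [q80331, q92326, q104434] ⟨c80331, c92326, c104434, trivial⟩ (nd (nat_lit 251) (nat_lit 0) (cs (rf (nat_lit 0)) (cs (rf (nat_lit 1)) (rf (nat_lit 2))))) q105101 (by decide +kernel)
def q105134 : Q := Q.p (nat_lit 0x3800002000000000000000000000000000000000000000000000000000000000) (nat_lit 0x10000370000c000031000008000020000000000000000000000000000000000000000000000) (nat_lit 7)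
theorem c105134 : QOK q105134 := cut [q93916] ⟨c93916, trivial⟩ (nd (nat_lit 254) (nat_lit 0) (cs (lf (nat_lit 23) (nat_lit 228)) (nd (nat_lit 232) (nat_lit 0) (cs (lf (nat_lit 17) (nat_lit 229)) (nd (nat_lit 276) (nat_lit 0) (cs (lf (nat_lit 5) (nat_lit 251)) (rf (nat_lit 0)))))))) q105134 (by decide +kernel)
def q105163 : Q := Q.p (nat_lit 0x3800008000020000000000000000000000000000000000000000000000000000) (nat_lit 0xa000000000340000dc0001f0000780001400000000000000000000000000000000000) (nat_lit 9)
theorem c105163 : QOK q105163 := cut [q84514, q84515, q91300, q167] ⟨c84514, c84515, c91300, c167, trivial⟩ (nd (nat_lit 186) (nat_lit 0) (cs (rf (nat_lit 0)) (cs (rf (nat_lit 1)) (cs (rf (nat_lit 2)) (nd (nat_lit 208) (nat_lit 0) (cs (lf (nat_lit 42) (nat_lit 186)) (nd (nat_lit 230) (nat_lit 0) (cs (lf (nat_lit 41) (nat_lit 185)) (nd (nat_lit 165) (nat_lit 0) (cs (lf (nat_lit 37) (nat_lit 164)) (nd (nat_lit 232) (nat_lit 0) (cs (lf (nat_lit 6) (nat_lit 229)) (nd (nat_lit 207) (nat_lit 0) (cs (lf (nat_lit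 0) (nat_lit 206)) (nd (nat_lit 185) (nat_lit 0) (cs (lf (nat_lit 47) (nat_lit 163)) (rf (nat_lit 3)))))))))))))))))) q105163 (by decide +kernel)
def q105182 : Q := Q.p (nat_lit 0x3c00008000020000000000000000000000000000000000000000000000000000) (nat_lit 0x380001f8000000000780005e000178000000000000000000000000000000000000000000000) (nat_lit 12)
theorem c105182 : QOK q105182 := cut [q105177] ⟨c105177, trivial⟩ (nd (nat_lit 275) (nat_lit 0) (cs (lf (nat_lit 5) (nat_lit 250)) (nd (nat_lit 274) (nat_lit 0) (cs (lf (nat_lit 41) (nat_lit 208)) (nd (nat_lit 188) (nat_lit 0) (cs (lf (nat_lit 34) (nat_lit 187)) (nd (nat_lit 227) (nat_lit 0) (cs (lf (nat_lit 22) (nat_lit 227)) (nd (nat_lit 271) (nat_lit 0) (cs (lf (nat_lit 10) (nat_lit 249)) (rf (nat_lit 0)))))))))))) q105182 (by decide +kernel)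
def q105187 : Q := Q.p (nat_lit 0x3c00000000000000000000000000000000000000000000000000000000000000) (nat_lit 0x20000180000020001d800010000040000000000000000000000000000000000000000000000) (nat_lit 6)
theorem c105187 : QOK q105187 := cut [q100962] ⟨c100962, trivial⟩ (nd (nat_lit 231) (nat_lit 0) (cs (lf (nat_lit 17) (nat_lit 228)) (nd (nat_lit 230) (nat_lit 0) (cs (lf (nat_lit 12) (nat_lit 227)) (rf (nat_lit 0)))))) q105187 (by decide +kernel)
def q105200 : Q := Q.p (nat_lit 0x3800000000000000000000000000000000000000000000000000000000000000) (nat_lit 0x20000480003f8001c40003e000020000080000000000000000000000000000000000000000000000) (nat_lit 10)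
theorem c105200 : QOK q105200 := cut [q79009, q105190, q105192, q105199] ⟨c79009, c105190, c105192, c105199, trivial⟩ (nd (nat_lit 254) (nat_lit 0) (cs (rf (nat_lit 0)) (cs (rf (nat_lit 1)) (cs (rf (nat_lit 2)) (rf (nat_lit 3)))))) q105200 (by decide +kernel)
def q105201 : Q := Q.p (nat_lit 0x3c00000000000000000000000000000000000000000000000000000000000000) (nat_lit 0x3b80004000001800000000000000000000000000000000000000000000000000000000) (nat_lit 5)
theorem c105201 : QOK q105201 := cut [q90242] ⟨c90242, trivial⟩ (nd (nat_lit 227) (nat_lit 0) (cs (lf (nat_lit 22) (nat_lit 227)) (rf (nat_lit 0)))) q105201 (by decide +kernel)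
def q105203 : Q := Q.p (nat_lit 0x7800000000000000000000000000000000000000000000000000000000000000) (nat_lit 0x400003000000400038000020000080000000000000000000000000000000000000000000000) (nat_lit 5)
theorem c105203 : QOK q105203 := cut [q90138] ⟨c90138, trivial⟩ (nd (nat_lit 276) (nat_lit 0) (cs (lf (nat_lit 5) (nat_lit 251)) (rf (nat_lit 0)))) q105203 (by decide +kernel)
def q105206 : Q := Q.p (nat_lit 0x3800000000000000000000000000000000000000000000000000000000000000) (nat_lit 0x1dc000460003fc00000000000000000000000000000000000000000000000000000000) (nat_lit 7)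
theorem c105206 : QOK q105206 := cut [q3765, q23543, q89875] ⟨c3765, c23543, c89875, trivial⟩ (nd (nat_lit 250) (nat_lit 0) (cs (rf (nat_lit 0)) (cs (rf (nat_lit 1)) (nd (nat_lit 275) (nat_lit 0) (cs (lf (nat_lit 5) (nat_lit 250)) (rf (nat_lit 2))))))) q105206 (by decide +kernel)
def q105223 : Q := Q.p (nat_lit 0x200000800002000000000000000000000000000000000000000000000000000000000000000) (nat_lit 0x40000700001c0000500001000004000018000040000000000000000000000000000000000000000000000000000) (nat_lit 5)
theorem c105223 : QOK q105223 := cut [q21972, q89529, q94166] ⟨c21972, c89529, c94166, trivial⟩ (nd (nat_lit 319) (nat_lit 0) (cs (rf (nat_lit 0)) (cs (rf (nat_lit 1)) (rf (nat_lit 2))))) q105223 (by decide +kernel)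
def q105227 : Q := Q.p (nat_lit 0xc00003000004000000000000000000000000000000000000000000000000000000000) (nat_lit 0x8000030000c000000000018000060000000000000000000000000000000000000000000000) (nat_lit 5)
theorem c105227 : QOK q105227 := cut [q84410] ⟨c84410, trivial⟩ (nd (nat_lit 208) (nat_lit 0) (cs (lf (nat_lit 24) (nat_lit 186)) (rf (nat_lit 0)))) q105227 (by decide +kernel)
def q105237 : Q := Q.p (nat_lit 0x1c00003000000000000000000000000000000000000000000000000000000000000000) (nat_lit 0x8000020000180000620001c000076000080000200000000000000000000000000000000000000000000000) (nat_lit 9)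
theorem c105237 : QOK q105237 := cut [q105236] ⟨c105236, trivial⟩ (nd (nat_lit 277) (nat_lit 0) (cs (lf (nat_lit 18) (nat_lit 252)) (rf (nat_lit 0)))) q105237 (by decide +kernel)
def q105261 : Q := Q.p (nat_lit 0x100000c00003000004000000000000000000000000000000000000000000000000000000000) (nat_lit 0x200000e000300000400000b800028000000000000000000000000000000000000000000000000000) (nat_lit 7)
theorem c105261 : QOK q105261 := cut [q105230] ⟨c105230, trivial⟩ (nd (nat_lit 231) (nat_lit 0) (cs (lf (nat_lit 36) (nat_lit 208)) (rf (nat_lit 0)))) q105261 (by decide +kernel)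
def q105275 : Q := Q.p (nat_lit 0xc0000300000c000000000000000000000000000000000000000000000000000000000) (nat_lit 0x1c0000720001c000002000060000180000000000000000000000000000000000000000000000) (nat_lit 8)
theorem c105275 : QOK q105275 := cut [q105274] ⟨c105274, trivial⟩ (nd (nat_lit 209) (nat_lit 0) (cs (lf (nat_lit 36) (nat_lit 186)) (rf (nat_lit 0)))) q105275 (by decide +kernel)
def q105279 : Q := Q.p (nat_lit 0xc00003000004000000000000000000000000000000000000000000000000000000000) (nat_lit 0x1d0000720001c00000a0000700001c0000000000000000000000000000000000000000000000) (nat_lit 10)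
theorem c105279 : QOK q105279 := cut [q105274] ⟨c105274, trivial⟩ (nd (nat_lit 208) (nat_lit 0) (cs (lf (nat_lit 24) (nat_lit 186)) (nd (nat_lit 209) (nat_lit 0) (cs (lf (nat_lit 35) (nat_lit 186)) (nd (nat_lit 231) (nat_lit 0) (cs (lf (nat_lit 30) (nat_lit 208)) (rf (nat_lit 0)))))))) q105279 (by decide +kernel)
def q105286 : Q := Q.p (nat_lit 0xc0000300000c000000000000000000000000000000000000000000000000000000000) (nat_lit 0x80000200001c0000720001c0000700000f00003c0000000000000000000000000000000000000000000000) (nat_lit 12)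
theorem c105286 : QOK q105286 := cut [q105284] ⟨c105284, trivial⟩ (nd (nat_lit 186) (nat_lit 0) (cs (lf (nat_lit 25) (nat_lit 186)) (nd (nat_lit 209) (nat_lit 0) (cs (lf (nat_lit 36) (nat_lit 186)) (rf (nat_lit 0)))))) q105286 (by decide +kernel)
def q105289 : Q := Q.p (nat_lit 0xc00003000004000010000000000000000000000000000000000000000000000000000) (nat_lit 0x80000200001d0000720001c0000780000e0000380000000000000000000000000000000000000000000000) (nat_lit 12)
theorem c105289 : QOK q105289 := cut [q105284] ⟨c105284, trivial⟩ (nd (nat_lit 209) (nat_lit 0) (cs (lf (nat_lit 35) (nat_lit 186)) (nd (nat_lit 231) (nat_lit 0) (cs (lf (nat_lit 30) (nat_lit 208)) (rf (nat_lit 0)))))) q105289 (by decide +kernel)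
def q105295 : Q := Q.p (nat_lit 0xc00003000004000000000000000000000000000000000000000000000000000000000) (nat_lit 0x8000030000c0000000000300000c0000000000000000000000000000000000000000000000) (nat_lit 5)
theorem c105295 : QOK q105295 := cut [q94049] ⟨c94049, trivial⟩ (nd (nat_lit 208) (nat_lit 0) (cs (lf (nat_lit 24) (nat_lit 186)) (rf (nat_lit 0)))) q105295 (by decide +kernel)
def q105302 : Q := Q.p (nat_lit 0x300000c00003000004000000000000000000000000000000000000000000000000000000000) (nat_lit 0x200004e0000380004000002000008000000000000000000000000000000000000000000000000000) (nat_lit 6)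
theorem c105302 : QOK q105302 := cut [q89422] ⟨c89422, trivial⟩ (nd (nat_lit 295) (nat_lit 0) (cs (lf (nat_lit 41) (nat_lit 229)) (nd (nat_lit 207) (nat_lit 0) (cs (lf (nat_lit 46) (nat_lit 207)) (rf (nat_lit 0)))))) q105302 (by decide +kernel)
def q105309 : Q := Q.p (nat_lit 0x1c00003000004000000000000000000000000000000000000000000000000000000000) (nat_lit 0x180001e00006200018000020000080000000000000000000000000000000000000000000000000000) (nat_lit 7)
theorem c105309 : QOK q105309 := cut [q14689] ⟨c14689, trivial⟩ (nd (nat_lit 297) (nat_lit 0) (cs (lf (nat_lit 42) (nat_lit 230)) (rf (nat_lit 0)))) q105309 (by decide +kernel)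
def q105314 : Q := Q.p (nat_lit 0x1c00003000004000000000000000000000000000000000000000000000000000000000) (nat_lit 0x80001e00006380004000000000000000000000000000000000000000000000000000000000000000) (nat_lit 6)
theorem c105314 : QOK q105314 := cut [q91098] ⟨c91098, trivial⟩ (nd (nat_lit 297) (nat_lit 0) (cs (lf (nat_lit 42) (nat_lit 230)) (rf (nat_lit 0)))) q105314 (by decide +kernel)
def q105353 : Q := Q.p (nat_lit 0x200000c00003000008000000000000000000000000000000000000000000000000000000000) (nat_lit 0x140000d00000300000000010000040000000000000000000000000000000000000000000000000000) (nat_lit 5)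
theorem c105353 : QOK q105353 := cut [q2562] ⟨c2562, trivial⟩ (nd (nat_lit 296) (nat_lit 0) (cs (lf (nat_lit 30) (nat_lit 230)) (rf (nat_lit 0)))) q105353 (by decide +kernel)
def q105402 : Q := Q.p (nat_lit 0xc00003000008000000000000000000000000000000000000000000000000000000000) (nat_lit 0x20000000000000003000007c0001c0000000000000000000000000000000000000000000000) (nat_lit 6)
theorem c105402 : QOK q105402 := cut [q91882] ⟨c91882, trivial⟩ (nd (nat_lit 209) (nat_lit 0) (cs (lf (nat_lit 36) (nat_lit 186)) (rf (nat_lit 0)))) q105402 (by decide +kernel)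
def q105459 : Q := Q.p (nat_lit 0x380000800003000004000000000000000000000000000000000000000000000000000000000) (nat_lit 0x50000360000c0000370000c000013800048000000000000000000000000000000000000000000000000000) (nat_lit 11)
theorem c105459 : QOK q105459 := cut [q105452] ⟨c105452, trivial⟩ (nd (nat_lit 274) (nat_lit 0) (cs (lf (nat_lit 41) (nat_lit 229)) (nd (nat_lit 276) (nat_lit 0) (cs (lf (nat_lit 6) (nat_lit 273)) (nd (nat_lit 318) (nat_lit 0) (cs (lf (nat_lit 30) (nat_lit 252)) (nd (nat_lit 229) (nat_lit 0) (cs (lf (nat_lit 47) (nat_lit 207)) (nd (nat_lit 227) (nat_lit 0) (cs (lf (nat_lit 1) (nat_lit 227)) (nd (nat_lit 254) (nat_lit 0) (cs (lf (nat_lit 18) (nat_lit 229)) (nd (nat_lit 210) (nat_lit 0) (cs (lf (nat_lit 37) (nat_lit 209)) (rf (nat_lit 0)))))))))))))))) q105459 (by decide +kernel)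
def q105494 : Q := Q.p (nat_lit 0x300000c00003000000000000000000000000000000000000000000000000000000000000000) (nat_lit 0x100000c0000030000000000c000030000000000000000000000000000000000000000000000000000) (nat_lit 5)
theorem c105494 : QOK q105494 := cut [q87042] ⟨c87042, trivial⟩ (nd (nat_lit 231) (nat_lit 0) (cs (lf (nat_lit 36) (nat_lit 208)) (rf (nat_lit 0)))) q105494 (by decide +kernel)
def q105520 : Q := Q.p (nat_lit 0xc00003000000000000000000000000000000000000000000000000000000000000000) (nat_lit 0x40000100001ee0007380018e000280000a0000000000000000000000000000000000000000000000000000) (nat_lit 8)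
theorem c105520 : QOK q105520 := cut [q700, q14689, q2180, q12665, q15513] ⟨c700, c14689, c2180, c12665, c15513, trivial⟩ (nd (nat_lit 276) (nat_lit 0) (cs (rf (nat_lit 0)) (cs (rf (nat_lit 1)) (nd (nat_lit 273) (nat_lit 0) (cs (rf (nat_lit 2)) (cs (rf (nat_lit 3)) (nd (nat_lit 294) (nat_lit 0) (cs (lf (nat_lit 10) (nat_lit 272)) (nd (nat_lit 250) (nat_lit 0) (cs (lf (nat_lit 22) (nat_lit 250)) (rf (nat_lit 4)))))))))))) q105520 (by decide +kernel)
def q105532 : Q := Q.p (nat_lit 0xc00003000008000000000000000000000000000000000000000000000000000000000) (nat_lit 0x400003000000c000000000300000c0000000000000000000000000000000000000000000000) (nat_lit 5)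
theorem c105532 : QOK q105532 := cut [q105531] ⟨c105531, trivial⟩ (nd (nat_lit 209) (nat_lit 0) (cs (lf (nat_lit 36) (nat_lit 186)) (rf (nat_lit 0)))) q105532 (by decide +kernel)
def q105542 : Q := Q.p (nat_lit 0x1c00003000000000000000000000000000000000000000000000000000000000000000) (nat_lit 0x40000120000ce0000380000e0000c000030000000000000000000000000000000000000000000000000000) (nat_lit 8)
theorem c105542 : QOK q105542 := cut [q2180, q12665, q105538] ⟨c2180, c12665, c105538, trivial⟩ (nd (nat_lit 273) (nat_lit 0) (cs (rf (nat_lit 0)) (cs (rf (nat_lit 1)) (nd (nat_lit 298) (nat_lit 0) (cs (lf (nat_lit 5) (nat_lit 273)) (nd (nat_lit 320) (nat_lit 0) (cs (lf (nat_lit 42) (nat_lit 253)) (nd (nat_lit 209) (nat_lit 0) (cs (lf (nat_lit 25) (nat_lit 209)) (rf (nat_lit 2))))))))))) q105542 (by decide +kernel)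
def q105589 : Q := Q.p (nat_lit 0xd00003000000000000000000000000000000000000000000000000000000000000000) (nat_lit 0x20000090000760001200000e0000780001e000078000000000000000000000000000000000000000000000) (nat_lit 12)
theorem c105589 : QOK q105589 := cut [q88933, q99119, q99123] ⟨c88933, c99119, c99123, trivial⟩ (nd (nat_lit 297) (nat_lit 0) (cs (rf (nat_lit 0)) (cs (rf (nat_lit 1)) (rf (nat_lit 2))))) q105589 (by decide +kernel)
def q105615 : Q := Q.p (nat_lit 0x400003000000000000000000000000000000000000000000000000000000000000000) (nat_lit 0x20000380001fc001fe0003bc000000001e0000780000e0000000000000000000000000000000000000000000000) (nat_lit 14)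
theorem c105615 : QOK q105615 := cut [q80649, q81014, q91679, q81787, q91682, q86662, q105603, q41426] ⟨c80649, c81014, c91679, c81787, c91682, c86662, c105603, c41426, trivial⟩ (nd (nat_lit 296) (nat_lit 0) (cs (rf (nat_lit 0)) (cs (rf (nat_lit 1)) (cs (rf (nat_lit 2)) (nd (nat_lit 230) (nat_lit 0) (cs (rf (nat_lit 3)) (cs (rf (nat_lit 4)) (nd (nat_lit 295) (nat_lit 0) (cs (lf (nat_lit 41) (nat_lit 229)) (nd (nat_lit 294) (nat_lit 0) (cs (rf (nat_lit 5)) (cs (nd (nat_lit 207) (nat_lit 0) (cs (lf (nat_lit 46) (nat_lit 207)) (rf (nat_lit 6)))) (nd (nat_lit 297) (nat_lit 0) (cs (lf (nat_lit 29) (nat_lit 230)) (nd (nat_lit 315) (nat_lit 0) (cs (lf (nat_lit 10) (nat_lit 293)) (nd (nat_lit 271) (nat_lit 0) (cs (lf (nat_lit 22) (nat_lit 271)) (nd (nat_lit 207) (nat_lit 0) (cs (lf (nat_lit 46) (nat_lit 207)) (nd (nat_lit 231) (nat_lit 0) (cs (lf (nat_lit 35) (nat_lit 208)) (nd (nat_lit 275) (nat_lit 0) (cs (lf (nat_lit 17) (nat_lit 272)) (nd (nat_lit 210) (nat_lit 0) (cs (lf (nat_lit 34) (nat_lit 209)) (rf (nat_lit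 7)))))))))))))))))))))))))))) q105615 (by decide +kernel)
def q105706 : Q := Q.p (nat_lit 0x400003000000000000000000000000000000000000000000000000000000000000000) (nat_lit 0xa0000780003fc000ff0007be0000e0000f80001c000060000000000000000000000000000000000000000000000) (nat_lit 12)
theorem c105706 : QOK q105706 := cut [q81820, q87376, q87384, q91679, q81319, q91682, q105603, q15934, q28147, q86683, q95113, q95122, q95124, q105667, q89896, q83882, q90066, q105686] ⟨c81820, c87376, c87384, c91679, c81319, c91682, c105603, c15934, c28147, c86683, c95113, c95122, c95124, c105667, c89896, c83882, c90066, c105686, trivial⟩ (nd (nat_lit 296) (nat_lit 0) (cs (rf (nat_lit 0)) (cs (rf (nat_lit 1)) (cs (rf (nat_lit 2)) (cs (rf (nat_lit 3)) (nd (nat_lit 295) (nat_lit 0) (cs (nd (nat_lit 230) (nat_lit 0) (cs (lf (nat_lit 41) (nat_lit 229)) (rf (nat_lit 4)))) (cs (nd (nat_lit 230) (nat_lit 0) (cs (lf (nat_lit 41) (nat_lit 229)) (rf (nat_lit 5)))) (cs (nd (nat_lit 294) (nat_lit 0) (cs (rf (nat_lit 6)) (cs (nd (nat_lit 275)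 (nat_lit 0) (cs (lf (nat_lit 12) (nat_lit 271)) (rf (nat_lit 7)))) (cs (nd (nat_lit 297) (nat_lit 0) (cs (nd (nat_lit 316) (nat_lit 0) (cs (lf (nat_lit 11) (nat_lit 293)) (nd (nat_lit 271) (nat_lit 0) (cs (lf (nat_lit 22) (nat_lit 271)) (nd (nat_lit 298) (nat_lit 0) (cs (lf (nat_lit 10) (nat_lit 294)) (nd (nat_lit 299) (nat_lit 0) (cs (lf (nat_lit 23) (nat_lit 273)) (rf (nat_lit 8)))))))))) (nd (nat_lit 319) (nat_lit 0) (cs (lf (nat_lit 5) (nat_lit 294)) (rf (nat_lit 9)))))) (nd (nat_lit 271) (nat_lit 0) (cs (rf (nat_lit 10)) (cs (rf (nat_lit 11)) (cs (rf (nat_lit 12)) (nd (nat_lit 293) (nat_lit 0) (cs (lf (nat_lit 23) (nat_lit 270)) (nd (nat_lit 273) (nat_lit 0) (cs (lf (nat_lit 12) (nat_lit 270)) (nd (nat_lit 317) (nat_lit 0) (cs (lf (nat_lit 30) (nat_lit 251)) (nd (nat_lit 315) (nat_lit 0) (cs (lf (nat_lit 11) (nat_lit 292)) (nd (nat_lit 297) (nat_lit 0) (cs (lf (nat_lit 10) (nat_lit 293)) (nd (nat_lit 320) (nat_lit 0) (cs (lf (nat_lit 4) (nat_lit 294)) (nd (nat_lit 298) (nat_lit 0) (cs (lf (nat_lit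 18) (nat_lit 273)) (lf (nat_lit 5) (nat_lit 295)))))))))))))))))))))))) (nd (nat_lit 273) (nat_lit 0) (cs (nd (nat_lit 230) (nat_lit 0) (cs (lf (nat_lit 36) (nat_lit 207)) (nd (nat_lit 207) (nat_lit 0) (cs (lf (nat_lit 46) (nat_lit 207)) (rf (nat_lit 13)))))) (cs (nd (nat_lit 271) (nat_lit 0) (cs (lf (nat_lit 13) (nat_lit 249)) (nd (nat_lit 230) (nat_lit 0) (cs (lf (nat_lit 36) (nat_lit 207)) (nd (nat_lit 229) (nat_lit 0) (cs (lf (nat_lit 47) (nat_lit 207)) (nd (nat_lit 228) (nat_lit 0) (cs (lf (nat_lit 0) (nat_lit 227)) (nd (nat_lit 251) (nat_lit 0) (cs (lf (nat_lit 47) (nat_lit 206)) (rf (nat_lit 14)))))))))))) (cs (nd (nat_lit 294) (nat_lit 0) (cs (rf (nat_lit 15)) (cs (rf (nat_lit 6)) (nd (nat_lit 275) (nat_lit 0) (cs (lf (nat_lit 6) (nat_lit 272)) (nd (nat_lit 272) (nat_lit 0) (cs (lf (nat_lit 12) (nat_lit 249)) (nd (nat_lit 249) (nat_lit 0) (cs (lf (nat_lit 22) (nat_lit 249)) (nd (nat_lit 297) (nat_lit 0) (cs (lf (nat_lit 5) (nat_lit 272)) (rf (nat_lit 16))))))))))))) (nd (nat_lit 271) (nat_lit 0)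 (cs (lf (nat_lit 13) (nat_lit 249)) (rf (nat_lit 17))))))))))))))))) q105706 (by decide +kernel)
def q105753 : Q := Q.p (nat_lit 0x7800010000040000000000000000000000000000000000000000000000000000) (nat_lit 0xc0000300000e00003b0000000000b0000a0000280000000000000000000000000000000000000000000000) (nat_lit 10)
theorem c105753 : QOK q105753 := cut [q89999] ⟨c89999, trivial⟩ (nd (nat_lit 272) (nat_lit 0) (cs (lf (nat_lit 10) (nat_lit 250)) (rf (nat_lit 0)))) q105753 (by decide +kernel)
def q105772 : Q := Q.p (nat_lit 0x3800000000000000000000000000000000000000000000000000000000000000) (nat_lit 0x780000c40007b800000000000000000000000000000000000000000000000000000000) (nat_lit 6)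
theorem c105772 : QOK q105772 := cut [q79024, q81085, q105190, q105767] ⟨c79024, c81085, c105190, c105767, trivial⟩ (nd (nat_lit 254) (nat_lit 0) (cs (rf (nat_lit 0)) (cs (rf (nat_lit 1)) (cs (rf (nat_lit 2)) (rf (nat_lit 3)))))) q105772 (by decide +kernel)
def q105773 : Q := Q.p (nat_lit 0x3800000000000000000000000000000000000000000000000000000000000000) (nat_lit 0x3f8000c400078000000000000000000000000000000000000000000000000000000000) (nat_lit 5)
theorem c105773 : QOK q105773 := cut [q79009, q79020, q105190] ⟨c79009, c79020, c105190, trivial⟩ (nd (nat_lit 254) (nat_lit 0) (cs (rf (nat_lit 0)) (cs (rf (nat_lit 1)) (rf (nat_lit 2))))) q105773 (by decide +kernel)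
def q105807 : Q := Q.p (nat_lit 0x7000000000000000000000000000000000000000000000000000000000000000) (nat_lit 0x80000e0000fe000180000f60001f80007c0001c00004000000000000000000000000000000000000) (nat_lit 14)
theorem c105807 : QOK q105807 := cut [q102864, q105778, q80393, q80415, q105779, q105785, q99087, q105803, q105806] ⟨c102864, c105778, c80393, c80415, c105779, c105785, c99087, c105803, c105806, trivial⟩ (nd (nat_lit 255) (nat_lit 0) (cs (rf (nat_lit 0)) (cs (nd (nat_lit 275) (nat_lit 0) (cs (rf (nat_lit 1)) (cs (nd (nat_lit 233) (nat_lit 0) (cs (lf (nat_lit 17) (nat_lit 230)) (nd (nat_lit 211) (nat_lit 0) (cs (rf (nat_lit 2)) (cs (rf (nat_lit 3)) (cs (rf (nat_lit 4)) (nd (nat_lit 277) (nat_lit 0) (cs (lf (nat_lit 5) (nat_lit 252)) (nd (nat_lit 276) (nat_lit 0) (cs (lf (nat_lit 41) (nat_lit 210)) (nd (nat_lit 273) (nat_lit 0) (cs (lf (nat_lit 13) (nat_lit 251)) (nd (nat_lit 190) (nat_lit 0) (cs (lf (nat_lit 34) (nat_lit 189)) (nd (nat_lit 230) (nat_lit 0) (cs (lf (nat_lit 23) (nat_lit 229)) (nd (nat_lit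 208) (nat_lit 0) (cs (lf (nat_lit 24) (nat_lit 186)) (nd (nat_lit 210) (nat_lit 0) (cs (lf (nat_lit 47) (nat_lit 188)) (nd (nat_lit 232) (nat_lit 0) (cs (lf (nat_lit 29) (nat_lit 210)) (rf (nat_lit 5)))))))))))))))))))))))) (cs (nd (nat_lit 233) (nat_lit 0) (cs (lf (nat_lit 17) (nat_lit 230)) (nd (nat_lit 274) (nat_lit 0) (cs (lf (nat_lit 11) (nat_lit 251)) (rf (nat_lit 6)))))) (nd (nat_lit 233) (nat_lit 0) (cs (lf (nat_lit 17) (nat_lit 230)) (nd (nat_lit 211) (nat_lit 0) (cs (rf (nat_lit 2)) (cs (rf (nat_lit 3)) (cs (rf (nat_lit 4)) (nd (nat_lit 277) (nat_lit 0) (cs (lf (nat_lit 5) (nat_lit 252)) (nd (nat_lit 276) (nat_lit 0) (cs (lf (nat_lit 41) (nat_lit 210)) (nd (nat_lit 190) (nat_lit 0) (cs (lf (nat_lit 34) (nat_lit 189)) (nd (nat_lit 210) (nat_lit 0) (cs (lf (nat_lit 47) (nat_lit 188)) (nd (nat_lit 232) (nat_lit 0) (cs (lf (nat_lit 29) (nat_lit 210)) (lf (nat_lit 41) (nat_lit 209)))))))))))))))))))))) (cs (rf (nat_lit 7)) (rf (nat_lit 8)))))) q105807 (by decide +kernel)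
def q105825 : Q := Q.p (nat_lit 0x7000000000000000000000000000000000000000000000000000000000000000) (nat_lit 0x7f80008c00003800000000000000000000000000000000000000000000000000000000) (nat_lit 5)
theorem c105825 : QOK q105825 := cut [q79024, q79201, q79231] ⟨c79024, c79201, c79231, trivial⟩ (nd (nat_lit 251) (nat_lit 0) (cs (rf (nat_lit 0)) (cs (rf (nat_lit 1)) (rf (nat_lit 2))))) q105825 (by decide +kernel)
def q105828 : Q := Q.p (nat_lit 0x7800000000000000000000000000000000000000000000000000000000000000) (nat_lit 0x7300008000007000000000000000000000000000000000000000000000000000000000) (nat_lit 5)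
theorem c105828 : QOK q105828 := cut [q105827] ⟨c105827, trivial⟩ (nd (nat_lit 272) (nat_lit 0) (cs (lf (nat_lit 10) (nat_lit 250)) (rf (nat_lit 0)))) q105828 (by decide +kernel)
def q105830 : Q := Q.p (nat_lit 0x7800000000000000000000000000000000000000000000000000000000000000) (nat_lit 0x7300008000070000000000000000000000000000000000000000000000000000000000) (nat_lit 5)
theorem c105830 : QOK q105830 := cut [q105829] ⟨c105829, trivial⟩ (nd (nat_lit 272) (nat_lit 0) (cs (lf (nat_lit 10) (nat_lit 250)) (rf (nat_lit 0)))) q105830 (by decide +kernel)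
def q105850 : Q := Q.p (nat_lit 0x3800000000000000000000000000000000000000000000000000000000000000) (nat_lit 0x7b8000c400078000000000000000000000000000000000000000000000000000000000) (nat_lit 5)
theorem c105850 : QOK q105850 := cut [q79009, q80688, q105829] ⟨c79009, c80688, c105829, trivial⟩ (nd (nat_lit 254) (nat_lit 0) (cs (rf (nat_lit 0)) (cs (rf (nat_lit 1)) (rf (nat_lit 2))))) q105850 (by decide +kernel)
def q105851 : Q := Q.p (nat_lit 0x3800000000000000000000000000000000000000000000000000000000000000) (nat_lit 0x80000280003be000c70000fc00010000040000000000000000000000000000000000000000000000) (nat_lit 11)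
theorem c105851 : QOK q105851 := cut [q2065, q90242, q93527, q93535] ⟨c2065, c90242, c93527, c93535, trivial⟩ (nd (nat_lit 250) (nat_lit 0) (cs (rf (nat_lit 0)) (cs (rf (nat_lit 1)) (cs (rf (nat_lit 2)) (rf (nat_lit 3)))))) q105851 (by decide +kernel)
def q105852 : Q := Q.p (nat_lit 0x3800000000000000000000000000000000000000000000000000000000000000) (nat_lit 0x7b8000c400073800000000000000000000000000000000000000000000000000000000) (nat_lit 6)
theorem c105852 : QOK q105852 := cut [q79009, q79201, q105767] ⟨c79009, c79201, c105767, trivial⟩ (nd (nat_lit 254) (nat_lit 0) (cs (rf (nat_lit 0)) (cs (rf (nat_lit 1)) (rf (nat_lit 2))))) q105852 (by decide +kernel)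
def q105860 : Q := Q.p (nat_lit 0x7800008000000000000000000000000000000000000000000000000000000000) (nat_lit 0x400003300000000030000020000080000000000000000000000000000000000000000000000) (nat_lit 5)
theorem c105860 : QOK q105860 := cut [q79183] ⟨c79183, trivial⟩ (nd (nat_lit 232) (nat_lit 0) (cs (lf (nat_lit 17) (nat_lit 229)) (rf (nat_lit 0)))) q105860 (by decide +kernel)
def q105871 : Q := Q.p (nat_lit 0x3800000000000000000000000000000000000000000000000000000000000000) (nat_lit 0x200000800077c000c780003f00004000010000000000000000000000000000000000000000000000) (nat_lit 9)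
theorem c105871 : QOK q105871 := cut [q91191, q92699, q103009, q14767, q4119, q14896] ⟨c91191, c92699, c103009, c14767, c4119, c14896, trivial⟩ (nd (nat_lit 228) (nat_lit 0) (cs (rf (nat_lit 0)) (cs (rf (nat_lit 1)) (cs (nd (nat_lit 254) (nat_lit 0) (cs (lf (nat_lit 22) (nat_lit 228)) (rf (nat_lit 2)))) (nd (nat_lit 250) (nat_lit 0) (cs (lf (nat_lit 23) (nat_lit 227)) (nd (nat_lit 273) (nat_lit 0) (cs (rf (nat_lit 3)) (cs (nd (nat_lit 271) (nat_lit 0) (cs (lf (nat_lit 10) (nat_lit 249)) (nd (nat_lit 249) (nat_lit 0) (cs (lf (nat_lit 11) (nat_lit 248)) (nd (nat_lit 248) (nat_lit 0) (cs (lf (nat_lit 5) (nat_lit 248)) (nd (nat_lit 247) (nat_lit 0) (cs (rf (nat_lit 4)) (lf (nat_lit 17) (nat_lit 225)))))))))) (nd (nat_lit 272) (nat_lit 0) (cs (lf (nat_lit 11) (nat_lit 249)) (rf (nat_lit 5))))))))))))) q105871 (by decide +kernel)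
def q105875 : Q := Q.p (nat_lit 0x300000c000020000000000000000000000000000000000000000000000000000) (nat_lit 0x100000c0000030000000001c0000700000000000000000000000000000000000000000) (nat_lit 6)
theorem c105875 : QOK q105875 := cut [q92802] ⟨c92802, trivial⟩ (nd (nat_lit 187) (nat_lit 0) (cs (lf (nat_lit 36) (nat_lit 164)) (nd (nat_lit 164) (nat_lit 0) (cs (lf (nat_lit 46) (nat_lit 164)) (rf (nat_lit 0)))))) q105875 (by decide +kernel)
def q105893 : Q := Q.p (nat_lit 0x40000300000c000000000000000000000000000000000000000000000000000000000) (nat_lit 0x8000038000c00000380003e0001f8000780001000000000000000000000000000000000000) (nat_lit 10)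
theorem c105893 : QOK q105893 := cut [q85040, q86677, q92926] ⟨c85040, c86677, c92926, trivial⟩ (nd (nat_lit 208) (nat_lit 0) (cs (rf (nat_lit 0)) (cs (rf (nat_lit 1)) (rf (nat_lit 2))))) q105893 (by decide +kernel)
def q105902 : Q := Q.p (nat_lit 0x300000e000000000000000000000000000000000000000000000000000000000) (nat_lit 0x100000c0000700001fc0003f0000fc0000000000000000000000000000000000000000) (nat_lit 12)
theorem c105902 : QOK q105902 := cut [q84425, q105873, q105901] ⟨c84425, c105873, c105901, trivial⟩ (nd (nat_lit 232) (nat_lit 0) (cs (rf (nat_lit 0)) (cs (rf (nat_lit 1)) (rf (nat_lit 2))))) q105902 (by decide +kernel)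
def q105905 : Q := Q.p (nat_lit 0x300000e000000000000000000000000000000000000000000000000000000000) (nat_lit 0x10000060001180006e0000a0000280000000000000000000000000000000000000000) (nat_lit 8)
theorem c105905 : QOK q105905 := cut [q84908] ⟨c84908, trivial⟩ (nd (nat_lit 228) (nat_lit 0) (cs (lf (nat_lit 0) (nat_lit 227)) (nd (nat_lit 209) (nat_lit 0) (cs (lf (nat_lit 17) (nat_lit 206)) (nd (nat_lit 165) (nat_lit 0) (cs (lf (nat_lit 37) (nat_lit 164)) (rf (nat_lit 0)))))))) q105905 (by decide +kernel)
def q105914 : Q := Q.p (nat_lit 0x300000c000000000000000000000000000000000000000000000000000000000) (nat_lit 0xe00003800007800000000038001fe0007f8000380000000000000000000000000000000000000000) (nat_lit 13)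
theorem c105914 : QOK q105914 := cut [q79097, q105883, q85040, q86677, q93761] ⟨c79097, c105883, c85040, c86677, c93761, trivial⟩ (nd (nat_lit 274) (nat_lit 0) (cs (rf (nat_lit 0)) (cs (rf (nat_lit 1)) (nd (nat_lit 208) (nat_lit 0) (cs (rf (nat_lit 2)) (cs (rf (nat_lit 3)) (rf (nat_lit 4)))))))) q105914 (by decide +kernel)
def q105939 : Q := Q.p (nat_lit 0x700000c000000000000000000000000000000000000000000000000000000000) (nat_lit 0x100000480003380000e000038000300000c0000000000000000000000000000000000000000000000) (nat_lit 8)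
theorem c105939 : QOK q105939 := cut [q101387, q105927, q94086] ⟨c101387, c105927, c94086, trivial⟩ (nd (nat_lit 251) (nat_lit 0) (cs (rf (nat_lit 0)) (cs (rf (nat_lit 1)) (nd (nat_lit 276) (nat_lit 0) (cs (lf (nat_lit 5) (nat_lit 251)) (nd (nat_lit 298) (nat_lit 0) (cs (lf (nat_lit 42) (nat_lit 231)) (nd (nat_lit 187) (nat_lit 0) (cs (lf (nat_lit 25) (nat_lit 187)) (rf (nat_lit 2))))))))))) q105939 (by decide +kernel)
def q105990 : Q := Q.p (nat_lit 0x7000018000020000000000000000000000000000000000000000000000000000) (nat_lit 0xc0000f600038000006000040000100000000000000000000000000000000000000000000000) (nat_lit 7)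
theorem c105990 : QOK q105990 := cut [q79626, q82257, q105987] ⟨c79626, c82257, c105987, trivial⟩ (nd (nat_lit 255) (nat_lit 0) (cs (rf (nat_lit 0)) (cs (nd (nat_lit 276) (nat_lit 0) (cs (lf (nat_lit 42) (nat_lit 209)) (nd (nat_lit 256) (nat_lit 0) (cs (lf (nat_lit 18) (nat_lit 231)) (rf (nat_lit 1)))))) (nd (nat_lit 273) (nat_lit 0) (cs (lf (nat_lit 10) (nat_lit 251)) (nd (nat_lit 229) (nat_lit 0) (cs (lf (nat_lit 1) (nat_lit 229)) (rf (nat_lit 2))))))))) q105990 (by decide +kernel)
def q105996 : Q := Q.p (nat_lit 0x3000018000020000000000000000000000000000000000000000000000000000) (nat_lit 0x10000360001c0000660001dc000300000c00000000000000000000000000000000000000000) (nat_lit 9)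
theorem c105996 : QOK q105996 := cut [q22241, q94813, q94816, q105994] ⟨c22241, c94813, c94816, c105994, trivial⟩ (nd (nat_lit 233) (nat_lit 0) (cs (lf (nat_lit 6) (nat_lit 230)) (nd (nat_lit 230) (nat_lit 0) (cs (rf (nat_lit 0)) (cs (rf (nat_lit 1)) (cs (rf (nat_lit 2)) (rf (nat_lit 3)))))))) q105996 (by decide +kernel)
def q106003 : Q := Q.p (nat_lit 0x7000018000020000000000000000000000000000000000000000000000000000) (nat_lit 0xc0000f0000008000040003c0000300000400000000000000000000000000000000000000000) (nat_lit 8)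
theorem c106003 : QOK q106003 := cut [q79608] ⟨c79608, trivial⟩ (nd (nat_lit 276) (nat_lit 0) (cs (lf (nat_lit 42) (nat_lit 209)) (nd (nat_lit 277) (nat_lit 0) (cs (lf (nat_lit 0) (nat_lit 251)) (nd (nat_lit 210) (nat_lit 0) (cs (lf (nat_lit 29) (nat_lit 210)) (nd (nat_lit 166) (nat_lit 0) (cs (lf (nat_lit 37) (nat_lit 165)) (rf (nat_lit 0)))))))))) q106003 (by decide +kernel)
def q106027 : Q := Q.p (nat_lit 0x3800008000000000000000000000000000000000000000000000000000000000) (nat_lit 0x8000738001c600007c00004000010000000000000000000000000000000000000000000000) (nat_lit 8)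
theorem c106027 : QOK q106027 := cut [q85579, q85582, q92699, q96298] ⟨c85579, c85582, c92699, c96298, trivial⟩ (nd (nat_lit 228) (nat_lit 0) (cs (rf (nat_lit 0)) (cs (rf (nat_lit 1)) (cs (rf (nat_lit 2)) (nd (nat_lit 254) (nat_lit 0) (cs (lf (nat_lit 22) (nat_lit 228)) (nd (nat_lit 272) (nat_lit 0) (cs (lf (nat_lit 10) (nat_lit 250)) (nd (nat_lit 250) (nat_lit 0) (cs (lf (nat_lit 11) (nat_lit 249)) (nd (nat_lit 230) (nat_lit 0) (cs (lf (nat_lit 12) (nat_lit 227)) (rf (nat_lit 3)))))))))))))) q106027 (by decide +kernel)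
def q106076 : Q := Q.p (nat_lit 0x7800006000000000000000000000000000000000000000000000000000000000) (nat_lit 0x6000018000370000000000000000c0000300000c0000000000000000000000000000000000000000) (nat_lit 8)
theorem c106076 : QOK q106076 := cut [q87151] ⟨c87151, trivial⟩ (nd (nat_lit 273) (nat_lit 0) (cs (lf (nat_lit 11) (nat_lit 250)) (nd (nat_lit 276) (nat_lit 0) (cs (lf (nat_lit 5) (nat_lit 251)) (rf (nat_lit 0)))))) q106076 (by decide +kernel)
def q106107 : Q := Q.p (nat_lit 0x3000004000010000000000000000000000000000000000000000000000000000) (nat_lit 0x60000080000a00000c0003e0000380000000000000000000000000000000000000000) (nat_lit 6)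
theorem c106107 : QOK q106107 := cut [q29, q32241] ⟨c29, c32241, trivial⟩ (nd (nat_lit 186) (nat_lit 0) (cs (rf (nat_lit 0)) (rf (nat_lit 1)))) q106107 (by decide +kernel)
def q106133 : Q := Q.p (nat_lit 0xf000004000000000000000000000000000000000000000000000000000000000) (nat_lit 0x1000010800078000180000200000800000000000000000000000000000000000000000) (nat_lit 6)
theorem c106133 : QOK q106133 := cut [q103604] ⟨c103604, trivial⟩ (nd (nat_lit 233) (nat_lit 0) (cs (lf (nat_lit 17) (nat_lit 230)) (nd (nat_lit 232) (nat_lit 0) (cs (lf (nat_lit 12) (nat_lit 229)) (rf (nat_lit 0)))))) q106133 (by decide +kernel)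
def q106151 : Q := Q.p (nat_lit 0x7000014000000000000000000000000000000000000000000000000000000000) (nat_lit 0x20000080003700000800023000010000040000000000000000000000000000000000000000000000) (nat_lit 7)
theorem c106151 : QOK q106151 := cut [q97008] ⟨c97008, trivial⟩ (nd (nat_lit 251) (nat_lit 0) (cs (lf (nat_lit 17) (nat_lit 229)) (nd (nat_lit 228) (nat_lit 0) (cs (lf (nat_lit 22) (nat_lit 228)) (nd (nat_lit 276) (nat_lit 0) (cs (lf (nat_lit 5) (nat_lit 251)) (rf (nat_lit 0)))))))) q106151 (by decide +kernel)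
def q106153 : Q := Q.p (nat_lit 0x7000004000000000000000000000000000000000000000000000000000000000) (nat_lit 0x77000188000e8000000000000000000000000000000000000000000000000000000000) (nat_lit 5)
theorem c106153 : QOK q106153 := cut [q79217, q93927] ⟨c79217, c93927, trivial⟩ (nd (nat_lit 255) (nat_lit 0) (cs (rf (nat_lit 0)) (rf (nat_lit 1)))) q106153 (by decide +kernel)
def q106156 : Q := Q.p (nat_lit 0x3000004000010000000000000000000000000000000000000000000000000000) (nat_lit 0x40000000000800000c0003e0000380000a00000000000000000000000000000000000) (nat_lit 6)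
theorem c106156 : QOK q106156 := cut [q25, q441, q32241] ⟨c25, c441, c32241, trivial⟩ (nd (nat_lit 186) (nat_lit 0) (cs (rf (nat_lit 0)) (cs (rf (nat_lit 1)) (rf (nat_lit 2))))) q106156 (by decide +kernel)
def q106163 : Q := Q.p (nat_lit 0x7000014000000000000000000000000000000000000000000000000000000000) (nat_lit 0x80000a00003c0000080000b8000d0000340000000000000000000000000000000000000000000000) (nat_lit 7)
theorem c106163 : QOK q106163 := cut [q79026, q81406, q100796, q106158, q106160] ⟨c79026, c81406, c100796, c106158, c106160, trivial⟩ (nd (nat_lit 229) (nat_lit 0) (cs (rf (nat_lit 0)) (cs (rf (nat_lit 1)) (nd (nat_lit 275) (nat_lit 0) (cs (rf (nat_lit 2)) (cs (rf (nat_lit 3)) (nd (nat_lit 188) (nat_lit 0) (cs (lf (nat_lit 37) (nat_lit 187)) (rf (nat_lit 4)))))))))) q106163 (by decide +kernel)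
def q106169 : Q := Q.p (nat_lit 0x7000004000010000000000000000000000000000000000000000000000000000) (nat_lit 0x80000200000c0000080001b8000e8000780000200000800000000000000000000000000000000000) (nat_lit 8)
theorem c106169 : QOK q106169 := cut [q1140, q1298, q81404, q81406] ⟨c1140, c1298, c81404, c81406, trivial⟩ (nd (nat_lit 275) (nat_lit 0) (cs (rf (nat_lit 0)) (cs (rf (nat_lit 1)) (nd (nat_lit 229) (nat_lit 0) (cs (rf (nat_lit 2)) (rf (nat_lit 3))))))) q106169 (by decide +kernel)
def q106216 : Q := Q.p (nat_lit 0x7000000000000000000000000000000000000000000000000000000000000000) (nat_lit 0x2000008000077000388000fc000140000500000000000000000000000000000000000000000000000) (nat_lit 11)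
theorem c106216 : QOK q106216 := cut [q79217, q81054, q105822, q106213] ⟨c79217, c81054, c105822, c106213, trivial⟩ (nd (nat_lit 255) (nat_lit 0) (cs (rf (nat_lit 0)) (cs (rf (nat_lit 1)) (cs (rf (nat_lit 2)) (nd (nat_lit 277) (nat_lit 0) (cs (lf (nat_lit 5) (nat_lit 252)) (nd (nat_lit 273) (nat_lit 0) (cs (lf (nat_lit 10) (nat_lit 251)) (rf (nat_lit 3)))))))))) q106216 (by decide +kernel)
def q106242 : Q := Q.p (nat_lit 0x1000006000010000000000000000000000000000000000000000000000000000000000) (nat_lit 0xa0000380000e00000800000000008000060000080000000000000000000000000000000000000000000000) (nat_lit 5)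
theorem c106242 : QOK q106242 := cut [q81429, q90151, q105755] ⟨c81429, c90151, c105755, trivial⟩ (nd (nat_lit 298) (nat_lit 0) (cs (rf (nat_lit 0)) (cs (rf (nat_lit 1)) (rf (nat_lit 2))))) q106242 (by decide +kernel)
def q106344 : Q := Q.p (nat_lit 0x1800007000008000020000000000000000000000000000000000000000000000000000) (nat_lit 0x200000000000c000140003d0000340000000000000000000000000000000000000000000000) (nat_lit 7)
theorem c106344 : QOK q106344 := cut [q106342] ⟨c106342, trivial⟩ (nd (nat_lit 250) (nat_lit 0) (cs (lf (nat_lit 1) (nat_lit 250)) (nd (nat_lit 186) (nat_lit 0) (cs (lf (nat_lit 46) (nat_lit 186)) (rf (nat_lit 0)))))) q106344 (by decide +kernel)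
def q106370 : Q := Q.p (nat_lit 0xc00007000018000000000000000000000000000000000000000000000000000000000) (nat_lit 0x40000130000000006400007c0001c0000000000000000000000000000000000000000000000) (nat_lit 8)
theorem c106370 : QOK q106370 := cut [q106366] ⟨c106366, trivial⟩ (nd (nat_lit 209) (nat_lit 0) (cs (lf (nat_lit 36) (nat_lit 186)) (nd (nat_lit 272) (nat_lit 0) (cs (lf (nat_lit 13) (nat_lit 250)) (nd (nat_lit 276) (nat_lit 0) (cs (lf (nat_lit 42) (nat_lit 209)) (nd (nat_lit 188) (nat_lit 0) (cs (lf (nat_lit 34) (nat_lit 187)) (rf (nat_lit 0)))))))))) q106370 (by decide +kernel)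
def q106376 : Q := Q.p (nat_lit 0xe00007000010000000000000000000000000000000000000000000000000000000000) (nat_lit 0xf80003e0000dc0001000000c0000c0000f00003c0000000000000000000000000000000000000000000000) (nat_lit 14)
theorem c106376 : QOK q106376 := cut [q15503, q81693, q81699] ⟨c15503, c81693, c81699, trivial⟩ (nd (nat_lit 209) (nat_lit 0) (cs (rf (nat_lit 0)) (cs (rf (nat_lit 1)) (cs (nd (nat_lit 188) (nat_lit 0) (cs (lf (nat_lit 37) (nat_lit 187)) (rf (nat_lit 2)))) (nd (nat_lit 187) (nat_lit 0) (cs (lf (nat_lit 38) (nat_lit 186)) (nd (nat_lit 210) (nat_lit 0) (cs (lf (nat_lit 42) (nat_lit 187)) (lf (nat_lit 36) (nat_lit 187)))))))))) q106376 (by decide +kernel)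
def q106408 : Q := Q.p (nat_lit 0x40000080000200003800000000000000000000000000000000000000000000000000000000000000) (nat_lit 0x1c000038000700000580000000008000000000000000000000000000000000000000000000000000000000) (nat_lit 7)
theorem c106408 : QOK q106408 := cut [q89856] ⟨c89856, trivial⟩ (nd (nat_lit 317) (nat_lit 0) (cs (lf (nat_lit 29) (nat_lit 251)) (nd (nat_lit 316) (nat_lit 0) (cs (lf (nat_lit 41) (nat_lit 250)) (rf (nat_lit 0)))))) q106408 (by decide +kernel)
def q106409 : Q := Q.p (nat_lit 0x40000080000200001800000000000000000000000000000000000000000000000000000000000000) (nat_lit 0x1800002000010000040000000000300000c000030000000000000000000000000000000000000000000000) (nat_lit 6)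
theorem c106409 : QOK q106409 := cut [q89851] ⟨c89851, trivial⟩ (nd (nat_lit 317) (nat_lit 0) (cs (lf (nat_lit 29) (nat_lit 251)) (rf (nat_lit 0)))) q106409 (by decide +kernel)
def q106412 : Q := Q.p (nat_lit 0x200001800002000000000000000000000000000000000000000000000000000000000) (nat_lit 0x1000006000018000040000000000400001c000070000140000000000000000000000000000000000000000) (nat_lit 7)
theorem c106412 : QOK q106412 := cut [q80583, q80587, q82208] ⟨c80583, c80587, c82208, trivial⟩ (nd (nat_lit 295) (nat_lit 0) (cs (rf (nat_lit 0)) (cs (rf (nat_lit 1)) (rf (nat_lit 2))))) q106412 (by decide +kernel)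
def q106418 : Q := Q.p (nat_lit 0x3800000000000000000000000000000000000000000000000000000000000000) (nat_lit 0x3dc0004600003c00000000000000000000000000000000000000000000000000000000) (nat_lit 6)
theorem c106418 : QOK q106418 := cut [q2065, q3764, q3765, q106417] ⟨c2065, c3764, c3765, c106417, trivial⟩ (nd (nat_lit 250) (nat_lit 0) (cs (rf (nat_lit 0)) (cs (rf (nat_lit 1)) (cs (rf (nat_lit 2)) (rf (nat_lit 3)))))) q106418 (by decide +kernel)
def q106420 : Q := Q.p (nat_lit 0x3c00000000000000000000000000000000000000000000000000000000000000) (nat_lit 0x1c0000030000ee00000000000000000000000000000000000000000000000000000000) (nat_lit 6)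
theorem c106420 : QOK q106420 := cut [q85538] ⟨c85538, trivial⟩ (nd (nat_lit 275) (nat_lit 0) (cs (lf (nat_lit 5) (nat_lit 250)) (nd (nat_lit 249) (nat_lit 0) (cs (lf (nat_lit 4) (nat_lit 249)) (rf (nat_lit 0)))))) q106420 (by decide +kernel)
def q106442 : Q := Q.p (nat_lit 0x400003800002000000000000000000000000000000000000000000000000000000000) (nat_lit 0x40000100000e80003a0000c40000c00003c0000f0000100000400000000000000000000000000000000000) (nat_lit 10)
theorem c106442 : QOK q106442 := cut [q106427, q1832, q106433, q106438, q12652] ⟨c106427, c1832, c106433, c106438, c12652, trivial⟩ (nd (nat_lit 276) (nat_lit 0) (cs (nd (nat_lit 275) (nat_lit 0) (cs (lf (nat_lit 0) (nat_lit 250)) (lf (nat_lit 18) (nat_lit 251)))) (cs (nd (nat_lit 185) (nat_lit 0) (cs (lf (nat_lit 25) (nat_lit 185)) (nd (nat_lit 254) (nat_lit 0) (cs (lf (nat_lit 5) (nat_lit 251)) (rf (nat_lit 0)))))) (nd (nat_lit 208) (nat_lit 0) (cs (nd (nat_lit 207) (nat_lit 0) (cs (rf (nat_lit 1)) (lf (nat_lit 24) (nat_lit 185)))) (cs (nd (nat_lit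 275) (nat_lit 0) (cs (lf (nat_lit 0) (nat_lit 250)) (rf (nat_lit 2)))) (cs (nd (nat_lit 275) (nat_lit 0) (cs (lf (nat_lit 0) (nat_lit 250)) (rf (nat_lit 3)))) (nd (nat_lit 275) (nat_lit 0) (cs (lf (nat_lit 0) (nat_lit 250)) (rf (nat_lit 4))))))))))) q106442 (by decide +kernel)
def q106500 : Q := Q.p (nat_lit 0x800003800007000000000000000000000000000000000000000000000000000000000) (nat_lit 0x1f00007e000060000060000800006f0000f00003c0000000000000000000000000000000000000000) (nat_lit 11)
theorem c106500 : QOK q106500 := cut [q106462, q106487, q106493, q58606] ⟨c106462, c106487, c106493, c58606, trivial⟩ (nd (nat_lit 296) (nat_lit 0) (cs (rf (nat_lit 0)) (cs (rf (nat_lit 1)) (cs (nd (nat_lit 297) (nat_lit 0) (cs (lf (nat_lit 42) (nat_lit 230)) (rf (nat_lit 2)))) (nd (nat_lit 274) (nat_lit 0) (cs (lf (nat_lit 42) (nat_lit 229)) (nd (nat_lit 209) (nat_lit 0) (cs (lf (nat_lit 37) (nat_lit 208)) (nd (nat_lit 249) (nat_lit 0) (cs (lf (nat_lit 1) (nat_lit 249)) (nd (nat_lit 295) (nat_lit 0) (cs (lf (nat_lit 41)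 (nat_lit 229)) (nd (nat_lit 294) (nat_lit 0) (cs (lf (nat_lit 12) (nat_lit 271)) (rf (nat_lit 3)))))))))))))))) q106500 (by decide +kernel)
def q106502 : Q := Q.p (nat_lit 0x800003800007000000000000000000000000000000000000000000000000000000000) (nat_lit 0x10000060000000000800007f0000f00001c0000100000000000000000000000000000000000) (nat_lit 7)
theorem c106502 : QOK q106502 := cut [q80450, q106492, q106501] ⟨c80450, c106492, c106501, trivial⟩ (nd (nat_lit 207) (nat_lit 0) (cs (rf (nat_lit 0)) (cs (rf (nat_lit 1)) (rf (nat_lit 2))))) q106502 (by decide +kernel)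
def q106526 : Q := Q.p (nat_lit 0x200000800003800004000000000000000000000000000000000000000000000000000000000) (nat_lit 0x60000380005e00007c0000600003c0000c000010000000000000000000000000000000000000000000000) (nat_lit 10)
theorem c106526 : QOK q106526 := cut [q2065, q2090, q3763, q14768, q106516] ⟨c2065, c2090, c3763, c14768, c106516, trivial⟩ (nd (nat_lit 250) (nat_lit 0) (cs (rf (nat_lit 0)) (cs (rf (nat_lit 1)) (cs (rf (nat_lit 2)) (nd (nat_lit 273) (nat_lit 0) (cs (rf (nat_lit 3)) (cs (rf (nat_lit 4)) (nd (nat_lit 272) (nat_lit 0) (cs (lf (nat_lit 11) (nat_lit 249)) (nd (nat_lit 227) (nat_lit 0) (cs (lf (nat_lit 22) (nat_lit 227)) (nd (nat_lit 274) (nat_lit 0) (cs (lf (nat_lit 5) (nat_lit 272)) (nd (nat_lit 294) (nat_lit 0) (cs (lf (nat_lit 11) (nat_lit 271)) (nd (nat_lit 295) (nat_lit 0) (cs (lf (nat_lit 30) (nat_lit 229)) (nd (nat_lit 316) (nat_lit 0) (cs (lf (nat_lit 30) (nat_lit 250)) (nd (nat_lit 315) (nat_lit 0) (cs (lf (nat_lit 41) (nat_lit 249)) (lf (nat_lit 7) (nat_lit 293)))))))))))))))))))))))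 q106526 (by decide +kernel)
def q106548 : Q := Q.p (nat_lit 0x3800000000000000000000000000000000000000000000000000000000000000) (nat_lit 0x100000fc000470000fc00008000020000000000000000000000000000000000000000000000) (nat_lit 8)
theorem c106548 : QOK q106548 := cut [q2065, q88839, q87431] ⟨c2065, c88839, c87431, trivial⟩ (nd (nat_lit 250) (nat_lit 0) (cs (rf (nat_lit 0)) (cs (rf (nat_lit 1)) (cs (nd (nat_lit 271) (nat_lit 0) (cs (lf (nat_lit 10) (nat_lit 249)) (nd (nat_lit 249) (nat_lit 0) (cs (lf (nat_lit 11) (nat_lit 248)) (nd (nat_lit 230) (nat_lit 0) (cs (lf (nat_lit 17) (nat_lit 227)) (rf (nat_lit 2)))))))) (nd (nat_lit 227) (nat_lit 0) (cs (lf (nat_lit 22) (nat_lit 227)) (nd (nat_lit 249) (nat_lit 0) (cs (lf (nat_lit 23) (nat_lit 226)) (nd (nat_lit 230) (nat_lit 0) (cs (lf (nat_lit 17) (nat_lit 227)) (nd (nat_lit 274) (nat_lit 0) (cs (lf (nat_lit 5) (nat_lit 249)) (nd (nat_lit 248) (nat_lit 0) (cs (lf (nat_lit 16) (nat_lit 226)) (lf (nat_lit 4) (nat_lit 248)))))))))))))))) q106548 (by decide +kernel)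
def q106549 : Q := Q.p (nat_lit 0x3800000000000000000000000000000000000000000000000000000000000000) (nat_lit 0x3fc000c70000f000000000000000000000000000000000000000000000000000000000) (nat_lit 7)
theorem c106549 : QOK q106549 := cut [q3764, q85549, q90242, q95569] ⟨c3764, c85549, c90242, c95569, trivial⟩ (nd (nat_lit 250) (nat_lit 0) (cs (rf (nat_lit 0)) (cs (rf (nat_lit 1)) (cs (rf (nat_lit 2)) (rf (nat_lit 3)))))) q106549 (by decide +kernel)
def q106559 : Q := Q.p (nat_lit 0x1000007000010000040000000000000000000000000000000000000000000000000000) (nat_lit 0x700006c000000000680000b80002c0000000000000000000000000000000000000000000000) (nat_lit 9)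
theorem c106559 : QOK q106559 := cut [q86795] ⟨c86795, trivial⟩ (nd (nat_lit 275) (nat_lit 0) (cs (lf (nat_lit 41) (nat_lit 209)) (nd (nat_lit 277) (nat_lit 0) (cs (lf (nat_lit 18) (nat_lit 252)) (nd (nat_lit 189) (nat_lit 0) (cs (lf (nat_lit 34) (nat_lit 188)) (nd (nat_lit 209) (nat_lit 0) (cs (lf (nat_lit 47) (nat_lit 187)) (nd (nat_lit 231) (nat_lit 0) (cs (lf (nat_lit 29) (nat_lit 209)) (rf (nat_lit 0)))))))))))) q106559 (by decide +kernel)
def q106618 : Q := Q.p (nat_lit 0x7000000000000000000000000000000000000000000000000000000000000000) (nat_lit 0x3800008c0007f800000000000000000000000000000000000000000000000000000000) (nat_lit 5)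
theorem c106618 : QOK q106618 := cut [q79024, q79260, q105190] ⟨c79024, c79260, c105190, trivial⟩ (nd (nat_lit 251) (nat_lit 0) (cs (rf (nat_lit 0)) (cs (rf (nat_lit 1)) (rf (nat_lit 2))))) q106618 (by decide +kernel)
def q106627 : Q := Q.p (nat_lit 0x3800000000000000000000000000000000000000000000000000000000000000) (nat_lit 0x3c000460003dc00000000000000000000000000000000000000000000000000000000) (nat_lit 5)
theorem c106627 : QOK q106627 := cut [q2065, q12247, q89927] ⟨c2065, c12247, c89927, trivial⟩ (nd (nat_lit 250) (nat_lit 0) (cs (rf (nat_lit 0)) (cs (rf (nat_lit 1)) (rf (nat_lit 2))))) q106627 (by decide +kernel)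
def q106628 : Q := Q.p (nat_lit 0x3800000000000000000000000000000000000000000000000000000000000000) (nat_lit 0xfe000c780007e00000000000000000000000000000000000000000000000000000000) (nat_lit 8)
theorem c106628 : QOK q106628 := cut [q2065, q40738, q40773, q82253, q82256, q88839] ⟨c2065, c40738, c40773, c82253, c82256, c88839, trivial⟩ (nd (nat_lit 250) (nat_lit 0) (cs (rf (nat_lit 0)) (cs (rf (nat_lit 1)) (cs (rf (nat_lit 2)) (cs (rf (nat_lit 3)) (cs (rf (nat_lit 4)) (rf (nat_lit 5)))))))) q106628 (by decide +kernel)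
def q106656 : Q := Q.p (nat_lit 0x20000380001c000000000000000000000000000000000000000000000000000000000) (nat_lit 0x700001c0000c0000c0000020001e00001c0000700000000000000000000000000000000000000000) (nat_lit 9)
theorem c106656 : QOK q106656 := cut [q87084, q92717, q106653] ⟨c87084, c92717, c106653, trivial⟩ (nd (nat_lit 296) (nat_lit 0) (cs (rf (nat_lit 0)) (cs (nd (nat_lit 295) (nat_lit 0) (cs (lf (nat_lit 30) (nat_lit 229)) (nd (nat_lit 229) (nat_lit 0) (cs (lf (nat_lit 29) (nat_lit 229)) (nd (nat_lit 294) (nat_lit 0) (cs (lf (nat_lit 41) (nat_lit 228)) (rf (nat_lit 1)))))))) (nd (nat_lit 295) (nat_lit 0) (cs (lf (nat_lit 30) (nat_lit 229)) (nd (nat_lit 209) (nat_lit 0) (cs (lf (nat_lit 31) (nat_lit 208)) (rf (nat_lit 2))))))))) q106656 (by decide +kernel)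
def q106669 : Q := Q.p (nat_lit 0x300000c000030000000000000000000000000000000000000000000000000000) (nat_lit 0x380000f800000000020001c8000120000000000000000000000000000000000000000000000) (nat_lit 8)
theorem c106669 : QOK q106669 := cut [q22242] ⟨c22242, trivial⟩ (nd (nat_lit 275) (nat_lit 0) (cs (lf (nat_lit 42) (nat_lit 208)) (nd (nat_lit 274) (nat_lit 0) (cs (lf (nat_lit 41) (nat_lit 208)) (nd (nat_lit 185) (nat_lit 0) (cs (lf (nat_lit 46) (nat_lit 185)) (nd (nat_lit 273) (nat_lit 0) (cs (lf (nat_lit 41) (nat_lit 207)) (rf (nat_lit 0)))))))))) q106669 (by decide +kernel)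
def q106671 : Q := Q.p (nat_lit 0x380000c000030000000000000000000000000000000000000000000000000000) (nat_lit 0x2000008000000000320001c0000100000000000000000000000000000000000000000000000) (nat_lit 5)
theorem c106671 : QOK q106671 := cut [q106670] ⟨c106670, trivial⟩ (nd (nat_lit 232) (nat_lit 0) (cs (lf (nat_lit 6) (nat_lit 229)) (rf (nat_lit 0)))) q106671 (by decide +kernel)
def q106680 : Q := Q.p (nat_lit 0x400003c00008000020000000000000000000000000000000000000000000000000000) (nat_lit 0x1000004000038000000000780005e000030000040000000000000000000000000000000000000000) (nat_lit 7)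
theorem c106680 : QOK q106680 := cut [q82364, q87918, q82358] ⟨c82364, c87918, c82358, trivial⟩ (nd (nat_lit 229) (nat_lit 0) (cs (rf (nat_lit 0)) (cs (rf (nat_lit 1)) (cs (nd (nat_lit 228) (nat_lit 0) (cs (lf (nat_lit 23) (nat_lit 227)) (nd (nat_lit 271) (nat_lit 0) (cs (lf (nat_lit 10) (nat_lit 249)) (rf (nat_lit 2)))))) (nd (nat_lit 228) (nat_lit 0) (cs (lf (nat_lit 23) (nat_lit 227)) (nd (nat_lit 185) (nat_lit 0) (cs (lf (nat_lit 25) (nat_lit 185)) (rf (nat_lit 2)))))))))) q106680 (by decide +kernel)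
def q106692 : Q := Q.p (nat_lit 0x2000008000020000000000000000000000000000000000000000000000000000) (nat_lit 0x4000018000040000100000400001c0000700001400000000000000000000000000000000000) (nat_lit 6)
theorem c106692 : QOK q106692 := cut [q80750, q88750, q88774, q92815] ⟨c80750, c88750, c88774, c92815, trivial⟩ (nd (nat_lit 187) (nat_lit 0) (cs (rf (nat_lit 0)) (cs (rf (nat_lit 1)) (cs (rf (nat_lit 2)) (rf (nat_lit 3)))))) q106692 (by decide +kernel)
def q106730 : Q := Q.p (nat_lit 0x40000380001a000000000000000000000000000000000000000000000000000000000) (nat_lit 0x4000030000400000400002c0000b0000000000000000000000000000000000000000000000) (nat_lit 6)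
theorem c106730 : QOK q106730 := cut [q88879] ⟨c88879, trivial⟩ (nd (nat_lit 187) (nat_lit 0) (cs (lf (nat_lit 37) (nat_lit 186)) (rf (nat_lit 0)))) q106730 (by decide +kernel)
def q106738 : Q := Q.p (nat_lit 0x400003800008000000000000000000000000000000000000000000000000000000000) (nat_lit 0x680003a0000000000600003e0000f8000000000000000000000000000000000000000000000) (nat_lit 9)
theorem c106738 : QOK q106738 := cut [q21982, q105177] ⟨c21982, c105177, trivial⟩ (nd (nat_lit 209) (nat_lit 0) (cs (lf (nat_lit 36) (nat_lit 186)) (nd (nat_lit 275) (nat_lit 0) (cs (rf (nat_lit 0)) (rf (nat_lit 1)))))) q106738 (by decide +kernel)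
def q106743 : Q := Q.p (nat_lit 0x800003800008000000000000000000000000000000000000000000000000000000000) (nat_lit 0x200000000000400070000060000100000400000000000000000000000000000000000000000) (nat_lit 5)
theorem c106743 : QOK q106743 := cut [q26316] ⟨c26316, trivial⟩ (nd (nat_lit 232) (nat_lit 0) (cs (lf (nat_lit 12) (nat_lit 228)) (rf (nat_lit 0)))) q106743 (by decide +kernel)
def q106744 : Q := Q.p (nat_lit 0x800003000008000000000000000000000000000000000000000000000000000000000) (nat_lit 0xc00003000004000000000040000700001c0000500000000000000000000000000000000000000000) (nat_lit 6)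
theorem c106744 : QOK q106744 := cut [q85120, q95562, q97717] ⟨c85120, c95562, c97717, trivial⟩ (nd (nat_lit 296) (nat_lit 0) (cs (rf (nat_lit 0)) (cs (rf (nat_lit 1)) (rf (nat_lit 2))))) q106744 (by decide +kernel)
def q106748 : Q := Q.p (nat_lit 0x3800000000000000000000000000000000000000000000000000000000000000) (nat_lit 0x7f8000c400070000000000000000000000000000000000000000000000000000000000) (nat_lit 5)
theorem c106748 : QOK q106748 := cut [q79009, q79020, q105829] ⟨c79009, c79020, c105829, trivial⟩ (nd (nat_lit 254) (nat_lit 0) (cs (rf (nat_lit 0)) (cs (rf (nat_lit 1)) (rf (nat_lit 2))))) q106748 (by decide +kernel)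
def q106760 : Q := Q.p (nat_lit 0x180000600003800000000000000000000000000000000000000000000000000000000000000) (nat_lit 0x100000700001c0000000002000008000000000000000000000000000000000000000000000000000) (nat_lit 5)
theorem c106760 : QOK q106760 := cut [q94805] ⟨c94805, trivial⟩ (nd (nat_lit 271) (nat_lit 0) (cs (lf (nat_lit 13) (nat_lit 249)) (rf (nat_lit 0)))) q106760 (by decide +kernel)
def q106762 : Q := Q.p (nat_lit 0x180000600003000000000000000000000000000000000000000000000000000000000000000) (nat_lit 0x40000380000e4000380000000000c000030000000000000000000000000000000000000000000000000000) (nat_lit 8)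
theorem c106762 : QOK q106762 := cut [q105667] ⟨c105667, trivial⟩ (nd (nat_lit 230) (nat_lit 0) (cs (lf (nat_lit 36) (nat_lit 207)) (nd (nat_lit 209) (nat_lit 0) (cs (lf (nat_lit 34) (nat_lit 208)) (rf (nat_lit 0)))))) q106762 (by decide +kernel)
def q106767 : Q := Q.p (nat_lit 0x180000600003800000000000000000000000000000000000000000000000000000000000000) (nat_lit 0x300003c0000260000180000000004000010000000000000000000000000000000000000000000000000000) (nat_lit 7)
theorem c106767 : QOK q106767 := cut [q45041] ⟨c45041, trivial⟩ (nd (nat_lit 208) (nat_lit 0) (cs (lf (nat_lit 37) (nat_lit 207)) (nd (nat_lit 271) (nat_lit 0) (cs (lf (nat_lit 13) (nat_lit 249)) (nd (nat_lit 318) (nat_lit 0) (cs (lf (nat_lit 42) (nat_lit 251)) (rf (nat_lit 0)))))))) q106767 (by decide +kernel)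
def q106793 : Q := Q.p (nat_lit 0x80000200007800004000000000000000000000000000000000000000000000000000000000) (nat_lit 0x180000f40003c00000000038000060000100000000000000000000000000000000000000000000000) (nat_lit 8)
theorem c106793 : QOK q106793 := cut [q106785, q106786, q90857] ⟨c106785, c106786, c90857, trivial⟩ (nd (nat_lit 275) (nat_lit 0) (cs (rf (nat_lit 0)) (cs (nd (nat_lit 232) (nat_lit 0) (cs (lf (nat_lit 17) (nat_lit 229)) (nd (nat_lit 188) (nat_lit 0) (cs (lf (nat_lit 37) (nat_lit 187)) (nd (nat_lit 276) (nat_lit 0) (cs (lf (nat_lit 5) (nat_lit 251)) (nd (nat_lit 274) (nat_lit 0) (cs (lf (nat_lit 11) (nat_lit 272)) (rf (nat_lit 1)))))))))) (nd (nat_lit 297) (nat_lit 0) (cs (lf (nat_lit 42) (nat_lit 230)) (nd (nat_lit 276) (nat_lit 0) (cs (lf (nat_lit 5) (nat_lit 251)) (rf (nat_lit 2))))))))) q106793 (by decide +kernel)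
def q106860 : Q := Q.p (nat_lit 0x780000a000008000000000000000000000000000000000000000000000000000) (nat_lit 0x180000600003a000000000340000c4000310000c40000100000000000000000000000000000000000) (nat_lit 11)
theorem c106860 : QOK q106860 := cut [q88781] ⟨c88781, trivial⟩ (nd (nat_lit 276) (nat_lit 0) (cs (lf (nat_lit 5) (nat_lit 251)) (nd (nat_lit 232) (nat_lit 0) (cs (lf (nat_lit 17) (nat_lit 229)) (nd (nat_lit 206) (nat_lit 0) (cs (lf (nat_lit 20) (nat_lit 206)) (nd (nat_lit 184) (nat_lit 0) (cs (lf (nat_lit 42) (nat_lit 184)) (nd (nat_lit 140) (nat_lit 0) (cs (lf (nat_lit 25) (nat_lit 140)) (rf (nat_lit 0)))))))))))) q106860 (by decide +kernel)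
def q106890 : Q := Q.p (nat_lit 0x400003000004000000000000000000000000000000000000000000000000000000000) (nat_lit 0xa0000380000e0000380000800000000008000030000080000000000000000000000000000000000000000000000) (nat_lit 6)
theorem c106890 : QOK q106890 := cut [q81014, q80652, q105737] ⟨c81014, c80652, c105737, trivial⟩ (nd (nat_lit 296) (nat_lit 0) (cs (rf (nat_lit 0)) (cs (nd (nat_lit 297) (nat_lit 0) (cs (lf (nat_lit 29) (nat_lit 230)) (nd (nat_lit 295) (nat_lit 0) (cs (lf (nat_lit 41) (nat_lit 229)) (rf (nat_lit 1)))))) (rf (nat_lit 2))))) q106890 (by decide +kernel)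
def q107031 : Q := Q.p (nat_lit 0x800002000008000000000000000000000000000000000000000000000000000000000) (nat_lit 0x6000010000040000060001f00001c0000500000000000000000000000000000000000000000) (nat_lit 6)
theorem c107031 : QOK q107031 := cut [q98317, q98359, q99649] ⟨c98317, c98359, c99649, trivial⟩ (nd (nat_lit 209) (nat_lit 0) (cs (rf (nat_lit 0)) (cs (rf (nat_lit 1)) (rf (nat_lit 2))))) q107031 (by decide +kernel)
def q107034 : Q := Q.p (nat_lit 0x800002000008000000000000000000000000000000000000000000000000000000000) (nat_lit 0x1000007000014000050000100000700001c0000500000000000000000000000000000000000000000) (nat_lit 7)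
theorem c107034 : QOK q107034 := cut [q98317, q100882, q96655] ⟨c98317, c100882, c96655, trivial⟩ (nd (nat_lit 209) (nat_lit 0) (cs (rf (nat_lit 0)) (cs (rf (nat_lit 1)) (nd (nat_lit 186) (nat_lit 0) (cs (lf (nat_lit 46) (nat_lit 186)) (nd (nat_lit 274) (nat_lit 0) (cs (lf (nat_lit 41) (nat_lit 208)) (rf (nat_lit 2))))))))) q107034 (by decide +kernel)
def q107050 : Q := Q.p (nat_lit 0x800002000008000000000000000000000000000000000000000000000000000000000) (nat_lit 0x3000004000010000060001f00001c0000500000000000000000000000000000000000000000) (nat_lit 6)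
theorem c107050 : QOK q107050 := cut [q1593, q99649, q100882] ⟨c1593, c99649, c100882, trivial⟩ (nd (nat_lit 209) (nat_lit 0) (cs (rf (nat_lit 0)) (cs (rf (nat_lit 1)) (rf (nat_lit 2))))) q107050 (by decide +kernel)
def q107059 : Q := Q.p (nat_lit 0x800002000008000000000000000000000000000000000000000000000000000000000) (nat_lit 0x200001c0000f00001700005c00074000060000100000000000000000000000000000000000000000000000) (nat_lit 11)
theorem c107059 : QOK q107059 := cut [q22016, q32034, q82063, q107056] ⟨c22016, c32034, c82063, c107056, trivial⟩ (nd (nat_lit 297) (nat_lit 0) (cs (rf (nat_lit 0)) (cs (rf (nat_lit 1)) (cs (rf (nat_lit 2)) (nd (nat_lit 298) (nat_lit 0) (cs (lf (nat_lit 29) (nat_lit 231)) (nd (nat_lit 296) (nat_lit 0) (cs (lf (nat_lit 41) (nat_lit 230)) (rf (nat_lit 3)))))))))) q107059 (by decide +kernel)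
def q107221 : Q := Q.p (nat_lit 0xf00000c000000000000000000000000000000000000000000000000000000000) (nat_lit 0x8000060000008000700001d8000300000800000000000000000000000000000000000000000) (nat_lit 8)
theorem c107221 : QOK q107221 := cut [q84484] ⟨c84484, trivial⟩ (nd (nat_lit 233) (nat_lit 0) (cs (lf (nat_lit 17) (nat_lit 230)) (nd (nat_lit 232) (nat_lit 0) (cs (lf (nat_lit 12) (nat_lit 229)) (nd (nat_lit 207) (nat_lit 0) (cs (lf (nat_lit 22) (nat_lit 207)) (nd (nat_lit 211) (nat_lit 0) (cs (lf (nat_lit 17) (nat_lit 208)) (rf (nat_lit 0)))))))))) q107221 (by decide +kernel)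

end Crest.Agent.H3.Snaky.CR
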